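import Vale.Agent.Lib.P154.PChain.BE.L

set_option linter.all false

namespace Vale.Agent.Lib.P154.PChain.BE.S0

open Vale.Agent.Lib.P154.Chain

noncomputable def pc0 : PT := (PT.nd (nat_lit 8406450) (PT.nd (nat_lit 8141016) (PT.nd (nat_lit 8034780) (PT.nd (nat_lit 7981662) (PT.nd (nat_lit 7928622) (PT.nd (nat_lit 7875582) PT.nil (PT.lf (nat_lit 76) (nat_lit 3) (nat_lit 1) (nat_lit 1) (nat_lit 181) (nat_lit 148) (nat_lit 181))) (PT.nd (nat_lit 78) (PT.lf (nat_lit 152) (nat_lit 6) (nat_lit 2) (nat_lit 3) (nat_lit 180) (nat_lit 149) (nat_lit 181)) (PT.lf (nat_lit 152) (nat_lit 6) (nat_lit 2) (nat_lit 1) (nat_lit 181) (nat_lit 149) (nat_lit 180)))) (PT.nd (nat_lit 78) (PT.lf (nat_lit 228) (nat_lit 6) (nat_lit 3) (nat_lit 3) (nat_lit 179) (nat_lit 150) (nat_lit 181)) (PT.nd (nat_lit 78) (PT.lf (nat_lit 304) (nat_lit 3) (nat_lit 4) (nat_lit 1) (nat_lit 180) (nat_lit 150) (nat_lit 180)) (PT.lf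 (nat_lit 228) (nat_lit 6) (nat_lit 3) (nat_lit 1) (nat_lit 181) (nat_lit 150) (nat_lit 179))))) (PT.nd (nat_lit 53118) (PT.nd (nat_lit 78) (PT.lf (nat_lit 380) (nat_lit 6) (nat_lit 5) (nat_lit 3) (nat_lit 179) (nat_lit 151) (nat_lit 180)) (PT.nd (nat_lit 52962) (PT.lf (nat_lit 380) (nat_lit 6) (nat_lit 5) (nat_lit 1) (nat_lit 180) (nat_lit 151) (nat_lit 179)) (PT.lf (nat_lit 456) (nat_lit 6) (nat_lit 6) (nat_lit 3) (nat_lit 178) (nat_lit 152) (nat_lit 180)))) (PT.nd (nat_lit 78) (PT.lf (nat_lit 532) (nat_lit 3) (nat_lit 7) (nat_lit 1) (nat_lit 179) (nat_lit 152) (nat_lit 179)) (PT.nd (nat_lit 52962) (PT.lf (nat_lit 456) (nat_lit 6) (nat_lit 6) (nat_lit 1) (nat_lit 180) (nat_lit 152) (nat_lit 178)) (PT.lf (nat_lit 608) (nat_lit 6) (nat_lit 8) (nat_lit 3) (nat_lit 178) (nat_lit 153) (nat_lit 179)))))) (PT.nd (nat_lit 159120) (PT.nd (nat_lit 53118) (PT.nd (nat_lit 52962) (PT.lf (nat_lit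 608) (nat_lit 6) (nat_lit 8) (nat_lit 1) (nat_lit 179) (nat_lit 153) (nat_lit 178)) (PT.nd (nat_lit 78) (PT.lf (nat_lit 684) (nat_lit 6) (nat_lit 9) (nat_lit 3) (nat_lit 177) (nat_lit 154) (nat_lit 179)) (PT.lf (nat_lit 760) (nat_lit 3) (nat_lit 10) (nat_lit 1) (nat_lit 178) (nat_lit 154) (nat_lit 178)))) (PT.nd (nat_lit 52962) (PT.lf (nat_lit 684) (nat_lit 6) (nat_lit 9) (nat_lit 1) (nat_lit 179) (nat_lit 154) (nat_lit 177)) (PT.nd (nat_lit 78) (PT.lf (nat_lit 836) (nat_lit 6) (nat_lit 11) (nat_lit 3) (nat_lit 177) (nat_lit 155) (nat_lit 178)) (PT.lf (nat_lit 836) (nat_lit 6) (nat_lit 11) (nat_lit 1) (nat_lit 178) (nat_lit 155) (nat_lit 177))))) (PT.nd (nat_lit 53118) (PT.nd (nat_lit 78) (PT.lf (nat_lit 912) (nat_lit 6) (nat_lit 12) (nat_lit 3) (nat_lit 176) (nat_lit 156) (nat_lit 178)) (PT.nd (nat_lit 78) (PT.lf (nat_lit 988) (nat_lit 3) (nat_lit 13) (nat_lit 1) (nat_lit 177) (nat_lit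 156) (nat_lit 177)) (PT.lf (nat_lit 912) (nat_lit 6) (nat_lit 12) (nat_lit 1) (nat_lit 178) (nat_lit 156) (nat_lit 176)))) (PT.nd (nat_lit 53040) (PT.nd (nat_lit 78) (PT.lf (nat_lit 1064) (nat_lit 6) (nat_lit 14) (nat_lit 3) (nat_lit 176) (nat_lit 157) (nat_lit 177)) (PT.lf (nat_lit 1064) (nat_lit 6) (nat_lit 14) (nat_lit 1) (nat_lit 177) (nat_lit 157) (nat_lit 176))) (PT.nd (nat_lit 78) (PT.lf (nat_lit 1140) (nat_lit 6) (nat_lit 15) (nat_lit 3) (nat_lit 175) (nat_lit 158) (nat_lit 177)) (PT.lf (nat_lit 1216) (nat_lit 3) (nat_lit 16) (nat_lit 1) (nat_lit 176) (nat_lit 158) (nat_lit 176))))))) (PT.nd (nat_lit 265278) (PT.nd (nat_lit 159120) (PT.nd (nat_lit 106002) (PT.nd (nat_lit 52962) (PT.lf (nat_lit 1140) (nat_lit 6) (nat_lit 15) (nat_lit 1) (nat_lit 177) (nat_lit 158) (nat_lit 175)) (PT.nd (nat_lit 78) (PT.lf (nat_lit 1292) (nat_lit 6) (nat_lit 17) (nat_lit 3) (nat_lit 175) (nat_lit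 159) (nat_lit 176)) (PT.lf (nat_lit 1292) (nat_lit 6) (nat_lit 17) (nat_lit 1) (nat_lit 176) (nat_lit 159) (nat_lit 175)))) (PT.nd (nat_lit 78) (PT.lf (nat_lit 1368) (nat_lit 6) (nat_lit 18) (nat_lit 3) (nat_lit 174) (nat_lit 160) (nat_lit 176)) (PT.nd (nat_lit 78) (PT.lf (nat_lit 1444) (nat_lit 3) (nat_lit 19) (nat_lit 1) (nat_lit 175) (nat_lit 160) (nat_lit 175)) (PT.lf (nat_lit 1368) (nat_lit 6) (nat_lit 18) (nat_lit 1) (nat_lit 176) (nat_lit 160) (nat_lit 174))))) (PT.nd (nat_lit 53118) (PT.nd (nat_lit 78) (PT.lf (nat_lit 1520) (nat_lit 6) (nat_lit 20) (nat_lit 3) (nat_lit 174) (nat_lit 161) (nat_lit 175)) (PT.nd (nat_lit 52962) (PT.lf (nat_lit 1520) (nat_lit 6) (nat_lit 20) (nat_lit 1) (nat_lit 175) (nat_lit 161) (nat_lit 174)) (PT.lf (nat_lit 1596) (nat_lit 6) (nat_lit 21) (nat_lit 3) (nat_lit 173) (nat_lit 162) (nat_lit 175)))) (PT.nd (nat_lit 78) (PT.lf (nat_lit 1672) (nat_lit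 3) (nat_lit 22) (nat_lit 1) (nat_lit 174) (nat_lit 162) (nat_lit 174)) (PT.nd (nat_lit 52884) (PT.lf (nat_lit 1596) (nat_lit 6) (nat_lit 21) (nat_lit 1) (nat_lit 175) (nat_lit 162) (nat_lit 173)) (PT.lf (nat_lit 1748) (nat_lit 6) (nat_lit 23) (nat_lit 3) (nat_lit 172) (nat_lit 163) (nat_lit 175)))))) (PT.nd (nat_lit 106080) (PT.nd (nat_lit 53040) (PT.nd (nat_lit 78) (PT.lf (nat_lit 1824) (nat_lit 6) (nat_lit 24) (nat_lit 3) (nat_lit 173) (nat_lit 163) (nat_lit 174)) (PT.nd (nat_lit 78) (PT.lf (nat_lit 1824) (nat_lit 6) (nat_lit 24) (nat_lit 1) (nat_lit 174) (nat_lit 163) (nat_lit 173)) (PT.lf (nat_lit 1748) (nat_lit 6) (nat_lit 23) (nat_lit 1) (nat_lit 175) (nat_lit 163) (nat_lit 172)))) (PT.nd (nat_lit 78) (PT.lf (nat_lit 1900) (nat_lit 6) (nat_lit 25) (nat_lit 3) (nat_lit 172) (nat_lit 164) (nat_lit 174)) (PT.nd (nat_lit 78) (PT.lf (nat_lit 1976) (nat_lit 3) (nat_lit 26) (nat_lit 1)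 (nat_lit 173) (nat_lit 164) (nat_lit 173)) (PT.lf (nat_lit 1900) (nat_lit 6) (nat_lit 25) (nat_lit 1) (nat_lit 174) (nat_lit 164) (nat_lit 172))))) (PT.nd (nat_lit 234) (PT.nd (nat_lit 78) (PT.lf (nat_lit 2052) (nat_lit 6) (nat_lit 27) (nat_lit 3) (nat_lit 171) (nat_lit 165) (nat_lit 174)) (PT.nd (nat_lit 78) (PT.lf (nat_lit 2128) (nat_lit 6) (nat_lit 28) (nat_lit 3) (nat_lit 172) (nat_lit 165) (nat_lit 173)) (PT.lf (nat_lit 2128) (nat_lit 6) (nat_lit 28) (nat_lit 1) (nat_lit 173) (nat_lit 165) (nat_lit 172)))) (PT.nd (nat_lit 52884) (PT.nd (nat_lit 52806) (PT.lf (nat_lit 2052) (nat_lit 6) (nat_lit 27) (nat_lit 1) (nat_lit 174) (nat_lit 165) (nat_lit 171)) (PT.lf (nat_lit 2356) (nat_lit 6) (nat_lit 31) (nat_lit 3) (nat_lit 170) (nat_lit 166) (nat_lit 174))) (PT.nd (nat_lit 78) (PT.lf (nat_lit 2432) (nat_lit 6) (nat_lit 32) (nat_lit 3) (nat_lit 171) (nat_lit 166) (nat_lit 173)) (PT.lf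 (nat_lit 2508) (nat_lit 3) (nat_lit 33) (nat_lit 1) (nat_lit 172) (nat_lit 166) (nat_lit 172))))))))
noncomputable def pc1 : PT := (PT.nd (nat_lit 212082) (PT.nd (nat_lit 106158) (PT.nd (nat_lit 53118) (PT.nd (nat_lit 52884) (PT.nd (nat_lit 78) (PT.lf (nat_lit 2432) (nat_lit 6) (nat_lit 32) (nat_lit 1) (nat_lit 173) (nat_lit 166) (nat_lit 171)) (PT.nd (nat_lit 52728) (PT.lf (nat_lit 2356) (nat_lit 6) (nat_lit 31) (nat_lit 1) (nat_lit 174) (nat_lit 166) (nat_lit 170)) (PT.lf (nat_lit 2280) (nat_lit 6) (nat_lit 30) (nat_lit 3) (nat_lit 169) (nat_lit 167) (nat_lit 174)))) (PT.nd (nat_lit 78) (PT.lf (nat_lit 2660) (nat_lit 6) (nat_lit 35) (nat_lit 3) (nat_lit 170) (nat_lit 167) (nat_lit 173)) (PT.nd (nat_lit 78) (PT.lf (nat_lit 2736) (nat_lit 6) (nat_lit 36) (nat_lit 3) (nat_lit 171) (nat_lit 167) (nat_lit 172)) (PT.lf (nat_lit 2736) (nat_lit 6) (nat_lit 36) (nat_lit 1) (nat_lit 172) (nat_lit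 167) (nat_lit 171))))) (PT.nd (nat_lit 52806) (PT.nd (nat_lit 78) (PT.lf (nat_lit 2660) (nat_lit 6) (nat_lit 35) (nat_lit 1) (nat_lit 173) (nat_lit 167) (nat_lit 170)) (PT.nd (nat_lit 52650) (PT.lf (nat_lit 2280) (nat_lit 6) (nat_lit 30) (nat_lit 1) (nat_lit 174) (nat_lit 167) (nat_lit 169)) (PT.lf (nat_lit 2204) (nat_lit 3) (nat_lit 29) (nat_lit 3) (nat_lit 168) (nat_lit 168) (nat_lit 174)))) (PT.nd (nat_lit 78) (PT.lf (nat_lit 2584) (nat_lit 6) (nat_lit 34) (nat_lit 3) (nat_lit 169) (nat_lit 168) (nat_lit 173)) (PT.nd (nat_lit 78) (PT.lf (nat_lit 2888) (nat_lit 6) (nat_lit 38) (nat_lit 3) (nat_lit 170) (nat_lit 168) (nat_lit 172)) (PT.lf (nat_lit 2964) (nat_lit 3) (nat_lit 39) (nat_lit 1) (nat_lit 171) (nat_lit 168) (nat_lit 171)))))) (PT.nd (nat_lit 52962) (PT.nd (nat_lit 52728) (PT.nd (nat_lit 78) (PT.lf (nat_lit 2888) (nat_lit 6) (nat_lit 38) (nat_lit 1) (nat_lit 172) (nat_lit 168)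 (nat_lit 170)) (PT.nd (nat_lit 78) (PT.lf (nat_lit 2584) (nat_lit 6) (nat_lit 34) (nat_lit 1) (nat_lit 173) (nat_lit 168) (nat_lit 169)) (PT.lf (nat_lit 2204) (nat_lit 3) (nat_lit 29) (nat_lit 0) (nat_lit 174) (nat_lit 168) (nat_lit 168)))) (PT.nd (nat_lit 78) (PT.lf (nat_lit 2280) (nat_lit 6) (nat_lit 30) (nat_lit 5) (nat_lit 167) (nat_lit 169) (nat_lit 174)) (PT.nd (nat_lit 78) (PT.lf (nat_lit 2584) (nat_lit 6) (nat_lit 34) (nat_lit 5) (nat_lit 168) (nat_lit 169) (nat_lit 173)) (PT.lf (nat_lit 2812) (nat_lit 3) (nat_lit 37) (nat_lit 3) (nat_lit 169) (nat_lit 169) (nat_lit 172))))) (PT.nd (nat_lit 234) (PT.nd (nat_lit 78) (PT.lf (nat_lit 3040) (nat_lit 6) (nat_lit 40) (nat_lit 3) (nat_lit 170) (nat_lit 169) (nat_lit 171)) (PT.nd (nat_lit 78) (PT.lf (nat_lit 3040) (nat_lit 6) (nat_lit 40) (nat_lit 1) (nat_lit 171) (nat_lit 169) (nat_lit 170)) (PT.lf (nat_lit 2812) (nat_lit 3) (nat_lit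 37) (nat_lit 0) (nat_lit 172) (nat_lit 169) (nat_lit 169)))) (PT.nd (nat_lit 52572) (PT.nd (nat_lit 78) (PT.lf (nat_lit 2584) (nat_lit 6) (nat_lit 34) (nat_lit 0) (nat_lit 173) (nat_lit 169) (nat_lit 168)) (PT.lf (nat_lit 2280) (nat_lit 6) (nat_lit 30) (nat_lit 0) (nat_lit 174) (nat_lit 169) (nat_lit 167))) (PT.nd (nat_lit 78) (PT.lf (nat_lit 2356) (nat_lit 6) (nat_lit 31) (nat_lit 5) (nat_lit 166) (nat_lit 170) (nat_lit 174)) (PT.lf (nat_lit 2660) (nat_lit 6) (nat_lit 35) (nat_lit 5) (nat_lit 167) (nat_lit 170) (nat_lit 173))))))) (PT.nd (nat_lit 53352) (PT.nd (nat_lit 468) (PT.nd (nat_lit 234) (PT.nd (nat_lit 78) (PT.lf (nat_lit 2888) (nat_lit 6) (nat_lit 38) (nat_lit 5) (nat_lit 168) (nat_lit 170) (nat_lit 172)) (PT.nd (nat_lit 78) (PT.lf (nat_lit 3040) (nat_lit 6) (nat_lit 40) (nat_lit 5) (nat_lit 169) (nat_lit 170) (nat_lit 171)) (PT.lf (nat_lit 3116) (nat_lit 1) (nat_lit 41) (nat_lit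 0) (nat_lit 170) (nat_lit 170) (nat_lit 170)))) (PT.nd (nat_lit 78) (PT.lf (nat_lit 3040) (nat_lit 6) (nat_lit 40) (nat_lit 0) (nat_lit 171) (nat_lit 170) (nat_lit 169)) (PT.nd (nat_lit 78) (PT.lf (nat_lit 2888) (nat_lit 6) (nat_lit 38) (nat_lit 0) (nat_lit 172) (nat_lit 170) (nat_lit 168)) (PT.lf (nat_lit 2660) (nat_lit 6) (nat_lit 35) (nat_lit 0) (nat_lit 173) (nat_lit 170) (nat_lit 167))))) (PT.nd (nat_lit 52572) (PT.nd (nat_lit 52416) (PT.lf (nat_lit 2356) (nat_lit 6) (nat_lit 31) (nat_lit 0) (nat_lit 174) (nat_lit 170) (nat_lit 166)) (PT.nd (nat_lit 78) (PT.lf (nat_lit 2052) (nat_lit 6) (nat_lit 27) (nat_lit 5) (nat_lit 165) (nat_lit 171) (nat_lit 174)) (PT.lf (nat_lit 2432) (nat_lit 6) (nat_lit 32) (nat_lit 5) (nat_lit 166) (nat_lit 171) (nat_lit 173)))) (PT.nd (nat_lit 156) (PT.nd (nat_lit 78) (PT.lf (nat_lit 2736) (nat_lit 6) (nat_lit 36) (nat_lit 5) (nat_lit 167) (nat_lit 171)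 (nat_lit 172)) (PT.lf (nat_lit 2964) (nat_lit 3) (nat_lit 39) (nat_lit 4) (nat_lit 168) (nat_lit 171) (nat_lit 171))) (PT.nd (nat_lit 78) (PT.lf (nat_lit 3040) (nat_lit 6) (nat_lit 40) (nat_lit 4) (nat_lit 169) (nat_lit 171) (nat_lit 170)) (PT.lf (nat_lit 3040) (nat_lit 6) (nat_lit 40) (nat_lit 2) (nat_lit 170) (nat_lit 171) (nat_lit 169)))))) (PT.nd (nat_lit 52650) (PT.nd (nat_lit 234) (PT.nd (nat_lit 78) (PT.lf (nat_lit 2964) (nat_lit 3) (nat_lit 39) (nat_lit 0) (nat_lit 171) (nat_lit 171) (nat_lit 168)) (PT.nd (nat_lit 78) (PT.lf (nat_lit 2736) (nat_lit 6) (nat_lit 36) (nat_lit 0) (nat_lit 172) (nat_lit 171) (nat_lit 167)) (PT.lf (nat_lit 2432) (nat_lit 6) (nat_lit 32) (nat_lit 0) (nat_lit 173) (nat_lit 171) (nat_lit 166)))) (PT.nd (nat_lit 52260) (PT.lf (nat_lit 2052) (nat_lit 6) (nat_lit 27) (nat_lit 0) (nat_lit 174) (nat_lit 171) (nat_lit 165)) (PT.nd (nat_lit 78) (PT.lf (nat_lit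 1748) (nat_lit 6) (nat_lit 23) (nat_lit 5) (nat_lit 163) (nat_lit 172) (nat_lit 175)) (PT.lf (nat_lit 1900) (nat_lit 6) (nat_lit 25) (nat_lit 5) (nat_lit 164) (nat_lit 172) (nat_lit 174))))) (PT.nd (nat_lit 234) (PT.nd (nat_lit 78) (PT.lf (nat_lit 2128) (nat_lit 6) (nat_lit 28) (nat_lit 5) (nat_lit 165) (nat_lit 172) (nat_lit 173)) (PT.nd (nat_lit 78) (PT.lf (nat_lit 2508) (nat_lit 3) (nat_lit 33) (nat_lit 4) (nat_lit 166) (nat_lit 172) (nat_lit 172)) (PT.lf (nat_lit 2736) (nat_lit 6) (nat_lit 36) (nat_lit 4) (nat_lit 167) (nat_lit 172) (nat_lit 171)))) (PT.nd (nat_lit 156) (PT.nd (nat_lit 78) (PT.lf (nat_lit 2888) (nat_lit 6) (nat_lit 38) (nat_lit 4) (nat_lit 168) (nat_lit 172) (nat_lit 170)) (PT.lf (nat_lit 2812) (nat_lit 3) (nat_lit 37) (nat_lit 2) (nat_lit 169) (nat_lit 172) (nat_lit 169))) (PT.nd (nat_lit 78) (PT.lf (nat_lit 2888) (nat_lit 6) (nat_lit 38) (nat_lit 2) (nat_lit 170)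 (nat_lit 172) (nat_lit 168)) (PT.lf (nat_lit 2736) (nat_lit 6) (nat_lit 36) (nat_lit 2) (nat_lit 171) (nat_lit 172) (nat_lit 167))))))))
noncomputable def pc2 : PT := (PT.nd (nat_lit 105846) (PT.nd (nat_lit 52962) (PT.nd (nat_lit 52494) (PT.nd (nat_lit 234) (PT.nd (nat_lit 78) (PT.lf (nat_lit 2508) (nat_lit 3) (nat_lit 33) (nat_lit 0) (nat_lit 172) (nat_lit 172) (nat_lit 166)) (PT.nd (nat_lit 78) (PT.lf (nat_lit 2128) (nat_lit 6) (nat_lit 28) (nat_lit 0) (nat_lit 173) (nat_lit 172) (nat_lit 165)) (PT.lf (nat_lit 1900) (nat_lit 6) (nat_lit 25) (nat_lit 0) (nat_lit 174) (nat_lit 172) (nat_lit 164)))) (PT.nd (nat_lit 52104) (PT.lf (nat_lit 1748) (nat_lit 6) (nat_lit 23) (nat_lit 0) (nat_lit 175) (nat_lit 172) (nat_lit 163)) (PT.nd (nat_lit 78) (PT.lf (nat_lit 1596) (nat_lit 6) (nat_lit 21) (nat_lit 5) (nat_lit 162) (nat_lit 173) (nat_lit 175)) (PT.lf (nat_lit 1824) (nat_lit 6) (nat_lit 24)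 (nat_lit 5) (nat_lit 163) (nat_lit 173) (nat_lit 174))))) (PT.nd (nat_lit 234) (PT.nd (nat_lit 78) (PT.lf (nat_lit 1976) (nat_lit 3) (nat_lit 26) (nat_lit 4) (nat_lit 164) (nat_lit 173) (nat_lit 173)) (PT.nd (nat_lit 78) (PT.lf (nat_lit 2128) (nat_lit 6) (nat_lit 28) (nat_lit 4) (nat_lit 165) (nat_lit 173) (nat_lit 172)) (PT.lf (nat_lit 2432) (nat_lit 6) (nat_lit 32) (nat_lit 4) (nat_lit 166) (nat_lit 173) (nat_lit 171)))) (PT.nd (nat_lit 78) (PT.lf (nat_lit 2660) (nat_lit 6) (nat_lit 35) (nat_lit 4) (nat_lit 167) (nat_lit 173) (nat_lit 170)) (PT.nd (nat_lit 78) (PT.lf (nat_lit 2584) (nat_lit 6) (nat_lit 34) (nat_lit 4) (nat_lit 168) (nat_lit 173) (nat_lit 169)) (PT.lf (nat_lit 2584) (nat_lit 6) (nat_lit 34) (nat_lit 2) (nat_lit 169) (nat_lit 173) (nat_lit 168)))))) (PT.nd (nat_lit 52338) (PT.nd (nat_lit 234) (PT.nd (nat_lit 78) (PT.lf (nat_lit 2660) (nat_lit 6) (nat_lit 35) (nat_lit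 2) (nat_lit 170) (nat_lit 173) (nat_lit 167)) (PT.nd (nat_lit 78) (PT.lf (nat_lit 2432) (nat_lit 6) (nat_lit 32) (nat_lit 2) (nat_lit 171) (nat_lit 173) (nat_lit 166)) (PT.lf (nat_lit 2128) (nat_lit 6) (nat_lit 28) (nat_lit 2) (nat_lit 172) (nat_lit 173) (nat_lit 165)))) (PT.nd (nat_lit 78) (PT.lf (nat_lit 1976) (nat_lit 3) (nat_lit 26) (nat_lit 0) (nat_lit 173) (nat_lit 173) (nat_lit 164)) (PT.nd (nat_lit 78) (PT.lf (nat_lit 1824) (nat_lit 6) (nat_lit 24) (nat_lit 0) (nat_lit 174) (nat_lit 173) (nat_lit 163)) (PT.lf (nat_lit 1596) (nat_lit 6) (nat_lit 21) (nat_lit 0) (nat_lit 175) (nat_lit 173) (nat_lit 162))))) (PT.nd (nat_lit 234) (PT.nd (nat_lit 78) (PT.lf (nat_lit 1368) (nat_lit 6) (nat_lit 18) (nat_lit 5) (nat_lit 160) (nat_lit 174) (nat_lit 176)) (PT.nd (nat_lit 78) (PT.lf (nat_lit 1520) (nat_lit 6) (nat_lit 20) (nat_lit 5) (nat_lit 161) (nat_lit 174) (nat_lit 175)) (PT.lf (nat_lit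 1672) (nat_lit 3) (nat_lit 22) (nat_lit 4) (nat_lit 162) (nat_lit 174) (nat_lit 174)))) (PT.nd (nat_lit 156) (PT.nd (nat_lit 78) (PT.lf (nat_lit 1824) (nat_lit 6) (nat_lit 24) (nat_lit 4) (nat_lit 163) (nat_lit 174) (nat_lit 173)) (PT.lf (nat_lit 1900) (nat_lit 6) (nat_lit 25) (nat_lit 4) (nat_lit 164) (nat_lit 174) (nat_lit 172))) (PT.nd (nat_lit 78) (PT.lf (nat_lit 2052) (nat_lit 6) (nat_lit 27) (nat_lit 4) (nat_lit 165) (nat_lit 174) (nat_lit 171)) (PT.lf (nat_lit 2356) (nat_lit 6) (nat_lit 31) (nat_lit 4) (nat_lit 166) (nat_lit 174) (nat_lit 170))))))) (PT.nd (nat_lit 52572) (PT.nd (nat_lit 468) (PT.nd (nat_lit 234) (PT.nd (nat_lit 78) (PT.lf (nat_lit 2280) (nat_lit 6) (nat_lit 30) (nat_lit 4) (nat_lit 167) (nat_lit 174) (nat_lit 169)) (PT.nd (nat_lit 78) (PT.lf (nat_lit 2204) (nat_lit 3) (nat_lit 29) (nat_lit 2) (nat_lit 168) (nat_lit 174) (nat_lit 168)) (PT.lf (nat_lit 2280) (nat_lit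 6) (nat_lit 30) (nat_lit 2) (nat_lit 169) (nat_lit 174) (nat_lit 167)))) (PT.nd (nat_lit 78) (PT.lf (nat_lit 2356) (nat_lit 6) (nat_lit 31) (nat_lit 2) (nat_lit 170) (nat_lit 174) (nat_lit 166)) (PT.nd (nat_lit 78) (PT.lf (nat_lit 2052) (nat_lit 6) (nat_lit 27) (nat_lit 2) (nat_lit 171) (nat_lit 174) (nat_lit 165)) (PT.lf (nat_lit 1900) (nat_lit 6) (nat_lit 25) (nat_lit 2) (nat_lit 172) (nat_lit 174) (nat_lit 164))))) (PT.nd (nat_lit 234) (PT.nd (nat_lit 78) (PT.lf (nat_lit 1824) (nat_lit 6) (nat_lit 24) (nat_lit 2) (nat_lit 173) (nat_lit 174) (nat_lit 163)) (PT.nd (nat_lit 78) (PT.lf (nat_lit 1672) (nat_lit 3) (nat_lit 22) (nat_lit 0) (nat_lit 174) (nat_lit 174) (nat_lit 162)) (PT.lf (nat_lit 1520) (nat_lit 6) (nat_lit 20) (nat_lit 0) (nat_lit 175) (nat_lit 174) (nat_lit 161)))) (PT.nd (nat_lit 51714) (PT.lf (nat_lit 1368) (nat_lit 6) (nat_lit 18) (nat_lit 0) (nat_lit 176) (nat_lit 174)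 (nat_lit 160)) (PT.nd (nat_lit 78) (PT.lf (nat_lit 1140) (nat_lit 6) (nat_lit 15) (nat_lit 5) (nat_lit 158) (nat_lit 175) (nat_lit 177)) (PT.lf (nat_lit 1292) (nat_lit 6) (nat_lit 17) (nat_lit 5) (nat_lit 159) (nat_lit 175) (nat_lit 176)))))) (PT.nd (nat_lit 1092) (PT.nd (nat_lit 234) (PT.nd (nat_lit 78) (PT.lf (nat_lit 1444) (nat_lit 3) (nat_lit 19) (nat_lit 4) (nat_lit 160) (nat_lit 175) (nat_lit 175)) (PT.nd (nat_lit 78) (PT.lf (nat_lit 1520) (nat_lit 6) (nat_lit 20) (nat_lit 4) (nat_lit 161) (nat_lit 175) (nat_lit 174)) (PT.lf (nat_lit 1596) (nat_lit 6) (nat_lit 21) (nat_lit 4) (nat_lit 162) (nat_lit 175) (nat_lit 173)))) (PT.nd (nat_lit 702) (PT.lf (nat_lit 1748) (nat_lit 6) (nat_lit 23) (nat_lit 4) (nat_lit 163) (nat_lit 175) (nat_lit 172)) (PT.nd (nat_lit 78) (PT.lf (nat_lit 1748) (nat_lit 6) (nat_lit 23) (nat_lit 2) (nat_lit 172) (nat_lit 175) (nat_lit 163)) (PT.lf (nat_lit 1596)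 (nat_lit 6) (nat_lit 21) (nat_lit 2) (nat_lit 173) (nat_lit 175) (nat_lit 162))))) (PT.nd (nat_lit 234) (PT.nd (nat_lit 78) (PT.lf (nat_lit 1520) (nat_lit 6) (nat_lit 20) (nat_lit 2) (nat_lit 174) (nat_lit 175) (nat_lit 161)) (PT.nd (nat_lit 78) (PT.lf (nat_lit 1444) (nat_lit 3) (nat_lit 19) (nat_lit 0) (nat_lit 175) (nat_lit 175) (nat_lit 160)) (PT.lf (nat_lit 1292) (nat_lit 6) (nat_lit 17) (nat_lit 0) (nat_lit 176) (nat_lit 175) (nat_lit 159)))) (PT.nd (nat_lit 51558) (PT.nd (nat_lit 51480) (PT.lf (nat_lit 1140) (nat_lit 6) (nat_lit 15) (nat_lit 0) (nat_lit 177) (nat_lit 175) (nat_lit 158)) (PT.lf (nat_lit 912) (nat_lit 6) (nat_lit 12) (nat_lit 5) (nat_lit 156) (nat_lit 176) (nat_lit 178))) (PT.nd (nat_lit 78) (PT.lf (nat_lit 1064) (nat_lit 6) (nat_lit 14) (nat_lit 5) (nat_lit 157) (nat_lit 176) (nat_lit 177)) (PT.lf (nat_lit 1216) (nat_lit 3) (nat_lit 16) (nat_lit 4) (nat_lit 158)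 (nat_lit 176) (nat_lit 176))))))))
noncomputable def pc3 : PT := (PT.nd (nat_lit 107796) (PT.nd (nat_lit 54366) (PT.nd (nat_lit 1482) (PT.nd (nat_lit 1248) (PT.nd (nat_lit 78) (PT.lf (nat_lit 1292) (nat_lit 6) (nat_lit 17) (nat_lit 4) (nat_lit 159) (nat_lit 176) (nat_lit 175)) (PT.nd (nat_lit 1092) (PT.lf (nat_lit 1368) (nat_lit 6) (nat_lit 18) (nat_lit 4) (nat_lit 160) (nat_lit 176) (nat_lit 174)) (PT.lf (nat_lit 1368) (nat_lit 6) (nat_lit 18) (nat_lit 2) (nat_lit 174) (nat_lit 176) (nat_lit 160)))) (PT.nd (nat_lit 78) (PT.lf (nat_lit 1292) (nat_lit 6) (nat_lit 17) (nat_lit 2) (nat_lit 175) (nat_lit 176) (nat_lit 159)) (PT.nd (nat_lit 78) (PT.lf (nat_lit 1216) (nat_lit 3) (nat_lit 16) (nat_lit 0) (nat_lit 176) (nat_lit 176) (nat_lit 158)) (PT.lf (nat_lit 1064) (nat_lit 6) (nat_lit 14) (nat_lit 0) (nat_lit 177) (nat_lit 176) (nat_lit 157))))) (PT.nd (nat_lit 51402) (PT.nd (nat_lit 51246)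 (PT.lf (nat_lit 912) (nat_lit 6) (nat_lit 12) (nat_lit 0) (nat_lit 178) (nat_lit 176) (nat_lit 156)) (PT.nd (nat_lit 78) (PT.lf (nat_lit 684) (nat_lit 6) (nat_lit 9) (nat_lit 5) (nat_lit 154) (nat_lit 177) (nat_lit 179)) (PT.lf (nat_lit 836) (nat_lit 6) (nat_lit 11) (nat_lit 5) (nat_lit 155) (nat_lit 177) (nat_lit 178)))) (PT.nd (nat_lit 78) (PT.lf (nat_lit 988) (nat_lit 3) (nat_lit 13) (nat_lit 4) (nat_lit 156) (nat_lit 177) (nat_lit 177)) (PT.nd (nat_lit 78) (PT.lf (nat_lit 1064) (nat_lit 6) (nat_lit 14) (nat_lit 4) (nat_lit 157) (nat_lit 177) (nat_lit 176)) (PT.lf (nat_lit 1140) (nat_lit 6) (nat_lit 15) (nat_lit 4) (nat_lit 158) (nat_lit 177) (nat_lit 175)))))) (PT.nd (nat_lit 51402) (PT.nd (nat_lit 234) (PT.nd (nat_lit 78) (PT.lf (nat_lit 1140) (nat_lit 6) (nat_lit 15) (nat_lit 2) (nat_lit 175) (nat_lit 177) (nat_lit 158)) (PT.nd (nat_lit 78) (PT.lf (nat_lit 1064) (nat_lit 6) (nat_lit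 14) (nat_lit 2) (nat_lit 176) (nat_lit 177) (nat_lit 157)) (PT.lf (nat_lit 988) (nat_lit 3) (nat_lit 13) (nat_lit 0) (nat_lit 177) (nat_lit 177) (nat_lit 156)))) (PT.nd (nat_lit 78) (PT.lf (nat_lit 836) (nat_lit 6) (nat_lit 11) (nat_lit 0) (nat_lit 178) (nat_lit 177) (nat_lit 155)) (PT.nd (nat_lit 51012) (PT.lf (nat_lit 684) (nat_lit 6) (nat_lit 9) (nat_lit 0) (nat_lit 179) (nat_lit 177) (nat_lit 154)) (PT.lf (nat_lit 456) (nat_lit 6) (nat_lit 6) (nat_lit 5) (nat_lit 152) (nat_lit 178) (nat_lit 180))))) (PT.nd (nat_lit 234) (PT.nd (nat_lit 78) (PT.lf (nat_lit 608) (nat_lit 6) (nat_lit 8) (nat_lit 5) (nat_lit 153) (nat_lit 178) (nat_lit 179)) (PT.nd (nat_lit 78) (PT.lf (nat_lit 760) (nat_lit 3) (nat_lit 10) (nat_lit 4) (nat_lit 154) (nat_lit 178) (nat_lit 178)) (PT.lf (nat_lit 836) (nat_lit 6) (nat_lit 11) (nat_lit 4) (nat_lit 155) (nat_lit 178) (nat_lit 177)))) (PT.nd (nat_lit 1638) (PT.nd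 (nat_lit 1560) (PT.lf (nat_lit 912) (nat_lit 6) (nat_lit 12) (nat_lit 4) (nat_lit 156) (nat_lit 178) (nat_lit 176)) (PT.lf (nat_lit 912) (nat_lit 6) (nat_lit 12) (nat_lit 2) (nat_lit 176) (nat_lit 178) (nat_lit 156))) (PT.nd (nat_lit 78) (PT.lf (nat_lit 836) (nat_lit 6) (nat_lit 11) (nat_lit 2) (nat_lit 177) (nat_lit 178) (nat_lit 155)) (PT.lf (nat_lit 760) (nat_lit 3) (nat_lit 10) (nat_lit 0) (nat_lit 178) (nat_lit 178) (nat_lit 154))))))) (PT.nd (nat_lit 103974) (PT.nd (nat_lit 51168) (PT.nd (nat_lit 50934) (PT.nd (nat_lit 78) (PT.lf (nat_lit 608) (nat_lit 6) (nat_lit 8) (nat_lit 0) (nat_lit 179) (nat_lit 178) (nat_lit 153)) (PT.nd (nat_lit 50778) (PT.lf (nat_lit 456) (nat_lit 6) (nat_lit 6) (nat_lit 0) (nat_lit 180) (nat_lit 178) (nat_lit 152)) (PT.lf (nat_lit 228) (nat_lit 6) (nat_lit 3) (nat_lit 5) (nat_lit 150) (nat_lit 179) (nat_lit 181)))) (PT.nd (nat_lit 78) (PT.lf (nat_lit 380)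 (nat_lit 6) (nat_lit 5) (nat_lit 5) (nat_lit 151) (nat_lit 179) (nat_lit 180)) (PT.nd (nat_lit 78) (PT.lf (nat_lit 532) (nat_lit 3) (nat_lit 7) (nat_lit 4) (nat_lit 152) (nat_lit 179) (nat_lit 179)) (PT.lf (nat_lit 608) (nat_lit 6) (nat_lit 8) (nat_lit 4) (nat_lit 153) (nat_lit 179) (nat_lit 178))))) (PT.nd (nat_lit 1950) (PT.nd (nat_lit 1794) (PT.lf (nat_lit 684) (nat_lit 6) (nat_lit 9) (nat_lit 4) (nat_lit 154) (nat_lit 179) (nat_lit 177)) (PT.nd (nat_lit 78) (PT.lf (nat_lit 684) (nat_lit 6) (nat_lit 9) (nat_lit 2) (nat_lit 177) (nat_lit 179) (nat_lit 154)) (PT.lf (nat_lit 608) (nat_lit 6) (nat_lit 8) (nat_lit 2) (nat_lit 178) (nat_lit 179) (nat_lit 153)))) (PT.nd (nat_lit 156) (PT.nd (nat_lit 78) (PT.lf (nat_lit 532) (nat_lit 3) (nat_lit 7) (nat_lit 0) (nat_lit 179) (nat_lit 179) (nat_lit 152)) (PT.lf (nat_lit 380) (nat_lit 6) (nat_lit 5) (nat_lit 0) (nat_lit 180) (nat_lit 179) (nat_lit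 151))) (PT.nd (nat_lit 50622) (PT.lf (nat_lit 228) (nat_lit 6) (nat_lit 3) (nat_lit 0) (nat_lit 181) (nat_lit 179) (nat_lit 150)) (PT.lf (nat_lit 152) (nat_lit 6) (nat_lit 2) (nat_lit 5) (nat_lit 149) (nat_lit 180) (nat_lit 181)))))) (PT.nd (nat_lit 2418) (PT.nd (nat_lit 2184) (PT.nd (nat_lit 78) (PT.lf (nat_lit 304) (nat_lit 3) (nat_lit 4) (nat_lit 4) (nat_lit 150) (nat_lit 180) (nat_lit 180)) (PT.nd (nat_lit 78) (PT.lf (nat_lit 380) (nat_lit 6) (nat_lit 5) (nat_lit 4) (nat_lit 151) (nat_lit 180) (nat_lit 179)) (PT.lf (nat_lit 456) (nat_lit 6) (nat_lit 6) (nat_lit 4) (nat_lit 152) (nat_lit 180) (nat_lit 178)))) (PT.nd (nat_lit 78) (PT.lf (nat_lit 456) (nat_lit 6) (nat_lit 6) (nat_lit 2) (nat_lit 178) (nat_lit 180) (nat_lit 152)) (PT.nd (nat_lit 78) (PT.lf (nat_lit 380) (nat_lit 6) (nat_lit 5) (nat_lit 2) (nat_lit 179) (nat_lit 180) (nat_lit 151)) (PT.lf (nat_lit 304) (nat_lit 3) (nat_lit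 4) (nat_lit 0) (nat_lit 180) (nat_lit 180) (nat_lit 150))))) (PT.nd (nat_lit 50700) (PT.nd (nat_lit 50544) (PT.lf (nat_lit 152) (nat_lit 6) (nat_lit 2) (nat_lit 0) (nat_lit 181) (nat_lit 180) (nat_lit 149)) (PT.nd (nat_lit 78) (PT.lf (nat_lit 76) (nat_lit 3) (nat_lit 1) (nat_lit 4) (nat_lit 148) (nat_lit 181) (nat_lit 181)) (PT.lf (nat_lit 152) (nat_lit 6) (nat_lit 2) (nat_lit 4) (nat_lit 149) (nat_lit 181) (nat_lit 180)))) (PT.nd (nat_lit 2340) (PT.nd (nat_lit 2262) (PT.lf (nat_lit 228) (nat_lit 6) (nat_lit 3) (nat_lit 4) (nat_lit 150) (nat_lit 181) (nat_lit 179)) (PT.lf (nat_lit 228) (nat_lit 6) (nat_lit 3) (nat_lit 2) (nat_lit 179) (nat_lit 181) (nat_lit 150))) (PT.nd (nat_lit 78) (PT.lf (nat_lit 152) (nat_lit 6) (nat_lit 2) (nat_lit 2) (nat_lit 180) (nat_lit 181) (nat_lit 149)) (PT.lf (nat_lit 76) (nat_lit 3) (nat_lit 1) (nat_lit 0) (nat_lit 181) (nat_lit 181) (nat_lit 148))))))))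
noncomputable def xc0 : XT := (XT.nd (nat_lit 741468) (nat_lit 0) (nat_lit 0) (XT.nd (nat_lit 635622) (nat_lit 0) (nat_lit 0) (XT.nd (nat_lit 529698) (nat_lit 0) (nat_lit 0) (XT.nd (nat_lit 53040) (nat_lit 0) (nat_lit 0) (XT.nd (nat_lit 52962) (nat_lit 0) (nat_lit 0) (XT.lf (nat_lit 0) (nat_lit 1550731391719837) (nat_lit 76) (nat_lit 45844780670764) (nat_lit 76) (nat_lit 45844780670764) (nat_lit 1) (nat_lit 4) (nat_lit 2) (nat_lit 5) (nat_lit 2) (nat_lit 4) (nat_lit 450) (nat_lit 285) (nat_lit 285)) (XT.lf (nat_lit 0) (nat_lit 1172575667414643) (nat_lit 76) (nat_lit 34665269560409) (nat_lit 76) (nat_lit 34665269560409) (nat_lit 1) (nat_lit 4) (nat_lit 2) (nat_lit 5) (nat_lit 2) (nat_lit 4) (nat_lit 448) (nat_lit 286) (nat_lit 286))) (XT.nd (nat_lit 78) (nat_lit 0) (nat_lit 0) (XT.lf (nat_lit 0) (nat_lit 2696924103062642) (nat_lit 76) (nat_lit 79730083749707) (nat_lit 76) (nat_lit 79730083389876)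 (nat_lit 1) (nat_lit 4) (nat_lit 2) (nat_lit 5) (nat_lit 2) (nat_lit 4) (nat_lit 449) (nat_lit 286) (nat_lit 285)) (XT.nd (nat_lit 476502) (nat_lit 0) (nat_lit 0) (XT.lf (nat_lit 0) (nat_lit 3101462780751576) (nat_lit 76) (nat_lit 91689563117386) (nat_lit 76) (nat_lit 91689562444653) (nat_lit 1) (nat_lit 4) (nat_lit 2) (nat_lit 5) (nat_lit 2) (nat_lit 4) (nat_lit 450) (nat_lit 286) (nat_lit 284)) (XT.lf (nat_lit 0) (nat_lit 94749573164035) (nat_lit 76) (nat_lit 2801422039569) (nat_lit 76) (nat_lit 2801422039569) (nat_lit 1) (nat_lit 4) (nat_lit 2) (nat_lit 5) (nat_lit 2) (nat_lit 4) (nat_lit 430) (nat_lit 295) (nat_lit 295))))) (XT.nd (nat_lit 53040) (nat_lit 0) (nat_lit 0) (XT.nd (nat_lit 52884) (nat_lit 0) (nat_lit 0) (XT.lf (nat_lit 0) (nat_lit 217924257524382) (nat_lit 76) (nat_lit 6443143205871) (nat_lit 76) (nat_lit 6443141940033) (nat_lit 1) (nat_lit 4) (nat_lit 2) (nat_lit 5)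 (nat_lit 2) (nat_lit 4) (nat_lit 431) (nat_lit 295) (nat_lit 294)) (XT.nd (nat_lit 78) (nat_lit 0) (nat_lit 0) (XT.lf (nat_lit 0) (nat_lit 71644070811233) (nat_lit 76) (nat_lit 2118394765200) (nat_lit 76) (nat_lit 2118394765200) (nat_lit 1) (nat_lit 4) (nat_lit 2) (nat_lit 5) (nat_lit 2) (nat_lit 4) (nat_lit 428) (nat_lit 296) (nat_lit 296)) (XT.lf (nat_lit 0) (nat_lit 164781638000002) (nat_lit 76) (nat_lit 4872161352051) (nat_lit 76) (nat_lit 4872159896337) (nat_lit 1) (nat_lit 4) (nat_lit 2) (nat_lit 5) (nat_lit 2) (nat_lit 4) (nat_lit 429) (nat_lit 296) (nat_lit 295)))) (XT.nd (nat_lit 2418) (nat_lit 0) (nat_lit 0) (XT.lf (nat_lit 0) (nat_lit 189499135453202) (nat_lit 76) (nat_lit 5602851263462) (nat_lit 76) (nat_lit 5602848541910) (nat_lit 1) (nat_lit 4) (nat_lit 2) (nat_lit 5) (nat_lit 2) (nat_lit 4) (nat_lit 430) (nat_lit 296) (nat_lit 294)) (XT.nd (nat_lit 50388) (nat_lit 0) (nat_lit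 0) (XT.lf (nat_lit 0) (nat_lit 14429219401740756) (nat_lit 76) (nat_lit 426575392922997) (nat_lit 76) (nat_lit 426575381873337) (nat_lit 1) (nat_lit 4) (nat_lit 2) (nat_lit 5) (nat_lit 2) (nat_lit 4) (nat_lit 461) (nat_lit 296) (nat_lit 263)) (XT.lf (nat_lit 0) (nat_lit 54172958690077) (nat_lit 76) (nat_lit 1601945601677) (nat_lit 76) (nat_lit 1601945601677) (nat_lit 1) (nat_lit 4) (nat_lit 2) (nat_lit 5) (nat_lit 2) (nat_lit 4) (nat_lit 426) (nat_lit 297) (nat_lit 297)))))) (XT.nd (nat_lit 52962) (nat_lit 0) (nat_lit 0) (XT.nd (nat_lit 156) (nat_lit 0) (nat_lit 0) (XT.nd (nat_lit 78) (nat_lit 0) (nat_lit 0) (XT.lf (nat_lit 0) (nat_lit 124598121391468) (nat_lit 76) (nat_lit 3684306284764) (nat_lit 76) (nat_lit 3684304610693) (nat_lit 1) (nat_lit 4) (nat_lit 2) (nat_lit 5) (nat_lit 2) (nat_lit 4) (nat_lit 427) (nat_lit 297) (nat_lit 296)) (XT.lf (nat_lit 0) (nat_lit 143288129116368) (nat_lit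 76) (nat_lit 4236797792373) (nat_lit 76) (nat_lit 4236794662587) (nat_lit 1) (nat_lit 4) (nat_lit 2) (nat_lit 5) (nat_lit 2) (nat_lit 4) (nat_lit 428) (nat_lit 297) (nat_lit 295))) (XT.nd (nat_lit 78) (nat_lit 0) (nat_lit 0) (XT.lf (nat_lit 0) (nat_lit 164781614619035) (nat_lit 76) (nat_lit 4872175342634) (nat_lit 76) (nat_lit 4872170947010) (nat_lit 1) (nat_lit 4) (nat_lit 2) (nat_lit 5) (nat_lit 2) (nat_lit 4) (nat_lit 429) (nat_lit 297) (nat_lit 294)) (XT.nd (nat_lit 52650) (nat_lit 0) (nat_lit 0) (XT.lf (nat_lit 0) (nat_lit 189499102615828) (nat_lit 76) (nat_lit 5602870235446) (nat_lit 76) (nat_lit 5602864739092) (nat_lit 1) (nat_lit 4) (nat_lit 2) (nat_lit 5) (nat_lit 2) (nat_lit 4) (nat_lit 430) (nat_lit 297) (nat_lit 293)) (XT.lf (nat_lit 0) (nat_lit 40962250136052) (nat_lit 76) (nat_lit 1211456059470) (nat_lit 76) (nat_lit 1211456059470) (nat_lit 1) (nat_lit 4) (nat_lit 2) (nat_lit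 5) (nat_lit 2) (nat_lit 4) (nat_lit 424) (nat_lit 298) (nat_lit 298))))) (XT.nd (nat_lit 234) (nat_lit 0) (nat_lit 0) (XT.nd (nat_lit 78) (nat_lit 0) (nat_lit 0) (XT.lf (nat_lit 0) (nat_lit 94213539177856) (nat_lit 76) (nat_lit 2786155047823) (nat_lit 76) (nat_lit 2786153122641) (nat_lit 1) (nat_lit 4) (nat_lit 2) (nat_lit 5) (nat_lit 2) (nat_lit 4) (nat_lit 425) (nat_lit 298) (nat_lit 297)) (XT.nd (nat_lit 78) (nat_lit 0) (nat_lit 0) (XT.lf (nat_lit 0) (nat_lit 108345902998140) (nat_lit 76) (nat_lit 3203900704624) (nat_lit 76) (nat_lit 3203897105371) (nat_lit 1) (nat_lit 4) (nat_lit 2) (nat_lit 5) (nat_lit 2) (nat_lit 4) (nat_lit 426) (nat_lit 298) (nat_lit 296)) (XT.lf (nat_lit 0) (nat_lit 124598094503356) (nat_lit 76) (nat_lit 3684322373935) (nat_lit 76) (nat_lit 3684317318967) (nat_lit 1) (nat_lit 4) (nat_lit 2) (nat_lit 5) (nat_lit 2) (nat_lit 4) (nat_lit 427) (nat_lit 298) (nat_lit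 295)))) (XT.nd (nat_lit 78) (nat_lit 0) (nat_lit 0) (XT.lf (nat_lit 0) (nat_lit 143288091353388) (nat_lit 76) (nat_lit 4236819610154) (nat_lit 76) (nat_lit 4236813289347) (nat_lit 1) (nat_lit 4) (nat_lit 2) (nat_lit 5) (nat_lit 2) (nat_lit 4) (nat_lit 428) (nat_lit 298) (nat_lit 294)) (XT.nd (nat_lit 78) (nat_lit 0) (nat_lit 0) (XT.lf (nat_lit 0) (nat_lit 164781567399648) (nat_lit 76) (nat_lit 4872202141816) (nat_lit 76) (nat_lit 4872194720280) (nat_lit 1) (nat_lit 4) (nat_lit 2) (nat_lit 5) (nat_lit 2) (nat_lit 4) (nat_lit 429) (nat_lit 298) (nat_lit 293)) (XT.lf (nat_lit 0) (nat_lit 189499047173478) (nat_lit 76) (nat_lit 5602901366279) (nat_lit 76) (nat_lit 5602892987588) (nat_lit 1) (nat_lit 4) (nat_lit 2) (nat_lit 5) (nat_lit 2) (nat_lit 4) (nat_lit 430) (nat_lit 298) (nat_lit 292))))))) (XT.nd (nat_lit 53118) (nat_lit 0) (nat_lit 0) (XT.nd (nat_lit 390) (nat_lit 0) (nat_lit 0) (XT.nd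 (nat_lit 156) (nat_lit 0) (nat_lit 0) (XT.nd (nat_lit 78) (nat_lit 0) (nat_lit 0) (XT.lf (nat_lit 0) (nat_lit 30973013094996) (nat_lit 76) (nat_lit 916213120596) (nat_lit 76) (nat_lit 916213120596) (nat_lit 1) (nat_lit 4) (nat_lit 2) (nat_lit 5) (nat_lit 2) (nat_lit 4) (nat_lit 422) (nat_lit 299) (nat_lit 299)) (XT.lf (nat_lit 0) (nat_lit 71238348563167) (nat_lit 76) (nat_lit 2107067205068) (nat_lit 76) (nat_lit 2107064991108) (nat_lit 1) (nat_lit 4) (nat_lit 2) (nat_lit 5) (nat_lit 2) (nat_lit 4) (nat_lit 423) (nat_lit 299) (nat_lit 298))) (XT.nd (nat_lit 78) (nat_lit 0) (nat_lit 0) (XT.lf (nat_lit 0) (nat_lit 81924483732790) (nat_lit 76) (nat_lit 2422923045400) (nat_lit 76) (nat_lit 2422918906259) (nat_lit 1) (nat_lit 4) (nat_lit 2) (nat_lit 5) (nat_lit 2) (nat_lit 4) (nat_lit 424) (nat_lit 299) (nat_lit 297)) (XT.nd (nat_lit 78) (nat_lit 0) (nat_lit 0) (XT.lf (nat_lit 0) (nat_lit 94213508256527)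 (nat_lit 76) (nat_lit 2786173550369) (nat_lit 76) (nat_lit 2786167737156) (nat_lit 1) (nat_lit 4) (nat_lit 2) (nat_lit 5) (nat_lit 2) (nat_lit 4) (nat_lit 425) (nat_lit 299) (nat_lit 296)) (XT.lf (nat_lit 0) (nat_lit 108345859570714) (nat_lit 76) (nat_lit 3203925795072) (nat_lit 76) (nat_lit 3203918526145) (nat_lit 1) (nat_lit 4) (nat_lit 2) (nat_lit 5) (nat_lit 2) (nat_lit 4) (nat_lit 426) (nat_lit 299) (nat_lit 295))))) (XT.nd (nat_lit 234) (nat_lit 0) (nat_lit 0) (XT.nd (nat_lit 78) (nat_lit 0) (nat_lit 0) (XT.lf (nat_lit 0) (nat_lit 124598040201061) (nat_lit 76) (nat_lit 3684353192993) (nat_lit 76) (nat_lit 3684344658227) (nat_lit 1) (nat_lit 4) (nat_lit 2) (nat_lit 5) (nat_lit 2) (nat_lit 4) (nat_lit 427) (nat_lit 299) (nat_lit 294)) (XT.nd (nat_lit 78) (nat_lit 0) (nat_lit 0) (XT.lf (nat_lit 0) (nat_lit 143288027594685) (nat_lit 76) (nat_lit 4236855410612) (nat_lit 76) (nat_lit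 4236845775117) (nat_lit 1) (nat_lit 4) (nat_lit 2) (nat_lit 5) (nat_lit 2) (nat_lit 4) (nat_lit 428) (nat_lit 299) (nat_lit 293)) (XT.lf (nat_lit 0) (nat_lit 164781495417983) (nat_lit 76) (nat_lit 4872242273926) (nat_lit 76) (nat_lit 4872231681276) (nat_lit 1) (nat_lit 4) (nat_lit 2) (nat_lit 5) (nat_lit 2) (nat_lit 4) (nat_lit 429) (nat_lit 299) (nat_lit 292)))) (XT.nd (nat_lit 52338) (nat_lit 0) (nat_lit 0) (XT.lf (nat_lit 0) (nat_lit 189498968041411) (nat_lit 76) (nat_lit 5602945265044) (nat_lit 76) (nat_lit 5602933840084) (nat_lit 1) (nat_lit 4) (nat_lit 2) (nat_lit 5) (nat_lit 2) (nat_lit 4) (nat_lit 430) (nat_lit 299) (nat_lit 291)) (XT.nd (nat_lit 78) (nat_lit 0) (nat_lit 0) (XT.lf (nat_lit 0) (nat_lit 23419664823735) (nat_lit 76) (nat_lit 692993786004) (nat_lit 76) (nat_lit 692993786004) (nat_lit 1) (nat_lit 4) (nat_lit 2) (nat_lit 5) (nat_lit 2) (nat_lit 4) (nat_lit 420) (nat_lit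 300) (nat_lit 300)) (XT.lf (nat_lit 0) (nat_lit 53865710305966) (nat_lit 76) (nat_lit 1593629289662) (nat_lit 76) (nat_lit 1593626743609) (nat_lit 1) (nat_lit 4) (nat_lit 2) (nat_lit 5) (nat_lit 2) (nat_lit 4) (nat_lit 421) (nat_lit 300) (nat_lit 299)))))) (XT.nd (nat_lit 468) (nat_lit 0) (nat_lit 0) (XT.nd (nat_lit 234) (nat_lit 0) (nat_lit 0) (XT.nd (nat_lit 78) (nat_lit 0) (nat_lit 0) (XT.lf (nat_lit 0) (nat_lit 61946007169781) (nat_lit 76) (nat_lit 1832438806620) (nat_lit 76) (nat_lit 1832434046607) (nat_lit 1) (nat_lit 4) (nat_lit 2) (nat_lit 5) (nat_lit 2) (nat_lit 4) (nat_lit 422) (nat_lit 300) (nat_lit 298)) (XT.nd (nat_lit 78) (nat_lit 0) (nat_lit 0) (XT.lf (nat_lit 0) (nat_lit 71238313003640) (nat_lit 76) (nat_lit 2107088482996) (nat_lit 76) (nat_lit 2107081797801) (nat_lit 1) (nat_lit 4) (nat_lit 2) (nat_lit 5) (nat_lit 2) (nat_lit 4) (nat_lit 423) (nat_lit 300) (nat_lit 297))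 (XT.lf (nat_lit 0) (nat_lit 81924433791249) (nat_lit 76) (nat_lit 2422951899415) (nat_lit 76) (nat_lit 2422943540149) (nat_lit 1) (nat_lit 4) (nat_lit 2) (nat_lit 5) (nat_lit 2) (nat_lit 4) (nat_lit 424) (nat_lit 300) (nat_lit 296)))) (XT.nd (nat_lit 78) (nat_lit 0) (nat_lit 0) (XT.lf (nat_lit 0) (nat_lit 94213445808888) (nat_lit 76) (nat_lit 2786208992286) (nat_lit 76) (nat_lit 2786199177306) (nat_lit 1) (nat_lit 4) (nat_lit 2) (nat_lit 5) (nat_lit 2) (nat_lit 4) (nat_lit 425) (nat_lit 300) (nat_lit 295)) (XT.nd (nat_lit 78) (nat_lit 0) (nat_lit 0) (XT.lf (nat_lit 0) (nat_lit 108345786248206) (nat_lit 76) (nat_lit 3203966965600) (nat_lit 76) (nat_lit 3203955884781) (nat_lit 1) (nat_lit 4) (nat_lit 2) (nat_lit 5) (nat_lit 2) (nat_lit 4) (nat_lit 426) (nat_lit 300) (nat_lit 294)) (XT.lf (nat_lit 0) (nat_lit 124597957422146) (nat_lit 76) (nat_lit 3684399344920) (nat_lit 76) (nat_lit 3684387163372)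 (nat_lit 1) (nat_lit 4) (nat_lit 2) (nat_lit 5) (nat_lit 2) (nat_lit 4) (nat_lit 427) (nat_lit 300) (nat_lit 293))))) (XT.nd (nat_lit 52338) (nat_lit 0) (nat_lit 0) (XT.nd (nat_lit 78) (nat_lit 0) (nat_lit 0) (XT.lf (nat_lit 0) (nat_lit 143287936592808) (nat_lit 76) (nat_lit 4236905894191) (nat_lit 76) (nat_lit 4236892755487) (nat_lit 1) (nat_lit 4) (nat_lit 2) (nat_lit 5) (nat_lit 2) (nat_lit 4) (nat_lit 428) (nat_lit 300) (nat_lit 292)) (XT.nd (nat_lit 78) (nat_lit 0) (nat_lit 0) (XT.lf (nat_lit 0) (nat_lit 164781397265703) (nat_lit 76) (nat_lit 4872296524160) (nat_lit 76) (nat_lit 4872282553147) (nat_lit 1) (nat_lit 4) (nat_lit 2) (nat_lit 5) (nat_lit 2) (nat_lit 4) (nat_lit 429) (nat_lit 300) (nat_lit 291)) (XT.lf (nat_lit 0) (nat_lit 189498863671390) (nat_lit 76) (nat_lit 5603002790629) (nat_lit 76) (nat_lit 5602988095868) (nat_lit 1) (nat_lit 4) (nat_lit 2) (nat_lit 5) (nat_lit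 2) (nat_lit 4) (nat_lit 430) (nat_lit 300) (nat_lit 290)))) (XT.nd (nat_lit 78) (nat_lit 0) (nat_lit 0) (XT.lf (nat_lit 0) (nat_lit 17708190928761) (nat_lit 76) (nat_lit 524238655281) (nat_lit 76) (nat_lit 524238655281) (nat_lit 1) (nat_lit 4) (nat_lit 2) (nat_lit 5) (nat_lit 2) (nat_lit 4) (nat_lit 418) (nat_lit 301) (nat_lit 301)) (XT.nd (nat_lit 78) (nat_lit 0) (nat_lit 0) (XT.lf (nat_lit 0) (nat_lit 40729392529233) (nat_lit 76) (nat_lit 1205454026276) (nat_lit 76) (nat_lit 1205451098315) (nat_lit 1) (nat_lit 4) (nat_lit 2) (nat_lit 5) (nat_lit 2) (nat_lit 4) (nat_lit 419) (nat_lit 301) (nat_lit 300)) (XT.lf (nat_lit 0) (nat_lit 46839307774225) (nat_lit 76) (nat_lit 1386002022252) (nat_lit 76) (nat_lit 1385996548237) (nat_lit 1) (nat_lit 4) (nat_lit 2) (nat_lit 5) (nat_lit 2) (nat_lit 4) (nat_lit 420) (nat_lit 301) (nat_lit 299))))))))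
noncomputable def xc1 : XT := (XT.nd (nat_lit 53664) (nat_lit 0) (nat_lit 0) (XT.nd (nat_lit 52728) (nat_lit 0) (nat_lit 0) (XT.nd (nat_lit 390) (nat_lit 0) (nat_lit 0) (XT.nd (nat_lit 156) (nat_lit 0) (nat_lit 0) (XT.nd (nat_lit 78) (nat_lit 0) (nat_lit 0) (XT.lf (nat_lit 0) (nat_lit 53865669412509) (nat_lit 76) (nat_lit 1593653759280) (nat_lit 76) (nat_lit 1593646071306) (nat_lit 1) (nat_lit 4) (nat_lit 2) (nat_lit 5) (nat_lit 2) (nat_lit 4) (nat_lit 421) (nat_lit 301) (nat_lit 298)) (XT.lf (nat_lit 0) (nat_lit 61945949737009) (nat_lit 76) (nat_lit 1832471988737) (nat_lit 76) (nat_lit 1832462375581) (nat_lit 1) (nat_lit 4) (nat_lit 2) (nat_lit 5) (nat_lit 2) (nat_lit 4) (nat_lit 422) (nat_lit 301) (nat_lit 297))) (XT.nd (nat_lit 78) (nat_lit 0) (nat_lit 0) (XT.lf (nat_lit 0) (nat_lit 71238241188854) (nat_lit 76) (nat_lit 2107129241200) (nat_lit 76) (nat_lit 2107117953973) (nat_lit 1)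 (nat_lit 4) (nat_lit 2) (nat_lit 5) (nat_lit 2) (nat_lit 4) (nat_lit 423) (nat_lit 301) (nat_lit 296)) (XT.nd (nat_lit 78) (nat_lit 0) (nat_lit 0) (XT.lf (nat_lit 0) (nat_lit 81924349470365) (nat_lit 76) (nat_lit 2422999245521) (nat_lit 76) (nat_lit 2422986502580) (nat_lit 1) (nat_lit 4) (nat_lit 2) (nat_lit 5) (nat_lit 2) (nat_lit 4) (nat_lit 424) (nat_lit 301) (nat_lit 295)) (XT.lf (nat_lit 0) (nat_lit 94213350613136) (nat_lit 76) (nat_lit 2786262067002) (nat_lit 76) (nat_lit 2786248058222) (nat_lit 1) (nat_lit 4) (nat_lit 2) (nat_lit 5) (nat_lit 2) (nat_lit 4) (nat_lit 425) (nat_lit 301) (nat_lit 294))))) (XT.nd (nat_lit 234) (nat_lit 0) (nat_lit 0) (XT.nd (nat_lit 78) (nat_lit 0) (nat_lit 0) (XT.lf (nat_lit 0) (nat_lit 108345681596047) (nat_lit 76) (nat_lit 3204025021716) (nat_lit 76) (nat_lit 3204009912206) (nat_lit 1) (nat_lit 4) (nat_lit 2) (nat_lit 5) (nat_lit 2) (nat_lit 4) (nat_lit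 426) (nat_lit 301) (nat_lit 293)) (XT.nd (nat_lit 78) (nat_lit 0) (nat_lit 0) (XT.lf (nat_lit 0) (nat_lit 124597844547024) (nat_lit 76) (nat_lit 3684461732689) (nat_lit 76) (nat_lit 3684445666024) (nat_lit 1) (nat_lit 4) (nat_lit 2) (nat_lit 5) (nat_lit 2) (nat_lit 4) (nat_lit 427) (nat_lit 301) (nat_lit 292)) (XT.lf (nat_lit 0) (nat_lit 143287816567284) (nat_lit 76) (nat_lit 4236972048614) (nat_lit 76) (nat_lit 4236955149640) (nat_lit 1) (nat_lit 4) (nat_lit 2) (nat_lit 5) (nat_lit 2) (nat_lit 4) (nat_lit 428) (nat_lit 301) (nat_lit 291)))) (XT.nd (nat_lit 78) (nat_lit 0) (nat_lit 0) (XT.lf (nat_lit 0) (nat_lit 164781271022438) (nat_lit 76) (nat_lit 4872365953934) (nat_lit 76) (nat_lit 4872348331212) (nat_lit 1) (nat_lit 4) (nat_lit 2) (nat_lit 5) (nat_lit 2) (nat_lit 4) (nat_lit 429) (nat_lit 301) (nat_lit 290)) (XT.nd (nat_lit 78) (nat_lit 0) (nat_lit 0) (XT.lf (nat_lit 0) (nat_lit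 189498732021393) (nat_lit 76) (nat_lit 5603075068535) (nat_lit 76) (nat_lit 5603056816468) (nat_lit 1) (nat_lit 4) (nat_lit 2) (nat_lit 5) (nat_lit 2) (nat_lit 4) (nat_lit 430) (nat_lit 301) (nat_lit 289)) (XT.lf (nat_lit 0) (nat_lit 217923802061954) (nat_lit 76) (nat_lit 6443395875094) (nat_lit 76) (nat_lit 6443377075770) (nat_lit 1) (nat_lit 4) (nat_lit 2) (nat_lit 5) (nat_lit 2) (nat_lit 4) (nat_lit 431) (nat_lit 301) (nat_lit 288)))))) (XT.nd (nat_lit 468) (nat_lit 0) (nat_lit 0) (XT.nd (nat_lit 234) (nat_lit 0) (nat_lit 0) (XT.nd (nat_lit 78) (nat_lit 0) (nat_lit 0) (XT.lf (nat_lit 0) (nat_lit 13389430064457) (nat_lit 76) (nat_lit 396670900738) (nat_lit 76) (nat_lit 396670900738) (nat_lit 1) (nat_lit 4) (nat_lit 2) (nat_lit 5) (nat_lit 2) (nat_lit 4) (nat_lit 416) (nat_lit 302) (nat_lit 302)) (XT.nd (nat_lit 78) (nat_lit 0) (nat_lit 0) (XT.lf (nat_lit 0) (nat_lit 30796325550298)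 (nat_lit 76) (nat_lit 912003958697) (nat_lit 76) (nat_lit 912000591541) (nat_lit 1) (nat_lit 4) (nat_lit 2) (nat_lit 5) (nat_lit 2) (nat_lit 4) (nat_lit 417) (nat_lit 302) (nat_lit 301)) (XT.lf (nat_lit 0) (nat_lit 35416356703291) (nat_lit 76) (nat_lit 1048493928341) (nat_lit 76) (nat_lit 1048487633224) (nat_lit 1) (nat_lit 4) (nat_lit 2) (nat_lit 5) (nat_lit 2) (nat_lit 4) (nat_lit 418) (nat_lit 302) (nat_lit 300)))) (XT.nd (nat_lit 78) (nat_lit 0) (nat_lit 0) (XT.lf (nat_lit 0) (nat_lit 40729345501757) (nat_lit 76) (nat_lit 1205482166336) (nat_lit 76) (nat_lit 1205473325166) (nat_lit 1) (nat_lit 4) (nat_lit 2) (nat_lit 5) (nat_lit 2) (nat_lit 4) (nat_lit 419) (nat_lit 302) (nat_lit 299)) (XT.nd (nat_lit 78) (nat_lit 0) (nat_lit 0) (XT.lf (nat_lit 0) (nat_lit 46839241726537) (nat_lit 76) (nat_lit 1386040181687) (nat_lit 76) (nat_lit 1386029126557) (nat_lit 1) (nat_lit 4) (nat_lit 2)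 (nat_lit 5) (nat_lit 2) (nat_lit 4) (nat_lit 420) (nat_lit 302) (nat_lit 298)) (XT.lf (nat_lit 0) (nat_lit 53865586825506) (nat_lit 76) (nat_lit 1593700631215) (nat_lit 76) (nat_lit 1593687650903) (nat_lit 1) (nat_lit 4) (nat_lit 2) (nat_lit 5) (nat_lit 2) (nat_lit 4) (nat_lit 421) (nat_lit 302) (nat_lit 297))))) (XT.nd (nat_lit 234) (nat_lit 0) (nat_lit 0) (XT.nd (nat_lit 78) (nat_lit 0) (nat_lit 0) (XT.lf (nat_lit 0) (nat_lit 61945852767992) (nat_lit 76) (nat_lit 1832526436759) (nat_lit 76) (nat_lit 1832511782376) (nat_lit 1) (nat_lit 4) (nat_lit 2) (nat_lit 5) (nat_lit 2) (nat_lit 4) (nat_lit 422) (nat_lit 302) (nat_lit 296)) (XT.nd (nat_lit 78) (nat_lit 0) (nat_lit 0) (XT.lf (nat_lit 0) (nat_lit 71238131713739) (nat_lit 76) (nat_lit 2107190277124) (nat_lit 76) (nat_lit 2107174167027) (nat_lit 1) (nat_lit 4) (nat_lit 2) (nat_lit 5) (nat_lit 2) (nat_lit 4) (nat_lit 423) (nat_lit 302)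 (nat_lit 295)) (XT.lf (nat_lit 0) (nat_lit 81924229120382) (nat_lit 76) (nat_lit 2423066010055) (nat_lit 76) (nat_lit 2423048634119) (nat_lit 1) (nat_lit 4) (nat_lit 2) (nat_lit 5) (nat_lit 2) (nat_lit 4) (nat_lit 424) (nat_lit 302) (nat_lit 294)))) (XT.nd (nat_lit 78) (nat_lit 0) (nat_lit 0) (XT.lf (nat_lit 0) (nat_lit 94213220806745) (nat_lit 76) (nat_lit 2786333812936) (nat_lit 76) (nat_lit 2786315336271) (nat_lit 1) (nat_lit 4) (nat_lit 2) (nat_lit 5) (nat_lit 2) (nat_lit 4) (nat_lit 425) (nat_lit 302) (nat_lit 293)) (XT.nd (nat_lit 78) (nat_lit 0) (nat_lit 0) (XT.lf (nat_lit 0) (nat_lit 108345543566694) (nat_lit 76) (nat_lit 3204101099302) (nat_lit 76) (nat_lit 3204081665481) (nat_lit 1) (nat_lit 4) (nat_lit 2) (nat_lit 5) (nat_lit 2) (nat_lit 4) (nat_lit 426) (nat_lit 302) (nat_lit 292)) (XT.lf (nat_lit 0) (nat_lit 124597699367269) (nat_lit 76) (nat_lit 3684541576929) (nat_lit 76)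 (nat_lit 3684521310799) (nat_lit 1) (nat_lit 4) (nat_lit 2) (nat_lit 5) (nat_lit 2) (nat_lit 4) (nat_lit 427) (nat_lit 302) (nat_lit 291))))))) (XT.nd (nat_lit 52416) (nat_lit 0) (nat_lit 0) (XT.nd (nat_lit 390) (nat_lit 0) (nat_lit 0) (XT.nd (nat_lit 156) (nat_lit 0) (nat_lit 0) (XT.nd (nat_lit 78) (nat_lit 0) (nat_lit 0) (XT.lf (nat_lit 0) (nat_lit 143287665169787) (nat_lit 76) (nat_lit 4237055168206) (nat_lit 76) (nat_lit 4237034178329) (nat_lit 1) (nat_lit 4) (nat_lit 2) (nat_lit 5) (nat_lit 2) (nat_lit 4) (nat_lit 428) (nat_lit 302) (nat_lit 290)) (XT.lf (nat_lit 0) (nat_lit 164781114218210) (nat_lit 76) (nat_lit 4872451921658) (nat_lit 76) (nat_lit 4872430302435) (nat_lit 1) (nat_lit 4) (nat_lit 2) (nat_lit 5) (nat_lit 2) (nat_lit 4) (nat_lit 429) (nat_lit 302) (nat_lit 289))) (XT.nd (nat_lit 78) (nat_lit 0) (nat_lit 0) (XT.lf (nat_lit 0) (nat_lit 189498570515659) (nat_lit 76) (nat_lit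 5603163512895) (nat_lit 76) (nat_lit 5603141346415) (nat_lit 1) (nat_lit 4) (nat_lit 2) (nat_lit 5) (nat_lit 2) (nat_lit 4) (nat_lit 430) (nat_lit 302) (nat_lit 288)) (XT.nd (nat_lit 78) (nat_lit 0) (nat_lit 0) (XT.lf (nat_lit 0) (nat_lit 217923636467954) (nat_lit 76) (nat_lit 6443486473051) (nat_lit 76) (nat_lit 6443463830695) (nat_lit 1) (nat_lit 4) (nat_lit 2) (nat_lit 5) (nat_lit 2) (nat_lit 4) (nat_lit 431) (nat_lit 302) (nat_lit 287)) (XT.lf (nat_lit 0) (nat_lit 250612454669815) (nat_lit 76) (nat_lit 7409861903519) (nat_lit 76) (nat_lit 7409838847359) (nat_lit 1) (nat_lit 4) (nat_lit 2) (nat_lit 5) (nat_lit 2) (nat_lit 4) (nat_lit 432) (nat_lit 302) (nat_lit 286))))) (XT.nd (nat_lit 51792) (nat_lit 0) (nat_lit 0) (XT.nd (nat_lit 51636) (nat_lit 0) (nat_lit 0) (XT.lf (nat_lit 0) (nat_lit 288204588955624) (nat_lit 76) (nat_lit 8521197149680) (nat_lit 76) (nat_lit 8521173733690) (nat_lit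 1) (nat_lit 4) (nat_lit 2) (nat_lit 5) (nat_lit 2) (nat_lit 4) (nat_lit 433) (nat_lit 302) (nat_lit 285)) (XT.nd (nat_lit 78) (nat_lit 0) (nat_lit 0) (XT.lf (nat_lit 0) (nat_lit 10123750431504) (nat_lit 76) (nat_lit 300252025198) (nat_lit 76) (nat_lit 300252025198) (nat_lit 1) (nat_lit 4) (nat_lit 2) (nat_lit 5) (nat_lit 2) (nat_lit 4) (nat_lit 414) (nat_lit 303) (nat_lit 303)) (XT.lf (nat_lit 0) (nat_lit 23285357854812) (nat_lit 76) (nat_lit 690189678006) (nat_lit 76) (nat_lit 690185805777) (nat_lit 1) (nat_lit 4) (nat_lit 2) (nat_lit 5) (nat_lit 2) (nat_lit 4) (nat_lit 415) (nat_lit 303) (nat_lit 302)))) (XT.nd (nat_lit 78) (nat_lit 0) (nat_lit 0) (XT.lf (nat_lit 0) (nat_lit 26778831201549) (nat_lit 76) (nat_lit 793360911922) (nat_lit 76) (nat_lit 793353672538) (nat_lit 1) (nat_lit 4) (nat_lit 2) (nat_lit 5) (nat_lit 2) (nat_lit 4) (nat_lit 416) (nat_lit 303) (nat_lit 301)) (XT.nd (nat_lit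 78) (nat_lit 0) (nat_lit 0) (XT.lf (nat_lit 0) (nat_lit 30796271468701) (nat_lit 76) (nat_lit 912036319766) (nat_lit 76) (nat_lit 912026152420) (nat_lit 1) (nat_lit 4) (nat_lit 2) (nat_lit 5) (nat_lit 2) (nat_lit 4) (nat_lit 417) (nat_lit 303) (nat_lit 300)) (XT.lf (nat_lit 0) (nat_lit 35416280748450) (nat_lit 76) (nat_lit 1048537811691) (nat_lit 76) (nat_lit 1048525098292) (nat_lit 1) (nat_lit 4) (nat_lit 2) (nat_lit 5) (nat_lit 2) (nat_lit 4) (nat_lit 418) (nat_lit 303) (nat_lit 299)))))) (XT.nd (nat_lit 468) (nat_lit 0) (nat_lit 0) (XT.nd (nat_lit 234) (nat_lit 0) (nat_lit 0) (XT.nd (nat_lit 78) (nat_lit 0) (nat_lit 0) (XT.lf (nat_lit 0) (nat_lit 40729250526704) (nat_lit 76) (nat_lit 1205536069061) (nat_lit 76) (nat_lit 1205521141703) (nat_lit 1) (nat_lit 4) (nat_lit 2) (nat_lit 5) (nat_lit 2) (nat_lit 4) (nat_lit 419) (nat_lit 303) (nat_lit 298)) (XT.nd (nat_lit 78) (nat_lit 0) (nat_lit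 0) (XT.lf (nat_lit 0) (nat_lit 46839130212168) (nat_lit 76) (nat_lit 1386102796912) (nat_lit 76) (nat_lit 1386085944372) (nat_lit 1) (nat_lit 4) (nat_lit 2) (nat_lit 5) (nat_lit 2) (nat_lit 4) (nat_lit 420) (nat_lit 303) (nat_lit 297)) (XT.lf (nat_lit 0) (nat_lit 53865460929124) (nat_lit 76) (nat_lit 1593770822527) (nat_lit 76) (nat_lit 1593752295915) (nat_lit 1) (nat_lit 4) (nat_lit 2) (nat_lit 5) (nat_lit 2) (nat_lit 4) (nat_lit 421) (nat_lit 303) (nat_lit 296)))) (XT.nd (nat_lit 78) (nat_lit 0) (nat_lit 0) (XT.lf (nat_lit 0) (nat_lit 61945714365512) (nat_lit 76) (nat_lit 1832603215973) (nat_lit 76) (nat_lit 1832583233647) (nat_lit 1) (nat_lit 4) (nat_lit 2) (nat_lit 5) (nat_lit 2) (nat_lit 4) (nat_lit 422) (nat_lit 303) (nat_lit 295)) (XT.nd (nat_lit 78) (nat_lit 0) (nat_lit 0) (XT.lf (nat_lit 0) (nat_lit 71237982436391) (nat_lit 76) (nat_lit 2107272784948) (nat_lit 76) (nat_lit 2107251536783)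 (nat_lit 1) (nat_lit 4) (nat_lit 2) (nat_lit 5) (nat_lit 2) (nat_lit 4) (nat_lit 423) (nat_lit 303) (nat_lit 294)) (XT.lf (nat_lit 0) (nat_lit 81924070386626) (nat_lit 76) (nat_lit 2423153499280) (nat_lit 76) (nat_lit 2423131150386) (nat_lit 1) (nat_lit 4) (nat_lit 2) (nat_lit 5) (nat_lit 2) (nat_lit 4) (nat_lit 424) (nat_lit 303) (nat_lit 293))))) (XT.nd (nat_lit 234) (nat_lit 0) (nat_lit 0) (XT.nd (nat_lit 78) (nat_lit 0) (nat_lit 0) (XT.lf (nat_lit 0) (nat_lit 94213053850027) (nat_lit 76) (nat_lit 2786425633813) (nat_lit 76) (nat_lit 2786402327763) (nat_lit 1) (nat_lit 4) (nat_lit 2) (nat_lit 5) (nat_lit 2) (nat_lit 4) (nat_lit 425) (nat_lit 303) (nat_lit 292)) (XT.nd (nat_lit 78) (nat_lit 0) (nat_lit 0) (XT.lf (nat_lit 0) (nat_lit 108345369459573) (nat_lit 76) (nat_lit 3204196686833) (nat_lit 76) (nat_lit 3204172548474) (nat_lit 1) (nat_lit 4) (nat_lit 2) (nat_lit 5) (nat_lit 2) (nat_lit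 4) (nat_lit 426) (nat_lit 303) (nat_lit 291)) (XT.lf (nat_lit 0) (nat_lit 124597519042407) (nat_lit 76) (nat_lit 3684640439812) (nat_lit 76) (nat_lit 3684615577705) (nat_lit 1) (nat_lit 4) (nat_lit 2) (nat_lit 5) (nat_lit 2) (nat_lit 4) (nat_lit 427) (nat_lit 303) (nat_lit 290)))) (XT.nd (nat_lit 78) (nat_lit 0) (nat_lit 0) (XT.lf (nat_lit 0) (nat_lit 143287479438193) (nat_lit 76) (nat_lit 4237156879220) (nat_lit 76) (nat_lit 4237131387768) (nat_lit 1) (nat_lit 4) (nat_lit 2) (nat_lit 5) (nat_lit 2) (nat_lit 4) (nat_lit 428) (nat_lit 303) (nat_lit 289)) (XT.nd (nat_lit 78) (nat_lit 0) (nat_lit 0) (XT.lf (nat_lit 0) (nat_lit 164780923785111) (nat_lit 76) (nat_lit 4872556109308) (nat_lit 76) (nat_lit 4872530070599) (nat_lit 1) (nat_lit 4) (nat_lit 2) (nat_lit 5) (nat_lit 2) (nat_lit 4) (nat_lit 429) (nat_lit 303) (nat_lit 288)) (XT.lf (nat_lit 0) (nat_lit 189498375994294) (nat_lit 76) (nat_lit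 5603269854142) (nat_lit 76) (nat_lit 5603243339558) (nat_lit 1) (nat_lit 4) (nat_lit 2) (nat_lit 5) (nat_lit 2) (nat_lit 4) (nat_lit 430) (nat_lit 303) (nat_lit 287))))))))
noncomputable def xc2 : XT := (XT.nd (nat_lit 53040) (nat_lit 0) (nat_lit 0) (XT.nd (nat_lit 52182) (nat_lit 0) (nat_lit 0) (XT.nd (nat_lit 51714) (nat_lit 0) (nat_lit 0) (XT.nd (nat_lit 156) (nat_lit 0) (nat_lit 0) (XT.nd (nat_lit 78) (nat_lit 0) (nat_lit 0) (XT.lf (nat_lit 0) (nat_lit 217923438391575) (nat_lit 76) (nat_lit 6443594686990) (nat_lit 76) (nat_lit 6443567758601) (nat_lit 1) (nat_lit 4) (nat_lit 2) (nat_lit 5) (nat_lit 2) (nat_lit 4) (nat_lit 431) (nat_lit 303) (nat_lit 286)) (XT.lf (nat_lit 0) (nat_lit 250612253502119) (nat_lit 76) (nat_lit 7409971745888) (nat_lit 76) (nat_lit 7409944457668) (nat_lit 1) (nat_lit 4) (nat_lit 2) (nat_lit 5) (nat_lit 2) (nat_lit 4) (nat_lit 432) (nat_lit 303) (nat_lit 285)))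 (XT.nd (nat_lit 78) (nat_lit 0) (nat_lit 0) (XT.lf (nat_lit 0) (nat_lit 288204385099828) (nat_lit 76) (nat_lit 8521308408073) (nat_lit 76) (nat_lit 8521280806958) (nat_lit 1) (nat_lit 4) (nat_lit 2) (nat_lit 5) (nat_lit 2) (nat_lit 4) (nat_lit 433) (nat_lit 303) (nat_lit 284)) (XT.nd (nat_lit 51402) (nat_lit 0) (nat_lit 0) (XT.lf (nat_lit 0) (nat_lit 331435331411611) (nat_lit 76) (nat_lit 9799348216937) (nat_lit 76) (nat_lit 9799320343738) (nat_lit 1) (nat_lit 4) (nat_lit 2) (nat_lit 5) (nat_lit 2) (nat_lit 4) (nat_lit 434) (nat_lit 303) (nat_lit 283)) (XT.lf (nat_lit 0) (nat_lit 7654340109559) (nat_lit 76) (nat_lit 227392278392) (nat_lit 76) (nat_lit 227392278392) (nat_lit 1) (nat_lit 4) (nat_lit 2) (nat_lit 5) (nat_lit 2) (nat_lit 4) (nat_lit 412) (nat_lit 304) (nat_lit 304))))) (XT.nd (nat_lit 234) (nat_lit 0) (nat_lit 0) (XT.nd (nat_lit 78) (nat_lit 0) (nat_lit 0) (XT.lf (nat_lit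 0) (nat_lit 17605823893691) (nat_lit 76) (nat_lit 522553763358) (nat_lit 76) (nat_lit 522549310295) (nat_lit 1) (nat_lit 4) (nat_lit 2) (nat_lit 5) (nat_lit 2) (nat_lit 4) (nat_lit 413) (nat_lit 304) (nat_lit 303)) (XT.nd (nat_lit 78) (nat_lit 0) (nat_lit 0) (XT.lf (nat_lit 0) (nat_lit 20247467596538) (nat_lit 76) (nat_lit 600526027410) (nat_lit 76) (nat_lit 600517702118) (nat_lit 1) (nat_lit 4) (nat_lit 2) (nat_lit 5) (nat_lit 2) (nat_lit 4) (nat_lit 414) (nat_lit 304) (nat_lit 302)) (XT.lf (nat_lit 0) (nat_lit 23285295660976) (nat_lit 76) (nat_lit 690226893235) (nat_lit 76) (nat_lit 690215200788) (nat_lit 1) (nat_lit 4) (nat_lit 2) (nat_lit 5) (nat_lit 2) (nat_lit 4) (nat_lit 415) (nat_lit 304) (nat_lit 301)))) (XT.nd (nat_lit 78) (nat_lit 0) (nat_lit 0) (XT.lf (nat_lit 0) (nat_lit 26778743853482) (nat_lit 76) (nat_lit 793411377775) (nat_lit 76) (nat_lit 793396757366) (nat_lit 1) (nat_lit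 4) (nat_lit 2) (nat_lit 5) (nat_lit 2) (nat_lit 4) (nat_lit 416) (nat_lit 304) (nat_lit 300)) (XT.nd (nat_lit 78) (nat_lit 0) (nat_lit 0) (XT.lf (nat_lit 0) (nat_lit 30796162247389) (nat_lit 76) (nat_lit 912098307900) (nat_lit 76) (nat_lit 912081141438) (nat_lit 1) (nat_lit 4) (nat_lit 2) (nat_lit 5) (nat_lit 2) (nat_lit 4) (nat_lit 417) (nat_lit 304) (nat_lit 299)) (XT.lf (nat_lit 0) (nat_lit 35416152506925) (nat_lit 76) (nat_lit 1048609819200) (nat_lit 76) (nat_lit 1048590438779) (nat_lit 1) (nat_lit 4) (nat_lit 2) (nat_lit 5) (nat_lit 2) (nat_lit 4) (nat_lit 418) (nat_lit 304) (nat_lit 298)))))) (XT.nd (nat_lit 390) (nat_lit 0) (nat_lit 0) (XT.nd (nat_lit 156) (nat_lit 0) (nat_lit 0) (XT.nd (nat_lit 78) (nat_lit 0) (nat_lit 0) (XT.lf (nat_lit 0) (nat_lit 40729105745864) (nat_lit 76) (nat_lit 1205616789071) (nat_lit 76) (nat_lit 1205595483467) (nat_lit 1) (nat_lit 4) (nat_lit 2) (nat_lit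 5) (nat_lit 2) (nat_lit 4) (nat_lit 419) (nat_lit 304) (nat_lit 297)) (XT.lf (nat_lit 0) (nat_lit 46838971049316) (nat_lit 76) (nat_lit 1386191093008) (nat_lit 76) (nat_lit 1386168113333) (nat_lit 1) (nat_lit 4) (nat_lit 2) (nat_lit 5) (nat_lit 2) (nat_lit 4) (nat_lit 420) (nat_lit 304) (nat_lit 296))) (XT.nd (nat_lit 78) (nat_lit 0) (nat_lit 0) (XT.lf (nat_lit 0) (nat_lit 53865289260173) (nat_lit 76) (nat_lit 1593865706525) (nat_lit 76) (nat_lit 1593841271136) (nat_lit 1) (nat_lit 4) (nat_lit 2) (nat_lit 5) (nat_lit 2) (nat_lit 4) (nat_lit 421) (nat_lit 304) (nat_lit 295)) (XT.nd (nat_lit 78) (nat_lit 0) (nat_lit 0) (XT.lf (nat_lit 0) (nat_lit 61945531821692) (nat_lit 76) (nat_lit 1832703828581) (nat_lit 76) (nat_lit 1832678127353) (nat_lit 1) (nat_lit 4) (nat_lit 2) (nat_lit 5) (nat_lit 2) (nat_lit 4) (nat_lit 422) (nat_lit 304) (nat_lit 294)) (XT.lf (nat_lit 0) (nat_lit 71237790436164)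 (nat_lit 76) (nat_lit 2107378378956) (nat_lit 76) (nat_lit 2107351576999) (nat_lit 1) (nat_lit 4) (nat_lit 2) (nat_lit 5) (nat_lit 2) (nat_lit 4) (nat_lit 423) (nat_lit 304) (nat_lit 293))))) (XT.nd (nat_lit 234) (nat_lit 0) (nat_lit 0) (XT.nd (nat_lit 78) (nat_lit 0) (nat_lit 0) (XT.lf (nat_lit 0) (nat_lit 81923870163437) (nat_lit 76) (nat_lit 2423263424940) (nat_lit 76) (nat_lit 2423235665827) (nat_lit 1) (nat_lit 4) (nat_lit 2) (nat_lit 5) (nat_lit 2) (nat_lit 4) (nat_lit 424) (nat_lit 304) (nat_lit 292)) (XT.nd (nat_lit 78) (nat_lit 0) (nat_lit 0) (XT.lf (nat_lit 0) (nat_lit 94212846476435) (nat_lit 76) (nat_lit 2786539326127) (nat_lit 76) (nat_lit 2786510734705) (nat_lit 1) (nat_lit 4) (nat_lit 2) (nat_lit 5) (nat_lit 2) (nat_lit 4) (nat_lit 425) (nat_lit 304) (nat_lit 291)) (XT.lf (nat_lit 0) (nat_lit 108345155868240) (nat_lit 76) (nat_lit 3204313654499) (nat_lit 76) (nat_lit 3204284339330)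 (nat_lit 1) (nat_lit 4) (nat_lit 2) (nat_lit 5) (nat_lit 2) (nat_lit 4) (nat_lit 426) (nat_lit 304) (nat_lit 290)))) (XT.nd (nat_lit 78) (nat_lit 0) (nat_lit 0) (XT.lf (nat_lit 0) (nat_lit 124597300044342) (nat_lit 76) (nat_lit 3684760255609) (nat_lit 76) (nat_lit 3684730311094) (nat_lit 1) (nat_lit 4) (nat_lit 2) (nat_lit 5) (nat_lit 2) (nat_lit 4) (nat_lit 427) (nat_lit 304) (nat_lit 289)) (XT.nd (nat_lit 78) (nat_lit 0) (nat_lit 0) (XT.lf (nat_lit 0) (nat_lit 143287255738623) (nat_lit 76) (nat_lit 4237279171654) (nat_lit 76) (nat_lit 4237248679882) (nat_lit 1) (nat_lit 4) (nat_lit 2) (nat_lit 5) (nat_lit 2) (nat_lit 4) (nat_lit 428) (nat_lit 304) (nat_lit 288)) (XT.lf (nat_lit 0) (nat_lit 164780695997275) (nat_lit 76) (nat_lit 4872680555339) (nat_lit 76) (nat_lit 4872649587691) (nat_lit 1) (nat_lit 4) (nat_lit 2) (nat_lit 5) (nat_lit 2) (nat_lit 4) (nat_lit 429) (nat_lit 304) (nat_lit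 287))))))) (XT.nd (nat_lit 51948) (nat_lit 0) (nat_lit 0) (XT.nd (nat_lit 390) (nat_lit 0) (nat_lit 0) (XT.nd (nat_lit 156) (nat_lit 0) (nat_lit 0) (XT.nd (nat_lit 78) (nat_lit 0) (nat_lit 0) (XT.lf (nat_lit 0) (nat_lit 189498144651445) (nat_lit 76) (nat_lit 5603396172865) (nat_lit 76) (nat_lit 5603364791413) (nat_lit 1) (nat_lit 4) (nat_lit 2) (nat_lit 5) (nat_lit 2) (nat_lit 4) (nat_lit 430) (nat_lit 304) (nat_lit 286)) (XT.lf (nat_lit 0) (nat_lit 217923203957410) (nat_lit 76) (nat_lit 6443722634142) (nat_lit 76) (nat_lit 6443690892860) (nat_lit 1) (nat_lit 4) (nat_lit 2) (nat_lit 5) (nat_lit 2) (nat_lit 4) (nat_lit 431) (nat_lit 304) (nat_lit 285))) (XT.nd (nat_lit 78) (nat_lit 0) (nat_lit 0) (XT.lf (nat_lit 0) (nat_lit 250612016379853) (nat_lit 76) (nat_lit 7410101109065) (nat_lit 76) (nat_lit 7410069054886) (nat_lit 1) (nat_lit 4) (nat_lit 2) (nat_lit 5) (nat_lit 2) (nat_lit 4) (nat_lit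 432) (nat_lit 304) (nat_lit 284)) (XT.nd (nat_lit 78) (nat_lit 0) (nat_lit 0) (XT.lf (nat_lit 0) (nat_lit 288204145640082) (nat_lit 76) (nat_lit 8521439002576) (nat_lit 76) (nat_lit 8521406676314) (nat_lit 1) (nat_lit 4) (nat_lit 2) (nat_lit 5) (nat_lit 2) (nat_lit 4) (nat_lit 433) (nat_lit 304) (nat_lit 283)) (XT.lf (nat_lit 0) (nat_lit 331435089919274) (nat_lit 76) (nat_lit 9799479882157) (nat_lit 76) (nat_lit 9799447319302) (nat_lit 1) (nat_lit 4) (nat_lit 2) (nat_lit 5) (nat_lit 2) (nat_lit 4) (nat_lit 434) (nat_lit 304) (nat_lit 282))))) (XT.nd (nat_lit 51324) (nat_lit 0) (nat_lit 0) (XT.nd (nat_lit 51168) (nat_lit 0) (nat_lit 0) (XT.lf (nat_lit 0) (nat_lit 381150672040286) (nat_lit 76) (nat_lit 11269228895454) (nat_lit 76) (nat_lit 11269196126864) (nat_lit 1) (nat_lit 4) (nat_lit 2) (nat_lit 5) (nat_lit 2) (nat_lit 4) (nat_lit 435) (nat_lit 304) (nat_lit 281)) (XT.nd (nat_lit 78)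 (nat_lit 0) (nat_lit 0) (XT.lf (nat_lit 0) (nat_lit 5787010682386) (nat_lit 76) (nat_lit 172353633885) (nat_lit 76) (nat_lit 172353633885) (nat_lit 1) (nat_lit 4) (nat_lit 2) (nat_lit 5) (nat_lit 2) (nat_lit 4) (nat_lit 410) (nat_lit 305) (nat_lit 305)) (XT.lf (nat_lit 0) (nat_lit 13311092457448) (nat_lit 76) (nat_lit 395897609451) (nat_lit 76) (nat_lit 395892488429) (nat_lit 1) (nat_lit 4) (nat_lit 2) (nat_lit 5) (nat_lit 2) (nat_lit 4) (nat_lit 411) (nat_lit 305) (nat_lit 304)))) (XT.nd (nat_lit 78) (nat_lit 0) (nat_lit 0) (XT.lf (nat_lit 0) (nat_lit 15308641962678) (nat_lit 76) (nat_lit 454809830349) (nat_lit 76) (nat_lit 454800256263) (nat_lit 1) (nat_lit 4) (nat_lit 2) (nat_lit 5) (nat_lit 2) (nat_lit 4) (nat_lit 412) (nat_lit 305) (nat_lit 303)) (XT.nd (nat_lit 78) (nat_lit 0) (nat_lit 0) (XT.lf (nat_lit 0) (nat_lit 17605752370780) (nat_lit 76) (nat_lit 522596560872) (nat_lit 76)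 (nat_lit 522583114558) (nat_lit 1) (nat_lit 4) (nat_lit 2) (nat_lit 5) (nat_lit 2) (nat_lit 4) (nat_lit 413) (nat_lit 305) (nat_lit 302)) (XT.lf (nat_lit 0) (nat_lit 20247367146261) (nat_lit 76) (nat_lit 600584063141) (nat_lit 76) (nat_lit 600567249670) (nat_lit 1) (nat_lit 4) (nat_lit 2) (nat_lit 5) (nat_lit 2) (nat_lit 4) (nat_lit 414) (nat_lit 305) (nat_lit 301)))))) (XT.nd (nat_lit 468) (nat_lit 0) (nat_lit 0) (XT.nd (nat_lit 234) (nat_lit 0) (nat_lit 0) (XT.nd (nat_lit 78) (nat_lit 0) (nat_lit 0) (XT.lf (nat_lit 0) (nat_lit 23285170056467) (nat_lit 76) (nat_lit 690298179590) (nat_lit 76) (nat_lit 690278438158) (nat_lit 1) (nat_lit 4) (nat_lit 2) (nat_lit 5) (nat_lit 2) (nat_lit 4) (nat_lit 415) (nat_lit 305) (nat_lit 300)) (XT.nd (nat_lit 78) (nat_lit 0) (nat_lit 0) (XT.lf (nat_lit 0) (nat_lit 26778596375729) (nat_lit 76) (nat_lit 793494186410) (nat_lit 76) (nat_lit 793471898926)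 (nat_lit 1) (nat_lit 4) (nat_lit 2) (nat_lit 5) (nat_lit 2) (nat_lit 4) (nat_lit 416) (nat_lit 305) (nat_lit 299)) (XT.lf (nat_lit 0) (nat_lit 30795995749424) (nat_lit 76) (nat_lit 912191135911) (nat_lit 76) (nat_lit 912166634466) (nat_lit 1) (nat_lit 4) (nat_lit 2) (nat_lit 5) (nat_lit 2) (nat_lit 4) (nat_lit 417) (nat_lit 305) (nat_lit 298)))) (XT.nd (nat_lit 78) (nat_lit 0) (nat_lit 0) (XT.lf (nat_lit 0) (nat_lit 35415969469645) (nat_lit 76) (nat_lit 1048711359711) (nat_lit 76) (nat_lit 1048684933084) (nat_lit 1) (nat_lit 4) (nat_lit 2) (nat_lit 5) (nat_lit 2) (nat_lit 4) (nat_lit 418) (nat_lit 305) (nat_lit 297)) (XT.nd (nat_lit 78) (nat_lit 0) (nat_lit 0) (XT.lf (nat_lit 0) (nat_lit 40728908326571) (nat_lit 76) (nat_lit 1205725905668) (nat_lit 76) (nat_lit 1205697804970) (nat_lit 1) (nat_lit 4) (nat_lit 2) (nat_lit 5) (nat_lit 2) (nat_lit 4) (nat_lit 419) (nat_lit 305) (nat_lit 296))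 (XT.lf (nat_lit 0) (nat_lit 46838761123924) (nat_lit 76) (nat_lit 1386306797507) (nat_lit 76) (nat_lit 1386277241095) (nat_lit 1) (nat_lit 4) (nat_lit 2) (nat_lit 5) (nat_lit 2) (nat_lit 4) (nat_lit 420) (nat_lit 305) (nat_lit 295))))) (XT.nd (nat_lit 234) (nat_lit 0) (nat_lit 0) (XT.nd (nat_lit 78) (nat_lit 0) (nat_lit 0) (XT.lf (nat_lit 0) (nat_lit 53865068459913) (nat_lit 76) (nat_lit 1593987139634) (nat_lit 76) (nat_lit 1593956317384) (nat_lit 1) (nat_lit 4) (nat_lit 2) (nat_lit 5) (nat_lit 2) (nat_lit 4) (nat_lit 421) (nat_lit 305) (nat_lit 294)) (XT.nd (nat_lit 78) (nat_lit 0) (nat_lit 0) (XT.lf (nat_lit 0) (nat_lit 61945301565025) (nat_lit 76) (nat_lit 1832830243091) (nat_lit 76) (nat_lit 1832798320111) (nat_lit 1) (nat_lit 4) (nat_lit 2) (nat_lit 5) (nat_lit 2) (nat_lit 4) (nat_lit 422) (nat_lit 305) (nat_lit 293)) (XT.lf (nat_lit 0) (nat_lit 71237551956534) (nat_lit 76) (nat_lit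 2107509125118) (nat_lit 76) (nat_lit 2107476244982) (nat_lit 1) (nat_lit 4) (nat_lit 2) (nat_lit 5) (nat_lit 2) (nat_lit 4) (nat_lit 423) (nat_lit 305) (nat_lit 292)))) (XT.nd (nat_lit 78) (nat_lit 0) (nat_lit 0) (XT.lf (nat_lit 0) (nat_lit 81923624533404) (nat_lit 76) (nat_lit 2423397937756) (nat_lit 76) (nat_lit 2423364225311) (nat_lit 1) (nat_lit 4) (nat_lit 2) (nat_lit 5) (nat_lit 2) (nat_lit 4) (nat_lit 424) (nat_lit 305) (nat_lit 291)) (XT.nd (nat_lit 78) (nat_lit 0) (nat_lit 0) (XT.lf (nat_lit 0) (nat_lit 94212594628661) (nat_lit 76) (nat_lit 2786677114295) (nat_lit 76) (nat_lit 2786642678103) (nat_lit 1) (nat_lit 4) (nat_lit 2) (nat_lit 5) (nat_lit 2) (nat_lit 4) (nat_lit 425) (nat_lit 305) (nat_lit 290)) (XT.lf (nat_lit 0) (nat_lit 108344898613734) (nat_lit 76) (nat_lit 3204454290798) (nat_lit 76) (nat_lit 3204419225260) (nat_lit 1) (nat_lit 4) (nat_lit 2) (nat_lit 5) (nat_lit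 2) (nat_lit 4) (nat_lit 426) (nat_lit 305) (nat_lit 289))))))))
noncomputable def xc3 : XT := (XT.nd (nat_lit 52650) (nat_lit 0) (nat_lit 0) (XT.nd (nat_lit 51714) (nat_lit 0) (nat_lit 0) (XT.nd (nat_lit 390) (nat_lit 0) (nat_lit 0) (XT.nd (nat_lit 156) (nat_lit 0) (nat_lit 0) (XT.nd (nat_lit 78) (nat_lit 0) (nat_lit 0) (XT.lf (nat_lit 0) (nat_lit 124597038088332) (nat_lit 76) (nat_lit 3684903368545) (nat_lit 76) (nat_lit 3684867755750) (nat_lit 1) (nat_lit 4) (nat_lit 2) (nat_lit 5) (nat_lit 2) (nat_lit 4) (nat_lit 427) (nat_lit 305) (nat_lit 288)) (XT.lf (nat_lit 0) (nat_lit 143286989694346) (nat_lit 76) (nat_lit 4237424438186) (nat_lit 76) (nat_lit 4237388349516) (nat_lit 1) (nat_lit 4) (nat_lit 2) (nat_lit 5) (nat_lit 2) (nat_lit 4) (nat_lit 428) (nat_lit 305) (nat_lit 287))) (XT.nd (nat_lit 78) (nat_lit 0) (nat_lit 0) (XT.lf (nat_lit 0) (nat_lit 164780426397984) (nat_lit 76) (nat_lit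 4872827694563) (nat_lit 76) (nat_lit 4872791192089) (nat_lit 1) (nat_lit 4) (nat_lit 2) (nat_lit 5) (nat_lit 2) (nat_lit 4) (nat_lit 429) (nat_lit 305) (nat_lit 286)) (XT.nd (nat_lit 78) (nat_lit 0) (nat_lit 0) (XT.lf (nat_lit 0) (nat_lit 189497871960838) (nat_lit 76) (nat_lit 5603544940519) (nat_lit 76) (nat_lit 5603508078214) (nat_lit 1) (nat_lit 4) (nat_lit 2) (nat_lit 5) (nat_lit 2) (nat_lit 4) (nat_lit 430) (nat_lit 305) (nat_lit 285)) (XT.lf (nat_lit 0) (nat_lit 217922928578702) (nat_lit 76) (nat_lit 6443872817821) (nat_lit 76) (nat_lit 6443835642620) (nat_lit 1) (nat_lit 4) (nat_lit 2) (nat_lit 5) (nat_lit 2) (nat_lit 4) (nat_lit 431) (nat_lit 305) (nat_lit 284))))) (XT.nd (nat_lit 234) (nat_lit 0) (nat_lit 0) (XT.nd (nat_lit 78) (nat_lit 0) (nat_lit 0) (XT.lf (nat_lit 0) (nat_lit 250611738663666) (nat_lit 76) (nat_lit 7410252524069) (nat_lit 76) (nat_lit 7410215076784) (nat_lit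 1) (nat_lit 4) (nat_lit 2) (nat_lit 5) (nat_lit 2) (nat_lit 4) (nat_lit 432) (nat_lit 305) (nat_lit 283)) (XT.nd (nat_lit 78) (nat_lit 0) (nat_lit 0) (XT.lf (nat_lit 0) (nat_lit 288203865891304) (nat_lit 76) (nat_lit 8521591488298) (nat_lit 76) (nat_lit 8521553804419) (nat_lit 1) (nat_lit 4) (nat_lit 2) (nat_lit 5) (nat_lit 2) (nat_lit 4) (nat_lit 433) (nat_lit 305) (nat_lit 282)) (XT.lf (nat_lit 0) (nat_lit 331434808403027) (nat_lit 76) (nat_lit 9799633298939) (nat_lit 76) (nat_lit 9799595409326) (nat_lit 1) (nat_lit 4) (nat_lit 2) (nat_lit 5) (nat_lit 2) (nat_lit 4) (nat_lit 434) (nat_lit 305) (nat_lit 281)))) (XT.nd (nat_lit 312) (nat_lit 0) (nat_lit 0) (XT.lf (nat_lit 0) (nat_lit 381150388987108) (nat_lit 76) (nat_lit 11269383121853) (nat_lit 76) (nat_lit 11269345053341) (nat_lit 1) (nat_lit 4) (nat_lit 2) (nat_lit 5) (nat_lit 2) (nat_lit 4) (nat_lit 435) (nat_lit 305) (nat_lit 280))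 (XT.nd (nat_lit 50700) (nat_lit 0) (nat_lit 0) (XT.lf (nat_lit 0) (nat_lit 666636177181080) (nat_lit 76) (nat_lit 19709262531741) (nat_lit 76) (nat_lit 19709223952475) (nat_lit 1) (nat_lit 4) (nat_lit 2) (nat_lit 5) (nat_lit 2) (nat_lit 4) (nat_lit 439) (nat_lit 305) (nat_lit 276)) (XT.lf (nat_lit 0) (nat_lit 4374925843453) (nat_lit 76) (nat_lit 130798371773) (nat_lit 76) (nat_lit 130798371773) (nat_lit 1) (nat_lit 4) (nat_lit 2) (nat_lit 5) (nat_lit 2) (nat_lit 4) (nat_lit 408) (nat_lit 306) (nat_lit 306)))))) (XT.nd (nat_lit 468) (nat_lit 0) (nat_lit 0) (XT.nd (nat_lit 234) (nat_lit 0) (nat_lit 0) (XT.nd (nat_lit 78) (nat_lit 0) (nat_lit 0) (XT.lf (nat_lit 0) (nat_lit 10063442511096) (nat_lit 76) (nat_lit 300243144320) (nat_lit 76) (nat_lit 300237255144) (nat_lit 1) (nat_lit 4) (nat_lit 2) (nat_lit 5) (nat_lit 2) (nat_lit 4) (nat_lit 409) (nat_lit 306) (nat_lit 305)) (XT.nd (nat_lit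 78) (nat_lit 0) (nat_lit 0) (XT.lf (nat_lit 0) (nat_lit 11573977369865) (nat_lit 76) (nat_lit 344736332370) (nat_lit 76) (nat_lit 344725322171) (nat_lit 1) (nat_lit 4) (nat_lit 2) (nat_lit 5) (nat_lit 2) (nat_lit 4) (nat_lit 410) (nat_lit 306) (nat_lit 304)) (XT.lf (nat_lit 0) (nat_lit 13311010206100) (nat_lit 76) (nat_lit 395946826592) (nat_lit 76) (nat_lit 395931363330) (nat_lit 1) (nat_lit 4) (nat_lit 2) (nat_lit 5) (nat_lit 2) (nat_lit 4) (nat_lit 411) (nat_lit 306) (nat_lit 303)))) (XT.nd (nat_lit 78) (nat_lit 0) (nat_lit 0) (XT.lf (nat_lit 0) (nat_lit 15308526444859) (nat_lit 76) (nat_lit 454876571439) (nat_lit 76) (nat_lit 454857235949) (nat_lit 1) (nat_lit 4) (nat_lit 2) (nat_lit 5) (nat_lit 2) (nat_lit 4) (nat_lit 412) (nat_lit 306) (nat_lit 302)) (XT.nd (nat_lit 78) (nat_lit 0) (nat_lit 0) (XT.lf (nat_lit 0) (nat_lit 17605607925595) (nat_lit 76) (nat_lit 522678540180) (nat_lit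 76) (nat_lit 522655837533) (nat_lit 1) (nat_lit 4) (nat_lit 2) (nat_lit 5) (nat_lit 2) (nat_lit 4) (nat_lit 413) (nat_lit 306) (nat_lit 301)) (XT.lf (nat_lit 0) (nat_lit 20247197546845) (nat_lit 76) (nat_lit 600679293072) (nat_lit 76) (nat_lit 600653662464) (nat_lit 1) (nat_lit 4) (nat_lit 2) (nat_lit 5) (nat_lit 2) (nat_lit 4) (nat_lit 414) (nat_lit 306) (nat_lit 300))))) (XT.nd (nat_lit 234) (nat_lit 0) (nat_lit 0) (XT.nd (nat_lit 78) (nat_lit 0) (nat_lit 0) (XT.lf (nat_lit 0) (nat_lit 23284978583807) (nat_lit 76) (nat_lit 690404931802) (nat_lit 76) (nat_lit 690376755141) (nat_lit 1) (nat_lit 4) (nat_lit 2) (nat_lit 5) (nat_lit 2) (nat_lit 4) (nat_lit 415) (nat_lit 306) (nat_lit 299)) (XT.nd (nat_lit 78) (nat_lit 0) (nat_lit 0) (XT.lf (nat_lit 0) (nat_lit 26778385882857) (nat_lit 76) (nat_lit 793610957997) (nat_lit 76) (nat_lit 793580567377) (nat_lit 1) (nat_lit 4) (nat_lit 2) (nat_lit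 5) (nat_lit 2) (nat_lit 4) (nat_lit 416) (nat_lit 306) (nat_lit 298)) (XT.lf (nat_lit 0) (nat_lit 30795768717236) (nat_lit 76) (nat_lit 912316619998) (nat_lit 76) (nat_lit 912284304195) (nat_lit 1) (nat_lit 4) (nat_lit 2) (nat_lit 5) (nat_lit 2) (nat_lit 4) (nat_lit 417) (nat_lit 306) (nat_lit 297)))) (XT.nd (nat_lit 78) (nat_lit 0) (nat_lit 0) (XT.lf (nat_lit 0) (nat_lit 35415728055444) (nat_lit 76) (nat_lit 1048844419885) (nat_lit 76) (nat_lit 1048810430011) (nat_lit 1) (nat_lit 4) (nat_lit 2) (nat_lit 5) (nat_lit 2) (nat_lit 4) (nat_lit 418) (nat_lit 306) (nat_lit 296)) (XT.nd (nat_lit 78) (nat_lit 0) (nat_lit 0) (XT.lf (nat_lit 0) (nat_lit 40728654406271) (nat_lit 76) (nat_lit 1205865553744) (nat_lit 76) (nat_lit 1205830108155) (nat_lit 1) (nat_lit 4) (nat_lit 2) (nat_lit 5) (nat_lit 2) (nat_lit 4) (nat_lit 419) (nat_lit 306) (nat_lit 295)) (XT.lf (nat_lit 0) (nat_lit 46838496328756)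 (nat_lit 76) (nat_lit 1386452174193) (nat_lit 76) (nat_lit 1386415462766) (nat_lit 1) (nat_lit 4) (nat_lit 2) (nat_lit 5) (nat_lit 2) (nat_lit 4) (nat_lit 420) (nat_lit 306) (nat_lit 294))))))) (XT.nd (nat_lit 858) (nat_lit 0) (nat_lit 0) (XT.nd (nat_lit 390) (nat_lit 0) (nat_lit 0) (XT.nd (nat_lit 156) (nat_lit 0) (nat_lit 0) (XT.nd (nat_lit 78) (nat_lit 0) (nat_lit 0) (XT.lf (nat_lit 0) (nat_lit 53864794208338) (nat_lit 76) (nat_lit 1594137497720) (nat_lit 76) (nat_lit 1594099685564) (nat_lit 1) (nat_lit 4) (nat_lit 2) (nat_lit 5) (nat_lit 2) (nat_lit 4) (nat_lit 421) (nat_lit 306) (nat_lit 293)) (XT.lf (nat_lit 0) (nat_lit 61945019090487) (nat_lit 76) (nat_lit 1832984932829) (nat_lit 76) (nat_lit 1832946163517) (nat_lit 1) (nat_lit 4) (nat_lit 2) (nat_lit 5) (nat_lit 2) (nat_lit 4) (nat_lit 422) (nat_lit 306) (nat_lit 292))) (XT.nd (nat_lit 78) (nat_lit 0) (nat_lit 0) (XT.lf (nat_lit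 0) (nat_lit 71237262331594) (nat_lit 76) (nat_lit 2107667581510) (nat_lit 76) (nat_lit 2107627979889) (nat_lit 1) (nat_lit 4) (nat_lit 2) (nat_lit 5) (nat_lit 2) (nat_lit 4) (nat_lit 423) (nat_lit 306) (nat_lit 291)) (XT.nd (nat_lit 78) (nat_lit 0) (nat_lit 0) (XT.lf (nat_lit 0) (nat_lit 81923328690723) (nat_lit 76) (nat_lit 2423559669500) (nat_lit 76) (nat_lit 2423519344131) (nat_lit 1) (nat_lit 4) (nat_lit 2) (nat_lit 5) (nat_lit 2) (nat_lit 4) (nat_lit 424) (nat_lit 306) (nat_lit 290)) (XT.lf (nat_lit 0) (nat_lit 94212293379249) (nat_lit 76) (nat_lit 2786841694170) (nat_lit 76) (nat_lit 2786800739457) (nat_lit 1) (nat_lit 4) (nat_lit 2) (nat_lit 5) (nat_lit 2) (nat_lit 4) (nat_lit 425) (nat_lit 306) (nat_lit 289))))) (XT.nd (nat_lit 234) (nat_lit 0) (nat_lit 0) (XT.nd (nat_lit 78) (nat_lit 0) (nat_lit 0) (XT.lf (nat_lit 0) (nat_lit 108344592662816) (nat_lit 76) (nat_lit 3204621347310)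 (nat_lit 76) (nat_lit 3204579845339) (nat_lit 1) (nat_lit 4) (nat_lit 2) (nat_lit 5) (nat_lit 2) (nat_lit 4) (nat_lit 426) (nat_lit 306) (nat_lit 288)) (XT.nd (nat_lit 78) (nat_lit 0) (nat_lit 0) (XT.lf (nat_lit 0) (nat_lit 124596728049148) (nat_lit 76) (nat_lit 3685072578653) (nat_lit 76) (nat_lit 3685030600807) (nat_lit 1) (nat_lit 4) (nat_lit 2) (nat_lit 5) (nat_lit 2) (nat_lit 4) (nat_lit 427) (nat_lit 306) (nat_lit 287)) (XT.lf (nat_lit 0) (nat_lit 143286676100149) (nat_lit 76) (nat_lit 4237595520987) (nat_lit 76) (nat_lit 4237553129336) (nat_lit 1) (nat_lit 4) (nat_lit 2) (nat_lit 5) (nat_lit 2) (nat_lit 4) (nat_lit 428) (nat_lit 306) (nat_lit 286)))) (XT.nd (nat_lit 78) (nat_lit 0) (nat_lit 0) (XT.lf (nat_lit 0) (nat_lit 164780109712470) (nat_lit 76) (nat_lit 4873000405793) (nat_lit 76) (nat_lit 4872957654312) (nat_lit 1) (nat_lit 4) (nat_lit 2) (nat_lit 5) (nat_lit 2) (nat_lit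 4) (nat_lit 429) (nat_lit 306) (nat_lit 285)) (XT.nd (nat_lit 78) (nat_lit 0) (nat_lit 0) (XT.lf (nat_lit 0) (nat_lit 189497552587223) (nat_lit 76) (nat_lit 5603719067773) (nat_lit 76) (nat_lit 5603676003397) (nat_lit 1) (nat_lit 4) (nat_lit 2) (nat_lit 5) (nat_lit 2) (nat_lit 4) (nat_lit 430) (nat_lit 306) (nat_lit 284)) (XT.lf (nat_lit 0) (nat_lit 217922606867607) (nat_lit 76) (nat_lit 6444048176401) (nat_lit 76) (nat_lit 6444004839941) (nat_lit 1) (nat_lit 4) (nat_lit 2) (nat_lit 5) (nat_lit 2) (nat_lit 4) (nat_lit 431) (nat_lit 306) (nat_lit 283)))))) (XT.nd (nat_lit 51090) (nat_lit 0) (nat_lit 0) (XT.nd (nat_lit 234) (nat_lit 0) (nat_lit 0) (XT.nd (nat_lit 78) (nat_lit 0) (nat_lit 0) (XT.lf (nat_lit 0) (nat_lit 250611414919981) (nat_lit 76) (nat_lit 7410428953367) (nat_lit 76) (nat_lit 7410385380313) (nat_lit 1) (nat_lit 4) (nat_lit 2) (nat_lit 5) (nat_lit 2) (nat_lit 4) (nat_lit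 432) (nat_lit 306) (nat_lit 282)) (XT.nd (nat_lit 78) (nat_lit 0) (nat_lit 0) (XT.lf (nat_lit 0) (nat_lit 288203540380149) (nat_lit 76) (nat_lit 8521768848656) (nat_lit 76) (nat_lit 8521725069867) (nat_lit 1) (nat_lit 4) (nat_lit 2) (nat_lit 5) (nat_lit 2) (nat_lit 4) (nat_lit 433) (nat_lit 306) (nat_lit 281)) (XT.lf (nat_lit 0) (nat_lit 331434481354941) (nat_lit 76) (nat_lit 9799811468914) (nat_lit 76) (nat_lit 9799767511226) (nat_lit 1) (nat_lit 4) (nat_lit 2) (nat_lit 5) (nat_lit 2) (nat_lit 4) (nat_lit 434) (nat_lit 306) (nat_lit 280)))) (XT.nd (nat_lit 234) (nat_lit 0) (nat_lit 0) (XT.lf (nat_lit 0) (nat_lit 381150060602561) (nat_lit 76) (nat_lit 11269561995842) (nat_lit 76) (nat_lit 11269517882590) (nat_lit 1) (nat_lit 4) (nat_lit 2) (nat_lit 5) (nat_lit 2) (nat_lit 4) (nat_lit 435) (nat_lit 306) (nat_lit 279)) (XT.nd (nat_lit 78) (nat_lit 0) (nat_lit 0) (XT.lf (nat_lit 0) (nat_lit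 579682996643530) (nat_lit 76) (nat_lit 17138835032783) (nat_lit 76) (nat_lit 17138790564341) (nat_lit 1) (nat_lit 4) (nat_lit 2) (nat_lit 5) (nat_lit 2) (nat_lit 4) (nat_lit 438) (nat_lit 306) (nat_lit 276)) (XT.lf (nat_lit 0) (nat_lit 666635844980965) (nat_lit 76) (nat_lit 19709443415677) (nat_lit 76) (nat_lit 19709398858290) (nat_lit 1) (nat_lit 4) (nat_lit 2) (nat_lit 5) (nat_lit 2) (nat_lit 4) (nat_lit 439) (nat_lit 306) (nat_lit 275))))) (XT.nd (nat_lit 234) (nat_lit 0) (nat_lit 0) (XT.nd (nat_lit 78) (nat_lit 0) (nat_lit 0) (XT.lf (nat_lit 0) (nat_lit 3307053989316) (nat_lit 76) (nat_lit 99447762930) (nat_lit 76) (nat_lit 99447762930) (nat_lit 1) (nat_lit 4) (nat_lit 2) (nat_lit 5) (nat_lit 2) (nat_lit 4) (nat_lit 406) (nat_lit 307) (nat_lit 307)) (XT.nd (nat_lit 78) (nat_lit 0) (nat_lit 0) (XT.lf (nat_lit 0) (nat_lit 7607504207255) (nat_lit 76) (nat_lit 228047777368) (nat_lit 76)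 (nat_lit 228041004816) (nat_lit 1) (nat_lit 4) (nat_lit 2) (nat_lit 5) (nat_lit 2) (nat_lit 4) (nat_lit 407) (nat_lit 307) (nat_lit 306)) (XT.lf (nat_lit 0) (nat_lit 8749801092763) (nat_lit 76) (nat_lit 261630167835) (nat_lit 76) (nat_lit 261617506107) (nat_lit 1) (nat_lit 4) (nat_lit 2) (nat_lit 5) (nat_lit 2) (nat_lit 4) (nat_lit 408) (nat_lit 307) (nat_lit 305)))) (XT.nd (nat_lit 78) (nat_lit 0) (nat_lit 0) (XT.lf (nat_lit 0) (nat_lit 10063347922046) (nat_lit 76) (nat_lit 300299744033) (nat_lit 76) (nat_lit 300281961281) (nat_lit 1) (nat_lit 4) (nat_lit 2) (nat_lit 5) (nat_lit 2) (nat_lit 4) (nat_lit 409) (nat_lit 307) (nat_lit 304)) (XT.nd (nat_lit 78) (nat_lit 0) (nat_lit 0) (XT.lf (nat_lit 0) (nat_lit 11573844524373) (nat_lit 76) (nat_lit 344813084624) (nat_lit 76) (nat_lit 344790848810) (nat_lit 1) (nat_lit 4) (nat_lit 2) (nat_lit 5) (nat_lit 2) (nat_lit 4) (nat_lit 410) (nat_lit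 307) (nat_lit 303)) (XT.lf (nat_lit 0) (nat_lit 13310844094137) (nat_lit 76) (nat_lit 396041102796) (nat_lit 76) (nat_lit 396014994753) (nat_lit 1) (nat_lit 4) (nat_lit 2) (nat_lit 5) (nat_lit 2) (nat_lit 4) (nat_lit 411) (nat_lit 307) (nat_lit 302))))))))
noncomputable def xc4 : XT := (XT.nd (nat_lit 1716) (nat_lit 0) (nat_lit 0) (XT.nd (nat_lit 858) (nat_lit 0) (nat_lit 0) (XT.nd (nat_lit 390) (nat_lit 0) (nat_lit 0) (XT.nd (nat_lit 156) (nat_lit 0) (nat_lit 0) (XT.nd (nat_lit 78) (nat_lit 0) (nat_lit 0) (XT.lf (nat_lit 0) (nat_lit 15308331405531) (nat_lit 76) (nat_lit 454986085860) (nat_lit 76) (nat_lit 454956610661) (nat_lit 1) (nat_lit 4) (nat_lit 2) (nat_lit 5) (nat_lit 2) (nat_lit 4) (nat_lit 412) (nat_lit 307) (nat_lit 301)) (XT.lf (nat_lit 0) (nat_lit 17605387732036) (nat_lit 76) (nat_lit 522801305224) (nat_lit 76) (nat_lit 522768902063) (nat_lit 1) (nat_lit 4) (nat_lit 2) (nat_lit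 5) (nat_lit 2) (nat_lit 4) (nat_lit 413) (nat_lit 307) (nat_lit 300))) (XT.nd (nat_lit 78) (nat_lit 0) (nat_lit 0) (XT.lf (nat_lit 0) (nat_lit 20246955480042) (nat_lit 76) (nat_lit 600813580397) (nat_lit 76) (nat_lit 600778631183) (nat_lit 1) (nat_lit 4) (nat_lit 2) (nat_lit 5) (nat_lit 2) (nat_lit 4) (nat_lit 414) (nat_lit 307) (nat_lit 299)) (XT.nd (nat_lit 78) (nat_lit 0) (nat_lit 0) (XT.lf (nat_lit 0) (nat_lit 23284717496791) (nat_lit 76) (nat_lit 690549238502) (nat_lit 76) (nat_lit 690512075329) (nat_lit 1) (nat_lit 4) (nat_lit 2) (nat_lit 5) (nat_lit 2) (nat_lit 4) (nat_lit 415) (nat_lit 307) (nat_lit 298)) (XT.lf (nat_lit 0) (nat_lit 26778108256526) (nat_lit 76) (nat_lit 793763977198) (nat_lit 76) (nat_lit 793724888843) (nat_lit 1) (nat_lit 4) (nat_lit 2) (nat_lit 5) (nat_lit 2) (nat_lit 4) (nat_lit 416) (nat_lit 307) (nat_lit 297))))) (XT.nd (nat_lit 234) (nat_lit 0) (nat_lit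 0) (XT.nd (nat_lit 78) (nat_lit 0) (nat_lit 0) (XT.lf (nat_lit 0) (nat_lit 30795476708892) (nat_lit 76) (nat_lit 912477215285) (nat_lit 76) (nat_lit 912436452858) (nat_lit 1) (nat_lit 4) (nat_lit 2) (nat_lit 5) (nat_lit 2) (nat_lit 4) (nat_lit 417) (nat_lit 307) (nat_lit 296)) (XT.nd (nat_lit 78) (nat_lit 0) (nat_lit 0) (XT.lf (nat_lit 0) (nat_lit 35415423541001) (nat_lit 76) (nat_lit 1049011603073) (nat_lit 76) (nat_lit 1048969384933) (nat_lit 1) (nat_lit 4) (nat_lit 2) (nat_lit 5) (nat_lit 2) (nat_lit 4) (nat_lit 418) (nat_lit 307) (nat_lit 295)) (XT.lf (nat_lit 0) (nat_lit 40728339016960) (nat_lit 76) (nat_lit 1206038465542) (nat_lit 76) (nat_lit 1205994981563) (nat_lit 1) (nat_lit 4) (nat_lit 2) (nat_lit 5) (nat_lit 2) (nat_lit 4) (nat_lit 419) (nat_lit 307) (nat_lit 294)))) (XT.nd (nat_lit 78) (nat_lit 0) (nat_lit 0) (XT.lf (nat_lit 0) (nat_lit 46838171483038) (nat_lit 76) (nat_lit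 1386630067392) (nat_lit 76) (nat_lit 1386585482684) (nat_lit 1) (nat_lit 4) (nat_lit 2) (nat_lit 5) (nat_lit 2) (nat_lit 4) (nat_lit 420) (nat_lit 307) (nat_lit 293)) (XT.nd (nat_lit 78) (nat_lit 0) (nat_lit 0) (XT.lf (nat_lit 0) (nat_lit 53864461139657) (nat_lit 76) (nat_lit 1594319722571) (nat_lit 76) (nat_lit 1594274180707) (nat_lit 1) (nat_lit 4) (nat_lit 2) (nat_lit 5) (nat_lit 2) (nat_lit 4) (nat_lit 421) (nat_lit 307) (nat_lit 292)) (XT.lf (nat_lit 0) (nat_lit 61944678871404) (nat_lit 76) (nat_lit 1833170924334) (nat_lit 76) (nat_lit 1833124550161) (nat_lit 1) (nat_lit 4) (nat_lit 2) (nat_lit 5) (nat_lit 2) (nat_lit 4) (nat_lit 422) (nat_lit 307) (nat_lit 291)))))) (XT.nd (nat_lit 390) (nat_lit 0) (nat_lit 0) (XT.nd (nat_lit 156) (nat_lit 0) (nat_lit 0) (XT.nd (nat_lit 78) (nat_lit 0) (nat_lit 0) (XT.lf (nat_lit 0) (nat_lit 71236915894769) (nat_lit 76) (nat_lit 2107856848367) (nat_lit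 76) (nat_lit 2107809750446) (nat_lit 1) (nat_lit 4) (nat_lit 2) (nat_lit 5) (nat_lit 2) (nat_lit 4) (nat_lit 423) (nat_lit 307) (nat_lit 290)) (XT.lf (nat_lit 0) (nat_lit 81922976847167) (nat_lit 76) (nat_lit 2423751784488) (nat_lit 76) (nat_lit 2423704057222) (nat_lit 1) (nat_lit 4) (nat_lit 2) (nat_lit 5) (nat_lit 2) (nat_lit 4) (nat_lit 424) (nat_lit 307) (nat_lit 289))) (XT.nd (nat_lit 78) (nat_lit 0) (nat_lit 0) (XT.lf (nat_lit 0) (nat_lit 94211936834187) (nat_lit 76) (nat_lit 2787036285795) (nat_lit 76) (nat_lit 2786988011272) (nat_lit 1) (nat_lit 4) (nat_lit 2) (nat_lit 5) (nat_lit 2) (nat_lit 4) (nat_lit 425) (nat_lit 307) (nat_lit 288)) (XT.nd (nat_lit 78) (nat_lit 0) (nat_lit 0) (XT.lf (nat_lit 0) (nat_lit 108344232029489) (nat_lit 76) (nat_lit 3204818092531) (nat_lit 76) (nat_lit 3204769342133) (nat_lit 1) (nat_lit 4) (nat_lit 2) (nat_lit 5) (nat_lit 2) (nat_lit 4) (nat_lit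 426) (nat_lit 307) (nat_lit 287)) (XT.lf (nat_lit 0) (nat_lit 124596363860806) (nat_lit 76) (nat_lit 3685271196567) (nat_lit 76) (nat_lit 3685222032364) (nat_lit 1) (nat_lit 4) (nat_lit 2) (nat_lit 5) (nat_lit 2) (nat_lit 4) (nat_lit 427) (nat_lit 307) (nat_lit 286))))) (XT.nd (nat_lit 234) (nat_lit 0) (nat_lit 0) (XT.nd (nat_lit 78) (nat_lit 0) (nat_lit 0) (XT.lf (nat_lit 0) (nat_lit 143286308820491) (nat_lit 76) (nat_lit 4237795767330) (nat_lit 76) (nat_lit 4237746243297) (nat_lit 1) (nat_lit 4) (nat_lit 2) (nat_lit 5) (nat_lit 2) (nat_lit 4) (nat_lit 428) (nat_lit 307) (nat_lit 285)) (XT.nd (nat_lit 78) (nat_lit 0) (nat_lit 0) (XT.lf (nat_lit 0) (nat_lit 164779739744712) (nat_lit 76) (nat_lit 4873202068161) (nat_lit 76) (nat_lit 4873152231231) (nat_lit 1) (nat_lit 4) (nat_lit 2) (nat_lit 5) (nat_lit 2) (nat_lit 4) (nat_lit 429) (nat_lit 307) (nat_lit 284)) (XT.lf (nat_lit 0) (nat_lit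 189497180281985) (nat_lit 76) (nat_lit 5603921961467) (nat_lit 76) (nat_lit 5603871852454) (nat_lit 1) (nat_lit 4) (nat_lit 2) (nat_lit 5) (nat_lit 2) (nat_lit 4) (nat_lit 430) (nat_lit 307) (nat_lit 283)))) (XT.nd (nat_lit 78) (nat_lit 0) (nat_lit 0) (XT.lf (nat_lit 0) (nat_lit 217922232529779) (nat_lit 76) (nat_lit 6444252140813) (nat_lit 76) (nat_lit 6444201795206) (nat_lit 1) (nat_lit 4) (nat_lit 2) (nat_lit 5) (nat_lit 2) (nat_lit 4) (nat_lit 431) (nat_lit 307) (nat_lit 282)) (XT.nd (nat_lit 78) (nat_lit 0) (nat_lit 0) (XT.lf (nat_lit 0) (nat_lit 250611038814682) (nat_lit 76) (nat_lit 7410633848839) (nat_lit 76) (nat_lit 7410583297497) (nat_lit 1) (nat_lit 4) (nat_lit 2) (nat_lit 5) (nat_lit 2) (nat_lit 4) (nat_lit 432) (nat_lit 307) (nat_lit 281)) (XT.lf (nat_lit 0) (nat_lit 288203162737920) (nat_lit 76) (nat_lit 8521974553744) (nat_lit 76) (nat_lit 8521923823503) (nat_lit 1) (nat_lit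 4) (nat_lit 2) (nat_lit 5) (nat_lit 2) (nat_lit 4) (nat_lit 433) (nat_lit 307) (nat_lit 280))))))) (XT.nd (nat_lit 51246) (nat_lit 0) (nat_lit 0) (XT.nd (nat_lit 50778) (nat_lit 0) (nat_lit 0) (XT.nd (nat_lit 234) (nat_lit 0) (nat_lit 0) (XT.nd (nat_lit 78) (nat_lit 0) (nat_lit 0) (XT.lf (nat_lit 0) (nat_lit 331434102376251) (nat_lit 76) (nat_lit 9800017878017) (nat_lit 76) (nat_lit 9799966992212) (nat_lit 1) (nat_lit 4) (nat_lit 2) (nat_lit 5) (nat_lit 2) (nat_lit 4) (nat_lit 434) (nat_lit 307) (nat_lit 279)) (XT.lf (nat_lit 0) (nat_lit 381149680461730) (nat_lit 76) (nat_lit 11269769017131) (nat_lit 76) (nat_lit 11269717996053) (nat_lit 1) (nat_lit 4) (nat_lit 2) (nat_lit 5) (nat_lit 2) (nat_lit 4) (nat_lit 435) (nat_lit 307) (nat_lit 278))) (XT.nd (nat_lit 78) (nat_lit 0) (nat_lit 0) (XT.lf (nat_lit 0) (nat_lit 504071440717477) (nat_lit 76) (nat_lit 14903732164554) (nat_lit 76) (nat_lit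 14903680923560) (nat_lit 1) (nat_lit 4) (nat_lit 2) (nat_lit 5) (nat_lit 2) (nat_lit 4) (nat_lit 437) (nat_lit 307) (nat_lit 276)) (XT.nd (nat_lit 78) (nat_lit 0) (nat_lit 0) (XT.lf (nat_lit 0) (nat_lit 579682613849271) (nat_lit 76) (nat_lit 17139043451832) (nat_lit 76) (nat_lit 17138992121894) (nat_lit 1) (nat_lit 4) (nat_lit 2) (nat_lit 5) (nat_lit 2) (nat_lit 4) (nat_lit 438) (nat_lit 307) (nat_lit 275)) (XT.lf (nat_lit 0) (nat_lit 666635461522249) (nat_lit 76) (nat_lit 19709652184745) (nat_lit 76) (nat_lit 19709600777464) (nat_lit 1) (nat_lit 4) (nat_lit 2) (nat_lit 5) (nat_lit 2) (nat_lit 4) (nat_lit 439) (nat_lit 307) (nat_lit 274))))) (XT.nd (nat_lit 234) (nat_lit 0) (nat_lit 0) (XT.nd (nat_lit 78) (nat_lit 0) (nat_lit 0) (XT.lf (nat_lit 0) (nat_lit 2499436677010) (nat_lit 76) (nat_lit 75824008951) (nat_lit 76) (nat_lit 75824008951) (nat_lit 1) (nat_lit 4) (nat_lit 2) (nat_lit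 5) (nat_lit 2) (nat_lit 4) (nat_lit 404) (nat_lit 308) (nat_lit 308)) (XT.nd (nat_lit 78) (nat_lit 0) (nat_lit 0) (XT.lf (nat_lit 0) (nat_lit 5750176393726) (nat_lit 76) (nat_lit 173610831610) (nat_lit 76) (nat_lit 173603043175) (nat_lit 1) (nat_lit 4) (nat_lit 2) (nat_lit 5) (nat_lit 2) (nat_lit 4) (nat_lit 405) (nat_lit 308) (nat_lit 307)) (XT.lf (nat_lit 0) (nat_lit 6614049795367) (nat_lit 76) (nat_lit 198933963793) (nat_lit 76) (nat_lit 198919402805) (nat_lit 1) (nat_lit 4) (nat_lit 2) (nat_lit 5) (nat_lit 2) (nat_lit 4) (nat_lit 406) (nat_lit 308) (nat_lit 306)))) (XT.nd (nat_lit 78) (nat_lit 0) (nat_lit 0) (XT.lf (nat_lit 0) (nat_lit 7607395429847) (nat_lit 76) (nat_lit 228112867037) (nat_lit 76) (nat_lit 228092416873) (nat_lit 1) (nat_lit 4) (nat_lit 2) (nat_lit 5) (nat_lit 2) (nat_lit 4) (nat_lit 407) (nat_lit 308) (nat_lit 305)) (XT.nd (nat_lit 78) (nat_lit 0) (nat_lit 0) (XT.lf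 (nat_lit 0) (nat_lit 8749648320447) (nat_lit 76) (nat_lit 261718432928) (nat_lit 76) (nat_lit 261692861741) (nat_lit 1) (nat_lit 4) (nat_lit 2) (nat_lit 5) (nat_lit 2) (nat_lit 4) (nat_lit 408) (nat_lit 308) (nat_lit 304)) (XT.lf (nat_lit 0) (nat_lit 10063156893289) (nat_lit 76) (nat_lit 300408161667) (nat_lit 76) (nat_lit 300378137417) (nat_lit 1) (nat_lit 4) (nat_lit 2) (nat_lit 5) (nat_lit 2) (nat_lit 4) (nat_lit 409) (nat_lit 308) (nat_lit 303)))))) (XT.nd (nat_lit 468) (nat_lit 0) (nat_lit 0) (XT.nd (nat_lit 234) (nat_lit 0) (nat_lit 0) (XT.nd (nat_lit 78) (nat_lit 0) (nat_lit 0) (XT.lf (nat_lit 0) (nat_lit 11573620229146) (nat_lit 76) (nat_lit 344939026208) (nat_lit 76) (nat_lit 344905129729) (nat_lit 1) (nat_lit 4) (nat_lit 2) (nat_lit 5) (nat_lit 2) (nat_lit 4) (nat_lit 410) (nat_lit 308) (nat_lit 302)) (XT.nd (nat_lit 78) (nat_lit 0) (nat_lit 0) (XT.lf (nat_lit 0) (nat_lit 13310590871545)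 (nat_lit 76) (nat_lit 396182282596) (nat_lit 76) (nat_lit 396145018962) (nat_lit 1) (nat_lit 4) (nat_lit 2) (nat_lit 5) (nat_lit 2) (nat_lit 4) (nat_lit 411) (nat_lit 308) (nat_lit 301)) (XT.lf (nat_lit 0) (nat_lit 15308053028707) (nat_lit 76) (nat_lit 455140516284) (nat_lit 76) (nat_lit 455100324688) (nat_lit 1) (nat_lit 4) (nat_lit 2) (nat_lit 5) (nat_lit 2) (nat_lit 4) (nat_lit 412) (nat_lit 308) (nat_lit 300)))) (XT.nd (nat_lit 78) (nat_lit 0) (nat_lit 0) (XT.lf (nat_lit 0) (nat_lit 17605087481968) (nat_lit 76) (nat_lit 522967257929) (nat_lit 76) (nat_lit 522924520280) (nat_lit 1) (nat_lit 4) (nat_lit 2) (nat_lit 5) (nat_lit 2) (nat_lit 4) (nat_lit 413) (nat_lit 308) (nat_lit 299)) (XT.nd (nat_lit 78) (nat_lit 0) (nat_lit 0) (XT.lf (nat_lit 0) (nat_lit 20246636209761) (nat_lit 76) (nat_lit 600989552477) (nat_lit 76) (nat_lit 600944600868) (nat_lit 1) (nat_lit 4) (nat_lit 2) (nat_lit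 5) (nat_lit 2) (nat_lit 4) (nat_lit 414) (nat_lit 308) (nat_lit 298)) (XT.lf (nat_lit 0) (nat_lit 23284381687195) (nat_lit 76) (nat_lit 690733923082) (nat_lit 76) (nat_lit 690687046291) (nat_lit 1) (nat_lit 4) (nat_lit 2) (nat_lit 5) (nat_lit 2) (nat_lit 4) (nat_lit 415) (nat_lit 308) (nat_lit 297))))) (XT.nd (nat_lit 234) (nat_lit 0) (nat_lit 0) (XT.nd (nat_lit 78) (nat_lit 0) (nat_lit 0) (XT.lf (nat_lit 0) (nat_lit 26777758064916) (nat_lit 76) (nat_lit 793956237864) (nat_lit 76) (nat_lit 793907687003) (nat_lit 1) (nat_lit 4) (nat_lit 2) (nat_lit 5) (nat_lit 2) (nat_lit 4) (nat_lit 416) (nat_lit 308) (nat_lit 296)) (XT.nd (nat_lit 78) (nat_lit 0) (nat_lit 0) (XT.lf (nat_lit 0) (nat_lit 30795114011184) (nat_lit 76) (nat_lit 912676063853) (nat_lit 76) (nat_lit 912626057277) (nat_lit 1) (nat_lit 4) (nat_lit 2) (nat_lit 5) (nat_lit 2) (nat_lit 4) (nat_lit 417) (nat_lit 308) (nat_lit 295))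 (XT.lf (nat_lit 0) (nat_lit 35415049968425) (nat_lit 76) (nat_lit 1049216180252) (nat_lit 76) (nat_lit 1049164907838) (nat_lit 1) (nat_lit 4) (nat_lit 2) (nat_lit 5) (nat_lit 2) (nat_lit 4) (nat_lit 418) (nat_lit 308) (nat_lit 294)))) (XT.nd (nat_lit 78) (nat_lit 0) (nat_lit 0) (XT.lf (nat_lit 0) (nat_lit 40727955987977) (nat_lit 76) (nat_lit 1206248024121) (nat_lit 76) (nat_lit 1206195650978) (nat_lit 1) (nat_lit 4) (nat_lit 2) (nat_lit 5) (nat_lit 2) (nat_lit 4) (nat_lit 419) (nat_lit 308) (nat_lit 293)) (XT.nd (nat_lit 78) (nat_lit 0) (nat_lit 0) (XT.lf (nat_lit 0) (nat_lit 46837780231092) (nat_lit 76) (nat_lit 1386843957623) (nat_lit 76) (nat_lit 1386790627324) (nat_lit 1) (nat_lit 4) (nat_lit 2) (nat_lit 5) (nat_lit 2) (nat_lit 4) (nat_lit 420) (nat_lit 308) (nat_lit 292)) (XT.lf (nat_lit 0) (nat_lit 53864062737309) (nat_lit 76) (nat_lit 1594537379457) (nat_lit 76) (nat_lit 1594483216848)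 (nat_lit 1) (nat_lit 4) (nat_lit 2) (nat_lit 5) (nat_lit 2) (nat_lit 4) (nat_lit 421) (nat_lit 308) (nat_lit 291))))))))
noncomputable def xc5 : XT := (XT.nd (nat_lit 51948) (nat_lit 0) (nat_lit 0) (XT.nd (nat_lit 858) (nat_lit 0) (nat_lit 0) (XT.nd (nat_lit 390) (nat_lit 0) (nat_lit 0) (XT.nd (nat_lit 156) (nat_lit 0) (nat_lit 0) (XT.nd (nat_lit 78) (nat_lit 0) (nat_lit 0) (XT.lf (nat_lit 0) (nat_lit 61944274251314) (nat_lit 76) (nat_lit 1833391856571) (nat_lit 76) (nat_lit 1833336970215) (nat_lit 1) (nat_lit 4) (nat_lit 2) (nat_lit 5) (nat_lit 2) (nat_lit 4) (nat_lit 422) (nat_lit 308) (nat_lit 290)) (XT.lf (nat_lit 0) (nat_lit 71236505867948) (nat_lit 76) (nat_lit 2108080628736) (nat_lit 76) (nat_lit 2108025113034) (nat_lit 1) (nat_lit 4) (nat_lit 2) (nat_lit 5) (nat_lit 2) (nat_lit 4) (nat_lit 423) (nat_lit 308) (nat_lit 289))) (XT.nd (nat_lit 78) (nat_lit 0) (nat_lit 0) (XT.lf (nat_lit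 0) (nat_lit 81922562118840) (nat_lit 76) (nat_lit 2423978041493) (nat_lit 76) (nat_lit 2423921978535) (nat_lit 1) (nat_lit 4) (nat_lit 2) (nat_lit 5) (nat_lit 2) (nat_lit 4) (nat_lit 424) (nat_lit 308) (nat_lit 288)) (XT.nd (nat_lit 78) (nat_lit 0) (nat_lit 0) (XT.lf (nat_lit 0) (nat_lit 94211518017595) (nat_lit 76) (nat_lit 2787264696397) (nat_lit 76) (nat_lit 2787208157563) (nat_lit 1) (nat_lit 4) (nat_lit 2) (nat_lit 5) (nat_lit 2) (nat_lit 4) (nat_lit 425) (nat_lit 308) (nat_lit 287)) (XT.lf (nat_lit 0) (nat_lit 108343809657883) (nat_lit 76) (nat_lit 3205048375826) (nat_lit 76) (nat_lit 3204991423187) (nat_lit 1) (nat_lit 4) (nat_lit 2) (nat_lit 5) (nat_lit 2) (nat_lit 4) (nat_lit 426) (nat_lit 308) (nat_lit 286))))) (XT.nd (nat_lit 234) (nat_lit 0) (nat_lit 0) (XT.nd (nat_lit 78) (nat_lit 0) (nat_lit 0) (XT.lf (nat_lit 0) (nat_lit 124595938397884) (nat_lit 76) (nat_lit 3685503108290)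 (nat_lit 76) (nat_lit 3685445795821) (nat_lit 1) (nat_lit 4) (nat_lit 2) (nat_lit 5) (nat_lit 2) (nat_lit 4) (nat_lit 427) (nat_lit 308) (nat_lit 285)) (XT.nd (nat_lit 78) (nat_lit 0) (nat_lit 0) (XT.lf (nat_lit 0) (nat_lit 143285880669468) (nat_lit 76) (nat_lit 4238029095078) (nat_lit 76) (nat_lit 4237971469713) (nat_lit 1) (nat_lit 4) (nat_lit 2) (nat_lit 5) (nat_lit 2) (nat_lit 4) (nat_lit 428) (nat_lit 308) (nat_lit 284)) (XT.lf (nat_lit 0) (nat_lit 164779309256209) (nat_lit 76) (nat_lit 4873436627235) (nat_lit 76) (nat_lit 4873378729786) (nat_lit 1) (nat_lit 4) (nat_lit 2) (nat_lit 5) (nat_lit 2) (nat_lit 4) (nat_lit 429) (nat_lit 308) (nat_lit 283)))) (XT.nd (nat_lit 78) (nat_lit 0) (nat_lit 0) (XT.lf (nat_lit 0) (nat_lit 189496747760892) (nat_lit 76) (nat_lit 5604157591259) (nat_lit 76) (nat_lit 5604099457216) (nat_lit 1) (nat_lit 4) (nat_lit 2) (nat_lit 5) (nat_lit 2) (nat_lit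 4) (nat_lit 430) (nat_lit 308) (nat_lit 282)) (XT.nd (nat_lit 78) (nat_lit 0) (nat_lit 0) (XT.lf (nat_lit 0) (nat_lit 217921798241216) (nat_lit 76) (nat_lit 6444488701664) (nat_lit 76) (nat_lit 6444430361887) (nat_lit 1) (nat_lit 4) (nat_lit 2) (nat_lit 5) (nat_lit 2) (nat_lit 4) (nat_lit 431) (nat_lit 308) (nat_lit 281)) (XT.lf (nat_lit 0) (nat_lit 250610602989188) (nat_lit 76) (nat_lit 7410871219307) (nat_lit 76) (nat_lit 7410812700631) (nat_lit 1) (nat_lit 4) (nat_lit 2) (nat_lit 5) (nat_lit 2) (nat_lit 4) (nat_lit 432) (nat_lit 308) (nat_lit 280)))))) (XT.nd (nat_lit 468) (nat_lit 0) (nat_lit 0) (XT.nd (nat_lit 234) (nat_lit 0) (nat_lit 0) (XT.nd (nat_lit 78) (nat_lit 0) (nat_lit 0) (XT.lf (nat_lit 0) (nat_lit 288202725575964) (nat_lit 76) (nat_lit 8522212628227) (nat_lit 76) (nat_lit 8522153953986) (nat_lit 1) (nat_lit 4) (nat_lit 2) (nat_lit 5) (nat_lit 2) (nat_lit 4) (nat_lit 433)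 (nat_lit 308) (nat_lit 279)) (XT.nd (nat_lit 78) (nat_lit 0) (nat_lit 0) (XT.lf (nat_lit 0) (nat_lit 331433664052155) (nat_lit 76) (nat_lit 9800256564686) (nat_lit 76) (nat_lit 9800197755172) (nat_lit 1) (nat_lit 4) (nat_lit 2) (nat_lit 5) (nat_lit 2) (nat_lit 4) (nat_lit 434) (nat_lit 308) (nat_lit 278)) (XT.lf (nat_lit 0) (nat_lit 381149241127077) (nat_lit 76) (nat_lit 11270008236137) (nat_lit 76) (nat_lit 11269949308993) (nat_lit 1) (nat_lit 4) (nat_lit 2) (nat_lit 5) (nat_lit 2) (nat_lit 4) (nat_lit 435) (nat_lit 308) (nat_lit 277)))) (XT.nd (nat_lit 78) (nat_lit 0) (nat_lit 0) (XT.lf (nat_lit 0) (nat_lit 438322152873937) (nat_lit 76) (nat_lit 12960223653542) (nat_lit 76) (nat_lit 12960164624113) (nat_lit 1) (nat_lit 4) (nat_lit 2) (nat_lit 5) (nat_lit 2) (nat_lit 4) (nat_lit 436) (nat_lit 308) (nat_lit 276)) (XT.nd (nat_lit 78) (nat_lit 0) (nat_lit 0) (XT.lf (nat_lit 0) (nat_lit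 504070999739953) (nat_lit 76) (nat_lit 14903972248983) (nat_lit 76) (nat_lit 14903913130609) (nat_lit 1) (nat_lit 4) (nat_lit 2) (nat_lit 5) (nat_lit 2) (nat_lit 4) (nat_lit 437) (nat_lit 308) (nat_lit 275)) (XT.lf (nat_lit 0) (nat_lit 579682172207289) (nat_lit 76) (nat_lit 17139283886281) (nat_lit 76) (nat_lit 17139224690565) (nat_lit 1) (nat_lit 4) (nat_lit 2) (nat_lit 5) (nat_lit 2) (nat_lit 4) (nat_lit 438) (nat_lit 308) (nat_lit 274))))) (XT.nd (nat_lit 50388) (nat_lit 0) (nat_lit 0) (XT.nd (nat_lit 50232) (nat_lit 0) (nat_lit 0) (XT.lf (nat_lit 0) (nat_lit 666635019302478) (nat_lit 76) (nat_lit 19709892923560) (nat_lit 76) (nat_lit 19709833660587) (nat_lit 1) (nat_lit 4) (nat_lit 2) (nat_lit 5) (nat_lit 2) (nat_lit 4) (nat_lit 439) (nat_lit 308) (nat_lit 273)) (XT.nd (nat_lit 78) (nat_lit 0) (nat_lit 0) (XT.lf (nat_lit 0) (nat_lit 1888586272548) (nat_lit 76) (nat_lit 58055138899)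 (nat_lit 76) (nat_lit 58055138899) (nat_lit 1) (nat_lit 4) (nat_lit 2) (nat_lit 5) (nat_lit 2) (nat_lit 4) (nat_lit 402) (nat_lit 309) (nat_lit 309)) (XT.lf (nat_lit 0) (nat_lit 4345441268954) (nat_lit 76) (nat_lit 132624772145) (nat_lit 76) (nat_lit 132615815445) (nat_lit 1) (nat_lit 4) (nat_lit 2) (nat_lit 5) (nat_lit 2) (nat_lit 4) (nat_lit 403) (nat_lit 309) (nat_lit 308)))) (XT.nd (nat_lit 78) (nat_lit 0) (nat_lit 0) (XT.lf (nat_lit 0) (nat_lit 4998806443266) (nat_lit 76) (nat_lit 151692221525) (nat_lit 76) (nat_lit 151675476389) (nat_lit 1) (nat_lit 4) (nat_lit 2) (nat_lit 5) (nat_lit 2) (nat_lit 4) (nat_lit 404) (nat_lit 309) (nat_lit 307)) (XT.nd (nat_lit 78) (nat_lit 0) (nat_lit 0) (XT.lf (nat_lit 0) (nat_lit 5750051299707) (nat_lit 76) (nat_lit 173685684730) (nat_lit 76) (nat_lit 173662167041) (nat_lit 1) (nat_lit 4) (nat_lit 2) (nat_lit 5) (nat_lit 2) (nat_lit 4) (nat_lit 405)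 (nat_lit 309) (nat_lit 306)) (XT.lf (nat_lit 0) (nat_lit 6613874107204) (nat_lit 76) (nat_lit 199035468649) (nat_lit 76) (nat_lit 199006061785) (nat_lit 1) (nat_lit 4) (nat_lit 2) (nat_lit 5) (nat_lit 2) (nat_lit 4) (nat_lit 406) (nat_lit 309) (nat_lit 305))))))) (XT.nd (nat_lit 858) (nat_lit 0) (nat_lit 0) (XT.nd (nat_lit 390) (nat_lit 0) (nat_lit 0) (XT.nd (nat_lit 156) (nat_lit 0) (nat_lit 0) (XT.nd (nat_lit 78) (nat_lit 0) (nat_lit 0) (XT.lf (nat_lit 0) (nat_lit 7607175746776) (nat_lit 76) (nat_lit 228237547316) (nat_lit 76) (nat_lit 228203019429) (nat_lit 1) (nat_lit 4) (nat_lit 2) (nat_lit 5) (nat_lit 2) (nat_lit 4) (nat_lit 407) (nat_lit 309) (nat_lit 304)) (XT.lf (nat_lit 0) (nat_lit 8749390380936) (nat_lit 76) (nat_lit 261863265749) (nat_lit 76) (nat_lit 261824284798) (nat_lit 1) (nat_lit 4) (nat_lit 2) (nat_lit 5) (nat_lit 2) (nat_lit 4) (nat_lit 408) (nat_lit 309) (nat_lit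 303))) (XT.nd (nat_lit 78) (nat_lit 0) (nat_lit 0) (XT.lf (nat_lit 0) (nat_lit 10062865687307) (nat_lit 76) (nat_lit 300570518437) (nat_lit 76) (nat_lit 300527665258) (nat_lit 1) (nat_lit 4) (nat_lit 2) (nat_lit 5) (nat_lit 2) (nat_lit 4) (nat_lit 409) (nat_lit 309) (nat_lit 302)) (XT.nd (nat_lit 78) (nat_lit 0) (nat_lit 0) (XT.lf (nat_lit 0) (nat_lit 11573300095798) (nat_lit 76) (nat_lit 345116621195) (nat_lit 76) (nat_lit 345070400860) (nat_lit 1) (nat_lit 4) (nat_lit 2) (nat_lit 5) (nat_lit 2) (nat_lit 4) (nat_lit 410) (nat_lit 309) (nat_lit 301)) (XT.lf (nat_lit 0) (nat_lit 13310245583966) (nat_lit 76) (nat_lit 396373128207) (nat_lit 76) (nat_lit 396323979911) (nat_lit 1) (nat_lit 4) (nat_lit 2) (nat_lit 5) (nat_lit 2) (nat_lit 4) (nat_lit 411) (nat_lit 309) (nat_lit 300))))) (XT.nd (nat_lit 234) (nat_lit 0) (nat_lit 0) (XT.nd (nat_lit 78) (nat_lit 0) (nat_lit 0) (XT.lf (nat_lit 0)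 (nat_lit 15307685867884) (nat_lit 76) (nat_lit 455342884176) (nat_lit 76) (nat_lit 455291189826) (nat_lit 1) (nat_lit 4) (nat_lit 2) (nat_lit 5) (nat_lit 2) (nat_lit 4) (nat_lit 412) (nat_lit 309) (nat_lit 299)) (XT.nd (nat_lit 78) (nat_lit 0) (nat_lit 0) (XT.lf (nat_lit 0) (nat_lit 17604701300932) (nat_lit 76) (nat_lit 523179645196) (nat_lit 76) (nat_lit 523125736887) (nat_lit 1) (nat_lit 4) (nat_lit 2) (nat_lit 5) (nat_lit 2) (nat_lit 4) (nat_lit 413) (nat_lit 309) (nat_lit 298)) (XT.lf (nat_lit 0) (nat_lit 20246233489410) (nat_lit 76) (nat_lit 601210652244) (nat_lit 76) (nat_lit 601154818753) (nat_lit 1) (nat_lit 4) (nat_lit 2) (nat_lit 5) (nat_lit 2) (nat_lit 4) (nat_lit 414) (nat_lit 309) (nat_lit 297)))) (XT.nd (nat_lit 78) (nat_lit 0) (nat_lit 0) (XT.lf (nat_lit 0) (nat_lit 23283964584831) (nat_lit 76) (nat_lit 690962598936) (nat_lit 76) (nat_lit 690905091373) (nat_lit 1) (nat_lit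 4) (nat_lit 2) (nat_lit 5) (nat_lit 2) (nat_lit 4) (nat_lit 415) (nat_lit 309) (nat_lit 296)) (XT.nd (nat_lit 78) (nat_lit 0) (nat_lit 0) (XT.lf (nat_lit 0) (nat_lit 26777328456454) (nat_lit 76) (nat_lit 794191501620) (nat_lit 76) (nat_lit 794132538343) (nat_lit 1) (nat_lit 4) (nat_lit 2) (nat_lit 5) (nat_lit 2) (nat_lit 4) (nat_lit 416) (nat_lit 309) (nat_lit 295)) (XT.lf (nat_lit 0) (nat_lit 30794673527853) (nat_lit 76) (nat_lit 912917056219) (nat_lit 76) (nat_lit 912856827104) (nat_lit 1) (nat_lit 4) (nat_lit 2) (nat_lit 5) (nat_lit 2) (nat_lit 4) (nat_lit 417) (nat_lit 309) (nat_lit 294)))))) (XT.nd (nat_lit 468) (nat_lit 0) (nat_lit 0) (XT.nd (nat_lit 234) (nat_lit 0) (nat_lit 0) (XT.nd (nat_lit 78) (nat_lit 0) (nat_lit 0) (XT.lf (nat_lit 0) (nat_lit 35414600028687) (nat_lit 76) (nat_lit 1049462154018) (nat_lit 76) (nat_lit 1049400824174) (nat_lit 1) (nat_lit 4) (nat_lit 2) (nat_lit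 5) (nat_lit 2) (nat_lit 4) (nat_lit 418) (nat_lit 309) (nat_lit 293)) (XT.nd (nat_lit 78) (nat_lit 0) (nat_lit 0) (XT.lf (nat_lit 0) (nat_lit 40727497825277) (nat_lit 76) (nat_lit 1206498329540) (nat_lit 76) (nat_lit 1206436042539) (nat_lit 1) (nat_lit 4) (nat_lit 2) (nat_lit 5) (nat_lit 2) (nat_lit 4) (nat_lit 419) (nat_lit 309) (nat_lit 292)) (XT.lf (nat_lit 0) (nat_lit 46837314917989) (nat_lit 76) (nat_lit 1387098029696) (nat_lit 76) (nat_lit 1387034910386) (nat_lit 1) (nat_lit 4) (nat_lit 2) (nat_lit 5) (nat_lit 2) (nat_lit 4) (nat_lit 420) (nat_lit 309) (nat_lit 291)))) (XT.nd (nat_lit 78) (nat_lit 0) (nat_lit 0) (XT.lf (nat_lit 0) (nat_lit 53863591206465) (nat_lit 76) (nat_lit 1594794726881) (nat_lit 76) (nat_lit 1594730883824) (nat_lit 1) (nat_lit 4) (nat_lit 2) (nat_lit 5) (nat_lit 2) (nat_lit 4) (nat_lit 421) (nat_lit 309) (nat_lit 290)) (XT.nd (nat_lit 78) (nat_lit 0) (nat_lit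 0) (XT.lf (nat_lit 0) (nat_lit 61943797313739) (nat_lit 76) (nat_lit 1833652052127) (nat_lit 76) (nat_lit 1833587579725) (nat_lit 1) (nat_lit 4) (nat_lit 2) (nat_lit 5) (nat_lit 2) (nat_lit 4) (nat_lit 422) (nat_lit 309) (nat_lit 289)) (XT.lf (nat_lit 0) (nat_lit 71236024228867) (nat_lit 76) (nat_lit 2108343300927) (nat_lit 76) (nat_lit 2108278281268) (nat_lit 1) (nat_lit 4) (nat_lit 2) (nat_lit 5) (nat_lit 2) (nat_lit 4) (nat_lit 423) (nat_lit 309) (nat_lit 288))))) (XT.nd (nat_lit 234) (nat_lit 0) (nat_lit 0) (XT.nd (nat_lit 78) (nat_lit 0) (nat_lit 0) (XT.lf (nat_lit 0) (nat_lit 81922076391493) (nat_lit 76) (nat_lit 2424242867282) (nat_lit 76) (nat_lit 2424177371747) (nat_lit 1) (nat_lit 4) (nat_lit 2) (nat_lit 5) (nat_lit 2) (nat_lit 4) (nat_lit 424) (nat_lit 309) (nat_lit 287)) (XT.nd (nat_lit 78) (nat_lit 0) (nat_lit 0) (XT.lf (nat_lit 0) (nat_lit 94211028735234) (nat_lit 76) (nat_lit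 2787531394878) (nat_lit 76) (nat_lit 2787465485539) (nat_lit 1) (nat_lit 4) (nat_lit 2) (nat_lit 5) (nat_lit 2) (nat_lit 4) (nat_lit 425) (nat_lit 309) (nat_lit 286)) (XT.lf (nat_lit 0) (nat_lit 108343317284206) (nat_lit 76) (nat_lit 3205316702736) (nat_lit 76) (nat_lit 3205250433566) (nat_lit 1) (nat_lit 4) (nat_lit 2) (nat_lit 5) (nat_lit 2) (nat_lit 4) (nat_lit 426) (nat_lit 309) (nat_lit 285)))) (XT.nd (nat_lit 78) (nat_lit 0) (nat_lit 0) (XT.lf (nat_lit 0) (nat_lit 124595443336106) (nat_lit 76) (nat_lit 3685772851225) (nat_lit 76) (nat_lit 3685706269159) (nat_lit 1) (nat_lit 4) (nat_lit 2) (nat_lit 5) (nat_lit 2) (nat_lit 4) (nat_lit 427) (nat_lit 309) (nat_lit 284)) (XT.nd (nat_lit 78) (nat_lit 0) (nat_lit 0) (XT.lf (nat_lit 0) (nat_lit 143285383270210) (nat_lit 76) (nat_lit 4238300069339) (nat_lit 76) (nat_lit 4238233215190) (nat_lit 1) (nat_lit 4) (nat_lit 2) (nat_lit 5) (nat_lit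 2) (nat_lit 4) (nat_lit 428) (nat_lit 309) (nat_lit 283)) (XT.lf (nat_lit 0) (nat_lit 164778809824361) (nat_lit 76) (nat_lit 4873708672214) (nat_lit 76) (nat_lit 4873641581470) (nat_lit 1) (nat_lit 4) (nat_lit 2) (nat_lit 5) (nat_lit 2) (nat_lit 4) (nat_lit 429) (nat_lit 309) (nat_lit 282))))))))
noncomputable def xc6 : XT := (XT.nd (nat_lit 51792) (nat_lit 0) (nat_lit 0) (XT.nd (nat_lit 50856) (nat_lit 0) (nat_lit 0) (XT.nd (nat_lit 390) (nat_lit 0) (nat_lit 0) (XT.nd (nat_lit 156) (nat_lit 0) (nat_lit 0) (XT.nd (nat_lit 78) (nat_lit 0) (nat_lit 0) (XT.lf (nat_lit 0) (nat_lit 189496246561574) (nat_lit 76) (nat_lit 5604430567297) (nat_lit 76) (nat_lit 5604363270820) (nat_lit 1) (nat_lit 4) (nat_lit 2) (nat_lit 5) (nat_lit 2) (nat_lit 4) (nat_lit 430) (nat_lit 309) (nat_lit 281)) (XT.lf (nat_lit 0) (nat_lit 217921295504967) (nat_lit 76) (nat_lit 6444762487319) (nat_lit 76) (nat_lit 6444695011942)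 (nat_lit 1) (nat_lit 4) (nat_lit 2) (nat_lit 5) (nat_lit 2) (nat_lit 4) (nat_lit 431) (nat_lit 309) (nat_lit 280))) (XT.nd (nat_lit 78) (nat_lit 0) (nat_lit 0) (XT.lf (nat_lit 0) (nat_lit 250610098916478) (nat_lit 76) (nat_lit 7411145708976) (nat_lit 76) (nat_lit 7411078078035) (nat_lit 1) (nat_lit 4) (nat_lit 2) (nat_lit 5) (nat_lit 2) (nat_lit 4) (nat_lit 432) (nat_lit 309) (nat_lit 279)) (XT.nd (nat_lit 78) (nat_lit 0) (nat_lit 0) (XT.lf (nat_lit 0) (nat_lit 288202220341114) (nat_lit 76) (nat_lit 8522487730083) (nat_lit 76) (nat_lit 8522419963868) (nat_lit 1) (nat_lit 4) (nat_lit 2) (nat_lit 5) (nat_lit 2) (nat_lit 4) (nat_lit 433) (nat_lit 309) (nat_lit 278)) (XT.lf (nat_lit 0) (nat_lit 331433157806748) (nat_lit 76) (nat_lit 9800532198878) (nat_lit 76) (nat_lit 9800464315034) (nat_lit 1) (nat_lit 4) (nat_lit 2) (nat_lit 5) (nat_lit 2) (nat_lit 4) (nat_lit 434) (nat_lit 309) (nat_lit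 277))))) (XT.nd (nat_lit 234) (nat_lit 0) (nat_lit 0) (XT.nd (nat_lit 78) (nat_lit 0) (nat_lit 0) (XT.lf (nat_lit 0) (nat_lit 381148734002926) (nat_lit 76) (nat_lit 11270284333230) (nat_lit 76) (nat_lit 11270216347100) (nat_lit 1) (nat_lit 4) (nat_lit 2) (nat_lit 5) (nat_lit 2) (nat_lit 4) (nat_lit 435) (nat_lit 309) (nat_lit 276)) (XT.nd (nat_lit 78) (nat_lit 0) (nat_lit 0) (XT.lf (nat_lit 0) (nat_lit 438321644985659) (nat_lit 76) (nat_lit 12960500153159) (nat_lit 76) (nat_lit 12960432078083) (nat_lit 1) (nat_lit 4) (nat_lit 2) (nat_lit 5) (nat_lit 2) (nat_lit 4) (nat_lit 436) (nat_lit 309) (nat_lit 275)) (XT.lf (nat_lit 0) (nat_lit 504070491187218) (nat_lit 76) (nat_lit 14904249098619) (nat_lit 76) (nat_lit 14904180946200) (nat_lit 1) (nat_lit 4) (nat_lit 2) (nat_lit 5) (nat_lit 2) (nat_lit 4) (nat_lit 437) (nat_lit 309) (nat_lit 274)))) (XT.nd (nat_lit 78) (nat_lit 0) (nat_lit 0) (XT.lf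 (nat_lit 0) (nat_lit 579681663076765) (nat_lit 76) (nat_lit 17139561040282) (nat_lit 76) (nat_lit 17139492820609) (nat_lit 1) (nat_lit 4) (nat_lit 2) (nat_lit 5) (nat_lit 2) (nat_lit 4) (nat_lit 438) (nat_lit 309) (nat_lit 273)) (XT.nd (nat_lit 50076) (nat_lit 0) (nat_lit 0) (XT.lf (nat_lit 0) (nat_lit 666634509669529) (nat_lit 76) (nat_lit 19710170342225) (nat_lit 76) (nat_lit 19710102064070) (nat_lit 1) (nat_lit 4) (nat_lit 2) (nat_lit 5) (nat_lit 2) (nat_lit 4) (nat_lit 439) (nat_lit 309) (nat_lit 272)) (XT.lf (nat_lit 0) (nat_lit 1426493566161) (nat_lit 76) (nat_lit 44727514540) (nat_lit 76) (nat_lit 44727514540) (nat_lit 1) (nat_lit 4) (nat_lit 2) (nat_lit 5) (nat_lit 2) (nat_lit 4) (nat_lit 400) (nat_lit 310) (nat_lit 310)))))) (XT.nd (nat_lit 468) (nat_lit 0) (nat_lit 0) (XT.nd (nat_lit 234) (nat_lit 0) (nat_lit 0) (XT.nd (nat_lit 78) (nat_lit 0) (nat_lit 0) (XT.lf (nat_lit 0)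 (nat_lit 3282881970577) (nat_lit 76) (nat_lit 101835929021) (nat_lit 76) (nat_lit 101825628815) (nat_lit 1) (nat_lit 4) (nat_lit 2) (nat_lit 5) (nat_lit 2) (nat_lit 4) (nat_lit 401) (nat_lit 310) (nat_lit 309)) (XT.nd (nat_lit 78) (nat_lit 0) (nat_lit 0) (XT.lf (nat_lit 0) (nat_lit 3777095597729) (nat_lit 76) (nat_lit 116161111965) (nat_lit 76) (nat_lit 116141855059) (nat_lit 1) (nat_lit 4) (nat_lit 2) (nat_lit 5) (nat_lit 2) (nat_lit 4) (nat_lit 402) (nat_lit 310) (nat_lit 308)) (XT.lf (nat_lit 0) (nat_lit 4345297410831) (nat_lit 76) (nat_lit 132710853233) (nat_lit 76) (nat_lit 132683807891) (nat_lit 1) (nat_lit 4) (nat_lit 2) (nat_lit 5) (nat_lit 2) (nat_lit 4) (nat_lit 403) (nat_lit 310) (nat_lit 307)))) (XT.nd (nat_lit 78) (nat_lit 0) (nat_lit 0) (XT.lf (nat_lit 0) (nat_lit 4998604401879) (nat_lit 76) (nat_lit 151808952109) (nat_lit 76) (nat_lit 151775134215) (nat_lit 1) (nat_lit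 4) (nat_lit 2) (nat_lit 5) (nat_lit 2) (nat_lit 4) (nat_lit 404) (nat_lit 310) (nat_lit 306)) (XT.nd (nat_lit 78) (nat_lit 0) (nat_lit 0) (XT.lf (nat_lit 0) (nat_lit 5749798664176) (nat_lit 76) (nat_lit 173829067051) (nat_lit 76) (nat_lit 173789359980) (nat_lit 1) (nat_lit 4) (nat_lit 2) (nat_lit 5) (nat_lit 2) (nat_lit 4) (nat_lit 405) (nat_lit 310) (nat_lit 305)) (XT.lf (nat_lit 0) (nat_lit 6613577476766) (nat_lit 76) (nat_lit 199202026393) (nat_lit 76) (nat_lit 199157198300) (nat_lit 1) (nat_lit 4) (nat_lit 2) (nat_lit 5) (nat_lit 2) (nat_lit 4) (nat_lit 406) (nat_lit 310) (nat_lit 304))))) (XT.nd (nat_lit 234) (nat_lit 0) (nat_lit 0) (XT.nd (nat_lit 78) (nat_lit 0) (nat_lit 0) (XT.lf (nat_lit 0) (nat_lit 7606840859897) (nat_lit 76) (nat_lit 228424257603) (nat_lit 76) (nat_lit 228374976446) (nat_lit 1) (nat_lit 4) (nat_lit 2) (nat_lit 5) (nat_lit 2) (nat_lit 4) (nat_lit 407) (nat_lit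 310) (nat_lit 303)) (XT.nd (nat_lit 78) (nat_lit 0) (nat_lit 0) (XT.lf (nat_lit 0) (nat_lit 8749022227586) (nat_lit 76) (nat_lit 262067499984) (nat_lit 76) (nat_lit 262014346599) (nat_lit 1) (nat_lit 4) (nat_lit 2) (nat_lit 5) (nat_lit 2) (nat_lit 4) (nat_lit 408) (nat_lit 310) (nat_lit 302)) (XT.lf (nat_lit 0) (nat_lit 10062468606592) (nat_lit 76) (nat_lit 300789990890) (nat_lit 76) (nat_lit 300733470349) (nat_lit 1) (nat_lit 4) (nat_lit 2) (nat_lit 5) (nat_lit 2) (nat_lit 4) (nat_lit 409) (nat_lit 310) (nat_lit 301)))) (XT.nd (nat_lit 78) (nat_lit 0) (nat_lit 0) (XT.lf (nat_lit 0) (nat_lit 11572877860852) (nat_lit 76) (nat_lit 345349344271) (nat_lit 76) (nat_lit 345289895769) (nat_lit 1) (nat_lit 4) (nat_lit 2) (nat_lit 5) (nat_lit 2) (nat_lit 4) (nat_lit 410) (nat_lit 310) (nat_lit 300)) (XT.nd (nat_lit 78) (nat_lit 0) (nat_lit 0) (XT.lf (nat_lit 0) (nat_lit 13309801475775) (nat_lit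 76) (nat_lit 396617373564) (nat_lit 76) (nat_lit 396555379009) (nat_lit 1) (nat_lit 4) (nat_lit 2) (nat_lit 5) (nat_lit 2) (nat_lit 4) (nat_lit 411) (nat_lit 310) (nat_lit 299)) (XT.lf (nat_lit 0) (nat_lit 15307222739480) (nat_lit 76) (nat_lit 455597148908) (nat_lit 76) (nat_lit 455532940393) (nat_lit 1) (nat_lit 4) (nat_lit 2) (nat_lit 5) (nat_lit 2) (nat_lit 4) (nat_lit 412) (nat_lit 310) (nat_lit 298))))))) (XT.nd (nat_lit 858) (nat_lit 0) (nat_lit 0) (XT.nd (nat_lit 390) (nat_lit 0) (nat_lit 0) (XT.nd (nat_lit 156) (nat_lit 0) (nat_lit 0) (XT.nd (nat_lit 78) (nat_lit 0) (nat_lit 0) (XT.lf (nat_lit 0) (nat_lit 17604221633214) (nat_lit 76) (nat_lit 523442622428) (nat_lit 76) (nat_lit 523376488731) (nat_lit 1) (nat_lit 4) (nat_lit 2) (nat_lit 5) (nat_lit 2) (nat_lit 4) (nat_lit 413) (nat_lit 310) (nat_lit 297)) (XT.lf (nat_lit 0) (nat_lit 20245739439678) (nat_lit 76) (nat_lit 601481205563)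 (nat_lit 76) (nat_lit 601413397794) (nat_lit 1) (nat_lit 4) (nat_lit 2) (nat_lit 5) (nat_lit 2) (nat_lit 4) (nat_lit 414) (nat_lit 310) (nat_lit 296))) (XT.nd (nat_lit 78) (nat_lit 0) (nat_lit 0) (XT.lf (nat_lit 0) (nat_lit 23283458029001) (nat_lit 76) (nat_lit 691239740156) (nat_lit 76) (nat_lit 691170476674) (nat_lit 1) (nat_lit 4) (nat_lit 2) (nat_lit 5) (nat_lit 2) (nat_lit 4) (nat_lit 415) (nat_lit 310) (nat_lit 295)) (XT.nd (nat_lit 78) (nat_lit 0) (nat_lit 0) (XT.lf (nat_lit 0) (nat_lit 26776811025756) (nat_lit 76) (nat_lit 794474371451) (nat_lit 76) (nat_lit 794403842130) (nat_lit 1) (nat_lit 4) (nat_lit 2) (nat_lit 5) (nat_lit 2) (nat_lit 4) (nat_lit 416) (nat_lit 310) (nat_lit 294)) (XT.lf (nat_lit 0) (nat_lit 30794146640748) (nat_lit 76) (nat_lit 913204907450) (nat_lit 76) (nat_lit 913133277400) (nat_lit 1) (nat_lit 4) (nat_lit 2) (nat_lit 5) (nat_lit 2) (nat_lit 4) (nat_lit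 417) (nat_lit 310) (nat_lit 293))))) (XT.nd (nat_lit 234) (nat_lit 0) (nat_lit 0) (XT.nd (nat_lit 78) (nat_lit 0) (nat_lit 0) (XT.lf (nat_lit 0) (nat_lit 35414064918619) (nat_lit 76) (nat_lit 1049754336901) (nat_lit 76) (nat_lit 1049681749696) (nat_lit 1) (nat_lit 4) (nat_lit 2) (nat_lit 5) (nat_lit 2) (nat_lit 4) (nat_lit 418) (nat_lit 310) (nat_lit 292)) (XT.nd (nat_lit 78) (nat_lit 0) (nat_lit 0) (XT.lf (nat_lit 0) (nat_lit 40726955564806) (nat_lit 76) (nat_lit 1206794279077) (nat_lit 76) (nat_lit 1206720859562) (nat_lit 1) (nat_lit 4) (nat_lit 2) (nat_lit 5) (nat_lit 2) (nat_lit 4) (nat_lit 419) (nat_lit 310) (nat_lit 291)) (XT.lf (nat_lit 0) (nat_lit 46836766439777) (nat_lit 76) (nat_lit 1387397254584) (nat_lit 76) (nat_lit 1387323111322) (nat_lit 1) (nat_lit 4) (nat_lit 2) (nat_lit 5) (nat_lit 2) (nat_lit 4) (nat_lit 420) (nat_lit 310) (nat_lit 290)))) (XT.nd (nat_lit 78) (nat_lit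 0) (nat_lit 0) (XT.lf (nat_lit 0) (nat_lit 53863037321521) (nat_lit 76) (nat_lit 1595096799901) (nat_lit 76) (nat_lit 1595022027293) (nat_lit 1) (nat_lit 4) (nat_lit 2) (nat_lit 5) (nat_lit 2) (nat_lit 4) (nat_lit 421) (nat_lit 310) (nat_lit 289)) (XT.nd (nat_lit 78) (nat_lit 0) (nat_lit 0) (XT.lf (nat_lit 0) (nat_lit 61943238727290) (nat_lit 76) (nat_lit 1833956601783) (nat_lit 76) (nat_lit 1833881281919) (nat_lit 1) (nat_lit 4) (nat_lit 2) (nat_lit 5) (nat_lit 2) (nat_lit 4) (nat_lit 422) (nat_lit 310) (nat_lit 288)) (XT.lf (nat_lit 0) (nat_lit 71235461554152) (nat_lit 76) (nat_lit 2108650004181) (nat_lit 76) (nat_lit 2108574208441) (nat_lit 1) (nat_lit 4) (nat_lit 2) (nat_lit 5) (nat_lit 2) (nat_lit 4) (nat_lit 423) (nat_lit 310) (nat_lit 287)))))) (XT.nd (nat_lit 468) (nat_lit 0) (nat_lit 0) (XT.nd (nat_lit 234) (nat_lit 0) (nat_lit 0) (XT.nd (nat_lit 78) (nat_lit 0) (nat_lit 0) (XT.lf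 (nat_lit 0) (nat_lit 81921510161765) (nat_lit 76) (nat_lit 2424551443228) (nat_lit 76) (nat_lit 2424475233683) (nat_lit 1) (nat_lit 4) (nat_lit 2) (nat_lit 5) (nat_lit 2) (nat_lit 4) (nat_lit 424) (nat_lit 310) (nat_lit 286)) (XT.nd (nat_lit 78) (nat_lit 0) (nat_lit 0) (XT.lf (nat_lit 0) (nat_lit 94210459414189) (nat_lit 76) (nat_lit 2787841599253) (nat_lit 76) (nat_lit 2787765029877) (nat_lit 1) (nat_lit 4) (nat_lit 2) (nat_lit 5) (nat_lit 2) (nat_lit 4) (nat_lit 425) (nat_lit 310) (nat_lit 285)) (XT.lf (nat_lit 0) (nat_lit 108342745275060) (nat_lit 76) (nat_lit 3205628323135) (nat_lit 76) (nat_lit 3205551440864) (nat_lit 1) (nat_lit 4) (nat_lit 2) (nat_lit 5) (nat_lit 2) (nat_lit 4) (nat_lit 426) (nat_lit 310) (nat_lit 284)))) (XT.nd (nat_lit 78) (nat_lit 0) (nat_lit 0) (XT.lf (nat_lit 0) (nat_lit 124594868989481) (nat_lit 76) (nat_lit 3686085702951) (nat_lit 76) (nat_lit 3686008548596)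 (nat_lit 1) (nat_lit 4) (nat_lit 2) (nat_lit 5) (nat_lit 2) (nat_lit 4) (nat_lit 427) (nat_lit 310) (nat_lit 283)) (XT.nd (nat_lit 78) (nat_lit 0) (nat_lit 0) (XT.lf (nat_lit 0) (nat_lit 143284806890995) (nat_lit 76) (nat_lit 4238613991783) (nat_lit 76) (nat_lit 4238536600833) (nat_lit 1) (nat_lit 4) (nat_lit 2) (nat_lit 5) (nat_lit 2) (nat_lit 4) (nat_lit 428) (nat_lit 310) (nat_lit 282)) (XT.lf (nat_lit 0) (nat_lit 164778231677675) (nat_lit 76) (nat_lit 4874023525717) (nat_lit 76) (nat_lit 4873945929033) (nat_lit 1) (nat_lit 4) (nat_lit 2) (nat_lit 5) (nat_lit 2) (nat_lit 4) (nat_lit 429) (nat_lit 310) (nat_lit 281))))) (XT.nd (nat_lit 234) (nat_lit 0) (nat_lit 0) (XT.nd (nat_lit 78) (nat_lit 0) (nat_lit 0) (XT.lf (nat_lit 0) (nat_lit 189495666877957) (nat_lit 76) (nat_lit 5604746230417) (nat_lit 76) (nat_lit 5604668454834) (nat_lit 1) (nat_lit 4) (nat_lit 2) (nat_lit 5) (nat_lit 2)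 (nat_lit 4) (nat_lit 430) (nat_lit 310) (nat_lit 280)) (XT.nd (nat_lit 78) (nat_lit 0) (nat_lit 0) (XT.lf (nat_lit 0) (nat_lit 217920714484889) (nat_lit 76) (nat_lit 6445078854454) (nat_lit 76) (nat_lit 6445000923307) (nat_lit 1) (nat_lit 4) (nat_lit 2) (nat_lit 5) (nat_lit 2) (nat_lit 4) (nat_lit 431) (nat_lit 310) (nat_lit 279)) (XT.lf (nat_lit 0) (nat_lit 250609516734260) (nat_lit 76) (nat_lit 7411462688297) (nat_lit 76) (nat_lit 7411384621877) (nat_lit 1) (nat_lit 4) (nat_lit 2) (nat_lit 5) (nat_lit 2) (nat_lit 4) (nat_lit 432) (nat_lit 310) (nat_lit 278)))) (XT.nd (nat_lit 78) (nat_lit 0) (nat_lit 0) (XT.lf (nat_lit 0) (nat_lit 288201637148339) (nat_lit 76) (nat_lit 8522805241740) (nat_lit 76) (nat_lit 8522727057690) (nat_lit 1) (nat_lit 4) (nat_lit 2) (nat_lit 5) (nat_lit 2) (nat_lit 4) (nat_lit 433) (nat_lit 310) (nat_lit 277)) (XT.nd (nat_lit 78) (nat_lit 0) (nat_lit 0) (XT.lf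 (nat_lit 0) (nat_lit 331432573735228) (nat_lit 76) (nat_lit 9800850173436) (nat_lit 76) (nat_lit 9800771887101) (nat_lit 1) (nat_lit 4) (nat_lit 2) (nat_lit 5) (nat_lit 2) (nat_lit 4) (nat_lit 434) (nat_lit 310) (nat_lit 276)) (XT.lf (nat_lit 0) (nat_lit 381148149167280) (nat_lit 76) (nat_lit 11270602710311) (nat_lit 76) (nat_lit 11270524335031) (nat_lit 1) (nat_lit 4) (nat_lit 2) (nat_lit 5) (nat_lit 2) (nat_lit 4) (nat_lit 435) (nat_lit 310) (nat_lit 275))))))))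
noncomputable def xc7 : XT := (XT.nd (nat_lit 1794) (nat_lit 0) (nat_lit 0) (XT.nd (nat_lit 858) (nat_lit 0) (nat_lit 0) (XT.nd (nat_lit 390) (nat_lit 0) (nat_lit 0) (XT.nd (nat_lit 156) (nat_lit 0) (nat_lit 0) (XT.nd (nat_lit 78) (nat_lit 0) (nat_lit 0) (XT.lf (nat_lit 0) (nat_lit 1076852744927) (nat_lit 76) (nat_lit 34774339117) (nat_lit 76) (nat_lit 34774339117) (nat_lit 1) (nat_lit 4) (nat_lit 2) (nat_lit 5) (nat_lit 2) (nat_lit 4) (nat_lit 398) (nat_lit 311) (nat_lit 311)) (XT.lf (nat_lit 0) (nat_lit 2479000097000) (nat_lit 76) (nat_lit 78788022384) (nat_lit 76) (nat_lit 78776177148) (nat_lit 1) (nat_lit 4) (nat_lit 2) (nat_lit 5) (nat_lit 2) (nat_lit 4) (nat_lit 399) (nat_lit 311) (nat_lit 310))) (XT.nd (nat_lit 78) (nat_lit 0) (nat_lit 0) (XT.lf (nat_lit 0) (nat_lit 2852898642850) (nat_lit 76) (nat_lit 89513488372) (nat_lit 76) (nat_lit 89491342930) (nat_lit 1) (nat_lit 4) (nat_lit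 2) (nat_lit 5) (nat_lit 2) (nat_lit 4) (nat_lit 400) (nat_lit 311) (nat_lit 309)) (XT.nd (nat_lit 78) (nat_lit 0) (nat_lit 0) (XT.lf (nat_lit 0) (nat_lit 3282716533737) (nat_lit 76) (nat_lit 101934922271) (nat_lit 76) (nat_lit 101903820128) (nat_lit 1) (nat_lit 4) (nat_lit 2) (nat_lit 5) (nat_lit 2) (nat_lit 4) (nat_lit 401) (nat_lit 311) (nat_lit 308)) (XT.lf (nat_lit 0) (nat_lit 3776863250134) (nat_lit 76) (nat_lit 116295352137) (nat_lit 76) (nat_lit 116256461559) (nat_lit 1) (nat_lit 4) (nat_lit 2) (nat_lit 5) (nat_lit 2) (nat_lit 4) (nat_lit 402) (nat_lit 311) (nat_lit 307))))) (XT.nd (nat_lit 234) (nat_lit 0) (nat_lit 0) (XT.nd (nat_lit 78) (nat_lit 0) (nat_lit 0) (XT.lf (nat_lit 0) (nat_lit 4345006879971) (nat_lit 76) (nat_lit 132875742902) (nat_lit 76) (nat_lit 132830079771) (nat_lit 1) (nat_lit 4) (nat_lit 2) (nat_lit 5) (nat_lit 2) (nat_lit 4) (nat_lit 403) (nat_lit 311) (nat_lit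 306)) (XT.nd (nat_lit 78) (nat_lit 0) (nat_lit 0) (XT.lf (nat_lit 0) (nat_lit 4998263276875) (nat_lit 76) (nat_lit 152000493515) (nat_lit 76) (nat_lit 151948941208) (nat_lit 1) (nat_lit 4) (nat_lit 2) (nat_lit 5) (nat_lit 2) (nat_lit 4) (nat_lit 404) (nat_lit 311) (nat_lit 305)) (XT.lf (nat_lit 0) (nat_lit 5749413544265) (nat_lit 76) (nat_lit 174043783880) (nat_lit 76) (nat_lit 173987110550) (nat_lit 1) (nat_lit 4) (nat_lit 2) (nat_lit 5) (nat_lit 2) (nat_lit 4) (nat_lit 405) (nat_lit 311) (nat_lit 304)))) (XT.nd (nat_lit 78) (nat_lit 0) (nat_lit 0) (XT.lf (nat_lit 0) (nat_lit 6613154100414) (nat_lit 76) (nat_lit 199436895764) (nat_lit 76) (nat_lit 199375769371) (nat_lit 1) (nat_lit 4) (nat_lit 2) (nat_lit 5) (nat_lit 2) (nat_lit 4) (nat_lit 406) (nat_lit 311) (nat_lit 303)) (XT.nd (nat_lit 78) (nat_lit 0) (nat_lit 0) (XT.lf (nat_lit 0) (nat_lit 7606384217075) (nat_lit 76) (nat_lit 228676650923)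 (nat_lit 76) (nat_lit 228611652301) (nat_lit 1) (nat_lit 4) (nat_lit 2) (nat_lit 5) (nat_lit 2) (nat_lit 4) (nat_lit 407) (nat_lit 311) (nat_lit 302)) (XT.lf (nat_lit 0) (nat_lit 8748536657398) (nat_lit 76) (nat_lit 262335131521) (nat_lit 76) (nat_lit 262266765744) (nat_lit 1) (nat_lit 4) (nat_lit 2) (nat_lit 5) (nat_lit 2) (nat_lit 4) (nat_lit 408) (nat_lit 311) (nat_lit 301)))))) (XT.nd (nat_lit 468) (nat_lit 0) (nat_lit 0) (XT.nd (nat_lit 234) (nat_lit 0) (nat_lit 0) (XT.nd (nat_lit 78) (nat_lit 0) (nat_lit 0) (XT.lf (nat_lit 0) (nat_lit 10061957882172) (nat_lit 76) (nat_lit 301070873050) (nat_lit 76) (nat_lit 300999579312) (nat_lit 1) (nat_lit 4) (nat_lit 2) (nat_lit 5) (nat_lit 2) (nat_lit 4) (nat_lit 409) (nat_lit 311) (nat_lit 300)) (XT.nd (nat_lit 78) (nat_lit 0) (nat_lit 0) (XT.lf (nat_lit 0) (nat_lit 11572345263188) (nat_lit 76) (nat_lit 345641748713) (nat_lit 76) (nat_lit 345567908921)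 (nat_lit 1) (nat_lit 4) (nat_lit 2) (nat_lit 5) (nat_lit 2) (nat_lit 4) (nat_lit 410) (nat_lit 311) (nat_lit 299)) (XT.lf (nat_lit 0) (nat_lit 13309249857899) (nat_lit 76) (nat_lit 396919797381) (nat_lit 76) (nat_lit 396843743630) (nat_lit 1) (nat_lit 4) (nat_lit 2) (nat_lit 5) (nat_lit 2) (nat_lit 4) (nat_lit 411) (nat_lit 311) (nat_lit 298)))) (XT.nd (nat_lit 78) (nat_lit 0) (nat_lit 0) (XT.lf (nat_lit 0) (nat_lit 15306654582289) (nat_lit 76) (nat_lit 455908285225) (nat_lit 76) (nat_lit 455830306291) (nat_lit 1) (nat_lit 4) (nat_lit 2) (nat_lit 5) (nat_lit 2) (nat_lit 4) (nat_lit 412) (nat_lit 311) (nat_lit 297)) (XT.nd (nat_lit 78) (nat_lit 0) (nat_lit 0) (XT.lf (nat_lit 0) (nat_lit 17603639094009) (nat_lit 76) (nat_lit 523761334832) (nat_lit 76) (nat_lit 523681681827) (nat_lit 1) (nat_lit 4) (nat_lit 2) (nat_lit 5) (nat_lit 2) (nat_lit 4) (nat_lit 413) (nat_lit 311) (nat_lit 296))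 (XT.lf (nat_lit 0) (nat_lit 20245144394375) (nat_lit 76) (nat_lit 601806505868) (nat_lit 76) (nat_lit 601725397149) (nat_lit 1) (nat_lit 4) (nat_lit 2) (nat_lit 5) (nat_lit 2) (nat_lit 4) (nat_lit 414) (nat_lit 311) (nat_lit 295))))) (XT.nd (nat_lit 234) (nat_lit 0) (nat_lit 0) (XT.nd (nat_lit 78) (nat_lit 0) (nat_lit 0) (XT.lf (nat_lit 0) (nat_lit 23282852108830) (nat_lit 76) (nat_lit 691570769072) (nat_lit 76) (nat_lit 691488394514) (nat_lit 1) (nat_lit 4) (nat_lit 2) (nat_lit 5) (nat_lit 2) (nat_lit 4) (nat_lit 415) (nat_lit 311) (nat_lit 294)) (XT.nd (nat_lit 78) (nat_lit 0) (nat_lit 0) (XT.lf (nat_lit 0) (nat_lit 26776195649177) (nat_lit 76) (nat_lit 794810381767) (nat_lit 76) (nat_lit 794726906480) (nat_lit 1) (nat_lit 4) (nat_lit 2) (nat_lit 5) (nat_lit 2) (nat_lit 4) (nat_lit 416) (nat_lit 311) (nat_lit 293)) (XT.lf (nat_lit 0) (nat_lit 30793523041206) (nat_lit 76) (nat_lit 913545249418)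 (nat_lit 76) (nat_lit 913460816976) (nat_lit 1) (nat_lit 4) (nat_lit 2) (nat_lit 5) (nat_lit 2) (nat_lit 4) (nat_lit 417) (nat_lit 311) (nat_lit 292)))) (XT.nd (nat_lit 78) (nat_lit 0) (nat_lit 0) (XT.lf (nat_lit 0) (nat_lit 35413434168675) (nat_lit 76) (nat_lit 1050098445524) (nat_lit 76) (nat_lit 1050013180772) (nat_lit 1) (nat_lit 4) (nat_lit 2) (nat_lit 5) (nat_lit 2) (nat_lit 4) (nat_lit 418) (nat_lit 311) (nat_lit 291)) (XT.nd (nat_lit 78) (nat_lit 0) (nat_lit 0) (XT.lf (nat_lit 0) (nat_lit 40726318597121) (nat_lit 76) (nat_lit 1207141663051) (nat_lit 76) (nat_lit 1207055674551) (nat_lit 1) (nat_lit 4) (nat_lit 2) (nat_lit 5) (nat_lit 2) (nat_lit 4) (nat_lit 419) (nat_lit 311) (nat_lit 290)) (XT.lf (nat_lit 0) (nat_lit 46836124065361) (nat_lit 76) (nat_lit 1387747486690) (nat_lit 76) (nat_lit 1387660868845) (nat_lit 1) (nat_lit 4) (nat_lit 2) (nat_lit 5) (nat_lit 2) (nat_lit 4)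 (nat_lit 420) (nat_lit 311) (nat_lit 289))))))) (XT.nd (nat_lit 858) (nat_lit 0) (nat_lit 0) (XT.nd (nat_lit 390) (nat_lit 0) (nat_lit 0) (XT.nd (nat_lit 156) (nat_lit 0) (nat_lit 0) (XT.nd (nat_lit 78) (nat_lit 0) (nat_lit 0) (XT.lf (nat_lit 0) (nat_lit 53862390245599) (nat_lit 76) (nat_lit 1595449508643) (nat_lit 76) (nat_lit 1595362343541) (nat_lit 1) (nat_lit 4) (nat_lit 2) (nat_lit 5) (nat_lit 2) (nat_lit 4) (nat_lit 421) (nat_lit 311) (nat_lit 288)) (XT.lf (nat_lit 0) (nat_lit 61942587563102) (nat_lit 76) (nat_lit 1834311464122) (nat_lit 76) (nat_lit 1834223823145) (nat_lit 1) (nat_lit 4) (nat_lit 2) (nat_lit 5) (nat_lit 2) (nat_lit 4) (nat_lit 422) (nat_lit 311) (nat_lit 287))) (XT.nd (nat_lit 78) (nat_lit 0) (nat_lit 0) (XT.lf (nat_lit 0) (nat_lit 71234806834951) (nat_lit 76) (nat_lit 2109006739212) (nat_lit 76) (nat_lit 2108918684430) (nat_lit 1) (nat_lit 4) (nat_lit 2) (nat_lit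 5) (nat_lit 2) (nat_lit 4) (nat_lit 423) (nat_lit 311) (nat_lit 286)) (XT.nd (nat_lit 78) (nat_lit 0) (nat_lit 0) (XT.lf (nat_lit 0) (nat_lit 81920852351247) (nat_lit 76) (nat_lit 2424909806688) (nat_lit 76) (nat_lit 2424821392075) (nat_lit 1) (nat_lit 4) (nat_lit 2) (nat_lit 5) (nat_lit 2) (nat_lit 4) (nat_lit 424) (nat_lit 311) (nat_lit 285)) (XT.lf (nat_lit 0) (nat_lit 94209798915570) (nat_lit 76) (nat_lit 2788201378737) (nat_lit 76) (nat_lit 2788112651229) (nat_lit 1) (nat_lit 4) (nat_lit 2) (nat_lit 5) (nat_lit 2) (nat_lit 4) (nat_lit 425) (nat_lit 311) (nat_lit 284))))) (XT.nd (nat_lit 234) (nat_lit 0) (nat_lit 0) (XT.nd (nat_lit 78) (nat_lit 0) (nat_lit 0) (XT.lf (nat_lit 0) (nat_lit 108342082438962) (nat_lit 76) (nat_lit 3205989333946) (nat_lit 76) (nat_lit 3205900334354) (nat_lit 1) (nat_lit 4) (nat_lit 2) (nat_lit 5) (nat_lit 2) (nat_lit 4) (nat_lit 426) (nat_lit 311) (nat_lit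 283)) (XT.nd (nat_lit 78) (nat_lit 0) (nat_lit 0) (XT.lf (nat_lit 0) (nat_lit 124594204120792) (nat_lit 76) (nat_lit 3686447784479) (nat_lit 76) (nat_lit 3686358548294) (nat_lit 1) (nat_lit 4) (nat_lit 2) (nat_lit 5) (nat_lit 2) (nat_lit 4) (nat_lit 427) (nat_lit 311) (nat_lit 282)) (XT.lf (nat_lit 0) (nat_lit 143284140254836) (nat_lit 76) (nat_lit 4238977004370) (nat_lit 76) (nat_lit 4238887562451) (nat_lit 1) (nat_lit 4) (nat_lit 2) (nat_lit 5) (nat_lit 2) (nat_lit 4) (nat_lit 428) (nat_lit 311) (nat_lit 281)))) (XT.nd (nat_lit 78) (nat_lit 0) (nat_lit 0) (XT.lf (nat_lit 0) (nat_lit 164777563504586) (nat_lit 76) (nat_lit 4874387347921) (nat_lit 76) (nat_lit 4874297727102) (nat_lit 1) (nat_lit 4) (nat_lit 2) (nat_lit 5) (nat_lit 2) (nat_lit 4) (nat_lit 429) (nat_lit 311) (nat_lit 280)) (XT.nd (nat_lit 78) (nat_lit 0) (nat_lit 0) (XT.lf (nat_lit 0) (nat_lit 189494997368406) (nat_lit 76)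 (nat_lit 5605110756636) (nat_lit 76) (nat_lit 5605020980253) (nat_lit 1) (nat_lit 4) (nat_lit 2) (nat_lit 5) (nat_lit 2) (nat_lit 4) (nat_lit 430) (nat_lit 311) (nat_lit 279)) (XT.lf (nat_lit 0) (nat_lit 217920043813198) (nat_lit 76) (nat_lit 6445443992860) (nat_lit 76) (nat_lit 6445354081202) (nat_lit 1) (nat_lit 4) (nat_lit 2) (nat_lit 5) (nat_lit 2) (nat_lit 4) (nat_lit 431) (nat_lit 311) (nat_lit 278)))))) (XT.nd (nat_lit 50466) (nat_lit 0) (nat_lit 0) (XT.nd (nat_lit 234) (nat_lit 0) (nat_lit 0) (XT.nd (nat_lit 78) (nat_lit 0) (nat_lit 0) (XT.lf (nat_lit 0) (nat_lit 250608845052012) (nat_lit 76) (nat_lit 7411828359040) (nat_lit 76) (nat_lit 7411738329753) (nat_lit 1) (nat_lit 4) (nat_lit 2) (nat_lit 5) (nat_lit 2) (nat_lit 4) (nat_lit 432) (nat_lit 311) (nat_lit 277)) (XT.nd (nat_lit 78) (nat_lit 0) (nat_lit 0) (XT.lf (nat_lit 0) (nat_lit 288200964587347) (nat_lit 76) (nat_lit 8523171375383)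 (nat_lit 76) (nat_lit 8523081243810) (nat_lit 1) (nat_lit 4) (nat_lit 2) (nat_lit 5) (nat_lit 2) (nat_lit 4) (nat_lit 433) (nat_lit 311) (nat_lit 276)) (XT.lf (nat_lit 0) (nat_lit 331431900410109) (nat_lit 76) (nat_lit 9801216709603) (nat_lit 76) (nat_lit 9801126489085) (nat_lit 1) (nat_lit 4) (nat_lit 2) (nat_lit 5) (nat_lit 2) (nat_lit 4) (nat_lit 434) (nat_lit 311) (nat_lit 275)))) (XT.nd (nat_lit 50076) (nat_lit 0) (nat_lit 0) (XT.lf (nat_lit 0) (nat_lit 381147475177704) (nat_lit 76) (nat_lit 11270969596496) (nat_lit 76) (nat_lit 11270879298636) (nat_lit 1) (nat_lit 4) (nat_lit 2) (nat_lit 5) (nat_lit 2) (nat_lit 4) (nat_lit 435) (nat_lit 311) (nat_lit 274)) (XT.nd (nat_lit 78) (nat_lit 0) (nat_lit 0) (XT.lf (nat_lit 0) (nat_lit 812206852388) (nat_lit 76) (nat_lit 27391395388) (nat_lit 76) (nat_lit 27391395388) (nat_lit 1) (nat_lit 4) (nat_lit 2) (nat_lit 5) (nat_lit 2) (nat_lit 4)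 (nat_lit 396) (nat_lit 312) (nat_lit 312)) (XT.lf (nat_lit 0) (nat_lit 1870650361710) (nat_lit 76) (nat_lit 61628308170) (nat_lit 76) (nat_lit 61614686148) (nat_lit 1) (nat_lit 4) (nat_lit 2) (nat_lit 5) (nat_lit 2) (nat_lit 4) (nat_lit 397) (nat_lit 312) (nat_lit 311))))) (XT.nd (nat_lit 234) (nat_lit 0) (nat_lit 0) (XT.nd (nat_lit 78) (nat_lit 0) (nat_lit 0) (XT.lf (nat_lit 0) (nat_lit 2153603726961) (nat_lit 76) (nat_lit 69615906419) (nat_lit 76) (nat_lit 69590439161) (nat_lit 1) (nat_lit 4) (nat_lit 2) (nat_lit 5) (nat_lit 2) (nat_lit 4) (nat_lit 398) (nat_lit 312) (nat_lit 310)) (XT.nd (nat_lit 78) (nat_lit 0) (nat_lit 0) (XT.lf (nat_lit 0) (nat_lit 2478809844633) (nat_lit 76) (nat_lit 78901864622) (nat_lit 76) (nat_lit 78866097158) (nat_lit 1) (nat_lit 4) (nat_lit 2) (nat_lit 5) (nat_lit 2) (nat_lit 4) (nat_lit 399) (nat_lit 312) (nat_lit 309)) (XT.lf (nat_lit 0) (nat_lit 2852631443115)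 (nat_lit 76) (nat_lit 89667864570) (nat_lit 76) (nat_lit 89623140405) (nat_lit 1) (nat_lit 4) (nat_lit 2) (nat_lit 5) (nat_lit 2) (nat_lit 4) (nat_lit 400) (nat_lit 312) (nat_lit 308)))) (XT.nd (nat_lit 78) (nat_lit 0) (nat_lit 0) (XT.lf (nat_lit 0) (nat_lit 3282382423247) (nat_lit 76) (nat_lit 102124545391) (nat_lit 76) (nat_lit 102072032790) (nat_lit 1) (nat_lit 4) (nat_lit 2) (nat_lit 5) (nat_lit 2) (nat_lit 4) (nat_lit 401) (nat_lit 312) (nat_lit 307)) (XT.nd (nat_lit 78) (nat_lit 0) (nat_lit 0) (XT.lf (nat_lit 0) (nat_lit 3776470956380) (nat_lit 76) (nat_lit 116515624754) (nat_lit 76) (nat_lit 116456339601) (nat_lit 1) (nat_lit 4) (nat_lit 2) (nat_lit 5) (nat_lit 2) (nat_lit 4) (nat_lit 402) (nat_lit 312) (nat_lit 306)) (XT.lf (nat_lit 0) (nat_lit 4344563992073) (nat_lit 76) (nat_lit 133122667255) (nat_lit 76) (nat_lit 133057492926) (nat_lit 1) (nat_lit 4) (nat_lit 2) (nat_lit 5)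 (nat_lit 2) (nat_lit 4) (nat_lit 403) (nat_lit 312) (nat_lit 305))))))))
noncomputable def xc8 : XT := (XT.nd (nat_lit 1716) (nat_lit 0) (nat_lit 0) (XT.nd (nat_lit 858) (nat_lit 0) (nat_lit 0) (XT.nd (nat_lit 390) (nat_lit 0) (nat_lit 0) (XT.nd (nat_lit 156) (nat_lit 0) (nat_lit 0) (XT.nd (nat_lit 78) (nat_lit 0) (nat_lit 0) (XT.lf (nat_lit 0) (nat_lit 4997776394070) (nat_lit 76) (nat_lit 152270593292) (nat_lit 76) (nat_lit 152200297940) (nat_lit 1) (nat_lit 4) (nat_lit 2) (nat_lit 5) (nat_lit 2) (nat_lit 4) (nat_lit 404) (nat_lit 312) (nat_lit 304)) (XT.lf (nat_lit 0) (nat_lit 5748888405019) (nat_lit 76) (nat_lit 174334036198) (nat_lit 76) (nat_lit 174259287783) (nat_lit 1) (nat_lit 4) (nat_lit 2) (nat_lit 5) (nat_lit 2) (nat_lit 4) (nat_lit 405) (nat_lit 312) (nat_lit 303))) (XT.nd (nat_lit 78) (nat_lit 0) (nat_lit 0) (XT.lf (nat_lit 0) (nat_lit 6612595694698) (nat_lit 76) (nat_lit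 199744672032) (nat_lit 76) (nat_lit 199666051388) (nat_lit 1) (nat_lit 4) (nat_lit 2) (nat_lit 5) (nat_lit 2) (nat_lit 4) (nat_lit 406) (nat_lit 312) (nat_lit 302)) (XT.nd (nat_lit 78) (nat_lit 0) (nat_lit 0) (XT.lf (nat_lit 0) (nat_lit 7605796883992) (nat_lit 76) (nat_lit 228999665408) (nat_lit 76) (nat_lit 228917677608) (nat_lit 1) (nat_lit 4) (nat_lit 2) (nat_lit 5) (nat_lit 2) (nat_lit 4) (nat_lit 407) (nat_lit 312) (nat_lit 301)) (XT.lf (nat_lit 0) (nat_lit 8747924170084) (nat_lit 76) (nat_lit 262671396630) (nat_lit 76) (nat_lit 262586480869) (nat_lit 1) (nat_lit 4) (nat_lit 2) (nat_lit 5) (nat_lit 2) (nat_lit 4) (nat_lit 408) (nat_lit 312) (nat_lit 300))))) (XT.nd (nat_lit 234) (nat_lit 0) (nat_lit 0) (XT.nd (nat_lit 78) (nat_lit 0) (nat_lit 0) (XT.lf (nat_lit 0) (nat_lit 10061323521615) (nat_lit 76) (nat_lit 301418660440) (nat_lit 76) (nat_lit 301331198626) (nat_lit 1) (nat_lit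 4) (nat_lit 2) (nat_lit 5) (nat_lit 2) (nat_lit 4) (nat_lit 409) (nat_lit 312) (nat_lit 299)) (XT.nd (nat_lit 78) (nat_lit 0) (nat_lit 0) (XT.lf (nat_lit 0) (nat_lit 11571691882418) (nat_lit 76) (nat_lit 345999555477) (nat_lit 76) (nat_lit 345909879704) (nat_lit 1) (nat_lit 4) (nat_lit 2) (nat_lit 5) (nat_lit 2) (nat_lit 4) (nat_lit 410) (nat_lit 312) (nat_lit 298)) (XT.lf (nat_lit 0) (nat_lit 13308579937813) (nat_lit 76) (nat_lit 397286316645) (nat_lit 76) (nat_lit 397194715690) (nat_lit 1) (nat_lit 4) (nat_lit 2) (nat_lit 5) (nat_lit 2) (nat_lit 4) (nat_lit 411) (nat_lit 312) (nat_lit 297)))) (XT.nd (nat_lit 78) (nat_lit 0) (nat_lit 0) (XT.lf (nat_lit 0) (nat_lit 15305970280190) (nat_lit 76) (nat_lit 456282380576) (nat_lit 76) (nat_lit 456189105549) (nat_lit 1) (nat_lit 4) (nat_lit 2) (nat_lit 5) (nat_lit 2) (nat_lit 4) (nat_lit 412) (nat_lit 312) (nat_lit 296)) (XT.nd (nat_lit 78)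 (nat_lit 0) (nat_lit 0) (XT.lf (nat_lit 0) (nat_lit 17602942285812) (nat_lit 76) (nat_lit 524142018084) (nat_lit 76) (nat_lit 524047287343) (nat_lit 1) (nat_lit 4) (nat_lit 2) (nat_lit 5) (nat_lit 2) (nat_lit 4) (nat_lit 413) (nat_lit 312) (nat_lit 295)) (XT.lf (nat_lit 0) (nat_lit 20244436711310) (nat_lit 76) (nat_lit 602192917731) (nat_lit 76) (nat_lit 602096921151) (nat_lit 1) (nat_lit 4) (nat_lit 2) (nat_lit 5) (nat_lit 2) (nat_lit 4) (nat_lit 414) (nat_lit 312) (nat_lit 294)))))) (XT.nd (nat_lit 390) (nat_lit 0) (nat_lit 0) (XT.nd (nat_lit 156) (nat_lit 0) (nat_lit 0) (XT.nd (nat_lit 78) (nat_lit 0) (nat_lit 0) (XT.lf (nat_lit 0) (nat_lit 23282134969357) (nat_lit 76) (nat_lit 691962162335) (nat_lit 76) (nat_lit 691865065026) (nat_lit 1) (nat_lit 4) (nat_lit 2) (nat_lit 5) (nat_lit 2) (nat_lit 4) (nat_lit 415) (nat_lit 312) (nat_lit 293)) (XT.lf (nat_lit 0) (nat_lit 26775470286742)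 (nat_lit 76) (nat_lit 795206106682) (nat_lit 76) (nat_lit 795108052218) (nat_lit 1) (nat_lit 4) (nat_lit 2) (nat_lit 5) (nat_lit 2) (nat_lit 4) (nat_lit 416) (nat_lit 312) (nat_lit 292))) (XT.nd (nat_lit 78) (nat_lit 0) (nat_lit 0) (XT.lf (nat_lit 0) (nat_lit 30792790528369) (nat_lit 76) (nat_lit 913944740988) (nat_lit 76) (nat_lit 913845854214) (nat_lit 1) (nat_lit 4) (nat_lit 2) (nat_lit 5) (nat_lit 2) (nat_lit 4) (nat_lit 417) (nat_lit 312) (nat_lit 291)) (XT.nd (nat_lit 78) (nat_lit 0) (nat_lit 0) (XT.lf (nat_lit 0) (nat_lit 35412695438096) (nat_lit 76) (nat_lit 1050501212445) (nat_lit 76) (nat_lit 1050401601923) (nat_lit 1) (nat_lit 4) (nat_lit 2) (nat_lit 5) (nat_lit 2) (nat_lit 4) (nat_lit 418) (nat_lit 312) (nat_lit 290)) (XT.lf (nat_lit 0) (nat_lit 40725574459811) (nat_lit 76) (nat_lit 1207547278103) (nat_lit 76) (nat_lit 1207447038237) (nat_lit 1) (nat_lit 4) (nat_lit 2) (nat_lit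 5) (nat_lit 2) (nat_lit 4) (nat_lit 419) (nat_lit 312) (nat_lit 289))))) (XT.nd (nat_lit 234) (nat_lit 0) (nat_lit 0) (XT.nd (nat_lit 78) (nat_lit 0) (nat_lit 0) (XT.lf (nat_lit 0) (nat_lit 46835375226545) (nat_lit 76) (nat_lit 1388155578379) (nat_lit 76) (nat_lit 1388054791255) (nat_lit 1) (nat_lit 4) (nat_lit 2) (nat_lit 5) (nat_lit 2) (nat_lit 4) (nat_lit 420) (nat_lit 312) (nat_lit 288)) (XT.nd (nat_lit 78) (nat_lit 0) (nat_lit 0) (XT.lf (nat_lit 0) (nat_lit 53861637318517) (nat_lit 76) (nat_lit 1595859753929) (nat_lit 76) (nat_lit 1595758490929) (nat_lit 1) (nat_lit 4) (nat_lit 2) (nat_lit 5) (nat_lit 2) (nat_lit 4) (nat_lit 421) (nat_lit 312) (nat_lit 287)) (XT.lf (nat_lit 0) (nat_lit 61941831081007) (nat_lit 76) (nat_lit 1834723582100) (nat_lit 76) (nat_lit 1834621905296) (nat_lit 1) (nat_lit 4) (nat_lit 2) (nat_lit 5) (nat_lit 2) (nat_lit 4) (nat_lit 422) (nat_lit 312) (nat_lit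 286)))) (XT.nd (nat_lit 78) (nat_lit 0) (nat_lit 0) (XT.lf (nat_lit 0) (nat_lit 71234047261539) (nat_lit 76) (nat_lit 2109420485619) (nat_lit 76) (nat_lit 2109318448985) (nat_lit 1) (nat_lit 4) (nat_lit 2) (nat_lit 5) (nat_lit 2) (nat_lit 4) (nat_lit 423) (nat_lit 312) (nat_lit 285)) (XT.nd (nat_lit 78) (nat_lit 0) (nat_lit 0) (XT.lf (nat_lit 0) (nat_lit 81920090089734) (nat_lit 76) (nat_lit 2425324969120) (nat_lit 76) (nat_lit 2425222619589) (nat_lit 1) (nat_lit 4) (nat_lit 2) (nat_lit 5) (nat_lit 2) (nat_lit 4) (nat_lit 424) (nat_lit 312) (nat_lit 284)) (XT.lf (nat_lit 0) (nat_lit 94209034316578) (nat_lit 76) (nat_lit 2788617772495) (nat_lit 76) (nat_lit 2788515150882) (nat_lit 1) (nat_lit 4) (nat_lit 2) (nat_lit 5) (nat_lit 2) (nat_lit 4) (nat_lit 425) (nat_lit 312) (nat_lit 283))))))) (XT.nd (nat_lit 50700) (nat_lit 0) (nat_lit 0) (XT.nd (nat_lit 390) (nat_lit 0) (nat_lit 0) (XT.nd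 (nat_lit 156) (nat_lit 0) (nat_lit 0) (XT.nd (nat_lit 78) (nat_lit 0) (nat_lit 0) (XT.lf (nat_lit 0) (nat_lit 108341315807379) (nat_lit 76) (nat_lit 3206406798422) (nat_lit 76) (nat_lit 3206303940214) (nat_lit 1) (nat_lit 4) (nat_lit 2) (nat_lit 5) (nat_lit 2) (nat_lit 4) (nat_lit 426) (nat_lit 312) (nat_lit 282)) (XT.lf (nat_lit 0) (nat_lit 124593435721739) (nat_lit 76) (nat_lit 3686866180015) (nat_lit 76) (nat_lit 3686763116073) (nat_lit 1) (nat_lit 4) (nat_lit 2) (nat_lit 5) (nat_lit 2) (nat_lit 4) (nat_lit 427) (nat_lit 312) (nat_lit 281))) (XT.nd (nat_lit 78) (nat_lit 0) (nat_lit 0) (XT.lf (nat_lit 0) (nat_lit 143283370318852) (nat_lit 76) (nat_lit 4239396209523) (nat_lit 76) (nat_lit 4239292966681) (nat_lit 1) (nat_lit 4) (nat_lit 2) (nat_lit 5) (nat_lit 2) (nat_lit 4) (nat_lit 428) (nat_lit 312) (nat_lit 280)) (XT.nd (nat_lit 78) (nat_lit 0) (nat_lit 0) (XT.lf (nat_lit 0) (nat_lit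 164776792232141) (nat_lit 76) (nat_lit 4874807257088) (nat_lit 76) (nat_lit 4874703858682) (nat_lit 1) (nat_lit 4) (nat_lit 2) (nat_lit 5) (nat_lit 2) (nat_lit 4) (nat_lit 429) (nat_lit 312) (nat_lit 279)) (XT.lf (nat_lit 0) (nat_lit 189494224933822) (nat_lit 76) (nat_lit 5605531277990) (nat_lit 76) (nat_lit 5605427744310) (nat_lit 1) (nat_lit 4) (nat_lit 2) (nat_lit 5) (nat_lit 2) (nat_lit 4) (nat_lit 430) (nat_lit 312) (nat_lit 278))))) (XT.nd (nat_lit 234) (nat_lit 0) (nat_lit 0) (XT.nd (nat_lit 78) (nat_lit 0) (nat_lit 0) (XT.lf (nat_lit 0) (nat_lit 217919270368057) (nat_lit 76) (nat_lit 6445865046549) (nat_lit 76) (nat_lit 6445761395241) (nat_lit 1) (nat_lit 4) (nat_lit 2) (nat_lit 5) (nat_lit 2) (nat_lit 4) (nat_lit 431) (nat_lit 312) (nat_lit 277)) (XT.nd (nat_lit 78) (nat_lit 0) (nat_lit 0) (XT.lf (nat_lit 0) (nat_lit 250608070728126) (nat_lit 76) (nat_lit 7412249875630) (nat_lit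 76) (nat_lit 7412146122035) (nat_lit 1) (nat_lit 4) (nat_lit 2) (nat_lit 5) (nat_lit 2) (nat_lit 4) (nat_lit 432) (nat_lit 312) (nat_lit 276)) (XT.lf (nat_lit 0) (nat_lit 288200189499334) (nat_lit 76) (nat_lit 8523593294496) (nat_lit 76) (nat_lit 8523489451957) (nat_lit 1) (nat_lit 4) (nat_lit 2) (nat_lit 5) (nat_lit 2) (nat_lit 4) (nat_lit 433) (nat_lit 312) (nat_lit 275)))) (XT.nd (nat_lit 78) (nat_lit 0) (nat_lit 0) (XT.lf (nat_lit 0) (nat_lit 331431124657639) (nat_lit 76) (nat_lit 9801638978735) (nat_lit 76) (nat_lit 9801535058853) (nat_lit 1) (nat_lit 4) (nat_lit 2) (nat_lit 5) (nat_lit 2) (nat_lit 4) (nat_lit 434) (nat_lit 312) (nat_lit 274)) (XT.nd (nat_lit 49920) (nat_lit 0) (nat_lit 0) (XT.lf (nat_lit 0) (nat_lit 381146698847444) (nat_lit 76) (nat_lit 11271392169995) (nat_lit 76) (nat_lit 11271288182857) (nat_lit 1) (nat_lit 4) (nat_lit 2) (nat_lit 5) (nat_lit 2) (nat_lit 4)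 (nat_lit 435) (nat_lit 312) (nat_lit 273)) (XT.lf (nat_lit 0) (nat_lit 611789256973) (nat_lit 76) (nat_lit 21973379104) (nat_lit 76) (nat_lit 21973379104) (nat_lit 1) (nat_lit 4) (nat_lit 2) (nat_lit 5) (nat_lit 2) (nat_lit 4) (nat_lit 394) (nat_lit 313) (nat_lit 313)))))) (XT.nd (nat_lit 468) (nat_lit 0) (nat_lit 0) (XT.nd (nat_lit 234) (nat_lit 0) (nat_lit 0) (XT.nd (nat_lit 78) (nat_lit 0) (nat_lit 0) (XT.lf (nat_lit 0) (nat_lit 1410076082439) (nat_lit 76) (nat_lit 48961085531) (nat_lit 76) (nat_lit 48945420206) (nat_lit 1) (nat_lit 4) (nat_lit 2) (nat_lit 5) (nat_lit 2) (nat_lit 4) (nat_lit 395) (nat_lit 313) (nat_lit 312)) (XT.nd (nat_lit 78) (nat_lit 0) (nat_lit 0) (XT.lf (nat_lit 0) (nat_lit 1624296677448) (nat_lit 76) (nat_lit 54860103189) (nat_lit 76) (nat_lit 54830815841) (nat_lit 1) (nat_lit 4) (nat_lit 2) (nat_lit 5) (nat_lit 2) (nat_lit 4) (nat_lit 396) (nat_lit 313) (nat_lit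 311)) (XT.lf (nat_lit 0) (nat_lit 1870431571488) (nat_lit 76) (nat_lit 61759226743) (nat_lit 76) (nat_lit 61718094159) (nat_lit 1) (nat_lit 4) (nat_lit 2) (nat_lit 5) (nat_lit 2) (nat_lit 4) (nat_lit 397) (nat_lit 313) (nat_lit 310)))) (XT.nd (nat_lit 78) (nat_lit 0) (nat_lit 0) (XT.lf (nat_lit 0) (nat_lit 2153296447266) (nat_lit 76) (nat_lit 69793439047) (nat_lit 76) (nat_lit 69742006257) (nat_lit 1) (nat_lit 4) (nat_lit 2) (nat_lit 5) (nat_lit 2) (nat_lit 4) (nat_lit 398) (nat_lit 313) (nat_lit 309)) (XT.nd (nat_lit 78) (nat_lit 0) (nat_lit 0) (XT.lf (nat_lit 0) (nat_lit 2478425617570) (nat_lit 76) (nat_lit 79119931210) (nat_lit 76) (nat_lit 79059541719) (nat_lit 1) (nat_lit 4) (nat_lit 2) (nat_lit 5) (nat_lit 2) (nat_lit 4) (nat_lit 399) (nat_lit 313) (nat_lit 308)) (XT.lf (nat_lit 0) (nat_lit 2852180305298) (nat_lit 76) (nat_lit 89921178079) (nat_lit 76) (nat_lit 89853000153) (nat_lit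 1) (nat_lit 4) (nat_lit 2) (nat_lit 5) (nat_lit 2) (nat_lit 4) (nat_lit 400) (nat_lit 313) (nat_lit 307))))) (XT.nd (nat_lit 234) (nat_lit 0) (nat_lit 0) (XT.nd (nat_lit 78) (nat_lit 0) (nat_lit 0) (XT.lf (nat_lit 0) (nat_lit 3281873102165) (nat_lit 76) (nat_lit 102408508397) (nat_lit 76) (nat_lit 102333557919) (nat_lit 1) (nat_lit 4) (nat_lit 2) (nat_lit 5) (nat_lit 2) (nat_lit 4) (nat_lit 401) (nat_lit 313) (nat_lit 306)) (XT.nd (nat_lit 78) (nat_lit 0) (nat_lit 0) (XT.lf (nat_lit 0) (nat_lit 3775911041154) (nat_lit 76) (nat_lit 116826239497) (nat_lit 76) (nat_lit 116745399843) (nat_lit 1) (nat_lit 4) (nat_lit 2) (nat_lit 5) (nat_lit 2) (nat_lit 4) (nat_lit 402) (nat_lit 313) (nat_lit 305)) (XT.lf (nat_lit 0) (nat_lit 4343960081940) (nat_lit 76) (nat_lit 133456457421) (nat_lit 76) (nat_lit 133370496744) (nat_lit 1) (nat_lit 4) (nat_lit 2) (nat_lit 5) (nat_lit 2) (nat_lit 4) (nat_lit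 403) (nat_lit 313) (nat_lit 304)))) (XT.nd (nat_lit 78) (nat_lit 0) (nat_lit 0) (XT.lf (nat_lit 0) (nat_lit 4997134227496) (nat_lit 76) (nat_lit 152624536000) (nat_lit 76) (nat_lit 152534122259) (nat_lit 1) (nat_lit 4) (nat_lit 2) (nat_lit 5) (nat_lit 2) (nat_lit 4) (nat_lit 404) (nat_lit 313) (nat_lit 303)) (XT.nd (nat_lit 78) (nat_lit 0) (nat_lit 0) (XT.lf (nat_lit 0) (nat_lit 5748212971974) (nat_lit 76) (nat_lit 174705502856) (nat_lit 76) (nat_lit 174611216886) (nat_lit 1) (nat_lit 4) (nat_lit 2) (nat_lit 5) (nat_lit 2) (nat_lit 4) (nat_lit 405) (nat_lit 313) (nat_lit 302)) (XT.lf (nat_lit 0) (nat_lit 6611891334287) (nat_lit 76) (nat_lit 200131376907) (nat_lit 76) (nat_lit 200033723782) (nat_lit 1) (nat_lit 4) (nat_lit 2) (nat_lit 5) (nat_lit 2) (nat_lit 4) (nat_lit 406) (nat_lit 313) (nat_lit 301))))))))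
noncomputable def xc9 : XT := (XT.nd (nat_lit 1794) (nat_lit 0) (nat_lit 0) (XT.nd (nat_lit 858) (nat_lit 0) (nat_lit 0) (XT.nd (nat_lit 390) (nat_lit 0) (nat_lit 0) (XT.nd (nat_lit 156) (nat_lit 0) (nat_lit 0) (XT.nd (nat_lit 78) (nat_lit 0) (nat_lit 0) (XT.lf (nat_lit 0) (nat_lit 7605067369351) (nat_lit 76) (nat_lit 229399620905) (nat_lit 76) (nat_lit 229299039819) (nat_lit 1) (nat_lit 4) (nat_lit 2) (nat_lit 5) (nat_lit 2) (nat_lit 4) (nat_lit 407) (nat_lit 313) (nat_lit 300)) (XT.lf (nat_lit 0) (nat_lit 8747172782199) (nat_lit 76) (nat_lit 263082874409) (nat_lit 76) (nat_lit 262979747269) (nat_lit 1) (nat_lit 4) (nat_lit 2) (nat_lit 5) (nat_lit 2) (nat_lit 4) (nat_lit 408) (nat_lit 313) (nat_lit 299))) (XT.nd (nat_lit 78) (nat_lit 0) (nat_lit 0) (XT.lf (nat_lit 0) (nat_lit 10060553113516) (nat_lit 76) (nat_lit 301840157594) (nat_lit 76) (nat_lit 301734816495) (nat_lit 1) (nat_lit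 4) (nat_lit 2) (nat_lit 5) (nat_lit 2) (nat_lit 4) (nat_lit 409) (nat_lit 313) (nat_lit 298)) (XT.nd (nat_lit 78) (nat_lit 0) (nat_lit 0) (XT.lf (nat_lit 0) (nat_lit 11570904935004) (nat_lit 76) (nat_lit 346429765131) (nat_lit 76) (nat_lit 346322498850) (nat_lit 1) (nat_lit 4) (nat_lit 2) (nat_lit 5) (nat_lit 2) (nat_lit 4) (nat_lit 410) (nat_lit 313) (nat_lit 297)) (XT.lf (nat_lit 0) (nat_lit 13307778608387) (nat_lit 76) (nat_lit 397724102386) (nat_lit 76) (nat_lit 397615162034) (nat_lit 1) (nat_lit 4) (nat_lit 2) (nat_lit 5) (nat_lit 2) (nat_lit 4) (nat_lit 411) (nat_lit 313) (nat_lit 296))))) (XT.nd (nat_lit 234) (nat_lit 0) (nat_lit 0) (XT.nd (nat_lit 78) (nat_lit 0) (nat_lit 0) (XT.lf (nat_lit 0) (nat_lit 15305156444665) (nat_lit 76) (nat_lit 456726754218) (nat_lit 76) (nat_lit 456616358152) (nat_lit 1) (nat_lit 4) (nat_lit 2) (nat_lit 5) (nat_lit 2) (nat_lit 4) (nat_lit 412) (nat_lit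 313) (nat_lit 295)) (XT.nd (nat_lit 78) (nat_lit 0) (nat_lit 0) (XT.lf (nat_lit 0) (nat_lit 17602117575418) (nat_lit 76) (nat_lit 524592120337) (nat_lit 76) (nat_lit 524480458432) (nat_lit 1) (nat_lit 4) (nat_lit 2) (nat_lit 5) (nat_lit 2) (nat_lit 4) (nat_lit 413) (nat_lit 313) (nat_lit 294)) (XT.lf (nat_lit 0) (nat_lit 20243602544509) (nat_lit 76) (nat_lit 602648001384) (nat_lit 76) (nat_lit 602535238750) (nat_lit 1) (nat_lit 4) (nat_lit 2) (nat_lit 5) (nat_lit 2) (nat_lit 4) (nat_lit 414) (nat_lit 313) (nat_lit 293)))) (XT.nd (nat_lit 78) (nat_lit 0) (nat_lit 0) (XT.lf (nat_lit 0) (nat_lit 23281292579594) (nat_lit 76) (nat_lit 692421577640) (nat_lit 76) (nat_lit 692307857850) (nat_lit 1) (nat_lit 4) (nat_lit 2) (nat_lit 5) (nat_lit 2) (nat_lit 4) (nat_lit 415) (nat_lit 313) (nat_lit 292)) (XT.nd (nat_lit 78) (nat_lit 0) (nat_lit 0) (XT.lf (nat_lit 0) (nat_lit 26774620746576) (nat_lit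 76) (nat_lit 795669288641) (nat_lit 76) (nat_lit 795554736542) (nat_lit 1) (nat_lit 4) (nat_lit 2) (nat_lit 5) (nat_lit 2) (nat_lit 4) (nat_lit 416) (nat_lit 313) (nat_lit 291)) (XT.lf (nat_lit 0) (nat_lit 30791934770462) (nat_lit 76) (nat_lit 914411198298) (nat_lit 76) (nat_lit 914295922452) (nat_lit 1) (nat_lit 4) (nat_lit 2) (nat_lit 5) (nat_lit 2) (nat_lit 4) (nat_lit 417) (nat_lit 313) (nat_lit 290)))))) (XT.nd (nat_lit 468) (nat_lit 0) (nat_lit 0) (XT.nd (nat_lit 234) (nat_lit 0) (nat_lit 0) (XT.nd (nat_lit 78) (nat_lit 0) (nat_lit 0) (XT.lf (nat_lit 0) (nat_lit 35411834273458) (nat_lit 76) (nat_lit 1050970517887) (nat_lit 76) (nat_lit 1050854612695) (nat_lit 1) (nat_lit 4) (nat_lit 2) (nat_lit 5) (nat_lit 2) (nat_lit 4) (nat_lit 418) (nat_lit 313) (nat_lit 289)) (XT.nd (nat_lit 78) (nat_lit 0) (nat_lit 0) (XT.lf (nat_lit 0) (nat_lit 40724708593667) (nat_lit 76) (nat_lit 1208019060182)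 (nat_lit 76) (nat_lit 1207902607733) (nat_lit 1) (nat_lit 4) (nat_lit 2) (nat_lit 5) (nat_lit 2) (nat_lit 4) (nat_lit 419) (nat_lit 313) (nat_lit 288)) (XT.lf (nat_lit 0) (nat_lit 46834505272135) (nat_lit 76) (nat_lit 1388629514054) (nat_lit 76) (nat_lit 1388512585730) (nat_lit 1) (nat_lit 4) (nat_lit 2) (nat_lit 5) (nat_lit 2) (nat_lit 4) (nat_lit 420) (nat_lit 313) (nat_lit 287)))) (XT.nd (nat_lit 78) (nat_lit 0) (nat_lit 0) (XT.lf (nat_lit 0) (nat_lit 53860763809094) (nat_lit 76) (nat_lit 1596335562297) (nat_lit 76) (nat_lit 1596218220167) (nat_lit 1) (nat_lit 4) (nat_lit 2) (nat_lit 5) (nat_lit 2) (nat_lit 4) (nat_lit 421) (nat_lit 313) (nat_lit 286)) (XT.nd (nat_lit 78) (nat_lit 0) (nat_lit 0) (XT.lf (nat_lit 0) (nat_lit 61940954480267) (nat_lit 76) (nat_lit 1835201018897) (nat_lit 76) (nat_lit 1835083316938) (nat_lit 1) (nat_lit 4) (nat_lit 2) (nat_lit 5) (nat_lit 2) (nat_lit 4)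 (nat_lit 422) (nat_lit 313) (nat_lit 285)) (XT.lf (nat_lit 0) (nat_lit 71233167972698) (nat_lit 76) (nat_lit 2109899338441) (nat_lit 76) (nat_lit 2109781323585) (nat_lit 1) (nat_lit 4) (nat_lit 2) (nat_lit 5) (nat_lit 2) (nat_lit 4) (nat_lit 423) (nat_lit 313) (nat_lit 284))))) (XT.nd (nat_lit 234) (nat_lit 0) (nat_lit 0) (XT.nd (nat_lit 78) (nat_lit 0) (nat_lit 0) (XT.lf (nat_lit 0) (nat_lit 81919208463414) (nat_lit 76) (nat_lit 2425805053267) (nat_lit 76) (nat_lit 2425686766328) (nat_lit 1) (nat_lit 4) (nat_lit 2) (nat_lit 5) (nat_lit 2) (nat_lit 4) (nat_lit 424) (nat_lit 313) (nat_lit 283)) (XT.nd (nat_lit 78) (nat_lit 0) (nat_lit 0) (XT.lf (nat_lit 0) (nat_lit 94208150657667) (nat_lit 76) (nat_lit 2789098927361) (nat_lit 76) (nat_lit 2788980403828) (nat_lit 1) (nat_lit 4) (nat_lit 2) (nat_lit 5) (nat_lit 2) (nat_lit 4) (nat_lit 425) (nat_lit 313) (nat_lit 282)) (XT.lf (nat_lit 0)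 (nat_lit 108340430380998) (nat_lit 76) (nat_lit 3206888884347) (nat_lit 76) (nat_lit 3206770155079) (nat_lit 1) (nat_lit 4) (nat_lit 2) (nat_lit 5) (nat_lit 2) (nat_lit 4) (nat_lit 426) (nat_lit 313) (nat_lit 281)))) (XT.nd (nat_lit 78) (nat_lit 0) (nat_lit 0) (XT.lf (nat_lit 0) (nat_lit 124592548758428) (nat_lit 76) (nat_lit 3687349075557) (nat_lit 76) (nat_lit 3687230167390) (nat_lit 1) (nat_lit 4) (nat_lit 2) (nat_lit 5) (nat_lit 2) (nat_lit 4) (nat_lit 427) (nat_lit 313) (nat_lit 280)) (XT.nd (nat_lit 78) (nat_lit 0) (nat_lit 0) (XT.lf (nat_lit 0) (nat_lit 143282482019080) (nat_lit 76) (nat_lit 4239879809079) (nat_lit 76) (nat_lit 4239760745348) (nat_lit 1) (nat_lit 4) (nat_lit 2) (nat_lit 5) (nat_lit 2) (nat_lit 4) (nat_lit 428) (nat_lit 313) (nat_lit 279)) (XT.lf (nat_lit 0) (nat_lit 164775902770228) (nat_lit 76) (nat_lit 4875291468831) (nat_lit 76) (nat_lit 4875172269826) (nat_lit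 1) (nat_lit 4) (nat_lit 2) (nat_lit 5) (nat_lit 2) (nat_lit 4) (nat_lit 429) (nat_lit 313) (nat_lit 278))))))) (XT.nd (nat_lit 50622) (nat_lit 0) (nat_lit 0) (XT.nd (nat_lit 50154) (nat_lit 0) (nat_lit 0) (XT.nd (nat_lit 156) (nat_lit 0) (nat_lit 0) (XT.nd (nat_lit 78) (nat_lit 0) (nat_lit 0) (XT.lf (nat_lit 0) (nat_lit 189493334461352) (nat_lit 76) (nat_lit 5606016022069) (nat_lit 76) (nat_lit 5605896705435) (nat_lit 1) (nat_lit 4) (nat_lit 2) (nat_lit 5) (nat_lit 2) (nat_lit 4) (nat_lit 430) (nat_lit 313) (nat_lit 277)) (XT.lf (nat_lit 0) (nat_lit 217918379016842) (nat_lit 76) (nat_lit 6446350253530) (nat_lit 76) (nat_lit 6446230834609) (nat_lit 1) (nat_lit 4) (nat_lit 2) (nat_lit 5) (nat_lit 2) (nat_lit 4) (nat_lit 431) (nat_lit 313) (nat_lit 276))) (XT.nd (nat_lit 78) (nat_lit 0) (nat_lit 0) (XT.lf (nat_lit 0) (nat_lit 250607178612785) (nat_lit 76) (nat_lit 7412735485133) (nat_lit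 76) (nat_lit 7412615977268) (nat_lit 1) (nat_lit 4) (nat_lit 2) (nat_lit 5) (nat_lit 2) (nat_lit 4) (nat_lit 432) (nat_lit 313) (nat_lit 275)) (XT.nd (nat_lit 78) (nat_lit 0) (nat_lit 0) (XT.lf (nat_lit 0) (nat_lit 288199296719535) (nat_lit 76) (nat_lit 8524079254019) (nat_lit 76) (nat_lit 8523959668811) (nat_lit 1) (nat_lit 4) (nat_lit 2) (nat_lit 5) (nat_lit 2) (nat_lit 4) (nat_lit 433) (nat_lit 313) (nat_lit 274)) (XT.lf (nat_lit 0) (nat_lit 331430231300052) (nat_lit 76) (nat_lit 9802125242623) (nat_lit 76) (nat_lit 9802005590160) (nat_lit 1) (nat_lit 4) (nat_lit 2) (nat_lit 5) (nat_lit 2) (nat_lit 4) (nat_lit 434) (nat_lit 313) (nat_lit 273))))) (XT.nd (nat_lit 234) (nat_lit 0) (nat_lit 0) (XT.nd (nat_lit 78) (nat_lit 0) (nat_lit 0) (XT.lf (nat_lit 0) (nat_lit 459891389736) (nat_lit 76) (nat_lit 18065812742) (nat_lit 76) (nat_lit 18065812742) (nat_lit 1) (nat_lit 4) (nat_lit 2) (nat_lit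 5) (nat_lit 2) (nat_lit 4) (nat_lit 392) (nat_lit 314) (nat_lit 314)) (XT.nd (nat_lit 78) (nat_lit 0) (nat_lit 0) (XT.lf (nat_lit 0) (nat_lit 1061155106504) (nat_lit 76) (nat_lit 39737029938) (nat_lit 76) (nat_lit 39719014814) (nat_lit 1) (nat_lit 4) (nat_lit 2) (nat_lit 5) (nat_lit 2) (nat_lit 4) (nat_lit 393) (nat_lit 314) (nat_lit 313)) (XT.lf (nat_lit 0) (nat_lit 1223443932520) (nat_lit 76) (nat_lit 44035667481) (nat_lit 76) (nat_lit 44001987032) (nat_lit 1) (nat_lit 4) (nat_lit 2) (nat_lit 5) (nat_lit 2) (nat_lit 4) (nat_lit 394) (nat_lit 314) (nat_lit 312)))) (XT.nd (nat_lit 78) (nat_lit 0) (nat_lit 0) (XT.lf (nat_lit 0) (nat_lit 1409824473683) (nat_lit 76) (nat_lit 49111641891) (nat_lit 76) (nat_lit 49064339419) (nat_lit 1) (nat_lit 4) (nat_lit 2) (nat_lit 5) (nat_lit 2) (nat_lit 4) (nat_lit 395) (nat_lit 314) (nat_lit 311)) (XT.nd (nat_lit 78) (nat_lit 0) (nat_lit 0) (XT.lf (nat_lit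 0) (nat_lit 1623943305799) (nat_lit 76) (nat_lit 55064265711) (nat_lit 76) (nat_lit 55005118002) (nat_lit 1) (nat_lit 4) (nat_lit 2) (nat_lit 5) (nat_lit 2) (nat_lit 4) (nat_lit 396) (nat_lit 314) (nat_lit 310)) (XT.lf (nat_lit 0) (nat_lit 1869989710366) (nat_lit 76) (nat_lit 62010003319) (nat_lit 76) (nat_lit 61940555405) (nat_lit 1) (nat_lit 4) (nat_lit 2) (nat_lit 5) (nat_lit 2) (nat_lit 4) (nat_lit 397) (nat_lit 314) (nat_lit 309)))))) (XT.nd (nat_lit 468) (nat_lit 0) (nat_lit 0) (XT.nd (nat_lit 234) (nat_lit 0) (nat_lit 0) (XT.nd (nat_lit 78) (nat_lit 0) (nat_lit 0) (XT.lf (nat_lit 0) (nat_lit 2152777638776) (nat_lit 76) (nat_lit 70084749583) (nat_lit 76) (nat_lit 70006344968) (nat_lit 1) (nat_lit 4) (nat_lit 2) (nat_lit 5) (nat_lit 2) (nat_lit 4) (nat_lit 398) (nat_lit 314) (nat_lit 308)) (XT.nd (nat_lit 78) (nat_lit 0) (nat_lit 0) (XT.lf (nat_lit 0) (nat_lit 2477839898326) (nat_lit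 76) (nat_lit 79446488667) (nat_lit 76) (nat_lit 79360295617) (nat_lit 1) (nat_lit 4) (nat_lit 2) (nat_lit 5) (nat_lit 2) (nat_lit 4) (nat_lit 399) (nat_lit 314) (nat_lit 307)) (XT.lf (nat_lit 0) (nat_lit 2851536402788) (nat_lit 76) (nat_lit 90278385034) (nat_lit 76) (nat_lit 90185419431) (nat_lit 1) (nat_lit 4) (nat_lit 2) (nat_lit 5) (nat_lit 2) (nat_lit 4) (nat_lit 400) (nat_lit 314) (nat_lit 306)))) (XT.nd (nat_lit 78) (nat_lit 0) (nat_lit 0) (XT.lf (nat_lit 0) (nat_lit 3281178605512) (nat_lit 76) (nat_lit 102792367088) (nat_lit 76) (nat_lit 102693512310) (nat_lit 1) (nat_lit 4) (nat_lit 2) (nat_lit 5) (nat_lit 2) (nat_lit 4) (nat_lit 401) (nat_lit 314) (nat_lit 305)) (XT.nd (nat_lit 78) (nat_lit 0) (nat_lit 0) (XT.lf (nat_lit 0) (nat_lit 3775172549594) (nat_lit 76) (nat_lit 117233273611) (nat_lit 76) (nat_lit 117129297810) (nat_lit 1) (nat_lit 4) (nat_lit 2) (nat_lit 5) (nat_lit 2)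 (nat_lit 4) (nat_lit 402) (nat_lit 314) (nat_lit 304)) (XT.lf (nat_lit 0) (nat_lit 4343183333939) (nat_lit 76) (nat_lit 133883644078) (nat_lit 76) (nat_lit 133775215213) (nat_lit 1) (nat_lit 4) (nat_lit 2) (nat_lit 5) (nat_lit 2) (nat_lit 4) (nat_lit 403) (nat_lit 314) (nat_lit 303))))) (XT.nd (nat_lit 234) (nat_lit 0) (nat_lit 0) (XT.nd (nat_lit 78) (nat_lit 0) (nat_lit 0) (XT.lf (nat_lit 0) (nat_lit 4996324213024) (nat_lit 76) (nat_lit 153069246605) (nat_lit 76) (nat_lit 152956945512) (nat_lit 1) (nat_lit 4) (nat_lit 2) (nat_lit 5) (nat_lit 2) (nat_lit 4) (nat_lit 404) (nat_lit 314) (nat_lit 302)) (XT.nd (nat_lit 78) (nat_lit 0) (nat_lit 0) (XT.lf (nat_lit 0) (nat_lit 5747374030137) (nat_lit 76) (nat_lit 175165451678) (nat_lit 76) (nat_lit 175049783429) (nat_lit 1) (nat_lit 4) (nat_lit 2) (nat_lit 5) (nat_lit 2) (nat_lit 4) (nat_lit 405) (nat_lit 314) (nat_lit 301)) (XT.lf (nat_lit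 0) (nat_lit 6611027238219) (nat_lit 76) (nat_lit 200604576352) (nat_lit 76) (nat_lit 200485980142) (nat_lit 1) (nat_lit 4) (nat_lit 2) (nat_lit 5) (nat_lit 2) (nat_lit 4) (nat_lit 406) (nat_lit 314) (nat_lit 300)))) (XT.nd (nat_lit 78) (nat_lit 0) (nat_lit 0) (XT.lf (nat_lit 0) (nat_lit 7604181400038) (nat_lit 76) (nat_lit 229884342632) (nat_lit 76) (nat_lit 229763200369) (nat_lit 1) (nat_lit 4) (nat_lit 2) (nat_lit 5) (nat_lit 2) (nat_lit 4) (nat_lit 407) (nat_lit 314) (nat_lit 299)) (XT.nd (nat_lit 78) (nat_lit 0) (nat_lit 0) (XT.lf (nat_lit 0) (nat_lit 8746267792673) (nat_lit 76) (nat_lit 263577615511) (nat_lit 76) (nat_lit 263454259287) (nat_lit 1) (nat_lit 4) (nat_lit 2) (nat_lit 5) (nat_lit 2) (nat_lit 4) (nat_lit 408) (nat_lit 314) (nat_lit 298)) (XT.lf (nat_lit 0) (nat_lit 10059631584676) (nat_lit 76) (nat_lit 302343611196) (nat_lit 76) (nat_lit 302218329790) (nat_lit 1) (nat_lit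 4) (nat_lit 2) (nat_lit 5) (nat_lit 2) (nat_lit 4) (nat_lit 409) (nat_lit 314) (nat_lit 297))))))))
noncomputable def xc10 : XT := (XT.nd (nat_lit 1794) (nat_lit 0) (nat_lit 0) (XT.nd (nat_lit 858) (nat_lit 0) (nat_lit 0) (XT.nd (nat_lit 390) (nat_lit 0) (nat_lit 0) (XT.nd (nat_lit 156) (nat_lit 0) (nat_lit 0) (XT.nd (nat_lit 78) (nat_lit 0) (nat_lit 0) (XT.lf (nat_lit 0) (nat_lit 11569969024150) (nat_lit 76) (nat_lit 346940794820) (nat_lit 76) (nat_lit 346813839343) (nat_lit 1) (nat_lit 4) (nat_lit 2) (nat_lit 5) (nat_lit 2) (nat_lit 4) (nat_lit 410) (nat_lit 314) (nat_lit 296)) (XT.lf (nat_lit 0) (nat_lit 13306830191434) (nat_lit 76) (nat_lit 398241719977) (nat_lit 76) (nat_lit 398113308786) (nat_lit 1) (nat_lit 4) (nat_lit 2) (nat_lit 5) (nat_lit 2) (nat_lit 4) (nat_lit 411) (nat_lit 314) (nat_lit 295))) (XT.nd (nat_lit 78) (nat_lit 0) (nat_lit 0) (XT.lf (nat_lit 0) (nat_lit 15304197152844)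 (nat_lit 76) (nat_lit 457250100419) (nat_lit 76) (nat_lit 457120423390) (nat_lit 1) (nat_lit 4) (nat_lit 2) (nat_lit 5) (nat_lit 2) (nat_lit 4) (nat_lit 412) (nat_lit 314) (nat_lit 294)) (XT.nd (nat_lit 78) (nat_lit 0) (nat_lit 0) (XT.lf (nat_lit 0) (nat_lit 17601148827191) (nat_lit 76) (nat_lit 525120447938) (nat_lit 76) (nat_lit 524989670179) (nat_lit 1) (nat_lit 4) (nat_lit 2) (nat_lit 5) (nat_lit 2) (nat_lit 4) (nat_lit 413) (nat_lit 314) (nat_lit 293)) (XT.lf (nat_lit 0) (nat_lit 20242625573319) (nat_lit 76) (nat_lit 603180660637) (nat_lit 76) (nat_lit 603048925723) (nat_lit 1) (nat_lit 4) (nat_lit 2) (nat_lit 5) (nat_lit 2) (nat_lit 4) (nat_lit 414) (nat_lit 314) (nat_lit 292))))) (XT.nd (nat_lit 234) (nat_lit 0) (nat_lit 0) (XT.nd (nat_lit 78) (nat_lit 0) (nat_lit 0) (XT.lf (nat_lit 0) (nat_lit 23280308458001) (nat_lit 76) (nat_lit 692958003548) (nat_lit 76) (nat_lit 692825436324)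 (nat_lit 1) (nat_lit 4) (nat_lit 2) (nat_lit 5) (nat_lit 2) (nat_lit 4) (nat_lit 415) (nat_lit 314) (nat_lit 291)) (XT.nd (nat_lit 78) (nat_lit 0) (nat_lit 0) (XT.lf (nat_lit 0) (nat_lit 26773630407242) (nat_lit 76) (nat_lit 796208989900) (nat_lit 76) (nat_lit 796075698929) (nat_lit 1) (nat_lit 4) (nat_lit 2) (nat_lit 5) (nat_lit 2) (nat_lit 4) (nat_lit 416) (nat_lit 314) (nat_lit 290)) (XT.lf (nat_lit 0) (nat_lit 30790939024396) (nat_lit 76) (nat_lit 914953747689) (nat_lit 76) (nat_lit 914819827373) (nat_lit 1) (nat_lit 4) (nat_lit 2) (nat_lit 5) (nat_lit 2) (nat_lit 4) (nat_lit 417) (nat_lit 314) (nat_lit 289)))) (XT.nd (nat_lit 78) (nat_lit 0) (nat_lit 0) (XT.lf (nat_lit 0) (nat_lit 35410833825887) (nat_lit 76) (nat_lit 1051515543914) (nat_lit 76) (nat_lit 1051381076341) (nat_lit 1) (nat_lit 4) (nat_lit 2) (nat_lit 5) (nat_lit 2) (nat_lit 4) (nat_lit 418) (nat_lit 314) (nat_lit 288))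 (XT.nd (nat_lit 78) (nat_lit 0) (nat_lit 0) (XT.lf (nat_lit 0) (nat_lit 40723704057830) (nat_lit 76) (nat_lit 1208566239806) (nat_lit 76) (nat_lit 1208431296357) (nat_lit 1) (nat_lit 4) (nat_lit 2) (nat_lit 5) (nat_lit 2) (nat_lit 4) (nat_lit 419) (nat_lit 314) (nat_lit 287)) (XT.lf (nat_lit 0) (nat_lit 46833497181284) (nat_lit 76) (nat_lit 1389178566371) (nat_lit 76) (nat_lit 1389043209117) (nat_lit 1) (nat_lit 4) (nat_lit 2) (nat_lit 5) (nat_lit 2) (nat_lit 4) (nat_lit 420) (nat_lit 314) (nat_lit 286)))))) (XT.nd (nat_lit 468) (nat_lit 0) (nat_lit 0) (XT.nd (nat_lit 234) (nat_lit 0) (nat_lit 0) (XT.nd (nat_lit 78) (nat_lit 0) (nat_lit 0) (XT.lf (nat_lit 0) (nat_lit 53859752626927) (nat_lit 76) (nat_lit 1596886243042) (nat_lit 76) (nat_lit 1596750525958) (nat_lit 1) (nat_lit 4) (nat_lit 2) (nat_lit 5) (nat_lit 2) (nat_lit 4) (nat_lit 421) (nat_lit 314) (nat_lit 285)) (XT.nd (nat_lit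 78) (nat_lit 0) (nat_lit 0) (XT.lf (nat_lit 0) (nat_lit 61939940609999) (nat_lit 76) (nat_lit 1835753115667) (nat_lit 76) (nat_lit 1835617085687) (nat_lit 1) (nat_lit 4) (nat_lit 2) (nat_lit 5) (nat_lit 2) (nat_lit 4) (nat_lit 422) (nat_lit 314) (nat_lit 284)) (XT.lf (nat_lit 0) (nat_lit 71232151764951) (nat_lit 76) (nat_lit 2110452666537) (nat_lit 76) (nat_lit 2110316364473) (nat_lit 1) (nat_lit 4) (nat_lit 2) (nat_lit 5) (nat_lit 2) (nat_lit 4) (nat_lit 423) (nat_lit 314) (nat_lit 283)))) (XT.nd (nat_lit 78) (nat_lit 0) (nat_lit 0) (XT.lf (nat_lit 0) (nat_lit 81918190223076) (nat_lit 76) (nat_lit 2426359452081) (nat_lit 76) (nat_lit 2426222913423) (nat_lit 1) (nat_lit 4) (nat_lit 2) (nat_lit 5) (nat_lit 2) (nat_lit 4) (nat_lit 424) (nat_lit 314) (nat_lit 282)) (XT.nd (nat_lit 78) (nat_lit 0) (nat_lit 0) (XT.lf (nat_lit 0) (nat_lit 94207130649859) (nat_lit 76) (nat_lit 2789654257234)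 (nat_lit 76) (nat_lit 2789517512843) (nat_lit 1) (nat_lit 4) (nat_lit 2) (nat_lit 5) (nat_lit 2) (nat_lit 4) (nat_lit 425) (nat_lit 314) (nat_lit 281)) (XT.lf (nat_lit 0) (nat_lit 108339408836259) (nat_lit 76) (nat_lit 3207445023837) (nat_lit 76) (nat_lit 3207308100546) (nat_lit 1) (nat_lit 4) (nat_lit 2) (nat_lit 5) (nat_lit 2) (nat_lit 4) (nat_lit 426) (nat_lit 314) (nat_lit 280))))) (XT.nd (nat_lit 234) (nat_lit 0) (nat_lit 0) (XT.nd (nat_lit 78) (nat_lit 0) (nat_lit 0) (XT.lf (nat_lit 0) (nat_lit 124591525877228) (nat_lit 76) (nat_lit 3687905919061) (nat_lit 76) (nat_lit 3687768840206) (nat_lit 1) (nat_lit 4) (nat_lit 2) (nat_lit 5) (nat_lit 2) (nat_lit 4) (nat_lit 427) (nat_lit 314) (nat_lit 279)) (XT.nd (nat_lit 78) (nat_lit 0) (nat_lit 0) (XT.lf (nat_lit 0) (nat_lit 143281457975740) (nat_lit 76) (nat_lit 4240437264770) (nat_lit 76) (nat_lit 4240300050641) (nat_lit 1) (nat_lit 4)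 (nat_lit 2) (nat_lit 5) (nat_lit 2) (nat_lit 4) (nat_lit 428) (nat_lit 314) (nat_lit 278)) (XT.lf (nat_lit 0) (nat_lit 164774877716331) (nat_lit 76) (nat_lit 4875849456859) (nat_lit 76) (nat_lit 4875712125100) (nat_lit 1) (nat_lit 4) (nat_lit 2) (nat_lit 5) (nat_lit 2) (nat_lit 4) (nat_lit 429) (nat_lit 314) (nat_lit 277)))) (XT.nd (nat_lit 78) (nat_lit 0) (nat_lit 0) (XT.lf (nat_lit 0) (nat_lit 189492308528710) (nat_lit 76) (nat_lit 5606574472998) (nat_lit 76) (nat_lit 5606437038953) (nat_lit 1) (nat_lit 4) (nat_lit 2) (nat_lit 5) (nat_lit 2) (nat_lit 4) (nat_lit 430) (nat_lit 314) (nat_lit 276)) (XT.nd (nat_lit 78) (nat_lit 0) (nat_lit 0) (XT.lf (nat_lit 0) (nat_lit 217917352320074) (nat_lit 76) (nat_lit 6446909106980) (nat_lit 76) (nat_lit 6446771583992) (nat_lit 1) (nat_lit 4) (nat_lit 2) (nat_lit 5) (nat_lit 2) (nat_lit 4) (nat_lit 431) (nat_lit 314) (nat_lit 275)) (XT.lf (nat_lit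 0) (nat_lit 250606151251559) (nat_lit 76) (nat_lit 7413294688604) (nat_lit 76) (nat_lit 7413157088272) (nat_lit 1) (nat_lit 4) (nat_lit 2) (nat_lit 5) (nat_lit 2) (nat_lit 4) (nat_lit 432) (nat_lit 314) (nat_lit 274))))))) (XT.nd (nat_lit 50544) (nat_lit 0) (nat_lit 0) (XT.nd (nat_lit 50076) (nat_lit 0) (nat_lit 0) (XT.nd (nat_lit 49842) (nat_lit 0) (nat_lit 0) (XT.nd (nat_lit 49764) (nat_lit 0) (nat_lit 0) (XT.lf (nat_lit 0) (nat_lit 288198268780521) (nat_lit 76) (nat_lit 8524638761855) (nat_lit 76) (nat_lit 8524501094268) (nat_lit 1) (nat_lit 4) (nat_lit 2) (nat_lit 5) (nat_lit 2) (nat_lit 4) (nat_lit 433) (nat_lit 314) (nat_lit 273)) (XT.lf (nat_lit 0) (nat_lit 344628401953) (nat_lit 76) (nat_lit 15328748376) (nat_lit 76) (nat_lit 15328748376) (nat_lit 1) (nat_lit 4) (nat_lit 2) (nat_lit 5) (nat_lit 2) (nat_lit 4) (nat_lit 390) (nat_lit 315) (nat_lit 315))) (XT.nd (nat_lit 78) (nat_lit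 0) (nat_lit 0) (XT.lf (nat_lit 0) (nat_lit 796560971118) (nat_lit 76) (nat_lit 33169630991) (nat_lit 76) (nat_lit 33148913598) (nat_lit 1) (nat_lit 4) (nat_lit 2) (nat_lit 5) (nat_lit 2) (nat_lit 4) (nat_lit 391) (nat_lit 315) (nat_lit 314)) (XT.nd (nat_lit 78) (nat_lit 0) (nat_lit 0) (XT.lf (nat_lit 0) (nat_lit 919628010832) (nat_lit 76) (nat_lit 36233871149) (nat_lit 76) (nat_lit 36195138632) (nat_lit 1) (nat_lit 4) (nat_lit 2) (nat_lit 5) (nat_lit 2) (nat_lit 4) (nat_lit 392) (nat_lit 315) (nat_lit 313)) (XT.lf (nat_lit 0) (nat_lit 1060865756435) (nat_lit 76) (nat_lit 39910169752) (nat_lit 76) (nat_lit 39855771910) (nat_lit 1) (nat_lit 4) (nat_lit 2) (nat_lit 5) (nat_lit 2) (nat_lit 4) (nat_lit 393) (nat_lit 315) (nat_lit 312))))) (XT.nd (nat_lit 234) (nat_lit 0) (nat_lit 0) (XT.nd (nat_lit 78) (nat_lit 0) (nat_lit 0) (XT.lf (nat_lit 0) (nat_lit 1223037555123) (nat_lit 76) (nat_lit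 44270454381) (nat_lit 76) (nat_lit 44202434517) (nat_lit 1) (nat_lit 4) (nat_lit 2) (nat_lit 5) (nat_lit 2) (nat_lit 4) (nat_lit 394) (nat_lit 315) (nat_lit 311)) (XT.nd (nat_lit 78) (nat_lit 0) (nat_lit 0) (XT.lf (nat_lit 0) (nat_lit 1409316333393) (nat_lit 76) (nat_lit 49400034953) (nat_lit 76) (nat_lit 49320169852) (nat_lit 1) (nat_lit 4) (nat_lit 2) (nat_lit 5) (nat_lit 2) (nat_lit 4) (nat_lit 395) (nat_lit 315) (nat_lit 310)) (XT.lf (nat_lit 0) (nat_lit 1623346676036) (nat_lit 76) (nat_lit 55399272827) (nat_lit 76) (nat_lit 55309107520) (nat_lit 1) (nat_lit 4) (nat_lit 2) (nat_lit 5) (nat_lit 2) (nat_lit 4) (nat_lit 396) (nat_lit 315) (nat_lit 309)))) (XT.nd (nat_lit 78) (nat_lit 0) (nat_lit 0) (XT.lf (nat_lit 0) (nat_lit 1869316133234) (nat_lit 76) (nat_lit 62385544395) (nat_lit 76) (nat_lit 62286422387) (nat_lit 1) (nat_lit 4) (nat_lit 2) (nat_lit 5) (nat_lit 2) (nat_lit 4) (nat_lit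 397) (nat_lit 315) (nat_lit 308)) (XT.nd (nat_lit 78) (nat_lit 0) (nat_lit 0) (XT.lf (nat_lit 0) (nat_lit 2152037150890) (nat_lit 76) (nat_lit 70495537580) (nat_lit 76) (nat_lit 70388627137) (nat_lit 1) (nat_lit 4) (nat_lit 2) (nat_lit 5) (nat_lit 2) (nat_lit 4) (nat_lit 398) (nat_lit 315) (nat_lit 307)) (XT.lf (nat_lit 0) (nat_lit 2477041227175) (nat_lit 76) (nat_lit 79887926162) (nat_lit 76) (nat_lit 79774243166) (nat_lit 1) (nat_lit 4) (nat_lit 2) (nat_lit 5) (nat_lit 2) (nat_lit 4) (nat_lit 399) (nat_lit 315) (nat_lit 306)))))) (XT.nd (nat_lit 468) (nat_lit 0) (nat_lit 0) (XT.nd (nat_lit 234) (nat_lit 0) (nat_lit 0) (XT.nd (nat_lit 78) (nat_lit 0) (nat_lit 0) (XT.lf (nat_lit 0) (nat_lit 2850687137494) (nat_lit 76) (nat_lit 90746474265) (nat_lit 76) (nat_lit 90626902093) (nat_lit 1) (nat_lit 4) (nat_lit 2) (nat_lit 5) (nat_lit 2) (nat_lit 4) (nat_lit 400) (nat_lit 315) (nat_lit 305))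 (XT.nd (nat_lit 78) (nat_lit 0) (nat_lit 0) (XT.lf (nat_lit 0) (nat_lit 3280285345310) (nat_lit 76) (nat_lit 103283631743) (nat_lit 76) (nat_lit 103158938549) (nat_lit 1) (nat_lit 4) (nat_lit 2) (nat_lit 5) (nat_lit 2) (nat_lit 4) (nat_lit 401) (nat_lit 315) (nat_lit 304)) (XT.lf (nat_lit 0) (nat_lit 3774241032951) (nat_lit 76) (nat_lit 117744690808) (nat_lit 76) (nat_lit 117615544550) (nat_lit 1) (nat_lit 4) (nat_lit 2) (nat_lit 5) (nat_lit 2) (nat_lit 4) (nat_lit 402) (nat_lit 315) (nat_lit 303)))) (XT.nd (nat_lit 78) (nat_lit 0) (nat_lit 0) (XT.lf (nat_lit 0) (nat_lit 4342218550826) (nat_lit 76) (nat_lit 134412585223) (nat_lit 76) (nat_lit 134279566737) (nat_lit 1) (nat_lit 4) (nat_lit 2) (nat_lit 5) (nat_lit 2) (nat_lit 4) (nat_lit 403) (nat_lit 315) (nat_lit 302)) (XT.nd (nat_lit 78) (nat_lit 0) (nat_lit 0) (XT.lf (nat_lit 0) (nat_lit 4995330502546) (nat_lit 76) (nat_lit 153613425968)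 (nat_lit 76) (nat_lit 153477040326) (nat_lit 1) (nat_lit 4) (nat_lit 2) (nat_lit 5) (nat_lit 2) (nat_lit 4) (nat_lit 404) (nat_lit 315) (nat_lit 301)) (XT.lf (nat_lit 0) (nat_lit 5746355165427) (nat_lit 76) (nat_lit 175722881664) (nat_lit 76) (nat_lit 175583568061) (nat_lit 1) (nat_lit 4) (nat_lit 2) (nat_lit 5) (nat_lit 2) (nat_lit 4) (nat_lit 405) (nat_lit 315) (nat_lit 300))))) (XT.nd (nat_lit 234) (nat_lit 0) (nat_lit 0) (XT.nd (nat_lit 78) (nat_lit 0) (nat_lit 0) (XT.lf (nat_lit 0) (nat_lit 6609986500264) (nat_lit 76) (nat_lit 201173528620) (nat_lit 76) (nat_lit 201031668963) (nat_lit 1) (nat_lit 4) (nat_lit 2) (nat_lit 5) (nat_lit 2) (nat_lit 4) (nat_lit 406) (nat_lit 315) (nat_lit 299)) (XT.nd (nat_lit 78) (nat_lit 0) (nat_lit 0) (XT.lf (nat_lit 0) (nat_lit 7603121641871) (nat_lit 76) (nat_lit 230463314275) (nat_lit 76) (nat_lit 230319240659) (nat_lit 1) (nat_lit 4) (nat_lit 2)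 (nat_lit 5) (nat_lit 2) (nat_lit 4) (nat_lit 407) (nat_lit 315) (nat_lit 298)) (XT.lf (nat_lit 0) (nat_lit 8745191495191) (nat_lit 76) (nat_lit 264165299653) (nat_lit 76) (nat_lit 264019300855) (nat_lit 1) (nat_lit 4) (nat_lit 2) (nat_lit 5) (nat_lit 2) (nat_lit 4) (nat_lit 408) (nat_lit 315) (nat_lit 297)))) (XT.nd (nat_lit 78) (nat_lit 0) (nat_lit 0) (XT.lf (nat_lit 0) (nat_lit 10058540905180) (nat_lit 76) (nat_lit 302938871425) (nat_lit 76) (nat_lit 302791198555) (nat_lit 1) (nat_lit 4) (nat_lit 2) (nat_lit 5) (nat_lit 2) (nat_lit 4) (nat_lit 409) (nat_lit 315) (nat_lit 296)) (XT.nd (nat_lit 78) (nat_lit 0) (nat_lit 0) (XT.lf (nat_lit 0) (nat_lit 11568865838557) (nat_lit 76) (nat_lit 347542642951) (nat_lit 76) (nat_lit 347393514367) (nat_lit 1) (nat_lit 4) (nat_lit 2) (nat_lit 5) (nat_lit 2) (nat_lit 4) (nat_lit 410) (nat_lit 315) (nat_lit 295)) (XT.lf (nat_lit 0) (nat_lit 13305716130972)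 (nat_lit 76) (nat_lit 398849296718) (nat_lit 76) (nat_lit 398698902296) (nat_lit 1) (nat_lit 4) (nat_lit 2) (nat_lit 5) (nat_lit 2) (nat_lit 4) (nat_lit 411) (nat_lit 315) (nat_lit 294))))))))
noncomputable def xc11 : XT := (XT.nd (nat_lit 51324) (nat_lit 0) (nat_lit 0) (XT.nd (nat_lit 858) (nat_lit 0) (nat_lit 0) (XT.nd (nat_lit 390) (nat_lit 0) (nat_lit 0) (XT.nd (nat_lit 156) (nat_lit 0) (nat_lit 0) (XT.nd (nat_lit 78) (nat_lit 0) (nat_lit 0) (XT.lf (nat_lit 0) (nat_lit 15303073635975) (nat_lit 76) (nat_lit 457862658560) (nat_lit 76) (nat_lit 457711163409) (nat_lit 1) (nat_lit 4) (nat_lit 2) (nat_lit 5) (nat_lit 2) (nat_lit 4) (nat_lit 412) (nat_lit 315) (nat_lit 293)) (XT.lf (nat_lit 0) (nat_lit 17600017087359) (nat_lit 76) (nat_lit 525737337732) (nat_lit 76) (nat_lit 525584885424) (nat_lit 1) (nat_lit 4) (nat_lit 2) (nat_lit 5) (nat_lit 2) (nat_lit 4) (nat_lit 413) (nat_lit 315)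 (nat_lit 292))) (XT.nd (nat_lit 78) (nat_lit 0) (nat_lit 0) (XT.lf (nat_lit 0) (nat_lit 20241486683084) (nat_lit 76) (nat_lit 603801317085) (nat_lit 76) (nat_lit 603648032468) (nat_lit 1) (nat_lit 4) (nat_lit 2) (nat_lit 5) (nat_lit 2) (nat_lit 4) (nat_lit 414) (nat_lit 315) (nat_lit 291)) (XT.nd (nat_lit 78) (nat_lit 0) (nat_lit 0) (XT.lf (nat_lit 0) (nat_lit 23279163350025) (nat_lit 76) (nat_lit 693581935347) (nat_lit 76) (nat_lit 693427926983) (nat_lit 1) (nat_lit 4) (nat_lit 2) (nat_lit 5) (nat_lit 2) (nat_lit 4) (nat_lit 415) (nat_lit 315) (nat_lit 290)) (XT.lf (nat_lit 0) (nat_lit 26772479892535) (nat_lit 76) (nat_lit 796835769831) (nat_lit 76) (nat_lit 796681132122) (nat_lit 1) (nat_lit 4) (nat_lit 2) (nat_lit 5) (nat_lit 2) (nat_lit 4) (nat_lit 416) (nat_lit 315) (nat_lit 289))))) (XT.nd (nat_lit 234) (nat_lit 0) (nat_lit 0) (XT.nd (nat_lit 78) (nat_lit 0) (nat_lit 0) (XT.lf (nat_lit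 0) (nat_lit 30789783808184) (nat_lit 76) (nat_lit 915583004256) (nat_lit 76) (nat_lit 915427819290) (nat_lit 1) (nat_lit 4) (nat_lit 2) (nat_lit 5) (nat_lit 2) (nat_lit 4) (nat_lit 417) (nat_lit 315) (nat_lit 288)) (XT.nd (nat_lit 78) (nat_lit 0) (nat_lit 0) (XT.lf (nat_lit 0) (nat_lit 35409674521409) (nat_lit 76) (nat_lit 1052146954078) (nat_lit 76) (nat_lit 1051991293236) (nat_lit 1) (nat_lit 4) (nat_lit 2) (nat_lit 5) (nat_lit 2) (nat_lit 4) (nat_lit 418) (nat_lit 315) (nat_lit 287)) (XT.lf (nat_lit 0) (nat_lit 40722541198337) (nat_lit 76) (nat_lit 1209199522662) (nat_lit 76) (nat_lit 1209043448016) (nat_lit 1) (nat_lit 4) (nat_lit 2) (nat_lit 5) (nat_lit 2) (nat_lit 4) (nat_lit 419) (nat_lit 315) (nat_lit 286)))) (XT.nd (nat_lit 78) (nat_lit 0) (nat_lit 0) (XT.lf (nat_lit 0) (nat_lit 46832331230476) (nat_lit 76) (nat_lit 1389813477656) (nat_lit 76) (nat_lit 1389657043179) (nat_lit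 1) (nat_lit 4) (nat_lit 2) (nat_lit 5) (nat_lit 2) (nat_lit 4) (nat_lit 420) (nat_lit 315) (nat_lit 285)) (XT.nd (nat_lit 78) (nat_lit 0) (nat_lit 0) (XT.lf (nat_lit 0) (nat_lit 53858583988017) (nat_lit 76) (nat_lit 1597522570352) (nat_lit 76) (nat_lit 1597365822979) (nat_lit 1) (nat_lit 4) (nat_lit 2) (nat_lit 5) (nat_lit 2) (nat_lit 4) (nat_lit 421) (nat_lit 315) (nat_lit 284)) (XT.lf (nat_lit 0) (nat_lit 61938769633610) (nat_lit 76) (nat_lit 1836390674303) (nat_lit 76) (nat_lit 1836233654847) (nat_lit 1) (nat_lit 4) (nat_lit 2) (nat_lit 5) (nat_lit 2) (nat_lit 4) (nat_lit 422) (nat_lit 315) (nat_lit 283)))))) (XT.nd (nat_lit 468) (nat_lit 0) (nat_lit 0) (XT.nd (nat_lit 234) (nat_lit 0) (nat_lit 0) (XT.nd (nat_lit 78) (nat_lit 0) (nat_lit 0) (XT.lf (nat_lit 0) (nat_lit 71230978755972) (nat_lit 76) (nat_lit 2111091295891) (nat_lit 76) (nat_lit 2110934039840) (nat_lit 1) (nat_lit 4) (nat_lit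 2) (nat_lit 5) (nat_lit 2) (nat_lit 4) (nat_lit 423) (nat_lit 315) (nat_lit 282)) (XT.nd (nat_lit 78) (nat_lit 0) (nat_lit 0) (XT.lf (nat_lit 0) (nat_lit 81917015446627) (nat_lit 76) (nat_lit 2426999012494) (nat_lit 76) (nat_lit 2426841550710) (nat_lit 1) (nat_lit 4) (nat_lit 2) (nat_lit 5) (nat_lit 2) (nat_lit 4) (nat_lit 424) (nat_lit 315) (nat_lit 281)) (XT.lf (nat_lit 0) (nat_lit 94205954336479) (nat_lit 76) (nat_lit 2790294627264) (nat_lit 76) (nat_lit 2790136986581) (nat_lit 1) (nat_lit 4) (nat_lit 2) (nat_lit 5) (nat_lit 2) (nat_lit 4) (nat_lit 425) (nat_lit 315) (nat_lit 280)))) (XT.nd (nat_lit 78) (nat_lit 0) (nat_lit 0) (XT.lf (nat_lit 0) (nat_lit 108338231186418) (nat_lit 76) (nat_lit 3208086097882) (nat_lit 76) (nat_lit 3207928301633) (nat_lit 1) (nat_lit 4) (nat_lit 2) (nat_lit 5) (nat_lit 2) (nat_lit 4) (nat_lit 426) (nat_lit 315) (nat_lit 279)) (XT.nd (nat_lit 78) (nat_lit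 0) (nat_lit 0) (XT.lf (nat_lit 0) (nat_lit 124590347065246) (nat_lit 76) (nat_lit 3688547605293) (nat_lit 76) (nat_lit 3688389673771) (nat_lit 1) (nat_lit 4) (nat_lit 2) (nat_lit 5) (nat_lit 2) (nat_lit 4) (nat_lit 427) (nat_lit 315) (nat_lit 278)) (XT.lf (nat_lit 0) (nat_lit 143280278153201) (nat_lit 76) (nat_lit 4241079483338) (nat_lit 76) (nat_lit 4240921434187) (nat_lit 1) (nat_lit 4) (nat_lit 2) (nat_lit 5) (nat_lit 2) (nat_lit 4) (nat_lit 428) (nat_lit 315) (nat_lit 277))))) (XT.nd (nat_lit 234) (nat_lit 0) (nat_lit 0) (XT.nd (nat_lit 78) (nat_lit 0) (nat_lit 0) (XT.lf (nat_lit 0) (nat_lit 164773697015048) (nat_lit 76) (nat_lit 4876492138327) (nat_lit 76) (nat_lit 4876333986890) (nat_lit 1) (nat_lit 4) (nat_lit 2) (nat_lit 5) (nat_lit 2) (nat_lit 4) (nat_lit 429) (nat_lit 315) (nat_lit 276)) (XT.nd (nat_lit 78) (nat_lit 0) (nat_lit 0) (XT.lf (nat_lit 0) (nat_lit 189491127063300)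 (nat_lit 76) (nat_lit 5607217556989) (nat_lit 76) (nat_lit 5607059316607) (nat_lit 1) (nat_lit 4) (nat_lit 2) (nat_lit 5) (nat_lit 2) (nat_lit 4) (nat_lit 430) (nat_lit 315) (nat_lit 275)) (XT.lf (nat_lit 0) (nat_lit 217916170190207) (nat_lit 76) (nat_lit 6447552540992) (nat_lit 76) (nat_lit 6447394223266) (nat_lit 1) (nat_lit 4) (nat_lit 2) (nat_lit 5) (nat_lit 2) (nat_lit 4) (nat_lit 431) (nat_lit 315) (nat_lit 274)))) (XT.nd (nat_lit 78) (nat_lit 0) (nat_lit 0) (XT.lf (nat_lit 0) (nat_lit 250604968543903) (nat_lit 76) (nat_lit 7413938426979) (nat_lit 76) (nat_lit 7413780042000) (nat_lit 1) (nat_lit 4) (nat_lit 2) (nat_lit 5) (nat_lit 2) (nat_lit 4) (nat_lit 432) (nat_lit 315) (nat_lit 273)) (XT.nd (nat_lit 49608) (nat_lit 0) (nat_lit 0) (XT.lf (nat_lit 0) (nat_lit 288197085570439) (nat_lit 76) (nat_lit 8525282764896) (nat_lit 76) (nat_lit 8525124321433) (nat_lit 1) (nat_lit 4) (nat_lit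 2) (nat_lit 5) (nat_lit 2) (nat_lit 4) (nat_lit 433) (nat_lit 315) (nat_lit 272)) (XT.lf (nat_lit 0) (nat_lit 257005689660) (nat_lit 76) (nat_lit 13509394260) (nat_lit 76) (nat_lit 13509394260) (nat_lit 1) (nat_lit 4) (nat_lit 2) (nat_lit 5) (nat_lit 2) (nat_lit 4) (nat_lit 388) (nat_lit 316) (nat_lit 316))))))) (XT.nd (nat_lit 858) (nat_lit 0) (nat_lit 0) (XT.nd (nat_lit 390) (nat_lit 0) (nat_lit 0) (XT.nd (nat_lit 156) (nat_lit 0) (nat_lit 0) (XT.nd (nat_lit 78) (nat_lit 0) (nat_lit 0) (XT.lf (nat_lit 0) (nat_lit 595616079839) (nat_lit 76) (nat_lit 28672142982) (nat_lit 76) (nat_lit 28648317981) (nat_lit 1) (nat_lit 4) (nat_lit 2) (nat_lit 5) (nat_lit 2) (nat_lit 4) (nat_lit 389) (nat_lit 316) (nat_lit 315)) (XT.lf (nat_lit 0) (nat_lit 689078819969) (nat_lit 76) (nat_lit 30775079266) (nat_lit 76) (nat_lit 30730536871) (nat_lit 1) (nat_lit 4) (nat_lit 2) (nat_lit 5) (nat_lit 2) (nat_lit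 4) (nat_lit 390) (nat_lit 316) (nat_lit 314))) (XT.nd (nat_lit 78) (nat_lit 0) (nat_lit 0) (XT.lf (nat_lit 0) (nat_lit 796228218539) (nat_lit 76) (nat_lit 33368741776) (nat_lit 76) (nat_lit 33306184257) (nat_lit 1) (nat_lit 4) (nat_lit 2) (nat_lit 5) (nat_lit 2) (nat_lit 4) (nat_lit 391) (nat_lit 316) (nat_lit 313)) (XT.nd (nat_lit 78) (nat_lit 0) (nat_lit 0) (XT.lf (nat_lit 0) (nat_lit 919160676826) (nat_lit 76) (nat_lit 36503876084) (nat_lit 76) (nat_lit 36425653240) (nat_lit 1) (nat_lit 4) (nat_lit 2) (nat_lit 5) (nat_lit 2) (nat_lit 4) (nat_lit 392) (nat_lit 316) (nat_lit 312)) (XT.lf (nat_lit 0) (nat_lit 1060281395101) (nat_lit 76) (nat_lit 40241821774) (nat_lit 76) (nat_lit 40149976907) (nat_lit 1) (nat_lit 4) (nat_lit 2) (nat_lit 5) (nat_lit 2) (nat_lit 4) (nat_lit 393) (nat_lit 316) (nat_lit 311))))) (XT.nd (nat_lit 234) (nat_lit 0) (nat_lit 0) (XT.nd (nat_lit 78) (nat_lit 0)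 (nat_lit 0) (XT.lf (nat_lit 0) (nat_lit 1222351430895) (nat_lit 76) (nat_lit 44655712565) (nat_lit 76) (nat_lit 44552022462) (nat_lit 1) (nat_lit 4) (nat_lit 2) (nat_lit 5) (nat_lit 2) (nat_lit 4) (nat_lit 394) (nat_lit 316) (nat_lit 310)) (XT.nd (nat_lit 78) (nat_lit 0) (nat_lit 0) (XT.lf (nat_lit 0) (nat_lit 1408541719692) (nat_lit 76) (nat_lit 49831907190) (nat_lit 76) (nat_lit 49717916882) (nat_lit 1) (nat_lit 4) (nat_lit 2) (nat_lit 5) (nat_lit 2) (nat_lit 4) (nat_lit 395) (nat_lit 316) (nat_lit 309)) (XT.lf (nat_lit 0) (nat_lit 1622495114967) (nat_lit 76) (nat_lit 55871679024) (nat_lit 76) (nat_lit 55748732014) (nat_lit 1) (nat_lit 4) (nat_lit 2) (nat_lit 5) (nat_lit 2) (nat_lit 4) (nat_lit 396) (nat_lit 316) (nat_lit 308)))) (XT.nd (nat_lit 78) (nat_lit 0) (nat_lit 0) (XT.lf (nat_lit 0) (nat_lit 1868397661411) (nat_lit 76) (nat_lit 62893197514) (nat_lit 76) (nat_lit 62762462069)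 (nat_lit 1) (nat_lit 4) (nat_lit 2) (nat_lit 5) (nat_lit 2) (nat_lit 4) (nat_lit 397) (nat_lit 316) (nat_lit 307)) (XT.nd (nat_lit 78) (nat_lit 0) (nat_lit 0) (XT.lf (nat_lit 0) (nat_lit 2151060495802) (nat_lit 76) (nat_lit 71033840196) (nat_lit 76) (nat_lit 70896332199) (nat_lit 1) (nat_lit 4) (nat_lit 2) (nat_lit 5) (nat_lit 2) (nat_lit 4) (nat_lit 398) (nat_lit 316) (nat_lit 306)) (XT.lf (nat_lit 0) (nat_lit 2476013977943) (nat_lit 76) (nat_lit 80452880515) (nat_lit 76) (nat_lit 80309483341) (nat_lit 1) (nat_lit 4) (nat_lit 2) (nat_lit 5) (nat_lit 2) (nat_lit 4) (nat_lit 399) (nat_lit 316) (nat_lit 305)))))) (XT.nd (nat_lit 468) (nat_lit 0) (nat_lit 0) (XT.nd (nat_lit 234) (nat_lit 0) (nat_lit 0) (XT.nd (nat_lit 78) (nat_lit 0) (nat_lit 0) (XT.lf (nat_lit 0) (nat_lit 2849615893355) (nat_lit 76) (nat_lit 91334604041) (nat_lit 76) (nat_lit 91186085844) (nat_lit 1) (nat_lit 4) (nat_lit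 2) (nat_lit 5) (nat_lit 2) (nat_lit 4) (nat_lit 400) (nat_lit 316) (nat_lit 304)) (XT.nd (nat_lit 78) (nat_lit 0) (nat_lit 0) (XT.lf (nat_lit 0) (nat_lit 3279175844730) (nat_lit 76) (nat_lit 103891914061) (nat_lit 76) (nat_lit 103738942801) (nat_lit 1) (nat_lit 4) (nat_lit 2) (nat_lit 5) (nat_lit 2) (nat_lit 4) (nat_lit 401) (nat_lit 316) (nat_lit 303)) (XT.lf (nat_lit 0) (nat_lit 3773098265900) (nat_lit 76) (nat_lit 118370497075) (nat_lit 76) (nat_lit 118213653586) (nat_lit 1) (nat_lit 4) (nat_lit 2) (nat_lit 5) (nat_lit 2) (nat_lit 4) (nat_lit 402) (nat_lit 316) (nat_lit 302)))) (XT.nd (nat_lit 78) (nat_lit 0) (nat_lit 0) (XT.lf (nat_lit 0) (nat_lit 4341046856409) (nat_lit 76) (nat_lit 135053629707) (nat_lit 76) (nat_lit 134893419064) (nat_lit 1) (nat_lit 4) (nat_lit 2) (nat_lit 5) (nat_lit 2) (nat_lit 4) (nat_lit 403) (nat_lit 316) (nat_lit 301)) (XT.nd (nat_lit 78) (nat_lit 0) (nat_lit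 0) (XT.lf (nat_lit 0) (nat_lit 4994133653898) (nat_lit 76) (nat_lit 154267721075) (nat_lit 76) (nat_lit 154104582470) (nat_lit 1) (nat_lit 4) (nat_lit 2) (nat_lit 5) (nat_lit 2) (nat_lit 4) (nat_lit 404) (nat_lit 316) (nat_lit 300)) (XT.lf (nat_lit 0) (nat_lit 5745136443535) (nat_lit 76) (nat_lit 176388699053) (nat_lit 76) (nat_lit 176223014394) (nat_lit 1) (nat_lit 4) (nat_lit 2) (nat_lit 5) (nat_lit 2) (nat_lit 4) (nat_lit 405) (nat_lit 316) (nat_lit 299))))) (XT.nd (nat_lit 234) (nat_lit 0) (nat_lit 0) (XT.nd (nat_lit 78) (nat_lit 0) (nat_lit 0) (XT.lf (nat_lit 0) (nat_lit 6608748758160) (nat_lit 76) (nat_lit 201849365383) (nat_lit 76) (nat_lit 201681466765) (nat_lit 1) (nat_lit 4) (nat_lit 2) (nat_lit 5) (nat_lit 2) (nat_lit 4) (nat_lit 406) (nat_lit 316) (nat_lit 298)) (XT.nd (nat_lit 78) (nat_lit 0) (nat_lit 0) (XT.lf (nat_lit 0) (nat_lit 7601867360452) (nat_lit 76) (nat_lit 231147863538)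 (nat_lit 76) (nat_lit 230978039738) (nat_lit 1) (nat_lit 4) (nat_lit 2) (nat_lit 5) (nat_lit 2) (nat_lit 4) (nat_lit 407) (nat_lit 316) (nat_lit 297)) (XT.lf (nat_lit 0) (nat_lit 8743922831758) (nat_lit 76) (nat_lit 264857425003) (nat_lit 76) (nat_lit 264685927132) (nat_lit 1) (nat_lit 4) (nat_lit 2) (nat_lit 5) (nat_lit 2) (nat_lit 4) (nat_lit 408) (nat_lit 316) (nat_lit 296)))) (XT.nd (nat_lit 78) (nat_lit 0) (nat_lit 0) (XT.lf (nat_lit 0) (nat_lit 10057259735649) (nat_lit 76) (nat_lit 303637584677) (nat_lit 76) (nat_lit 303464631091) (nat_lit 1) (nat_lit 4) (nat_lit 2) (nat_lit 5) (nat_lit 2) (nat_lit 4) (nat_lit 409) (nat_lit 316) (nat_lit 295)) (XT.nd (nat_lit 78) (nat_lit 0) (nat_lit 0) (XT.lf (nat_lit 0) (nat_lit 11567573794157) (nat_lit 76) (nat_lit 348247084813) (nat_lit 76) (nat_lit 348072865389) (nat_lit 1) (nat_lit 4) (nat_lit 2) (nat_lit 5) (nat_lit 2) (nat_lit 4) (nat_lit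 410) (nat_lit 316) (nat_lit 294)) (XT.lf (nat_lit 0) (nat_lit 13304414630166) (nat_lit 76) (nat_lit 399558719980) (nat_lit 76) (nat_lit 399383399827) (nat_lit 1) (nat_lit 4) (nat_lit 2) (nat_lit 5) (nat_lit 2) (nat_lit 4) (nat_lit 411) (nat_lit 316) (nat_lit 293))))))))
noncomputable def xc12 : XT := (XT.nd (nat_lit 51168) (nat_lit 0) (nat_lit 0) (XT.nd (nat_lit 858) (nat_lit 0) (nat_lit 0) (XT.nd (nat_lit 390) (nat_lit 0) (nat_lit 0) (XT.nd (nat_lit 156) (nat_lit 0) (nat_lit 0) (XT.nd (nat_lit 78) (nat_lit 0) (nat_lit 0) (XT.lf (nat_lit 0) (nat_lit 15301763912206) (nat_lit 76) (nat_lit 458576413475) (nat_lit 76) (nat_lit 458400136166) (nat_lit 1) (nat_lit 4) (nat_lit 2) (nat_lit 5) (nat_lit 2) (nat_lit 4) (nat_lit 412) (nat_lit 316) (nat_lit 292)) (XT.lf (nat_lit 0) (nat_lit 17598700213187) (nat_lit 76) (nat_lit 526454859300) (nat_lit 76) (nat_lit 526277749682) (nat_lit 1) (nat_lit 4)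 (nat_lit 2) (nat_lit 5) (nat_lit 2) (nat_lit 4) (nat_lit 413) (nat_lit 316) (nat_lit 291))) (XT.nd (nat_lit 78) (nat_lit 0) (nat_lit 0) (XT.lf (nat_lit 0) (nat_lit 20240163591171) (nat_lit 76) (nat_lit 604522114005) (nat_lit 76) (nat_lit 604344280640) (nat_lit 1) (nat_lit 4) (nat_lit 2) (nat_lit 5) (nat_lit 2) (nat_lit 4) (nat_lit 414) (nat_lit 316) (nat_lit 290)) (XT.nd (nat_lit 78) (nat_lit 0) (nat_lit 0) (XT.lf (nat_lit 0) (nat_lit 23277834851381) (nat_lit 76) (nat_lit 694305580399) (nat_lit 76) (nat_lit 694127117688) (nat_lit 1) (nat_lit 4) (nat_lit 2) (nat_lit 5) (nat_lit 2) (nat_lit 4) (nat_lit 415) (nat_lit 316) (nat_lit 289)) (XT.lf (nat_lit 0) (nat_lit 26771146692385) (nat_lit 76) (nat_lit 797561891519) (nat_lit 76) (nat_lit 797382881551) (nat_lit 1) (nat_lit 4) (nat_lit 2) (nat_lit 5) (nat_lit 2) (nat_lit 4) (nat_lit 416) (nat_lit 316) (nat_lit 288))))) (XT.nd (nat_lit 234)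 (nat_lit 0) (nat_lit 0) (XT.nd (nat_lit 78) (nat_lit 0) (nat_lit 0) (XT.lf (nat_lit 0) (nat_lit 30788446519768) (nat_lit 76) (nat_lit 916311279541) (nat_lit 76) (nat_lit 916131793698) (nat_lit 1) (nat_lit 4) (nat_lit 2) (nat_lit 5) (nat_lit 2) (nat_lit 4) (nat_lit 417) (nat_lit 316) (nat_lit 287)) (XT.nd (nat_lit 78) (nat_lit 0) (nat_lit 0) (XT.lf (nat_lit 0) (nat_lit 35408333677979) (nat_lit 76) (nat_lit 1052877102056) (nat_lit 76) (nat_lit 1052697202407) (nat_lit 1) (nat_lit 4) (nat_lit 2) (nat_lit 5) (nat_lit 2) (nat_lit 4) (nat_lit 418) (nat_lit 316) (nat_lit 286)) (XT.lf (nat_lit 0) (nat_lit 40721197263592) (nat_lit 76) (nat_lit 1209931299069) (nat_lit 76) (nat_lit 1209751039590) (nat_lit 1) (nat_lit 4) (nat_lit 2) (nat_lit 5) (nat_lit 2) (nat_lit 4) (nat_lit 419) (nat_lit 316) (nat_lit 285)))) (XT.nd (nat_lit 78) (nat_lit 0) (nat_lit 0) (XT.lf (nat_lit 0) (nat_lit 46830984607629)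 (nat_lit 76) (nat_lit 1390546670087) (nat_lit 76) (nat_lit 1390366097712) (nat_lit 1) (nat_lit 4) (nat_lit 2) (nat_lit 5) (nat_lit 2) (nat_lit 4) (nat_lit 420) (nat_lit 316) (nat_lit 284)) (XT.nd (nat_lit 78) (nat_lit 0) (nat_lit 0) (XT.lf (nat_lit 0) (nat_lit 53857235027691) (nat_lit 76) (nat_lit 1598256994109) (nat_lit 76) (nat_lit 1598076149651) (nat_lit 1) (nat_lit 4) (nat_lit 2) (nat_lit 5) (nat_lit 2) (nat_lit 4) (nat_lit 421) (nat_lit 316) (nat_lit 283)) (XT.lf (nat_lit 0) (nat_lit 61937418640693) (nat_lit 76) (nat_lit 1837126168778) (nat_lit 76) (nat_lit 1836945087726) (nat_lit 1) (nat_lit 4) (nat_lit 2) (nat_lit 5) (nat_lit 2) (nat_lit 4) (nat_lit 422) (nat_lit 316) (nat_lit 282)))))) (XT.nd (nat_lit 390) (nat_lit 0) (nat_lit 0) (XT.nd (nat_lit 156) (nat_lit 0) (nat_lit 0) (XT.nd (nat_lit 78) (nat_lit 0) (nat_lit 0) (XT.lf (nat_lit 0) (nat_lit 71229625995585) (nat_lit 76) (nat_lit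 2111827721426) (nat_lit 76) (nat_lit 2111646434639) (nat_lit 1) (nat_lit 4) (nat_lit 2) (nat_lit 5) (nat_lit 2) (nat_lit 4) (nat_lit 423) (nat_lit 316) (nat_lit 281)) (XT.lf (nat_lit 0) (nat_lit 81915661149309) (nat_lit 76) (nat_lit 2427736247646) (nat_lit 76) (nat_lit 2427554781960) (nat_lit 1) (nat_lit 4) (nat_lit 2) (nat_lit 5) (nat_lit 2) (nat_lit 4) (nat_lit 424) (nat_lit 316) (nat_lit 280))) (XT.nd (nat_lit 78) (nat_lit 0) (nat_lit 0) (XT.lf (nat_lit 0) (nat_lit 94204598702701) (nat_lit 76) (nat_lit 2791032566431) (nat_lit 76) (nat_lit 2790850945180) (nat_lit 1) (nat_lit 4) (nat_lit 2) (nat_lit 5) (nat_lit 2) (nat_lit 4) (nat_lit 425) (nat_lit 316) (nat_lit 279)) (XT.nd (nat_lit 78) (nat_lit 0) (nat_lit 0) (XT.lf (nat_lit 0) (nat_lit 108336874390499) (nat_lit 76) (nat_lit 3208824649234) (nat_lit 76) (nat_lit 3208642892711) (nat_lit 1) (nat_lit 4) (nat_lit 2) (nat_lit 5) (nat_lit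 2) (nat_lit 4) (nat_lit 426) (nat_lit 316) (nat_lit 278)) (XT.lf (nat_lit 0) (nat_lit 124588989258770) (nat_lit 76) (nat_lit 3689286688981) (nat_lit 76) (nat_lit 3689104814829) (nat_lit 1) (nat_lit 4) (nat_lit 2) (nat_lit 5) (nat_lit 2) (nat_lit 4) (nat_lit 427) (nat_lit 316) (nat_lit 277))))) (XT.nd (nat_lit 234) (nat_lit 0) (nat_lit 0) (XT.nd (nat_lit 78) (nat_lit 0) (nat_lit 0) (XT.lf (nat_lit 0) (nat_lit 143278919467980) (nat_lit 76) (nat_lit 4241819029928) (nat_lit 76) (nat_lit 4241637053489) (nat_lit 1) (nat_lit 4) (nat_lit 2) (nat_lit 5) (nat_lit 2) (nat_lit 4) (nat_lit 428) (nat_lit 316) (nat_lit 276)) (XT.nd (nat_lit 78) (nat_lit 0) (nat_lit 0) (XT.lf (nat_lit 0) (nat_lit 164772337565701) (nat_lit 76) (nat_lit 4877232087440) (nat_lit 76) (nat_lit 4877050022056) (nat_lit 1) (nat_lit 4) (nat_lit 2) (nat_lit 5) (nat_lit 2) (nat_lit 4) (nat_lit 429) (nat_lit 316) (nat_lit 275)) (XT.lf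 (nat_lit 0) (nat_lit 189489766949496) (nat_lit 76) (nat_lit 5607957856121) (nat_lit 76) (nat_lit 5607775713394) (nat_lit 1) (nat_lit 4) (nat_lit 2) (nat_lit 5) (nat_lit 2) (nat_lit 4) (nat_lit 430) (nat_lit 316) (nat_lit 274)))) (XT.nd (nat_lit 78) (nat_lit 0) (nat_lit 0) (XT.lf (nat_lit 0) (nat_lit 217914809498613) (nat_lit 76) (nat_lit 6448293144489) (nat_lit 76) (nat_lit 6448110934507) (nat_lit 1) (nat_lit 4) (nat_lit 2) (nat_lit 5) (nat_lit 2) (nat_lit 4) (nat_lit 431) (nat_lit 316) (nat_lit 273)) (XT.nd (nat_lit 49530) (nat_lit 0) (nat_lit 0) (XT.lf (nat_lit 0) (nat_lit 250603607349884) (nat_lit 76) (nat_lit 7414679295142) (nat_lit 76) (nat_lit 7414497026677) (nat_lit 1) (nat_lit 4) (nat_lit 2) (nat_lit 5) (nat_lit 2) (nat_lit 4) (nat_lit 432) (nat_lit 316) (nat_lit 272)) (XT.lf (nat_lit 0) (nat_lit 190212896542) (nat_lit 76) (nat_lit 12421499903) (nat_lit 76) (nat_lit 12421499903)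 (nat_lit 1) (nat_lit 4) (nat_lit 2) (nat_lit 5) (nat_lit 2) (nat_lit 4) (nat_lit 386) (nat_lit 317) (nat_lit 317))))))) (XT.nd (nat_lit 858) (nat_lit 0) (nat_lit 0) (XT.nd (nat_lit 390) (nat_lit 0) (nat_lit 0) (XT.nd (nat_lit 156) (nat_lit 0) (nat_lit 0) (XT.nd (nat_lit 78) (nat_lit 0) (nat_lit 0) (XT.lf (nat_lit 0) (nat_lit 442668104710) (nat_lit 76) (nat_lit 25810066391) (nat_lit 76) (nat_lit 25782667639) (nat_lit 1) (nat_lit 4) (nat_lit 2) (nat_lit 5) (nat_lit 2) (nat_lit 4) (nat_lit 387) (nat_lit 317) (nat_lit 316)) (XT.lf (nat_lit 0) (nat_lit 513806697793) (nat_lit 76) (nat_lit 27154008411) (nat_lit 76) (nat_lit 27102784657) (nat_lit 1) (nat_lit 4) (nat_lit 2) (nat_lit 5) (nat_lit 2) (nat_lit 4) (nat_lit 388) (nat_lit 317) (nat_lit 315))) (XT.nd (nat_lit 78) (nat_lit 0) (nat_lit 0) (XT.lf (nat_lit 0) (nat_lit 595233414373) (nat_lit 76) (nat_lit 28901120386) (nat_lit 76) (nat_lit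 28829179239) (nat_lit 1) (nat_lit 4) (nat_lit 2) (nat_lit 5) (nat_lit 2) (nat_lit 4) (nat_lit 389) (nat_lit 317) (nat_lit 314)) (XT.nd (nat_lit 78) (nat_lit 0) (nat_lit 0) (XT.lf (nat_lit 0) (nat_lit 688541385862) (nat_lit 76) (nat_lit 31085584941) (nat_lit 76) (nat_lit 30995628670) (nat_lit 1) (nat_lit 4) (nat_lit 2) (nat_lit 5) (nat_lit 2) (nat_lit 4) (nat_lit 390) (nat_lit 317) (nat_lit 313)) (XT.lf (nat_lit 0) (nat_lit 795556203005) (nat_lit 76) (nat_lit 33750141601) (nat_lit 76) (nat_lit 33644520004) (nat_lit 1) (nat_lit 4) (nat_lit 2) (nat_lit 5) (nat_lit 2) (nat_lit 4) (nat_lit 391) (nat_lit 317) (nat_lit 312))))) (XT.nd (nat_lit 234) (nat_lit 0) (nat_lit 0) (XT.nd (nat_lit 78) (nat_lit 0) (nat_lit 0) (XT.lf (nat_lit 0) (nat_lit 918371633964) (nat_lit 76) (nat_lit 36946922995) (nat_lit 76) (nat_lit 36827679376) (nat_lit 1) (nat_lit 4) (nat_lit 2) (nat_lit 5) (nat_lit 2) (nat_lit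 4) (nat_lit 392) (nat_lit 317) (nat_lit 311)) (XT.nd (nat_lit 78) (nat_lit 0) (nat_lit 0) (XT.lf (nat_lit 0) (nat_lit 1059390589345) (nat_lit 76) (nat_lit 40738474846) (nat_lit 76) (nat_lit 40607385991) (nat_lit 1) (nat_lit 4) (nat_lit 2) (nat_lit 5) (nat_lit 2) (nat_lit 4) (nat_lit 393) (nat_lit 317) (nat_lit 310)) (XT.lf (nat_lit 0) (nat_lit 1221372135666) (nat_lit 76) (nat_lit 45198979692) (nat_lit 76) (nat_lit 45057590630) (nat_lit 1) (nat_lit 4) (nat_lit 2) (nat_lit 5) (nat_lit 2) (nat_lit 4) (nat_lit 394) (nat_lit 317) (nat_lit 309)))) (XT.nd (nat_lit 78) (nat_lit 0) (nat_lit 0) (XT.lf (nat_lit 0) (nat_lit 1407485477095) (nat_lit 76) (nat_lit 50415708277) (nat_lit 76) (nat_lit 50265362515) (nat_lit 1) (nat_lit 4) (nat_lit 2) (nat_lit 5) (nat_lit 2) (nat_lit 4) (nat_lit 395) (nat_lit 317) (nat_lit 308)) (XT.nd (nat_lit 78) (nat_lit 0) (nat_lit 0) (XT.lf (nat_lit 0) (nat_lit 1621371961615)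 (nat_lit 76) (nat_lit 56490727032) (nat_lit 76) (nat_lit 56332592835) (nat_lit 1) (nat_lit 4) (nat_lit 2) (nat_lit 5) (nat_lit 2) (nat_lit 4) (nat_lit 396) (nat_lit 317) (nat_lit 307)) (XT.lf (nat_lit 0) (nat_lit 1867216324794) (nat_lit 76) (nat_lit 63542895020) (nat_lit 76) (nat_lit 63377988270) (nat_lit 1) (nat_lit 4) (nat_lit 2) (nat_lit 5) (nat_lit 2) (nat_lit 4) (nat_lit 397) (nat_lit 317) (nat_lit 306)))))) (XT.nd (nat_lit 468) (nat_lit 0) (nat_lit 0) (XT.nd (nat_lit 234) (nat_lit 0) (nat_lit 0) (XT.nd (nat_lit 78) (nat_lit 0) (nat_lit 0) (XT.lf (nat_lit 0) (nat_lit 2149828565042) (nat_lit 76) (nat_lit 71710189438) (nat_lit 76) (nat_lit 71539393513) (nat_lit 1) (nat_lit 4) (nat_lit 2) (nat_lit 5) (nat_lit 2) (nat_lit 4) (nat_lit 398) (nat_lit 317) (nat_lit 305)) (XT.nd (nat_lit 78) (nat_lit 0) (nat_lit 0) (XT.lf (nat_lit 0) (nat_lit 2474738052276) (nat_lit 76) (nat_lit 81152405180)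 (nat_lit 76) (nat_lit 80976488232) (nat_lit 1) (nat_lit 4) (nat_lit 2) (nat_lit 5) (nat_lit 2) (nat_lit 4) (nat_lit 399) (nat_lit 317) (nat_lit 304)) (XT.lf (nat_lit 0) (nat_lit 2848301711247) (nat_lit 76) (nat_lit 92054281248) (nat_lit 76) (nat_lit 91873911236) (nat_lit 1) (nat_lit 4) (nat_lit 2) (nat_lit 5) (nat_lit 2) (nat_lit 4) (nat_lit 400) (nat_lit 317) (nat_lit 303)))) (XT.nd (nat_lit 78) (nat_lit 0) (nat_lit 0) (XT.lf (nat_lit 0) (nat_lit 3277828396151) (nat_lit 76) (nat_lit 104629115217) (nat_lit 76) (nat_lit 104444872977) (nat_lit 1) (nat_lit 4) (nat_lit 2) (nat_lit 5) (nat_lit 2) (nat_lit 4) (nat_lit 401) (nat_lit 317) (nat_lit 302)) (XT.nd (nat_lit 78) (nat_lit 0) (nat_lit 0) (XT.lf (nat_lit 0) (nat_lit 3771721889956) (nat_lit 76) (nat_lit 119122936448) (nat_lit 76) (nat_lit 118935327052) (nat_lit 1) (nat_lit 4) (nat_lit 2) (nat_lit 5) (nat_lit 2) (nat_lit 4) (nat_lit 402)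 (nat_lit 317) (nat_lit 301)) (XT.lf (nat_lit 0) (nat_lit 4339645326234) (nat_lit 76) (nat_lit 135819319704) (nat_lit 76) (nat_lit 135628782347) (nat_lit 1) (nat_lit 4) (nat_lit 2) (nat_lit 5) (nat_lit 2) (nat_lit 4) (nat_lit 403) (nat_lit 317) (nat_lit 300))))) (XT.nd (nat_lit 234) (nat_lit 0) (nat_lit 0) (XT.nd (nat_lit 78) (nat_lit 0) (nat_lit 0) (XT.lf (nat_lit 0) (nat_lit 4992710250478) (nat_lit 76) (nat_lit 155044933353) (nat_lit 76) (nat_lit 154851849943) (nat_lit 1) (nat_lit 4) (nat_lit 2) (nat_lit 5) (nat_lit 2) (nat_lit 4) (nat_lit 404) (nat_lit 317) (nat_lit 299)) (XT.nd (nat_lit 78) (nat_lit 0) (nat_lit 0) (XT.lf (nat_lit 0) (nat_lit 5743694019902) (nat_lit 76) (nat_lit 177175930706) (nat_lit 76) (nat_lit 176980633336) (nat_lit 1) (nat_lit 4) (nat_lit 2) (nat_lit 5) (nat_lit 2) (nat_lit 4) (nat_lit 405) (nat_lit 317) (nat_lit 298)) (XT.lf (nat_lit 0) (nat_lit 6607289795212)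 (nat_lit 76) (nat_lit 202645309536) (nat_lit 76) (nat_lit 202448086984) (nat_lit 1) (nat_lit 4) (nat_lit 2) (nat_lit 5) (nat_lit 2) (nat_lit 4) (nat_lit 406) (nat_lit 317) (nat_lit 297)))) (XT.nd (nat_lit 78) (nat_lit 0) (nat_lit 0) (XT.lf (nat_lit 0) (nat_lit 7600394015491) (nat_lit 76) (nat_lit 231951383778) (nat_lit 76) (nat_lit 231752487155) (nat_lit 1) (nat_lit 4) (nat_lit 2) (nat_lit 5) (nat_lit 2) (nat_lit 4) (nat_lit 407) (nat_lit 317) (nat_lit 296)) (XT.nd (nat_lit 78) (nat_lit 0) (nat_lit 0) (XT.lf (nat_lit 0) (nat_lit 8742436980699) (nat_lit 76) (nat_lit 265667533145) (nat_lit 76) (nat_lit 265467180807) (nat_lit 1) (nat_lit 4) (nat_lit 2) (nat_lit 5) (nat_lit 2) (nat_lit 4) (nat_lit 408) (nat_lit 317) (nat_lit 295)) (XT.lf (nat_lit 0) (nat_lit 10055763009721) (nat_lit 76) (nat_lit 304453421429) (nat_lit 76) (nat_lit 304251803253) (nat_lit 1) (nat_lit 4) (nat_lit 2) (nat_lit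 5) (nat_lit 2) (nat_lit 4) (nat_lit 409) (nat_lit 317) (nat_lit 294))))))))
noncomputable def xc13 : XT := (XT.nd (nat_lit 3042) (nat_lit 0) (nat_lit 0) (XT.nd (nat_lit 858) (nat_lit 0) (nat_lit 0) (XT.nd (nat_lit 390) (nat_lit 0) (nat_lit 0) (XT.nd (nat_lit 156) (nat_lit 0) (nat_lit 0) (XT.nd (nat_lit 78) (nat_lit 0) (nat_lit 0) (XT.lf (nat_lit 0) (nat_lit 11566067611822) (nat_lit 76) (nat_lit 349067902965) (nat_lit 76) (nat_lit 348865184060) (nat_lit 1) (nat_lit 4) (nat_lit 2) (nat_lit 5) (nat_lit 2) (nat_lit 4) (nat_lit 410) (nat_lit 317) (nat_lit 293)) (XT.lf (nat_lit 0) (nat_lit 13302900224868) (nat_lit 76) (nat_lit 400383869785) (nat_lit 76) (nat_lit 400180193724) (nat_lit 1) (nat_lit 4) (nat_lit 2) (nat_lit 5) (nat_lit 2) (nat_lit 4) (nat_lit 411) (nat_lit 317) (nat_lit 292))) (XT.nd (nat_lit 78) (nat_lit 0) (nat_lit 0) (XT.lf (nat_lit 0) (nat_lit 15300242356506) (nat_lit 76) (nat_lit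 459405329934) (nat_lit 76) (nat_lit 459200821563) (nat_lit 1) (nat_lit 4) (nat_lit 2) (nat_lit 5) (nat_lit 2) (nat_lit 4) (nat_lit 412) (nat_lit 317) (nat_lit 291)) (XT.nd (nat_lit 78) (nat_lit 0) (nat_lit 0) (XT.lf (nat_lit 0) (nat_lit 17597172439746) (nat_lit 76) (nat_lit 527287051110) (nat_lit 76) (nat_lit 527081818993) (nat_lit 1) (nat_lit 4) (nat_lit 2) (nat_lit 5) (nat_lit 2) (nat_lit 4) (nat_lit 413) (nat_lit 317) (nat_lit 290)) (XT.lf (nat_lit 0) (nat_lit 20238630410999) (nat_lit 76) (nat_lit 605357153947) (nat_lit 76) (nat_lit 605151292484) (nat_lit 1) (nat_lit 4) (nat_lit 2) (nat_lit 5) (nat_lit 2) (nat_lit 4) (nat_lit 414) (nat_lit 317) (nat_lit 289))))) (XT.nd (nat_lit 234) (nat_lit 0) (nat_lit 0) (XT.nd (nat_lit 78) (nat_lit 0) (nat_lit 0) (XT.lf (nat_lit 0) (nat_lit 23276296969703) (nat_lit 76) (nat_lit 695143096977) (nat_lit 76) (nat_lit 694936688257) (nat_lit 1) (nat_lit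 4) (nat_lit 2) (nat_lit 5) (nat_lit 2) (nat_lit 4) (nat_lit 415) (nat_lit 317) (nat_lit 288)) (XT.nd (nat_lit 78) (nat_lit 0) (nat_lit 0) (XT.lf (nat_lit 0) (nat_lit 26769604722441) (nat_lit 76) (nat_lit 798401561694) (nat_lit 76) (nat_lit 798194677098) (nat_lit 1) (nat_lit 4) (nat_lit 2) (nat_lit 5) (nat_lit 2) (nat_lit 4) (nat_lit 416) (nat_lit 317) (nat_lit 287)) (XT.lf (nat_lit 0) (nat_lit 30786900994810) (nat_lit 76) (nat_lit 917152822409) (nat_lit 76) (nat_lit 916945524008) (nat_lit 1) (nat_lit 4) (nat_lit 2) (nat_lit 5) (nat_lit 2) (nat_lit 4) (nat_lit 417) (nat_lit 317) (nat_lit 286)))) (XT.nd (nat_lit 78) (nat_lit 0) (nat_lit 0) (XT.lf (nat_lit 0) (nat_lit 35406785061705) (nat_lit 76) (nat_lit 1053720273352) (nat_lit 76) (nat_lit 1053512615121) (nat_lit 1) (nat_lit 4) (nat_lit 2) (nat_lit 5) (nat_lit 2) (nat_lit 4) (nat_lit 418) (nat_lit 317) (nat_lit 285)) (XT.nd (nat_lit 78)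 (nat_lit 0) (nat_lit 0) (XT.lf (nat_lit 0) (nat_lit 40719645959217) (nat_lit 76) (nat_lit 1210775886390) (nat_lit 76) (nat_lit 1210567915263) (nat_lit 1) (nat_lit 4) (nat_lit 2) (nat_lit 5) (nat_lit 2) (nat_lit 4) (nat_lit 419) (nat_lit 317) (nat_lit 284)) (XT.lf (nat_lit 0) (nat_lit 46829430965774) (nat_lit 76) (nat_lit 1391392488734) (nat_lit 76) (nat_lit 1391184245524) (nat_lit 1) (nat_lit 4) (nat_lit 2) (nat_lit 5) (nat_lit 2) (nat_lit 4) (nat_lit 420) (nat_lit 317) (nat_lit 283)))))) (XT.nd (nat_lit 468) (nat_lit 0) (nat_lit 0) (XT.nd (nat_lit 234) (nat_lit 0) (nat_lit 0) (XT.nd (nat_lit 78) (nat_lit 0) (nat_lit 0) (XT.lf (nat_lit 0) (nat_lit 53855679353246) (nat_lit 76) (nat_lit 1599103883474) (nat_lit 76) (nat_lit 1598895403670) (nat_lit 1) (nat_lit 4) (nat_lit 2) (nat_lit 5) (nat_lit 2) (nat_lit 4) (nat_lit 421) (nat_lit 317) (nat_lit 282)) (XT.nd (nat_lit 78) (nat_lit 0) (nat_lit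 0) (XT.lf (nat_lit 0) (nat_lit 61935861198778) (nat_lit 76) (nat_lit 1837973989202) (nat_lit 76) (nat_lit 1837765303664) (nat_lit 1) (nat_lit 4) (nat_lit 2) (nat_lit 5) (nat_lit 2) (nat_lit 4) (nat_lit 422) (nat_lit 317) (nat_lit 281)) (XT.lf (nat_lit 0) (nat_lit 71228067016739) (nat_lit 76) (nat_lit 2112676351466) (nat_lit 76) (nat_lit 2112467487029) (nat_lit 1) (nat_lit 4) (nat_lit 2) (nat_lit 5) (nat_lit 2) (nat_lit 4) (nat_lit 423) (nat_lit 317) (nat_lit 280)))) (XT.nd (nat_lit 78) (nat_lit 0) (nat_lit 0) (XT.lf (nat_lit 0) (nat_lit 81914100834002) (nat_lit 76) (nat_lit 2428585581701) (nat_lit 76) (nat_lit 2428376561699) (nat_lit 1) (nat_lit 4) (nat_lit 2) (nat_lit 5) (nat_lit 2) (nat_lit 4) (nat_lit 424) (nat_lit 317) (nat_lit 279)) (XT.nd (nat_lit 78) (nat_lit 0) (nat_lit 0) (XT.lf (nat_lit 0) (nat_lit 94203037225253) (nat_lit 76) (nat_lit 2791882512673) (nat_lit 76) (nat_lit 2791673357397)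 (nat_lit 1) (nat_lit 4) (nat_lit 2) (nat_lit 5) (nat_lit 2) (nat_lit 4) (nat_lit 425) (nat_lit 317) (nat_lit 278)) (XT.lf (nat_lit 0) (nat_lit 108335311902495) (nat_lit 76) (nat_lit 3209675127813) (nat_lit 76) (nat_lit 3209465854908) (nat_lit 1) (nat_lit 4) (nat_lit 2) (nat_lit 5) (nat_lit 2) (nat_lit 4) (nat_lit 426) (nat_lit 317) (nat_lit 277))))) (XT.nd (nat_lit 234) (nat_lit 0) (nat_lit 0) (XT.nd (nat_lit 78) (nat_lit 0) (nat_lit 0) (XT.lf (nat_lit 0) (nat_lit 124587425892021) (nat_lit 76) (nat_lit 3690137630461) (nat_lit 76) (nat_lit 3689928255270) (nat_lit 1) (nat_lit 4) (nat_lit 2) (nat_lit 5) (nat_lit 2) (nat_lit 4) (nat_lit 427) (nat_lit 317) (nat_lit 276)) (XT.nd (nat_lit 78) (nat_lit 0) (nat_lit 0) (XT.lf (nat_lit 0) (nat_lit 143277355337105) (nat_lit 76) (nat_lit 4242670373930) (nat_lit 76) (nat_lit 4242460909794) (nat_lit 1) (nat_lit 4) (nat_lit 2) (nat_lit 5) (nat_lit 2)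 (nat_lit 4) (nat_lit 428) (nat_lit 317) (nat_lit 275)) (XT.lf (nat_lit 0) (nat_lit 164770772770368) (nat_lit 76) (nat_lit 4878083781462) (nat_lit 76) (nat_lit 4877874239983) (nat_lit 1) (nat_lit 4) (nat_lit 2) (nat_lit 5) (nat_lit 2) (nat_lit 4) (nat_lit 429) (nat_lit 317) (nat_lit 274)))) (XT.nd (nat_lit 78) (nat_lit 0) (nat_lit 0) (XT.lf (nat_lit 0) (nat_lit 189488201576374) (nat_lit 76) (nat_lit 5608809854507) (nat_lit 76) (nat_lit 5608600245774) (nat_lit 1) (nat_lit 4) (nat_lit 2) (nat_lit 5) (nat_lit 2) (nat_lit 4) (nat_lit 430) (nat_lit 317) (nat_lit 273)) (XT.nd (nat_lit 78) (nat_lit 0) (nat_lit 0) (XT.lf (nat_lit 0) (nat_lit 217913243623066) (nat_lit 76) (nat_lit 6449145407540) (nat_lit 76) (nat_lit 6448935740324) (nat_lit 1) (nat_lit 4) (nat_lit 2) (nat_lit 5) (nat_lit 2) (nat_lit 4) (nat_lit 431) (nat_lit 317) (nat_lit 272)) (XT.lf (nat_lit 0) (nat_lit 250602041037446) (nat_lit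 76) (nat_lit 7415531788337) (nat_lit 76) (nat_lit 7415322070266) (nat_lit 1) (nat_lit 4) (nat_lit 2) (nat_lit 5) (nat_lit 2) (nat_lit 4) (nat_lit 432) (nat_lit 317) (nat_lit 271))))))) (XT.nd (nat_lit 48750) (nat_lit 0) (nat_lit 0) (XT.nd (nat_lit 48282) (nat_lit 0) (nat_lit 0) (XT.nd (nat_lit 48048) (nat_lit 0) (nat_lit 0) (XT.nd (nat_lit 78) (nat_lit 0) (nat_lit 0) (XT.lf (nat_lit 0) (nat_lit 2696912365925328) (nat_lit 76) (nat_lit 79736473880180) (nat_lit 76) (nat_lit 79736263854582) (nat_lit 1) (nat_lit 4) (nat_lit 2) (nat_lit 5) (nat_lit 2) (nat_lit 4) (nat_lit 449) (nat_lit 317) (nat_lit 254)) (XT.lf (nat_lit 0) (nat_lit 3101451025928942) (nat_lit 76) (nat_lit 91695962564040) (nat_lit 76) (nat_lit 91695752534338) (nat_lit 1) (nat_lit 4) (nat_lit 2) (nat_lit 5) (nat_lit 2) (nat_lit 4) (nat_lit 450) (nat_lit 317) (nat_lit 253))) (XT.nd (nat_lit 78) (nat_lit 0) (nat_lit 0) (XT.lf (nat_lit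 0) (nat_lit 139089899782) (nat_lit 76) (nat_lit 11929864023) (nat_lit 76) (nat_lit 11929864023) (nat_lit 1) (nat_lit 4) (nat_lit 2) (nat_lit 5) (nat_lit 2) (nat_lit 4) (nat_lit 384) (nat_lit 318) (nat_lit 318)) (XT.nd (nat_lit 78) (nat_lit 0) (nat_lit 0) (XT.lf (nat_lit 0) (nat_lit 325861978560) (nat_lit 76) (nat_lit 24265396357) (nat_lit 76) (nat_lit 24233887793) (nat_lit 1) (nat_lit 4) (nat_lit 2) (nat_lit 5) (nat_lit 2) (nat_lit 4) (nat_lit 385) (nat_lit 318) (nat_lit 317)) (XT.lf (nat_lit 0) (nat_lit 380190409327) (nat_lit 76) (nat_lit 24998502682) (nat_lit 76) (nat_lit 24939595365) (nat_lit 1) (nat_lit 4) (nat_lit 2) (nat_lit 5) (nat_lit 2) (nat_lit 4) (nat_lit 386) (nat_lit 318) (nat_lit 316))))) (XT.nd (nat_lit 234) (nat_lit 0) (nat_lit 0) (XT.nd (nat_lit 78) (nat_lit 0) (nat_lit 0) (XT.lf (nat_lit 0) (nat_lit 442228039424) (nat_lit 76) (nat_lit 26073390405) (nat_lit 76) (nat_lit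 25990658086) (nat_lit 1) (nat_lit 4) (nat_lit 2) (nat_lit 5) (nat_lit 2) (nat_lit 4) (nat_lit 387) (nat_lit 318) (nat_lit 315)) (XT.nd (nat_lit 78) (nat_lit 0) (nat_lit 0) (XT.lf (nat_lit 0) (nat_lit 513188648570) (nat_lit 76) (nat_lit 27511089938) (nat_lit 76) (nat_lit 27407640226) (nat_lit 1) (nat_lit 4) (nat_lit 2) (nat_lit 5) (nat_lit 2) (nat_lit 4) (nat_lit 388) (nat_lit 318) (nat_lit 314)) (XT.lf (nat_lit 0) (nat_lit 594460596509) (nat_lit 76) (nat_lit 29339730184) (nat_lit 76) (nat_lit 29218265348) (nat_lit 1) (nat_lit 4) (nat_lit 2) (nat_lit 5) (nat_lit 2) (nat_lit 4) (nat_lit 389) (nat_lit 318) (nat_lit 313)))) (XT.nd (nat_lit 78) (nat_lit 0) (nat_lit 0) (XT.lf (nat_lit 0) (nat_lit 687633986570) (nat_lit 76) (nat_lit 31595088889) (nat_lit 76) (nat_lit 31457958728) (nat_lit 1) (nat_lit 4) (nat_lit 2) (nat_lit 5) (nat_lit 2) (nat_lit 4) (nat_lit 390) (nat_lit 318) (nat_lit 312))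 (XT.nd (nat_lit 78) (nat_lit 0) (nat_lit 0) (XT.lf (nat_lit 0) (nat_lit 794531776385) (nat_lit 76) (nat_lit 34321292635) (nat_lit 76) (nat_lit 34170540451) (nat_lit 1) (nat_lit 4) (nat_lit 2) (nat_lit 5) (nat_lit 2) (nat_lit 4) (nat_lit 391) (nat_lit 318) (nat_lit 311)) (XT.lf (nat_lit 0) (nat_lit 917245444450) (nat_lit 76) (nat_lit 37571680191) (nat_lit 76) (nat_lit 37409082771) (nat_lit 1) (nat_lit 4) (nat_lit 2) (nat_lit 5) (nat_lit 2) (nat_lit 4) (nat_lit 392) (nat_lit 318) (nat_lit 310)))))) (XT.nd (nat_lit 468) (nat_lit 0) (nat_lit 0) (XT.nd (nat_lit 234) (nat_lit 0) (nat_lit 0) (XT.nd (nat_lit 78) (nat_lit 0) (nat_lit 0) (XT.lf (nat_lit 0) (nat_lit 1058175910358) (nat_lit 76) (nat_lit 41409846096) (nat_lit 76) (nat_lit 41236948470) (nat_lit 1) (nat_lit 4) (nat_lit 2) (nat_lit 5) (nat_lit 2) (nat_lit 4) (nat_lit 393) (nat_lit 318) (nat_lit 309)) (XT.nd (nat_lit 78) (nat_lit 0) (nat_lit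 0) (XT.lf (nat_lit 0) (nat_lit 1220080509312) (nat_lit 76) (nat_lit 45910884901) (nat_lit 76) (nat_lit 45729030575) (nat_lit 1) (nat_lit 4) (nat_lit 2) (nat_lit 5) (nat_lit 2) (nat_lit 4) (nat_lit 394) (nat_lit 318) (nat_lit 308)) (XT.lf (nat_lit 0) (nat_lit 1406126939986) (nat_lit 76) (nat_lit 51162860409) (nat_lit 76) (nat_lit 50973217647) (nat_lit 1) (nat_lit 4) (nat_lit 2) (nat_lit 5) (nat_lit 2) (nat_lit 4) (nat_lit 395) (nat_lit 318) (nat_lit 307)))) (XT.nd (nat_lit 78) (nat_lit 0) (nat_lit 0) (XT.lf (nat_lit 0) (nat_lit 1619955241241) (nat_lit 76) (nat_lit 57268528661) (nat_lit 76) (nat_lit 57072113346) (nat_lit 1) (nat_lit 4) (nat_lit 2) (nat_lit 5) (nat_lit 2) (nat_lit 4) (nat_lit 396) (nat_lit 318) (nat_lit 306)) (XT.nd (nat_lit 78) (nat_lit 0) (nat_lit 0) (XT.lf (nat_lit 0) (nat_lit 1865749010277) (nat_lit 76) (nat_lit 64347348385) (nat_lit 76) (nat_lit 64145043894) (nat_lit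 1) (nat_lit 4) (nat_lit 2) (nat_lit 5) (nat_lit 2) (nat_lit 4) (nat_lit 397) (nat_lit 318) (nat_lit 305)) (XT.lf (nat_lit 0) (nat_lit 2148317255617) (nat_lit 76) (nat_lit 72537818227) (nat_lit 76) (nat_lit 72330392713) (nat_lit 1) (nat_lit 4) (nat_lit 2) (nat_lit 5) (nat_lit 2) (nat_lit 4) (nat_lit 398) (nat_lit 318) (nat_lit 304))))) (XT.nd (nat_lit 234) (nat_lit 0) (nat_lit 0) (XT.nd (nat_lit 78) (nat_lit 0) (nat_lit 0) (XT.lf (nat_lit 0) (nat_lit 2473188486410) (nat_lit 76) (nat_lit 82000186510) (nat_lit 76) (nat_lit 81788307934) (nat_lit 1) (nat_lit 4) (nat_lit 2) (nat_lit 5) (nat_lit 2) (nat_lit 4) (nat_lit 399) (nat_lit 318) (nat_lit 303)) (XT.nd (nat_lit 78) (nat_lit 0) (nat_lit 0) (XT.lf (nat_lit 0) (nat_lit 2846718878910) (nat_lit 76) (nat_lit 92919586527) (nat_lit 76) (nat_lit 92703835722) (nat_lit 1) (nat_lit 4) (nat_lit 2) (nat_lit 5) (nat_lit 2) (nat_lit 4) (nat_lit 400)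 (nat_lit 318) (nat_lit 302)) (XT.lf (nat_lit 0) (nat_lit 3276216636449) (nat_lit 76) (nat_lit 105509658714) (nat_lit 76) (nat_lit 105290540753) (nat_lit 1) (nat_lit 4) (nat_lit 2) (nat_lit 5) (nat_lit 2) (nat_lit 4) (nat_lit 401) (nat_lit 318) (nat_lit 301)))) (XT.nd (nat_lit 78) (nat_lit 0) (nat_lit 0) (XT.lf (nat_lit 0) (nat_lit 3770084976023) (nat_lit 76) (nat_lit 120016730568) (nat_lit 76) (nat_lit 119794684646) (nat_lit 1) (nat_lit 4) (nat_lit 2) (nat_lit 5) (nat_lit 2) (nat_lit 4) (nat_lit 402) (nat_lit 318) (nat_lit 300)) (XT.nd (nat_lit 78) (nat_lit 0) (nat_lit 0) (XT.lf (nat_lit 0) (nat_lit 4337986539056) (nat_lit 76) (nat_lit 136724636105) (nat_lit 76) (nat_lit 136500044130) (nat_lit 1) (nat_lit 4) (nat_lit 2) (nat_lit 5) (nat_lit 2) (nat_lit 4) (nat_lit 403) (nat_lit 318) (nat_lit 299)) (XT.lf (nat_lit 0) (nat_lit 4991032443088) (nat_lit 76) (nat_lit 155960269129) (nat_lit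 76) (nat_lit 155733463194) (nat_lit 1) (nat_lit 4) (nat_lit 2) (nat_lit 5) (nat_lit 2) (nat_lit 4) (nat_lit 404) (nat_lit 318) (nat_lit 298))))))))
noncomputable def xc14 : XT := (XT.nd (nat_lit 1794) (nat_lit 0) (nat_lit 0) (XT.nd (nat_lit 858) (nat_lit 0) (nat_lit 0) (XT.nd (nat_lit 390) (nat_lit 0) (nat_lit 0) (XT.nd (nat_lit 156) (nat_lit 0) (nat_lit 0) (XT.nd (nat_lit 78) (nat_lit 0) (nat_lit 0) (XT.lf (nat_lit 0) (nat_lit 5741999673197) (nat_lit 76) (nat_lit 178099978982) (nat_lit 76) (nat_lit 177871247865) (nat_lit 1) (nat_lit 4) (nat_lit 2) (nat_lit 5) (nat_lit 2) (nat_lit 4) (nat_lit 405) (nat_lit 318) (nat_lit 297)) (XT.lf (nat_lit 0) (nat_lit 6605581066494) (nat_lit 76) (nat_lit 203576933899) (nat_lit 76) (nat_lit 203346528711) (nat_lit 1) (nat_lit 4) (nat_lit 2) (nat_lit 5) (nat_lit 2) (nat_lit 4) (nat_lit 406) (nat_lit 318) (nat_lit 296))) (XT.nd (nat_lit 78) (nat_lit 0)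 (nat_lit 0) (XT.lf (nat_lit 0) (nat_lit 7598672780674) (nat_lit 76) (nat_lit 232889596043) (nat_lit 76) (nat_lit 232657735140) (nat_lit 1) (nat_lit 4) (nat_lit 2) (nat_lit 5) (nat_lit 2) (nat_lit 4) (nat_lit 407) (nat_lit 318) (nat_lit 295)) (XT.nd (nat_lit 78) (nat_lit 0) (nat_lit 0) (XT.lf (nat_lit 0) (nat_lit 8740704871014) (nat_lit 76) (nat_lit 266611474020) (nat_lit 76) (nat_lit 266378347279) (nat_lit 1) (nat_lit 4) (nat_lit 2) (nat_lit 5) (nat_lit 2) (nat_lit 4) (nat_lit 408) (nat_lit 318) (nat_lit 294)) (XT.lf (nat_lit 0) (nat_lit 10054021443629) (nat_lit 76) (nat_lit 305402343704) (nat_lit 76) (nat_lit 305168116233) (nat_lit 1) (nat_lit 4) (nat_lit 2) (nat_lit 5) (nat_lit 2) (nat_lit 4) (nat_lit 409) (nat_lit 318) (nat_lit 293))))) (XT.nd (nat_lit 234) (nat_lit 0) (nat_lit 0) (XT.nd (nat_lit 78) (nat_lit 0) (nat_lit 0) (XT.lf (nat_lit 0) (nat_lit 11564317822767) (nat_lit 76) (nat_lit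 350021156893) (nat_lit 76) (nat_lit 349785972266) (nat_lit 1) (nat_lit 4) (nat_lit 2) (nat_lit 5) (nat_lit 2) (nat_lit 4) (nat_lit 410) (nat_lit 318) (nat_lit 292)) (XT.nd (nat_lit 78) (nat_lit 0) (nat_lit 0) (XT.lf (nat_lit 0) (nat_lit 13301143285411) (nat_lit 76) (nat_lit 401340890366) (nat_lit 76) (nat_lit 401104873431) (nat_lit 1) (nat_lit 4) (nat_lit 2) (nat_lit 5) (nat_lit 2) (nat_lit 4) (nat_lit 411) (nat_lit 318) (nat_lit 291)) (XT.lf (nat_lit 0) (nat_lit 15298479199307) (nat_lit 76) (nat_lit 460365625866) (nat_lit 76) (nat_lit 460128885184) (nat_lit 1) (nat_lit 4) (nat_lit 2) (nat_lit 5) (nat_lit 2) (nat_lit 4) (nat_lit 412) (nat_lit 318) (nat_lit 290)))) (XT.nd (nat_lit 78) (nat_lit 0) (nat_lit 0) (XT.lf (nat_lit 0) (nat_lit 17595403875816) (nat_lit 76) (nat_lit 528250195175) (nat_lit 76) (nat_lit 528012825147) (nat_lit 1) (nat_lit 4) (nat_lit 2) (nat_lit 5) (nat_lit 2) (nat_lit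 4) (nat_lit 413) (nat_lit 318) (nat_lit 289)) (XT.nd (nat_lit 78) (nat_lit 0) (nat_lit 0) (XT.lf (nat_lit 0) (nat_lit 20236857145563) (nat_lit 76) (nat_lit 606322774648) (nat_lit 76) (nat_lit 606084857363) (nat_lit 1) (nat_lit 4) (nat_lit 2) (nat_lit 5) (nat_lit 2) (nat_lit 4) (nat_lit 414) (nat_lit 318) (nat_lit 288)) (XT.lf (nat_lit 0) (nat_lit 23274519616001) (nat_lit 76) (nat_lit 696110871274) (nat_lit 76) (nat_lit 695872478114) (nat_lit 1) (nat_lit 4) (nat_lit 2) (nat_lit 5) (nat_lit 2) (nat_lit 4) (nat_lit 415) (nat_lit 318) (nat_lit 287)))))) (XT.nd (nat_lit 468) (nat_lit 0) (nat_lit 0) (XT.nd (nat_lit 234) (nat_lit 0) (nat_lit 0) (XT.nd (nat_lit 78) (nat_lit 0) (nat_lit 0) (XT.lf (nat_lit 0) (nat_lit 26767823813726) (nat_lit 76) (nat_lit 799371208684) (nat_lit 76) (nat_lit 799132401719) (nat_lit 1) (nat_lit 4) (nat_lit 2) (nat_lit 5) (nat_lit 2) (nat_lit 4) (nat_lit 416) (nat_lit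 318) (nat_lit 286)) (XT.nd (nat_lit 78) (nat_lit 0) (nat_lit 0) (XT.lf (nat_lit 0) (nat_lit 30785116994779) (nat_lit 76) (nat_lit 918124097827) (nat_lit 76) (nat_lit 917884931032) (nat_lit 1) (nat_lit 4) (nat_lit 2) (nat_lit 5) (nat_lit 2) (nat_lit 4) (nat_lit 417) (nat_lit 318) (nat_lit 285)) (XT.lf (nat_lit 0) (nat_lit 35404998373572) (nat_lit 76) (nat_lit 1054692964795) (nat_lit 76) (nat_lit 1054453485104) (nat_lit 1) (nat_lit 4) (nat_lit 2) (nat_lit 5) (nat_lit 2) (nat_lit 4) (nat_lit 418) (nat_lit 318) (nat_lit 284)))) (XT.nd (nat_lit 78) (nat_lit 0) (nat_lit 0) (XT.lf (nat_lit 0) (nat_lit 40717856933605) (nat_lit 76) (nat_lit 1211749809159) (nat_lit 76) (nat_lit 1211510057384) (nat_lit 1) (nat_lit 4) (nat_lit 2) (nat_lit 5) (nat_lit 2) (nat_lit 4) (nat_lit 419) (nat_lit 318) (nat_lit 283)) (XT.nd (nat_lit 78) (nat_lit 0) (nat_lit 0) (XT.lf (nat_lit 0) (nat_lit 46827639907572) (nat_lit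 76) (nat_lit 1392367482222) (nat_lit 76) (nat_lit 1392127493852) (nat_lit 1) (nat_lit 4) (nat_lit 2) (nat_lit 5) (nat_lit 2) (nat_lit 4) (nat_lit 420) (nat_lit 318) (nat_lit 282)) (XT.lf (nat_lit 0) (nat_lit 53853886527574) (nat_lit 76) (nat_lit 1600079808021) (nat_lit 76) (nat_lit 1599839613918) (nat_lit 1) (nat_lit 4) (nat_lit 2) (nat_lit 5) (nat_lit 2) (nat_lit 4) (nat_lit 421) (nat_lit 318) (nat_lit 281))))) (XT.nd (nat_lit 234) (nat_lit 0) (nat_lit 0) (XT.nd (nat_lit 78) (nat_lit 0) (nat_lit 0) (XT.lf (nat_lit 0) (nat_lit 61934066836175) (nat_lit 76) (nat_lit 1838950723366) (nat_lit 76) (nat_lit 1838710350364) (nat_lit 1) (nat_lit 4) (nat_lit 2) (nat_lit 5) (nat_lit 2) (nat_lit 4) (nat_lit 422) (nat_lit 318) (nat_lit 280)) (XT.nd (nat_lit 78) (nat_lit 0) (nat_lit 0) (XT.lf (nat_lit 0) (nat_lit 71226271317675) (nat_lit 76) (nat_lit 2113653789645) (nat_lit 76) (nat_lit 2113413261078)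 (nat_lit 1) (nat_lit 4) (nat_lit 2) (nat_lit 5) (nat_lit 2) (nat_lit 4) (nat_lit 423) (nat_lit 318) (nat_lit 279)) (XT.lf (nat_lit 0) (nat_lit 81912303972798) (nat_lit 76) (nat_lit 2429563632067) (nat_lit 76) (nat_lit 2429322968226) (nat_lit 1) (nat_lit 4) (nat_lit 2) (nat_lit 5) (nat_lit 2) (nat_lit 4) (nat_lit 424) (nat_lit 318) (nat_lit 278)))) (XT.nd (nat_lit 78) (nat_lit 0) (nat_lit 0) (XT.lf (nat_lit 0) (nat_lit 94201239353492) (nat_lit 76) (nat_lit 2792861095374) (nat_lit 76) (nat_lit 2792620313904) (nat_lit 1) (nat_lit 4) (nat_lit 2) (nat_lit 5) (nat_lit 2) (nat_lit 4) (nat_lit 425) (nat_lit 318) (nat_lit 277)) (XT.nd (nat_lit 78) (nat_lit 0) (nat_lit 0) (XT.lf (nat_lit 0) (nat_lit 108333513151989) (nat_lit 76) (nat_lit 3210654173415) (nat_lit 76) (nat_lit 3210413289659) (nat_lit 1) (nat_lit 4) (nat_lit 2) (nat_lit 5) (nat_lit 2) (nat_lit 4) (nat_lit 426) (nat_lit 318) (nat_lit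 276)) (XT.lf (nat_lit 0) (nat_lit 124585626377389) (nat_lit 76) (nat_lit 3691117078586) (nat_lit 76) (nat_lit 3690876105885) (nat_lit 1) (nat_lit 4) (nat_lit 2) (nat_lit 5) (nat_lit 2) (nat_lit 4) (nat_lit 427) (nat_lit 318) (nat_lit 275))))))) (XT.nd (nat_lit 49920) (nat_lit 0) (nat_lit 0) (XT.nd (nat_lit 1716) (nat_lit 0) (nat_lit 0) (XT.nd (nat_lit 156) (nat_lit 0) (nat_lit 0) (XT.nd (nat_lit 78) (nat_lit 0) (nat_lit 0) (XT.lf (nat_lit 0) (nat_lit 143275555158015) (nat_lit 76) (nat_lit 4243650172074) (nat_lit 76) (nat_lit 4243409122031) (nat_lit 1) (nat_lit 4) (nat_lit 2) (nat_lit 5) (nat_lit 2) (nat_lit 4) (nat_lit 428) (nat_lit 318) (nat_lit 274)) (XT.lf (nat_lit 0) (nat_lit 164768972013489) (nat_lit 76) (nat_lit 4879063883971) (nat_lit 76) (nat_lit 4878822766672) (nat_lit 1) (nat_lit 4) (nat_lit 2) (nat_lit 5) (nat_lit 2) (nat_lit 4) (nat_lit 429) (nat_lit 318) (nat_lit 273))) (XT.nd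 (nat_lit 78) (nat_lit 0) (nat_lit 0) (XT.lf (nat_lit 0) (nat_lit 189486400317070) (nat_lit 76) (nat_lit 5609790221682) (nat_lit 76) (nat_lit 5609549045901) (nat_lit 1) (nat_lit 4) (nat_lit 2) (nat_lit 5) (nat_lit 2) (nat_lit 4) (nat_lit 430) (nat_lit 318) (nat_lit 272)) (XT.nd (nat_lit 1404) (nat_lit 0) (nat_lit 0) (XT.lf (nat_lit 0) (nat_lit 217911441926870) (nat_lit 76) (nat_lit 6450126004859) (nat_lit 76) (nat_lit 6449884778223) (nat_lit 1) (nat_lit 4) (nat_lit 2) (nat_lit 5) (nat_lit 2) (nat_lit 4) (nat_lit 431) (nat_lit 318) (nat_lit 271)) (XT.lf (nat_lit 0) (nat_lit 2696910561551879) (nat_lit 76) (nat_lit 79737455887808) (nat_lit 76) (nat_lit 79737214349537) (nat_lit 1) (nat_lit 4) (nat_lit 2) (nat_lit 5) (nat_lit 2) (nat_lit 4) (nat_lit 449) (nat_lit 318) (nat_lit 253))))) (XT.nd (nat_lit 47970) (nat_lit 0) (nat_lit 0) (XT.nd (nat_lit 47814) (nat_lit 0) (nat_lit 0) (XT.lf (nat_lit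 0) (nat_lit 3101449221524793) (nat_lit 76) (nat_lit 91696944587845) (nat_lit 76) (nat_lit 91696703045997) (nat_lit 1) (nat_lit 4) (nat_lit 2) (nat_lit 5) (nat_lit 2) (nat_lit 4) (nat_lit 450) (nat_lit 318) (nat_lit 252)) (XT.nd (nat_lit 78) (nat_lit 0) (nat_lit 0) (XT.lf (nat_lit 0) (nat_lit 99722812921) (nat_lit 76) (nat_lit 11938730495) (nat_lit 76) (nat_lit 11938730495) (nat_lit 1) (nat_lit 4) (nat_lit 2) (nat_lit 5) (nat_lit 2) (nat_lit 4) (nat_lit 382) (nat_lit 319) (nat_lit 319)) (XT.lf (nat_lit 0) (nat_lit 236210960141) (nat_lit 76) (nat_lit 23809795609) (nat_lit 76) (nat_lit 23773560760) (nat_lit 1) (nat_lit 4) (nat_lit 2) (nat_lit 5) (nat_lit 2) (nat_lit 4) (nat_lit 383) (nat_lit 319) (nat_lit 318)))) (XT.nd (nat_lit 78) (nat_lit 0) (nat_lit 0) (XT.lf (nat_lit 0) (nat_lit 277909108243) (nat_lit 76) (nat_lit 24038556353) (nat_lit 76) (nat_lit 23970812938) (nat_lit 1) (nat_lit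 4) (nat_lit 2) (nat_lit 5) (nat_lit 2) (nat_lit 4) (nat_lit 384) (nat_lit 319) (nat_lit 317)) (XT.nd (nat_lit 78) (nat_lit 0) (nat_lit 0) (XT.lf (nat_lit 0) (nat_lit 325355903482) (nat_lit 76) (nat_lit 24568218974) (nat_lit 76) (nat_lit 24473076807) (nat_lit 1) (nat_lit 4) (nat_lit 2) (nat_lit 5) (nat_lit 2) (nat_lit 4) (nat_lit 385) (nat_lit 319) (nat_lit 316)) (XT.lf (nat_lit 0) (nat_lit 379479652721) (nat_lit 76) (nat_lit 25409146438) (nat_lit 76) (nat_lit 25290179269) (nat_lit 1) (nat_lit 4) (nat_lit 2) (nat_lit 5) (nat_lit 2) (nat_lit 4) (nat_lit 386) (nat_lit 319) (nat_lit 315)))))) (XT.nd (nat_lit 468) (nat_lit 0) (nat_lit 0) (XT.nd (nat_lit 234) (nat_lit 0) (nat_lit 0) (XT.nd (nat_lit 78) (nat_lit 0) (nat_lit 0) (XT.lf (nat_lit 0) (nat_lit 441339298880) (nat_lit 76) (nat_lit 26577791673) (nat_lit 76) (nat_lit 26438107112) (nat_lit 1) (nat_lit 4) (nat_lit 2) (nat_lit 5) (nat_lit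 2) (nat_lit 4) (nat_lit 387) (nat_lit 319) (nat_lit 314)) (XT.nd (nat_lit 78) (nat_lit 0) (nat_lit 0) (XT.lf (nat_lit 0) (nat_lit 512145139385) (nat_lit 76) (nat_lit 28097019477) (nat_lit 76) (nat_lit 27939319792) (nat_lit 1) (nat_lit 4) (nat_lit 2) (nat_lit 5) (nat_lit 2) (nat_lit 4) (nat_lit 388) (nat_lit 319) (nat_lit 313)) (XT.lf (nat_lit 0) (nat_lit 593282505896) (nat_lit 76) (nat_lit 29996553873) (nat_lit 76) (nat_lit 29823188862) (nat_lit 1) (nat_lit 4) (nat_lit 2) (nat_lit 5) (nat_lit 2) (nat_lit 4) (nat_lit 389) (nat_lit 319) (nat_lit 312)))) (XT.nd (nat_lit 78) (nat_lit 0) (nat_lit 0) (XT.lf (nat_lit 0) (nat_lit 686338868629) (nat_lit 76) (nat_lit 32313559664) (nat_lit 76) (nat_lit 32126572631) (nat_lit 1) (nat_lit 4) (nat_lit 2) (nat_lit 5) (nat_lit 2) (nat_lit 4) (nat_lit 390) (nat_lit 319) (nat_lit 311)) (XT.nd (nat_lit 78) (nat_lit 0) (nat_lit 0) (XT.lf (nat_lit 0) (nat_lit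 793134895550) (nat_lit 76) (nat_lit 35093369572) (nat_lit 76) (nat_lit 34894537302) (nat_lit 1) (nat_lit 4) (nat_lit 2) (nat_lit 5) (nat_lit 2) (nat_lit 4) (nat_lit 391) (nat_lit 319) (nat_lit 310)) (XT.lf (nat_lit 0) (nat_lit 915760074143) (nat_lit 76) (nat_lit 38390371182) (nat_lit 76) (nat_lit 38181238706) (nat_lit 1) (nat_lit 4) (nat_lit 2) (nat_lit 5) (nat_lit 2) (nat_lit 4) (nat_lit 392) (nat_lit 319) (nat_lit 309))))) (XT.nd (nat_lit 234) (nat_lit 0) (nat_lit 0) (XT.nd (nat_lit 78) (nat_lit 0) (nat_lit 0) (XT.lf (nat_lit 0) (nat_lit 1056613592683) (nat_lit 76) (nat_lit 42269071047) (nat_lit 76) (nat_lit 42050981871) (nat_lit 1) (nat_lit 4) (nat_lit 2) (nat_lit 5) (nat_lit 2) (nat_lit 4) (nat_lit 393) (nat_lit 319) (nat_lit 308)) (XT.nd (nat_lit 78) (nat_lit 0) (nat_lit 0) (XT.lf (nat_lit 0) (nat_lit 1218451280882) (nat_lit 76) (nat_lit 46805356774) (nat_lit 76) (nat_lit 46579479162)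 (nat_lit 1) (nat_lit 4) (nat_lit 2) (nat_lit 5) (nat_lit 2) (nat_lit 4) (nat_lit 394) (nat_lit 319) (nat_lit 307)) (XT.lf (nat_lit 0) (nat_lit 1404439528291) (nat_lit 76) (nat_lit 52087981778) (nat_lit 76) (nat_lit 51855331614) (nat_lit 1) (nat_lit 4) (nat_lit 2) (nat_lit 5) (nat_lit 2) (nat_lit 4) (nat_lit 395) (nat_lit 319) (nat_lit 306)))) (XT.nd (nat_lit 78) (nat_lit 0) (nat_lit 0) (XT.lf (nat_lit 0) (nat_lit 1618217235403) (nat_lit 76) (nat_lit 58220301767) (nat_lit 76) (nat_lit 57981762427) (nat_lit 1) (nat_lit 4) (nat_lit 2) (nat_lit 5) (nat_lit 2) (nat_lit 4) (nat_lit 396) (nat_lit 319) (nat_lit 305)) (XT.nd (nat_lit 78) (nat_lit 0) (nat_lit 0) (XT.lf (nat_lit 0) (nat_lit 1863967009531) (nat_lit 76) (nat_lit 65322296914) (nat_lit 76) (nat_lit 65078636551) (nat_lit 1) (nat_lit 4) (nat_lit 2) (nat_lit 5) (nat_lit 2) (nat_lit 4) (nat_lit 397) (nat_lit 319) (nat_lit 304)) (XT.lf (nat_lit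 0) (nat_lit 2146496998430) (nat_lit 76) (nat_lit 73532919298) (nat_lit 76) (nat_lit 73284805872) (nat_lit 1) (nat_lit 4) (nat_lit 2) (nat_lit 5) (nat_lit 2) (nat_lit 4) (nat_lit 398) (nat_lit 319) (nat_lit 303))))))))
noncomputable def xc15 : XT := (XT.nd (nat_lit 1794) (nat_lit 0) (nat_lit 0) (XT.nd (nat_lit 858) (nat_lit 0) (nat_lit 0) (XT.nd (nat_lit 390) (nat_lit 0) (nat_lit 0) (XT.nd (nat_lit 156) (nat_lit 0) (nat_lit 0) (XT.nd (nat_lit 78) (nat_lit 0) (nat_lit 0) (XT.lf (nat_lit 0) (nat_lit 2471334962753) (nat_lit 76) (nat_lit 83012811531) (nat_lit 76) (nat_lit 82760825876) (nat_lit 1) (nat_lit 4) (nat_lit 2) (nat_lit 5) (nat_lit 2) (nat_lit 4) (nat_lit 399) (nat_lit 319) (nat_lit 302)) (XT.lf (nat_lit 0) (nat_lit 2844836427887) (nat_lit 76) (nat_lit 93947449765) (nat_lit 76) (nat_lit 93692096955) (nat_lit 1) (nat_lit 4) (nat_lit 2) (nat_lit 5) (nat_lit 2) (nat_lit 4) (nat_lit 400)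 (nat_lit 319) (nat_lit 301))) (XT.nd (nat_lit 78) (nat_lit 0) (nat_lit 0) (XT.lf (nat_lit 0) (nat_lit 3274309031195) (nat_lit 76) (nat_lit 106550772575) (nat_lit 76) (nat_lit 106292491803) (nat_lit 1) (nat_lit 4) (nat_lit 2) (nat_lit 5) (nat_lit 2) (nat_lit 4) (nat_lit 401) (nat_lit 319) (nat_lit 300)) (XT.nd (nat_lit 78) (nat_lit 0) (nat_lit 0) (XT.lf (nat_lit 0) (nat_lit 3768155497524) (nat_lit 76) (nat_lit 121069366711) (nat_lit 76) (nat_lit 120808539885) (nat_lit 1) (nat_lit 4) (nat_lit 2) (nat_lit 5) (nat_lit 2) (nat_lit 4) (nat_lit 402) (nat_lit 319) (nat_lit 299)) (XT.lf (nat_lit 0) (nat_lit 4336038040345) (nat_lit 76) (nat_lit 137787291623) (nat_lit 76) (nat_lit 137524250838) (nat_lit 1) (nat_lit 4) (nat_lit 2) (nat_lit 5) (nat_lit 2) (nat_lit 4) (nat_lit 403) (nat_lit 319) (nat_lit 298))))) (XT.nd (nat_lit 234) (nat_lit 0) (nat_lit 0) (XT.nd (nat_lit 78) (nat_lit 0) (nat_lit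 0) (XT.lf (nat_lit 0) (nat_lit 4989067405062) (nat_lit 76) (nat_lit 157031637147) (nat_lit 76) (nat_lit 156766671180) (nat_lit 1) (nat_lit 4) (nat_lit 2) (nat_lit 5) (nat_lit 2) (nat_lit 4) (nat_lit 404) (nat_lit 319) (nat_lit 297)) (XT.nd (nat_lit 78) (nat_lit 0) (nat_lit 0) (XT.lf (nat_lit 0) (nat_lit 5740020253158) (nat_lit 76) (nat_lit 179178923086) (nat_lit 76) (nat_lit 178912283048) (nat_lit 1) (nat_lit 4) (nat_lit 2) (nat_lit 5) (nat_lit 2) (nat_lit 4) (nat_lit 405) (nat_lit 319) (nat_lit 296)) (XT.lf (nat_lit 0) (nat_lit 6603589140356) (nat_lit 76) (nat_lit 204662465905) (nat_lit 76) (nat_lit 204394370153) (nat_lit 1) (nat_lit 4) (nat_lit 2) (nat_lit 5) (nat_lit 2) (nat_lit 4) (nat_lit 406) (nat_lit 319) (nat_lit 295)))) (XT.nd (nat_lit 78) (nat_lit 0) (nat_lit 0) (XT.lf (nat_lit 0) (nat_lit 7596669979668) (nat_lit 76) (nat_lit 233980856659) (nat_lit 76) (nat_lit 233711495068)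 (nat_lit 1) (nat_lit 4) (nat_lit 2) (nat_lit 5) (nat_lit 2) (nat_lit 4) (nat_lit 407) (nat_lit 319) (nat_lit 294)) (XT.nd (nat_lit 78) (nat_lit 0) (nat_lit 0) (XT.lf (nat_lit 0) (nat_lit 8738692613601) (nat_lit 76) (nat_lit 267707716036) (nat_lit 76) (nat_lit 267437253716) (nat_lit 1) (nat_lit 4) (nat_lit 2) (nat_lit 5) (nat_lit 2) (nat_lit 4) (nat_lit 408) (nat_lit 319) (nat_lit 293)) (XT.lf (nat_lit 0) (nat_lit 10052000963253) (nat_lit 76) (nat_lit 306502917372) (nat_lit 76) (nat_lit 306231497897) (nat_lit 1) (nat_lit 4) (nat_lit 2) (nat_lit 5) (nat_lit 2) (nat_lit 4) (nat_lit 409) (nat_lit 319) (nat_lit 292)))))) (XT.nd (nat_lit 468) (nat_lit 0) (nat_lit 0) (XT.nd (nat_lit 234) (nat_lit 0) (nat_lit 0) (XT.nd (nat_lit 78) (nat_lit 0) (nat_lit 0) (XT.lf (nat_lit 0) (nat_lit 11562290191989) (nat_lit 76) (nat_lit 351125497215) (nat_lit 76) (nat_lit 350853245430) (nat_lit 1) (nat_lit 4)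 (nat_lit 2) (nat_lit 5) (nat_lit 2) (nat_lit 4) (nat_lit 410) (nat_lit 319) (nat_lit 291)) (XT.nd (nat_lit 78) (nat_lit 0) (nat_lit 0) (XT.lf (nat_lit 0) (nat_lit 13299109436891) (nat_lit 76) (nat_lit 402448506040) (nat_lit 76) (nat_lit 402175530508) (nat_lit 1) (nat_lit 4) (nat_lit 2) (nat_lit 5) (nat_lit 2) (nat_lit 4) (nat_lit 411) (nat_lit 319) (nat_lit 290)) (XT.lf (nat_lit 0) (nat_lit 15296439944056) (nat_lit 76) (nat_lit 461476089672) (nat_lit 76) (nat_lit 461202484795) (nat_lit 1) (nat_lit 4) (nat_lit 2) (nat_lit 5) (nat_lit 2) (nat_lit 4) (nat_lit 412) (nat_lit 319) (nat_lit 289)))) (XT.nd (nat_lit 78) (nat_lit 0) (nat_lit 0) (XT.lf (nat_lit 0) (nat_lit 17593359919059) (nat_lit 76) (nat_lit 529363135617) (nat_lit 76) (nat_lit 529088983482) (nat_lit 1) (nat_lit 4) (nat_lit 2) (nat_lit 5) (nat_lit 2) (nat_lit 4) (nat_lit 413) (nat_lit 319) (nat_lit 288)) (XT.nd (nat_lit 78) (nat_lit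 0) (nat_lit 0) (XT.lf (nat_lit 0) (nat_lit 20234809100541) (nat_lit 76) (nat_lit 607437868687) (nat_lit 76) (nat_lit 607163240676) (nat_lit 1) (nat_lit 4) (nat_lit 2) (nat_lit 5) (nat_lit 2) (nat_lit 4) (nat_lit 414) (nat_lit 319) (nat_lit 287)) (XT.lf (nat_lit 0) (nat_lit 23272468015965) (nat_lit 76) (nat_lit 697227838006) (nat_lit 76) (nat_lit 696952796191) (nat_lit 1) (nat_lit 4) (nat_lit 2) (nat_lit 5) (nat_lit 2) (nat_lit 4) (nat_lit 415) (nat_lit 319) (nat_lit 286))))) (XT.nd (nat_lit 234) (nat_lit 0) (nat_lit 0) (XT.nd (nat_lit 78) (nat_lit 0) (nat_lit 0) (XT.lf (nat_lit 0) (nat_lit 26765769122373) (nat_lit 76) (nat_lit 800489803845) (nat_lit 76) (nat_lit 800214402199) (nat_lit 1) (nat_lit 4) (nat_lit 2) (nat_lit 5) (nat_lit 2) (nat_lit 4) (nat_lit 416) (nat_lit 319) (nat_lit 285)) (XT.nd (nat_lit 78) (nat_lit 0) (nat_lit 0) (XT.lf (nat_lit 0) (nat_lit 30783059615325) (nat_lit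 76) (nat_lit 919244109013) (nat_lit 76) (nat_lit 918968394471) (nat_lit 1) (nat_lit 4) (nat_lit 2) (nat_lit 5) (nat_lit 2) (nat_lit 4) (nat_lit 417) (nat_lit 319) (nat_lit 284)) (XT.lf (nat_lit 0) (nat_lit 35402938656640) (nat_lit 76) (nat_lit 1055814207306) (nat_lit 76) (nat_lit 1055538220682) (nat_lit 1) (nat_lit 4) (nat_lit 2) (nat_lit 5) (nat_lit 2) (nat_lit 4) (nat_lit 418) (nat_lit 319) (nat_lit 283)))) (XT.nd (nat_lit 78) (nat_lit 0) (nat_lit 0) (XT.lf (nat_lit 0) (nat_lit 40715795184081) (nat_lit 76) (nat_lit 1212872122388) (nat_lit 76) (nat_lit 1212595899169) (nat_lit 1) (nat_lit 4) (nat_lit 2) (nat_lit 5) (nat_lit 2) (nat_lit 4) (nat_lit 419) (nat_lit 319) (nat_lit 282)) (XT.nd (nat_lit 78) (nat_lit 0) (nat_lit 0) (XT.lf (nat_lit 0) (nat_lit 46825576390579) (nat_lit 76) (nat_lit 1393490726510) (nat_lit 76) (nat_lit 1393214297557) (nat_lit 1) (nat_lit 4) (nat_lit 2) (nat_lit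 5) (nat_lit 2) (nat_lit 4) (nat_lit 420) (nat_lit 319) (nat_lit 281)) (XT.lf (nat_lit 0) (nat_lit 53851821473650) (nat_lit 76) (nat_lit 1601203861926) (nat_lit 76) (nat_lit 1600927254074) (nat_lit 1) (nat_lit 4) (nat_lit 2) (nat_lit 5) (nat_lit 2) (nat_lit 4) (nat_lit 421) (nat_lit 319) (nat_lit 280))))))) (XT.nd (nat_lit 49842) (nat_lit 0) (nat_lit 0) (XT.nd (nat_lit 390) (nat_lit 0) (nat_lit 0) (XT.nd (nat_lit 156) (nat_lit 0) (nat_lit 0) (XT.nd (nat_lit 78) (nat_lit 0) (nat_lit 0) (XT.lf (nat_lit 0) (nat_lit 61932000445790) (nat_lit 76) (nat_lit 1840075481286) (nat_lit 76) (nat_lit 1839798717869) (nat_lit 1) (nat_lit 4) (nat_lit 2) (nat_lit 5) (nat_lit 2) (nat_lit 4) (nat_lit 422) (nat_lit 319) (nat_lit 279)) (XT.lf (nat_lit 0) (nat_lit 71224203765149) (nat_lit 76) (nat_lit 2114779159752) (nat_lit 76) (nat_lit 2114502261061) (nat_lit 1) (nat_lit 4) (nat_lit 2) (nat_lit 5) (nat_lit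 2) (nat_lit 4) (nat_lit 423) (nat_lit 319) (nat_lit 278))) (XT.nd (nat_lit 78) (nat_lit 0) (nat_lit 0) (XT.lf (nat_lit 0) (nat_lit 81910235409715) (nat_lit 76) (nat_lit 2430689534509) (nat_lit 76) (nat_lit 2430412518190) (nat_lit 1) (nat_lit 4) (nat_lit 2) (nat_lit 5) (nat_lit 2) (nat_lit 4) (nat_lit 424) (nat_lit 319) (nat_lit 277)) (XT.nd (nat_lit 78) (nat_lit 0) (nat_lit 0) (XT.lf (nat_lit 0) (nat_lit 94199169911664) (nat_lit 76) (nat_lit 2793987460718) (nat_lit 76) (nat_lit 2793710342112) (nat_lit 1) (nat_lit 4) (nat_lit 2) (nat_lit 5) (nat_lit 2) (nat_lit 4) (nat_lit 425) (nat_lit 319) (nat_lit 276)) (XT.lf (nat_lit 0) (nat_lit 108331442946035) (nat_lit 76) (nat_lit 3211780941282) (nat_lit 76) (nat_lit 3211503733731) (nat_lit 1) (nat_lit 4) (nat_lit 2) (nat_lit 5) (nat_lit 2) (nat_lit 4) (nat_lit 426) (nat_lit 319) (nat_lit 275))))) (XT.nd (nat_lit 234) (nat_lit 0) (nat_lit 0) (XT.nd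 (nat_lit 78) (nat_lit 0) (nat_lit 0) (XT.lf (nat_lit 0) (nat_lit 124583555506978) (nat_lit 76) (nat_lit 3692244196472) (nat_lit 76) (nat_lit 3691966911578) (nat_lit 1) (nat_lit 4) (nat_lit 2) (nat_lit 5) (nat_lit 2) (nat_lit 4) (nat_lit 427) (nat_lit 319) (nat_lit 274)) (XT.nd (nat_lit 78) (nat_lit 0) (nat_lit 0) (XT.lf (nat_lit 0) (nat_lit 143273483709815) (nat_lit 76) (nat_lit 4244777594326) (nat_lit 76) (nat_lit 4244500242177) (nat_lit 1) (nat_lit 4) (nat_lit 2) (nat_lit 5) (nat_lit 2) (nat_lit 4) (nat_lit 428) (nat_lit 319) (nat_lit 273)) (XT.lf (nat_lit 0) (nat_lit 164766900062864) (nat_lit 76) (nat_lit 4880191570887) (nat_lit 76) (nat_lit 4879914160257) (nat_lit 1) (nat_lit 4) (nat_lit 2) (nat_lit 5) (nat_lit 2) (nat_lit 4) (nat_lit 429) (nat_lit 319) (nat_lit 272)))) (XT.nd (nat_lit 1482) (nat_lit 0) (nat_lit 0) (XT.lf (nat_lit 0) (nat_lit 189484327929553) (nat_lit 76) (nat_lit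 5610918138742) (nat_lit 76) (nat_lit 5610640677257) (nat_lit 1) (nat_lit 4) (nat_lit 2) (nat_lit 5) (nat_lit 2) (nat_lit 4) (nat_lit 430) (nat_lit 319) (nat_lit 271)) (XT.nd (nat_lit 78) (nat_lit 0) (nat_lit 0) (XT.lf (nat_lit 0) (nat_lit 2696908486456407) (nat_lit 76) (nat_lit 79738585231352) (nat_lit 76) (nat_lit 79738307454656) (nat_lit 1) (nat_lit 4) (nat_lit 2) (nat_lit 5) (nat_lit 2) (nat_lit 4) (nat_lit 449) (nat_lit 319) (nat_lit 252)) (XT.lf (nat_lit 0) (nat_lit 3101447146402625) (nat_lit 76) (nat_lit 91698073945448) (nat_lit 76) (nat_lit 91697796165647) (nat_lit 1) (nat_lit 4) (nat_lit 2) (nat_lit 5) (nat_lit 2) (nat_lit 4) (nat_lit 450) (nat_lit 319) (nat_lit 251)))))) (XT.nd (nat_lit 468) (nat_lit 0) (nat_lit 0) (XT.nd (nat_lit 234) (nat_lit 0) (nat_lit 0) (XT.nd (nat_lit 78) (nat_lit 0) (nat_lit 0) (XT.lf (nat_lit 0) (nat_lit 69138269395) (nat_lit 76) (nat_lit 12383140726)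 (nat_lit 76) (nat_lit 12383140726) (nat_lit 1) (nat_lit 4) (nat_lit 2) (nat_lit 5) (nat_lit 2) (nat_lit 4) (nat_lit 380) (nat_lit 320) (nat_lit 320)) (XT.nd (nat_lit 78) (nat_lit 0) (nat_lit 0) (XT.lf (nat_lit 0) (nat_lit 166893783593) (nat_lit 76) (nat_lit 24284546462) (nat_lit 76) (nat_lit 24242876385) (nat_lit 1) (nat_lit 4) (nat_lit 2) (nat_lit 5) (nat_lit 2) (nat_lit 4) (nat_lit 381) (nat_lit 320) (nat_lit 319)) (XT.lf (nat_lit 0) (nat_lit 199134330824) (nat_lit 76) (nat_lit 24083113543) (nat_lit 76) (nat_lit 24005208616) (nat_lit 1) (nat_lit 4) (nat_lit 2) (nat_lit 5) (nat_lit 2) (nat_lit 4) (nat_lit 382) (nat_lit 320) (nat_lit 318)))) (XT.nd (nat_lit 78) (nat_lit 0) (nat_lit 0) (XT.lf (nat_lit 0) (nat_lit 235628973801) (nat_lit 76) (nat_lit 24158041618) (nat_lit 76) (nat_lit 24048628127) (nat_lit 1) (nat_lit 4) (nat_lit 2) (nat_lit 5) (nat_lit 2) (nat_lit 4) (nat_lit 383) (nat_lit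 320) (nat_lit 317)) (XT.nd (nat_lit 78) (nat_lit 0) (nat_lit 0) (XT.lf (nat_lit 0) (nat_lit 277091738145) (nat_lit 76) (nat_lit 24510796672) (nat_lit 76) (nat_lit 24373984428) (nat_lit 1) (nat_lit 4) (nat_lit 2) (nat_lit 5) (nat_lit 2) (nat_lit 4) (nat_lit 384) (nat_lit 320) (nat_lit 316)) (XT.lf (nat_lit 0) (nat_lit 324333851856) (nat_lit 76) (nat_lit 25148280432) (nat_lit 76) (nat_lit 24987643187) (nat_lit 1) (nat_lit 4) (nat_lit 2) (nat_lit 5) (nat_lit 2) (nat_lit 4) (nat_lit 385) (nat_lit 320) (nat_lit 315))))) (XT.nd (nat_lit 234) (nat_lit 0) (nat_lit 0) (XT.nd (nat_lit 78) (nat_lit 0) (nat_lit 0) (XT.lf (nat_lit 0) (nat_lit 378279617158) (nat_lit 76) (nat_lit 26082965408) (nat_lit 76) (nat_lit 25901610770) (nat_lit 1) (nat_lit 4) (nat_lit 2) (nat_lit 5) (nat_lit 2) (nat_lit 4) (nat_lit 386) (nat_lit 320) (nat_lit 314)) (XT.nd (nat_lit 78) (nat_lit 0) (nat_lit 0) (XT.lf (nat_lit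 0) (nat_lit 439984494676) (nat_lit 76) (nat_lit 27333138915) (nat_lit 76) (nat_lit 27133769152) (nat_lit 1) (nat_lit 4) (nat_lit 2) (nat_lit 5) (nat_lit 2) (nat_lit 4) (nat_lit 387) (nat_lit 320) (nat_lit 313)) (XT.lf (nat_lit 0) (nat_lit 510655753753) (nat_lit 76) (nat_lit 28923260869) (nat_lit 76) (nat_lit 28708225781) (nat_lit 1) (nat_lit 4) (nat_lit 2) (nat_lit 5) (nat_lit 2) (nat_lit 4) (nat_lit 388) (nat_lit 320) (nat_lit 312)))) (XT.nd (nat_lit 78) (nat_lit 0) (nat_lit 0) (XT.lf (nat_lit 0) (nat_lit 591676092937) (nat_lit 76) (nat_lit 30884442351) (nat_lit 76) (nat_lit 30655785241) (nat_lit 1) (nat_lit 4) (nat_lit 2) (nat_lit 5) (nat_lit 2) (nat_lit 4) (nat_lit 389) (nat_lit 320) (nat_lit 311)) (XT.nd (nat_lit 78) (nat_lit 0) (nat_lit 0) (XT.lf (nat_lit 0) (nat_lit 684630692776) (nat_lit 76) (nat_lit 33255054304) (nat_lit 76) (nat_lit 33014551957) (nat_lit 1) (nat_lit 4) (nat_lit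 2) (nat_lit 5) (nat_lit 2) (nat_lit 4) (nat_lit 390) (nat_lit 320) (nat_lit 310)) (XT.lf (nat_lit 0) (nat_lit 791338230224) (nat_lit 76) (nat_lit 36081478266) (nat_lit 76) (nat_lit 35830675713) (nat_lit 1) (nat_lit 4) (nat_lit 2) (nat_lit 5) (nat_lit 2) (nat_lit 4) (nat_lit 391) (nat_lit 320) (nat_lit 309))))))))
noncomputable def xc16 : XT := (XT.nd (nat_lit 1716) (nat_lit 0) (nat_lit 0) (XT.nd (nat_lit 858) (nat_lit 0) (nat_lit 0) (XT.nd (nat_lit 390) (nat_lit 0) (nat_lit 0) (XT.nd (nat_lit 156) (nat_lit 0) (nat_lit 0) (XT.nd (nat_lit 78) (nat_lit 0) (nat_lit 0) (XT.lf (nat_lit 0) (nat_lit 913886461448) (nat_lit 76) (nat_lit 39419013836) (nat_lit 76) (nat_lit 39159254582) (nat_lit 1) (nat_lit 4) (nat_lit 2) (nat_lit 5) (nat_lit 2) (nat_lit 4) (nat_lit 392) (nat_lit 320) (nat_lit 308)) (XT.lf (nat_lit 0) (nat_lit 1054673069234) (nat_lit 76) (nat_lit 43332960623) (nat_lit 76) (nat_lit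 43065412934) (nat_lit 1) (nat_lit 4) (nat_lit 2) (nat_lit 5) (nat_lit 2) (nat_lit 4) (nat_lit 393) (nat_lit 320) (nat_lit 307))) (XT.nd (nat_lit 78) (nat_lit 0) (nat_lit 0) (XT.lf (nat_lit 0) (nat_lit 1216452574168) (nat_lit 76) (nat_lit 47899895846) (nat_lit 76) (nat_lit 47625575605) (nat_lit 1) (nat_lit 4) (nat_lit 2) (nat_lit 5) (nat_lit 2) (nat_lit 4) (nat_lit 394) (nat_lit 320) (nat_lit 306)) (XT.nd (nat_lit 78) (nat_lit 0) (nat_lit 0) (XT.lf (nat_lit 0) (nat_lit 1402390227433) (nat_lit 76) (nat_lit 53209172588) (nat_lit 76) (nat_lit 52928963170) (nat_lit 1) (nat_lit 4) (nat_lit 2) (nat_lit 5) (nat_lit 2) (nat_lit 4) (nat_lit 395) (nat_lit 320) (nat_lit 305)) (XT.lf (nat_lit 0) (nat_lit 1616123939638) (nat_lit 76) (nat_lit 59364667999) (nat_lit 76) (nat_lit 59079337559) (nat_lit 1) (nat_lit 4) (nat_lit 2) (nat_lit 5) (nat_lit 2) (nat_lit 4) (nat_lit 396) (nat_lit 320) (nat_lit 304)))))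 (XT.nd (nat_lit 234) (nat_lit 0) (nat_lit 0) (XT.nd (nat_lit 78) (nat_lit 0) (nat_lit 0) (XT.lf (nat_lit 0) (nat_lit 1861835457325) (nat_lit 76) (nat_lit 66486815688) (nat_lit 76) (nat_lit 66197032185) (nat_lit 1) (nat_lit 4) (nat_lit 2) (nat_lit 5) (nat_lit 2) (nat_lit 4) (nat_lit 397) (nat_lit 320) (nat_lit 303)) (XT.nd (nat_lit 78) (nat_lit 0) (nat_lit 0) (XT.lf (nat_lit 0) (nat_lit 2144332179754) (nat_lit 76) (nat_lit 74714962022) (nat_lit 76) (nat_lit 74421306290) (nat_lit 1) (nat_lit 4) (nat_lit 2) (nat_lit 5) (nat_lit 2) (nat_lit 4) (nat_lit 398) (nat_lit 320) (nat_lit 302)) (XT.lf (nat_lit 0) (nat_lit 2469141216711) (nat_lit 76) (nat_lit 84210092472) (nat_lit 76) (nat_lit 83913069584) (nat_lit 1) (nat_lit 4) (nat_lit 2) (nat_lit 5) (nat_lit 2) (nat_lit 4) (nat_lit 399) (nat_lit 320) (nat_lit 301)))) (XT.nd (nat_lit 78) (nat_lit 0) (nat_lit 0) (XT.lf (nat_lit 0) (nat_lit 2842617527614)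 (nat_lit 76) (nat_lit 95157981329) (nat_lit 76) (nat_lit 94858030480) (nat_lit 1) (nat_lit 4) (nat_lit 2) (nat_lit 5) (nat_lit 2) (nat_lit 4) (nat_lit 400) (nat_lit 320) (nat_lit 300)) (XT.nd (nat_lit 78) (nat_lit 0) (nat_lit 0) (XT.lf (nat_lit 0) (nat_lit 3272068257678) (nat_lit 76) (nat_lit 107772826420) (nat_lit 76) (nat_lit 107470329518) (nat_lit 1) (nat_lit 4) (nat_lit 2) (nat_lit 5) (nat_lit 2) (nat_lit 4) (nat_lit 401) (nat_lit 320) (nat_lit 299)) (XT.lf (nat_lit 0) (nat_lit 3765895703794) (nat_lit 76) (nat_lit 122301439931) (nat_lit 76) (nat_lit 121996729069) (nat_lit 1) (nat_lit 4) (nat_lit 2) (nat_lit 5) (nat_lit 2) (nat_lit 4) (nat_lit 402) (nat_lit 320) (nat_lit 298)))))) (XT.nd (nat_lit 390) (nat_lit 0) (nat_lit 0) (XT.nd (nat_lit 156) (nat_lit 0) (nat_lit 0) (XT.nd (nat_lit 78) (nat_lit 0) (nat_lit 0) (XT.lf (nat_lit 0) (nat_lit 4333761707300) (nat_lit 76) (nat_lit 139028077343)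 (nat_lit 76) (nat_lit 138721441299) (nat_lit 1) (nat_lit 4) (nat_lit 2) (nat_lit 5) (nat_lit 2) (nat_lit 4) (nat_lit 403) (nat_lit 320) (nat_lit 297)) (XT.lf (nat_lit 0) (nat_lit 4986776690004) (nat_lit 76) (nat_lit 158279998954) (nat_lit 76) (nat_lit 157971688838) (nat_lit 1) (nat_lit 4) (nat_lit 2) (nat_lit 5) (nat_lit 2) (nat_lit 4) (nat_lit 404) (nat_lit 320) (nat_lit 296))) (XT.nd (nat_lit 78) (nat_lit 0) (nat_lit 0) (XT.lf (nat_lit 0) (nat_lit 5737717032001) (nat_lit 76) (nat_lit 180433872795) (nat_lit 76) (nat_lit 180124106965) (nat_lit 1) (nat_lit 4) (nat_lit 2) (nat_lit 5) (nat_lit 2) (nat_lit 4) (nat_lit 405) (nat_lit 320) (nat_lit 295)) (XT.nd (nat_lit 78) (nat_lit 0) (nat_lit 0) (XT.lf (nat_lit 0) (nat_lit 6601275044331) (nat_lit 76) (nat_lit 205923144224) (nat_lit 76) (nat_lit 205612112556) (nat_lit 1) (nat_lit 4) (nat_lit 2) (nat_lit 5) (nat_lit 2) (nat_lit 4) (nat_lit 406)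 (nat_lit 320) (nat_lit 294)) (XT.lf (nat_lit 0) (nat_lit 7594346427235) (nat_lit 76) (nat_lit 235246516378) (nat_lit 76) (nat_lit 234934383981) (nat_lit 1) (nat_lit 4) (nat_lit 2) (nat_lit 5) (nat_lit 2) (nat_lit 4) (nat_lit 407) (nat_lit 320) (nat_lit 293))))) (XT.nd (nat_lit 234) (nat_lit 0) (nat_lit 0) (XT.nd (nat_lit 78) (nat_lit 0) (nat_lit 0) (XT.lf (nat_lit 0) (nat_lit 8736360838206) (nat_lit 76) (nat_lit 268977707407) (nat_lit 76) (nat_lit 268664617855) (nat_lit 1) (nat_lit 4) (nat_lit 2) (nat_lit 5) (nat_lit 2) (nat_lit 4) (nat_lit 408) (nat_lit 320) (nat_lit 292)) (XT.nd (nat_lit 78) (nat_lit 0) (nat_lit 0) (XT.lf (nat_lit 0) (nat_lit 10049662037456) (nat_lit 76) (nat_lit 307776675398) (nat_lit 76) (nat_lit 307462753536) (nat_lit 1) (nat_lit 4) (nat_lit 2) (nat_lit 5) (nat_lit 2) (nat_lit 4) (nat_lit 409) (nat_lit 320) (nat_lit 291)) (XT.lf (nat_lit 0) (nat_lit 11559945048450)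 (nat_lit 76) (nat_lit 352402530592) (nat_lit 76) (nat_lit 352087884983) (nat_lit 1) (nat_lit 4) (nat_lit 2) (nat_lit 5) (nat_lit 2) (nat_lit 4) (nat_lit 410) (nat_lit 320) (nat_lit 290)))) (XT.nd (nat_lit 78) (nat_lit 0) (nat_lit 0) (XT.lf (nat_lit 0) (nat_lit 13296758886621) (nat_lit 76) (nat_lit 403728387549) (nat_lit 76) (nat_lit 403413112594) (nat_lit 1) (nat_lit 4) (nat_lit 2) (nat_lit 5) (nat_lit 2) (nat_lit 4) (nat_lit 411) (nat_lit 320) (nat_lit 289)) (XT.nd (nat_lit 78) (nat_lit 0) (nat_lit 0) (XT.lf (nat_lit 0) (nat_lit 15294084692281) (nat_lit 76) (nat_lit 462758447817) (nat_lit 76) (nat_lit 462442625605) (nat_lit 1) (nat_lit 4) (nat_lit 2) (nat_lit 5) (nat_lit 2) (nat_lit 4) (nat_lit 412) (nat_lit 320) (nat_lit 288)) (XT.lf (nat_lit 0) (nat_lit 17591000579018) (nat_lit 76) (nat_lit 530647647359) (nat_lit 76) (nat_lit 530331349271) (nat_lit 1) (nat_lit 4) (nat_lit 2) (nat_lit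 5) (nat_lit 2) (nat_lit 4) (nat_lit 413) (nat_lit 320) (nat_lit 287))))))) (XT.nd (nat_lit 858) (nat_lit 0) (nat_lit 0) (XT.nd (nat_lit 390) (nat_lit 0) (nat_lit 0) (XT.nd (nat_lit 156) (nat_lit 0) (nat_lit 0) (XT.nd (nat_lit 78) (nat_lit 0) (nat_lit 0) (XT.lf (nat_lit 0) (nat_lit 20232446205486) (nat_lit 76) (nat_lit 608724253121) (nat_lit 76) (nat_lit 608407541229) (nat_lit 1) (nat_lit 4) (nat_lit 2) (nat_lit 5) (nat_lit 2) (nat_lit 4) (nat_lit 414) (nat_lit 320) (nat_lit 286)) (XT.lf (nat_lit 0) (nat_lit 23270102029594) (nat_lit 76) (nat_lit 698515850869) (nat_lit 76) (nat_lit 698198779146) (nat_lit 1) (nat_lit 4) (nat_lit 2) (nat_lit 5) (nat_lit 2) (nat_lit 4) (nat_lit 415) (nat_lit 320) (nat_lit 285))) (XT.nd (nat_lit 78) (nat_lit 0) (nat_lit 0) (XT.lf (nat_lit 0) (nat_lit 26763400447901) (nat_lit 76) (nat_lit 801779232732) (nat_lit 76) (nat_lit 801461848114) (nat_lit 1) (nat_lit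 4) (nat_lit 2) (nat_lit 5) (nat_lit 2) (nat_lit 4) (nat_lit 416) (nat_lit 320) (nat_lit 284)) (XT.nd (nat_lit 78) (nat_lit 0) (nat_lit 0) (XT.lf (nat_lit 0) (nat_lit 30780688603373) (nat_lit 76) (nat_lit 920534769226) (nat_lit 76) (nat_lit 920217112524) (nat_lit 1) (nat_lit 4) (nat_lit 2) (nat_lit 5) (nat_lit 2) (nat_lit 4) (nat_lit 417) (nat_lit 320) (nat_lit 283)) (XT.lf (nat_lit 0) (nat_lit 35400565612097) (nat_lit 76) (nat_lit 1057105938238) (nat_lit 76) (nat_lit 1056788044942) (nat_lit 1) (nat_lit 4) (nat_lit 2) (nat_lit 5) (nat_lit 2) (nat_lit 4) (nat_lit 418) (nat_lit 320) (nat_lit 282))))) (XT.nd (nat_lit 234) (nat_lit 0) (nat_lit 0) (XT.nd (nat_lit 78) (nat_lit 0) (nat_lit 0) (XT.lf (nat_lit 0) (nat_lit 40713420372069) (nat_lit 76) (nat_lit 1214164784380) (nat_lit 76) (nat_lit 1213846685349) (nat_lit 1) (nat_lit 4) (nat_lit 2) (nat_lit 5) (nat_lit 2) (nat_lit 4) (nat_lit 419)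 (nat_lit 320) (nat_lit 281)) (XT.nd (nat_lit 78) (nat_lit 0) (nat_lit 0) (XT.lf (nat_lit 0) (nat_lit 46823200041635) (nat_lit 76) (nat_lit 1394784198118) (nat_lit 76) (nat_lit 1394465920189) (nat_lit 1) (nat_lit 4) (nat_lit 2) (nat_lit 5) (nat_lit 2) (nat_lit 4) (nat_lit 420) (nat_lit 320) (nat_lit 280)) (XT.lf (nat_lit 0) (nat_lit 53849443788245) (nat_lit 76) (nat_lit 1602498037549) (nat_lit 76) (nat_lit 1602179604055) (nat_lit 1) (nat_lit 4) (nat_lit 2) (nat_lit 5) (nat_lit 2) (nat_lit 4) (nat_lit 421) (nat_lit 320) (nat_lit 279)))) (XT.nd (nat_lit 78) (nat_lit 0) (nat_lit 0) (XT.lf (nat_lit 0) (nat_lit 61929621598245) (nat_lit 76) (nat_lit 1841370269096) (nat_lit 76) (nat_lit 1841051700328) (nat_lit 1) (nat_lit 4) (nat_lit 2) (nat_lit 5) (nat_lit 2) (nat_lit 4) (nat_lit 422) (nat_lit 320) (nat_lit 278)) (XT.nd (nat_lit 78) (nat_lit 0) (nat_lit 0) (XT.lf (nat_lit 0) (nat_lit 71221823907048)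 (nat_lit 76) (nat_lit 2116074479897) (nat_lit 76) (nat_lit 2115755793500) (nat_lit 1) (nat_lit 4) (nat_lit 2) (nat_lit 5) (nat_lit 2) (nat_lit 4) (nat_lit 423) (nat_lit 320) (nat_lit 277)) (XT.lf (nat_lit 0) (nat_lit 81907854672869) (nat_lit 76) (nat_lit 2431985317556) (nat_lit 76) (nat_lit 2431666528873) (nat_lit 1) (nat_lit 4) (nat_lit 2) (nat_lit 5) (nat_lit 2) (nat_lit 4) (nat_lit 424) (nat_lit 320) (nat_lit 276)))))) (XT.nd (nat_lit 49530) (nat_lit 0) (nat_lit 0) (XT.nd (nat_lit 234) (nat_lit 0) (nat_lit 0) (XT.nd (nat_lit 78) (nat_lit 0) (nat_lit 0) (XT.lf (nat_lit 0) (nat_lit 94196788410692) (nat_lit 76) (nat_lit 2795283646287) (nat_lit 76) (nat_lit 2794964768659) (nat_lit 1) (nat_lit 4) (nat_lit 2) (nat_lit 5) (nat_lit 2) (nat_lit 4) (nat_lit 425) (nat_lit 320) (nat_lit 275)) (XT.nd (nat_lit 78) (nat_lit 0) (nat_lit 0) (XT.lf (nat_lit 0) (nat_lit 108329060780605) (nat_lit 76)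 (nat_lit 3213077476870) (nat_lit 76) (nat_lit 3212758521899) (nat_lit 1) (nat_lit 4) (nat_lit 2) (nat_lit 5) (nat_lit 2) (nat_lit 4) (nat_lit 426) (nat_lit 320) (nat_lit 274)) (XT.lf (nat_lit 0) (nat_lit 124581172763758) (nat_lit 76) (nat_lit 3693541036426) (nat_lit 76) (nat_lit 3693222014200) (nat_lit 1) (nat_lit 4) (nat_lit 2) (nat_lit 5) (nat_lit 2) (nat_lit 4) (nat_lit 427) (nat_lit 320) (nat_lit 273)))) (XT.nd (nat_lit 78) (nat_lit 0) (nat_lit 0) (XT.lf (nat_lit 0) (nat_lit 143271100464170) (nat_lit 76) (nat_lit 4246074698944) (nat_lit 76) (nat_lit 4245755618236) (nat_lit 1) (nat_lit 4) (nat_lit 2) (nat_lit 5) (nat_lit 2) (nat_lit 4) (nat_lit 428) (nat_lit 320) (nat_lit 272)) (XT.nd (nat_lit 49140) (nat_lit 0) (nat_lit 0) (XT.lf (nat_lit 0) (nat_lit 164764516380327) (nat_lit 76) (nat_lit 4881488905650) (nat_lit 76) (nat_lit 4881169774087) (nat_lit 1) (nat_lit 4) (nat_lit 2) (nat_lit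 5) (nat_lit 2) (nat_lit 4) (nat_lit 429) (nat_lit 320) (nat_lit 271)) (XT.lf (nat_lit 0) (nat_lit 45071984878) (nat_lit 76) (nat_lit 13222540499) (nat_lit 76) (nat_lit 13222540499) (nat_lit 1) (nat_lit 4) (nat_lit 2) (nat_lit 5) (nat_lit 2) (nat_lit 4) (nat_lit 378) (nat_lit 321) (nat_lit 321))))) (XT.nd (nat_lit 234) (nat_lit 0) (nat_lit 0) (XT.nd (nat_lit 78) (nat_lit 0) (nat_lit 0) (XT.lf (nat_lit 0) (nat_lit 112722693801) (nat_lit 76) (nat_lit 25585664356) (nat_lit 76) (nat_lit 25537743768) (nat_lit 1) (nat_lit 4) (nat_lit 2) (nat_lit 5) (nat_lit 2) (nat_lit 4) (nat_lit 379) (nat_lit 321) (nat_lit 320)) (XT.nd (nat_lit 78) (nat_lit 0) (nat_lit 0) (XT.lf (nat_lit 0) (nat_lit 137918549518) (nat_lit 76) (nat_lit 25002781889) (nat_lit 76) (nat_lit 24913191223) (nat_lit 1) (nat_lit 4) (nat_lit 2) (nat_lit 5) (nat_lit 2) (nat_lit 4) (nat_lit 380) (nat_lit 321) (nat_lit 319)) (XT.lf (nat_lit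 0) (nat_lit 166224499301) (nat_lit 76) (nat_lit 24685029372) (nat_lit 76) (nat_lit 24559203857) (nat_lit 1) (nat_lit 4) (nat_lit 2) (nat_lit 5) (nat_lit 2) (nat_lit 4) (nat_lit 381) (nat_lit 321) (nat_lit 318)))) (XT.nd (nat_lit 78) (nat_lit 0) (nat_lit 0) (XT.lf (nat_lit 0) (nat_lit 198194355212) (nat_lit 76) (nat_lit 24626189910) (nat_lit 76) (nat_lit 24468855830) (nat_lit 1) (nat_lit 4) (nat_lit 2) (nat_lit 5) (nat_lit 2) (nat_lit 4) (nat_lit 382) (nat_lit 321) (nat_lit 317)) (XT.nd (nat_lit 78) (nat_lit 0) (nat_lit 0) (XT.lf (nat_lit 0) (nat_lit 234453614431) (nat_lit 76) (nat_lit 24825112295) (nat_lit 76) (nat_lit 24640379463) (nat_lit 1) (nat_lit 4) (nat_lit 2) (nat_lit 5) (nat_lit 2) (nat_lit 4) (nat_lit 383) (nat_lit 321) (nat_lit 316)) (XT.lf (nat_lit 0) (nat_lit 275711697248) (nat_lit 76) (nat_lit 25285688488) (nat_lit 76) (nat_lit 25077130653) (nat_lit 1) (nat_lit 4) (nat_lit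 2) (nat_lit 5) (nat_lit 2) (nat_lit 4) (nat_lit 384) (nat_lit 321) (nat_lit 315))))))))
noncomputable def xc17 : XT := (XT.nd (nat_lit 1794) (nat_lit 0) (nat_lit 0) (XT.nd (nat_lit 858) (nat_lit 0) (nat_lit 0) (XT.nd (nat_lit 390) (nat_lit 0) (nat_lit 0) (XT.nd (nat_lit 156) (nat_lit 0) (nat_lit 0) (XT.nd (nat_lit 78) (nat_lit 0) (nat_lit 0) (XT.lf (nat_lit 0) (nat_lit 322775827021) (nat_lit 76) (nat_lit 26016929761) (nat_lit 76) (nat_lit 25787654534) (nat_lit 1) (nat_lit 4) (nat_lit 2) (nat_lit 5) (nat_lit 2) (nat_lit 4) (nat_lit 385) (nat_lit 321) (nat_lit 314)) (XT.lf (nat_lit 0) (nat_lit 376566823681) (nat_lit 76) (nat_lit 27033143009) (nat_lit 76) (nat_lit 26785852657) (nat_lit 1) (nat_lit 4) (nat_lit 2) (nat_lit 5) (nat_lit 2) (nat_lit 4) (nat_lit 386) (nat_lit 321) (nat_lit 313))) (XT.nd (nat_lit 78) (nat_lit 0) (nat_lit 0) (XT.lf (nat_lit 0) (nat_lit 438137119772) (nat_lit 76)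 (nat_lit 28354210665) (nat_lit 76) (nat_lit 28091254988) (nat_lit 1) (nat_lit 4) (nat_lit 2) (nat_lit 5) (nat_lit 2) (nat_lit 4) (nat_lit 387) (nat_lit 321) (nat_lit 312)) (XT.nd (nat_lit 78) (nat_lit 0) (nat_lit 0) (XT.lf (nat_lit 0) (nat_lit 508691351521) (nat_lit 76) (nat_lit 30005979705) (nat_lit 76) (nat_lit 29729402006) (nat_lit 1) (nat_lit 4) (nat_lit 2) (nat_lit 5) (nat_lit 2) (nat_lit 4) (nat_lit 388) (nat_lit 321) (nat_lit 311)) (XT.lf (nat_lit 0) (nat_lit 589609927811) (nat_lit 76) (nat_lit 32020767349) (nat_lit 76) (nat_lit 31732344413) (nat_lit 1) (nat_lit 4) (nat_lit 2) (nat_lit 5) (nat_lit 2) (nat_lit 4) (nat_lit 389) (nat_lit 321) (nat_lit 310))))) (XT.nd (nat_lit 234) (nat_lit 0) (nat_lit 0) (XT.nd (nat_lit 78) (nat_lit 0) (nat_lit 0) (XT.lf (nat_lit 0) (nat_lit 682476038177) (nat_lit 76) (nat_lit 34437993356) (nat_lit 76) (nat_lit 34139270214) (nat_lit 1) (nat_lit 4)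 (nat_lit 2) (nat_lit 5) (nat_lit 2) (nat_lit 4) (nat_lit 390) (nat_lit 321) (nat_lit 309)) (XT.nd (nat_lit 78) (nat_lit 0) (nat_lit 0) (XT.lf (nat_lit 0) (nat_lit 789106628257) (nat_lit 76) (nat_lit 37304951277) (nat_lit 76) (nat_lit 36997271435) (nat_lit 1) (nat_lit 4) (nat_lit 2) (nat_lit 5) (nat_lit 2) (nat_lit 4) (nat_lit 391) (nat_lit 321) (nat_lit 308)) (XT.lf (nat_lit 0) (nat_lit 911587948727) (nat_lit 76) (nat_lit 40677733769) (nat_lit 76) (nat_lit 40362265492) (nat_lit 1) (nat_lit 4) (nat_lit 2) (nat_lit 5) (nat_lit 2) (nat_lit 4) (nat_lit 392) (nat_lit 321) (nat_lit 307)))) (XT.nd (nat_lit 78) (nat_lit 0) (nat_lit 0) (XT.lf (nat_lit 0) (nat_lit 1052316373248) (nat_lit 76) (nat_lit 44622330053) (nat_lit 76) (nat_lit 44300089223) (nat_lit 1) (nat_lit 4) (nat_lit 2) (nat_lit 5) (nat_lit 2) (nat_lit 4) (nat_lit 393) (nat_lit 321) (nat_lit 306)) (XT.nd (nat_lit 78) (nat_lit 0) (nat_lit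 0) (XT.lf (nat_lit 0) (nat_lit 1214045284038) (nat_lit 76) (nat_lit 49215917013) (nat_lit 76) (nat_lit 48887787007) (nat_lit 1) (nat_lit 4) (nat_lit 2) (nat_lit 5) (nat_lit 2) (nat_lit 4) (nat_lit 394) (nat_lit 321) (nat_lit 305)) (XT.lf (nat_lit 0) (nat_lit 1399938942397) (nat_lit 76) (nat_lit 54548369178) (nat_lit 76) (nat_lit 54215118149) (nat_lit 1) (nat_lit 4) (nat_lit 2) (nat_lit 5) (nat_lit 2) (nat_lit 4) (nat_lit 395) (nat_lit 321) (nat_lit 304)))))) (XT.nd (nat_lit 468) (nat_lit 0) (nat_lit 0) (XT.nd (nat_lit 234) (nat_lit 0) (nat_lit 0) (XT.nd (nat_lit 78) (nat_lit 0) (nat_lit 0) (XT.lf (nat_lit 0) (nat_lit 1613634398160) (nat_lit 76) (nat_lit 60724017132) (nat_lit 76) (nat_lit 60386313040) (nat_lit 1) (nat_lit 4) (nat_lit 2) (nat_lit 5) (nat_lit 2) (nat_lit 4) (nat_lit 396) (nat_lit 321) (nat_lit 303)) (XT.nd (nat_lit 78) (nat_lit 0) (nat_lit 0) (XT.lf (nat_lit 0) (nat_lit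 1859312649377) (nat_lit 76) (nat_lit 67863688770) (nat_lit 76) (nat_lit 67522112449) (nat_lit 1) (nat_lit 4) (nat_lit 2) (nat_lit 5) (nat_lit 2) (nat_lit 4) (nat_lit 397) (nat_lit 321) (nat_lit 302)) (XT.lf (nat_lit 0) (nat_lit 2141780444440) (nat_lit 76) (nat_lit 76107073320) (nat_lit 76) (nat_lit 75762129844) (nat_lit 1) (nat_lit 4) (nat_lit 2) (nat_lit 5) (nat_lit 2) (nat_lit 4) (nat_lit 398) (nat_lit 321) (nat_lit 301)))) (XT.nd (nat_lit 78) (nat_lit 0) (nat_lit 0) (XT.lf (nat_lit 0) (nat_lit 2466564327166) (nat_lit 76) (nat_lit 85615454393) (nat_lit 76) (nat_lit 85267582956) (nat_lit 1) (nat_lit 4) (nat_lit 2) (nat_lit 5) (nat_lit 2) (nat_lit 4) (nat_lit 399) (nat_lit 321) (nat_lit 300)) (XT.nd (nat_lit 78) (nat_lit 0) (nat_lit 0) (XT.lf (nat_lit 0) (nat_lit 2840018764825) (nat_lit 76) (nat_lit 96574865532) (nat_lit 76) (nat_lit 96224448041) (nat_lit 1) (nat_lit 4) (nat_lit 2) (nat_lit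 5) (nat_lit 2) (nat_lit 4) (nat_lit 400) (nat_lit 321) (nat_lit 299)) (XT.lf (nat_lit 0) (nat_lit 3269450474676) (nat_lit 76) (nat_lit 109199729998) (nat_lit 76) (nat_lit 108847098547) (nat_lit 1) (nat_lit 4) (nat_lit 2) (nat_lit 5) (nat_lit 2) (nat_lit 4) (nat_lit 401) (nat_lit 321) (nat_lit 298))))) (XT.nd (nat_lit 234) (nat_lit 0) (nat_lit 0) (XT.nd (nat_lit 78) (nat_lit 0) (nat_lit 0) (XT.lf (nat_lit 0) (nat_lit 3763261381477) (nat_lit 76) (nat_lit 123737056009) (nat_lit 76) (nat_lit 123382499376) (nat_lit 1) (nat_lit 4) (nat_lit 2) (nat_lit 5) (nat_lit 2) (nat_lit 4) (nat_lit 402) (nat_lit 321) (nat_lit 297)) (XT.nd (nat_lit 78) (nat_lit 0) (nat_lit 0) (XT.lf (nat_lit 0) (nat_lit 4331113002970) (nat_lit 76) (nat_lit 140471269508) (nat_lit 76) (nat_lit 140115038804) (nat_lit 1) (nat_lit 4) (nat_lit 2) (nat_lit 5) (nat_lit 2) (nat_lit 4) (nat_lit 403) (nat_lit 321) (nat_lit 296)) (XT.lf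 (nat_lit 0) (nat_lit 4984115479575) (nat_lit 76) (nat_lit 159729779020) (nat_lit 76) (nat_lit 159372092602) (nat_lit 1) (nat_lit 4) (nat_lit 2) (nat_lit 5) (nat_lit 2) (nat_lit 4) (nat_lit 404) (nat_lit 321) (nat_lit 295)))) (XT.nd (nat_lit 78) (nat_lit 0) (nat_lit 0) (XT.lf (nat_lit 0) (nat_lit 5735044946704) (nat_lit 76) (nat_lit 181889381472) (nat_lit 76) (nat_lit 181530429215) (nat_lit 1) (nat_lit 4) (nat_lit 2) (nat_lit 5) (nat_lit 2) (nat_lit 4) (nat_lit 405) (nat_lit 321) (nat_lit 294)) (XT.nd (nat_lit 78) (nat_lit 0) (nat_lit 0) (XT.lf (nat_lit 0) (nat_lit 6598593502627) (nat_lit 76) (nat_lit 207383634301) (nat_lit 76) (nat_lit 207023581315) (nat_lit 1) (nat_lit 4) (nat_lit 2) (nat_lit 5) (nat_lit 2) (nat_lit 4) (nat_lit 406) (nat_lit 321) (nat_lit 293)) (XT.lf (nat_lit 0) (nat_lit 7591656662568) (nat_lit 76) (nat_lit 236711338107) (nat_lit 76) (nat_lit 236350327966) (nat_lit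 1) (nat_lit 4) (nat_lit 2) (nat_lit 5) (nat_lit 2) (nat_lit 4) (nat_lit 407) (nat_lit 321) (nat_lit 292))))))) (XT.nd (nat_lit 858) (nat_lit 0) (nat_lit 0) (XT.nd (nat_lit 390) (nat_lit 0) (nat_lit 0) (XT.nd (nat_lit 156) (nat_lit 0) (nat_lit 0) (XT.nd (nat_lit 78) (nat_lit 0) (nat_lit 0) (XT.lf (nat_lit 0) (nat_lit 8733663923136) (nat_lit 76) (nat_lit 270446295791) (nat_lit 76) (nat_lit 270084453340) (nat_lit 1) (nat_lit 4) (nat_lit 2) (nat_lit 5) (nat_lit 2) (nat_lit 4) (nat_lit 408) (nat_lit 321) (nat_lit 291)) (XT.lf (nat_lit 0) (nat_lit 10046958904645) (nat_lit 76) (nat_lit 309248539133) (nat_lit 76) (nat_lit 308885972934) (nat_lit 1) (nat_lit 4) (nat_lit 2) (nat_lit 5) (nat_lit 2) (nat_lit 4) (nat_lit 409) (nat_lit 321) (nat_lit 290))) (XT.nd (nat_lit 78) (nat_lit 0) (nat_lit 0) (XT.lf (nat_lit 0) (nat_lit 11557236508908) (nat_lit 76) (nat_lit 353877242459) (nat_lit 76) (nat_lit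 353514046915) (nat_lit 1) (nat_lit 4) (nat_lit 2) (nat_lit 5) (nat_lit 2) (nat_lit 4) (nat_lit 410) (nat_lit 321) (nat_lit 289)) (XT.nd (nat_lit 78) (nat_lit 0) (nat_lit 0) (XT.lf (nat_lit 0) (nat_lit 13294045645574) (nat_lit 76) (nat_lit 405205576052) (nat_lit 76) (nat_lit 404841833251) (nat_lit 1) (nat_lit 4) (nat_lit 2) (nat_lit 5) (nat_lit 2) (nat_lit 4) (nat_lit 411) (nat_lit 321) (nat_lit 288)) (XT.lf (nat_lit 0) (nat_lit 15291367362967) (nat_lit 76) (nat_lit 464237789917) (nat_lit 76) (nat_lit 463873571241) (nat_lit 1) (nat_lit 4) (nat_lit 2) (nat_lit 5) (nat_lit 2) (nat_lit 4) (nat_lit 412) (nat_lit 321) (nat_lit 287))))) (XT.nd (nat_lit 234) (nat_lit 0) (nat_lit 0) (XT.nd (nat_lit 78) (nat_lit 0) (nat_lit 0) (XT.lf (nat_lit 0) (nat_lit 17588279694690) (nat_lit 76) (nat_lit 532128862151) (nat_lit 76) (nat_lit 531764229670) (nat_lit 1) (nat_lit 4) (nat_lit 2) (nat_lit 5) (nat_lit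 2) (nat_lit 4) (nat_lit 413) (nat_lit 321) (nat_lit 286)) (XT.nd (nat_lit 78) (nat_lit 0) (nat_lit 0) (XT.lf (nat_lit 0) (nat_lit 20229722229842) (nat_lit 76) (nat_lit 610207096342) (nat_lit 76) (nat_lit 609842104031) (nat_lit 1) (nat_lit 4) (nat_lit 2) (nat_lit 5) (nat_lit 2) (nat_lit 4) (nat_lit 414) (nat_lit 321) (nat_lit 285)) (XT.lf (nat_lit 0) (nat_lit 23267375365849) (nat_lit 76) (nat_lit 700000110115) (nat_lit 76) (nat_lit 699634804907) (nat_lit 1) (nat_lit 4) (nat_lit 2) (nat_lit 5) (nat_lit 2) (nat_lit 4) (nat_lit 415) (nat_lit 321) (nat_lit 284)))) (XT.nd (nat_lit 78) (nat_lit 0) (nat_lit 0) (XT.lf (nat_lit 0) (nat_lit 26760671446677) (nat_lit 76) (nat_lit 803264723304) (nat_lit 76) (nat_lit 802899146014) (nat_lit 1) (nat_lit 4) (nat_lit 2) (nat_lit 5) (nat_lit 2) (nat_lit 4) (nat_lit 416) (nat_lit 321) (nat_lit 283)) (XT.nd (nat_lit 78) (nat_lit 0) (nat_lit 0) (XT.lf (nat_lit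 0) (nat_lit 30777957569559) (nat_lit 76) (nat_lit 922021330516) (nat_lit 76) (nat_lit 921655516631) (nat_lit 1) (nat_lit 4) (nat_lit 2) (nat_lit 5) (nat_lit 2) (nat_lit 4) (nat_lit 417) (nat_lit 321) (nat_lit 282)) (XT.lf (nat_lit 0) (nat_lit 35397832810813) (nat_lit 76) (nat_lit 1058593430587) (nat_lit 76) (nat_lit 1058227410968) (nat_lit 1) (nat_lit 4) (nat_lit 2) (nat_lit 5) (nat_lit 2) (nat_lit 4) (nat_lit 418) (nat_lit 321) (nat_lit 281)))))) (XT.nd (nat_lit 468) (nat_lit 0) (nat_lit 0) (XT.nd (nat_lit 234) (nat_lit 0) (nat_lit 0) (XT.nd (nat_lit 78) (nat_lit 0) (nat_lit 0) (XT.lf (nat_lit 0) (nat_lit 40710686033854) (nat_lit 76) (nat_lit 1215653086345) (nat_lit 76) (nat_lit 1215286887827) (nat_lit 1) (nat_lit 4) (nat_lit 2) (nat_lit 5) (nat_lit 2) (nat_lit 4) (nat_lit 419) (nat_lit 321) (nat_lit 280)) (XT.nd (nat_lit 78) (nat_lit 0) (nat_lit 0) (XT.lf (nat_lit 0) (nat_lit 46820464366959)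 (nat_lit 76) (nat_lit 1396273204099) (nat_lit 76) (nat_lit 1395906850016) (nat_lit 1) (nat_lit 4) (nat_lit 2) (nat_lit 5) (nat_lit 2) (nat_lit 4) (nat_lit 420) (nat_lit 321) (nat_lit 279)) (XT.lf (nat_lit 0) (nat_lit 53846706951429) (nat_lit 76) (nat_lit 1603987655716) (nat_lit 76) (nat_lit 1603621166360) (nat_lit 1) (nat_lit 4) (nat_lit 2) (nat_lit 5) (nat_lit 2) (nat_lit 4) (nat_lit 421) (nat_lit 321) (nat_lit 278)))) (XT.nd (nat_lit 78) (nat_lit 0) (nat_lit 0) (XT.lf (nat_lit 0) (nat_lit 61926883750872) (nat_lit 76) (nat_lit 1842860419599) (nat_lit 76) (nat_lit 1842493812613) (nat_lit 1) (nat_lit 4) (nat_lit 2) (nat_lit 5) (nat_lit 2) (nat_lit 4) (nat_lit 422) (nat_lit 321) (nat_lit 277)) (XT.nd (nat_lit 78) (nat_lit 0) (nat_lit 0) (XT.lf (nat_lit 0) (nat_lit 71219085180929) (nat_lit 76) (nat_lit 2117565093301) (nat_lit 76) (nat_lit 2117198384030) (nat_lit 1) (nat_lit 4) (nat_lit 2)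 (nat_lit 5) (nat_lit 2) (nat_lit 4) (nat_lit 423) (nat_lit 321) (nat_lit 276)) (XT.lf (nat_lit 0) (nat_lit 81905115182624) (nat_lit 76) (nat_lit 2433476333483) (nat_lit 76) (nat_lit 2433109535266) (nat_lit 1) (nat_lit 4) (nat_lit 2) (nat_lit 5) (nat_lit 2) (nat_lit 4) (nat_lit 424) (nat_lit 321) (nat_lit 275))))) (XT.nd (nat_lit 234) (nat_lit 0) (nat_lit 0) (XT.nd (nat_lit 78) (nat_lit 0) (nat_lit 0) (XT.lf (nat_lit 0) (nat_lit 94194048255990) (nat_lit 76) (nat_lit 2796775012234) (nat_lit 76) (nat_lit 2796408136674) (nat_lit 1) (nat_lit 4) (nat_lit 2) (nat_lit 5) (nat_lit 2) (nat_lit 4) (nat_lit 425) (nat_lit 321) (nat_lit 274)) (XT.nd (nat_lit 78) (nat_lit 0) (nat_lit 0) (XT.lf (nat_lit 0) (nat_lit 108326320048114) (nat_lit 76) (nat_lit 3214569147182) (nat_lit 76) (nat_lit 3214202204368) (nat_lit 1) (nat_lit 4) (nat_lit 2) (nat_lit 5) (nat_lit 2) (nat_lit 4) (nat_lit 426) (nat_lit 321)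 (nat_lit 273)) (XT.lf (nat_lit 0) (nat_lit 124578431528842) (nat_lit 76) (nat_lit 3695032971402) (nat_lit 76) (nat_lit 3694665970106) (nat_lit 1) (nat_lit 4) (nat_lit 2) (nat_lit 5) (nat_lit 2) (nat_lit 4) (nat_lit 427) (nat_lit 321) (nat_lit 272)))) (XT.nd (nat_lit 78) (nat_lit 0) (nat_lit 0) (XT.lf (nat_lit 0) (nat_lit 143268358792362) (nat_lit 76) (nat_lit 4247566864065) (nat_lit 76) (nat_lit 4247199811914) (nat_lit 1) (nat_lit 4) (nat_lit 2) (nat_lit 5) (nat_lit 2) (nat_lit 4) (nat_lit 428) (nat_lit 321) (nat_lit 271)) (XT.nd (nat_lit 48984) (nat_lit 0) (nat_lit 0) (XT.lf (nat_lit 0) (nat_lit 164761774328614) (nat_lit 76) (nat_lit 4882981270895) (nat_lit 76) (nat_lit 4882614174523) (nat_lit 1) (nat_lit 4) (nat_lit 2) (nat_lit 5) (nat_lit 2) (nat_lit 4) (nat_lit 429) (nat_lit 321) (nat_lit 270)) (XT.lf (nat_lit 0) (nat_lit 25793444291) (nat_lit 76) (nat_lit 14436113379) (nat_lit 76)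 (nat_lit 14436113379) (nat_lit 1) (nat_lit 4) (nat_lit 2) (nat_lit 5) (nat_lit 2) (nat_lit 4) (nat_lit 376) (nat_lit 322) (nat_lit 322))))))))
noncomputable def xc18 : XT := (XT.nd (nat_lit 1794) (nat_lit 0) (nat_lit 0) (XT.nd (nat_lit 858) (nat_lit 0) (nat_lit 0) (XT.nd (nat_lit 390) (nat_lit 0) (nat_lit 0) (XT.nd (nat_lit 156) (nat_lit 0) (nat_lit 0) (XT.nd (nat_lit 78) (nat_lit 0) (nat_lit 0) (XT.lf (nat_lit 0) (nat_lit 69740619738) (nat_lit 76) (nat_lit 27652955163) (nat_lit 76) (nat_lit 27597846486) (nat_lit 1) (nat_lit 4) (nat_lit 2) (nat_lit 5) (nat_lit 2) (nat_lit 4) (nat_lit 377) (nat_lit 322) (nat_lit 321)) (XT.lf (nat_lit 0) (nat_lit 89732282093) (nat_lit 76) (nat_lit 26717056498) (nat_lit 76) (nat_lit 26614027232) (nat_lit 1) (nat_lit 4) (nat_lit 2) (nat_lit 5) (nat_lit 2) (nat_lit 4) (nat_lit 378) (nat_lit 322) (nat_lit 320))) (XT.nd (nat_lit 78) (nat_lit 0) (nat_lit 0) (XT.lf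 (nat_lit 0) (nat_lit 111953016866) (nat_lit 76) (nat_lit 26046219703) (nat_lit 76) (nat_lit 25901520360) (nat_lit 1) (nat_lit 4) (nat_lit 2) (nat_lit 5) (nat_lit 2) (nat_lit 4) (nat_lit 379) (nat_lit 322) (nat_lit 319)) (XT.nd (nat_lit 78) (nat_lit 0) (nat_lit 0) (XT.lf (nat_lit 0) (nat_lit 136837577564) (nat_lit 76) (nat_lit 25627319710) (nat_lit 76) (nat_lit 25446385518) (nat_lit 1) (nat_lit 4) (nat_lit 2) (nat_lit 5) (nat_lit 2) (nat_lit 4) (nat_lit 380) (nat_lit 322) (nat_lit 318)) (XT.lf (nat_lit 0) (nat_lit 164872836026) (nat_lit 76) (nat_lit 25452160651) (nat_lit 76) (nat_lit 25239717893) (nat_lit 1) (nat_lit 4) (nat_lit 2) (nat_lit 5) (nat_lit 2) (nat_lit 4) (nat_lit 381) (nat_lit 322) (nat_lit 317))))) (XT.nd (nat_lit 234) (nat_lit 0) (nat_lit 0) (XT.nd (nat_lit 78) (nat_lit 0) (nat_lit 0) (XT.lf (nat_lit 0) (nat_lit 196607308180) (nat_lit 76) (nat_lit 25517315499) (nat_lit 76)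 (nat_lit 25277473989) (nat_lit 1) (nat_lit 4) (nat_lit 2) (nat_lit 5) (nat_lit 2) (nat_lit 4) (nat_lit 382) (nat_lit 322) (nat_lit 316)) (XT.nd (nat_lit 78) (nat_lit 0) (nat_lit 0) (XT.lf (nat_lit 0) (nat_lit 232661885871) (nat_lit 76) (nat_lit 25824059023) (nat_lit 76) (nat_lit 25560392512) (nat_lit 1) (nat_lit 4) (nat_lit 2) (nat_lit 5) (nat_lit 2) (nat_lit 4) (nat_lit 383) (nat_lit 322) (nat_lit 315)) (XT.lf (nat_lit 0) (nat_lit 273741984750) (nat_lit 76) (nat_lit 26378392728) (nat_lit 76) (nat_lit 26094008824) (nat_lit 1) (nat_lit 4) (nat_lit 2) (nat_lit 5) (nat_lit 2) (nat_lit 4) (nat_lit 384) (nat_lit 322) (nat_lit 314)))) (XT.nd (nat_lit 78) (nat_lit 0) (nat_lit 0) (XT.lf (nat_lit 0) (nat_lit 320651345882) (nat_lit 76) (nat_lit 27191162273) (nat_lit 76) (nat_lit 26888763244) (nat_lit 1) (nat_lit 4) (nat_lit 2) (nat_lit 5) (nat_lit 2) (nat_lit 4) (nat_lit 385) (nat_lit 322) (nat_lit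 313)) (XT.nd (nat_lit 78) (nat_lit 0) (nat_lit 0) (XT.lf (nat_lit 0) (nat_lit 374307761115) (nat_lit 76) (nat_lit 28278269670) (nat_lit 76) (nat_lit 27960205316) (nat_lit 1) (nat_lit 4) (nat_lit 2) (nat_lit 5) (nat_lit 2) (nat_lit 4) (nat_lit 386) (nat_lit 322) (nat_lit 312)) (XT.lf (nat_lit 0) (nat_lit 435761029878) (nat_lit 76) (nat_lit 29660984412) (nat_lit 76) (nat_lit 29329298036) (nat_lit 1) (nat_lit 4) (nat_lit 2) (nat_lit 5) (nat_lit 2) (nat_lit 4) (nat_lit 387) (nat_lit 322) (nat_lit 311)))))) (XT.nd (nat_lit 468) (nat_lit 0) (nat_lit 0) (XT.nd (nat_lit 234) (nat_lit 0) (nat_lit 0) (XT.nd (nat_lit 78) (nat_lit 0) (nat_lit 0) (XT.lf (nat_lit 0) (nat_lit 506213498733) (nat_lit 76) (nat_lit 31366359614) (nat_lit 76) (nat_lit 31022828001) (nat_lit 1) (nat_lit 4) (nat_lit 2) (nat_lit 5) (nat_lit 2) (nat_lit 4) (nat_lit 388) (nat_lit 322) (nat_lit 310)) (XT.nd (nat_lit 78) (nat_lit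 0) (nat_lit 0) (XT.lf (nat_lit 0) (nat_lit 587043585549) (nat_lit 76) (nat_lit 33427761312) (nat_lit 76) (nat_lit 33073929494) (nat_lit 1) (nat_lit 4) (nat_lit 2) (nat_lit 5) (nat_lit 2) (nat_lit 4) (nat_lit 389) (nat_lit 322) (nat_lit 309)) (XT.lf (nat_lit 0) (nat_lit 679832748548) (nat_lit 76) (nat_lit 35885521279) (nat_lit 76) (nat_lit 35522732760) (nat_lit 1) (nat_lit 4) (nat_lit 2) (nat_lit 5) (nat_lit 2) (nat_lit 4) (nat_lit 390) (nat_lit 322) (nat_lit 308)))) (XT.nd (nat_lit 78) (nat_lit 0) (nat_lit 0) (XT.lf (nat_lit 0) (nat_lit 786396427873) (nat_lit 76) (nat_lit 38787726122) (nat_lit 76) (nat_lit 38417149168) (nat_lit 1) (nat_lit 4) (nat_lit 2) (nat_lit 5) (nat_lit 2) (nat_lit 4) (nat_lit 391) (nat_lit 322) (nat_lit 307)) (XT.nd (nat_lit 78) (nat_lit 0) (nat_lit 0) (XT.lf (nat_lit 0) (nat_lit 908819565078) (nat_lit 76) (nat_lit 42191158111) (nat_lit 76) (nat_lit 41813808604)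 (nat_lit 1) (nat_lit 4) (nat_lit 2) (nat_lit 5) (nat_lit 2) (nat_lit 4) (nat_lit 392) (nat_lit 322) (nat_lit 306)) (XT.lf (nat_lit 0) (nat_lit 1049497395455) (nat_lit 76) (nat_lit 46162406132) (nat_lit 76) (nat_lit 45779167449) (nat_lit 1) (nat_lit 4) (nat_lit 2) (nat_lit 5) (nat_lit 2) (nat_lit 4) (nat_lit 393) (nat_lit 322) (nat_lit 305))))) (XT.nd (nat_lit 234) (nat_lit 0) (nat_lit 0) (XT.nd (nat_lit 78) (nat_lit 0) (nat_lit 0) (XT.lf (nat_lit 0) (nat_lit 1211182311339) (nat_lit 76) (nat_lit 50779168515) (nat_lit 76) (nat_lit 50390808810) (nat_lit 1) (nat_lit 4) (nat_lit 2) (nat_lit 5) (nat_lit 2) (nat_lit 4) (nat_lit 394) (nat_lit 322) (nat_lit 304)) (XT.nd (nat_lit 78) (nat_lit 0) (nat_lit 0) (XT.lf (nat_lit 0) (nat_lit 1397037713256) (nat_lit 76) (nat_lit 56131773221) (nat_lit 76) (nat_lit 55738960452) (nat_lit 1) (nat_lit 4) (nat_lit 2) (nat_lit 5) (nat_lit 2) (nat_lit 4) (nat_lit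 395) (nat_lit 322) (nat_lit 303)) (XT.lf (nat_lit 0) (nat_lit 1610699902549) (nat_lit 76) (nat_lit 62324945125) (nat_lit 76) (nat_lit 61928260127) (nat_lit 1) (nat_lit 4) (nat_lit 2) (nat_lit 5) (nat_lit 2) (nat_lit 4) (nat_lit 396) (nat_lit 322) (nat_lit 302)))) (XT.nd (nat_lit 78) (nat_lit 0) (nat_lit 0) (XT.lf (nat_lit 0) (nat_lit 1856349226400) (nat_lit 76) (nat_lit 69479854980) (nat_lit 76) (nat_lit 69079802827) (nat_lit 1) (nat_lit 4) (nat_lit 2) (nat_lit 5) (nat_lit 2) (nat_lit 4) (nat_lit 397) (nat_lit 322) (nat_lit 301)) (XT.nd (nat_lit 78) (nat_lit 0) (nat_lit 0) (XT.lf (nat_lit 0) (nat_lit 2138791867232) (nat_lit 76) (nat_lit 77736490154) (nat_lit 76) (nat_lit 77333510039) (nat_lit 1) (nat_lit 4) (nat_lit 2) (nat_lit 5) (nat_lit 2) (nat_lit 4) (nat_lit 398) (nat_lit 322) (nat_lit 300)) (XT.lf (nat_lit 0) (nat_lit 2463553876713) (nat_lit 76) (nat_lit 87256393508) (nat_lit 76)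 (nat_lit 86850867340) (nat_lit 1) (nat_lit 4) (nat_lit 2) (nat_lit 5) (nat_lit 2) (nat_lit 4) (nat_lit 399) (nat_lit 322) (nat_lit 299))))))) (XT.nd (nat_lit 858) (nat_lit 0) (nat_lit 0) (XT.nd (nat_lit 390) (nat_lit 0) (nat_lit 0) (XT.nd (nat_lit 156) (nat_lit 0) (nat_lit 0) (XT.nd (nat_lit 78) (nat_lit 0) (nat_lit 0) (XT.lf (nat_lit 0) (nat_lit 2836989294160) (nat_lit 76) (nat_lit 98225824022) (nat_lit 76) (nat_lit 97818083894) (nat_lit 1) (nat_lit 4) (nat_lit 2) (nat_lit 5) (nat_lit 2) (nat_lit 4) (nat_lit 400) (nat_lit 322) (nat_lit 298)) (XT.lf (nat_lit 0) (nat_lit 3266404464696) (nat_lit 76) (nat_lit 110859400988) (nat_lit 76) (nat_lit 110449735678) (nat_lit 1) (nat_lit 4) (nat_lit 2) (nat_lit 5) (nat_lit 2) (nat_lit 4) (nat_lit 401) (nat_lit 322) (nat_lit 297))) (XT.nd (nat_lit 78) (nat_lit 0) (nat_lit 0) (XT.lf (nat_lit 0) (nat_lit 3760200989484) (nat_lit 76) (nat_lit 125404303085)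 (nat_lit 76) (nat_lit 124992963704) (nat_lit 1) (nat_lit 4) (nat_lit 2) (nat_lit 5) (nat_lit 2) (nat_lit 4) (nat_lit 402) (nat_lit 322) (nat_lit 296)) (XT.nd (nat_lit 78) (nat_lit 0) (nat_lit 0) (XT.lf (nat_lit 0) (nat_lit 4328040104878) (nat_lit 76) (nat_lit 142145104486) (nat_lit 76) (nat_lit 141732309391) (nat_lit 1) (nat_lit 4) (nat_lit 2) (nat_lit 5) (nat_lit 2) (nat_lit 4) (nat_lit 403) (nat_lit 322) (nat_lit 295)) (XT.lf (nat_lit 0) (nat_lit 4981031706615) (nat_lit 76) (nat_lit 161409342609) (nat_lit 76) (nat_lit 160995281675) (nat_lit 1) (nat_lit 4) (nat_lit 2) (nat_lit 5) (nat_lit 2) (nat_lit 4) (nat_lit 404) (nat_lit 322) (nat_lit 294))))) (XT.nd (nat_lit 234) (nat_lit 0) (nat_lit 0) (XT.nd (nat_lit 78) (nat_lit 0) (nat_lit 0) (XT.lf (nat_lit 0) (nat_lit 5731951717337) (nat_lit 76) (nat_lit 183573926460) (nat_lit 76) (nat_lit 183158764797) (nat_lit 1) (nat_lit 4) (nat_lit 2)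 (nat_lit 5) (nat_lit 2) (nat_lit 4) (nat_lit 405) (nat_lit 322) (nat_lit 293)) (XT.nd (nat_lit 78) (nat_lit 0) (nat_lit 0) (XT.lf (nat_lit 0) (nat_lit 6595492050297) (nat_lit 76) (nat_lit 209072510942) (nat_lit 76) (nat_lit 208656392123) (nat_lit 1) (nat_lit 4) (nat_lit 2) (nat_lit 5) (nat_lit 2) (nat_lit 4) (nat_lit 406) (nat_lit 322) (nat_lit 292)) (XT.lf (nat_lit 0) (nat_lit 7588548059836) (nat_lit 76) (nat_lit 238403981402) (nat_lit 76) (nat_lit 237987030274) (nat_lit 1) (nat_lit 4) (nat_lit 2) (nat_lit 5) (nat_lit 2) (nat_lit 4) (nat_lit 407) (nat_lit 322) (nat_lit 291)))) (XT.nd (nat_lit 78) (nat_lit 0) (nat_lit 0) (XT.lf (nat_lit 0) (nat_lit 8730549102663) (nat_lit 76) (nat_lit 272142214437) (nat_lit 76) (nat_lit 271724539562) (nat_lit 1) (nat_lit 4) (nat_lit 2) (nat_lit 5) (nat_lit 2) (nat_lit 4) (nat_lit 408) (nat_lit 322) (nat_lit 290)) (XT.nd (nat_lit 78) (nat_lit 0) (nat_lit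 0) (XT.lf (nat_lit 0) (nat_lit 10043838677440) (nat_lit 76) (nat_lit 310947305911) (nat_lit 76) (nat_lit 310529001690) (nat_lit 1) (nat_lit 4) (nat_lit 2) (nat_lit 5) (nat_lit 2) (nat_lit 4) (nat_lit 409) (nat_lit 322) (nat_lit 289)) (XT.lf (nat_lit 0) (nat_lit 11554111580198) (nat_lit 76) (nat_lit 355578485873) (nat_lit 76) (nat_lit 355159634396) (nat_lit 1) (nat_lit 4) (nat_lit 2) (nat_lit 5) (nat_lit 2) (nat_lit 4) (nat_lit 410) (nat_lit 322) (nat_lit 288)))))) (XT.nd (nat_lit 468) (nat_lit 0) (nat_lit 0) (XT.nd (nat_lit 234) (nat_lit 0) (nat_lit 0) (XT.nd (nat_lit 78) (nat_lit 0) (nat_lit 0) (XT.lf (nat_lit 0) (nat_lit 13290916628597) (nat_lit 76) (nat_lit 406908973063) (nat_lit 76) (nat_lit 406489645710) (nat_lit 1) (nat_lit 4) (nat_lit 2) (nat_lit 5) (nat_lit 2) (nat_lit 4) (nat_lit 411) (nat_lit 322) (nat_lit 287)) (XT.nd (nat_lit 78) (nat_lit 0) (nat_lit 0) (XT.lf (nat_lit 0)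 (nat_lit 15288234790977) (nat_lit 76) (nat_lit 465943059621) (nat_lit 76) (nat_lit 465523318463) (nat_lit 1) (nat_lit 4) (nat_lit 2) (nat_lit 5) (nat_lit 2) (nat_lit 4) (nat_lit 412) (nat_lit 322) (nat_lit 286)) (XT.lf (nat_lit 0) (nat_lit 17585144031384) (nat_lit 76) (nat_lit 533835760284) (nat_lit 76) (nat_lit 533415659295) (nat_lit 1) (nat_lit 4) (nat_lit 2) (nat_lit 5) (nat_lit 2) (nat_lit 4) (nat_lit 413) (nat_lit 322) (nat_lit 285)))) (XT.nd (nat_lit 78) (nat_lit 0) (nat_lit 0) (XT.lf (nat_lit 0) (nat_lit 20226583878435) (nat_lit 76) (nat_lit 611915410499) (nat_lit 76) (nat_lit 611494996615) (nat_lit 1) (nat_lit 4) (nat_lit 2) (nat_lit 5) (nat_lit 2) (nat_lit 4) (nat_lit 414) (nat_lit 322) (nat_lit 284)) (XT.nd (nat_lit 78) (nat_lit 0) (nat_lit 0) (XT.lf (nat_lit 0) (nat_lit 23264234676962) (nat_lit 76) (nat_lit 701709655598) (nat_lit 76) (nat_lit 701288969630) (nat_lit 1) (nat_lit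 4) (nat_lit 2) (nat_lit 5) (nat_lit 2) (nat_lit 4) (nat_lit 415) (nat_lit 322) (nat_lit 283)) (XT.lf (nat_lit 0) (nat_lit 26757528725200) (nat_lit 76) (nat_lit 804975339506) (nat_lit 76) (nat_lit 804554416944) (nat_lit 1) (nat_lit 4) (nat_lit 2) (nat_lit 5) (nat_lit 2) (nat_lit 4) (nat_lit 416) (nat_lit 322) (nat_lit 282))))) (XT.nd (nat_lit 234) (nat_lit 0) (nat_lit 0) (XT.nd (nat_lit 78) (nat_lit 0) (nat_lit 0) (XT.lf (nat_lit 0) (nat_lit 30774813080612) (nat_lit 76) (nat_lit 923732877777) (nat_lit 76) (nat_lit 923311749481) (nat_lit 1) (nat_lit 4) (nat_lit 2) (nat_lit 5) (nat_lit 2) (nat_lit 4) (nat_lit 417) (nat_lit 322) (nat_lit 281)) (XT.nd (nat_lit 78) (nat_lit 0) (nat_lit 0) (XT.lf (nat_lit 0) (nat_lit 35394686784935) (nat_lit 76) (nat_lit 1060305787465) (nat_lit 76) (nat_lit 1059884480270) (nat_lit 1) (nat_lit 4) (nat_lit 2) (nat_lit 5) (nat_lit 2) (nat_lit 4) (nat_lit 418) (nat_lit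 322) (nat_lit 280)) (XT.lf (nat_lit 0) (nat_lit 40707538671515) (nat_lit 76) (nat_lit 1217366147238) (nat_lit 76) (nat_lit 1216944684478) (nat_lit 1) (nat_lit 4) (nat_lit 2) (nat_lit 5) (nat_lit 2) (nat_lit 4) (nat_lit 419) (nat_lit 322) (nat_lit 279)))) (XT.nd (nat_lit 78) (nat_lit 0) (nat_lit 0) (XT.lf (nat_lit 0) (nat_lit 46817315842480) (nat_lit 76) (nat_lit 1397986877177) (nat_lit 76) (nat_lit 1397565279144) (nat_lit 1) (nat_lit 4) (nat_lit 2) (nat_lit 5) (nat_lit 2) (nat_lit 4) (nat_lit 420) (nat_lit 322) (nat_lit 278)) (XT.nd (nat_lit 78) (nat_lit 0) (nat_lit 0) (XT.lf (nat_lit 0) (nat_lit 53843557416392) (nat_lit 76) (nat_lit 1605701861131) (nat_lit 76) (nat_lit 1605280145469) (nat_lit 1) (nat_lit 4) (nat_lit 2) (nat_lit 5) (nat_lit 2) (nat_lit 4) (nat_lit 421) (nat_lit 322) (nat_lit 277)) (XT.lf (nat_lit 0) (nat_lit 61923733337090) (nat_lit 76) (nat_lit 1844575087915) (nat_lit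 76) (nat_lit 1844153269966) (nat_lit 1) (nat_lit 4) (nat_lit 2) (nat_lit 5) (nat_lit 2) (nat_lit 4) (nat_lit 422) (nat_lit 322) (nat_lit 276))))))))
noncomputable def xc19 : XT := (XT.nd (nat_lit 50544) (nat_lit 0) (nat_lit 0) (XT.nd (nat_lit 49608) (nat_lit 0) (nat_lit 0) (XT.nd (nat_lit 390) (nat_lit 0) (nat_lit 0) (XT.nd (nat_lit 156) (nat_lit 0) (nat_lit 0) (XT.nd (nat_lit 78) (nat_lit 0) (nat_lit 0) (XT.lf (nat_lit 0) (nat_lit 71215934003022) (nat_lit 76) (nat_lit 2119280164140) (nat_lit 76) (nat_lit 2118858257247) (nat_lit 1) (nat_lit 4) (nat_lit 2) (nat_lit 5) (nat_lit 2) (nat_lit 4) (nat_lit 423) (nat_lit 322) (nat_lit 275)) (XT.lf (nat_lit 0) (nat_lit 81901963340259) (nat_lit 76) (nat_lit 2435191754341) (nat_lit 76) (nat_lit 2434769770105) (nat_lit 1) (nat_lit 4) (nat_lit 2) (nat_lit 5) (nat_lit 2) (nat_lit 4) (nat_lit 424) (nat_lit 322) (nat_lit 274))) (XT.nd (nat_lit 78) (nat_lit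 0) (nat_lit 0) (XT.lf (nat_lit 0) (nat_lit 94190895835836) (nat_lit 76) (nat_lit 2798490737457) (nat_lit 76) (nat_lit 2798068685966) (nat_lit 1) (nat_lit 4) (nat_lit 2) (nat_lit 5) (nat_lit 2) (nat_lit 4) (nat_lit 425) (nat_lit 322) (nat_lit 273)) (XT.nd (nat_lit 78) (nat_lit 0) (nat_lit 0) (XT.lf (nat_lit 0) (nat_lit 108323167125534) (nat_lit 76) (nat_lit 3216285137070) (nat_lit 76) (nat_lit 3215863027097) (nat_lit 1) (nat_lit 4) (nat_lit 2) (nat_lit 5) (nat_lit 2) (nat_lit 4) (nat_lit 426) (nat_lit 322) (nat_lit 272)) (XT.lf (nat_lit 0) (nat_lit 124575278169371) (nat_lit 76) (nat_lit 3696749191434) (nat_lit 76) (nat_lit 3696327030606) (nat_lit 1) (nat_lit 4) (nat_lit 2) (nat_lit 5) (nat_lit 2) (nat_lit 4) (nat_lit 427) (nat_lit 322) (nat_lit 271))))) (XT.nd (nat_lit 48984) (nat_lit 0) (nat_lit 0) (XT.nd (nat_lit 78) (nat_lit 0) (nat_lit 0) (XT.lf (nat_lit 0) (nat_lit 143265205052985)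 (nat_lit 76) (nat_lit 4249283284222) (nat_lit 76) (nat_lit 4248861079172) (nat_lit 1) (nat_lit 4) (nat_lit 2) (nat_lit 5) (nat_lit 2) (nat_lit 4) (nat_lit 428) (nat_lit 322) (nat_lit 270)) (XT.nd (nat_lit 48828) (nat_lit 0) (nat_lit 0) (XT.lf (nat_lit 0) (nat_lit 164758620258884) (nat_lit 76) (nat_lit 4884697865074) (nat_lit 76) (nat_lit 4884275621571) (nat_lit 1) (nat_lit 4) (nat_lit 2) (nat_lit 5) (nat_lit 2) (nat_lit 4) (nat_lit 429) (nat_lit 322) (nat_lit 269)) (XT.lf (nat_lit 0) (nat_lit 9972980164) (nat_lit 76) (nat_lit 16019444795) (nat_lit 76) (nat_lit 16019444795) (nat_lit 1) (nat_lit 4) (nat_lit 2) (nat_lit 5) (nat_lit 2) (nat_lit 4) (nat_lit 374) (nat_lit 323) (nat_lit 323)))) (XT.nd (nat_lit 78) (nat_lit 0) (nat_lit 0) (XT.lf (nat_lit 0) (nat_lit 34915906928) (nat_lit 76) (nat_lit 30462101578) (nat_lit 76) (nat_lit 30398726599) (nat_lit 1) (nat_lit 4) (nat_lit 2) (nat_lit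 5) (nat_lit 2) (nat_lit 4) (nat_lit 375) (nat_lit 323) (nat_lit 322)) (XT.nd (nat_lit 78) (nat_lit 0) (nat_lit 0) (XT.lf (nat_lit 0) (nat_lit 51113447770) (nat_lit 76) (nat_lit 29184998584) (nat_lit 76) (nat_lit 29066514929) (nat_lit 1) (nat_lit 4) (nat_lit 2) (nat_lit 5) (nat_lit 2) (nat_lit 4) (nat_lit 376) (nat_lit 323) (nat_lit 321)) (XT.lf (nat_lit 0) (nat_lit 68855491263) (nat_lit 76) (nat_lit 28182593812) (nat_lit 76) (nat_lit 28016189568) (nat_lit 1) (nat_lit 4) (nat_lit 2) (nat_lit 5) (nat_lit 2) (nat_lit 4) (nat_lit 377) (nat_lit 323) (nat_lit 320)))))) (XT.nd (nat_lit 468) (nat_lit 0) (nat_lit 0) (XT.nd (nat_lit 234) (nat_lit 0) (nat_lit 0) (XT.nd (nat_lit 78) (nat_lit 0) (nat_lit 0) (XT.lf (nat_lit 0) (nat_lit 88489164346) (nat_lit 76) (nat_lit 27435274993) (nat_lit 76) (nat_lit 27227200672) (nat_lit 1) (nat_lit 4) (nat_lit 2) (nat_lit 5) (nat_lit 2) (nat_lit 4) (nat_lit 378)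 (nat_lit 323) (nat_lit 319)) (XT.nd (nat_lit 78) (nat_lit 0) (nat_lit 0) (XT.lf (nat_lit 0) (nat_lit 110398604100) (nat_lit 76) (nat_lit 26928420673) (nat_lit 76) (nat_lit 26684111502) (nat_lit 1) (nat_lit 4) (nat_lit 2) (nat_lit 5) (nat_lit 2) (nat_lit 4) (nat_lit 379) (nat_lit 323) (nat_lit 318)) (XT.lf (nat_lit 0) (nat_lit 135012473477) (nat_lit 76) (nat_lit 26652114137) (nat_lit 76) (nat_lit 26376296401) (nat_lit 1) (nat_lit 4) (nat_lit 2) (nat_lit 5) (nat_lit 2) (nat_lit 4) (nat_lit 380) (nat_lit 323) (nat_lit 317)))) (XT.nd (nat_lit 78) (nat_lit 0) (nat_lit 0) (XT.lf (nat_lit 0) (nat_lit 162812348182) (nat_lit 76) (nat_lit 26600949388) (nat_lit 76) (nat_lit 26297732900) (nat_lit 1) (nat_lit 4) (nat_lit 2) (nat_lit 5) (nat_lit 2) (nat_lit 4) (nat_lit 381) (nat_lit 323) (nat_lit 316)) (XT.nd (nat_lit 78) (nat_lit 0) (nat_lit 0) (XT.lf (nat_lit 0) (nat_lit 194342138807) (nat_lit 76)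 (nat_lit 26773925375) (nat_lit 76) (nat_lit 26446883885) (nat_lit 1) (nat_lit 4) (nat_lit 2) (nat_lit 5) (nat_lit 2) (nat_lit 4) (nat_lit 382) (nat_lit 323) (nat_lit 315)) (XT.lf (nat_lit 0) (nat_lit 230218732561) (nat_lit 76) (nat_lit 27174426412) (nat_lit 76) (nat_lit 26826667529) (nat_lit 1) (nat_lit 4) (nat_lit 2) (nat_lit 5) (nat_lit 2) (nat_lit 4) (nat_lit 383) (nat_lit 323) (nat_lit 314))))) (XT.nd (nat_lit 234) (nat_lit 0) (nat_lit 0) (XT.nd (nat_lit 78) (nat_lit 0) (nat_lit 0) (XT.lf (nat_lit 0) (nat_lit 271144062798) (nat_lit 76) (nat_lit 27810288388) (nat_lit 76) (nat_lit 27444514381) (nat_lit 1) (nat_lit 4) (nat_lit 2) (nat_lit 5) (nat_lit 2) (nat_lit 4) (nat_lit 384) (nat_lit 323) (nat_lit 313)) (XT.nd (nat_lit 78) (nat_lit 0) (nat_lit 0) (XT.lf (nat_lit 0) (nat_lit 317918842503) (nat_lit 76) (nat_lit 28693952082) (nat_lit 76) (nat_lit 28312512750) (nat_lit 1) (nat_lit 4)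 (nat_lit 2) (nat_lit 5) (nat_lit 2) (nat_lit 4) (nat_lit 385) (nat_lit 323) (nat_lit 312)) (XT.lf (nat_lit 0) (nat_lit 371458230408) (nat_lit 76) (nat_lit 29842706566) (nat_lit 76) (nat_lit 29447645211) (nat_lit 1) (nat_lit 4) (nat_lit 2) (nat_lit 5) (nat_lit 2) (nat_lit 4) (nat_lit 386) (nat_lit 323) (nat_lit 311)))) (XT.nd (nat_lit 78) (nat_lit 0) (nat_lit 0) (XT.lf (nat_lit 0) (nat_lit 432809736277) (nat_lit 76) (nat_lit 31279027470) (nat_lit 76) (nat_lit 30872120879) (nat_lit 1) (nat_lit 4) (nat_lit 2) (nat_lit 5) (nat_lit 2) (nat_lit 4) (nat_lit 387) (nat_lit 323) (nat_lit 310)) (XT.nd (nat_lit 78) (nat_lit 0) (nat_lit 0) (XT.lf (nat_lit 0) (nat_lit 503173715659) (nat_lit 76) (nat_lit 33031016726) (nat_lit 76) (nat_lit 32613809929) (nat_lit 1) (nat_lit 4) (nat_lit 2) (nat_lit 5) (nat_lit 2) (nat_lit 4) (nat_lit 388) (nat_lit 323) (nat_lit 309)) (XT.lf (nat_lit 0) (nat_lit 583926855108)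 (nat_lit 76) (nat_lit 35132952384) (nat_lit 76) (nat_lit 34706788886) (nat_lit 1) (nat_lit 4) (nat_lit 2) (nat_lit 5) (nat_lit 2) (nat_lit 4) (nat_lit 389) (nat_lit 323) (nat_lit 308))))))) (XT.nd (nat_lit 858) (nat_lit 0) (nat_lit 0) (XT.nd (nat_lit 390) (nat_lit 0) (nat_lit 0) (XT.nd (nat_lit 156) (nat_lit 0) (nat_lit 0) (XT.nd (nat_lit 78) (nat_lit 0) (nat_lit 0) (XT.lf (nat_lit 0) (nat_lit 676649107351) (nat_lit 76) (nat_lit 37625959273) (nat_lit 76) (nat_lit 37192007340) (nat_lit 1) (nat_lit 4) (nat_lit 2) (nat_lit 5) (nat_lit 2) (nat_lit 4) (nat_lit 390) (nat_lit 323) (nat_lit 307)) (XT.lf (nat_lit 0) (nat_lit 783154603412) (nat_lit 76) (nat_lit 40558813613) (nat_lit 76) (nat_lit 40118089127) (nat_lit 1) (nat_lit 4) (nat_lit 2) (nat_lit 5) (nat_lit 2) (nat_lit 4) (nat_lit 391) (nat_lit 323) (nat_lit 306))) (XT.nd (nat_lit 78) (nat_lit 0) (nat_lit 0) (XT.lf (nat_lit 0) (nat_lit 905527146474)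 (nat_lit 76) (nat_lit 43988897338) (nat_lit 76) (nat_lit 43542283677) (nat_lit 1) (nat_lit 4) (nat_lit 2) (nat_lit 5) (nat_lit 2) (nat_lit 4) (nat_lit 392) (nat_lit 323) (nat_lit 305)) (XT.nd (nat_lit 78) (nat_lit 0) (nat_lit 0) (XT.lf (nat_lit 0) (nat_lit 1046160981944) (nat_lit 76) (nat_lit 47983320782) (nat_lit 76) (nat_lit 47531586098) (nat_lit 1) (nat_lit 4) (nat_lit 2) (nat_lit 5) (nat_lit 2) (nat_lit 4) (nat_lit 393) (nat_lit 323) (nat_lit 304)) (XT.lf (nat_lit 0) (nat_lit 1207807641386) (nat_lit 76) (nat_lit 52620235707) (nat_lit 76) (nat_lit 52164047960) (nat_lit 1) (nat_lit 4) (nat_lit 2) (nat_lit 5) (nat_lit 2) (nat_lit 4) (nat_lit 394) (nat_lit 323) (nat_lit 303))))) (XT.nd (nat_lit 234) (nat_lit 0) (nat_lit 0) (XT.nd (nat_lit 78) (nat_lit 0) (nat_lit 0) (XT.lf (nat_lit 0) (nat_lit 1393629776833) (nat_lit 76) (nat_lit 57990364363) (nat_lit 76) (nat_lit 57530304387) (nat_lit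 1) (nat_lit 4) (nat_lit 2) (nat_lit 5) (nat_lit 2) (nat_lit 4) (nat_lit 395) (nat_lit 323) (nat_lit 302)) (XT.nd (nat_lit 78) (nat_lit 0) (nat_lit 0) (XT.lf (nat_lit 0) (nat_lit 1607263038760) (nat_lit 76) (nat_lit 64198774483) (nat_lit 76) (nat_lit 63735347351) (nat_lit 1) (nat_lit 4) (nat_lit 2) (nat_lit 5) (nat_lit 2) (nat_lit 4) (nat_lit 396) (nat_lit 323) (nat_lit 301)) (XT.lf (nat_lit 0) (nat_lit 1852887208380) (nat_lit 76) (nat_lit 71366934962) (nat_lit 76) (nat_lit 70900579869) (nat_lit 1) (nat_lit 4) (nat_lit 2) (nat_lit 5) (nat_lit 2) (nat_lit 4) (nat_lit 397) (nat_lit 323) (nat_lit 300)))) (XT.nd (nat_lit 78) (nat_lit 0) (nat_lit 0) (XT.lf (nat_lit 0) (nat_lit 2135307975968) (nat_lit 76) (nat_lit 79635092417) (nat_lit 76) (nat_lit 79166191270) (nat_lit 1) (nat_lit 4) (nat_lit 2) (nat_lit 5) (nat_lit 2) (nat_lit 4) (nat_lit 398) (nat_lit 323) (nat_lit 299)) (XT.nd (nat_lit 78)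 (nat_lit 0) (nat_lit 0) (XT.lf (nat_lit 0) (nat_lit 2460050965236) (nat_lit 76) (nat_lit 89165015146) (nat_lit 76) (nat_lit 88693900040) (nat_lit 1) (nat_lit 4) (nat_lit 2) (nat_lit 5) (nat_lit 2) (nat_lit 4) (nat_lit 399) (nat_lit 323) (nat_lit 298)) (XT.lf (nat_lit 0) (nat_lit 2833469843368) (nat_lit 76) (nat_lit 100143158160) (nat_lit 76) (nat_lit 99670117872) (nat_lit 1) (nat_lit 4) (nat_lit 2) (nat_lit 5) (nat_lit 2) (nat_lit 4) (nat_lit 400) (nat_lit 323) (nat_lit 297)))))) (XT.nd (nat_lit 468) (nat_lit 0) (nat_lit 0) (XT.nd (nat_lit 234) (nat_lit 0) (nat_lit 0) (XT.nd (nat_lit 78) (nat_lit 0) (nat_lit 0) (XT.lf (nat_lit 0) (nat_lit 3262870631891) (nat_lit 76) (nat_lit 112784311213) (nat_lit 76) (nat_lit 112309596853) (nat_lit 1) (nat_lit 4) (nat_lit 2) (nat_lit 5) (nat_lit 2) (nat_lit 4) (nat_lit 401) (nat_lit 323) (nat_lit 296)) (XT.nd (nat_lit 78) (nat_lit 0) (nat_lit 0) (XT.lf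 (nat_lit 0) (nat_lit 3756654650580) (nat_lit 76) (nat_lit 127335801212) (nat_lit 76) (nat_lit 126859631138) (nat_lit 1) (nat_lit 4) (nat_lit 2) (nat_lit 5) (nat_lit 2) (nat_lit 4) (nat_lit 402) (nat_lit 323) (nat_lit 295)) (XT.lf (nat_lit 0) (nat_lit 4324482891106) (nat_lit 76) (nat_lit 144082331223) (nat_lit 76) (nat_lit 143604895311) (nat_lit 1) (nat_lit 4) (nat_lit 2) (nat_lit 5) (nat_lit 2) (nat_lit 4) (nat_lit 403) (nat_lit 323) (nat_lit 294)))) (XT.nd (nat_lit 78) (nat_lit 0) (nat_lit 0) (XT.lf (nat_lit 0) (nat_lit 4977465036436) (nat_lit 76) (nat_lit 163351550746) (nat_lit 76) (nat_lit 162873014104) (nat_lit 1) (nat_lit 4) (nat_lit 2) (nat_lit 5) (nat_lit 2) (nat_lit 4) (nat_lit 404) (nat_lit 323) (nat_lit 293)) (XT.nd (nat_lit 78) (nat_lit 0) (nat_lit 0) (XT.lf (nat_lit 0) (nat_lit 5728376824195) (nat_lit 76) (nat_lit 185520466249) (nat_lit 76) (nat_lit 185040972452) (nat_lit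 1) (nat_lit 4) (nat_lit 2) (nat_lit 5) (nat_lit 2) (nat_lit 4) (nat_lit 405) (nat_lit 323) (nat_lit 292)) (XT.lf (nat_lit 0) (nat_lit 6591910006753) (nat_lit 76) (nat_lit 211022817385) (nat_lit 76) (nat_lit 210542491279) (nat_lit 1) (nat_lit 4) (nat_lit 2) (nat_lit 5) (nat_lit 2) (nat_lit 4) (nat_lit 406) (nat_lit 323) (nat_lit 291))))) (XT.nd (nat_lit 234) (nat_lit 0) (nat_lit 0) (XT.nd (nat_lit 78) (nat_lit 0) (nat_lit 0) (XT.lf (nat_lit 0) (nat_lit 7584959798551) (nat_lit 76) (nat_lit 240357563197) (nat_lit 76) (nat_lit 239876513343) (nat_lit 1) (nat_lit 4) (nat_lit 2) (nat_lit 5) (nat_lit 2) (nat_lit 4) (nat_lit 407) (nat_lit 323) (nat_lit 290)) (XT.nd (nat_lit 78) (nat_lit 0) (nat_lit 0) (XT.lf (nat_lit 0) (nat_lit 8726955434646) (nat_lit 76) (nat_lit 274098644364) (nat_lit 76) (nat_lit 273616965165) (nat_lit 1) (nat_lit 4) (nat_lit 2) (nat_lit 5) (nat_lit 2) (nat_lit 4) (nat_lit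 408) (nat_lit 323) (nat_lit 289)) (XT.lf (nat_lit 0) (nat_lit 10040240307918) (nat_lit 76) (nat_lit 312906212474) (nat_lit 76) (nat_lit 312423986018) (nat_lit 1) (nat_lit 4) (nat_lit 2) (nat_lit 5) (nat_lit 2) (nat_lit 4) (nat_lit 409) (nat_lit 323) (nat_lit 288)))) (XT.nd (nat_lit 78) (nat_lit 0) (nat_lit 0) (XT.lf (nat_lit 0) (nat_lit 11550509122409) (nat_lit 76) (nat_lit 357539546033) (nat_lit 76) (nat_lit 357056843701) (nat_lit 1) (nat_lit 4) (nat_lit 2) (nat_lit 5) (nat_lit 2) (nat_lit 4) (nat_lit 410) (nat_lit 323) (nat_lit 287)) (XT.nd (nat_lit 78) (nat_lit 0) (nat_lit 0) (XT.lf (nat_lit 0) (nat_lit 13287310615795) (nat_lit 76) (nat_lit 408871905915) (nat_lit 76) (nat_lit 408388789779) (nat_lit 1) (nat_lit 4) (nat_lit 2) (nat_lit 5) (nat_lit 2) (nat_lit 4) (nat_lit 411) (nat_lit 323) (nat_lit 286)) (XT.lf (nat_lit 0) (nat_lit 15284625686859) (nat_lit 76) (nat_lit 467907620902)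 (nat_lit 76) (nat_lit 467424144935) (nat_lit 1) (nat_lit 4) (nat_lit 2) (nat_lit 5) (nat_lit 2) (nat_lit 4) (nat_lit 412) (nat_lit 323) (nat_lit 285))))))))
noncomputable def xc20 : XT := (XT.nd (nat_lit 50310) (nat_lit 0) (nat_lit 0) (XT.nd (nat_lit 858) (nat_lit 0) (nat_lit 0) (XT.nd (nat_lit 390) (nat_lit 0) (nat_lit 0) (XT.nd (nat_lit 156) (nat_lit 0) (nat_lit 0) (XT.nd (nat_lit 78) (nat_lit 0) (nat_lit 0) (XT.lf (nat_lit 0) (nat_lit 17581532239164) (nat_lit 76) (nat_lit 535801737589) (nat_lit 76) (nat_lit 535317948727) (nat_lit 1) (nat_lit 4) (nat_lit 2) (nat_lit 5) (nat_lit 2) (nat_lit 4) (nat_lit 413) (nat_lit 323) (nat_lit 284)) (XT.lf (nat_lit 0) (nat_lit 20222969748736) (nat_lit 76) (nat_lit 613882619131) (nat_lit 76) (nat_lit 613398558185) (nat_lit 1) (nat_lit 4) (nat_lit 2) (nat_lit 5) (nat_lit 2) (nat_lit 4) (nat_lit 414) (nat_lit 323) (nat_lit 283))) (XT.nd (nat_lit 78)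 (nat_lit 0) (nat_lit 0) (XT.lf (nat_lit 0) (nat_lit 23260618514673) (nat_lit 76) (nat_lit 703677934948) (nat_lit 76) (nat_lit 703193637407) (nat_lit 1) (nat_lit 4) (nat_lit 2) (nat_lit 5) (nat_lit 2) (nat_lit 4) (nat_lit 415) (nat_lit 323) (nat_lit 282)) (XT.nd (nat_lit 78) (nat_lit 0) (nat_lit 0) (XT.lf (nat_lit 0) (nat_lit 26753910795440) (nat_lit 76) (nat_lit 806944549915) (nat_lit 76) (nat_lit 806460046640) (nat_lit 1) (nat_lit 4) (nat_lit 2) (nat_lit 5) (nat_lit 2) (nat_lit 4) (nat_lit 416) (nat_lit 323) (nat_lit 281)) (XT.lf (nat_lit 0) (nat_lit 30771193613921) (nat_lit 76) (nat_lit 925702897803) (nat_lit 76) (nat_lit 925218215629) (nat_lit 1) (nat_lit 4) (nat_lit 2) (nat_lit 5) (nat_lit 2) (nat_lit 4) (nat_lit 417) (nat_lit 323) (nat_lit 280))))) (XT.nd (nat_lit 234) (nat_lit 0) (nat_lit 0) (XT.nd (nat_lit 78) (nat_lit 0) (nat_lit 0) (XT.lf (nat_lit 0) (nat_lit 35391065981783)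 (nat_lit 76) (nat_lit 1062276511506) (nat_lit 76) (nat_lit 1061791673767) (nat_lit 1) (nat_lit 4) (nat_lit 2) (nat_lit 5) (nat_lit 2) (nat_lit 4) (nat_lit 418) (nat_lit 323) (nat_lit 279)) (XT.nd (nat_lit 78) (nat_lit 0) (nat_lit 0) (XT.lf (nat_lit 0) (nat_lit 40703916706223) (nat_lit 76) (nat_lit 1219337483465) (nat_lit 76) (nat_lit 1218852510453) (nat_lit 1) (nat_lit 4) (nat_lit 2) (nat_lit 5) (nat_lit 2) (nat_lit 4) (nat_lit 419) (nat_lit 323) (nat_lit 278)) (XT.lf (nat_lit 0) (nat_lit 46813692866631) (nat_lit 76) (nat_lit 1399958745741) (nat_lit 76) (nat_lit 1399473655100) (nat_lit 1) (nat_lit 4) (nat_lit 2) (nat_lit 5) (nat_lit 2) (nat_lit 4) (nat_lit 420) (nat_lit 323) (nat_lit 277)))) (XT.nd (nat_lit 78) (nat_lit 0) (nat_lit 0) (XT.lf (nat_lit 0) (nat_lit 53839933561799) (nat_lit 76) (nat_lit 1607674192595) (nat_lit 76) (nat_lit 1607188999668) (nat_lit 1) (nat_lit 4) (nat_lit 2)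 (nat_lit 5) (nat_lit 2) (nat_lit 4) (nat_lit 421) (nat_lit 323) (nat_lit 276)) (XT.nd (nat_lit 78) (nat_lit 0) (nat_lit 0) (XT.lf (nat_lit 0) (nat_lit 61920108718371) (nat_lit 76) (nat_lit 1846547821902) (nat_lit 76) (nat_lit 1846062540030) (nat_lit 1) (nat_lit 4) (nat_lit 2) (nat_lit 5) (nat_lit 2) (nat_lit 4) (nat_lit 422) (nat_lit 323) (nat_lit 275)) (XT.lf (nat_lit 0) (nat_lit 71212308719844) (nat_lit 76) (nat_lit 2121253248147) (nat_lit 76) (nat_lit 2120767888932) (nat_lit 1) (nat_lit 4) (nat_lit 2) (nat_lit 5) (nat_lit 2) (nat_lit 4) (nat_lit 423) (nat_lit 323) (nat_lit 274)))))) (XT.nd (nat_lit 390) (nat_lit 0) (nat_lit 0) (XT.nd (nat_lit 156) (nat_lit 0) (nat_lit 0) (XT.nd (nat_lit 78) (nat_lit 0) (nat_lit 0) (XT.lf (nat_lit 0) (nat_lit 81898337479293) (nat_lit 76) (nat_lit 2437165142713) (nat_lit 76) (nat_lit 2436679716243) (nat_lit 1) (nat_lit 4) (nat_lit 2) (nat_lit 5) (nat_lit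 2) (nat_lit 4) (nat_lit 424) (nat_lit 323) (nat_lit 273)) (XT.lf (nat_lit 0) (nat_lit 94187269472444) (nat_lit 76) (nat_lit 2800464390494) (nat_lit 76) (nat_lit 2799978905541) (nat_lit 1) (nat_lit 4) (nat_lit 2) (nat_lit 5) (nat_lit 2) (nat_lit 4) (nat_lit 425) (nat_lit 323) (nat_lit 272))) (XT.nd (nat_lit 78) (nat_lit 0) (nat_lit 0) (XT.lf (nat_lit 0) (nat_lit 108319540325251) (nat_lit 76) (nat_lit 3218259020251) (nat_lit 76) (nat_lit 3217773484444) (nat_lit 1) (nat_lit 4) (nat_lit 2) (nat_lit 5) (nat_lit 2) (nat_lit 4) (nat_lit 426) (nat_lit 323) (nat_lit 271)) (XT.nd (nat_lit 78) (nat_lit 0) (nat_lit 0) (XT.lf (nat_lit 0) (nat_lit 124571650989182) (nat_lit 76) (nat_lit 3698723274740) (nat_lit 76) (nat_lit 3698237694712) (nat_lit 1) (nat_lit 4) (nat_lit 2) (nat_lit 5) (nat_lit 2) (nat_lit 4) (nat_lit 427) (nat_lit 323) (nat_lit 270)) (XT.lf (nat_lit 0) (nat_lit 143261577542444) (nat_lit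 76) (nat_lit 4251257541548) (nat_lit 76) (nat_lit 4250771923068) (nat_lit 1) (nat_lit 4) (nat_lit 2) (nat_lit 5) (nat_lit 2) (nat_lit 4) (nat_lit 428) (nat_lit 323) (nat_lit 269))))) (XT.nd (nat_lit 48828) (nat_lit 0) (nat_lit 0) (XT.nd (nat_lit 48672) (nat_lit 0) (nat_lit 0) (XT.lf (nat_lit 0) (nat_lit 164754992461079) (nat_lit 76) (nat_lit 4886672273724) (nat_lit 76) (nat_lit 4886186621805) (nat_lit 1) (nat_lit 4) (nat_lit 2) (nat_lit 5) (nat_lit 2) (nat_lit 4) (nat_lit 429) (nat_lit 323) (nat_lit 268)) (XT.nd (nat_lit 78) (nat_lit 76) (nat_lit 0) (XT.lf (nat_lit 0) (nat_lit 14704651843) (nat_lit 152) (nat_lit 3114752718) (nat_lit 0) (nat_lit 14704651843) (nat_lit 2) (nat_lit 5) (nat_lit 4) (nat_lit 4) (nat_lit 2) (nat_lit 4) (nat_lit 372) (nat_lit 324) (nat_lit 324)) (XT.lf (nat_lit 0) (nat_lit 5910717715) (nat_lit 76) (nat_lit 34019094048) (nat_lit 76) (nat_lit 33946212822) (nat_lit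 1) (nat_lit 4) (nat_lit 2) (nat_lit 5) (nat_lit 2) (nat_lit 4) (nat_lit 373) (nat_lit 324) (nat_lit 323)))) (XT.nd (nat_lit 78) (nat_lit 0) (nat_lit 0) (XT.lf (nat_lit 0) (nat_lit 19401503395) (nat_lit 76) (nat_lit 32398577190) (nat_lit 76) (nat_lit 32262320986) (nat_lit 1) (nat_lit 4) (nat_lit 2) (nat_lit 5) (nat_lit 2) (nat_lit 4) (nat_lit 374) (nat_lit 324) (nat_lit 322)) (XT.nd (nat_lit 78) (nat_lit 0) (nat_lit 0) (XT.lf (nat_lit 0) (nat_lit 33898009182) (nat_lit 76) (nat_lit 31071186024) (nat_lit 76) (nat_lit 30879821143) (nat_lit 1) (nat_lit 4) (nat_lit 2) (nat_lit 5) (nat_lit 2) (nat_lit 4) (nat_lit 375) (nat_lit 324) (nat_lit 321)) (XT.lf (nat_lit 0) (nat_lit 49683862361) (nat_lit 76) (nat_lit 30010949854) (nat_lit 76) (nat_lit 29771664384) (nat_lit 1) (nat_lit 4) (nat_lit 2) (nat_lit 5) (nat_lit 2) (nat_lit 4) (nat_lit 376) (nat_lit 324) (nat_lit 320))))))) (XT.nd (nat_lit 858)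 (nat_lit 0) (nat_lit 0) (XT.nd (nat_lit 390) (nat_lit 0) (nat_lit 0) (XT.nd (nat_lit 156) (nat_lit 0) (nat_lit 0) (XT.nd (nat_lit 78) (nat_lit 0) (nat_lit 0) (XT.lf (nat_lit 0) (nat_lit 67067916582) (nat_lit 76) (nat_lit 29197124928) (nat_lit 76) (nat_lit 28916169381) (nat_lit 1) (nat_lit 4) (nat_lit 2) (nat_lit 5) (nat_lit 2) (nat_lit 4) (nat_lit 377) (nat_lit 324) (nat_lit 319)) (XT.lf (nat_lit 0) (nat_lit 86390294646) (nat_lit 76) (nat_lit 28613788584) (nat_lit 76) (nat_lit 28296598188) (nat_lit 1) (nat_lit 4) (nat_lit 2) (nat_lit 5) (nat_lit 2) (nat_lit 4) (nat_lit 378) (nat_lit 324) (nat_lit 318))) (XT.nd (nat_lit 78) (nat_lit 0) (nat_lit 0) (XT.lf (nat_lit 0) (nat_lit 108029043079) (nat_lit 76) (nat_lit 28249527721) (nat_lit 76) (nat_lit 27900828760) (nat_lit 1) (nat_lit 4) (nat_lit 2) (nat_lit 5) (nat_lit 2) (nat_lit 4) (nat_lit 379) (nat_lit 324) (nat_lit 317)) (XT.nd (nat_lit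 78) (nat_lit 0) (nat_lit 0) (XT.lf (nat_lit 0) (nat_lit 132407528698) (nat_lit 76) (nat_lit 28097215495) (nat_lit 76) (nat_lit 27721117782) (nat_lit 1) (nat_lit 4) (nat_lit 2) (nat_lit 5) (nat_lit 2) (nat_lit 4) (nat_lit 380) (nat_lit 324) (nat_lit 316)) (XT.lf (nat_lit 0) (nat_lit 160002721875) (nat_lit 76) (nat_lit 28153871885) (nat_lit 76) (nat_lit 27753949170) (nat_lit 1) (nat_lit 4) (nat_lit 2) (nat_lit 5) (nat_lit 2) (nat_lit 4) (nat_lit 381) (nat_lit 324) (nat_lit 315))))) (XT.nd (nat_lit 234) (nat_lit 0) (nat_lit 0) (XT.nd (nat_lit 78) (nat_lit 0) (nat_lit 0) (XT.lf (nat_lit 0) (nat_lit 191354528563) (nat_lit 76) (nat_lit 28420605384) (nat_lit 76) (nat_lit 27999965276) (nat_lit 1) (nat_lit 4) (nat_lit 2) (nat_lit 5) (nat_lit 2) (nat_lit 4) (nat_lit 382) (nat_lit 324) (nat_lit 314)) (XT.nd (nat_lit 78) (nat_lit 0) (nat_lit 0) (XT.lf (nat_lit 0) (nat_lit 227076353675) (nat_lit 76)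 (nat_lit 28902634693) (nat_lit 76) (nat_lit 28463979461) (nat_lit 1) (nat_lit 4) (nat_lit 2) (nat_lit 5) (nat_lit 2) (nat_lit 4) (nat_lit 383) (nat_lit 324) (nat_lit 313)) (XT.lf (nat_lit 0) (nat_lit 267867102485) (nat_lit 76) (nat_lit 29609390819) (nat_lit 76) (nat_lit 29155070261) (nat_lit 1) (nat_lit 4) (nat_lit 2) (nat_lit 5) (nat_lit 2) (nat_lit 4) (nat_lit 384) (nat_lit 324) (nat_lit 312)))) (XT.nd (nat_lit 78) (nat_lit 0) (nat_lit 0) (XT.lf (nat_lit 0) (nat_lit 314524854862) (nat_lit 76) (nat_lit 30554701599) (nat_lit 76) (nat_lit 30086759019) (nat_lit 1) (nat_lit 4) (nat_lit 2) (nat_lit 5) (nat_lit 2) (nat_lit 4) (nat_lit 385) (nat_lit 324) (nat_lit 311)) (XT.nd (nat_lit 78) (nat_lit 0) (nat_lit 0) (XT.lf (nat_lit 0) (nat_lit 367962479873) (nat_lit 76) (nat_lit 31757062244) (nat_lit 76) (nat_lit 31277274428) (nat_lit 1) (nat_lit 4) (nat_lit 2) (nat_lit 5) (nat_lit 2) (nat_lit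 4) (nat_lit 386) (nat_lit 324) (nat_lit 310)) (XT.lf (nat_lit 0) (nat_lit 429225496269) (nat_lit 76) (nat_lit 33239997203) (nat_lit 76) (nat_lit 32749909180) (nat_lit 1) (nat_lit 4) (nat_lit 2) (nat_lit 5) (nat_lit 2) (nat_lit 4) (nat_lit 387) (nat_lit 324) (nat_lit 309)))))) (XT.nd (nat_lit 468) (nat_lit 0) (nat_lit 0) (XT.nd (nat_lit 234) (nat_lit 0) (nat_lit 0) (XT.nd (nat_lit 78) (nat_lit 0) (nat_lit 0) (XT.lf (nat_lit 0) (nat_lit 499512528284) (nat_lit 76) (nat_lit 35032520418) (nat_lit 76) (nat_lit 34533475695) (nat_lit 1) (nat_lit 4) (nat_lit 2) (nat_lit 5) (nat_lit 2) (nat_lit 4) (nat_lit 388) (nat_lit 324) (nat_lit 308)) (XT.nd (nat_lit 78) (nat_lit 0) (nat_lit 0) (XT.lf (nat_lit 0) (nat_lit 580198756978) (nat_lit 76) (nat_lit 37169702998) (nat_lit 76) (nat_lit 36662869840) (nat_lit 1) (nat_lit 4) (nat_lit 2) (nat_lit 5) (nat_lit 2) (nat_lit 4) (nat_lit 389) (nat_lit 324) (nat_lit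 307)) (XT.lf (nat_lit 0) (nat_lit 672862825956) (nat_lit 76) (nat_lit 39693359384) (nat_lit 76) (nat_lit 39179753673) (nat_lit 1) (nat_lit 4) (nat_lit 2) (nat_lit 5) (nat_lit 2) (nat_lit 4) (nat_lit 390) (nat_lit 324) (nat_lit 306)))) (XT.nd (nat_lit 78) (nat_lit 0) (nat_lit 0) (XT.lf (nat_lit 0) (nat_lit 779317727874) (nat_lit 76) (nat_lit 42652865461) (nat_lit 76) (nat_lit 42133370574) (nat_lit 1) (nat_lit 4) (nat_lit 2) (nat_lit 5) (nat_lit 2) (nat_lit 4) (nat_lit 391) (nat_lit 324) (nat_lit 305)) (XT.nd (nat_lit 78) (nat_lit 0) (nat_lit 0) (XT.lf (nat_lit 0) (nat_lit 901646276028) (nat_lit 76) (nat_lit 46106124609) (nat_lit 76) (nat_lit 45581508700) (nat_lit 1) (nat_lit 4) (nat_lit 2) (nat_lit 5) (nat_lit 2) (nat_lit 4) (nat_lit 392) (nat_lit 324) (nat_lit 304)) (XT.lf (nat_lit 0) (nat_lit 1042241855057) (nat_lit 76) (nat_lit 50120700595) (nat_lit 76) (nat_lit 49591631622) (nat_lit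 1) (nat_lit 4) (nat_lit 2) (nat_lit 5) (nat_lit 2) (nat_lit 4) (nat_lit 393) (nat_lit 324) (nat_lit 303))))) (XT.nd (nat_lit 234) (nat_lit 0) (nat_lit 0) (XT.nd (nat_lit 78) (nat_lit 0) (nat_lit 0) (XT.lf (nat_lit 0) (nat_lit 1203855248028) (nat_lit 76) (nat_lit 54775139470) (nat_lit 76) (nat_lit 54242198268) (nat_lit 1) (nat_lit 4) (nat_lit 2) (nat_lit 5) (nat_lit 2) (nat_lit 4) (nat_lit 394) (nat_lit 324) (nat_lit 302)) (XT.nd (nat_lit 78) (nat_lit 0) (nat_lit 0) (XT.lf (nat_lit 0) (nat_lit 1389648456109) (nat_lit 76) (nat_lit 60160506342) (nat_lit 76) (nat_lit 59624197985) (nat_lit 1) (nat_lit 4) (nat_lit 2) (nat_lit 5) (nat_lit 2) (nat_lit 4) (nat_lit 395) (nat_lit 324) (nat_lit 301)) (XT.lf (nat_lit 0) (nat_lit 1603256563806) (nat_lit 76) (nat_lit 66382167086) (nat_lit 76) (nat_lit 65842930767) (nat_lit 1) (nat_lit 4) (nat_lit 2) (nat_lit 5) (nat_lit 2) (nat_lit 4) (nat_lit 396)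 (nat_lit 324) (nat_lit 300)))) (XT.nd (nat_lit 78) (nat_lit 0) (nat_lit 0) (XT.lf (nat_lit 0) (nat_lit 1848858860182) (nat_lit 76) (nat_lit 73561849846) (nat_lit 76) (nat_lit 73020067474) (nat_lit 1) (nat_lit 4) (nat_lit 2) (nat_lit 5) (nat_lit 2) (nat_lit 4) (nat_lit 397) (nat_lit 324) (nat_lit 299)) (XT.nd (nat_lit 78) (nat_lit 0) (nat_lit 0) (XT.lf (nat_lit 0) (nat_lit 2131260607557) (nat_lit 76) (nat_lit 81840026675) (nat_lit 76) (nat_lit 81296030344) (nat_lit 1) (nat_lit 4) (nat_lit 2) (nat_lit 5) (nat_lit 2) (nat_lit 4) (nat_lit 398) (nat_lit 324) (nat_lit 298)) (XT.lf (nat_lit 0) (nat_lit 2455987057510) (nat_lit 76) (nat_lit 91378661905) (nat_lit 76) (nat_lit 90832740391) (nat_lit 1) (nat_lit 4) (nat_lit 2) (nat_lit 5) (nat_lit 2) (nat_lit 4) (nat_lit 399) (nat_lit 324) (nat_lit 297))))))))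
noncomputable def xc21 : XT := (XT.nd (nat_lit 1794) (nat_lit 0) (nat_lit 0) (XT.nd (nat_lit 858) (nat_lit 0) (nat_lit 0) (XT.nd (nat_lit 390) (nat_lit 0) (nat_lit 0) (XT.nd (nat_lit 156) (nat_lit 0) (nat_lit 0) (XT.nd (nat_lit 78) (nat_lit 0) (nat_lit 0) (XT.lf (nat_lit 0) (nat_lit 2829391553628) (nat_lit 76) (nat_lit 102364381006) (nat_lit 76) (nat_lit 101816785421) (nat_lit 1) (nat_lit 4) (nat_lit 2) (nat_lit 5) (nat_lit 2) (nat_lit 4) (nat_lit 400) (nat_lit 324) (nat_lit 296)) (XT.lf (nat_lit 0) (nat_lit 3258779836053) (nat_lit 76) (nat_lit 115012121960) (nat_lit 76) (nat_lit 114463070661) (nat_lit 1) (nat_lit 4) (nat_lit 2) (nat_lit 5) (nat_lit 2) (nat_lit 4) (nat_lit 401) (nat_lit 324) (nat_lit 295))) (XT.nd (nat_lit 78) (nat_lit 0) (nat_lit 0) (XT.lf (nat_lit 0) (nat_lit 3752552979874) (nat_lit 76) (nat_lit 129569340569) (nat_lit 76) (nat_lit 129019023432) (nat_lit 1) (nat_lit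 4) (nat_lit 2) (nat_lit 5) (nat_lit 2) (nat_lit 4) (nat_lit 402) (nat_lit 324) (nat_lit 294)) (XT.nd (nat_lit 78) (nat_lit 0) (nat_lit 0) (XT.lf (nat_lit 0) (nat_lit 4320371763993) (nat_lit 76) (nat_lit 146320851980) (nat_lit 76) (nat_lit 145769434114) (nat_lit 1) (nat_lit 4) (nat_lit 2) (nat_lit 5) (nat_lit 2) (nat_lit 4) (nat_lit 403) (nat_lit 324) (nat_lit 293)) (XT.lf (nat_lit 0) (nat_lit 4973345686359) (nat_lit 76) (nat_lit 165594403156) (nat_lit 76) (nat_lit 165042028133) (nat_lit 1) (nat_lit 4) (nat_lit 2) (nat_lit 5) (nat_lit 2) (nat_lit 4) (nat_lit 404) (nat_lit 324) (nat_lit 292))))) (XT.nd (nat_lit 234) (nat_lit 0) (nat_lit 0) (XT.nd (nat_lit 78) (nat_lit 0) (nat_lit 0) (XT.lf (nat_lit 0) (nat_lit 5724250323716) (nat_lit 76) (nat_lit 187767085314) (nat_lit 76) (nat_lit 187213877982) (nat_lit 1) (nat_lit 4) (nat_lit 2) (nat_lit 5) (nat_lit 2) (nat_lit 4) (nat_lit 405) (nat_lit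 324) (nat_lit 291)) (XT.nd (nat_lit 78) (nat_lit 0) (nat_lit 0) (XT.lf (nat_lit 0) (nat_lit 6587777288533) (nat_lit 76) (nat_lit 213272711801) (nat_lit 76) (nat_lit 212718780722) (nat_lit 1) (nat_lit 4) (nat_lit 2) (nat_lit 5) (nat_lit 2) (nat_lit 4) (nat_lit 406) (nat_lit 324) (nat_lit 290)) (XT.lf (nat_lit 0) (nat_lit 7580821673599) (nat_lit 76) (nat_lit 242610305744) (nat_lit 76) (nat_lit 242055745320) (nat_lit 1) (nat_lit 4) (nat_lit 2) (nat_lit 5) (nat_lit 2) (nat_lit 4) (nat_lit 407) (nat_lit 324) (nat_lit 289)))) (XT.nd (nat_lit 78) (nat_lit 0) (nat_lit 0) (XT.lf (nat_lit 0) (nat_lit 8722812608189) (nat_lit 76) (nat_lit 276353863547) (nat_lit 76) (nat_lit 275798755866) (nat_lit 1) (nat_lit 4) (nat_lit 2) (nat_lit 5) (nat_lit 2) (nat_lit 4) (nat_lit 408) (nat_lit 324) (nat_lit 288)) (XT.nd (nat_lit 78) (nat_lit 0) (nat_lit 0) (XT.lf (nat_lit 0) (nat_lit 10036093393195) (nat_lit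 76) (nat_lit 315163585254) (nat_lit 76) (nat_lit 314608001697) (nat_lit 1) (nat_lit 4) (nat_lit 2) (nat_lit 5) (nat_lit 2) (nat_lit 4) (nat_lit 409) (nat_lit 324) (nat_lit 287)) (XT.lf (nat_lit 0) (nat_lit 11546358652673) (nat_lit 76) (nat_lit 359798791506) (nat_lit 76) (nat_lit 359242794144) (nat_lit 1) (nat_lit 4) (nat_lit 2) (nat_lit 5) (nat_lit 2) (nat_lit 4) (nat_lit 410) (nat_lit 324) (nat_lit 286)))))) (XT.nd (nat_lit 468) (nat_lit 0) (nat_lit 0) (XT.nd (nat_lit 234) (nat_lit 0) (nat_lit 0) (XT.nd (nat_lit 78) (nat_lit 0) (nat_lit 0) (XT.lf (nat_lit 0) (nat_lit 13283157054742) (nat_lit 76) (nat_lit 411132779817) (nat_lit 76) (nat_lit 410576422625) (nat_lit 1) (nat_lit 4) (nat_lit 2) (nat_lit 5) (nat_lit 2) (nat_lit 4) (nat_lit 411) (nat_lit 324) (nat_lit 285)) (XT.nd (nat_lit 78) (nat_lit 0) (nat_lit 0) (XT.lf (nat_lit 0) (nat_lit 15280469437705) (nat_lit 76) (nat_lit 470169910828)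 (nat_lit 76) (nat_lit 469613240740) (nat_lit 1) (nat_lit 4) (nat_lit 2) (nat_lit 5) (nat_lit 2) (nat_lit 4) (nat_lit 412) (nat_lit 324) (nat_lit 284)) (XT.lf (nat_lit 0) (nat_lit 17577373652532) (nat_lit 76) (nat_lit 538065258842) (nat_lit 76) (nat_lit 537508316670) (nat_lit 1) (nat_lit 4) (nat_lit 2) (nat_lit 5) (nat_lit 2) (nat_lit 4) (nat_lit 413) (nat_lit 324) (nat_lit 283)))) (XT.nd (nat_lit 78) (nat_lit 0) (nat_lit 0) (XT.lf (nat_lit 0) (nat_lit 20218809129512) (nat_lit 76) (nat_lit 616147211101) (nat_lit 76) (nat_lit 615590032336) (nat_lit 1) (nat_lit 4) (nat_lit 2) (nat_lit 5) (nat_lit 2) (nat_lit 4) (nat_lit 414) (nat_lit 324) (nat_lit 282)) (XT.nd (nat_lit 78) (nat_lit 0) (nat_lit 0) (XT.lf (nat_lit 0) (nat_lit 23256456127979) (nat_lit 76) (nat_lit 705943457978) (nat_lit 76) (nat_lit 705386073478) (nat_lit 1) (nat_lit 4) (nat_lit 2) (nat_lit 5) (nat_lit 2) (nat_lit 4) (nat_lit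 415) (nat_lit 324) (nat_lit 281)) (XT.lf (nat_lit 0) (nat_lit 26749746871816) (nat_lit 76) (nat_lit 809210882561) (nat_lit 76) (nat_lit 808653319162) (nat_lit 1) (nat_lit 4) (nat_lit 2) (nat_lit 5) (nat_lit 2) (nat_lit 4) (nat_lit 416) (nat_lit 324) (nat_lit 280))))) (XT.nd (nat_lit 234) (nat_lit 0) (nat_lit 0) (XT.nd (nat_lit 78) (nat_lit 0) (nat_lit 0) (XT.lf (nat_lit 0) (nat_lit 30767028353836) (nat_lit 76) (nat_lit 927969934464) (nat_lit 76) (nat_lit 927412215501) (nat_lit 1) (nat_lit 4) (nat_lit 2) (nat_lit 5) (nat_lit 2) (nat_lit 4) (nat_lit 417) (nat_lit 324) (nat_lit 279)) (XT.nd (nat_lit 78) (nat_lit 0) (nat_lit 0) (XT.lf (nat_lit 0) (nat_lit 35386899559557) (nat_lit 76) (nat_lit 1064544160353) (nat_lit 76) (nat_lit 1063986306116) (nat_lit 1) (nat_lit 4) (nat_lit 2) (nat_lit 5) (nat_lit 2) (nat_lit 4) (nat_lit 418) (nat_lit 324) (nat_lit 278)) (XT.lf (nat_lit 0) (nat_lit 40699749273440)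 (nat_lit 76) (nat_lit 1221605664649) (nat_lit 76) (nat_lit 1221047692783) (nat_lit 1) (nat_lit 4) (nat_lit 2) (nat_lit 5) (nat_lit 2) (nat_lit 4) (nat_lit 419) (nat_lit 324) (nat_lit 277)))) (XT.nd (nat_lit 78) (nat_lit 0) (nat_lit 0) (XT.lf (nat_lit 0) (nat_lit 46809524555103) (nat_lit 76) (nat_lit 1402227389826) (nat_lit 76) (nat_lit 1401669315673) (nat_lit 1) (nat_lit 4) (nat_lit 2) (nat_lit 5) (nat_lit 2) (nat_lit 4) (nat_lit 420) (nat_lit 324) (nat_lit 276)) (XT.nd (nat_lit 78) (nat_lit 0) (nat_lit 0) (XT.lf (nat_lit 0) (nat_lit 53835764486145) (nat_lit 76) (nat_lit 1609943239203) (nat_lit 76) (nat_lit 1609385076106) (nat_lit 1) (nat_lit 4) (nat_lit 2) (nat_lit 5) (nat_lit 2) (nat_lit 4) (nat_lit 421) (nat_lit 324) (nat_lit 275)) (XT.lf (nat_lit 0) (nat_lit 61915938978259) (nat_lit 76) (nat_lit 1848817218529) (nat_lit 76) (nat_lit 1848258978089) (nat_lit 1) (nat_lit 4) (nat_lit 2)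 (nat_lit 5) (nat_lit 2) (nat_lit 4) (nat_lit 422) (nat_lit 324) (nat_lit 274))))))) (XT.nd (nat_lit 49218) (nat_lit 0) (nat_lit 0) (XT.nd (nat_lit 390) (nat_lit 0) (nat_lit 0) (XT.nd (nat_lit 156) (nat_lit 0) (nat_lit 0) (XT.nd (nat_lit 78) (nat_lit 0) (nat_lit 0) (XT.lf (nat_lit 0) (nat_lit 71208138401944) (nat_lit 76) (nat_lit 2123522949139) (nat_lit 76) (nat_lit 2122964641444) (nat_lit 1) (nat_lit 4) (nat_lit 2) (nat_lit 5) (nat_lit 2) (nat_lit 4) (nat_lit 423) (nat_lit 324) (nat_lit 273)) (XT.lf (nat_lit 0) (nat_lit 81894166658967) (nat_lit 76) (nat_lit 2439435108370) (nat_lit 76) (nat_lit 2438876742193) (nat_lit 1) (nat_lit 4) (nat_lit 2) (nat_lit 5) (nat_lit 2) (nat_lit 4) (nat_lit 424) (nat_lit 324) (nat_lit 272))) (XT.nd (nat_lit 78) (nat_lit 0) (nat_lit 0) (XT.lf (nat_lit 0) (nat_lit 94183098215227) (nat_lit 76) (nat_lit 2802734586295) (nat_lit 76) (nat_lit 2802176169263) (nat_lit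 1) (nat_lit 4) (nat_lit 2) (nat_lit 5) (nat_lit 2) (nat_lit 4) (nat_lit 425) (nat_lit 324) (nat_lit 271)) (XT.nd (nat_lit 78) (nat_lit 0) (nat_lit 0) (XT.lf (nat_lit 0) (nat_lit 108315368688128) (nat_lit 76) (nat_lit 3220529416177) (nat_lit 76) (nat_lit 3219970954924) (nat_lit 1) (nat_lit 4) (nat_lit 2) (nat_lit 5) (nat_lit 2) (nat_lit 4) (nat_lit 426) (nat_lit 324) (nat_lit 270)) (XT.lf (nat_lit 0) (nat_lit 124567479021706) (nat_lit 76) (nat_lit 3700993844687) (nat_lit 76) (nat_lit 3700435344981) (nat_lit 1) (nat_lit 4) (nat_lit 2) (nat_lit 5) (nat_lit 2) (nat_lit 4) (nat_lit 427) (nat_lit 324) (nat_lit 269))))) (XT.nd (nat_lit 48594) (nat_lit 0) (nat_lit 76) (XT.nd (nat_lit 78) (nat_lit 0) (nat_lit 0) (XT.lf (nat_lit 0) (nat_lit 143257405287705) (nat_lit 76) (nat_lit 4253528262819) (nat_lit 76) (nat_lit 4252969729676) (nat_lit 1) (nat_lit 4) (nat_lit 2) (nat_lit 5) (nat_lit 2) (nat_lit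 4) (nat_lit 428) (nat_lit 324) (nat_lit 268)) (XT.nd (nat_lit 78) (nat_lit 0) (nat_lit 0) (XT.lf (nat_lit 0) (nat_lit 164750819956546) (nat_lit 76) (nat_lit 4888943126580) (nat_lit 76) (nat_lit 4888384564360) (nat_lit 1) (nat_lit 4) (nat_lit 2) (nat_lit 5) (nat_lit 2) (nat_lit 4) (nat_lit 429) (nat_lit 324) (nat_lit 267)) (XT.lf (nat_lit 0) (nat_lit 189468246358707) (nat_lit 76) (nat_lit 5619670465911) (nat_lit 76) (nat_lit 5619111878408) (nat_lit 1) (nat_lit 4) (nat_lit 2) (nat_lit 5) (nat_lit 2) (nat_lit 4) (nat_lit 430) (nat_lit 324) (nat_lit 266)))) (XT.nd (nat_lit 78) (nat_lit 0) (nat_lit 0) (XT.lf (nat_lit 0) (nat_lit 5786165843) (nat_lit 152) (nat_lit 13837267479) (nat_lit 0) (nat_lit 5786165843) (nat_lit 2) (nat_lit 5) (nat_lit 4) (nat_lit 4) (nat_lit 2) (nat_lit 4) (nat_lit 370) (nat_lit 325) (nat_lit 325)) (XT.nd (nat_lit 78) (nat_lit 0) (nat_lit 0) (XT.lf (nat_lit 0) (nat_lit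 20052198094) (nat_lit 152) (nat_lit 17395013799) (nat_lit 0) (nat_lit 19968384685) (nat_lit 2) (nat_lit 5) (nat_lit 4) (nat_lit 4) (nat_lit 2) (nat_lit 4) (nat_lit 371) (nat_lit 325) (nat_lit 324)) (XT.lf (nat_lit 0) (nat_lit 29222745472) (nat_lit 152) (nat_lit 6799888892) (nat_lit 0) (nat_lit 29066050837) (nat_lit 2) (nat_lit 5) (nat_lit 4) (nat_lit 4) (nat_lit 2) (nat_lit 4) (nat_lit 372) (nat_lit 325) (nat_lit 323)))))) (XT.nd (nat_lit 468) (nat_lit 0) (nat_lit 0) (XT.nd (nat_lit 234) (nat_lit 0) (nat_lit 0) (XT.nd (nat_lit 78) (nat_lit 0) (nat_lit 0) (XT.lf (nat_lit 0) (nat_lit 4740135306) (nat_lit 76) (nat_lit 34719541161) (nat_lit 76) (nat_lit 34499471548) (nat_lit 1) (nat_lit 4) (nat_lit 2) (nat_lit 5) (nat_lit 2) (nat_lit 4) (nat_lit 373) (nat_lit 325) (nat_lit 322)) (XT.nd (nat_lit 78) (nat_lit 0) (nat_lit 0) (XT.lf (nat_lit 0) (nat_lit 17757480175) (nat_lit 76) (nat_lit 33348421150)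 (nat_lit 76) (nat_lit 33073242860) (nat_lit 1) (nat_lit 4) (nat_lit 2) (nat_lit 5) (nat_lit 2) (nat_lit 4) (nat_lit 374) (nat_lit 325) (nat_lit 321)) (XT.lf (nat_lit 0) (nat_lit 31842298298) (nat_lit 76) (nat_lit 32237896807) (nat_lit 76) (nat_lit 31914797929) (nat_lit 1) (nat_lit 4) (nat_lit 2) (nat_lit 5) (nat_lit 2) (nat_lit 4) (nat_lit 375) (nat_lit 325) (nat_lit 320)))) (XT.nd (nat_lit 78) (nat_lit 0) (nat_lit 0) (XT.lf (nat_lit 0) (nat_lit 47270162206) (nat_lit 76) (nat_lit 31366240483) (nat_lit 76) (nat_lit 31001471528) (nat_lit 1) (nat_lit 4) (nat_lit 2) (nat_lit 5) (nat_lit 2) (nat_lit 4) (nat_lit 376) (nat_lit 325) (nat_lit 319)) (XT.nd (nat_lit 78) (nat_lit 0) (nat_lit 0) (XT.lf (nat_lit 0) (nat_lit 64342921408) (nat_lit 76) (nat_lit 30716398033) (nat_lit 76) (nat_lit 30315394227) (nat_lit 1) (nat_lit 4) (nat_lit 2) (nat_lit 5) (nat_lit 2) (nat_lit 4) (nat_lit 377) (nat_lit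 325) (nat_lit 318)) (XT.lf (nat_lit 0) (nat_lit 83394608151) (nat_lit 76) (nat_lit 30275655146) (nat_lit 76) (nat_lit 29843142775) (nat_lit 1) (nat_lit 4) (nat_lit 2) (nat_lit 5) (nat_lit 2) (nat_lit 4) (nat_lit 378) (nat_lit 325) (nat_lit 317))))) (XT.nd (nat_lit 234) (nat_lit 0) (nat_lit 0) (XT.nd (nat_lit 78) (nat_lit 0) (nat_lit 0) (XT.lf (nat_lit 0) (nat_lit 104797972826) (nat_lit 76) (nat_lit 30035388593) (nat_lit 76) (nat_lit 29575477470) (nat_lit 1) (nat_lit 4) (nat_lit 2) (nat_lit 5) (nat_lit 2) (nat_lit 4) (nat_lit 379) (nat_lit 325) (nat_lit 316)) (XT.nd (nat_lit 78) (nat_lit 0) (nat_lit 0) (XT.lf (nat_lit 0) (nat_lit 128971776917) (nat_lit 76) (nat_lit 29990897506) (nat_lit 76) (nat_lit 29507161382) (nat_lit 1) (nat_lit 4) (nat_lit 2) (nat_lit 5) (nat_lit 2) (nat_lit 4) (nat_lit 380) (nat_lit 325) (nat_lit 315)) (XT.lf (nat_lit 0) (nat_lit 156388986157) (nat_lit 76) (nat_lit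 30141311408) (nat_lit 76) (nat_lit 29636857891) (nat_lit 1) (nat_lit 4) (nat_lit 2) (nat_lit 5) (nat_lit 2) (nat_lit 4) (nat_lit 381) (nat_lit 325) (nat_lit 314)))) (XT.nd (nat_lit 78) (nat_lit 0) (nat_lit 0) (XT.lf (nat_lit 0) (nat_lit 187586024203) (nat_lit 76) (nat_lit 30489573179) (nat_lit 76) (nat_lit 29967104538) (nat_lit 1) (nat_lit 4) (nat_lit 2) (nat_lit 5) (nat_lit 2) (nat_lit 4) (nat_lit 382) (nat_lit 325) (nat_lit 313)) (XT.nd (nat_lit 78) (nat_lit 0) (nat_lit 0) (XT.lf (nat_lit 0) (nat_lit 223173267888) (nat_lit 76) (nat_lit 31042496637) (nat_lit 76) (nat_lit 30504362670) (nat_lit 1) (nat_lit 4) (nat_lit 2) (nat_lit 5) (nat_lit 2) (nat_lit 4) (nat_lit 383) (nat_lit 325) (nat_lit 312)) (XT.lf (nat_lit 0) (nat_lit 263846989370) (nat_lit 76) (nat_lit 31810899849) (nat_lit 76) (nat_lit 31259143860) (nat_lit 1) (nat_lit 4) (nat_lit 2) (nat_lit 5) (nat_lit 2) (nat_lit 4) (nat_lit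 384) (nat_lit 325) (nat_lit 311))))))))
noncomputable def xc22 : XT := (XT.nd (nat_lit 1794) (nat_lit 0) (nat_lit 0) (XT.nd (nat_lit 858) (nat_lit 0) (nat_lit 0) (XT.nd (nat_lit 390) (nat_lit 0) (nat_lit 0) (XT.nd (nat_lit 156) (nat_lit 0) (nat_lit 0) (XT.nd (nat_lit 78) (nat_lit 0) (nat_lit 0) (XT.lf (nat_lit 0) (nat_lit 310402978853) (nat_lit 76) (nat_lit 32809816791) (nat_lit 76) (nat_lit 32246215566) (nat_lit 1) (nat_lit 4) (nat_lit 2) (nat_lit 5) (nat_lit 2) (nat_lit 4) (nat_lit 385) (nat_lit 325) (nat_lit 310)) (XT.lf (nat_lit 0) (nat_lit 363752114391) (nat_lit 76) (nat_lit 34058791491) (nat_lit 76) (nat_lit 33484890059) (nat_lit 1) (nat_lit 4) (nat_lit 2) (nat_lit 5) (nat_lit 2) (nat_lit 4) (nat_lit 386) (nat_lit 325) (nat_lit 309))) (XT.nd (nat_lit 78) (nat_lit 0) (nat_lit 0) (XT.lf (nat_lit 0) (nat_lit 424938183419) (nat_lit 76) (nat_lit 35582260409) (nat_lit 76) (nat_lit 34999402277)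 (nat_lit 1) (nat_lit 4) (nat_lit 2) (nat_lit 5) (nat_lit 2) (nat_lit 4) (nat_lit 387) (nat_lit 325) (nat_lit 308)) (XT.nd (nat_lit 78) (nat_lit 0) (nat_lit 0) (XT.lf (nat_lit 0) (nat_lit 495158304679) (nat_lit 76) (nat_lit 37410030546) (nat_lit 76) (nat_lit 36819383979) (nat_lit 1) (nat_lit 4) (nat_lit 2) (nat_lit 5) (nat_lit 2) (nat_lit 4) (nat_lit 388) (nat_lit 325) (nat_lit 307)) (XT.lf (nat_lit 0) (nat_lit 575786350108) (nat_lit 76) (nat_lit 39577862623) (nat_lit 76) (nat_lit 38980443503) (nat_lit 1) (nat_lit 4) (nat_lit 2) (nat_lit 5) (nat_lit 2) (nat_lit 4) (nat_lit 389) (nat_lit 325) (nat_lit 306))))) (XT.nd (nat_lit 234) (nat_lit 0) (nat_lit 0) (XT.nd (nat_lit 78) (nat_lit 0) (nat_lit 0) (XT.lf (nat_lit 0) (nat_lit 668399824944) (nat_lit 76) (nat_lit 42128170745) (nat_lit 76) (nat_lit 41524862449) (nat_lit 1) (nat_lit 4) (nat_lit 2) (nat_lit 5) (nat_lit 2) (nat_lit 4) (nat_lit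 390) (nat_lit 325) (nat_lit 305)) (XT.nd (nat_lit 78) (nat_lit 0) (nat_lit 0) (XT.lf (nat_lit 0) (nat_lit 774810731954) (nat_lit 76) (nat_lit 45110852246) (nat_lit 76) (nat_lit 44502422927) (nat_lit 1) (nat_lit 4) (nat_lit 2) (nat_lit 5) (nat_lit 2) (nat_lit 4) (nat_lit 391) (nat_lit 325) (nat_lit 304)) (XT.lf (nat_lit 0) (nat_lit 897101023667) (nat_lit 76) (nat_lit 48584263936) (nat_lit 76) (nat_lit 47971381554) (nat_lit 1) (nat_lit 4) (nat_lit 2) (nat_lit 5) (nat_lit 2) (nat_lit 4) (nat_lit 392) (nat_lit 325) (nat_lit 303)))) (XT.nd (nat_lit 78) (nat_lit 0) (nat_lit 0) (XT.lf (nat_lit 0) (nat_lit 1037663336225) (nat_lit 76) (nat_lit 52616363871) (nat_lit 76) (nat_lit 51999609260) (nat_lit 1) (nat_lit 4) (nat_lit 2) (nat_lit 5) (nat_lit 2) (nat_lit 4) (nat_lit 393) (nat_lit 325) (nat_lit 302)) (XT.nd (nat_lit 78) (nat_lit 0) (nat_lit 0) (XT.lf (nat_lit 0) (nat_lit 1199247801831) (nat_lit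 76) (nat_lit 57286040963) (nat_lit 76) (nat_lit 56665919196) (nat_lit 1) (nat_lit 4) (nat_lit 2) (nat_lit 5) (nat_lit 2) (nat_lit 4) (nat_lit 394) (nat_lit 325) (nat_lit 301)) (XT.lf (nat_lit 0) (nat_lit 1385015855681) (nat_lit 76) (nat_lit 62684658459) (nat_lit 76) (nat_lit 62061608731) (nat_lit 1) (nat_lit 4) (nat_lit 2) (nat_lit 5) (nat_lit 2) (nat_lit 4) (nat_lit 395) (nat_lit 325) (nat_lit 300)))))) (XT.nd (nat_lit 468) (nat_lit 0) (nat_lit 0) (XT.nd (nat_lit 234) (nat_lit 0) (nat_lit 0) (XT.nd (nat_lit 78) (nat_lit 0) (nat_lit 0) (XT.lf (nat_lit 0) (nat_lit 1598602090133) (nat_lit 76) (nat_lit 68917841483) (nat_lit 76) (nat_lit 68292245702) (nat_lit 1) (nat_lit 4) (nat_lit 2) (nat_lit 5) (nat_lit 2) (nat_lit 4) (nat_lit 396) (nat_lit 325) (nat_lit 299)) (XT.nd (nat_lit 78) (nat_lit 0) (nat_lit 0) (XT.lf (nat_lit 0) (nat_lit 1844185366296) (nat_lit 76) (nat_lit 76107543618) (nat_lit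 76) (nat_lit 75479733878) (nat_lit 1) (nat_lit 4) (nat_lit 2) (nat_lit 5) (nat_lit 2) (nat_lit 4) (nat_lit 397) (nat_lit 325) (nat_lit 298)) (XT.lf (nat_lit 0) (nat_lit 2126570574356) (nat_lit 76) (nat_lit 84394432948) (nat_lit 76) (nat_lit 83764698026) (nat_lit 1) (nat_lit 4) (nat_lit 2) (nat_lit 5) (nat_lit 2) (nat_lit 4) (nat_lit 398) (nat_lit 325) (nat_lit 297)))) (XT.nd (nat_lit 78) (nat_lit 0) (nat_lit 0) (XT.lf (nat_lit 0) (nat_lit 2451282642297) (nat_lit 76) (nat_lit 93940644264) (nat_lit 76) (nat_lit 93309235270) (nat_lit 1) (nat_lit 4) (nat_lit 2) (nat_lit 5) (nat_lit 2) (nat_lit 4) (nat_lit 399) (nat_lit 325) (nat_lit 296)) (XT.nd (nat_lit 78) (nat_lit 0) (nat_lit 0) (XT.lf (nat_lit 0) (nat_lit 2824674632316) (nat_lit 76) (nat_lit 104932951267) (nat_lit 76) (nat_lit 104300086559) (nat_lit 1) (nat_lit 4) (nat_lit 2) (nat_lit 5) (nat_lit 2) (nat_lit 4) (nat_lit 400) (nat_lit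 325) (nat_lit 295)) (XT.lf (nat_lit 0) (nat_lit 3254052039872) (nat_lit 76) (nat_lit 117586420831) (nat_lit 76) (nat_lit 116952290285) (nat_lit 1) (nat_lit 4) (nat_lit 2) (nat_lit 5) (nat_lit 2) (nat_lit 4) (nat_lit 401) (nat_lit 325) (nat_lit 294))))) (XT.nd (nat_lit 234) (nat_lit 0) (nat_lit 0) (XT.nd (nat_lit 78) (nat_lit 0) (nat_lit 0) (XT.lf (nat_lit 0) (nat_lit 3747815727286) (nat_lit 76) (nat_lit 132148620841) (nat_lit 76) (nat_lit 131513389565) (nat_lit 1) (nat_lit 4) (nat_lit 2) (nat_lit 5) (nat_lit 2) (nat_lit 4) (nat_lit 402) (nat_lit 325) (nat_lit 293)) (XT.nd (nat_lit 78) (nat_lit 0) (nat_lit 0) (XT.lf (nat_lit 0) (nat_lit 4315626288442) (nat_lit 76) (nat_lit 148904463904) (nat_lit 76) (nat_lit 148268275473) (nat_lit 1) (nat_lit 4) (nat_lit 2) (nat_lit 5) (nat_lit 2) (nat_lit 4) (nat_lit 403) (nat_lit 325) (nat_lit 292)) (XT.lf (nat_lit 0) (nat_lit 4968593060407) (nat_lit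 76) (nat_lit 168181781734) (nat_lit 76) (nat_lit 167544760993) (nat_lit 1) (nat_lit 4) (nat_lit 2) (nat_lit 5) (nat_lit 2) (nat_lit 4) (nat_lit 404) (nat_lit 325) (nat_lit 291)))) (XT.nd (nat_lit 78) (nat_lit 0) (nat_lit 0) (XT.lf (nat_lit 0) (nat_lit 5719491480022) (nat_lit 76) (nat_lit 190357739243) (nat_lit 76) (nat_lit 189719994755) (nat_lit 1) (nat_lit 4) (nat_lit 2) (nat_lit 5) (nat_lit 2) (nat_lit 4) (nat_lit 405) (nat_lit 325) (nat_lit 290)) (XT.nd (nat_lit 78) (nat_lit 0) (nat_lit 0) (XT.lf (nat_lit 0) (nat_lit 6583013038108) (nat_lit 76) (nat_lit 215866213862) (nat_lit 76) (nat_lit 215227840028) (nat_lit 1) (nat_lit 4) (nat_lit 2) (nat_lit 5) (nat_lit 2) (nat_lit 4) (nat_lit 406) (nat_lit 325) (nat_lit 289)) (XT.lf (nat_lit 0) (nat_lit 7576052721668) (nat_lit 76) (nat_lit 245206284442) (nat_lit 76) (nat_lit 244567363351) (nat_lit 1) (nat_lit 4) (nat_lit 2) (nat_lit 5) (nat_lit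 2) (nat_lit 4) (nat_lit 407) (nat_lit 325) (nat_lit 288))))))) (XT.nd (nat_lit 858) (nat_lit 0) (nat_lit 0) (XT.nd (nat_lit 390) (nat_lit 0) (nat_lit 0) (XT.nd (nat_lit 156) (nat_lit 0) (nat_lit 0) (XT.nd (nat_lit 78) (nat_lit 0) (nat_lit 0) (XT.lf (nat_lit 0) (nat_lit 8718039567992) (nat_lit 76) (nat_lit 278951995841) (nat_lit 76) (nat_lit 278312598875) (nat_lit 1) (nat_lit 4) (nat_lit 2) (nat_lit 5) (nat_lit 2) (nat_lit 4) (nat_lit 408) (nat_lit 325) (nat_lit 287)) (XT.lf (nat_lit 0) (nat_lit 10031316797985) (nat_lit 76) (nat_lit 317763590241) (nat_lit 76) (nat_lit 317123779470) (nat_lit 1) (nat_lit 4) (nat_lit 2) (nat_lit 5) (nat_lit 2) (nat_lit 4) (nat_lit 409) (nat_lit 325) (nat_lit 286))) (XT.nd (nat_lit 78) (nat_lit 0) (nat_lit 0) (XT.lf (nat_lit 0) (nat_lit 11541578966146) (nat_lit 76) (nat_lit 362400424921) (nat_lit 76) (nat_lit 361760254320) (nat_lit 1) (nat_lit 4) (nat_lit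 2) (nat_lit 5) (nat_lit 2) (nat_lit 4) (nat_lit 410) (nat_lit 325) (nat_lit 285)) (XT.nd (nat_lit 78) (nat_lit 0) (nat_lit 0) (XT.lf (nat_lit 0) (nat_lit 13278374680115) (nat_lit 76) (nat_lit 413735829257) (nat_lit 76) (nat_lit 413095345760) (nat_lit 1) (nat_lit 4) (nat_lit 2) (nat_lit 5) (nat_lit 2) (nat_lit 4) (nat_lit 411) (nat_lit 325) (nat_lit 284)) (XT.lf (nat_lit 0) (nat_lit 15275684725598) (nat_lit 76) (nat_lit 472774191594) (nat_lit 76) (nat_lit 472133436014) (nat_lit 1) (nat_lit 4) (nat_lit 2) (nat_lit 5) (nat_lit 2) (nat_lit 4) (nat_lit 412) (nat_lit 325) (nat_lit 283))))) (XT.nd (nat_lit 234) (nat_lit 0) (nat_lit 0) (XT.nd (nat_lit 78) (nat_lit 0) (nat_lit 0) (XT.lf (nat_lit 0) (nat_lit 17572586907834) (nat_lit 76) (nat_lit 540670610326) (nat_lit 76) (nat_lit 540029618151) (nat_lit 1) (nat_lit 4) (nat_lit 2) (nat_lit 5) (nat_lit 2) (nat_lit 4) (nat_lit 413) (nat_lit 325) (nat_lit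 282)) (XT.nd (nat_lit 78) (nat_lit 0) (nat_lit 0) (XT.lf (nat_lit 0) (nat_lit 20214020617344) (nat_lit 76) (nat_lit 618753493645) (nat_lit 76) (nat_lit 618112295736) (nat_lit 1) (nat_lit 4) (nat_lit 2) (nat_lit 5) (nat_lit 2) (nat_lit 4) (nat_lit 414) (nat_lit 325) (nat_lit 281)) (XT.lf (nat_lit 0) (nat_lit 23251666078881) (nat_lit 76) (nat_lit 708550550138) (nat_lit 76) (nat_lit 707909173330) (nat_lit 1) (nat_lit 4) (nat_lit 2) (nat_lit 5) (nat_lit 2) (nat_lit 4) (nat_lit 415) (nat_lit 325) (nat_lit 280)))) (XT.nd (nat_lit 78) (nat_lit 0) (nat_lit 0) (XT.lf (nat_lit 0) (nat_lit 26744955486256) (nat_lit 76) (nat_lit 811818678737) (nat_lit 76) (nat_lit 811177146364) (nat_lit 1) (nat_lit 4) (nat_lit 2) (nat_lit 5) (nat_lit 2) (nat_lit 4) (nat_lit 416) (nat_lit 325) (nat_lit 279)) (XT.nd (nat_lit 78) (nat_lit 0) (nat_lit 0) (XT.lf (nat_lit 0) (nat_lit 30762235806136) (nat_lit 76) (nat_lit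 930578342826) (nat_lit 76) (nat_lit 929936675180) (nat_lit 1) (nat_lit 4) (nat_lit 2) (nat_lit 5) (nat_lit 2) (nat_lit 4) (nat_lit 417) (nat_lit 325) (nat_lit 278)) (XT.lf (nat_lit 0) (nat_lit 35382106001301) (nat_lit 76) (nat_lit 1067153101051) (nat_lit 76) (nat_lit 1066511315776) (nat_lit 1) (nat_lit 4) (nat_lit 2) (nat_lit 5) (nat_lit 2) (nat_lit 4) (nat_lit 418) (nat_lit 325) (nat_lit 277)))))) (XT.nd (nat_lit 468) (nat_lit 0) (nat_lit 0) (XT.nd (nat_lit 234) (nat_lit 0) (nat_lit 0) (XT.nd (nat_lit 78) (nat_lit 0) (nat_lit 0) (XT.lf (nat_lit 0) (nat_lit 40694954836438) (nat_lit 76) (nat_lit 1224215068248) (nat_lit 76) (nat_lit 1223573180686) (nat_lit 1) (nat_lit 4) (nat_lit 2) (nat_lit 5) (nat_lit 2) (nat_lit 4) (nat_lit 419) (nat_lit 325) (nat_lit 276)) (XT.nd (nat_lit 78) (nat_lit 0) (nat_lit 0) (XT.lf (nat_lit 0) (nat_lit 46804729353976) (nat_lit 76) (nat_lit 1404837195947) (nat_lit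 76) (nat_lit 1404195219441) (nat_lit 1) (nat_lit 4) (nat_lit 2) (nat_lit 5) (nat_lit 2) (nat_lit 4) (nat_lit 420) (nat_lit 325) (nat_lit 275)) (XT.lf (nat_lit 0) (nat_lit 53830968620560) (nat_lit 76) (nat_lit 1612553395344) (nat_lit 76) (nat_lit 1611911341495) (nat_lit 1) (nat_lit 4) (nat_lit 2) (nat_lit 5) (nat_lit 2) (nat_lit 4) (nat_lit 421) (nat_lit 325) (nat_lit 274)))) (XT.nd (nat_lit 78) (nat_lit 0) (nat_lit 0) (XT.lf (nat_lit 0) (nat_lit 61911142534885) (nat_lit 76) (nat_lit 1851427679035) (nat_lit 76) (nat_lit 1850785557931) (nat_lit 1) (nat_lit 4) (nat_lit 2) (nat_lit 5) (nat_lit 2) (nat_lit 4) (nat_lit 422) (nat_lit 325) (nat_lit 273)) (XT.nd (nat_lit 78) (nat_lit 0) (nat_lit 0) (XT.lf (nat_lit 0) (nat_lit 71203341456144) (nat_lit 76) (nat_lit 2126133674310) (nat_lit 76) (nat_lit 2125491494724) (nat_lit 1) (nat_lit 4) (nat_lit 2) (nat_lit 5) (nat_lit 2) (nat_lit 4) (nat_lit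 423) (nat_lit 325) (nat_lit 272)) (XT.lf (nat_lit 0) (nat_lit 81889369276276) (nat_lit 76) (nat_lit 2442046063685) (nat_lit 76) (nat_lit 2441403833244) (nat_lit 1) (nat_lit 4) (nat_lit 2) (nat_lit 5) (nat_lit 2) (nat_lit 4) (nat_lit 424) (nat_lit 325) (nat_lit 271))))) (XT.nd (nat_lit 234) (nat_lit 0) (nat_lit 0) (XT.nd (nat_lit 78) (nat_lit 0) (nat_lit 0) (XT.lf (nat_lit 0) (nat_lit 94178300452630) (nat_lit 76) (nat_lit 2805345741735) (nat_lit 76) (nat_lit 2804703467072) (nat_lit 1) (nat_lit 4) (nat_lit 2) (nat_lit 5) (nat_lit 2) (nat_lit 4) (nat_lit 425) (nat_lit 325) (nat_lit 270)) (XT.nd (nat_lit 78) (nat_lit 0) (nat_lit 0) (XT.lf (nat_lit 0) (nat_lit 108310570595178) (nat_lit 76) (nat_lit 3223140745638) (nat_lit 76) (nat_lit 3222498432523) (nat_lit 1) (nat_lit 4) (nat_lit 2) (nat_lit 5) (nat_lit 2) (nat_lit 4) (nat_lit 426) (nat_lit 325) (nat_lit 269)) (XT.lf (nat_lit 0) (nat_lit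 124562680641493) (nat_lit 76) (nat_lit 3703605325472) (nat_lit 76) (nat_lit 3702962978919) (nat_lit 1) (nat_lit 4) (nat_lit 2) (nat_lit 5) (nat_lit 2) (nat_lit 4) (nat_lit 427) (nat_lit 325) (nat_lit 268)))) (XT.nd (nat_lit 78) (nat_lit 0) (nat_lit 0) (XT.lf (nat_lit 0) (nat_lit 143252606657698) (nat_lit 76) (nat_lit 4256139875189) (nat_lit 76) (nat_lit 4255497499560) (nat_lit 1) (nat_lit 4) (nat_lit 2) (nat_lit 5) (nat_lit 2) (nat_lit 4) (nat_lit 428) (nat_lit 325) (nat_lit 267)) (XT.nd (nat_lit 78) (nat_lit 0) (nat_lit 0) (XT.lf (nat_lit 0) (nat_lit 164746021109326) (nat_lit 76) (nat_lit 4891554853372) (nat_lit 76) (nat_lit 4890912452459) (nat_lit 1) (nat_lit 4) (nat_lit 2) (nat_lit 5) (nat_lit 2) (nat_lit 4) (nat_lit 429) (nat_lit 325) (nat_lit 266)) (XT.lf (nat_lit 0) (nat_lit 189463447322607) (nat_lit 76) (nat_lit 5622282292201) (nat_lit 76) (nat_lit 5621639869303) (nat_lit 1) (nat_lit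 4) (nat_lit 2) (nat_lit 5) (nat_lit 2) (nat_lit 4) (nat_lit 430) (nat_lit 325) (nat_lit 265))))))))
noncomputable def xc23 : XT := (XT.nd (nat_lit 1794) (nat_lit 0) (nat_lit 0) (XT.nd (nat_lit 858) (nat_lit 0) (nat_lit 0) (XT.nd (nat_lit 390) (nat_lit 76) (nat_lit 0) (XT.nd (nat_lit 156) (nat_lit 0) (nat_lit 0) (XT.nd (nat_lit 78) (nat_lit 152) (nat_lit 0) (XT.lf (nat_lit 0) (nat_lit 16752737298) (nat_lit 76) (nat_lit 1677509014) (nat_lit 76) (nat_lit 1677509014) (nat_lit 4) (nat_lit 4) (nat_lit 5) (nat_lit 5) (nat_lit 5) (nat_lit 4) (nat_lit 368) (nat_lit 326) (nat_lit 326)) (XT.lf (nat_lit 0) (nat_lit 3713621241) (nat_lit 152) (nat_lit 37839573439) (nat_lit 0) (nat_lit 3617235821) (nat_lit 2) (nat_lit 5) (nat_lit 4) (nat_lit 4) (nat_lit 2) (nat_lit 4) (nat_lit 369) (nat_lit 326) (nat_lit 325))) (XT.nd (nat_lit 78) (nat_lit 0) (nat_lit 0) (XT.lf (nat_lit 0) (nat_lit 11357789740) (nat_lit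 152) (nat_lit 28330475932) (nat_lit 0) (nat_lit 11177590911) (nat_lit 2) (nat_lit 5) (nat_lit 4) (nat_lit 4) (nat_lit 2) (nat_lit 4) (nat_lit 370) (nat_lit 326) (nat_lit 324)) (XT.nd (nat_lit 78) (nat_lit 0) (nat_lit 0) (XT.lf (nat_lit 0) (nat_lit 19567284524) (nat_lit 152) (nat_lit 18621338226) (nat_lit 0) (nat_lit 19314204469) (nat_lit 2) (nat_lit 5) (nat_lit 4) (nat_lit 4) (nat_lit 2) (nat_lit 4) (nat_lit 371) (nat_lit 326) (nat_lit 323)) (XT.lf (nat_lit 0) (nat_lit 28502726142) (nat_lit 152) (nat_lit 8522198932) (nat_lit 0) (nat_lit 28186271109) (nat_lit 2) (nat_lit 5) (nat_lit 4) (nat_lit 4) (nat_lit 2) (nat_lit 4) (nat_lit 372) (nat_lit 326) (nat_lit 322))))) (XT.nd (nat_lit 234) (nat_lit 0) (nat_lit 0) (XT.nd (nat_lit 78) (nat_lit 0) (nat_lit 0) (XT.lf (nat_lit 0) (nat_lit 2376067791) (nat_lit 76) (nat_lit 36061258561) (nat_lit 76) (nat_lit 35689694851) (nat_lit 1) (nat_lit 4)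 (nat_lit 2) (nat_lit 5) (nat_lit 2) (nat_lit 4) (nat_lit 373) (nat_lit 326) (nat_lit 321)) (XT.nd (nat_lit 78) (nat_lit 0) (nat_lit 0) (XT.lf (nat_lit 0) (nat_lit 14981724996) (nat_lit 76) (nat_lit 34907005374) (nat_lit 76) (nat_lit 34487521075) (nat_lit 1) (nat_lit 4) (nat_lit 2) (nat_lit 5) (nat_lit 2) (nat_lit 4) (nat_lit 374) (nat_lit 326) (nat_lit 320)) (XT.lf (nat_lit 0) (nat_lit 28708553848) (nat_lit 76) (nat_lit 33985060878) (nat_lit 76) (nat_lit 33523906502) (nat_lit 1) (nat_lit 4) (nat_lit 2) (nat_lit 5) (nat_lit 2) (nat_lit 4) (nat_lit 375) (nat_lit 326) (nat_lit 319)))) (XT.nd (nat_lit 78) (nat_lit 0) (nat_lit 0) (XT.lf (nat_lit 0) (nat_lit 43825122736) (nat_lit 76) (nat_lit 33277387029) (nat_lit 76) (nat_lit 32779997803) (nat_lit 1) (nat_lit 4) (nat_lit 2) (nat_lit 5) (nat_lit 2) (nat_lit 4) (nat_lit 376) (nat_lit 326) (nat_lit 318)) (XT.nd (nat_lit 78) (nat_lit 0) (nat_lit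 0) (XT.lf (nat_lit 0) (nat_lit 60627190617) (nat_lit 76) (nat_lit 32770138035) (nat_lit 76) (nat_lit 32241240244) (nat_lit 1) (nat_lit 4) (nat_lit 2) (nat_lit 5) (nat_lit 2) (nat_lit 4) (nat_lit 377) (nat_lit 326) (nat_lit 317)) (XT.lf (nat_lit 0) (nat_lit 79443493603) (nat_lit 76) (nat_lit 32453389458) (nat_lit 76) (nat_lit 31897092915) (nat_lit 1) (nat_lit 4) (nat_lit 2) (nat_lit 5) (nat_lit 2) (nat_lit 4) (nat_lit 378) (nat_lit 326) (nat_lit 316)))))) (XT.nd (nat_lit 468) (nat_lit 0) (nat_lit 0) (XT.nd (nat_lit 234) (nat_lit 0) (nat_lit 0) (XT.nd (nat_lit 78) (nat_lit 0) (nat_lit 0) (XT.lf (nat_lit 0) (nat_lit 100642176750) (nat_lit 76) (nat_lit 32320944044) (nat_lit 76) (nat_lit 31740822500) (nat_lit 1) (nat_lit 4) (nat_lit 2) (nat_lit 5) (nat_lit 2) (nat_lit 4) (nat_lit 379) (nat_lit 326) (nat_lit 315)) (XT.nd (nat_lit 78) (nat_lit 0) (nat_lit 0) (XT.lf (nat_lit 0) (nat_lit 124637996904)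 (nat_lit 76) (nat_lit 32370210470) (nat_lit 76) (nat_lit 31769371532) (nat_lit 1) (nat_lit 4) (nat_lit 2) (nat_lit 5) (nat_lit 2) (nat_lit 4) (nat_lit 380) (nat_lit 326) (nat_lit 314)) (XT.lf (nat_lit 0) (nat_lit 151900437502) (nat_lit 76) (nat_lit 32602152644) (nat_lit 76) (nat_lit 31983298582) (nat_lit 1) (nat_lit 4) (nat_lit 2) (nat_lit 5) (nat_lit 2) (nat_lit 4) (nat_lit 381) (nat_lit 326) (nat_lit 313)))) (XT.nd (nat_lit 78) (nat_lit 0) (nat_lit 0) (XT.lf (nat_lit 0) (nat_lit 182962894121) (nat_lit 76) (nat_lit 33021308564) (nat_lit 76) (nat_lit 32386789177) (nat_lit 1) (nat_lit 4) (nat_lit 2) (nat_lit 5) (nat_lit 2) (nat_lit 4) (nat_lit 382) (nat_lit 326) (nat_lit 312)) (XT.nd (nat_lit 78) (nat_lit 0) (nat_lit 0) (XT.lf (nat_lit 0) (nat_lit 218433110478) (nat_lit 76) (nat_lit 33635879108) (nat_lit 76) (nat_lit 32987737699) (nat_lit 1) (nat_lit 4) (nat_lit 2) (nat_lit 5) (nat_lit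 2) (nat_lit 4) (nat_lit 383) (nat_lit 326) (nat_lit 311)) (XT.lf (nat_lit 0) (nat_lit 259005069066) (nat_lit 76) (nat_lit 34457888482) (nat_lit 76) (nat_lit 33797901836) (nat_lit 1) (nat_lit 4) (nat_lit 2) (nat_lit 5) (nat_lit 2) (nat_lit 4) (nat_lit 384) (nat_lit 326) (nat_lit 310))))) (XT.nd (nat_lit 234) (nat_lit 0) (nat_lit 0) (XT.nd (nat_lit 78) (nat_lit 0) (nat_lit 0) (XT.lf (nat_lit 0) (nat_lit 305472569076) (nat_lit 76) (nat_lit 35503419478) (nat_lit 76) (nat_lit 34833132626) (nat_lit 1) (nat_lit 4) (nat_lit 2) (nat_lit 5) (nat_lit 2) (nat_lit 4) (nat_lit 385) (nat_lit 326) (nat_lit 309)) (XT.nd (nat_lit 78) (nat_lit 0) (nat_lit 0) (XT.lf (nat_lit 0) (nat_lit 358744757246) (nat_lit 76) (nat_lit 36792928138) (nat_lit 76) (nat_lit 36113684585) (nat_lit 1) (nat_lit 4) (nat_lit 2) (nat_lit 5) (nat_lit 2) (nat_lit 4) (nat_lit 386) (nat_lit 326) (nat_lit 308)) (XT.lf (nat_lit 0) (nat_lit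 419863915520) (nat_lit 76) (nat_lit 38351643978) (nat_lit 76) (nat_lit 37664611990) (nat_lit 1) (nat_lit 4) (nat_lit 2) (nat_lit 5) (nat_lit 2) (nat_lit 4) (nat_lit 387) (nat_lit 326) (nat_lit 307)))) (XT.nd (nat_lit 78) (nat_lit 0) (nat_lit 0) (XT.lf (nat_lit 0) (nat_lit 490025853515) (nat_lit 76) (nat_lit 40210063612) (nat_lit 76) (nat_lit 39516259072) (nat_lit 1) (nat_lit 4) (nat_lit 2) (nat_lit 5) (nat_lit 2) (nat_lit 4) (nat_lit 388) (nat_lit 326) (nat_lit 306)) (XT.nd (nat_lit 78) (nat_lit 0) (nat_lit 0) (XT.lf (nat_lit 0) (nat_lit 570603304800) (nat_lit 76) (nat_lit 42404547426) (nat_lit 76) (nat_lit 41704853709) (nat_lit 1) (nat_lit 4) (nat_lit 2) (nat_lit 5) (nat_lit 2) (nat_lit 4) (nat_lit 389) (nat_lit 326) (nat_lit 305)) (XT.lf (nat_lit 0) (nat_lit 663172784728) (nat_lit 76) (nat_lit 44978030971) (nat_lit 76) (nat_lit 44273216232) (nat_lit 1) (nat_lit 4) (nat_lit 2) (nat_lit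 5) (nat_lit 2) (nat_lit 4) (nat_lit 390) (nat_lit 326) (nat_lit 304))))))) (XT.nd (nat_lit 858) (nat_lit 0) (nat_lit 0) (XT.nd (nat_lit 390) (nat_lit 0) (nat_lit 0) (XT.nd (nat_lit 156) (nat_lit 0) (nat_lit 0) (XT.nd (nat_lit 78) (nat_lit 0) (nat_lit 0) (XT.lf (nat_lit 0) (nat_lit 769545435297) (nat_lit 76) (nat_lit 47980865013) (nat_lit 76) (nat_lit 47271597211) (nat_lit 1) (nat_lit 4) (nat_lit 2) (nat_lit 5) (nat_lit 2) (nat_lit 4) (nat_lit 391) (nat_lit 326) (nat_lit 303)) (XT.lf (nat_lit 0) (nat_lit 891802460540) (nat_lit 76) (nat_lit 51471800653) (nat_lit 76) (nat_lit 50758660622) (nat_lit 1) (nat_lit 4) (nat_lit 2) (nat_lit 5) (nat_lit 2) (nat_lit 4) (nat_lit 392) (nat_lit 326) (nat_lit 302))) (XT.nd (nat_lit 78) (nat_lit 0) (nat_lit 0) (XT.lf (nat_lit 0) (nat_lit 1032335845733) (nat_lit 76) (nat_lit 55519138805) (nat_lit 76) (nat_lit 54802631618) (nat_lit 1) (nat_lit 4) (nat_lit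 2) (nat_lit 5) (nat_lit 2) (nat_lit 4) (nat_lit 393) (nat_lit 326) (nat_lit 301)) (XT.nd (nat_lit 78) (nat_lit 0) (nat_lit 0) (XT.lf (nat_lit 0) (nat_lit 1193895157107) (nat_lit 76) (nat_lit 60202066520) (nat_lit 76) (nat_lit 59482631372) (nat_lit 1) (nat_lit 4) (nat_lit 2) (nat_lit 5) (nat_lit 2) (nat_lit 4) (nat_lit 394) (nat_lit 326) (nat_lit 300)) (XT.lf (nat_lit 0) (nat_lit 1379641337713) (nat_lit 76) (nat_lit 65612206297) (nat_lit 76) (nat_lit 64890225096) (nat_lit 1) (nat_lit 4) (nat_lit 2) (nat_lit 5) (nat_lit 2) (nat_lit 4) (nat_lit 395) (nat_lit 326) (nat_lit 299))))) (XT.nd (nat_lit 234) (nat_lit 0) (nat_lit 0) (XT.nd (nat_lit 78) (nat_lit 0) (nat_lit 0) (XT.lf (nat_lit 0) (nat_lit 1593208551953) (nat_lit 76) (nat_lit 71855408697) (nat_lit 76) (nat_lit 71131213536) (nat_lit 1) (nat_lit 4) (nat_lit 2) (nat_lit 5) (nat_lit 2) (nat_lit 4) (nat_lit 396) (nat_lit 326) (nat_lit 298))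 (XT.nd (nat_lit 78) (nat_lit 0) (nat_lit 0) (XT.lf (nat_lit 0) (nat_lit 1838775288801) (nat_lit 76) (nat_lit 79053823332) (nat_lit 76) (nat_lit 78327702989) (nat_lit 1) (nat_lit 4) (nat_lit 2) (nat_lit 5) (nat_lit 2) (nat_lit 4) (nat_lit 397) (nat_lit 326) (nat_lit 297)) (XT.lf (nat_lit 0) (nat_lit 2121146114847) (nat_lit 76) (nat_lit 87348288748) (nat_lit 76) (nat_lit 86620494334) (nat_lit 1) (nat_lit 4) (nat_lit 2) (nat_lit 5) (nat_lit 2) (nat_lit 4) (nat_lit 398) (nat_lit 326) (nat_lit 296)))) (XT.nd (nat_lit 78) (nat_lit 0) (nat_lit 0) (XT.lf (nat_lit 0) (nat_lit 2445845676689) (nat_lit 76) (nat_lit 96901087966) (nat_lit 76) (nat_lit 96171837838) (nat_lit 1) (nat_lit 4) (nat_lit 2) (nat_lit 5) (nat_lit 2) (nat_lit 4) (nat_lit 399) (nat_lit 326) (nat_lit 295)) (XT.nd (nat_lit 78) (nat_lit 0) (nat_lit 0) (XT.lf (nat_lit 0) (nat_lit 2819226791841) (nat_lit 76) (nat_lit 107899123579)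 (nat_lit 76) (nat_lit 107168607612) (nat_lit 1) (nat_lit 4) (nat_lit 2) (nat_lit 5) (nat_lit 2) (nat_lit 4) (nat_lit 400) (nat_lit 326) (nat_lit 294)) (XT.lf (nat_lit 0) (nat_lit 3248594742989) (nat_lit 76) (nat_lit 120557574544) (nat_lit 76) (nat_lit 119825957847) (nat_lit 1) (nat_lit 4) (nat_lit 2) (nat_lit 5) (nat_lit 2) (nat_lit 4) (nat_lit 401) (nat_lit 326) (nat_lit 293)))))) (XT.nd (nat_lit 468) (nat_lit 0) (nat_lit 0) (XT.nd (nat_lit 234) (nat_lit 0) (nat_lit 0) (XT.nd (nat_lit 78) (nat_lit 0) (nat_lit 0) (XT.lf (nat_lit 0) (nat_lit 3742350207441) (nat_lit 76) (nat_lit 135124106205) (nat_lit 76) (nat_lit 134391532353) (nat_lit 1) (nat_lit 4) (nat_lit 2) (nat_lit 5) (nat_lit 2) (nat_lit 4) (nat_lit 402) (nat_lit 326) (nat_lit 292)) (XT.nd (nat_lit 78) (nat_lit 0) (nat_lit 0) (XT.lf (nat_lit 0) (nat_lit 4310153618194) (nat_lit 76) (nat_lit 151883715923) (nat_lit 76) (nat_lit 151150309762)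 (nat_lit 1) (nat_lit 4) (nat_lit 2) (nat_lit 5) (nat_lit 2) (nat_lit 4) (nat_lit 403) (nat_lit 326) (nat_lit 291)) (XT.lf (nat_lit 0) (nat_lit 4963114172418) (nat_lit 76) (nat_lit 171164309104) (nat_lit 76) (nat_lit 170430179195) (nat_lit 1) (nat_lit 4) (nat_lit 2) (nat_lit 5) (nat_lit 2) (nat_lit 4) (nat_lit 404) (nat_lit 326) (nat_lit 290)))) (XT.nd (nat_lit 78) (nat_lit 0) (nat_lit 0) (XT.lf (nat_lit 0) (nat_lit 5714007185302) (nat_lit 76) (nat_lit 193343114745) (nat_lit 76) (nat_lit 192608355491) (nat_lit 1) (nat_lit 4) (nat_lit 2) (nat_lit 5) (nat_lit 2) (nat_lit 4) (nat_lit 405) (nat_lit 326) (nat_lit 289)) (XT.nd (nat_lit 78) (nat_lit 0) (nat_lit 0) (XT.lf (nat_lit 0) (nat_lit 6577524041881) (nat_lit 76) (nat_lit 218854066000) (nat_lit 76) (nat_lit 218118759489) (nat_lit 1) (nat_lit 4) (nat_lit 2) (nat_lit 5) (nat_lit 2) (nat_lit 4) (nat_lit 406) (nat_lit 326) (nat_lit 288)) (XT.lf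 (nat_lit 0) (nat_lit 7570559637176) (nat_lit 76) (nat_lit 248196290177) (nat_lit 76) (nat_lit 247460507790) (nat_lit 1) (nat_lit 4) (nat_lit 2) (nat_lit 5) (nat_lit 2) (nat_lit 4) (nat_lit 407) (nat_lit 326) (nat_lit 287))))) (XT.nd (nat_lit 234) (nat_lit 0) (nat_lit 0) (XT.nd (nat_lit 78) (nat_lit 0) (nat_lit 0) (XT.lf (nat_lit 0) (nat_lit 8712542928486) (nat_lit 76) (nat_lit 281943874269) (nat_lit 76) (nat_lit 281207678078) (nat_lit 1) (nat_lit 4) (nat_lit 2) (nat_lit 5) (nat_lit 2) (nat_lit 4) (nat_lit 408) (nat_lit 326) (nat_lit 286)) (XT.nd (nat_lit 78) (nat_lit 0) (nat_lit 0) (XT.lf (nat_lit 0) (nat_lit 10025817067163) (nat_lit 76) (nat_lit 320757097097) (nat_lit 76) (nat_lit 320020541075) (nat_lit 1) (nat_lit 4) (nat_lit 2) (nat_lit 5) (nat_lit 2) (nat_lit 4) (nat_lit 409) (nat_lit 326) (nat_lit 285)) (XT.lf (nat_lit 0) (nat_lit 11536076547223) (nat_lit 76) (nat_lit 365395347802)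 (nat_lit 76) (nat_lit 364658478885) (nat_lit 1) (nat_lit 4) (nat_lit 2) (nat_lit 5) (nat_lit 2) (nat_lit 4) (nat_lit 410) (nat_lit 326) (nat_lit 284)))) (XT.nd (nat_lit 78) (nat_lit 0) (nat_lit 0) (XT.lf (nat_lit 0) (nat_lit 13272869923712) (nat_lit 76) (nat_lit 416731983464) (nat_lit 76) (nat_lit 415994842463) (nat_lit 1) (nat_lit 4) (nat_lit 2) (nat_lit 5) (nat_lit 2) (nat_lit 4) (nat_lit 411) (nat_lit 326) (nat_lit 283)) (XT.nd (nat_lit 78) (nat_lit 0) (nat_lit 0) (XT.lf (nat_lit 0) (nat_lit 15270177936605) (nat_lit 76) (nat_lit 475771416520) (nat_lit 76) (nat_lit 475034038924) (nat_lit 1) (nat_lit 4) (nat_lit 2) (nat_lit 5) (nat_lit 2) (nat_lit 4) (nat_lit 412) (nat_lit 326) (nat_lit 282)) (XT.lf (nat_lit 0) (nat_lit 17567078351371) (nat_lit 76) (nat_lit 543668766311) (nat_lit 76) (nat_lit 542931182981) (nat_lit 1) (nat_lit 4) (nat_lit 2) (nat_lit 5) (nat_lit 2) (nat_lit 4) (nat_lit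 413) (nat_lit 326) (nat_lit 281))))))))
noncomputable def xc24 : XT := (XT.nd (nat_lit 49764) (nat_lit 0) (nat_lit 0) (XT.nd (nat_lit 858) (nat_lit 0) (nat_lit 0) (XT.nd (nat_lit 390) (nat_lit 0) (nat_lit 0) (XT.nd (nat_lit 156) (nat_lit 0) (nat_lit 0) (XT.nd (nat_lit 78) (nat_lit 0) (nat_lit 0) (XT.lf (nat_lit 0) (nat_lit 20208510523951) (nat_lit 76) (nat_lit 621752459246) (nat_lit 76) (nat_lit 621014697018) (nat_lit 1) (nat_lit 4) (nat_lit 2) (nat_lit 5) (nat_lit 2) (nat_lit 4) (nat_lit 414) (nat_lit 326) (nat_lit 280)) (XT.lf (nat_lit 0) (nat_lit 23246154649026) (nat_lit 76) (nat_lit 711550219754) (nat_lit 76) (nat_lit 710812301961) (nat_lit 1) (nat_lit 4) (nat_lit 2) (nat_lit 5) (nat_lit 2) (nat_lit 4) (nat_lit 415) (nat_lit 326) (nat_lit 279))) (XT.nd (nat_lit 78) (nat_lit 0) (nat_lit 0) (XT.lf (nat_lit 0) (nat_lit 26739442894261) (nat_lit 76) (nat_lit 814818960539) (nat_lit 76)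 (nat_lit 814080907472) (nat_lit 1) (nat_lit 4) (nat_lit 2) (nat_lit 5) (nat_lit 2) (nat_lit 4) (nat_lit 416) (nat_lit 326) (nat_lit 278)) (XT.nd (nat_lit 78) (nat_lit 0) (nat_lit 0) (XT.lf (nat_lit 0) (nat_lit 30756722203584) (nat_lit 76) (nat_lit 933579156965) (nat_lit 76) (nat_lit 932840986269) (nat_lit 1) (nat_lit 4) (nat_lit 2) (nat_lit 5) (nat_lit 2) (nat_lit 4) (nat_lit 417) (nat_lit 326) (nat_lit 277)) (XT.lf (nat_lit 0) (nat_lit 35376591520004) (nat_lit 76) (nat_lit 1070154378091) (nat_lit 76) (nat_lit 1069416105109) (nat_lit 1) (nat_lit 4) (nat_lit 2) (nat_lit 5) (nat_lit 2) (nat_lit 4) (nat_lit 418) (nat_lit 326) (nat_lit 276))))) (XT.nd (nat_lit 234) (nat_lit 0) (nat_lit 0) (XT.nd (nat_lit 78) (nat_lit 0) (nat_lit 0) (XT.lf (nat_lit 0) (nat_lit 40689439591015) (nat_lit 76) (nat_lit 1227216747810) (nat_lit 76) (nat_lit 1226478385883) (nat_lit 1) (nat_lit 4) (nat_lit 2) (nat_lit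 5) (nat_lit 2) (nat_lit 4) (nat_lit 419) (nat_lit 326) (nat_lit 275)) (XT.nd (nat_lit 78) (nat_lit 0) (nat_lit 0) (XT.lf (nat_lit 0) (nat_lit 46799213444095) (nat_lit 76) (nat_lit 1407839225530) (nat_lit 76) (nat_lit 1407100786260) (nat_lit 1) (nat_lit 4) (nat_lit 2) (nat_lit 5) (nat_lit 2) (nat_lit 4) (nat_lit 420) (nat_lit 326) (nat_lit 274)) (XT.lf (nat_lit 0) (nat_lit 53825452132890) (nat_lit 76) (nat_lit 1615555729291) (nat_lit 76) (nat_lit 1614817222767) (nat_lit 1) (nat_lit 4) (nat_lit 2) (nat_lit 5) (nat_lit 2) (nat_lit 4) (nat_lit 421) (nat_lit 326) (nat_lit 273)))) (XT.nd (nat_lit 78) (nat_lit 0) (nat_lit 0) (XT.lf (nat_lit 0) (nat_lit 61905625544790) (nat_lit 76) (nat_lit 1854430277648) (nat_lit 76) (nat_lit 1853691712640) (nat_lit 1) (nat_lit 4) (nat_lit 2) (nat_lit 5) (nat_lit 2) (nat_lit 4) (nat_lit 422) (nat_lit 326) (nat_lit 272)) (XT.nd (nat_lit 78) (nat_lit 0) (nat_lit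 0) (XT.lf (nat_lit 0) (nat_lit 71197824029158) (nat_lit 76) (nat_lit 2129136503066) (nat_lit 76) (nat_lit 2128397887205) (nat_lit 1) (nat_lit 4) (nat_lit 2) (nat_lit 5) (nat_lit 2) (nat_lit 4) (nat_lit 423) (nat_lit 326) (nat_lit 271)) (XT.lf (nat_lit 0) (nat_lit 81883851469384) (nat_lit 76) (nat_lit 2445049092566) (nat_lit 76) (nat_lit 2444310432483) (nat_lit 1) (nat_lit 4) (nat_lit 2) (nat_lit 5) (nat_lit 2) (nat_lit 4) (nat_lit 424) (nat_lit 326) (nat_lit 270)))))) (XT.nd (nat_lit 390) (nat_lit 0) (nat_lit 0) (XT.nd (nat_lit 156) (nat_lit 0) (nat_lit 0) (XT.nd (nat_lit 78) (nat_lit 0) (nat_lit 0) (XT.lf (nat_lit 0) (nat_lit 94172782315385) (nat_lit 76) (nat_lit 2808348944637) (nat_lit 76) (nat_lit 2807610246101) (nat_lit 1) (nat_lit 4) (nat_lit 2) (nat_lit 5) (nat_lit 2) (nat_lit 4) (nat_lit 425) (nat_lit 326) (nat_lit 269)) (XT.lf (nat_lit 0) (nat_lit 108305052170670) (nat_lit 76)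 (nat_lit 3226144099863) (nat_lit 76) (nat_lit 3225405367890) (nat_lit 1) (nat_lit 4) (nat_lit 2) (nat_lit 5) (nat_lit 2) (nat_lit 4) (nat_lit 426) (nat_lit 326) (nat_lit 268))) (XT.nd (nat_lit 78) (nat_lit 0) (nat_lit 0) (XT.lf (nat_lit 0) (nat_lit 124557161967191) (nat_lit 76) (nat_lit 3706608811283) (nat_lit 76) (nat_lit 3705870050233) (nat_lit 1) (nat_lit 4) (nat_lit 2) (nat_lit 5) (nat_lit 2) (nat_lit 4) (nat_lit 427) (nat_lit 326) (nat_lit 267)) (XT.nd (nat_lit 78) (nat_lit 0) (nat_lit 0) (XT.lf (nat_lit 0) (nat_lit 143247087766183) (nat_lit 76) (nat_lit 4259143475422) (nat_lit 76) (nat_lit 4258404689089) (nat_lit 1) (nat_lit 4) (nat_lit 2) (nat_lit 5) (nat_lit 2) (nat_lit 4) (nat_lit 428) (nat_lit 326) (nat_lit 266)) (XT.lf (nat_lit 0) (nat_lit 164740502028931) (nat_lit 76) (nat_lit 4894558553102) (nat_lit 76) (nat_lit 4893819744783) (nat_lit 1) (nat_lit 4) (nat_lit 2) (nat_lit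 5) (nat_lit 2) (nat_lit 4) (nat_lit 429) (nat_lit 326) (nat_lit 265))))) (XT.nd (nat_lit 48282) (nat_lit 0) (nat_lit 76) (XT.nd (nat_lit 48126) (nat_lit 0) (nat_lit 228) (XT.lf (nat_lit 0) (nat_lit 189457928077968) (nat_lit 76) (nat_lit 5625286078451) (nat_lit 76) (nat_lit 5624547251014) (nat_lit 1) (nat_lit 4) (nat_lit 2) (nat_lit 5) (nat_lit 2) (nat_lit 4) (nat_lit 430) (nat_lit 326) (nat_lit 264)) (XT.nd (nat_lit 78) (nat_lit 0) (nat_lit 0) (XT.lf (nat_lit 0) (nat_lit 104055674) (nat_lit 76) (nat_lit 8000319536) (nat_lit 76) (nat_lit 8000319536) (nat_lit 4) (nat_lit 4) (nat_lit 5) (nat_lit 5) (nat_lit 5) (nat_lit 4) (nat_lit 366) (nat_lit 327) (nat_lit 327)) (XT.lf (nat_lit 0) (nat_lit 16029078405) (nat_lit 76) (nat_lit 10003817586) (nat_lit 76) (nat_lit 9876347867) (nat_lit 4) (nat_lit 4) (nat_lit 5) (nat_lit 5) (nat_lit 5) (nat_lit 4) (nat_lit 367) (nat_lit 327) (nat_lit 326))))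 (XT.nd (nat_lit 78) (nat_lit 152) (nat_lit 0) (XT.lf (nat_lit 0) (nat_lit 32881373791) (nat_lit 76) (nat_lit 3808587635) (nat_lit 76) (nat_lit 3570274683) (nat_lit 4) (nat_lit 4) (nat_lit 5) (nat_lit 5) (nat_lit 5) (nat_lit 4) (nat_lit 368) (nat_lit 327) (nat_lit 325)) (XT.nd (nat_lit 78) (nat_lit 0) (nat_lit 0) (XT.lf (nat_lit 0) (nat_lit 3155970635) (nat_lit 152) (nat_lit 39249846531) (nat_lit 0) (nat_lit 2864928572) (nat_lit 2) (nat_lit 5) (nat_lit 4) (nat_lit 4) (nat_lit 2) (nat_lit 4) (nat_lit 369) (nat_lit 327) (nat_lit 324)) (XT.lf (nat_lit 0) (nat_lit 10529767511) (nat_lit 152) (nat_lit 30311132478) (nat_lit 0) (nat_lit 10165844223) (nat_lit 2) (nat_lit 5) (nat_lit 4) (nat_lit 4) (nat_lit 2) (nat_lit 4) (nat_lit 370) (nat_lit 327) (nat_lit 323))))))) (XT.nd (nat_lit 858) (nat_lit 0) (nat_lit 0) (XT.nd (nat_lit 390) (nat_lit 0) (nat_lit 0) (XT.nd (nat_lit 156) (nat_lit 76) (nat_lit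 0) (XT.nd (nat_lit 78) (nat_lit 0) (nat_lit 0) (XT.lf (nat_lit 0) (nat_lit 18504156535) (nat_lit 152) (nat_lit 21097980386) (nat_lit 0) (nat_lit 18076858268) (nat_lit 2) (nat_lit 5) (nat_lit 4) (nat_lit 4) (nat_lit 2) (nat_lit 4) (nat_lit 371) (nat_lit 327) (nat_lit 322)) (XT.lf (nat_lit 0) (nat_lit 27235158362) (nat_lit 152) (nat_lit 11430132929) (nat_lit 0) (nat_lit 26752751419) (nat_lit 2) (nat_lit 5) (nat_lit 4) (nat_lit 4) (nat_lit 2) (nat_lit 4) (nat_lit 372) (nat_lit 327) (nat_lit 321))) (XT.nd (nat_lit 78) (nat_lit 76) (nat_lit 0) (XT.lf (nat_lit 0) (nat_lit 36893596942) (nat_lit 152) (nat_lit 1118436571) (nat_lit 0) (nat_lit 36363269409) (nat_lit 2) (nat_lit 5) (nat_lit 4) (nat_lit 4) (nat_lit 2) (nat_lit 4) (nat_lit 373) (nat_lit 327) (nat_lit 320)) (XT.nd (nat_lit 78) (nat_lit 0) (nat_lit 0) (XT.lf (nat_lit 0) (nat_lit 11019929606) (nat_lit 76) (nat_lit 37104823901) (nat_lit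 76) (nat_lit 36532826292) (nat_lit 1) (nat_lit 4) (nat_lit 2) (nat_lit 5) (nat_lit 2) (nat_lit 4) (nat_lit 374) (nat_lit 327) (nat_lit 319)) (XT.lf (nat_lit 0) (nat_lit 24435463439) (nat_lit 76) (nat_lit 36346861881) (nat_lit 76) (nat_lit 35738629421) (nat_lit 1) (nat_lit 4) (nat_lit 2) (nat_lit 5) (nat_lit 2) (nat_lit 4) (nat_lit 375) (nat_lit 327) (nat_lit 318))))) (XT.nd (nat_lit 234) (nat_lit 0) (nat_lit 0) (XT.nd (nat_lit 78) (nat_lit 0) (nat_lit 0) (XT.lf (nat_lit 0) (nat_lit 39281341006) (nat_lit 76) (nat_lit 35781781488) (nat_lit 76) (nat_lit 35142040464) (nat_lit 1) (nat_lit 4) (nat_lit 2) (nat_lit 5) (nat_lit 2) (nat_lit 4) (nat_lit 376) (nat_lit 327) (nat_lit 317)) (XT.nd (nat_lit 78) (nat_lit 0) (nat_lit 0) (XT.lf (nat_lit 0) (nat_lit 55848025130) (nat_lit 76) (nat_lit 35398526804) (nat_lit 76) (nat_lit 34731387028) (nat_lit 1) (nat_lit 4) (nat_lit 2) (nat_lit 5) (nat_lit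 2) (nat_lit 4) (nat_lit 377) (nat_lit 327) (nat_lit 316)) (XT.lf (nat_lit 0) (nat_lit 74459646587) (nat_lit 76) (nat_lit 35189599367) (nat_lit 76) (nat_lit 34498634588) (nat_lit 1) (nat_lit 4) (nat_lit 2) (nat_lit 5) (nat_lit 2) (nat_lit 4) (nat_lit 378) (nat_lit 327) (nat_lit 315)))) (XT.nd (nat_lit 78) (nat_lit 0) (nat_lit 0) (XT.lf (nat_lit 0) (nat_lit 95480345797) (nat_lit 76) (nat_lit 35150911465) (nat_lit 76) (nat_lit 34439229294) (nat_lit 1) (nat_lit 4) (nat_lit 2) (nat_lit 5) (nat_lit 2) (nat_lit 4) (nat_lit 379) (nat_lit 327) (nat_lit 314)) (XT.nd (nat_lit 78) (nat_lit 0) (nat_lit 0) (XT.lf (nat_lit 0) (nat_lit 119321397309) (nat_lit 76) (nat_lit 35281706163) (nat_lit 76) (nat_lit 34552008867) (nat_lit 1) (nat_lit 4) (nat_lit 2) (nat_lit 5) (nat_lit 2) (nat_lit 4) (nat_lit 380) (nat_lit 327) (nat_lit 313)) (XT.lf (nat_lit 0) (nat_lit 146449256480) (nat_lit 76) (nat_lit 35584542485)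 (nat_lit 76) (nat_lit 34839179865) (nat_lit 1) (nat_lit 4) (nat_lit 2) (nat_lit 5) (nat_lit 2) (nat_lit 4) (nat_lit 381) (nat_lit 327) (nat_lit 312)))))) (XT.nd (nat_lit 468) (nat_lit 0) (nat_lit 0) (XT.nd (nat_lit 234) (nat_lit 0) (nat_lit 0) (XT.nd (nat_lit 78) (nat_lit 0) (nat_lit 0) (XT.lf (nat_lit 0) (nat_lit 177394685771) (nat_lit 76) (nat_lit 36065345492) (nat_lit 76) (nat_lit 35306360849) (nat_lit 1) (nat_lit 4) (nat_lit 2) (nat_lit 5) (nat_lit 2) (nat_lit 4) (nat_lit 382) (nat_lit 327) (nat_lit 311)) (XT.nd (nat_lit 78) (nat_lit 0) (nat_lit 0) (XT.lf (nat_lit 0) (nat_lit 212763139234) (nat_lit 76) (nat_lit 36733522198) (nat_lit 76) (nat_lit 35962692319) (nat_lit 1) (nat_lit 4) (nat_lit 2) (nat_lit 5) (nat_lit 2) (nat_lit 4) (nat_lit 383) (nat_lit 327) (nat_lit 310)) (XT.lf (nat_lit 0) (nat_lit 253246608349) (nat_lit 76) (nat_lit 37602145626) (nat_lit 76) (nat_lit 36821015541)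 (nat_lit 1) (nat_lit 4) (nat_lit 2) (nat_lit 5) (nat_lit 2) (nat_lit 4) (nat_lit 384) (nat_lit 327) (nat_lit 309)))) (XT.nd (nat_lit 78) (nat_lit 0) (nat_lit 0) (XT.lf (nat_lit 0) (nat_lit 299637160991) (nat_lit 76) (nat_lit 38688210582) (nat_lit 76) (nat_lit 37898123796) (nat_lit 1) (nat_lit 4) (nat_lit 2) (nat_lit 5) (nat_lit 2) (nat_lit 4) (nat_lit 385) (nat_lit 327) (nat_lit 308)) (XT.nd (nat_lit 78) (nat_lit 0) (nat_lit 0) (XT.lf (nat_lit 0) (nat_lit 352842438407) (nat_lit 76) (nat_lit 40012966163) (nat_lit 76) (nat_lit 39215090942) (nat_lit 1) (nat_lit 4) (nat_lit 2) (nat_lit 5) (nat_lit 2) (nat_lit 4) (nat_lit 386) (nat_lit 327) (nat_lit 307)) (XT.lf (nat_lit 0) (nat_lit 413903413416) (nat_lit 76) (nat_lit 41602331500) (nat_lit 76) (nat_lit 40797683726) (nat_lit 1) (nat_lit 4) (nat_lit 2) (nat_lit 5) (nat_lit 2) (nat_lit 4) (nat_lit 387) (nat_lit 327) (nat_lit 306))))) (XT.nd (nat_lit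 234) (nat_lit 0) (nat_lit 0) (XT.nd (nat_lit 78) (nat_lit 0) (nat_lit 0) (XT.lf (nat_lit 0) (nat_lit 484014757267) (nat_lit 76) (nat_lit 43487402872) (nat_lit 76) (nat_lit 42676865922) (nat_lit 1) (nat_lit 4) (nat_lit 2) (nat_lit 5) (nat_lit 2) (nat_lit 4) (nat_lit 388) (nat_lit 327) (nat_lit 305)) (XT.nd (nat_lit 78) (nat_lit 0) (nat_lit 0) (XT.lf (nat_lit 0) (nat_lit 564548213646) (nat_lit 76) (nat_lit 45705062108) (nat_lit 76) (nat_lit 44889404136) (nat_lit 1) (nat_lit 4) (nat_lit 2) (nat_lit 5) (nat_lit 2) (nat_lit 4) (nat_lit 389) (nat_lit 327) (nat_lit 304)) (XT.lf (nat_lit 0) (nat_lit 657079437133) (nat_lit 76) (nat_lit 48298698195) (nat_lit 76) (nat_lit 47478587159) (nat_lit 1) (nat_lit 4) (nat_lit 2) (nat_lit 5) (nat_lit 2) (nat_lit 4) (nat_lit 390) (nat_lit 327) (nat_lit 303)))) (XT.nd (nat_lit 78) (nat_lit 0) (nat_lit 0) (XT.lf (nat_lit 0) (nat_lit 763418821231) (nat_lit 76)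 (nat_lit 51319056187) (nat_lit 76) (nat_lit 50495072922) (nat_lit 1) (nat_lit 4) (nat_lit 2) (nat_lit 5) (nat_lit 2) (nat_lit 4) (nat_lit 391) (nat_lit 327) (nat_lit 302)) (XT.nd (nat_lit 78) (nat_lit 0) (nat_lit 0) (XT.lf (nat_lit 0) (nat_lit 885646919108) (nat_lit 76) (nat_lit 54825230044) (nat_lit 76) (nat_lit 53997879623) (nat_lit 1) (nat_lit 4) (nat_lit 2) (nat_lit 5) (nat_lit 2) (nat_lit 4) (nat_lit 392) (nat_lit 327) (nat_lit 301)) (XT.lf (nat_lit 0) (nat_lit 1026155150069) (nat_lit 76) (nat_lit 58885818819) (nat_lit 76) (nat_lit 58055540437) (nat_lit 1) (nat_lit 4) (nat_lit 2) (nat_lit 5) (nat_lit 2) (nat_lit 4) (nat_lit 393) (nat_lit 327) (nat_lit 300))))))))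
noncomputable def xc25 : XT := (XT.nd (nat_lit 1794) (nat_lit 0) (nat_lit 0) (XT.nd (nat_lit 858) (nat_lit 0) (nat_lit 0) (XT.nd (nat_lit 390) (nat_lit 0) (nat_lit 0) (XT.nd (nat_lit 156) (nat_lit 0) (nat_lit 0) (XT.nd (nat_lit 78) (nat_lit 0) (nat_lit 0) (XT.lf (nat_lit 0) (nat_lit 1187692588200) (nat_lit 76) (nat_lit 63580268815) (nat_lit 76) (nat_lit 62747444380) (nat_lit 1) (nat_lit 4) (nat_lit 2) (nat_lit 5) (nat_lit 2) (nat_lit 4) (nat_lit 394) (nat_lit 327) (nat_lit 299)) (XT.lf (nat_lit 0) (nat_lit 1373419748593) (nat_lit 76) (nat_lit 69000427967) (nat_lit 76) (nat_lit 68165389573) (nat_lit 1) (nat_lit 4) (nat_lit 2) (nat_lit 5) (nat_lit 2) (nat_lit 4) (nat_lit 395) (nat_lit 327) (nat_lit 298))) (XT.nd (nat_lit 78) (nat_lit 0) (nat_lit 0) (XT.lf (nat_lit 0) (nat_lit 1586970423517) (nat_lit 76) (nat_lit 75252342867) (nat_lit 76) (nat_lit 74415379291) (nat_lit 1) (nat_lit 4) (nat_lit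 2) (nat_lit 5) (nat_lit 2) (nat_lit 4) (nat_lit 396) (nat_lit 327) (nat_lit 297)) (XT.nd (nat_lit 78) (nat_lit 0) (nat_lit 0) (XT.lf (nat_lit 0) (nat_lit 1832522778352) (nat_lit 76) (nat_lit 82458333589) (nat_lit 76) (nat_lit 81619695941) (nat_lit 1) (nat_lit 4) (nat_lit 2) (nat_lit 5) (nat_lit 2) (nat_lit 4) (nat_lit 397) (nat_lit 327) (nat_lit 296)) (XT.lf (nat_lit 0) (nat_lit 2114881098300) (nat_lit 76) (nat_lit 90759386907) (nat_lit 76) (nat_lit 89919293545) (nat_lit 1) (nat_lit 4) (nat_lit 2) (nat_lit 5) (nat_lit 2) (nat_lit 4) (nat_lit 398) (nat_lit 327) (nat_lit 295))))) (XT.nd (nat_lit 234) (nat_lit 0) (nat_lit 0) (XT.nd (nat_lit 78) (nat_lit 0) (nat_lit 0) (XT.lf (nat_lit 0) (nat_lit 2439569785274) (nat_lit 76) (nat_lit 100317914736) (nat_lit 76) (nat_lit 99476555535) (nat_lit 1) (nat_lit 4) (nat_lit 2) (nat_lit 5) (nat_lit 2) (nat_lit 4) (nat_lit 399) (nat_lit 327) (nat_lit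 294)) (XT.nd (nat_lit 78) (nat_lit 0) (nat_lit 0) (XT.lf (nat_lit 0) (nat_lit 2812941444018) (nat_lit 76) (nat_lit 111320931748) (nat_lit 76) (nat_lit 110478471818) (nat_lit 1) (nat_lit 4) (nat_lit 2) (nat_lit 5) (nat_lit 2) (nat_lit 4) (nat_lit 400) (nat_lit 327) (nat_lit 293)) (XT.lf (nat_lit 0) (nat_lit 3242301172204) (nat_lit 76) (nat_lit 123983714365) (nat_lit 76) (nat_lit 123140297280) (nat_lit 1) (nat_lit 4) (nat_lit 2) (nat_lit 5) (nat_lit 2) (nat_lit 4) (nat_lit 401) (nat_lit 327) (nat_lit 292)))) (XT.nd (nat_lit 78) (nat_lit 0) (nat_lit 0) (XT.lf (nat_lit 0) (nat_lit 3736049486253) (nat_lit 76) (nat_lit 138554012681) (nat_lit 76) (nat_lit 137709763286) (nat_lit 1) (nat_lit 4) (nat_lit 2) (nat_lit 5) (nat_lit 2) (nat_lit 4) (nat_lit 402) (nat_lit 327) (nat_lit 291)) (XT.nd (nat_lit 78) (nat_lit 0) (nat_lit 0) (XT.lf (nat_lit 0) (nat_lit 4303846679266) (nat_lit 76) (nat_lit 155316897750)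 (nat_lit 76) (nat_lit 154471924608) (nat_lit 1) (nat_lit 4) (nat_lit 2) (nat_lit 5) (nat_lit 2) (nat_lit 4) (nat_lit 403) (nat_lit 327) (nat_lit 290)) (XT.lf (nat_lit 0) (nat_lit 4956801826757) (nat_lit 76) (nat_lit 174600339063) (nat_lit 76) (nat_lit 173754736575) (nat_lit 1) (nat_lit 4) (nat_lit 2) (nat_lit 5) (nat_lit 2) (nat_lit 4) (nat_lit 404) (nat_lit 327) (nat_lit 289)))))) (XT.nd (nat_lit 468) (nat_lit 0) (nat_lit 0) (XT.nd (nat_lit 234) (nat_lit 0) (nat_lit 0) (XT.nd (nat_lit 78) (nat_lit 0) (nat_lit 0) (XT.lf (nat_lit 0) (nat_lit 5707690138136) (nat_lit 76) (nat_lit 196781621340) (nat_lit 76) (nat_lit 195935471596) (nat_lit 1) (nat_lit 4) (nat_lit 2) (nat_lit 5) (nat_lit 2) (nat_lit 4) (nat_lit 405) (nat_lit 327) (nat_lit 288)) (XT.nd (nat_lit 78) (nat_lit 0) (nat_lit 0) (XT.lf (nat_lit 0) (nat_lit 6571202906450) (nat_lit 76) (nat_lit 222294726192) (nat_lit 76) (nat_lit 221448100572)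 (nat_lit 1) (nat_lit 4) (nat_lit 2) (nat_lit 5) (nat_lit 2) (nat_lit 4) (nat_lit 406) (nat_lit 327) (nat_lit 287)) (XT.lf (nat_lit 0) (nat_lit 7564234946731) (nat_lit 76) (nat_lit 251638823061) (nat_lit 76) (nat_lit 250791783637) (nat_lit 1) (nat_lit 4) (nat_lit 2) (nat_lit 5) (nat_lit 2) (nat_lit 4) (nat_lit 407) (nat_lit 327) (nat_lit 286)))) (XT.nd (nat_lit 78) (nat_lit 0) (nat_lit 0) (XT.lf (nat_lit 0) (nat_lit 8706215146725) (nat_lit 76) (nat_lit 285388035582) (nat_lit 76) (nat_lit 284540636327) (nat_lit 1) (nat_lit 4) (nat_lit 2) (nat_lit 5) (nat_lit 2) (nat_lit 4) (nat_lit 408) (nat_lit 327) (nat_lit 285)) (XT.nd (nat_lit 78) (nat_lit 0) (nat_lit 0) (XT.lf (nat_lit 0) (nat_lit 10019486597300) (nat_lit 76) (nat_lit 324202674435) (nat_lit 76) (nat_lit 323354962284) (nat_lit 1) (nat_lit 4) (nat_lit 2) (nat_lit 5) (nat_lit 2) (nat_lit 4) (nat_lit 409) (nat_lit 327) (nat_lit 284)) (XT.lf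 (nat_lit 0) (nat_lit 11529743739881) (nat_lit 76) (nat_lit 368842156466) (nat_lit 76) (nat_lit 367994172232) (nat_lit 1) (nat_lit 4) (nat_lit 2) (nat_lit 5) (nat_lit 2) (nat_lit 4) (nat_lit 410) (nat_lit 327) (nat_lit 283))))) (XT.nd (nat_lit 234) (nat_lit 0) (nat_lit 0) (XT.nd (nat_lit 78) (nat_lit 0) (nat_lit 0) (XT.lf (nat_lit 0) (nat_lit 13266535083780) (nat_lit 76) (nat_lit 420179862846) (nat_lit 76) (nat_lit 419331642018) (nat_lit 1) (nat_lit 4) (nat_lit 2) (nat_lit 5) (nat_lit 2) (nat_lit 4) (nat_lit 411) (nat_lit 327) (nat_lit 282)) (XT.nd (nat_lit 78) (nat_lit 0) (nat_lit 0) (XT.lf (nat_lit 0) (nat_lit 15263841329202) (nat_lit 76) (nat_lit 479220226961) (nat_lit 76) (nat_lit 478371800398) (nat_lit 1) (nat_lit 4) (nat_lit 2) (nat_lit 5) (nat_lit 2) (nat_lit 4) (nat_lit 412) (nat_lit 327) (nat_lit 281)) (XT.lf (nat_lit 0) (nat_lit 17560740207038) (nat_lit 76) (nat_lit 547118386369)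 (nat_lit 76) (nat_lit 546269780907) (nat_lit 1) (nat_lit 4) (nat_lit 2) (nat_lit 5) (nat_lit 2) (nat_lit 4) (nat_lit 413) (nat_lit 327) (nat_lit 280)))) (XT.nd (nat_lit 78) (nat_lit 0) (nat_lit 0) (XT.lf (nat_lit 0) (nat_lit 20202171043156) (nat_lit 76) (nat_lit 625202783319) (nat_lit 76) (nat_lit 624354022293) (nat_lit 1) (nat_lit 4) (nat_lit 2) (nat_lit 5) (nat_lit 2) (nat_lit 4) (nat_lit 414) (nat_lit 327) (nat_lit 279)) (XT.nd (nat_lit 78) (nat_lit 0) (nat_lit 0) (XT.lf (nat_lit 0) (nat_lit 23239814006091) (nat_lit 76) (nat_lit 715001156014) (nat_lit 76) (nat_lit 714152259713) (nat_lit 1) (nat_lit 4) (nat_lit 2) (nat_lit 5) (nat_lit 2) (nat_lit 4) (nat_lit 415) (nat_lit 327) (nat_lit 278)) (XT.lf (nat_lit 0) (nat_lit 26733101240769) (nat_lit 76) (nat_lit 818270429135) (nat_lit 76) (nat_lit 817421415205) (nat_lit 1) (nat_lit 4) (nat_lit 2) (nat_lit 5) (nat_lit 2) (nat_lit 4) (nat_lit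 416) (nat_lit 327) (nat_lit 277))))))) (XT.nd (nat_lit 858) (nat_lit 0) (nat_lit 0) (XT.nd (nat_lit 390) (nat_lit 0) (nat_lit 0) (XT.nd (nat_lit 156) (nat_lit 0) (nat_lit 0) (XT.nd (nat_lit 78) (nat_lit 0) (nat_lit 0) (XT.lf (nat_lit 0) (nat_lit 30750379671347) (nat_lit 76) (nat_lit 937031088461) (nat_lit 76) (nat_lit 936181972246) (nat_lit 1) (nat_lit 4) (nat_lit 2) (nat_lit 5) (nat_lit 2) (nat_lit 4) (nat_lit 417) (nat_lit 327) (nat_lit 276)) (XT.lf (nat_lit 0) (nat_lit 35370248223641) (nat_lit 76) (nat_lit 1073606712110) (nat_lit 76) (nat_lit 1072757506950) (nat_lit 1) (nat_lit 4) (nat_lit 2) (nat_lit 5) (nat_lit 2) (nat_lit 4) (nat_lit 418) (nat_lit 327) (nat_lit 275))) (XT.nd (nat_lit 78) (nat_lit 0) (nat_lit 0) (XT.lf (nat_lit 0) (nat_lit 40683095630195) (nat_lit 76) (nat_lit 1230669431849) (nat_lit 76) (nat_lit 1229820149346) (nat_lit 1) (nat_lit 4) (nat_lit 2) (nat_lit 5) (nat_lit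 2) (nat_lit 4) (nat_lit 419) (nat_lit 327) (nat_lit 274)) (XT.nd (nat_lit 78) (nat_lit 0) (nat_lit 0) (XT.lf (nat_lit 0) (nat_lit 46792868905486) (nat_lit 76) (nat_lit 1411292213933) (nat_lit 76) (nat_lit 1410442864175) (nat_lit 1) (nat_lit 4) (nat_lit 2) (nat_lit 5) (nat_lit 2) (nat_lit 4) (nat_lit 420) (nat_lit 327) (nat_lit 273)) (XT.lf (nat_lit 0) (nat_lit 53819107091855) (nat_lit 76) (nat_lit 1619008982360) (nat_lit 76) (nat_lit 1618159574120) (nat_lit 1) (nat_lit 4) (nat_lit 2) (nat_lit 5) (nat_lit 2) (nat_lit 4) (nat_lit 421) (nat_lit 327) (nat_lit 272))))) (XT.nd (nat_lit 234) (nat_lit 0) (nat_lit 0) (XT.nd (nat_lit 78) (nat_lit 0) (nat_lit 0) (XT.lf (nat_lit 0) (nat_lit 61899280066864) (nat_lit 76) (nat_lit 1857883760860) (nat_lit 76) (nat_lit 1857034301765) (nat_lit 1) (nat_lit 4) (nat_lit 2) (nat_lit 5) (nat_lit 2) (nat_lit 4) (nat_lit 422) (nat_lit 327) (nat_lit 271)) (XT.nd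 (nat_lit 78) (nat_lit 0) (nat_lit 0) (XT.lf (nat_lit 0) (nat_lit 71191478171326) (nat_lit 76) (nat_lit 2132590186404) (nat_lit 76) (nat_lit 2131740683087) (nat_lit 1) (nat_lit 4) (nat_lit 2) (nat_lit 5) (nat_lit 2) (nat_lit 4) (nat_lit 423) (nat_lit 327) (nat_lit 270)) (XT.lf (nat_lit 0) (nat_lit 81877505281199) (nat_lit 76) (nat_lit 2448502949925) (nat_lit 76) (nat_lit 2447653408156) (nat_lit 1) (nat_lit 4) (nat_lit 2) (nat_lit 5) (nat_lit 2) (nat_lit 4) (nat_lit 424) (nat_lit 327) (nat_lit 269)))) (XT.nd (nat_lit 78) (nat_lit 0) (nat_lit 0) (XT.lf (nat_lit 0) (nat_lit 94166435839937) (nat_lit 76) (nat_lit 2811802953319) (nat_lit 76) (nat_lit 2810953378112) (nat_lit 1) (nat_lit 4) (nat_lit 2) (nat_lit 5) (nat_lit 2) (nat_lit 4) (nat_lit 425) (nat_lit 327) (nat_lit 268)) (XT.nd (nat_lit 78) (nat_lit 0) (nat_lit 0) (XT.lf (nat_lit 0) (nat_lit 108298705445428) (nat_lit 76) (nat_lit 3229598240131)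 (nat_lit 76) (nat_lit 3228748635848) (nat_lit 1) (nat_lit 4) (nat_lit 2) (nat_lit 5) (nat_lit 2) (nat_lit 4) (nat_lit 426) (nat_lit 327) (nat_lit 267)) (XT.lf (nat_lit 0) (nat_lit 124550815024736) (nat_lit 76) (nat_lit 3710063065973) (nat_lit 76) (nat_lit 3709213436406) (nat_lit 1) (nat_lit 4) (nat_lit 2) (nat_lit 5) (nat_lit 2) (nat_lit 4) (nat_lit 427) (nat_lit 327) (nat_lit 266)))))) (XT.nd (nat_lit 48360) (nat_lit 0) (nat_lit 76) (XT.nd (nat_lit 48126) (nat_lit 0) (nat_lit 304) (XT.nd (nat_lit 78) (nat_lit 0) (nat_lit 0) (XT.lf (nat_lit 0) (nat_lit 143240740634848) (nat_lit 76) (nat_lit 4262597829609) (nat_lit 76) (nat_lit 4261748178057) (nat_lit 1) (nat_lit 4) (nat_lit 2) (nat_lit 5) (nat_lit 2) (nat_lit 4) (nat_lit 428) (nat_lit 327) (nat_lit 265)) (XT.nd (nat_lit 78) (nat_lit 0) (nat_lit 0) (XT.lf (nat_lit 0) (nat_lit 164734154733353) (nat_lit 76) (nat_lit 4898012993809) (nat_lit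 76) (nat_lit 4897163323139) (nat_lit 1) (nat_lit 4) (nat_lit 2) (nat_lit 5) (nat_lit 2) (nat_lit 4) (nat_lit 429) (nat_lit 327) (nat_lit 264)) (XT.lf (nat_lit 0) (nat_lit 189451580639569) (nat_lit 76) (nat_lit 5628740594392) (nat_lit 76) (nat_lit 5627890907097) (nat_lit 1) (nat_lit 4) (nat_lit 2) (nat_lit 5) (nat_lit 2) (nat_lit 4) (nat_lit 430) (nat_lit 327) (nat_lit 263)))) (XT.nd (nat_lit 78) (nat_lit 0) (nat_lit 0) (XT.lf (nat_lit 0) (nat_lit 16802452) (nat_lit 152) (nat_lit 13090002355) (nat_lit 0) (nat_lit 16802452) (nat_lit 5) (nat_lit 5) (nat_lit 7) (nat_lit 4) (nat_lit 5) (nat_lit 4) (nat_lit 364) (nat_lit 328) (nat_lit 328)) (XT.nd (nat_lit 78) (nat_lit 0) (nat_lit 0) (XT.lf (nat_lit 0) (nat_lit 7788510723) (nat_lit 152) (nat_lit 13565362188) (nat_lit 0) (nat_lit 7641920547) (nat_lit 5) (nat_lit 5) (nat_lit 7) (nat_lit 4) (nat_lit 5) (nat_lit 4) (nat_lit 365) (nat_lit 328) (nat_lit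 327)) (XT.lf (nat_lit 0) (nat_lit 16033741184) (nat_lit 152) (nat_lit 464236052) (nat_lit 0) (nat_lit 15759681289) (nat_lit 5) (nat_lit 5) (nat_lit 7) (nat_lit 4) (nat_lit 5) (nat_lit 4) (nat_lit 366) (nat_lit 328) (nat_lit 326))))) (XT.nd (nat_lit 234) (nat_lit 0) (nat_lit 0) (XT.nd (nat_lit 78) (nat_lit 152) (nat_lit 0) (XT.lf (nat_lit 0) (nat_lit 14687261676) (nat_lit 76) (nat_lit 10851522522) (nat_lit 76) (nat_lit 10466619393) (nat_lit 4) (nat_lit 4) (nat_lit 5) (nat_lit 5) (nat_lit 5) (nat_lit 4) (nat_lit 367) (nat_lit 328) (nat_lit 325)) (XT.nd (nat_lit 78) (nat_lit 152) (nat_lit 0) (XT.lf (nat_lit 0) (nat_lit 30996860710) (nat_lit 76) (nat_lit 4939857691) (nat_lit 76) (nat_lit 4458569142) (nat_lit 4) (nat_lit 4) (nat_lit 5) (nat_lit 5) (nat_lit 5) (nat_lit 4) (nat_lit 368) (nat_lit 328) (nat_lit 324)) (XT.lf (nat_lit 0) (nat_lit 1933373449) (nat_lit 152) (nat_lit 42097985014) (nat_lit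 0) (nat_lit 1441980441) (nat_lit 2) (nat_lit 5) (nat_lit 4) (nat_lit 4) (nat_lit 2) (nat_lit 4) (nat_lit 369) (nat_lit 328) (nat_lit 323)))) (XT.nd (nat_lit 78) (nat_lit 0) (nat_lit 0) (XT.lf (nat_lit 0) (nat_lit 9072064565) (nat_lit 152) (nat_lit 33655256575) (nat_lit 0) (nat_lit 8517296579) (nat_lit 2) (nat_lit 5) (nat_lit 4) (nat_lit 4) (nat_lit 2) (nat_lit 4) (nat_lit 370) (nat_lit 328) (nat_lit 322)) (XT.nd (nat_lit 78) (nat_lit 0) (nat_lit 0) (XT.lf (nat_lit 0) (nat_lit 16842013798) (nat_lit 152) (nat_lit 24873396319) (nat_lit 0) (nat_lit 16232137135) (nat_lit 2) (nat_lit 5) (nat_lit 4) (nat_lit 4) (nat_lit 2) (nat_lit 4) (nat_lit 371) (nat_lit 328) (nat_lit 321)) (XT.lf (nat_lit 0) (nat_lit 25395241894) (nat_lit 152) (nat_lit 15580585242) (nat_lit 0) (nat_lit 24737444643) (nat_lit 2) (nat_lit 5) (nat_lit 4) (nat_lit 4) (nat_lit 2) (nat_lit 4) (nat_lit 372) (nat_lit 328) (nat_lit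 320))))))))
noncomputable def xc26 : XT := (XT.nd (nat_lit 1794) (nat_lit 0) (nat_lit 0) (XT.nd (nat_lit 858) (nat_lit 0) (nat_lit 0) (XT.nd (nat_lit 390) (nat_lit 0) (nat_lit 0) (XT.nd (nat_lit 156) (nat_lit 0) (nat_lit 0) (XT.nd (nat_lit 78) (nat_lit 76) (nat_lit 0) (XT.lf (nat_lit 0) (nat_lit 34899094620) (nat_lit 152) (nat_lit 5595007475) (nat_lit 0) (nat_lit 34199627291) (nat_lit 2) (nat_lit 5) (nat_lit 4) (nat_lit 4) (nat_lit 2) (nat_lit 4) (nat_lit 373) (nat_lit 328) (nat_lit 319)) (XT.lf (nat_lit 0) (nat_lit 5794580616) (nat_lit 76) (nat_lit 39984877529) (nat_lit 76) (nat_lit 39249175351) (nat_lit 1) (nat_lit 4) (nat_lit 2) (nat_lit 5) (nat_lit 2) (nat_lit 4) (nat_lit 374) (nat_lit 328) (nat_lit 318))) (XT.nd (nat_lit 78) (nat_lit 0) (nat_lit 0) (XT.lf (nat_lit 0) (nat_lit 18939423128) (nat_lit 76) (nat_lit 39369508965) (nat_lit 76) (nat_lit 38602298222) (nat_lit 1) (nat_lit 4)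 (nat_lit 2) (nat_lit 5) (nat_lit 2) (nat_lit 4) (nat_lit 375) (nat_lit 328) (nat_lit 317)) (XT.nd (nat_lit 78) (nat_lit 0) (nat_lit 0) (XT.lf (nat_lit 0) (nat_lit 33549916938) (nat_lit 76) (nat_lit 38928422883) (nat_lit 76) (nat_lit 38133813388) (nat_lit 1) (nat_lit 4) (nat_lit 2) (nat_lit 5) (nat_lit 2) (nat_lit 4) (nat_lit 376) (nat_lit 328) (nat_lit 316)) (XT.lf (nat_lit 0) (nat_lit 49911919534) (nat_lit 76) (nat_lit 38652989338) (nat_lit 76) (nat_lit 37834554842) (nat_lit 1) (nat_lit 4) (nat_lit 2) (nat_lit 5) (nat_lit 2) (nat_lit 4) (nat_lit 377) (nat_lit 328) (nat_lit 315))))) (XT.nd (nat_lit 234) (nat_lit 0) (nat_lit 0) (XT.nd (nat_lit 78) (nat_lit 0) (nat_lit 0) (XT.lf (nat_lit 0) (nat_lit 68345557053) (nat_lit 76) (nat_lit 38537819413) (nat_lit 76) (nat_lit 37698667524) (nat_lit 1) (nat_lit 4) (nat_lit 2) (nat_lit 5) (nat_lit 2) (nat_lit 4) (nat_lit 378) (nat_lit 328) (nat_lit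 314)) (XT.nd (nat_lit 78) (nat_lit 0) (nat_lit 0) (XT.lf (nat_lit 0) (nat_lit 89211487622) (nat_lit 76) (nat_lit 38580659784) (nat_lit 76) (nat_lit 37723492769) (nat_lit 1) (nat_lit 4) (nat_lit 2) (nat_lit 5) (nat_lit 2) (nat_lit 4) (nat_lit 379) (nat_lit 328) (nat_lit 313)) (XT.lf (nat_lit 0) (nat_lit 112917957707) (nat_lit 76) (nat_lit 38782348630) (nat_lit 76) (nat_lit 37909516291) (nat_lit 1) (nat_lit 4) (nat_lit 2) (nat_lit 5) (nat_lit 2) (nat_lit 4) (nat_lit 380) (nat_lit 328) (nat_lit 312)))) (XT.nd (nat_lit 78) (nat_lit 0) (nat_lit 0) (XT.lf (nat_lit 0) (nat_lit 139928789550) (nat_lit 76) (nat_lit 39146832039) (nat_lit 76) (nat_lit 38260377678) (nat_lit 1) (nat_lit 4) (nat_lit 2) (nat_lit 5) (nat_lit 2) (nat_lit 4) (nat_lit 381) (nat_lit 328) (nat_lit 311)) (XT.nd (nat_lit 78) (nat_lit 0) (nat_lit 0) (XT.lf (nat_lit 0) (nat_lit 170772455947) (nat_lit 76) (nat_lit 39681241208)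 (nat_lit 76) (nat_lit 38782941610) (nat_lit 1) (nat_lit 4) (nat_lit 2) (nat_lit 5) (nat_lit 2) (nat_lit 4) (nat_lit 382) (nat_lit 328) (nat_lit 310)) (XT.lf (nat_lit 0) (nat_lit 206052419937) (nat_lit 76) (nat_lit 40396031968) (nat_lit 76) (nat_lit 39487432164) (nat_lit 1) (nat_lit 4) (nat_lit 2) (nat_lit 5) (nat_lit 2) (nat_lit 4) (nat_lit 383) (nat_lit 328) (nat_lit 309)))))) (XT.nd (nat_lit 468) (nat_lit 0) (nat_lit 0) (XT.nd (nat_lit 234) (nat_lit 0) (nat_lit 0) (XT.nd (nat_lit 78) (nat_lit 0) (nat_lit 0) (XT.lf (nat_lit 0) (nat_lit 246458941684) (nat_lit 76) (nat_lit 41305189356) (nat_lit 76) (nat_lit 40387632851) (nat_lit 1) (nat_lit 4) (nat_lit 2) (nat_lit 5) (nat_lit 2) (nat_lit 4) (nat_lit 384) (nat_lit 328) (nat_lit 308)) (XT.nd (nat_lit 78) (nat_lit 0) (nat_lit 0) (XT.lf (nat_lit 0) (nat_lit 292782583572) (nat_lit 76) (nat_lit 42426501234) (nat_lit 76) (nat_lit 41501156294)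 (nat_lit 1) (nat_lit 4) (nat_lit 2) (nat_lit 5) (nat_lit 2) (nat_lit 4) (nat_lit 385) (nat_lit 328) (nat_lit 307)) (XT.lf (nat_lit 0) (nat_lit 345929677722) (nat_lit 76) (nat_lit 43781906312) (nat_lit 76) (nat_lit 42849788819) (nat_lit 1) (nat_lit 4) (nat_lit 2) (nat_lit 5) (nat_lit 2) (nat_lit 4) (nat_lit 386) (nat_lit 328) (nat_lit 306)))) (XT.nd (nat_lit 78) (nat_lit 0) (nat_lit 0) (XT.lf (nat_lit 0) (nat_lit 406940058587) (nat_lit 76) (nat_lit 45397923385) (nat_lit 76) (nat_lit 44459916717) (nat_lit 1) (nat_lit 4) (nat_lit 2) (nat_lit 5) (nat_lit 2) (nat_lit 4) (nat_lit 387) (nat_lit 328) (nat_lit 305)) (XT.nd (nat_lit 78) (nat_lit 0) (nat_lit 0) (XT.lf (nat_lit 0) (nat_lit 477007407532) (nat_lit 76) (nat_lit 47306170180) (nat_lit 76) (nat_lit 46363042488) (nat_lit 1) (nat_lit 4) (nat_lit 2) (nat_lit 5) (nat_lit 2) (nat_lit 4) (nat_lit 388) (nat_lit 328) (nat_lit 304)) (XT.lf (nat_lit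 0) (nat_lit 557502607469) (nat_lit 76) (nat_lit 49543981958) (nat_lit 76) (nat_lit 48596401204) (nat_lit 1) (nat_lit 4) (nat_lit 2) (nat_lit 5) (nat_lit 2) (nat_lit 4) (nat_lit 389) (nat_lit 328) (nat_lit 303))))) (XT.nd (nat_lit 234) (nat_lit 0) (nat_lit 0) (XT.nd (nat_lit 78) (nat_lit 0) (nat_lit 0) (XT.lf (nat_lit 0) (nat_lit 650000564486) (nat_lit 76) (nat_lit 52155141995) (nat_lit 76) (nat_lit 51203689011) (nat_lit 1) (nat_lit 4) (nat_lit 2) (nat_lit 5) (nat_lit 2) (nat_lit 4) (nat_lit 390) (nat_lit 328) (nat_lit 302)) (XT.nd (nat_lit 78) (nat_lit 0) (nat_lit 0) (XT.lf (nat_lit 0) (nat_lit 756311021218) (nat_lit 76) (nat_lit 55190738203) (nat_lit 76) (nat_lit 54235918064) (nat_lit 1) (nat_lit 4) (nat_lit 2) (nat_lit 5) (nat_lit 2) (nat_lit 4) (nat_lit 391) (nat_lit 328) (nat_lit 301)) (XT.lf (nat_lit 0) (nat_lit 878513964864) (nat_lit 76) (nat_lit 58710162683) (nat_lit 76) (nat_lit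 57752414583) (nat_lit 1) (nat_lit 4) (nat_lit 2) (nat_lit 5) (nat_lit 2) (nat_lit 4) (nat_lit 392) (nat_lit 328) (nat_lit 300)))) (XT.nd (nat_lit 78) (nat_lit 0) (nat_lit 0) (XT.lf (nat_lit 0) (nat_lit 1019000322581) (nat_lit 76) (nat_lit 62782273740) (nat_lit 76) (nat_lit 61821979586) (nat_lit 1) (nat_lit 4) (nat_lit 2) (nat_lit 5) (nat_lit 2) (nat_lit 4) (nat_lit 393) (nat_lit 328) (nat_lit 299)) (XT.nd (nat_lit 78) (nat_lit 0) (nat_lit 0) (XT.lf (nat_lit 0) (nat_lit 1180518740499) (nat_lit 76) (nat_lit 67486743111) (nat_lit 76) (nat_lit 66524234998) (nat_lit 1) (nat_lit 4) (nat_lit 2) (nat_lit 5) (nat_lit 2) (nat_lit 4) (nat_lit 394) (nat_lit 328) (nat_lit 298)) (XT.lf (nat_lit 0) (nat_lit 1366229361577) (nat_lit 76) (nat_lit 72915614763) (nat_lit 76) (nat_lit 71951181468) (nat_lit 1) (nat_lit 4) (nat_lit 2) (nat_lit 5) (nat_lit 2) (nat_lit 4) (nat_lit 395) (nat_lit 328) (nat_lit 297)))))))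 (XT.nd (nat_lit 858) (nat_lit 0) (nat_lit 0) (XT.nd (nat_lit 390) (nat_lit 0) (nat_lit 0) (XT.nd (nat_lit 156) (nat_lit 0) (nat_lit 0) (XT.nd (nat_lit 78) (nat_lit 0) (nat_lit 0) (XT.lf (nat_lit 0) (nat_lit 1579765654488) (nat_lit 76) (nat_lit 79175105750) (nat_lit 76) (nat_lit 78208998384) (nat_lit 1) (nat_lit 4) (nat_lit 2) (nat_lit 5) (nat_lit 2) (nat_lit 4) (nat_lit 396) (nat_lit 328) (nat_lit 296)) (XT.lf (nat_lit 0) (nat_lit 1825305503225) (nat_lit 76) (nat_lit 86387684373) (nat_lit 76) (nat_lit 85420121293) (nat_lit 1) (nat_lit 4) (nat_lit 2) (nat_lit 5) (nat_lit 2) (nat_lit 4) (nat_lit 397) (nat_lit 328) (nat_lit 295))) (XT.nd (nat_lit 78) (nat_lit 0) (nat_lit 0) (XT.lf (nat_lit 0) (nat_lit 2107652948304) (nat_lit 76) (nat_lit 94694466302) (nat_lit 76) (nat_lit 93725637383) (nat_lit 1) (nat_lit 4) (nat_lit 2) (nat_lit 5) (nat_lit 2) (nat_lit 4) (nat_lit 398) (nat_lit 328) (nat_lit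 294)) (XT.nd (nat_lit 78) (nat_lit 0) (nat_lit 0) (XT.lf (nat_lit 0) (nat_lit 2432332178871) (nat_lit 76) (nat_lit 104257975530) (nat_lit 76) (nat_lit 103288045882) (nat_lit 1) (nat_lit 4) (nat_lit 2) (nat_lit 5) (nat_lit 2) (nat_lit 4) (nat_lit 399) (nat_lit 328) (nat_lit 293)) (XT.lf (nat_lit 0) (nat_lit 2805695614653) (nat_lit 76) (nat_lit 115265324195) (nat_lit 76) (nat_lit 114294437391) (nat_lit 1) (nat_lit 4) (nat_lit 2) (nat_lit 5) (nat_lit 2) (nat_lit 4) (nat_lit 400) (nat_lit 328) (nat_lit 292))))) (XT.nd (nat_lit 234) (nat_lit 0) (nat_lit 0) (XT.nd (nat_lit 78) (nat_lit 0) (nat_lit 0) (XT.lf (nat_lit 0) (nat_lit 3235048192436) (nat_lit 76) (nat_lit 127931873466) (nat_lit 76) (nat_lit 126960154353) (nat_lit 1) (nat_lit 4) (nat_lit 2) (nat_lit 5) (nat_lit 2) (nat_lit 4) (nat_lit 401) (nat_lit 328) (nat_lit 291)) (XT.nd (nat_lit 78) (nat_lit 0) (nat_lit 0) (XT.lf (nat_lit 0) (nat_lit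 3728790288744) (nat_lit 76) (nat_lit 142505447134) (nat_lit 76) (nat_lit 141533004273) (nat_lit 1) (nat_lit 4) (nat_lit 2) (nat_lit 5) (nat_lit 2) (nat_lit 4) (nat_lit 402) (nat_lit 328) (nat_lit 290)) (XT.lf (nat_lit 0) (nat_lit 4296582075025) (nat_lit 76) (nat_lit 159271180335) (nat_lit 76) (nat_lit 158298108128) (nat_lit 1) (nat_lit 4) (nat_lit 2) (nat_lit 5) (nat_lit 2) (nat_lit 4) (nat_lit 403) (nat_lit 328) (nat_lit 289)))) (XT.nd (nat_lit 78) (nat_lit 0) (nat_lit 0) (XT.lf (nat_lit 0) (nat_lit 4949532521011) (nat_lit 76) (nat_lit 178557098283) (nat_lit 76) (nat_lit 177583478820) (nat_lit 1) (nat_lit 4) (nat_lit 2) (nat_lit 5) (nat_lit 2) (nat_lit 4) (nat_lit 404) (nat_lit 328) (nat_lit 288)) (XT.nd (nat_lit 78) (nat_lit 0) (nat_lit 0) (XT.lf (nat_lit 0) (nat_lit 5700416744124) (nat_lit 76) (nat_lit 200740534158) (nat_lit 76) (nat_lit 199766438819) (nat_lit 1) (nat_lit 4) (nat_lit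 2) (nat_lit 5) (nat_lit 2) (nat_lit 4) (nat_lit 405) (nat_lit 328) (nat_lit 287)) (XT.lf (nat_lit 0) (nat_lit 6563925957424) (nat_lit 76) (nat_lit 226255511702) (nat_lit 76) (nat_lit 225281002559) (nat_lit 1) (nat_lit 4) (nat_lit 2) (nat_lit 5) (nat_lit 2) (nat_lit 4) (nat_lit 406) (nat_lit 328) (nat_lit 286)))))) (XT.nd (nat_lit 468) (nat_lit 0) (nat_lit 0) (XT.nd (nat_lit 234) (nat_lit 0) (nat_lit 0) (XT.nd (nat_lit 78) (nat_lit 0) (nat_lit 0) (XT.lf (nat_lit 0) (nat_lit 7556954906389) (nat_lit 76) (nat_lit 255601237000) (nat_lit 76) (nat_lit 254626368026) (nat_lit 1) (nat_lit 4) (nat_lit 2) (nat_lit 5) (nat_lit 2) (nat_lit 4) (nat_lit 407) (nat_lit 328) (nat_lit 285)) (XT.nd (nat_lit 78) (nat_lit 0) (nat_lit 0) (XT.lf (nat_lit 0) (nat_lit 8698932418281) (nat_lit 76) (nat_lit 289351865546) (nat_lit 76) (nat_lit 288376683676) (nat_lit 1) (nat_lit 4) (nat_lit 2) (nat_lit 5) (nat_lit 2)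 (nat_lit 4) (nat_lit 408) (nat_lit 328) (nat_lit 284)) (XT.lf (nat_lit 0) (nat_lit 10012201531378) (nat_lit 76) (nat_lit 328167735725) (nat_lit 76) (nat_lit 327192281772) (nat_lit 1) (nat_lit 4) (nat_lit 2) (nat_lit 5) (nat_lit 2) (nat_lit 4) (nat_lit 409) (nat_lit 328) (nat_lit 283)))) (XT.nd (nat_lit 78) (nat_lit 0) (nat_lit 0) (XT.lf (nat_lit 0) (nat_lit 11522456641368) (nat_lit 76) (nat_lit 372808288474) (nat_lit 76) (nat_lit 371832597927) (nat_lit 1) (nat_lit 4) (nat_lit 2) (nat_lit 5) (nat_lit 2) (nat_lit 4) (nat_lit 410) (nat_lit 328) (nat_lit 282)) (XT.nd (nat_lit 78) (nat_lit 0) (nat_lit 0) (XT.lf (nat_lit 0) (nat_lit 13259246217796) (nat_lit 76) (nat_lit 424146925914) (nat_lit 76) (nat_lit 423171029632) (nat_lit 1) (nat_lit 4) (nat_lit 2) (nat_lit 5) (nat_lit 2) (nat_lit 4) (nat_lit 411) (nat_lit 328) (nat_lit 281)) (XT.lf (nat_lit 0) (nat_lit 15256550926289) (nat_lit 76) (nat_lit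 483188099645) (nat_lit 76) (nat_lit 482212024464) (nat_lit 1) (nat_lit 4) (nat_lit 2) (nat_lit 5) (nat_lit 2) (nat_lit 4) (nat_lit 412) (nat_lit 328) (nat_lit 280))))) (XT.nd (nat_lit 234) (nat_lit 0) (nat_lit 0) (XT.nd (nat_lit 78) (nat_lit 0) (nat_lit 0) (XT.lf (nat_lit 0) (nat_lit 17553448467663) (nat_lit 76) (nat_lit 551086963067) (nat_lit 76) (nat_lit 550110732322) (nat_lit 1) (nat_lit 4) (nat_lit 2) (nat_lit 5) (nat_lit 2) (nat_lit 4) (nat_lit 413) (nat_lit 328) (nat_lit 279)) (XT.nd (nat_lit 78) (nat_lit 0) (nat_lit 0) (XT.lf (nat_lit 0) (nat_lit 20194878141641) (nat_lit 76) (nat_lit 629171972204) (nat_lit 76) (nat_lit 628195606186) (nat_lit 1) (nat_lit 4) (nat_lit 2) (nat_lit 5) (nat_lit 2) (nat_lit 4) (nat_lit 414) (nat_lit 328) (nat_lit 278)) (XT.lf (nat_lit 0) (nat_lit 23232520094019) (nat_lit 76) (nat_lit 718970877235) (nat_lit 76) (nat_lit 717994393587) (nat_lit 1) (nat_lit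 4) (nat_lit 2) (nat_lit 5) (nat_lit 2) (nat_lit 4) (nat_lit 415) (nat_lit 328) (nat_lit 277)))) (XT.nd (nat_lit 78) (nat_lit 0) (nat_lit 0) (XT.lf (nat_lit 0) (nat_lit 26725806449952) (nat_lit 76) (nat_lit 822240613257) (nat_lit 76) (nat_lit 821264027323) (nat_lit 1) (nat_lit 4) (nat_lit 2) (nat_lit 5) (nat_lit 2) (nat_lit 4) (nat_lit 416) (nat_lit 328) (nat_lit 276)) (XT.nd (nat_lit 78) (nat_lit 0) (nat_lit 0) (XT.lf (nat_lit 0) (nat_lit 30743084116404) (nat_lit 76) (nat_lit 941001675106) (nat_lit 76) (nat_lit 940025000227) (nat_lit 1) (nat_lit 4) (nat_lit 2) (nat_lit 5) (nat_lit 2) (nat_lit 4) (nat_lit 417) (nat_lit 328) (nat_lit 275)) (XT.lf (nat_lit 0) (nat_lit 35362952004240) (nat_lit 76) (nat_lit 1077577648775) (nat_lit 76) (nat_lit 1076600896553) (nat_lit 1) (nat_lit 4) (nat_lit 2) (nat_lit 5) (nat_lit 2) (nat_lit 4) (nat_lit 418) (nat_lit 328) (nat_lit 274))))))))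
noncomputable def xc27 : XT := (XT.nd (nat_lit 49530) (nat_lit 0) (nat_lit 0) (XT.nd (nat_lit 858) (nat_lit 0) (nat_lit 0) (XT.nd (nat_lit 390) (nat_lit 0) (nat_lit 0) (XT.nd (nat_lit 156) (nat_lit 0) (nat_lit 0) (XT.nd (nat_lit 78) (nat_lit 0) (nat_lit 0) (XT.lf (nat_lit 0) (nat_lit 40675798833005) (nat_lit 76) (nat_lit 1234640672879) (nat_lit 76) (nat_lit 1233663853402) (nat_lit 1) (nat_lit 4) (nat_lit 2) (nat_lit 5) (nat_lit 2) (nat_lit 4) (nat_lit 419) (nat_lit 328) (nat_lit 273)) (XT.lf (nat_lit 0) (nat_lit 46785571605870) (nat_lit 76) (nat_lit 1415263719628) (nat_lit 76) (nat_lit 1414286841669) (nat_lit 1) (nat_lit 4) (nat_lit 2) (nat_lit 5) (nat_lit 2) (nat_lit 4) (nat_lit 420) (nat_lit 328) (nat_lit 272))) (XT.nd (nat_lit 78) (nat_lit 0) (nat_lit 0) (XT.lf (nat_lit 0) (nat_lit 53811809355349) (nat_lit 76) (nat_lit 1622980718199) (nat_lit 76) (nat_lit 1622003789385) (nat_lit 1)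 (nat_lit 4) (nat_lit 2) (nat_lit 5) (nat_lit 2) (nat_lit 4) (nat_lit 421) (nat_lit 328) (nat_lit 271)) (XT.nd (nat_lit 78) (nat_lit 0) (nat_lit 0) (XT.lf (nat_lit 0) (nat_lit 61891981950451) (nat_lit 76) (nat_lit 1861855696823) (nat_lit 76) (nat_lit 1860878723789) (nat_lit 1) (nat_lit 4) (nat_lit 2) (nat_lit 5) (nat_lit 2) (nat_lit 4) (nat_lit 422) (nat_lit 328) (nat_lit 270)) (XT.lf (nat_lit 0) (nat_lit 71184179724561) (nat_lit 76) (nat_lit 2136562296388) (nat_lit 76) (nat_lit 2135585284901) (nat_lit 1) (nat_lit 4) (nat_lit 2) (nat_lit 5) (nat_lit 2) (nat_lit 4) (nat_lit 423) (nat_lit 328) (nat_lit 269))))) (XT.nd (nat_lit 234) (nat_lit 0) (nat_lit 0) (XT.nd (nat_lit 78) (nat_lit 0) (nat_lit 0) (XT.lf (nat_lit 0) (nat_lit 81870206547170) (nat_lit 76) (nat_lit 2452475211233) (nat_lit 76) (nat_lit 2451498166307) (nat_lit 1) (nat_lit 4) (nat_lit 2) (nat_lit 5) (nat_lit 2) (nat_lit 4) (nat_lit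 424) (nat_lit 328) (nat_lit 268)) (XT.nd (nat_lit 78) (nat_lit 0) (nat_lit 0) (XT.lf (nat_lit 0) (nat_lit 94159136856114) (nat_lit 76) (nat_lit 2815775346213) (nat_lit 76) (nat_lit 2814798272211) (nat_lit 1) (nat_lit 4) (nat_lit 2) (nat_lit 5) (nat_lit 2) (nat_lit 4) (nat_lit 425) (nat_lit 328) (nat_lit 267)) (XT.lf (nat_lit 0) (nat_lit 108291406244393) (nat_lit 76) (nat_lit 3233570747447) (nat_lit 76) (nat_lit 3232593648162) (nat_lit 1) (nat_lit 4) (nat_lit 2) (nat_lit 5) (nat_lit 2) (nat_lit 4) (nat_lit 426) (nat_lit 328) (nat_lit 266)))) (XT.nd (nat_lit 78) (nat_lit 0) (nat_lit 0) (XT.lf (nat_lit 0) (nat_lit 124543515634821) (nat_lit 76) (nat_lit 3714035672785) (nat_lit 76) (nat_lit 3713058551514) (nat_lit 1) (nat_lit 4) (nat_lit 2) (nat_lit 5) (nat_lit 2) (nat_lit 4) (nat_lit 427) (nat_lit 328) (nat_lit 265)) (XT.nd (nat_lit 78) (nat_lit 0) (nat_lit 0) (XT.lf (nat_lit 0) (nat_lit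 143233441080689) (nat_lit 76) (nat_lit 4266570522942) (nat_lit 76) (nat_lit 4265593382553) (nat_lit 1) (nat_lit 4) (nat_lit 2) (nat_lit 5) (nat_lit 2) (nat_lit 4) (nat_lit 428) (nat_lit 328) (nat_lit 264)) (XT.lf (nat_lit 0) (nat_lit 164726855036373) (nat_lit 76) (nat_lit 4901985762376) (nat_lit 76) (nat_lit 4901008605362) (nat_lit 1) (nat_lit 4) (nat_lit 2) (nat_lit 5) (nat_lit 2) (nat_lit 4) (nat_lit 429) (nat_lit 328) (nat_lit 263)))))) (XT.nd (nat_lit 48204) (nat_lit 0) (nat_lit 76) (XT.nd (nat_lit 47970) (nat_lit 0) (nat_lit 304) (XT.nd (nat_lit 47814) (nat_lit 0) (nat_lit 456) (XT.lf (nat_lit 0) (nat_lit 189444280818397) (nat_lit 76) (nat_lit 5632713428380) (nat_lit 76) (nat_lit 5631736256911) (nat_lit 1) (nat_lit 4) (nat_lit 2) (nat_lit 5) (nat_lit 2) (nat_lit 4) (nat_lit 430) (nat_lit 328) (nat_lit 262)) (XT.nd (nat_lit 78) (nat_lit 76) (nat_lit 0) (XT.lf (nat_lit 0) (nat_lit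 4245017214) (nat_lit 152) (nat_lit 2326189772) (nat_lit 0) (nat_lit 4245017214) (nat_lit 8) (nat_lit 5) (nat_lit 10) (nat_lit 4) (nat_lit 8) (nat_lit 4) (nat_lit 362) (nat_lit 329) (nat_lit 329)) (XT.lf (nat_lit 0) (nat_lit 9838744341) (nat_lit 76) (nat_lit 7063600031) (nat_lit 76) (nat_lit 6869734523) (nat_lit 7) (nat_lit 4) (nat_lit 8) (nat_lit 5) (nat_lit 8) (nat_lit 4) (nat_lit 363) (nat_lit 329) (nat_lit 328)))) (XT.nd (nat_lit 78) (nat_lit 152) (nat_lit 0) (XT.lf (nat_lit 0) (nat_lit 25691204530) (nat_lit 76) (nat_lit 482219013) (nat_lit 76) (nat_lit 119774802) (nat_lit 7) (nat_lit 4) (nat_lit 8) (nat_lit 5) (nat_lit 8) (nat_lit 4) (nat_lit 364) (nat_lit 329) (nat_lit 327)) (XT.nd (nat_lit 78) (nat_lit 0) (nat_lit 0) (XT.lf (nat_lit 0) (nat_lit 7284178195) (nat_lit 152) (nat_lit 14971074952) (nat_lit 0) (nat_lit 6841539598) (nat_lit 5) (nat_lit 5) (nat_lit 7) (nat_lit 4) (nat_lit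 5) (nat_lit 4) (nat_lit 365) (nat_lit 329) (nat_lit 326)) (XT.lf (nat_lit 0) (nat_lit 15257250423) (nat_lit 152) (nat_lit 2438487852) (nat_lit 0) (nat_lit 14703768592) (nat_lit 5) (nat_lit 5) (nat_lit 7) (nat_lit 4) (nat_lit 5) (nat_lit 4) (nat_lit 366) (nat_lit 329) (nat_lit 325))))) (XT.nd (nat_lit 234) (nat_lit 76) (nat_lit 0) (XT.nd (nat_lit 78) (nat_lit 76) (nat_lit 0) (XT.lf (nat_lit 0) (nat_lit 11977375280) (nat_lit 76) (nat_lit 12436048207) (nat_lit 76) (nat_lit 11786180955) (nat_lit 4) (nat_lit 4) (nat_lit 5) (nat_lit 5) (nat_lit 5) (nat_lit 4) (nat_lit 367) (nat_lit 329) (nat_lit 324)) (XT.nd (nat_lit 78) (nat_lit 76) (nat_lit 0) (XT.lf (nat_lit 0) (nat_lit 27815064443) (nat_lit 76) (nat_lit 6770961741) (nat_lit 76) (nat_lit 6037281081) (nat_lit 4) (nat_lit 4) (nat_lit 5) (nat_lit 5) (nat_lit 5) (nat_lit 4) (nat_lit 368) (nat_lit 329) (nat_lit 323)) (XT.lf (nat_lit 0) (nat_lit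 81491319) (nat_lit 152) (nat_lit 631355548) (nat_lit 76) (nat_lit 45060389606) (nat_lit 3) (nat_lit 5) (nat_lit 5) (nat_lit 5) (nat_lit 4) (nat_lit 4) (nat_lit 369) (nat_lit 329) (nat_lit 322)))) (XT.nd (nat_lit 78) (nat_lit 0) (nat_lit 0) (XT.lf (nat_lit 0) (nat_lit 6956160626) (nat_lit 152) (nat_lit 38428276735) (nat_lit 0) (nat_lit 6199693787) (nat_lit 2) (nat_lit 5) (nat_lit 4) (nat_lit 4) (nat_lit 2) (nat_lit 4) (nat_lit 370) (nat_lit 329) (nat_lit 321)) (XT.nd (nat_lit 78) (nat_lit 0) (nat_lit 0) (XT.lf (nat_lit 0) (nat_lit 14548336128) (nat_lit 152) (nat_lit 30021452859) (nat_lit 0) (nat_lit 13743948700) (nat_lit 2) (nat_lit 5) (nat_lit 4) (nat_lit 4) (nat_lit 2) (nat_lit 4) (nat_lit 371) (nat_lit 329) (nat_lit 320)) (XT.lf (nat_lit 0) (nat_lit 22946978370) (nat_lit 152) (nat_lit 21054760374) (nat_lit 0) (nat_lit 22100920866) (nat_lit 2) (nat_lit 5) (nat_lit 4) (nat_lit 4) (nat_lit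 2) (nat_lit 4) (nat_lit 372) (nat_lit 329) (nat_lit 319))))))) (XT.nd (nat_lit 858) (nat_lit 0) (nat_lit 0) (XT.nd (nat_lit 390) (nat_lit 0) (nat_lit 0) (XT.nd (nat_lit 156) (nat_lit 76) (nat_lit 0) (XT.nd (nat_lit 78) (nat_lit 0) (nat_lit 0) (XT.lf (nat_lit 0) (nat_lit 32316408615) (nat_lit 152) (nat_lit 11352763991) (nat_lit 0) (nat_lit 31434116261) (nat_lit 2) (nat_lit 5) (nat_lit 4) (nat_lit 4) (nat_lit 2) (nat_lit 4) (nat_lit 373) (nat_lit 329) (nat_lit 318)) (XT.lf (nat_lit 0) (nat_lit 42839941802) (nat_lit 152) (nat_lit 725642043) (nat_lit 0) (nat_lit 41926140882) (nat_lit 2) (nat_lit 5) (nat_lit 4) (nat_lit 4) (nat_lit 2) (nat_lit 4) (nat_lit 374) (nat_lit 329) (nat_lit 317))) (XT.nd (nat_lit 78) (nat_lit 0) (nat_lit 0) (XT.lf (nat_lit 0) (nat_lit 12112901692) (nat_lit 76) (nat_lit 43112140880) (nat_lit 76) (nat_lit 42170941208) (nat_lit 1) (nat_lit 4) (nat_lit 2) (nat_lit 5)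 (nat_lit 2) (nat_lit 4) (nat_lit 375) (nat_lit 329) (nat_lit 316)) (XT.nd (nat_lit 78) (nat_lit 0) (nat_lit 0) (XT.lf (nat_lit 0) (nat_lit 26518713974) (nat_lit 76) (nat_lit 42778875937) (nat_lit 76) (nat_lit 41813851264) (nat_lit 1) (nat_lit 4) (nat_lit 2) (nat_lit 5) (nat_lit 2) (nat_lit 4) (nat_lit 376) (nat_lit 329) (nat_lit 315)) (XT.lf (nat_lit 0) (nat_lit 42702732632) (nat_lit 76) (nat_lit 42597199904) (nat_lit 76) (nat_lit 41611457838) (nat_lit 1) (nat_lit 4) (nat_lit 2) (nat_lit 5) (nat_lit 2) (nat_lit 4) (nat_lit 377) (nat_lit 329) (nat_lit 314))))) (XT.nd (nat_lit 234) (nat_lit 0) (nat_lit 0) (XT.nd (nat_lit 78) (nat_lit 0) (nat_lit 0) (XT.lf (nat_lit 0) (nat_lit 60981601510) (nat_lit 76) (nat_lit 42563558251) (nat_lit 76) (nat_lit 41559801060) (nat_lit 1) (nat_lit 4) (nat_lit 2) (nat_lit 5) (nat_lit 2) (nat_lit 4) (nat_lit 378) (nat_lit 329) (nat_lit 313)) (XT.nd (nat_lit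 78) (nat_lit 0) (nat_lit 0) (XT.lf (nat_lit 0) (nat_lit 81712950652) (nat_lit 76) (nat_lit 42677292770) (nat_lit 76) (nat_lit 41657870254) (nat_lit 1) (nat_lit 4) (nat_lit 2) (nat_lit 5) (nat_lit 2) (nat_lit 4) (nat_lit 379) (nat_lit 329) (nat_lit 312)) (XT.lf (nat_lit 0) (nat_lit 105302393409) (nat_lit 76) (nat_lit 42940628703) (nat_lit 76) (nat_lit 41907584165) (nat_lit 1) (nat_lit 4) (nat_lit 2) (nat_lit 5) (nat_lit 2) (nat_lit 4) (nat_lit 380) (nat_lit 329) (nat_lit 311)))) (XT.nd (nat_lit 78) (nat_lit 0) (nat_lit 0) (XT.lf (nat_lit 0) (nat_lit 132211462358) (nat_lit 76) (nat_lit 43358718274) (nat_lit 76) (nat_lit 42313828500) (nat_lit 1) (nat_lit 4) (nat_lit 2) (nat_lit 5) (nat_lit 2) (nat_lit 4) (nat_lit 381) (nat_lit 329) (nat_lit 310)) (XT.nd (nat_lit 78) (nat_lit 0) (nat_lit 0) (XT.lf (nat_lit 0) (nat_lit 162966639282) (nat_lit 76) (nat_lit 43939741497) (nat_lit 76) (nat_lit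 42884551517) (nat_lit 1) (nat_lit 4) (nat_lit 2) (nat_lit 5) (nat_lit 2) (nat_lit 4) (nat_lit 382) (nat_lit 329) (nat_lit 309)) (XT.lf (nat_lit 0) (nat_lit 198169655904) (nat_lit 76) (nat_lit 44695066217) (nat_lit 76) (nat_lit 43630919536) (nat_lit 1) (nat_lit 4) (nat_lit 2) (nat_lit 5) (nat_lit 2) (nat_lit 4) (nat_lit 383) (nat_lit 329) (nat_lit 308)))))) (XT.nd (nat_lit 468) (nat_lit 0) (nat_lit 0) (XT.nd (nat_lit 234) (nat_lit 0) (nat_lit 0) (XT.nd (nat_lit 78) (nat_lit 0) (nat_lit 0) (XT.lf (nat_lit 0) (nat_lit 238509266897) (nat_lit 76) (nat_lit 45639470527) (nat_lit 76) (nat_lit 44567535410) (nat_lit 1) (nat_lit 4) (nat_lit 2) (nat_lit 5) (nat_lit 2) (nat_lit 4) (nat_lit 384) (nat_lit 329) (nat_lit 307)) (XT.nd (nat_lit 78) (nat_lit 0) (nat_lit 0) (XT.lf (nat_lit 0) (nat_lit 284774725519) (nat_lit 76) (nat_lit 46791431901) (nat_lit 76) (nat_lit 45712724233) (nat_lit 1) (nat_lit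 4) (nat_lit 2) (nat_lit 5) (nat_lit 2) (nat_lit 4) (nat_lit 385) (nat_lit 329) (nat_lit 306)) (XT.lf (nat_lit 0) (nat_lit 337871225527) (nat_lit 76) (nat_lit 48173488716) (nat_lit 76) (nat_lit 47088891871) (nat_lit 1) (nat_lit 4) (nat_lit 2) (nat_lit 5) (nat_lit 2) (nat_lit 4) (nat_lit 386) (nat_lit 329) (nat_lit 305)))) (XT.nd (nat_lit 78) (nat_lit 0) (nat_lit 0) (XT.lf (nat_lit 0) (nat_lit 398837611485) (nat_lit 76) (nat_lit 49812681213) (nat_lit 76) (nat_lit 48722963345) (nat_lit 1) (nat_lit 4) (nat_lit 2) (nat_lit 5) (nat_lit 2) (nat_lit 4) (nat_lit 387) (nat_lit 329) (nat_lit 304)) (XT.nd (nat_lit 78) (nat_lit 0) (nat_lit 0) (XT.lf (nat_lit 0) (nat_lit 468866703988) (nat_lit 76) (nat_lit 51741080549) (nat_lit 76) (nat_lit 50646909618) (nat_lit 1) (nat_lit 4) (nat_lit 2) (nat_lit 5) (nat_lit 2) (nat_lit 4) (nat_lit 388) (nat_lit 329) (nat_lit 303)) (XT.lf (nat_lit 0) (nat_lit 549328637455)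 (nat_lit 76) (nat_lit 53996416277) (nat_lit 76) (nat_lit 52898373117) (nat_lit 1) (nat_lit 4) (nat_lit 2) (nat_lit 5) (nat_lit 2) (nat_lit 4) (nat_lit 389) (nat_lit 329) (nat_lit 302))))) (XT.nd (nat_lit 234) (nat_lit 0) (nat_lit 0) (XT.nd (nat_lit 78) (nat_lit 0) (nat_lit 0) (XT.lf (nat_lit 0) (nat_lit 641797667105) (nat_lit 76) (nat_lit 56622814531) (nat_lit 76) (nat_lit 55521404215) (nat_lit 1) (nat_lit 4) (nat_lit 2) (nat_lit 5) (nat_lit 2) (nat_lit 4) (nat_lit 390) (nat_lit 329) (nat_lit 301)) (XT.nd (nat_lit 78) (nat_lit 0) (nat_lit 0) (XT.lf (nat_lit 0) (nat_lit 748082969607) (nat_lit 76) (nat_lit 59671661362) (nat_lit 76) (nat_lit 58567323086) (nat_lit 1) (nat_lit 4) (nat_lit 2) (nat_lit 5) (nat_lit 2) (nat_lit 4) (nat_lit 391) (nat_lit 329) (nat_lit 300)) (XT.lf (nat_lit 0) (nat_lit 870264040008) (nat_lit 76) (nat_lit 63202608124) (nat_lit 76) (nat_lit 62095723794) (nat_lit 1)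 (nat_lit 4) (nat_lit 2) (nat_lit 5) (nat_lit 2) (nat_lit 4) (nat_lit 392) (nat_lit 329) (nat_lit 299)))) (XT.nd (nat_lit 78) (nat_lit 0) (nat_lit 0) (XT.lf (nat_lit 0) (nat_lit 1010731377513) (nat_lit 76) (nat_lit 67284738555) (nat_lit 76) (nat_lit 66175640266) (nat_lit 1) (nat_lit 4) (nat_lit 2) (nat_lit 5) (nat_lit 2) (nat_lit 4) (nat_lit 393) (nat_lit 329) (nat_lit 298)) (XT.nd (nat_lit 78) (nat_lit 0) (nat_lit 0) (XT.lf (nat_lit 0) (nat_lit 1172233256116) (nat_lit 76) (nat_lit 71997920427) (nat_lit 76) (nat_lit 70886896955) (nat_lit 1) (nat_lit 4) (nat_lit 2) (nat_lit 5) (nat_lit 2) (nat_lit 4) (nat_lit 394) (nat_lit 329) (nat_lit 297)) (XT.lf (nat_lit 0) (nat_lit 1357929495181) (nat_lit 76) (nat_lit 77434368166) (nat_lit 76) (nat_lit 76321670623) (nat_lit 1) (nat_lit 4) (nat_lit 2) (nat_lit 5) (nat_lit 2) (nat_lit 4) (nat_lit 395) (nat_lit 329) (nat_lit 296))))))))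
noncomputable def xc28 : XT := (XT.nd (nat_lit 1716) (nat_lit 0) (nat_lit 0) (XT.nd (nat_lit 858) (nat_lit 0) (nat_lit 0) (XT.nd (nat_lit 390) (nat_lit 0) (nat_lit 0) (XT.nd (nat_lit 156) (nat_lit 0) (nat_lit 0) (XT.nd (nat_lit 78) (nat_lit 0) (nat_lit 0) (XT.lf (nat_lit 0) (nat_lit 1571453281993) (nat_lit 76) (nat_lit 83700447054) (nat_lit 76) (nat_lit 82586293797) (nat_lit 1) (nat_lit 4) (nat_lit 2) (nat_lit 5) (nat_lit 2) (nat_lit 4) (nat_lit 396) (nat_lit 329) (nat_lit 295)) (XT.lf (nat_lit 0) (nat_lit 1816982255861) (nat_lit 76) (nat_lit 90918754287) (nat_lit 76) (nat_lit 89803335192) (nat_lit 1) (nat_lit 4) (nat_lit 2) (nat_lit 5) (nat_lit 2) (nat_lit 4) (nat_lit 397) (nat_lit 329) (nat_lit 294))) (XT.nd (nat_lit 78) (nat_lit 0) (nat_lit 0) (XT.lf (nat_lit 0) (nat_lit 2099320244534) (nat_lit 76) (nat_lit 99230517616) (nat_lit 76) (nat_lit 98113997792) (nat_lit 1) (nat_lit 4) (nat_lit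 2) (nat_lit 5) (nat_lit 2) (nat_lit 4) (nat_lit 398) (nat_lit 329) (nat_lit 293)) (XT.nd (nat_lit 78) (nat_lit 0) (nat_lit 0) (XT.lf (nat_lit 0) (nat_lit 2423991252138) (nat_lit 76) (nat_lit 108798358497) (nat_lit 76) (nat_lit 107680881516) (nat_lit 1) (nat_lit 4) (nat_lit 2) (nat_lit 5) (nat_lit 2) (nat_lit 4) (nat_lit 399) (nat_lit 329) (nat_lit 292)) (XT.lf (nat_lit 0) (nat_lit 2797347537517) (nat_lit 76) (nat_lit 119809473816) (nat_lit 76) (nat_lit 118691164526) (nat_lit 1) (nat_lit 4) (nat_lit 2) (nat_lit 5) (nat_lit 2) (nat_lit 4) (nat_lit 400) (nat_lit 329) (nat_lit 291))))) (XT.nd (nat_lit 234) (nat_lit 0) (nat_lit 0) (XT.nd (nat_lit 78) (nat_lit 0) (nat_lit 0) (XT.lf (nat_lit 0) (nat_lit 3226693897559) (nat_lit 76) (nat_lit 132479298439) (nat_lit 76) (nat_lit 131360265402) (nat_lit 1) (nat_lit 4) (nat_lit 2) (nat_lit 5) (nat_lit 2) (nat_lit 4) (nat_lit 401) (nat_lit 329) (nat_lit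 290)) (XT.nd (nat_lit 78) (nat_lit 0) (nat_lit 0) (XT.lf (nat_lit 0) (nat_lit 3720430587136) (nat_lit 76) (nat_lit 147055720238) (nat_lit 76) (nat_lit 145936057855) (nat_lit 1) (nat_lit 4) (nat_lit 2) (nat_lit 5) (nat_lit 2) (nat_lit 4) (nat_lit 402) (nat_lit 329) (nat_lit 289)) (XT.lf (nat_lit 0) (nat_lit 4288217671911) (nat_lit 76) (nat_lit 163823930075) (nat_lit 76) (nat_lit 162703720435) (nat_lit 1) (nat_lit 4) (nat_lit 2) (nat_lit 5) (nat_lit 2) (nat_lit 4) (nat_lit 403) (nat_lit 329) (nat_lit 288)))) (XT.nd (nat_lit 78) (nat_lit 0) (nat_lit 0) (XT.lf (nat_lit 0) (nat_lit 4941164029631) (nat_lit 76) (nat_lit 183112001620) (nat_lit 76) (nat_lit 181991316105) (nat_lit 1) (nat_lit 4) (nat_lit 2) (nat_lit 5) (nat_lit 2) (nat_lit 4) (nat_lit 404) (nat_lit 329) (nat_lit 287)) (XT.nd (nat_lit 78) (nat_lit 0) (nat_lit 0) (XT.lf (nat_lit 0) (nat_lit 5692044697730) (nat_lit 76) (nat_lit 205297310187)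 (nat_lit 76) (nat_lit 204176210867) (nat_lit 1) (nat_lit 4) (nat_lit 2) (nat_lit 5) (nat_lit 2) (nat_lit 4) (nat_lit 405) (nat_lit 329) (nat_lit 286)) (XT.lf (nat_lit 0) (nat_lit 6555550819714) (nat_lit 76) (nat_lit 230813916161) (nat_lit 76) (nat_lit 229692457010) (nat_lit 1) (nat_lit 4) (nat_lit 2) (nat_lit 5) (nat_lit 2) (nat_lit 4) (nat_lit 406) (nat_lit 329) (nat_lit 285)))))) (XT.nd (nat_lit 390) (nat_lit 0) (nat_lit 0) (XT.nd (nat_lit 156) (nat_lit 0) (nat_lit 0) (XT.nd (nat_lit 78) (nat_lit 0) (nat_lit 0) (XT.lf (nat_lit 0) (nat_lit 7548577080578) (nat_lit 76) (nat_lit 260161057483) (nat_lit 76) (nat_lit 259039285437) (nat_lit 1) (nat_lit 4) (nat_lit 2) (nat_lit 5) (nat_lit 2) (nat_lit 4) (nat_lit 407) (nat_lit 329) (nat_lit 284)) (XT.lf (nat_lit 0) (nat_lit 8690552254991) (nat_lit 76) (nat_lit 293912917355) (nat_lit 76) (nat_lit 292790873226) (nat_lit 1) (nat_lit 4) (nat_lit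 2) (nat_lit 5) (nat_lit 2) (nat_lit 4) (nat_lit 408) (nat_lit 329) (nat_lit 283))) (XT.nd (nat_lit 78) (nat_lit 0) (nat_lit 0) (XT.lf (nat_lit 0) (nat_lit 10003819335497) (nat_lit 76) (nat_lit 332729858252) (nat_lit 76) (nat_lit 331607577528) (nat_lit 1) (nat_lit 4) (nat_lit 2) (nat_lit 5) (nat_lit 2) (nat_lit 4) (nat_lit 409) (nat_lit 329) (nat_lit 282)) (XT.nd (nat_lit 78) (nat_lit 0) (nat_lit 0) (XT.lf (nat_lit 0) (nat_lit 11514072678017) (nat_lit 76) (nat_lit 377371342061) (nat_lit 76) (nat_lit 376248855603) (nat_lit 1) (nat_lit 4) (nat_lit 2) (nat_lit 5) (nat_lit 2) (nat_lit 4) (nat_lit 410) (nat_lit 329) (nat_lit 281)) (XT.lf (nat_lit 0) (nat_lit 13250860717515) (nat_lit 76) (nat_lit 428710789117) (nat_lit 76) (nat_lit 427588123760) (nat_lit 1) (nat_lit 4) (nat_lit 2) (nat_lit 5) (nat_lit 2) (nat_lit 4) (nat_lit 411) (nat_lit 329) (nat_lit 280))))) (XT.nd (nat_lit 234) (nat_lit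 0) (nat_lit 0) (XT.nd (nat_lit 78) (nat_lit 0) (nat_lit 0) (XT.lf (nat_lit 0) (nat_lit 15248164089546) (nat_lit 76) (nat_lit 487752666863) (nat_lit 76) (nat_lit 486629845941) (nat_lit 1) (nat_lit 4) (nat_lit 2) (nat_lit 5) (nat_lit 2) (nat_lit 4) (nat_lit 412) (nat_lit 329) (nat_lit 279)) (XT.nd (nat_lit 78) (nat_lit 0) (nat_lit 0) (XT.lf (nat_lit 0) (nat_lit 17545060468780) (nat_lit 76) (nat_lit 555652142472) (nat_lit 76) (nat_lit 554529186277) (nat_lit 1) (nat_lit 4) (nat_lit 2) (nat_lit 5) (nat_lit 2) (nat_lit 4) (nat_lit 413) (nat_lit 329) (nat_lit 278)) (XT.lf (nat_lit 0) (nat_lit 20186489132201) (nat_lit 76) (nat_lit 633737683945) (nat_lit 76) (nat_lit 632614610121) (nat_lit 1) (nat_lit 4) (nat_lit 2) (nat_lit 5) (nat_lit 2) (nat_lit 4) (nat_lit 414) (nat_lit 329) (nat_lit 277)))) (XT.nd (nat_lit 78) (nat_lit 0) (nat_lit 0) (XT.lf (nat_lit 0) (nat_lit 23224130205834) (nat_lit 76)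 (nat_lit 723537051876) (nat_lit 76) (nat_lit 722413875766) (nat_lit 1) (nat_lit 4) (nat_lit 2) (nat_lit 5) (nat_lit 2) (nat_lit 4) (nat_lit 415) (nat_lit 329) (nat_lit 276)) (XT.nd (nat_lit 78) (nat_lit 0) (nat_lit 0) (XT.lf (nat_lit 0) (nat_lit 26717415797641) (nat_lit 76) (nat_lit 826807190421) (nat_lit 76) (nat_lit 825683925366) (nat_lit 1) (nat_lit 4) (nat_lit 2) (nat_lit 5) (nat_lit 2) (nat_lit 4) (nat_lit 416) (nat_lit 329) (nat_lit 275)) (XT.lf (nat_lit 0) (nat_lit 30734692799636) (nat_lit 76) (nat_lit 945568602290) (nat_lit 76) (nat_lit 944445259892) (nat_lit 1) (nat_lit 4) (nat_lit 2) (nat_lit 5) (nat_lit 2) (nat_lit 4) (nat_lit 417) (nat_lit 329) (nat_lit 274))))))) (XT.nd (nat_lit 858) (nat_lit 0) (nat_lit 0) (XT.nd (nat_lit 390) (nat_lit 0) (nat_lit 0) (XT.nd (nat_lit 156) (nat_lit 0) (nat_lit 0) (XT.nd (nat_lit 78) (nat_lit 0) (nat_lit 0) (XT.lf (nat_lit 0) (nat_lit 35354560109683)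 (nat_lit 76) (nat_lit 1082144880324) (nat_lit 76) (nat_lit 1081021470671) (nat_lit 1) (nat_lit 4) (nat_lit 2) (nat_lit 5) (nat_lit 2) (nat_lit 4) (nat_lit 418) (nat_lit 329) (nat_lit 273)) (XT.lf (nat_lit 0) (nat_lit 40667406436023) (nat_lit 76) (nat_lit 1239208169093) (nat_lit 76) (nat_lit 1238084700957) (nat_lit 1) (nat_lit 4) (nat_lit 2) (nat_lit 5) (nat_lit 2) (nat_lit 4) (nat_lit 419) (nat_lit 329) (nat_lit 272))) (XT.nd (nat_lit 78) (nat_lit 0) (nat_lit 0) (XT.lf (nat_lit 0) (nat_lit 46777178771996) (nat_lit 76) (nat_lit 1419831445986) (nat_lit 76) (nat_lit 1418707926996) (nat_lit 1) (nat_lit 4) (nat_lit 2) (nat_lit 5) (nat_lit 2) (nat_lit 4) (nat_lit 420) (nat_lit 329) (nat_lit 271)) (XT.nd (nat_lit 78) (nat_lit 0) (nat_lit 0) (XT.lf (nat_lit 0) (nat_lit 53803416141569) (nat_lit 76) (nat_lit 1627548644681) (nat_lit 76) (nat_lit 1626425081470) (nat_lit 1) (nat_lit 4) (nat_lit 2)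 (nat_lit 5) (nat_lit 2) (nat_lit 4) (nat_lit 421) (nat_lit 329) (nat_lit 270)) (XT.lf (nat_lit 0) (nat_lit 61883588406318) (nat_lit 76) (nat_lit 1866423797328) (nat_lit 76) (nat_lit 1865300195663) (nat_lit 1) (nat_lit 4) (nat_lit 2) (nat_lit 5) (nat_lit 2) (nat_lit 4) (nat_lit 422) (nat_lit 329) (nat_lit 269))))) (XT.nd (nat_lit 234) (nat_lit 0) (nat_lit 0) (XT.nd (nat_lit 78) (nat_lit 0) (nat_lit 0) (XT.lf (nat_lit 0) (nat_lit 71175785893164) (nat_lit 76) (nat_lit 2141130548216) (nat_lit 76) (nat_lit 2140006913114) (nat_lit 1) (nat_lit 4) (nat_lit 2) (nat_lit 5) (nat_lit 2) (nat_lit 4) (nat_lit 423) (nat_lit 329) (nat_lit 268)) (XT.nd (nat_lit 78) (nat_lit 0) (nat_lit 0) (XT.lf (nat_lit 0) (nat_lit 81861812465980) (nat_lit 76) (nat_lit 2457043594646) (nat_lit 76) (nat_lit 2455919930468) (nat_lit 1) (nat_lit 4) (nat_lit 2) (nat_lit 5) (nat_lit 2) (nat_lit 4) (nat_lit 424) (nat_lit 329)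 (nat_lit 267)) (XT.lf (nat_lit 0) (nat_lit 94150742557711) (nat_lit 76) (nat_lit 2820343844047) (nat_lit 76) (nat_lit 2819220154586) (nat_lit 1) (nat_lit 4) (nat_lit 2) (nat_lit 5) (nat_lit 2) (nat_lit 4) (nat_lit 425) (nat_lit 329) (nat_lit 266)))) (XT.nd (nat_lit 78) (nat_lit 0) (nat_lit 0) (XT.lf (nat_lit 0) (nat_lit 108283011757110) (nat_lit 76) (nat_lit 3238139344779) (nat_lit 76) (nat_lit 3237015633332) (nat_lit 1) (nat_lit 4) (nat_lit 2) (nat_lit 5) (nat_lit 2) (nat_lit 4) (nat_lit 426) (nat_lit 329) (nat_lit 265)) (XT.nd (nat_lit 78) (nat_lit 0) (nat_lit 0) (XT.lf (nat_lit 0) (nat_lit 124535120983294) (nat_lit 76) (nat_lit 3718604356637) (nat_lit 76) (nat_lit 3717480626072) (nat_lit 1) (nat_lit 4) (nat_lit 2) (nat_lit 5) (nat_lit 2) (nat_lit 4) (nat_lit 427) (nat_lit 329) (nat_lit 264)) (XT.lf (nat_lit 0) (nat_lit 143225046286341) (nat_lit 76) (nat_lit 4271139282028) (nat_lit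 76) (nat_lit 4270015534838) (nat_lit 1) (nat_lit 4) (nat_lit 2) (nat_lit 5) (nat_lit 2) (nat_lit 4) (nat_lit 428) (nat_lit 329) (nat_lit 263)))))) (XT.nd (nat_lit 48048) (nat_lit 0) (nat_lit 228) (XT.nd (nat_lit 47814) (nat_lit 0) (nat_lit 456) (XT.nd (nat_lit 2496) (nat_lit 0) (nat_lit 0) (XT.lf (nat_lit 0) (nat_lit 164718460117834) (nat_lit 76) (nat_lit 4906554586883) (nat_lit 76) (nat_lit 4905430825237) (nat_lit 1) (nat_lit 4) (nat_lit 2) (nat_lit 5) (nat_lit 2) (nat_lit 4) (nat_lit 429) (nat_lit 329) (nat_lit 262)) (XT.nd (nat_lit 45240) (nat_lit 0) (nat_lit 684) (XT.lf (nat_lit 0) (nat_lit 14429155679836178) (nat_lit 76) (nat_lit 426610072735303) (nat_lit 76) (nat_lit 426608948878376) (nat_lit 1) (nat_lit 4) (nat_lit 2) (nat_lit 5) (nat_lit 2) (nat_lit 4) (nat_lit 461) (nat_lit 329) (nat_lit 230)) (XT.lf (nat_lit 0) (nat_lit 3599499367) (nat_lit 76) (nat_lit 2730791160) (nat_lit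 76) (nat_lit 2730791160) (nat_lit 10) (nat_lit 4) (nat_lit 11) (nat_lit 5) (nat_lit 11) (nat_lit 4) (nat_lit 360) (nat_lit 330) (nat_lit 330)))) (XT.nd (nat_lit 78) (nat_lit 76) (nat_lit 0) (XT.lf (nat_lit 0) (nat_lit 1161207541) (nat_lit 152) (nat_lit 17708021202) (nat_lit 0) (nat_lit 938262207) (nat_lit 8) (nat_lit 5) (nat_lit 10) (nat_lit 4) (nat_lit 8) (nat_lit 4) (nat_lit 361) (nat_lit 330) (nat_lit 329)) (XT.nd (nat_lit 78) (nat_lit 76) (nat_lit 0) (XT.lf (nat_lit 0) (nat_lit 8396873004) (nat_lit 152) (nat_lit 5302973534) (nat_lit 0) (nat_lit 7980062161) (nat_lit 8) (nat_lit 5) (nat_lit 10) (nat_lit 4) (nat_lit 8) (nat_lit 4) (nat_lit 362) (nat_lit 330) (nat_lit 328)) (XT.lf (nat_lit 0) (nat_lit 8503548041) (nat_lit 76) (nat_lit 7975471833) (nat_lit 76) (nat_lit 7390082288) (nat_lit 7) (nat_lit 4) (nat_lit 8) (nat_lit 5) (nat_lit 8) (nat_lit 4) (nat_lit 363) (nat_lit 330) (nat_lit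 327))))) (XT.nd (nat_lit 234) (nat_lit 76) (nat_lit 0) (XT.nd (nat_lit 78) (nat_lit 152) (nat_lit 0) (XT.lf (nat_lit 0) (nat_lit 23815989503) (nat_lit 76) (nat_lit 1672726394) (nat_lit 76) (nat_lit 940746672) (nat_lit 7) (nat_lit 4) (nat_lit 8) (nat_lit 5) (nat_lit 8) (nat_lit 4) (nat_lit 364) (nat_lit 330) (nat_lit 326)) (XT.nd (nat_lit 78) (nat_lit 0) (nat_lit 0) (XT.lf (nat_lit 0) (nat_lit 6119055587) (nat_lit 152) (nat_lit 17810003557) (nat_lit 0) (nat_lit 5371708248) (nat_lit 5) (nat_lit 5) (nat_lit 7) (nat_lit 4) (nat_lit 5) (nat_lit 4) (nat_lit 365) (nat_lit 330) (nat_lit 325)) (XT.lf (nat_lit 0) (nat_lit 13855468482) (nat_lit 152) (nat_lit 5771798226) (nat_lit 0) (nat_lit 13011735722) (nat_lit 5) (nat_lit 5) (nat_lit 7) (nat_lit 4) (nat_lit 5) (nat_lit 4) (nat_lit 366) (nat_lit 330) (nat_lit 324)))) (XT.nd (nat_lit 78) (nat_lit 0) (nat_lit 0) (XT.lf (nat_lit 0) (nat_lit 7846399703)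 (nat_lit 76) (nat_lit 14788396230) (nat_lit 76) (nat_lit 13860850061) (nat_lit 4) (nat_lit 4) (nat_lit 5) (nat_lit 5) (nat_lit 5) (nat_lit 4) (nat_lit 367) (nat_lit 330) (nat_lit 323)) (XT.nd (nat_lit 78) (nat_lit 0) (nat_lit 0) (XT.lf (nat_lit 0) (nat_lit 23273732456) (nat_lit 76) (nat_lit 9337725735) (nat_lit 76) (nat_lit 8337298340) (nat_lit 4) (nat_lit 4) (nat_lit 5) (nat_lit 5) (nat_lit 5) (nat_lit 4) (nat_lit 368) (nat_lit 330) (nat_lit 322)) (XT.lf (nat_lit 0) (nat_lit 40247977052) (nat_lit 76) (nat_lit 3470319304) (nat_lit 76) (nat_lit 2406516931) (nat_lit 4) (nat_lit 4) (nat_lit 5) (nat_lit 5) (nat_lit 5) (nat_lit 4) (nat_lit 369) (nat_lit 330) (nat_lit 321))))))))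
noncomputable def xc29 : XT := (XT.nd (nat_lit 1794) (nat_lit 0) (nat_lit 0) (XT.nd (nat_lit 858) (nat_lit 0) (nat_lit 0) (XT.nd (nat_lit 390) (nat_lit 76) (nat_lit 0) (XT.nd (nat_lit 156) (nat_lit 0) (nat_lit 0) (XT.nd (nat_lit 78) (nat_lit 0) (nat_lit 0) (XT.lf (nat_lit 0) (nat_lit 4140657574) (nat_lit 152) (nat_lit 44723578137) (nat_lit 0) (nat_lit 3167691443) (nat_lit 2) (nat_lit 5) (nat_lit 4) (nat_lit 4) (nat_lit 2) (nat_lit 4) (nat_lit 370) (nat_lit 330) (nat_lit 320)) (XT.lf (nat_lit 0) (nat_lit 11578247223) (nat_lit 152) (nat_lit 36642872853) (nat_lit 0) (nat_lit 10563611015) (nat_lit 2) (nat_lit 5) (nat_lit 4) (nat_lit 4) (nat_lit 2) (nat_lit 4) (nat_lit 371) (nat_lit 330) (nat_lit 319))) (XT.nd (nat_lit 78) (nat_lit 0) (nat_lit 0) (XT.lf (nat_lit 0) (nat_lit 19842466984) (nat_lit 152) (nat_lit 27959761751) (nat_lit 0) (nat_lit 18791595927) (nat_lit 2) (nat_lit 5) (nat_lit 4)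 (nat_lit 4) (nat_lit 2) (nat_lit 4) (nat_lit 372) (nat_lit 330) (nat_lit 318)) (XT.nd (nat_lit 78) (nat_lit 0) (nat_lit 0) (XT.lf (nat_lit 0) (nat_lit 29095008115) (nat_lit 152) (nat_lit 18504357876) (nat_lit 0) (nat_lit 28012628493) (nat_lit 2) (nat_lit 5) (nat_lit 4) (nat_lit 4) (nat_lit 2) (nat_lit 4) (nat_lit 373) (nat_lit 330) (nat_lit 317)) (XT.lf (nat_lit 0) (nat_lit 39516898593) (nat_lit 152) (nat_lit 8091664196) (nat_lit 0) (nat_lit 38407120219) (nat_lit 2) (nat_lit 5) (nat_lit 4) (nat_lit 4) (nat_lit 2) (nat_lit 4) (nat_lit 374) (nat_lit 330) (nat_lit 316))))) (XT.nd (nat_lit 234) (nat_lit 0) (nat_lit 0) (XT.nd (nat_lit 78) (nat_lit 0) (nat_lit 0) (XT.lf (nat_lit 0) (nat_lit 3822336756) (nat_lit 76) (nat_lit 47647983030) (nat_lit 76) (nat_lit 46514379654) (nat_lit 1) (nat_lit 4) (nat_lit 2) (nat_lit 5) (nat_lit 2) (nat_lit 4) (nat_lit 375) (nat_lit 330) (nat_lit 315)) (XT.nd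 (nat_lit 78) (nat_lit 0) (nat_lit 0) (XT.lf (nat_lit 0) (nat_lit 18050165100) (nat_lit 76) (nat_lit 47408475600) (nat_lit 76) (nat_lit 46254154831) (nat_lit 1) (nat_lit 4) (nat_lit 2) (nat_lit 5) (nat_lit 2) (nat_lit 4) (nat_lit 376) (nat_lit 330) (nat_lit 314)) (XT.lf (nat_lit 0) (nat_lit 34079415117) (nat_lit 76) (nat_lit 47308327839) (nat_lit 76) (nat_lit 46135991946) (nat_lit 1) (nat_lit 4) (nat_lit 2) (nat_lit 5) (nat_lit 2) (nat_lit 4) (nat_lit 377) (nat_lit 330) (nat_lit 313)))) (XT.nd (nat_lit 78) (nat_lit 0) (nat_lit 0) (XT.lf (nat_lit 0) (nat_lit 52223702568) (nat_lit 76) (nat_lit 47345580335) (nat_lit 76) (nat_lit 46157579116) (nat_lit 1) (nat_lit 4) (nat_lit 2) (nat_lit 5) (nat_lit 2) (nat_lit 4) (nat_lit 378) (nat_lit 330) (nat_lit 312)) (XT.nd (nat_lit 78) (nat_lit 0) (nat_lit 0) (XT.lf (nat_lit 0) (nat_lit 72838024381) (nat_lit 76) (nat_lit 47520961941) (nat_lit 76) (nat_lit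 46319338700) (nat_lit 1) (nat_lit 4) (nat_lit 2) (nat_lit 5) (nat_lit 2) (nat_lit 4) (nat_lit 379) (nat_lit 330) (nat_lit 311)) (XT.lf (nat_lit 0) (nat_lit 96325704244) (nat_lit 76) (nat_lit 47837904036) (nat_lit 76) (nat_lit 46624435558) (nat_lit 1) (nat_lit 4) (nat_lit 2) (nat_lit 5) (nat_lit 2) (nat_lit 4) (nat_lit 380) (nat_lit 330) (nat_lit 310)))))) (XT.nd (nat_lit 468) (nat_lit 0) (nat_lit 0) (XT.nd (nat_lit 234) (nat_lit 0) (nat_lit 0) (XT.nd (nat_lit 78) (nat_lit 0) (nat_lit 0) (XT.lf (nat_lit 0) (nat_lit 123146283720) (nat_lit 76) (nat_lit 48302607661) (nat_lit 76) (nat_lit 47078838977) (nat_lit 1) (nat_lit 4) (nat_lit 2) (nat_lit 5) (nat_lit 2) (nat_lit 4) (nat_lit 381) (nat_lit 330) (nat_lit 309)) (XT.nd (nat_lit 78) (nat_lit 0) (nat_lit 0) (XT.lf (nat_lit 0) (nat_lit 153824513277) (nat_lit 76) (nat_lit 48924164843) (nat_lit 76) (nat_lit 47691439459) (nat_lit 1) (nat_lit 4)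 (nat_lit 2) (nat_lit 5) (nat_lit 2) (nat_lit 4) (nat_lit 382) (nat_lit 330) (nat_lit 308)) (XT.lf (nat_lit 0) (nat_lit 188960619144) (nat_lit 76) (nat_lit 49714736485) (nat_lit 76) (nat_lit 48474222666) (nat_lit 1) (nat_lit 4) (nat_lit 2) (nat_lit 5) (nat_lit 2) (nat_lit 4) (nat_lit 383) (nat_lit 330) (nat_lit 307)))) (XT.nd (nat_lit 78) (nat_lit 0) (nat_lit 0) (XT.lf (nat_lit 0) (nat_lit 229242046872) (nat_lit 76) (nat_lit 50689790292) (nat_lit 76) (nat_lit 49442503920) (nat_lit 1) (nat_lit 4) (nat_lit 2) (nat_lit 5) (nat_lit 2) (nat_lit 4) (nat_lit 384) (nat_lit 330) (nat_lit 306)) (XT.nd (nat_lit 78) (nat_lit 0) (nat_lit 0) (XT.lf (nat_lit 0) (nat_lit 275456911351) (nat_lit 76) (nat_lit 51868403403) (nat_lit 76) (nat_lit 50615227855) (nat_lit 1) (nat_lit 4) (nat_lit 2) (nat_lit 5) (nat_lit 2) (nat_lit 4) (nat_lit 385) (nat_lit 330) (nat_lit 305)) (XT.lf (nat_lit 0) (nat_lit 328509416451)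 (nat_lit 76) (nat_lit 53273635641) (nat_lit 76) (nat_lit 52015339070) (nat_lit 1) (nat_lit 4) (nat_lit 2) (nat_lit 5) (nat_lit 2) (nat_lit 4) (nat_lit 386) (nat_lit 330) (nat_lit 304))))) (XT.nd (nat_lit 234) (nat_lit 0) (nat_lit 0) (XT.nd (nat_lit 78) (nat_lit 0) (nat_lit 0) (XT.lf (nat_lit 0) (nat_lit 389437545968) (nat_lit 76) (nat_lit 54932980679) (nat_lit 76) (nat_lit 53670231046) (nat_lit 1) (nat_lit 4) (nat_lit 2) (nat_lit 5) (nat_lit 2) (nat_lit 4) (nat_lit 387) (nat_lit 330) (nat_lit 303)) (XT.nd (nat_lit 78) (nat_lit 0) (nat_lit 0) (XT.lf (nat_lit 0) (nat_lit 459433372000) (nat_lit 76) (nat_lit 56878903965) (nat_lit 76) (nat_lit 55612282103) (nat_lit 1) (nat_lit 4) (nat_lit 2) (nat_lit 5) (nat_lit 2) (nat_lit 4) (nat_lit 388) (nat_lit 330) (nat_lit 302)) (XT.lf (nat_lit 0) (nat_lit 539866378102) (nat_lit 76) (nat_lit 59149477910) (nat_lit 76) (nat_lit 57879488892) (nat_lit 1)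 (nat_lit 4) (nat_lit 2) (nat_lit 5) (nat_lit 2) (nat_lit 4) (nat_lit 389) (nat_lit 330) (nat_lit 301)))) (XT.nd (nat_lit 78) (nat_lit 0) (nat_lit 0) (XT.lf (nat_lit 0) (nat_lit 632310253521) (nat_lit 76) (nat_lit 61789126787) (nat_lit 76) (nat_lit 60516209808) (nat_lit 1) (nat_lit 4) (nat_lit 2) (nat_lit 5) (nat_lit 2) (nat_lit 4) (nat_lit 390) (nat_lit 330) (nat_lit 300)) (XT.nd (nat_lit 78) (nat_lit 0) (nat_lit 0) (XT.lf (nat_lit 0) (nat_lit 738573682779) (nat_lit 76) (nat_lit 64849495900) (nat_lit 76) (nat_lit 63574032867) (nat_lit 1) (nat_lit 4) (nat_lit 2) (nat_lit 5) (nat_lit 2) (nat_lit 4) (nat_lit 391) (nat_lit 330) (nat_lit 299)) (XT.lf (nat_lit 0) (nat_lit 860735732967) (nat_lit 76) (nat_lit 68390462036) (nat_lit 76) (nat_lit 67112785044) (nat_lit 1) (nat_lit 4) (nat_lit 2) (nat_lit 5) (nat_lit 2) (nat_lit 4) (nat_lit 392) (nat_lit 330) (nat_lit 298))))))) (XT.nd (nat_lit 858)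 (nat_lit 0) (nat_lit 0) (XT.nd (nat_lit 390) (nat_lit 0) (nat_lit 0) (XT.nd (nat_lit 156) (nat_lit 0) (nat_lit 0) (XT.nd (nat_lit 78) (nat_lit 0) (nat_lit 0) (XT.lf (nat_lit 0) (nat_lit 1001186531157) (nat_lit 76) (nat_lit 72481304968) (nat_lit 76) (nat_lit 71201702794) (nat_lit 1) (nat_lit 4) (nat_lit 2) (nat_lit 5) (nat_lit 2) (nat_lit 4) (nat_lit 393) (nat_lit 330) (nat_lit 297)) (XT.lf (nat_lit 0) (nat_lit 1162674027747) (nat_lit 76) (nat_lit 77202062926) (nat_lit 76) (nat_lit 75920786680) (nat_lit 1) (nat_lit 4) (nat_lit 2) (nat_lit 5) (nat_lit 2) (nat_lit 4) (nat_lit 394) (nat_lit 330) (nat_lit 296))) (XT.nd (nat_lit 78) (nat_lit 0) (nat_lit 0) (XT.lf (nat_lit 0) (nat_lit 1348357760713) (nat_lit 76) (nat_lit 82645098567) (nat_lit 76) (nat_lit 81362366607) (nat_lit 1) (nat_lit 4) (nat_lit 2) (nat_lit 5) (nat_lit 2) (nat_lit 4) (nat_lit 395) (nat_lit 330) (nat_lit 295)) (XT.nd (nat_lit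 78) (nat_lit 0) (nat_lit 0) (XT.lf (nat_lit 0) (nat_lit 1561870672657) (nat_lit 76) (nat_lit 88916906065) (nat_lit 76) (nat_lit 87632908267) (nat_lit 1) (nat_lit 4) (nat_lit 2) (nat_lit 5) (nat_lit 2) (nat_lit 4) (nat_lit 396) (nat_lit 330) (nat_lit 294)) (XT.lf (nat_lit 0) (nat_lit 1807390190118) (nat_lit 76) (nat_lit 96140194699) (nat_lit 76) (nat_lit 94855096171) (nat_lit 1) (nat_lit 4) (nat_lit 2) (nat_lit 5) (nat_lit 2) (nat_lit 4) (nat_lit 397) (nat_lit 330) (nat_lit 293))))) (XT.nd (nat_lit 234) (nat_lit 0) (nat_lit 0) (XT.nd (nat_lit 78) (nat_lit 0) (nat_lit 0) (XT.lf (nat_lit 0) (nat_lit 2089719955828) (nat_lit 76) (nat_lit 104456289680) (nat_lit 76) (nat_lit 103170233997) (nat_lit 1) (nat_lit 4) (nat_lit 2) (nat_lit 5) (nat_lit 2) (nat_lit 4) (nat_lit 398) (nat_lit 330) (nat_lit 292)) (XT.nd (nat_lit 78) (nat_lit 0) (nat_lit 0) (XT.lf (nat_lit 0) (nat_lit 2414383813029) (nat_lit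 76) (nat_lit 114027897215) (nat_lit 76) (nat_lit 112741009222) (nat_lit 1) (nat_lit 4) (nat_lit 2) (nat_lit 5) (nat_lit 2) (nat_lit 4) (nat_lit 399) (nat_lit 330) (nat_lit 291)) (XT.lf (nat_lit 0) (nat_lit 2787733880667) (nat_lit 76) (nat_lit 125042287885) (nat_lit 76) (nat_lit 123754676145) (nat_lit 1) (nat_lit 4) (nat_lit 2) (nat_lit 5) (nat_lit 2) (nat_lit 4) (nat_lit 400) (nat_lit 330) (nat_lit 290)))) (XT.nd (nat_lit 78) (nat_lit 0) (nat_lit 0) (XT.lf (nat_lit 0) (nat_lit 3217074833978) (nat_lit 76) (nat_lit 137714960640) (nat_lit 76) (nat_lit 136426719554) (nat_lit 1) (nat_lit 4) (nat_lit 2) (nat_lit 5) (nat_lit 2) (nat_lit 4) (nat_lit 401) (nat_lit 330) (nat_lit 289)) (XT.nd (nat_lit 78) (nat_lit 0) (nat_lit 0) (XT.lf (nat_lit 0) (nat_lit 3710806822049) (nat_lit 76) (nat_lit 152293859075) (nat_lit 76) (nat_lit 151005070733) (nat_lit 1) (nat_lit 4) (nat_lit 2) (nat_lit 5) (nat_lit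 2) (nat_lit 4) (nat_lit 402) (nat_lit 330) (nat_lit 288)) (XT.lf (nat_lit 0) (nat_lit 4278589818559) (nat_lit 76) (nat_lit 169064222509) (nat_lit 76) (nat_lit 167774958291) (nat_lit 1) (nat_lit 4) (nat_lit 2) (nat_lit 5) (nat_lit 2) (nat_lit 4) (nat_lit 403) (nat_lit 330) (nat_lit 287)))))) (XT.nd (nat_lit 468) (nat_lit 0) (nat_lit 0) (XT.nd (nat_lit 234) (nat_lit 0) (nat_lit 0) (XT.nd (nat_lit 78) (nat_lit 0) (nat_lit 0) (XT.lf (nat_lit 0) (nat_lit 4931532621265) (nat_lit 76) (nat_lit 188354166747) (nat_lit 76) (nat_lit 187064488724) (nat_lit 1) (nat_lit 4) (nat_lit 2) (nat_lit 5) (nat_lit 2) (nat_lit 4) (nat_lit 404) (nat_lit 330) (nat_lit 286)) (XT.nd (nat_lit 78) (nat_lit 0) (nat_lit 0) (XT.lf (nat_lit 0) (nat_lit 5682410198048) (nat_lit 76) (nat_lit 210541103743) (nat_lit 76) (nat_lit 209251065890) (nat_lit 1) (nat_lit 4) (nat_lit 2) (nat_lit 5) (nat_lit 2) (nat_lit 4) (nat_lit 405)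 (nat_lit 330) (nat_lit 285)) (XT.lf (nat_lit 0) (nat_lit 6545913631931) (nat_lit 76) (nat_lit 236059125741) (nat_lit 76) (nat_lit 234768774992) (nat_lit 1) (nat_lit 4) (nat_lit 2) (nat_lit 5) (nat_lit 2) (nat_lit 4) (nat_lit 406) (nat_lit 330) (nat_lit 284)))) (XT.nd (nat_lit 78) (nat_lit 0) (nat_lit 0) (XT.lf (nat_lit 0) (nat_lit 7538937555315) (nat_lit 76) (nat_lit 265407498389) (nat_lit 76) (nat_lit 264116875557) (nat_lit 1) (nat_lit 4) (nat_lit 2) (nat_lit 5) (nat_lit 2) (nat_lit 4) (nat_lit 407) (nat_lit 330) (nat_lit 283)) (XT.nd (nat_lit 78) (nat_lit 0) (nat_lit 0) (XT.lf (nat_lit 0) (nat_lit 8680910697138) (nat_lit 76) (nat_lit 299160428979) (nat_lit 76) (nat_lit 297869569553) (nat_lit 1) (nat_lit 4) (nat_lit 2) (nat_lit 5) (nat_lit 2) (nat_lit 4) (nat_lit 408) (nat_lit 330) (nat_lit 282)) (XT.lf (nat_lit 0) (nat_lit 9994176010173) (nat_lit 76) (nat_lit 337978300935) (nat_lit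 76) (nat_lit 336687235775) (nat_lit 1) (nat_lit 4) (nat_lit 2) (nat_lit 5) (nat_lit 2) (nat_lit 4) (nat_lit 409) (nat_lit 330) (nat_lit 281))))) (XT.nd (nat_lit 234) (nat_lit 0) (nat_lit 0) (XT.nd (nat_lit 78) (nat_lit 0) (nat_lit 0) (XT.lf (nat_lit 0) (nat_lit 11504427815763) (nat_lit 76) (nat_lit 382620594361) (nat_lit 76) (nat_lit 381329350301) (nat_lit 1) (nat_lit 4) (nat_lit 2) (nat_lit 5) (nat_lit 2) (nat_lit 4) (nat_lit 410) (nat_lit 330) (nat_lit 280)) (XT.nd (nat_lit 78) (nat_lit 0) (nat_lit 0) (XT.lf (nat_lit 0) (nat_lit 13241214518800) (nat_lit 76) (nat_lit 433960745432) (nat_lit 76) (nat_lit 432669345807) (nat_lit 1) (nat_lit 4) (nat_lit 2) (nat_lit 5) (nat_lit 2) (nat_lit 4) (nat_lit 411) (nat_lit 330) (nat_lit 279)) (XT.lf (nat_lit 0) (nat_lit 15238516728690) (nat_lit 76) (nat_lit 493003235364) (nat_lit 76) (nat_lit 491711700466) (nat_lit 1) (nat_lit 4) (nat_lit 2) (nat_lit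 5) (nat_lit 2) (nat_lit 4) (nat_lit 412) (nat_lit 330) (nat_lit 278)))) (XT.nd (nat_lit 78) (nat_lit 0) (nat_lit 0) (XT.lf (nat_lit 0) (nat_lit 17535412097367) (nat_lit 76) (nat_lit 560903243310) (nat_lit 76) (nat_lit 559611590782) (nat_lit 1) (nat_lit 4) (nat_lit 2) (nat_lit 5) (nat_lit 2) (nat_lit 4) (nat_lit 413) (nat_lit 330) (nat_lit 277)) (XT.nd (nat_lit 78) (nat_lit 0) (nat_lit 0) (XT.lf (nat_lit 0) (nat_lit 20176839882044) (nat_lit 76) (nat_lit 638989247684) (nat_lit 76) (nat_lit 637697492870) (nat_lit 1) (nat_lit 4) (nat_lit 2) (nat_lit 5) (nat_lit 2) (nat_lit 4) (nat_lit 414) (nat_lit 330) (nat_lit 276)) (XT.lf (nat_lit 0) (nat_lit 23214480191551) (nat_lit 76) (nat_lit 728789018138) (nat_lit 76) (nat_lit 727497174380) (nat_lit 1) (nat_lit 4) (nat_lit 2) (nat_lit 5) (nat_lit 2) (nat_lit 4) (nat_lit 415) (nat_lit 330) (nat_lit 275))))))))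
noncomputable def xc30 : XT := (XT.nd (nat_lit 49218) (nat_lit 0) (nat_lit 0) (XT.nd (nat_lit 858) (nat_lit 0) (nat_lit 0) (XT.nd (nat_lit 390) (nat_lit 0) (nat_lit 0) (XT.nd (nat_lit 156) (nat_lit 0) (nat_lit 0) (XT.nd (nat_lit 78) (nat_lit 0) (nat_lit 0) (XT.lf (nat_lit 0) (nat_lit 26707765118900) (nat_lit 76) (nat_lit 832059506702) (nat_lit 76) (nat_lit 830767585601) (nat_lit 1) (nat_lit 4) (nat_lit 2) (nat_lit 5) (nat_lit 2) (nat_lit 4) (nat_lit 416) (nat_lit 330) (nat_lit 274)) (XT.lf (nat_lit 0) (nat_lit 30725041543106) (nat_lit 76) (nat_lit 950821222936) (nat_lit 76) (nat_lit 949529234580) (nat_lit 1) (nat_lit 4) (nat_lit 2) (nat_lit 5) (nat_lit 2) (nat_lit 4) (nat_lit 417) (nat_lit 330) (nat_lit 273))) (XT.nd (nat_lit 78) (nat_lit 0) (nat_lit 0) (XT.lf (nat_lit 0) (nat_lit 35344908350727) (nat_lit 76) (nat_lit 1087397765635) (nat_lit 76) (nat_lit 1086105718797) (nat_lit 1) (nat_lit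 4) (nat_lit 2) (nat_lit 5) (nat_lit 2) (nat_lit 4) (nat_lit 418) (nat_lit 330) (nat_lit 272)) (XT.nd (nat_lit 78) (nat_lit 0) (nat_lit 0) (XT.lf (nat_lit 0) (nat_lit 40657754240175) (nat_lit 76) (nat_lit 1244461284548) (nat_lit 76) (nat_lit 1243169186855) (nat_lit 1) (nat_lit 4) (nat_lit 2) (nat_lit 5) (nat_lit 2) (nat_lit 4) (nat_lit 419) (nat_lit 330) (nat_lit 271)) (XT.lf (nat_lit 0) (nat_lit 46767526196243) (nat_lit 76) (nat_lit 1425084761566) (nat_lit 76) (nat_lit 1423792619652) (nat_lit 1) (nat_lit 4) (nat_lit 2) (nat_lit 5) (nat_lit 2) (nat_lit 4) (nat_lit 420) (nat_lit 330) (nat_lit 270))))) (XT.nd (nat_lit 234) (nat_lit 0) (nat_lit 0) (XT.nd (nat_lit 78) (nat_lit 0) (nat_lit 0) (XT.lf (nat_lit 0) (nat_lit 53793763235463) (nat_lit 76) (nat_lit 1632802134283) (nat_lit 76) (nat_lit 1631509953916) (nat_lit 1) (nat_lit 4) (nat_lit 2) (nat_lit 5) (nat_lit 2) (nat_lit 4) (nat_lit 421)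 (nat_lit 330) (nat_lit 269)) (XT.nd (nat_lit 78) (nat_lit 0) (nat_lit 0) (XT.lf (nat_lit 0) (nat_lit 61873935212949) (nat_lit 76) (nat_lit 1871677438252) (nat_lit 76) (nat_lit 1870385224448) (nat_lit 1) (nat_lit 4) (nat_lit 2) (nat_lit 5) (nat_lit 2) (nat_lit 4) (nat_lit 422) (nat_lit 330) (nat_lit 268)) (XT.lf (nat_lit 0) (nat_lit 71166132450001) (nat_lit 76) (nat_lit 2146384320726) (nat_lit 76) (nat_lit 2145092077845) (nat_lit 1) (nat_lit 4) (nat_lit 2) (nat_lit 5) (nat_lit 2) (nat_lit 4) (nat_lit 423) (nat_lit 330) (nat_lit 267)))) (XT.nd (nat_lit 78) (nat_lit 0) (nat_lit 0) (XT.lf (nat_lit 0) (nat_lit 81852158805605) (nat_lit 76) (nat_lit 2462297481578) (nat_lit 76) (nat_lit 2461005213413) (nat_lit 1) (nat_lit 4) (nat_lit 2) (nat_lit 5) (nat_lit 2) (nat_lit 4) (nat_lit 424) (nat_lit 330) (nat_lit 266)) (XT.nd (nat_lit 78) (nat_lit 0) (nat_lit 0) (XT.lf (nat_lit 0) (nat_lit 94141088708456)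 (nat_lit 76) (nat_lit 2825597830477) (nat_lit 76) (nat_lit 2824305540327) (nat_lit 1) (nat_lit 4) (nat_lit 2) (nat_lit 5) (nat_lit 2) (nat_lit 4) (nat_lit 425) (nat_lit 330) (nat_lit 265)) (XT.lf (nat_lit 0) (nat_lit 108273357743610) (nat_lit 76) (nat_lit 3243393417728) (nat_lit 76) (nat_lit 3242101108460) (nat_lit 1) (nat_lit 4) (nat_lit 2) (nat_lit 5) (nat_lit 2) (nat_lit 4) (nat_lit 426) (nat_lit 330) (nat_lit 264)))))) (XT.nd (nat_lit 47892) (nat_lit 0) (nat_lit 304) (XT.nd (nat_lit 234) (nat_lit 0) (nat_lit 0) (XT.nd (nat_lit 78) (nat_lit 0) (nat_lit 0) (XT.lf (nat_lit 0) (nat_lit 124525466826974) (nat_lit 76) (nat_lit 3723858504820) (nat_lit 76) (nat_lit 3722566178928) (nat_lit 1) (nat_lit 4) (nat_lit 2) (nat_lit 5) (nat_lit 2) (nat_lit 4) (nat_lit 427) (nat_lit 330) (nat_lit 263)) (XT.nd (nat_lit 78) (nat_lit 0) (nat_lit 0) (XT.lf (nat_lit 0) (nat_lit 143215392005830) (nat_lit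 76) (nat_lit 4276393495632) (nat_lit 76) (nat_lit 4275101155284) (nat_lit 1) (nat_lit 4) (nat_lit 2) (nat_lit 5) (nat_lit 2) (nat_lit 4) (nat_lit 428) (nat_lit 330) (nat_lit 262)) (XT.lf (nat_lit 0) (nat_lit 164708805729329) (nat_lit 76) (nat_lit 4911808857375) (nat_lit 76) (nat_lit 4910516504457) (nat_lit 1) (nat_lit 4) (nat_lit 2) (nat_lit 5) (nat_lit 2) (nat_lit 4) (nat_lit 429) (nat_lit 330) (nat_lit 261)))) (XT.nd (nat_lit 47502) (nat_lit 0) (nat_lit 760) (XT.lf (nat_lit 0) (nat_lit 189426231309453) (nat_lit 76) (nat_lit 5642536629735) (nat_lit 76) (nat_lit 5641244265886) (nat_lit 1) (nat_lit 4) (nat_lit 2) (nat_lit 5) (nat_lit 2) (nat_lit 4) (nat_lit 430) (nat_lit 330) (nat_lit 260)) (XT.nd (nat_lit 78) (nat_lit 152) (nat_lit 0) (XT.lf (nat_lit 0) (nat_lit 6637277400) (nat_lit 76) (nat_lit 530302858) (nat_lit 76) (nat_lit 530302858) (nat_lit 13) (nat_lit 4) (nat_lit 14) (nat_lit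 5) (nat_lit 14) (nat_lit 4) (nat_lit 358) (nat_lit 331) (nat_lit 331)) (XT.lf (nat_lit 0) (nat_lit 5442052506) (nat_lit 152) (nat_lit 6088130121) (nat_lit 0) (nat_lit 5147207301) (nat_lit 11) (nat_lit 5) (nat_lit 13) (nat_lit 4) (nat_lit 11) (nat_lit 4) (nat_lit 359) (nat_lit 331) (nat_lit 330))))) (XT.nd (nat_lit 234) (nat_lit 228) (nat_lit 0) (XT.nd (nat_lit 78) (nat_lit 152) (nat_lit 0) (XT.lf (nat_lit 0) (nat_lit 6582660384) (nat_lit 76) (nat_lit 6068236642) (nat_lit 76) (nat_lit 5517004302) (nat_lit 10) (nat_lit 4) (nat_lit 11) (nat_lit 5) (nat_lit 11) (nat_lit 4) (nat_lit 360) (nat_lit 331) (nat_lit 329)) (XT.nd (nat_lit 78) (nat_lit 0) (nat_lit 0) (XT.lf (nat_lit 0) (nat_lit 737965144) (nat_lit 152) (nat_lit 19106798278) (nat_lit 0) (nat_lit 64767167) (nat_lit 8) (nat_lit 5) (nat_lit 10) (nat_lit 4) (nat_lit 8) (nat_lit 4) (nat_lit 361) (nat_lit 331) (nat_lit 328)) (XT.lf (nat_lit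 0) (nat_lit 7698755164) (nat_lit 152) (nat_lit 7267484514) (nat_lit 0) (nat_lit 6856978484) (nat_lit 8) (nat_lit 5) (nat_lit 10) (nat_lit 4) (nat_lit 8) (nat_lit 4) (nat_lit 362) (nat_lit 331) (nat_lit 327)))) (XT.nd (nat_lit 78) (nat_lit 152) (nat_lit 0) (XT.lf (nat_lit 0) (nat_lit 5807032034) (nat_lit 76) (nat_lit 9623190899) (nat_lit 76) (nat_lit 8634824043) (nat_lit 7) (nat_lit 4) (nat_lit 8) (nat_lit 5) (nat_lit 8) (nat_lit 4) (nat_lit 363) (nat_lit 331) (nat_lit 326)) (XT.nd (nat_lit 78) (nat_lit 152) (nat_lit 0) (XT.lf (nat_lit 0) (nat_lit 20649891996) (nat_lit 76) (nat_lit 3562737268) (nat_lit 76) (nat_lit 2446900693) (nat_lit 7) (nat_lit 4) (nat_lit 8) (nat_lit 5) (nat_lit 8) (nat_lit 4) (nat_lit 364) (nat_lit 331) (nat_lit 325)) (XT.lf (nat_lit 0) (nat_lit 4270347023) (nat_lit 152) (nat_lit 22137692258) (nat_lit 0) (nat_lit 3203668928) (nat_lit 5) (nat_lit 5) (nat_lit 7) (nat_lit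 4) (nat_lit 5) (nat_lit 4) (nat_lit 365) (nat_lit 331) (nat_lit 324))))))) (XT.nd (nat_lit 858) (nat_lit 0) (nat_lit 0) (XT.nd (nat_lit 390) (nat_lit 152) (nat_lit 0) (XT.nd (nat_lit 156) (nat_lit 76) (nat_lit 0) (XT.nd (nat_lit 78) (nat_lit 76) (nat_lit 0) (XT.lf (nat_lit 0) (nat_lit 11800969193) (nat_lit 152) (nat_lit 10529384118) (nat_lit 0) (nat_lit 10650477689) (nat_lit 5) (nat_lit 5) (nat_lit 7) (nat_lit 4) (nat_lit 5) (nat_lit 4) (nat_lit 366) (nat_lit 331) (nat_lit 323)) (XT.lf (nat_lit 0) (nat_lit 2213511508) (nat_lit 76) (nat_lit 17954590792) (nat_lit 76) (nat_lit 16731218063) (nat_lit 4) (nat_lit 4) (nat_lit 5) (nat_lit 5) (nat_lit 5) (nat_lit 4) (nat_lit 367) (nat_lit 331) (nat_lit 322))) (XT.nd (nat_lit 78) (nat_lit 76) (nat_lit 0) (XT.lf (nat_lit 0) (nat_lit 17284012600) (nat_lit 76) (nat_lit 12690368966) (nat_lit 76) (nat_lit 11403621259) (nat_lit 4) (nat_lit 4) (nat_lit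 5) (nat_lit 5) (nat_lit 5) (nat_lit 4) (nat_lit 368) (nat_lit 331) (nat_lit 321)) (XT.nd (nat_lit 78) (nat_lit 76) (nat_lit 0) (XT.lf (nat_lit 0) (nat_lit 33947968795) (nat_lit 76) (nat_lit 6985091814) (nat_lit 76) (nat_lit 5643235429) (nat_lit 4) (nat_lit 4) (nat_lit 5) (nat_lit 5) (nat_lit 5) (nat_lit 4) (nat_lit 369) (nat_lit 331) (nat_lit 320)) (XT.lf (nat_lit 0) (nat_lit 603649597) (nat_lit 152) (nat_lit 91930339) (nat_lit 76) (nat_lit 51896210011) (nat_lit 3) (nat_lit 5) (nat_lit 5) (nat_lit 5) (nat_lit 4) (nat_lit 4) (nat_lit 370) (nat_lit 331) (nat_lit 319))))) (XT.nd (nat_lit 234) (nat_lit 76) (nat_lit 0) (XT.nd (nat_lit 78) (nat_lit 0) (nat_lit 0) (XT.lf (nat_lit 0) (nat_lit 7873636647) (nat_lit 152) (nat_lit 44867205821) (nat_lit 0) (nat_lit 6628900082) (nat_lit 2) (nat_lit 5) (nat_lit 4) (nat_lit 4) (nat_lit 2) (nat_lit 4) (nat_lit 371) (nat_lit 331) (nat_lit 318)) (XT.nd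 (nat_lit 78) (nat_lit 0) (nat_lit 0) (XT.lf (nat_lit 0) (nat_lit 16020967295) (nat_lit 152) (nat_lit 36430687227) (nat_lit 0) (nat_lit 14744722164) (nat_lit 2) (nat_lit 5) (nat_lit 4) (nat_lit 4) (nat_lit 2) (nat_lit 4) (nat_lit 372) (nat_lit 331) (nat_lit 317)) (XT.lf (nat_lit 0) (nat_lit 25171865718) (nat_lit 152) (nat_lit 27189711619) (nat_lit 0) (nat_lit 23868221835) (nat_lit 2) (nat_lit 5) (nat_lit 4) (nat_lit 4) (nat_lit 2) (nat_lit 4) (nat_lit 373) (nat_lit 331) (nat_lit 316)))) (XT.nd (nat_lit 78) (nat_lit 76) (nat_lit 0) (XT.lf (nat_lit 0) (nat_lit 35505371233) (nat_lit 152) (nat_lit 16963477302) (nat_lit 0) (nat_lit 34177902349) (nat_lit 2) (nat_lit 5) (nat_lit 4) (nat_lit 4) (nat_lit 2) (nat_lit 4) (nat_lit 374) (nat_lit 331) (nat_lit 315)) (XT.nd (nat_lit 78) (nat_lit 76) (nat_lit 0) (XT.lf (nat_lit 0) (nat_lit 47223661122) (nat_lit 152) (nat_lit 5551905776) (nat_lit 0) (nat_lit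 45875474845) (nat_lit 2) (nat_lit 5) (nat_lit 4) (nat_lit 4) (nat_lit 2) (nat_lit 4) (nat_lit 375) (nat_lit 331) (nat_lit 314)) (XT.lf (nat_lit 0) (nat_lit 7978581316) (nat_lit 76) (nat_lit 52907800997) (nat_lit 76) (nat_lit 51541599595) (nat_lit 1) (nat_lit 4) (nat_lit 2) (nat_lit 5) (nat_lit 2) (nat_lit 4) (nat_lit 376) (nat_lit 331) (nat_lit 313)))))) (XT.nd (nat_lit 468) (nat_lit 0) (nat_lit 0) (XT.nd (nat_lit 234) (nat_lit 0) (nat_lit 0) (XT.nd (nat_lit 78) (nat_lit 0) (nat_lit 0) (XT.lf (nat_lit 0) (nat_lit 23873249906) (nat_lit 76) (nat_lit 52878547385) (nat_lit 76) (nat_lit 51496680658) (nat_lit 1) (nat_lit 4) (nat_lit 2) (nat_lit 5) (nat_lit 2) (nat_lit 4) (nat_lit 377) (nat_lit 331) (nat_lit 312)) (XT.nd (nat_lit 78) (nat_lit 0) (nat_lit 0) (XT.lf (nat_lit 0) (nat_lit 41900510028) (nat_lit 76) (nat_lit 52977446967) (nat_lit 76) (nat_lit 51581958218) (nat_lit 1) (nat_lit 4) (nat_lit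 2) (nat_lit 5) (nat_lit 2) (nat_lit 4) (nat_lit 378) (nat_lit 331) (nat_lit 311)) (XT.lf (nat_lit 0) (nat_lit 62413068948) (nat_lit 76) (nat_lit 53206434735) (nat_lit 76) (nat_lit 51799100749) (nat_lit 1) (nat_lit 4) (nat_lit 2) (nat_lit 5) (nat_lit 2) (nat_lit 4) (nat_lit 379) (nat_lit 331) (nat_lit 310)))) (XT.nd (nat_lit 78) (nat_lit 0) (nat_lit 0) (XT.lf (nat_lit 0) (nat_lit 85812259338) (nat_lit 76) (nat_lit 53569990884) (nat_lit 76) (nat_lit 52152356692) (nat_lit 1) (nat_lit 4) (nat_lit 2) (nat_lit 5) (nat_lit 2) (nat_lit 4) (nat_lit 380) (nat_lit 331) (nat_lit 309)) (XT.nd (nat_lit 78) (nat_lit 0) (nat_lit 0) (XT.lf (nat_lit 0) (nat_lit 112555891446) (nat_lit 76) (nat_lit 54075228469) (nat_lit 76) (nat_lit 52648637577) (nat_lit 1) (nat_lit 4) (nat_lit 2) (nat_lit 5) (nat_lit 2) (nat_lit 4) (nat_lit 381) (nat_lit 331) (nat_lit 308)) (XT.lf (nat_lit 0) (nat_lit 143167210248) (nat_lit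 76) (nat_lit 54732032573) (nat_lit 76) (nat_lit 53297653246) (nat_lit 1) (nat_lit 4) (nat_lit 2) (nat_lit 5) (nat_lit 2) (nat_lit 4) (nat_lit 382) (nat_lit 331) (nat_lit 307))))) (XT.nd (nat_lit 234) (nat_lit 0) (nat_lit 0) (XT.nd (nat_lit 78) (nat_lit 0) (nat_lit 0) (XT.lf (nat_lit 0) (nat_lit 178245132850) (nat_lit 76) (nat_lit 55553253712) (nat_lit 76) (nat_lit 54112101832) (nat_lit 1) (nat_lit 4) (nat_lit 2) (nat_lit 5) (nat_lit 2) (nat_lit 4) (nat_lit 383) (nat_lit 331) (nat_lit 306)) (XT.nd (nat_lit 78) (nat_lit 0) (nat_lit 0) (XT.lf (nat_lit 0) (nat_lit 218475966435) (nat_lit 76) (nat_lit 56554959255) (nat_lit 76) (nat_lit 55107918199) (nat_lit 1) (nat_lit 4) (nat_lit 2) (nat_lit 5) (nat_lit 2) (nat_lit 4) (nat_lit 384) (nat_lit 331) (nat_lit 305)) (XT.lf (nat_lit 0) (nat_lit 264646836007) (nat_lit 76) (nat_lit 57756747790) (nat_lit 76) (nat_lit 56304585711) (nat_lit 1) (nat_lit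 4) (nat_lit 2) (nat_lit 5) (nat_lit 2) (nat_lit 4) (nat_lit 385) (nat_lit 331) (nat_lit 304)))) (XT.nd (nat_lit 78) (nat_lit 0) (nat_lit 0) (XT.lf (nat_lit 0) (nat_lit 317661084666) (nat_lit 76) (nat_lit 59182132569) (nat_lit 76) (nat_lit 57725517427) (nat_lit 1) (nat_lit 4) (nat_lit 2) (nat_lit 5) (nat_lit 2) (nat_lit 4) (nat_lit 386) (nat_lit 331) (nat_lit 303)) (XT.nd (nat_lit 78) (nat_lit 0) (nat_lit 0) (XT.lf (nat_lit 0) (nat_lit 378555947712) (nat_lit 76) (nat_lit 60859001557) (nat_lit 76) (nat_lit 59398514187) (nat_lit 1) (nat_lit 4) (nat_lit 2) (nat_lit 5) (nat_lit 2) (nat_lit 4) (nat_lit 387) (nat_lit 331) (nat_lit 302)) (XT.lf (nat_lit 0) (nat_lit 448522846379) (nat_lit 76) (nat_lit 62820163060) (nat_lit 76) (nat_lit 61356308534) (nat_lit 1) (nat_lit 4) (nat_lit 2) (nat_lit 5) (nat_lit 2) (nat_lit 4) (nat_lit 388) (nat_lit 331) (nat_lit 301))))))))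
noncomputable def xc31 : XT := (XT.nd (nat_lit 1794) (nat_lit 0) (nat_lit 0) (XT.nd (nat_lit 858) (nat_lit 0) (nat_lit 0) (XT.nd (nat_lit 390) (nat_lit 0) (nat_lit 0) (XT.nd (nat_lit 156) (nat_lit 0) (nat_lit 0) (XT.nd (nat_lit 78) (nat_lit 0) (nat_lit 0) (XT.lf (nat_lit 0) (nat_lit 528930698249) (nat_lit 76) (nat_lit 65103987628) (nat_lit 76) (nat_lit 63637205141) (nat_lit 1) (nat_lit 4) (nat_lit 2) (nat_lit 5) (nat_lit 2) (nat_lit 4) (nat_lit 389) (nat_lit 331) (nat_lit 300)) (XT.lf (nat_lit 0) (nat_lit 621352700424) (nat_lit 76) (nat_lit 67755158786) (nat_lit 76) (nat_lit 66285830245) (nat_lit 1) (nat_lit 4) (nat_lit 2) (nat_lit 5) (nat_lit 2) (nat_lit 4) (nat_lit 390) (nat_lit 331) (nat_lit 299))) (XT.nd (nat_lit 78) (nat_lit 0) (nat_lit 0) (XT.lf (nat_lit 0) (nat_lit 727597109469) (nat_lit 76) (nat_lit 70825547274) (nat_lit 76) (nat_lit 69354004774) (nat_lit 1) (nat_lit 4) (nat_lit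 2) (nat_lit 5) (nat_lit 2) (nat_lit 4) (nat_lit 391) (nat_lit 331) (nat_lit 298)) (XT.nd (nat_lit 78) (nat_lit 0) (nat_lit 0) (XT.lf (nat_lit 0) (nat_lit 849742620343) (nat_lit 76) (nat_lit 74375225911) (nat_lit 76) (nat_lit 72901758228) (nat_lit 1) (nat_lit 4) (nat_lit 2) (nat_lit 5) (nat_lit 2) (nat_lit 4) (nat_lit 392) (nat_lit 331) (nat_lit 297)) (XT.lf (nat_lit 0) (nat_lit 990179036519) (nat_lit 76) (nat_lit 78473644929) (nat_lit 76) (nat_lit 76998503175) (nat_lit 1) (nat_lit 4) (nat_lit 2) (nat_lit 5) (nat_lit 2) (nat_lit 4) (nat_lit 393) (nat_lit 331) (nat_lit 296))))) (XT.nd (nat_lit 234) (nat_lit 0) (nat_lit 0) (XT.nd (nat_lit 78) (nat_lit 0) (nat_lit 0) (XT.lf (nat_lit 0) (nat_lit 1151654027010) (nat_lit 76) (nat_lit 83200990789) (nat_lit 76) (nat_lit 81724393321) (nat_lit 1) (nat_lit 4) (nat_lit 2) (nat_lit 5) (nat_lit 2) (nat_lit 4) (nat_lit 394) (nat_lit 331) (nat_lit 295))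 (XT.nd (nat_lit 78) (nat_lit 0) (nat_lit 0) (XT.lf (nat_lit 0) (nat_lit 1337326885108) (nat_lit 76) (nat_lit 88649755040) (nat_lit 76) (nat_lit 87171891733) (nat_lit 1) (nat_lit 4) (nat_lit 2) (nat_lit 5) (nat_lit 2) (nat_lit 4) (nat_lit 395) (nat_lit 331) (nat_lit 294)) (XT.lf (nat_lit 0) (nat_lit 1550830340645) (nat_lit 76) (nat_lit 94926543939) (nat_lit 76) (nat_lit 93447579903) (nat_lit 1) (nat_lit 4) (nat_lit 2) (nat_lit 5) (nat_lit 2) (nat_lit 4) (nat_lit 396) (nat_lit 331) (nat_lit 293)))) (XT.nd (nat_lit 78) (nat_lit 0) (nat_lit 0) (XT.lf (nat_lit 0) (nat_lit 1796341635143) (nat_lit 76) (nat_lit 102154164225) (nat_lit 76) (nat_lit 100674243033) (nat_lit 1) (nat_lit 4) (nat_lit 2) (nat_lit 5) (nat_lit 2) (nat_lit 4) (nat_lit 397) (nat_lit 331) (nat_lit 292)) (XT.nd (nat_lit 78) (nat_lit 0) (nat_lit 0) (XT.lf (nat_lit 0) (nat_lit 2078664250451) (nat_lit 76) (nat_lit 110474025860)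 (nat_lit 76) (nat_lit 108993272359) (nat_lit 1) (nat_lit 4) (nat_lit 2) (nat_lit 5) (nat_lit 2) (nat_lit 4) (nat_lit 398) (nat_lit 331) (nat_lit 291)) (XT.lf (nat_lit 0) (nat_lit 2403321889911) (nat_lit 76) (nat_lit 120048908746) (nat_lit 76) (nat_lit 118567431498) (nat_lit 1) (nat_lit 4) (nat_lit 2) (nat_lit 5) (nat_lit 2) (nat_lit 4) (nat_lit 399) (nat_lit 331) (nat_lit 290)))))) (XT.nd (nat_lit 468) (nat_lit 0) (nat_lit 0) (XT.nd (nat_lit 234) (nat_lit 0) (nat_lit 0) (XT.nd (nat_lit 78) (nat_lit 0) (nat_lit 0) (XT.lf (nat_lit 0) (nat_lit 2776666550818) (nat_lit 76) (nat_lit 131066147548) (nat_lit 76) (nat_lit 129584040955) (nat_lit 1) (nat_lit 4) (nat_lit 2) (nat_lit 5) (nat_lit 2) (nat_lit 4) (nat_lit 400) (nat_lit 331) (nat_lit 289)) (XT.nd (nat_lit 78) (nat_lit 0) (nat_lit 0) (XT.lf (nat_lit 0) (nat_lit 3206002802623) (nat_lit 76) (nat_lit 143741296939) (nat_lit 76) (nat_lit 142258643088)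 (nat_lit 1) (nat_lit 4) (nat_lit 2) (nat_lit 5) (nat_lit 2) (nat_lit 4) (nat_lit 401) (nat_lit 331) (nat_lit 288)) (XT.lf (nat_lit 0) (nat_lit 3699730702428) (nat_lit 76) (nat_lit 158322348971) (nat_lit 76) (nat_lit 156839219245) (nat_lit 1) (nat_lit 4) (nat_lit 2) (nat_lit 5) (nat_lit 2) (nat_lit 4) (nat_lit 402) (nat_lit 331) (nat_lit 287)))) (XT.nd (nat_lit 78) (nat_lit 0) (nat_lit 0) (XT.lf (nat_lit 0) (nat_lit 4267510143924) (nat_lit 76) (nat_lit 175094585098) (nat_lit 76) (nat_lit 173611041567) (nat_lit 1) (nat_lit 4) (nat_lit 2) (nat_lit 5) (nat_lit 2) (nat_lit 4) (nat_lit 403) (nat_lit 331) (nat_lit 286)) (XT.nd (nat_lit 78) (nat_lit 0) (nat_lit 0) (XT.lf (nat_lit 0) (nat_lit 4920449855314) (nat_lit 76) (nat_lit 194386157764) (nat_lit 76) (nat_lit 192902254403) (nat_lit 1) (nat_lit 4) (nat_lit 2) (nat_lit 5) (nat_lit 2) (nat_lit 4) (nat_lit 404) (nat_lit 331) (nat_lit 285)) (XT.lf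 (nat_lit 0) (nat_lit 5671324743996) (nat_lit 76) (nat_lit 216574510785) (nat_lit 76) (nat_lit 215090294528) (nat_lit 1) (nat_lit 4) (nat_lit 2) (nat_lit 5) (nat_lit 2) (nat_lit 4) (nat_lit 405) (nat_lit 331) (nat_lit 284))))) (XT.nd (nat_lit 234) (nat_lit 0) (nat_lit 0) (XT.nd (nat_lit 78) (nat_lit 0) (nat_lit 0) (XT.lf (nat_lit 0) (nat_lit 6534825840399) (nat_lit 76) (nat_lit 242093764109) (nat_lit 76) (nat_lit 240609275768) (nat_lit 1) (nat_lit 4) (nat_lit 2) (nat_lit 5) (nat_lit 2) (nat_lit 4) (nat_lit 406) (nat_lit 331) (nat_lit 283)) (XT.nd (nat_lit 78) (nat_lit 0) (nat_lit 0) (XT.lf (nat_lit 0) (nat_lit 7527847731193) (nat_lit 76) (nat_lit 271443207476) (nat_lit 76) (nat_lit 269958482541) (nat_lit 1) (nat_lit 4) (nat_lit 2) (nat_lit 5) (nat_lit 2) (nat_lit 4) (nat_lit 407) (nat_lit 331) (nat_lit 282)) (XT.lf (nat_lit 0) (nat_lit 8669819105546) (nat_lit 76) (nat_lit 305197069125)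 (nat_lit 76) (nat_lit 303712138456) (nat_lit 1) (nat_lit 4) (nat_lit 2) (nat_lit 5) (nat_lit 2) (nat_lit 4) (nat_lit 408) (nat_lit 331) (nat_lit 281)))) (XT.nd (nat_lit 78) (nat_lit 0) (nat_lit 0) (XT.lf (nat_lit 0) (nat_lit 9983082881651) (nat_lit 76) (nat_lit 344015750698) (nat_lit 76) (nat_lit 342530641130) (nat_lit 1) (nat_lit 4) (nat_lit 2) (nat_lit 5) (nat_lit 2) (nat_lit 4) (nat_lit 409) (nat_lit 331) (nat_lit 280)) (XT.nd (nat_lit 78) (nat_lit 0) (nat_lit 0) (XT.lf (nat_lit 0) (nat_lit 11493333350779) (nat_lit 76) (nat_lit 388658748138) (nat_lit 76) (nat_lit 387173483005) (nat_lit 1) (nat_lit 4) (nat_lit 2) (nat_lit 5) (nat_lit 2) (nat_lit 4) (nat_lit 410) (nat_lit 331) (nat_lit 279)) (XT.lf (nat_lit 0) (nat_lit 13230118891676) (nat_lit 76) (nat_lit 439999511395) (nat_lit 76) (nat_lit 438514110989) (nat_lit 1) (nat_lit 4) (nat_lit 2) (nat_lit 5) (nat_lit 2) (nat_lit 4) (nat_lit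 411) (nat_lit 331) (nat_lit 278))))))) (XT.nd (nat_lit 858) (nat_lit 0) (nat_lit 0) (XT.nd (nat_lit 390) (nat_lit 0) (nat_lit 0) (XT.nd (nat_lit 156) (nat_lit 0) (nat_lit 0) (XT.nd (nat_lit 78) (nat_lit 0) (nat_lit 0) (XT.lf (nat_lit 0) (nat_lit 15227420091009) (nat_lit 76) (nat_lit 499042533664) (nat_lit 76) (nat_lit 497557015629) (nat_lit 1) (nat_lit 4) (nat_lit 2) (nat_lit 5) (nat_lit 2) (nat_lit 4) (nat_lit 412) (nat_lit 331) (nat_lit 277)) (XT.lf (nat_lit 0) (nat_lit 17524314580941) (nat_lit 76) (nat_lit 566943004510) (nat_lit 76) (nat_lit 565457384189) (nat_lit 1) (nat_lit 4) (nat_lit 2) (nat_lit 5) (nat_lit 2) (nat_lit 4) (nat_lit 413) (nat_lit 331) (nat_lit 276))) (XT.nd (nat_lit 78) (nat_lit 0) (nat_lit 0) (XT.lf (nat_lit 0) (nat_lit 20165741601492) (nat_lit 76) (nat_lit 645029411407) (nat_lit 76) (nat_lit 643543702141) (nat_lit 1) (nat_lit 4) (nat_lit 2) (nat_lit 5) (nat_lit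 2) (nat_lit 4) (nat_lit 414) (nat_lit 331) (nat_lit 275)) (XT.nd (nat_lit 78) (nat_lit 0) (nat_lit 0) (XT.lf (nat_lit 0) (nat_lit 23203381246541) (nat_lit 76) (nat_lit 734829531881) (nat_lit 76) (nat_lit 733343745272) (nat_lit 1) (nat_lit 4) (nat_lit 2) (nat_lit 5) (nat_lit 2) (nat_lit 4) (nat_lit 415) (nat_lit 331) (nat_lit 274)) (XT.lf (nat_lit 0) (nat_lit 26696665596102) (nat_lit 76) (nat_lit 838100324810) (nat_lit 76) (nat_lit 836614470946) (nat_lit 1) (nat_lit 4) (nat_lit 2) (nat_lit 5) (nat_lit 2) (nat_lit 4) (nat_lit 416) (nat_lit 331) (nat_lit 273))))) (XT.nd (nat_lit 234) (nat_lit 0) (nat_lit 0) (XT.nd (nat_lit 78) (nat_lit 0) (nat_lit 0) (XT.lf (nat_lit 0) (nat_lit 30713941517882) (nat_lit 76) (nat_lit 956862305709) (nat_lit 76) (nat_lit 955376393363) (nat_lit 1) (nat_lit 4) (nat_lit 2) (nat_lit 5) (nat_lit 2) (nat_lit 4) (nat_lit 417) (nat_lit 331) (nat_lit 272)) (XT.nd (nat_lit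 78) (nat_lit 0) (nat_lit 0) (XT.lf (nat_lit 0) (nat_lit 35333807888612) (nat_lit 76) (nat_lit 1093439078552) (nat_lit 76) (nat_lit 1091953115351) (nat_lit 1) (nat_lit 4) (nat_lit 2) (nat_lit 5) (nat_lit 2) (nat_lit 4) (nat_lit 418) (nat_lit 331) (nat_lit 271)) (XT.lf (nat_lit 0) (nat_lit 40646653398154) (nat_lit 76) (nat_lit 1250502797589) (nat_lit 76) (nat_lit 1249016790167) (nat_lit 1) (nat_lit 4) (nat_lit 2) (nat_lit 5) (nat_lit 2) (nat_lit 4) (nat_lit 419) (nat_lit 331) (nat_lit 270)))) (XT.nd (nat_lit 78) (nat_lit 0) (nat_lit 0) (XT.lf (nat_lit 0) (nat_lit 46756425023869) (nat_lit 76) (nat_lit 1431126448629) (nat_lit 76) (nat_lit 1429640402754) (nat_lit 1) (nat_lit 4) (nat_lit 2) (nat_lit 5) (nat_lit 2) (nat_lit 4) (nat_lit 420) (nat_lit 331) (nat_lit 269)) (XT.nd (nat_lit 78) (nat_lit 0) (nat_lit 0) (XT.lf (nat_lit 0) (nat_lit 53782661775825) (nat_lit 76) (nat_lit 1638843972669)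 (nat_lit 76) (nat_lit 1637357893356) (nat_lit 1) (nat_lit 4) (nat_lit 2) (nat_lit 5) (nat_lit 2) (nat_lit 4) (nat_lit 421) (nat_lit 331) (nat_lit 268)) (XT.lf (nat_lit 0) (nat_lit 61862833503518) (nat_lit 76) (nat_lit 1877719408224) (nat_lit 76) (nat_lit 1876233299835) (nat_lit 1) (nat_lit 4) (nat_lit 2) (nat_lit 5) (nat_lit 2) (nat_lit 4) (nat_lit 422) (nat_lit 331) (nat_lit 267)))))) (XT.nd (nat_lit 468) (nat_lit 0) (nat_lit 0) (XT.nd (nat_lit 234) (nat_lit 0) (nat_lit 0) (XT.nd (nat_lit 78) (nat_lit 0) (nat_lit 0) (XT.lf (nat_lit 0) (nat_lit 71155030523357) (nat_lit 76) (nat_lit 2152426405120) (nat_lit 76) (nat_lit 2150940271447) (nat_lit 1) (nat_lit 4) (nat_lit 2) (nat_lit 5) (nat_lit 2) (nat_lit 4) (nat_lit 423) (nat_lit 331) (nat_lit 266)) (XT.nd (nat_lit 78) (nat_lit 0) (nat_lit 0) (XT.lf (nat_lit 0) (nat_lit 81841056690080) (nat_lit 76) (nat_lit 2468339665469) (nat_lit 76) (nat_lit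 2466853509811) (nat_lit 1) (nat_lit 4) (nat_lit 2) (nat_lit 5) (nat_lit 2) (nat_lit 4) (nat_lit 424) (nat_lit 331) (nat_lit 265)) (XT.lf (nat_lit 0) (nat_lit 94129986428688) (nat_lit 76) (nat_lit 2831640100888) (nat_lit 76) (nat_lit 2830153926111) (nat_lit 1) (nat_lit 4) (nat_lit 2) (nat_lit 5) (nat_lit 2) (nat_lit 4) (nat_lit 425) (nat_lit 331) (nat_lit 264)))) (XT.nd (nat_lit 78) (nat_lit 0) (nat_lit 0) (XT.lf (nat_lit 0) (nat_lit 108262255321022) (nat_lit 76) (nat_lit 3249435763373) (nat_lit 76) (nat_lit 3247949571972) (nat_lit 1) (nat_lit 4) (nat_lit 2) (nat_lit 5) (nat_lit 2) (nat_lit 4) (nat_lit 426) (nat_lit 331) (nat_lit 263)) (XT.nd (nat_lit 78) (nat_lit 0) (nat_lit 0) (XT.lf (nat_lit 0) (nat_lit 124514364280194) (nat_lit 76) (nat_lit 3729900915887) (nat_lit 76) (nat_lit 3728414710030) (nat_lit 1) (nat_lit 4) (nat_lit 2) (nat_lit 5) (nat_lit 2) (nat_lit 4) (nat_lit 427) (nat_lit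 331) (nat_lit 262)) (XT.lf (nat_lit 0) (nat_lit 143204289351056) (nat_lit 76) (nat_lit 4282435963587) (nat_lit 76) (nat_lit 4280949745160) (nat_lit 1) (nat_lit 4) (nat_lit 2) (nat_lit 5) (nat_lit 2) (nat_lit 4) (nat_lit 428) (nat_lit 331) (nat_lit 261))))) (XT.nd (nat_lit 47502) (nat_lit 0) (nat_lit 760) (XT.nd (nat_lit 78) (nat_lit 0) (nat_lit 0) (XT.lf (nat_lit 0) (nat_lit 164697702980649) (nat_lit 76) (nat_lit 4917851374797) (nat_lit 76) (nat_lit 4916365145440) (nat_lit 1) (nat_lit 4) (nat_lit 2) (nat_lit 5) (nat_lit 2) (nat_lit 4) (nat_lit 429) (nat_lit 331) (nat_lit 260)) (XT.nd (nat_lit 47346) (nat_lit 0) (nat_lit 988) (XT.lf (nat_lit 0) (nat_lit 189415128479115) (nat_lit 76) (nat_lit 5648579190173) (nat_lit 76) (nat_lit 5647092951310) (nat_lit 1) (nat_lit 4) (nat_lit 2) (nat_lit 5) (nat_lit 2) (nat_lit 4) (nat_lit 430) (nat_lit 331) (nat_lit 259)) (XT.lf (nat_lit 0) (nat_lit 729853656)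 (nat_lit 152) (nat_lit 5142826183) (nat_lit 0) (nat_lit 729853656) (nat_lit 14) (nat_lit 5) (nat_lit 16) (nat_lit 4) (nat_lit 14) (nat_lit 4) (nat_lit 356) (nat_lit 332) (nat_lit 332)))) (XT.nd (nat_lit 78) (nat_lit 152) (nat_lit 0) (XT.lf (nat_lit 0) (nat_lit 418280616) (nat_lit 76) (nat_lit 7105727284) (nat_lit 76) (nat_lit 6715794500) (nat_lit 13) (nat_lit 4) (nat_lit 14) (nat_lit 5) (nat_lit 14) (nat_lit 4) (nat_lit 357) (nat_lit 332) (nat_lit 331)) (XT.nd (nat_lit 78) (nat_lit 152) (nat_lit 0) (XT.lf (nat_lit 0) (nat_lit 12744801918) (nat_lit 76) (nat_lit 1710274532) (nat_lit 76) (nat_lit 981269763) (nat_lit 13) (nat_lit 4) (nat_lit 14) (nat_lit 5) (nat_lit 14) (nat_lit 4) (nat_lit 358) (nat_lit 332) (nat_lit 330)) (XT.lf (nat_lit 0) (nat_lit 5181257337) (nat_lit 152) (nat_lit 7295285567) (nat_lit 0) (nat_lit 4290953012) (nat_lit 11) (nat_lit 5) (nat_lit 13) (nat_lit 4) (nat_lit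 11) (nat_lit 4) (nat_lit 359) (nat_lit 332) (nat_lit 329))))))))
noncomputable def xc32 : XT := (XT.nd (nat_lit 1716) (nat_lit 0) (nat_lit 0) (XT.nd (nat_lit 858) (nat_lit 228) (nat_lit 0) (XT.nd (nat_lit 390) (nat_lit 228) (nat_lit 0) (XT.nd (nat_lit 156) (nat_lit 228) (nat_lit 0) (XT.nd (nat_lit 78) (nat_lit 0) (nat_lit 0) (XT.lf (nat_lit 0) (nat_lit 4721586537) (nat_lit 76) (nat_lit 7348836588) (nat_lit 76) (nat_lit 6235586929) (nat_lit 10) (nat_lit 4) (nat_lit 11) (nat_lit 5) (nat_lit 11) (nat_lit 4) (nat_lit 360) (nat_lit 332) (nat_lit 328)) (XT.lf (nat_lit 0) (nat_lit 18358893340) (nat_lit 76) (nat_lit 1520339031) (nat_lit 76) (nat_lit 213223864) (nat_lit 10) (nat_lit 4) (nat_lit 11) (nat_lit 5) (nat_lit 11) (nat_lit 4) (nat_lit 361) (nat_lit 332) (nat_lit 327))) (XT.nd (nat_lit 78) (nat_lit 76) (nat_lit 0) (XT.lf (nat_lit 0) (nat_lit 6382022083) (nat_lit 152) (nat_lit 10584348570)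 (nat_lit 0) (nat_lit 5098810022) (nat_lit 8) (nat_lit 5) (nat_lit 10) (nat_lit 4) (nat_lit 8) (nat_lit 4) (nat_lit 362) (nat_lit 332) (nat_lit 326)) (XT.nd (nat_lit 78) (nat_lit 0) (nat_lit 0) (XT.lf (nat_lit 0) (nat_lit 1696438399) (nat_lit 76) (nat_lit 12038995212) (nat_lit 76) (nat_lit 10628313432) (nat_lit 7) (nat_lit 4) (nat_lit 8) (nat_lit 5) (nat_lit 8) (nat_lit 4) (nat_lit 363) (nat_lit 332) (nat_lit 325)) (XT.lf (nat_lit 0) (nat_lit 16130966621) (nat_lit 76) (nat_lit 6189230108) (nat_lit 76) (nat_lit 4667705094) (nat_lit 7) (nat_lit 4) (nat_lit 8) (nat_lit 5) (nat_lit 8) (nat_lit 4) (nat_lit 364) (nat_lit 332) (nat_lit 324))))) (XT.nd (nat_lit 234) (nat_lit 76) (nat_lit 0) (XT.nd (nat_lit 78) (nat_lit 0) (nat_lit 0) (XT.lf (nat_lit 0) (nat_lit 1701882116) (nat_lit 152) (nat_lit 28038813224) (nat_lit 0) (nat_lit 295003477) (nat_lit 5) (nat_lit 5) (nat_lit 7) (nat_lit 4) (nat_lit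 5) (nat_lit 4) (nat_lit 365) (nat_lit 332) (nat_lit 323)) (XT.nd (nat_lit 78) (nat_lit 0) (nat_lit 0) (XT.lf (nat_lit 0) (nat_lit 9053555830) (nat_lit 152) (nat_lit 16804328728) (nat_lit 0) (nat_lit 7573795967) (nat_lit 5) (nat_lit 5) (nat_lit 7) (nat_lit 4) (nat_lit 5) (nat_lit 4) (nat_lit 366) (nat_lit 332) (nat_lit 322)) (XT.lf (nat_lit 0) (nat_lit 17173424793) (nat_lit 152) (nat_lit 4583559242) (nat_lit 0) (nat_lit 15630289951) (nat_lit 5) (nat_lit 5) (nat_lit 7) (nat_lit 4) (nat_lit 5) (nat_lit 4) (nat_lit 367) (nat_lit 332) (nat_lit 321)))) (XT.nd (nat_lit 78) (nat_lit 0) (nat_lit 0) (XT.lf (nat_lit 0) (nat_lit 9728714705) (nat_lit 76) (nat_lit 16894486630) (nat_lit 76) (nat_lit 15296243110) (nat_lit 4) (nat_lit 4) (nat_lit 5) (nat_lit 5) (nat_lit 5) (nat_lit 4) (nat_lit 368) (nat_lit 332) (nat_lit 320)) (XT.nd (nat_lit 78) (nat_lit 0) (nat_lit 0) (XT.lf (nat_lit 0) (nat_lit 26122854900)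 (nat_lit 76) (nat_lit 11330191458) (nat_lit 76) (nat_lit 9684027350) (nat_lit 4) (nat_lit 4) (nat_lit 5) (nat_lit 5) (nat_lit 5) (nat_lit 4) (nat_lit 369) (nat_lit 332) (nat_lit 319)) (XT.lf (nat_lit 0) (nat_lit 44471677515) (nat_lit 76) (nat_lit 5194827018) (nat_lit 76) (nat_lit 3506992833) (nat_lit 4) (nat_lit 4) (nat_lit 5) (nat_lit 5) (nat_lit 5) (nat_lit 4) (nat_lit 370) (nat_lit 332) (nat_lit 318)))))) (XT.nd (nat_lit 390) (nat_lit 76) (nat_lit 0) (XT.nd (nat_lit 156) (nat_lit 0) (nat_lit 0) (XT.nd (nat_lit 78) (nat_lit 0) (nat_lit 0) (XT.lf (nat_lit 0) (nat_lit 3362022891) (nat_lit 152) (nat_lit 54855362625) (nat_lit 0) (nat_lit 1862832426) (nat_lit 2) (nat_lit 5) (nat_lit 4) (nat_lit 4) (nat_lit 2) (nat_lit 4) (nat_lit 371) (nat_lit 332) (nat_lit 317)) (XT.lf (nat_lit 0) (nat_lit 11407710830) (nat_lit 152) (nat_lit 46633272299) (nat_lit 0) (nat_lit 9881121613) (nat_lit 2) (nat_lit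 5) (nat_lit 4) (nat_lit 4) (nat_lit 2) (nat_lit 4) (nat_lit 372) (nat_lit 332) (nat_lit 316))) (XT.nd (nat_lit 78) (nat_lit 0) (nat_lit 0) (XT.lf (nat_lit 0) (nat_lit 20470224290) (nat_lit 152) (nat_lit 37578756055) (nat_lit 0) (nat_lit 18919810071) (nat_lit 2) (nat_lit 5) (nat_lit 4) (nat_lit 4) (nat_lit 2) (nat_lit 4) (nat_lit 373) (nat_lit 332) (nat_lit 315)) (XT.nd (nat_lit 78) (nat_lit 0) (nat_lit 0) (XT.lf (nat_lit 0) (nat_lit 30726873315) (nat_lit 152) (nat_lit 27514660314) (nat_lit 0) (nat_lit 29155741704) (nat_lit 2) (nat_lit 5) (nat_lit 4) (nat_lit 4) (nat_lit 2) (nat_lit 4) (nat_lit 374) (nat_lit 332) (nat_lit 314)) (XT.lf (nat_lit 0) (nat_lit 42378331474) (nat_lit 152) (nat_lit 16244078855) (nat_lit 0) (nat_lit 40789184739) (nat_lit 2) (nat_lit 5) (nat_lit 4) (nat_lit 4) (nat_lit 2) (nat_lit 4) (nat_lit 375) (nat_lit 332) (nat_lit 313))))) (XT.nd (nat_lit 234) (nat_lit 0)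 (nat_lit 0) (XT.nd (nat_lit 78) (nat_lit 76) (nat_lit 0) (XT.lf (nat_lit 0) (nat_lit 55652562079) (nat_lit 152) (nat_lit 3546500301) (nat_lit 0) (nat_lit 54047750018) (nat_lit 2) (nat_lit 5) (nat_lit 4) (nat_lit 4) (nat_lit 2) (nat_lit 4) (nat_lit 376) (nat_lit 332) (nat_lit 312)) (XT.nd (nat_lit 78) (nat_lit 0) (nat_lit 0) (XT.lf (nat_lit 0) (nat_lit 11884551157) (nat_lit 76) (nat_lit 59416841098) (nat_lit 76) (nat_lit 57798407015) (nat_lit 1) (nat_lit 4) (nat_lit 2) (nat_lit 5) (nat_lit 2) (nat_lit 4) (nat_lit 377) (nat_lit 332) (nat_lit 311)) (XT.lf (nat_lit 0) (nat_lit 29810048386) (nat_lit 76) (nat_lit 59569346843) (nat_lit 76) (nat_lit 57939067522) (nat_lit 1) (nat_lit 4) (nat_lit 2) (nat_lit 5) (nat_lit 2) (nat_lit 4) (nat_lit 378) (nat_lit 332) (nat_lit 310)))) (XT.nd (nat_lit 78) (nat_lit 0) (nat_lit 0) (XT.lf (nat_lit 0) (nat_lit 50234117833) (nat_lit 76) (nat_lit 59844948664)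 (nat_lit 76) (nat_lit 58204369138) (nat_lit 1) (nat_lit 4) (nat_lit 2) (nat_lit 5) (nat_lit 2) (nat_lit 4) (nat_lit 379) (nat_lit 332) (nat_lit 309)) (XT.nd (nat_lit 78) (nat_lit 0) (nat_lit 0) (XT.lf (nat_lit 0) (nat_lit 73556360855) (nat_lit 76) (nat_lit 60249038773) (nat_lit 76) (nat_lit 58599502546) (nat_lit 1) (nat_lit 4) (nat_lit 2) (nat_lit 5) (nat_lit 2) (nat_lit 4) (nat_lit 380) (nat_lit 332) (nat_lit 308)) (XT.lf (nat_lit 0) (nat_lit 100233082208) (nat_lit 76) (nat_lit 60789523280) (nat_lit 76) (nat_lit 59132198618) (nat_lit 1) (nat_lit 4) (nat_lit 2) (nat_lit 5) (nat_lit 2) (nat_lit 4) (nat_lit 381) (nat_lit 332) (nat_lit 307))))))) (XT.nd (nat_lit 858) (nat_lit 0) (nat_lit 0) (XT.nd (nat_lit 390) (nat_lit 0) (nat_lit 0) (XT.nd (nat_lit 156) (nat_lit 0) (nat_lit 0) (XT.nd (nat_lit 78) (nat_lit 0) (nat_lit 0) (XT.lf (nat_lit 0) (nat_lit 130786217745) (nat_lit 76) (nat_lit 61476976881)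 (nat_lit 76) (nat_lit 59812879667) (nat_lit 1) (nat_lit 4) (nat_lit 2) (nat_lit 5) (nat_lit 2) (nat_lit 4) (nat_lit 382) (nat_lit 332) (nat_lit 306)) (XT.lf (nat_lit 0) (nat_lit 165813546204) (nat_lit 76) (nat_lit 62324849756) (nat_lit 76) (nat_lit 60654863366) (nat_lit 1) (nat_lit 4) (nat_lit 2) (nat_lit 5) (nat_lit 2) (nat_lit 4) (nat_lit 383) (nat_lit 332) (nat_lit 305))) (XT.nd (nat_lit 78) (nat_lit 0) (nat_lit 0) (XT.lf (nat_lit 0) (nat_lit 206000384882) (nat_lit 76) (nat_lit 63349730723) (nat_lit 76) (nat_lit 61674623310) (nat_lit 1) (nat_lit 4) (nat_lit 2) (nat_lit 5) (nat_lit 2) (nat_lit 4) (nat_lit 384) (nat_lit 332) (nat_lit 304)) (XT.nd (nat_lit 78) (nat_lit 0) (nat_lit 0) (XT.lf (nat_lit 0) (nat_lit 252132998012) (nat_lit 76) (nat_lit 64571671799) (nat_lit 76) (nat_lit 62892111323) (nat_lit 1) (nat_lit 4) (nat_lit 2) (nat_lit 5) (nat_lit 2) (nat_lit 4) (nat_lit 385) (nat_lit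 332) (nat_lit 303)) (XT.lf (nat_lit 0) (nat_lit 305113980201) (nat_lit 76) (nat_lit 66014580528) (nat_lit 76) (nat_lit 64331147823) (nat_lit 1) (nat_lit 4) (nat_lit 2) (nat_lit 5) (nat_lit 2) (nat_lit 4) (nat_lit 386) (nat_lit 332) (nat_lit 302))))) (XT.nd (nat_lit 234) (nat_lit 0) (nat_lit 0) (XT.nd (nat_lit 78) (nat_lit 0) (nat_lit 0) (XT.lf (nat_lit 0) (nat_lit 365979915881) (nat_lit 76) (nat_lit 67706687733) (nat_lit 76) (nat_lit 66019887873) (nat_lit 1) (nat_lit 4) (nat_lit 2) (nat_lit 5) (nat_lit 2) (nat_lit 4) (nat_lit 387) (nat_lit 332) (nat_lit 301)) (XT.nd (nat_lit 78) (nat_lit 0) (nat_lit 0) (XT.lf (nat_lit 0) (nat_lit 435921660317) (nat_lit 76) (nat_lit 69681099859) (nat_lit 76) (nat_lit 67991372037) (nat_lit 1) (nat_lit 4) (nat_lit 2) (nat_lit 5) (nat_lit 2) (nat_lit 4) (nat_lit 388) (nat_lit 332) (nat_lit 300)) (XT.lf (nat_lit 0) (nat_lit 516307638943) (nat_lit 76) (nat_lit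 71976446709) (nat_lit 76) (nat_lit 70284172833) (nat_lit 1) (nat_lit 4) (nat_lit 2) (nat_lit 5) (nat_lit 2) (nat_lit 4) (nat_lit 389) (nat_lit 332) (nat_lit 299)))) (XT.nd (nat_lit 78) (nat_lit 0) (nat_lit 0) (XT.lf (nat_lit 0) (nat_lit 608710620906) (nat_lit 76) (nat_lit 74637637242) (nat_lit 76) (nat_lit 72943149407) (nat_lit 1) (nat_lit 4) (nat_lit 2) (nat_lit 5) (nat_lit 2) (nat_lit 4) (nat_lit 390) (nat_lit 332) (nat_lit 298)) (XT.nd (nat_lit 78) (nat_lit 0) (nat_lit 0) (XT.lf (nat_lit 0) (nat_lit 714938490635) (nat_lit 76) (nat_lit 77716738230) (nat_lit 76) (nat_lit 76020325213) (nat_lit 1) (nat_lit 4) (nat_lit 2) (nat_lit 5) (nat_lit 2) (nat_lit 4) (nat_lit 391) (nat_lit 332) (nat_lit 297)) (XT.lf (nat_lit 0) (nat_lit 837069619496) (nat_lit 76) (nat_lit 81273992953) (nat_lit 76) (nat_lit 79575905865) (nat_lit 1) (nat_lit 4) (nat_lit 2) (nat_lit 5) (nat_lit 2) (nat_lit 4) (nat_lit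 392) (nat_lit 332) (nat_lit 296)))))) (XT.nd (nat_lit 468) (nat_lit 0) (nat_lit 0) (XT.nd (nat_lit 234) (nat_lit 0) (nat_lit 0) (XT.nd (nat_lit 78) (nat_lit 0) (nat_lit 0) (XT.lf (nat_lit 0) (nat_lit 977493529574) (nat_lit 76) (nat_lit 85378999873) (nat_lit 76) (nat_lit 83679457071) (nat_lit 1) (nat_lit 4) (nat_lit 2) (nat_lit 5) (nat_lit 2) (nat_lit 4) (nat_lit 393) (nat_lit 332) (nat_lit 295)) (XT.nd (nat_lit 78) (nat_lit 0) (nat_lit 0) (XT.lf (nat_lit 0) (nat_lit 1138957645196) (nat_lit 76) (nat_lit 90112074343) (nat_lit 76) (nat_lit 88411265702) (nat_lit 1) (nat_lit 4) (nat_lit 2) (nat_lit 5) (nat_lit 2) (nat_lit 4) (nat_lit 394) (nat_lit 332) (nat_lit 294)) (XT.lf (nat_lit 0) (nat_lit 1324621046887) (nat_lit 76) (nat_lit 95565819994) (nat_lit 76) (nat_lit 93863910624) (nat_lit 1) (nat_lit 4) (nat_lit 2) (nat_lit 5) (nat_lit 2) (nat_lit 4) (nat_lit 395) (nat_lit 332) (nat_lit 293))))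 (XT.nd (nat_lit 78) (nat_lit 0) (nat_lit 0) (XT.lf (nat_lit 0) (nat_lit 1538116279462) (nat_lit 76) (nat_lit 101846940545) (nat_lit 76) (nat_lit 100144074019) (nat_lit 1) (nat_lit 4) (nat_lit 2) (nat_lit 5) (nat_lit 2) (nat_lit 4) (nat_lit 396) (nat_lit 332) (nat_lit 292)) (XT.nd (nat_lit 78) (nat_lit 0) (nat_lit 0) (XT.lf (nat_lit 0) (nat_lit 1783620423558) (nat_lit 76) (nat_lit 109078327485) (nat_lit 76) (nat_lit 107374628650) (nat_lit 1) (nat_lit 4) (nat_lit 2) (nat_lit 5) (nat_lit 2) (nat_lit 4) (nat_lit 397) (nat_lit 332) (nat_lit 291)) (XT.lf (nat_lit 0) (nat_lit 2065936821124) (nat_lit 76) (nat_lit 117401464472) (nat_lit 76) (nat_lit 115697041890) (nat_lit 1) (nat_lit 4) (nat_lit 2) (nat_lit 5) (nat_lit 2) (nat_lit 4) (nat_lit 398) (nat_lit 332) (nat_lit 290))))) (XT.nd (nat_lit 234) (nat_lit 0) (nat_lit 0) (XT.nd (nat_lit 78) (nat_lit 0) (nat_lit 0) (XT.lf (nat_lit 0) (nat_lit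 2390589053853) (nat_lit 76) (nat_lit 126979195490) (nat_lit 76) (nat_lit 125274143562) (nat_lit 1) (nat_lit 4) (nat_lit 2) (nat_lit 5) (nat_lit 2) (nat_lit 4) (nat_lit 399) (nat_lit 332) (nat_lit 289)) (XT.nd (nat_lit 78) (nat_lit 0) (nat_lit 0) (XT.lf (nat_lit 0) (nat_lit 2763929013254) (nat_lit 76) (nat_lit 137998910929) (nat_lit 76) (nat_lit 136293311744) (nat_lit 1) (nat_lit 4) (nat_lit 2) (nat_lit 5) (nat_lit 2) (nat_lit 4) (nat_lit 400) (nat_lit 332) (nat_lit 288)) (XT.lf (nat_lit 0) (nat_lit 3193261176793) (nat_lit 76) (nat_lit 150676213916) (nat_lit 76) (nat_lit 148970138855) (nat_lit 1) (nat_lit 4) (nat_lit 2) (nat_lit 5) (nat_lit 2) (nat_lit 4) (nat_lit 401) (nat_lit 332) (nat_lit 287)))) (XT.nd (nat_lit 78) (nat_lit 0) (nat_lit 0) (XT.lf (nat_lit 0) (nat_lit 3686985521584) (nat_lit 76) (nat_lit 165259138641) (nat_lit 76) (nat_lit 163552649776) (nat_lit 1) (nat_lit 4) (nat_lit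 2) (nat_lit 5) (nat_lit 2) (nat_lit 4) (nat_lit 402) (nat_lit 332) (nat_lit 286)) (XT.nd (nat_lit 78) (nat_lit 0) (nat_lit 0) (XT.lf (nat_lit 0) (nat_lit 4254761871764) (nat_lit 76) (nat_lit 182033003196) (nat_lit 76) (nat_lit 180326154500) (nat_lit 1) (nat_lit 4) (nat_lit 2) (nat_lit 5) (nat_lit 2) (nat_lit 4) (nat_lit 403) (nat_lit 332) (nat_lit 285)) (XT.lf (nat_lit 0) (nat_lit 4907698895053) (nat_lit 76) (nat_lit 201325991888) (nat_lit 76) (nat_lit 199618830296) (nat_lit 1) (nat_lit 4) (nat_lit 2) (nat_lit 5) (nat_lit 2) (nat_lit 4) (nat_lit 404) (nat_lit 332) (nat_lit 284))))))))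
noncomputable def xc33 : XT := (XT.nd (nat_lit 1794) (nat_lit 0) (nat_lit 0) (XT.nd (nat_lit 858) (nat_lit 0) (nat_lit 0) (XT.nd (nat_lit 390) (nat_lit 0) (nat_lit 0) (XT.nd (nat_lit 156) (nat_lit 0) (nat_lit 0) (XT.nd (nat_lit 78) (nat_lit 0) (nat_lit 0) (XT.lf (nat_lit 0) (nat_lit 5658571446255) (nat_lit 76) (nat_lit 223515576234) (nat_lit 76) (nat_lit 221808142559) (nat_lit 1) (nat_lit 4) (nat_lit 2) (nat_lit 5) (nat_lit 2) (nat_lit 4) (nat_lit 405) (nat_lit 332) (nat_lit 283)) (XT.lf (nat_lit 0) (nat_lit 6522070510068) (nat_lit 76) (nat_lit 249035900276) (nat_lit 76) (nat_lit 247328230007) (nat_lit 1) (nat_lit 4) (nat_lit 2) (nat_lit 5) (nat_lit 2) (nat_lit 4) (nat_lit 406) (nat_lit 332) (nat_lit 282))) (XT.nd (nat_lit 78) (nat_lit 0) (nat_lit 0) (XT.lf (nat_lit 0) (nat_lit 7515090633392) (nat_lit 76) (nat_lit 278386274702) (nat_lit 76) (nat_lit 276678398699) (nat_lit 1) (nat_lit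 4) (nat_lit 2) (nat_lit 5) (nat_lit 2) (nat_lit 4) (nat_lit 407) (nat_lit 332) (nat_lit 281)) (XT.nd (nat_lit 78) (nat_lit 0) (nat_lit 0) (XT.lf (nat_lit 0) (nat_lit 8657060470814) (nat_lit 76) (nat_lit 312140945968) (nat_lit 76) (nat_lit 310432891066) (nat_lit 1) (nat_lit 4) (nat_lit 2) (nat_lit 5) (nat_lit 2) (nat_lit 4) (nat_lit 408) (nat_lit 332) (nat_lit 280)) (XT.lf (nat_lit 0) (nat_lit 9970322910458) (nat_lit 76) (nat_lit 350960331556) (nat_lit 76) (nat_lit 349252121089) (nat_lit 1) (nat_lit 4) (nat_lit 2) (nat_lit 5) (nat_lit 2) (nat_lit 4) (nat_lit 409) (nat_lit 332) (nat_lit 279))))) (XT.nd (nat_lit 234) (nat_lit 0) (nat_lit 0) (XT.nd (nat_lit 78) (nat_lit 0) (nat_lit 0) (XT.lf (nat_lit 0) (nat_lit 11480572217446) (nat_lit 76) (nat_lit 395603941183) (nat_lit 76) (nat_lit 393895595442) (nat_lit 1) (nat_lit 4) (nat_lit 2) (nat_lit 5) (nat_lit 2) (nat_lit 4) (nat_lit 410) (nat_lit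 332) (nat_lit 278)) (XT.nd (nat_lit 78) (nat_lit 0) (nat_lit 0) (XT.lf (nat_lit 0) (nat_lit 13217356747786) (nat_lit 76) (nat_lit 446945236776) (nat_lit 76) (nat_lit 445236773406) (nat_lit 1) (nat_lit 4) (nat_lit 2) (nat_lit 5) (nat_lit 2) (nat_lit 4) (nat_lit 411) (nat_lit 332) (nat_lit 277)) (XT.lf (nat_lit 0) (nat_lit 15214657068374) (nat_lit 76) (nat_lit 505988721946) (nat_lit 76) (nat_lit 504280156290) (nat_lit 1) (nat_lit 4) (nat_lit 2) (nat_lit 5) (nat_lit 2) (nat_lit 4) (nat_lit 412) (nat_lit 332) (nat_lit 276)))) (XT.nd (nat_lit 78) (nat_lit 0) (nat_lit 0) (XT.lf (nat_lit 0) (nat_lit 17511550794180) (nat_lit 76) (nat_lit 573889595315) (nat_lit 76) (nat_lit 572180940714) (nat_lit 1) (nat_lit 4) (nat_lit 2) (nat_lit 5) (nat_lit 2) (nat_lit 4) (nat_lit 413) (nat_lit 332) (nat_lit 275)) (XT.nd (nat_lit 78) (nat_lit 0) (nat_lit 0) (XT.lf (nat_lit 0) (nat_lit 20152977150273) (nat_lit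 76) (nat_lit 651976352231) (nat_lit 76) (nat_lit 650267620288) (nat_lit 1) (nat_lit 4) (nat_lit 2) (nat_lit 5) (nat_lit 2) (nat_lit 4) (nat_lit 414) (nat_lit 332) (nat_lit 274)) (XT.lf (nat_lit 0) (nat_lit 23190616217533) (nat_lit 76) (nat_lit 741776777070) (nat_lit 76) (nat_lit 740067977872) (nat_lit 1) (nat_lit 4) (nat_lit 2) (nat_lit 5) (nat_lit 2) (nat_lit 4) (nat_lit 415) (nat_lit 332) (nat_lit 273)))))) (XT.nd (nat_lit 468) (nat_lit 0) (nat_lit 0) (XT.nd (nat_lit 234) (nat_lit 0) (nat_lit 0) (XT.nd (nat_lit 78) (nat_lit 0) (nat_lit 0) (XT.lf (nat_lit 0) (nat_lit 26683900064669) (nat_lit 76) (nat_lit 845047834665) (nat_lit 76) (nat_lit 843338976984) (nat_lit 1) (nat_lit 4) (nat_lit 2) (nat_lit 5) (nat_lit 2) (nat_lit 4) (nat_lit 416) (nat_lit 332) (nat_lit 272)) (XT.nd (nat_lit 78) (nat_lit 0) (nat_lit 0) (XT.lf (nat_lit 0) (nat_lit 30701175549557) (nat_lit 76) (nat_lit 963810045707)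 (nat_lit 76) (nat_lit 962101137172) (nat_lit 1) (nat_lit 4) (nat_lit 2) (nat_lit 5) (nat_lit 2) (nat_lit 4) (nat_lit 417) (nat_lit 332) (nat_lit 271)) (XT.lf (nat_lit 0) (nat_lit 35321041540381) (nat_lit 76) (nat_lit 1100387018675) (nat_lit 76) (nat_lit 1098678065918) (nat_lit 1) (nat_lit 4) (nat_lit 2) (nat_lit 5) (nat_lit 2) (nat_lit 4) (nat_lit 418) (nat_lit 332) (nat_lit 270)))) (XT.nd (nat_lit 78) (nat_lit 0) (nat_lit 0) (XT.lf (nat_lit 0) (nat_lit 40633886719571) (nat_lit 76) (nat_lit 1257450911734) (nat_lit 76) (nat_lit 1255741920524) (nat_lit 1) (nat_lit 4) (nat_lit 2) (nat_lit 5) (nat_lit 2) (nat_lit 4) (nat_lit 419) (nat_lit 332) (nat_lit 269)) (XT.nd (nat_lit 78) (nat_lit 0) (nat_lit 0) (XT.lf (nat_lit 0) (nat_lit 46743658058023) (nat_lit 76) (nat_lit 1438074714097) (nat_lit 76) (nat_lit 1436365689449) (nat_lit 1) (nat_lit 4) (nat_lit 2) (nat_lit 5) (nat_lit 2) (nat_lit 4)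 (nat_lit 420) (nat_lit 332) (nat_lit 268)) (XT.lf (nat_lit 0) (nat_lit 53769894560185) (nat_lit 76) (nat_lit 1645792369722) (nat_lit 76) (nat_lit 1644083315999) (nat_lit 1) (nat_lit 4) (nat_lit 2) (nat_lit 5) (nat_lit 2) (nat_lit 4) (nat_lit 421) (nat_lit 332) (nat_lit 267))))) (XT.nd (nat_lit 234) (nat_lit 0) (nat_lit 0) (XT.nd (nat_lit 78) (nat_lit 0) (nat_lit 0) (XT.lf (nat_lit 0) (nat_lit 61850066070665) (nat_lit 76) (nat_lit 1884667919699) (nat_lit 76) (nat_lit 1882958840692) (nat_lit 1) (nat_lit 4) (nat_lit 2) (nat_lit 5) (nat_lit 2) (nat_lit 4) (nat_lit 422) (nat_lit 332) (nat_lit 266)) (XT.nd (nat_lit 78) (nat_lit 0) (nat_lit 0) (XT.lf (nat_lit 0) (nat_lit 71142262901624) (nat_lit 76) (nat_lit 2159375016092) (nat_lit 76) (nat_lit 2157665915099) (nat_lit 1) (nat_lit 4) (nat_lit 2) (nat_lit 5) (nat_lit 2) (nat_lit 4) (nat_lit 423) (nat_lit 332) (nat_lit 265)) (XT.lf (nat_lit 0)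 (nat_lit 81828288904103) (nat_lit 76) (nat_lit 2475288362961) (nat_lit 76) (nat_lit 2473579242850) (nat_lit 1) (nat_lit 4) (nat_lit 2) (nat_lit 5) (nat_lit 2) (nat_lit 4) (nat_lit 424) (nat_lit 332) (nat_lit 264)))) (XT.nd (nat_lit 78) (nat_lit 0) (nat_lit 0) (XT.lf (nat_lit 0) (nat_lit 94117218499890) (nat_lit 76) (nat_lit 2838588873614) (nat_lit 76) (nat_lit 2836879736879) (nat_lit 1) (nat_lit 4) (nat_lit 2) (nat_lit 5) (nat_lit 2) (nat_lit 4) (nat_lit 425) (nat_lit 332) (nat_lit 263)) (XT.nd (nat_lit 78) (nat_lit 0) (nat_lit 0) (XT.lf (nat_lit 0) (nat_lit 108249487268032) (nat_lit 76) (nat_lit 3256384601521) (nat_lit 76) (nat_lit 3254675450329) (nat_lit 1) (nat_lit 4) (nat_lit 2) (nat_lit 5) (nat_lit 2) (nat_lit 4) (nat_lit 426) (nat_lit 332) (nat_lit 262)) (XT.lf (nat_lit 0) (nat_lit 124501596119211) (nat_lit 76) (nat_lit 3736849810922) (nat_lit 76) (nat_lit 3735140647161) (nat_lit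 1) (nat_lit 4) (nat_lit 2) (nat_lit 5) (nat_lit 2) (nat_lit 4) (nat_lit 427) (nat_lit 332) (nat_lit 261))))))) (XT.nd (nat_lit 47970) (nat_lit 0) (nat_lit 76) (XT.nd (nat_lit 47502) (nat_lit 0) (nat_lit 684) (XT.nd (nat_lit 156) (nat_lit 0) (nat_lit 0) (XT.nd (nat_lit 78) (nat_lit 0) (nat_lit 0) (XT.lf (nat_lit 0) (nat_lit 143191521096167) (nat_lit 76) (nat_lit 4289384908090) (nat_lit 76) (nat_lit 4287675733398) (nat_lit 1) (nat_lit 4) (nat_lit 2) (nat_lit 5) (nat_lit 2) (nat_lit 4) (nat_lit 428) (nat_lit 332) (nat_lit 260)) (XT.lf (nat_lit 0) (nat_lit 164684934644101) (nat_lit 76) (nat_lit 4924800362316) (nat_lit 76) (nat_lit 4923091178119) (nat_lit 1) (nat_lit 4) (nat_lit 2) (nat_lit 5) (nat_lit 2) (nat_lit 4) (nat_lit 429) (nat_lit 332) (nat_lit 259))) (XT.nd (nat_lit 47190) (nat_lit 0) (nat_lit 1140) (XT.lf (nat_lit 0) (nat_lit 189402360071560) (nat_lit 76) (nat_lit 5655528215097)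 (nat_lit 76) (nat_lit 5653819022634) (nat_lit 1) (nat_lit 4) (nat_lit 2) (nat_lit 5) (nat_lit 2) (nat_lit 4) (nat_lit 430) (nat_lit 332) (nat_lit 258)) (XT.nd (nat_lit 78) (nat_lit 76) (nat_lit 0) (XT.lf (nat_lit 0) (nat_lit 1471319182) (nat_lit 152) (nat_lit 2776810647) (nat_lit 0) (nat_lit 1471319182) (nat_lit 17) (nat_lit 5) (nat_lit 19) (nat_lit 4) (nat_lit 17) (nat_lit 4) (nat_lit 354) (nat_lit 333) (nat_lit 333)) (XT.lf (nat_lit 0) (nat_lit 4436517380) (nat_lit 76) (nat_lit 4178828647) (nat_lit 76) (nat_lit 3663142541) (nat_lit 16) (nat_lit 4) (nat_lit 17) (nat_lit 5) (nat_lit 17) (nat_lit 4) (nat_lit 355) (nat_lit 333) (nat_lit 332))))) (XT.nd (nat_lit 234) (nat_lit 228) (nat_lit 0) (XT.nd (nat_lit 78) (nat_lit 76) (nat_lit 0) (XT.lf (nat_lit 0) (nat_lit 1622836964) (nat_lit 152) (nat_lit 10840631576) (nat_lit 0) (nat_lit 784481479) (nat_lit 14) (nat_lit 5) (nat_lit 16) (nat_lit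 4) (nat_lit 14) (nat_lit 4) (nat_lit 356) (nat_lit 333) (nat_lit 331)) (XT.nd (nat_lit 78) (nat_lit 76) (nat_lit 0) (XT.lf (nat_lit 0) (nat_lit 7421736531) (nat_lit 152) (nat_lit 656527442) (nat_lit 0) (nat_lit 6244309061) (nat_lit 14) (nat_lit 5) (nat_lit 16) (nat_lit 4) (nat_lit 14) (nat_lit 4) (nat_lit 357) (nat_lit 333) (nat_lit 330)) (XT.lf (nat_lit 0) (nat_lit 11145178543) (nat_lit 76) (nat_lit 2942987121) (nat_lit 76) (nat_lit 1470714446) (nat_lit 13) (nat_lit 4) (nat_lit 14) (nat_lit 5) (nat_lit 14) (nat_lit 4) (nat_lit 358) (nat_lit 333) (nat_lit 329)))) (XT.nd (nat_lit 78) (nat_lit 76) (nat_lit 0) (XT.lf (nat_lit 0) (nat_lit 4359719282) (nat_lit 152) (nat_lit 9733214717) (nat_lit 0) (nat_lit 2856536839) (nat_lit 11) (nat_lit 5) (nat_lit 13) (nat_lit 4) (nat_lit 11) (nat_lit 4) (nat_lit 359) (nat_lit 333) (nat_lit 328)) (XT.nd (nat_lit 78) (nat_lit 0) (nat_lit 0) (XT.lf (nat_lit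 0) (nat_lit 1579364879) (nat_lit 76) (nat_lit 9328437377) (nat_lit 76) (nat_lit 7631389426) (nat_lit 10) (nat_lit 4) (nat_lit 11) (nat_lit 5) (nat_lit 11) (nat_lit 4) (nat_lit 360) (nat_lit 333) (nat_lit 327)) (XT.lf (nat_lit 0) (nat_lit 14811419211) (nat_lit 76) (nat_lit 3704959375) (nat_lit 76) (nat_lit 1839332721) (nat_lit 10) (nat_lit 4) (nat_lit 11) (nat_lit 5) (nat_lit 11) (nat_lit 4) (nat_lit 361) (nat_lit 333) (nat_lit 326)))))) (XT.nd (nat_lit 468) (nat_lit 228) (nat_lit 0) (XT.nd (nat_lit 234) (nat_lit 152) (nat_lit 0) (XT.nd (nat_lit 78) (nat_lit 76) (nat_lit 0) (XT.lf (nat_lit 0) (nat_lit 4420911591) (nat_lit 152) (nat_lit 15318460867) (nat_lit 0) (nat_lit 2671157825) (nat_lit 8) (nat_lit 5) (nat_lit 10) (nat_lit 4) (nat_lit 8) (nat_lit 4) (nat_lit 362) (nat_lit 333) (nat_lit 325)) (XT.nd (nat_lit 78) (nat_lit 76) (nat_lit 0) (XT.lf (nat_lit 0) (nat_lit 11523342157) (nat_lit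 152) (nat_lit 3560681800) (nat_lit 0) (nat_lit 9662745158) (nat_lit 8) (nat_lit 5) (nat_lit 10) (nat_lit 4) (nat_lit 8) (nat_lit 4) (nat_lit 363) (nat_lit 333) (nat_lit 324)) (XT.lf (nat_lit 0) (nat_lit 10170799621) (nat_lit 76) (nat_lit 9603592818) (nat_lit 76) (nat_lit 7646610399) (nat_lit 7) (nat_lit 4) (nat_lit 8) (nat_lit 5) (nat_lit 8) (nat_lit 4) (nat_lit 364) (nat_lit 333) (nat_lit 323)))) (XT.nd (nat_lit 78) (nat_lit 152) (nat_lit 0) (XT.lf (nat_lit 0) (nat_lit 25698346798) (nat_lit 76) (nat_lit 3429569689) (nat_lit 76) (nat_lit 1388773861) (nat_lit 7) (nat_lit 4) (nat_lit 8) (nat_lit 5) (nat_lit 8) (nat_lit 4) (nat_lit 365) (nat_lit 333) (nat_lit 322)) (XT.nd (nat_lit 78) (nat_lit 0) (nat_lit 0) (XT.lf (nat_lit 0) (nat_lit 5559474654) (nat_lit 152) (nat_lit 24719402714) (nat_lit 0) (nat_lit 3721494607) (nat_lit 5) (nat_lit 5) (nat_lit 7) (nat_lit 4) (nat_lit 5) (nat_lit 4) (nat_lit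 366) (nat_lit 333) (nat_lit 321)) (XT.lf (nat_lit 0) (nat_lit 13544032875) (nat_lit 152) (nat_lit 12781297608) (nat_lit 0) (nat_lit 11650944151) (nat_lit 5) (nat_lit 5) (nat_lit 7) (nat_lit 4) (nat_lit 5) (nat_lit 4) (nat_lit 367) (nat_lit 333) (nat_lit 320))))) (XT.nd (nat_lit 234) (nat_lit 152) (nat_lit 0) (XT.nd (nat_lit 78) (nat_lit 0) (nat_lit 0) (XT.lf (nat_lit 0) (nat_lit 460017725) (nat_lit 76) (nat_lit 22032333201) (nat_lit 76) (nat_lit 20091323888) (nat_lit 4) (nat_lit 4) (nat_lit 5) (nat_lit 5) (nat_lit 5) (nat_lit 4) (nat_lit 368) (nat_lit 333) (nat_lit 319)) (XT.nd (nat_lit 78) (nat_lit 0) (nat_lit 0) (XT.lf (nat_lit 0) (nat_lit 16619535311) (nat_lit 76) (nat_lit 16590631056) (nat_lit 76) (nat_lit 14607951666) (nat_lit 4) (nat_lit 4) (nat_lit 5) (nat_lit 5) (nat_lit 5) (nat_lit 4) (nat_lit 369) (nat_lit 333) (nat_lit 318)) (XT.lf (nat_lit 0) (nat_lit 34764338265) (nat_lit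 76) (nat_lit 10561869248) (nat_lit 76) (nat_lit 8542955008) (nat_lit 4) (nat_lit 4) (nat_lit 5) (nat_lit 5) (nat_lit 5) (nat_lit 4) (nat_lit 370) (nat_lit 333) (nat_lit 317)))) (XT.nd (nat_lit 78) (nat_lit 152) (nat_lit 0) (XT.lf (nat_lit 0) (nat_lit 55249433603) (nat_lit 76) (nat_lit 3828093741) (nat_lit 76) (nat_lit 1777670937) (nat_lit 4) (nat_lit 4) (nat_lit 5) (nat_lit 5) (nat_lit 5) (nat_lit 4) (nat_lit 371) (nat_lit 333) (nat_lit 316)) (XT.nd (nat_lit 78) (nat_lit 0) (nat_lit 0) (XT.lf (nat_lit 0) (nat_lit 5912438225) (nat_lit 152) (nat_lit 58767132763) (nat_lit 0) (nat_lit 4105636872) (nat_lit 2) (nat_lit 5) (nat_lit 4) (nat_lit 4) (nat_lit 2) (nat_lit 4) (nat_lit 372) (nat_lit 333) (nat_lit 315)) (XT.lf (nat_lit 0) (nat_lit 14898095195) (nat_lit 152) (nat_lit 49874755095) (nat_lit 0) (nat_lit 13070576448) (nat_lit 2) (nat_lit 5) (nat_lit 4) (nat_lit 4) (nat_lit 2) (nat_lit 4)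 (nat_lit 373) (nat_lit 333) (nat_lit 314))))))))
noncomputable def xc34 : XT := (XT.nd (nat_lit 1794) (nat_lit 0) (nat_lit 0) (XT.nd (nat_lit 858) (nat_lit 0) (nat_lit 0) (XT.nd (nat_lit 390) (nat_lit 0) (nat_lit 0) (XT.nd (nat_lit 156) (nat_lit 76) (nat_lit 0) (XT.nd (nat_lit 78) (nat_lit 0) (nat_lit 0) (XT.lf (nat_lit 0) (nat_lit 25087912490) (nat_lit 152) (nat_lit 39951649420) (nat_lit 0) (nat_lit 23242378619) (nat_lit 2) (nat_lit 5) (nat_lit 4) (nat_lit 4) (nat_lit 2) (nat_lit 4) (nat_lit 374) (nat_lit 333) (nat_lit 313)) (XT.lf (nat_lit 0) (nat_lit 36681256101) (nat_lit 152) (nat_lit 28803668019) (nat_lit 0) (nat_lit 34820056905) (nat_lit 2) (nat_lit 5) (nat_lit 4) (nat_lit 4) (nat_lit 2) (nat_lit 4) (nat_lit 375) (nat_lit 333) (nat_lit 312))) (XT.nd (nat_lit 78) (nat_lit 76) (nat_lit 0) (XT.lf (nat_lit 0) (nat_lit 49904952316) (nat_lit 152) (nat_lit 16212698212) (nat_lit 0) (nat_lit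 48030131098) (nat_lit 2) (nat_lit 5) (nat_lit 4) (nat_lit 4) (nat_lit 2) (nat_lit 4) (nat_lit 376) (nat_lit 333) (nat_lit 311)) (XT.nd (nat_lit 78) (nat_lit 76) (nat_lit 0) (XT.lf (nat_lit 0) (nat_lit 65017725626) (nat_lit 152) (nat_lit 1932394937) (nat_lit 0) (nat_lit 63131059171) (nat_lit 2) (nat_lit 5) (nat_lit 4) (nat_lit 4) (nat_lit 2) (nat_lit 4) (nat_lit 377) (nat_lit 333) (nat_lit 310)) (XT.lf (nat_lit 0) (nat_lit 15715765131) (nat_lit 76) (nat_lit 67250251915) (nat_lit 76) (nat_lit 65353285255) (nat_lit 1) (nat_lit 4) (nat_lit 2) (nat_lit 5) (nat_lit 2) (nat_lit 4) (nat_lit 378) (nat_lit 333) (nat_lit 309))))) (XT.nd (nat_lit 234) (nat_lit 0) (nat_lit 0) (XT.nd (nat_lit 78) (nat_lit 0) (nat_lit 0) (XT.lf (nat_lit 0) (nat_lit 36062887209) (nat_lit 76) (nat_lit 67566387697) (nat_lit 76) (nat_lit 65660464335) (nat_lit 1) (nat_lit 4) (nat_lit 2) (nat_lit 5) (nat_lit 2) (nat_lit 4)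 (nat_lit 379) (nat_lit 333) (nat_lit 308)) (XT.nd (nat_lit 78) (nat_lit 0) (nat_lit 0) (XT.lf (nat_lit 0) (nat_lit 59318219477) (nat_lit 76) (nat_lit 68005724727) (nat_lit 76) (nat_lit 66092012931) (nat_lit 1) (nat_lit 4) (nat_lit 2) (nat_lit 5) (nat_lit 2) (nat_lit 4) (nat_lit 380) (nat_lit 333) (nat_lit 307)) (XT.lf (nat_lit 0) (nat_lit 85936757566) (nat_lit 76) (nat_lit 68576858731) (nat_lit 76) (nat_lit 66656374382) (nat_lit 1) (nat_lit 4) (nat_lit 2) (nat_lit 5) (nat_lit 2) (nat_lit 4) (nat_lit 381) (nat_lit 333) (nat_lit 306)))) (XT.nd (nat_lit 78) (nat_lit 0) (nat_lit 0) (XT.lf (nat_lit 0) (nat_lit 116439298959) (nat_lit 76) (nat_lit 69290964069) (nat_lit 76) (nat_lit 67364590544) (nat_lit 1) (nat_lit 4) (nat_lit 2) (nat_lit 5) (nat_lit 2) (nat_lit 4) (nat_lit 382) (nat_lit 333) (nat_lit 305)) (XT.nd (nat_lit 78) (nat_lit 0) (nat_lit 0) (XT.lf (nat_lit 0) (nat_lit 151422632511)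 (nat_lit 76) (nat_lit 70162012367) (nat_lit 76) (nat_lit 68230517820) (nat_lit 1) (nat_lit 4) (nat_lit 2) (nat_lit 5) (nat_lit 2) (nat_lit 4) (nat_lit 383) (nat_lit 333) (nat_lit 304)) (XT.lf (nat_lit 0) (nat_lit 191571214747) (nat_lit 76) (nat_lit 71207045876) (nat_lit 76) (nat_lit 69271098265) (nat_lit 1) (nat_lit 4) (nat_lit 2) (nat_lit 5) (nat_lit 2) (nat_lit 4) (nat_lit 384) (nat_lit 333) (nat_lit 303)))))) (XT.nd (nat_lit 468) (nat_lit 0) (nat_lit 0) (XT.nd (nat_lit 234) (nat_lit 0) (nat_lit 0) (XT.nd (nat_lit 78) (nat_lit 0) (nat_lit 0) (XT.lf (nat_lit 0) (nat_lit 237670561407) (nat_lit 76) (nat_lit 72446510902) (nat_lit 76) (nat_lit 70506691062) (nat_lit 1) (nat_lit 4) (nat_lit 2) (nat_lit 5) (nat_lit 2) (nat_lit 4) (nat_lit 385) (nat_lit 333) (nat_lit 302)) (XT.nd (nat_lit 78) (nat_lit 0) (nat_lit 0) (XT.lf (nat_lit 0) (nat_lit 290622616230) (nat_lit 76) (nat_lit 73904657848)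 (nat_lit 76) (nat_lit 71961470852) (nat_lit 1) (nat_lit 4) (nat_lit 2) (nat_lit 5) (nat_lit 2) (nat_lit 4) (nat_lit 386) (nat_lit 333) (nat_lit 301)) (XT.lf (nat_lit 0) (nat_lit 351463397679) (nat_lit 76) (nat_lit 75610015676) (nat_lit 76) (nat_lit 73663900719) (nat_lit 1) (nat_lit 4) (nat_lit 2) (nat_lit 5) (nat_lit 2) (nat_lit 4) (nat_lit 387) (nat_lit 333) (nat_lit 300)))) (XT.nd (nat_lit 78) (nat_lit 0) (nat_lit 0) (XT.lf (nat_lit 0) (nat_lit 421383268871) (nat_lit 76) (nat_lit 77595950083) (nat_lit 76) (nat_lit 75647289073) (nat_lit 1) (nat_lit 4) (nat_lit 2) (nat_lit 5) (nat_lit 2) (nat_lit 4) (nat_lit 388) (nat_lit 333) (nat_lit 299)) (XT.nd (nat_lit 78) (nat_lit 0) (nat_lit 0) (XT.lf (nat_lit 0) (nat_lit 501750227284) (nat_lit 76) (nat_lit 79901316308) (nat_lit 76) (nat_lit 77950441338) (nat_lit 1) (nat_lit 4) (nat_lit 2) (nat_lit 5) (nat_lit 2) (nat_lit 4) (nat_lit 389) (nat_lit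 333) (nat_lit 298)) (XT.lf (nat_lit 0) (nat_lit 594136669932) (nat_lit 76) (nat_lit 82571219341) (nat_lit 76) (nat_lit 80618419189) (nat_lit 1) (nat_lit 4) (nat_lit 2) (nat_lit 5) (nat_lit 2) (nat_lit 4) (nat_lit 390) (nat_lit 333) (nat_lit 297))))) (XT.nd (nat_lit 234) (nat_lit 0) (nat_lit 0) (XT.nd (nat_lit 78) (nat_lit 0) (nat_lit 0) (XT.lf (nat_lit 0) (nat_lit 700350157648) (nat_lit 76) (nat_lit 85657896416) (nat_lit 76) (nat_lit 83703422193) (nat_lit 1) (nat_lit 4) (nat_lit 2) (nat_lit 5) (nat_lit 2) (nat_lit 4) (nat_lit 391) (nat_lit 333) (nat_lit 296)) (XT.nd (nat_lit 78) (nat_lit 0) (nat_lit 0) (XT.lf (nat_lit 0) (nat_lit 822468780410) (nat_lit 76) (nat_lit 89221739041) (nat_lit 76) (nat_lit 87265809103) (nat_lit 1) (nat_lit 4) (nat_lit 2) (nat_lit 5) (nat_lit 2) (nat_lit 4) (nat_lit 392) (nat_lit 333) (nat_lit 295)) (XT.lf (nat_lit 0) (nat_lit 962881815620) (nat_lit 76) (nat_lit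 93332474571) (nat_lit 76) (nat_lit 91375278795) (nat_lit 1) (nat_lit 4) (nat_lit 2) (nat_lit 5) (nat_lit 2) (nat_lit 4) (nat_lit 393) (nat_lit 333) (nat_lit 294)))) (XT.nd (nat_lit 78) (nat_lit 0) (nat_lit 0) (XT.lf (nat_lit 0) (nat_lit 1124336474835) (nat_lit 76) (nat_lit 98070530441) (nat_lit 76) (nat_lit 96112233936) (nat_lit 1) (nat_lit 4) (nat_lit 2) (nat_lit 5) (nat_lit 2) (nat_lit 4) (nat_lit 394) (nat_lit 333) (nat_lit 293)) (XT.nd (nat_lit 78) (nat_lit 0) (nat_lit 0) (XT.lf (nat_lit 0) (nat_lit 1309991653564) (nat_lit 76) (nat_lit 103528607744) (nat_lit 76) (nat_lit 101569354084) (nat_lit 1) (nat_lit 4) (nat_lit 2) (nat_lit 5) (nat_lit 2) (nat_lit 4) (nat_lit 395) (nat_lit 333) (nat_lit 292)) (XT.lf (nat_lit 0) (nat_lit 1523479735736) (nat_lit 76) (nat_lit 109813494950) (nat_lit 76) (nat_lit 107853408980) (nat_lit 1) (nat_lit 4) (nat_lit 2) (nat_lit 5) (nat_lit 2) (nat_lit 4)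 (nat_lit 396) (nat_lit 333) (nat_lit 291))))))) (XT.nd (nat_lit 858) (nat_lit 0) (nat_lit 0) (XT.nd (nat_lit 390) (nat_lit 0) (nat_lit 0) (XT.nd (nat_lit 156) (nat_lit 0) (nat_lit 0) (XT.nd (nat_lit 78) (nat_lit 0) (nat_lit 0) (XT.lf (nat_lit 0) (nat_lit 1768977662090) (nat_lit 76) (nat_lit 117048157241) (nat_lit 76) (nat_lit 115087347524) (nat_lit 1) (nat_lit 4) (nat_lit 2) (nat_lit 5) (nat_lit 2) (nat_lit 4) (nat_lit 397) (nat_lit 333) (nat_lit 290)) (XT.lf (nat_lit 0) (nat_lit 2051288652925) (nat_lit 76) (nat_lit 125374142360) (nat_lit 76) (nat_lit 123412703297) (nat_lit 1) (nat_lit 4) (nat_lit 2) (nat_lit 5) (nat_lit 2) (nat_lit 4) (nat_lit 398) (nat_lit 333) (nat_lit 289))) (XT.nd (nat_lit 78) (nat_lit 0) (nat_lit 0) (XT.lf (nat_lit 0) (nat_lit 2375936184148) (nat_lit 76) (nat_lit 134954350014) (nat_lit 76) (nat_lit 132992363694) (nat_lit 1) (nat_lit 4) (nat_lit 2) (nat_lit 5) (nat_lit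 2) (nat_lit 4) (nat_lit 399) (nat_lit 333) (nat_lit 288)) (XT.nd (nat_lit 78) (nat_lit 0) (nat_lit 0) (XT.lf (nat_lit 0) (nat_lit 2749272055283) (nat_lit 76) (nat_lit 145976219049) (nat_lit 76) (nat_lit 144013756854) (nat_lit 1) (nat_lit 4) (nat_lit 2) (nat_lit 5) (nat_lit 2) (nat_lit 4) (nat_lit 400) (nat_lit 333) (nat_lit 287)) (XT.lf (nat_lit 0) (nat_lit 3178600663809) (nat_lit 76) (nat_lit 158655394729) (nat_lit 76) (nat_lit 156692518729) (nat_lit 1) (nat_lit 4) (nat_lit 2) (nat_lit 5) (nat_lit 2) (nat_lit 4) (nat_lit 401) (nat_lit 333) (nat_lit 286))))) (XT.nd (nat_lit 234) (nat_lit 0) (nat_lit 0) (XT.nd (nat_lit 78) (nat_lit 0) (nat_lit 0) (XT.lf (nat_lit 0) (nat_lit 3672321917284) (nat_lit 76) (nat_lit 173239947883) (nat_lit 76) (nat_lit 171276712052) (nat_lit 1) (nat_lit 4) (nat_lit 2) (nat_lit 5) (nat_lit 2) (nat_lit 4) (nat_lit 402) (nat_lit 333) (nat_lit 285)) (XT.nd (nat_lit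 78) (nat_lit 0) (nat_lit 0) (XT.lf (nat_lit 0) (nat_lit 4240095579362) (nat_lit 76) (nat_lit 190015228463) (nat_lit 76) (nat_lit 188051679736) (nat_lit 1) (nat_lit 4) (nat_lit 2) (nat_lit 5) (nat_lit 2) (nat_lit 4) (nat_lit 403) (nat_lit 333) (nat_lit 284)) (XT.lf (nat_lit 0) (nat_lit 4893030265173) (nat_lit 76) (nat_lit 209309448480) (nat_lit 76) (nat_lit 207345627671) (nat_lit 1) (nat_lit 4) (nat_lit 2) (nat_lit 5) (nat_lit 2) (nat_lit 4) (nat_lit 404) (nat_lit 333) (nat_lit 283)))) (XT.nd (nat_lit 78) (nat_lit 0) (nat_lit 0) (XT.lf (nat_lit 0) (nat_lit 5643900783784) (nat_lit 76) (nat_lit 231500103545) (nat_lit 76) (nat_lit 229536046141) (nat_lit 1) (nat_lit 4) (nat_lit 2) (nat_lit 5) (nat_lit 2) (nat_lit 4) (nat_lit 405) (nat_lit 333) (nat_lit 282)) (XT.nd (nat_lit 78) (nat_lit 0) (nat_lit 0) (XT.lf (nat_lit 0) (nat_lit 6507398080127) (nat_lit 76) (nat_lit 257021358646) (nat_lit 76)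 (nat_lit 255057095508) (nat_lit 1) (nat_lit 4) (nat_lit 2) (nat_lit 5) (nat_lit 2) (nat_lit 4) (nat_lit 406) (nat_lit 333) (nat_lit 281)) (XT.lf (nat_lit 0) (nat_lit 7500416666520) (nat_lit 76) (nat_lit 286372542689) (nat_lit 76) (nat_lit 284408100652) (nat_lit 1) (nat_lit 4) (nat_lit 2) (nat_lit 5) (nat_lit 2) (nat_lit 4) (nat_lit 407) (nat_lit 333) (nat_lit 280)))))) (XT.nd (nat_lit 468) (nat_lit 0) (nat_lit 0) (XT.nd (nat_lit 234) (nat_lit 0) (nat_lit 0) (XT.nd (nat_lit 78) (nat_lit 0) (nat_lit 0) (XT.lf (nat_lit 0) (nat_lit 8642385167481) (nat_lit 76) (nat_lit 320127917970) (nat_lit 76) (nat_lit 318163320368) (nat_lit 1) (nat_lit 4) (nat_lit 2) (nat_lit 5) (nat_lit 2) (nat_lit 4) (nat_lit 408) (nat_lit 333) (nat_lit 279)) (XT.nd (nat_lit 78) (nat_lit 0) (nat_lit 0) (XT.lf (nat_lit 0) (nat_lit 9955646444984) (nat_lit 76) (nat_lit 358947915744) (nat_lit 76) (nat_lit 356983182868) (nat_lit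 1) (nat_lit 4) (nat_lit 2) (nat_lit 5) (nat_lit 2) (nat_lit 4) (nat_lit 409) (nat_lit 333) (nat_lit 278)) (XT.lf (nat_lit 0) (nat_lit 11465894741416) (nat_lit 76) (nat_lit 403592057707) (nat_lit 76) (nat_lit 401627207202) (nat_lit 1) (nat_lit 4) (nat_lit 2) (nat_lit 5) (nat_lit 2) (nat_lit 4) (nat_lit 410) (nat_lit 333) (nat_lit 277)))) (XT.nd (nat_lit 78) (nat_lit 0) (nat_lit 0) (XT.lf (nat_lit 0) (nat_lit 13202678393010) (nat_lit 76) (nat_lit 454933816201) (nat_lit 76) (nat_lit 452968863411) (nat_lit 1) (nat_lit 4) (nat_lit 2) (nat_lit 5) (nat_lit 2) (nat_lit 4) (nat_lit 411) (nat_lit 333) (nat_lit 276)) (XT.nd (nat_lit 78) (nat_lit 0) (nat_lit 0) (XT.lf (nat_lit 0) (nat_lit 15199977949473) (nat_lit 76) (nat_lit 513977703894) (nat_lit 76) (nat_lit 512012662158) (nat_lit 1) (nat_lit 4) (nat_lit 2) (nat_lit 5) (nat_lit 2) (nat_lit 4) (nat_lit 412) (nat_lit 333) (nat_lit 275)) (XT.lf (nat_lit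 0) (nat_lit 17496871010821) (nat_lit 76) (nat_lit 581878927282) (nat_lit 76) (nat_lit 579913808204) (nat_lit 1) (nat_lit 4) (nat_lit 2) (nat_lit 5) (nat_lit 2) (nat_lit 4) (nat_lit 413) (nat_lit 333) (nat_lit 274))))) (XT.nd (nat_lit 234) (nat_lit 0) (nat_lit 0) (XT.nd (nat_lit 78) (nat_lit 0) (nat_lit 0) (XT.lf (nat_lit 0) (nat_lit 20138296789125) (nat_lit 76) (nat_lit 659965988564) (nat_lit 76) (nat_lit 658000802231) (nat_lit 1) (nat_lit 4) (nat_lit 2) (nat_lit 5) (nat_lit 2) (nat_lit 4) (nat_lit 414) (nat_lit 333) (nat_lit 273)) (XT.nd (nat_lit 78) (nat_lit 0) (nat_lit 0) (XT.lf (nat_lit 0) (nat_lit 23175935353960) (nat_lit 76) (nat_lit 749766678068) (nat_lit 76) (nat_lit 747801433252) (nat_lit 1) (nat_lit 4) (nat_lit 2) (nat_lit 5) (nat_lit 2) (nat_lit 4) (nat_lit 415) (nat_lit 333) (nat_lit 272)) (XT.lf (nat_lit 0) (nat_lit 26669218764204) (nat_lit 76) (nat_lit 853037965806) (nat_lit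 76) (nat_lit 851072670136) (nat_lit 1) (nat_lit 4) (nat_lit 2) (nat_lit 5) (nat_lit 2) (nat_lit 4) (nat_lit 416) (nat_lit 333) (nat_lit 271)))) (XT.nd (nat_lit 78) (nat_lit 0) (nat_lit 0) (XT.lf (nat_lit 0) (nat_lit 30686493869186) (nat_lit 76) (nat_lit 971800376973) (nat_lit 76) (nat_lit 969835037082) (nat_lit 1) (nat_lit 4) (nat_lit 2) (nat_lit 5) (nat_lit 2) (nat_lit 4) (nat_lit 417) (nat_lit 333) (nat_lit 270)) (XT.nd (nat_lit 78) (nat_lit 0) (nat_lit 0) (XT.lf (nat_lit 0) (nat_lit 35306359529658) (nat_lit 76) (nat_lit 1108377523962) (nat_lit 76) (nat_lit 1106412145618) (nat_lit 1) (nat_lit 4) (nat_lit 2) (nat_lit 5) (nat_lit 2) (nat_lit 4) (nat_lit 418) (nat_lit 333) (nat_lit 269)) (XT.lf (nat_lit 0) (nat_lit 40619204421584) (nat_lit 76) (nat_lit 1265441568345) (nat_lit 76) (nat_lit 1263476156563) (nat_lit 1) (nat_lit 4) (nat_lit 2) (nat_lit 5) (nat_lit 2) (nat_lit 4) (nat_lit 419)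 (nat_lit 333) (nat_lit 268))))))))
noncomputable def xc35 : XT := (XT.nd (nat_lit 48594) (nat_lit 0) (nat_lit 0) (XT.nd (nat_lit 858) (nat_lit 0) (nat_lit 0) (XT.nd (nat_lit 390) (nat_lit 0) (nat_lit 0) (XT.nd (nat_lit 156) (nat_lit 0) (nat_lit 0) (XT.nd (nat_lit 78) (nat_lit 0) (nat_lit 0) (XT.lf (nat_lit 0) (nat_lit 46728975510242) (nat_lit 76) (nat_lit 1446065502293) (nat_lit 76) (nat_lit 1444100061435) (nat_lit 1) (nat_lit 4) (nat_lit 2) (nat_lit 5) (nat_lit 2) (nat_lit 4) (nat_lit 420) (nat_lit 333) (nat_lit 267)) (XT.lf (nat_lit 0) (nat_lit 53755211795192) (nat_lit 76) (nat_lit 1653783272340) (nat_lit 76) (nat_lit 1651817806199) (nat_lit 1) (nat_lit 4) (nat_lit 2) (nat_lit 5) (nat_lit 2) (nat_lit 4) (nat_lit 421) (nat_lit 333) (nat_lit 266))) (XT.nd (nat_lit 78) (nat_lit 0) (nat_lit 0) (XT.lf (nat_lit 0) (nat_lit 61835383116791) (nat_lit 76) (nat_lit 1892658921815) (nat_lit 76)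 (nat_lit 1890693433687) (nat_lit 1) (nat_lit 4) (nat_lit 2) (nat_lit 5) (nat_lit 2) (nat_lit 4) (nat_lit 422) (nat_lit 333) (nat_lit 265)) (XT.nd (nat_lit 78) (nat_lit 0) (nat_lit 0) (XT.lf (nat_lit 0) (nat_lit 71127579783507) (nat_lit 76) (nat_lit 2167366104727) (nat_lit 76) (nat_lit 2165400597482) (nat_lit 1) (nat_lit 4) (nat_lit 2) (nat_lit 5) (nat_lit 2) (nat_lit 4) (nat_lit 423) (nat_lit 333) (nat_lit 264)) (XT.lf (nat_lit 0) (nat_lit 81813605643166) (nat_lit 76) (nat_lit 2483279526831) (nat_lit 76) (nat_lit 2481314002961) (nat_lit 1) (nat_lit 4) (nat_lit 2) (nat_lit 5) (nat_lit 2) (nat_lit 4) (nat_lit 424) (nat_lit 333) (nat_lit 263))))) (XT.nd (nat_lit 234) (nat_lit 0) (nat_lit 0) (XT.nd (nat_lit 78) (nat_lit 0) (nat_lit 0) (XT.lf (nat_lit 0) (nat_lit 94102535114760) (nat_lit 76) (nat_lit 2846580102905) (nat_lit 76) (nat_lit 2844614564579) (nat_lit 1) (nat_lit 4) (nat_lit 2) (nat_lit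 5) (nat_lit 2) (nat_lit 4) (nat_lit 425) (nat_lit 333) (nat_lit 262)) (XT.nd (nat_lit 78) (nat_lit 0) (nat_lit 0) (XT.lf (nat_lit 0) (nat_lit 108234803774910) (nat_lit 76) (nat_lit 3264375887699) (nat_lit 76) (nat_lit 3262410336803) (nat_lit 1) (nat_lit 4) (nat_lit 2) (nat_lit 5) (nat_lit 2) (nat_lit 4) (nat_lit 426) (nat_lit 333) (nat_lit 261)) (XT.lf (nat_lit 0) (nat_lit 124486912532182) (nat_lit 76) (nat_lit 3744841146569) (nat_lit 76) (nat_lit 3742875584742) (nat_lit 1) (nat_lit 4) (nat_lit 2) (nat_lit 5) (nat_lit 2) (nat_lit 4) (nat_lit 427) (nat_lit 333) (nat_lit 260)))) (XT.nd (nat_lit 78) (nat_lit 0) (nat_lit 0) (XT.lf (nat_lit 0) (nat_lit 143176837427479) (nat_lit 76) (nat_lit 4297376286752) (nat_lit 76) (nat_lit 4295410715420) (nat_lit 1) (nat_lit 4) (nat_lit 2) (nat_lit 5) (nat_lit 2) (nat_lit 4) (nat_lit 428) (nat_lit 333) (nat_lit 259)) (XT.nd (nat_lit 78) (nat_lit 0) (nat_lit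 0) (XT.lf (nat_lit 0) (nat_lit 164670250904406) (nat_lit 76) (nat_lit 4932791778383) (nat_lit 76) (nat_lit 4930826198786) (nat_lit 1) (nat_lit 4) (nat_lit 2) (nat_lit 5) (nat_lit 2) (nat_lit 4) (nat_lit 429) (nat_lit 333) (nat_lit 258)) (XT.lf (nat_lit 0) (nat_lit 189387676270120) (nat_lit 76) (nat_lit 5663519663689) (nat_lit 76) (nat_lit 5661554076905) (nat_lit 1) (nat_lit 4) (nat_lit 2) (nat_lit 5) (nat_lit 2) (nat_lit 4) (nat_lit 430) (nat_lit 333) (nat_lit 257)))))) (XT.nd (nat_lit 47268) (nat_lit 0) (nat_lit 684) (XT.nd (nat_lit 47034) (nat_lit 0) (nat_lit 1140) (XT.nd (nat_lit 78) (nat_lit 0) (nat_lit 0) (XT.lf (nat_lit 0) (nat_lit 217812715325254) (nat_lit 76) (nat_lit 6503856792601) (nat_lit 76) (nat_lit 6501891199567) (nat_lit 1) (nat_lit 4) (nat_lit 2) (nat_lit 5) (nat_lit 2) (nat_lit 4) (nat_lit 431) (nat_lit 333) (nat_lit 256)) (XT.nd (nat_lit 46878) (nat_lit 0) (nat_lit 1444)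 (XT.lf (nat_lit 0) (nat_lit 250501510138278) (nat_lit 76) (nat_lit 7470244543727) (nat_lit 76) (nat_lit 7468278945258) (nat_lit 1) (nat_lit 4) (nat_lit 2) (nat_lit 5) (nat_lit 2) (nat_lit 4) (nat_lit 432) (nat_lit 333) (nat_lit 255)) (XT.lf (nat_lit 0) (nat_lit 1947100259) (nat_lit 152) (nat_lit 1116110547) (nat_lit 0) (nat_lit 1947100259) (nat_lit 20) (nat_lit 5) (nat_lit 22) (nat_lit 4) (nat_lit 20) (nat_lit 4) (nat_lit 352) (nat_lit 334) (nat_lit 334)))) (XT.nd (nat_lit 78) (nat_lit 228) (nat_lit 0) (XT.lf (nat_lit 0) (nat_lit 6862215318) (nat_lit 76) (nat_lit 2262716699) (nat_lit 76) (nat_lit 1580721823) (nat_lit 19) (nat_lit 4) (nat_lit 20) (nat_lit 5) (nat_lit 20) (nat_lit 4) (nat_lit 353) (nat_lit 334) (nat_lit 333)) (XT.nd (nat_lit 78) (nat_lit 76) (nat_lit 0) (XT.lf (nat_lit 0) (nat_lit 3279284467) (nat_lit 152) (nat_lit 6027630950) (nat_lit 0) (nat_lit 2170559339) (nat_lit 17)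 (nat_lit 5) (nat_lit 19) (nat_lit 4) (nat_lit 17) (nat_lit 4) (nat_lit 354) (nat_lit 334) (nat_lit 332)) (XT.lf (nat_lit 0) (nat_lit 3463720292) (nat_lit 76) (nat_lit 5225040021) (nat_lit 76) (nat_lit 3667892192) (nat_lit 16) (nat_lit 4) (nat_lit 17) (nat_lit 5) (nat_lit 17) (nat_lit 4) (nat_lit 355) (nat_lit 334) (nat_lit 331))))) (XT.nd (nat_lit 234) (nat_lit 228) (nat_lit 0) (XT.nd (nat_lit 78) (nat_lit 76) (nat_lit 0) (XT.lf (nat_lit 0) (nat_lit 839262482) (nat_lit 76) (nat_lit 456711049) (nat_lit 152) (nat_lit 12078627873) (nat_lit 14) (nat_lit 5) (nat_lit 15) (nat_lit 5) (nat_lit 16) (nat_lit 4) (nat_lit 356) (nat_lit 334) (nat_lit 330)) (XT.nd (nat_lit 78) (nat_lit 76) (nat_lit 0) (XT.lf (nat_lit 0) (nat_lit 6860239136) (nat_lit 152) (nat_lit 2751967374) (nat_lit 0) (nat_lit 4872280355) (nat_lit 14) (nat_lit 5) (nat_lit 16) (nat_lit 4) (nat_lit 14) (nat_lit 4) (nat_lit 357) (nat_lit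 334) (nat_lit 329)) (XT.lf (nat_lit 0) (nat_lit 8444387695) (nat_lit 76) (nat_lit 4782861774) (nat_lit 76) (nat_lit 2538515858) (nat_lit 13) (nat_lit 4) (nat_lit 14) (nat_lit 5) (nat_lit 14) (nat_lit 4) (nat_lit 358) (nat_lit 334) (nat_lit 328)))) (XT.nd (nat_lit 78) (nat_lit 76) (nat_lit 0) (XT.lf (nat_lit 0) (nat_lit 2961364769) (nat_lit 152) (nat_lit 13449616185) (nat_lit 0) (nat_lit 815894117) (nat_lit 11) (nat_lit 5) (nat_lit 13) (nat_lit 4) (nat_lit 11) (nat_lit 4) (nat_lit 359) (nat_lit 334) (nat_lit 327)) (XT.nd (nat_lit 78) (nat_lit 76) (nat_lit 0) (XT.lf (nat_lit 0) (nat_lit 9260597337) (nat_lit 152) (nat_lit 2646816665) (nat_lit 0) (nat_lit 6946547982) (nat_lit 11) (nat_lit 5) (nat_lit 13) (nat_lit 4) (nat_lit 11) (nat_lit 4) (nat_lit 360) (nat_lit 334) (nat_lit 326)) (XT.lf (nat_lit 0) (nat_lit 9974178040) (nat_lit 76) (nat_lit 6600570200) (nat_lit 76) (nat_lit 4139930668)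 (nat_lit 10) (nat_lit 4) (nat_lit 11) (nat_lit 5) (nat_lit 11) (nat_lit 4) (nat_lit 361) (nat_lit 334) (nat_lit 325))))))) (XT.nd (nat_lit 858) (nat_lit 228) (nat_lit 0) (XT.nd (nat_lit 390) (nat_lit 76) (nat_lit 0) (XT.nd (nat_lit 156) (nat_lit 228) (nat_lit 0) (XT.nd (nat_lit 78) (nat_lit 0) (nat_lit 0) (XT.lf (nat_lit 0) (nat_lit 1278828623) (nat_lit 76) (nat_lit 519747131) (nat_lit 152) (nat_lit 21064219831) (nat_lit 8) (nat_lit 5) (nat_lit 9) (nat_lit 5) (nat_lit 10) (nat_lit 4) (nat_lit 362) (nat_lit 334) (nat_lit 324)) (XT.lf (nat_lit 0) (nat_lit 8722323774) (nat_lit 152) (nat_lit 10128126471) (nat_lit 0) (nat_lit 6375408571) (nat_lit 8) (nat_lit 5) (nat_lit 10) (nat_lit 4) (nat_lit 8) (nat_lit 4) (nat_lit 363) (nat_lit 334) (nat_lit 323))) (XT.nd (nat_lit 78) (nat_lit 152) (nat_lit 0) (XT.lf (nat_lit 0) (nat_lit 2652779034) (nat_lit 76) (nat_lit 13872628147) (nat_lit 76) (nat_lit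 11441899535) (nat_lit 7) (nat_lit 4) (nat_lit 8) (nat_lit 5) (nat_lit 8) (nat_lit 4) (nat_lit 364) (nat_lit 334) (nat_lit 322)) (XT.nd (nat_lit 78) (nat_lit 152) (nat_lit 0) (XT.lf (nat_lit 0) (nat_lit 17911841464) (nat_lit 76) (nat_lit 7837136145) (nat_lit 76) (nat_lit 5333526308) (nat_lit 7) (nat_lit 4) (nat_lit 8) (nat_lit 5) (nat_lit 8) (nat_lit 4) (nat_lit 365) (nat_lit 334) (nat_lit 321)) (XT.lf (nat_lit 0) (nat_lit 217244472) (nat_lit 76) (nat_lit 1077745894) (nat_lit 152) (nat_lit 33396347482) (nat_lit 5) (nat_lit 5) (nat_lit 6) (nat_lit 5) (nat_lit 7) (nat_lit 4) (nat_lit 366) (nat_lit 334) (nat_lit 320))))) (XT.nd (nat_lit 234) (nat_lit 0) (nat_lit 0) (XT.nd (nat_lit 78) (nat_lit 76) (nat_lit 0) (XT.lf (nat_lit 0) (nat_lit 9117259914) (nat_lit 152) (nat_lit 22737156226) (nat_lit 0) (nat_lit 6837178616) (nat_lit 5) (nat_lit 5) (nat_lit 7) (nat_lit 4) (nat_lit 5) (nat_lit 4) (nat_lit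 367) (nat_lit 334) (nat_lit 319)) (XT.nd (nat_lit 78) (nat_lit 76) (nat_lit 0) (XT.lf (nat_lit 0) (nat_lit 17944215251) (nat_lit 152) (nat_lit 9750529732) (nat_lit 0) (nat_lit 15622463876) (nat_lit 5) (nat_lit 5) (nat_lit 7) (nat_lit 4) (nat_lit 5) (nat_lit 4) (nat_lit 368) (nat_lit 334) (nat_lit 318)) (XT.lf (nat_lit 0) (nat_lit 5252075514) (nat_lit 76) (nat_lit 22869332253) (nat_lit 76) (nat_lit 20511346028) (nat_lit 4) (nat_lit 4) (nat_lit 5) (nat_lit 5) (nat_lit 5) (nat_lit 4) (nat_lit 369) (nat_lit 334) (nat_lit 317)))) (XT.nd (nat_lit 78) (nat_lit 0) (nat_lit 0) (XT.lf (nat_lit 0) (nat_lit 23219470069) (nat_lit 76) (nat_lit 16933268385) (nat_lit 76) (nat_lit 14543773595) (nat_lit 4) (nat_lit 4) (nat_lit 5) (nat_lit 5) (nat_lit 5) (nat_lit 4) (nat_lit 370) (nat_lit 334) (nat_lit 316)) (XT.nd (nat_lit 78) (nat_lit 0) (nat_lit 0) (XT.lf (nat_lit 0) (nat_lit 43550297232) (nat_lit 76)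 (nat_lit 10280099783) (nat_lit 76) (nat_lit 7863206241) (nat_lit 4) (nat_lit 4) (nat_lit 5) (nat_lit 5) (nat_lit 5) (nat_lit 4) (nat_lit 371) (nat_lit 334) (nat_lit 315)) (XT.lf (nat_lit 0) (nat_lit 66642334059) (nat_lit 76) (nat_lit 2779655757) (nat_lit 76) (nat_lit 338937213) (nat_lit 4) (nat_lit 4) (nat_lit 5) (nat_lit 5) (nat_lit 5) (nat_lit 4) (nat_lit 372) (nat_lit 334) (nat_lit 314)))))) (XT.nd (nat_lit 468) (nat_lit 76) (nat_lit 0) (XT.nd (nat_lit 234) (nat_lit 0) (nat_lit 0) (XT.nd (nat_lit 78) (nat_lit 0) (nat_lit 0) (XT.lf (nat_lit 0) (nat_lit 8346458515) (nat_lit 152) (nat_lit 64318282635) (nat_lit 0) (nat_lit 6206079440) (nat_lit 2) (nat_lit 5) (nat_lit 4) (nat_lit 4) (nat_lit 2) (nat_lit 4) (nat_lit 373) (nat_lit 334) (nat_lit 313)) (XT.nd (nat_lit 78) (nat_lit 0) (nat_lit 0) (XT.lf (nat_lit 0) (nat_lit 18478161262) (nat_lit 152) (nat_lit 54517777018) (nat_lit 0) (nat_lit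 16322116861) (nat_lit 2) (nat_lit 5) (nat_lit 4) (nat_lit 4) (nat_lit 2) (nat_lit 4) (nat_lit 374) (nat_lit 334) (nat_lit 312)) (XT.lf (nat_lit 0) (nat_lit 30020970484) (nat_lit 152) (nat_lit 43476404363) (nat_lit 0) (nat_lit 27851304061) (nat_lit 2) (nat_lit 5) (nat_lit 4) (nat_lit 4) (nat_lit 2) (nat_lit 4) (nat_lit 375) (nat_lit 334) (nat_lit 311)))) (XT.nd (nat_lit 78) (nat_lit 0) (nat_lit 0) (XT.lf (nat_lit 0) (nat_lit 43200723751) (nat_lit 152) (nat_lit 30978137813) (nat_lit 0) (nat_lit 41019212091) (nat_lit 2) (nat_lit 5) (nat_lit 4) (nat_lit 4) (nat_lit 2) (nat_lit 4) (nat_lit 376) (nat_lit 334) (nat_lit 310)) (XT.nd (nat_lit 78) (nat_lit 0) (nat_lit 0) (XT.lf (nat_lit 0) (nat_lit 58275285802) (nat_lit 152) (nat_lit 16778446066) (nat_lit 0) (nat_lit 56083473937) (nat_lit 2) (nat_lit 5) (nat_lit 4) (nat_lit 4) (nat_lit 2) (nat_lit 4) (nat_lit 377) (nat_lit 334) (nat_lit 309)) (XT.lf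 (nat_lit 0) (nat_lit 75539593721) (nat_lit 152) (nat_lit 599509067) (nat_lit 0) (nat_lit 73338825155) (nat_lit 2) (nat_lit 5) (nat_lit 4) (nat_lit 4) (nat_lit 2) (nat_lit 4) (nat_lit 378) (nat_lit 334) (nat_lit 308))))) (XT.nd (nat_lit 234) (nat_lit 0) (nat_lit 0) (XT.nd (nat_lit 78) (nat_lit 0) (nat_lit 0) (XT.lf (nat_lit 0) (nat_lit 19622113870) (nat_lit 76) (nat_lit 76521823466) (nat_lit 76) (nat_lit 74313266464) (nat_lit 1) (nat_lit 4) (nat_lit 2) (nat_lit 5) (nat_lit 2) (nat_lit 4) (nat_lit 379) (nat_lit 334) (nat_lit 307)) (XT.nd (nat_lit 78) (nat_lit 0) (nat_lit 0) (XT.lf (nat_lit 0) (nat_lit 42819262873) (nat_lit 76) (nat_lit 76991809993) (nat_lit 76) (nat_lit 74776480439) (nat_lit 1) (nat_lit 4) (nat_lit 2) (nat_lit 5) (nat_lit 2) (nat_lit 4) (nat_lit 380) (nat_lit 334) (nat_lit 306)) (XT.lf (nat_lit 0) (nat_lit 69387206818) (nat_lit 76) (nat_lit 77589595734) (nat_lit 76) (nat_lit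 75368377004) (nat_lit 1) (nat_lit 4) (nat_lit 2) (nat_lit 5) (nat_lit 2) (nat_lit 4) (nat_lit 381) (nat_lit 334) (nat_lit 305)))) (XT.nd (nat_lit 78) (nat_lit 0) (nat_lit 0) (XT.lf (nat_lit 0) (nat_lit 99845753304) (nat_lit 76) (nat_lit 78326876495) (nat_lit 76) (nat_lit 76100536742) (nat_lit 1) (nat_lit 4) (nat_lit 2) (nat_lit 5) (nat_lit 2) (nat_lit 4) (nat_lit 382) (nat_lit 334) (nat_lit 304)) (XT.nd (nat_lit 78) (nat_lit 0) (nat_lit 0) (XT.lf (nat_lit 0) (nat_lit 134790830415) (nat_lit 76) (nat_lit 79218077335) (nat_lit 76) (nat_lit 76987284519) (nat_lit 1) (nat_lit 4) (nat_lit 2) (nat_lit 5) (nat_lit 2) (nat_lit 4) (nat_lit 383) (nat_lit 334) (nat_lit 303)) (XT.lf (nat_lit 0) (nat_lit 174906146181) (nat_lit 76) (nat_lit 80280634793) (nat_lit 76) (nat_lit 78045969748) (nat_lit 1) (nat_lit 4) (nat_lit 2) (nat_lit 5) (nat_lit 2) (nat_lit 4) (nat_lit 384) (nat_lit 334) (nat_lit 302))))))))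
noncomputable def xc36 : XT := (XT.nd (nat_lit 1716) (nat_lit 0) (nat_lit 0) (XT.nd (nat_lit 858) (nat_lit 0) (nat_lit 0) (XT.nd (nat_lit 390) (nat_lit 0) (nat_lit 0) (XT.nd (nat_lit 156) (nat_lit 0) (nat_lit 0) (XT.nd (nat_lit 78) (nat_lit 0) (nat_lit 0) (XT.lf (nat_lit 0) (nat_lit 220976565475) (nat_lit 76) (nat_lit 81535338036) (nat_lit 76) (nat_lit 79297305835) (nat_lit 1) (nat_lit 4) (nat_lit 2) (nat_lit 5) (nat_lit 2) (nat_lit 4) (nat_lit 385) (nat_lit 334) (nat_lit 301)) (XT.lf (nat_lit 0) (nat_lit 273903466067) (nat_lit 76) (nat_lit 83006735605) (nat_lit 76) (nat_lit 80765775444) (nat_lit 1) (nat_lit 4) (nat_lit 2) (nat_lit 5) (nat_lit 2) (nat_lit 4) (nat_lit 386) (nat_lit 334) (nat_lit 300))) (XT.nd (nat_lit 78) (nat_lit 0) (nat_lit 0) (XT.lf (nat_lit 0) (nat_lit 334722374272) (nat_lit 76) (nat_lit 84723615715) (nat_lit 76) (nat_lit 82480109500) (nat_lit 1) (nat_lit 4) (nat_lit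 2) (nat_lit 5) (nat_lit 2) (nat_lit 4) (nat_lit 387) (nat_lit 334) (nat_lit 299)) (XT.nd (nat_lit 78) (nat_lit 0) (nat_lit 0) (XT.lf (nat_lit 0) (nat_lit 404623225251) (nat_lit 76) (nat_lit 86719569497) (nat_lit 76) (nat_lit 84473849323) (nat_lit 1) (nat_lit 4) (nat_lit 2) (nat_lit 5) (nat_lit 2) (nat_lit 4) (nat_lit 388) (nat_lit 334) (nat_lit 298)) (XT.lf (nat_lit 0) (nat_lit 484973644349) (nat_lit 76) (nat_lit 89033648221) (nat_lit 76) (nat_lit 86786002865) (nat_lit 1) (nat_lit 4) (nat_lit 2) (nat_lit 5) (nat_lit 2) (nat_lit 4) (nat_lit 389) (nat_lit 334) (nat_lit 297))))) (XT.nd (nat_lit 234) (nat_lit 0) (nat_lit 0) (XT.nd (nat_lit 78) (nat_lit 0) (nat_lit 0) (XT.lf (nat_lit 0) (nat_lit 577345704983) (nat_lit 76) (nat_lit 91711127341) (nat_lit 76) (nat_lit 89461807913) (nat_lit 1) (nat_lit 4) (nat_lit 2) (nat_lit 5) (nat_lit 2) (nat_lit 4) (nat_lit 390) (nat_lit 334) (nat_lit 296))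 (XT.nd (nat_lit 78) (nat_lit 0) (nat_lit 0) (XT.lf (nat_lit 0) (nat_lit 683546686601) (nat_lit 76) (nat_lit 94804392318) (nat_lit 76) (nat_lit 92553617176) (nat_lit 1) (nat_lit 4) (nat_lit 2) (nat_lit 5) (nat_lit 2) (nat_lit 4) (nat_lit 391) (nat_lit 334) (nat_lit 295)) (XT.lf (nat_lit 0) (nat_lit 805654434495) (nat_lit 76) (nat_lit 98373963553) (nat_lit 76) (nat_lit 96121922572) (nat_lit 1) (nat_lit 4) (nat_lit 2) (nat_lit 5) (nat_lit 2) (nat_lit 4) (nat_lit 392) (nat_lit 334) (nat_lit 294)))) (XT.nd (nat_lit 78) (nat_lit 0) (nat_lit 0) (XT.lf (nat_lit 0) (nat_lit 946058013297) (nat_lit 76) (nat_lit 102489680484) (nat_lit 76) (nat_lit 100236538774) (nat_lit 1) (nat_lit 4) (nat_lit 2) (nat_lit 5) (nat_lit 2) (nat_lit 4) (nat_lit 393) (nat_lit 334) (nat_lit 293)) (XT.nd (nat_lit 78) (nat_lit 0) (nat_lit 0) (XT.lf (nat_lit 0) (nat_lit 1107504449550) (nat_lit 76) (nat_lit 107232068006) (nat_lit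 76) (nat_lit 104977969141) (nat_lit 1) (nat_lit 4) (nat_lit 2) (nat_lit 5) (nat_lit 2) (nat_lit 4) (nat_lit 394) (nat_lit 334) (nat_lit 292)) (XT.lf (nat_lit 0) (nat_lit 1293152477876) (nat_lit 76) (nat_lit 112693911963) (nat_lit 76) (nat_lit 110438980789) (nat_lit 1) (nat_lit 4) (nat_lit 2) (nat_lit 5) (nat_lit 2) (nat_lit 4) (nat_lit 395) (nat_lit 334) (nat_lit 291)))))) (XT.nd (nat_lit 390) (nat_lit 0) (nat_lit 0) (XT.nd (nat_lit 156) (nat_lit 0) (nat_lit 0) (XT.nd (nat_lit 78) (nat_lit 0) (nat_lit 0) (XT.lf (nat_lit 0) (nat_lit 1506634342307) (nat_lit 76) (nat_lit 118982074520) (nat_lit 76) (nat_lit 116726419598) (nat_lit 1) (nat_lit 4) (nat_lit 2) (nat_lit 5) (nat_lit 2) (nat_lit 4) (nat_lit 396) (nat_lit 334) (nat_lit 290)) (XT.lf (nat_lit 0) (nat_lit 1752126861930) (nat_lit 76) (nat_lit 126219584943) (nat_lit 76) (nat_lit 123963300676) (nat_lit 1) (nat_lit 4) (nat_lit 2) (nat_lit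 5) (nat_lit 2) (nat_lit 4) (nat_lit 397) (nat_lit 334) (nat_lit 289))) (XT.nd (nat_lit 78) (nat_lit 0) (nat_lit 0) (XT.lf (nat_lit 0) (nat_lit 2034433151259) (nat_lit 76) (nat_lit 134548046698) (nat_lit 76) (nat_lit 132291215174) (nat_lit 1) (nat_lit 4) (nat_lit 2) (nat_lit 5) (nat_lit 2) (nat_lit 4) (nat_lit 398) (nat_lit 334) (nat_lit 288)) (XT.nd (nat_lit 78) (nat_lit 0) (nat_lit 0) (XT.lf (nat_lit 0) (nat_lit 2359076594217) (nat_lit 76) (nat_lit 144130407949) (nat_lit 76) (nat_lit 141873100549) (nat_lit 1) (nat_lit 4) (nat_lit 2) (nat_lit 5) (nat_lit 2) (nat_lit 4) (nat_lit 399) (nat_lit 334) (nat_lit 287)) (XT.lf (nat_lit 0) (nat_lit 2732408910338) (nat_lit 76) (nat_lit 155154149677) (nat_lit 76) (nat_lit 152896428472) (nat_lit 1) (nat_lit 4) (nat_lit 2) (nat_lit 5) (nat_lit 2) (nat_lit 4) (nat_lit 400) (nat_lit 334) (nat_lit 286))))) (XT.nd (nat_lit 234) (nat_lit 0) (nat_lit 0)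 (XT.nd (nat_lit 78) (nat_lit 0) (nat_lit 0) (XT.lf (nat_lit 0) (nat_lit 3161734427548) (nat_lit 76) (nat_lit 167834953786) (nat_lit 76) (nat_lit 165576872750) (nat_lit 1) (nat_lit 4) (nat_lit 2) (nat_lit 5) (nat_lit 2) (nat_lit 4) (nat_lit 401) (nat_lit 334) (nat_lit 285)) (XT.nd (nat_lit 78) (nat_lit 0) (nat_lit 0) (XT.lf (nat_lit 0) (nat_lit 3655452992921) (nat_lit 76) (nat_lit 182420922964) (nat_lit 76) (nat_lit 180162529033) (nat_lit 1) (nat_lit 4) (nat_lit 2) (nat_lit 5) (nat_lit 2) (nat_lit 4) (nat_lit 402) (nat_lit 334) (nat_lit 284)) (XT.lf (nat_lit 0) (nat_lit 4223224317521) (nat_lit 76) (nat_lit 199197434870) (nat_lit 76) (nat_lit 196938768855) (nat_lit 1) (nat_lit 4) (nat_lit 2) (nat_lit 5) (nat_lit 2) (nat_lit 4) (nat_lit 403) (nat_lit 334) (nat_lit 283)))) (XT.nd (nat_lit 78) (nat_lit 0) (nat_lit 0) (XT.lf (nat_lit 0) (nat_lit 4876156970740) (nat_lit 76) (nat_lit 218492725606)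 (nat_lit 76) (nat_lit 216233822997) (nat_lit 1) (nat_lit 4) (nat_lit 2) (nat_lit 5) (nat_lit 2) (nat_lit 4) (nat_lit 404) (nat_lit 334) (nat_lit 282)) (XT.nd (nat_lit 78) (nat_lit 0) (nat_lit 0) (XT.lf (nat_lit 0) (nat_lit 5627025721882) (nat_lit 76) (nat_lit 240684311729) (nat_lit 76) (nat_lit 238425203387) (nat_lit 1) (nat_lit 4) (nat_lit 2) (nat_lit 5) (nat_lit 2) (nat_lit 4) (nat_lit 405) (nat_lit 334) (nat_lit 281)) (XT.lf (nat_lit 0) (nat_lit 6490521481294) (nat_lit 76) (nat_lit 266206376448) (nat_lit 76) (nat_lit 263947089206) (nat_lit 1) (nat_lit 4) (nat_lit 2) (nat_lit 5) (nat_lit 2) (nat_lit 4) (nat_lit 406) (nat_lit 334) (nat_lit 280))))))) (XT.nd (nat_lit 858) (nat_lit 0) (nat_lit 0) (XT.nd (nat_lit 390) (nat_lit 0) (nat_lit 0) (XT.nd (nat_lit 156) (nat_lit 0) (nat_lit 0) (XT.nd (nat_lit 78) (nat_lit 0) (nat_lit 0) (XT.lf (nat_lit 0) (nat_lit 7483538731226) (nat_lit 76) (nat_lit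 295558264505) (nat_lit 76) (nat_lit 293298821699) (nat_lit 1) (nat_lit 4) (nat_lit 2) (nat_lit 5) (nat_lit 2) (nat_lit 4) (nat_lit 407) (nat_lit 334) (nat_lit 279)) (XT.lf (nat_lit 0) (nat_lit 8625506070046) (nat_lit 76) (nat_lit 329314251973) (nat_lit 76) (nat_lit 327054673892) (nat_lit 1) (nat_lit 4) (nat_lit 2) (nat_lit 5) (nat_lit 2) (nat_lit 4) (nat_lit 408) (nat_lit 334) (nat_lit 278))) (XT.nd (nat_lit 78) (nat_lit 0) (nat_lit 0) (XT.lf (nat_lit 0) (nat_lit 9938766336993) (nat_lit 76) (nat_lit 368134782083) (nat_lit 76) (nat_lit 365875086373) (nat_lit 1) (nat_lit 4) (nat_lit 2) (nat_lit 5) (nat_lit 2) (nat_lit 4) (nat_lit 409) (nat_lit 334) (nat_lit 277)) (XT.nd (nat_lit 78) (nat_lit 0) (nat_lit 0) (XT.lf (nat_lit 0) (nat_lit 11449013754679) (nat_lit 76) (nat_lit 412779386947) (nat_lit 76) (nat_lit 410519588951) (nat_lit 1) (nat_lit 4) (nat_lit 2) (nat_lit 5) (nat_lit 2) (nat_lit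 4) (nat_lit 410) (nat_lit 334) (nat_lit 276)) (XT.lf (nat_lit 0) (nat_lit 13185796642148) (nat_lit 76) (nat_lit 464121547964) (nat_lit 76) (nat_lit 461861661024) (nat_lit 1) (nat_lit 4) (nat_lit 2) (nat_lit 5) (nat_lit 2) (nat_lit 4) (nat_lit 411) (nat_lit 334) (nat_lit 275))))) (XT.nd (nat_lit 234) (nat_lit 0) (nat_lit 0) (XT.nd (nat_lit 78) (nat_lit 0) (nat_lit 0) (XT.lf (nat_lit 0) (nat_lit 15183095534153) (nat_lit 76) (nat_lit 523165785676) (nat_lit 76) (nat_lit 520905821393) (nat_lit 1) (nat_lit 4) (nat_lit 2) (nat_lit 5) (nat_lit 2) (nat_lit 4) (nat_lit 412) (nat_lit 334) (nat_lit 274)) (XT.nd (nat_lit 78) (nat_lit 0) (nat_lit 0) (XT.lf (nat_lit 0) (nat_lit 17479988017712) (nat_lit 76) (nat_lit 591067313430) (nat_lit 76) (nat_lit 588807281892) (nat_lit 1) (nat_lit 4) (nat_lit 2) (nat_lit 5) (nat_lit 2) (nat_lit 4) (nat_lit 413) (nat_lit 334) (nat_lit 273)) (XT.lf (nat_lit 0) (nat_lit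 20121413293590) (nat_lit 76) (nat_lit 669154639376) (nat_lit 76) (nat_lit 666894549356) (nat_lit 1) (nat_lit 4) (nat_lit 2) (nat_lit 5) (nat_lit 2) (nat_lit 4) (nat_lit 414) (nat_lit 334) (nat_lit 272)))) (XT.nd (nat_lit 78) (nat_lit 0) (nat_lit 0) (XT.lf (nat_lit 0) (nat_lit 23159051421534) (nat_lit 76) (nat_lit 758955559024) (nat_lit 76) (nat_lit 756695418149) (nat_lit 1) (nat_lit 4) (nat_lit 2) (nat_lit 5) (nat_lit 2) (nat_lit 4) (nat_lit 415) (nat_lit 334) (nat_lit 271)) (XT.nd (nat_lit 78) (nat_lit 0) (nat_lit 0) (XT.lf (nat_lit 0) (nat_lit 26652334451872) (nat_lit 76) (nat_lit 862227046887) (nat_lit 76) (nat_lit 859966861791) (nat_lit 1) (nat_lit 4) (nat_lit 2) (nat_lit 5) (nat_lit 2) (nat_lit 4) (nat_lit 416) (nat_lit 334) (nat_lit 270)) (XT.lf (nat_lit 0) (nat_lit 30669609226502) (nat_lit 76) (nat_lit 980989632076) (nat_lit 76) (nat_lit 978729408527) (nat_lit 1) (nat_lit 4) (nat_lit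 2) (nat_lit 5) (nat_lit 2) (nat_lit 4) (nat_lit 417) (nat_lit 334) (nat_lit 269)))))) (XT.nd (nat_lit 468) (nat_lit 0) (nat_lit 0) (XT.nd (nat_lit 234) (nat_lit 0) (nat_lit 0) (XT.nd (nat_lit 78) (nat_lit 0) (nat_lit 0) (XT.lf (nat_lit 0) (nat_lit 35289474599710) (nat_lit 76) (nat_lit 1117566930388) (nat_lit 76) (nat_lit 1115306673401) (nat_lit 1) (nat_lit 4) (nat_lit 2) (nat_lit 5) (nat_lit 2) (nat_lit 4) (nat_lit 418) (nat_lit 334) (nat_lit 268)) (XT.nd (nat_lit 78) (nat_lit 0) (nat_lit 0) (XT.lf (nat_lit 0) (nat_lit 40602319241842) (nat_lit 76) (nat_lit 1274631106356) (nat_lit 76) (nat_lit 1272370820293) (nat_lit 1) (nat_lit 4) (nat_lit 2) (nat_lit 5) (nat_lit 2) (nat_lit 4) (nat_lit 419) (nat_lit 334) (nat_lit 267)) (XT.lf (nat_lit 0) (nat_lit 46712090113287) (nat_lit 76) (nat_lit 1455255154726) (nat_lit 76) (nat_lit 1452994843379) (nat_lit 1) (nat_lit 4) (nat_lit 2) (nat_lit 5) (nat_lit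 2) (nat_lit 4) (nat_lit 420) (nat_lit 334) (nat_lit 266)))) (XT.nd (nat_lit 78) (nat_lit 0) (nat_lit 0) (XT.lf (nat_lit 0) (nat_lit 53738326209357) (nat_lit 76) (nat_lit 1662973024271) (nat_lit 76) (nat_lit 1660712690939) (nat_lit 1) (nat_lit 4) (nat_lit 2) (nat_lit 5) (nat_lit 2) (nat_lit 4) (nat_lit 421) (nat_lit 334) (nat_lit 265)) (XT.nd (nat_lit 78) (nat_lit 0) (nat_lit 0) (XT.lf (nat_lit 0) (nat_lit 61818497366713) (nat_lit 76) (nat_lit 1901848760265) (nat_lit 76) (nat_lit 1899588407815) (nat_lit 1) (nat_lit 4) (nat_lit 2) (nat_lit 5) (nat_lit 2) (nat_lit 4) (nat_lit 422) (nat_lit 334) (nat_lit 264)) (XT.lf (nat_lit 0) (nat_lit 71110693890608) (nat_lit 76) (nat_lit 2176556018412) (nat_lit 76) (nat_lit 2174295649337) (nat_lit 1) (nat_lit 4) (nat_lit 2) (nat_lit 5) (nat_lit 2) (nat_lit 4) (nat_lit 423) (nat_lit 334) (nat_lit 263))))) (XT.nd (nat_lit 234) (nat_lit 0) (nat_lit 0) (XT.nd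 (nat_lit 78) (nat_lit 0) (nat_lit 0) (XT.lf (nat_lit 0) (nat_lit 81796719626075) (nat_lit 76) (nat_lit 2492469505936) (nat_lit 76) (nat_lit 2490209122405) (nat_lit 1) (nat_lit 4) (nat_lit 2) (nat_lit 5) (nat_lit 2) (nat_lit 4) (nat_lit 424) (nat_lit 334) (nat_lit 262)) (XT.nd (nat_lit 78) (nat_lit 0) (nat_lit 0) (XT.lf (nat_lit 0) (nat_lit 94085648989676) (nat_lit 76) (nat_lit 2855770138898) (nat_lit 76) (nat_lit 2853509742797) (nat_lit 1) (nat_lit 4) (nat_lit 2) (nat_lit 5) (nat_lit 2) (nat_lit 4) (nat_lit 425) (nat_lit 334) (nat_lit 261)) (XT.lf (nat_lit 0) (nat_lit 108217917555919) (nat_lit 76) (nat_lit 3273565973161) (nat_lit 76) (nat_lit 3271305566129) (nat_lit 1) (nat_lit 4) (nat_lit 2) (nat_lit 5) (nat_lit 2) (nat_lit 4) (nat_lit 426) (nat_lit 334) (nat_lit 260)))) (XT.nd (nat_lit 78) (nat_lit 0) (nat_lit 0) (XT.lf (nat_lit 0) (nat_lit 124470026231533) (nat_lit 76) (nat_lit 3754031275046)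 (nat_lit 76) (nat_lit 3751770858509) (nat_lit 1) (nat_lit 4) (nat_lit 2) (nat_lit 5) (nat_lit 2) (nat_lit 4) (nat_lit 427) (nat_lit 334) (nat_lit 259)) (XT.nd (nat_lit 78) (nat_lit 0) (nat_lit 0) (XT.lf (nat_lit 0) (nat_lit 143159951055823) (nat_lit 76) (nat_lit 4306566452634) (nat_lit 76) (nat_lit 4304306027832) (nat_lit 1) (nat_lit 4) (nat_lit 2) (nat_lit 5) (nat_lit 2) (nat_lit 4) (nat_lit 428) (nat_lit 334) (nat_lit 258)) (XT.lf (nat_lit 0) (nat_lit 164653364471005) (nat_lit 76) (nat_lit 4941981976791) (nat_lit 76) (nat_lit 4939721544801) (nat_lit 1) (nat_lit 4) (nat_lit 2) (nat_lit 5) (nat_lit 2) (nat_lit 4) (nat_lit 429) (nat_lit 334) (nat_lit 257))))))))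
noncomputable def xc37 : XT := (XT.nd (nat_lit 48360) (nat_lit 0) (nat_lit 0) (XT.nd (nat_lit 47424) (nat_lit 0) (nat_lit 304) (XT.nd (nat_lit 46956) (nat_lit 0) (nat_lit 1064) (XT.nd (nat_lit 156) (nat_lit 0) (nat_lit 0) (XT.nd (nat_lit 78) (nat_lit 0) (nat_lit 0) (XT.lf (nat_lit 0) (nat_lit 189370789783027) (nat_lit 76) (nat_lit 5672709890381) (nat_lit 76) (nat_lit 5670449452141) (nat_lit 1) (nat_lit 4) (nat_lit 2) (nat_lit 5) (nat_lit 2) (nat_lit 4) (nat_lit 430) (nat_lit 334) (nat_lit 256)) (XT.lf (nat_lit 0) (nat_lit 217795828791472) (nat_lit 76) (nat_lit 6513047043886) (nat_lit 76) (nat_lit 6510786600213) (nat_lit 1) (nat_lit 4) (nat_lit 2) (nat_lit 5) (nat_lit 2) (nat_lit 4) (nat_lit 431) (nat_lit 334) (nat_lit 255))) (XT.nd (nat_lit 78) (nat_lit 0) (nat_lit 0) (XT.lf (nat_lit 0) (nat_lit 250484623563898) (nat_lit 76) (nat_lit 7479434816398) (nat_lit 76) (nat_lit 7477174367999)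 (nat_lit 1) (nat_lit 4) (nat_lit 2) (nat_lit 5) (nat_lit 2) (nat_lit 4) (nat_lit 432) (nat_lit 334) (nat_lit 254)) (XT.nd (nat_lit 46644) (nat_lit 0) (nat_lit 1596) (XT.lf (nat_lit 0) (nat_lit 288076737476286) (nat_lit 76) (nat_lit 8590780794770) (nat_lit 76) (nat_lit 8588520342262) (nat_lit 1) (nat_lit 4) (nat_lit 2) (nat_lit 5) (nat_lit 2) (nat_lit 4) (nat_lit 433) (nat_lit 334) (nat_lit 253)) (XT.lf (nat_lit 0) (nat_lit 227610512) (nat_lit 152) (nat_lit 2107085218) (nat_lit 152) (nat_lit 2107085218) (nat_lit 22) (nat_lit 4) (nat_lit 24) (nat_lit 5) (nat_lit 24) (nat_lit 4) (nat_lit 350) (nat_lit 335) (nat_lit 335))))) (XT.nd (nat_lit 234) (nat_lit 304) (nat_lit 0) (XT.nd (nat_lit 78) (nat_lit 152) (nat_lit 0) (XT.lf (nat_lit 0) (nat_lit 17429781) (nat_lit 228) (nat_lit 864464191) (nat_lit 76) (nat_lit 8560230067) (nat_lit 21) (nat_lit 5) (nat_lit 24) (nat_lit 5) (nat_lit 22) (nat_lit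 4) (nat_lit 351) (nat_lit 335) (nat_lit 334)) (XT.nd (nat_lit 78) (nat_lit 76) (nat_lit 0) (XT.lf (nat_lit 0) (nat_lit 4444551634) (nat_lit 152) (nat_lit 2633055081) (nat_lit 0) (nat_lit 2978262652) (nat_lit 20) (nat_lit 5) (nat_lit 22) (nat_lit 4) (nat_lit 20) (nat_lit 4) (nat_lit 352) (nat_lit 335) (nat_lit 333)) (XT.lf (nat_lit 0) (nat_lit 6039594658) (nat_lit 76) (nat_lit 3398196817) (nat_lit 76) (nat_lit 1338868813) (nat_lit 19) (nat_lit 4) (nat_lit 20) (nat_lit 5) (nat_lit 20) (nat_lit 4) (nat_lit 353) (nat_lit 335) (nat_lit 332)))) (XT.nd (nat_lit 78) (nat_lit 152) (nat_lit 0) (XT.lf (nat_lit 0) (nat_lit 3187084204) (nat_lit 152) (nat_lit 7458934018) (nat_lit 0) (nat_lit 947941499) (nat_lit 17) (nat_lit 5) (nat_lit 19) (nat_lit 4) (nat_lit 17) (nat_lit 4) (nat_lit 354) (nat_lit 335) (nat_lit 331)) (XT.nd (nat_lit 78) (nat_lit 76) (nat_lit 0) (XT.lf (nat_lit 0) (nat_lit 1499093130)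 (nat_lit 76) (nat_lit 6822246017) (nat_lit 76) (nat_lit 4193170529) (nat_lit 16) (nat_lit 4) (nat_lit 17) (nat_lit 5) (nat_lit 17) (nat_lit 4) (nat_lit 355) (nat_lit 335) (nat_lit 330)) (XT.lf (nat_lit 0) (nat_lit 591184850) (nat_lit 152) (nat_lit 1697100043) (nat_lit 76) (nat_lit 11281444769) (nat_lit 15) (nat_lit 5) (nat_lit 17) (nat_lit 5) (nat_lit 16) (nat_lit 4) (nat_lit 356) (nat_lit 335) (nat_lit 329)))))) (XT.nd (nat_lit 468) (nat_lit 380) (nat_lit 0) (XT.nd (nat_lit 234) (nat_lit 152) (nat_lit 0) (XT.nd (nat_lit 78) (nat_lit 152) (nat_lit 0) (XT.lf (nat_lit 0) (nat_lit 5811209789) (nat_lit 152) (nat_lit 5946275148) (nat_lit 0) (nat_lit 2973824851) (nat_lit 14) (nat_lit 5) (nat_lit 16) (nat_lit 4) (nat_lit 14) (nat_lit 4) (nat_lit 357) (nat_lit 335) (nat_lit 328)) (XT.nd (nat_lit 78) (nat_lit 76) (nat_lit 0) (XT.lf (nat_lit 0) (nat_lit 4589587815) (nat_lit 76) (nat_lit 7265896038)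 (nat_lit 76) (nat_lit 4205565766) (nat_lit 13) (nat_lit 4) (nat_lit 14) (nat_lit 5) (nat_lit 14) (nat_lit 4) (nat_lit 358) (nat_lit 335) (nat_lit 327)) (XT.lf (nat_lit 0) (nat_lit 1085691913) (nat_lit 152) (nat_lit 919958167) (nat_lit 76) (nat_lit 15580457426) (nat_lit 12) (nat_lit 5) (nat_lit 14) (nat_lit 5) (nat_lit 13) (nat_lit 4) (nat_lit 359) (nat_lit 335) (nat_lit 326)))) (XT.nd (nat_lit 78) (nat_lit 76) (nat_lit 0) (XT.lf (nat_lit 0) (nat_lit 7098543539) (nat_lit 152) (nat_lit 8035423604) (nat_lit 0) (nat_lit 4122217901) (nat_lit 11) (nat_lit 5) (nat_lit 13) (nat_lit 4) (nat_lit 11) (nat_lit 4) (nat_lit 360) (nat_lit 335) (nat_lit 325)) (XT.nd (nat_lit 78) (nat_lit 0) (nat_lit 0) (XT.lf (nat_lit 0) (nat_lit 3752528151) (nat_lit 76) (nat_lit 10263824760) (nat_lit 76) (nat_lit 7160029404) (nat_lit 10) (nat_lit 4) (nat_lit 11) (nat_lit 5) (nat_lit 11) (nat_lit 4) (nat_lit 361) (nat_lit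 335) (nat_lit 324)) (XT.lf (nat_lit 0) (nat_lit 17638855544) (nat_lit 76) (nat_lit 4469950411) (nat_lit 76) (nat_lit 1255311821) (nat_lit 10) (nat_lit 4) (nat_lit 11) (nat_lit 5) (nat_lit 11) (nat_lit 4) (nat_lit 362) (nat_lit 335) (nat_lit 323))))) (XT.nd (nat_lit 234) (nat_lit 152) (nat_lit 0) (XT.nd (nat_lit 78) (nat_lit 76) (nat_lit 0) (XT.lf (nat_lit 0) (nat_lit 5207330032) (nat_lit 152) (nat_lit 18285417773) (nat_lit 0) (nat_lit 2328178719) (nat_lit 8) (nat_lit 5) (nat_lit 10) (nat_lit 4) (nat_lit 8) (nat_lit 4) (nat_lit 363) (nat_lit 335) (nat_lit 322)) (XT.nd (nat_lit 78) (nat_lit 76) (nat_lit 0) (XT.lf (nat_lit 0) (nat_lit 12781731278) (nat_lit 152) (nat_lit 5985263380) (nat_lit 0) (nat_lit 9829698739) (nat_lit 8) (nat_lit 5) (nat_lit 10) (nat_lit 4) (nat_lit 8) (nat_lit 4) (nat_lit 364) (nat_lit 335) (nat_lit 321)) (XT.lf (nat_lit 0) (nat_lit 8455410584) (nat_lit 76) (nat_lit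 13164830547) (nat_lit 76) (nat_lit 10149423030) (nat_lit 7) (nat_lit 4) (nat_lit 8) (nat_lit 5) (nat_lit 8) (nat_lit 4) (nat_lit 365) (nat_lit 335) (nat_lit 320)))) (XT.nd (nat_lit 78) (nat_lit 152) (nat_lit 0) (XT.lf (nat_lit 0) (nat_lit 25298369592) (nat_lit 76) (nat_lit 6587757157) (nat_lit 76) (nat_lit 3517240963) (nat_lit 7) (nat_lit 4) (nat_lit 8) (nat_lit 5) (nat_lit 8) (nat_lit 4) (nat_lit 366) (nat_lit 335) (nat_lit 319)) (XT.nd (nat_lit 78) (nat_lit 0) (nat_lit 0) (XT.lf (nat_lit 0) (nat_lit 3806495133) (nat_lit 152) (nat_lit 34645923632) (nat_lit 0) (nat_lit 1094810974) (nat_lit 5) (nat_lit 5) (nat_lit 7) (nat_lit 4) (nat_lit 5) (nat_lit 4) (nat_lit 367) (nat_lit 335) (nat_lit 318)) (XT.lf (nat_lit 0) (nat_lit 12544481462) (nat_lit 152) (nat_lit 21845153557) (nat_lit 0) (nat_lit 9796562453) (nat_lit 5) (nat_lit 5) (nat_lit 7) (nat_lit 4) (nat_lit 5) (nat_lit 4) (nat_lit 368)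 (nat_lit 335) (nat_lit 317))))))) (XT.nd (nat_lit 858) (nat_lit 0) (nat_lit 0) (XT.nd (nat_lit 390) (nat_lit 152) (nat_lit 0) (XT.nd (nat_lit 156) (nat_lit 76) (nat_lit 0) (XT.nd (nat_lit 78) (nat_lit 76) (nat_lit 0) (XT.lf (nat_lit 0) (nat_lit 22426832374) (nat_lit 152) (nat_lit 7471738669) (nat_lit 0) (nat_lit 19647404801) (nat_lit 5) (nat_lit 5) (nat_lit 7) (nat_lit 4) (nat_lit 5) (nat_lit 4) (nat_lit 369) (nat_lit 335) (nat_lit 316)) (XT.lf (nat_lit 0) (nat_lit 9611195068) (nat_lit 76) (nat_lit 24433682239) (nat_lit 76) (nat_lit 21626855913) (nat_lit 4) (nat_lit 4) (nat_lit 5) (nat_lit 5) (nat_lit 5) (nat_lit 4) (nat_lit 370) (nat_lit 335) (nat_lit 315))) (XT.nd (nat_lit 78) (nat_lit 76) (nat_lit 0) (XT.lf (nat_lit 0) (nat_lit 29807875994) (nat_lit 76) (nat_lit 17850606598) (nat_lit 76) (nat_lit 15019955271) (nat_lit 4) (nat_lit 4) (nat_lit 5) (nat_lit 5) (nat_lit 5) (nat_lit 4) (nat_lit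 371) (nat_lit 335) (nat_lit 314)) (XT.nd (nat_lit 78) (nat_lit 76) (nat_lit 0) (XT.lf (nat_lit 0) (nat_lit 52783263917) (nat_lit 76) (nat_lit 10411112973) (nat_lit 76) (nat_lit 7559744252) (nat_lit 4) (nat_lit 4) (nat_lit 5) (nat_lit 5) (nat_lit 5) (nat_lit 4) (nat_lit 372) (nat_lit 335) (nat_lit 313)) (XT.lf (nat_lit 0) (nat_lit 819636911) (nat_lit 152) (nat_lit 1107164485) (nat_lit 76) (nat_lit 78124395730) (nat_lit 3) (nat_lit 5) (nat_lit 5) (nat_lit 5) (nat_lit 4) (nat_lit 4) (nat_lit 373) (nat_lit 335) (nat_lit 312))))) (XT.nd (nat_lit 234) (nat_lit 76) (nat_lit 0) (XT.nd (nat_lit 78) (nat_lit 0) (nat_lit 0) (XT.lf (nat_lit 0) (nat_lit 10768298413) (nat_lit 152) (nat_lit 71498032559) (nat_lit 0) (nat_lit 8259560004) (nat_lit 2) (nat_lit 5) (nat_lit 4) (nat_lit 4) (nat_lit 2) (nat_lit 4) (nat_lit 374) (nat_lit 335) (nat_lit 311)) (XT.nd (nat_lit 78) (nat_lit 0) (nat_lit 0) (XT.lf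 (nat_lit 0) (nat_lit 22267164687) (nat_lit 152) (nat_lit 60549363161) (nat_lit 0) (nat_lit 19746581041) (nat_lit 2) (nat_lit 5) (nat_lit 4) (nat_lit 4) (nat_lit 2) (nat_lit 4) (nat_lit 375) (nat_lit 335) (nat_lit 310)) (XT.lf (nat_lit 0) (nat_lit 35408706695) (nat_lit 152) (nat_lit 48131708140) (nat_lit 0) (nat_lit 32877822844) (nat_lit 2) (nat_lit 5) (nat_lit 4) (nat_lit 4) (nat_lit 2) (nat_lit 4) (nat_lit 376) (nat_lit 335) (nat_lit 309)))) (XT.nd (nat_lit 78) (nat_lit 76) (nat_lit 0) (XT.lf (nat_lit 0) (nat_lit 50450041565) (nat_lit 152) (nat_lit 34002113374) (nat_lit 0) (nat_lit 47910201014) (nat_lit 2) (nat_lit 5) (nat_lit 4) (nat_lit 4) (nat_lit 2) (nat_lit 4) (nat_lit 377) (nat_lit 335) (nat_lit 308)) (XT.nd (nat_lit 78) (nat_lit 76) (nat_lit 0) (XT.lf (nat_lit 0) (nat_lit 67685456283) (nat_lit 152) (nat_lit 17884130271) (nat_lit 0) (nat_lit 65137827296) (nat_lit 2) (nat_lit 5)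 (nat_lit 4) (nat_lit 4) (nat_lit 2) (nat_lit 4) (nat_lit 378) (nat_lit 335) (nat_lit 307)) (XT.lf (nat_lit 0) (nat_lit 590130510) (nat_lit 76) (nat_lit 86886471019) (nat_lit 76) (nat_lit 84332069479) (nat_lit 1) (nat_lit 4) (nat_lit 2) (nat_lit 5) (nat_lit 2) (nat_lit 4) (nat_lit 379) (nat_lit 335) (nat_lit 306)))))) (XT.nd (nat_lit 468) (nat_lit 0) (nat_lit 0) (XT.nd (nat_lit 234) (nat_lit 0) (nat_lit 0) (XT.nd (nat_lit 78) (nat_lit 0) (nat_lit 0) (XT.lf (nat_lit 0) (nat_lit 23736685370) (nat_lit 76) (nat_lit 87383109283) (nat_lit 76) (nat_lit 84822818567) (nat_lit 1) (nat_lit 4) (nat_lit 2) (nat_lit 5) (nat_lit 2) (nat_lit 4) (nat_lit 380) (nat_lit 335) (nat_lit 305)) (XT.nd (nat_lit 78) (nat_lit 0) (nat_lit 0) (XT.lf (nat_lit 0) (nat_lit 50260634408) (nat_lit 76) (nat_lit 88004070446) (nat_lit 76) (nat_lit 85438658708) (nat_lit 1) (nat_lit 4) (nat_lit 2) (nat_lit 5) (nat_lit 2) (nat_lit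 4) (nat_lit 381) (nat_lit 335) (nat_lit 304)) (XT.lf (nat_lit 0) (nat_lit 80680924453) (nat_lit 76) (nat_lit 88761503750) (nat_lit 76) (nat_lit 86191638948) (nat_lit 1) (nat_lit 4) (nat_lit 2) (nat_lit 5) (nat_lit 2) (nat_lit 4) (nat_lit 382) (nat_lit 335) (nat_lit 303)))) (XT.nd (nat_lit 78) (nat_lit 0) (nat_lit 0) (XT.lf (nat_lit 0) (nat_lit 115592735093) (nat_lit 76) (nat_lit 89670228539) (nat_lit 76) (nat_lit 87096491509) (nat_lit 1) (nat_lit 4) (nat_lit 2) (nat_lit 5) (nat_lit 2) (nat_lit 4) (nat_lit 383) (nat_lit 335) (nat_lit 302)) (XT.nd (nat_lit 78) (nat_lit 0) (nat_lit 0) (XT.lf (nat_lit 0) (nat_lit 155679123493) (nat_lit 76) (nat_lit 90748024214) (nat_lit 76) (nat_lit 88170920028) (nat_lit 1) (nat_lit 4) (nat_lit 2) (nat_lit 5) (nat_lit 2) (nat_lit 4) (nat_lit 384) (nat_lit 335) (nat_lit 301)) (XT.lf (nat_lit 0) (nat_lit 201724388556) (nat_lit 76) (nat_lit 92015978080) (nat_lit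 76) (nat_lit 89435945933) (nat_lit 1) (nat_lit 4) (nat_lit 2) (nat_lit 5) (nat_lit 2) (nat_lit 4) (nat_lit 385) (nat_lit 335) (nat_lit 300))))) (XT.nd (nat_lit 234) (nat_lit 0) (nat_lit 0) (XT.nd (nat_lit 78) (nat_lit 0) (nat_lit 0) (XT.lf (nat_lit 0) (nat_lit 254629415904) (nat_lit 76) (nat_lit 93498897931) (nat_lit 76) (nat_lit 90916319730) (nat_lit 1) (nat_lit 4) (nat_lit 2) (nat_lit 5) (nat_lit 2) (nat_lit 4) (nat_lit 386) (nat_lit 335) (nat_lit 299)) (XT.nd (nat_lit 78) (nat_lit 0) (nat_lit 0) (XT.lf (nat_lit 0) (nat_lit 315429303896) (nat_lit 76) (nat_lit 95225797415) (nat_lit 76) (nat_lit 92641005255) (nat_lit 1) (nat_lit 4) (nat_lit 2) (nat_lit 5) (nat_lit 2) (nat_lit 4) (nat_lit 387) (nat_lit 335) (nat_lit 298)) (XT.lf (nat_lit 0) (nat_lit 385313615560) (nat_lit 76) (nat_lit 97230463698) (nat_lit 76) (nat_lit 94643746356) (nat_lit 1) (nat_lit 4) (nat_lit 2) (nat_lit 5) (nat_lit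 2) (nat_lit 4) (nat_lit 388) (nat_lit 335) (nat_lit 297)))) (XT.nd (nat_lit 78) (nat_lit 0) (nat_lit 0) (XT.lf (nat_lit 0) (nat_lit 465649652645) (nat_lit 76) (nat_lit 99552118509) (nat_lit 76) (nat_lit 96963727096) (nat_lit 1) (nat_lit 4) (nat_lit 2) (nat_lit 5) (nat_lit 2) (nat_lit 4) (nat_lit 389) (nat_lit 335) (nat_lit 296)) (XT.nd (nat_lit 78) (nat_lit 0) (nat_lit 0) (XT.lf (nat_lit 0) (nat_lit 558009207181) (nat_lit 76) (nat_lit 102236185531) (nat_lit 76) (nat_lit 99646338403) (nat_lit 1) (nat_lit 4) (nat_lit 2) (nat_lit 5) (nat_lit 2) (nat_lit 4) (nat_lit 390) (nat_lit 335) (nat_lit 295)) (XT.lf (nat_lit 0) (nat_lit 664199313930) (nat_lit 76) (nat_lit 105335179117) (nat_lit 76) (nat_lit 102744066151) (nat_lit 1) (nat_lit 4) (nat_lit 2) (nat_lit 5) (nat_lit 2) (nat_lit 4) (nat_lit 391) (nat_lit 335) (nat_lit 294))))))))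
noncomputable def xc38 : XT := (XT.nd (nat_lit 1794) (nat_lit 0) (nat_lit 0) (XT.nd (nat_lit 858) (nat_lit 0) (nat_lit 0) (XT.nd (nat_lit 390) (nat_lit 0) (nat_lit 0) (XT.nd (nat_lit 156) (nat_lit 0) (nat_lit 0) (XT.nd (nat_lit 78) (nat_lit 0) (nat_lit 0) (XT.lf (nat_lit 0) (nat_lit 786297605417) (nat_lit 76) (nat_lit 108909731753) (nat_lit 76) (nat_lit 106317518057) (nat_lit 1) (nat_lit 4) (nat_lit 2) (nat_lit 5) (nat_lit 2) (nat_lit 4) (nat_lit 392) (nat_lit 335) (nat_lit 293)) (XT.lf (nat_lit 0) (nat_lit 926692961257) (nat_lit 76) (nat_lit 113029780335) (nat_lit 76) (nat_lit 110436609484) (nat_lit 1) (nat_lit 4) (nat_lit 2) (nat_lit 5) (nat_lit 2) (nat_lit 4) (nat_lit 393) (nat_lit 335) (nat_lit 292))) (XT.nd (nat_lit 78) (nat_lit 0) (nat_lit 0) (XT.lf (nat_lit 0) (nat_lit 1088132247107) (nat_lit 76) (nat_lit 117775934512) (nat_lit 76) (nat_lit 115181931352) (nat_lit 1) (nat_lit 4)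 (nat_lit 2) (nat_lit 5) (nat_lit 2) (nat_lit 4) (nat_lit 394) (nat_lit 335) (nat_lit 291)) (XT.nd (nat_lit 78) (nat_lit 0) (nat_lit 0) (XT.lf (nat_lit 0) (nat_lit 1273774057692) (nat_lit 76) (nat_lit 123241053821) (nat_lit 76) (nat_lit 120646326913) (nat_lit 1) (nat_lit 4) (nat_lit 2) (nat_lit 5) (nat_lit 2) (nat_lit 4) (nat_lit 395) (nat_lit 335) (nat_lit 290)) (XT.lf (nat_lit 0) (nat_lit 1487250515391) (nat_lit 76) (nat_lit 129532064509) (nat_lit 76) (nat_lit 126936708256) (nat_lit 1) (nat_lit 4) (nat_lit 2) (nat_lit 5) (nat_lit 2) (nat_lit 4) (nat_lit 396) (nat_lit 335) (nat_lit 289))))) (XT.nd (nat_lit 234) (nat_lit 0) (nat_lit 0) (XT.nd (nat_lit 78) (nat_lit 0) (nat_lit 0) (XT.lf (nat_lit 0) (nat_lit 1732738333509) (nat_lit 76) (nat_lit 136772051569) (nat_lit 76) (nat_lit 134176148059) (nat_lit 1) (nat_lit 4) (nat_lit 2) (nat_lit 5) (nat_lit 2) (nat_lit 4) (nat_lit 397) (nat_lit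 335) (nat_lit 288)) (XT.nd (nat_lit 78) (nat_lit 0) (nat_lit 0) (XT.lf (nat_lit 0) (nat_lit 2015040534572) (nat_lit 76) (nat_lit 145102666920) (nat_lit 76) (nat_lit 142506287535) (nat_lit 1) (nat_lit 4) (nat_lit 2) (nat_lit 5) (nat_lit 2) (nat_lit 4) (nat_lit 398) (nat_lit 335) (nat_lit 287)) (XT.lf (nat_lit 0) (nat_lit 2339680422516) (nat_lit 76) (nat_lit 154686900864) (nat_lit 76) (nat_lit 152090107673) (nat_lit 1) (nat_lit 4) (nat_lit 2) (nat_lit 5) (nat_lit 2) (nat_lit 4) (nat_lit 399) (nat_lit 335) (nat_lit 286)))) (XT.nd (nat_lit 78) (nat_lit 0) (nat_lit 0) (XT.lf (nat_lit 0) (nat_lit 2713009647321) (nat_lit 76) (nat_lit 165712271021) (nat_lit 76) (nat_lit 163115118000) (nat_lit 1) (nat_lit 4) (nat_lit 2) (nat_lit 5) (nat_lit 2) (nat_lit 4) (nat_lit 400) (nat_lit 335) (nat_lit 285)) (XT.nd (nat_lit 78) (nat_lit 0) (nat_lit 0) (XT.lf (nat_lit 0) (nat_lit 3142332476429) (nat_lit 76)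 (nat_lit 178394491154) (nat_lit 76) (nat_lit 175797025237) (nat_lit 1) (nat_lit 4) (nat_lit 2) (nat_lit 5) (nat_lit 2) (nat_lit 4) (nat_lit 401) (nat_lit 335) (nat_lit 284)) (XT.lf (nat_lit 0) (nat_lit 3636048704324) (nat_lit 76) (nat_lit 192981691658) (nat_lit 76) (nat_lit 190383953658) (nat_lit 1) (nat_lit 4) (nat_lit 2) (nat_lit 5) (nat_lit 2) (nat_lit 4) (nat_lit 402) (nat_lit 335) (nat_lit 283)))))) (XT.nd (nat_lit 468) (nat_lit 0) (nat_lit 0) (XT.nd (nat_lit 234) (nat_lit 0) (nat_lit 0) (XT.nd (nat_lit 78) (nat_lit 0) (nat_lit 0) (XT.lf (nat_lit 0) (nat_lit 4203817996333) (nat_lit 76) (nat_lit 209759274282) (nat_lit 76) (nat_lit 207161299688) (nat_lit 1) (nat_lit 4) (nat_lit 2) (nat_lit 5) (nat_lit 2) (nat_lit 4) (nat_lit 403) (nat_lit 335) (nat_lit 282)) (XT.nd (nat_lit 78) (nat_lit 0) (nat_lit 0) (XT.lf (nat_lit 0) (nat_lit 4856748882082) (nat_lit 76) (nat_lit 229055496078) (nat_lit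 76) (nat_lit 226457315749) (nat_lit 1) (nat_lit 4) (nat_lit 2) (nat_lit 5) (nat_lit 2) (nat_lit 4) (nat_lit 404) (nat_lit 335) (nat_lit 281)) (XT.lf (nat_lit 0) (nat_lit 5607616096293) (nat_lit 76) (nat_lit 251247891818) (nat_lit 76) (nat_lit 248649532590) (nat_lit 1) (nat_lit 4) (nat_lit 2) (nat_lit 5) (nat_lit 2) (nat_lit 4) (nat_lit 405) (nat_lit 335) (nat_lit 280)))) (XT.nd (nat_lit 78) (nat_lit 0) (nat_lit 0) (XT.lf (nat_lit 0) (nat_lit 6471110519244) (nat_lit 76) (nat_lit 276770660551) (nat_lit 76) (nat_lit 274172145759) (nat_lit 1) (nat_lit 4) (nat_lit 2) (nat_lit 5) (nat_lit 2) (nat_lit 4) (nat_lit 406) (nat_lit 335) (nat_lit 279)) (XT.nd (nat_lit 78) (nat_lit 0) (nat_lit 0) (XT.lf (nat_lit 0) (nat_lit 7464126607036) (nat_lit 76) (nat_lit 306123160795) (nat_lit 76) (nat_lit 303524510729) (nat_lit 1) (nat_lit 4) (nat_lit 2) (nat_lit 5) (nat_lit 2) (nat_lit 4) (nat_lit 407) (nat_lit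 335) (nat_lit 278)) (XT.lf (nat_lit 0) (nat_lit 8606092935299) (nat_lit 76) (nat_lit 339879680599) (nat_lit 76) (nat_lit 337280912904) (nat_lit 1) (nat_lit 4) (nat_lit 2) (nat_lit 5) (nat_lit 2) (nat_lit 4) (nat_lit 408) (nat_lit 335) (nat_lit 277))))) (XT.nd (nat_lit 234) (nat_lit 0) (nat_lit 0) (XT.nd (nat_lit 78) (nat_lit 0) (nat_lit 0) (XT.lf (nat_lit 0) (nat_lit 9919352323501) (nat_lit 76) (nat_lit 378700673610) (nat_lit 76) (nat_lit 376101803629) (nat_lit 1) (nat_lit 4) (nat_lit 2) (nat_lit 5) (nat_lit 2) (nat_lit 4) (nat_lit 409) (nat_lit 335) (nat_lit 276)) (XT.nd (nat_lit 78) (nat_lit 0) (nat_lit 0) (XT.lf (nat_lit 0) (nat_lit 11429598977061) (nat_lit 76) (nat_lit 423345680996) (nat_lit 76) (nat_lit 420746722071) (nat_lit 1) (nat_lit 4) (nat_lit 2) (nat_lit 5) (nat_lit 2) (nat_lit 4) (nat_lit 410) (nat_lit 335) (nat_lit 275)) (XT.lf (nat_lit 0) (nat_lit 13166381200072) (nat_lit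 76) (nat_lit 474688192033) (nat_lit 76) (nat_lit 472089155764) (nat_lit 1) (nat_lit 4) (nat_lit 2) (nat_lit 5) (nat_lit 2) (nat_lit 4) (nat_lit 411) (nat_lit 335) (nat_lit 274)))) (XT.nd (nat_lit 78) (nat_lit 0) (nat_lit 0) (XT.lf (nat_lit 0) (nat_lit 15163679514288) (nat_lit 76) (nat_lit 533732734110) (nat_lit 76) (nat_lit 531133630587) (nat_lit 1) (nat_lit 4) (nat_lit 2) (nat_lit 5) (nat_lit 2) (nat_lit 4) (nat_lit 412) (nat_lit 335) (nat_lit 273)) (XT.nd (nat_lit 78) (nat_lit 0) (nat_lit 0) (XT.lf (nat_lit 0) (nat_lit 17460571495422) (nat_lit 76) (nat_lit 601634526529) (nat_lit 76) (nat_lit 599035364523) (nat_lit 1) (nat_lit 4) (nat_lit 2) (nat_lit 5) (nat_lit 2) (nat_lit 4) (nat_lit 413) (nat_lit 335) (nat_lit 272)) (XT.lf (nat_lit 0) (nat_lit 20101996334409) (nat_lit 76) (nat_lit 679722082619) (nat_lit 76) (nat_lit 677122869759) (nat_lit 1) (nat_lit 4) (nat_lit 2) (nat_lit 5) (nat_lit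 2) (nat_lit 4) (nat_lit 414) (nat_lit 335) (nat_lit 271))))))) (XT.nd (nat_lit 858) (nat_lit 0) (nat_lit 0) (XT.nd (nat_lit 390) (nat_lit 0) (nat_lit 0) (XT.nd (nat_lit 156) (nat_lit 0) (nat_lit 0) (XT.nd (nat_lit 78) (nat_lit 0) (nat_lit 0) (XT.lf (nat_lit 0) (nat_lit 23139634082447) (nat_lit 76) (nat_lit 769523202392) (nat_lit 76) (nat_lit 766923945310) (nat_lit 1) (nat_lit 4) (nat_lit 2) (nat_lit 5) (nat_lit 2) (nat_lit 4) (nat_lit 415) (nat_lit 335) (nat_lit 270)) (XT.lf (nat_lit 0) (nat_lit 26632916782432) (nat_lit 76) (nat_lit 872794864276) (nat_lit 76) (nat_lit 870195568742) (nat_lit 1) (nat_lit 4) (nat_lit 2) (nat_lit 5) (nat_lit 2) (nat_lit 4) (nat_lit 416) (nat_lit 335) (nat_lit 269))) (XT.nd (nat_lit 78) (nat_lit 0) (nat_lit 0) (XT.lf (nat_lit 0) (nat_lit 30650191269798) (nat_lit 76) (nat_lit 991557600789) (nat_lit 76) (nat_lit 988958271816) (nat_lit 1) (nat_lit 4) (nat_lit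 2) (nat_lit 5) (nat_lit 2) (nat_lit 4) (nat_lit 417) (nat_lit 335) (nat_lit 268)) (XT.nd (nat_lit 78) (nat_lit 0) (nat_lit 0) (XT.lf (nat_lit 0) (nat_lit 35270056393212) (nat_lit 76) (nat_lit 1128135030686) (nat_lit 76) (nat_lit 1125535672638) (nat_lit 1) (nat_lit 4) (nat_lit 2) (nat_lit 5) (nat_lit 2) (nat_lit 4) (nat_lit 418) (nat_lit 335) (nat_lit 267)) (XT.lf (nat_lit 0) (nat_lit 40582900818132) (nat_lit 76) (nat_lit 1285199321076) (nat_lit 76) (nat_lit 1282599937744) (nat_lit 1) (nat_lit 4) (nat_lit 2) (nat_lit 5) (nat_lit 2) (nat_lit 4) (nat_lit 419) (nat_lit 335) (nat_lit 266))))) (XT.nd (nat_lit 234) (nat_lit 0) (nat_lit 0) (XT.nd (nat_lit 78) (nat_lit 0) (nat_lit 0) (XT.lf (nat_lit 0) (nat_lit 46692671500697) (nat_lit 76) (nat_lit 1465823468944) (nat_lit 76) (nat_lit 1463224063626) (nat_lit 1) (nat_lit 4) (nat_lit 2) (nat_lit 5) (nat_lit 2) (nat_lit 4) (nat_lit 420) (nat_lit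 335) (nat_lit 265)) (XT.nd (nat_lit 78) (nat_lit 0) (nat_lit 0) (XT.lf (nat_lit 0) (nat_lit 53718907432523) (nat_lit 76) (nat_lit 1673541425008) (nat_lit 76) (nat_lit 1670942000572) (nat_lit 1) (nat_lit 4) (nat_lit 2) (nat_lit 5) (nat_lit 2) (nat_lit 4) (nat_lit 421) (nat_lit 335) (nat_lit 264)) (XT.lf (nat_lit 0) (nat_lit 61799078447058) (nat_lit 76) (nat_lit 1912417236236) (nat_lit 76) (nat_lit 1909817795176) (nat_lit 1) (nat_lit 4) (nat_lit 2) (nat_lit 5) (nat_lit 2) (nat_lit 4) (nat_lit 422) (nat_lit 335) (nat_lit 263)))) (XT.nd (nat_lit 78) (nat_lit 0) (nat_lit 0) (XT.lf (nat_lit 0) (nat_lit 71091274846761) (nat_lit 76) (nat_lit 2187124559804) (nat_lit 76) (nat_lit 2184525104288) (nat_lit 1) (nat_lit 4) (nat_lit 2) (nat_lit 5) (nat_lit 2) (nat_lit 4) (nat_lit 423) (nat_lit 335) (nat_lit 262)) (XT.nd (nat_lit 78) (nat_lit 0) (nat_lit 0) (XT.lf (nat_lit 0) (nat_lit 81777300474235)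 (nat_lit 76) (nat_lit 2503038104217) (nat_lit 76) (nat_lit 2500438636130) (nat_lit 1) (nat_lit 4) (nat_lit 2) (nat_lit 5) (nat_lit 2) (nat_lit 4) (nat_lit 424) (nat_lit 335) (nat_lit 261)) (XT.lf (nat_lit 0) (nat_lit 94066229743930) (nat_lit 76) (nat_lit 2866338786647) (nat_lit 76) (nat_lit 2863739307629) (nat_lit 1) (nat_lit 4) (nat_lit 2) (nat_lit 5) (nat_lit 2) (nat_lit 4) (nat_lit 425) (nat_lit 335) (nat_lit 260)))))) (XT.nd (nat_lit 468) (nat_lit 0) (nat_lit 0) (XT.nd (nat_lit 234) (nat_lit 0) (nat_lit 0) (XT.nd (nat_lit 78) (nat_lit 0) (nat_lit 0) (XT.lf (nat_lit 0) (nat_lit 108198498228514) (nat_lit 76) (nat_lit 3284134663925) (nat_lit 76) (nat_lit 3281535175402) (nat_lit 1) (nat_lit 4) (nat_lit 2) (nat_lit 5) (nat_lit 2) (nat_lit 4) (nat_lit 426) (nat_lit 335) (nat_lit 259)) (XT.nd (nat_lit 78) (nat_lit 0) (nat_lit 0) (XT.lf (nat_lit 0) (nat_lit 124450606833121) (nat_lit 76) (nat_lit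 3764600003215) (nat_lit 76) (nat_lit 3762000506427) (nat_lit 1) (nat_lit 4) (nat_lit 2) (nat_lit 5) (nat_lit 2) (nat_lit 4) (nat_lit 427) (nat_lit 335) (nat_lit 258)) (XT.lf (nat_lit 0) (nat_lit 143140531595666) (nat_lit 76) (nat_lit 4317135213328) (nat_lit 76) (nat_lit 4314535709353) (nat_lit 1) (nat_lit 4) (nat_lit 2) (nat_lit 5) (nat_lit 2) (nat_lit 4) (nat_lit 428) (nat_lit 335) (nat_lit 257)))) (XT.nd (nat_lit 78) (nat_lit 0) (nat_lit 0) (XT.lf (nat_lit 0) (nat_lit 164633944957157) (nat_lit 76) (nat_lit 4952550765769) (nat_lit 76) (nat_lit 4949951255544) (nat_lit 1) (nat_lit 4) (nat_lit 2) (nat_lit 5) (nat_lit 2) (nat_lit 4) (nat_lit 429) (nat_lit 335) (nat_lit 256)) (XT.nd (nat_lit 78) (nat_lit 0) (nat_lit 0) (XT.lf (nat_lit 0) (nat_lit 189351370222491) (nat_lit 76) (nat_lit 5683278703953) (nat_lit 76) (nat_lit 5680679188293) (nat_lit 1) (nat_lit 4) (nat_lit 2) (nat_lit 5) (nat_lit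 2) (nat_lit 4) (nat_lit 430) (nat_lit 335) (nat_lit 255)) (XT.lf (nat_lit 0) (nat_lit 217776409190337) (nat_lit 76) (nat_lit 6523615878845) (nat_lit 76) (nat_lit 6521016358460) (nat_lit 1) (nat_lit 4) (nat_lit 2) (nat_lit 5) (nat_lit 2) (nat_lit 4) (nat_lit 431) (nat_lit 335) (nat_lit 254))))) (XT.nd (nat_lit 46566) (nat_lit 0) (nat_lit 1596) (XT.nd (nat_lit 78) (nat_lit 0) (nat_lit 0) (XT.lf (nat_lit 0) (nat_lit 250465203927460) (nat_lit 76) (nat_lit 7490003669953) (nat_lit 76) (nat_lit 7487404145460) (nat_lit 1) (nat_lit 4) (nat_lit 2) (nat_lit 5) (nat_lit 2) (nat_lit 4) (nat_lit 432) (nat_lit 335) (nat_lit 253)) (XT.nd (nat_lit 78) (nat_lit 0) (nat_lit 0) (XT.lf (nat_lit 0) (nat_lit 288057317809150) (nat_lit 76) (nat_lit 8601349664497) (nat_lit 76) (nat_lit 8598750136429) (nat_lit 1) (nat_lit 4) (nat_lit 2) (nat_lit 5) (nat_lit 2) (nat_lit 4) (nat_lit 433) (nat_lit 335) (nat_lit 252))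 (XT.lf (nat_lit 0) (nat_lit 331288248715699) (nat_lit 76) (nat_lit 9879397588455) (nat_lit 76) (nat_lit 9876798057280) (nat_lit 1) (nat_lit 4) (nat_lit 2) (nat_lit 5) (nat_lit 2) (nat_lit 4) (nat_lit 434) (nat_lit 335) (nat_lit 251)))) (XT.nd (nat_lit 78) (nat_lit 304) (nat_lit 0) (XT.lf (nat_lit 0) (nat_lit 1569357870) (nat_lit 152) (nat_lit 1210162904) (nat_lit 152) (nat_lit 1210162904) (nat_lit 26) (nat_lit 4) (nat_lit 28) (nat_lit 5) (nat_lit 28) (nat_lit 4) (nat_lit 348) (nat_lit 336) (nat_lit 336)) (XT.nd (nat_lit 78) (nat_lit 152) (nat_lit 0) (XT.lf (nat_lit 0) (nat_lit 1405821283) (nat_lit 152) (nat_lit 6643802324) (nat_lit 0) (nat_lit 368592327) (nat_lit 24) (nat_lit 5) (nat_lit 26) (nat_lit 4) (nat_lit 24) (nat_lit 4) (nat_lit 349) (nat_lit 336) (nat_lit 335)) (XT.lf (nat_lit 0) (nat_lit 89081625) (nat_lit 152) (nat_lit 5384411301) (nat_lit 152) (nat_lit 3445244122) (nat_lit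 22) (nat_lit 4) (nat_lit 24) (nat_lit 5) (nat_lit 24) (nat_lit 4) (nat_lit 350) (nat_lit 336) (nat_lit 334))))))))
noncomputable def xc39 : XT := (XT.nd (nat_lit 1794) (nat_lit 228) (nat_lit 0) (XT.nd (nat_lit 858) (nat_lit 532) (nat_lit 0) (XT.nd (nat_lit 390) (nat_lit 456) (nat_lit 0) (XT.nd (nat_lit 156) (nat_lit 228) (nat_lit 0) (XT.nd (nat_lit 78) (nat_lit 76) (nat_lit 0) (XT.lf (nat_lit 0) (nat_lit 505364885) (nat_lit 228) (nat_lit 1636926781) (nat_lit 76) (nat_lit 7362267781) (nat_lit 21) (nat_lit 5) (nat_lit 24) (nat_lit 5) (nat_lit 22) (nat_lit 4) (nat_lit 351) (nat_lit 336) (nat_lit 333)) (XT.lf (nat_lit 0) (nat_lit 4640083735) (nat_lit 152) (nat_lit 3843399447) (nat_lit 0) (nat_lit 1678817509) (nat_lit 20) (nat_lit 5) (nat_lit 22) (nat_lit 4) (nat_lit 20) (nat_lit 4) (nat_lit 352) (nat_lit 336) (nat_lit 332))) (XT.nd (nat_lit 78) (nat_lit 152) (nat_lit 0) (XT.lf (nat_lit 0)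 (nat_lit 4378258586) (nat_lit 76) (nat_lit 5009378094) (nat_lit 76) (nat_lit 1532425762) (nat_lit 19) (nat_lit 4) (nat_lit 20) (nat_lit 5) (nat_lit 20) (nat_lit 4) (nat_lit 353) (nat_lit 336) (nat_lit 331)) (XT.nd (nat_lit 78) (nat_lit 0) (nat_lit 0) (XT.lf (nat_lit 0) (nat_lit 1875938338) (nat_lit 76) (nat_lit 822346950) (nat_lit 152) (nat_lit 9087238936) (nat_lit 17) (nat_lit 5) (nat_lit 18) (nat_lit 5) (nat_lit 19) (nat_lit 4) (nat_lit 354) (nat_lit 336) (nat_lit 330)) (XT.lf (nat_lit 0) (nat_lit 7567831844) (nat_lit 152) (nat_lit 1362635784) (nat_lit 0) (nat_lit 3815390264) (nat_lit 17) (nat_lit 5) (nat_lit 19) (nat_lit 4) (nat_lit 17) (nat_lit 4) (nat_lit 355) (nat_lit 336) (nat_lit 329))))) (XT.nd (nat_lit 234) (nat_lit 228) (nat_lit 0) (XT.nd (nat_lit 78) (nat_lit 152) (nat_lit 0) (XT.lf (nat_lit 0) (nat_lit 8611134603) (nat_lit 76) (nat_lit 4637227888) (nat_lit 76) (nat_lit 589941104)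 (nat_lit 16) (nat_lit 4) (nat_lit 17) (nat_lit 5) (nat_lit 17) (nat_lit 4) (nat_lit 356) (nat_lit 336) (nat_lit 328)) (XT.nd (nat_lit 78) (nat_lit 0) (nat_lit 0) (XT.lf (nat_lit 0) (nat_lit 4254124002) (nat_lit 152) (nat_lit 10301948092) (nat_lit 0) (nat_lit 511798854) (nat_lit 14) (nat_lit 5) (nat_lit 16) (nat_lit 4) (nat_lit 14) (nat_lit 4) (nat_lit 357) (nat_lit 336) (nat_lit 327)) (XT.lf (nat_lit 0) (nat_lit 9966511954) (nat_lit 152) (nat_lit 450604725) (nat_lit 0) (nat_lit 6030321299) (nat_lit 14) (nat_lit 5) (nat_lit 16) (nat_lit 4) (nat_lit 14) (nat_lit 4) (nat_lit 358) (nat_lit 336) (nat_lit 326)))) (XT.nd (nat_lit 78) (nat_lit 152) (nat_lit 0) (XT.lf (nat_lit 0) (nat_lit 11375291697) (nat_lit 76) (nat_lit 5366311849) (nat_lit 76) (nat_lit 1261542491) (nat_lit 13) (nat_lit 4) (nat_lit 14) (nat_lit 5) (nat_lit 14) (nat_lit 4) (nat_lit 359) (nat_lit 336) (nat_lit 325)) (XT.nd (nat_lit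 78) (nat_lit 0) (nat_lit 0) (XT.lf (nat_lit 0) (nat_lit 4313941678) (nat_lit 152) (nat_lit 14832491188) (nat_lit 0) (nat_lit 617107300) (nat_lit 11) (nat_lit 5) (nat_lit 13) (nat_lit 4) (nat_lit 11) (nat_lit 4) (nat_lit 360) (nat_lit 336) (nat_lit 324)) (XT.lf (nat_lit 0) (nat_lit 10955744014) (nat_lit 152) (nat_lit 3621353396) (nat_lit 0) (nat_lit 7148066402) (nat_lit 11) (nat_lit 5) (nat_lit 13) (nat_lit 4) (nat_lit 11) (nat_lit 4) (nat_lit 361) (nat_lit 336) (nat_lit 323)))))) (XT.nd (nat_lit 468) (nat_lit 228) (nat_lit 0) (XT.nd (nat_lit 234) (nat_lit 76) (nat_lit 0) (XT.nd (nat_lit 78) (nat_lit 152) (nat_lit 0) (XT.lf (nat_lit 0) (nat_lit 9679364589) (nat_lit 76) (nat_lit 9089741675) (nat_lit 76) (nat_lit 5185678643) (nat_lit 10) (nat_lit 4) (nat_lit 11) (nat_lit 5) (nat_lit 11) (nat_lit 4) (nat_lit 362) (nat_lit 336) (nat_lit 322)) (XT.nd (nat_lit 78) (nat_lit 76) (nat_lit 0) (XT.lf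 (nat_lit 0) (nat_lit 1099667524) (nat_lit 152) (nat_lit 1623591264) (nat_lit 76) (nat_lit 23791844352) (nat_lit 9) (nat_lit 5) (nat_lit 11) (nat_lit 5) (nat_lit 10) (nat_lit 4) (nat_lit 363) (nat_lit 336) (nat_lit 321)) (XT.lf (nat_lit 0) (nat_lit 8380654700) (nat_lit 152) (nat_lit 16104680821) (nat_lit 0) (nat_lit 4849561077) (nat_lit 8) (nat_lit 5) (nat_lit 10) (nat_lit 4) (nat_lit 8) (nat_lit 4) (nat_lit 364) (nat_lit 336) (nat_lit 320)))) (XT.nd (nat_lit 78) (nat_lit 76) (nat_lit 0) (XT.lf (nat_lit 0) (nat_lit 16779186763) (nat_lit 152) (nat_lit 2601705392) (nat_lit 0) (nat_lit 13192984463) (nat_lit 8) (nat_lit 5) (nat_lit 10) (nat_lit 4) (nat_lit 8) (nat_lit 4) (nat_lit 365) (nat_lit 336) (nat_lit 319)) (XT.nd (nat_lit 78) (nat_lit 0) (nat_lit 0) (XT.lf (nat_lit 0) (nat_lit 13810462962) (nat_lit 76) (nat_lit 13030903467) (nat_lit 76) (nat_lit 9396780579) (nat_lit 7) (nat_lit 4) (nat_lit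 8) (nat_lit 5) (nat_lit 8) (nat_lit 4) (nat_lit 366) (nat_lit 336) (nat_lit 318)) (XT.lf (nat_lit 0) (nat_lit 32646812675) (nat_lit 76) (nat_lit 5742310590) (nat_lit 76) (nat_lit 2066517624) (nat_lit 7) (nat_lit 4) (nat_lit 8) (nat_lit 5) (nat_lit 8) (nat_lit 4) (nat_lit 367) (nat_lit 336) (nat_lit 317))))) (XT.nd (nat_lit 234) (nat_lit 76) (nat_lit 0) (XT.nd (nat_lit 78) (nat_lit 0) (nat_lit 0) (XT.lf (nat_lit 0) (nat_lit 6168454238) (nat_lit 152) (nat_lit 36101441653) (nat_lit 0) (nat_lit 2940603964) (nat_lit 5) (nat_lit 5) (nat_lit 7) (nat_lit 4) (nat_lit 5) (nat_lit 4) (nat_lit 368) (nat_lit 336) (nat_lit 316)) (XT.nd (nat_lit 78) (nat_lit 0) (nat_lit 0) (XT.lf (nat_lit 0) (nat_lit 15983531798) (nat_lit 152) (nat_lit 21868560918) (nat_lit 0) (nat_lit 12728282772) (nat_lit 5) (nat_lit 5) (nat_lit 7) (nat_lit 4) (nat_lit 5) (nat_lit 4) (nat_lit 369) (nat_lit 336) (nat_lit 315)) (XT.lf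 (nat_lit 0) (nat_lit 27145099072) (nat_lit 152) (nat_lit 5763485840) (nat_lit 0) (nat_lit 23866025044) (nat_lit 5) (nat_lit 5) (nat_lit 7) (nat_lit 4) (nat_lit 5) (nat_lit 4) (nat_lit 370) (nat_lit 336) (nat_lit 314)))) (XT.nd (nat_lit 78) (nat_lit 0) (nat_lit 0) (XT.lf (nat_lit 0) (nat_lit 13753296429) (nat_lit 76) (nat_lit 26687732797) (nat_lit 76) (nat_lit 23387941375) (nat_lit 4) (nat_lit 4) (nat_lit 5) (nat_lit 5) (nat_lit 5) (nat_lit 4) (nat_lit 371) (nat_lit 336) (nat_lit 313)) (XT.nd (nat_lit 78) (nat_lit 0) (nat_lit 0) (XT.lf (nat_lit 0) (nat_lit 36627250523) (nat_lit 76) (nat_lit 19301239520) (nat_lit 76) (nat_lit 15983432974) (nat_lit 4) (nat_lit 4) (nat_lit 5) (nat_lit 5) (nat_lit 5) (nat_lit 4) (nat_lit 372) (nat_lit 336) (nat_lit 312)) (XT.lf (nat_lit 0) (nat_lit 62742660575) (nat_lit 76) (nat_lit 10905859860) (nat_lit 76) (nat_lit 7572387989) (nat_lit 4) (nat_lit 4) (nat_lit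 5) (nat_lit 5) (nat_lit 5) (nat_lit 4) (nat_lit 373) (nat_lit 336) (nat_lit 311))))))) (XT.nd (nat_lit 858) (nat_lit 0) (nat_lit 0) (XT.nd (nat_lit 390) (nat_lit 76) (nat_lit 0) (XT.nd (nat_lit 156) (nat_lit 0) (nat_lit 0) (XT.nd (nat_lit 78) (nat_lit 0) (nat_lit 0) (XT.lf (nat_lit 0) (nat_lit 646782384) (nat_lit 76) (nat_lit 1210834488) (nat_lit 152) (nat_lit 90063942020) (nat_lit 2) (nat_lit 5) (nat_lit 3) (nat_lit 5) (nat_lit 4) (nat_lit 4) (nat_lit 374) (nat_lit 336) (nat_lit 310)) (XT.lf (nat_lit 0) (nat_lit 13268133814) (nat_lit 152) (nat_lit 80356580565) (nat_lit 0) (nat_lit 10347317179) (nat_lit 2) (nat_lit 5) (nat_lit 4) (nat_lit 4) (nat_lit 2) (nat_lit 4) (nat_lit 375) (nat_lit 336) (nat_lit 309))) (XT.nd (nat_lit 78) (nat_lit 0) (nat_lit 0) (XT.lf (nat_lit 0) (nat_lit 26376448641) (nat_lit 152) (nat_lit 68009022525) (nat_lit 0) (nat_lit 23446675306) (nat_lit 2) (nat_lit 5)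 (nat_lit 4) (nat_lit 4) (nat_lit 2) (nat_lit 4) (nat_lit 376) (nat_lit 336) (nat_lit 308)) (XT.nd (nat_lit 78) (nat_lit 0) (nat_lit 0) (XT.lf (nat_lit 0) (nat_lit 41388890310) (nat_lit 152) (nat_lit 53940381656) (nat_lit 0) (nat_lit 38451328539) (nat_lit 2) (nat_lit 5) (nat_lit 4) (nat_lit 4) (nat_lit 2) (nat_lit 4) (nat_lit 377) (nat_lit 336) (nat_lit 307)) (XT.lf (nat_lit 0) (nat_lit 58599180504) (nat_lit 152) (nat_lit 37875401941) (nat_lit 0) (nat_lit 55654846181) (nat_lit 2) (nat_lit 5) (nat_lit 4) (nat_lit 4) (nat_lit 2) (nat_lit 4) (nat_lit 378) (nat_lit 336) (nat_lit 306))))) (XT.nd (nat_lit 234) (nat_lit 0) (nat_lit 0) (XT.nd (nat_lit 78) (nat_lit 76) (nat_lit 0) (XT.lf (nat_lit 0) (nat_lit 78344042294) (nat_lit 152) (nat_lit 19499768560) (nat_lit 0) (nat_lit 75393818795) (nat_lit 2) (nat_lit 5) (nat_lit 4) (nat_lit 4) (nat_lit 2) (nat_lit 4) (nat_lit 379) (nat_lit 336) (nat_lit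 305)) (XT.nd (nat_lit 78) (nat_lit 0) (nat_lit 0) (XT.lf (nat_lit 0) (nat_lit 1697132191) (nat_lit 76) (nat_lit 99382930626) (nat_lit 76) (nat_lit 96427586104) (nat_lit 1) (nat_lit 4) (nat_lit 2) (nat_lit 5) (nat_lit 2) (nat_lit 4) (nat_lit 380) (nat_lit 336) (nat_lit 304)) (XT.lf (nat_lit 0) (nat_lit 28182824788) (nat_lit 76) (nat_lit 100024044331) (nat_lit 76) (nat_lit 97064246746) (nat_lit 1) (nat_lit 4) (nat_lit 2) (nat_lit 5) (nat_lit 2) (nat_lit 4) (nat_lit 381) (nat_lit 336) (nat_lit 303)))) (XT.nd (nat_lit 78) (nat_lit 0) (nat_lit 0) (XT.lf (nat_lit 0) (nat_lit 58569848362) (nat_lit 76) (nat_lit 100799001584) (nat_lit 76) (nat_lit 97835331770) (nat_lit 1) (nat_lit 4) (nat_lit 2) (nat_lit 5) (nat_lit 2) (nat_lit 4) (nat_lit 382) (nat_lit 336) (nat_lit 302)) (XT.nd (nat_lit 78) (nat_lit 0) (nat_lit 0) (XT.lf (nat_lit 0) (nat_lit 93452731637) (nat_lit 76) (nat_lit 101722964591) (nat_lit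 76) (nat_lit 98755927621) (nat_lit 1) (nat_lit 4) (nat_lit 2) (nat_lit 5) (nat_lit 2) (nat_lit 4) (nat_lit 383) (nat_lit 336) (nat_lit 301)) (XT.lf (nat_lit 0) (nat_lit 133513965806) (nat_lit 76) (nat_lit 102814010889) (nat_lit 76) (nat_lit 99844045958) (nat_lit 1) (nat_lit 4) (nat_lit 2) (nat_lit 5) (nat_lit 2) (nat_lit 4) (nat_lit 384) (nat_lit 336) (nat_lit 300)))))) (XT.nd (nat_lit 468) (nat_lit 0) (nat_lit 0) (XT.nd (nat_lit 234) (nat_lit 0) (nat_lit 0) (XT.nd (nat_lit 78) (nat_lit 0) (nat_lit 0) (XT.lf (nat_lit 0) (nat_lit 179537357625) (nat_lit 76) (nat_lit 104093487036) (nat_lit 76) (nat_lit 101120976052) (nat_lit 1) (nat_lit 4) (nat_lit 2) (nat_lit 5) (nat_lit 2) (nat_lit 4) (nat_lit 385) (nat_lit 336) (nat_lit 299)) (XT.nd (nat_lit 78) (nat_lit 0) (nat_lit 0) (XT.lf (nat_lit 0) (nat_lit 232423364759) (nat_lit 76) (nat_lit 105586426262) (nat_lit 76) (nat_lit 102611701318) (nat_lit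 1) (nat_lit 4) (nat_lit 2) (nat_lit 5) (nat_lit 2) (nat_lit 4) (nat_lit 386) (nat_lit 336) (nat_lit 298)) (XT.lf (nat_lit 0) (nat_lit 293206713437) (nat_lit 76) (nat_lit 107322038246) (nat_lit 76) (nat_lit 104345388121) (nat_lit 1) (nat_lit 4) (nat_lit 2) (nat_lit 5) (nat_lit 2) (nat_lit 4) (nat_lit 387) (nat_lit 336) (nat_lit 297)))) (XT.nd (nat_lit 78) (nat_lit 0) (nat_lit 0) (XT.lf (nat_lit 0) (nat_lit 363076643087) (nat_lit 76) (nat_lit 109334280615) (nat_lit 76) (nat_lit 106355956418) (nat_lit 1) (nat_lit 4) (nat_lit 2) (nat_lit 5) (nat_lit 2) (nat_lit 4) (nat_lit 388) (nat_lit 336) (nat_lit 296)) (XT.nd (nat_lit 78) (nat_lit 0) (nat_lit 0) (XT.lf (nat_lit 0) (nat_lit 443400174074) (nat_lit 76) (nat_lit 111662523328) (nat_lit 76) (nat_lit 108682743417) (nat_lit 1) (nat_lit 4) (nat_lit 2) (nat_lit 5) (nat_lit 2) (nat_lit 4) (nat_lit 389) (nat_lit 336) (nat_lit 295)) (XT.lf (nat_lit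 0) (nat_lit 535748853741) (nat_lit 76) (nat_lit 114352318960) (nat_lit 76) (nat_lit 111371273211) (nat_lit 1) (nat_lit 4) (nat_lit 2) (nat_lit 5) (nat_lit 2) (nat_lit 4) (nat_lit 390) (nat_lit 336) (nat_lit 294))))) (XT.nd (nat_lit 234) (nat_lit 0) (nat_lit 0) (XT.nd (nat_lit 78) (nat_lit 0) (nat_lit 0) (XT.lf (nat_lit 0) (nat_lit 641929504084) (nat_lit 76) (nat_lit 117456293947) (nat_lit 76) (nat_lit 114474147468) (nat_lit 1) (nat_lit 4) (nat_lit 2) (nat_lit 5) (nat_lit 2) (nat_lit 4) (nat_lit 391) (nat_lit 336) (nat_lit 293)) (XT.nd (nat_lit 78) (nat_lit 0) (nat_lit 0) (XT.lf (nat_lit 0) (nat_lit 764019572608) (nat_lit 76) (nat_lit 121035178235) (nat_lit 76) (nat_lit 118052074600) (nat_lit 1) (nat_lit 4) (nat_lit 2) (nat_lit 5) (nat_lit 2) (nat_lit 4) (nat_lit 392) (nat_lit 336) (nat_lit 292)) (XT.lf (nat_lit 0) (nat_lit 904407778045) (nat_lit 76) (nat_lit 125158993472) (nat_lit 76)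 (nat_lit 122175057528) (nat_lit 1) (nat_lit 4) (nat_lit 2) (nat_lit 5) (nat_lit 2) (nat_lit 4) (nat_lit 393) (nat_lit 336) (nat_lit 291)))) (XT.nd (nat_lit 78) (nat_lit 0) (nat_lit 0) (XT.lf (nat_lit 0) (nat_lit 1065840846154) (nat_lit 76) (nat_lit 129908423000) (nat_lit 76) (nat_lit 126923763309) (nat_lit 1) (nat_lit 4) (nat_lit 2) (nat_lit 5) (nat_lit 2) (nat_lit 4) (nat_lit 394) (nat_lit 336) (nat_lit 290)) (XT.nd (nat_lit 78) (nat_lit 0) (nat_lit 0) (XT.lf (nat_lit 0) (nat_lit 1251477250007) (nat_lit 76) (nat_lit 135376390440) (nat_lit 76) (nat_lit 132391101404) (nat_lit 1) (nat_lit 4) (nat_lit 2) (nat_lit 5) (nat_lit 2) (nat_lit 4) (nat_lit 395) (nat_lit 336) (nat_lit 289)) (XT.lf (nat_lit 0) (nat_lit 1464949006201) (nat_lit 76) (nat_lit 141669877765) (nat_lit 76) (nat_lit 138684041471) (nat_lit 1) (nat_lit 4) (nat_lit 2) (nat_lit 5) (nat_lit 2) (nat_lit 4) (nat_lit 396) (nat_lit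 336) (nat_lit 288))))))))
noncomputable def xc40 : XT := (XT.nd (nat_lit 1716) (nat_lit 0) (nat_lit 0) (XT.nd (nat_lit 858) (nat_lit 0) (nat_lit 0) (XT.nd (nat_lit 390) (nat_lit 0) (nat_lit 0) (XT.nd (nat_lit 156) (nat_lit 0) (nat_lit 0) (XT.nd (nat_lit 78) (nat_lit 0) (nat_lit 0) (XT.lf (nat_lit 0) (nat_lit 1710432736053) (nat_lit 76) (nat_lit 148912018421) (nat_lit 76) (nat_lit 145925706252) (nat_lit 1) (nat_lit 4) (nat_lit 2) (nat_lit 5) (nat_lit 2) (nat_lit 4) (nat_lit 397) (nat_lit 336) (nat_lit 287)) (XT.lf (nat_lit 0) (nat_lit 1992731382103) (nat_lit 76) (nat_lit 157244506465) (nat_lit 76) (nat_lit 154257780491) (nat_lit 1) (nat_lit 4) (nat_lit 2) (nat_lit 5) (nat_lit 2) (nat_lit 4) (nat_lit 398) (nat_lit 336) (nat_lit 286))) (XT.nd (nat_lit 78) (nat_lit 0) (nat_lit 0) (XT.lf (nat_lit 0) (nat_lit 2317368178730) (nat_lit 76) (nat_lit 166830368838) (nat_lit 76) (nat_lit 163843283033)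 (nat_lit 1) (nat_lit 4) (nat_lit 2) (nat_lit 5) (nat_lit 2) (nat_lit 4) (nat_lit 399) (nat_lit 336) (nat_lit 285)) (XT.nd (nat_lit 78) (nat_lit 0) (nat_lit 0) (XT.lf (nat_lit 0) (nat_lit 2690694715434) (nat_lit 76) (nat_lit 177857155019) (nat_lit 76) (nat_lit 174869756319) (nat_lit 1) (nat_lit 4) (nat_lit 2) (nat_lit 5) (nat_lit 2) (nat_lit 4) (nat_lit 400) (nat_lit 336) (nat_lit 284)) (XT.lf (nat_lit 0) (nat_lit 3120015207063) (nat_lit 76) (nat_lit 190540606478) (nat_lit 76) (nat_lit 187552935695) (nat_lit 1) (nat_lit 4) (nat_lit 2) (nat_lit 5) (nat_lit 2) (nat_lit 4) (nat_lit 401) (nat_lit 336) (nat_lit 283))))) (XT.nd (nat_lit 234) (nat_lit 0) (nat_lit 0) (XT.nd (nat_lit 78) (nat_lit 0) (nat_lit 0) (XT.lf (nat_lit 0) (nat_lit 3613729402367) (nat_lit 76) (nat_lit 205128877701) (nat_lit 76) (nat_lit 202140970323) (nat_lit 1) (nat_lit 4) (nat_lit 2) (nat_lit 5) (nat_lit 2) (nat_lit 4)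 (nat_lit 402) (nat_lit 336) (nat_lit 282)) (XT.nd (nat_lit 78) (nat_lit 0) (nat_lit 0) (XT.lf (nat_lit 0) (nat_lit 4181496926906) (nat_lit 76) (nat_lit 221907391384) (nat_lit 76) (nat_lit 218919278272) (nat_lit 1) (nat_lit 4) (nat_lit 2) (nat_lit 5) (nat_lit 2) (nat_lit 4) (nat_lit 403) (nat_lit 336) (nat_lit 281)) (XT.lf (nat_lit 0) (nat_lit 4834426275724) (nat_lit 76) (nat_lit 241204422796) (nat_lit 76) (nat_lit 238216130785) (nat_lit 1) (nat_lit 4) (nat_lit 2) (nat_lit 5) (nat_lit 2) (nat_lit 4) (nat_lit 404) (nat_lit 336) (nat_lit 280)))) (XT.nd (nat_lit 78) (nat_lit 0) (nat_lit 0) (XT.lf (nat_lit 0) (nat_lit 5585292153474) (nat_lit 76) (nat_lit 263397522551) (nat_lit 76) (nat_lit 260409074976) (nat_lit 1) (nat_lit 4) (nat_lit 2) (nat_lit 5) (nat_lit 2) (nat_lit 4) (nat_lit 405) (nat_lit 336) (nat_lit 279)) (XT.nd (nat_lit 78) (nat_lit 0) (nat_lit 0) (XT.lf (nat_lit 0) (nat_lit 6448785414285)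 (nat_lit 76) (nat_lit 288920903471) (nat_lit 76) (nat_lit 285932320622) (nat_lit 1) (nat_lit 4) (nat_lit 2) (nat_lit 5) (nat_lit 2) (nat_lit 4) (nat_lit 406) (nat_lit 336) (nat_lit 278)) (XT.lf (nat_lit 0) (nat_lit 7441800491520) (nat_lit 76) (nat_lit 318273936051) (nat_lit 76) (nat_lit 315285235573) (nat_lit 1) (nat_lit 4) (nat_lit 2) (nat_lit 5) (nat_lit 2) (nat_lit 4) (nat_lit 407) (nat_lit 336) (nat_lit 277)))))) (XT.nd (nat_lit 390) (nat_lit 0) (nat_lit 0) (XT.nd (nat_lit 156) (nat_lit 0) (nat_lit 0) (XT.nd (nat_lit 78) (nat_lit 0) (nat_lit 0) (XT.lf (nat_lit 0) (nat_lit 8583765941038) (nat_lit 76) (nat_lit 352030918756) (nat_lit 76) (nat_lit 349042115991) (nat_lit 1) (nat_lit 4) (nat_lit 2) (nat_lit 5) (nat_lit 2) (nat_lit 4) (nat_lit 408) (nat_lit 336) (nat_lit 276)) (XT.lf (nat_lit 0) (nat_lit 9897024565114) (nat_lit 76) (nat_lit 390852314290) (nat_lit 76) (nat_lit 387863422580)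 (nat_lit 1) (nat_lit 4) (nat_lit 2) (nat_lit 5) (nat_lit 2) (nat_lit 4) (nat_lit 409) (nat_lit 336) (nat_lit 275))) (XT.nd (nat_lit 78) (nat_lit 0) (nat_lit 0) (XT.lf (nat_lit 0) (nat_lit 11407270554216) (nat_lit 76) (nat_lit 435497671696) (nat_lit 76) (nat_lit 432508702644) (nat_lit 1) (nat_lit 4) (nat_lit 2) (nat_lit 5) (nat_lit 2) (nat_lit 4) (nat_lit 410) (nat_lit 336) (nat_lit 274)) (XT.nd (nat_lit 78) (nat_lit 0) (nat_lit 0) (XT.lf (nat_lit 0) (nat_lit 13144052199438) (nat_lit 76) (nat_lit 486840487098) (nat_lit 76) (nat_lit 483851450791) (nat_lit 1) (nat_lit 4) (nat_lit 2) (nat_lit 5) (nat_lit 2) (nat_lit 4) (nat_lit 411) (nat_lit 336) (nat_lit 273)) (XT.lf (nat_lit 0) (nat_lit 15141350011229) (nat_lit 76) (nat_lit 545885293840) (nat_lit 76) (nat_lit 542896199050) (nat_lit 1) (nat_lit 4) (nat_lit 2) (nat_lit 5) (nat_lit 2) (nat_lit 4) (nat_lit 412) (nat_lit 336) (nat_lit 272)))))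 (XT.nd (nat_lit 234) (nat_lit 0) (nat_lit 0) (XT.nd (nat_lit 78) (nat_lit 0) (nat_lit 0) (XT.lf (nat_lit 0) (nat_lit 17438241555471) (nat_lit 76) (nat_lit 613787316402) (nat_lit 76) (nat_lit 610798170758) (nat_lit 1) (nat_lit 4) (nat_lit 2) (nat_lit 5) (nat_lit 2) (nat_lit 4) (nat_lit 413) (nat_lit 336) (nat_lit 271)) (XT.nd (nat_lit 78) (nat_lit 0) (nat_lit 0) (XT.lf (nat_lit 0) (nat_lit 20079666014552) (nat_lit 76) (nat_lit 691875072617) (nat_lit 76) (nat_lit 688885882752) (nat_lit 1) (nat_lit 4) (nat_lit 2) (nat_lit 5) (nat_lit 2) (nat_lit 4) (nat_lit 414) (nat_lit 336) (nat_lit 270)) (XT.lf (nat_lit 0) (nat_lit 23117303432237) (nat_lit 76) (nat_lit 781676366411) (nat_lit 76) (nat_lit 778687138093) (nat_lit 1) (nat_lit 4) (nat_lit 2) (nat_lit 5) (nat_lit 2) (nat_lit 4) (nat_lit 415) (nat_lit 336) (nat_lit 269)))) (XT.nd (nat_lit 78) (nat_lit 0) (nat_lit 0) (XT.lf (nat_lit 0) (nat_lit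 26610585844959) (nat_lit 76) (nat_lit 884948179619) (nat_lit 76) (nat_lit 881958917863) (nat_lit 1) (nat_lit 4) (nat_lit 2) (nat_lit 5) (nat_lit 2) (nat_lit 4) (nat_lit 416) (nat_lit 336) (nat_lit 268)) (XT.nd (nat_lit 78) (nat_lit 0) (nat_lit 0) (XT.lf (nat_lit 0) (nat_lit 30627860082532) (nat_lit 76) (nat_lit 1003711047717) (nat_lit 76) (nat_lit 1000721756885) (nat_lit 1) (nat_lit 4) (nat_lit 2) (nat_lit 5) (nat_lit 2) (nat_lit 4) (nat_lit 417) (nat_lit 336) (nat_lit 267)) (XT.lf (nat_lit 0) (nat_lit 35247724988733) (nat_lit 76) (nat_lit 1140288592036) (nat_lit 76) (nat_lit 1137299275921) (nat_lit 1) (nat_lit 4) (nat_lit 2) (nat_lit 5) (nat_lit 2) (nat_lit 4) (nat_lit 418) (nat_lit 336) (nat_lit 266))))))) (XT.nd (nat_lit 858) (nat_lit 0) (nat_lit 0) (XT.nd (nat_lit 390) (nat_lit 0) (nat_lit 0) (XT.nd (nat_lit 156) (nat_lit 0) (nat_lit 0) (XT.nd (nat_lit 78) (nat_lit 0) (nat_lit 0)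 (XT.lf (nat_lit 0) (nat_lit 40560569224773) (nat_lit 76) (nat_lit 1297352981924) (nat_lit 76) (nat_lit 1294363643822) (nat_lit 1) (nat_lit 4) (nat_lit 2) (nat_lit 5) (nat_lit 2) (nat_lit 4) (nat_lit 419) (nat_lit 336) (nat_lit 265)) (XT.lf (nat_lit 0) (nat_lit 46670339743094) (nat_lit 76) (nat_lit 1477977216311) (nat_lit 76) (nat_lit 1474987859091) (nat_lit 1) (nat_lit 4) (nat_lit 2) (nat_lit 5) (nat_lit 2) (nat_lit 4) (nat_lit 420) (nat_lit 336) (nat_lit 264))) (XT.nd (nat_lit 78) (nat_lit 0) (nat_lit 0) (XT.lf (nat_lit 0) (nat_lit 53696575532099) (nat_lit 76) (nat_lit 1685695247610) (nat_lit 76) (nat_lit 1682705873766) (nat_lit 1) (nat_lit 4) (nat_lit 2) (nat_lit 5) (nat_lit 2) (nat_lit 4) (nat_lit 421) (nat_lit 336) (nat_lit 263)) (XT.nd (nat_lit 78) (nat_lit 0) (nat_lit 0) (XT.lf (nat_lit 0) (nat_lit 61776746422443) (nat_lit 76) (nat_lit 1924571124259) (nat_lit 76) (nat_lit 1921581735959)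 (nat_lit 1) (nat_lit 4) (nat_lit 2) (nat_lit 5) (nat_lit 2) (nat_lit 4) (nat_lit 422) (nat_lit 336) (nat_lit 262)) (XT.lf (nat_lit 0) (nat_lit 71068942714153) (nat_lit 76) (nat_lit 2199278504715) (nat_lit 76) (nat_lit 2196289103845) (nat_lit 1) (nat_lit 4) (nat_lit 2) (nat_lit 5) (nat_lit 2) (nat_lit 4) (nat_lit 423) (nat_lit 336) (nat_lit 261))))) (XT.nd (nat_lit 234) (nat_lit 0) (nat_lit 0) (XT.nd (nat_lit 78) (nat_lit 0) (nat_lit 0) (XT.lf (nat_lit 0) (nat_lit 81754968247720) (nat_lit 76) (nat_lit 2515192098595) (nat_lit 76) (nat_lit 2512202686794) (nat_lit 1) (nat_lit 4) (nat_lit 2) (nat_lit 5) (nat_lit 2) (nat_lit 4) (nat_lit 424) (nat_lit 336) (nat_lit 260)) (XT.nd (nat_lit 78) (nat_lit 0) (nat_lit 0) (XT.lf (nat_lit 0) (nat_lit 94043897435757) (nat_lit 76) (nat_lit 2878492824041) (nat_lit 76) (nat_lit 2875503402735) (nat_lit 1) (nat_lit 4) (nat_lit 2) (nat_lit 5) (nat_lit 2) (nat_lit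 4) (nat_lit 425) (nat_lit 336) (nat_lit 259)) (XT.lf (nat_lit 0) (nat_lit 108176165849334) (nat_lit 76) (nat_lit 3296288738723) (nat_lit 76) (nat_lit 3293299309152) (nat_lit 1) (nat_lit 4) (nat_lit 2) (nat_lit 5) (nat_lit 2) (nat_lit 4) (nat_lit 426) (nat_lit 336) (nat_lit 258)))) (XT.nd (nat_lit 78) (nat_lit 0) (nat_lit 0) (XT.lf (nat_lit 0) (nat_lit 124428274392195) (nat_lit 76) (nat_lit 3776754110539) (nat_lit 76) (nat_lit 3773764673781) (nat_lit 1) (nat_lit 4) (nat_lit 2) (nat_lit 5) (nat_lit 2) (nat_lit 4) (nat_lit 427) (nat_lit 336) (nat_lit 257)) (XT.nd (nat_lit 78) (nat_lit 0) (nat_lit 0) (XT.lf (nat_lit 0) (nat_lit 143118199101049) (nat_lit 76) (nat_lit 4329289348936) (nat_lit 76) (nat_lit 4326299905928) (nat_lit 1) (nat_lit 4) (nat_lit 2) (nat_lit 5) (nat_lit 2) (nat_lit 4) (nat_lit 428) (nat_lit 336) (nat_lit 256)) (XT.lf (nat_lit 0) (nat_lit 164611612415851) (nat_lit 76) (nat_lit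 4964704925971) (nat_lit 76) (nat_lit 4961715477528) (nat_lit 1) (nat_lit 4) (nat_lit 2) (nat_lit 5) (nat_lit 2) (nat_lit 4) (nat_lit 429) (nat_lit 336) (nat_lit 255)))))) (XT.nd (nat_lit 46644) (nat_lit 0) (nat_lit 1444) (XT.nd (nat_lit 234) (nat_lit 0) (nat_lit 0) (XT.nd (nat_lit 78) (nat_lit 0) (nat_lit 0) (XT.lf (nat_lit 0) (nat_lit 189329037640586) (nat_lit 76) (nat_lit 5695432885541) (nat_lit 76) (nat_lit 5692443432373) (nat_lit 1) (nat_lit 4) (nat_lit 2) (nat_lit 5) (nat_lit 2) (nat_lit 4) (nat_lit 430) (nat_lit 336) (nat_lit 254)) (XT.nd (nat_lit 78) (nat_lit 0) (nat_lit 0) (XT.lf (nat_lit 0) (nat_lit 217754076573130) (nat_lit 76) (nat_lit 6535770079030) (nat_lit 76) (nat_lit 6532780621753) (nat_lit 1) (nat_lit 4) (nat_lit 2) (nat_lit 5) (nat_lit 2) (nat_lit 4) (nat_lit 431) (nat_lit 336) (nat_lit 253)) (XT.lf (nat_lit 0) (nat_lit 250442871279554) (nat_lit 76) (nat_lit 7502157886310)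 (nat_lit 76) (nat_lit 7499168425459) (nat_lit 1) (nat_lit 4) (nat_lit 2) (nat_lit 5) (nat_lit 2) (nat_lit 4) (nat_lit 432) (nat_lit 336) (nat_lit 252)))) (XT.nd (nat_lit 78) (nat_lit 0) (nat_lit 0) (XT.lf (nat_lit 0) (nat_lit 288034985134550) (nat_lit 76) (nat_lit 8613503894915) (nat_lit 76) (nat_lit 8610514430957) (nat_lit 1) (nat_lit 4) (nat_lit 2) (nat_lit 5) (nat_lit 2) (nat_lit 4) (nat_lit 433) (nat_lit 336) (nat_lit 251)) (XT.nd (nat_lit 46254) (nat_lit 0) (nat_lit 2432) (XT.lf (nat_lit 0) (nat_lit 331265916017887) (nat_lit 76) (nat_lit 9891551831101) (nat_lit 76) (nat_lit 9888562364441) (nat_lit 1) (nat_lit 4) (nat_lit 2) (nat_lit 5) (nat_lit 2) (nat_lit 4) (nat_lit 434) (nat_lit 336) (nat_lit 250)) (XT.lf (nat_lit 0) (nat_lit 2984820253) (nat_lit 228) (nat_lit 333141417) (nat_lit 228) (nat_lit 333141417) (nat_lit 33) (nat_lit 4) (nat_lit 36) (nat_lit 5) (nat_lit 36) (nat_lit 4)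 (nat_lit 346) (nat_lit 337) (nat_lit 337))))) (XT.nd (nat_lit 234) (nat_lit 304) (nat_lit 0) (XT.nd (nat_lit 78) (nat_lit 304) (nat_lit 0) (XT.lf (nat_lit 0) (nat_lit 2901476131) (nat_lit 380) (nat_lit 3187638461) (nat_lit 0) (nat_lit 1529740836) (nat_lit 28) (nat_lit 5) (nat_lit 33) (nat_lit 4) (nat_lit 28) (nat_lit 4) (nat_lit 347) (nat_lit 337) (nat_lit 336)) (XT.nd (nat_lit 78) (nat_lit 152) (nat_lit 0) (XT.lf (nat_lit 0) (nat_lit 2842121659) (nat_lit 152) (nat_lit 3867611647) (nat_lit 152) (nat_lit 1303063053) (nat_lit 26) (nat_lit 4) (nat_lit 28) (nat_lit 5) (nat_lit 28) (nat_lit 4) (nat_lit 348) (nat_lit 337) (nat_lit 335)) (XT.lf (nat_lit 0) (nat_lit 1075657097) (nat_lit 76) (nat_lit 1099893900) (nat_lit 152) (nat_lit 6306570430) (nat_lit 24) (nat_lit 5) (nat_lit 25) (nat_lit 5) (nat_lit 26) (nat_lit 4) (nat_lit 349) (nat_lit 337) (nat_lit 334)))) (XT.nd (nat_lit 78) (nat_lit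 304) (nat_lit 0) (XT.lf (nat_lit 0) (nat_lit 6004453666) (nat_lit 152) (nat_lit 926004293) (nat_lit 0) (nat_lit 2088179082) (nat_lit 24) (nat_lit 5) (nat_lit 26) (nat_lit 4) (nat_lit 24) (nat_lit 4) (nat_lit 350) (nat_lit 337) (nat_lit 333)) (XT.nd (nat_lit 78) (nat_lit 76) (nat_lit 0) (XT.lf (nat_lit 0) (nat_lit 669140203) (nat_lit 228) (nat_lit 3159618022) (nat_lit 76) (nat_lit 5807495699) (nat_lit 21) (nat_lit 5) (nat_lit 24) (nat_lit 5) (nat_lit 22) (nat_lit 4) (nat_lit 351) (nat_lit 337) (nat_lit 332)) (XT.lf (nat_lit 0) (nat_lit 4453518492) (nat_lit 76) (nat_lit 32447541) (nat_lit 152) (nat_lit 5855830883) (nat_lit 20) (nat_lit 5) (nat_lit 21) (nat_lit 5) (nat_lit 22) (nat_lit 4) (nat_lit 352) (nat_lit 337) (nat_lit 331))))))))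
noncomputable def xc41 : XT := (XT.nd (nat_lit 1794) (nat_lit 76) (nat_lit 0) (XT.nd (nat_lit 858) (nat_lit 608) (nat_lit 0) (XT.nd (nat_lit 390) (nat_lit 380) (nat_lit 0) (XT.nd (nat_lit 156) (nat_lit 228) (nat_lit 0) (XT.nd (nat_lit 78) (nat_lit 76) (nat_lit 0) (XT.lf (nat_lit 0) (nat_lit 1845702701) (nat_lit 76) (nat_lit 7127783642) (nat_lit 76) (nat_lit 2165179653) (nat_lit 19) (nat_lit 4) (nat_lit 20) (nat_lit 5) (nat_lit 20) (nat_lit 4) (nat_lit 353) (nat_lit 337) (nat_lit 330)) (XT.lf (nat_lit 0) (nat_lit 1893063455) (nat_lit 152) (nat_lit 1282450342) (nat_lit 76) (nat_lit 8866941592) (nat_lit 18) (nat_lit 5) (nat_lit 20) (nat_lit 5) (nat_lit 19) (nat_lit 4) (nat_lit 354) (nat_lit 337) (nat_lit 329))) (XT.nd (nat_lit 78) (nat_lit 152) (nat_lit 0) (XT.lf (nat_lit 0) (nat_lit 6457507842) (nat_lit 152) (nat_lit 5082831055) (nat_lit 0) (nat_lit 1508282835) (nat_lit 17) (nat_lit 5)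 (nat_lit 19) (nat_lit 4) (nat_lit 17) (nat_lit 4) (nat_lit 355) (nat_lit 337) (nat_lit 328)) (XT.nd (nat_lit 78) (nat_lit 76) (nat_lit 0) (XT.lf (nat_lit 0) (nat_lit 4268677169) (nat_lit 76) (nat_lit 7562076824) (nat_lit 76) (nat_lit 2356464682) (nat_lit 16) (nat_lit 4) (nat_lit 17) (nat_lit 5) (nat_lit 17) (nat_lit 4) (nat_lit 356) (nat_lit 337) (nat_lit 327)) (XT.lf (nat_lit 0) (nat_lit 2297221546) (nat_lit 152) (nat_lit 489531150) (nat_lit 76) (nat_lit 12693196866) (nat_lit 15) (nat_lit 5) (nat_lit 17) (nat_lit 5) (nat_lit 16) (nat_lit 4) (nat_lit 357) (nat_lit 337) (nat_lit 326))))) (XT.nd (nat_lit 234) (nat_lit 152) (nat_lit 0) (XT.nd (nat_lit 78) (nat_lit 152) (nat_lit 0) (XT.lf (nat_lit 0) (nat_lit 7747564947) (nat_lit 152) (nat_lit 6292795353) (nat_lit 0) (nat_lit 2858501482) (nat_lit 14) (nat_lit 5) (nat_lit 16) (nat_lit 4) (nat_lit 14) (nat_lit 4) (nat_lit 358) (nat_lit 337)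 (nat_lit 325)) (XT.nd (nat_lit 78) (nat_lit 76) (nat_lit 0) (XT.lf (nat_lit 0) (nat_lit 4733132922) (nat_lit 76) (nat_lit 9407233762) (nat_lit 76) (nat_lit 4371580121) (nat_lit 13) (nat_lit 4) (nat_lit 14) (nat_lit 5) (nat_lit 14) (nat_lit 4) (nat_lit 359) (nat_lit 337) (nat_lit 324)) (XT.lf (nat_lit 0) (nat_lit 1140841181) (nat_lit 152) (nat_lit 2710314820) (nat_lit 76) (nat_lit 16491518245) (nat_lit 12) (nat_lit 5) (nat_lit 14) (nat_lit 5) (nat_lit 13) (nat_lit 4) (nat_lit 360) (nat_lit 337) (nat_lit 323)))) (XT.nd (nat_lit 78) (nat_lit 76) (nat_lit 0) (XT.lf (nat_lit 0) (nat_lit 7389223316) (nat_lit 152) (nat_lit 12170944215) (nat_lit 0) (nat_lit 2803165408) (nat_lit 11) (nat_lit 5) (nat_lit 13) (nat_lit 4) (nat_lit 11) (nat_lit 4) (nat_lit 361) (nat_lit 337) (nat_lit 322)) (XT.nd (nat_lit 78) (nat_lit 0) (nat_lit 0) (XT.lf (nat_lit 0) (nat_lit 92763476) (nat_lit 76) (nat_lit 14621653179)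 (nat_lit 76) (nat_lit 9951781862) (nat_lit 10) (nat_lit 4) (nat_lit 11) (nat_lit 5) (nat_lit 11) (nat_lit 4) (nat_lit 362) (nat_lit 337) (nat_lit 321)) (XT.lf (nat_lit 0) (nat_lit 15187191557) (nat_lit 76) (nat_lit 8401288523) (nat_lit 76) (nat_lit 3658535981) (nat_lit 10) (nat_lit 4) (nat_lit 11) (nat_lit 5) (nat_lit 11) (nat_lit 4) (nat_lit 363) (nat_lit 337) (nat_lit 320)))))) (XT.nd (nat_lit 468) (nat_lit 228) (nat_lit 0) (XT.nd (nat_lit 234) (nat_lit 152) (nat_lit 0) (XT.nd (nat_lit 78) (nat_lit 76) (nat_lit 0) (XT.lf (nat_lit 0) (nat_lit 2018161578) (nat_lit 76) (nat_lit 1155926374) (nat_lit 152) (nat_lit 27031568695) (nat_lit 8) (nat_lit 5) (nat_lit 9) (nat_lit 5) (nat_lit 10) (nat_lit 4) (nat_lit 364) (nat_lit 337) (nat_lit 319)) (XT.nd (nat_lit 78) (nat_lit 76) (nat_lit 0) (XT.lf (nat_lit 0) (nat_lit 11446618813) (nat_lit 152) (nat_lit 14797472079) (nat_lit 0) (nat_lit 7219456902)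 (nat_lit 8) (nat_lit 5) (nat_lit 10) (nat_lit 4) (nat_lit 8) (nat_lit 4) (nat_lit 365) (nat_lit 337) (nat_lit 318)) (XT.lf (nat_lit 0) (nat_lit 269330233) (nat_lit 76) (nat_lit 20610813811) (nat_lit 76) (nat_lit 16341981824) (nat_lit 7) (nat_lit 4) (nat_lit 8) (nat_lit 5) (nat_lit 8) (nat_lit 4) (nat_lit 366) (nat_lit 337) (nat_lit 317)))) (XT.nd (nat_lit 78) (nat_lit 152) (nat_lit 0) (XT.lf (nat_lit 0) (nat_lit 18972195575) (nat_lit 76) (nat_lit 13391095387) (nat_lit 76) (nat_lit 9086028550) (nat_lit 7) (nat_lit 4) (nat_lit 8) (nat_lit 5) (nat_lit 8) (nat_lit 4) (nat_lit 367) (nat_lit 337) (nat_lit 316)) (XT.nd (nat_lit 78) (nat_lit 152) (nat_lit 0) (XT.lf (nat_lit 0) (nat_lit 40230932984) (nat_lit 76) (nat_lit 5217184482) (nat_lit 76) (nat_lit 880609080) (nat_lit 7) (nat_lit 4) (nat_lit 8) (nat_lit 5) (nat_lit 8) (nat_lit 4) (nat_lit 368) (nat_lit 337) (nat_lit 315)) (XT.lf (nat_lit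 0) (nat_lit 8447964216) (nat_lit 152) (nat_lit 38687644273) (nat_lit 0) (nat_lit 4653204081) (nat_lit 5) (nat_lit 5) (nat_lit 7) (nat_lit 4) (nat_lit 5) (nat_lit 4) (nat_lit 369) (nat_lit 337) (nat_lit 314))))) (XT.nd (nat_lit 234) (nat_lit 152) (nat_lit 0) (XT.nd (nat_lit 78) (nat_lit 76) (nat_lit 0) (XT.lf (nat_lit 0) (nat_lit 19558663170) (nat_lit 152) (nat_lit 22688833205) (nat_lit 0) (nat_lit 15743185642) (nat_lit 5) (nat_lit 5) (nat_lit 7) (nat_lit 4) (nat_lit 5) (nat_lit 4) (nat_lit 370) (nat_lit 337) (nat_lit 313)) (XT.nd (nat_lit 78) (nat_lit 76) (nat_lit 0) (XT.lf (nat_lit 0) (nat_lit 32240865325) (nat_lit 152) (nat_lit 4488867977) (nat_lit 0) (nat_lit 28407372674) (nat_lit 5) (nat_lit 5) (nat_lit 7) (nat_lit 4) (nat_lit 5) (nat_lit 4) (nat_lit 371) (nat_lit 337) (nat_lit 312)) (XT.lf (nat_lit 0) (nat_lit 17858197963) (nat_lit 76) (nat_lit 29623972657) (nat_lit 76) (nat_lit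 25774814680) (nat_lit 4) (nat_lit 4) (nat_lit 5) (nat_lit 5) (nat_lit 5) (nat_lit 4) (nat_lit 372) (nat_lit 337) (nat_lit 311)))) (XT.nd (nat_lit 78) (nat_lit 152) (nat_lit 0) (XT.lf (nat_lit 0) (nat_lit 43896909467) (nat_lit 76) (nat_lit 21268668875) (nat_lit 76) (nat_lit 17405888876) (nat_lit 4) (nat_lit 4) (nat_lit 5) (nat_lit 5) (nat_lit 5) (nat_lit 4) (nat_lit 373) (nat_lit 337) (nat_lit 310)) (XT.nd (nat_lit 78) (nat_lit 152) (nat_lit 0) (XT.lf (nat_lit 0) (nat_lit 73698034761) (nat_lit 76) (nat_lit 11734993992) (nat_lit 76) (nat_lit 7860368757) (nat_lit 4) (nat_lit 4) (nat_lit 5) (nat_lit 5) (nat_lit 5) (nat_lit 4) (nat_lit 374) (nat_lit 337) (nat_lit 309)) (XT.lf (nat_lit 0) (nat_lit 2289698973) (nat_lit 76) (nat_lit 582219359) (nat_lit 152) (nat_lit 102727478192) (nat_lit 2) (nat_lit 5) (nat_lit 3) (nat_lit 5) (nat_lit 4) (nat_lit 4) (nat_lit 375) (nat_lit 337) (nat_lit 308)))))))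 (XT.nd (nat_lit 858) (nat_lit 0) (nat_lit 0) (XT.nd (nat_lit 390) (nat_lit 76) (nat_lit 0) (XT.nd (nat_lit 156) (nat_lit 0) (nat_lit 0) (XT.nd (nat_lit 78) (nat_lit 0) (nat_lit 0) (XT.lf (nat_lit 0) (nat_lit 15927231496) (nat_lit 152) (nat_lit 90998984945) (nat_lit 0) (nat_lit 12541247024) (nat_lit 2) (nat_lit 5) (nat_lit 4) (nat_lit 4) (nat_lit 2) (nat_lit 4) (nat_lit 376) (nat_lit 337) (nat_lit 307)) (XT.lf (nat_lit 0) (nat_lit 30914548642) (nat_lit 152) (nat_lit 76983347464) (nat_lit 0) (nat_lit 27521791618) (nat_lit 2) (nat_lit 5) (nat_lit 4) (nat_lit 4) (nat_lit 2) (nat_lit 4) (nat_lit 377) (nat_lit 337) (nat_lit 306))) (XT.nd (nat_lit 78) (nat_lit 0) (nat_lit 0) (XT.lf (nat_lit 0) (nat_lit 48102991425) (nat_lit 152) (nat_lit 60964457652) (nat_lit 0) (nat_lit 44704345225) (nat_lit 2) (nat_lit 5) (nat_lit 4) (nat_lit 4) (nat_lit 2) (nat_lit 4) (nat_lit 378) (nat_lit 337) (nat_lit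 305)) (XT.nd (nat_lit 78) (nat_lit 0) (nat_lit 0) (XT.lf (nat_lit 0) (nat_lit 67828855466) (nat_lit 152) (nat_lit 42628902448) (nat_lit 0) (nat_lit 64425088243) (nat_lit 2) (nat_lit 5) (nat_lit 4) (nat_lit 4) (nat_lit 2) (nat_lit 4) (nat_lit 379) (nat_lit 337) (nat_lit 304)) (XT.lf (nat_lit 0) (nat_lit 90478081583) (nat_lit 152) (nat_lit 21617942728) (nat_lit 0) (nat_lit 87069861297) (nat_lit 2) (nat_lit 5) (nat_lit 4) (nat_lit 4) (nat_lit 2) (nat_lit 4) (nat_lit 380) (nat_lit 337) (nat_lit 303))))) (XT.nd (nat_lit 234) (nat_lit 0) (nat_lit 0) (XT.nd (nat_lit 78) (nat_lit 0) (nat_lit 0) (XT.lf (nat_lit 0) (nat_lit 2721820813) (nat_lit 76) (nat_lit 113884690790) (nat_lit 76) (nat_lit 110472598276) (nat_lit 1) (nat_lit 4) (nat_lit 2) (nat_lit 5) (nat_lit 2) (nat_lit 4) (nat_lit 381) (nat_lit 337) (nat_lit 302)) (XT.nd (nat_lit 78) (nat_lit 0) (nat_lit 0) (XT.lf (nat_lit 0) (nat_lit 33079917021)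 (nat_lit 76) (nat_lit 114674886260) (nat_lit 76) (nat_lit 111259426589) (nat_lit 1) (nat_lit 4) (nat_lit 2) (nat_lit 5) (nat_lit 2) (nat_lit 4) (nat_lit 382) (nat_lit 337) (nat_lit 301)) (XT.lf (nat_lit 0) (nat_lit 67937646065) (nat_lit 76) (nat_lit 115612099890) (nat_lit 76) (nat_lit 112193712258) (nat_lit 1) (nat_lit 4) (nat_lit 2) (nat_lit 5) (nat_lit 2) (nat_lit 4) (nat_lit 383) (nat_lit 337) (nat_lit 300)))) (XT.nd (nat_lit 78) (nat_lit 0) (nat_lit 0) (XT.lf (nat_lit 0) (nat_lit 107977006990) (nat_lit 76) (nat_lit 116714668469) (nat_lit 76) (nat_lit 113293734784) (nat_lit 1) (nat_lit 4) (nat_lit 2) (nat_lit 5) (nat_lit 2) (nat_lit 4) (nat_lit 384) (nat_lit 337) (nat_lit 299)) (XT.nd (nat_lit 78) (nat_lit 0) (nat_lit 0) (XT.lf (nat_lit 0) (nat_lit 153981378596) (nat_lit 76) (nat_lit 118004163991) (nat_lit 76) (nat_lit 114581016347) (nat_lit 1) (nat_lit 4) (nat_lit 2) (nat_lit 5) (nat_lit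 2) (nat_lit 4) (nat_lit 385) (nat_lit 337) (nat_lit 298)) (XT.lf (nat_lit 0) (nat_lit 206850846416) (nat_lit 76) (nat_lit 119505815717) (nat_lit 76) (nat_lit 116080742891) (nat_lit 1) (nat_lit 4) (nat_lit 2) (nat_lit 5) (nat_lit 2) (nat_lit 4) (nat_lit 386) (nat_lit 337) (nat_lit 297)))))) (XT.nd (nat_lit 468) (nat_lit 0) (nat_lit 0) (XT.nd (nat_lit 234) (nat_lit 0) (nat_lit 0) (XT.nd (nat_lit 78) (nat_lit 0) (nat_lit 0) (XT.lf (nat_lit 0) (nat_lit 267619813080) (nat_lit 76) (nat_lit 121249003788) (nat_lit 76) (nat_lit 117822256891) (nat_lit 1) (nat_lit 4) (nat_lit 2) (nat_lit 5) (nat_lit 2) (nat_lit 4) (nat_lit 387) (nat_lit 337) (nat_lit 296)) (XT.nd (nat_lit 78) (nat_lit 0) (nat_lit 0) (XT.lf (nat_lit 0) (nat_lit 337477236632) (nat_lit 76) (nat_lit 123267834059) (nat_lit 76) (nat_lit 119839631447) (nat_lit 1) (nat_lit 4) (nat_lit 2) (nat_lit 5) (nat_lit 2) (nat_lit 4) (nat_lit 388)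 (nat_lit 337) (nat_lit 295)) (XT.lf (nat_lit 0) (nat_lit 417789892750) (nat_lit 76) (nat_lit 125601805382) (nat_lit 76) (nat_lit 122172336932) (nat_lit 1) (nat_lit 4) (nat_lit 2) (nat_lit 5) (nat_lit 2) (nat_lit 4) (nat_lit 389) (nat_lit 337) (nat_lit 294)))) (XT.nd (nat_lit 78) (nat_lit 0) (nat_lit 0) (XT.lf (nat_lit 0) (nat_lit 510129116010) (nat_lit 76) (nat_lit 128296582414) (nat_lit 76) (nat_lit 124866013235) (nat_lit 1) (nat_lit 4) (nat_lit 2) (nat_lit 5) (nat_lit 2) (nat_lit 4) (nat_lit 390) (nat_lit 337) (nat_lit 293)) (XT.nd (nat_lit 78) (nat_lit 0) (nat_lit 0) (XT.lf (nat_lit 0) (nat_lit 616301543390) (nat_lit 76) (nat_lit 131404889054) (nat_lit 76) (nat_lit 127973362718) (nat_lit 1) (nat_lit 4) (nat_lit 2) (nat_lit 5) (nat_lit 2) (nat_lit 4) (nat_lit 391) (nat_lit 337) (nat_lit 292)) (XT.lf (nat_lit 0) (nat_lit 738384461512) (nat_lit 76) (nat_lit 134987539995) (nat_lit 76)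 (nat_lit 131555181351) (nat_lit 1) (nat_lit 4) (nat_lit 2) (nat_lit 5) (nat_lit 2) (nat_lit 4) (nat_lit 392) (nat_lit 337) (nat_lit 291))))) (XT.nd (nat_lit 234) (nat_lit 0) (nat_lit 0) (XT.nd (nat_lit 78) (nat_lit 0) (nat_lit 0) (XT.lf (nat_lit 0) (nat_lit 878766449208) (nat_lit 76) (nat_lit 139114630584) (nat_lit 76) (nat_lit 135681548192) (nat_lit 1) (nat_lit 4) (nat_lit 2) (nat_lit 5) (nat_lit 2) (nat_lit 4) (nat_lit 393) (nat_lit 337) (nat_lit 290)) (XT.nd (nat_lit 78) (nat_lit 0) (nat_lit 0) (XT.lf (nat_lit 0) (nat_lit 1040194110586) (nat_lit 76) (nat_lit 143866908244) (nat_lit 76) (nat_lit 140433196506) (nat_lit 1) (nat_lit 4) (nat_lit 2) (nat_lit 5) (nat_lit 2) (nat_lit 4) (nat_lit 394) (nat_lit 337) (nat_lit 289)) (XT.lf (nat_lit 0) (nat_lit 1225825812933) (nat_lit 76) (nat_lit 149337352320) (nat_lit 76) (nat_lit 145903093326) (nat_lit 1) (nat_lit 4) (nat_lit 2) (nat_lit 5) (nat_lit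 2) (nat_lit 4) (nat_lit 395) (nat_lit 337) (nat_lit 288)))) (XT.nd (nat_lit 78) (nat_lit 0) (nat_lit 0) (XT.lf (nat_lit 0) (nat_lit 1439293480861) (nat_lit 76) (nat_lit 155632993242) (nat_lit 76) (nat_lit 152198258372) (nat_lit 1) (nat_lit 4) (nat_lit 2) (nat_lit 5) (nat_lit 2) (nat_lit 4) (nat_lit 396) (nat_lit 337) (nat_lit 287)) (XT.nd (nat_lit 78) (nat_lit 0) (nat_lit 0) (XT.lf (nat_lit 0) (nat_lit 1684773655699) (nat_lit 76) (nat_lit 162877006591) (nat_lit 76) (nat_lit 159441857916) (nat_lit 1) (nat_lit 4) (nat_lit 2) (nat_lit 5) (nat_lit 2) (nat_lit 4) (nat_lit 397) (nat_lit 337) (nat_lit 286)) (XT.lf (nat_lit 0) (nat_lit 1967069210432) (nat_lit 76) (nat_lit 171211123064) (nat_lit 76) (nat_lit 167775614558) (nat_lit 1) (nat_lit 4) (nat_lit 2) (nat_lit 5) (nat_lit 2) (nat_lit 4) (nat_lit 398) (nat_lit 337) (nat_lit 285))))))))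
noncomputable def xc42 : XT := (XT.nd (nat_lit 1794) (nat_lit 0) (nat_lit 0) (XT.nd (nat_lit 858) (nat_lit 0) (nat_lit 0) (XT.nd (nat_lit 390) (nat_lit 0) (nat_lit 0) (XT.nd (nat_lit 156) (nat_lit 0) (nat_lit 0) (XT.nd (nat_lit 78) (nat_lit 0) (nat_lit 0) (XT.lf (nat_lit 0) (nat_lit 2291703318959) (nat_lit 76) (nat_lit 180798401461) (nat_lit 76) (nat_lit 177362580060) (nat_lit 1) (nat_lit 4) (nat_lit 2) (nat_lit 5) (nat_lit 2) (nat_lit 4) (nat_lit 399) (nat_lit 337) (nat_lit 284)) (XT.lf (nat_lit 0) (nat_lit 2665027518183) (nat_lit 76) (nat_lit 191826418968) (nat_lit 76) (nat_lit 188390325484) (nat_lit 1) (nat_lit 4) (nat_lit 2) (nat_lit 5) (nat_lit 2) (nat_lit 4) (nat_lit 400) (nat_lit 337) (nat_lit 283))) (XT.nd (nat_lit 78) (nat_lit 0) (nat_lit 0) (XT.lf (nat_lit 0) (nat_lit 3094345977222) (nat_lit 76) (nat_lit 204510941146) (nat_lit 76) (nat_lit 201074611067) (nat_lit 1) (nat_lit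 4) (nat_lit 2) (nat_lit 5) (nat_lit 2) (nat_lit 4) (nat_lit 401) (nat_lit 337) (nat_lit 282)) (XT.nd (nat_lit 78) (nat_lit 0) (nat_lit 0) (XT.lf (nat_lit 0) (nat_lit 3588058405056) (nat_lit 76) (nat_lit 219100143427) (nat_lit 76) (nat_lit 215663607615) (nat_lit 1) (nat_lit 4) (nat_lit 2) (nat_lit 5) (nat_lit 2) (nat_lit 4) (nat_lit 402) (nat_lit 337) (nat_lit 281)) (XT.lf (nat_lit 0) (nat_lit 4155824392664) (nat_lit 76) (nat_lit 235879466728) (nat_lit 76) (nat_lit 232442752015) (nat_lit 1) (nat_lit 4) (nat_lit 2) (nat_lit 5) (nat_lit 2) (nat_lit 4) (nat_lit 403) (nat_lit 337) (nat_lit 280))))) (XT.nd (nat_lit 234) (nat_lit 0) (nat_lit 0) (XT.nd (nat_lit 78) (nat_lit 0) (nat_lit 0) (XT.lf (nat_lit 0) (nat_lit 4808752405021) (nat_lit 76) (nat_lit 255177202154) (nat_lit 76) (nat_lit 251740331877) (nat_lit 1) (nat_lit 4) (nat_lit 2) (nat_lit 5) (nat_lit 2) (nat_lit 4) (nat_lit 404) (nat_lit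 337) (nat_lit 279)) (XT.nd (nat_lit 78) (nat_lit 0) (nat_lit 0) (XT.lf (nat_lit 0) (nat_lit 5559617120631) (nat_lit 76) (nat_lit 277370914096) (nat_lit 76) (nat_lit 273933908546) (nat_lit 1) (nat_lit 4) (nat_lit 2) (nat_lit 5) (nat_lit 2) (nat_lit 4) (nat_lit 405) (nat_lit 337) (nat_lit 278)) (XT.lf (nat_lit 0) (nat_lit 6423109370885) (nat_lit 76) (nat_lit 302894827352) (nat_lit 76) (nat_lit 299457704172) (nat_lit 1) (nat_lit 4) (nat_lit 2) (nat_lit 5) (nat_lit 2) (nat_lit 4) (nat_lit 406) (nat_lit 337) (nat_lit 277)))) (XT.nd (nat_lit 78) (nat_lit 0) (nat_lit 0) (XT.lf (nat_lit 0) (nat_lit 7416123569375) (nat_lit 76) (nat_lit 332248322833) (nat_lit 76) (nat_lit 328811097367) (nat_lit 1) (nat_lit 4) (nat_lit 2) (nat_lit 5) (nat_lit 2) (nat_lit 4) (nat_lit 407) (nat_lit 337) (nat_lit 276)) (XT.nd (nat_lit 78) (nat_lit 0) (nat_lit 0) (XT.lf (nat_lit 0) (nat_lit 8558088254767) (nat_lit 76)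 (nat_lit 366005708060) (nat_lit 76) (nat_lit 362568393650) (nat_lit 1) (nat_lit 4) (nat_lit 2) (nat_lit 5) (nat_lit 2) (nat_lit 4) (nat_lit 408) (nat_lit 337) (nat_lit 275)) (XT.lf (nat_lit 0) (nat_lit 9871346214385) (nat_lit 76) (nat_lit 404827453614) (nat_lit 76) (nat_lit 401390061860) (nat_lit 1) (nat_lit 4) (nat_lit 2) (nat_lit 5) (nat_lit 2) (nat_lit 4) (nat_lit 409) (nat_lit 337) (nat_lit 274)))))) (XT.nd (nat_lit 468) (nat_lit 0) (nat_lit 0) (XT.nd (nat_lit 234) (nat_lit 0) (nat_lit 0) (XT.nd (nat_lit 78) (nat_lit 0) (nat_lit 0) (XT.lf (nat_lit 0) (nat_lit 11381591625699) (nat_lit 76) (nat_lit 449473115385) (nat_lit 76) (nat_lit 446035656377) (nat_lit 1) (nat_lit 4) (nat_lit 2) (nat_lit 5) (nat_lit 2) (nat_lit 4) (nat_lit 410) (nat_lit 337) (nat_lit 273)) (XT.nd (nat_lit 78) (nat_lit 0) (nat_lit 0) (XT.lf (nat_lit 0) (nat_lit 13118372768495) (nat_lit 76) (nat_lit 500816195452)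 (nat_lit 76) (nat_lit 497378677961) (nat_lit 1) (nat_lit 4) (nat_lit 2) (nat_lit 5) (nat_lit 2) (nat_lit 4) (nat_lit 411) (nat_lit 337) (nat_lit 272)) (XT.lf (nat_lit 0) (nat_lit 15115670143394) (nat_lit 76) (nat_lit 559861232338) (nat_lit 76) (nat_lit 556423663993) (nat_lit 1) (nat_lit 4) (nat_lit 2) (nat_lit 5) (nat_lit 2) (nat_lit 4) (nat_lit 412) (nat_lit 337) (nat_lit 271)))) (XT.nd (nat_lit 78) (nat_lit 0) (nat_lit 0) (XT.lf (nat_lit 0) (nat_lit 17412561307731) (nat_lit 76) (nat_lit 627763455025) (nat_lit 76) (nat_lit 624325842459) (nat_lit 1) (nat_lit 4) (nat_lit 2) (nat_lit 5) (nat_lit 2) (nat_lit 4) (nat_lit 413) (nat_lit 337) (nat_lit 270)) (XT.nd (nat_lit 78) (nat_lit 0) (nat_lit 0) (XT.lf (nat_lit 0) (nat_lit 20053985436459) (nat_lit 76) (nat_lit 705851385262) (nat_lit 76) (nat_lit 702413734242) (nat_lit 1) (nat_lit 4) (nat_lit 2) (nat_lit 5) (nat_lit 2) (nat_lit 4) (nat_lit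 414) (nat_lit 337) (nat_lit 269)) (XT.lf (nat_lit 0) (nat_lit 23091622566881) (nat_lit 76) (nat_lit 795652830379) (nat_lit 76) (nat_lit 792215145922) (nat_lit 1) (nat_lit 4) (nat_lit 2) (nat_lit 5) (nat_lit 2) (nat_lit 4) (nat_lit 415) (nat_lit 337) (nat_lit 268))))) (XT.nd (nat_lit 234) (nat_lit 0) (nat_lit 0) (XT.nd (nat_lit 78) (nat_lit 0) (nat_lit 0) (XT.lf (nat_lit 0) (nat_lit 26584904729808) (nat_lit 76) (nat_lit 898924775172) (nat_lit 76) (nat_lit 895487061639) (nat_lit 1) (nat_lit 4) (nat_lit 2) (nat_lit 5) (nat_lit 2) (nat_lit 4) (nat_lit 416) (nat_lit 337) (nat_lit 267)) (XT.nd (nat_lit 78) (nat_lit 0) (nat_lit 0) (XT.lf (nat_lit 0) (nat_lit 30602178750168) (nat_lit 76) (nat_lit 1017687757692) (nat_lit 76) (nat_lit 1014250018875) (nat_lit 1) (nat_lit 4) (nat_lit 2) (nat_lit 5) (nat_lit 2) (nat_lit 4) (nat_lit 417) (nat_lit 337) (nat_lit 266)) (XT.lf (nat_lit 0) (nat_lit 35222043467490)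 (nat_lit 76) (nat_lit 1154265401509) (nat_lit 76) (nat_lit 1150827640707) (nat_lit 1) (nat_lit 4) (nat_lit 2) (nat_lit 5) (nat_lit 2) (nat_lit 4) (nat_lit 418) (nat_lit 337) (nat_lit 265)))) (XT.nd (nat_lit 78) (nat_lit 0) (nat_lit 0) (XT.lf (nat_lit 0) (nat_lit 40534887539286) (nat_lit 76) (nat_lit 1311329877915) (nat_lit 76) (nat_lit 1307892097995) (nat_lit 1) (nat_lit 4) (nat_lit 2) (nat_lit 5) (nat_lit 2) (nat_lit 4) (nat_lit 419) (nat_lit 337) (nat_lit 264)) (XT.nd (nat_lit 78) (nat_lit 0) (nat_lit 0) (XT.lf (nat_lit 0) (nat_lit 46644657914786) (nat_lit 76) (nat_lit 1491954187537) (nat_lit 76) (nat_lit 1488516390992) (nat_lit 1) (nat_lit 4) (nat_lit 2) (nat_lit 5) (nat_lit 2) (nat_lit 4) (nat_lit 420) (nat_lit 337) (nat_lit 263)) (XT.lf (nat_lit 0) (nat_lit 53670893579600) (nat_lit 76) (nat_lit 1699672284257) (nat_lit 76) (nat_lit 1696234473256) (nat_lit 1) (nat_lit 4) (nat_lit 2)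 (nat_lit 5) (nat_lit 2) (nat_lit 4) (nat_lit 421) (nat_lit 337) (nat_lit 262))))))) (XT.nd (nat_lit 858) (nat_lit 0) (nat_lit 0) (XT.nd (nat_lit 390) (nat_lit 0) (nat_lit 0) (XT.nd (nat_lit 156) (nat_lit 0) (nat_lit 0) (XT.nd (nat_lit 78) (nat_lit 0) (nat_lit 0) (XT.lf (nat_lit 0) (nat_lit 61751064361950) (nat_lit 76) (nat_lit 1938548217794) (nat_lit 76) (nat_lit 1935110394223) (nat_lit 1) (nat_lit 4) (nat_lit 2) (nat_lit 5) (nat_lit 2) (nat_lit 4) (nat_lit 422) (nat_lit 337) (nat_lit 261)) (XT.lf (nat_lit 0) (nat_lit 71043260559754) (nat_lit 76) (nat_lit 2213255647718) (nat_lit 76) (nat_lit 2209817813216) (nat_lit 1) (nat_lit 4) (nat_lit 2) (nat_lit 5) (nat_lit 2) (nat_lit 4) (nat_lit 423) (nat_lit 337) (nat_lit 260))) (XT.nd (nat_lit 78) (nat_lit 0) (nat_lit 0) (XT.lf (nat_lit 0) (nat_lit 81729286011662) (nat_lit 76) (nat_lit 2529169284614) (nat_lit 76) (nat_lit 2525731440607) (nat_lit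 1) (nat_lit 4) (nat_lit 2) (nat_lit 5) (nat_lit 2) (nat_lit 4) (nat_lit 424) (nat_lit 337) (nat_lit 259)) (XT.nd (nat_lit 78) (nat_lit 0) (nat_lit 0) (XT.lf (nat_lit 0) (nat_lit 94018215128692) (nat_lit 76) (nat_lit 2892470047464) (nat_lit 76) (nat_lit 2889032195192) (nat_lit 1) (nat_lit 4) (nat_lit 2) (nat_lit 5) (nat_lit 2) (nat_lit 4) (nat_lit 425) (nat_lit 337) (nat_lit 258)) (XT.lf (nat_lit 0) (nat_lit 108150483480524) (nat_lit 76) (nat_lit 3310265994673) (nat_lit 76) (nat_lit 3306828135213) (nat_lit 1) (nat_lit 4) (nat_lit 2) (nat_lit 5) (nat_lit 2) (nat_lit 4) (nat_lit 426) (nat_lit 337) (nat_lit 257))))) (XT.nd (nat_lit 234) (nat_lit 0) (nat_lit 0) (XT.nd (nat_lit 78) (nat_lit 0) (nat_lit 0) (XT.lf (nat_lit 0) (nat_lit 124402591969694) (nat_lit 76) (nat_lit 3790731394772) (nat_lit 76) (nat_lit 3787293529063) (nat_lit 1) (nat_lit 4) (nat_lit 2) (nat_lit 5) (nat_lit 2) (nat_lit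 4) (nat_lit 427) (nat_lit 337) (nat_lit 256)) (XT.nd (nat_lit 78) (nat_lit 0) (nat_lit 0) (XT.lf (nat_lit 0) (nat_lit 143092516631859) (nat_lit 76) (nat_lit 4343266657763) (nat_lit 76) (nat_lit 4339828786620) (nat_lit 1) (nat_lit 4) (nat_lit 2) (nat_lit 5) (nat_lit 2) (nat_lit 4) (nat_lit 428) (nat_lit 337) (nat_lit 255)) (XT.lf (nat_lit 0) (nat_lit 164585929906062) (nat_lit 76) (nat_lit 4978682256184) (nat_lit 76) (nat_lit 4975244380315) (nat_lit 1) (nat_lit 4) (nat_lit 2) (nat_lit 5) (nat_lit 2) (nat_lit 4) (nat_lit 429) (nat_lit 337) (nat_lit 254)))) (XT.nd (nat_lit 78) (nat_lit 0) (nat_lit 0) (XT.lf (nat_lit 0) (nat_lit 189303355095495) (nat_lit 76) (nat_lit 5709410234351) (nat_lit 76) (nat_lit 5705972354373) (nat_lit 1) (nat_lit 4) (nat_lit 2) (nat_lit 5) (nat_lit 2) (nat_lit 4) (nat_lit 430) (nat_lit 337) (nat_lit 253)) (XT.nd (nat_lit 78) (nat_lit 0) (nat_lit 0) (XT.lf (nat_lit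 0) (nat_lit 217728393997340) (nat_lit 76) (nat_lit 6549747444011) (nat_lit 76) (nat_lit 6546309560459) (nat_lit 1) (nat_lit 4) (nat_lit 2) (nat_lit 5) (nat_lit 2) (nat_lit 4) (nat_lit 431) (nat_lit 337) (nat_lit 252)) (XT.lf (nat_lit 0) (nat_lit 250417188677070) (nat_lit 76) (nat_lit 7516135265353) (nat_lit 76) (nat_lit 7512697378694) (nat_lit 1) (nat_lit 4) (nat_lit 2) (nat_lit 5) (nat_lit 2) (nat_lit 4) (nat_lit 432) (nat_lit 337) (nat_lit 251)))))) (XT.nd (nat_lit 46410) (nat_lit 0) (nat_lit 1444) (XT.nd (nat_lit 46176) (nat_lit 0) (nat_lit 2356) (XT.nd (nat_lit 78) (nat_lit 0) (nat_lit 0) (XT.lf (nat_lit 0) (nat_lit 288009302508854) (nat_lit 76) (nat_lit 8627481286186) (nat_lit 76) (nat_lit 8624043396825) (nat_lit 1) (nat_lit 4) (nat_lit 2) (nat_lit 5) (nat_lit 2) (nat_lit 4) (nat_lit 433) (nat_lit 337) (nat_lit 250)) (XT.nd (nat_lit 78) (nat_lit 0) (nat_lit 0) (XT.lf (nat_lit 0)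 (nat_lit 331240233372007) (nat_lit 76) (nat_lit 9905529233004) (nat_lit 76) (nat_lit 9902091341293) (nat_lit 1) (nat_lit 4) (nat_lit 2) (nat_lit 5) (nat_lit 2) (nat_lit 4) (nat_lit 434) (nat_lit 337) (nat_lit 249)) (XT.lf (nat_lit 0) (nat_lit 380955803826897) (nat_lit 76) (nat_lit 11375284391724) (nat_lit 76) (nat_lit 11371846497969) (nat_lit 1) (nat_lit 4) (nat_lit 2) (nat_lit 5) (nat_lit 2) (nat_lit 4) (nat_lit 435) (nat_lit 337) (nat_lit 248)))) (XT.nd (nat_lit 78) (nat_lit 304) (nat_lit 0) (XT.lf (nat_lit 0) (nat_lit 630901399) (nat_lit 228) (nat_lit 2145153969) (nat_lit 0) (nat_lit 630901399) (nat_lit 36) (nat_lit 5) (nat_lit 39) (nat_lit 4) (nat_lit 36) (nat_lit 4) (nat_lit 344) (nat_lit 338) (nat_lit 338)) (XT.nd (nat_lit 78) (nat_lit 76) (nat_lit 0) (XT.lf (nat_lit 0) (nat_lit 380033264) (nat_lit 228) (nat_lit 4236600416) (nat_lit 228) (nat_lit 2422480489) (nat_lit 33) (nat_lit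 4) (nat_lit 36) (nat_lit 5) (nat_lit 36) (nat_lit 4) (nat_lit 345) (nat_lit 338) (nat_lit 337)) (XT.lf (nat_lit 0) (nat_lit 818568282) (nat_lit 304) (nat_lit 1631693708) (nat_lit 76) (nat_lit 4879190167) (nat_lit 32) (nat_lit 5) (nat_lit 36) (nat_lit 5) (nat_lit 33) (nat_lit 4) (nat_lit 346) (nat_lit 338) (nat_lit 336))))) (XT.nd (nat_lit 234) (nat_lit 380) (nat_lit 0) (XT.nd (nat_lit 78) (nat_lit 228) (nat_lit 0) (XT.lf (nat_lit 0) (nat_lit 3912371852) (nat_lit 304) (nat_lit 122847990) (nat_lit 380) (nat_lit 3650784179) (nat_lit 28) (nat_lit 5) (nat_lit 32) (nat_lit 5) (nat_lit 33) (nat_lit 4) (nat_lit 347) (nat_lit 338) (nat_lit 335)) (XT.nd (nat_lit 78) (nat_lit 76) (nat_lit 0) (XT.lf (nat_lit 0) (nat_lit 1946536487) (nat_lit 152) (nat_lit 5673237029) (nat_lit 152) (nat_lit 493963891) (nat_lit 26) (nat_lit 4) (nat_lit 28) (nat_lit 5) (nat_lit 28) (nat_lit 4) (nat_lit 348) (nat_lit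 338) (nat_lit 334)) (XT.lf (nat_lit 0) (nat_lit 2692790456) (nat_lit 228) (nat_lit 291711878) (nat_lit 76) (nat_lit 5626688049) (nat_lit 25) (nat_lit 5) (nat_lit 28) (nat_lit 5) (nat_lit 26) (nat_lit 4) (nat_lit 349) (nat_lit 338) (nat_lit 333)))) (XT.nd (nat_lit 78) (nat_lit 304) (nat_lit 0) (XT.lf (nat_lit 0) (nat_lit 6264950523) (nat_lit 152) (nat_lit 2626476881) (nat_lit 0) (nat_lit 294945769) (nat_lit 24) (nat_lit 5) (nat_lit 26) (nat_lit 4) (nat_lit 24) (nat_lit 4) (nat_lit 350) (nat_lit 338) (nat_lit 332)) (XT.nd (nat_lit 78) (nat_lit 76) (nat_lit 0) (XT.lf (nat_lit 0) (nat_lit 511960035) (nat_lit 228) (nat_lit 5462329698) (nat_lit 76) (nat_lit 3865494368) (nat_lit 21) (nat_lit 5) (nat_lit 24) (nat_lit 5) (nat_lit 22) (nat_lit 4) (nat_lit 351) (nat_lit 338) (nat_lit 331)) (XT.lf (nat_lit 0) (nat_lit 1680865242) (nat_lit 76) (nat_lit 2393365048) (nat_lit 152) (nat_lit 6509382574)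 (nat_lit 20) (nat_lit 5) (nat_lit 21) (nat_lit 5) (nat_lit 22) (nat_lit 4) (nat_lit 352) (nat_lit 338) (nat_lit 330))))))))
noncomputable def xc43 : XT := (XT.nd (nat_lit 1794) (nat_lit 228) (nat_lit 0) (XT.nd (nat_lit 858) (nat_lit 456) (nat_lit 0) (XT.nd (nat_lit 390) (nat_lit 380) (nat_lit 0) (XT.nd (nat_lit 156) (nat_lit 228) (nat_lit 0) (XT.nd (nat_lit 78) (nat_lit 152) (nat_lit 0) (XT.lf (nat_lit 0) (nat_lit 8253805762) (nat_lit 152) (nat_lit 1464501287) (nat_lit 0) (nat_lit 1708455690) (nat_lit 20) (nat_lit 5) (nat_lit 22) (nat_lit 4) (nat_lit 20) (nat_lit 4) (nat_lit 353) (nat_lit 338) (nat_lit 329)) (XT.lf (nat_lit 0) (nat_lit 773857313) (nat_lit 152) (nat_lit 5220628833) (nat_lit 76) (nat_lit 6372565042) (nat_lit 18) (nat_lit 5) (nat_lit 20) (nat_lit 5) (nat_lit 19) (nat_lit 4) (nat_lit 354) (nat_lit 338) (nat_lit 328))) (XT.nd (nat_lit 78) (nat_lit 152) (nat_lit 0) (XT.lf (nat_lit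 0) (nat_lit 3500446650) (nat_lit 76) (nat_lit 1466862146) (nat_lit 152) (nat_lit 8461616236) (nat_lit 17) (nat_lit 5) (nat_lit 18) (nat_lit 5) (nat_lit 19) (nat_lit 4) (nat_lit 355) (nat_lit 338) (nat_lit 327)) (XT.nd (nat_lit 78) (nat_lit 152) (nat_lit 0) (XT.lf (nat_lit 0) (nat_lit 9992212762) (nat_lit 152) (nat_lit 1101185138) (nat_lit 0) (nat_lit 3526426330) (nat_lit 17) (nat_lit 5) (nat_lit 19) (nat_lit 4) (nat_lit 17) (nat_lit 4) (nat_lit 356) (nat_lit 338) (nat_lit 326)) (XT.lf (nat_lit 0) (nat_lit 66327134) (nat_lit 152) (nat_lit 6517048601) (nat_lit 76) (nat_lit 9367615514) (nat_lit 15) (nat_lit 5) (nat_lit 17) (nat_lit 5) (nat_lit 16) (nat_lit 4) (nat_lit 357) (nat_lit 338) (nat_lit 325))))) (XT.nd (nat_lit 234) (nat_lit 228) (nat_lit 0) (XT.nd (nat_lit 78) (nat_lit 76) (nat_lit 0) (XT.lf (nat_lit 0) (nat_lit 3941944918) (nat_lit 76) (nat_lit 1067439063) (nat_lit 152) (nat_lit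 12436645956) (nat_lit 14) (nat_lit 5) (nat_lit 15) (nat_lit 5) (nat_lit 16) (nat_lit 4) (nat_lit 358) (nat_lit 338) (nat_lit 324)) (XT.nd (nat_lit 78) (nat_lit 76) (nat_lit 0) (XT.lf (nat_lit 0) (nat_lit 11068733599) (nat_lit 152) (nat_lit 3036756279) (nat_lit 0) (nat_lit 5003672017) (nat_lit 14) (nat_lit 5) (nat_lit 16) (nat_lit 4) (nat_lit 14) (nat_lit 4) (nat_lit 359) (nat_lit 338) (nat_lit 323)) (XT.lf (nat_lit 0) (nat_lit 9452154038) (nat_lit 76) (nat_lit 8852694700) (nat_lit 76) (nat_lit 2676789884) (nat_lit 13) (nat_lit 4) (nat_lit 14) (nat_lit 5) (nat_lit 14) (nat_lit 4) (nat_lit 360) (nat_lit 338) (nat_lit 322)))) (XT.nd (nat_lit 78) (nat_lit 76) (nat_lit 0) (XT.lf (nat_lit 0) (nat_lit 605591997) (nat_lit 76) (nat_lit 2593422995) (nat_lit 152) (nat_lit 19911560034) (nat_lit 11) (nat_lit 5) (nat_lit 12) (nat_lit 5) (nat_lit 13) (nat_lit 4) (nat_lit 361) (nat_lit 338) (nat_lit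 321)) (XT.nd (nat_lit 78) (nat_lit 76) (nat_lit 0) (XT.lf (nat_lit 0) (nat_lit 10333667597) (nat_lit 152) (nat_lit 10301749816) (nat_lit 0) (nat_lit 4806620949) (nat_lit 11) (nat_lit 5) (nat_lit 13) (nat_lit 4) (nat_lit 11) (nat_lit 4) (nat_lit 362) (nat_lit 338) (nat_lit 320)) (XT.lf (nat_lit 0) (nat_lit 3633566937) (nat_lit 76) (nat_lit 15030627761) (nat_lit 76) (nat_lit 9440206134) (nat_lit 10) (nat_lit 4) (nat_lit 11) (nat_lit 5) (nat_lit 11) (nat_lit 4) (nat_lit 363) (nat_lit 338) (nat_lit 319)))))) (XT.nd (nat_lit 468) (nat_lit 152) (nat_lit 0) (XT.nd (nat_lit 234) (nat_lit 152) (nat_lit 0) (XT.nd (nat_lit 78) (nat_lit 152) (nat_lit 0) (XT.lf (nat_lit 0) (nat_lit 20532130238) (nat_lit 76) (nat_lit 8109939719) (nat_lit 76) (nat_lit 2464409416) (nat_lit 10) (nat_lit 4) (nat_lit 11) (nat_lit 5) (nat_lit 11) (nat_lit 4) (nat_lit 364) (nat_lit 338) (nat_lit 318)) (XT.nd (nat_lit 78)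 (nat_lit 0) (nat_lit 0) (XT.lf (nat_lit 0) (nat_lit 5168083908) (nat_lit 152) (nat_lit 29123261422) (nat_lit 0) (nat_lit 217257045) (nat_lit 8) (nat_lit 5) (nat_lit 10) (nat_lit 4) (nat_lit 8) (nat_lit 4) (nat_lit 365) (nat_lit 338) (nat_lit 317)) (XT.lf (nat_lit 0) (nat_lit 14531374136) (nat_lit 152) (nat_lit 14202037417) (nat_lit 0) (nat_lit 9544312423) (nat_lit 8) (nat_lit 5) (nat_lit 10) (nat_lit 4) (nat_lit 8) (nat_lit 4) (nat_lit 366) (nat_lit 338) (nat_lit 316)))) (XT.nd (nat_lit 78) (nat_lit 76) (nat_lit 0) (XT.lf (nat_lit 0) (nat_lit 2996828175) (nat_lit 76) (nat_lit 22315963187) (nat_lit 76) (nat_lit 17297392910) (nat_lit 7) (nat_lit 4) (nat_lit 8) (nat_lit 5) (nat_lit 8) (nat_lit 4) (nat_lit 367) (nat_lit 338) (nat_lit 315)) (XT.nd (nat_lit 78) (nat_lit 76) (nat_lit 0) (XT.lf (nat_lit 0) (nat_lit 24154632222) (nat_lit 76) (nat_lit 14194131264) (nat_lit 76) (nat_lit 9148162234)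 (nat_lit 7) (nat_lit 4) (nat_lit 8) (nat_lit 5) (nat_lit 8) (nat_lit 4) (nat_lit 368) (nat_lit 338) (nat_lit 314)) (XT.lf (nat_lit 0) (nat_lit 107863244) (nat_lit 152) (nat_lit 4837888055) (nat_lit 76) (nat_lit 48183903825) (nat_lit 6) (nat_lit 5) (nat_lit 8) (nat_lit 5) (nat_lit 7) (nat_lit 4) (nat_lit 369) (nat_lit 338) (nat_lit 313))))) (XT.nd (nat_lit 234) (nat_lit 76) (nat_lit 0) (XT.nd (nat_lit 78) (nat_lit 0) (nat_lit 0) (XT.lf (nat_lit 0) (nat_lit 10739160240) (nat_lit 152) (nat_lit 42351650174) (nat_lit 0) (nat_lit 6312628567) (nat_lit 5) (nat_lit 5) (nat_lit 7) (nat_lit 4) (nat_lit 5) (nat_lit 4) (nat_lit 370) (nat_lit 338) (nat_lit 312)) (XT.nd (nat_lit 78) (nat_lit 0) (nat_lit 0) (XT.lf (nat_lit 0) (nat_lit 23382898638) (nat_lit 152) (nat_lit 24232035804) (nat_lit 0) (nat_lit 18940701639) (nat_lit 5) (nat_lit 5) (nat_lit 7) (nat_lit 4) (nat_lit 5) (nat_lit 4) (nat_lit 371)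 (nat_lit 338) (nat_lit 311)) (XT.lf (nat_lit 0) (nat_lit 37851287292) (nat_lit 152) (nat_lit 3544700450) (nat_lit 0) (nat_lit 33395468271) (nat_lit 5) (nat_lit 5) (nat_lit 7) (nat_lit 4) (nat_lit 5) (nat_lit 4) (nat_lit 372) (nat_lit 338) (nat_lit 310)))) (XT.nd (nat_lit 78) (nat_lit 0) (nat_lit 0) (XT.lf (nat_lit 0) (nat_lit 22080902757) (nat_lit 76) (nat_lit 33260823709) (nat_lit 76) (nat_lit 28793159452) (nat_lit 4) (nat_lit 4) (nat_lit 5) (nat_lit 5) (nat_lit 5) (nat_lit 4) (nat_lit 373) (nat_lit 338) (nat_lit 309)) (XT.nd (nat_lit 78) (nat_lit 0) (nat_lit 0) (XT.lf (nat_lit 0) (nat_lit 51824032931) (nat_lit 76) (nat_lit 23757451948) (nat_lit 76) (nat_lit 19279487485) (nat_lit 4) (nat_lit 4) (nat_lit 5) (nat_lit 5) (nat_lit 5) (nat_lit 4) (nat_lit 374) (nat_lit 338) (nat_lit 308)) (XT.lf (nat_lit 0) (nat_lit 85920206970) (nat_lit 76) (nat_lit 12885228085) (nat_lit 76) (nat_lit 8398306921)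 (nat_lit 4) (nat_lit 4) (nat_lit 5) (nat_lit 5) (nat_lit 5) (nat_lit 4) (nat_lit 375) (nat_lit 338) (nat_lit 307))))))) (XT.nd (nat_lit 858) (nat_lit 0) (nat_lit 0) (XT.nd (nat_lit 390) (nat_lit 76) (nat_lit 0) (XT.nd (nat_lit 156) (nat_lit 0) (nat_lit 0) (XT.nd (nat_lit 78) (nat_lit 0) (nat_lit 0) (XT.lf (nat_lit 0) (nat_lit 3802075733) (nat_lit 76) (nat_lit 56894188) (nat_lit 152) (nat_lit 117496860691) (nat_lit 2) (nat_lit 5) (nat_lit 3) (nat_lit 5) (nat_lit 4) (nat_lit 4) (nat_lit 376) (nat_lit 338) (nat_lit 306)) (XT.lf (nat_lit 0) (nat_lit 18822083789) (nat_lit 152) (nat_lit 103581851435) (nat_lit 0) (nat_lit 14907751483) (nat_lit 2) (nat_lit 5) (nat_lit 4) (nat_lit 4) (nat_lit 2) (nat_lit 4) (nat_lit 377) (nat_lit 338) (nat_lit 305))) (XT.nd (nat_lit 78) (nat_lit 0) (nat_lit 0) (XT.lf (nat_lit 0) (nat_lit 35991528824) (nat_lit 152) (nat_lit 87603039800) (nat_lit 0) (nat_lit 32072075495)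 (nat_lit 2) (nat_lit 5) (nat_lit 4) (nat_lit 4) (nat_lit 2) (nat_lit 4) (nat_lit 378) (nat_lit 338) (nat_lit 304)) (XT.nd (nat_lit 78) (nat_lit 0) (nat_lit 0) (XT.lf (nat_lit 0) (nat_lit 55700873083) (nat_lit 152) (nat_lit 69302335184) (nat_lit 0) (nat_lit 51776966691) (nat_lit 2) (nat_lit 5) (nat_lit 4) (nat_lit 4) (nat_lit 2) (nat_lit 4) (nat_lit 379) (nat_lit 338) (nat_lit 303)) (XT.lf (nat_lit 0) (nat_lit 78335734172) (nat_lit 152) (nat_lit 48321680323) (nat_lit 0) (nat_lit 74407955552) (nat_lit 2) (nat_lit 5) (nat_lit 4) (nat_lit 4) (nat_lit 2) (nat_lit 4) (nat_lit 380) (nat_lit 338) (nat_lit 302))))) (XT.nd (nat_lit 234) (nat_lit 0) (nat_lit 0) (XT.nd (nat_lit 78) (nat_lit 76) (nat_lit 0) (XT.lf (nat_lit 0) (nat_lit 104338968069) (nat_lit 152) (nat_lit 24250584143) (nat_lit 0) (nat_lit 100407822293) (nat_lit 2) (nat_lit 5) (nat_lit 4) (nat_lit 4) (nat_lit 2) (nat_lit 4) (nat_lit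 381) (nat_lit 338) (nat_lit 301)) (XT.nd (nat_lit 78) (nat_lit 0) (nat_lit 0) (XT.lf (nat_lit 0) (nat_lit 3712414383) (nat_lit 76) (nat_lit 130660642477) (nat_lit 76) (nat_lit 126726568739) (nat_lit 1) (nat_lit 4) (nat_lit 2) (nat_lit 5) (nat_lit 2) (nat_lit 4) (nat_lit 382) (nat_lit 338) (nat_lit 300)) (XT.lf (nat_lit 0) (nat_lit 38548270182) (nat_lit 76) (nat_lit 131609378388) (nat_lit 76) (nat_lit 127672758597) (nat_lit 1) (nat_lit 4) (nat_lit 2) (nat_lit 5) (nat_lit 2) (nat_lit 4) (nat_lit 383) (nat_lit 338) (nat_lit 299)))) (XT.nd (nat_lit 78) (nat_lit 0) (nat_lit 0) (XT.lf (nat_lit 0) (nat_lit 78568610894) (nat_lit 76) (nat_lit 132721966343) (nat_lit 76) (nat_lit 128783132592) (nat_lit 1) (nat_lit 4) (nat_lit 2) (nat_lit 5) (nat_lit 2) (nat_lit 4) (nat_lit 384) (nat_lit 338) (nat_lit 298)) (XT.nd (nat_lit 78) (nat_lit 0) (nat_lit 0) (XT.lf (nat_lit 0) (nat_lit 124556443185) (nat_lit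 76) (nat_lit 134020174365) (nat_lit 76) (nat_lit 130079415433) (nat_lit 1) (nat_lit 4) (nat_lit 2) (nat_lit 5) (nat_lit 2) (nat_lit 4) (nat_lit 385) (nat_lit 338) (nat_lit 297)) (XT.lf (nat_lit 0) (nat_lit 177411528992) (nat_lit 76) (nat_lit 135529402178) (nat_lit 76) (nat_lit 131586969174) (nat_lit 1) (nat_lit 4) (nat_lit 2) (nat_lit 5) (nat_lit 2) (nat_lit 4) (nat_lit 386) (nat_lit 338) (nat_lit 296)))))) (XT.nd (nat_lit 468) (nat_lit 0) (nat_lit 0) (XT.nd (nat_lit 234) (nat_lit 0) (nat_lit 0) (XT.nd (nat_lit 78) (nat_lit 0) (nat_lit 0) (XT.lf (nat_lit 0) (nat_lit 238167989557) (nat_lit 76) (nat_lit 137279178151) (nat_lit 76) (nat_lit 133335289433) (nat_lit 1) (nat_lit 4) (nat_lit 2) (nat_lit 5) (nat_lit 2) (nat_lit 4) (nat_lit 387) (nat_lit 338) (nat_lit 295)) (XT.nd (nat_lit 78) (nat_lit 0) (nat_lit 0) (XT.lf (nat_lit 0) (nat_lit 308014538241) (nat_lit 76) (nat_lit 139303737032) (nat_lit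 76) (nat_lit 135358582475) (nat_lit 1) (nat_lit 4) (nat_lit 2) (nat_lit 5) (nat_lit 2) (nat_lit 4) (nat_lit 388) (nat_lit 338) (nat_lit 294)) (XT.lf (nat_lit 0) (nat_lit 388317737952) (nat_lit 76) (nat_lit 141642689755) (nat_lit 76) (nat_lit 137696434469) (nat_lit 1) (nat_lit 4) (nat_lit 2) (nat_lit 5) (nat_lit 2) (nat_lit 4) (nat_lit 389) (nat_lit 338) (nat_lit 293)))) (XT.nd (nat_lit 78) (nat_lit 0) (nat_lit 0) (XT.lf (nat_lit 0) (nat_lit 480648738250) (nat_lit 76) (nat_lit 144341798439) (nat_lit 76) (nat_lit 140394585998) (nat_lit 1) (nat_lit 4) (nat_lit 2) (nat_lit 5) (nat_lit 2) (nat_lit 4) (nat_lit 390) (nat_lit 338) (nat_lit 292)) (XT.nd (nat_lit 78) (nat_lit 0) (nat_lit 0) (XT.lf (nat_lit 0) (nat_lit 586814015227) (nat_lit 76) (nat_lit 147453871733) (nat_lit 76) (nat_lit 143505826982) (nat_lit 1) (nat_lit 4) (nat_lit 2) (nat_lit 5) (nat_lit 2) (nat_lit 4) (nat_lit 391) (nat_lit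 338) (nat_lit 291)) (XT.lf (nat_lit 0) (nat_lit 708890715608) (nat_lit 76) (nat_lit 151039798026) (nat_lit 76) (nat_lit 147091029528) (nat_lit 1) (nat_lit 4) (nat_lit 2) (nat_lit 5) (nat_lit 2) (nat_lit 4) (nat_lit 392) (nat_lit 338) (nat_lit 290))))) (XT.nd (nat_lit 234) (nat_lit 0) (nat_lit 0) (XT.nd (nat_lit 78) (nat_lit 0) (nat_lit 0) (XT.lf (nat_lit 0) (nat_lit 849267296572) (nat_lit 76) (nat_lit 155169736746) (nat_lit 76) (nat_lit 151220338902) (nat_lit 1) (nat_lit 4) (nat_lit 2) (nat_lit 5) (nat_lit 2) (nat_lit 4) (nat_lit 393) (nat_lit 338) (nat_lit 289)) (XT.nd (nat_lit 78) (nat_lit 0) (nat_lit 0) (XT.lf (nat_lit 0) (nat_lit 1010690256444) (nat_lit 76) (nat_lit 159924491042) (nat_lit 76) (nat_lit 155974545942) (nat_lit 1) (nat_lit 4) (nat_lit 2) (nat_lit 5) (nat_lit 2) (nat_lit 4) (nat_lit 394) (nat_lit 338) (nat_lit 288)) (XT.lf (nat_lit 0) (nat_lit 1196317870526) (nat_lit 76)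 (nat_lit 165397088716) (nat_lit 76) (nat_lit 161446667739) (nat_lit 1) (nat_lit 4) (nat_lit 2) (nat_lit 5) (nat_lit 2) (nat_lit 4) (nat_lit 395) (nat_lit 338) (nat_lit 287)))) (XT.nd (nat_lit 78) (nat_lit 0) (nat_lit 0) (XT.lf (nat_lit 0) (nat_lit 1409781983440) (nat_lit 76) (nat_lit 171694602330) (nat_lit 76) (nat_lit 167743767549) (nat_lit 1) (nat_lit 4) (nat_lit 2) (nat_lit 5) (nat_lit 2) (nat_lit 4) (nat_lit 396) (nat_lit 338) (nat_lit 286)) (XT.nd (nat_lit 78) (nat_lit 0) (nat_lit 0) (XT.lf (nat_lit 0) (nat_lit 1655259066962) (nat_lit 76) (nat_lit 178940244107) (nat_lit 76) (nat_lit 174989049496) (nat_lit 1) (nat_lit 4) (nat_lit 2) (nat_lit 5) (nat_lit 2) (nat_lit 4) (nat_lit 397) (nat_lit 338) (nat_lit 285)) (XT.lf (nat_lit 0) (nat_lit 1937551933594) (nat_lit 76) (nat_lit 187275776605) (nat_lit 76) (nat_lit 183324269098) (nat_lit 1) (nat_lit 4) (nat_lit 2) (nat_lit 5) (nat_lit 2)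 (nat_lit 4) (nat_lit 398) (nat_lit 338) (nat_lit 284))))))))
noncomputable def xc44 : XT := (XT.nd (nat_lit 1716) (nat_lit 0) (nat_lit 0) (XT.nd (nat_lit 858) (nat_lit 0) (nat_lit 0) (XT.nd (nat_lit 390) (nat_lit 0) (nat_lit 0) (XT.nd (nat_lit 156) (nat_lit 0) (nat_lit 0) (XT.nd (nat_lit 78) (nat_lit 0) (nat_lit 0) (XT.lf (nat_lit 0) (nat_lit 2262183704641) (nat_lit 76) (nat_lit 196864286328) (nat_lit 76) (nat_lit 192912506737) (nat_lit 1) (nat_lit 4) (nat_lit 2) (nat_lit 5) (nat_lit 2) (nat_lit 4) (nat_lit 399) (nat_lit 338) (nat_lit 283)) (XT.lf (nat_lit 0) (nat_lit 2635505871276) (nat_lit 76) (nat_lit 207893374553) (nat_lit 76) (nat_lit 203941358369) (nat_lit 1) (nat_lit 4) (nat_lit 2) (nat_lit 5) (nat_lit 2) (nat_lit 4) (nat_lit 400) (nat_lit 338) (nat_lit 282))) (XT.nd (nat_lit 78) (nat_lit 0) (nat_lit 0) (XT.lf (nat_lit 0) (nat_lit 3064822562844) (nat_lit 76) (nat_lit 220578827790)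 (nat_lit 76) (nat_lit 216626605872) (nat_lit 1) (nat_lit 4) (nat_lit 2) (nat_lit 5) (nat_lit 2) (nat_lit 4) (nat_lit 401) (nat_lit 338) (nat_lit 281)) (XT.nd (nat_lit 78) (nat_lit 0) (nat_lit 0) (XT.lf (nat_lit 0) (nat_lit 3558533453747) (nat_lit 76) (nat_lit 235168839689) (nat_lit 76) (nat_lit 231216438871) (nat_lit 1) (nat_lit 4) (nat_lit 2) (nat_lit 5) (nat_lit 2) (nat_lit 4) (nat_lit 402) (nat_lit 338) (nat_lit 280)) (XT.lf (nat_lit 0) (nat_lit 4126298104894) (nat_lit 76) (nat_lit 251948867004) (nat_lit 76) (nat_lit 247996310621) (nat_lit 1) (nat_lit 4) (nat_lit 2) (nat_lit 5) (nat_lit 2) (nat_lit 4) (nat_lit 403) (nat_lit 338) (nat_lit 279))))) (XT.nd (nat_lit 234) (nat_lit 0) (nat_lit 0) (XT.nd (nat_lit 78) (nat_lit 0) (nat_lit 0) (XT.lf (nat_lit 0) (nat_lit 4779224955111) (nat_lit 76) (nat_lit 271247214617) (nat_lit 76) (nat_lit 267294522961) (nat_lit 1) (nat_lit 4) (nat_lit 2)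 (nat_lit 5) (nat_lit 2) (nat_lit 4) (nat_lit 404) (nat_lit 338) (nat_lit 278)) (XT.nd (nat_lit 78) (nat_lit 0) (nat_lit 0) (XT.lf (nat_lit 0) (nat_lit 5530088660164) (nat_lit 76) (nat_lit 293441458895) (nat_lit 76) (nat_lit 289488649609) (nat_lit 1) (nat_lit 4) (nat_lit 2) (nat_lit 5) (nat_lit 2) (nat_lit 4) (nat_lit 405) (nat_lit 338) (nat_lit 277)) (XT.lf (nat_lit 0) (nat_lit 6393580031673) (nat_lit 76) (nat_lit 318965835051) (nat_lit 76) (nat_lit 315012923480) (nat_lit 1) (nat_lit 4) (nat_lit 2) (nat_lit 5) (nat_lit 2) (nat_lit 4) (nat_lit 406) (nat_lit 338) (nat_lit 276)))) (XT.nd (nat_lit 78) (nat_lit 0) (nat_lit 0) (XT.lf (nat_lit 0) (nat_lit 7386593466037) (nat_lit 76) (nat_lit 348319733055) (nat_lit 76) (nat_lit 344366732539) (nat_lit 1) (nat_lit 4) (nat_lit 2) (nat_lit 5) (nat_lit 2) (nat_lit 4) (nat_lit 407) (nat_lit 338) (nat_lit 275)) (XT.nd (nat_lit 78) (nat_lit 0) (nat_lit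 0) (XT.lf (nat_lit 0) (nat_lit 8528557486972) (nat_lit 76) (nat_lit 382077468302) (nat_lit 76) (nat_lit 378124390443) (nat_lit 1) (nat_lit 4) (nat_lit 2) (nat_lit 5) (nat_lit 2) (nat_lit 4) (nat_lit 408) (nat_lit 338) (nat_lit 274)) (XT.lf (nat_lit 0) (nat_lit 9841814868800) (nat_lit 76) (nat_lit 420899518221) (nat_lit 76) (nat_lit 416946373107) (nat_lit 1) (nat_lit 4) (nat_lit 2) (nat_lit 5) (nat_lit 2) (nat_lit 4) (nat_lit 409) (nat_lit 338) (nat_lit 273)))))) (XT.nd (nat_lit 390) (nat_lit 0) (nat_lit 0) (XT.nd (nat_lit 156) (nat_lit 0) (nat_lit 0) (XT.nd (nat_lit 78) (nat_lit 0) (nat_lit 0) (XT.lf (nat_lit 0) (nat_lit 11352059777689) (nat_lit 76) (nat_lit 465545444657) (nat_lit 76) (nat_lit 461592241061) (nat_lit 1) (nat_lit 4) (nat_lit 2) (nat_lit 5) (nat_lit 2) (nat_lit 4) (nat_lit 410) (nat_lit 338) (nat_lit 272)) (XT.lf (nat_lit 0) (nat_lit 13088840483594) (nat_lit 76) (nat_lit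 516888754868) (nat_lit 76) (nat_lit 512935500417) (nat_lit 1) (nat_lit 4) (nat_lit 2) (nat_lit 5) (nat_lit 2) (nat_lit 4) (nat_lit 411) (nat_lit 338) (nat_lit 271))) (XT.nd (nat_lit 78) (nat_lit 0) (nat_lit 0) (XT.lf (nat_lit 0) (nat_lit 15086137478587) (nat_lit 76) (nat_lit 575933991879) (nat_lit 76) (nat_lit 571980693206) (nat_lit 1) (nat_lit 4) (nat_lit 2) (nat_lit 5) (nat_lit 2) (nat_lit 4) (nat_lit 412) (nat_lit 338) (nat_lit 270)) (XT.nd (nat_lit 78) (nat_lit 0) (nat_lit 0) (XT.lf (nat_lit 0) (nat_lit 17383028312571) (nat_lit 76) (nat_lit 643836388587) (nat_lit 76) (nat_lit 639883051462) (nat_lit 1) (nat_lit 4) (nat_lit 2) (nat_lit 5) (nat_lit 2) (nat_lit 4) (nat_lit 413) (nat_lit 338) (nat_lit 269)) (XT.lf (nat_lit 0) (nat_lit 20024452154036) (nat_lit 76) (nat_lit 721924470147) (nat_lit 76) (nat_lit 717971099584) (nat_lit 1) (nat_lit 4) (nat_lit 2) (nat_lit 5) (nat_lit 2) (nat_lit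 4) (nat_lit 414) (nat_lit 338) (nat_lit 268))))) (XT.nd (nat_lit 234) (nat_lit 0) (nat_lit 0) (XT.nd (nat_lit 78) (nat_lit 0) (nat_lit 0) (XT.lf (nat_lit 0) (nat_lit 23062089034663) (nat_lit 76) (nat_lit 811726046850) (nat_lit 76) (nat_lit 807772647211) (nat_lit 1) (nat_lit 4) (nat_lit 2) (nat_lit 5) (nat_lit 2) (nat_lit 4) (nat_lit 415) (nat_lit 338) (nat_lit 267)) (XT.nd (nat_lit 78) (nat_lit 0) (nat_lit 0) (XT.lf (nat_lit 0) (nat_lit 26555370980379) (nat_lit 76) (nat_lit 914998106065) (nat_lit 76) (nat_lit 911044681143) (nat_lit 1) (nat_lit 4) (nat_lit 2) (nat_lit 5) (nat_lit 2) (nat_lit 4) (nat_lit 416) (nat_lit 338) (nat_lit 266)) (XT.lf (nat_lit 0) (nat_lit 30572644811858) (nat_lit 76) (nat_lit 1033761188082) (nat_lit 76) (nat_lit 1029807741174) (nat_lit 1) (nat_lit 4) (nat_lit 2) (nat_lit 5) (nat_lit 2) (nat_lit 4) (nat_lit 417) (nat_lit 338) (nat_lit 265)))) (XT.nd (nat_lit 78)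 (nat_lit 0) (nat_lit 0) (XT.lf (nat_lit 0) (nat_lit 35192509364936) (nat_lit 76) (nat_lit 1170338918419) (nat_lit 76) (nat_lit 1166385452392) (nat_lit 1) (nat_lit 4) (nat_lit 2) (nat_lit 5) (nat_lit 2) (nat_lit 4) (nat_lit 418) (nat_lit 338) (nat_lit 264)) (XT.nd (nat_lit 78) (nat_lit 0) (nat_lit 0) (XT.lf (nat_lit 0) (nat_lit 40505353293911) (nat_lit 76) (nat_lit 1327403470060) (nat_lit 76) (nat_lit 1323449987409) (nat_lit 1) (nat_lit 4) (nat_lit 2) (nat_lit 5) (nat_lit 2) (nat_lit 4) (nat_lit 419) (nat_lit 338) (nat_lit 263)) (XT.lf (nat_lit 0) (nat_lit 46615123545220) (nat_lit 76) (nat_lit 1508027845102) (nat_lit 76) (nat_lit 1504074347996) (nat_lit 1) (nat_lit 4) (nat_lit 2) (nat_lit 5) (nat_lit 2) (nat_lit 4) (nat_lit 420) (nat_lit 338) (nat_lit 262))))))) (XT.nd (nat_lit 858) (nat_lit 0) (nat_lit 0) (XT.nd (nat_lit 390) (nat_lit 0) (nat_lit 0) (XT.nd (nat_lit 156) (nat_lit 0) (nat_lit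 0) (XT.nd (nat_lit 78) (nat_lit 0) (nat_lit 0) (XT.lf (nat_lit 0) (nat_lit 53641359102040) (nat_lit 76) (nat_lit 1715745998711) (nat_lit 76) (nat_lit 1711792489034) (nat_lit 1) (nat_lit 4) (nat_lit 2) (nat_lit 5) (nat_lit 2) (nat_lit 4) (nat_lit 421) (nat_lit 338) (nat_lit 261)) (XT.lf (nat_lit 0) (nat_lit 61721529790484) (nat_lit 76) (nat_lit 1954621981716) (nat_lit 76) (nat_lit 1950668461108) (nat_lit 1) (nat_lit 4) (nat_lit 2) (nat_lit 5) (nat_lit 2) (nat_lit 4) (nat_lit 422) (nat_lit 338) (nat_lit 260))) (XT.nd (nat_lit 78) (nat_lit 0) (nat_lit 0) (XT.lf (nat_lit 0) (nat_lit 71013725906629) (nat_lit 76) (nat_lit 2229329454655) (nat_lit 76) (nat_lit 2225375924542) (nat_lit 1) (nat_lit 4) (nat_lit 2) (nat_lit 5) (nat_lit 2) (nat_lit 4) (nat_lit 423) (nat_lit 338) (nat_lit 259)) (XT.nd (nat_lit 78) (nat_lit 0) (nat_lit 0) (XT.lf (nat_lit 0) (nat_lit 81699751287531) (nat_lit 76) (nat_lit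 2545243128956) (nat_lit 76) (nat_lit 2541289590577) (nat_lit 1) (nat_lit 4) (nat_lit 2) (nat_lit 5) (nat_lit 2) (nat_lit 4) (nat_lit 424) (nat_lit 338) (nat_lit 258)) (XT.lf (nat_lit 0) (nat_lit 93988680342815) (nat_lit 76) (nat_lit 2908543924332) (nat_lit 76) (nat_lit 2904590378766) (nat_lit 1) (nat_lit 4) (nat_lit 2) (nat_lit 5) (nat_lit 2) (nat_lit 4) (nat_lit 425) (nat_lit 338) (nat_lit 257))))) (XT.nd (nat_lit 234) (nat_lit 0) (nat_lit 0) (XT.nd (nat_lit 78) (nat_lit 0) (nat_lit 0) (XT.lf (nat_lit 0) (nat_lit 108120948640956) (nat_lit 76) (nat_lit 3326339899824) (nat_lit 76) (nat_lit 3322386348009) (nat_lit 1) (nat_lit 4) (nat_lit 2) (nat_lit 5) (nat_lit 2) (nat_lit 4) (nat_lit 426) (nat_lit 338) (nat_lit 256)) (XT.nd (nat_lit 78) (nat_lit 0) (nat_lit 0) (XT.lf (nat_lit 0) (nat_lit 124373057083437) (nat_lit 76) (nat_lit 3806805324517) (nat_lit 76) (nat_lit 3802851767267) (nat_lit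 1) (nat_lit 4) (nat_lit 2) (nat_lit 5) (nat_lit 2) (nat_lit 4) (nat_lit 427) (nat_lit 338) (nat_lit 255)) (XT.lf (nat_lit 0) (nat_lit 143062981705004) (nat_lit 76) (nat_lit 4359340608895) (nat_lit 76) (nat_lit 4355387046919) (nat_lit 1) (nat_lit 4) (nat_lit 2) (nat_lit 5) (nat_lit 2) (nat_lit 4) (nat_lit 428) (nat_lit 338) (nat_lit 254)))) (XT.nd (nat_lit 78) (nat_lit 0) (nat_lit 0) (XT.lf (nat_lit 0) (nat_lit 164556394943904) (nat_lit 76) (nat_lit 4994756225912) (nat_lit 76) (nat_lit 4990802659828) (nat_lit 1) (nat_lit 4) (nat_lit 2) (nat_lit 5) (nat_lit 2) (nat_lit 4) (nat_lit 429) (nat_lit 338) (nat_lit 253)) (XT.nd (nat_lit 78) (nat_lit 0) (nat_lit 0) (XT.lf (nat_lit 0) (nat_lit 189273820102638) (nat_lit 76) (nat_lit 5725484220250) (nat_lit 76) (nat_lit 5721530650593) (nat_lit 1) (nat_lit 4) (nat_lit 2) (nat_lit 5) (nat_lit 2) (nat_lit 4) (nat_lit 430) (nat_lit 338) (nat_lit 252))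 (XT.lf (nat_lit 0) (nat_lit 217698858977790) (nat_lit 76) (nat_lit 6565821443972) (nat_lit 76) (nat_lit 6561867871207) (nat_lit 1) (nat_lit 4) (nat_lit 2) (nat_lit 5) (nat_lit 2) (nat_lit 4) (nat_lit 431) (nat_lit 338) (nat_lit 251)))))) (XT.nd (nat_lit 46254) (nat_lit 0) (nat_lit 1824) (XT.nd (nat_lit 546) (nat_lit 0) (nat_lit 0) (XT.nd (nat_lit 78) (nat_lit 0) (nat_lit 0) (XT.lf (nat_lit 0) (nat_lit 250387653634307) (nat_lit 76) (nat_lit 7532209277542) (nat_lit 76) (nat_lit 7528255702075) (nat_lit 1) (nat_lit 4) (nat_lit 2) (nat_lit 5) (nat_lit 2) (nat_lit 4) (nat_lit 432) (nat_lit 338) (nat_lit 250)) (XT.nd (nat_lit 78) (nat_lit 0) (nat_lit 0) (XT.lf (nat_lit 0) (nat_lit 287979767445906) (nat_lit 76) (nat_lit 8643555309007) (nat_lit 76) (nat_lit 8639601731191) (nat_lit 1) (nat_lit 4) (nat_lit 2) (nat_lit 5) (nat_lit 2) (nat_lit 4) (nat_lit 433) (nat_lit 338) (nat_lit 249)) (XT.lf (nat_lit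 0) (nat_lit 331210698291507) (nat_lit 76) (nat_lit 9921603265071) (nat_lit 76) (nat_lit 9917649685212) (nat_lit 1) (nat_lit 4) (nat_lit 2) (nat_lit 5) (nat_lit 2) (nat_lit 4) (nat_lit 434) (nat_lit 338) (nat_lit 248)))) (XT.nd (nat_lit 45552) (nat_lit 0) (nat_lit 2812) (XT.lf (nat_lit 0) (nat_lit 666412027962911) (nat_lit 76) (nat_lit 19831253098284) (nat_lit 76) (nat_lit 19827299511576) (nat_lit 1) (nat_lit 4) (nat_lit 2) (nat_lit 5) (nat_lit 2) (nat_lit 4) (nat_lit 439) (nat_lit 338) (nat_lit 243)) (XT.nd (nat_lit 78) (nat_lit 76) (nat_lit 0) (XT.lf (nat_lit 0) (nat_lit 255949516) (nat_lit 76) (nat_lit 1503524977) (nat_lit 76) (nat_lit 1503524977) (nat_lit 39) (nat_lit 4) (nat_lit 40) (nat_lit 5) (nat_lit 40) (nat_lit 4) (nat_lit 342) (nat_lit 339) (nat_lit 339)) (XT.lf (nat_lit 0) (nat_lit 185312610) (nat_lit 152) (nat_lit 2000751490) (nat_lit 76) (nat_lit 4469620116) (nat_lit 38)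 (nat_lit 5) (nat_lit 40) (nat_lit 5) (nat_lit 39) (nat_lit 4) (nat_lit 343) (nat_lit 339) (nat_lit 338))))) (XT.nd (nat_lit 234) (nat_lit 532) (nat_lit 0) (XT.nd (nat_lit 78) (nat_lit 304) (nat_lit 0) (XT.lf (nat_lit 0) (nat_lit 2278405772) (nat_lit 152) (nat_lit 867555758) (nat_lit 228) (nat_lit 3698678279) (nat_lit 36) (nat_lit 5) (nat_lit 38) (nat_lit 5) (nat_lit 39) (nat_lit 4) (nat_lit 344) (nat_lit 339) (nat_lit 337)) (XT.nd (nat_lit 78) (nat_lit 304) (nat_lit 0) (XT.lf (nat_lit 0) (nat_lit 6242173438) (nat_lit 228) (nat_lit 102500183) (nat_lit 0) (nat_lit 764320007) (nat_lit 36) (nat_lit 5) (nat_lit 39) (nat_lit 4) (nat_lit 36) (nat_lit 4) (nat_lit 345) (nat_lit 339) (nat_lit 336)) (XT.lf (nat_lit 0) (nat_lit 2033390753) (nat_lit 304) (nat_lit 2477798605) (nat_lit 76) (nat_lit 2909103569) (nat_lit 32) (nat_lit 5) (nat_lit 36) (nat_lit 5) (nat_lit 33) (nat_lit 4) (nat_lit 346) (nat_lit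 339) (nat_lit 335)))) (XT.nd (nat_lit 78) (nat_lit 228) (nat_lit 0) (XT.lf (nat_lit 0) (nat_lit 2774742689) (nat_lit 304) (nat_lit 2256487409) (nat_lit 380) (nat_lit 2778673455) (nat_lit 28) (nat_lit 5) (nat_lit 32) (nat_lit 5) (nat_lit 33) (nat_lit 4) (nat_lit 347) (nat_lit 339) (nat_lit 334)) (XT.nd (nat_lit 78) (nat_lit 0) (nat_lit 0) (XT.lf (nat_lit 0) (nat_lit 20771897) (nat_lit 228) (nat_lit 7850671707) (nat_lit 76) (nat_lit 412580205) (nat_lit 25) (nat_lit 5) (nat_lit 28) (nat_lit 5) (nat_lit 26) (nat_lit 4) (nat_lit 348) (nat_lit 339) (nat_lit 333)) (XT.lf (nat_lit 0) (nat_lit 3011126306) (nat_lit 228) (nat_lit 2205703833) (nat_lit 76) (nat_lit 3584597912) (nat_lit 25) (nat_lit 5) (nat_lit 28) (nat_lit 5) (nat_lit 26) (nat_lit 4) (nat_lit 349) (nat_lit 339) (nat_lit 332))))))))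
noncomputable def xc45 : XT := (XT.nd (nat_lit 1794) (nat_lit 304) (nat_lit 0) (XT.nd (nat_lit 858) (nat_lit 684) (nat_lit 0) (XT.nd (nat_lit 390) (nat_lit 380) (nat_lit 0) (XT.nd (nat_lit 156) (nat_lit 152) (nat_lit 0) (XT.nd (nat_lit 78) (nat_lit 228) (nat_lit 0) (XT.lf (nat_lit 0) (nat_lit 4273754076) (nat_lit 76) (nat_lit 2068280502) (nat_lit 152) (nat_lit 3070899498) (nat_lit 24) (nat_lit 5) (nat_lit 25) (nat_lit 5) (nat_lit 26) (nat_lit 4) (nat_lit 350) (nat_lit 339) (nat_lit 331)) (XT.lf (nat_lit 0) (nat_lit 30749118) (nat_lit 228) (nat_lit 8590114865) (nat_lit 76) (nat_lit 1498268110) (nat_lit 21) (nat_lit 5) (nat_lit 24) (nat_lit 5) (nat_lit 22) (nat_lit 4) (nat_lit 351) (nat_lit 339) (nat_lit 330))) (XT.nd (nat_lit 78) (nat_lit 152) (nat_lit 0) (XT.lf (nat_lit 0) (nat_lit 3401900137) (nat_lit 228) (nat_lit 1790562874) (nat_lit 76) (nat_lit 5699254799) (nat_lit 21) (nat_lit 5)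 (nat_lit 24) (nat_lit 5) (nat_lit 22) (nat_lit 4) (nat_lit 352) (nat_lit 339) (nat_lit 329)) (XT.nd (nat_lit 78) (nat_lit 76) (nat_lit 0) (XT.lf (nat_lit 0) (nat_lit 6219969658) (nat_lit 76) (nat_lit 1089123649) (nat_lit 152) (nat_lit 4466709177) (nat_lit 20) (nat_lit 5) (nat_lit 21) (nat_lit 5) (nat_lit 22) (nat_lit 4) (nat_lit 353) (nat_lit 339) (nat_lit 328)) (XT.lf (nat_lit 0) (nat_lit 2554986486) (nat_lit 76) (nat_lit 9384077944) (nat_lit 76) (nat_lit 833075387) (nat_lit 19) (nat_lit 4) (nat_lit 20) (nat_lit 5) (nat_lit 20) (nat_lit 4) (nat_lit 354) (nat_lit 339) (nat_lit 327))))) (XT.nd (nat_lit 234) (nat_lit 152) (nat_lit 0) (XT.nd (nat_lit 78) (nat_lit 152) (nat_lit 0) (XT.lf (nat_lit 0) (nat_lit 3190231381) (nat_lit 152) (nat_lit 1948392221) (nat_lit 76) (nat_lit 8737261993) (nat_lit 18) (nat_lit 5) (nat_lit 20) (nat_lit 5) (nat_lit 19) (nat_lit 4) (nat_lit 355) (nat_lit 339)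 (nat_lit 326)) (XT.nd (nat_lit 78) (nat_lit 76) (nat_lit 0) (XT.lf (nat_lit 0) (nat_lit 7873927358) (nat_lit 152) (nat_lit 7222620800) (nat_lit 0) (nat_lit 21462118) (nat_lit 17) (nat_lit 5) (nat_lit 19) (nat_lit 4) (nat_lit 17) (nat_lit 4) (nat_lit 356) (nat_lit 339) (nat_lit 325)) (XT.lf (nat_lit 0) (nat_lit 2547644987) (nat_lit 76) (nat_lit 10989216427) (nat_lit 76) (nat_lit 2968172484) (nat_lit 16) (nat_lit 4) (nat_lit 17) (nat_lit 5) (nat_lit 17) (nat_lit 4) (nat_lit 357) (nat_lit 339) (nat_lit 324)))) (XT.nd (nat_lit 78) (nat_lit 76) (nat_lit 0) (XT.lf (nat_lit 0) (nat_lit 1993103744) (nat_lit 152) (nat_lit 3882461068) (nat_lit 76) (nat_lit 12179876924) (nat_lit 15) (nat_lit 5) (nat_lit 17) (nat_lit 5) (nat_lit 16) (nat_lit 4) (nat_lit 358) (nat_lit 339) (nat_lit 323)) (XT.nd (nat_lit 78) (nat_lit 0) (nat_lit 0) (XT.lf (nat_lit 0) (nat_lit 7587381938) (nat_lit 152) (nat_lit 11826729622)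 (nat_lit 0) (nat_lit 374248167) (nat_lit 14) (nat_lit 5) (nat_lit 16) (nat_lit 4) (nat_lit 14) (nat_lit 4) (nat_lit 359) (nat_lit 339) (nat_lit 322)) (XT.lf (nat_lit 0) (nat_lit 14361583457) (nat_lit 152) (nat_lit 316497792) (nat_lit 0) (nat_lit 7052064265) (nat_lit 14) (nat_lit 5) (nat_lit 16) (nat_lit 4) (nat_lit 14) (nat_lit 4) (nat_lit 360) (nat_lit 339) (nat_lit 321)))))) (XT.nd (nat_lit 468) (nat_lit 228) (nat_lit 0) (XT.nd (nat_lit 234) (nat_lit 228) (nat_lit 0) (XT.nd (nat_lit 78) (nat_lit 152) (nat_lit 0) (XT.lf (nat_lit 0) (nat_lit 13901395804) (nat_lit 76) (nat_lit 8694304669) (nat_lit 76) (nat_lit 1300972067) (nat_lit 13) (nat_lit 4) (nat_lit 14) (nat_lit 5) (nat_lit 14) (nat_lit 4) (nat_lit 361) (nat_lit 339) (nat_lit 320)) (XT.nd (nat_lit 78) (nat_lit 0) (nat_lit 0) (XT.lf (nat_lit 0) (nat_lit 3741464042) (nat_lit 76) (nat_lit 1471409384) (nat_lit 152) (nat_lit 21133851794)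 (nat_lit 11) (nat_lit 5) (nat_lit 12) (nat_lit 5) (nat_lit 13) (nat_lit 4) (nat_lit 362) (nat_lit 339) (nat_lit 319)) (XT.lf (nat_lit 0) (nat_lit 13272043471) (nat_lit 152) (nat_lit 9053185421) (nat_lit 0) (nat_lit 6724574945) (nat_lit 11) (nat_lit 5) (nat_lit 13) (nat_lit 4) (nat_lit 11) (nat_lit 4) (nat_lit 363) (nat_lit 339) (nat_lit 318)))) (XT.nd (nat_lit 78) (nat_lit 152) (nat_lit 0) (XT.lf (nat_lit 0) (nat_lit 6845436714) (nat_lit 76) (nat_lit 15936054897) (nat_lit 76) (nat_lit 9340665782) (nat_lit 10) (nat_lit 4) (nat_lit 11) (nat_lit 5) (nat_lit 11) (nat_lit 4) (nat_lit 364) (nat_lit 339) (nat_lit 317)) (XT.nd (nat_lit 78) (nat_lit 152) (nat_lit 0) (XT.lf (nat_lit 0) (nat_lit 25930936501) (nat_lit 76) (nat_lit 8153241957) (nat_lit 76) (nat_lit 1516182765) (nat_lit 10) (nat_lit 4) (nat_lit 11) (nat_lit 5) (nat_lit 11) (nat_lit 4) (nat_lit 365) (nat_lit 339) (nat_lit 316)) (XT.lf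 (nat_lit 0) (nat_lit 7132655191) (nat_lit 152) (nat_lit 31043876309) (nat_lit 0) (nat_lit 1329790807) (nat_lit 8) (nat_lit 5) (nat_lit 10) (nat_lit 4) (nat_lit 8) (nat_lit 4) (nat_lit 366) (nat_lit 339) (nat_lit 315))))) (XT.nd (nat_lit 234) (nat_lit 152) (nat_lit 0) (XT.nd (nat_lit 78) (nat_lit 76) (nat_lit 0) (XT.lf (nat_lit 0) (nat_lit 17745305210) (nat_lit 152) (nat_lit 14203756659) (nat_lit 0) (nat_lit 11915042074) (nat_lit 8) (nat_lit 5) (nat_lit 10) (nat_lit 4) (nat_lit 8) (nat_lit 4) (nat_lit 367) (nat_lit 339) (nat_lit 314)) (XT.nd (nat_lit 78) (nat_lit 0) (nat_lit 0) (XT.lf (nat_lit 0) (nat_lit 5478184846) (nat_lit 76) (nat_lit 24614985116) (nat_lit 76) (nat_lit 18760896978) (nat_lit 7) (nat_lit 4) (nat_lit 8) (nat_lit 5) (nat_lit 8) (nat_lit 4) (nat_lit 368) (nat_lit 339) (nat_lit 313)) (XT.lf (nat_lit 0) (nat_lit 29544637877) (nat_lit 76) (nat_lit 15411622650) (nat_lit 76)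 (nat_lit 9536817119) (nat_lit 7) (nat_lit 4) (nat_lit 8) (nat_lit 5) (nat_lit 8) (nat_lit 4) (nat_lit 369) (nat_lit 339) (nat_lit 312)))) (XT.nd (nat_lit 78) (nat_lit 76) (nat_lit 0) (XT.lf (nat_lit 0) (nat_lit 903177771) (nat_lit 152) (nat_lit 3950988446) (nat_lit 76) (nat_lit 56127984081) (nat_lit 6) (nat_lit 5) (nat_lit 8) (nat_lit 5) (nat_lit 7) (nat_lit 4) (nat_lit 370) (nat_lit 339) (nat_lit 311)) (XT.nd (nat_lit 78) (nat_lit 0) (nat_lit 0) (XT.lf (nat_lit 0) (nat_lit 13124326445) (nat_lit 152) (nat_lit 47086899976) (nat_lit 0) (nat_lit 7986512548) (nat_lit 5) (nat_lit 5) (nat_lit 7) (nat_lit 4) (nat_lit 5) (nat_lit 4) (nat_lit 371) (nat_lit 339) (nat_lit 310)) (XT.lf (nat_lit 0) (nat_lit 27563630972) (nat_lit 152) (nat_lit 26460321415) (nat_lit 0) (nat_lit 22413971839) (nat_lit 5) (nat_lit 5) (nat_lit 7) (nat_lit 4) (nat_lit 5) (nat_lit 4) (nat_lit 372) (nat_lit 339) (nat_lit 309)))))))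 (XT.nd (nat_lit 858) (nat_lit 0) (nat_lit 0) (XT.nd (nat_lit 390) (nat_lit 76) (nat_lit 0) (XT.nd (nat_lit 156) (nat_lit 152) (nat_lit 0) (XT.nd (nat_lit 78) (nat_lit 76) (nat_lit 0) (XT.lf (nat_lit 0) (nat_lit 44114456506) (nat_lit 152) (nat_lit 2853344856) (nat_lit 0) (nat_lit 38954497167) (nat_lit 5) (nat_lit 5) (nat_lit 7) (nat_lit 4) (nat_lit 5) (nat_lit 4) (nat_lit 373) (nat_lit 339) (nat_lit 308)) (XT.lf (nat_lit 0) (nat_lit 26560505165) (nat_lit 76) (nat_lit 37639932259) (nat_lit 76) (nat_lit 32471016220) (nat_lit 4) (nat_lit 4) (nat_lit 5) (nat_lit 5) (nat_lit 5) (nat_lit 4) (nat_lit 374) (nat_lit 339) (nat_lit 307))) (XT.nd (nat_lit 78) (nat_lit 152) (nat_lit 0) (XT.lf (nat_lit 0) (nat_lit 60612826561) (nat_lit 76) (nat_lit 26790621909) (nat_lit 76) (nat_lit 21613917434) (nat_lit 4) (nat_lit 4) (nat_lit 5) (nat_lit 5) (nat_lit 5) (nat_lit 4) (nat_lit 375) (nat_lit 339) (nat_lit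 306)) (XT.nd (nat_lit 78) (nat_lit 152) (nat_lit 0) (XT.lf (nat_lit 0) (nat_lit 99691010790) (nat_lit 76) (nat_lit 14356753313) (nat_lit 76) (nat_lit 9173276286) (nat_lit 4) (nat_lit 4) (nat_lit 5) (nat_lit 5) (nat_lit 5) (nat_lit 4) (nat_lit 376) (nat_lit 339) (nat_lit 305)) (XT.lf (nat_lit 0) (nat_lit 4874904049) (nat_lit 152) (nat_lit 134256299081) (nat_lit 0) (nat_lit 362411698) (nat_lit 2) (nat_lit 5) (nat_lit 4) (nat_lit 4) (nat_lit 2) (nat_lit 4) (nat_lit 377) (nat_lit 339) (nat_lit 304))))) (XT.nd (nat_lit 234) (nat_lit 76) (nat_lit 0) (XT.nd (nat_lit 78) (nat_lit 0) (nat_lit 0) (XT.lf (nat_lit 0) (nat_lit 22027829302) (nat_lit 152) (nat_lit 118312338034) (nat_lit 0) (nat_lit 17510883888) (nat_lit 2) (nat_lit 5) (nat_lit 4) (nat_lit 4) (nat_lit 2) (nat_lit 4) (nat_lit 378) (nat_lit 339) (nat_lit 303)) (XT.nd (nat_lit 78) (nat_lit 0) (nat_lit 0) (XT.lf (nat_lit 0) (nat_lit 41722808534)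 (nat_lit 152) (nat_lit 100041938277) (nat_lit 0) (nat_lit 37201990891) (nat_lit 2) (nat_lit 5) (nat_lit 4) (nat_lit 4) (nat_lit 2) (nat_lit 4) (nat_lit 379) (nat_lit 339) (nat_lit 302)) (XT.lf (nat_lit 0) (nat_lit 64345178295) (nat_lit 152) (nat_lit 79087635468) (nat_lit 0) (nat_lit 59820993497) (nat_lit 2) (nat_lit 5) (nat_lit 4) (nat_lit 4) (nat_lit 2) (nat_lit 4) (nat_lit 380) (nat_lit 339) (nat_lit 301)))) (XT.nd (nat_lit 78) (nat_lit 76) (nat_lit 0) (XT.lf (nat_lit 0) (nat_lit 90337550167) (nat_lit 152) (nat_lit 55039454116) (nat_lit 0) (nat_lit 85810437407) (nat_lit 2) (nat_lit 5) (nat_lit 4) (nat_lit 4) (nat_lit 2) (nat_lit 4) (nat_lit 381) (nat_lit 339) (nat_lit 300)) (XT.nd (nat_lit 78) (nat_lit 76) (nat_lit 0) (XT.lf (nat_lit 0) (nat_lit 120208470557) (nat_lit 152) (nat_lit 27426886326) (nat_lit 0) (nat_lit 115678811744) (nat_lit 2) (nat_lit 5) (nat_lit 4) (nat_lit 4) (nat_lit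 2) (nat_lit 4) (nat_lit 382) (nat_lit 339) (nat_lit 299)) (XT.lf (nat_lit 0) (nat_lit 4709594460) (nat_lit 76) (nat_lit 150027790318) (nat_lit 76) (nat_lit 145495917546) (nat_lit 1) (nat_lit 4) (nat_lit 2) (nat_lit 5) (nat_lit 2) (nat_lit 4) (nat_lit 383) (nat_lit 339) (nat_lit 298)))))) (XT.nd (nat_lit 468) (nat_lit 0) (nat_lit 0) (XT.nd (nat_lit 234) (nat_lit 0) (nat_lit 0) (XT.nd (nat_lit 78) (nat_lit 0) (nat_lit 0) (XT.lf (nat_lit 0) (nat_lit 44713395857) (nat_lit 76) (nat_lit 151149090772) (nat_lit 76) (nat_lit 146615292818) (nat_lit 1) (nat_lit 4) (nat_lit 2) (nat_lit 5) (nat_lit 2) (nat_lit 4) (nat_lit 384) (nat_lit 339) (nat_lit 297)) (XT.nd (nat_lit 78) (nat_lit 0) (nat_lit 0) (XT.lf (nat_lit 0) (nat_lit 90686846135) (nat_lit 76) (nat_lit 152454874882) (nat_lit 76) (nat_lit 147919402856) (nat_lit 1) (nat_lit 4) (nat_lit 2) (nat_lit 5) (nat_lit 2) (nat_lit 4) (nat_lit 385) (nat_lit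 339) (nat_lit 296)) (XT.lf (nat_lit 0) (nat_lit 143529425843) (nat_lit 76) (nat_lit 153970690596) (nat_lit 76) (nat_lit 149433762856) (nat_lit 1) (nat_lit 4) (nat_lit 2) (nat_lit 5) (nat_lit 2) (nat_lit 4) (nat_lit 386) (nat_lit 339) (nat_lit 295)))) (XT.nd (nat_lit 78) (nat_lit 0) (nat_lit 0) (XT.lf (nat_lit 0) (nat_lit 204275011540) (nat_lit 76) (nat_lit 155726195179) (nat_lit 76) (nat_lit 151188001601) (nat_lit 1) (nat_lit 4) (nat_lit 2) (nat_lit 5) (nat_lit 2) (nat_lit 4) (nat_lit 387) (nat_lit 339) (nat_lit 294)) (XT.nd (nat_lit 78) (nat_lit 0) (nat_lit 0) (XT.lf (nat_lit 0) (nat_lit 274112103817) (nat_lit 76) (nat_lit 157755735460) (nat_lit 76) (nat_lit 153216441152) (nat_lit 1) (nat_lit 4) (nat_lit 2) (nat_lit 5) (nat_lit 2) (nat_lit 4) (nat_lit 388) (nat_lit 339) (nat_lit 293)) (XT.lf (nat_lit 0) (nat_lit 354407080565) (nat_lit 76) (nat_lit 160099019836) (nat_lit 76) (nat_lit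 155558768372) (nat_lit 1) (nat_lit 4) (nat_lit 2) (nat_lit 5) (nat_lit 2) (nat_lit 4) (nat_lit 389) (nat_lit 339) (nat_lit 292))))) (XT.nd (nat_lit 234) (nat_lit 0) (nat_lit 0) (XT.nd (nat_lit 78) (nat_lit 0) (nat_lit 0) (XT.lf (nat_lit 0) (nat_lit 446730930460) (nat_lit 76) (nat_lit 162801895174) (nat_lit 76) (nat_lit 158260811402) (nat_lit 1) (nat_lit 4) (nat_lit 2) (nat_lit 5) (nat_lit 2) (nat_lit 4) (nat_lit 390) (nat_lit 339) (nat_lit 291)) (XT.nd (nat_lit 78) (nat_lit 0) (nat_lit 0) (XT.lf (nat_lit 0) (nat_lit 552889989696) (nat_lit 76) (nat_lit 165917243819) (nat_lit 76) (nat_lit 161375436299) (nat_lit 1) (nat_lit 4) (nat_lit 2) (nat_lit 5) (nat_lit 2) (nat_lit 4) (nat_lit 391) (nat_lit 339) (nat_lit 290)) (XT.lf (nat_lit 0) (nat_lit 674961283345) (nat_lit 76) (nat_lit 169506018244) (nat_lit 76) (nat_lit 164963581378) (nat_lit 1) (nat_lit 4) (nat_lit 2) (nat_lit 5) (nat_lit 2)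 (nat_lit 4) (nat_lit 392) (nat_lit 339) (nat_lit 289)))) (XT.nd (nat_lit 78) (nat_lit 0) (nat_lit 0) (XT.lf (nat_lit 0) (nat_lit 815333162804) (nat_lit 76) (nat_lit 173638433600) (nat_lit 76) (nat_lit 169095449478) (nat_lit 1) (nat_lit 4) (nat_lit 2) (nat_lit 5) (nat_lit 2) (nat_lit 4) (nat_lit 393) (nat_lit 339) (nat_lit 288)) (XT.nd (nat_lit 78) (nat_lit 0) (nat_lit 0) (XT.lf (nat_lit 0) (nat_lit 976752034411) (nat_lit 76) (nat_lit 178395341493) (nat_lit 76) (nat_lit 173851881495) (nat_lit 1) (nat_lit 4) (nat_lit 2) (nat_lit 5) (nat_lit 2) (nat_lit 4) (nat_lit 394) (nat_lit 339) (nat_lit 287)) (XT.lf (nat_lit 0) (nat_lit 1162376093479) (nat_lit 76) (nat_lit 183869811860) (nat_lit 76) (nat_lit 179325938057) (nat_lit 1) (nat_lit 4) (nat_lit 2) (nat_lit 5) (nat_lit 2) (nat_lit 4) (nat_lit 395) (nat_lit 339) (nat_lit 286))))))))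
noncomputable def xc46 : XT := (XT.nd (nat_lit 1794) (nat_lit 0) (nat_lit 0) (XT.nd (nat_lit 858) (nat_lit 0) (nat_lit 0) (XT.nd (nat_lit 390) (nat_lit 0) (nat_lit 0) (XT.nd (nat_lit 156) (nat_lit 0) (nat_lit 0) (XT.nd (nat_lit 78) (nat_lit 0) (nat_lit 0) (XT.lf (nat_lit 0) (nat_lit 1375837115077) (nat_lit 76) (nat_lit 190168953902) (nat_lit 76) (nat_lit 185624720269) (nat_lit 1) (nat_lit 4) (nat_lit 2) (nat_lit 5) (nat_lit 2) (nat_lit 4) (nat_lit 396) (nat_lit 339) (nat_lit 285)) (XT.lf (nat_lit 0) (nat_lit 1621311510497) (nat_lit 76) (nat_lit 197416011705) (nat_lit 76) (nat_lit 192871465176) (nat_lit 1) (nat_lit 4) (nat_lit 2) (nat_lit 5) (nat_lit 2) (nat_lit 4) (nat_lit 397) (nat_lit 339) (nat_lit 284))) (XT.nd (nat_lit 78) (nat_lit 0) (nat_lit 0) (XT.lf (nat_lit 0) (nat_lit 1903602039650) (nat_lit 76) (nat_lit 205752775528) (nat_lit 76) (nat_lit 201207956916) (nat_lit 1) (nat_lit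 4) (nat_lit 2) (nat_lit 5) (nat_lit 2) (nat_lit 4) (nat_lit 398) (nat_lit 339) (nat_lit 283)) (XT.nd (nat_lit 78) (nat_lit 0) (nat_lit 0) (XT.lf (nat_lit 0) (nat_lit 2228231778107) (nat_lit 76) (nat_lit 215342355969) (nat_lit 76) (nat_lit 210797300763) (nat_lit 1) (nat_lit 4) (nat_lit 2) (nat_lit 5) (nat_lit 2) (nat_lit 4) (nat_lit 399) (nat_lit 339) (nat_lit 282)) (XT.lf (nat_lit 0) (nat_lit 2601552177271) (nat_lit 76) (nat_lit 226372375254) (nat_lit 76) (nat_lit 221827114313) (nat_lit 1) (nat_lit 4) (nat_lit 2) (nat_lit 5) (nat_lit 2) (nat_lit 4) (nat_lit 400) (nat_lit 339) (nat_lit 281))))) (XT.nd (nat_lit 234) (nat_lit 0) (nat_lit 0) (XT.nd (nat_lit 78) (nat_lit 0) (nat_lit 0) (XT.lf (nat_lit 0) (nat_lit 3030867331909) (nat_lit 76) (nat_lit 239058638108) (nat_lit 76) (nat_lit 234513198268) (nat_lit 1) (nat_lit 4) (nat_lit 2) (nat_lit 5) (nat_lit 2) (nat_lit 4) (nat_lit 401) (nat_lit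 339) (nat_lit 280)) (XT.nd (nat_lit 78) (nat_lit 0) (nat_lit 0) (XT.lf (nat_lit 0) (nat_lit 3524576886351) (nat_lit 76) (nat_lit 253649354021) (nat_lit 76) (nat_lit 249103758616) (nat_lit 1) (nat_lit 4) (nat_lit 2) (nat_lit 5) (nat_lit 2) (nat_lit 4) (nat_lit 402) (nat_lit 339) (nat_lit 279)) (XT.lf (nat_lit 0) (nat_lit 4092340375357) (nat_lit 76) (nat_lit 270429993522) (nat_lit 76) (nat_lit 265884262844) (nat_lit 1) (nat_lit 4) (nat_lit 2) (nat_lit 5) (nat_lit 2) (nat_lit 4) (nat_lit 403) (nat_lit 339) (nat_lit 278)))) (XT.nd (nat_lit 78) (nat_lit 0) (nat_lit 0) (XT.lf (nat_lit 0) (nat_lit 4745266215017) (nat_lit 76) (nat_lit 289728873472) (nat_lit 76) (nat_lit 285183025164) (nat_lit 1) (nat_lit 4) (nat_lit 2) (nat_lit 5) (nat_lit 2) (nat_lit 4) (nat_lit 404) (nat_lit 339) (nat_lit 277)) (XT.nd (nat_lit 78) (nat_lit 0) (nat_lit 0) (XT.lf (nat_lit 0) (nat_lit 5496129041325) (nat_lit 76)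 (nat_lit 311923580651) (nat_lit 76) (nat_lit 307377630057) (nat_lit 1) (nat_lit 4) (nat_lit 2) (nat_lit 5) (nat_lit 2) (nat_lit 4) (nat_lit 405) (nat_lit 339) (nat_lit 276)) (XT.lf (nat_lit 0) (nat_lit 6359619648708) (nat_lit 76) (nat_lit 337448359330) (nat_lit 76) (nat_lit 332902319792) (nat_lit 1) (nat_lit 4) (nat_lit 2) (nat_lit 5) (nat_lit 2) (nat_lit 4) (nat_lit 406) (nat_lit 339) (nat_lit 275)))))) (XT.nd (nat_lit 468) (nat_lit 0) (nat_lit 0) (XT.nd (nat_lit 234) (nat_lit 0) (nat_lit 0) (XT.nd (nat_lit 78) (nat_lit 0) (nat_lit 0) (XT.lf (nat_lit 0) (nat_lit 7352632418614) (nat_lit 76) (nat_lit 366802607354) (nat_lit 76) (nat_lit 362256490472) (nat_lit 1) (nat_lit 4) (nat_lit 2) (nat_lit 5) (nat_lit 2) (nat_lit 4) (nat_lit 407) (nat_lit 339) (nat_lit 274)) (XT.nd (nat_lit 78) (nat_lit 0) (nat_lit 0) (XT.lf (nat_lit 0) (nat_lit 8494595861760) (nat_lit 76) (nat_lit 400560646966) (nat_lit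 76) (nat_lit 396014462829) (nat_lit 1) (nat_lit 4) (nat_lit 2) (nat_lit 5) (nat_lit 2) (nat_lit 4) (nat_lit 408) (nat_lit 339) (nat_lit 273)) (XT.lf (nat_lit 0) (nat_lit 9807852741163) (nat_lit 76) (nat_lit 439382961549) (nat_lit 76) (nat_lit 434836718931) (nat_lit 1) (nat_lit 4) (nat_lit 2) (nat_lit 5) (nat_lit 2) (nat_lit 4) (nat_lit 409) (nat_lit 339) (nat_lit 272)))) (XT.nd (nat_lit 78) (nat_lit 0) (nat_lit 0) (XT.lf (nat_lit 0) (nat_lit 11318097213160) (nat_lit 76) (nat_lit 484029118129) (nat_lit 76) (nat_lit 479482824656) (nat_lit 1) (nat_lit 4) (nat_lit 2) (nat_lit 5) (nat_lit 2) (nat_lit 4) (nat_lit 410) (nat_lit 339) (nat_lit 271)) (XT.nd (nat_lit 78) (nat_lit 0) (nat_lit 0) (XT.lf (nat_lit 0) (nat_lit 13054877539160) (nat_lit 76) (nat_lit 535372628465) (nat_lit 76) (nat_lit 530826290771) (nat_lit 1) (nat_lit 4) (nat_lit 2) (nat_lit 5) (nat_lit 2) (nat_lit 4) (nat_lit 411) (nat_lit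 339) (nat_lit 270)) (XT.lf (nat_lit 0) (nat_lit 15052174203800) (nat_lit 76) (nat_lit 594418039497) (nat_lit 76) (nat_lit 589871663350) (nat_lit 1) (nat_lit 4) (nat_lit 2) (nat_lit 5) (nat_lit 2) (nat_lit 4) (nat_lit 412) (nat_lit 339) (nat_lit 269))))) (XT.nd (nat_lit 234) (nat_lit 0) (nat_lit 0) (XT.nd (nat_lit 78) (nat_lit 0) (nat_lit 0) (XT.lf (nat_lit 0) (nat_lit 17349064750521) (nat_lit 76) (nat_lit 662320587529) (nat_lit 76) (nat_lit 657774177944) (nat_lit 1) (nat_lit 4) (nat_lit 2) (nat_lit 5) (nat_lit 2) (nat_lit 4) (nat_lit 413) (nat_lit 339) (nat_lit 268)) (XT.nd (nat_lit 78) (nat_lit 0) (nat_lit 0) (XT.lf (nat_lit 0) (nat_lit 19990488342192) (nat_lit 76) (nat_lit 740408800674) (nat_lit 76) (nat_lit 735862362013) (nat_lit 1) (nat_lit 4) (nat_lit 2) (nat_lit 5) (nat_lit 2) (nat_lit 4) (nat_lit 414) (nat_lit 339) (nat_lit 267)) (XT.lf (nat_lit 0) (nat_lit 23028125005607) (nat_lit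 76) (nat_lit 830210491799) (nat_lit 76) (nat_lit 825664027854) (nat_lit 1) (nat_lit 4) (nat_lit 2) (nat_lit 5) (nat_lit 2) (nat_lit 4) (nat_lit 415) (nat_lit 339) (nat_lit 266)))) (XT.nd (nat_lit 78) (nat_lit 0) (nat_lit 0) (XT.lf (nat_lit 0) (nat_lit 26521406762442) (nat_lit 76) (nat_lit 933482650512) (nat_lit 76) (nat_lit 928936164581) (nat_lit 1) (nat_lit 4) (nat_lit 2) (nat_lit 5) (nat_lit 2) (nat_lit 4) (nat_lit 416) (nat_lit 339) (nat_lit 265)) (XT.nd (nat_lit 78) (nat_lit 0) (nat_lit 0) (XT.lf (nat_lit 0) (nat_lit 30538680429678) (nat_lit 76) (nat_lit 1052245819048) (nat_lit 76) (nat_lit 1047699314000) (nat_lit 1) (nat_lit 4) (nat_lit 2) (nat_lit 5) (nat_lit 2) (nat_lit 4) (nat_lit 417) (nat_lit 339) (nat_lit 264)) (XT.lf (nat_lit 0) (nat_lit 35158544839935) (nat_lit 76) (nat_lit 1188823624619) (nat_lit 76) (nat_lit 1184277102947) (nat_lit 1) (nat_lit 4) (nat_lit 2) (nat_lit 5)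 (nat_lit 2) (nat_lit 4) (nat_lit 418) (nat_lit 339) (nat_lit 263))))))) (XT.nd (nat_lit 858) (nat_lit 0) (nat_lit 0) (XT.nd (nat_lit 390) (nat_lit 0) (nat_lit 0) (XT.nd (nat_lit 156) (nat_lit 0) (nat_lit 0) (XT.nd (nat_lit 78) (nat_lit 0) (nat_lit 0) (XT.lf (nat_lit 0) (nat_lit 40471388644718) (nat_lit 76) (nat_lit 1345888241681) (nat_lit 76) (nat_lit 1341341705553) (nat_lit 1) (nat_lit 4) (nat_lit 2) (nat_lit 5) (nat_lit 2) (nat_lit 4) (nat_lit 419) (nat_lit 339) (nat_lit 262)) (XT.lf (nat_lit 0) (nat_lit 46581158788034) (nat_lit 76) (nat_lit 1526512673612) (nat_lit 76) (nat_lit 1521966124913) (nat_lit 1) (nat_lit 4) (nat_lit 2) (nat_lit 5) (nat_lit 2) (nat_lit 4) (nat_lit 420) (nat_lit 339) (nat_lit 261))) (XT.nd (nat_lit 78) (nat_lit 0) (nat_lit 0) (XT.lf (nat_lit 0) (nat_lit 53607394250947) (nat_lit 76) (nat_lit 1734230876688) (nat_lit 76) (nat_lit 1729684317058) (nat_lit 1) (nat_lit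 4) (nat_lit 2) (nat_lit 5) (nat_lit 2) (nat_lit 4) (nat_lit 421) (nat_lit 339) (nat_lit 260)) (XT.nd (nat_lit 78) (nat_lit 0) (nat_lit 0) (XT.lf (nat_lit 0) (nat_lit 61687564857733) (nat_lit 76) (nat_lit 1973106902709) (nat_lit 76) (nat_lit 1968560333574) (nat_lit 1) (nat_lit 4) (nat_lit 2) (nat_lit 5) (nat_lit 2) (nat_lit 4) (nat_lit 422) (nat_lit 339) (nat_lit 259)) (XT.lf (nat_lit 0) (nat_lit 70979760902871) (nat_lit 76) (nat_lit 2247814413053) (nat_lit 76) (nat_lit 2243267835653) (nat_lit 1) (nat_lit 4) (nat_lit 2) (nat_lit 5) (nat_lit 2) (nat_lit 4) (nat_lit 423) (nat_lit 339) (nat_lit 258))))) (XT.nd (nat_lit 234) (nat_lit 0) (nat_lit 0) (XT.nd (nat_lit 78) (nat_lit 0) (nat_lit 0) (XT.lf (nat_lit 0) (nat_lit 81665786222027) (nat_lit 76) (nat_lit 2563728119879) (nat_lit 76) (nat_lit 2559181535292) (nat_lit 1) (nat_lit 4) (nat_lit 2) (nat_lit 5) (nat_lit 2) (nat_lit 4) (nat_lit 424)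 (nat_lit 339) (nat_lit 257)) (XT.nd (nat_lit 78) (nat_lit 0) (nat_lit 0) (XT.lf (nat_lit 0) (nat_lit 93954715223620) (nat_lit 76) (nat_lit 2927028943539) (nat_lit 76) (nat_lit 2922482352702) (nat_lit 1) (nat_lit 4) (nat_lit 2) (nat_lit 5) (nat_lit 2) (nat_lit 4) (nat_lit 425) (nat_lit 339) (nat_lit 256)) (XT.lf (nat_lit 0) (nat_lit 108086983475072) (nat_lit 76) (nat_lit 3344824943625) (nat_lit 76) (nat_lit 3340278347353) (nat_lit 1) (nat_lit 4) (nat_lit 2) (nat_lit 5) (nat_lit 2) (nat_lit 4) (nat_lit 426) (nat_lit 339) (nat_lit 255)))) (XT.nd (nat_lit 78) (nat_lit 0) (nat_lit 0) (XT.lf (nat_lit 0) (nat_lit 124339091876955) (nat_lit 76) (nat_lit 3825290389704) (nat_lit 76) (nat_lit 3820743788707) (nat_lit 1) (nat_lit 4) (nat_lit 2) (nat_lit 5) (nat_lit 2) (nat_lit 4) (nat_lit 427) (nat_lit 339) (nat_lit 254)) (XT.nd (nat_lit 78) (nat_lit 0) (nat_lit 0) (XT.lf (nat_lit 0) (nat_lit 143029016463219)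 (nat_lit 76) (nat_lit 4377825692679) (nat_lit 76) (nat_lit 4373279087573) (nat_lit 1) (nat_lit 4) (nat_lit 2) (nat_lit 5) (nat_lit 2) (nat_lit 4) (nat_lit 428) (nat_lit 339) (nat_lit 253)) (XT.lf (nat_lit 0) (nat_lit 164522429671421) (nat_lit 76) (nat_lit 5013241325868) (nat_lit 76) (nat_lit 5008694717188) (nat_lit 1) (nat_lit 4) (nat_lit 2) (nat_lit 5) (nat_lit 2) (nat_lit 4) (nat_lit 429) (nat_lit 339) (nat_lit 252)))))) (XT.nd (nat_lit 624) (nat_lit 0) (nat_lit 0) (XT.nd (nat_lit 234) (nat_lit 0) (nat_lit 0) (XT.nd (nat_lit 78) (nat_lit 0) (nat_lit 0) (XT.lf (nat_lit 0) (nat_lit 189239854803461) (nat_lit 76) (nat_lit 5743969334268) (nat_lit 76) (nat_lit 5739422722481) (nat_lit 1) (nat_lit 4) (nat_lit 2) (nat_lit 5) (nat_lit 2) (nat_lit 4) (nat_lit 430) (nat_lit 339) (nat_lit 251)) (XT.nd (nat_lit 78) (nat_lit 0) (nat_lit 0) (XT.lf (nat_lit 0) (nat_lit 217664893655400) (nat_lit 76)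 (nat_lit 6584306570217) (nat_lit 76) (nat_lit 6579759955728) (nat_lit 1) (nat_lit 4) (nat_lit 2) (nat_lit 5) (nat_lit 2) (nat_lit 4) (nat_lit 431) (nat_lit 339) (nat_lit 250)) (XT.lf (nat_lit 0) (nat_lit 250353688291733) (nat_lit 76) (nat_lit 7550694414420) (nat_lit 76) (nat_lit 7546147797581) (nat_lit 1) (nat_lit 4) (nat_lit 2) (nat_lit 5) (nat_lit 2) (nat_lit 4) (nat_lit 432) (nat_lit 339) (nat_lit 249)))) (XT.nd (nat_lit 78) (nat_lit 0) (nat_lit 0) (XT.lf (nat_lit 0) (nat_lit 287945802085780) (nat_lit 76) (nat_lit 8662040455131) (nat_lit 76) (nat_lit 8657493836250) (nat_lit 1) (nat_lit 4) (nat_lit 2) (nat_lit 5) (nat_lit 2) (nat_lit 4) (nat_lit 433) (nat_lit 339) (nat_lit 248)) (XT.nd (nat_lit 78) (nat_lit 0) (nat_lit 0) (XT.lf (nat_lit 0) (nat_lit 331176732916118) (nat_lit 76) (nat_lit 9940088419235) (nat_lit 76) (nat_lit 9935541798577) (nat_lit 1) (nat_lit 4) (nat_lit 2) (nat_lit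 5) (nat_lit 2) (nat_lit 4) (nat_lit 434) (nat_lit 339) (nat_lit 247)) (XT.lf (nat_lit 0) (nat_lit 380892303342474) (nat_lit 76) (nat_lit 11409843592986) (nat_lit 76) (nat_lit 11405296970783) (nat_lit 1) (nat_lit 4) (nat_lit 2) (nat_lit 5) (nat_lit 2) (nat_lit 4) (nat_lit 435) (nat_lit 339) (nat_lit 246))))) (XT.nd (nat_lit 45552) (nat_lit 0) (nat_lit 2812) (XT.nd (nat_lit 78) (nat_lit 0) (nat_lit 0) (XT.lf (nat_lit 0) (nat_lit 579425219242511) (nat_lit 76) (nat_lit 17279127239669) (nat_lit 76) (nat_lit 17274580613939) (nat_lit 1) (nat_lit 4) (nat_lit 2) (nat_lit 5) (nat_lit 2) (nat_lit 4) (nat_lit 438) (nat_lit 339) (nat_lit 243)) (XT.nd (nat_lit 45396) (nat_lit 0) (nat_lit 3040) (XT.lf (nat_lit 0) (nat_lit 666378062536360) (nat_lit 76) (nat_lit 19849738279398) (nat_lit 76) (nat_lit 19845191652784) (nat_lit 1) (nat_lit 4) (nat_lit 2) (nat_lit 5) (nat_lit 2) (nat_lit 4) (nat_lit 439) (nat_lit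 339) (nat_lit 242)) (XT.lf (nat_lit 0) (nat_lit 1073741823) (nat_lit 0) (nat_lit 0) (nat_lit 0) (nat_lit 0) (nat_lit 41) (nat_lit 0) (nat_lit 1) (nat_lit 0) (nat_lit 1) (nat_lit 0) (nat_lit 340) (nat_lit 340) (nat_lit 340)))) (XT.nd (nat_lit 78) (nat_lit 152) (nat_lit 0) (XT.lf (nat_lit 0) (nat_lit 3041523773) (nat_lit 76) (nat_lit 3138790777) (nat_lit 0) (nat_lit 282474130) (nat_lit 40) (nat_lit 5) (nat_lit 41) (nat_lit 0) (nat_lit 40) (nat_lit 4) (nat_lit 341) (nat_lit 340) (nat_lit 339)) (XT.nd (nat_lit 78) (nat_lit 76) (nat_lit 0) (XT.lf (nat_lit 0) (nat_lit 326629231) (nat_lit 76) (nat_lit 5698068093) (nat_lit 76) (nat_lit 539844847) (nat_lit 39) (nat_lit 4) (nat_lit 40) (nat_lit 5) (nat_lit 40) (nat_lit 4) (nat_lit 342) (nat_lit 340) (nat_lit 338)) (XT.lf (nat_lit 0) (nat_lit 2201685260) (nat_lit 152) (nat_lit 2510837852) (nat_lit 76) (nat_lit 2001472192) (nat_lit 38) (nat_lit 5)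 (nat_lit 40) (nat_lit 5) (nat_lit 39) (nat_lit 4) (nat_lit 343) (nat_lit 340) (nat_lit 337))))))))
noncomputable def xc47 : XT := (XT.nd (nat_lit 1794) (nat_lit 684) (nat_lit 0) (XT.nd (nat_lit 858) (nat_lit 760) (nat_lit 0) (XT.nd (nat_lit 390) (nat_lit 532) (nat_lit 0) (XT.nd (nat_lit 156) (nat_lit 608) (nat_lit 0) (XT.nd (nat_lit 78) (nat_lit 76) (nat_lit 0) (XT.lf (nat_lit 0) (nat_lit 1542727143) (nat_lit 152) (nat_lit 3388113894) (nat_lit 228) (nat_lit 2007194172) (nat_lit 36) (nat_lit 5) (nat_lit 38) (nat_lit 5) (nat_lit 39) (nat_lit 4) (nat_lit 344) (nat_lit 340) (nat_lit 336)) (XT.lf (nat_lit 0) (nat_lit 524802562) (nat_lit 228) (nat_lit 1100990855) (nat_lit 76) (nat_lit 5605712555) (nat_lit 35) (nat_lit 5) (nat_lit 38) (nat_lit 5) (nat_lit 36) (nat_lit 5) (nat_lit 345) (nat_lit 340) (nat_lit 335))) (XT.nd (nat_lit 78) (nat_lit 380) (nat_lit 0) (XT.lf (nat_lit 0) (nat_lit 3061269949)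 (nat_lit 304) (nat_lit 3859845236) (nat_lit 76) (nat_lit 659529026) (nat_lit 32) (nat_lit 5) (nat_lit 36) (nat_lit 5) (nat_lit 33) (nat_lit 4) (nat_lit 346) (nat_lit 340) (nat_lit 334)) (XT.nd (nat_lit 78) (nat_lit 76) (nat_lit 0) (XT.lf (nat_lit 0) (nat_lit 1076035243) (nat_lit 304) (nat_lit 4763425140) (nat_lit 380) (nat_lit 2163947816) (nat_lit 28) (nat_lit 5) (nat_lit 32) (nat_lit 5) (nat_lit 33) (nat_lit 4) (nat_lit 347) (nat_lit 340) (nat_lit 333)) (XT.lf (nat_lit 0) (nat_lit 400149699) (nat_lit 380) (nat_lit 1675292074) (nat_lit 76) (nat_lit 6425517403) (nat_lit 27) (nat_lit 5) (nat_lit 32) (nat_lit 5) (nat_lit 28) (nat_lit 5) (nat_lit 348) (nat_lit 340) (nat_lit 332))))) (XT.nd (nat_lit 234) (nat_lit 304) (nat_lit 0) (XT.nd (nat_lit 78) (nat_lit 76) (nat_lit 0) (XT.lf (nat_lit 0) (nat_lit 3092246193) (nat_lit 228) (nat_lit 4799528867) (nat_lit 76) (nat_lit 1171462511) (nat_lit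 25) (nat_lit 5) (nat_lit 28) (nat_lit 5) (nat_lit 26) (nat_lit 4) (nat_lit 349) (nat_lit 340) (nat_lit 331)) (XT.nd (nat_lit 78) (nat_lit 0) (nat_lit 0) (XT.lf (nat_lit 0) (nat_lit 1252077536) (nat_lit 76) (nat_lit 4930701413) (nat_lit 152) (nat_lit 3528138771) (nat_lit 24) (nat_lit 5) (nat_lit 25) (nat_lit 5) (nat_lit 26) (nat_lit 4) (nat_lit 350) (nat_lit 340) (nat_lit 330)) (XT.lf (nat_lit 0) (nat_lit 8424841516) (nat_lit 76) (nat_lit 1333960729) (nat_lit 152) (nat_lit 693881280) (nat_lit 24) (nat_lit 5) (nat_lit 25) (nat_lit 5) (nat_lit 26) (nat_lit 4) (nat_lit 351) (nat_lit 340) (nat_lit 329)))) (XT.nd (nat_lit 78) (nat_lit 76) (nat_lit 0) (XT.lf (nat_lit 0) (nat_lit 2481575483) (nat_lit 228) (nat_lit 5973313591) (nat_lit 76) (nat_lit 2813387697) (nat_lit 21) (nat_lit 5) (nat_lit 24) (nat_lit 5) (nat_lit 22) (nat_lit 4) (nat_lit 352) (nat_lit 340) (nat_lit 328)) (XT.nd (nat_lit 78)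 (nat_lit 0) (nat_lit 0) (XT.lf (nat_lit 0) (nat_lit 1467421869) (nat_lit 76) (nat_lit 4632668705) (nat_lit 152) (nat_lit 6095639933) (nat_lit 20) (nat_lit 5) (nat_lit 21) (nat_lit 5) (nat_lit 22) (nat_lit 4) (nat_lit 353) (nat_lit 340) (nat_lit 327)) (XT.lf (nat_lit 0) (nat_lit 10389586675) (nat_lit 152) (nat_lit 2848909588) (nat_lit 0) (nat_lit 4701395) (nat_lit 20) (nat_lit 5) (nat_lit 22) (nat_lit 4) (nat_lit 20) (nat_lit 4) (nat_lit 354) (nat_lit 340) (nat_lit 326)))))) (XT.nd (nat_lit 468) (nat_lit 304) (nat_lit 0) (XT.nd (nat_lit 234) (nat_lit 228) (nat_lit 0) (XT.nd (nat_lit 78) (nat_lit 76) (nat_lit 0) (XT.lf (nat_lit 0) (nat_lit 1127511286) (nat_lit 152) (nat_lit 8183681347) (nat_lit 76) (nat_lit 5081654980) (nat_lit 18) (nat_lit 5) (nat_lit 20) (nat_lit 5) (nat_lit 19) (nat_lit 4) (nat_lit 355) (nat_lit 340) (nat_lit 325)) (XT.nd (nat_lit 78) (nat_lit 0) (nat_lit 0) (XT.lf (nat_lit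 0) (nat_lit 906461195) (nat_lit 76) (nat_lit 4539193371) (nat_lit 152) (nat_lit 10244189141) (nat_lit 17) (nat_lit 5) (nat_lit 18) (nat_lit 5) (nat_lit 19) (nat_lit 4) (nat_lit 356) (nat_lit 340) (nat_lit 324)) (XT.lf (nat_lit 0) (nat_lit 10742254889) (nat_lit 152) (nat_lit 5186710509) (nat_lit 0) (nat_lit 1202885476) (nat_lit 17) (nat_lit 5) (nat_lit 19) (nat_lit 4) (nat_lit 17) (nat_lit 4) (nat_lit 357) (nat_lit 340) (nat_lit 323)))) (XT.nd (nat_lit 78) (nat_lit 152) (nat_lit 0) (XT.lf (nat_lit 0) (nat_lit 5907308628) (nat_lit 76) (nat_lit 11250538473) (nat_lit 76) (nat_lit 1583699341) (nat_lit 16) (nat_lit 4) (nat_lit 17) (nat_lit 5) (nat_lit 17) (nat_lit 4) (nat_lit 358) (nat_lit 340) (nat_lit 322)) (XT.nd (nat_lit 78) (nat_lit 76) (nat_lit 0) (XT.lf (nat_lit 0) (nat_lit 3741466311) (nat_lit 152) (nat_lit 1733529795) (nat_lit 76) (nat_lit 15070842647) (nat_lit 15) (nat_lit 5) (nat_lit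 17) (nat_lit 5) (nat_lit 16) (nat_lit 4) (nat_lit 359) (nat_lit 340) (nat_lit 321)) (XT.lf (nat_lit 0) (nat_lit 10145089071) (nat_lit 152) (nat_lit 10839198257) (nat_lit 0) (nat_lit 1558943170) (nat_lit 14) (nat_lit 5) (nat_lit 16) (nat_lit 4) (nat_lit 14) (nat_lit 4) (nat_lit 360) (nat_lit 340) (nat_lit 320))))) (XT.nd (nat_lit 234) (nat_lit 76) (nat_lit 0) (XT.nd (nat_lit 78) (nat_lit 152) (nat_lit 0) (XT.lf (nat_lit 0) (nat_lit 2236473729) (nat_lit 76) (nat_lit 15606389500) (nat_lit 76) (nat_lit 6947362374) (nat_lit 13) (nat_lit 4) (nat_lit 14) (nat_lit 5) (nat_lit 14) (nat_lit 4) (nat_lit 361) (nat_lit 340) (nat_lit 319)) (XT.nd (nat_lit 78) (nat_lit 152) (nat_lit 0) (XT.lf (nat_lit 0) (nat_lit 18278793197) (nat_lit 76) (nat_lit 8874598395) (nat_lit 76) (nat_lit 152196291) (nat_lit 13) (nat_lit 4) (nat_lit 14) (nat_lit 5) (nat_lit 14) (nat_lit 4) (nat_lit 362) (nat_lit 340) (nat_lit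 318)) (XT.lf (nat_lit 0) (nat_lit 6605166254) (nat_lit 76) (nat_lit 549567250) (nat_lit 152) (nat_lit 22969757732) (nat_lit 11) (nat_lit 5) (nat_lit 12) (nat_lit 5) (nat_lit 13) (nat_lit 4) (nat_lit 363) (nat_lit 340) (nat_lit 317)))) (XT.nd (nat_lit 78) (nat_lit 76) (nat_lit 0) (XT.lf (nat_lit 0) (nat_lit 16312623704) (nat_lit 152) (nat_lit 8298628742) (nat_lit 0) (nat_lit 8638335556) (nat_lit 11) (nat_lit 5) (nat_lit 13) (nat_lit 4) (nat_lit 11) (nat_lit 4) (nat_lit 364) (nat_lit 340) (nat_lit 316)) (XT.nd (nat_lit 78) (nat_lit 0) (nat_lit 0) (XT.lf (nat_lit 0) (nat_lit 9888762418) (nat_lit 76) (nat_lit 17306299027) (nat_lit 76) (nat_lit 9595776030) (nat_lit 10) (nat_lit 4) (nat_lit 11) (nat_lit 5) (nat_lit 11) (nat_lit 4) (nat_lit 365) (nat_lit 340) (nat_lit 315)) (XT.lf (nat_lit 0) (nat_lit 31574064105) (nat_lit 76) (nat_lit 8489129030) (nat_lit 76) (nat_lit 747097467) (nat_lit 10)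 (nat_lit 4) (nat_lit 11) (nat_lit 5) (nat_lit 11) (nat_lit 4) (nat_lit 366) (nat_lit 340) (nat_lit 314))))))) (XT.nd (nat_lit 858) (nat_lit 228) (nat_lit 0) (XT.nd (nat_lit 390) (nat_lit 152) (nat_lit 0) (XT.nd (nat_lit 156) (nat_lit 152) (nat_lit 0) (XT.nd (nat_lit 78) (nat_lit 0) (nat_lit 0) (XT.lf (nat_lit 0) (nat_lit 9101879517) (nat_lit 152) (nat_lit 33849513086) (nat_lit 0) (nat_lit 2345853156) (nat_lit 8) (nat_lit 5) (nat_lit 10) (nat_lit 4) (nat_lit 8) (nat_lit 4) (nat_lit 367) (nat_lit 340) (nat_lit 313)) (XT.lf (nat_lit 0) (nat_lit 21189123641) (nat_lit 152) (nat_lit 14724803054) (nat_lit 0) (nat_lit 14412379887) (nat_lit 8) (nat_lit 5) (nat_lit 10) (nat_lit 4) (nat_lit 8) (nat_lit 4) (nat_lit 368) (nat_lit 340) (nat_lit 312))) (XT.nd (nat_lit 78) (nat_lit 76) (nat_lit 0) (XT.lf (nat_lit 0) (nat_lit 7836269808) (nat_lit 76) (nat_lit 27514512620) (nat_lit 76) (nat_lit 20719753742)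 (nat_lit 7) (nat_lit 4) (nat_lit 8) (nat_lit 5) (nat_lit 8) (nat_lit 4) (nat_lit 369) (nat_lit 340) (nat_lit 311)) (XT.nd (nat_lit 78) (nat_lit 76) (nat_lit 0) (XT.lf (nat_lit 0) (nat_lit 35312296372) (nat_lit 76) (nat_lit 17034044079) (nat_lit 76) (nat_lit 10223619876) (nat_lit 7) (nat_lit 4) (nat_lit 8) (nat_lit 5) (nat_lit 8) (nat_lit 4) (nat_lit 370) (nat_lit 340) (nat_lit 310)) (XT.lf (nat_lit 0) (nat_lit 1627792463) (nat_lit 152) (nat_lit 3324292428) (nat_lit 76) (nat_lit 65088954609) (nat_lit 6) (nat_lit 5) (nat_lit 8) (nat_lit 5) (nat_lit 7) (nat_lit 4) (nat_lit 371) (nat_lit 340) (nat_lit 309))))) (XT.nd (nat_lit 234) (nat_lit 76) (nat_lit 0) (XT.nd (nat_lit 78) (nat_lit 0) (nat_lit 0) (XT.lf (nat_lit 0) (nat_lit 15678451531) (nat_lit 152) (nat_lit 52926874312) (nat_lit 0) (nat_lit 9734198086) (nat_lit 5) (nat_lit 5) (nat_lit 7) (nat_lit 4) (nat_lit 5) (nat_lit 4) (nat_lit 372)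 (nat_lit 340) (nat_lit 308)) (XT.nd (nat_lit 78) (nat_lit 0) (nat_lit 0) (XT.lf (nat_lit 0) (nat_lit 32207285287) (nat_lit 152) (nat_lit 29365838618) (nat_lit 0) (nat_lit 26254075141) (nat_lit 5) (nat_lit 5) (nat_lit 7) (nat_lit 4) (nat_lit 5) (nat_lit 4) (nat_lit 373) (nat_lit 340) (nat_lit 307)) (XT.lf (nat_lit 0) (nat_lit 51174329042) (nat_lit 152) (nat_lit 2356537011) (nat_lit 0) (nat_lit 45213330461) (nat_lit 5) (nat_lit 5) (nat_lit 7) (nat_lit 4) (nat_lit 5) (nat_lit 4) (nat_lit 374) (nat_lit 340) (nat_lit 306)))) (XT.nd (nat_lit 78) (nat_lit 0) (nat_lit 0) (XT.lf (nat_lit 0) (nat_lit 31427353715) (nat_lit 76) (nat_lit 42824663114) (nat_lit 76) (nat_lit 36856891980) (nat_lit 4) (nat_lit 4) (nat_lit 5) (nat_lit 5) (nat_lit 5) (nat_lit 4) (nat_lit 375) (nat_lit 340) (nat_lit 305)) (XT.nd (nat_lit 78) (nat_lit 0) (nat_lit 0) (XT.lf (nat_lit 0) (nat_lit 70472379045) (nat_lit 76) (nat_lit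 30408120426) (nat_lit 76) (nat_lit 24434460117) (nat_lit 4) (nat_lit 4) (nat_lit 5) (nat_lit 5) (nat_lit 5) (nat_lit 4) (nat_lit 376) (nat_lit 340) (nat_lit 304)) (XT.lf (nat_lit 0) (nat_lit 115312165452) (nat_lit 76) (nat_lit 16161488250) (nat_lit 76) (nat_lit 10182706918) (nat_lit 4) (nat_lit 4) (nat_lit 5) (nat_lit 5) (nat_lit 5) (nat_lit 4) (nat_lit 377) (nat_lit 340) (nat_lit 303)))))) (XT.nd (nat_lit 468) (nat_lit 76) (nat_lit 0) (XT.nd (nat_lit 234) (nat_lit 0) (nat_lit 0) (XT.nd (nat_lit 78) (nat_lit 0) (nat_lit 0) (XT.lf (nat_lit 0) (nat_lit 5938690043) (nat_lit 152) (nat_lit 153693186451) (nat_lit 0) (nat_lit 735877525) (nat_lit 2) (nat_lit 5) (nat_lit 4) (nat_lit 4) (nat_lit 2) (nat_lit 4) (nat_lit 378) (nat_lit 340) (nat_lit 302)) (XT.nd (nat_lit 78) (nat_lit 0) (nat_lit 0) (XT.lf (nat_lit 0) (nat_lit 25621177946) (nat_lit 152) (nat_lit 135449138746) (nat_lit 0) (nat_lit 20414998273)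 (nat_lit 2) (nat_lit 5) (nat_lit 4) (nat_lit 4) (nat_lit 2) (nat_lit 4) (nat_lit 379) (nat_lit 340) (nat_lit 301)) (XT.lf (nat_lit 0) (nat_lit 48232685683) (nat_lit 152) (nat_lit 114517750764) (nat_lit 0) (nat_lit 43023578048) (nat_lit 2) (nat_lit 5) (nat_lit 4) (nat_lit 4) (nat_lit 2) (nat_lit 4) (nat_lit 380) (nat_lit 340) (nat_lit 300)))) (XT.nd (nat_lit 78) (nat_lit 0) (nat_lit 0) (XT.lf (nat_lit 0) (nat_lit 74215612316) (nat_lit 152) (nat_lit 90489495349) (nat_lit 0) (nat_lit 69003958628) (nat_lit 2) (nat_lit 5) (nat_lit 4) (nat_lit 4) (nat_lit 2) (nat_lit 4) (nat_lit 381) (nat_lit 340) (nat_lit 299)) (XT.nd (nat_lit 78) (nat_lit 0) (nat_lit 0) (XT.lf (nat_lit 0) (nat_lit 104078319455) (nat_lit 152) (nat_lit 62894254460) (nat_lit 0) (nat_lit 98864451807) (nat_lit 2) (nat_lit 5) (nat_lit 4) (nat_lit 4) (nat_lit 2) (nat_lit 4) (nat_lit 382) (nat_lit 340) (nat_lit 298)) (XT.lf (nat_lit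 0) (nat_lit 138405077456) (nat_lit 152) (nat_lit 31192121211) (nat_lit 0) (nat_lit 133189284626) (nat_lit 2) (nat_lit 5) (nat_lit 4) (nat_lit 4) (nat_lit 2) (nat_lit 4) (nat_lit 383) (nat_lit 340) (nat_lit 297))))) (XT.nd (nat_lit 234) (nat_lit 0) (nat_lit 0) (XT.nd (nat_lit 78) (nat_lit 0) (nat_lit 0) (XT.lf (nat_lit 0) (nat_lit 5748977235) (nat_lit 76) (nat_lit 172356572453) (nat_lit 76) (nat_lit 167139105552) (nat_lit 1) (nat_lit 4) (nat_lit 2) (nat_lit 5) (nat_lit 2) (nat_lit 4) (nat_lit 384) (nat_lit 340) (nat_lit 296)) (XT.nd (nat_lit 78) (nat_lit 0) (nat_lit 0) (XT.lf (nat_lit 0) (nat_lit 51709921415) (nat_lit 76) (nat_lit 173668944464) (nat_lit 76) (nat_lit 168450021849) (nat_lit 1) (nat_lit 4) (nat_lit 2) (nat_lit 5) (nat_lit 2) (nat_lit 4) (nat_lit 385) (nat_lit 340) (nat_lit 295)) (XT.lf (nat_lit 0) (nat_lit 104541626255) (nat_lit 76) (nat_lit 175190488789) (nat_lit 76) (nat_lit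 169970300335) (nat_lit 1) (nat_lit 4) (nat_lit 2) (nat_lit 5) (nat_lit 2) (nat_lit 4) (nat_lit 386) (nat_lit 340) (nat_lit 294)))) (XT.nd (nat_lit 78) (nat_lit 0) (nat_lit 0) (XT.lf (nat_lit 0) (nat_lit 165277755545) (nat_lit 76) (nat_lit 176950974772) (nat_lit 76) (nat_lit 171729685589) (nat_lit 1) (nat_lit 4) (nat_lit 2) (nat_lit 5) (nat_lit 2) (nat_lit 4) (nat_lit 387) (nat_lit 340) (nat_lit 293)) (XT.nd (nat_lit 78) (nat_lit 0) (nat_lit 0) (XT.lf (nat_lit 0) (nat_lit 235106624859) (nat_lit 76) (nat_lit 178984846705) (nat_lit 76) (nat_lit 173762600367) (nat_lit 1) (nat_lit 4) (nat_lit 2) (nat_lit 5) (nat_lit 2) (nat_lit 4) (nat_lit 388) (nat_lit 340) (nat_lit 292)) (XT.lf (nat_lit 0) (nat_lit 315394451205) (nat_lit 76) (nat_lit 181331897735) (nat_lit 76) (nat_lit 176108819087) (nat_lit 1) (nat_lit 4) (nat_lit 2) (nat_lit 5) (nat_lit 2) (nat_lit 4) (nat_lit 389) (nat_lit 340) (nat_lit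 291))))))))
noncomputable def xc48 : XT := (XT.nd (nat_lit 1716) (nat_lit 0) (nat_lit 0) (XT.nd (nat_lit 858) (nat_lit 0) (nat_lit 0) (XT.nd (nat_lit 390) (nat_lit 0) (nat_lit 0) (XT.nd (nat_lit 156) (nat_lit 0) (nat_lit 0) (XT.nd (nat_lit 78) (nat_lit 0) (nat_lit 0) (XT.lf (nat_lit 0) (nat_lit 407712083359) (nat_lit 76) (nat_lit 184038048425) (nat_lit 76) (nat_lit 178814246030) (nat_lit 1) (nat_lit 4) (nat_lit 2) (nat_lit 5) (nat_lit 2) (nat_lit 4) (nat_lit 390) (nat_lit 340) (nat_lit 290)) (XT.lf (nat_lit 0) (nat_lit 513865735863) (nat_lit 76) (nat_lit 187156245202) (nat_lit 76) (nat_lit 181931813461) (nat_lit 1) (nat_lit 4) (nat_lit 2) (nat_lit 5) (nat_lit 2) (nat_lit 4) (nat_lit 391) (nat_lit 340) (nat_lit 289))) (XT.nd (nat_lit 78) (nat_lit 0) (nat_lit 0) (XT.lf (nat_lit 0) (nat_lit 635932328007) (nat_lit 76) (nat_lit 190747496263) (nat_lit 76) (nat_lit 185522517265) (nat_lit 1)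 (nat_lit 4) (nat_lit 2) (nat_lit 5) (nat_lit 2) (nat_lit 4) (nat_lit 392) (nat_lit 340) (nat_lit 288)) (XT.nd (nat_lit 78) (nat_lit 0) (nat_lit 0) (XT.lf (nat_lit 0) (nat_lit 776300119200) (nat_lit 76) (nat_lit 194882065216) (nat_lit 76) (nat_lit 189656610343) (nat_lit 1) (nat_lit 4) (nat_lit 2) (nat_lit 5) (nat_lit 2) (nat_lit 4) (nat_lit 393) (nat_lit 340) (nat_lit 287)) (XT.lf (nat_lit 0) (nat_lit 937715435793) (nat_lit 76) (nat_lit 199640845802) (nat_lit 76) (nat_lit 194414977123) (nat_lit 1) (nat_lit 4) (nat_lit 2) (nat_lit 5) (nat_lit 2) (nat_lit 4) (nat_lit 394) (nat_lit 340) (nat_lit 286))))) (XT.nd (nat_lit 234) (nat_lit 0) (nat_lit 0) (XT.nd (nat_lit 78) (nat_lit 0) (nat_lit 0) (XT.lf (nat_lit 0) (nat_lit 1123336403544) (nat_lit 76) (nat_lit 205116944596) (nat_lit 76) (nat_lit 199890716088) (nat_lit 1) (nat_lit 4) (nat_lit 2) (nat_lit 5) (nat_lit 2) (nat_lit 4) (nat_lit 395)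 (nat_lit 340) (nat_lit 285)) (XT.nd (nat_lit 78) (nat_lit 0) (nat_lit 0) (XT.lf (nat_lit 0) (nat_lit 1336794737041) (nat_lit 76) (nat_lit 211417502664) (nat_lit 76) (nat_lit 206190961260) (nat_lit 1) (nat_lit 4) (nat_lit 2) (nat_lit 5) (nat_lit 2) (nat_lit 4) (nat_lit 396) (nat_lit 340) (nat_lit 284)) (XT.lf (nat_lit 0) (nat_lit 1582266794982) (nat_lit 76) (nat_lit 218665791792) (nat_lit 76) (nat_lit 213438978305) (nat_lit 1) (nat_lit 4) (nat_lit 2) (nat_lit 5) (nat_lit 2) (nat_lit 4) (nat_lit 397) (nat_lit 340) (nat_lit 283)))) (XT.nd (nat_lit 78) (nat_lit 0) (nat_lit 0) (XT.lf (nat_lit 0) (nat_lit 1864555291545) (nat_lit 76) (nat_lit 227003626334) (nat_lit 76) (nat_lit 221776576252) (nat_lit 1) (nat_lit 4) (nat_lit 2) (nat_lit 5) (nat_lit 2) (nat_lit 4) (nat_lit 398) (nat_lit 340) (nat_lit 282)) (XT.nd (nat_lit 78) (nat_lit 0) (nat_lit 0) (XT.lf (nat_lit 0) (nat_lit 2189183262531) (nat_lit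 76) (nat_lit 236594137835) (nat_lit 76) (nat_lit 231366882018) (nat_lit 1) (nat_lit 4) (nat_lit 2) (nat_lit 5) (nat_lit 2) (nat_lit 4) (nat_lit 399) (nat_lit 340) (nat_lit 281)) (XT.lf (nat_lit 0) (nat_lit 2562502124765) (nat_lit 76) (nat_lit 247624966736) (nat_lit 76) (nat_lit 242397532021) (nat_lit 1) (nat_lit 4) (nat_lit 2) (nat_lit 5) (nat_lit 2) (nat_lit 4) (nat_lit 400) (nat_lit 340) (nat_lit 280)))))) (XT.nd (nat_lit 390) (nat_lit 0) (nat_lit 0) (XT.nd (nat_lit 156) (nat_lit 0) (nat_lit 0) (XT.nd (nat_lit 78) (nat_lit 0) (nat_lit 0) (XT.lf (nat_lit 0) (nat_lit 2991815942941) (nat_lit 76) (nat_lit 260311933605) (nat_lit 76) (nat_lit 255084343325) (nat_lit 1) (nat_lit 4) (nat_lit 2) (nat_lit 5) (nat_lit 2) (nat_lit 4) (nat_lit 401) (nat_lit 340) (nat_lit 279)) (XT.lf (nat_lit 0) (nat_lit 3485524335243) (nat_lit 76) (nat_lit 274903261704) (nat_lit 76) (nat_lit 269675536151) (nat_lit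 1) (nat_lit 4) (nat_lit 2) (nat_lit 5) (nat_lit 2) (nat_lit 4) (nat_lit 402) (nat_lit 340) (nat_lit 278))) (XT.nd (nat_lit 78) (nat_lit 0) (nat_lit 0) (XT.lf (nat_lit 0) (nat_lit 4053286813693) (nat_lit 76) (nat_lit 291684433542) (nat_lit 76) (nat_lit 286456590359) (nat_lit 1) (nat_lit 4) (nat_lit 2) (nat_lit 5) (nat_lit 2) (nat_lit 4) (nat_lit 403) (nat_lit 340) (nat_lit 277)) (XT.nd (nat_lit 78) (nat_lit 0) (nat_lit 0) (XT.lf (nat_lit 0) (nat_lit 4706211774608) (nat_lit 76) (nat_lit 310983776392) (nat_lit 76) (nat_lit 305755830923) (nat_lit 1) (nat_lit 4) (nat_lit 2) (nat_lit 5) (nat_lit 2) (nat_lit 4) (nat_lit 404) (nat_lit 340) (nat_lit 276)) (XT.lf (nat_lit 0) (nat_lit 5457073836790) (nat_lit 76) (nat_lit 333178886094) (nat_lit 76) (nat_lit 327950851680) (nat_lit 1) (nat_lit 4) (nat_lit 2) (nat_lit 5) (nat_lit 2) (nat_lit 4) (nat_lit 405) (nat_lit 340) (nat_lit 275))))) (XT.nd (nat_lit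 234) (nat_lit 0) (nat_lit 0) (XT.nd (nat_lit 78) (nat_lit 0) (nat_lit 0) (XT.lf (nat_lit 0) (nat_lit 6320563779715) (nat_lit 76) (nat_lit 358704014793) (nat_lit 76) (nat_lit 353475903036) (nat_lit 1) (nat_lit 4) (nat_lit 2) (nat_lit 5) (nat_lit 2) (nat_lit 4) (nat_lit 406) (nat_lit 340) (nat_lit 274)) (XT.nd (nat_lit 78) (nat_lit 0) (nat_lit 0) (XT.lf (nat_lit 0) (nat_lit 7313575971832) (nat_lit 76) (nat_lit 388058567181) (nat_lit 76) (nat_lit 382830388170) (nat_lit 1) (nat_lit 4) (nat_lit 2) (nat_lit 5) (nat_lit 2) (nat_lit 4) (nat_lit 407) (nat_lit 340) (nat_lit 273)) (XT.lf (nat_lit 0) (nat_lit 8455538912553) (nat_lit 76) (nat_lit 421816871458) (nat_lit 76) (nat_lit 416588633964) (nat_lit 1) (nat_lit 4) (nat_lit 2) (nat_lit 5) (nat_lit 2) (nat_lit 4) (nat_lit 408) (nat_lit 340) (nat_lit 272)))) (XT.nd (nat_lit 78) (nat_lit 0) (nat_lit 0) (XT.lf (nat_lit 0) (nat_lit 9768795355064) (nat_lit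 76) (nat_lit 460639416186) (nat_lit 76) (nat_lit 455411127837) (nat_lit 1) (nat_lit 4) (nat_lit 2) (nat_lit 5) (nat_lit 2) (nat_lit 4) (nat_lit 409) (nat_lit 340) (nat_lit 271)) (XT.nd (nat_lit 78) (nat_lit 0) (nat_lit 0) (XT.lf (nat_lit 0) (nat_lit 11279039447156) (nat_lit 76) (nat_lit 505285772890) (nat_lit 76) (nat_lit 500057440321) (nat_lit 1) (nat_lit 4) (nat_lit 2) (nat_lit 5) (nat_lit 2) (nat_lit 4) (nat_lit 410) (nat_lit 340) (nat_lit 270)) (XT.lf (nat_lit 0) (nat_lit 13015819442802) (nat_lit 76) (nat_lit 556629457248) (nat_lit 76) (nat_lit 551401086225) (nat_lit 1) (nat_lit 4) (nat_lit 2) (nat_lit 5) (nat_lit 2) (nat_lit 4) (nat_lit 411) (nat_lit 340) (nat_lit 269))))))) (XT.nd (nat_lit 858) (nat_lit 0) (nat_lit 0) (XT.nd (nat_lit 390) (nat_lit 0) (nat_lit 0) (XT.nd (nat_lit 156) (nat_lit 0) (nat_lit 0) (XT.nd (nat_lit 78) (nat_lit 0) (nat_lit 0) (XT.lf (nat_lit 0) (nat_lit 15013115820179)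 (nat_lit 76) (nat_lit 615675019603) (nat_lit 76) (nat_lit 610446615143) (nat_lit 1) (nat_lit 4) (nat_lit 2) (nat_lit 5) (nat_lit 2) (nat_lit 4) (nat_lit 412) (nat_lit 340) (nat_lit 268)) (XT.lf (nat_lit 0) (nat_lit 17310006117105) (nat_lit 76) (nat_lit 683577699221) (nat_lit 76) (nat_lit 678349265684) (nat_lit 1) (nat_lit 4) (nat_lit 2) (nat_lit 5) (nat_lit 2) (nat_lit 4) (nat_lit 413) (nat_lit 340) (nat_lit 267))) (XT.nd (nat_lit 78) (nat_lit 0) (nat_lit 0) (XT.lf (nat_lit 0) (nat_lit 19951429491564) (nat_lit 76) (nat_lit 761666026788) (nat_lit 76) (nat_lit 756437567968) (nat_lit 1) (nat_lit 4) (nat_lit 2) (nat_lit 5) (nat_lit 2) (nat_lit 4) (nat_lit 414) (nat_lit 340) (nat_lit 266)) (XT.nd (nat_lit 78) (nat_lit 0) (nat_lit 0) (XT.lf (nat_lit 0) (nat_lit 22989065966099) (nat_lit 76) (nat_lit 851467817410) (nat_lit 76) (nat_lit 846239336604) (nat_lit 1) (nat_lit 4) (nat_lit 2) (nat_lit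 5) (nat_lit 2) (nat_lit 4) (nat_lit 415) (nat_lit 340) (nat_lit 265)) (XT.lf (nat_lit 0) (nat_lit 26482347558690) (nat_lit 76) (nat_lit 954740062642) (nat_lit 76) (nat_lit 949511562719) (nat_lit 1) (nat_lit 4) (nat_lit 2) (nat_lit 5) (nat_lit 2) (nat_lit 4) (nat_lit 416) (nat_lit 340) (nat_lit 264))))) (XT.nd (nat_lit 234) (nat_lit 0) (nat_lit 0) (XT.nd (nat_lit 78) (nat_lit 0) (nat_lit 0) (XT.lf (nat_lit 0) (nat_lit 30499621083106) (nat_lit 76) (nat_lit 1073503306413) (nat_lit 76) (nat_lit 1068274789865) (nat_lit 1) (nat_lit 4) (nat_lit 2) (nat_lit 5) (nat_lit 2) (nat_lit 4) (nat_lit 417) (nat_lit 340) (nat_lit 263)) (XT.nd (nat_lit 78) (nat_lit 0) (nat_lit 0) (XT.lf (nat_lit 0) (nat_lit 35119485369171) (nat_lit 76) (nat_lit 1210081177405) (nat_lit 76) (nat_lit 1204852646401) (nat_lit 1) (nat_lit 4) (nat_lit 2) (nat_lit 5) (nat_lit 2) (nat_lit 4) (nat_lit 418) (nat_lit 340) (nat_lit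 262)) (XT.lf (nat_lit 0) (nat_lit 40432329065961) (nat_lit 76) (nat_lit 1367145851355) (nat_lit 76) (nat_lit 1361917307781) (nat_lit 1) (nat_lit 4) (nat_lit 2) (nat_lit 5) (nat_lit 2) (nat_lit 4) (nat_lit 419) (nat_lit 340) (nat_lit 261)))) (XT.nd (nat_lit 78) (nat_lit 0) (nat_lit 0) (XT.lf (nat_lit 0) (nat_lit 46542099115370) (nat_lit 76) (nat_lit 1547770332754) (nat_lit 76) (nat_lit 1542541778249) (nat_lit 1) (nat_lit 4) (nat_lit 2) (nat_lit 5) (nat_lit 2) (nat_lit 4) (nat_lit 420) (nat_lit 340) (nat_lit 260)) (XT.nd (nat_lit 78) (nat_lit 0) (nat_lit 0) (XT.lf (nat_lit 0) (nat_lit 53568334496625) (nat_lit 76) (nat_lit 1755488578845) (nat_lit 76) (nat_lit 1750260014835) (nat_lit 1) (nat_lit 4) (nat_lit 2) (nat_lit 5) (nat_lit 2) (nat_lit 4) (nat_lit 421) (nat_lit 340) (nat_lit 259)) (XT.lf (nat_lit 0) (nat_lit 61648505032404) (nat_lit 76) (nat_lit 1994364642271) (nat_lit 76) (nat_lit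 1989136069995) (nat_lit 1) (nat_lit 4) (nat_lit 2) (nat_lit 5) (nat_lit 2) (nat_lit 4) (nat_lit 422) (nat_lit 340) (nat_lit 258)))))) (XT.nd (nat_lit 468) (nat_lit 0) (nat_lit 0) (XT.nd (nat_lit 234) (nat_lit 0) (nat_lit 0) (XT.nd (nat_lit 78) (nat_lit 0) (nat_lit 0) (XT.lf (nat_lit 0) (nat_lit 70940701015797) (nat_lit 76) (nat_lit 2269072185141) (nat_lit 76) (nat_lit 2263843605678) (nat_lit 1) (nat_lit 4) (nat_lit 2) (nat_lit 5) (nat_lit 2) (nat_lit 4) (nat_lit 423) (nat_lit 340) (nat_lit 257)) (XT.nd (nat_lit 78) (nat_lit 0) (nat_lit 0) (XT.lf (nat_lit 0) (nat_lit 81626726281262) (nat_lit 76) (nat_lit 2584985920251) (nat_lit 76) (nat_lit 2579757334538) (nat_lit 1) (nat_lit 4) (nat_lit 2) (nat_lit 5) (nat_lit 2) (nat_lit 4) (nat_lit 424) (nat_lit 340) (nat_lit 256)) (XT.lf (nat_lit 0) (nat_lit 93915655236166) (nat_lit 76) (nat_lit 2948286768504) (nat_lit 76) (nat_lit 2943058177357) (nat_lit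 1) (nat_lit 4) (nat_lit 2) (nat_lit 5) (nat_lit 2) (nat_lit 4) (nat_lit 425) (nat_lit 340) (nat_lit 255)))) (XT.nd (nat_lit 78) (nat_lit 0) (nat_lit 0) (XT.lf (nat_lit 0) (nat_lit 108047923447019) (nat_lit 76) (nat_lit 3366082789977) (nat_lit 76) (nat_lit 3360854194104) (nat_lit 1) (nat_lit 4) (nat_lit 2) (nat_lit 5) (nat_lit 2) (nat_lit 4) (nat_lit 426) (nat_lit 340) (nat_lit 254)) (XT.nd (nat_lit 78) (nat_lit 0) (nat_lit 0) (XT.lf (nat_lit 0) (nat_lit 124300031813599) (nat_lit 76) (nat_lit 3846548254653) (nat_lit 76) (nat_lit 3841319654671) (nat_lit 1) (nat_lit 4) (nat_lit 2) (nat_lit 5) (nat_lit 2) (nat_lit 4) (nat_lit 427) (nat_lit 340) (nat_lit 253)) (XT.lf (nat_lit 0) (nat_lit 142989956369165) (nat_lit 76) (nat_lit 4399083573799) (nat_lit 76) (nat_lit 4393854970244) (nat_lit 1) (nat_lit 4) (nat_lit 2) (nat_lit 5) (nat_lit 2) (nat_lit 4) (nat_lit 428) (nat_lit 340) (nat_lit 252)))))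 (XT.nd (nat_lit 234) (nat_lit 0) (nat_lit 0) (XT.nd (nat_lit 78) (nat_lit 0) (nat_lit 0) (XT.lf (nat_lit 0) (nat_lit 164483369550673) (nat_lit 76) (nat_lit 5034499221049) (nat_lit 76) (nat_lit 5029270614387) (nat_lit 1) (nat_lit 4) (nat_lit 2) (nat_lit 5) (nat_lit 2) (nat_lit 4) (nat_lit 429) (nat_lit 340) (nat_lit 251)) (XT.nd (nat_lit 78) (nat_lit 0) (nat_lit 0) (XT.lf (nat_lit 0) (nat_lit 189200794659500) (nat_lit 76) (nat_lit 5765227241677) (nat_lit 76) (nat_lit 5759998632313) (nat_lit 1) (nat_lit 4) (nat_lit 2) (nat_lit 5) (nat_lit 2) (nat_lit 4) (nat_lit 430) (nat_lit 340) (nat_lit 250)) (XT.lf (nat_lit 0) (nat_lit 217625833491254) (nat_lit 76) (nat_lit 6605564488259) (nat_lit 76) (nat_lit 6600335876546) (nat_lit 1) (nat_lit 4) (nat_lit 2) (nat_lit 5) (nat_lit 2) (nat_lit 4) (nat_lit 431) (nat_lit 340) (nat_lit 249)))) (XT.nd (nat_lit 78) (nat_lit 0) (nat_lit 0) (XT.lf (nat_lit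 0) (nat_lit 250314628110036) (nat_lit 76) (nat_lit 7571952341708) (nat_lit 76) (nat_lit 7566723727951) (nat_lit 1) (nat_lit 4) (nat_lit 2) (nat_lit 5) (nat_lit 2) (nat_lit 4) (nat_lit 432) (nat_lit 340) (nat_lit 248)) (XT.nd (nat_lit 78) (nat_lit 0) (nat_lit 0) (XT.lf (nat_lit 0) (nat_lit 287906741888820) (nat_lit 76) (nat_lit 8683298390459) (nat_lit 76) (nat_lit 8678069774926) (nat_lit 1) (nat_lit 4) (nat_lit 2) (nat_lit 5) (nat_lit 2) (nat_lit 4) (nat_lit 433) (nat_lit 340) (nat_lit 247)) (XT.lf (nat_lit 0) (nat_lit 331137672705887) (nat_lit 76) (nat_lit 9961346361554) (nat_lit 76) (nat_lit 9956117744476) (nat_lit 1) (nat_lit 4) (nat_lit 2) (nat_lit 5) (nat_lit 2) (nat_lit 4) (nat_lit 434) (nat_lit 340) (nat_lit 246))))))))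
noncomputable def xc49 : XT := (XT.nd (nat_lit 47268) (nat_lit 0) (nat_lit 76) (XT.nd (nat_lit 46332) (nat_lit 0) (nat_lit 1140) (XT.nd (nat_lit 45864) (nat_lit 0) (nat_lit 2356) (XT.nd (nat_lit 234) (nat_lit 0) (nat_lit 0) (XT.nd (nat_lit 156) (nat_lit 0) (nat_lit 0) (XT.lf (nat_lit 0) (nat_lit 380853243120702) (nat_lit 76) (nat_lit 11431101541384) (nat_lit 76) (nat_lit 11425872922963) (nat_lit 1) (nat_lit 4) (nat_lit 2) (nat_lit 5) (nat_lit 2) (nat_lit 4) (nat_lit 435) (nat_lit 340) (nat_lit 245)) (XT.lf (nat_lit 0) (nat_lit 503774990906181) (nat_lit 76) (nat_lit 15065071257833) (nat_lit 76) (nat_lit 15059842637228) (nat_lit 1) (nat_lit 4) (nat_lit 2) (nat_lit 5) (nat_lit 2) (nat_lit 4) (nat_lit 437) (nat_lit 340) (nat_lit 243))) (XT.nd (nat_lit 78) (nat_lit 0) (nat_lit 0) (XT.lf (nat_lit 0) (nat_lit 579386158994389) (nat_lit 76) (nat_lit 17300385201948) (nat_lit 76) (nat_lit 17295156580459)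 (nat_lit 1) (nat_lit 4) (nat_lit 2) (nat_lit 5) (nat_lit 2) (nat_lit 4) (nat_lit 438) (nat_lit 340) (nat_lit 242)) (XT.nd (nat_lit 45474) (nat_lit 0) (nat_lit 2964) (XT.lf (nat_lit 0) (nat_lit 666339002281639) (nat_lit 76) (nat_lit 19870996245153) (nat_lit 76) (nat_lit 19865767622896) (nat_lit 1) (nat_lit 4) (nat_lit 2) (nat_lit 5) (nat_lit 2) (nat_lit 4) (nat_lit 439) (nat_lit 340) (nat_lit 241)) (XT.lf (nat_lit 0) (nat_lit 1451636346) (nat_lit 0) (nat_lit 1451636346) (nat_lit 76) (nat_lit 359302195) (nat_lit 40) (nat_lit 5) (nat_lit 40) (nat_lit 3) (nat_lit 41) (nat_lit 0) (nat_lit 341) (nat_lit 341) (nat_lit 338))))) (XT.nd (nat_lit 234) (nat_lit 304) (nat_lit 0) (XT.nd (nat_lit 78) (nat_lit 76) (nat_lit 0) (XT.lf (nat_lit 0) (nat_lit 1700005470) (nat_lit 228) (nat_lit 379124067) (nat_lit 228) (nat_lit 4575293693) (nat_lit 37) (nat_lit 3) (nat_lit 40) (nat_lit 3) (nat_lit 40) (nat_lit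 5) (nat_lit 342) (nat_lit 341) (nat_lit 337)) (XT.nd (nat_lit 78) (nat_lit 76) (nat_lit 0) (XT.lf (nat_lit 76) (nat_lit 3369297036) (nat_lit 0) (nat_lit 750060103) (nat_lit 228) (nat_lit 2722644150) (nat_lit 38) (nat_lit 5) (nat_lit 37) (nat_lit 3) (nat_lit 40) (nat_lit 5) (nat_lit 343) (nat_lit 341) (nat_lit 336)) (XT.lf (nat_lit 0) (nat_lit 368133874) (nat_lit 152) (nat_lit 6225874330) (nat_lit 228) (nat_lit 510522038) (nat_lit 36) (nat_lit 5) (nat_lit 38) (nat_lit 5) (nat_lit 39) (nat_lit 4) (nat_lit 344) (nat_lit 341) (nat_lit 335)))) (XT.nd (nat_lit 78) (nat_lit 228) (nat_lit 0) (XT.lf (nat_lit 0) (nat_lit 1722971569) (nat_lit 228) (nat_lit 2653327297) (nat_lit 76) (nat_lit 3037431824) (nat_lit 35) (nat_lit 5) (nat_lit 38) (nat_lit 5) (nat_lit 36) (nat_lit 5) (nat_lit 345) (nat_lit 341) (nat_lit 334)) (XT.nd (nat_lit 78) (nat_lit 0) (nat_lit 0) (XT.lf (nat_lit 0) (nat_lit 1908743357)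 (nat_lit 228) (nat_lit 2100552595) (nat_lit 304) (nat_lit 3791300452) (nat_lit 32) (nat_lit 5) (nat_lit 35) (nat_lit 5) (nat_lit 36) (nat_lit 5) (nat_lit 346) (nat_lit 341) (nat_lit 333)) (XT.lf (nat_lit 0) (nat_lit 6526116696) (nat_lit 304) (nat_lit 1108641550) (nat_lit 76) (nat_lit 627986754) (nat_lit 32) (nat_lit 5) (nat_lit 36) (nat_lit 5) (nat_lit 33) (nat_lit 4) (nat_lit 347) (nat_lit 341) (nat_lit 332)))))) (XT.nd (nat_lit 468) (nat_lit 380) (nat_lit 0) (XT.nd (nat_lit 234) (nat_lit 304) (nat_lit 0) (XT.nd (nat_lit 78) (nat_lit 152) (nat_lit 0) (XT.lf (nat_lit 0) (nat_lit 612260038) (nat_lit 380) (nat_lit 4400107561) (nat_lit 76) (nat_lit 3771984620) (nat_lit 27) (nat_lit 5) (nat_lit 32) (nat_lit 5) (nat_lit 28) (nat_lit 5) (nat_lit 348) (nat_lit 341) (nat_lit 331)) (XT.nd (nat_lit 78) (nat_lit 0) (nat_lit 0) (XT.lf (nat_lit 0) (nat_lit 1191036417) (nat_lit 152) (nat_lit 1822152267)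 (nat_lit 228) (nat_lit 6377234905) (nat_lit 25) (nat_lit 5) (nat_lit 27) (nat_lit 5) (nat_lit 28) (nat_lit 5) (nat_lit 349) (nat_lit 341) (nat_lit 330)) (XT.lf (nat_lit 0) (nat_lit 5876202980) (nat_lit 228) (nat_lit 2321920507) (nat_lit 76) (nat_lit 1874210451) (nat_lit 25) (nat_lit 5) (nat_lit 28) (nat_lit 5) (nat_lit 26) (nat_lit 4) (nat_lit 350) (nat_lit 341) (nat_lit 329)))) (XT.nd (nat_lit 78) (nat_lit 228) (nat_lit 0) (XT.lf (nat_lit 0) (nat_lit 4492084234) (nat_lit 76) (nat_lit 4761991974) (nat_lit 152) (nat_lit 1589835114) (nat_lit 24) (nat_lit 5) (nat_lit 25) (nat_lit 5) (nat_lit 26) (nat_lit 4) (nat_lit 351) (nat_lit 341) (nat_lit 328)) (XT.nd (nat_lit 78) (nat_lit 0) (nat_lit 0) (XT.lf (nat_lit 0) (nat_lit 601212245) (nat_lit 152) (nat_lit 651410191) (nat_lit 228) (nat_lit 10474428898) (nat_lit 21) (nat_lit 5) (nat_lit 23) (nat_lit 5) (nat_lit 24) (nat_lit 5) (nat_lit 352)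 (nat_lit 341) (nat_lit 327)) (XT.lf (nat_lit 0) (nat_lit 4703501028) (nat_lit 228) (nat_lit 3916328775) (nat_lit 76) (nat_lit 4059879307) (nat_lit 21) (nat_lit 5) (nat_lit 24) (nat_lit 5) (nat_lit 22) (nat_lit 4) (nat_lit 353) (nat_lit 341) (nat_lit 326))))) (XT.nd (nat_lit 234) (nat_lit 152) (nat_lit 0) (XT.nd (nat_lit 78) (nat_lit 152) (nat_lit 0) (XT.lf (nat_lit 0) (nat_lit 4506290557) (nat_lit 76) (nat_lit 4233957665) (nat_lit 152) (nat_lit 5024891302) (nat_lit 20) (nat_lit 5) (nat_lit 21) (nat_lit 5) (nat_lit 22) (nat_lit 4) (nat_lit 354) (nat_lit 341) (nat_lit 325)) (XT.nd (nat_lit 78) (nat_lit 152) (nat_lit 0) (XT.lf (nat_lit 0) (nat_lit 13487527437) (nat_lit 152) (nat_lit 638487893) (nat_lit 0) (nat_lit 871711388) (nat_lit 20) (nat_lit 5) (nat_lit 22) (nat_lit 4) (nat_lit 20) (nat_lit 4) (nat_lit 355) (nat_lit 341) (nat_lit 324)) (XT.lf (nat_lit 0) (nat_lit 2809119591) (nat_lit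 152) (nat_lit 6744787631) (nat_lit 76) (nat_lit 6770220114) (nat_lit 18) (nat_lit 5) (nat_lit 20) (nat_lit 5) (nat_lit 19) (nat_lit 4) (nat_lit 356) (nat_lit 341) (nat_lit 323)))) (XT.nd (nat_lit 78) (nat_lit 76) (nat_lit 0) (XT.lf (nat_lit 0) (nat_lit 3587674205) (nat_lit 76) (nat_lit 4095423065) (nat_lit 152) (nat_lit 10146459745) (nat_lit 17) (nat_lit 5) (nat_lit 18) (nat_lit 5) (nat_lit 19) (nat_lit 4) (nat_lit 357) (nat_lit 341) (nat_lit 322)) (XT.nd (nat_lit 78) (nat_lit 76) (nat_lit 0) (XT.lf (nat_lit 0) (nat_lit 13629387775) (nat_lit 152) (nat_lit 3606075564) (nat_lit 0) (nat_lit 2274209821) (nat_lit 17) (nat_lit 5) (nat_lit 19) (nat_lit 4) (nat_lit 17) (nat_lit 4) (nat_lit 358) (nat_lit 341) (nat_lit 321)) (XT.lf (nat_lit 0) (nat_lit 9044835465) (nat_lit 76) (nat_lit 11889302293) (nat_lit 76) (nat_lit 437738919) (nat_lit 16) (nat_lit 4) (nat_lit 17) (nat_lit 5) (nat_lit 17) (nat_lit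 4) (nat_lit 359) (nat_lit 341) (nat_lit 320))))))) (XT.nd (nat_lit 858) (nat_lit 380) (nat_lit 0) (XT.nd (nat_lit 390) (nat_lit 304) (nat_lit 0) (XT.nd (nat_lit 156) (nat_lit 228) (nat_lit 0) (XT.nd (nat_lit 78) (nat_lit 0) (nat_lit 0) (XT.lf (nat_lit 0) (nat_lit 78702941) (nat_lit 76) (nat_lit 5323194604) (nat_lit 152) (nat_lit 18060549926) (nat_lit 14) (nat_lit 5) (nat_lit 15) (nat_lit 5) (nat_lit 16) (nat_lit 4) (nat_lit 360) (nat_lit 341) (nat_lit 319)) (XT.lf (nat_lit 0) (nat_lit 12740273863) (nat_lit 152) (nat_lit 10376956401) (nat_lit 0) (nat_lit 2646136464) (nat_lit 14) (nat_lit 5) (nat_lit 16) (nat_lit 4) (nat_lit 14) (nat_lit 4) (nat_lit 361) (nat_lit 341) (nat_lit 318))) (XT.nd (nat_lit 78) (nat_lit 152) (nat_lit 0) (XT.lf (nat_lit 0) (nat_lit 4565151764) (nat_lit 76) (nat_lit 16970085338) (nat_lit 76) (nat_lit 6820839263) (nat_lit 13) (nat_lit 4) (nat_lit 14) (nat_lit 5) (nat_lit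 14) (nat_lit 4) (nat_lit 362) (nat_lit 341) (nat_lit 317)) (XT.nd (nat_lit 78) (nat_lit 76) (nat_lit 0) (XT.lf (nat_lit 0) (nat_lit 766285108) (nat_lit 152) (nat_lit 8549653680) (nat_lit 76) (nat_lit 21947494713) (nat_lit 12) (nat_lit 5) (nat_lit 14) (nat_lit 5) (nat_lit 13) (nat_lit 4) (nat_lit 363) (nat_lit 341) (nat_lit 316)) (XT.lf (nat_lit 0) (nat_lit 9114620368) (nat_lit 152) (nat_lit 25184067346) (nat_lit 0) (nat_lit 211284071) (nat_lit 11) (nat_lit 5) (nat_lit 13) (nat_lit 4) (nat_lit 11) (nat_lit 4) (nat_lit 364) (nat_lit 341) (nat_lit 315))))) (XT.nd (nat_lit 234) (nat_lit 228) (nat_lit 0) (XT.nd (nat_lit 78) (nat_lit 76) (nat_lit 0) (XT.lf (nat_lit 0) (nat_lit 19553297004) (nat_lit 152) (nat_lit 7946043475) (nat_lit 0) (nat_lit 10618452142) (nat_lit 11) (nat_lit 5) (nat_lit 13) (nat_lit 4) (nat_lit 11) (nat_lit 4) (nat_lit 365) (nat_lit 341) (nat_lit 314)) (XT.nd (nat_lit 78)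 (nat_lit 0) (nat_lit 0) (XT.lf (nat_lit 0) (nat_lit 12896848197) (nat_lit 76) (nat_lit 19130853254) (nat_lit 76) (nat_lit 10168609640) (nat_lit 10) (nat_lit 4) (nat_lit 11) (nat_lit 5) (nat_lit 11) (nat_lit 4) (nat_lit 366) (nat_lit 341) (nat_lit 313)) (XT.lf (nat_lit 0) (nat_lit 37636061909) (nat_lit 76) (nat_lit 9091723926) (nat_lit 76) (nat_lit 105655310) (nat_lit 10) (nat_lit 4) (nat_lit 11) (nat_lit 5) (nat_lit 11) (nat_lit 4) (nat_lit 367) (nat_lit 341) (nat_lit 312)))) (XT.nd (nat_lit 78) (nat_lit 76) (nat_lit 0) (XT.lf (nat_lit 0) (nat_lit 11147181139) (nat_lit 152) (nat_lit 37527359959) (nat_lit 0) (nat_lit 3315193306) (nat_lit 8) (nat_lit 5) (nat_lit 10) (nat_lit 4) (nat_lit 8) (nat_lit 4) (nat_lit 368) (nat_lit 341) (nat_lit 311)) (XT.nd (nat_lit 78) (nat_lit 76) (nat_lit 0) (XT.lf (nat_lit 0) (nat_lit 24958813661) (nat_lit 152) (nat_lit 15716497347) (nat_lit 0) (nat_lit 17111160502)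 (nat_lit 8) (nat_lit 5) (nat_lit 10) (nat_lit 4) (nat_lit 8) (nat_lit 4) (nat_lit 369) (nat_lit 341) (nat_lit 310)) (XT.lf (nat_lit 0) (nat_lit 10173417074) (nat_lit 76) (nat_lit 31042279106) (nat_lit 76) (nat_lit 23181003924) (nat_lit 7) (nat_lit 4) (nat_lit 8) (nat_lit 5) (nat_lit 8) (nat_lit 4) (nat_lit 370) (nat_lit 341) (nat_lit 309)))))) (XT.nd (nat_lit 468) (nat_lit 152) (nat_lit 0) (XT.nd (nat_lit 234) (nat_lit 76) (nat_lit 0) (XT.nd (nat_lit 78) (nat_lit 152) (nat_lit 0) (XT.lf (nat_lit 0) (nat_lit 41619320649) (nat_lit 76) (nat_lit 19067924250) (nat_lit 76) (nat_lit 11194803832) (nat_lit 7) (nat_lit 4) (nat_lit 8) (nat_lit 5) (nat_lit 8) (nat_lit 4) (nat_lit 371) (nat_lit 341) (nat_lit 308)) (XT.nd (nat_lit 78) (nat_lit 76) (nat_lit 0) (XT.lf (nat_lit 0) (nat_lit 2317434321) (nat_lit 152) (nat_lit 2900936832) (nat_lit 76) (nat_lit 75261955960) (nat_lit 6) (nat_lit 5) (nat_lit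 8) (nat_lit 5) (nat_lit 7) (nat_lit 4) (nat_lit 372) (nat_lit 341) (nat_lit 307)) (XT.lf (nat_lit 0) (nat_lit 18472923321) (nat_lit 152) (nat_lit 59941095885) (nat_lit 0) (nat_lit 11609986517) (nat_lit 5) (nat_lit 5) (nat_lit 7) (nat_lit 4) (nat_lit 5) (nat_lit 4) (nat_lit 373) (nat_lit 341) (nat_lit 306)))) (XT.nd (nat_lit 78) (nat_lit 76) (nat_lit 0) (XT.lf (nat_lit 0) (nat_lit 37423338132) (nat_lit 152) (nat_lit 32966532173) (nat_lit 0) (nat_lit 30553628776) (nat_lit 5) (nat_lit 5) (nat_lit 7) (nat_lit 4) (nat_lit 5) (nat_lit 4) (nat_lit 374) (nat_lit 341) (nat_lit 305)) (XT.nd (nat_lit 78) (nat_lit 76) (nat_lit 0) (XT.lf (nat_lit 0) (nat_lit 59185226270) (nat_lit 152) (nat_lit 2010728661) (nat_lit 0) (nat_lit 52309627738) (nat_lit 5) (nat_lit 5) (nat_lit 7) (nat_lit 4) (nat_lit 5) (nat_lit 4) (nat_lit 375) (nat_lit 341) (nat_lit 304)) (XT.lf (nat_lit 0) (nat_lit 36808959815) (nat_lit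 76) (nat_lit 48899584521) (nat_lit 76) (nat_lit 42018864966) (nat_lit 4) (nat_lit 4) (nat_lit 5) (nat_lit 5) (nat_lit 5) (nat_lit 4) (nat_lit 376) (nat_lit 341) (nat_lit 303))))) (XT.nd (nat_lit 234) (nat_lit 0) (nat_lit 0) (XT.nd (nat_lit 78) (nat_lit 152) (nat_lit 0) (XT.lf (nat_lit 0) (nat_lit 81623673331) (nat_lit 76) (nat_lit 34666053221) (nat_lit 76) (nat_lit 27780880603) (nat_lit 4) (nat_lit 4) (nat_lit 5) (nat_lit 5) (nat_lit 5) (nat_lit 4) (nat_lit 377) (nat_lit 341) (nat_lit 302)) (XT.nd (nat_lit 78) (nat_lit 152) (nat_lit 0) (XT.lf (nat_lit 0) (nat_lit 133113718468) (nat_lit 76) (nat_lit 18321985167) (nat_lit 76) (nat_lit 11432940320) (nat_lit 4) (nat_lit 4) (nat_lit 5) (nat_lit 5) (nat_lit 5) (nat_lit 4) (nat_lit 378) (nat_lit 341) (nat_lit 301)) (XT.lf (nat_lit 0) (nat_lit 7080949418) (nat_lit 152) (nat_lit 176216686163) (nat_lit 0) (nat_lit 1087547677) (nat_lit 2) (nat_lit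 5) (nat_lit 4) (nat_lit 4) (nat_lit 2) (nat_lit 4) (nat_lit 379) (nat_lit 341) (nat_lit 300)))) (XT.nd (nat_lit 78) (nat_lit 0) (nat_lit 0) (XT.lf (nat_lit 0) (nat_lit 29683011916) (nat_lit 152) (nat_lit 155305224118) (nat_lit 0) (nat_lit 23687064121) (nat_lit 2) (nat_lit 5) (nat_lit 4) (nat_lit 4) (nat_lit 2) (nat_lit 4) (nat_lit 380) (nat_lit 341) (nat_lit 299)) (XT.nd (nat_lit 78) (nat_lit 0) (nat_lit 0) (XT.lf (nat_lit 0) (nat_lit 55657725298) (nat_lit 152) (nat_lit 131294295605) (nat_lit 0) (nat_lit 49659563544) (nat_lit 2) (nat_lit 5) (nat_lit 4) (nat_lit 4) (nat_lit 2) (nat_lit 4) (nat_lit 381) (nat_lit 341) (nat_lit 298)) (XT.lf (nat_lit 0) (nat_lit 85513290479) (nat_lit 152) (nat_lit 103714121587) (nat_lit 0) (nat_lit 79513203543) (nat_lit 2) (nat_lit 5) (nat_lit 4) (nat_lit 4) (nat_lit 2) (nat_lit 4) (nat_lit 382) (nat_lit 341) (nat_lit 297))))))))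
noncomputable def xc50 : XT := (XT.nd (nat_lit 1794) (nat_lit 0) (nat_lit 0) (XT.nd (nat_lit 858) (nat_lit 0) (nat_lit 0) (XT.nd (nat_lit 390) (nat_lit 0) (nat_lit 0) (XT.nd (nat_lit 156) (nat_lit 76) (nat_lit 0) (XT.nd (nat_lit 78) (nat_lit 0) (nat_lit 0) (XT.lf (nat_lit 0) (nat_lit 119833838082) (nat_lit 152) (nat_lit 72025089965) (nat_lit 0) (nat_lit 113832077075) (nat_lit 2) (nat_lit 5) (nat_lit 4) (nat_lit 4) (nat_lit 2) (nat_lit 4) (nat_lit 383) (nat_lit 341) (nat_lit 296)) (XT.lf (nat_lit 0) (nat_lit 159290857082) (nat_lit 152) (nat_lit 35607197945) (nat_lit 0) (nat_lit 153287640360) (nat_lit 2) (nat_lit 5) (nat_lit 4) (nat_lit 4) (nat_lit 2) (nat_lit 4) (nat_lit 384) (nat_lit 341) (nat_lit 295))) (XT.nd (nat_lit 78) (nat_lit 0) (nat_lit 0) (XT.lf (nat_lit 0) (nat_lit 6863077020) (nat_lit 76) (nat_lit 198077440996) (nat_lit 76) (nat_lit 192072958436) (nat_lit 1) (nat_lit 4) (nat_lit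 2) (nat_lit 5) (nat_lit 2) (nat_lit 4) (nat_lit 385) (nat_lit 341) (nat_lit 294)) (XT.nd (nat_lit 78) (nat_lit 0) (nat_lit 0) (XT.lf (nat_lit 0) (nat_lit 59685325453) (nat_lit 76) (nat_lit 199603966721) (nat_lit 76) (nat_lit 193598383431) (nat_lit 1) (nat_lit 4) (nat_lit 2) (nat_lit 5) (nat_lit 2) (nat_lit 4) (nat_lit 386) (nat_lit 341) (nat_lit 293)) (XT.lf (nat_lit 0) (nat_lit 120413231780) (nat_lit 76) (nat_lit 201368784356) (nat_lit 76) (nat_lit 195362243911) (nat_lit 1) (nat_lit 4) (nat_lit 2) (nat_lit 5) (nat_lit 2) (nat_lit 4) (nat_lit 387) (nat_lit 341) (nat_lit 292))))) (XT.nd (nat_lit 234) (nat_lit 0) (nat_lit 0) (XT.nd (nat_lit 78) (nat_lit 0) (nat_lit 0) (XT.lf (nat_lit 0) (nat_lit 190234950692) (nat_lit 76) (nat_lit 203406422944) (nat_lit 76) (nat_lit 197399050189) (nat_lit 1) (nat_lit 4) (nat_lit 2) (nat_lit 5) (nat_lit 2) (nat_lit 4) (nat_lit 388) (nat_lit 341) (nat_lit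 291)) (XT.nd (nat_lit 78) (nat_lit 0) (nat_lit 0) (XT.lf (nat_lit 0) (nat_lit 270516559297) (nat_lit 76) (nat_lit 205756749325) (nat_lit 76) (nat_lit 199748652823) (nat_lit 1) (nat_lit 4) (nat_lit 2) (nat_lit 5) (nat_lit 2) (nat_lit 4) (nat_lit 389) (nat_lit 341) (nat_lit 290)) (XT.lf (nat_lit 0) (nat_lit 362828784719) (nat_lit 76) (nat_lit 208465748147) (nat_lit 76) (nat_lit 202457022300) (nat_lit 1) (nat_lit 4) (nat_lit 2) (nat_lit 5) (nat_lit 2) (nat_lit 4) (nat_lit 390) (nat_lit 341) (nat_lit 289)))) (XT.nd (nat_lit 78) (nat_lit 0) (nat_lit 0) (XT.lf (nat_lit 0) (nat_lit 468977735718) (nat_lit 76) (nat_lit 211586421560) (nat_lit 76) (nat_lit 205577148455) (nat_lit 1) (nat_lit 4) (nat_lit 2) (nat_lit 5) (nat_lit 2) (nat_lit 4) (nat_lit 391) (nat_lit 341) (nat_lit 288)) (XT.nd (nat_lit 78) (nat_lit 0) (nat_lit 0) (XT.lf (nat_lit 0) (nat_lit 591040239596) (nat_lit 76) (nat_lit 215179826217)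 (nat_lit 76) (nat_lit 209170077238) (nat_lit 1) (nat_lit 4) (nat_lit 2) (nat_lit 5) (nat_lit 2) (nat_lit 4) (nat_lit 392) (nat_lit 341) (nat_lit 287)) (XT.lf (nat_lit 0) (nat_lit 731404475775) (nat_lit 76) (nat_lit 219316267863) (nat_lit 76) (nat_lit 213306105079) (nat_lit 1) (nat_lit 4) (nat_lit 2) (nat_lit 5) (nat_lit 2) (nat_lit 4) (nat_lit 393) (nat_lit 341) (nat_lit 286)))))) (XT.nd (nat_lit 468) (nat_lit 0) (nat_lit 0) (XT.nd (nat_lit 234) (nat_lit 0) (nat_lit 0) (XT.nd (nat_lit 78) (nat_lit 0) (nat_lit 0) (XT.lf (nat_lit 0) (nat_lit 892816701052) (nat_lit 76) (nat_lit 224076676878) (nat_lit 76) (nat_lit 218066154263) (nat_lit 1) (nat_lit 4) (nat_lit 2) (nat_lit 5) (nat_lit 2) (nat_lit 4) (nat_lit 394) (nat_lit 341) (nat_lit 285)) (XT.nd (nat_lit 78) (nat_lit 0) (nat_lit 0) (XT.lf (nat_lit 0) (nat_lit 1078434980702) (nat_lit 76) (nat_lit 229554191697) (nat_lit 76) (nat_lit 223543356186)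 (nat_lit 1) (nat_lit 4) (nat_lit 2) (nat_lit 5) (nat_lit 2) (nat_lit 4) (nat_lit 395) (nat_lit 341) (nat_lit 284)) (XT.lf (nat_lit 0) (nat_lit 1291890976720) (nat_lit 76) (nat_lit 235855981091) (nat_lit 76) (nat_lit 229844873496) (nat_lit 1) (nat_lit 4) (nat_lit 2) (nat_lit 5) (nat_lit 2) (nat_lit 4) (nat_lit 396) (nat_lit 341) (nat_lit 283)))) (XT.nd (nat_lit 78) (nat_lit 0) (nat_lit 0) (XT.lf (nat_lit 0) (nat_lit 1537361002070) (nat_lit 76) (nat_lit 243105340937) (nat_lit 76) (nat_lit 237093996749) (nat_lit 1) (nat_lit 4) (nat_lit 2) (nat_lit 5) (nat_lit 2) (nat_lit 4) (nat_lit 397) (nat_lit 341) (nat_lit 282)) (XT.nd (nat_lit 78) (nat_lit 0) (nat_lit 0) (XT.lf (nat_lit 0) (nat_lit 1819647731163) (nat_lit 76) (nat_lit 251444106538) (nat_lit 76) (nat_lit 245432556616) (nat_lit 1) (nat_lit 4) (nat_lit 2) (nat_lit 5) (nat_lit 2) (nat_lit 4) (nat_lit 398) (nat_lit 341) (nat_lit 281)) (XT.lf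 (nat_lit 0) (nat_lit 2144274165219) (nat_lit 76) (nat_lit 261035427656) (nat_lit 76) (nat_lit 255023698834) (nat_lit 1) (nat_lit 4) (nat_lit 2) (nat_lit 5) (nat_lit 2) (nat_lit 4) (nat_lit 399) (nat_lit 341) (nat_lit 280))))) (XT.nd (nat_lit 234) (nat_lit 0) (nat_lit 0) (XT.nd (nat_lit 78) (nat_lit 0) (nat_lit 0) (XT.lf (nat_lit 0) (nat_lit 2517591690991) (nat_lit 76) (nat_lit 272066960572) (nat_lit 76) (nat_lit 266055076185) (nat_lit 1) (nat_lit 4) (nat_lit 2) (nat_lit 5) (nat_lit 2) (nat_lit 4) (nat_lit 400) (nat_lit 341) (nat_lit 279)) (XT.nd (nat_lit 78) (nat_lit 0) (nat_lit 0) (XT.lf (nat_lit 0) (nat_lit 2946904347027) (nat_lit 76) (nat_lit 284754539627) (nat_lit 76) (nat_lit 278742519967) (nat_lit 1) (nat_lit 4) (nat_lit 2) (nat_lit 5) (nat_lit 2) (nat_lit 4) (nat_lit 401) (nat_lit 341) (nat_lit 278)) (XT.lf (nat_lit 0) (nat_lit 3440611728772) (nat_lit 76) (nat_lit 299346400063)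 (nat_lit 76) (nat_lit 293334262774) (nat_lit 1) (nat_lit 4) (nat_lit 2) (nat_lit 5) (nat_lit 2) (nat_lit 4) (nat_lit 402) (nat_lit 341) (nat_lit 277)))) (XT.nd (nat_lit 78) (nat_lit 0) (nat_lit 0) (XT.lf (nat_lit 0) (nat_lit 4008373328477) (nat_lit 76) (nat_lit 316128034801) (nat_lit 76) (nat_lit 310115795226) (nat_lit 1) (nat_lit 4) (nat_lit 2) (nat_lit 5) (nat_lit 2) (nat_lit 4) (nat_lit 403) (nat_lit 341) (nat_lit 276)) (XT.nd (nat_lit 78) (nat_lit 0) (nat_lit 0) (XT.lf (nat_lit 0) (nat_lit 4661297525266) (nat_lit 76) (nat_lit 335427780174) (nat_lit 76) (nat_lit 329415451654) (nat_lit 1) (nat_lit 4) (nat_lit 2) (nat_lit 5) (nat_lit 2) (nat_lit 4) (nat_lit 404) (nat_lit 341) (nat_lit 275)) (XT.lf (nat_lit 0) (nat_lit 5412158922990) (nat_lit 76) (nat_lit 357623239896) (nat_lit 76) (nat_lit 351610834032) (nat_lit 1) (nat_lit 4) (nat_lit 2) (nat_lit 5) (nat_lit 2) (nat_lit 4) (nat_lit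 405) (nat_lit 341) (nat_lit 274))))))) (XT.nd (nat_lit 858) (nat_lit 0) (nat_lit 0) (XT.nd (nat_lit 390) (nat_lit 0) (nat_lit 0) (XT.nd (nat_lit 156) (nat_lit 0) (nat_lit 0) (XT.nd (nat_lit 78) (nat_lit 0) (nat_lit 0) (XT.lf (nat_lit 0) (nat_lit 6275648288126) (nat_lit 76) (nat_lit 383148672960) (nat_lit 76) (nat_lit 377136199842) (nat_lit 1) (nat_lit 4) (nat_lit 2) (nat_lit 5) (nat_lit 2) (nat_lit 4) (nat_lit 406) (nat_lit 341) (nat_lit 273)) (XT.lf (nat_lit 0) (nat_lit 7268659977818) (nat_lit 76) (nat_lit 412503490013) (nat_lit 76) (nat_lit 406490958413) (nat_lit 1) (nat_lit 4) (nat_lit 2) (nat_lit 5) (nat_lit 2) (nat_lit 4) (nat_lit 407) (nat_lit 341) (nat_lit 272))) (XT.nd (nat_lit 78) (nat_lit 0) (nat_lit 0) (XT.lf (nat_lit 0) (nat_lit 8410622481647) (nat_lit 76) (nat_lit 446262024434) (nat_lit 76) (nat_lit 440249441979) (nat_lit 1) (nat_lit 4) (nat_lit 2) (nat_lit 5) (nat_lit 2)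 (nat_lit 4) (nat_lit 408) (nat_lit 341) (nat_lit 271)) (XT.nd (nat_lit 78) (nat_lit 0) (nat_lit 0) (XT.lf (nat_lit 0) (nat_lit 9723878544253) (nat_lit 76) (nat_lit 485084769286) (nat_lit 76) (nat_lit 479072142610) (nat_lit 1) (nat_lit 4) (nat_lit 2) (nat_lit 5) (nat_lit 2) (nat_lit 4) (nat_lit 409) (nat_lit 341) (nat_lit 270)) (XT.lf (nat_lit 0) (nat_lit 11234122305991) (nat_lit 76) (nat_lit 529731300013) (nat_lit 76) (nat_lit 523718634883) (nat_lit 1) (nat_lit 4) (nat_lit 2) (nat_lit 5) (nat_lit 2) (nat_lit 4) (nat_lit 410) (nat_lit 341) (nat_lit 269))))) (XT.nd (nat_lit 234) (nat_lit 0) (nat_lit 0) (XT.nd (nat_lit 78) (nat_lit 0) (nat_lit 0) (XT.lf (nat_lit 0) (nat_lit 12970902014374) (nat_lit 76) (nat_lit 581075135693) (nat_lit 76) (nat_lit 575062437126) (nat_lit 1) (nat_lit 4) (nat_lit 2) (nat_lit 5) (nat_lit 2) (nat_lit 4) (nat_lit 411) (nat_lit 341) (nat_lit 268)) (XT.nd (nat_lit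 78) (nat_lit 0) (nat_lit 0) (XT.lf (nat_lit 0) (nat_lit 14968198141958) (nat_lit 76) (nat_lit 640120829634) (nat_lit 76) (nat_lit 634108101991) (nat_lit 1) (nat_lit 4) (nat_lit 2) (nat_lit 5) (nat_lit 2) (nat_lit 4) (nat_lit 412) (nat_lit 341) (nat_lit 267)) (XT.lf (nat_lit 0) (nat_lit 17265088221672) (nat_lit 76) (nat_lit 708023623673) (nat_lit 76) (nat_lit 702010870747) (nat_lit 1) (nat_lit 4) (nat_lit 2) (nat_lit 5) (nat_lit 2) (nat_lit 4) (nat_lit 413) (nat_lit 341) (nat_lit 266)))) (XT.nd (nat_lit 78) (nat_lit 0) (nat_lit 0) (XT.lf (nat_lit 0) (nat_lit 19906511407250) (nat_lit 76) (nat_lit 786112050738) (nat_lit 76) (nat_lit 780099275826) (nat_lit 1) (nat_lit 4) (nat_lit 2) (nat_lit 5) (nat_lit 2) (nat_lit 4) (nat_lit 414) (nat_lit 341) (nat_lit 265)) (XT.nd (nat_lit 78) (nat_lit 0) (nat_lit 0) (XT.lf (nat_lit 0) (nat_lit 22944147717541) (nat_lit 76) (nat_lit 875913927880) (nat_lit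 76) (nat_lit 869901133849) (nat_lit 1) (nat_lit 4) (nat_lit 2) (nat_lit 5) (nat_lit 2) (nat_lit 4) (nat_lit 415) (nat_lit 341) (nat_lit 264)) (XT.lf (nat_lit 0) (nat_lit 26437429167312) (nat_lit 76) (nat_lit 979186248346) (nat_lit 76) (nat_lit 973173437692) (nat_lit 1) (nat_lit 4) (nat_lit 2) (nat_lit 5) (nat_lit 2) (nat_lit 4) (nat_lit 416) (nat_lit 341) (nat_lit 263)))))) (XT.nd (nat_lit 468) (nat_lit 0) (nat_lit 0) (XT.nd (nat_lit 234) (nat_lit 0) (nat_lit 0) (XT.nd (nat_lit 78) (nat_lit 0) (nat_lit 0) (XT.lf (nat_lit 0) (nat_lit 30454702567535) (nat_lit 76) (nat_lit 1097949557538) (nat_lit 76) (nat_lit 1091936732428) (nat_lit 1) (nat_lit 4) (nat_lit 2) (nat_lit 5) (nat_lit 2) (nat_lit 4) (nat_lit 417) (nat_lit 341) (nat_lit 262)) (XT.nd (nat_lit 78) (nat_lit 0) (nat_lit 0) (XT.lf (nat_lit 0) (nat_lit 35074566745608) (nat_lit 76) (nat_lit 1234527485418) (nat_lit 76) (nat_lit 1228514647737)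 (nat_lit 1) (nat_lit 4) (nat_lit 2) (nat_lit 5) (nat_lit 2) (nat_lit 4) (nat_lit 418) (nat_lit 341) (nat_lit 261)) (XT.lf (nat_lit 0) (nat_lit 40387410348491) (nat_lit 76) (nat_lit 1391592208836) (nat_lit 76) (nat_lit 1385579360225) (nat_lit 1) (nat_lit 4) (nat_lit 2) (nat_lit 5) (nat_lit 2) (nat_lit 4) (nat_lit 419) (nat_lit 341) (nat_lit 260)))) (XT.nd (nat_lit 78) (nat_lit 0) (nat_lit 0) (XT.lf (nat_lit 0) (nat_lit 46497180316242) (nat_lit 76) (nat_lit 1572216733250) (nat_lit 76) (nat_lit 1566203875133) (nat_lit 1) (nat_lit 4) (nat_lit 2) (nat_lit 5) (nat_lit 2) (nat_lit 4) (nat_lit 420) (nat_lit 341) (nat_lit 259)) (XT.nd (nat_lit 78) (nat_lit 0) (nat_lit 0) (XT.lf (nat_lit 0) (nat_lit 53523415626490) (nat_lit 76) (nat_lit 1779935016747) (nat_lit 76) (nat_lit 1773922150365) (nat_lit 1) (nat_lit 4) (nat_lit 2) (nat_lit 5) (nat_lit 2) (nat_lit 4) (nat_lit 421) (nat_lit 341) (nat_lit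 258)) (XT.lf (nat_lit 0) (nat_lit 61603586100523) (nat_lit 76) (nat_lit 2018811112698) (nat_lit 76) (nat_lit 2012798239129) (nat_lit 1) (nat_lit 4) (nat_lit 2) (nat_lit 5) (nat_lit 2) (nat_lit 4) (nat_lit 422) (nat_lit 341) (nat_lit 257))))) (XT.nd (nat_lit 234) (nat_lit 0) (nat_lit 0) (XT.nd (nat_lit 78) (nat_lit 0) (nat_lit 0) (XT.lf (nat_lit 0) (nat_lit 70895782030224) (nat_lit 76) (nat_lit 2293518683851) (nat_lit 76) (nat_lit 2287505804032) (nat_lit 1) (nat_lit 4) (nat_lit 2) (nat_lit 5) (nat_lit 2) (nat_lit 4) (nat_lit 423) (nat_lit 341) (nat_lit 256)) (XT.nd (nat_lit 78) (nat_lit 0) (nat_lit 0) (XT.lf (nat_lit 0) (nat_lit 81581807249001) (nat_lit 76) (nat_lit 2609432443555) (nat_lit 76) (nat_lit 2603419558302) (nat_lit 1) (nat_lit 4) (nat_lit 2) (nat_lit 5) (nat_lit 2) (nat_lit 4) (nat_lit 424) (nat_lit 341) (nat_lit 255)) (XT.lf (nat_lit 0) (nat_lit 93870736163307) (nat_lit 76)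 (nat_lit 2972733313195) (nat_lit 76) (nat_lit 2966720423216) (nat_lit 1) (nat_lit 4) (nat_lit 2) (nat_lit 5) (nat_lit 2) (nat_lit 4) (nat_lit 425) (nat_lit 341) (nat_lit 254)))) (XT.nd (nat_lit 78) (nat_lit 0) (nat_lit 0) (XT.lf (nat_lit 0) (nat_lit 108003004338857) (nat_lit 76) (nat_lit 3390529353265) (nat_lit 76) (nat_lit 3384516459176) (nat_lit 1) (nat_lit 4) (nat_lit 2) (nat_lit 5) (nat_lit 2) (nat_lit 4) (nat_lit 426) (nat_lit 341) (nat_lit 253)) (XT.nd (nat_lit 78) (nat_lit 0) (nat_lit 0) (XT.lf (nat_lit 0) (nat_lit 124255112674739) (nat_lit 76) (nat_lit 3870994834112) (nat_lit 76) (nat_lit 3864981936450) (nat_lit 1) (nat_lit 4) (nat_lit 2) (nat_lit 5) (nat_lit 2) (nat_lit 4) (nat_lit 427) (nat_lit 341) (nat_lit 252)) (XT.lf (nat_lit 0) (nat_lit 142945037203610) (nat_lit 76) (nat_lit 4423530167320) (nat_lit 76) (nat_lit 4417517266551) (nat_lit 1) (nat_lit 4) (nat_lit 2) (nat_lit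 5) (nat_lit 2) (nat_lit 4) (nat_lit 428) (nat_lit 341) (nat_lit 251))))))))
noncomputable def xc51 : XT := (XT.nd (nat_lit 47424) (nat_lit 0) (nat_lit 228) (XT.nd (nat_lit 46488) (nat_lit 0) (nat_lit 1444) (XT.nd (nat_lit 390) (nat_lit 0) (nat_lit 0) (XT.nd (nat_lit 156) (nat_lit 0) (nat_lit 0) (XT.nd (nat_lit 78) (nat_lit 0) (nat_lit 0) (XT.lf (nat_lit 0) (nat_lit 164438450361905) (nat_lit 76) (nat_lit 5058945826798) (nat_lit 76) (nat_lit 5052932923327) (nat_lit 1) (nat_lit 4) (nat_lit 2) (nat_lit 5) (nat_lit 2) (nat_lit 4) (nat_lit 429) (nat_lit 341) (nat_lit 250)) (XT.lf (nat_lit 0) (nat_lit 189155875450549) (nat_lit 76) (nat_lit 5789673858058) (nat_lit 76) (nat_lit 5783660952238) (nat_lit 1) (nat_lit 4) (nat_lit 2) (nat_lit 5) (nat_lit 2) (nat_lit 4) (nat_lit 430) (nat_lit 341) (nat_lit 249))) (XT.nd (nat_lit 78) (nat_lit 0) (nat_lit 0) (XT.lf (nat_lit 0) (nat_lit 217580914264751)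 (nat_lit 76) (nat_lit 6630011113886) (nat_lit 76) (nat_lit 6623998206023) (nat_lit 1) (nat_lit 4) (nat_lit 2) (nat_lit 5) (nat_lit 2) (nat_lit 4) (nat_lit 431) (nat_lit 341) (nat_lit 248)) (XT.nd (nat_lit 78) (nat_lit 0) (nat_lit 0) (XT.lf (nat_lit 0) (nat_lit 250269708868269) (nat_lit 76) (nat_lit 7596398975375) (nat_lit 76) (nat_lit 7590386065735) (nat_lit 1) (nat_lit 4) (nat_lit 2) (nat_lit 5) (nat_lit 2) (nat_lit 4) (nat_lit 432) (nat_lit 341) (nat_lit 247)) (XT.lf (nat_lit 0) (nat_lit 287861822633782) (nat_lit 76) (nat_lit 8707745031117) (nat_lit 76) (nat_lit 8701732119932) (nat_lit 1) (nat_lit 4) (nat_lit 2) (nat_lit 5) (nat_lit 2) (nat_lit 4) (nat_lit 433) (nat_lit 341) (nat_lit 246))))) (XT.nd (nat_lit 390) (nat_lit 0) (nat_lit 0) (XT.nd (nat_lit 234) (nat_lit 0) (nat_lit 0) (XT.lf (nat_lit 0) (nat_lit 331092753439308) (nat_lit 76) (nat_lit 9985793008292) (nat_lit 76) (nat_lit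 9979780095764) (nat_lit 1) (nat_lit 4) (nat_lit 2) (nat_lit 5) (nat_lit 2) (nat_lit 4) (nat_lit 434) (nat_lit 341) (nat_lit 245)) (XT.nd (nat_lit 78) (nat_lit 0) (nat_lit 0) (XT.lf (nat_lit 0) (nat_lit 503730071613254) (nat_lit 76) (nat_lit 15089517918450) (nat_lit 76) (nat_lit 15083505002856) (nat_lit 1) (nat_lit 4) (nat_lit 2) (nat_lit 5) (nat_lit 2) (nat_lit 4) (nat_lit 437) (nat_lit 341) (nat_lit 242)) (XT.lf (nat_lit 0) (nat_lit 579341239694862) (nat_lit 76) (nat_lit 17324831866042) (nat_lit 76) (nat_lit 17318818949678) (nat_lit 1) (nat_lit 4) (nat_lit 2) (nat_lit 5) (nat_lit 2) (nat_lit 4) (nat_lit 438) (nat_lit 341) (nat_lit 241)))) (XT.nd (nat_lit 45552) (nat_lit 0) (nat_lit 2736) (XT.lf (nat_lit 0) (nat_lit 666294082976376) (nat_lit 76) (nat_lit 19895442912269) (nat_lit 76) (nat_lit 19889429995238) (nat_lit 1) (nat_lit 4) (nat_lit 2) (nat_lit 5) (nat_lit 2) (nat_lit 4) (nat_lit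 439) (nat_lit 341) (nat_lit 240)) (XT.nd (nat_lit 78) (nat_lit 0) (nat_lit 0) (XT.lf (nat_lit 0) (nat_lit 1927786687) (nat_lit 228) (nat_lit 738470073) (nat_lit 228) (nat_lit 738470073) (nat_lit 37) (nat_lit 3) (nat_lit 40) (nat_lit 3) (nat_lit 40) (nat_lit 5) (nat_lit 342) (nat_lit 342) (nat_lit 336)) (XT.lf (nat_lit 76) (nat_lit 2054761861) (nat_lit 0) (nat_lit 3992629496) (nat_lit 228) (nat_lit 984083764) (nat_lit 38) (nat_lit 5) (nat_lit 37) (nat_lit 3) (nat_lit 40) (nat_lit 5) (nat_lit 343) (nat_lit 342) (nat_lit 335)))))) (XT.nd (nat_lit 468) (nat_lit 532) (nat_lit 0) (XT.nd (nat_lit 234) (nat_lit 532) (nat_lit 0) (XT.nd (nat_lit 78) (nat_lit 0) (nat_lit 76) (XT.lf (nat_lit 0) (nat_lit 899558431) (nat_lit 228) (nat_lit 1288892664) (nat_lit 304) (nat_lit 5131035060) (nat_lit 34) (nat_lit 5) (nat_lit 37) (nat_lit 3) (nat_lit 38) (nat_lit 5) (nat_lit 344) (nat_lit 342) (nat_lit 334))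 (XT.nd (nat_lit 78) (nat_lit 0) (nat_lit 0) (XT.lf (nat_lit 0) (nat_lit 2791903402) (nat_lit 228) (nat_lit 4717591942) (nat_lit 76) (nat_lit 160581105) (nat_lit 35) (nat_lit 5) (nat_lit 38) (nat_lit 5) (nat_lit 36) (nat_lit 5) (nat_lit 345) (nat_lit 342) (nat_lit 333)) (XT.lf (nat_lit 0) (nat_lit 4874231230) (nat_lit 228) (nat_lit 438323514) (nat_lit 76) (nat_lit 2775166057) (nat_lit 35) (nat_lit 5) (nat_lit 38) (nat_lit 5) (nat_lit 36) (nat_lit 5) (nat_lit 346) (nat_lit 342) (nat_lit 332)))) (XT.nd (nat_lit 78) (nat_lit 380) (nat_lit 0) (XT.lf (nat_lit 0) (nat_lit 4689284880) (nat_lit 228) (nat_lit 2540176582) (nat_lit 304) (nat_lit 1344802299) (nat_lit 32) (nat_lit 5) (nat_lit 35) (nat_lit 5) (nat_lit 36) (nat_lit 5) (nat_lit 347) (nat_lit 342) (nat_lit 331)) (XT.nd (nat_lit 78) (nat_lit 0) (nat_lit 0) (XT.lf (nat_lit 0) (nat_lit 623662037) (nat_lit 380) (nat_lit 7813339289) (nat_lit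 76) (nat_lit 708384889) (nat_lit 27) (nat_lit 5) (nat_lit 32) (nat_lit 5) (nat_lit 28) (nat_lit 5) (nat_lit 348) (nat_lit 342) (nat_lit 330)) (XT.lf (nat_lit 0) (nat_lit 2881227959) (nat_lit 380) (nat_lit 2441351517) (nat_lit 76) (nat_lit 4450484948) (nat_lit 27) (nat_lit 5) (nat_lit 32) (nat_lit 5) (nat_lit 28) (nat_lit 5) (nat_lit 349) (nat_lit 342) (nat_lit 329))))) (XT.nd (nat_lit 234) (nat_lit 228) (nat_lit 0) (XT.nd (nat_lit 78) (nat_lit 152) (nat_lit 0) (XT.lf (nat_lit 0) (nat_lit 3869428959) (nat_lit 152) (nat_lit 1592402387) (nat_lit 228) (nat_lit 5035594134) (nat_lit 25) (nat_lit 5) (nat_lit 27) (nat_lit 5) (nat_lit 28) (nat_lit 5) (nat_lit 350) (nat_lit 342) (nat_lit 328)) (XT.nd (nat_lit 78) (nat_lit 152) (nat_lit 0) (XT.lf (nat_lit 0) (nat_lit 8511977365) (nat_lit 228) (nat_lit 252410707) (nat_lit 76) (nat_lit 2553851329) (nat_lit 25) (nat_lit 5) (nat_lit 28) (nat_lit 5)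 (nat_lit 26) (nat_lit 4) (nat_lit 351) (nat_lit 342) (nat_lit 327)) (XT.lf (nat_lit 0) (nat_lit 34154769) (nat_lit 152) (nat_lit 4753534267) (nat_lit 76) (nat_lit 7437854710) (nat_lit 23) (nat_lit 5) (nat_lit 25) (nat_lit 5) (nat_lit 24) (nat_lit 5) (nat_lit 352) (nat_lit 342) (nat_lit 326)))) (XT.nd (nat_lit 78) (nat_lit 76) (nat_lit 0) (XT.lf (nat_lit 0) (nat_lit 3017921680) (nat_lit 228) (nat_lit 10195885111) (nat_lit 76) (nat_lit 34512410) (nat_lit 21) (nat_lit 5) (nat_lit 24) (nat_lit 5) (nat_lit 22) (nat_lit 4) (nat_lit 353) (nat_lit 342) (nat_lit 325)) (XT.nd (nat_lit 78) (nat_lit 76) (nat_lit 0) (XT.lf (nat_lit 0) (nat_lit 6807656975) (nat_lit 228) (nat_lit 2270899561) (nat_lit 76) (nat_lit 5292289147) (nat_lit 21) (nat_lit 5) (nat_lit 24) (nat_lit 5) (nat_lit 22) (nat_lit 4) (nat_lit 354) (nat_lit 342) (nat_lit 324)) (XT.lf (nat_lit 0) (nat_lit 7313618192) (nat_lit 76) (nat_lit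 4042124021) (nat_lit 152) (nat_lit 4277608270) (nat_lit 20) (nat_lit 5) (nat_lit 21) (nat_lit 5) (nat_lit 22) (nat_lit 4) (nat_lit 355) (nat_lit 342) (nat_lit 323))))))) (XT.nd (nat_lit 858) (nat_lit 532) (nat_lit 0) (XT.nd (nat_lit 390) (nat_lit 304) (nat_lit 0) (XT.nd (nat_lit 156) (nat_lit 228) (nat_lit 0) (XT.nd (nat_lit 78) (nat_lit 76) (nat_lit 0) (XT.lf (nat_lit 0) (nat_lit 1383425099) (nat_lit 76) (nat_lit 15348601400) (nat_lit 76) (nat_lit 331378556) (nat_lit 19) (nat_lit 4) (nat_lit 20) (nat_lit 5) (nat_lit 20) (nat_lit 4) (nat_lit 356) (nat_lit 342) (nat_lit 322)) (XT.lf (nat_lit 0) (nat_lit 4374140922) (nat_lit 152) (nat_lit 5740289580) (nat_lit 76) (nat_lit 8486181779) (nat_lit 18) (nat_lit 5) (nat_lit 20) (nat_lit 5) (nat_lit 19) (nat_lit 4) (nat_lit 357) (nat_lit 342) (nat_lit 321))) (XT.nd (nat_lit 78) (nat_lit 152) (nat_lit 0) (XT.lf (nat_lit 0) (nat_lit 6050395341) (nat_lit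 76) (nat_lit 3859340071) (nat_lit 152) (nat_lit 10432619431) (nat_lit 17) (nat_lit 5) (nat_lit 18) (nat_lit 5) (nat_lit 19) (nat_lit 4) (nat_lit 358) (nat_lit 342) (nat_lit 320)) (XT.nd (nat_lit 78) (nat_lit 152) (nat_lit 0) (XT.lf (nat_lit 0) (nat_lit 16638479988) (nat_lit 152) (nat_lit 2363515050) (nat_lit 0) (nat_lit 3288983278) (nat_lit 17) (nat_lit 5) (nat_lit 19) (nat_lit 4) (nat_lit 17) (nat_lit 4) (nat_lit 359) (nat_lit 342) (nat_lit 319)) (XT.lf (nat_lit 0) (nat_lit 494418428) (nat_lit 152) (nat_lit 12359378314) (nat_lit 76) (nat_lit 11583702704) (nat_lit 15) (nat_lit 5) (nat_lit 17) (nat_lit 5) (nat_lit 16) (nat_lit 4) (nat_lit 360) (nat_lit 342) (nat_lit 318))))) (XT.nd (nat_lit 234) (nat_lit 152) (nat_lit 0) (XT.nd (nat_lit 78) (nat_lit 76) (nat_lit 0) (XT.lf (nat_lit 0) (nat_lit 1804752100) (nat_lit 76) (nat_lit 5307110696) (nat_lit 152) (nat_lit 19734708285) (nat_lit 14)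 (nat_lit 5) (nat_lit 15) (nat_lit 5) (nat_lit 16) (nat_lit 4) (nat_lit 361) (nat_lit 342) (nat_lit 317)) (XT.nd (nat_lit 78) (nat_lit 76) (nat_lit 0) (XT.lf (nat_lit 0) (nat_lit 15462975759) (nat_lit 152) (nat_lit 10354579942) (nat_lit 0) (nat_lit 3688313506) (nat_lit 14) (nat_lit 5) (nat_lit 16) (nat_lit 4) (nat_lit 14) (nat_lit 4) (nat_lit 362) (nat_lit 342) (nat_lit 316)) (XT.lf (nat_lit 0) (nat_lit 6757075361) (nat_lit 76) (nat_lit 18776647223) (nat_lit 76) (nat_lit 6960314893) (nat_lit 13) (nat_lit 4) (nat_lit 14) (nat_lit 5) (nat_lit 14) (nat_lit 4) (nat_lit 363) (nat_lit 342) (nat_lit 315)))) (XT.nd (nat_lit 78) (nat_lit 76) (nat_lit 0) (XT.lf (nat_lit 0) (nat_lit 1581211877) (nat_lit 152) (nat_lit 8452961643) (nat_lit 76) (nat_lit 25813610786) (nat_lit 12) (nat_lit 5) (nat_lit 14) (nat_lit 5) (nat_lit 13) (nat_lit 4) (nat_lit 364) (nat_lit 342) (nat_lit 314)) (XT.nd (nat_lit 78)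 (nat_lit 0) (nat_lit 0) (XT.lf (nat_lit 0) (nat_lit 11172056679) (nat_lit 152) (nat_lit 27572651727) (nat_lit 0) (nat_lit 838077771) (nat_lit 11) (nat_lit 5) (nat_lit 13) (nat_lit 4) (nat_lit 11) (nat_lit 4) (nat_lit 365) (nat_lit 342) (nat_lit 313)) (XT.lf (nat_lit 0) (nat_lit 23086503082) (nat_lit 152) (nat_lit 7930101543) (nat_lit 0) (nat_lit 12728699172) (nat_lit 11) (nat_lit 5) (nat_lit 13) (nat_lit 4) (nat_lit 11) (nat_lit 4) (nat_lit 366) (nat_lit 342) (nat_lit 312)))))) (XT.nd (nat_lit 468) (nat_lit 228) (nat_lit 0) (XT.nd (nat_lit 234) (nat_lit 76) (nat_lit 0) (XT.nd (nat_lit 78) (nat_lit 152) (nat_lit 0) (XT.lf (nat_lit 0) (nat_lit 15984321677) (nat_lit 76) (nat_lit 21417199105) (nat_lit 76) (nat_lit 11038677802) (nat_lit 10) (nat_lit 4) (nat_lit 11) (nat_lit 5) (nat_lit 11) (nat_lit 4) (nat_lit 367) (nat_lit 342) (nat_lit 311)) (XT.nd (nat_lit 78) (nat_lit 76) (nat_lit 0) (XT.lf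 (nat_lit 0) (nat_lit 408348942) (nat_lit 152) (nat_lit 9518586201) (nat_lit 76) (nat_lit 43854338697) (nat_lit 9) (nat_lit 5) (nat_lit 11) (nat_lit 5) (nat_lit 10) (nat_lit 4) (nat_lit 368) (nat_lit 342) (nat_lit 310)) (XT.lf (nat_lit 0) (nat_lit 13333450896) (nat_lit 152) (nat_lit 42098180330) (nat_lit 0) (nat_lit 4279362416) (nat_lit 8) (nat_lit 5) (nat_lit 10) (nat_lit 4) (nat_lit 8) (nat_lit 4) (nat_lit 369) (nat_lit 342) (nat_lit 309)))) (XT.nd (nat_lit 78) (nat_lit 76) (nat_lit 0) (XT.lf (nat_lit 0) (nat_lit 29149759698) (nat_lit 152) (nat_lit 17153725321) (nat_lit 0) (nat_lit 20083825981) (nat_lit 8) (nat_lit 5) (nat_lit 10) (nat_lit 4) (nat_lit 8) (nat_lit 4) (nat_lit 370) (nat_lit 342) (nat_lit 308)) (XT.nd (nat_lit 78) (nat_lit 0) (nat_lit 0) (XT.lf (nat_lit 0) (nat_lit 12577846871) (nat_lit 76) (nat_lit 35245380588) (nat_lit 76) (nat_lit 26169146665) (nat_lit 7) (nat_lit 4)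 (nat_lit 8) (nat_lit 5) (nat_lit 8) (nat_lit 4) (nat_lit 371) (nat_lit 342) (nat_lit 307)) (XT.lf (nat_lit 0) (nat_lit 48626059821) (nat_lit 76) (nat_lit 21533990815) (nat_lit 76) (nat_lit 12448800191) (nat_lit 7) (nat_lit 4) (nat_lit 8) (nat_lit 5) (nat_lit 8) (nat_lit 4) (nat_lit 372) (nat_lit 342) (nat_lit 306))))) (XT.nd (nat_lit 234) (nat_lit 76) (nat_lit 0) (XT.nd (nat_lit 78) (nat_lit 76) (nat_lit 0) (XT.lf (nat_lit 0) (nat_lit 3001891048) (nat_lit 152) (nat_lit 2638913304) (nat_lit 76) (nat_lit 86861009778) (nat_lit 6) (nat_lit 5) (nat_lit 8) (nat_lit 5) (nat_lit 7) (nat_lit 4) (nat_lit 373) (nat_lit 342) (nat_lit 305)) (XT.nd (nat_lit 78) (nat_lit 0) (nat_lit 0) (XT.lf (nat_lit 0) (nat_lit 21578609691) (nat_lit 152) (nat_lit 68232971366) (nat_lit 0) (nat_lit 13665782202) (nat_lit 5) (nat_lit 5) (nat_lit 7) (nat_lit 4) (nat_lit 5) (nat_lit 4) (nat_lit 374) (nat_lit 342) (nat_lit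 304)) (XT.lf (nat_lit 0) (nat_lit 43327923958) (nat_lit 152) (nat_lit 37303434692) (nat_lit 0) (nat_lit 35409975447) (nat_lit 5) (nat_lit 5) (nat_lit 7) (nat_lit 4) (nat_lit 5) (nat_lit 4) (nat_lit 375) (nat_lit 342) (nat_lit 303)))) (XT.nd (nat_lit 78) (nat_lit 76) (nat_lit 0) (XT.lf (nat_lit 0) (nat_lit 68316127694) (nat_lit 152) (nat_lit 1783575085) (nat_lit 0) (nat_lit 60393726120) (nat_lit 5) (nat_lit 5) (nat_lit 7) (nat_lit 4) (nat_lit 5) (nat_lit 4) (nat_lit 376) (nat_lit 342) (nat_lit 302)) (XT.nd (nat_lit 78) (nat_lit 0) (nat_lit 0) (XT.lf (nat_lit 0) (nat_lit 42835031987) (nat_lit 76) (nat_lit 55970795878) (nat_lit 76) (nat_lit 48044522075) (nat_lit 4) (nat_lit 4) (nat_lit 5) (nat_lit 5) (nat_lit 5) (nat_lit 4) (nat_lit 377) (nat_lit 342) (nat_lit 301)) (XT.lf (nat_lit 0) (nat_lit 94306118417) (nat_lit 76) (nat_lit 39636633968) (nat_lit 76) (nat_lit 31706993010) (nat_lit 4)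 (nat_lit 4) (nat_lit 5) (nat_lit 5) (nat_lit 5) (nat_lit 4) (nat_lit 378) (nat_lit 342) (nat_lit 300))))))))
noncomputable def xc52 : XT := (XT.nd (nat_lit 1716) (nat_lit 0) (nat_lit 0) (XT.nd (nat_lit 858) (nat_lit 0) (nat_lit 0) (XT.nd (nat_lit 390) (nat_lit 76) (nat_lit 0) (XT.nd (nat_lit 156) (nat_lit 0) (nat_lit 0) (XT.nd (nat_lit 78) (nat_lit 152) (nat_lit 0) (XT.lf (nat_lit 0) (nat_lit 153462423270) (nat_lit 76) (nat_lit 20870867954) (nat_lit 76) (nat_lit 12938299034) (nat_lit 4) (nat_lit 4) (nat_lit 5) (nat_lit 5) (nat_lit 5) (nat_lit 4) (nat_lit 379) (nat_lit 342) (nat_lit 299)) (XT.lf (nat_lit 0) (nat_lit 8333228594) (nat_lit 152) (nat_lit 202248071314) (nat_lit 0) (nat_lit 1433128617) (nat_lit 2) (nat_lit 5) (nat_lit 4) (nat_lit 4) (nat_lit 2) (nat_lit 4) (nat_lit 380) (nat_lit 342) (nat_lit 298))) (XT.nd (nat_lit 78) (nat_lit 0) (nat_lit 0) (XT.lf (nat_lit 0) (nat_lit 34300800018)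 (nat_lit 152) (nat_lit 178252209672) (nat_lit 0) (nat_lit 27398774860) (nat_lit 2) (nat_lit 5) (nat_lit 4) (nat_lit 4) (nat_lit 2) (nat_lit 4) (nat_lit 381) (nat_lit 342) (nat_lit 297)) (XT.nd (nat_lit 78) (nat_lit 0) (nat_lit 0) (XT.lf (nat_lit 0) (nat_lit 64150154802) (nat_lit 152) (nat_lit 150685137281) (nat_lit 0) (nat_lit 57246455572) (nat_lit 2) (nat_lit 5) (nat_lit 4) (nat_lit 4) (nat_lit 2) (nat_lit 4) (nat_lit 382) (nat_lit 342) (nat_lit 296)) (XT.lf (nat_lit 0) (nat_lit 98465302059) (nat_lit 152) (nat_lit 119007498378) (nat_lit 0) (nat_lit 91560147114) (nat_lit 2) (nat_lit 5) (nat_lit 4) (nat_lit 4) (nat_lit 2) (nat_lit 4) (nat_lit 383) (nat_lit 342) (nat_lit 295))))) (XT.nd (nat_lit 234) (nat_lit 0) (nat_lit 0) (XT.nd (nat_lit 78) (nat_lit 76) (nat_lit 0) (XT.lf (nat_lit 0) (nat_lit 137917625106) (nat_lit 152) (nat_lit 82599513071) (nat_lit 0) (nat_lit 131011204323) (nat_lit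 2) (nat_lit 5) (nat_lit 4) (nat_lit 4) (nat_lit 2) (nat_lit 4) (nat_lit 384) (nat_lit 342) (nat_lit 294)) (XT.nd (nat_lit 78) (nat_lit 76) (nat_lit 0) (XT.lf (nat_lit 0) (nat_lit 183279017219) (nat_lit 152) (nat_lit 40748851212) (nat_lit 0) (nat_lit 176371495707) (nat_lit 2) (nat_lit 5) (nat_lit 4) (nat_lit 4) (nat_lit 2) (nat_lit 4) (nat_lit 385) (nat_lit 342) (nat_lit 293)) (XT.lf (nat_lit 0) (nat_lit 8082900161) (nat_lit 76) (nat_lit 227688779395) (nat_lit 76) (nat_lit 220780300727) (nat_lit 1) (nat_lit 4) (nat_lit 2) (nat_lit 5) (nat_lit 2) (nat_lit 4) (nat_lit 386) (nat_lit 342) (nat_lit 292)))) (XT.nd (nat_lit 78) (nat_lit 0) (nat_lit 0) (XT.lf (nat_lit 0) (nat_lit 68803656086) (nat_lit 76) (nat_lit 229457363685) (nat_lit 76) (nat_lit 222548052708) (nat_lit 1) (nat_lit 4) (nat_lit 2) (nat_lit 5) (nat_lit 2) (nat_lit 4) (nat_lit 387) (nat_lit 342) (nat_lit 291)) (XT.nd (nat_lit 78)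 (nat_lit 0) (nat_lit 0) (XT.lf (nat_lit 0) (nat_lit 138619157256) (nat_lit 76) (nat_lit 231498277624) (nat_lit 76) (nat_lit 224588242899) (nat_lit 1) (nat_lit 4) (nat_lit 2) (nat_lit 5) (nat_lit 2) (nat_lit 4) (nat_lit 388) (nat_lit 342) (nat_lit 290)) (XT.lf (nat_lit 0) (nat_lit 218895359130) (nat_lit 76) (nat_lit 233851452137) (nat_lit 76) (nat_lit 226940788067) (nat_lit 1) (nat_lit 4) (nat_lit 2) (nat_lit 5) (nat_lit 2) (nat_lit 4) (nat_lit 389) (nat_lit 342) (nat_lit 289)))))) (XT.nd (nat_lit 390) (nat_lit 0) (nat_lit 0) (XT.nd (nat_lit 156) (nat_lit 0) (nat_lit 0) (XT.nd (nat_lit 78) (nat_lit 0) (nat_lit 0) (XT.lf (nat_lit 0) (nat_lit 311202883047) (nat_lit 76) (nat_lit 236562927595) (nat_lit 76) (nat_lit 229651716268) (nat_lit 1) (nat_lit 4) (nat_lit 2) (nat_lit 5) (nat_lit 2) (nat_lit 4) (nat_lit 390) (nat_lit 342) (nat_lit 288)) (XT.lf (nat_lit 0) (nat_lit 417347745780) (nat_lit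 76) (nat_lit 239685754604) (nat_lit 76) (nat_lit 232774067402) (nat_lit 1) (nat_lit 4) (nat_lit 2) (nat_lit 5) (nat_lit 2) (nat_lit 4) (nat_lit 391) (nat_lit 342) (nat_lit 287))) (XT.nd (nat_lit 78) (nat_lit 0) (nat_lit 0) (XT.lf (nat_lit 0) (nat_lit 539406694643) (nat_lit 76) (nat_lit 243281031955) (nat_lit 76) (nat_lit 236368930948) (nat_lit 1) (nat_lit 4) (nat_lit 2) (nat_lit 5) (nat_lit 2) (nat_lit 4) (nat_lit 392) (nat_lit 342) (nat_lit 286)) (XT.nd (nat_lit 78) (nat_lit 0) (nat_lit 0) (XT.lf (nat_lit 0) (nat_lit 679767839507) (nat_lit 76) (nat_lit 247419102029) (nat_lit 76) (nat_lit 240506641192) (nat_lit 1) (nat_lit 4) (nat_lit 2) (nat_lit 5) (nat_lit 2) (nat_lit 4) (nat_lit 393) (nat_lit 342) (nat_lit 285)) (XT.lf (nat_lit 0) (nat_lit 841177376682) (nat_lit 76) (nat_lit 252180927068) (nat_lit 76) (nat_lit 245268153335) (nat_lit 1) (nat_lit 4) (nat_lit 2) (nat_lit 5) (nat_lit 2)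 (nat_lit 4) (nat_lit 394) (nat_lit 342) (nat_lit 284))))) (XT.nd (nat_lit 234) (nat_lit 0) (nat_lit 0) (XT.nd (nat_lit 78) (nat_lit 0) (nat_lit 0) (XT.lf (nat_lit 0) (nat_lit 1026793318853) (nat_lit 76) (nat_lit 257659673214) (nat_lit 76) (nat_lit 250746627397) (nat_lit 1) (nat_lit 4) (nat_lit 2) (nat_lit 5) (nat_lit 2) (nat_lit 4) (nat_lit 395) (nat_lit 342) (nat_lit 283)) (XT.nd (nat_lit 78) (nat_lit 0) (nat_lit 0) (XT.lf (nat_lit 0) (nat_lit 1240247282281) (nat_lit 76) (nat_lit 263962533326) (nat_lit 76) (nat_lit 257049250915) (nat_lit 1) (nat_lit 4) (nat_lit 2) (nat_lit 5) (nat_lit 2) (nat_lit 4) (nat_lit 396) (nat_lit 342) (nat_lit 282)) (XT.lf (nat_lit 0) (nat_lit 1485715540161) (nat_lit 76) (nat_lit 271212824232) (nat_lit 76) (nat_lit 264299336086) (nat_lit 1) (nat_lit 4) (nat_lit 2) (nat_lit 5) (nat_lit 2) (nat_lit 4) (nat_lit 397) (nat_lit 342) (nat_lit 281)))) (XT.nd (nat_lit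 78) (nat_lit 0) (nat_lit 0) (XT.lf (nat_lit 0) (nat_lit 1768000732323) (nat_lit 76) (nat_lit 279552399449) (nat_lit 76) (nat_lit 272638732405) (nat_lit 1) (nat_lit 4) (nat_lit 2) (nat_lit 5) (nat_lit 2) (nat_lit 4) (nat_lit 398) (nat_lit 342) (nat_lit 280)) (XT.nd (nat_lit 78) (nat_lit 0) (nat_lit 0) (XT.lf (nat_lit 0) (nat_lit 2092625829917) (nat_lit 76) (nat_lit 289144424581) (nat_lit 76) (nat_lit 282230601972) (nat_lit 1) (nat_lit 4) (nat_lit 2) (nat_lit 5) (nat_lit 2) (nat_lit 4) (nat_lit 399) (nat_lit 342) (nat_lit 279)) (XT.lf (nat_lit 0) (nat_lit 2465942193549) (nat_lit 76) (nat_lit 300176569684) (nat_lit 76) (nat_lit 293262611802) (nat_lit 1) (nat_lit 4) (nat_lit 2) (nat_lit 5) (nat_lit 2) (nat_lit 4) (nat_lit 400) (nat_lit 342) (nat_lit 278))))))) (XT.nd (nat_lit 858) (nat_lit 0) (nat_lit 0) (XT.nd (nat_lit 390) (nat_lit 0) (nat_lit 0) (XT.nd (nat_lit 156) (nat_lit 0) (nat_lit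 0) (XT.nd (nat_lit 78) (nat_lit 0) (nat_lit 0) (XT.lf (nat_lit 0) (nat_lit 2895253839029) (nat_lit 76) (nat_lit 312864681075) (nat_lit 76) (nat_lit 305950605563) (nat_lit 1) (nat_lit 4) (nat_lit 2) (nat_lit 5) (nat_lit 2) (nat_lit 4) (nat_lit 401) (nat_lit 342) (nat_lit 277)) (XT.lf (nat_lit 0) (nat_lit 3388960342029) (nat_lit 76) (nat_lit 327457004412) (nat_lit 76) (nat_lit 320542826614) (nat_lit 1) (nat_lit 4) (nat_lit 2) (nat_lit 5) (nat_lit 2) (nat_lit 4) (nat_lit 402) (nat_lit 342) (nat_lit 276))) (XT.nd (nat_lit 78) (nat_lit 0) (nat_lit 0) (XT.lf (nat_lit 0) (nat_lit 3956721177607) (nat_lit 76) (nat_lit 344239041673) (nat_lit 76) (nat_lit 337324774931) (nat_lit 1) (nat_lit 4) (nat_lit 2) (nat_lit 5) (nat_lit 2) (nat_lit 4) (nat_lit 403) (nat_lit 342) (nat_lit 275)) (XT.nd (nat_lit 78) (nat_lit 0) (nat_lit 0) (XT.lf (nat_lit 0) (nat_lit 4609644709939) (nat_lit 76) (nat_lit 363539137066)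 (nat_lit 76) (nat_lit 356624792980) (nat_lit 1) (nat_lit 4) (nat_lit 2) (nat_lit 5) (nat_lit 2) (nat_lit 4) (nat_lit 404) (nat_lit 342) (nat_lit 274)) (XT.lf (nat_lit 0) (nat_lit 5360505529874) (nat_lit 76) (nat_lit 385734901152) (nat_lit 76) (nat_lit 378820489812) (nat_lit 1) (nat_lit 4) (nat_lit 2) (nat_lit 5) (nat_lit 2) (nat_lit 4) (nat_lit 405) (nat_lit 342) (nat_lit 273))))) (XT.nd (nat_lit 234) (nat_lit 0) (nat_lit 0) (XT.nd (nat_lit 78) (nat_lit 0) (nat_lit 0) (XT.lf (nat_lit 0) (nat_lit 6223994392585) (nat_lit 76) (nat_lit 411260598881) (nat_lit 76) (nat_lit 404346129058) (nat_lit 1) (nat_lit 4) (nat_lit 2) (nat_lit 5) (nat_lit 2) (nat_lit 4) (nat_lit 406) (nat_lit 342) (nat_lit 272)) (XT.nd (nat_lit 78) (nat_lit 0) (nat_lit 0) (XT.lf (nat_lit 0) (nat_lit 7217005645385) (nat_lit 76) (nat_lit 440615646079) (nat_lit 76) (nat_lit 433701125401) (nat_lit 1) (nat_lit 4) (nat_lit 2)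 (nat_lit 5) (nat_lit 2) (nat_lit 4) (nat_lit 407) (nat_lit 342) (nat_lit 271)) (XT.lf (nat_lit 0) (nat_lit 8358967769308) (nat_lit 76) (nat_lit 474374380624) (nat_lit 76) (nat_lit 467459815726) (nat_lit 1) (nat_lit 4) (nat_lit 2) (nat_lit 5) (nat_lit 2) (nat_lit 4) (nat_lit 408) (nat_lit 342) (nat_lit 270)))) (XT.nd (nat_lit 78) (nat_lit 0) (nat_lit 0) (XT.lf (nat_lit 0) (nat_lit 9672223501562) (nat_lit 76) (nat_lit 513197299498) (nat_lit 76) (nat_lit 506282696146) (nat_lit 1) (nat_lit 4) (nat_lit 2) (nat_lit 5) (nat_lit 2) (nat_lit 4) (nat_lit 409) (nat_lit 342) (nat_lit 269)) (XT.nd (nat_lit 78) (nat_lit 0) (nat_lit 0) (XT.lf (nat_lit 0) (nat_lit 11182466976037) (nat_lit 76) (nat_lit 557843981548) (nat_lit 76) (nat_lit 550929344758) (nat_lit 1) (nat_lit 4) (nat_lit 2) (nat_lit 5) (nat_lit 2) (nat_lit 4) (nat_lit 410) (nat_lit 342) (nat_lit 268)) (XT.lf (nat_lit 0) (nat_lit 12919246434625)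 (nat_lit 76) (nat_lit 609187948813) (nat_lit 76) (nat_lit 602273282948) (nat_lit 1) (nat_lit 4) (nat_lit 2) (nat_lit 5) (nat_lit 2) (nat_lit 4) (nat_lit 411) (nat_lit 342) (nat_lit 267)))))) (XT.nd (nat_lit 468) (nat_lit 0) (nat_lit 0) (XT.nd (nat_lit 234) (nat_lit 0) (nat_lit 0) (XT.nd (nat_lit 78) (nat_lit 0) (nat_lit 0) (XT.lf (nat_lit 0) (nat_lit 14916542344996) (nat_lit 76) (nat_lit 668233757176) (nat_lit 76) (nat_lit 661319066027) (nat_lit 1) (nat_lit 4) (nat_lit 2) (nat_lit 5) (nat_lit 2) (nat_lit 4) (nat_lit 412) (nat_lit 342) (nat_lit 266)) (XT.nd (nat_lit 78) (nat_lit 0) (nat_lit 0) (XT.lf (nat_lit 0) (nat_lit 17213432235830) (nat_lit 76) (nat_lit 736136650713) (nat_lit 76) (nat_lit 729221937578) (nat_lit 1) (nat_lit 4) (nat_lit 2) (nat_lit 5) (nat_lit 2) (nat_lit 4) (nat_lit 413) (nat_lit 342) (nat_lit 265)) (XT.lf (nat_lit 0) (nat_lit 19854855257165) (nat_lit 76) (nat_lit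 814225164298) (nat_lit 76) (nat_lit 807310432045) (nat_lit 1) (nat_lit 4) (nat_lit 2) (nat_lit 5) (nat_lit 2) (nat_lit 4) (nat_lit 414) (nat_lit 342) (nat_lit 264)))) (XT.nd (nat_lit 78) (nat_lit 0) (nat_lit 0) (XT.lf (nat_lit 0) (nat_lit 22892491424635) (nat_lit 76) (nat_lit 904027116673) (nat_lit 76) (nat_lit 897112367796) (nat_lit 1) (nat_lit 4) (nat_lit 2) (nat_lit 5) (nat_lit 2) (nat_lit 4) (nat_lit 415) (nat_lit 342) (nat_lit 263)) (XT.nd (nat_lit 78) (nat_lit 0) (nat_lit 0) (XT.lf (nat_lit 0) (nat_lit 26385772750214) (nat_lit 76) (nat_lit 1007299502561) (nat_lit 76) (nat_lit 1000384739228) (nat_lit 1) (nat_lit 4) (nat_lit 2) (nat_lit 5) (nat_lit 2) (nat_lit 4) (nat_lit 416) (nat_lit 342) (nat_lit 262)) (XT.lf (nat_lit 0) (nat_lit 30403046042444) (nat_lit 76) (nat_lit 1126062868641) (nat_lit 76) (nat_lit 1119148092738) (nat_lit 1) (nat_lit 4) (nat_lit 2) (nat_lit 5) (nat_lit 2)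 (nat_lit 4) (nat_lit 417) (nat_lit 342) (nat_lit 261))))) (XT.nd (nat_lit 234) (nat_lit 0) (nat_lit 0) (XT.nd (nat_lit 78) (nat_lit 0) (nat_lit 0) (XT.lf (nat_lit 0) (nat_lit 35022910126610) (nat_lit 76) (nat_lit 1262640845989) (nat_lit 76) (nat_lit 1255726059155) (nat_lit 1) (nat_lit 4) (nat_lit 2) (nat_lit 5) (nat_lit 2) (nat_lit 4) (nat_lit 418) (nat_lit 342) (nat_lit 260)) (XT.nd (nat_lit 78) (nat_lit 0) (nat_lit 0) (XT.lf (nat_lit 0) (nat_lit 40335753647835) (nat_lit 76) (nat_lit 1419705612423) (nat_lit 76) (nat_lit 1412790816083) (nat_lit 1) (nat_lit 4) (nat_lit 2) (nat_lit 5) (nat_lit 2) (nat_lit 4) (nat_lit 419) (nat_lit 342) (nat_lit 259)) (XT.lf (nat_lit 0) (nat_lit 46445523544579) (nat_lit 76) (nat_lit 1600330174241) (nat_lit 76) (nat_lit 1593415369637) (nat_lit 1) (nat_lit 4) (nat_lit 2) (nat_lit 5) (nat_lit 2) (nat_lit 4) (nat_lit 420) (nat_lit 342) (nat_lit 258)))) (XT.nd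 (nat_lit 78) (nat_lit 0) (nat_lit 0) (XT.lf (nat_lit 0) (nat_lit 53471758793082) (nat_lit 76) (nat_lit 1808048490264) (nat_lit 76) (nat_lit 1801133678472) (nat_lit 1) (nat_lit 4) (nat_lit 2) (nat_lit 5) (nat_lit 2) (nat_lit 4) (nat_lit 421) (nat_lit 342) (nat_lit 257)) (XT.nd (nat_lit 78) (nat_lit 0) (nat_lit 0) (XT.lf (nat_lit 0) (nat_lit 61551929213423) (nat_lit 76) (nat_lit 2046924614498) (nat_lit 76) (nat_lit 2040009796457) (nat_lit 1) (nat_lit 4) (nat_lit 2) (nat_lit 5) (nat_lit 2) (nat_lit 4) (nat_lit 422) (nat_lit 342) (nat_lit 256)) (XT.lf (nat_lit 0) (nat_lit 70844125096436) (nat_lit 76) (nat_lit 2321632210246) (nat_lit 76) (nat_lit 2314717386770) (nat_lit 1) (nat_lit 4) (nat_lit 2) (nat_lit 5) (nat_lit 2) (nat_lit 4) (nat_lit 423) (nat_lit 342) (nat_lit 255))))))))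
noncomputable def xc53 : XT := (XT.nd (nat_lit 47580) (nat_lit 0) (nat_lit 304) (XT.nd (nat_lit 1014) (nat_lit 0) (nat_lit 0) (XT.nd (nat_lit 390) (nat_lit 0) (nat_lit 0) (XT.nd (nat_lit 156) (nat_lit 0) (nat_lit 0) (XT.nd (nat_lit 78) (nat_lit 0) (nat_lit 0) (XT.lf (nat_lit 0) (nat_lit 81530150274614) (nat_lit 76) (nat_lit 2637545991336) (nat_lit 76) (nat_lit 2630631163134) (nat_lit 1) (nat_lit 4) (nat_lit 2) (nat_lit 5) (nat_lit 2) (nat_lit 4) (nat_lit 424) (nat_lit 342) (nat_lit 254)) (XT.lf (nat_lit 0) (nat_lit 93819079153617) (nat_lit 76) (nat_lit 3000846879573) (nat_lit 76) (nat_lit 2993932047262) (nat_lit 1) (nat_lit 4) (nat_lit 2) (nat_lit 5) (nat_lit 2) (nat_lit 4) (nat_lit 425) (nat_lit 342) (nat_lit 253))) (XT.nd (nat_lit 78) (nat_lit 0) (nat_lit 0) (XT.lf (nat_lit 0) (nat_lit 107951347298469) (nat_lit 76) (nat_lit 3418642935813) (nat_lit 76) (nat_lit 3411728099929) (nat_lit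 1) (nat_lit 4) (nat_lit 2) (nat_lit 5) (nat_lit 2) (nat_lit 4) (nat_lit 426) (nat_lit 342) (nat_lit 252)) (XT.nd (nat_lit 78) (nat_lit 0) (nat_lit 0) (XT.lf (nat_lit 0) (nat_lit 124203455607657) (nat_lit 76) (nat_lit 3899108430723) (nat_lit 76) (nat_lit 3892193591731) (nat_lit 1) (nat_lit 4) (nat_lit 2) (nat_lit 5) (nat_lit 2) (nat_lit 4) (nat_lit 427) (nat_lit 342) (nat_lit 251)) (XT.lf (nat_lit 0) (nat_lit 142893380113316) (nat_lit 76) (nat_lit 4451643776158) (nat_lit 76) (nat_lit 4444728934465) (nat_lit 1) (nat_lit 4) (nat_lit 2) (nat_lit 5) (nat_lit 2) (nat_lit 4) (nat_lit 428) (nat_lit 342) (nat_lit 250))))) (XT.nd (nat_lit 234) (nat_lit 0) (nat_lit 0) (XT.nd (nat_lit 78) (nat_lit 0) (nat_lit 0) (XT.lf (nat_lit 0) (nat_lit 164386793251426) (nat_lit 76) (nat_lit 5087059446269) (nat_lit 76) (nat_lit 5080144602226) (nat_lit 1) (nat_lit 4) (nat_lit 2) (nat_lit 5) (nat_lit 2) (nat_lit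 4) (nat_lit 429) (nat_lit 342) (nat_lit 249)) (XT.nd (nat_lit 78) (nat_lit 0) (nat_lit 0) (XT.lf (nat_lit 0) (nat_lit 189104218322517) (nat_lit 76) (nat_lit 5817787486775) (nat_lit 76) (nat_lit 5810872640689) (nat_lit 1) (nat_lit 4) (nat_lit 2) (nat_lit 5) (nat_lit 2) (nat_lit 4) (nat_lit 430) (nat_lit 342) (nat_lit 248)) (XT.lf (nat_lit 0) (nat_lit 217529257121457) (nat_lit 76) (nat_lit 6658124750643) (nat_lit 76) (nat_lit 6651209902781) (nat_lit 1) (nat_lit 4) (nat_lit 2) (nat_lit 5) (nat_lit 2) (nat_lit 4) (nat_lit 431) (nat_lit 342) (nat_lit 247)))) (XT.nd (nat_lit 78) (nat_lit 0) (nat_lit 0) (XT.lf (nat_lit 0) (nat_lit 250218051711704) (nat_lit 76) (nat_lit 7624512619123) (nat_lit 76) (nat_lit 7617597769715) (nat_lit 1) (nat_lit 4) (nat_lit 2) (nat_lit 5) (nat_lit 2) (nat_lit 4) (nat_lit 432) (nat_lit 342) (nat_lit 246)) (XT.nd (nat_lit 78) (nat_lit 0) (nat_lit 0) (XT.lf (nat_lit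 0) (nat_lit 287810165465676) (nat_lit 76) (nat_lit 8735858680944) (nat_lit 76) (nat_lit 8728943830194) (nat_lit 1) (nat_lit 4) (nat_lit 2) (nat_lit 5) (nat_lit 2) (nat_lit 4) (nat_lit 433) (nat_lit 342) (nat_lit 245)) (XT.lf (nat_lit 0) (nat_lit 331041096261167) (nat_lit 76) (nat_lit 10013906663406) (nat_lit 76) (nat_lit 10006991811487) (nat_lit 1) (nat_lit 4) (nat_lit 2) (nat_lit 5) (nat_lit 2) (nat_lit 4) (nat_lit 434) (nat_lit 342) (nat_lit 244)))))) (XT.nd (nat_lit 46098) (nat_lit 0) (nat_lit 1748) (XT.nd (nat_lit 45864) (nat_lit 0) (nat_lit 2508) (XT.nd (nat_lit 78) (nat_lit 0) (nat_lit 0) (XT.lf (nat_lit 0) (nat_lit 503678414412199) (nat_lit 76) (nat_lit 15117631585635) (nat_lit 76) (nat_lit 15110716731049) (nat_lit 1) (nat_lit 4) (nat_lit 2) (nat_lit 5) (nat_lit 2) (nat_lit 4) (nat_lit 437) (nat_lit 342) (nat_lit 241)) (XT.nd (nat_lit 45708) (nat_lit 0) (nat_lit 2508) (XT.lf (nat_lit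 0) (nat_lit 579289582488070) (nat_lit 76) (nat_lit 17352945536248) (nat_lit 76) (nat_lit 17346030680995) (nat_lit 1) (nat_lit 4) (nat_lit 2) (nat_lit 5) (nat_lit 2) (nat_lit 4) (nat_lit 438) (nat_lit 342) (nat_lit 240)) (XT.lf (nat_lit 0) (nat_lit 147154421) (nat_lit 0) (nat_lit 147154421) (nat_lit 228) (nat_lit 3352697197) (nat_lit 34) (nat_lit 5) (nat_lit 34) (nat_lit 3) (nat_lit 37) (nat_lit 3) (nat_lit 343) (nat_lit 343) (nat_lit 334)))) (XT.nd (nat_lit 78) (nat_lit 0) (nat_lit 0) (XT.lf (nat_lit 0) (nat_lit 2231535367) (nat_lit 228) (nat_lit 3437169983) (nat_lit 304) (nat_lit 1930378657) (nat_lit 34) (nat_lit 5) (nat_lit 37) (nat_lit 3) (nat_lit 38) (nat_lit 5) (nat_lit 344) (nat_lit 343) (nat_lit 333)) (XT.nd (nat_lit 78) (nat_lit 0) (nat_lit 0) (XT.lf (nat_lit 76) (nat_lit 510327287) (nat_lit 0) (nat_lit 3382235832) (nat_lit 304) (nat_lit 4091987917) (nat_lit 35) (nat_lit 5) (nat_lit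 34) (nat_lit 5) (nat_lit 38) (nat_lit 5) (nat_lit 345) (nat_lit 343) (nat_lit 332)) (XT.lf (nat_lit 76) (nat_lit 5263625786) (nat_lit 0) (nat_lit 482534208) (nat_lit 304) (nat_lit 2690500822) (nat_lit 35) (nat_lit 5) (nat_lit 34) (nat_lit 5) (nat_lit 38) (nat_lit 5) (nat_lit 346) (nat_lit 343) (nat_lit 331))))) (XT.nd (nat_lit 234) (nat_lit 228) (nat_lit 0) (XT.nd (nat_lit 78) (nat_lit 380) (nat_lit 0) (XT.lf (nat_lit 0) (nat_lit 1615562040) (nat_lit 228) (nat_lit 6244083783) (nat_lit 304) (nat_lit 1099955080) (nat_lit 32) (nat_lit 5) (nat_lit 35) (nat_lit 5) (nat_lit 36) (nat_lit 5) (nat_lit 347) (nat_lit 343) (nat_lit 330)) (XT.nd (nat_lit 78) (nat_lit 304) (nat_lit 0) (XT.lf (nat_lit 0) (nat_lit 668104577) (nat_lit 304) (nat_lit 2312345805) (nat_lit 76) (nat_lit 6575645620) (nat_lit 31) (nat_lit 5) (nat_lit 35) (nat_lit 5) (nat_lit 32) (nat_lit 5) (nat_lit 348) (nat_lit 343) (nat_lit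 329)) (XT.lf (nat_lit 0) (nat_lit 2610366921) (nat_lit 380) (nat_lit 6708146984) (nat_lit 76) (nat_lit 912644914) (nat_lit 27) (nat_lit 5) (nat_lit 32) (nat_lit 5) (nat_lit 28) (nat_lit 5) (nat_lit 349) (nat_lit 343) (nat_lit 328)))) (XT.nd (nat_lit 78) (nat_lit 228) (nat_lit 0) (XT.lf (nat_lit 0) (nat_lit 4959634395) (nat_lit 380) (nat_lit 827386246) (nat_lit 76) (nat_lit 5203277075) (nat_lit 27) (nat_lit 5) (nat_lit 32) (nat_lit 5) (nat_lit 28) (nat_lit 5) (nat_lit 350) (nat_lit 343) (nat_lit 327)) (XT.nd (nat_lit 78) (nat_lit 76) (nat_lit 0) (XT.lf (nat_lit 0) (nat_lit 6340003665) (nat_lit 152) (nat_lit 1450867494) (nat_lit 228) (nat_lit 4053144214) (nat_lit 25) (nat_lit 5) (nat_lit 27) (nat_lit 5) (nat_lit 28) (nat_lit 5) (nat_lit 351) (nat_lit 343) (nat_lit 326)) (XT.lf (nat_lit 0) (nat_lit 1688227966) (nat_lit 76) (nat_lit 9496987982) (nat_lit 152) (nat_lit 1619937273) (nat_lit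 24) (nat_lit 5) (nat_lit 25) (nat_lit 5) (nat_lit 26) (nat_lit 4) (nat_lit 352) (nat_lit 343) (nat_lit 325))))))) (XT.nd (nat_lit 858) (nat_lit 684) (nat_lit 0) (XT.nd (nat_lit 390) (nat_lit 304) (nat_lit 0) (XT.nd (nat_lit 156) (nat_lit 228) (nat_lit 0) (XT.nd (nat_lit 78) (nat_lit 152) (nat_lit 0) (XT.lf (nat_lit 0) (nat_lit 1324492591) (nat_lit 152) (nat_lit 3594836278) (nat_lit 76) (nat_lit 8946239073) (nat_lit 23) (nat_lit 5) (nat_lit 25) (nat_lit 5) (nat_lit 24) (nat_lit 5) (nat_lit 353) (nat_lit 343) (nat_lit 324)) (XT.lf (nat_lit 0) (nat_lit 4686810621) (nat_lit 228) (nat_lit 9783634374) (nat_lit 76) (nat_lit 581800527) (nat_lit 21) (nat_lit 5) (nat_lit 24) (nat_lit 5) (nat_lit 22) (nat_lit 4) (nat_lit 354) (nat_lit 343) (nat_lit 323))) (XT.nd (nat_lit 78) (nat_lit 228) (nat_lit 0) (XT.lf (nat_lit 0) (nat_lit 8886371338) (nat_lit 228) (nat_lit 923157536) (nat_lit 76) (nat_lit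 6557533611) (nat_lit 21) (nat_lit 5) (nat_lit 24) (nat_lit 5) (nat_lit 22) (nat_lit 4) (nat_lit 355) (nat_lit 343) (nat_lit 322)) (XT.nd (nat_lit 78) (nat_lit 152) (nat_lit 0) (XT.lf (nat_lit 0) (nat_lit 10022293473) (nat_lit 76) (nat_lit 4023166788) (nat_lit 152) (nat_lit 3784265218) (nat_lit 20) (nat_lit 5) (nat_lit 21) (nat_lit 5) (nat_lit 22) (nat_lit 4) (nat_lit 356) (nat_lit 343) (nat_lit 321)) (XT.lf (nat_lit 0) (nat_lit 647322722) (nat_lit 152) (nat_lit 16262965545) (nat_lit 76) (nat_lit 2565312662) (nat_lit 18) (nat_lit 5) (nat_lit 20) (nat_lit 5) (nat_lit 19) (nat_lit 4) (nat_lit 357) (nat_lit 343) (nat_lit 320))))) (XT.nd (nat_lit 234) (nat_lit 228) (nat_lit 0) (XT.nd (nat_lit 78) (nat_lit 76) (nat_lit 0) (XT.lf (nat_lit 0) (nat_lit 5895028330) (nat_lit 152) (nat_lit 5076783908) (nat_lit 76) (nat_lit 10288733732) (nat_lit 18) (nat_lit 5) (nat_lit 20) (nat_lit 5) (nat_lit 19)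 (nat_lit 4) (nat_lit 358) (nat_lit 343) (nat_lit 319)) (XT.nd (nat_lit 78) (nat_lit 0) (nat_lit 0) (XT.lf (nat_lit 0) (nat_lit 8413206064) (nat_lit 76) (nat_lit 3795219187) (nat_lit 152) (nat_lit 11063062988) (nat_lit 17) (nat_lit 5) (nat_lit 18) (nat_lit 5) (nat_lit 19) (nat_lit 4) (nat_lit 359) (nat_lit 343) (nat_lit 318)) (XT.lf (nat_lit 0) (nat_lit 19863691720) (nat_lit 152) (nat_lit 1369481363) (nat_lit 0) (nat_lit 4291700890) (nat_lit 17) (nat_lit 5) (nat_lit 19) (nat_lit 4) (nat_lit 17) (nat_lit 4) (nat_lit 360) (nat_lit 343) (nat_lit 317)))) (XT.nd (nat_lit 78) (nat_lit 76) (nat_lit 0) (XT.lf (nat_lit 0) (nat_lit 1289187663) (nat_lit 152) (nat_lit 12855346029) (nat_lit 76) (nat_lit 13850246292) (nat_lit 15) (nat_lit 5) (nat_lit 17) (nat_lit 5) (nat_lit 16) (nat_lit 4) (nat_lit 361) (nat_lit 343) (nat_lit 316)) (XT.nd (nat_lit 78) (nat_lit 0) (nat_lit 0) (XT.lf (nat_lit 0) (nat_lit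 3371679446) (nat_lit 76) (nat_lit 5487250572) (nat_lit 152) (nat_lit 21912363201) (nat_lit 14) (nat_lit 5) (nat_lit 15) (nat_lit 5) (nat_lit 16) (nat_lit 4) (nat_lit 362) (nat_lit 343) (nat_lit 315)) (XT.lf (nat_lit 0) (nat_lit 18396154310) (nat_lit 152) (nat_lit 10713876635) (nat_lit 0) (nat_lit 4729467204) (nat_lit 14) (nat_lit 5) (nat_lit 16) (nat_lit 4) (nat_lit 14) (nat_lit 4) (nat_lit 363) (nat_lit 343) (nat_lit 314)))))) (XT.nd (nat_lit 468) (nat_lit 304) (nat_lit 0) (XT.nd (nat_lit 234) (nat_lit 152) (nat_lit 0) (XT.nd (nat_lit 78) (nat_lit 152) (nat_lit 0) (XT.lf (nat_lit 0) (nat_lit 8910259223) (nat_lit 76) (nat_lit 21034391252) (nat_lit 76) (nat_lit 7336195580) (nat_lit 13) (nat_lit 4) (nat_lit 14) (nat_lit 5) (nat_lit 14) (nat_lit 4) (nat_lit 364) (nat_lit 343) (nat_lit 313)) (XT.nd (nat_lit 78) (nat_lit 76) (nat_lit 0) (XT.lf (nat_lit 0) (nat_lit 2347682128) (nat_lit 152)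 (nat_lit 8678077846) (nat_lit 76) (nat_lit 30119672720) (nat_lit 12) (nat_lit 5) (nat_lit 14) (nat_lit 5) (nat_lit 13) (nat_lit 4) (nat_lit 365) (nat_lit 343) (nat_lit 312)) (XT.lf (nat_lit 0) (nat_lit 13369788248) (nat_lit 152) (nat_lit 30658246484) (nat_lit 0) (nat_lit 1413771357) (nat_lit 11) (nat_lit 5) (nat_lit 13) (nat_lit 4) (nat_lit 11) (nat_lit 4) (nat_lit 366) (nat_lit 343) (nat_lit 311)))) (XT.nd (nat_lit 78) (nat_lit 152) (nat_lit 0) (XT.lf (nat_lit 0) (nat_lit 27003324690) (nat_lit 152) (nat_lit 8206309816) (nat_lit 0) (nat_lit 15029292674) (nat_lit 11) (nat_lit 5) (nat_lit 13) (nat_lit 4) (nat_lit 11) (nat_lit 4) (nat_lit 367) (nat_lit 343) (nat_lit 310)) (XT.nd (nat_lit 78) (nat_lit 76) (nat_lit 0) (XT.lf (nat_lit 0) (nat_lit 19253762935) (nat_lit 76) (nat_lit 24188733876) (nat_lit 76) (nat_lit 12199036535) (nat_lit 10) (nat_lit 4) (nat_lit 11) (nat_lit 5) (nat_lit 11)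 (nat_lit 4) (nat_lit 368) (nat_lit 343) (nat_lit 309)) (XT.lf (nat_lit 0) (nat_lit 862066658) (nat_lit 152) (nat_lit 10149876047) (nat_lit 76) (nat_lit 50777589766) (nat_lit 9) (nat_lit 5) (nat_lit 11) (nat_lit 5) (nat_lit 10) (nat_lit 4) (nat_lit 369) (nat_lit 343) (nat_lit 308))))) (XT.nd (nat_lit 234) (nat_lit 152) (nat_lit 0) (XT.nd (nat_lit 78) (nat_lit 76) (nat_lit 0) (XT.lf (nat_lit 0) (nat_lit 15722271998) (nat_lit 152) (nat_lit 47612692921) (nat_lit 0) (nat_lit 5274302781) (nat_lit 8) (nat_lit 5) (nat_lit 10) (nat_lit 4) (nat_lit 8) (nat_lit 4) (nat_lit 370) (nat_lit 343) (nat_lit 307)) (XT.nd (nat_lit 78) (nat_lit 76) (nat_lit 0) (XT.lf (nat_lit 0) (nat_lit 33860313625) (nat_lit 152) (nat_lit 19030945459) (nat_lit 0) (nat_lit 23403387707) (nat_lit 8) (nat_lit 5) (nat_lit 10) (nat_lit 4) (nat_lit 8) (nat_lit 4) (nat_lit 371) (nat_lit 343) (nat_lit 306)) (XT.lf (nat_lit 0) (nat_lit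 15128733532) (nat_lit 76) (nat_lit 40189472830) (nat_lit 76) (nat_lit 29724758477) (nat_lit 7) (nat_lit 4) (nat_lit 8) (nat_lit 5) (nat_lit 8) (nat_lit 4) (nat_lit 372) (nat_lit 343) (nat_lit 305)))) (XT.nd (nat_lit 78) (nat_lit 152) (nat_lit 0) (XT.lf (nat_lit 0) (nat_lit 56497542386) (nat_lit 76) (nat_lit 24466076528) (nat_lit 76) (nat_lit 13994589622) (nat_lit 7) (nat_lit 4) (nat_lit 8) (nat_lit 5) (nat_lit 8) (nat_lit 4) (nat_lit 373) (nat_lit 343) (nat_lit 304)) (XT.nd (nat_lit 78) (nat_lit 76) (nat_lit 0) (XT.lf (nat_lit 0) (nat_lit 3706875332) (nat_lit 152) (nat_lit 2507594117) (nat_lit 76) (nat_lit 100124384627) (nat_lit 6) (nat_lit 5) (nat_lit 8) (nat_lit 5) (nat_lit 7) (nat_lit 4) (nat_lit 374) (nat_lit 343) (nat_lit 303)) (XT.lf (nat_lit 0) (nat_lit 25068518627) (nat_lit 152) (nat_lit 77939154195) (nat_lit 0) (nat_lit 15953303754) (nat_lit 5) (nat_lit 5) (nat_lit 7) (nat_lit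 4) (nat_lit 5) (nat_lit 4) (nat_lit 375) (nat_lit 343) (nat_lit 302))))))))
noncomputable def xc54 : XT := (XT.nd (nat_lit 1794) (nat_lit 0) (nat_lit 0) (XT.nd (nat_lit 858) (nat_lit 76) (nat_lit 0) (XT.nd (nat_lit 390) (nat_lit 152) (nat_lit 0) (XT.nd (nat_lit 156) (nat_lit 76) (nat_lit 0) (XT.nd (nat_lit 78) (nat_lit 0) (nat_lit 0) (XT.lf (nat_lit 0) (nat_lit 50047214711) (nat_lit 152) (nat_lit 42439156092) (nat_lit 0) (nat_lit 40928127608) (nat_lit 5) (nat_lit 5) (nat_lit 7) (nat_lit 4) (nat_lit 5) (nat_lit 4) (nat_lit 376) (nat_lit 343) (nat_lit 301)) (XT.lf (nat_lit 0) (nat_lit 78754940030) (nat_lit 152) (nat_lit 1651290648) (nat_lit 0) (nat_lit 69632485772) (nat_lit 5) (nat_lit 5) (nat_lit 7) (nat_lit 4) (nat_lit 5) (nat_lit 4) (nat_lit 377) (nat_lit 343) (nat_lit 300))) (XT.nd (nat_lit 78) (nat_lit 0) (nat_lit 0) (XT.lf (nat_lit 0) (nat_lit 49641933816) (nat_lit 76) (nat_lit 64167000273)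 (nat_lit 76) (nat_lit 55041618053) (nat_lit 4) (nat_lit 4) (nat_lit 5) (nat_lit 5) (nat_lit 5) (nat_lit 4) (nat_lit 378) (nat_lit 343) (nat_lit 299)) (XT.nd (nat_lit 78) (nat_lit 0) (nat_lit 0) (XT.lf (nat_lit 0) (nat_lit 108783903163) (nat_lit 76) (nat_lit 45408724727) (nat_lit 76) (nat_lit 36280796454) (nat_lit 4) (nat_lit 4) (nat_lit 5) (nat_lit 5) (nat_lit 5) (nat_lit 4) (nat_lit 379) (nat_lit 343) (nat_lit 298)) (XT.lf (nat_lit 0) (nat_lit 176770366747) (nat_lit 76) (nat_lit 23850711767) (nat_lit 76) (nat_lit 14720569535) (nat_lit 4) (nat_lit 4) (nat_lit 5) (nat_lit 5) (nat_lit 5) (nat_lit 4) (nat_lit 380) (nat_lit 343) (nat_lit 297))))) (XT.nd (nat_lit 234) (nat_lit 0) (nat_lit 0) (XT.nd (nat_lit 78) (nat_lit 0) (nat_lit 0) (XT.lf (nat_lit 0) (nat_lit 9726983592) (nat_lit 152) (nat_lit 232281979348) (nat_lit 0) (nat_lit 1786055405) (nat_lit 2) (nat_lit 5) (nat_lit 4) (nat_lit 4)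 (nat_lit 2) (nat_lit 4) (nat_lit 381) (nat_lit 343) (nat_lit 296)) (XT.nd (nat_lit 78) (nat_lit 0) (nat_lit 0) (XT.lf (nat_lit 0) (nat_lit 39570938029) (nat_lit 152) (nat_lit 204726299676) (nat_lit 0) (nat_lit 31628554129) (nat_lit 2) (nat_lit 5) (nat_lit 4) (nat_lit 4) (nat_lit 2) (nat_lit 4) (nat_lit 382) (nat_lit 343) (nat_lit 295)) (XT.lf (nat_lit 0) (nat_lit 73881389333) (nat_lit 152) (nat_lit 173058567485) (nat_lit 0) (nat_lit 65937739594) (nat_lit 2) (nat_lit 5) (nat_lit 4) (nat_lit 4) (nat_lit 2) (nat_lit 4) (nat_lit 383) (nat_lit 343) (nat_lit 294)))) (XT.nd (nat_lit 78) (nat_lit 0) (nat_lit 0) (XT.lf (nat_lit 0) (nat_lit 113329628943) (nat_lit 152) (nat_lit 136659196710) (nat_lit 0) (nat_lit 105384878475) (nat_lit 2) (nat_lit 5) (nat_lit 4) (nat_lit 4) (nat_lit 2) (nat_lit 4) (nat_lit 384) (nat_lit 343) (nat_lit 293)) (XT.nd (nat_lit 78) (nat_lit 0) (nat_lit 0) (XT.lf (nat_lit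 0) (nat_lit 158687470241) (nat_lit 152) (nat_lit 94816025749) (nat_lit 0) (nat_lit 150741762618) (nat_lit 2) (nat_lit 5) (nat_lit 4) (nat_lit 4) (nat_lit 2) (nat_lit 4) (nat_lit 385) (nat_lit 343) (nat_lit 292)) (XT.lf (nat_lit 0) (nat_lit 210842349254) (nat_lit 152) (nat_lit 46710383866) (nat_lit 0) (nat_lit 202895809321) (nat_lit 2) (nat_lit 5) (nat_lit 4) (nat_lit 4) (nat_lit 2) (nat_lit 4) (nat_lit 386) (nat_lit 343) (nat_lit 291)))))) (XT.nd (nat_lit 468) (nat_lit 0) (nat_lit 0) (XT.nd (nat_lit 234) (nat_lit 0) (nat_lit 0) (XT.nd (nat_lit 78) (nat_lit 0) (nat_lit 0) (XT.lf (nat_lit 0) (nat_lit 9439275894) (nat_lit 76) (nat_lit 261766271918) (nat_lit 76) (nat_lit 253819008238) (nat_lit 1) (nat_lit 4) (nat_lit 2) (nat_lit 5) (nat_lit 2) (nat_lit 4) (nat_lit 387) (nat_lit 343) (nat_lit 290)) (XT.nd (nat_lit 78) (nat_lit 0) (nat_lit 0) (XT.lf (nat_lit 0) (nat_lit 79249370333) (nat_lit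 76) (nat_lit 263810033989) (nat_lit 76) (nat_lit 255862140963) (nat_lit 1) (nat_lit 4) (nat_lit 2) (nat_lit 5) (nat_lit 2) (nat_lit 4) (nat_lit 388) (nat_lit 343) (nat_lit 289)) (XT.lf (nat_lit 0) (nat_lit 159520870700) (nat_lit 76) (nat_lit 266165685138) (nat_lit 76) (nat_lit 258217244855) (nat_lit 1) (nat_lit 4) (nat_lit 2) (nat_lit 5) (nat_lit 2) (nat_lit 4) (nat_lit 389) (nat_lit 343) (nat_lit 288)))) (XT.nd (nat_lit 78) (nat_lit 0) (nat_lit 0) (XT.lf (nat_lit 0) (nat_lit 251824306352) (nat_lit 76) (nat_lit 268879314193) (nat_lit 76) (nat_lit 260930398035) (nat_lit 1) (nat_lit 4) (nat_lit 2) (nat_lit 5) (nat_lit 2) (nat_lit 4) (nat_lit 390) (nat_lit 343) (nat_lit 287)) (XT.nd (nat_lit 78) (nat_lit 0) (nat_lit 0) (XT.lf (nat_lit 0) (nat_lit 357965614071) (nat_lit 76) (nat_lit 272004013895) (nat_lit 76) (nat_lit 264054683932) (nat_lit 1) (nat_lit 4) (nat_lit 2) (nat_lit 5) (nat_lit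 2) (nat_lit 4) (nat_lit 391) (nat_lit 343) (nat_lit 286)) (XT.lf (nat_lit 0) (nat_lit 480021471619) (nat_lit 76) (nat_lit 275600919674) (nat_lit 76) (nat_lit 267651229881) (nat_lit 1) (nat_lit 4) (nat_lit 2) (nat_lit 5) (nat_lit 2) (nat_lit 4) (nat_lit 392) (nat_lit 343) (nat_lit 285))))) (XT.nd (nat_lit 234) (nat_lit 0) (nat_lit 0) (XT.nd (nat_lit 78) (nat_lit 0) (nat_lit 0) (XT.lf (nat_lit 0) (nat_lit 620379928381) (nat_lit 76) (nat_lit 279740405774) (nat_lit 76) (nat_lit 271790403084) (nat_lit 1) (nat_lit 4) (nat_lit 2) (nat_lit 5) (nat_lit 2) (nat_lit 4) (nat_lit 393) (nat_lit 343) (nat_lit 284)) (XT.nd (nat_lit 78) (nat_lit 0) (nat_lit 0) (XT.lf (nat_lit 0) (nat_lit 781787128077) (nat_lit 76) (nat_lit 284503462139) (nat_lit 76) (nat_lit 276553187366) (nat_lit 1) (nat_lit 4) (nat_lit 2) (nat_lit 5) (nat_lit 2) (nat_lit 4) (nat_lit 394) (nat_lit 343) (nat_lit 283)) (XT.lf (nat_lit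 0) (nat_lit 967401037658) (nat_lit 76) (nat_lit 289983279002) (nat_lit 76) (nat_lit 282032767635) (nat_lit 1) (nat_lit 4) (nat_lit 2) (nat_lit 5) (nat_lit 2) (nat_lit 4) (nat_lit 395) (nat_lit 343) (nat_lit 282)))) (XT.nd (nat_lit 78) (nat_lit 0) (nat_lit 0) (XT.lf (nat_lit 0) (nat_lit 1180853233615) (nat_lit 76) (nat_lit 296287070173) (nat_lit 76) (nat_lit 288336353072) (nat_lit 1) (nat_lit 4) (nat_lit 2) (nat_lit 5) (nat_lit 2) (nat_lit 4) (nat_lit 396) (nat_lit 343) (nat_lit 281)) (XT.nd (nat_lit 78) (nat_lit 0) (nat_lit 0) (XT.lf (nat_lit 0) (nat_lit 1426319954565) (nat_lit 76) (nat_lit 303538170696) (nat_lit 76) (nat_lit 295587274696) (nat_lit 1) (nat_lit 4) (nat_lit 2) (nat_lit 5) (nat_lit 2) (nat_lit 4) (nat_lit 397) (nat_lit 343) (nat_lit 280)) (XT.lf (nat_lit 0) (nat_lit 1708603810265) (nat_lit 76) (nat_lit 311878449928) (nat_lit 76) (nat_lit 303927398363) (nat_lit 1) (nat_lit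 4) (nat_lit 2) (nat_lit 5) (nat_lit 2) (nat_lit 4) (nat_lit 398) (nat_lit 343) (nat_lit 279))))))) (XT.nd (nat_lit 858) (nat_lit 0) (nat_lit 0) (XT.nd (nat_lit 390) (nat_lit 0) (nat_lit 0) (XT.nd (nat_lit 156) (nat_lit 0) (nat_lit 0) (XT.nd (nat_lit 78) (nat_lit 0) (nat_lit 0) (XT.lf (nat_lit 0) (nat_lit 2033227745719) (nat_lit 76) (nat_lit 321471087247) (nat_lit 76) (nat_lit 313519900408) (nat_lit 1) (nat_lit 4) (nat_lit 2) (nat_lit 5) (nat_lit 2) (nat_lit 4) (nat_lit 399) (nat_lit 343) (nat_lit 278)) (XT.lf (nat_lit 0) (nat_lit 2406543098794) (nat_lit 76) (nat_lit 332503764686) (nat_lit 76) (nat_lit 324552460218) (nat_lit 1) (nat_lit 4) (nat_lit 2) (nat_lit 5) (nat_lit 2) (nat_lit 4) (nat_lit 400) (nat_lit 343) (nat_lit 277))) (XT.nd (nat_lit 78) (nat_lit 0) (nat_lit 0) (XT.lf (nat_lit 0) (nat_lit 2835853865529) (nat_lit 76) (nat_lit 345192338978) (nat_lit 76) (nat_lit 337240932224)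 (nat_lit 1) (nat_lit 4) (nat_lit 2) (nat_lit 5) (nat_lit 2) (nat_lit 4) (nat_lit 401) (nat_lit 343) (nat_lit 276)) (XT.nd (nat_lit 78) (nat_lit 0) (nat_lit 0) (XT.lf (nat_lit 0) (nat_lit 3329559604403) (nat_lit 76) (nat_lit 359785064838) (nat_lit 76) (nat_lit 351833569139) (nat_lit 1) (nat_lit 4) (nat_lit 2) (nat_lit 5) (nat_lit 2) (nat_lit 4) (nat_lit 402) (nat_lit 343) (nat_lit 275)) (XT.lf (nat_lit 0) (nat_lit 3897319775524) (nat_lit 76) (nat_lit 376567452119) (nat_lit 76) (nat_lit 368615879077) (nat_lit 1) (nat_lit 4) (nat_lit 2) (nat_lit 5) (nat_lit 2) (nat_lit 4) (nat_lit 403) (nat_lit 343) (nat_lit 274))))) (XT.nd (nat_lit 234) (nat_lit 0) (nat_lit 0) (XT.nd (nat_lit 78) (nat_lit 0) (nat_lit 0) (XT.lf (nat_lit 0) (nat_lit 4550242730066) (nat_lit 76) (nat_lit 395867851876) (nat_lit 76) (nat_lit 387916211580) (nat_lit 1) (nat_lit 4) (nat_lit 2) (nat_lit 5) (nat_lit 2) (nat_lit 4)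 (nat_lit 404) (nat_lit 343) (nat_lit 273)) (XT.nd (nat_lit 78) (nat_lit 0) (nat_lit 0) (XT.lf (nat_lit 0) (nat_lit 5301103047576) (nat_lit 76) (nat_lit 418063880628) (nat_lit 76) (nat_lit 410112181849) (nat_lit 1) (nat_lit 4) (nat_lit 2) (nat_lit 5) (nat_lit 2) (nat_lit 4) (nat_lit 405) (nat_lit 343) (nat_lit 272)) (XT.lf (nat_lit 0) (nat_lit 6164591473395) (nat_lit 76) (nat_lit 443589808500) (nat_lit 76) (nat_lit 435638058867) (nat_lit 1) (nat_lit 4) (nat_lit 2) (nat_lit 5) (nat_lit 2) (nat_lit 4) (nat_lit 406) (nat_lit 343) (nat_lit 271)))) (XT.nd (nat_lit 78) (nat_lit 0) (nat_lit 0) (XT.lf (nat_lit 0) (nat_lit 7157602346290) (nat_lit 76) (nat_lit 472945055823) (nat_lit 76) (nat_lit 464993261968) (nat_lit 1) (nat_lit 4) (nat_lit 2) (nat_lit 5) (nat_lit 2) (nat_lit 4) (nat_lit 407) (nat_lit 343) (nat_lit 270)) (XT.nd (nat_lit 78) (nat_lit 0) (nat_lit 0) (XT.lf (nat_lit 0) (nat_lit 8299564139860)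 (nat_lit 76) (nat_lit 506703964390) (nat_lit 76) (nat_lit 498752132082) (nat_lit 1) (nat_lit 4) (nat_lit 2) (nat_lit 5) (nat_lit 2) (nat_lit 4) (nat_lit 408) (nat_lit 343) (nat_lit 269)) (XT.lf (nat_lit 0) (nat_lit 9612819584850) (nat_lit 76) (nat_lit 545527034587) (nat_lit 76) (nat_lit 537575168841) (nat_lit 1) (nat_lit 4) (nat_lit 2) (nat_lit 5) (nat_lit 2) (nat_lit 4) (nat_lit 409) (nat_lit 343) (nat_lit 268)))))) (XT.nd (nat_lit 468) (nat_lit 0) (nat_lit 0) (XT.nd (nat_lit 234) (nat_lit 0) (nat_lit 0) (XT.nd (nat_lit 78) (nat_lit 0) (nat_lit 0) (XT.lf (nat_lit 0) (nat_lit 11123062809531) (nat_lit 76) (nat_lit 590173848222) (nat_lit 76) (nat_lit 582221953400) (nat_lit 1) (nat_lit 4) (nat_lit 2) (nat_lit 5) (nat_lit 2) (nat_lit 4) (nat_lit 410) (nat_lit 343) (nat_lit 267)) (XT.nd (nat_lit 78) (nat_lit 0) (nat_lit 0) (XT.lf (nat_lit 0) (nat_lit 12859842050908) (nat_lit 76) (nat_lit 641517929909)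 (nat_lit 76) (nat_lit 633566009805) (nat_lit 1) (nat_lit 4) (nat_lit 2) (nat_lit 5) (nat_lit 2) (nat_lit 4) (nat_lit 411) (nat_lit 343) (nat_lit 266)) (XT.lf (nat_lit 0) (nat_lit 14857137772398) (nat_lit 76) (nat_lit 700563837770) (nat_lit 76) (nat_lit 692611895679) (nat_lit 1) (nat_lit 4) (nat_lit 2) (nat_lit 5) (nat_lit 2) (nat_lit 4) (nat_lit 412) (nat_lit 343) (nat_lit 265)))) (XT.nd (nat_lit 78) (nat_lit 0) (nat_lit 0) (XT.lf (nat_lit 0) (nat_lit 17154027498988) (nat_lit 76) (nat_lit 768466817826) (nat_lit 76) (nat_lit 760514856618) (nat_lit 1) (nat_lit 4) (nat_lit 2) (nat_lit 5) (nat_lit 2) (nat_lit 4) (nat_lit 413) (nat_lit 343) (nat_lit 264)) (XT.nd (nat_lit 78) (nat_lit 0) (nat_lit 0) (XT.lf (nat_lit 0) (nat_lit 19795450377502) (nat_lit 76) (nat_lit 846555406645) (nat_lit 76) (nat_lit 838603428812) (nat_lit 1) (nat_lit 4) (nat_lit 2) (nat_lit 5) (nat_lit 2) (nat_lit 4) (nat_lit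 414) (nat_lit 343) (nat_lit 263)) (XT.lf (nat_lit 0) (nat_lit 22833086420781) (nat_lit 76) (nat_lit 936357424442) (nat_lit 76) (nat_lit 928405432153) (nat_lit 1) (nat_lit 4) (nat_lit 2) (nat_lit 5) (nat_lit 2) (nat_lit 4) (nat_lit 415) (nat_lit 343) (nat_lit 262))))) (XT.nd (nat_lit 234) (nat_lit 0) (nat_lit 0) (XT.nd (nat_lit 78) (nat_lit 0) (nat_lit 0) (XT.lf (nat_lit 0) (nat_lit 26326367638366) (nat_lit 76) (nat_lit 1039629867218) (nat_lit 76) (nat_lit 1031677862358) (nat_lit 1) (nat_lit 4) (nat_lit 2) (nat_lit 5) (nat_lit 2) (nat_lit 4) (nat_lit 416) (nat_lit 343) (nat_lit 261)) (XT.nd (nat_lit 78) (nat_lit 0) (nat_lit 0) (XT.lf (nat_lit 0) (nat_lit 30343640836690) (nat_lit 76) (nat_lit 1158393282766) (nat_lit 76) (nat_lit 1150441266975) (nat_lit 1) (nat_lit 4) (nat_lit 2) (nat_lit 5) (nat_lit 2) (nat_lit 4) (nat_lit 417) (nat_lit 343) (nat_lit 260)) (XT.lf (nat_lit 0) (nat_lit 34963504839198)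 (nat_lit 76) (nat_lit 1294971303129) (nat_lit 76) (nat_lit 1287019277834) (nat_lit 1) (nat_lit 4) (nat_lit 2) (nat_lit 5) (nat_lit 2) (nat_lit 4) (nat_lit 418) (nat_lit 343) (nat_lit 259)))) (XT.nd (nat_lit 78) (nat_lit 0) (nat_lit 0) (XT.lf (nat_lit 0) (nat_lit 40276348289416) (nat_lit 76) (nat_lit 1452036106967) (nat_lit 76) (nat_lit 1444084073407) (nat_lit 1) (nat_lit 4) (nat_lit 2) (nat_lit 5) (nat_lit 2) (nat_lit 4) (nat_lit 419) (nat_lit 343) (nat_lit 258)) (XT.nd (nat_lit 78) (nat_lit 0) (nat_lit 0) (XT.lf (nat_lit 0) (nat_lit 46386118124414) (nat_lit 76) (nat_lit 1632660701312) (nat_lit 76) (nat_lit 1624708660564) (nat_lit 1) (nat_lit 4) (nat_lit 2) (nat_lit 5) (nat_lit 2) (nat_lit 4) (nat_lit 420) (nat_lit 343) (nat_lit 257)) (XT.lf (nat_lit 0) (nat_lit 53412353319226) (nat_lit 76) (nat_lit 1840379045617) (nat_lit 76) (nat_lit 1832426998620) (nat_lit 1) (nat_lit 4) (nat_lit 2)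 (nat_lit 5) (nat_lit 2) (nat_lit 4) (nat_lit 421) (nat_lit 343) (nat_lit 256))))))))
noncomputable def xc55 : XT := (XT.nd (nat_lit 47892) (nat_lit 0) (nat_lit 304) (XT.nd (nat_lit 858) (nat_lit 0) (nat_lit 0) (XT.nd (nat_lit 390) (nat_lit 0) (nat_lit 0) (XT.nd (nat_lit 156) (nat_lit 0) (nat_lit 0) (XT.nd (nat_lit 78) (nat_lit 0) (nat_lit 0) (XT.lf (nat_lit 0) (nat_lit 61492523692879) (nat_lit 76) (nat_lit 2079255194446) (nat_lit 76) (nat_lit 2071303142014) (nat_lit 1) (nat_lit 4) (nat_lit 2) (nat_lit 5) (nat_lit 2) (nat_lit 4) (nat_lit 422) (nat_lit 343) (nat_lit 255)) (XT.lf (nat_lit 0) (nat_lit 70784719535293) (nat_lit 76) (nat_lit 2353962811580) (nat_lit 76) (nat_lit 2346010754423) (nat_lit 1) (nat_lit 4) (nat_lit 2) (nat_lit 5) (nat_lit 2) (nat_lit 4) (nat_lit 423) (nat_lit 343) (nat_lit 254))) (XT.nd (nat_lit 78) (nat_lit 0) (nat_lit 0) (XT.lf (nat_lit 0) (nat_lit 81470744678168)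 (nat_lit 76) (nat_lit 2669876611267) (nat_lit 76) (nat_lit 2661924550000) (nat_lit 1) (nat_lit 4) (nat_lit 2) (nat_lit 5) (nat_lit 2) (nat_lit 4) (nat_lit 424) (nat_lit 343) (nat_lit 253)) (XT.nd (nat_lit 78) (nat_lit 0) (nat_lit 0) (XT.lf (nat_lit 0) (nat_lit 93759673526472) (nat_lit 76) (nat_lit 3033177515675) (nat_lit 76) (nat_lit 3025225450835) (nat_lit 1) (nat_lit 4) (nat_lit 2) (nat_lit 5) (nat_lit 2) (nat_lit 4) (nat_lit 425) (nat_lit 343) (nat_lit 252)) (XT.lf (nat_lit 0) (nat_lit 107891941644630) (nat_lit 76) (nat_lit 3450973585977) (nat_lit 76) (nat_lit 3443021518030) (nat_lit 1) (nat_lit 4) (nat_lit 2) (nat_lit 5) (nat_lit 2) (nat_lit 4) (nat_lit 426) (nat_lit 343) (nat_lit 251))))) (XT.nd (nat_lit 234) (nat_lit 0) (nat_lit 0) (XT.nd (nat_lit 78) (nat_lit 0) (nat_lit 0) (XT.lf (nat_lit 0) (nat_lit 124144049930606) (nat_lit 76) (nat_lit 3931439093115) (nat_lit 76) (nat_lit 3923487022465)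 (nat_lit 1) (nat_lit 4) (nat_lit 2) (nat_lit 5) (nat_lit 2) (nat_lit 4) (nat_lit 427) (nat_lit 343) (nat_lit 250)) (XT.nd (nat_lit 78) (nat_lit 0) (nat_lit 0) (XT.lf (nat_lit 0) (nat_lit 142833974416080) (nat_lit 76) (nat_lit 4483974449183) (nat_lit 76) (nat_lit 4476022376184) (nat_lit 1) (nat_lit 4) (nat_lit 2) (nat_lit 5) (nat_lit 2) (nat_lit 4) (nat_lit 428) (nat_lit 343) (nat_lit 249)) (XT.lf (nat_lit 0) (nat_lit 164327387536639) (nat_lit 76) (nat_lit 5119390128539) (nat_lit 76) (nat_lit 5111438053498) (nat_lit 1) (nat_lit 4) (nat_lit 2) (nat_lit 5) (nat_lit 2) (nat_lit 4) (nat_lit 429) (nat_lit 343) (nat_lit 248)))) (XT.nd (nat_lit 78) (nat_lit 0) (nat_lit 0) (XT.lf (nat_lit 0) (nat_lit 189044812592467) (nat_lit 76) (nat_lit 5850118177086) (nat_lit 76) (nat_lit 5842166100267) (nat_lit 1) (nat_lit 4) (nat_lit 2) (nat_lit 5) (nat_lit 2) (nat_lit 4) (nat_lit 430) (nat_lit 343) (nat_lit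 247)) (XT.nd (nat_lit 78) (nat_lit 0) (nat_lit 0) (XT.lf (nat_lit 0) (nat_lit 217469851378135) (nat_lit 76) (nat_lit 6690455447945) (nat_lit 76) (nat_lit 6682503369582) (nat_lit 1) (nat_lit 4) (nat_lit 2) (nat_lit 5) (nat_lit 2) (nat_lit 4) (nat_lit 431) (nat_lit 343) (nat_lit 246)) (XT.lf (nat_lit 0) (nat_lit 250158645956841) (nat_lit 76) (nat_lit 7656843322504) (nat_lit 76) (nat_lit 7648891242797) (nat_lit 1) (nat_lit 4) (nat_lit 2) (nat_lit 5) (nat_lit 2) (nat_lit 4) (nat_lit 432) (nat_lit 343) (nat_lit 245)))))) (XT.nd (nat_lit 46566) (nat_lit 0) (nat_lit 1672) (XT.nd (nat_lit 46332) (nat_lit 0) (nat_lit 2280) (XT.nd (nat_lit 46176) (nat_lit 0) (nat_lit 2508) (XT.lf (nat_lit 0) (nat_lit 287750759700778) (nat_lit 76) (nat_lit 8768189389612) (nat_lit 76) (nat_lit 8760237308737) (nat_lit 1) (nat_lit 4) (nat_lit 2) (nat_lit 5) (nat_lit 2) (nat_lit 4) (nat_lit 433) (nat_lit 343) (nat_lit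 244)) (XT.nd (nat_lit 78) (nat_lit 0) (nat_lit 0) (XT.lf (nat_lit 0) (nat_lit 893456819) (nat_lit 0) (nat_lit 893456819) (nat_lit 228) (nat_lit 2187800837) (nat_lit 34) (nat_lit 5) (nat_lit 34) (nat_lit 3) (nat_lit 37) (nat_lit 3) (nat_lit 344) (nat_lit 344) (nat_lit 332)) (XT.lf (nat_lit 0) (nat_lit 5033169463) (nat_lit 228) (nat_lit 2259596795) (nat_lit 304) (nat_lit 1072538343) (nat_lit 34) (nat_lit 5) (nat_lit 37) (nat_lit 3) (nat_lit 38) (nat_lit 5) (nat_lit 345) (nat_lit 344) (nat_lit 331)))) (XT.nd (nat_lit 78) (nat_lit 228) (nat_lit 0) (XT.lf (nat_lit 76) (nat_lit 2203063761) (nat_lit 0) (nat_lit 4485440430) (nat_lit 304) (nat_lit 2158784978) (nat_lit 35) (nat_lit 5) (nat_lit 34) (nat_lit 5) (nat_lit 38) (nat_lit 5) (nat_lit 346) (nat_lit 344) (nat_lit 330)) (XT.nd (nat_lit 78) (nat_lit 228) (nat_lit 0) (XT.lf (nat_lit 76) (nat_lit 7458549986) (nat_lit 0) (nat_lit 1073061490)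 (nat_lit 304) (nat_lit 879292356) (nat_lit 35) (nat_lit 5) (nat_lit 34) (nat_lit 5) (nat_lit 38) (nat_lit 5) (nat_lit 347) (nat_lit 344) (nat_lit 329)) (XT.lf (nat_lit 0) (nat_lit 653705307) (nat_lit 304) (nat_lit 6574707876) (nat_lit 76) (nat_lit 2810016804) (nat_lit 31) (nat_lit 5) (nat_lit 35) (nat_lit 5) (nat_lit 32) (nat_lit 5) (nat_lit 348) (nat_lit 344) (nat_lit 328))))) (XT.nd (nat_lit 234) (nat_lit 152) (nat_lit 0) (XT.nd (nat_lit 78) (nat_lit 456) (nat_lit 0) (XT.lf (nat_lit 0) (nat_lit 2338789134) (nat_lit 304) (nat_lit 1077842891) (nat_lit 76) (nat_lit 7335515010) (nat_lit 31) (nat_lit 5) (nat_lit 35) (nat_lit 5) (nat_lit 32) (nat_lit 5) (nat_lit 349) (nat_lit 344) (nat_lit 327)) (XT.nd (nat_lit 78) (nat_lit 152) (nat_lit 0) (XT.lf (nat_lit 0) (nat_lit 4433419560) (nat_lit 380) (nat_lit 5992483815) (nat_lit 76) (nat_lit 1123645463) (nat_lit 27) (nat_lit 5) (nat_lit 32) (nat_lit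 5) (nat_lit 28) (nat_lit 5) (nat_lit 350) (nat_lit 344) (nat_lit 326)) (XT.lf (nat_lit 0) (nat_lit 599136592) (nat_lit 152) (nat_lit 6374032454) (nat_lit 228) (nat_lit 5473879110) (nat_lit 25) (nat_lit 5) (nat_lit 27) (nat_lit 5) (nat_lit 28) (nat_lit 5) (nat_lit 351) (nat_lit 344) (nat_lit 325)))) (XT.nd (nat_lit 78) (nat_lit 152) (nat_lit 0) (XT.lf (nat_lit 0) (nat_lit 8720237004) (nat_lit 152) (nat_lit 1380864158) (nat_lit 228) (nat_lit 3347097668) (nat_lit 25) (nat_lit 5) (nat_lit 27) (nat_lit 5) (nat_lit 28) (nat_lit 5) (nat_lit 352) (nat_lit 344) (nat_lit 324)) (XT.nd (nat_lit 78) (nat_lit 76) (nat_lit 0) (XT.lf (nat_lit 0) (nat_lit 3458942540) (nat_lit 76) (nat_lit 10469943266) (nat_lit 152) (nat_lit 636132103) (nat_lit 24) (nat_lit 5) (nat_lit 25) (nat_lit 5) (nat_lit 26) (nat_lit 4) (nat_lit 353) (nat_lit 344) (nat_lit 323)) (XT.lf (nat_lit 0) (nat_lit 2494973366) (nat_lit 152)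 (nat_lit 2718766348) (nat_lit 76) (nat_lit 10585117208) (nat_lit 23) (nat_lit 5) (nat_lit 25) (nat_lit 5) (nat_lit 24) (nat_lit 5) (nat_lit 354) (nat_lit 344) (nat_lit 322))))))) (XT.nd (nat_lit 858) (nat_lit 608) (nat_lit 0) (XT.nd (nat_lit 390) (nat_lit 380) (nat_lit 0) (XT.nd (nat_lit 156) (nat_lit 152) (nat_lit 0) (XT.nd (nat_lit 78) (nat_lit 76) (nat_lit 0) (XT.lf (nat_lit 0) (nat_lit 6309454664) (nat_lit 228) (nat_lit 9783025652) (nat_lit 76) (nat_lit 1078984599) (nat_lit 21) (nat_lit 5) (nat_lit 24) (nat_lit 5) (nat_lit 22) (nat_lit 4) (nat_lit 355) (nat_lit 344) (nat_lit 321)) (XT.lf (nat_lit 0) (nat_lit 236038125) (nat_lit 76) (nat_lit 10792734443) (nat_lit 152) (nat_lit 7671346313) (nat_lit 20) (nat_lit 5) (nat_lit 21) (nat_lit 5) (nat_lit 22) (nat_lit 4) (nat_lit 356) (nat_lit 344) (nat_lit 320))) (XT.nd (nat_lit 78) (nat_lit 152) (nat_lit 0) (XT.lf (nat_lit 0) (nat_lit 12744263243)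 (nat_lit 76) (nat_lit 4153843442) (nat_lit 152) (nat_lit 3493693815) (nat_lit 20) (nat_lit 5) (nat_lit 21) (nat_lit 5) (nat_lit 22) (nat_lit 4) (nat_lit 357) (nat_lit 344) (nat_lit 319)) (XT.nd (nat_lit 78) (nat_lit 0) (nat_lit 0) (XT.lf (nat_lit 0) (nat_lit 1496391800) (nat_lit 152) (nat_lit 17376715500) (nat_lit 76) (nat_lit 3410652767) (nat_lit 18) (nat_lit 5) (nat_lit 20) (nat_lit 5) (nat_lit 19) (nat_lit 4) (nat_lit 358) (nat_lit 344) (nat_lit 318)) (XT.lf (nat_lit 0) (nat_lit 7433170118) (nat_lit 152) (nat_lit 4685523341) (nat_lit 76) (nat_lit 12232516144) (nat_lit 18) (nat_lit 5) (nat_lit 20) (nat_lit 5) (nat_lit 19) (nat_lit 4) (nat_lit 359) (nat_lit 344) (nat_lit 317))))) (XT.nd (nat_lit 234) (nat_lit 152) (nat_lit 0) (XT.nd (nat_lit 78) (nat_lit 152) (nat_lit 0) (XT.lf (nat_lit 0) (nat_lit 10775566120) (nat_lit 76) (nat_lit 3878285133) (nat_lit 152) (nat_lit 12015944472) (nat_lit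 17) (nat_lit 5) (nat_lit 18) (nat_lit 5) (nat_lit 19) (nat_lit 4) (nat_lit 360) (nat_lit 344) (nat_lit 316)) (XT.nd (nat_lit 78) (nat_lit 152) (nat_lit 0) (XT.lf (nat_lit 0) (nat_lit 23394806713) (nat_lit 152) (nat_lit 555197749) (nat_lit 0) (nat_lit 5320613015) (nat_lit 17) (nat_lit 5) (nat_lit 19) (nat_lit 4) (nat_lit 17) (nat_lit 4) (nat_lit 361) (nat_lit 344) (nat_lit 315)) (XT.lf (nat_lit 0) (nat_lit 2027447833) (nat_lit 152) (nat_lit 13756850933) (nat_lit 76) (nat_lit 16327774301) (nat_lit 15) (nat_lit 5) (nat_lit 17) (nat_lit 5) (nat_lit 16) (nat_lit 4) (nat_lit 362) (nat_lit 344) (nat_lit 314)))) (XT.nd (nat_lit 78) (nat_lit 76) (nat_lit 0) (XT.lf (nat_lit 0) (nat_lit 4857555772) (nat_lit 76) (nat_lit 5844609063) (nat_lit 152) (nat_lit 24607496451) (nat_lit 14) (nat_lit 5) (nat_lit 15) (nat_lit 5) (nat_lit 16) (nat_lit 4) (nat_lit 363) (nat_lit 344) (nat_lit 313)) (XT.nd (nat_lit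 78) (nat_lit 76) (nat_lit 0) (XT.lf (nat_lit 0) (nat_lit 21619647163) (nat_lit 152) (nat_lit 11418205541) (nat_lit 0) (nat_lit 5807814824) (nat_lit 14) (nat_lit 5) (nat_lit 16) (nat_lit 4) (nat_lit 14) (nat_lit 4) (nat_lit 364) (nat_lit 344) (nat_lit 312)) (XT.lf (nat_lit 0) (nat_lit 11108516487) (nat_lit 76) (nat_lit 23767052355) (nat_lit 76) (nat_lit 7931395014) (nat_lit 13) (nat_lit 4) (nat_lit 14) (nat_lit 5) (nat_lit 14) (nat_lit 4) (nat_lit 365) (nat_lit 344) (nat_lit 311)))))) (XT.nd (nat_lit 468) (nat_lit 228) (nat_lit 0) (XT.nd (nat_lit 234) (nat_lit 228) (nat_lit 0) (XT.nd (nat_lit 78) (nat_lit 76) (nat_lit 0) (XT.lf (nat_lit 0) (nat_lit 3100052573) (nat_lit 152) (nat_lit 9191261701) (nat_lit 76) (nat_lit 34965805340) (nat_lit 12) (nat_lit 5) (nat_lit 14) (nat_lit 5) (nat_lit 13) (nat_lit 4) (nat_lit 366) (nat_lit 344) (nat_lit 310)) (XT.nd (nat_lit 78) (nat_lit 0) (nat_lit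 0) (XT.lf (nat_lit 0) (nat_lit 15769905307) (nat_lit 152) (nat_lit 34462803493) (nat_lit 0) (nat_lit 1966088040) (nat_lit 11) (nat_lit 5) (nat_lit 13) (nat_lit 4) (nat_lit 11) (nat_lit 4) (nat_lit 367) (nat_lit 344) (nat_lit 309)) (XT.lf (nat_lit 0) (nat_lit 31396996282) (nat_lit 152) (nat_lit 8746665016) (nat_lit 0) (nat_lit 17579556992) (nat_lit 11) (nat_lit 5) (nat_lit 13) (nat_lit 4) (nat_lit 11) (nat_lit 4) (nat_lit 368) (nat_lit 344) (nat_lit 308)))) (XT.nd (nat_lit 78) (nat_lit 152) (nat_lit 0) (XT.lf (nat_lit 0) (nat_lit 22801028136) (nat_lit 76) (nat_lit 27483550502) (nat_lit 76) (nat_lit 13654265976) (nat_lit 10) (nat_lit 4) (nat_lit 11) (nat_lit 5) (nat_lit 11) (nat_lit 4) (nat_lit 369) (nat_lit 344) (nat_lit 307)) (XT.nd (nat_lit 78) (nat_lit 76) (nat_lit 0) (XT.lf (nat_lit 0) (nat_lit 1288136864) (nat_lit 152) (nat_lit 11070090472) (nat_lit 76) (nat_lit 58655173610) (nat_lit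 9) (nat_lit 5) (nat_lit 11) (nat_lit 5) (nat_lit 10) (nat_lit 4) (nat_lit 370) (nat_lit 344) (nat_lit 306)) (XT.lf (nat_lit 0) (nat_lit 18374604078) (nat_lit 152) (nat_lit 54149519763) (nat_lit 0) (nat_lit 6332394136) (nat_lit 8) (nat_lit 5) (nat_lit 10) (nat_lit 4) (nat_lit 8) (nat_lit 4) (nat_lit 371) (nat_lit 344) (nat_lit 305))))) (XT.nd (nat_lit 234) (nat_lit 152) (nat_lit 0) (XT.nd (nat_lit 78) (nat_lit 76) (nat_lit 0) (XT.lf (nat_lit 0) (nat_lit 39195005260) (nat_lit 152) (nat_lit 21359433282) (nat_lit 0) (nat_lit 27146022766) (nat_lit 8) (nat_lit 5) (nat_lit 10) (nat_lit 4) (nat_lit 8) (nat_lit 4) (nat_lit 372) (nat_lit 344) (nat_lit 304)) (XT.nd (nat_lit 78) (nat_lit 0) (nat_lit 0) (XT.lf (nat_lit 0) (nat_lit 17900281468) (nat_lit 76) (nat_lit 45958752094) (nat_lit 76) (nat_lit 33903880424) (nat_lit 7) (nat_lit 4) (nat_lit 8) (nat_lit 5) (nat_lit 8) (nat_lit 4) (nat_lit 373)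 (nat_lit 344) (nat_lit 303)) (XT.lf (nat_lit 0) (nat_lit 65408902358) (nat_lit 76) (nat_lit 27910647433) (nat_lit 76) (nat_lit 15850654740) (nat_lit 7) (nat_lit 4) (nat_lit 8) (nat_lit 5) (nat_lit 8) (nat_lit 4) (nat_lit 374) (nat_lit 344) (nat_lit 302)))) (XT.nd (nat_lit 78) (nat_lit 76) (nat_lit 0) (XT.lf (nat_lit 0) (nat_lit 4455496898) (nat_lit 152) (nat_lit 2485127424) (nat_lit 76) (nat_lit 115320148848) (nat_lit 6) (nat_lit 5) (nat_lit 8) (nat_lit 5) (nat_lit 7) (nat_lit 4) (nat_lit 375) (nat_lit 344) (nat_lit 301)) (XT.nd (nat_lit 78) (nat_lit 0) (nat_lit 0) (XT.lf (nat_lit 0) (nat_lit 29020189604) (nat_lit 152) (nat_lit 89230206625) (nat_lit 0) (nat_lit 18526000052) (nat_lit 5) (nat_lit 5) (nat_lit 7) (nat_lit 4) (nat_lit 5) (nat_lit 4) (nat_lit 376) (nat_lit 344) (nat_lit 300)) (XT.lf (nat_lit 0) (nat_lit 57720725772) (nat_lit 152) (nat_lit 48457359332) (nat_lit 0) (nat_lit 47223608258)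 (nat_lit 5) (nat_lit 5) (nat_lit 7) (nat_lit 4) (nat_lit 5) (nat_lit 4) (nat_lit 377) (nat_lit 344) (nat_lit 299))))))))
noncomputable def xc56 : XT := (XT.nd (nat_lit 1716) (nat_lit 0) (nat_lit 0) (XT.nd (nat_lit 858) (nat_lit 0) (nat_lit 0) (XT.nd (nat_lit 390) (nat_lit 76) (nat_lit 0) (XT.nd (nat_lit 156) (nat_lit 152) (nat_lit 0) (XT.nd (nat_lit 78) (nat_lit 76) (nat_lit 0) (XT.lf (nat_lit 0) (nat_lit 90712901777) (nat_lit 152) (nat_lit 1596662355) (nat_lit 0) (nat_lit 80213238210) (nat_lit 5) (nat_lit 5) (nat_lit 7) (nat_lit 4) (nat_lit 5) (nat_lit 4) (nat_lit 378) (nat_lit 344) (nat_lit 298)) (XT.lf (nat_lit 0) (nat_lit 57376803875) (nat_lit 76) (nat_lit 73641263933) (nat_lit 76) (nat_lit 63139386407) (nat_lit 4) (nat_lit 4) (nat_lit 5) (nat_lit 5) (nat_lit 5) (nat_lit 4) (nat_lit 379) (nat_lit 344) (nat_lit 297))) (XT.nd (nat_lit 78) (nat_lit 152) (nat_lit 0) (XT.lf (nat_lit 0)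 (nat_lit 125352427756) (nat_lit 76) (nat_lit 52088914844) (nat_lit 76) (nat_lit 41585112136) (nat_lit 4) (nat_lit 4) (nat_lit 5) (nat_lit 5) (nat_lit 5) (nat_lit 4) (nat_lit 380) (nat_lit 344) (nat_lit 296)) (XT.nd (nat_lit 78) (nat_lit 152) (nat_lit 0) (XT.lf (nat_lit 0) (nat_lit 203504129688) (nat_lit 76) (nat_lit 27314302366) (nat_lit 76) (nat_lit 16808825586) (nat_lit 4) (nat_lit 4) (nat_lit 5) (nat_lit 5) (nat_lit 5) (nat_lit 4) (nat_lit 381) (nat_lit 344) (nat_lit 295)) (XT.lf (nat_lit 0) (nat_lit 11294742442) (nat_lit 152) (nat_lit 266894935861) (nat_lit 0) (nat_lit 2158279403) (nat_lit 2) (nat_lit 5) (nat_lit 4) (nat_lit 4) (nat_lit 2) (nat_lit 4) (nat_lit 382) (nat_lit 344) (nat_lit 294))))) (XT.nd (nat_lit 234) (nat_lit 76) (nat_lit 0) (XT.nd (nat_lit 78) (nat_lit 0) (nat_lit 0) (XT.lf (nat_lit 0) (nat_lit 45601110309) (nat_lit 152) (nat_lit 235235818202) (nat_lit 0) (nat_lit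 36463546541) (nat_lit 2) (nat_lit 5) (nat_lit 4) (nat_lit 4) (nat_lit 2) (nat_lit 4) (nat_lit 383) (nat_lit 344) (nat_lit 293)) (XT.nd (nat_lit 78) (nat_lit 0) (nat_lit 0) (XT.lf (nat_lit 0) (nat_lit 85045799103) (nat_lit 152) (nat_lit 198843938325) (nat_lit 0) (nat_lit 75907278180) (nat_lit 2) (nat_lit 5) (nat_lit 4) (nat_lit 4) (nat_lit 2) (nat_lit 4) (nat_lit 384) (nat_lit 344) (nat_lit 292)) (XT.lf (nat_lit 0) (nat_lit 130400552736) (nat_lit 152) (nat_lit 157007281188) (nat_lit 0) (nat_lit 121261199504) (nat_lit 2) (nat_lit 5) (nat_lit 4) (nat_lit 4) (nat_lit 2) (nat_lit 4) (nat_lit 385) (nat_lit 344) (nat_lit 291)))) (XT.nd (nat_lit 78) (nat_lit 76) (nat_lit 0) (XT.lf (nat_lit 0) (nat_lit 182552746823) (nat_lit 152) (nat_lit 108907303500) (nat_lit 0) (nat_lit 173412669843) (nat_lit 2) (nat_lit 5) (nat_lit 4) (nat_lit 4) (nat_lit 2) (nat_lit 4) (nat_lit 386) (nat_lit 344) (nat_lit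 290)) (XT.nd (nat_lit 78) (nat_lit 76) (nat_lit 0) (XT.lf (nat_lit 0) (nat_lit 242522750377) (nat_lit 152) (nat_lit 53602918740) (nat_lit 0) (nat_lit 233382044052) (nat_lit 2) (nat_lit 5) (nat_lit 4) (nat_lit 4) (nat_lit 2) (nat_lit 4) (nat_lit 387) (nat_lit 344) (nat_lit 289)) (XT.lf (nat_lit 0) (nat_lit 10964007134) (nat_lit 76) (nat_lit 300973878577) (nat_lit 76) (nat_lit 291832624995) (nat_lit 1) (nat_lit 4) (nat_lit 2) (nat_lit 5) (nat_lit 2) (nat_lit 4) (nat_lit 388) (nat_lit 344) (nat_lit 288)))))) (XT.nd (nat_lit 390) (nat_lit 0) (nat_lit 0) (XT.nd (nat_lit 156) (nat_lit 0) (nat_lit 0) (XT.nd (nat_lit 78) (nat_lit 0) (nat_lit 0) (XT.lf (nat_lit 0) (nat_lit 91231419236) (nat_lit 76) (nat_lit 303331683323) (nat_lit 76) (nat_lit 294189953865) (nat_lit 1) (nat_lit 4) (nat_lit 2) (nat_lit 5) (nat_lit 2) (nat_lit 4) (nat_lit 389) (nat_lit 344) (nat_lit 287)) (XT.lf (nat_lit 0) (nat_lit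 183531299873) (nat_lit 76) (nat_lit 306047185070) (nat_lit 76) (nat_lit 296905041808) (nat_lit 1) (nat_lit 4) (nat_lit 2) (nat_lit 5) (nat_lit 2) (nat_lit 4) (nat_lit 390) (nat_lit 344) (nat_lit 286))) (XT.nd (nat_lit 78) (nat_lit 0) (nat_lit 0) (XT.lf (nat_lit 0) (nat_lit 289669516276) (nat_lit 76) (nat_lit 309173513201) (nat_lit 76) (nat_lit 300031010108) (nat_lit 1) (nat_lit 4) (nat_lit 2) (nat_lit 5) (nat_lit 2) (nat_lit 4) (nat_lit 391) (nat_lit 344) (nat_lit 285)) (XT.nd (nat_lit 78) (nat_lit 0) (nat_lit 0) (XT.lf (nat_lit 0) (nat_lit 411722685723) (nat_lit 76) (nat_lit 312771835005) (nat_lit 76) (nat_lit 303629019016) (nat_lit 1) (nat_lit 4) (nat_lit 2) (nat_lit 5) (nat_lit 2) (nat_lit 4) (nat_lit 392) (nat_lit 344) (nat_lit 284)) (XT.lf (nat_lit 0) (nat_lit 552078805005) (nat_lit 76) (nat_lit 316912552430) (nat_lit 76) (nat_lit 307769464358) (nat_lit 1) (nat_lit 4) (nat_lit 2)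 (nat_lit 5) (nat_lit 2) (nat_lit 4) (nat_lit 393) (nat_lit 344) (nat_lit 283))))) (XT.nd (nat_lit 234) (nat_lit 0) (nat_lit 0) (XT.nd (nat_lit 78) (nat_lit 0) (nat_lit 0) (XT.lf (nat_lit 0) (nat_lit 713483972111) (nat_lit 76) (nat_lit 321676679513) (nat_lit 76) (nat_lit 312533354847) (nat_lit 1) (nat_lit 4) (nat_lit 2) (nat_lit 5) (nat_lit 2) (nat_lit 4) (nat_lit 394) (nat_lit 344) (nat_lit 282)) (XT.nd (nat_lit 78) (nat_lit 0) (nat_lit 0) (XT.lf (nat_lit 0) (nat_lit 899096114222) (nat_lit 76) (nat_lit 327157427437) (nat_lit 76) (nat_lit 318013897036) (nat_lit 1) (nat_lit 4) (nat_lit 2) (nat_lit 5) (nat_lit 2) (nat_lit 4) (nat_lit 395) (nat_lit 344) (nat_lit 281)) (XT.lf (nat_lit 0) (nat_lit 1112546773248) (nat_lit 76) (nat_lit 333462028224) (nat_lit 76) (nat_lit 324318318925) (nat_lit 1) (nat_lit 4) (nat_lit 2) (nat_lit 5) (nat_lit 2) (nat_lit 4) (nat_lit 396) (nat_lit 344) (nat_lit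 280)))) (XT.nd (nat_lit 78) (nat_lit 0) (nat_lit 0) (XT.lf (nat_lit 0) (nat_lit 1358012157737) (nat_lit 76) (nat_lit 340713832762) (nat_lit 76) (nat_lit 331569967897) (nat_lit 1) (nat_lit 4) (nat_lit 2) (nat_lit 5) (nat_lit 2) (nat_lit 4) (nat_lit 397) (nat_lit 344) (nat_lit 279)) (XT.nd (nat_lit 78) (nat_lit 0) (nat_lit 0) (XT.lf (nat_lit 0) (nat_lit 1640294851297) (nat_lit 76) (nat_lit 349054724181) (nat_lit 76) (nat_lit 339910724043) (nat_lit 1) (nat_lit 4) (nat_lit 2) (nat_lit 5) (nat_lit 2) (nat_lit 4) (nat_lit 398) (nat_lit 344) (nat_lit 278)) (XT.lf (nat_lit 0) (nat_lit 1964917776194) (nat_lit 76) (nat_lit 358647893835) (nat_lit 76) (nat_lit 349503776068) (nat_lit 1) (nat_lit 4) (nat_lit 2) (nat_lit 5) (nat_lit 2) (nat_lit 4) (nat_lit 399) (nat_lit 344) (nat_lit 277))))))) (XT.nd (nat_lit 858) (nat_lit 0) (nat_lit 0) (XT.nd (nat_lit 390) (nat_lit 0) (nat_lit 0) (XT.nd (nat_lit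 156) (nat_lit 0) (nat_lit 0) (XT.nd (nat_lit 78) (nat_lit 0) (nat_lit 0) (XT.lf (nat_lit 0) (nat_lit 2338232250524) (nat_lit 76) (nat_lit 369681034175) (nat_lit 76) (nat_lit 360536814122) (nat_lit 1) (nat_lit 4) (nat_lit 2) (nat_lit 5) (nat_lit 2) (nat_lit 4) (nat_lit 400) (nat_lit 344) (nat_lit 276)) (XT.lf (nat_lit 0) (nat_lit 2767542253133) (nat_lit 76) (nat_lit 382370010990) (nat_lit 76) (nat_lit 373225701992) (nat_lit 1) (nat_lit 4) (nat_lit 2) (nat_lit 5) (nat_lit 2) (nat_lit 4) (nat_lit 401) (nat_lit 344) (nat_lit 275))) (XT.nd (nat_lit 78) (nat_lit 0) (nat_lit 0) (XT.lf (nat_lit 0) (nat_lit 3261247327549) (nat_lit 76) (nat_lit 396963086869) (nat_lit 76) (nat_lit 387818700528) (nat_lit 1) (nat_lit 4) (nat_lit 2) (nat_lit 5) (nat_lit 2) (nat_lit 4) (nat_lit 402) (nat_lit 344) (nat_lit 274)) (XT.nd (nat_lit 78) (nat_lit 0) (nat_lit 0) (XT.lf (nat_lit 0) (nat_lit 3829006920881) (nat_lit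 76) (nat_lit 413745778515) (nat_lit 76) (nat_lit 404601324919) (nat_lit 1) (nat_lit 4) (nat_lit 2) (nat_lit 5) (nat_lit 2) (nat_lit 4) (nat_lit 403) (nat_lit 344) (nat_lit 273)) (XT.lf (nat_lit 0) (nat_lit 4481929372998) (nat_lit 76) (nat_lit 433046442938) (nat_lit 76) (nat_lit 423901930860) (nat_lit 1) (nat_lit 4) (nat_lit 2) (nat_lit 5) (nat_lit 2) (nat_lit 4) (nat_lit 404) (nat_lit 344) (nat_lit 272))))) (XT.nd (nat_lit 234) (nat_lit 0) (nat_lit 0) (XT.nd (nat_lit 78) (nat_lit 0) (nat_lit 0) (XT.lf (nat_lit 0) (nat_lit 5232789253616) (nat_lit 76) (nat_lit 455242701833) (nat_lit 76) (nat_lit 446098138900) (nat_lit 1) (nat_lit 4) (nat_lit 2) (nat_lit 5) (nat_lit 2) (nat_lit 4) (nat_lit 405) (nat_lit 344) (nat_lit 271)) (XT.nd (nat_lit 78) (nat_lit 0) (nat_lit 0) (XT.lf (nat_lit 0) (nat_lit 6096277299530) (nat_lit 76) (nat_lit 480768829831) (nat_lit 76) (nat_lit 471624222677) (nat_lit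 1) (nat_lit 4) (nat_lit 2) (nat_lit 5) (nat_lit 2) (nat_lit 4) (nat_lit 406) (nat_lit 344) (nat_lit 270)) (XT.lf (nat_lit 0) (nat_lit 7089287842072) (nat_lit 76) (nat_lit 510124251174) (nat_lit 76) (nat_lit 500979605568) (nat_lit 1) (nat_lit 4) (nat_lit 2) (nat_lit 5) (nat_lit 2) (nat_lit 4) (nat_lit 407) (nat_lit 344) (nat_lit 269)))) (XT.nd (nat_lit 78) (nat_lit 0) (nat_lit 0) (XT.lf (nat_lit 0) (nat_lit 8231249348379) (nat_lit 76) (nat_lit 543883311065) (nat_lit 76) (nat_lit 534738632020) (nat_lit 1) (nat_lit 4) (nat_lit 2) (nat_lit 5) (nat_lit 2) (nat_lit 4) (nat_lit 408) (nat_lit 344) (nat_lit 268)) (XT.nd (nat_lit 78) (nat_lit 0) (nat_lit 0) (XT.lf (nat_lit 0) (nat_lit 9544504543575) (nat_lit 76) (nat_lit 582706512847) (nat_lit 76) (nat_lit 573561804726) (nat_lit 1) (nat_lit 4) (nat_lit 2) (nat_lit 5) (nat_lit 2) (nat_lit 4) (nat_lit 409) (nat_lit 344) (nat_lit 267)) (XT.lf (nat_lit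 0) (nat_lit 11054747551043) (nat_lit 76) (nat_lit 627353440904) (nat_lit 76) (nat_lit 618208707500) (nat_lit 1) (nat_lit 4) (nat_lit 2) (nat_lit 5) (nat_lit 2) (nat_lit 4) (nat_lit 410) (nat_lit 344) (nat_lit 266)))))) (XT.nd (nat_lit 468) (nat_lit 0) (nat_lit 0) (XT.nd (nat_lit 234) (nat_lit 0) (nat_lit 0) (XT.nd (nat_lit 78) (nat_lit 0) (nat_lit 0) (XT.lf (nat_lit 0) (nat_lit 12791526603539) (nat_lit 76) (nat_lit 678697622089) (nat_lit 76) (nat_lit 669552866699) (nat_lit 1) (nat_lit 4) (nat_lit 2) (nat_lit 5) (nat_lit 2) (nat_lit 4) (nat_lit 411) (nat_lit 344) (nat_lit 265)) (XT.nd (nat_lit 78) (nat_lit 0) (nat_lit 0) (XT.lf (nat_lit 0) (nat_lit 14788822160786) (nat_lit 76) (nat_lit 737743616469) (nat_lit 76) (nat_lit 728598841961) (nat_lit 1) (nat_lit 4) (nat_lit 2) (nat_lit 5) (nat_lit 2) (nat_lit 4) (nat_lit 412) (nat_lit 344) (nat_lit 264)) (XT.lf (nat_lit 0) (nat_lit 17085711744555)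 (nat_lit 76) (nat_lit 805646671760) (nat_lit 76) (nat_lit 796501880628) (nat_lit 1) (nat_lit 4) (nat_lit 2) (nat_lit 5) (nat_lit 2) (nat_lit 4) (nat_lit 413) (nat_lit 344) (nat_lit 263)))) (XT.nd (nat_lit 78) (nat_lit 0) (nat_lit 0) (XT.lf (nat_lit 0) (nat_lit 19727134498878) (nat_lit 76) (nat_lit 883735326000) (nat_lit 76) (nat_lit 874590520411) (nat_lit 1) (nat_lit 4) (nat_lit 2) (nat_lit 5) (nat_lit 2) (nat_lit 4) (nat_lit 414) (nat_lit 344) (nat_lit 262)) (XT.nd (nat_lit 78) (nat_lit 0) (nat_lit 0) (XT.lf (nat_lit 0) (nat_lit 22764770434163) (nat_lit 76) (nat_lit 973537400685) (nat_lit 76) (nat_lit 964392582526) (nat_lit 1) (nat_lit 4) (nat_lit 2) (nat_lit 5) (nat_lit 2) (nat_lit 4) (nat_lit 415) (nat_lit 344) (nat_lit 261)) (XT.lf (nat_lit 0) (nat_lit 26258051557842) (nat_lit 76) (nat_lit 1076809892928) (nat_lit 76) (nat_lit 1067665063839) (nat_lit 1) (nat_lit 4) (nat_lit 2) (nat_lit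 5) (nat_lit 2) (nat_lit 4) (nat_lit 416) (nat_lit 344) (nat_lit 260))))) (XT.nd (nat_lit 234) (nat_lit 0) (nat_lit 0) (XT.nd (nat_lit 78) (nat_lit 0) (nat_lit 0) (XT.lf (nat_lit 0) (nat_lit 30275324674508) (nat_lit 76) (nat_lit 1195573351492) (nat_lit 76) (nat_lit 1186428512897) (nat_lit 1) (nat_lit 4) (nat_lit 2) (nat_lit 5) (nat_lit 2) (nat_lit 4) (nat_lit 417) (nat_lit 344) (nat_lit 259)) (XT.nd (nat_lit 78) (nat_lit 0) (nat_lit 0) (XT.lf (nat_lit 0) (nat_lit 34895188606008) (nat_lit 76) (nat_lit 1332151409260) (nat_lit 76) (nat_lit 1323006562400) (nat_lit 1) (nat_lit 4) (nat_lit 2) (nat_lit 5) (nat_lit 2) (nat_lit 4) (nat_lit 418) (nat_lit 344) (nat_lit 258)) (XT.lf (nat_lit 0) (nat_lit 40208031994481) (nat_lit 76) (nat_lit 1489216245624) (nat_lit 76) (nat_lit 1480071391577) (nat_lit 1) (nat_lit 4) (nat_lit 2) (nat_lit 5) (nat_lit 2) (nat_lit 4) (nat_lit 419) (nat_lit 344) (nat_lit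 257)))) (XT.nd (nat_lit 78) (nat_lit 0) (nat_lit 0) (XT.lf (nat_lit 0) (nat_lit 46317801775788) (nat_lit 76) (nat_lit 1669840868252) (nat_lit 76) (nat_lit 1660696007955) (nat_lit 1) (nat_lit 4) (nat_lit 2) (nat_lit 5) (nat_lit 2) (nat_lit 4) (nat_lit 420) (nat_lit 344) (nat_lit 256)) (XT.nd (nat_lit 78) (nat_lit 0) (nat_lit 0) (XT.lf (nat_lit 0) (nat_lit 53344036923911) (nat_lit 76) (nat_lit 1877559237152) (nat_lit 76) (nat_lit 1868414371421) (nat_lit 1) (nat_lit 4) (nat_lit 2) (nat_lit 5) (nat_lit 2) (nat_lit 4) (nat_lit 421) (nat_lit 344) (nat_lit 255)) (XT.lf (nat_lit 0) (nat_lit 61424207256966) (nat_lit 76) (nat_lit 2116435407367) (nat_lit 76) (nat_lit 2107290536910) (nat_lit 1) (nat_lit 4) (nat_lit 2) (nat_lit 5) (nat_lit 2) (nat_lit 4) (nat_lit 422) (nat_lit 344) (nat_lit 254))))))))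
noncomputable def xc57 : XT := (XT.nd (nat_lit 47970) (nat_lit 0) (nat_lit 304) (XT.nd (nat_lit 47034) (nat_lit 0) (nat_lit 1520) (XT.nd (nat_lit 390) (nat_lit 0) (nat_lit 0) (XT.nd (nat_lit 156) (nat_lit 0) (nat_lit 0) (XT.nd (nat_lit 78) (nat_lit 0) (nat_lit 0) (XT.lf (nat_lit 0) (nat_lit 70716403064077) (nat_lit 76) (nat_lit 2391143043098) (nat_lit 76) (nat_lit 2381998168532) (nat_lit 1) (nat_lit 4) (nat_lit 2) (nat_lit 5) (nat_lit 2) (nat_lit 4) (nat_lit 423) (nat_lit 344) (nat_lit 253)) (XT.lf (nat_lit 0) (nat_lit 81402428176253) (nat_lit 76) (nat_lit 2707056858956) (nat_lit 76) (nat_lit 2697911980817) (nat_lit 1) (nat_lit 4) (nat_lit 2) (nat_lit 5) (nat_lit 2) (nat_lit 4) (nat_lit 424) (nat_lit 344) (nat_lit 252))) (XT.nd (nat_lit 78) (nat_lit 0) (nat_lit 0) (XT.lf (nat_lit 0) (nat_lit 93691356997864) (nat_lit 76) (nat_lit 3070357777426) (nat_lit 76) (nat_lit 3061212896179) (nat_lit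 1) (nat_lit 4) (nat_lit 2) (nat_lit 5) (nat_lit 2) (nat_lit 4) (nat_lit 425) (nat_lit 344) (nat_lit 251)) (XT.nd (nat_lit 78) (nat_lit 0) (nat_lit 0) (XT.lf (nat_lit 0) (nat_lit 107823625092809) (nat_lit 76) (nat_lit 3488153859956) (nat_lit 76) (nat_lit 3479008976007) (nat_lit 1) (nat_lit 4) (nat_lit 2) (nat_lit 5) (nat_lit 2) (nat_lit 4) (nat_lit 426) (nat_lit 344) (nat_lit 250)) (XT.lf (nat_lit 0) (nat_lit 124075733358600) (nat_lit 76) (nat_lit 3968619377725) (nat_lit 76) (nat_lit 3959474491427) (nat_lit 1) (nat_lit 4) (nat_lit 2) (nat_lit 5) (nat_lit 2) (nat_lit 4) (nat_lit 427) (nat_lit 344) (nat_lit 249))))) (XT.nd (nat_lit 234) (nat_lit 0) (nat_lit 0) (XT.nd (nat_lit 78) (nat_lit 0) (nat_lit 0) (XT.lf (nat_lit 0) (nat_lit 142765657826522) (nat_lit 76) (nat_lit 4521154743039) (nat_lit 76) (nat_lit 4512009854698) (nat_lit 1) (nat_lit 4) (nat_lit 2) (nat_lit 5) (nat_lit 2) (nat_lit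 4) (nat_lit 428) (nat_lit 344) (nat_lit 248)) (XT.nd (nat_lit 78) (nat_lit 0) (nat_lit 0) (XT.lf (nat_lit 0) (nat_lit 164259070931818) (nat_lit 76) (nat_lit 5156570430436) (nat_lit 76) (nat_lit 5147425540319) (nat_lit 1) (nat_lit 4) (nat_lit 2) (nat_lit 5) (nat_lit 2) (nat_lit 4) (nat_lit 429) (nat_lit 344) (nat_lit 247)) (XT.lf (nat_lit 0) (nat_lit 188976495974375) (nat_lit 76) (nat_lit 5887298485974) (nat_lit 76) (nat_lit 5878153594311) (nat_lit 1) (nat_lit 4) (nat_lit 2) (nat_lit 5) (nat_lit 2) (nat_lit 4) (nat_lit 430) (nat_lit 344) (nat_lit 246)))) (XT.nd (nat_lit 78) (nat_lit 0) (nat_lit 0) (XT.lf (nat_lit 0) (nat_lit 217401534748503) (nat_lit 76) (nat_lit 6727635762912) (nat_lit 76) (nat_lit 6718490869907) (nat_lit 1) (nat_lit 4) (nat_lit 2) (nat_lit 5) (nat_lit 2) (nat_lit 4) (nat_lit 431) (nat_lit 344) (nat_lit 245)) (XT.nd (nat_lit 78) (nat_lit 0) (nat_lit 0) (XT.lf (nat_lit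 0) (nat_lit 250090329317174) (nat_lit 76) (nat_lit 7694023642757) (nat_lit 76) (nat_lit 7684878748583) (nat_lit 1) (nat_lit 4) (nat_lit 2) (nat_lit 5) (nat_lit 2) (nat_lit 4) (nat_lit 432) (nat_lit 344) (nat_lit 244)) (XT.lf (nat_lit 0) (nat_lit 287682443052384) (nat_lit 76) (nat_lit 8805369714462) (nat_lit 76) (nat_lit 8796224819273) (nat_lit 1) (nat_lit 4) (nat_lit 2) (nat_lit 5) (nat_lit 2) (nat_lit 4) (nat_lit 433) (nat_lit 344) (nat_lit 243)))))) (XT.nd (nat_lit 468) (nat_lit 684) (nat_lit 0) (XT.nd (nat_lit 234) (nat_lit 304) (nat_lit 0) (XT.nd (nat_lit 78) (nat_lit 0) (nat_lit 0) (XT.lf (nat_lit 0) (nat_lit 1575096691) (nat_lit 0) (nat_lit 1575096691) (nat_lit 228) (nat_lit 1254873843) (nat_lit 34) (nat_lit 5) (nat_lit 34) (nat_lit 3) (nat_lit 37) (nat_lit 3) (nat_lit 345) (nat_lit 345) (nat_lit 330)) (XT.nd (nat_lit 78) (nat_lit 0) (nat_lit 0) (XT.lf (nat_lit 0) (nat_lit 7653478562)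 (nat_lit 228) (nat_lit 1318272658) (nat_lit 304) (nat_lit 365822035) (nat_lit 34) (nat_lit 5) (nat_lit 37) (nat_lit 3) (nat_lit 38) (nat_lit 5) (nat_lit 346) (nat_lit 345) (nat_lit 329)) (XT.lf (nat_lit 76) (nat_lit 3755593179) (nat_lit 0) (nat_lit 5608819235) (nat_lit 304) (nat_lit 556703951) (nat_lit 35) (nat_lit 5) (nat_lit 34) (nat_lit 5) (nat_lit 38) (nat_lit 5) (nat_lit 347) (nat_lit 345) (nat_lit 328)))) (XT.nd (nat_lit 78) (nat_lit 0) (nat_lit 76) (XT.lf (nat_lit 0) (nat_lit 604438271) (nat_lit 304) (nat_lit 989780493) (nat_lit 380) (nat_lit 9003968014) (nat_lit 30) (nat_lit 5) (nat_lit 34) (nat_lit 5) (nat_lit 35) (nat_lit 5) (nat_lit 348) (nat_lit 345) (nat_lit 327)) (XT.nd (nat_lit 78) (nat_lit 0) (nat_lit 0) (XT.lf (nat_lit 0) (nat_lit 2117386208) (nat_lit 304) (nat_lit 6185822940) (nat_lit 76) (nat_lit 3034582409) (nat_lit 31) (nat_lit 5) (nat_lit 35) (nat_lit 5) (nat_lit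 32) (nat_lit 5) (nat_lit 349) (nat_lit 345) (nat_lit 326)) (XT.lf (nat_lit 0) (nat_lit 3877107595) (nat_lit 304) (nat_lit 43787918) (nat_lit 76) (nat_lit 8264592770) (nat_lit 31) (nat_lit 5) (nat_lit 35) (nat_lit 5) (nat_lit 32) (nat_lit 5) (nat_lit 350) (nat_lit 345) (nat_lit 325))))) (XT.nd (nat_lit 234) (nat_lit 304) (nat_lit 0) (XT.nd (nat_lit 78) (nat_lit 152) (nat_lit 0) (XT.lf (nat_lit 0) (nat_lit 6180850341) (nat_lit 380) (nat_lit 5589363786) (nat_lit 76) (nat_lit 1348225411) (nat_lit 27) (nat_lit 5) (nat_lit 32) (nat_lit 5) (nat_lit 28) (nat_lit 5) (nat_lit 351) (nat_lit 345) (nat_lit 324)) (XT.nd (nat_lit 78) (nat_lit 0) (nat_lit 0) (XT.lf (nat_lit 0) (nat_lit 1931818201) (nat_lit 152) (nat_lit 7080021270) (nat_lit 228) (nat_lit 5152336474) (nat_lit 25) (nat_lit 5) (nat_lit 27) (nat_lit 5) (nat_lit 28) (nat_lit 5) (nat_lit 352) (nat_lit 345) (nat_lit 323)) (XT.lf (nat_lit 0)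 (nat_lit 11108977876) (nat_lit 152) (nat_lit 1370501563) (nat_lit 228) (nat_lit 2855575794) (nat_lit 25) (nat_lit 5) (nat_lit 27) (nat_lit 5) (nat_lit 28) (nat_lit 5) (nat_lit 353) (nat_lit 345) (nat_lit 322)))) (XT.nd (nat_lit 78) (nat_lit 152) (nat_lit 0) (XT.lf (nat_lit 0) (nat_lit 178625357) (nat_lit 152) (nat_lit 11511003043) (nat_lit 76) (nat_lit 4937254508) (nat_lit 23) (nat_lit 5) (nat_lit 25) (nat_lit 5) (nat_lit 24) (nat_lit 5) (nat_lit 354) (nat_lit 345) (nat_lit 321)) (XT.nd (nat_lit 78) (nat_lit 152) (nat_lit 0) (XT.lf (nat_lit 0) (nat_lit 3604044994) (nat_lit 152) (nat_lit 2056414667) (nat_lit 76) (nat_lit 12397415809) (nat_lit 23) (nat_lit 5) (nat_lit 25) (nat_lit 5) (nat_lit 24) (nat_lit 5) (nat_lit 355) (nat_lit 345) (nat_lit 320)) (XT.lf (nat_lit 0) (nat_lit 7951239554) (nat_lit 228) (nat_lit 10140344242) (nat_lit 76) (nat_lit 1550786159) (nat_lit 21) (nat_lit 5) (nat_lit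 24) (nat_lit 5) (nat_lit 22) (nat_lit 4) (nat_lit 356) (nat_lit 345) (nat_lit 319))))))) (XT.nd (nat_lit 858) (nat_lit 532) (nat_lit 0) (XT.nd (nat_lit 390) (nat_lit 380) (nat_lit 0) (XT.nd (nat_lit 156) (nat_lit 228) (nat_lit 0) (XT.nd (nat_lit 78) (nat_lit 0) (nat_lit 0) (XT.lf (nat_lit 0) (nat_lit 1331118408) (nat_lit 76) (nat_lit 12000515598) (nat_lit 152) (nat_lit 8075777664) (nat_lit 20) (nat_lit 5) (nat_lit 21) (nat_lit 5) (nat_lit 22) (nat_lit 4) (nat_lit 357) (nat_lit 345) (nat_lit 318)) (XT.lf (nat_lit 0) (nat_lit 15577358872) (nat_lit 76) (nat_lit 4419416470) (nat_lit 152) (nat_lit 3368816935) (nat_lit 20) (nat_lit 5) (nat_lit 21) (nat_lit 5) (nat_lit 22) (nat_lit 4) (nat_lit 358) (nat_lit 345) (nat_lit 317))) (XT.nd (nat_lit 78) (nat_lit 76) (nat_lit 0) (XT.lf (nat_lit 0) (nat_lit 2289448430) (nat_lit 152) (nat_lit 18980807039) (nat_lit 76) (nat_lit 4270487511) (nat_lit 18)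 (nat_lit 5) (nat_lit 20) (nat_lit 5) (nat_lit 19) (nat_lit 4) (nat_lit 359) (nat_lit 345) (nat_lit 316)) (XT.nd (nat_lit 78) (nat_lit 76) (nat_lit 0) (XT.lf (nat_lit 0) (nat_lit 9042578558) (nat_lit 152) (nat_lit 4516685942) (nat_lit 76) (nat_lit 14370208199) (nat_lit 18) (nat_lit 5) (nat_lit 20) (nat_lit 5) (nat_lit 19) (nat_lit 4) (nat_lit 360) (nat_lit 345) (nat_lit 315)) (XT.lf (nat_lit 0) (nat_lit 13223945762) (nat_lit 76) (nat_lit 4092378048) (nat_lit 152) (nat_lit 13284061689) (nat_lit 17) (nat_lit 5) (nat_lit 18) (nat_lit 5) (nat_lit 19) (nat_lit 4) (nat_lit 361) (nat_lit 345) (nat_lit 314))))) (XT.nd (nat_lit 234) (nat_lit 152) (nat_lit 0) (XT.nd (nat_lit 78) (nat_lit 152) (nat_lit 0) (XT.lf (nat_lit 0) (nat_lit 145522065) (nat_lit 76) (nat_lit 27181590947) (nat_lit 76) (nat_lit 6270442679) (nat_lit 16) (nat_lit 4) (nat_lit 17) (nat_lit 5) (nat_lit 17) (nat_lit 4) (nat_lit 362)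 (nat_lit 345) (nat_lit 313)) (XT.nd (nat_lit 78) (nat_lit 76) (nat_lit 0) (XT.lf (nat_lit 0) (nat_lit 2743574097) (nat_lit 152) (nat_lit 15043972524) (nat_lit 76) (nat_lit 19079391157) (nat_lit 15) (nat_lit 5) (nat_lit 17) (nat_lit 5) (nat_lit 16) (nat_lit 4) (nat_lit 363) (nat_lit 345) (nat_lit 312)) (XT.lf (nat_lit 0) (nat_lit 6327304003) (nat_lit 76) (nat_lit 6369142316) (nat_lit 152) (nat_lit 27851194657) (nat_lit 14) (nat_lit 5) (nat_lit 15) (nat_lit 5) (nat_lit 16) (nat_lit 4) (nat_lit 364) (nat_lit 345) (nat_lit 311)))) (XT.nd (nat_lit 78) (nat_lit 152) (nat_lit 0) (XT.lf (nat_lit 0) (nat_lit 25213497607) (nat_lit 152) (nat_lit 12448325719) (nat_lit 0) (nat_lit 6957949271) (nat_lit 14) (nat_lit 5) (nat_lit 16) (nat_lit 4) (nat_lit 14) (nat_lit 4) (nat_lit 365) (nat_lit 345) (nat_lit 310)) (XT.nd (nat_lit 78) (nat_lit 76) (nat_lit 0) (XT.lf (nat_lit 0) (nat_lit 13426376857) (nat_lit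 76) (nat_lit 27012641335) (nat_lit 76) (nat_lit 8739077874) (nat_lit 13) (nat_lit 4) (nat_lit 14) (nat_lit 5) (nat_lit 14) (nat_lit 4) (nat_lit 366) (nat_lit 345) (nat_lit 309)) (XT.lf (nat_lit 0) (nat_lit 3867682859) (nat_lit 152) (nat_lit 9973710638) (nat_lit 76) (nat_lit 40458828665) (nat_lit 12) (nat_lit 5) (nat_lit 14) (nat_lit 5) (nat_lit 13) (nat_lit 4) (nat_lit 367) (nat_lit 345) (nat_lit 308)))))) (XT.nd (nat_lit 468) (nat_lit 228) (nat_lit 0) (XT.nd (nat_lit 234) (nat_lit 152) (nat_lit 0) (XT.nd (nat_lit 78) (nat_lit 76) (nat_lit 0) (XT.lf (nat_lit 0) (nat_lit 18433802311) (nat_lit 152) (nat_lit 39031709866) (nat_lit 0) (nat_lit 2518279869) (nat_lit 11) (nat_lit 5) (nat_lit 13) (nat_lit 4) (nat_lit 11) (nat_lit 4) (nat_lit 368) (nat_lit 345) (nat_lit 307)) (XT.nd (nat_lit 78) (nat_lit 76) (nat_lit 0) (XT.lf (nat_lit 0) (nat_lit 36366033731) (nat_lit 152) (nat_lit 9536478550)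 (nat_lit 0) (nat_lit 20440211083) (nat_lit 11) (nat_lit 5) (nat_lit 13) (nat_lit 4) (nat_lit 11) (nat_lit 4) (nat_lit 369) (nat_lit 345) (nat_lit 306)) (XT.lf (nat_lit 0) (nat_lit 26719632837) (nat_lit 76) (nat_lit 31353914113) (nat_lit 76) (nat_lit 15419134765) (nat_lit 10) (nat_lit 4) (nat_lit 11) (nat_lit 5) (nat_lit 11) (nat_lit 4) (nat_lit 370) (nat_lit 345) (nat_lit 305)))) (XT.nd (nat_lit 78) (nat_lit 76) (nat_lit 0) (XT.lf (nat_lit 0) (nat_lit 1705750746) (nat_lit 152) (nat_lit 12275203678) (nat_lit 76) (nat_lit 67650761848) (nat_lit 9) (nat_lit 5) (nat_lit 11) (nat_lit 5) (nat_lit 10) (nat_lit 4) (nat_lit 371) (nat_lit 345) (nat_lit 304)) (XT.nd (nat_lit 78) (nat_lit 0) (nat_lit 0) (XT.lf (nat_lit 0) (nat_lit 21353094334) (nat_lit 152) (nat_lit 61814422514) (nat_lit 0) (nat_lit 7484102738) (nat_lit 8) (nat_lit 5) (nat_lit 10) (nat_lit 4) (nat_lit 8) (nat_lit 4) (nat_lit 372)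 (nat_lit 345) (nat_lit 303)) (XT.lf (nat_lit 0) (nat_lit 45267560088) (nat_lit 152) (nat_lit 24165500262) (nat_lit 0) (nat_lit 31393447468) (nat_lit 8) (nat_lit 5) (nat_lit 10) (nat_lit 4) (nat_lit 8) (nat_lit 4) (nat_lit 373) (nat_lit 345) (nat_lit 302))))) (XT.nd (nat_lit 234) (nat_lit 76) (nat_lit 0) (XT.nd (nat_lit 78) (nat_lit 76) (nat_lit 0) (XT.lf (nat_lit 0) (nat_lit 20965087700) (nat_lit 76) (nat_lit 52656616583) (nat_lit 76) (nat_lit 38778050901) (nat_lit 7) (nat_lit 4) (nat_lit 8) (nat_lit 5) (nat_lit 8) (nat_lit 4) (nat_lit 374) (nat_lit 345) (nat_lit 301)) (XT.nd (nat_lit 78) (nat_lit 76) (nat_lit 0) (XT.lf (nat_lit 0) (nat_lit 75550467287) (nat_lit 76) (nat_lit 31926854700) (nat_lit 76) (nat_lit 18044416788) (nat_lit 7) (nat_lit 4) (nat_lit 8) (nat_lit 5) (nat_lit 8) (nat_lit 4) (nat_lit 375) (nat_lit 345) (nat_lit 300)) (XT.lf (nat_lit 0) (nat_lit 5269447343) (nat_lit 152)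 (nat_lit 2556493279) (nat_lit 76) (nat_lit 132752089155) (nat_lit 6) (nat_lit 5) (nat_lit 8) (nat_lit 5) (nat_lit 7) (nat_lit 4) (nat_lit 376) (nat_lit 345) (nat_lit 299)))) (XT.nd (nat_lit 78) (nat_lit 0) (nat_lit 0) (XT.lf (nat_lit 0) (nat_lit 33517938787) (nat_lit 152) (nat_lit 102312415729) (nat_lit 0) (nat_lit 21440779632) (nat_lit 5) (nat_lit 5) (nat_lit 7) (nat_lit 4) (nat_lit 5) (nat_lit 4) (nat_lit 377) (nat_lit 345) (nat_lit 298)) (XT.nd (nat_lit 78) (nat_lit 0) (nat_lit 0) (XT.lf (nat_lit 0) (nat_lit 66504678761) (nat_lit 152) (nat_lit 55463074632) (nat_lit 0) (nat_lit 54425305647) (nat_lit 5) (nat_lit 5) (nat_lit 7) (nat_lit 4) (nat_lit 5) (nat_lit 4) (nat_lit 378) (nat_lit 345) (nat_lit 297)) (XT.lf (nat_lit 0) (nat_lit 104429266717) (nat_lit 152) (nat_lit 1607562926) (nat_lit 0) (nat_lit 92347968420) (nat_lit 5) (nat_lit 5) (nat_lit 7) (nat_lit 4) (nat_lit 5) (nat_lit 4)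 (nat_lit 379) (nat_lit 345) (nat_lit 296))))))))
noncomputable def xc58 : XT := (XT.nd (nat_lit 1794) (nat_lit 0) (nat_lit 0) (XT.nd (nat_lit 858) (nat_lit 0) (nat_lit 0) (XT.nd (nat_lit 390) (nat_lit 76) (nat_lit 0) (XT.nd (nat_lit 156) (nat_lit 152) (nat_lit 0) (XT.nd (nat_lit 78) (nat_lit 0) (nat_lit 0) (XT.lf (nat_lit 0) (nat_lit 66201532385) (nat_lit 76) (nat_lit 84573437357) (nat_lit 76) (nat_lit 72490464989) (nat_lit 4) (nat_lit 4) (nat_lit 5) (nat_lit 5) (nat_lit 5) (nat_lit 4) (nat_lit 380) (nat_lit 345) (nat_lit 295)) (XT.lf (nat_lit 0) (nat_lit 144345037944) (nat_lit 76) (nat_lit 59803107578) (nat_lit 76) (nat_lit 47718679496) (nat_lit 4) (nat_lit 4) (nat_lit 5) (nat_lit 5) (nat_lit 5) (nat_lit 4) (nat_lit 381) (nat_lit 345) (nat_lit 294))) (XT.nd (nat_lit 78) (nat_lit 152) (nat_lit 0) (XT.lf (nat_lit 0) (nat_lit 234194745684) (nat_lit 76) (nat_lit 31325235119) (nat_lit 76)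 (nat_lit 19239541198) (nat_lit 4) (nat_lit 4) (nat_lit 5) (nat_lit 5) (nat_lit 5) (nat_lit 4) (nat_lit 382) (nat_lit 345) (nat_lit 293)) (XT.nd (nat_lit 78) (nat_lit 0) (nat_lit 0) (XT.lf (nat_lit 0) (nat_lit 13071155178) (nat_lit 152) (nat_lit 306755761958) (nat_lit 0) (nat_lit 2560898960) (nat_lit 2) (nat_lit 5) (nat_lit 4) (nat_lit 4) (nat_lit 2) (nat_lit 4) (nat_lit 383) (nat_lit 345) (nat_lit 292)) (XT.lf (nat_lit 0) (nat_lit 52512756307) (nat_lit 152) (nat_lit 270370395904) (nat_lit 0) (nat_lit 42001667780) (nat_lit 2) (nat_lit 5) (nat_lit 4) (nat_lit 4) (nat_lit 2) (nat_lit 4) (nat_lit 384) (nat_lit 345) (nat_lit 291))))) (XT.nd (nat_lit 234) (nat_lit 76) (nat_lit 0) (XT.nd (nat_lit 78) (nat_lit 0) (nat_lit 0) (XT.lf (nat_lit 0) (nat_lit 97864825014) (nat_lit 152) (nat_lit 228539402962) (nat_lit 0) (nat_lit 87353012740) (nat_lit 2) (nat_lit 5) (nat_lit 4) (nat_lit 4) (nat_lit 2)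 (nat_lit 4) (nat_lit 385) (nat_lit 345) (nat_lit 290)) (XT.nd (nat_lit 78) (nat_lit 0) (nat_lit 0) (XT.lf (nat_lit 0) (nat_lit 150014684381) (nat_lit 152) (nat_lit 180444350661) (nat_lit 0) (nat_lit 139502242762) (nat_lit 2) (nat_lit 5) (nat_lit 4) (nat_lit 4) (nat_lit 2) (nat_lit 4) (nat_lit 386) (nat_lit 345) (nat_lit 289)) (XT.lf (nat_lit 0) (nat_lit 209982657746) (nat_lit 152) (nat_lit 125144248846) (nat_lit 0) (nat_lit 199469668870) (nat_lit 2) (nat_lit 5) (nat_lit 4) (nat_lit 4) (nat_lit 2) (nat_lit 4) (nat_lit 387) (nat_lit 345) (nat_lit 288)))) (XT.nd (nat_lit 78) (nat_lit 76) (nat_lit 0) (XT.lf (nat_lit 0) (nat_lit 278942031542) (nat_lit 152) (nat_lit 61557139004) (nat_lit 0) (nat_lit 268428566791) (nat_lit 2) (nat_lit 5) (nat_lit 4) (nat_lit 4) (nat_lit 2) (nat_lit 4) (nat_lit 388) (nat_lit 345) (nat_lit 287)) (XT.nd (nat_lit 78) (nat_lit 0) (nat_lit 0) (XT.lf (nat_lit 0) (nat_lit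 12690906771) (nat_lit 76) (nat_lit 346076607525) (nat_lit 76) (nat_lit 335562728968) (nat_lit 1) (nat_lit 4) (nat_lit 2) (nat_lit 5) (nat_lit 2) (nat_lit 4) (nat_lit 389) (nat_lit 345) (nat_lit 286)) (XT.lf (nat_lit 0) (nat_lit 104987696093) (nat_lit 76) (nat_lit 348793737700) (nat_lit 76) (nat_lit 338279499313) (nat_lit 1) (nat_lit 4) (nat_lit 2) (nat_lit 5) (nat_lit 2) (nat_lit 4) (nat_lit 390) (nat_lit 345) (nat_lit 285)))))) (XT.nd (nat_lit 468) (nat_lit 0) (nat_lit 0) (XT.nd (nat_lit 234) (nat_lit 0) (nat_lit 0) (XT.nd (nat_lit 78) (nat_lit 0) (nat_lit 0) (XT.lf (nat_lit 0) (nat_lit 211123224395) (nat_lit 76) (nat_lit 351921481856) (nat_lit 76) (nat_lit 341406930573) (nat_lit 1) (nat_lit 4) (nat_lit 2) (nat_lit 5) (nat_lit 2) (nat_lit 4) (nat_lit 391) (nat_lit 345) (nat_lit 284)) (XT.nd (nat_lit 78) (nat_lit 0) (nat_lit 0) (XT.lf (nat_lit 0) (nat_lit 333174056362) (nat_lit 76) (nat_lit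 355521034986) (nat_lit 76) (nat_lit 345006211620) (nat_lit 1) (nat_lit 4) (nat_lit 2) (nat_lit 5) (nat_lit 2) (nat_lit 4) (nat_lit 392) (nat_lit 345) (nat_lit 283)) (XT.lf (nat_lit 0) (nat_lit 473528143054) (nat_lit 76) (nat_lit 359662823130) (nat_lit 76) (nat_lit 349147763169) (nat_lit 1) (nat_lit 4) (nat_lit 2) (nat_lit 5) (nat_lit 2) (nat_lit 4) (nat_lit 393) (nat_lit 345) (nat_lit 282)))) (XT.nd (nat_lit 78) (nat_lit 0) (nat_lit 0) (XT.lf (nat_lit 0) (nat_lit 634931542689) (nat_lit 76) (nat_lit 364427881272) (nat_lit 76) (nat_lit 353912615577) (nat_lit 1) (nat_lit 4) (nat_lit 2) (nat_lit 5) (nat_lit 2) (nat_lit 4) (nat_lit 394) (nat_lit 345) (nat_lit 281)) (XT.nd (nat_lit 78) (nat_lit 0) (nat_lit 0) (XT.lf (nat_lit 0) (nat_lit 820542147870) (nat_lit 76) (nat_lit 369909438812) (nat_lit 76) (nat_lit 359393994218) (nat_lit 1) (nat_lit 4) (nat_lit 2) (nat_lit 5) (nat_lit 2) (nat_lit 4)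 (nat_lit 395) (nat_lit 345) (nat_lit 280)) (XT.lf (nat_lit 0) (nat_lit 1033991470435) (nat_lit 76) (nat_lit 376214743614) (nat_lit 76) (nat_lit 365699143456) (nat_lit 1) (nat_lit 4) (nat_lit 2) (nat_lit 5) (nat_lit 2) (nat_lit 4) (nat_lit 396) (nat_lit 345) (nat_lit 279))))) (XT.nd (nat_lit 234) (nat_lit 0) (nat_lit 0) (XT.nd (nat_lit 78) (nat_lit 0) (nat_lit 0) (XT.lf (nat_lit 0) (nat_lit 1279455692783) (nat_lit 76) (nat_lit 383467160338) (nat_lit 76) (nat_lit 372951424906) (nat_lit 1) (nat_lit 4) (nat_lit 2) (nat_lit 5) (nat_lit 2) (nat_lit 4) (nat_lit 397) (nat_lit 345) (nat_lit 278)) (XT.nd (nat_lit 78) (nat_lit 0) (nat_lit 0) (XT.lf (nat_lit 0) (nat_lit 1561737375787) (nat_lit 76) (nat_lit 391808584093) (nat_lit 76) (nat_lit 381292731032) (nat_lit 1) (nat_lit 4) (nat_lit 2) (nat_lit 5) (nat_lit 2) (nat_lit 4) (nat_lit 398) (nat_lit 345) (nat_lit 277)) (XT.lf (nat_lit 0) (nat_lit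 1886359421939) (nat_lit 76) (nat_lit 401402216649) (nat_lit 76) (nat_lit 390886261302) (nat_lit 1) (nat_lit 4) (nat_lit 2) (nat_lit 5) (nat_lit 2) (nat_lit 4) (nat_lit 399) (nat_lit 345) (nat_lit 276)))) (XT.nd (nat_lit 78) (nat_lit 0) (nat_lit 0) (XT.lf (nat_lit 0) (nat_lit 2259673132143) (nat_lit 76) (nat_lit 412435759512) (nat_lit 76) (nat_lit 401919715220) (nat_lit 1) (nat_lit 4) (nat_lit 2) (nat_lit 5) (nat_lit 2) (nat_lit 4) (nat_lit 400) (nat_lit 345) (nat_lit 275)) (XT.nd (nat_lit 78) (nat_lit 0) (nat_lit 0) (XT.lf (nat_lit 0) (nat_lit 2688982470294) (nat_lit 76) (nat_lit 425125086346) (nat_lit 76) (nat_lit 414608964711) (nat_lit 1) (nat_lit 4) (nat_lit 2) (nat_lit 5) (nat_lit 2) (nat_lit 4) (nat_lit 401) (nat_lit 345) (nat_lit 274)) (XT.lf (nat_lit 0) (nat_lit 3182686966921) (nat_lit 76) (nat_lit 439718466590) (nat_lit 76) (nat_lit 429202277700) (nat_lit 1) (nat_lit 4) (nat_lit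 2) (nat_lit 5) (nat_lit 2) (nat_lit 4) (nat_lit 402) (nat_lit 345) (nat_lit 273))))))) (XT.nd (nat_lit 858) (nat_lit 0) (nat_lit 0) (XT.nd (nat_lit 390) (nat_lit 0) (nat_lit 0) (XT.nd (nat_lit 156) (nat_lit 0) (nat_lit 0) (XT.nd (nat_lit 78) (nat_lit 0) (nat_lit 0) (XT.lf (nat_lit 0) (nat_lit 3750446057828) (nat_lit 76) (nat_lit 456501422901) (nat_lit 76) (nat_lit 445985175529) (nat_lit 1) (nat_lit 4) (nat_lit 2) (nat_lit 5) (nat_lit 2) (nat_lit 4) (nat_lit 403) (nat_lit 345) (nat_lit 272)) (XT.lf (nat_lit 0) (nat_lit 4403368073053) (nat_lit 76) (nat_lit 475802317468) (nat_lit 76) (nat_lit 465286019241) (nat_lit 1) (nat_lit 4) (nat_lit 2) (nat_lit 5) (nat_lit 2) (nat_lit 4) (nat_lit 404) (nat_lit 345) (nat_lit 271))) (XT.nd (nat_lit 78) (nat_lit 0) (nat_lit 0) (XT.lf (nat_lit 0) (nat_lit 5154227573766) (nat_lit 76) (nat_lit 497998776488) (nat_lit 76) (nat_lit 487482434040) (nat_lit 1)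 (nat_lit 4) (nat_lit 2) (nat_lit 5) (nat_lit 2) (nat_lit 4) (nat_lit 405) (nat_lit 345) (nat_lit 270)) (XT.nd (nat_lit 78) (nat_lit 0) (nat_lit 0) (XT.lf (nat_lit 0) (nat_lit 6017715289326) (nat_lit 76) (nat_lit 523525078507) (nat_lit 76) (nat_lit 513008697606) (nat_lit 1) (nat_lit 4) (nat_lit 2) (nat_lit 5) (nat_lit 2) (nat_lit 4) (nat_lit 406) (nat_lit 345) (nat_lit 269)) (XT.lf (nat_lit 0) (nat_lit 7010725544605) (nat_lit 76) (nat_lit 552880651174) (nat_lit 76) (nat_lit 542364236835) (nat_lit 1) (nat_lit 4) (nat_lit 2) (nat_lit 5) (nat_lit 2) (nat_lit 4) (nat_lit 407) (nat_lit 345) (nat_lit 268))))) (XT.nd (nat_lit 234) (nat_lit 0) (nat_lit 0) (XT.nd (nat_lit 78) (nat_lit 0) (nat_lit 0) (XT.lf (nat_lit 0) (nat_lit 8152686801118) (nat_lit 76) (nat_lit 586639842650) (nat_lit 76) (nat_lit 576123399235) (nat_lit 1) (nat_lit 4) (nat_lit 2) (nat_lit 5) (nat_lit 2) (nat_lit 4) (nat_lit 408)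 (nat_lit 345) (nat_lit 267)) (XT.nd (nat_lit 78) (nat_lit 0) (nat_lit 0) (XT.lf (nat_lit 0) (nat_lit 9465941779101) (nat_lit 76) (nat_lit 625463158854) (nat_lit 76) (nat_lit 614946690155) (nat_lit 1) (nat_lit 4) (nat_lit 2) (nat_lit 5) (nat_lit 2) (nat_lit 4) (nat_lit 409) (nat_lit 345) (nat_lit 266)) (XT.lf (nat_lit 0) (nat_lit 10976184597690) (nat_lit 76) (nat_lit 670110186408) (nat_lit 76) (nat_lit 659593695724) (nat_lit 1) (nat_lit 4) (nat_lit 2) (nat_lit 5) (nat_lit 2) (nat_lit 4) (nat_lit 410) (nat_lit 345) (nat_lit 265)))) (XT.nd (nat_lit 78) (nat_lit 0) (nat_lit 0) (XT.lf (nat_lit 0) (nat_lit 12712963485942) (nat_lit 76) (nat_lit 721454454113) (nat_lit 76) (nat_lit 710937944311) (nat_lit 1) (nat_lit 4) (nat_lit 2) (nat_lit 5) (nat_lit 2) (nat_lit 4) (nat_lit 411) (nat_lit 345) (nat_lit 264)) (XT.nd (nat_lit 78) (nat_lit 0) (nat_lit 0) (XT.lf (nat_lit 0) (nat_lit 14710258900368)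 (nat_lit 76) (nat_lit 780500523727) (nat_lit 76) (nat_lit 769983997301) (nat_lit 1) (nat_lit 4) (nat_lit 2) (nat_lit 5) (nat_lit 2) (nat_lit 4) (nat_lit 412) (nat_lit 345) (nat_lit 263)) (XT.lf (nat_lit 0) (nat_lit 17007148359946) (nat_lit 76) (nat_lit 848403644439) (nat_lit 76) (nat_lit 837887103557) (nat_lit 1) (nat_lit 4) (nat_lit 2) (nat_lit 5) (nat_lit 2) (nat_lit 4) (nat_lit 413) (nat_lit 345) (nat_lit 262)))))) (XT.nd (nat_lit 468) (nat_lit 0) (nat_lit 0) (XT.nd (nat_lit 234) (nat_lit 0) (nat_lit 0) (XT.nd (nat_lit 78) (nat_lit 0) (nat_lit 0) (XT.lf (nat_lit 0) (nat_lit 19648571006275) (nat_lit 76) (nat_lit 926492355567) (nat_lit 76) (nat_lit 915975802114) (nat_lit 1) (nat_lit 4) (nat_lit 2) (nat_lit 5) (nat_lit 2) (nat_lit 4) (nat_lit 414) (nat_lit 345) (nat_lit 261)) (XT.nd (nat_lit 78) (nat_lit 0) (nat_lit 0) (XT.lf (nat_lit 0) (nat_lit 22686206847654) (nat_lit 76) (nat_lit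 1016294479720) (nat_lit 76) (nat_lit 1005777915336) (nat_lit 1) (nat_lit 4) (nat_lit 2) (nat_lit 5) (nat_lit 2) (nat_lit 4) (nat_lit 415) (nat_lit 345) (nat_lit 260)) (XT.lf (nat_lit 0) (nat_lit 26179487889674) (nat_lit 76) (nat_lit 1119567014979) (nat_lit 76) (nat_lit 1109050441090) (nat_lit 1) (nat_lit 4) (nat_lit 2) (nat_lit 5) (nat_lit 2) (nat_lit 4) (nat_lit 416) (nat_lit 345) (nat_lit 259)))) (XT.nd (nat_lit 78) (nat_lit 0) (nat_lit 0) (XT.lf (nat_lit 0) (nat_lit 30196760935333) (nat_lit 76) (nat_lit 1238330510947) (nat_lit 76) (nat_lit 1227813928793) (nat_lit 1) (nat_lit 4) (nat_lit 2) (nat_lit 5) (nat_lit 2) (nat_lit 4) (nat_lit 417) (nat_lit 345) (nat_lit 258)) (XT.nd (nat_lit 78) (nat_lit 0) (nat_lit 0) (XT.lf (nat_lit 0) (nat_lit 34816624805088) (nat_lit 76) (nat_lit 1374908601241) (nat_lit 76) (nat_lit 1364392011900) (nat_lit 1) (nat_lit 4) (nat_lit 2) (nat_lit 5) (nat_lit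 2) (nat_lit 4) (nat_lit 418) (nat_lit 345) (nat_lit 257)) (XT.lf (nat_lit 0) (nat_lit 40129468139869) (nat_lit 76) (nat_lit 1531973465889) (nat_lit 76) (nat_lit 1521456870298) (nat_lit 1) (nat_lit 4) (nat_lit 2) (nat_lit 5) (nat_lit 2) (nat_lit 4) (nat_lit 419) (nat_lit 345) (nat_lit 256))))) (XT.nd (nat_lit 234) (nat_lit 0) (nat_lit 0) (XT.nd (nat_lit 78) (nat_lit 0) (nat_lit 0) (XT.lf (nat_lit 0) (nat_lit 46239237874488) (nat_lit 76) (nat_lit 1712598113111) (nat_lit 76) (nat_lit 1702081512086) (nat_lit 1) (nat_lit 4) (nat_lit 2) (nat_lit 5) (nat_lit 2) (nat_lit 4) (nat_lit 420) (nat_lit 345) (nat_lit 255)) (XT.nd (nat_lit 78) (nat_lit 0) (nat_lit 0) (XT.lf (nat_lit 0) (nat_lit 53265472982012) (nat_lit 76) (nat_lit 1920316503397) (nat_lit 76) (nat_lit 1909799897646) (nat_lit 1) (nat_lit 4) (nat_lit 2) (nat_lit 5) (nat_lit 2) (nat_lit 4) (nat_lit 421) (nat_lit 345) (nat_lit 254)) (XT.lf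 (nat_lit 0) (nat_lit 61345643279764) (nat_lit 76) (nat_lit 2159192692209) (nat_lit 76) (nat_lit 2148676082349) (nat_lit 1) (nat_lit 4) (nat_lit 2) (nat_lit 5) (nat_lit 2) (nat_lit 4) (nat_lit 422) (nat_lit 345) (nat_lit 253)))) (XT.nd (nat_lit 78) (nat_lit 0) (nat_lit 0) (XT.lf (nat_lit 0) (nat_lit 70637839056177) (nat_lit 76) (nat_lit 2433900344111) (nat_lit 76) (nat_lit 2423383730677) (nat_lit 1) (nat_lit 4) (nat_lit 2) (nat_lit 5) (nat_lit 2) (nat_lit 4) (nat_lit 423) (nat_lit 345) (nat_lit 252)) (XT.nd (nat_lit 78) (nat_lit 0) (nat_lit 0) (XT.lf (nat_lit 0) (nat_lit 81323864141659) (nat_lit 76) (nat_lit 2749814174031) (nat_lit 76) (nat_lit 2739297557490) (nat_lit 1) (nat_lit 4) (nat_lit 2) (nat_lit 5) (nat_lit 2) (nat_lit 4) (nat_lit 424) (nat_lit 345) (nat_lit 251)) (XT.lf (nat_lit 0) (nat_lit 93612792940057) (nat_lit 76) (nat_lit 3113115104728) (nat_lit 76) (nat_lit 3102598485486)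 (nat_lit 1) (nat_lit 4) (nat_lit 2) (nat_lit 5) (nat_lit 2) (nat_lit 4) (nat_lit 425) (nat_lit 345) (nat_lit 250))))))))
noncomputable def xc59 : XT := (XT.nd (nat_lit 48126) (nat_lit 0) (nat_lit 76) (XT.nd (nat_lit 47190) (nat_lit 0) (nat_lit 1292) (XT.nd (nat_lit 390) (nat_lit 0) (nat_lit 0) (XT.nd (nat_lit 156) (nat_lit 0) (nat_lit 0) (XT.nd (nat_lit 78) (nat_lit 0) (nat_lit 0) (XT.lf (nat_lit 0) (nat_lit 107745061014818) (nat_lit 76) (nat_lit 3530911197891) (nat_lit 76) (nat_lit 3520394576299) (nat_lit 1) (nat_lit 4) (nat_lit 2) (nat_lit 5) (nat_lit 2) (nat_lit 4) (nat_lit 426) (nat_lit 345) (nat_lit 249)) (XT.lf (nat_lit 0) (nat_lit 123997169263057) (nat_lit 76) (nat_lit 4011376724907) (nat_lit 76) (nat_lit 4000860101271) (nat_lit 1) (nat_lit 4) (nat_lit 2) (nat_lit 5) (nat_lit 2) (nat_lit 4) (nat_lit 427) (nat_lit 345) (nat_lit 248))) (XT.nd (nat_lit 78) (nat_lit 0) (nat_lit 0)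 (XT.lf (nat_lit 0) (nat_lit 142687093715717) (nat_lit 76) (nat_lit 4563912098261) (nat_lit 76) (nat_lit 4553395472849) (nat_lit 1) (nat_lit 4) (nat_lit 2) (nat_lit 5) (nat_lit 2) (nat_lit 4) (nat_lit 428) (nat_lit 345) (nat_lit 247)) (XT.nd (nat_lit 78) (nat_lit 0) (nat_lit 0) (XT.lf (nat_lit 0) (nat_lit 164180506807741) (nat_lit 76) (nat_lit 5199327792649) (nat_lit 76) (nat_lit 5188811165692) (nat_lit 1) (nat_lit 4) (nat_lit 2) (nat_lit 5) (nat_lit 2) (nat_lit 4) (nat_lit 429) (nat_lit 345) (nat_lit 246)) (XT.lf (nat_lit 0) (nat_lit 188897931838757) (nat_lit 76) (nat_lit 5930055854265) (nat_lit 76) (nat_lit 5919539225966) (nat_lit 1) (nat_lit 4) (nat_lit 2) (nat_lit 5) (nat_lit 2) (nat_lit 4) (nat_lit 430) (nat_lit 345) (nat_lit 245))))) (XT.nd (nat_lit 46566) (nat_lit 0) (nat_lit 2204) (XT.nd (nat_lit 78) (nat_lit 0) (nat_lit 0) (XT.lf (nat_lit 0) (nat_lit 217322970602849) (nat_lit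 76) (nat_lit 6770393136491) (nat_lit 76) (nat_lit 6759876507022) (nat_lit 1) (nat_lit 4) (nat_lit 2) (nat_lit 5) (nat_lit 2) (nat_lit 4) (nat_lit 431) (nat_lit 345) (nat_lit 244)) (XT.nd (nat_lit 46410) (nat_lit 0) (nat_lit 2508) (XT.lf (nat_lit 0) (nat_lit 250011765162794) (nat_lit 76) (nat_lit 7736781020932) (nat_lit 76) (nat_lit 7726264390448) (nat_lit 1) (nat_lit 4) (nat_lit 2) (nat_lit 5) (nat_lit 2) (nat_lit 4) (nat_lit 432) (nat_lit 345) (nat_lit 243)) (XT.lf (nat_lit 0) (nat_lit 2225441609) (nat_lit 0) (nat_lit 2225441609) (nat_lit 228) (nat_lit 489534320) (nat_lit 34) (nat_lit 5) (nat_lit 34) (nat_lit 3) (nat_lit 37) (nat_lit 3) (nat_lit 346) (nat_lit 346) (nat_lit 328)))) (XT.nd (nat_lit 78) (nat_lit 304) (nat_lit 0) (XT.lf (nat_lit 0) (nat_lit 9964326432) (nat_lit 0) (nat_lit 258331103) (nat_lit 228) (nat_lit 300316138) (nat_lit 34) (nat_lit 5) (nat_lit 34) (nat_lit 3) (nat_lit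 37) (nat_lit 3) (nat_lit 347) (nat_lit 346) (nat_lit 327)) (XT.nd (nat_lit 78) (nat_lit 0) (nat_lit 0) (XT.lf (nat_lit 0) (nat_lit 743396503) (nat_lit 304) (nat_lit 6008576416) (nat_lit 380) (nat_lit 4460736670) (nat_lit 30) (nat_lit 5) (nat_lit 34) (nat_lit 5) (nat_lit 35) (nat_lit 5) (nat_lit 348) (nat_lit 346) (nat_lit 326)) (XT.lf (nat_lit 0) (nat_lit 1848678070) (nat_lit 304) (nat_lit 220625361) (nat_lit 380) (nat_lit 9944219461) (nat_lit 30) (nat_lit 5) (nat_lit 34) (nat_lit 5) (nat_lit 35) (nat_lit 5) (nat_lit 349) (nat_lit 346) (nat_lit 325)))))) (XT.nd (nat_lit 468) (nat_lit 380) (nat_lit 0) (XT.nd (nat_lit 234) (nat_lit 304) (nat_lit 0) (XT.nd (nat_lit 78) (nat_lit 304) (nat_lit 0) (XT.lf (nat_lit 0) (nat_lit 3467602915) (nat_lit 304) (nat_lit 6073929941) (nat_lit 76) (nat_lit 3340857169) (nat_lit 31) (nat_lit 5) (nat_lit 35) (nat_lit 5) (nat_lit 32) (nat_lit 5) (nat_lit 350)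 (nat_lit 346) (nat_lit 324)) (XT.nd (nat_lit 78) (nat_lit 0) (nat_lit 0) (XT.lf (nat_lit 0) (nat_lit 937227057) (nat_lit 304) (nat_lit 4458175925) (nat_lit 380) (nat_lit 8476373982) (nat_lit 27) (nat_lit 5) (nat_lit 31) (nat_lit 5) (nat_lit 32) (nat_lit 5) (nat_lit 351) (nat_lit 346) (nat_lit 323)) (XT.lf (nat_lit 0) (nat_lit 7926441292) (nat_lit 380) (nat_lit 5443274893) (nat_lit 76) (nat_lit 1592828317) (nat_lit 27) (nat_lit 5) (nat_lit 32) (nat_lit 5) (nat_lit 28) (nat_lit 5) (nat_lit 352) (nat_lit 346) (nat_lit 322)))) (XT.nd (nat_lit 78) (nat_lit 152) (nat_lit 0) (XT.lf (nat_lit 0) (nat_lit 3161334689) (nat_lit 152) (nat_lit 7952900791) (nat_lit 228) (nat_lit 5061198663) (nat_lit 25) (nat_lit 5) (nat_lit 27) (nat_lit 5) (nat_lit 28) (nat_lit 5) (nat_lit 353) (nat_lit 346) (nat_lit 321)) (XT.nd (nat_lit 78) (nat_lit 152) (nat_lit 0) (XT.lf (nat_lit 0) (nat_lit 13592493043) (nat_lit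 152) (nat_lit 1411621433) (nat_lit 228) (nat_lit 2532618005) (nat_lit 25) (nat_lit 5) (nat_lit 27) (nat_lit 5) (nat_lit 28) (nat_lit 5) (nat_lit 354) (nat_lit 346) (nat_lit 320)) (XT.lf (nat_lit 0) (nat_lit 844397964) (nat_lit 152) (nat_lit 12307073818) (nat_lit 76) (nat_lit 5873087049) (nat_lit 23) (nat_lit 5) (nat_lit 25) (nat_lit 5) (nat_lit 24) (nat_lit 5) (nat_lit 355) (nat_lit 346) (nat_lit 319))))) (XT.nd (nat_lit 234) (nat_lit 152) (nat_lit 0) (XT.nd (nat_lit 78) (nat_lit 228) (nat_lit 0) (XT.lf (nat_lit 0) (nat_lit 4700285485) (nat_lit 152) (nat_lit 1555677145) (nat_lit 76) (nat_lit 14426805889) (nat_lit 23) (nat_lit 5) (nat_lit 25) (nat_lit 5) (nat_lit 24) (nat_lit 5) (nat_lit 356) (nat_lit 346) (nat_lit 318)) (XT.nd (nat_lit 78) (nat_lit 76) (nat_lit 0) (XT.lf (nat_lit 0) (nat_lit 9669722608) (nat_lit 228) (nat_lit 10821974133) (nat_lit 76) (nat_lit 2017773739) (nat_lit 21)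 (nat_lit 5) (nat_lit 24) (nat_lit 5) (nat_lit 22) (nat_lit 4) (nat_lit 357) (nat_lit 346) (nat_lit 317)) (XT.lf (nat_lit 0) (nat_lit 2332052381) (nat_lit 76) (nat_lit 13489720338) (nat_lit 152) (nat_lit 8722856528) (nat_lit 20) (nat_lit 5) (nat_lit 21) (nat_lit 5) (nat_lit 22) (nat_lit 4) (nat_lit 358) (nat_lit 346) (nat_lit 316)))) (XT.nd (nat_lit 78) (nat_lit 152) (nat_lit 0) (XT.lf (nat_lit 0) (nat_lit 18610715930) (nat_lit 76) (nat_lit 4812004941) (nat_lit 152) (nat_lit 3383454444) (nat_lit 20) (nat_lit 5) (nat_lit 21) (nat_lit 5) (nat_lit 22) (nat_lit 4) (nat_lit 359) (nat_lit 346) (nat_lit 315)) (XT.nd (nat_lit 78) (nat_lit 0) (nat_lit 0) (XT.lf (nat_lit 0) (nat_lit 3062807366) (nat_lit 152) (nat_lit 21069957746) (nat_lit 76) (nat_lit 5174377710) (nat_lit 18) (nat_lit 5) (nat_lit 20) (nat_lit 5) (nat_lit 19) (nat_lit 4) (nat_lit 360) (nat_lit 346) (nat_lit 314)) (XT.lf (nat_lit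 0) (nat_lit 10772827664) (nat_lit 152) (nat_lit 4535084182) (nat_lit 76) (nat_lit 16754710797) (nat_lit 18) (nat_lit 5) (nat_lit 20) (nat_lit 5) (nat_lit 19) (nat_lit 4) (nat_lit 361) (nat_lit 346) (nat_lit 313))))))) (XT.nd (nat_lit 858) (nat_lit 532) (nat_lit 0) (XT.nd (nat_lit 390) (nat_lit 380) (nat_lit 0) (XT.nd (nat_lit 156) (nat_lit 152) (nat_lit 0) (XT.nd (nat_lit 78) (nat_lit 76) (nat_lit 0) (XT.lf (nat_lit 0) (nat_lit 15836682975) (nat_lit 76) (nat_lit 4428238646) (nat_lit 152) (nat_lit 14872682698) (nat_lit 17) (nat_lit 5) (nat_lit 18) (nat_lit 5) (nat_lit 19) (nat_lit 4) (nat_lit 362) (nat_lit 346) (nat_lit 312)) (XT.lf (nat_lit 0) (nat_lit 807347452) (nat_lit 76) (nat_lit 30960690353) (nat_lit 76) (nat_lit 6817727678) (nat_lit 16) (nat_lit 4) (nat_lit 17) (nat_lit 5) (nat_lit 17) (nat_lit 4) (nat_lit 363) (nat_lit 346) (nat_lit 311))) (XT.nd (nat_lit 78) (nat_lit 76) (nat_lit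 0) (XT.lf (nat_lit 0) (nat_lit 3466648274) (nat_lit 152) (nat_lit 16713493885) (nat_lit 76) (nat_lit 22169996020) (nat_lit 15) (nat_lit 5) (nat_lit 17) (nat_lit 5) (nat_lit 16) (nat_lit 4) (nat_lit 364) (nat_lit 346) (nat_lit 310)) (XT.nd (nat_lit 78) (nat_lit 0) (nat_lit 0) (XT.lf (nat_lit 0) (nat_lit 7836788916) (nat_lit 76) (nat_lit 7058231542) (nat_lit 152) (nat_lit 31690555322) (nat_lit 14) (nat_lit 5) (nat_lit 15) (nat_lit 5) (nat_lit 16) (nat_lit 4) (nat_lit 365) (nat_lit 346) (nat_lit 309)) (XT.lf (nat_lit 0) (nat_lit 29260855609) (nat_lit 152) (nat_lit 13799422854) (nat_lit 0) (nat_lit 8212577179) (nat_lit 14) (nat_lit 5) (nat_lit 16) (nat_lit 4) (nat_lit 14) (nat_lit 4) (nat_lit 366) (nat_lit 346) (nat_lit 308))))) (XT.nd (nat_lit 234) (nat_lit 152) (nat_lit 0) (XT.nd (nat_lit 78) (nat_lit 152) (nat_lit 0) (XT.lf (nat_lit 0) (nat_lit 15933023666) (nat_lit 76) (nat_lit 30822973170)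 (nat_lit 76) (nat_lit 9761072719) (nat_lit 13) (nat_lit 4) (nat_lit 14) (nat_lit 5) (nat_lit 14) (nat_lit 4) (nat_lit 367) (nat_lit 346) (nat_lit 307)) (XT.nd (nat_lit 78) (nat_lit 76) (nat_lit 0) (XT.lf (nat_lit 0) (nat_lit 4676661300) (nat_lit 152) (nat_lit 11018923892) (nat_lit 76) (nat_lit 46715291925) (nat_lit 12) (nat_lit 5) (nat_lit 14) (nat_lit 5) (nat_lit 13) (nat_lit 4) (nat_lit 368) (nat_lit 346) (nat_lit 306)) (XT.lf (nat_lit 0) (nat_lit 21424514403) (nat_lit 152) (nat_lit 44432391374) (nat_lit 0) (nat_lit 3090561451) (nat_lit 11) (nat_lit 5) (nat_lit 13) (nat_lit 4) (nat_lit 11) (nat_lit 4) (nat_lit 369) (nat_lit 346) (nat_lit 305)))) (XT.nd (nat_lit 78) (nat_lit 152) (nat_lit 0) (XT.lf (nat_lit 0) (nat_lit 42017149003) (nat_lit 152) (nat_lit 10572102531) (nat_lit 0) (nat_lit 23675407617) (nat_lit 11) (nat_lit 5) (nat_lit 13) (nat_lit 4) (nat_lit 11) (nat_lit 4) (nat_lit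 370) (nat_lit 346) (nat_lit 304)) (XT.nd (nat_lit 78) (nat_lit 76) (nat_lit 0) (XT.lf (nat_lit 0) (nat_lit 31104477937) (nat_lit 76) (nat_lit 35866325265) (nat_lit 76) (nat_lit 17517811326) (nat_lit 10) (nat_lit 4) (nat_lit 11) (nat_lit 5) (nat_lit 11) (nat_lit 4) (nat_lit 371) (nat_lit 346) (nat_lit 303)) (XT.lf (nat_lit 0) (nat_lit 2131286970) (nat_lit 152) (nat_lit 13772136129) (nat_lit 76) (nat_lit 77947572493) (nat_lit 9) (nat_lit 5) (nat_lit 11) (nat_lit 5) (nat_lit 10) (nat_lit 4) (nat_lit 372) (nat_lit 346) (nat_lit 302)))))) (XT.nd (nat_lit 468) (nat_lit 228) (nat_lit 0) (XT.nd (nat_lit 234) (nat_lit 152) (nat_lit 0) (XT.nd (nat_lit 78) (nat_lit 76) (nat_lit 0) (XT.lf (nat_lit 0) (nat_lit 24724148953) (nat_lit 152) (nat_lit 70740631098) (nat_lit 0) (nat_lit 8759345355) (nat_lit 8) (nat_lit 5) (nat_lit 10) (nat_lit 4) (nat_lit 8) (nat_lit 4) (nat_lit 373) (nat_lit 346) (nat_lit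 301)) (XT.nd (nat_lit 78) (nat_lit 76) (nat_lit 0) (XT.lf (nat_lit 0) (nat_lit 52203859726) (nat_lit 152) (nat_lit 27489495046) (nat_lit 0) (nat_lit 36235183898) (nat_lit 8) (nat_lit 5) (nat_lit 10) (nat_lit 4) (nat_lit 8) (nat_lit 4) (nat_lit 374) (nat_lit 346) (nat_lit 300)) (XT.lf (nat_lit 0) (nat_lit 24397007007) (nat_lit 76) (nat_lit 60406943985) (nat_lit 76) (nat_lit 44434901003) (nat_lit 7) (nat_lit 4) (nat_lit 8) (nat_lit 5) (nat_lit 8) (nat_lit 4) (nat_lit 375) (nat_lit 346) (nat_lit 299)))) (XT.nd (nat_lit 78) (nat_lit 152) (nat_lit 0) (XT.lf (nat_lit 0) (nat_lit 87132738382) (nat_lit 76) (nat_lit 36587043700) (nat_lit 76) (nat_lit 20612072756) (nat_lit 7) (nat_lit 4) (nat_lit 8) (nat_lit 5) (nat_lit 8) (nat_lit 4) (nat_lit 376) (nat_lit 346) (nat_lit 298)) (XT.nd (nat_lit 78) (nat_lit 76) (nat_lit 0) (XT.lf (nat_lit 0) (nat_lit 6169978554) (nat_lit 152) (nat_lit 2712063106)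 (nat_lit 76) (nat_lit 152766163760) (nat_lit 6) (nat_lit 5) (nat_lit 8) (nat_lit 5) (nat_lit 7) (nat_lit 4) (nat_lit 377) (nat_lit 346) (nat_lit 297)) (XT.lf (nat_lit 0) (nat_lit 38655059278) (nat_lit 152) (nat_lit 117430679306) (nat_lit 0) (nat_lit 24759641055) (nat_lit 5) (nat_lit 5) (nat_lit 7) (nat_lit 4) (nat_lit 5) (nat_lit 4) (nat_lit 378) (nat_lit 346) (nat_lit 296))))) (XT.nd (nat_lit 234) (nat_lit 152) (nat_lit 0) (XT.nd (nat_lit 78) (nat_lit 76) (nat_lit 0) (XT.lf (nat_lit 0) (nat_lit 76575536813) (nat_lit 152) (nat_lit 63583754276) (nat_lit 0) (nat_lit 62678444518) (nat_lit 5) (nat_lit 5) (nat_lit 7) (nat_lit 4) (nat_lit 5) (nat_lit 4) (nat_lit 379) (nat_lit 346) (nat_lit 295)) (XT.nd (nat_lit 78) (nat_lit 76) (nat_lit 0) (XT.lf (nat_lit 0) (nat_lit 120176401279) (nat_lit 152) (nat_lit 1675843843) (nat_lit 0) (nat_lit 106277853270) (nat_lit 5) (nat_lit 5) (nat_lit 7) (nat_lit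 4) (nat_lit 5) (nat_lit 4) (nat_lit 380) (nat_lit 346) (nat_lit 294)) (XT.lf (nat_lit 0) (nat_lit 76296758786) (nat_lit 76) (nat_lit 97173240358) (nat_lit 76) (nat_lit 83273426511) (nat_lit 4) (nat_lit 4) (nat_lit 5) (nat_lit 5) (nat_lit 5) (nat_lit 4) (nat_lit 381) (nat_lit 346) (nat_lit 293)))) (XT.nd (nat_lit 78) (nat_lit 152) (nat_lit 0) (XT.lf (nat_lit 0) (nat_lit 166140268891) (nat_lit 76) (nat_lit 68698606235) (nat_lit 76) (nat_lit 54797691658) (nat_lit 4) (nat_lit 4) (nat_lit 5) (nat_lit 5) (nat_lit 5) (nat_lit 4) (nat_lit 382) (nat_lit 346) (nat_lit 292)) (XT.nd (nat_lit 78) (nat_lit 152) (nat_lit 0) (XT.lf (nat_lit 0) (nat_lit 269448718629) (nat_lit 76) (nat_lit 35958831273) (nat_lit 76) (nat_lit 22056959541) (nat_lit 4) (nat_lit 4) (nat_lit 5) (nat_lit 5) (nat_lit 5) (nat_lit 4) (nat_lit 383) (nat_lit 346) (nat_lit 291)) (XT.lf (nat_lit 0) (nat_lit 15093984499) (nat_lit 152)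 (nat_lit 352638000140) (nat_lit 0) (nat_lit 3004676637) (nat_lit 2) (nat_lit 5) (nat_lit 4) (nat_lit 4) (nat_lit 2) (nat_lit 4) (nat_lit 384) (nat_lit 346) (nat_lit 290))))))))
noncomputable def xc60 : XT := (XT.nd (nat_lit 1716) (nat_lit 0) (nat_lit 0) (XT.nd (nat_lit 858) (nat_lit 0) (nat_lit 0) (XT.nd (nat_lit 390) (nat_lit 76) (nat_lit 0) (XT.nd (nat_lit 156) (nat_lit 0) (nat_lit 0) (XT.nd (nat_lit 78) (nat_lit 0) (nat_lit 0) (XT.lf (nat_lit 0) (nat_lit 60443718488) (nat_lit 152) (nat_lit 310811932584) (nat_lit 0) (nat_lit 48353781280) (nat_lit 2) (nat_lit 5) (nat_lit 4) (nat_lit 4) (nat_lit 2) (nat_lit 4) (nat_lit 385) (nat_lit 346) (nat_lit 289)) (XT.lf (nat_lit 0) (nat_lit 112591547665) (nat_lit 152) (nat_lit 262721163228) (nat_lit 0) (nat_lit 100501063201) (nat_lit 2) (nat_lit 5) (nat_lit 4) (nat_lit 4) (nat_lit 2) (nat_lit 4) (nat_lit 386) (nat_lit 346) (nat_lit 288))) (XT.nd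 (nat_lit 78) (nat_lit 0) (nat_lit 0) (XT.lf (nat_lit 0) (nat_lit 172557755647) (nat_lit 152) (nat_lit 207424785713) (nat_lit 0) (nat_lit 160466795307) (nat_lit 2) (nat_lit 5) (nat_lit 4) (nat_lit 4) (nat_lit 2) (nat_lit 4) (nat_lit 387) (nat_lit 346) (nat_lit 287)) (XT.nd (nat_lit 78) (nat_lit 0) (nat_lit 0) (XT.lf (nat_lit 0) (nat_lit 241515594328) (nat_lit 152) (nat_lit 143840914393) (nat_lit 0) (nat_lit 229424220183) (nat_lit 2) (nat_lit 5) (nat_lit 4) (nat_lit 4) (nat_lit 2) (nat_lit 4) (nat_lit 388) (nat_lit 346) (nat_lit 286)) (XT.lf (nat_lit 0) (nat_lit 320814238813) (nat_lit 152) (nat_lit 70725517002) (nat_lit 0) (nat_lit 308722504838) (nat_lit 2) (nat_lit 5) (nat_lit 4) (nat_lit 4) (nat_lit 2) (nat_lit 4) (nat_lit 389) (nat_lit 346) (nat_lit 285))))) (XT.nd (nat_lit 234) (nat_lit 0) (nat_lit 0) (XT.nd (nat_lit 78) (nat_lit 0) (nat_lit 0) (XT.lf (nat_lit 0) (nat_lit 14656772328)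 (nat_lit 76) (nat_lit 397955317679) (nat_lit 76) (nat_lit 385863270807) (nat_lit 1) (nat_lit 4) (nat_lit 2) (nat_lit 5) (nat_lit 2) (nat_lit 4) (nat_lit 390) (nat_lit 346) (nat_lit 284)) (XT.nd (nat_lit 78) (nat_lit 0) (nat_lit 0) (XT.lf (nat_lit 0) (nat_lit 120789963151) (nat_lit 76) (nat_lit 401084293160) (nat_lit 76) (nat_lit 388991974206) (nat_lit 1) (nat_lit 4) (nat_lit 2) (nat_lit 5) (nat_lit 2) (nat_lit 4) (nat_lit 391) (nat_lit 346) (nat_lit 283)) (XT.lf (nat_lit 0) (nat_lit 242838762527) (nat_lit 76) (nat_lit 404684917008) (nat_lit 76) (nat_lit 392592361459) (nat_lit 1) (nat_lit 4) (nat_lit 2) (nat_lit 5) (nat_lit 2) (nat_lit 4) (nat_lit 392) (nat_lit 346) (nat_lit 282)))) (XT.nd (nat_lit 78) (nat_lit 0) (nat_lit 0) (XT.lf (nat_lit 0) (nat_lit 383191081749) (nat_lit 76) (nat_lit 408827636211) (nat_lit 76) (nat_lit 396734874928) (nat_lit 1) (nat_lit 4) (nat_lit 2) (nat_lit 5)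 (nat_lit 2) (nat_lit 4) (nat_lit 393) (nat_lit 346) (nat_lit 281)) (XT.nd (nat_lit 78) (nat_lit 0) (nat_lit 0) (XT.lf (nat_lit 0) (nat_lit 544592944454) (nat_lit 76) (nat_lit 413593503970) (nat_lit 76) (nat_lit 401500563788) (nat_lit 1) (nat_lit 4) (nat_lit 2) (nat_lit 5) (nat_lit 2) (nat_lit 4) (nat_lit 394) (nat_lit 346) (nat_lit 280)) (XT.lf (nat_lit 0) (nat_lit 730202213173) (nat_lit 76) (nat_lit 419075765525) (nat_lit 76) (nat_lit 406982669778) (nat_lit 1) (nat_lit 4) (nat_lit 2) (nat_lit 5) (nat_lit 2) (nat_lit 4) (nat_lit 395) (nat_lit 346) (nat_lit 279)))))) (XT.nd (nat_lit 390) (nat_lit 0) (nat_lit 0) (XT.nd (nat_lit 156) (nat_lit 0) (nat_lit 0) (XT.nd (nat_lit 78) (nat_lit 0) (nat_lit 0) (XT.lf (nat_lit 0) (nat_lit 943650373598) (nat_lit 76) (nat_lit 425381682514) (nat_lit 76) (nat_lit 413288451493) (nat_lit 1) (nat_lit 4) (nat_lit 2) (nat_lit 5) (nat_lit 2) (nat_lit 4) (nat_lit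 396) (nat_lit 346) (nat_lit 278)) (XT.lf (nat_lit 0) (nat_lit 1189113585389) (nat_lit 76) (nat_lit 432634631574) (nat_lit 76) (nat_lit 420541282924) (nat_lit 1) (nat_lit 4) (nat_lit 2) (nat_lit 5) (nat_lit 2) (nat_lit 4) (nat_lit 397) (nat_lit 346) (nat_lit 277))) (XT.nd (nat_lit 78) (nat_lit 0) (nat_lit 0) (XT.lf (nat_lit 0) (nat_lit 1471394389648) (nat_lit 76) (nat_lit 440976518230) (nat_lit 76) (nat_lit 428883067294) (nat_lit 1) (nat_lit 4) (nat_lit 2) (nat_lit 5) (nat_lit 2) (nat_lit 4) (nat_lit 398) (nat_lit 346) (nat_lit 276)) (XT.nd (nat_lit 78) (nat_lit 0) (nat_lit 0) (XT.lf (nat_lit 0) (nat_lit 1796015671674) (nat_lit 76) (nat_lit 450570553308) (nat_lit 76) (nat_lit 438477013428) (nat_lit 1) (nat_lit 4) (nat_lit 2) (nat_lit 5) (nat_lit 2) (nat_lit 4) (nat_lit 399) (nat_lit 346) (nat_lit 275)) (XT.lf (nat_lit 0) (nat_lit 2169328717420) (nat_lit 76) (nat_lit 461604446191) (nat_lit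 76) (nat_lit 449510828967) (nat_lit 1) (nat_lit 4) (nat_lit 2) (nat_lit 5) (nat_lit 2) (nat_lit 4) (nat_lit 400) (nat_lit 346) (nat_lit 274))))) (XT.nd (nat_lit 234) (nat_lit 0) (nat_lit 0) (XT.nd (nat_lit 78) (nat_lit 0) (nat_lit 0) (XT.lf (nat_lit 0) (nat_lit 2598637477782) (nat_lit 76) (nat_lit 474294077390) (nat_lit 76) (nat_lit 462200392912) (nat_lit 1) (nat_lit 4) (nat_lit 2) (nat_lit 5) (nat_lit 2) (nat_lit 4) (nat_lit 401) (nat_lit 346) (nat_lit 273)) (XT.nd (nat_lit 78) (nat_lit 0) (nat_lit 0) (XT.lf (nat_lit 0) (nat_lit 3092341471984) (nat_lit 76) (nat_lit 488887722300) (nat_lit 76) (nat_lit 476793979339) (nat_lit 1) (nat_lit 4) (nat_lit 2) (nat_lit 5) (nat_lit 2) (nat_lit 4) (nat_lit 402) (nat_lit 346) (nat_lit 272)) (XT.lf (nat_lit 0) (nat_lit 3660100125999) (nat_lit 76) (nat_lit 505670908754) (nat_lit 76) (nat_lit 493577114939) (nat_lit 1) (nat_lit 4) (nat_lit 2) (nat_lit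 5) (nat_lit 2) (nat_lit 4) (nat_lit 403) (nat_lit 346) (nat_lit 271)))) (XT.nd (nat_lit 78) (nat_lit 0) (nat_lit 0) (XT.lf (nat_lit 0) (nat_lit 4313021761319) (nat_lit 76) (nat_lit 524972003445) (nat_lit 76) (nat_lit 512878165409) (nat_lit 1) (nat_lit 4) (nat_lit 2) (nat_lit 5) (nat_lit 2) (nat_lit 4) (nat_lit 404) (nat_lit 346) (nat_lit 270)) (XT.nd (nat_lit 78) (nat_lit 0) (nat_lit 0) (XT.lf (nat_lit 0) (nat_lit 5063880931679) (nat_lit 76) (nat_lit 547168636487) (nat_lit 76) (nat_lit 535074759997) (nat_lit 1) (nat_lit 4) (nat_lit 2) (nat_lit 5) (nat_lit 2) (nat_lit 4) (nat_lit 405) (nat_lit 346) (nat_lit 269)) (XT.lf (nat_lit 0) (nat_lit 5927368359976) (nat_lit 76) (nat_lit 572695089829) (nat_lit 76) (nat_lit 560601179902) (nat_lit 1) (nat_lit 4) (nat_lit 2) (nat_lit 5) (nat_lit 2) (nat_lit 4) (nat_lit 406) (nat_lit 346) (nat_lit 268))))))) (XT.nd (nat_lit 858) (nat_lit 0) (nat_lit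 0) (XT.nd (nat_lit 390) (nat_lit 0) (nat_lit 0) (XT.nd (nat_lit 156) (nat_lit 0) (nat_lit 0) (XT.nd (nat_lit 78) (nat_lit 0) (nat_lit 0) (XT.lf (nat_lit 0) (nat_lit 6920378365461) (nat_lit 76) (nat_lit 602050794082) (nat_lit 76) (nat_lit 589956855079) (nat_lit 1) (nat_lit 4) (nat_lit 2) (nat_lit 5) (nat_lit 2) (nat_lit 4) (nat_lit 407) (nat_lit 346) (nat_lit 267)) (XT.lf (nat_lit 0) (nat_lit 8062339404761) (nat_lit 76) (nat_lit 635810099980) (nat_lit 76) (nat_lit 623716135693) (nat_lit 1) (nat_lit 4) (nat_lit 2) (nat_lit 5) (nat_lit 2) (nat_lit 4) (nat_lit 408) (nat_lit 346) (nat_lit 266))) (XT.nd (nat_lit 78) (nat_lit 0) (nat_lit 0) (XT.lf (nat_lit 0) (nat_lit 9375594193864) (nat_lit 76) (nat_lit 674633515681) (nat_lit 76) (nat_lit 662539529409) (nat_lit 1) (nat_lit 4) (nat_lit 2) (nat_lit 5) (nat_lit 2) (nat_lit 4) (nat_lit 409) (nat_lit 346) (nat_lit 265)) (XT.nd (nat_lit 78) (nat_lit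 0) (nat_lit 0) (XT.lf (nat_lit 0) (nat_lit 10885836848209) (nat_lit 76) (nat_lit 719280629755) (nat_lit 76) (nat_lit 707186624365) (nat_lit 1) (nat_lit 4) (nat_lit 2) (nat_lit 5) (nat_lit 2) (nat_lit 4) (nat_lit 410) (nat_lit 346) (nat_lit 264)) (XT.lf (nat_lit 0) (nat_lit 12622615593641) (nat_lit 76) (nat_lit 770624972694) (nat_lit 76) (nat_lit 758530950680) (nat_lit 1) (nat_lit 4) (nat_lit 2) (nat_lit 5) (nat_lit 2) (nat_lit 4) (nat_lit 411) (nat_lit 346) (nat_lit 263))))) (XT.nd (nat_lit 234) (nat_lit 0) (nat_lit 0) (XT.nd (nat_lit 78) (nat_lit 0) (nat_lit 0) (XT.lf (nat_lit 0) (nat_lit 14619910883875) (nat_lit 76) (nat_lit 829671107730) (nat_lit 76) (nat_lit 817577071259) (nat_lit 1) (nat_lit 4) (nat_lit 2) (nat_lit 5) (nat_lit 2) (nat_lit 4) (nat_lit 412) (nat_lit 346) (nat_lit 262)) (XT.nd (nat_lit 78) (nat_lit 0) (nat_lit 0) (XT.lf (nat_lit 0) (nat_lit 16916800235459) (nat_lit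 76) (nat_lit 897574285330) (nat_lit 76) (nat_lit 885480236288) (nat_lit 1) (nat_lit 4) (nat_lit 2) (nat_lit 5) (nat_lit 2) (nat_lit 4) (nat_lit 413) (nat_lit 346) (nat_lit 261)) (XT.lf (nat_lit 0) (nat_lit 19558222787882) (nat_lit 76) (nat_lit 975663045925) (nat_lit 76) (nat_lit 963568985953) (nat_lit 1) (nat_lit 4) (nat_lit 2) (nat_lit 5) (nat_lit 2) (nat_lit 4) (nat_lit 414) (nat_lit 346) (nat_lit 260)))) (XT.nd (nat_lit 78) (nat_lit 0) (nat_lit 0) (XT.lf (nat_lit 0) (nat_lit 22595858547603) (nat_lit 76) (nat_lit 1065465213094) (nat_lit 76) (nat_lit 1053371143617) (nat_lit 1) (nat_lit 4) (nat_lit 2) (nat_lit 5) (nat_lit 2) (nat_lit 4) (nat_lit 415) (nat_lit 346) (nat_lit 259)) (XT.nd (nat_lit 78) (nat_lit 0) (nat_lit 0) (XT.lf (nat_lit 0) (nat_lit 26089139518616) (nat_lit 76) (nat_lit 1168737785758) (nat_lit 76) (nat_lit 1156643708015) (nat_lit 1) (nat_lit 4) (nat_lit 2) (nat_lit 5)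 (nat_lit 2) (nat_lit 4) (nat_lit 416) (nat_lit 346) (nat_lit 258)) (XT.lf (nat_lit 0) (nat_lit 30106412502529) (nat_lit 76) (nat_lit 1287501314252) (nat_lit 76) (nat_lit 1275407229322) (nat_lit 1) (nat_lit 4) (nat_lit 2) (nat_lit 5) (nat_lit 2) (nat_lit 4) (nat_lit 417) (nat_lit 346) (nat_lit 257)))))) (XT.nd (nat_lit 468) (nat_lit 0) (nat_lit 0) (XT.nd (nat_lit 234) (nat_lit 0) (nat_lit 0) (XT.nd (nat_lit 78) (nat_lit 0) (nat_lit 0) (XT.lf (nat_lit 0) (nat_lit 34726276318593) (nat_lit 76) (nat_lit 1424079432829) (nat_lit 76) (nat_lit 1411985341650) (nat_lit 1) (nat_lit 4) (nat_lit 2) (nat_lit 5) (nat_lit 2) (nat_lit 4) (nat_lit 418) (nat_lit 346) (nat_lit 256)) (XT.nd (nat_lit 78) (nat_lit 0) (nat_lit 0) (XT.lf (nat_lit 0) (nat_lit 40039119606686) (nat_lit 76) (nat_lit 1581144322071) (nat_lit 76) (nat_lit 1569050225457) (nat_lit 1) (nat_lit 4) (nat_lit 2) (nat_lit 5) (nat_lit 2) (nat_lit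 4) (nat_lit 419) (nat_lit 346) (nat_lit 255)) (XT.lf (nat_lit 0) (nat_lit 46148889300706) (nat_lit 76) (nat_lit 1761768990679) (nat_lit 76) (nat_lit 1749674889340) (nat_lit 1) (nat_lit 4) (nat_lit 2) (nat_lit 5) (nat_lit 2) (nat_lit 4) (nat_lit 420) (nat_lit 346) (nat_lit 254)))) (XT.nd (nat_lit 78) (nat_lit 0) (nat_lit 0) (XT.lf (nat_lit 0) (nat_lit 53175124372927) (nat_lit 76) (nat_lit 1969487399562) (nat_lit 76) (nat_lit 1957393294113) (nat_lit 1) (nat_lit 4) (nat_lit 2) (nat_lit 5) (nat_lit 2) (nat_lit 4) (nat_lit 421) (nat_lit 346) (nat_lit 253)) (XT.nd (nat_lit 78) (nat_lit 0) (nat_lit 0) (XT.lf (nat_lit 0) (nat_lit 61255294639981) (nat_lit 76) (nat_lit 2208363604545) (nat_lit 76) (nat_lit 2196269495523) (nat_lit 1) (nat_lit 4) (nat_lit 2) (nat_lit 5) (nat_lit 2) (nat_lit 4) (nat_lit 422) (nat_lit 346) (nat_lit 252)) (XT.lf (nat_lit 0) (nat_lit 70547490389699) (nat_lit 76) (nat_lit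 2483071270509) (nat_lit 76) (nat_lit 2470977158380) (nat_lit 1) (nat_lit 4) (nat_lit 2) (nat_lit 5) (nat_lit 2) (nat_lit 4) (nat_lit 423) (nat_lit 346) (nat_lit 251))))) (XT.nd (nat_lit 234) (nat_lit 0) (nat_lit 0) (XT.nd (nat_lit 78) (nat_lit 0) (nat_lit 0) (XT.lf (nat_lit 0) (nat_lit 81233515451969) (nat_lit 76) (nat_lit 2798985112657) (nat_lit 76) (nat_lit 2786890997826) (nat_lit 1) (nat_lit 4) (nat_lit 2) (nat_lit 5) (nat_lit 2) (nat_lit 4) (nat_lit 424) (nat_lit 346) (nat_lit 250)) (XT.nd (nat_lit 78) (nat_lit 0) (nat_lit 0) (XT.lf (nat_lit 0) (nat_lit 93522444230183) (nat_lit 76) (nat_lit 3162286053987) (nat_lit 76) (nat_lit 3150191936806) (nat_lit 1) (nat_lit 4) (nat_lit 2) (nat_lit 5) (nat_lit 2) (nat_lit 4) (nat_lit 425) (nat_lit 346) (nat_lit 249)) (XT.lf (nat_lit 0) (nat_lit 107654712287392) (nat_lit 76) (nat_lit 3580082156396) (nat_lit 76) (nat_lit 3567988037172) (nat_lit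 1) (nat_lit 4) (nat_lit 2) (nat_lit 5) (nat_lit 2) (nat_lit 4) (nat_lit 426) (nat_lit 346) (nat_lit 248)))) (XT.nd (nat_lit 78) (nat_lit 0) (nat_lit 0) (XT.lf (nat_lit 0) (nat_lit 123906820520368) (nat_lit 76) (nat_lit 4060547691451) (nat_lit 76) (nat_lit 4048453570451) (nat_lit 1) (nat_lit 4) (nat_lit 2) (nat_lit 5) (nat_lit 2) (nat_lit 4) (nat_lit 427) (nat_lit 346) (nat_lit 247)) (XT.nd (nat_lit 78) (nat_lit 0) (nat_lit 0) (XT.lf (nat_lit 0) (nat_lit 142596744959756) (nat_lit 76) (nat_lit 4613083071796) (nat_lit 76) (nat_lit 4600988949251) (nat_lit 1) (nat_lit 4) (nat_lit 2) (nat_lit 5) (nat_lit 2) (nat_lit 4) (nat_lit 428) (nat_lit 346) (nat_lit 246)) (XT.lf (nat_lit 0) (nat_lit 164090158040240) (nat_lit 76) (nat_lit 5248498772264) (nat_lit 76) (nat_lit 5236404648375) (nat_lit 1) (nat_lit 4) (nat_lit 2) (nat_lit 5) (nat_lit 2) (nat_lit 4) (nat_lit 429) (nat_lit 346) (nat_lit 245))))))))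
noncomputable def xc61 : XT := (XT.nd (nat_lit 48282) (nat_lit 0) (nat_lit 76) (XT.nd (nat_lit 47346) (nat_lit 0) (nat_lit 988) (XT.nd (nat_lit 46878) (nat_lit 0) (nat_lit 1824) (XT.nd (nat_lit 46644) (nat_lit 0) (nat_lit 2128) (XT.nd (nat_lit 78) (nat_lit 0) (nat_lit 0) (XT.lf (nat_lit 0) (nat_lit 188807583061221) (nat_lit 76) (nat_lit 5979226839167) (nat_lit 76) (nat_lit 5967132714110) (nat_lit 1) (nat_lit 4) (nat_lit 2) (nat_lit 5) (nat_lit 2) (nat_lit 4) (nat_lit 430) (nat_lit 346) (nat_lit 244)) (XT.lf (nat_lit 0) (nat_lit 217232621816586) (nat_lit 76) (nat_lit 6819564125988) (nat_lit 76) (nat_lit 6807469999916) (nat_lit 1) (nat_lit 4) (nat_lit 2) (nat_lit 5) (nat_lit 2) (nat_lit 4) (nat_lit 431) (nat_lit 346) (nat_lit 243))) (XT.nd (nat_lit 78) (nat_lit 0) (nat_lit 0) (XT.lf (nat_lit 0) (nat_lit 143999248) (nat_lit 380) (nat_lit 2720835652) (nat_lit 380) (nat_lit 2720835652) (nat_lit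 29) (nat_lit 3) (nat_lit 34) (nat_lit 3) (nat_lit 34) (nat_lit 5) (nat_lit 347) (nat_lit 347) (nat_lit 326)) (XT.nd (nat_lit 78) (nat_lit 0) (nat_lit 76) (XT.lf (nat_lit 76) (nat_lit 32250199) (nat_lit 0) (nat_lit 796806961) (nat_lit 380) (nat_lit 11101600776) (nat_lit 30) (nat_lit 5) (nat_lit 29) (nat_lit 3) (nat_lit 34) (nat_lit 5) (nat_lit 348) (nat_lit 347) (nat_lit 325)) (XT.lf (nat_lit 0) (nat_lit 1858013856) (nat_lit 304) (nat_lit 6111930525) (nat_lit 380) (nat_lit 4773026514) (nat_lit 30) (nat_lit 5) (nat_lit 34) (nat_lit 5) (nat_lit 35) (nat_lit 5) (nat_lit 349) (nat_lit 347) (nat_lit 324))))) (XT.nd (nat_lit 234) (nat_lit 152) (nat_lit 0) (XT.nd (nat_lit 78) (nat_lit 228) (nat_lit 0) (XT.lf (nat_lit 76) (nat_lit 483148252) (nat_lit 0) (nat_lit 2535105386) (nat_lit 380) (nat_lit 10662431434) (nat_lit 31) (nat_lit 5) (nat_lit 30) (nat_lit 5) (nat_lit 35) (nat_lit 5) (nat_lit 350)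 (nat_lit 347) (nat_lit 323)) (XT.nd (nat_lit 78) (nat_lit 304) (nat_lit 0) (XT.lf (nat_lit 0) (nat_lit 4768543938) (nat_lit 304) (nat_lit 6198806623) (nat_lit 76) (nat_lit 3729386424) (nat_lit 31) (nat_lit 5) (nat_lit 35) (nat_lit 5) (nat_lit 32) (nat_lit 5) (nat_lit 351) (nat_lit 347) (nat_lit 322)) (XT.lf (nat_lit 0) (nat_lit 1828286979) (nat_lit 304) (nat_lit 5086459086) (nat_lit 380) (nat_lit 8930517369) (nat_lit 27) (nat_lit 5) (nat_lit 31) (nat_lit 5) (nat_lit 32) (nat_lit 5) (nat_lit 352) (nat_lit 347) (nat_lit 321)))) (XT.nd (nat_lit 78) (nat_lit 152) (nat_lit 0) (XT.lf (nat_lit 0) (nat_lit 9734283402) (nat_lit 380) (nat_lit 5515347631) (nat_lit 76) (nat_lit 1863789688) (nat_lit 27) (nat_lit 5) (nat_lit 32) (nat_lit 5) (nat_lit 28) (nat_lit 5) (nat_lit 353) (nat_lit 347) (nat_lit 320)) (XT.nd (nat_lit 78) (nat_lit 0) (nat_lit 0) (XT.lf (nat_lit 0) (nat_lit 4346116184) (nat_lit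 152) (nat_lit 9002831245) (nat_lit 228) (nat_lit 5167079195) (nat_lit 25) (nat_lit 5) (nat_lit 27) (nat_lit 5) (nat_lit 28) (nat_lit 5) (nat_lit 354) (nat_lit 347) (nat_lit 319)) (XT.lf (nat_lit 0) (nat_lit 16249263775) (nat_lit 152) (nat_lit 1499012766) (nat_lit 228) (nat_lit 2344424386) (nat_lit 25) (nat_lit 5) (nat_lit 27) (nat_lit 5) (nat_lit 28) (nat_lit 5) (nat_lit 355) (nat_lit 347) (nat_lit 318)))))) (XT.nd (nat_lit 468) (nat_lit 304) (nat_lit 0) (XT.nd (nat_lit 234) (nat_lit 228) (nat_lit 0) (XT.nd (nat_lit 78) (nat_lit 152) (nat_lit 0) (XT.lf (nat_lit 0) (nat_lit 1454217433) (nat_lit 152) (nat_lit 13449482959) (nat_lit 76) (nat_lit 6901682897) (nat_lit 23) (nat_lit 5) (nat_lit 25) (nat_lit 5) (nat_lit 24) (nat_lit 5) (nat_lit 356) (nat_lit 347) (nat_lit 317)) (XT.nd (nat_lit 78) (nat_lit 152) (nat_lit 0) (XT.lf (nat_lit 0) (nat_lit 5825467242) (nat_lit 152) (nat_lit 1177157471)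 (nat_lit 76) (nat_lit 16719203111) (nat_lit 23) (nat_lit 5) (nat_lit 25) (nat_lit 5) (nat_lit 24) (nat_lit 5) (nat_lit 357) (nat_lit 347) (nat_lit 316)) (XT.lf (nat_lit 0) (nat_lit 11517759162) (nat_lit 228) (nat_lit 11810546817) (nat_lit 76) (nat_lit 2497656931) (nat_lit 21) (nat_lit 5) (nat_lit 24) (nat_lit 5) (nat_lit 22) (nat_lit 4) (nat_lit 358) (nat_lit 347) (nat_lit 315)))) (XT.nd (nat_lit 78) (nat_lit 152) (nat_lit 0) (XT.lf (nat_lit 0) (nat_lit 3287732609) (nat_lit 76) (nat_lit 15278114042) (nat_lit 152) (nat_lit 9604602372) (nat_lit 20) (nat_lit 5) (nat_lit 21) (nat_lit 5) (nat_lit 22) (nat_lit 4) (nat_lit 359) (nat_lit 347) (nat_lit 314)) (XT.nd (nat_lit 78) (nat_lit 152) (nat_lit 0) (XT.lf (nat_lit 0) (nat_lit 21929168860) (nat_lit 76) (nat_lit 5329401903) (nat_lit 152) (nat_lit 3519944232) (nat_lit 20) (nat_lit 5) (nat_lit 21) (nat_lit 5) (nat_lit 22) (nat_lit 4) (nat_lit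 360) (nat_lit 347) (nat_lit 313)) (XT.lf (nat_lit 0) (nat_lit 3847326143) (nat_lit 152) (nat_lit 23657316930) (nat_lit 76) (nat_lit 6149639903) (nat_lit 18) (nat_lit 5) (nat_lit 20) (nat_lit 5) (nat_lit 19) (nat_lit 4) (nat_lit 361) (nat_lit 347) (nat_lit 312))))) (XT.nd (nat_lit 234) (nat_lit 152) (nat_lit 0) (XT.nd (nat_lit 78) (nat_lit 152) (nat_lit 0) (XT.lf (nat_lit 0) (nat_lit 12671445442) (nat_lit 152) (nat_lit 4716969002) (nat_lit 76) (nat_lit 19441052666) (nat_lit 18) (nat_lit 5) (nat_lit 20) (nat_lit 5) (nat_lit 19) (nat_lit 4) (nat_lit 362) (nat_lit 347) (nat_lit 311)) (XT.nd (nat_lit 78) (nat_lit 76) (nat_lit 0) (XT.lf (nat_lit 0) (nat_lit 18687909692) (nat_lit 76) (nat_lit 4882269445) (nat_lit 152) (nat_lit 16798111950) (nat_lit 17) (nat_lit 5) (nat_lit 18) (nat_lit 5) (nat_lit 19) (nat_lit 4) (nat_lit 363) (nat_lit 347) (nat_lit 310)) (XT.lf (nat_lit 0) (nat_lit 1412379306)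 (nat_lit 76) (nat_lit 35379357810) (nat_lit 76) (nat_lit 7543009587) (nat_lit 16) (nat_lit 4) (nat_lit 17) (nat_lit 5) (nat_lit 17) (nat_lit 4) (nat_lit 364) (nat_lit 347) (nat_lit 309)))) (XT.nd (nat_lit 78) (nat_lit 76) (nat_lit 0) (XT.lf (nat_lit 0) (nat_lit 4222213049) (nat_lit 152) (nat_lit 18776605289) (nat_lit 76) (nat_lit 25668422598) (nat_lit 15) (nat_lit 5) (nat_lit 17) (nat_lit 5) (nat_lit 16) (nat_lit 4) (nat_lit 365) (nat_lit 347) (nat_lit 308)) (XT.nd (nat_lit 78) (nat_lit 0) (nat_lit 0) (XT.lf (nat_lit 0) (nat_lit 9436042083) (nat_lit 76) (nat_lit 7915618733) (nat_lit 152) (nat_lit 36188321203) (nat_lit 14) (nat_lit 5) (nat_lit 15) (nat_lit 5) (nat_lit 16) (nat_lit 4) (nat_lit 366) (nat_lit 347) (nat_lit 307)) (XT.lf (nat_lit 0) (nat_lit 33850614091) (nat_lit 152) (nat_lit 15479051426) (nat_lit 0) (nat_lit 9603961313) (nat_lit 14) (nat_lit 5) (nat_lit 16) (nat_lit 4) (nat_lit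 14) (nat_lit 4) (nat_lit 367) (nat_lit 347) (nat_lit 306))))))) (XT.nd (nat_lit 858) (nat_lit 304) (nat_lit 0) (XT.nd (nat_lit 390) (nat_lit 304) (nat_lit 0) (XT.nd (nat_lit 156) (nat_lit 152) (nat_lit 0) (XT.nd (nat_lit 78) (nat_lit 76) (nat_lit 0) (XT.lf (nat_lit 0) (nat_lit 18695521851) (nat_lit 76) (nat_lit 35263761781) (nat_lit 76) (nat_lit 11006808797) (nat_lit 13) (nat_lit 4) (nat_lit 14) (nat_lit 5) (nat_lit 14) (nat_lit 4) (nat_lit 368) (nat_lit 347) (nat_lit 305)) (XT.lf (nat_lit 0) (nat_lit 5551185835) (nat_lit 152) (nat_lit 12330860138) (nat_lit 76) (nat_lit 53864467724) (nat_lit 12) (nat_lit 5) (nat_lit 14) (nat_lit 5) (nat_lit 13) (nat_lit 4) (nat_lit 369) (nat_lit 347) (nat_lit 304))) (XT.nd (nat_lit 78) (nat_lit 76) (nat_lit 0) (XT.lf (nat_lit 0) (nat_lit 24808809139) (nat_lit 152) (nat_lit 50753904166) (nat_lit 0) (nat_lit 3701245557) (nat_lit 11) (nat_lit 5) (nat_lit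 13) (nat_lit 4) (nat_lit 11) (nat_lit 4) (nat_lit 370) (nat_lit 347) (nat_lit 303)) (XT.nd (nat_lit 78) (nat_lit 76) (nat_lit 0) (XT.lf (nat_lit 0) (nat_lit 48468084464) (nat_lit 152) (nat_lit 11859356246) (nat_lit 0) (nat_lit 27354631705) (nat_lit 11) (nat_lit 5) (nat_lit 13) (nat_lit 4) (nat_lit 11) (nat_lit 4) (nat_lit 371) (nat_lit 347) (nat_lit 302)) (XT.lf (nat_lit 0) (nat_lit 36055140307) (nat_lit 76) (nat_lit 41102095631) (nat_lit 76) (nat_lit 19983521850) (nat_lit 10) (nat_lit 4) (nat_lit 11) (nat_lit 5) (nat_lit 11) (nat_lit 4) (nat_lit 372) (nat_lit 347) (nat_lit 301))))) (XT.nd (nat_lit 234) (nat_lit 152) (nat_lit 0) (XT.nd (nat_lit 78) (nat_lit 76) (nat_lit 0) (XT.lf (nat_lit 0) (nat_lit 2579277643) (nat_lit 152) (nat_lit 15577579911) (nat_lit 76) (nat_lit 89752522256) (nat_lit 9) (nat_lit 5) (nat_lit 11) (nat_lit 5) (nat_lit 10) (nat_lit 4) (nat_lit 373) (nat_lit 347) (nat_lit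 300)) (XT.nd (nat_lit 78) (nat_lit 0) (nat_lit 0) (XT.lf (nat_lit 0) (nat_lit 28559871839) (nat_lit 152) (nat_lit 81090134236) (nat_lit 0) (nat_lit 10188655254) (nat_lit 8) (nat_lit 5) (nat_lit 10) (nat_lit 4) (nat_lit 8) (nat_lit 4) (nat_lit 374) (nat_lit 347) (nat_lit 299)) (XT.lf (nat_lit 0) (nat_lit 60144960896) (nat_lit 152) (nat_lit 31385448410) (nat_lit 0) (nat_lit 41770816349) (nat_lit 8) (nat_lit 5) (nat_lit 10) (nat_lit 4) (nat_lit 8) (nat_lit 4) (nat_lit 375) (nat_lit 347) (nat_lit 298)))) (XT.nd (nat_lit 78) (nat_lit 76) (nat_lit 0) (XT.lf (nat_lit 0) (nat_lit 28273689365) (nat_lit 76) (nat_lit 69355951492) (nat_lit 76) (nat_lit 50979260892) (nat_lit 7) (nat_lit 4) (nat_lit 8) (nat_lit 5) (nat_lit 8) (nat_lit 4) (nat_lit 376) (nat_lit 347) (nat_lit 297)) (XT.nd (nat_lit 78) (nat_lit 76) (nat_lit 0) (XT.lf (nat_lit 0) (nat_lit 100391458971) (nat_lit 76) (nat_lit 41977679306)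 (nat_lit 76) (nat_lit 23598774747) (nat_lit 7) (nat_lit 4) (nat_lit 8) (nat_lit 5) (nat_lit 8) (nat_lit 4) (nat_lit 377) (nat_lit 347) (nat_lit 296)) (XT.lf (nat_lit 0) (nat_lit 7178737423) (nat_lit 152) (nat_lit 2946544280) (nat_lit 76) (nat_lit 175757656363) (nat_lit 6) (nat_lit 5) (nat_lit 8) (nat_lit 5) (nat_lit 7) (nat_lit 4) (nat_lit 378) (nat_lit 347) (nat_lit 295)))))) (XT.nd (nat_lit 468) (nat_lit 152) (nat_lit 0) (XT.nd (nat_lit 234) (nat_lit 76) (nat_lit 0) (XT.nd (nat_lit 78) (nat_lit 0) (nat_lit 0) (XT.lf (nat_lit 0) (nat_lit 44536062724) (nat_lit 152) (nat_lit 134872427680) (nat_lit 0) (nat_lit 28551276799) (nat_lit 5) (nat_lit 5) (nat_lit 7) (nat_lit 4) (nat_lit 5) (nat_lit 4) (nat_lit 379) (nat_lit 347) (nat_lit 294)) (XT.nd (nat_lit 78) (nat_lit 0) (nat_lit 0) (XT.lf (nat_lit 0) (nat_lit 88133819121) (nat_lit 152) (nat_lit 72971010008) (nat_lit 0) (nat_lit 72147767358)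 (nat_lit 5) (nat_lit 5) (nat_lit 7) (nat_lit 4) (nat_lit 5) (nat_lit 4) (nat_lit 380) (nat_lit 347) (nat_lit 293)) (XT.lf (nat_lit 0) (nat_lit 138265428241) (nat_lit 152) (nat_lit 1796518324) (nat_lit 0) (nat_lit 122278275749) (nat_lit 5) (nat_lit 5) (nat_lit 7) (nat_lit 4) (nat_lit 5) (nat_lit 4) (nat_lit 381) (nat_lit 347) (nat_lit 292)))) (XT.nd (nat_lit 78) (nat_lit 0) (nat_lit 0) (XT.lf (nat_lit 0) (nat_lit 87866033696) (nat_lit 76) (nat_lit 111684037299) (nat_lit 76) (nat_lit 95695927651) (nat_lit 4) (nat_lit 4) (nat_lit 5) (nat_lit 5) (nat_lit 5) (nat_lit 4) (nat_lit 382) (nat_lit 347) (nat_lit 291)) (XT.nd (nat_lit 78) (nat_lit 0) (nat_lit 0) (XT.lf (nat_lit 0) (nat_lit 191169797131) (nat_lit 76) (nat_lit 78946710985) (nat_lit 76) (nat_lit 62957769028) (nat_lit 4) (nat_lit 4) (nat_lit 5) (nat_lit 5) (nat_lit 5) (nat_lit 4) (nat_lit 383) (nat_lit 347) (nat_lit 290)) (XT.lf (nat_lit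 0) (nat_lit 309960363732) (nat_lit 76) (nat_lit 41303363629) (nat_lit 76) (nat_lit 25313697925) (nat_lit 4) (nat_lit 4) (nat_lit 5) (nat_lit 5) (nat_lit 5) (nat_lit 4) (nat_lit 384) (nat_lit 347) (nat_lit 289))))) (XT.nd (nat_lit 234) (nat_lit 0) (nat_lit 0) (XT.nd (nat_lit 78) (nat_lit 0) (nat_lit 0) (XT.lf (nat_lit 0) (nat_lit 17405081074) (nat_lit 152) (nat_lit 405434549982) (nat_lit 0) (nat_lit 3500476683) (nat_lit 2) (nat_lit 5) (nat_lit 4) (nat_lit 4) (nat_lit 2) (nat_lit 4) (nat_lit 385) (nat_lit 347) (nat_lit 288)) (XT.nd (nat_lit 78) (nat_lit 0) (nat_lit 0) (XT.lf (nat_lit 0) (nat_lit 69551144869) (nat_lit 152) (nat_lit 357347504925) (nat_lit 0) (nat_lit 55646064602) (nat_lit 2) (nat_lit 5) (nat_lit 4) (nat_lit 4) (nat_lit 2) (nat_lit 4) (nat_lit 386) (nat_lit 347) (nat_lit 287)) (XT.lf (nat_lit 0) (nat_lit 129515817736) (nat_lit 152) (nat_lit 302054365932) (nat_lit 0) (nat_lit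 115610323664) (nat_lit 2) (nat_lit 5) (nat_lit 4) (nat_lit 4) (nat_lit 2) (nat_lit 4) (nat_lit 387) (nat_lit 347) (nat_lit 286)))) (XT.nd (nat_lit 78) (nat_lit 0) (nat_lit 0) (XT.lf (nat_lit 0) (nat_lit 198472321534) (nat_lit 152) (nat_lit 238473310718) (nat_lit 0) (nat_lit 184566467632) (nat_lit 2) (nat_lit 5) (nat_lit 4) (nat_lit 4) (nat_lit 2) (nat_lit 4) (nat_lit 388) (nat_lit 347) (nat_lit 285)) (XT.nd (nat_lit 78) (nat_lit 0) (nat_lit 0) (XT.lf (nat_lit 0) (nat_lit 277769805251) (nat_lit 152) (nat_lit 165360362115) (nat_lit 0) (nat_lit 263863638453) (nat_lit 2) (nat_lit 5) (nat_lit 4) (nat_lit 4) (nat_lit 2) (nat_lit 4) (nat_lit 389) (nat_lit 347) (nat_lit 284)) (XT.lf (nat_lit 0) (nat_lit 368959741395) (nat_lit 152) (nat_lit 81285049391) (nat_lit 0) (nat_lit 355053302514) (nat_lit 2) (nat_lit 5) (nat_lit 4) (nat_lit 4) (nat_lit 2) (nat_lit 4) (nat_lit 390) (nat_lit 347) (nat_lit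 283))))))))
noncomputable def xc62 : XT := (XT.nd (nat_lit 1794) (nat_lit 0) (nat_lit 0) (XT.nd (nat_lit 858) (nat_lit 0) (nat_lit 0) (XT.nd (nat_lit 390) (nat_lit 0) (nat_lit 0) (XT.nd (nat_lit 156) (nat_lit 0) (nat_lit 0) (XT.nd (nat_lit 78) (nat_lit 0) (nat_lit 0) (XT.lf (nat_lit 0) (nat_lit 16902342650) (nat_lit 76) (nat_lit 457623828204) (nat_lit 76) (nat_lit 443717152729) (nat_lit 1) (nat_lit 4) (nat_lit 2) (nat_lit 5) (nat_lit 2) (nat_lit 4) (nat_lit 391) (nat_lit 347) (nat_lit 282)) (XT.lf (nat_lit 0) (nat_lit 138949374556) (nat_lit 76) (nat_lit 461225383112) (nat_lit 76) (nat_lit 447318501902) (nat_lit 1) (nat_lit 4) (nat_lit 2) (nat_lit 5) (nat_lit 2) (nat_lit 4) (nat_lit 392) (nat_lit 347) (nat_lit 281))) (XT.nd (nat_lit 78) (nat_lit 0) (nat_lit 0) (XT.lf (nat_lit 0) (nat_lit 279300156848) (nat_lit 76) (nat_lit 465368911931) (nat_lit 76) (nat_lit 451461851822) (nat_lit 1) (nat_lit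 4) (nat_lit 2) (nat_lit 5) (nat_lit 2) (nat_lit 4) (nat_lit 393) (nat_lit 347) (nat_lit 280)) (XT.nd (nat_lit 78) (nat_lit 0) (nat_lit 0) (XT.lf (nat_lit 0) (nat_lit 440700683092) (nat_lit 76) (nat_lit 470135483705) (nat_lit 76) (nat_lit 456228268031) (nat_lit 1) (nat_lit 4) (nat_lit 2) (nat_lit 5) (nat_lit 2) (nat_lit 4) (nat_lit 394) (nat_lit 347) (nat_lit 279)) (XT.lf (nat_lit 0) (nat_lit 626308789670) (nat_lit 76) (nat_lit 475618357446) (nat_lit 76) (nat_lit 461711006499) (nat_lit 1) (nat_lit 4) (nat_lit 2) (nat_lit 5) (nat_lit 2) (nat_lit 4) (nat_lit 395) (nat_lit 347) (nat_lit 278))))) (XT.nd (nat_lit 234) (nat_lit 0) (nat_lit 0) (XT.nd (nat_lit 78) (nat_lit 0) (nat_lit 0) (XT.lf (nat_lit 0) (nat_lit 839755939538) (nat_lit 76) (nat_lit 481924806771) (nat_lit 76) (nat_lit 468017338195) (nat_lit 1) (nat_lit 4) (nat_lit 2) (nat_lit 5) (nat_lit 2) (nat_lit 4) (nat_lit 396) (nat_lit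 347) (nat_lit 277)) (XT.nd (nat_lit 78) (nat_lit 0) (nat_lit 0) (XT.lf (nat_lit 0) (nat_lit 1085218272585) (nat_lit 76) (nat_lit 489178218732) (nat_lit 76) (nat_lit 475270647870) (nat_lit 1) (nat_lit 4) (nat_lit 2) (nat_lit 5) (nat_lit 2) (nat_lit 4) (nat_lit 397) (nat_lit 347) (nat_lit 276)) (XT.lf (nat_lit 0) (nat_lit 1367498312717) (nat_lit 76) (nat_lit 497520507911) (nat_lit 76) (nat_lit 483612848104) (nat_lit 1) (nat_lit 4) (nat_lit 2) (nat_lit 5) (nat_lit 2) (nat_lit 4) (nat_lit 398) (nat_lit 347) (nat_lit 275)))) (XT.nd (nat_lit 78) (nat_lit 0) (nat_lit 0) (XT.lf (nat_lit 0) (nat_lit 1692118930286) (nat_lit 76) (nat_lit 507114893009) (nat_lit 76) (nat_lit 493207155859) (nat_lit 1) (nat_lit 4) (nat_lit 2) (nat_lit 5) (nat_lit 2) (nat_lit 4) (nat_lit 399) (nat_lit 347) (nat_lit 274)) (XT.nd (nat_lit 78) (nat_lit 0) (nat_lit 0) (XT.lf (nat_lit 0) (nat_lit 2065431398243) (nat_lit 76)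 (nat_lit 518149090257) (nat_lit 76) (nat_lit 504241285852) (nat_lit 1) (nat_lit 4) (nat_lit 2) (nat_lit 5) (nat_lit 2) (nat_lit 4) (nat_lit 400) (nat_lit 347) (nat_lit 273)) (XT.lf (nat_lit 0) (nat_lit 2494739656180) (nat_lit 76) (nat_lit 530838986121) (nat_lit 76) (nat_lit 516931123234) (nat_lit 1) (nat_lit 4) (nat_lit 2) (nat_lit 5) (nat_lit 2) (nat_lit 4) (nat_lit 401) (nat_lit 347) (nat_lit 272)))))) (XT.nd (nat_lit 468) (nat_lit 0) (nat_lit 0) (XT.nd (nat_lit 234) (nat_lit 0) (nat_lit 0) (XT.nd (nat_lit 78) (nat_lit 0) (nat_lit 0) (XT.lf (nat_lit 0) (nat_lit 2988443213490) (nat_lit 76) (nat_lit 545432861174) (nat_lit 76) (nat_lit 531524947432) (nat_lit 1) (nat_lit 4) (nat_lit 2) (nat_lit 5) (nat_lit 2) (nat_lit 4) (nat_lit 402) (nat_lit 347) (nat_lit 271)) (XT.nd (nat_lit 78) (nat_lit 0) (nat_lit 0) (XT.lf (nat_lit 0) (nat_lit 3556201487599) (nat_lit 76) (nat_lit 562216247754) (nat_lit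 76) (nat_lit 548308289791) (nat_lit 1) (nat_lit 4) (nat_lit 2) (nat_lit 5) (nat_lit 2) (nat_lit 4) (nat_lit 403) (nat_lit 347) (nat_lit 270)) (XT.lf (nat_lit 0) (nat_lit 4209122792566) (nat_lit 76) (nat_lit 581517516466) (nat_lit 76) (nat_lit 567609520050) (nat_lit 1) (nat_lit 4) (nat_lit 2) (nat_lit 5) (nat_lit 2) (nat_lit 4) (nat_lit 404) (nat_lit 347) (nat_lit 269)))) (XT.nd (nat_lit 78) (nat_lit 0) (nat_lit 0) (XT.lf (nat_lit 0) (nat_lit 4959981675663) (nat_lit 76) (nat_lit 603714300831) (nat_lit 76) (nat_lit 589806270977) (nat_lit 1) (nat_lit 4) (nat_lit 2) (nat_lit 5) (nat_lit 2) (nat_lit 4) (nat_lit 405) (nat_lit 347) (nat_lit 268)) (XT.nd (nat_lit 78) (nat_lit 0) (nat_lit 0) (XT.lf (nat_lit 0) (nat_lit 5823468854166) (nat_lit 76) (nat_lit 629240885759) (nat_lit 76) (nat_lit 615332826829) (nat_lit 1) (nat_lit 4) (nat_lit 2) (nat_lit 5) (nat_lit 2) (nat_lit 4) (nat_lit 406) (nat_lit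 347) (nat_lit 267)) (XT.lf (nat_lit 0) (nat_lit 6816478642438) (nat_lit 76) (nat_lit 658596704433) (nat_lit 76) (nat_lit 644688620220) (nat_lit 1) (nat_lit 4) (nat_lit 2) (nat_lit 5) (nat_lit 2) (nat_lit 4) (nat_lit 407) (nat_lit 347) (nat_lit 266))))) (XT.nd (nat_lit 234) (nat_lit 0) (nat_lit 0) (XT.nd (nat_lit 78) (nat_lit 0) (nat_lit 0) (XT.lf (nat_lit 0) (nat_lit 7958439492858) (nat_lit 76) (nat_lit 692356109829) (nat_lit 76) (nat_lit 678448003629) (nat_lit 1) (nat_lit 4) (nat_lit 2) (nat_lit 5) (nat_lit 2) (nat_lit 4) (nat_lit 408) (nat_lit 347) (nat_lit 265)) (XT.nd (nat_lit 78) (nat_lit 0) (nat_lit 0) (XT.lf (nat_lit 0) (nat_lit 9271694117718) (nat_lit 76) (nat_lit 731179612050) (nat_lit 76) (nat_lit 717271486733) (nat_lit 1) (nat_lit 4) (nat_lit 2) (nat_lit 5) (nat_lit 2) (nat_lit 4) (nat_lit 409) (nat_lit 347) (nat_lit 264)) (XT.lf (nat_lit 0) (nat_lit 10781936629242) (nat_lit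 76) (nat_lit 775826801358) (nat_lit 76) (nat_lit 761918659417) (nat_lit 1) (nat_lit 4) (nat_lit 2) (nat_lit 5) (nat_lit 2) (nat_lit 4) (nat_lit 410) (nat_lit 347) (nat_lit 263)))) (XT.nd (nat_lit 78) (nat_lit 0) (nat_lit 0) (XT.lf (nat_lit 0) (nat_lit 12518715250482) (nat_lit 76) (nat_lit 827171209718) (nat_lit 76) (nat_lit 813263053321) (nat_lit 1) (nat_lit 4) (nat_lit 2) (nat_lit 5) (nat_lit 2) (nat_lit 4) (nat_lit 411) (nat_lit 347) (nat_lit 262)) (XT.nd (nat_lit 78) (nat_lit 0) (nat_lit 0) (XT.lf (nat_lit 0) (nat_lit 14516010432723) (nat_lit 76) (nat_lit 886217401642) (nat_lit 76) (nat_lit 872309232674) (nat_lit 1) (nat_lit 4) (nat_lit 2) (nat_lit 5) (nat_lit 2) (nat_lit 4) (nat_lit 412) (nat_lit 347) (nat_lit 261)) (XT.lf (nat_lit 0) (nat_lit 16812899690401) (nat_lit 76) (nat_lit 954120628710) (nat_lit 76) (nat_lit 940212448811) (nat_lit 1) (nat_lit 4) (nat_lit 2) (nat_lit 5) (nat_lit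 2) (nat_lit 4) (nat_lit 413) (nat_lit 347) (nat_lit 260))))))) (XT.nd (nat_lit 858) (nat_lit 0) (nat_lit 0) (XT.nd (nat_lit 390) (nat_lit 0) (nat_lit 0) (XT.nd (nat_lit 156) (nat_lit 0) (nat_lit 0) (XT.nd (nat_lit 78) (nat_lit 0) (nat_lit 0) (XT.lf (nat_lit 0) (nat_lit 19454322161165) (nat_lit 76) (nat_lit 1032209432321) (nat_lit 76) (nat_lit 1018301242917) (nat_lit 1) (nat_lit 4) (nat_lit 2) (nat_lit 5) (nat_lit 2) (nat_lit 4) (nat_lit 414) (nat_lit 347) (nat_lit 259)) (XT.lf (nat_lit 0) (nat_lit 22491957849878) (nat_lit 76) (nat_lit 1122011636894) (nat_lit 76) (nat_lit 1108103439225) (nat_lit 1) (nat_lit 4) (nat_lit 2) (nat_lit 5) (nat_lit 2) (nat_lit 4) (nat_lit 415) (nat_lit 347) (nat_lit 258))) (XT.nd (nat_lit 78) (nat_lit 0) (nat_lit 0) (XT.lf (nat_lit 0) (nat_lit 25985238759147) (nat_lit 76) (nat_lit 1225284242084) (nat_lit 76) (nat_lit 1211376037227) (nat_lit 1) (nat_lit 4) (nat_lit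 2) (nat_lit 5) (nat_lit 2) (nat_lit 4) (nat_lit 416) (nat_lit 347) (nat_lit 257)) (XT.nd (nat_lit 78) (nat_lit 0) (nat_lit 0) (XT.lf (nat_lit 0) (nat_lit 30002511689368) (nat_lit 76) (nat_lit 1344047798861) (nat_lit 76) (nat_lit 1330139587755) (nat_lit 1) (nat_lit 4) (nat_lit 2) (nat_lit 5) (nat_lit 2) (nat_lit 4) (nat_lit 417) (nat_lit 347) (nat_lit 256)) (XT.lf (nat_lit 0) (nat_lit 34622375458743) (nat_lit 76) (nat_lit 1480625942033) (nat_lit 76) (nat_lit 1466717725492) (nat_lit 1) (nat_lit 4) (nat_lit 2) (nat_lit 5) (nat_lit 2) (nat_lit 4) (nat_lit 418) (nat_lit 347) (nat_lit 255))))) (XT.nd (nat_lit 234) (nat_lit 0) (nat_lit 0) (XT.nd (nat_lit 78) (nat_lit 0) (nat_lit 0) (XT.lf (nat_lit 0) (nat_lit 39935218706238) (nat_lit 76) (nat_lit 1637690852661) (nat_lit 76) (nat_lit 1623782631395) (nat_lit 1) (nat_lit 4) (nat_lit 2) (nat_lit 5) (nat_lit 2) (nat_lit 4) (nat_lit 419) (nat_lit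 347) (nat_lit 254)) (XT.nd (nat_lit 78) (nat_lit 0) (nat_lit 0) (XT.lf (nat_lit 0) (nat_lit 46044988364955) (nat_lit 76) (nat_lit 1818315539866) (nat_lit 76) (nat_lit 1804407314491) (nat_lit 1) (nat_lit 4) (nat_lit 2) (nat_lit 5) (nat_lit 2) (nat_lit 4) (nat_lit 420) (nat_lit 347) (nat_lit 253)) (XT.lf (nat_lit 0) (nat_lit 53071223406478) (nat_lit 76) (nat_lit 2026033964920) (nat_lit 76) (nat_lit 2012125735971) (nat_lit 1) (nat_lit 4) (nat_lit 2) (nat_lit 5) (nat_lit 2) (nat_lit 4) (nat_lit 421) (nat_lit 347) (nat_lit 252)))) (XT.nd (nat_lit 78) (nat_lit 0) (nat_lit 0) (XT.lf (nat_lit 0) (nat_lit 61151393646837) (nat_lit 76) (nat_lit 2264910183965) (nat_lit 76) (nat_lit 2251001951909) (nat_lit 1) (nat_lit 4) (nat_lit 2) (nat_lit 5) (nat_lit 2) (nat_lit 4) (nat_lit 422) (nat_lit 347) (nat_lit 251)) (XT.nd (nat_lit 78) (nat_lit 0) (nat_lit 0) (XT.lf (nat_lit 0) (nat_lit 70443589373343)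 (nat_lit 76) (nat_lit 2539617862156) (nat_lit 76) (nat_lit 2525709627399) (nat_lit 1) (nat_lit 4) (nat_lit 2) (nat_lit 5) (nat_lit 2) (nat_lit 4) (nat_lit 423) (nat_lit 347) (nat_lit 250)) (XT.lf (nat_lit 0) (nat_lit 81129614415429) (nat_lit 76) (nat_lit 2855531714937) (nat_lit 76) (nat_lit 2841623477830) (nat_lit 1) (nat_lit 4) (nat_lit 2) (nat_lit 5) (nat_lit 2) (nat_lit 4) (nat_lit 424) (nat_lit 347) (nat_lit 249)))))) (XT.nd (nat_lit 47112) (nat_lit 0) (nat_lit 1976) (XT.nd (nat_lit 234) (nat_lit 0) (nat_lit 0) (XT.nd (nat_lit 78) (nat_lit 0) (nat_lit 0) (XT.lf (nat_lit 0) (nat_lit 93418543176090) (nat_lit 76) (nat_lit 3218832665513) (nat_lit 76) (nat_lit 3204924426363) (nat_lit 1) (nat_lit 4) (nat_lit 2) (nat_lit 5) (nat_lit 2) (nat_lit 4) (nat_lit 425) (nat_lit 347) (nat_lit 248)) (XT.nd (nat_lit 78) (nat_lit 0) (nat_lit 0) (XT.lf (nat_lit 0) (nat_lit 107550811218037) (nat_lit 76)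 (nat_lit 3636628775962) (nat_lit 76) (nat_lit 3622720535034) (nat_lit 1) (nat_lit 4) (nat_lit 2) (nat_lit 5) (nat_lit 2) (nat_lit 4) (nat_lit 426) (nat_lit 347) (nat_lit 247)) (XT.lf (nat_lit 0) (nat_lit 123802919437741) (nat_lit 76) (nat_lit 4117094318008) (nat_lit 76) (nat_lit 4103186075537) (nat_lit 1) (nat_lit 4) (nat_lit 2) (nat_lit 5) (nat_lit 2) (nat_lit 4) (nat_lit 427) (nat_lit 347) (nat_lit 246)))) (XT.nd (nat_lit 78) (nat_lit 0) (nat_lit 0) (XT.lf (nat_lit 0) (nat_lit 142492843865589) (nat_lit 76) (nat_lit 4669629704433) (nat_lit 76) (nat_lit 4655721460618) (nat_lit 1) (nat_lit 4) (nat_lit 2) (nat_lit 5) (nat_lit 2) (nat_lit 4) (nat_lit 428) (nat_lit 347) (nat_lit 245)) (XT.nd (nat_lit 78) (nat_lit 0) (nat_lit 0) (XT.lf (nat_lit 0) (nat_lit 163986256936037) (nat_lit 76) (nat_lit 5305045410186) (nat_lit 76) (nat_lit 5291137165203) (nat_lit 1) (nat_lit 4) (nat_lit 2) (nat_lit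 5) (nat_lit 2) (nat_lit 4) (nat_lit 429) (nat_lit 347) (nat_lit 244)) (XT.lf (nat_lit 0) (nat_lit 188703681948292) (nat_lit 76) (nat_lit 6035773481686) (nat_lit 76) (nat_lit 6021865235688) (nat_lit 1) (nat_lit 4) (nat_lit 2) (nat_lit 5) (nat_lit 2) (nat_lit 4) (nat_lit 430) (nat_lit 347) (nat_lit 243))))) (XT.nd (nat_lit 234) (nat_lit 152) (nat_lit 0) (XT.nd (nat_lit 78) (nat_lit 0) (nat_lit 0) (XT.lf (nat_lit 0) (nat_lit 662268116) (nat_lit 380) (nat_lit 2843081599) (nat_lit 380) (nat_lit 2843081599) (nat_lit 29) (nat_lit 3) (nat_lit 34) (nat_lit 3) (nat_lit 34) (nat_lit 5) (nat_lit 348) (nat_lit 348) (nat_lit 324)) (XT.nd (nat_lit 78) (nat_lit 0) (nat_lit 76) (XT.lf (nat_lit 76) (nat_lit 582857496) (nat_lit 0) (nat_lit 1256929541) (nat_lit 380) (nat_lit 11746488720) (nat_lit 30) (nat_lit 5) (nat_lit 29) (nat_lit 3) (nat_lit 34) (nat_lit 5) (nat_lit 349) (nat_lit 348) (nat_lit 323))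 (XT.lf (nat_lit 0) (nat_lit 2895209603) (nat_lit 304) (nat_lit 6425368609) (nat_lit 380) (nat_lit 5219172811) (nat_lit 30) (nat_lit 5) (nat_lit 34) (nat_lit 5) (nat_lit 35) (nat_lit 5) (nat_lit 350) (nat_lit 348) (nat_lit 322)))) (XT.nd (nat_lit 78) (nat_lit 228) (nat_lit 0) (XT.lf (nat_lit 76) (nat_lit 1131546918) (nat_lit 0) (nat_lit 3022852363) (nat_lit 380) (nat_lit 11475102233) (nat_lit 31) (nat_lit 5) (nat_lit 30) (nat_lit 5) (nat_lit 35) (nat_lit 5) (nat_lit 351) (nat_lit 348) (nat_lit 321)) (XT.nd (nat_lit 78) (nat_lit 304) (nat_lit 0) (XT.lf (nat_lit 0) (nat_lit 6074222947) (nat_lit 304) (nat_lit 6534137780) (nat_lit 76) (nat_lit 4203653124) (nat_lit 31) (nat_lit 5) (nat_lit 35) (nat_lit 5) (nat_lit 32) (nat_lit 5) (nat_lit 352) (nat_lit 348) (nat_lit 320)) (XT.lf (nat_lit 0) (nat_lit 2669997598) (nat_lit 304) (nat_lit 5818847059) (nat_lit 380) (nat_lit 9652089143) (nat_lit 27)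 (nat_lit 5) (nat_lit 31) (nat_lit 5) (nat_lit 32) (nat_lit 5) (nat_lit 353) (nat_lit 348) (nat_lit 319))))))))
noncomputable def xc63 : XT := (XT.nd (nat_lit 1794) (nat_lit 532) (nat_lit 0) (XT.nd (nat_lit 858) (nat_lit 684) (nat_lit 0) (XT.nd (nat_lit 390) (nat_lit 456) (nat_lit 0) (XT.nd (nat_lit 156) (nat_lit 152) (nat_lit 0) (XT.nd (nat_lit 78) (nat_lit 152) (nat_lit 0) (XT.lf (nat_lit 0) (nat_lit 11662385018) (nat_lit 380) (nat_lit 5779762444) (nat_lit 76) (nat_lit 2167582809) (nat_lit 27) (nat_lit 5) (nat_lit 32) (nat_lit 5) (nat_lit 28) (nat_lit 5) (nat_lit 354) (nat_lit 348) (nat_lit 318)) (XT.lf (nat_lit 0) (nat_lit 5535335155) (nat_lit 152) (nat_lit 10245123861) (nat_lit 228) (nat_lit 5448152970) (nat_lit 25) (nat_lit 5) (nat_lit 27) (nat_lit 5) (nat_lit 28) (nat_lit 5) (nat_lit 355) (nat_lit 348) (nat_lit 317))) (XT.nd (nat_lit 78) (nat_lit 152) (nat_lit 0) (XT.lf (nat_lit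 0) (nat_lit 19153872075) (nat_lit 152) (nat_lit 1629836792) (nat_lit 228) (nat_lit 2266533171) (nat_lit 25) (nat_lit 5) (nat_lit 27) (nat_lit 5) (nat_lit 28) (nat_lit 5) (nat_lit 356) (nat_lit 348) (nat_lit 316)) (XT.nd (nat_lit 78) (nat_lit 0) (nat_lit 0) (XT.lf (nat_lit 0) (nat_lit 2037688253) (nat_lit 152) (nat_lit 14934843450) (nat_lit 76) (nat_lit 8048566931) (nat_lit 23) (nat_lit 5) (nat_lit 25) (nat_lit 5) (nat_lit 24) (nat_lit 5) (nat_lit 357) (nat_lit 348) (nat_lit 315)) (XT.lf (nat_lit 0) (nat_lit 7016972724) (nat_lit 152) (nat_lit 891068524) (nat_lit 76) (nat_lit 19324154534) (nat_lit 23) (nat_lit 5) (nat_lit 25) (nat_lit 5) (nat_lit 24) (nat_lit 5) (nat_lit 358) (nat_lit 348) (nat_lit 314))))) (XT.nd (nat_lit 234) (nat_lit 228) (nat_lit 0) (XT.nd (nat_lit 78) (nat_lit 76) (nat_lit 0) (XT.lf (nat_lit 0) (nat_lit 13546049246) (nat_lit 228) (nat_lit 13102186732) (nat_lit 76)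 (nat_lit 3006307082) (nat_lit 21) (nat_lit 5) (nat_lit 24) (nat_lit 5) (nat_lit 22) (nat_lit 4) (nat_lit 359) (nat_lit 348) (nat_lit 313)) (XT.nd (nat_lit 78) (nat_lit 0) (nat_lit 0) (XT.lf (nat_lit 0) (nat_lit 4239019057) (nat_lit 76) (nat_lit 17392088731) (nat_lit 152) (nat_lit 10722659355) (nat_lit 20) (nat_lit 5) (nat_lit 21) (nat_lit 5) (nat_lit 22) (nat_lit 4) (nat_lit 360) (nat_lit 348) (nat_lit 312)) (XT.lf (nat_lit 0) (nat_lit 25616915108) (nat_lit 76) (nat_lit 5974253564) (nat_lit 152) (nat_lit 3767385108) (nat_lit 20) (nat_lit 5) (nat_lit 21) (nat_lit 5) (nat_lit 22) (nat_lit 4) (nat_lit 361) (nat_lit 348) (nat_lit 311)))) (XT.nd (nat_lit 78) (nat_lit 76) (nat_lit 0) (XT.lf (nat_lit 0) (nat_lit 4670245610) (nat_lit 152) (nat_lit 26772542462) (nat_lit 76) (nat_lit 7222638280) (nat_lit 18) (nat_lit 5) (nat_lit 20) (nat_lit 5) (nat_lit 19) (nat_lit 4) (nat_lit 362) (nat_lit 348)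 (nat_lit 310)) (XT.nd (nat_lit 78) (nat_lit 76) (nat_lit 0) (XT.lf (nat_lit 0) (nat_lit 14785919254) (nat_lit 152) (nat_lit 5047669129) (nat_lit 76) (nat_lit 22488125688) (nat_lit 18) (nat_lit 5) (nat_lit 20) (nat_lit 5) (nat_lit 19) (nat_lit 4) (nat_lit 363) (nat_lit 348) (nat_lit 309)) (XT.lf (nat_lit 0) (nat_lit 21850812041) (nat_lit 76) (nat_lit 5455664684) (nat_lit 152) (nat_lit 19086847153) (nat_lit 17) (nat_lit 5) (nat_lit 18) (nat_lit 5) (nat_lit 19) (nat_lit 4) (nat_lit 364) (nat_lit 348) (nat_lit 308)))))) (XT.nd (nat_lit 468) (nat_lit 304) (nat_lit 0) (XT.nd (nat_lit 234) (nat_lit 152) (nat_lit 0) (XT.nd (nat_lit 78) (nat_lit 152) (nat_lit 0) (XT.lf (nat_lit 0) (nat_lit 1990156608) (nat_lit 76) (nat_lit 40515799406) (nat_lit 76) (nat_lit 8449601107) (nat_lit 16) (nat_lit 4) (nat_lit 17) (nat_lit 5) (nat_lit 17) (nat_lit 4) (nat_lit 365) (nat_lit 348) (nat_lit 307)) (XT.nd (nat_lit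 78) (nat_lit 76) (nat_lit 0) (XT.lf (nat_lit 0) (nat_lit 5033667906) (nat_lit 152) (nat_lit 21257434322) (nat_lit 76) (nat_lit 29649443776) (nat_lit 15) (nat_lit 5) (nat_lit 17) (nat_lit 5) (nat_lit 16) (nat_lit 4) (nat_lit 366) (nat_lit 348) (nat_lit 306)) (XT.lf (nat_lit 0) (nat_lit 11171852804) (nat_lit 76) (nat_lit 8950713875) (nat_lit 152) (nat_lit 41423134664) (nat_lit 14) (nat_lit 5) (nat_lit 15) (nat_lit 5) (nat_lit 16) (nat_lit 4) (nat_lit 367) (nat_lit 348) (nat_lit 305)))) (XT.nd (nat_lit 78) (nat_lit 152) (nat_lit 0) (XT.lf (nat_lit 0) (nat_lit 39079911415) (nat_lit 152) (nat_lit 17505797718) (nat_lit 0) (nat_lit 11165158577) (nat_lit 14) (nat_lit 5) (nat_lit 16) (nat_lit 4) (nat_lit 14) (nat_lit 4) (nat_lit 368) (nat_lit 348) (nat_lit 304)) (XT.nd (nat_lit 78) (nat_lit 76) (nat_lit 0) (XT.lf (nat_lit 0) (nat_lit 21781547396) (nat_lit 76) (nat_lit 40415210839) (nat_lit 76)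 (nat_lit 12492669565) (nat_lit 13) (nat_lit 4) (nat_lit 14) (nat_lit 5) (nat_lit 14) (nat_lit 4) (nat_lit 369) (nat_lit 348) (nat_lit 303)) (XT.lf (nat_lit 0) (nat_lit 6514695725) (nat_lit 152) (nat_lit 13922718016) (nat_lit 76) (nat_lit 62051421067) (nat_lit 12) (nat_lit 5) (nat_lit 14) (nat_lit 5) (nat_lit 13) (nat_lit 4) (nat_lit 370) (nat_lit 348) (nat_lit 302))))) (XT.nd (nat_lit 234) (nat_lit 152) (nat_lit 0) (XT.nd (nat_lit 78) (nat_lit 76) (nat_lit 0) (XT.lf (nat_lit 0) (nat_lit 28659141910) (nat_lit 152) (nat_lit 58107370952) (nat_lit 0) (nat_lit 4367661039) (nat_lit 11) (nat_lit 5) (nat_lit 13) (nat_lit 4) (nat_lit 11) (nat_lit 4) (nat_lit 371) (nat_lit 348) (nat_lit 301)) (XT.nd (nat_lit 78) (nat_lit 76) (nat_lit 0) (XT.lf (nat_lit 0) (nat_lit 55850480960) (nat_lit 152) (nat_lit 13412504171) (nat_lit 0) (nat_lit 31554547025) (nat_lit 11) (nat_lit 5) (nat_lit 13) (nat_lit 4)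 (nat_lit 11) (nat_lit 4) (nat_lit 372) (nat_lit 348) (nat_lit 300)) (XT.lf (nat_lit 0) (nat_lit 41678905251) (nat_lit 76) (nat_lit 47158390374) (nat_lit 76) (nat_lit 22858584210) (nat_lit 10) (nat_lit 4) (nat_lit 11) (nat_lit 5) (nat_lit 11) (nat_lit 4) (nat_lit 373) (nat_lit 348) (nat_lit 299)))) (XT.nd (nat_lit 78) (nat_lit 76) (nat_lit 0) (XT.lf (nat_lit 0) (nat_lit 3063180727) (nat_lit 152) (nat_lit 17717334753) (nat_lit 76) (nat_lit 103300704101) (nat_lit 9) (nat_lit 5) (nat_lit 11) (nat_lit 5) (nat_lit 10) (nat_lit 4) (nat_lit 374) (nat_lit 348) (nat_lit 298)) (XT.nd (nat_lit 78) (nat_lit 0) (nat_lit 0) (XT.lf (nat_lit 0) (nat_lit 32939958886) (nat_lit 152) (nat_lit 93055853596) (nat_lit 0) (nat_lit 11804218643) (nat_lit 8) (nat_lit 5) (nat_lit 10) (nat_lit 4) (nat_lit 8) (nat_lit 4) (nat_lit 375) (nat_lit 348) (nat_lit 297)) (XT.lf (nat_lit 0) (nat_lit 69250275701) (nat_lit 152)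 (nat_lit 35921264997) (nat_lit 0) (nat_lit 48112321498) (nat_lit 8) (nat_lit 5) (nat_lit 10) (nat_lit 4) (nat_lit 8) (nat_lit 4) (nat_lit 376) (nat_lit 348) (nat_lit 296))))))) (XT.nd (nat_lit 858) (nat_lit 76) (nat_lit 0) (XT.nd (nat_lit 390) (nat_lit 228) (nat_lit 0) (XT.nd (nat_lit 156) (nat_lit 152) (nat_lit 0) (XT.nd (nat_lit 78) (nat_lit 0) (nat_lit 0) (XT.lf (nat_lit 0) (nat_lit 32678925232) (nat_lit 76) (nat_lit 79674630348) (nat_lit 76) (nat_lit 58534750962) (nat_lit 7) (nat_lit 4) (nat_lit 8) (nat_lit 5) (nat_lit 8) (nat_lit 4) (nat_lit 377) (nat_lit 348) (nat_lit 295)) (XT.lf (nat_lit 0) (nat_lit 115592945175) (nat_lit 76) (nat_lit 48200666969) (nat_lit 76) (nat_lit 27059113512) (nat_lit 7) (nat_lit 4) (nat_lit 8) (nat_lit 5) (nat_lit 8) (nat_lit 4) (nat_lit 378) (nat_lit 348) (nat_lit 294))) (XT.nd (nat_lit 78) (nat_lit 76) (nat_lit 0) (XT.lf (nat_lit 0) (nat_lit 8318506137)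 (nat_lit 152) (nat_lit 3258220976) (nat_lit 76) (nat_lit 202179201256) (nat_lit 6) (nat_lit 5) (nat_lit 8) (nat_lit 5) (nat_lit 7) (nat_lit 4) (nat_lit 379) (nat_lit 348) (nat_lit 293)) (XT.nd (nat_lit 78) (nat_lit 0) (nat_lit 0) (XT.lf (nat_lit 0) (nat_lit 51279038903) (nat_lit 152) (nat_lit 154972589736) (nat_lit 0) (nat_lit 32892712808) (nat_lit 5) (nat_lit 5) (nat_lit 7) (nat_lit 4) (nat_lit 5) (nat_lit 4) (nat_lit 380) (nat_lit 348) (nat_lit 292)) (XT.lf (nat_lit 0) (nat_lit 101408297877) (nat_lit 152) (nat_lit 83803007512) (nat_lit 0) (nat_lit 83021014626) (nat_lit 5) (nat_lit 5) (nat_lit 7) (nat_lit 4) (nat_lit 5) (nat_lit 4) (nat_lit 381) (nat_lit 348) (nat_lit 291))))) (XT.nd (nat_lit 234) (nat_lit 152) (nat_lit 0) (XT.nd (nat_lit 78) (nat_lit 76) (nat_lit 0) (XT.lf (nat_lit 0) (nat_lit 159052551945) (nat_lit 152) (nat_lit 1967166511) (nat_lit 0) (nat_lit 140664436385) (nat_lit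 5) (nat_lit 5) (nat_lit 7) (nat_lit 4) (nat_lit 5) (nat_lit 4) (nat_lit 382) (nat_lit 348) (nat_lit 290)) (XT.nd (nat_lit 78) (nat_lit 0) (nat_lit 0) (XT.lf (nat_lit 0) (nat_lit 101140276059) (nat_lit 76) (nat_lit 128387350559) (nat_lit 76) (nat_lit 109998511251) (nat_lit 4) (nat_lit 4) (nat_lit 5) (nat_lit 5) (nat_lit 5) (nat_lit 4) (nat_lit 383) (nat_lit 348) (nat_lit 289)) (XT.lf (nat_lit 0) (nat_lit 219927299143) (nat_lit 76) (nat_lit 90745854733) (nat_lit 76) (nat_lit 72356386080) (nat_lit 4) (nat_lit 4) (nat_lit 5) (nat_lit 5) (nat_lit 5) (nat_lit 4) (nat_lit 384) (nat_lit 348) (nat_lit 288)))) (XT.nd (nat_lit 78) (nat_lit 152) (nat_lit 0) (XT.lf (nat_lit 0) (nat_lit 356525750851) (nat_lit 76) (nat_lit 47461596087) (nat_lit 76) (nat_lit 29071580177) (nat_lit 4) (nat_lit 4) (nat_lit 5) (nat_lit 5) (nat_lit 5) (nat_lit 4) (nat_lit 385) (nat_lit 348) (nat_lit 287)) (XT.nd (nat_lit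 78) (nat_lit 0) (nat_lit 0) (XT.lf (nat_lit 0) (nat_lit 20051381156) (nat_lit 152) (nat_lit 466174760699) (nat_lit 0) (nat_lit 4059649168) (nat_lit 2) (nat_lit 5) (nat_lit 4) (nat_lit 4) (nat_lit 2) (nat_lit 4) (nat_lit 386) (nat_lit 348) (nat_lit 286)) (XT.lf (nat_lit 0) (nat_lit 80014719139) (nat_lit 152) (nat_lit 410884437812) (nat_lit 0) (nat_lit 64022627322) (nat_lit 2) (nat_lit 5) (nat_lit 4) (nat_lit 4) (nat_lit 2) (nat_lit 4) (nat_lit 387) (nat_lit 348) (nat_lit 285)))))) (XT.nd (nat_lit 468) (nat_lit 0) (nat_lit 0) (XT.nd (nat_lit 234) (nat_lit 76) (nat_lit 0) (XT.nd (nat_lit 78) (nat_lit 0) (nat_lit 0) (XT.lf (nat_lit 0) (nat_lit 148970062170) (nat_lit 152) (nat_lit 347305831386) (nat_lit 0) (nat_lit 132977657456) (nat_lit 2) (nat_lit 5) (nat_lit 4) (nat_lit 4) (nat_lit 2) (nat_lit 4) (nat_lit 388) (nat_lit 348) (nat_lit 284)) (XT.nd (nat_lit 78) (nat_lit 0) (nat_lit 0) (XT.lf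 (nat_lit 0) (nat_lit 228266536524) (nat_lit 152) (nat_lit 274195012164) (nat_lit 0) (nat_lit 212273859727) (nat_lit 2) (nat_lit 5) (nat_lit 4) (nat_lit 4) (nat_lit 2) (nat_lit 4) (nat_lit 389) (nat_lit 348) (nat_lit 283)) (XT.lf (nat_lit 0) (nat_lit 319455594960) (nat_lit 152) (nat_lit 190121551074) (nat_lit 0) (nat_lit 303462681569) (nat_lit 2) (nat_lit 5) (nat_lit 4) (nat_lit 4) (nat_lit 2) (nat_lit 4) (nat_lit 390) (nat_lit 348) (nat_lit 282)))) (XT.nd (nat_lit 78) (nat_lit 76) (nat_lit 0) (XT.lf (nat_lit 0) (nat_lit 424321371232) (nat_lit 152) (nat_lit 93440532575) (nat_lit 0) (nat_lit 408328252106) (nat_lit 2) (nat_lit 5) (nat_lit 4) (nat_lit 4) (nat_lit 2) (nat_lit 4) (nat_lit 391) (nat_lit 348) (nat_lit 281)) (XT.nd (nat_lit 78) (nat_lit 0) (nat_lit 0) (XT.lf (nat_lit 0) (nat_lit 19473273990) (nat_lit 76) (nat_lit 526248659806) (nat_lit 76) (nat_lit 510255361782) (nat_lit 1) (nat_lit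 4) (nat_lit 2) (nat_lit 5) (nat_lit 2) (nat_lit 4) (nat_lit 392) (nat_lit 348) (nat_lit 280)) (XT.lf (nat_lit 0) (nat_lit 159822719820) (nat_lit 76) (nat_lit 530392892641) (nat_lit 76) (nat_lit 514399439051) (nat_lit 1) (nat_lit 4) (nat_lit 2) (nat_lit 5) (nat_lit 2) (nat_lit 4) (nat_lit 393) (nat_lit 348) (nat_lit 279))))) (XT.nd (nat_lit 234) (nat_lit 0) (nat_lit 0) (XT.nd (nat_lit 78) (nat_lit 0) (nat_lit 0) (XT.lf (nat_lit 0) (nat_lit 321222083923) (nat_lit 76) (nat_lit 535160076601) (nat_lit 76) (nat_lit 519166487738) (nat_lit 1) (nat_lit 4) (nat_lit 2) (nat_lit 5) (nat_lit 2) (nat_lit 4) (nat_lit 394) (nat_lit 348) (nat_lit 278)) (XT.nd (nat_lit 78) (nat_lit 0) (nat_lit 0) (XT.lf (nat_lit 0) (nat_lit 506829179945) (nat_lit 76) (nat_lit 540643482678) (nat_lit 76) (nat_lit 524649776186) (nat_lit 1) (nat_lit 4) (nat_lit 2) (nat_lit 5) (nat_lit 2) (nat_lit 4) (nat_lit 395) (nat_lit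 348) (nat_lit 277)) (XT.lf (nat_lit 0) (nat_lit 720275451068) (nat_lit 76) (nat_lit 546950394904) (nat_lit 76) (nat_lit 530956586126) (nat_lit 1) (nat_lit 4) (nat_lit 2) (nat_lit 5) (nat_lit 2) (nat_lit 4) (nat_lit 396) (nat_lit 348) (nat_lit 276)))) (XT.nd (nat_lit 78) (nat_lit 0) (nat_lit 0) (XT.lf (nat_lit 0) (nat_lit 965737019988) (nat_lit 76) (nat_lit 554204209388) (nat_lit 76) (nat_lit 538210311666) (nat_lit 1) (nat_lit 4) (nat_lit 2) (nat_lit 5) (nat_lit 2) (nat_lit 4) (nat_lit 397) (nat_lit 348) (nat_lit 275)) (XT.nd (nat_lit 78) (nat_lit 0) (nat_lit 0) (XT.lf (nat_lit 0) (nat_lit 1248016395663) (nat_lit 76) (nat_lit 562546848587) (nat_lit 76) (nat_lit 546552873521) (nat_lit 1) (nat_lit 4) (nat_lit 2) (nat_lit 5) (nat_lit 2) (nat_lit 4) (nat_lit 398) (nat_lit 348) (nat_lit 274)) (XT.lf (nat_lit 0) (nat_lit 1572636435443) (nat_lit 76) (nat_lit 572141538050) (nat_lit 76) (nat_lit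 556147495729) (nat_lit 1) (nat_lit 4) (nat_lit 2) (nat_lit 5) (nat_lit 2) (nat_lit 4) (nat_lit 399) (nat_lit 348) (nat_lit 273))))))))
noncomputable def xc64 : XT := (XT.nd (nat_lit 1716) (nat_lit 0) (nat_lit 0) (XT.nd (nat_lit 858) (nat_lit 0) (nat_lit 0) (XT.nd (nat_lit 390) (nat_lit 0) (nat_lit 0) (XT.nd (nat_lit 156) (nat_lit 0) (nat_lit 0) (XT.nd (nat_lit 78) (nat_lit 0) (nat_lit 0) (XT.lf (nat_lit 0) (nat_lit 1945948400975) (nat_lit 76) (nat_lit 583175999962) (nat_lit 76) (nat_lit 567181899159) (nat_lit 1) (nat_lit 4) (nat_lit 2) (nat_lit 5) (nat_lit 2) (nat_lit 4) (nat_lit 400) (nat_lit 348) (nat_lit 272)) (XT.lf (nat_lit 0) (nat_lit 2375256222020) (nat_lit 76) (nat_lit 595866125970) (nat_lit 76) (nat_lit 579871974313) (nat_lit 1) (nat_lit 4) (nat_lit 2) (nat_lit 5) (nat_lit 2) (nat_lit 4) (nat_lit 401) (nat_lit 348) (nat_lit 271))) (XT.nd (nat_lit 78) (nat_lit 0) (nat_lit 0) (XT.lf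 (nat_lit 0) (nat_lit 2868959399424) (nat_lit 76) (nat_lit 610460201148) (nat_lit 76) (nat_lit 594466005270) (nat_lit 1) (nat_lit 4) (nat_lit 2) (nat_lit 5) (nat_lit 2) (nat_lit 4) (nat_lit 402) (nat_lit 348) (nat_lit 270)) (XT.nd (nat_lit 78) (nat_lit 0) (nat_lit 0) (XT.lf (nat_lit 0) (nat_lit 3436717343181) (nat_lit 76) (nat_lit 627243761749) (nat_lit 76) (nat_lit 611249527418) (nat_lit 1) (nat_lit 4) (nat_lit 2) (nat_lit 5) (nat_lit 2) (nat_lit 4) (nat_lit 403) (nat_lit 348) (nat_lit 269)) (XT.lf (nat_lit 0) (nat_lit 4089638360885) (nat_lit 76) (nat_lit 646545181785) (nat_lit 76) (nat_lit 630550914016) (nat_lit 1) (nat_lit 4) (nat_lit 2) (nat_lit 5) (nat_lit 2) (nat_lit 4) (nat_lit 404) (nat_lit 348) (nat_lit 268))))) (XT.nd (nat_lit 234) (nat_lit 0) (nat_lit 0) (XT.nd (nat_lit 78) (nat_lit 0) (nat_lit 0) (XT.lf (nat_lit 0) (nat_lit 4840496994187) (nat_lit 76) (nat_lit 668742097735)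 (nat_lit 76) (nat_lit 652747800890) (nat_lit 1) (nat_lit 4) (nat_lit 2) (nat_lit 5) (nat_lit 2) (nat_lit 4) (nat_lit 405) (nat_lit 348) (nat_lit 267)) (XT.nd (nat_lit 78) (nat_lit 0) (nat_lit 0) (XT.lf (nat_lit 0) (nat_lit 5703983955478) (nat_lit 76) (nat_lit 694268797085) (nat_lit 76) (nat_lit 678274474956) (nat_lit 1) (nat_lit 4) (nat_lit 2) (nat_lit 5) (nat_lit 2) (nat_lit 4) (nat_lit 406) (nat_lit 348) (nat_lit 266)) (XT.lf (nat_lit 0) (nat_lit 6696993554869) (nat_lit 76) (nat_lit 723624715257) (nat_lit 76) (nat_lit 707630371142) (nat_lit 1) (nat_lit 4) (nat_lit 2) (nat_lit 5) (nat_lit 2) (nat_lit 4) (nat_lit 407) (nat_lit 348) (nat_lit 265)))) (XT.nd (nat_lit 78) (nat_lit 0) (nat_lit 0) (XT.lf (nat_lit 0) (nat_lit 7838954241046) (nat_lit 76) (nat_lit 757384207172) (nat_lit 76) (nat_lit 741389843939) (nat_lit 1) (nat_lit 4) (nat_lit 2) (nat_lit 5) (nat_lit 2) (nat_lit 4) (nat_lit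 408) (nat_lit 348) (nat_lit 264)) (XT.nd (nat_lit 78) (nat_lit 0) (nat_lit 0) (XT.lf (nat_lit 0) (nat_lit 9152208723085) (nat_lit 76) (nat_lit 796207784627) (nat_lit 76) (nat_lit 780213404770) (nat_lit 1) (nat_lit 4) (nat_lit 2) (nat_lit 5) (nat_lit 2) (nat_lit 4) (nat_lit 409) (nat_lit 348) (nat_lit 263)) (XT.lf (nat_lit 0) (nat_lit 10662451110417) (nat_lit 76) (nat_lit 840855039357) (nat_lit 76) (nat_lit 824860645044) (nat_lit 1) (nat_lit 4) (nat_lit 2) (nat_lit 5) (nat_lit 2) (nat_lit 4) (nat_lit 410) (nat_lit 348) (nat_lit 262)))))) (XT.nd (nat_lit 390) (nat_lit 0) (nat_lit 0) (XT.nd (nat_lit 156) (nat_lit 0) (nat_lit 0) (XT.nd (nat_lit 78) (nat_lit 0) (nat_lit 0) (XT.lf (nat_lit 0) (nat_lit 12399229623664) (nat_lit 76) (nat_lit 892199504605) (nat_lit 76) (nat_lit 876205097722) (nat_lit 1) (nat_lit 4) (nat_lit 2) (nat_lit 5) (nat_lit 2) (nat_lit 4) (nat_lit 411) (nat_lit 348) (nat_lit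 261)) (XT.lf (nat_lit 0) (nat_lit 14396524711998) (nat_lit 76) (nat_lit 951245745996) (nat_lit 76) (nat_lit 935251328182) (nat_lit 1) (nat_lit 4) (nat_lit 2) (nat_lit 5) (nat_lit 2) (nat_lit 4) (nat_lit 412) (nat_lit 348) (nat_lit 260))) (XT.nd (nat_lit 78) (nat_lit 0) (nat_lit 0) (XT.lf (nat_lit 0) (nat_lit 16693413888018) (nat_lit 76) (nat_lit 1019149016080) (nat_lit 76) (nat_lit 1003154588760) (nat_lit 1) (nat_lit 4) (nat_lit 2) (nat_lit 5) (nat_lit 2) (nat_lit 4) (nat_lit 413) (nat_lit 348) (nat_lit 259)) (XT.nd (nat_lit 78) (nat_lit 0) (nat_lit 0) (XT.lf (nat_lit 0) (nat_lit 19334836287775) (nat_lit 76) (nat_lit 1097237857096) (nat_lit 76) (nat_lit 1081243421511) (nat_lit 1) (nat_lit 4) (nat_lit 2) (nat_lit 5) (nat_lit 2) (nat_lit 4) (nat_lit 414) (nat_lit 348) (nat_lit 258)) (XT.lf (nat_lit 0) (nat_lit 22372471914743) (nat_lit 76) (nat_lit 1187040094195) (nat_lit 76) (nat_lit 1171045651423)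 (nat_lit 1) (nat_lit 4) (nat_lit 2) (nat_lit 5) (nat_lit 2) (nat_lit 4) (nat_lit 415) (nat_lit 348) (nat_lit 257))))) (XT.nd (nat_lit 234) (nat_lit 0) (nat_lit 0) (XT.nd (nat_lit 78) (nat_lit 0) (nat_lit 0) (XT.lf (nat_lit 0) (nat_lit 25865752770320) (nat_lit 76) (nat_lit 1290312727668) (nat_lit 76) (nat_lit 1274318278646) (nat_lit 1) (nat_lit 4) (nat_lit 2) (nat_lit 5) (nat_lit 2) (nat_lit 4) (nat_lit 416) (nat_lit 348) (nat_lit 256)) (XT.nd (nat_lit 78) (nat_lit 0) (nat_lit 0) (XT.lf (nat_lit 0) (nat_lit 29883025653853) (nat_lit 76) (nat_lit 1409076309039) (nat_lit 76) (nat_lit 1393081854583) (nat_lit 1) (nat_lit 4) (nat_lit 2) (nat_lit 5) (nat_lit 2) (nat_lit 4) (nat_lit 417) (nat_lit 348) (nat_lit 255)) (XT.lf (nat_lit 0) (nat_lit 34502889382630) (nat_lit 76) (nat_lit 1545654473597) (nat_lit 76) (nat_lit 1529660014416) (nat_lit 1) (nat_lit 4) (nat_lit 2) (nat_lit 5) (nat_lit 2) (nat_lit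 4) (nat_lit 418) (nat_lit 348) (nat_lit 254)))) (XT.nd (nat_lit 78) (nat_lit 0) (nat_lit 0) (XT.lf (nat_lit 0) (nat_lit 39815732594821) (nat_lit 76) (nat_lit 1702719402822) (nat_lit 76) (nat_lit 1686724939531) (nat_lit 1) (nat_lit 4) (nat_lit 2) (nat_lit 5) (nat_lit 2) (nat_lit 4) (nat_lit 419) (nat_lit 348) (nat_lit 253)) (XT.nd (nat_lit 78) (nat_lit 0) (nat_lit 0) (XT.lf (nat_lit 0) (nat_lit 45925502222840) (nat_lit 76) (nat_lit 1883344106199) (nat_lit 76) (nat_lit 1867349639334) (nat_lit 1) (nat_lit 4) (nat_lit 2) (nat_lit 5) (nat_lit 2) (nat_lit 4) (nat_lit 420) (nat_lit 348) (nat_lit 252)) (XT.lf (nat_lit 0) (nat_lit 52951737237669) (nat_lit 76) (nat_lit 2091062545314) (nat_lit 76) (nat_lit 2075068075343) (nat_lit 1) (nat_lit 4) (nat_lit 2) (nat_lit 5) (nat_lit 2) (nat_lit 4) (nat_lit 421) (nat_lit 348) (nat_lit 251))))))) (XT.nd (nat_lit 48048) (nat_lit 0) (nat_lit 988) (XT.nd (nat_lit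 47580) (nat_lit 0) (nat_lit 1824) (XT.nd (nat_lit 156) (nat_lit 0) (nat_lit 0) (XT.nd (nat_lit 78) (nat_lit 0) (nat_lit 0) (XT.lf (nat_lit 0) (nat_lit 61031907454816) (nat_lit 76) (nat_lit 2329938776587) (nat_lit 76) (nat_lit 2313944303914) (nat_lit 1) (nat_lit 4) (nat_lit 2) (nat_lit 5) (nat_lit 2) (nat_lit 4) (nat_lit 422) (nat_lit 348) (nat_lit 250)) (XT.lf (nat_lit 0) (nat_lit 70324103161137) (nat_lit 76) (nat_lit 2604646465411) (nat_lit 76) (nat_lit 2588651990388) (nat_lit 1) (nat_lit 4) (nat_lit 2) (nat_lit 5) (nat_lit 2) (nat_lit 4) (nat_lit 423) (nat_lit 348) (nat_lit 249))) (XT.nd (nat_lit 47268) (nat_lit 0) (nat_lit 2128) (XT.lf (nat_lit 0) (nat_lit 81010128185671) (nat_lit 76) (nat_lit 2920560327438) (nat_lit 76) (nat_lit 2904565850372) (nat_lit 1) (nat_lit 4) (nat_lit 2) (nat_lit 5) (nat_lit 2) (nat_lit 4) (nat_lit 424) (nat_lit 348) (nat_lit 248)) (XT.nd (nat_lit 78) (nat_lit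 0) (nat_lit 0) (XT.lf (nat_lit 0) (nat_lit 1137161438) (nat_lit 380) (nat_lit 3053377940) (nat_lit 380) (nat_lit 3053377940) (nat_lit 29) (nat_lit 3) (nat_lit 34) (nat_lit 3) (nat_lit 34) (nat_lit 5) (nat_lit 349) (nat_lit 349) (nat_lit 322)) (XT.lf (nat_lit 76) (nat_lit 1082966473) (nat_lit 0) (nat_lit 1703012666) (nat_lit 380) (nat_lit 12736929194) (nat_lit 30) (nat_lit 5) (nat_lit 29) (nat_lit 3) (nat_lit 34) (nat_lit 5) (nat_lit 350) (nat_lit 349) (nat_lit 321))))) (XT.nd (nat_lit 234) (nat_lit 380) (nat_lit 0) (XT.nd (nat_lit 78) (nat_lit 0) (nat_lit 0) (XT.lf (nat_lit 0) (nat_lit 3903021228) (nat_lit 304) (nat_lit 6932953487) (nat_lit 380) (nat_lit 5798035365) (nat_lit 30) (nat_lit 5) (nat_lit 34) (nat_lit 5) (nat_lit 35) (nat_lit 5) (nat_lit 351) (nat_lit 349) (nat_lit 320)) (XT.nd (nat_lit 78) (nat_lit 0) (nat_lit 76) (XT.lf (nat_lit 76) (nat_lit 1736762077) (nat_lit 0) (nat_lit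 3557551424) (nat_lit 380) (nat_lit 12601513945) (nat_lit 31) (nat_lit 5) (nat_lit 30) (nat_lit 5) (nat_lit 35) (nat_lit 5) (nat_lit 352) (nat_lit 349) (nat_lit 319)) (XT.lf (nat_lit 0) (nat_lit 7431781658) (nat_lit 304) (nat_lit 7064738721) (nat_lit 76) (nat_lit 4769822066) (nat_lit 31) (nat_lit 5) (nat_lit 35) (nat_lit 5) (nat_lit 32) (nat_lit 5) (nat_lit 353) (nat_lit 349) (nat_lit 318)))) (XT.nd (nat_lit 78) (nat_lit 152) (nat_lit 0) (XT.lf (nat_lit 0) (nat_lit 3499584248) (nat_lit 304) (nat_lit 6668550572) (nat_lit 380) (nat_lit 10632601320) (nat_lit 27) (nat_lit 5) (nat_lit 31) (nat_lit 5) (nat_lit 32) (nat_lit 5) (nat_lit 354) (nat_lit 349) (nat_lit 317)) (XT.nd (nat_lit 78) (nat_lit 152) (nat_lit 0) (XT.lf (nat_lit 0) (nat_lit 13765587085) (nat_lit 380) (nat_lit 6221103119) (nat_lit 76) (nat_lit 2511037559) (nat_lit 27) (nat_lit 5) (nat_lit 32) (nat_lit 5) (nat_lit 28) (nat_lit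 5) (nat_lit 355) (nat_lit 349) (nat_lit 316)) (XT.lf (nat_lit 0) (nat_lit 6771912589) (nat_lit 152) (nat_lit 11700129059) (nat_lit 228) (nat_lit 5891849938) (nat_lit 25) (nat_lit 5) (nat_lit 27) (nat_lit 5) (nat_lit 28) (nat_lit 5) (nat_lit 356) (nat_lit 349) (nat_lit 315)))))) (XT.nd (nat_lit 468) (nat_lit 456) (nat_lit 0) (XT.nd (nat_lit 234) (nat_lit 228) (nat_lit 0) (XT.nd (nat_lit 78) (nat_lit 152) (nat_lit 0) (XT.lf (nat_lit 0) (nat_lit 22380237373) (nat_lit 152) (nat_lit 1803213719) (nat_lit 228) (nat_lit 2281707949) (nat_lit 25) (nat_lit 5) (nat_lit 27) (nat_lit 5) (nat_lit 28) (nat_lit 5) (nat_lit 357) (nat_lit 349) (nat_lit 314)) (XT.nd (nat_lit 78) (nat_lit 0) (nat_lit 0) (XT.lf (nat_lit 0) (nat_lit 2619589660) (nat_lit 152) (nat_lit 16772754691) (nat_lit 76) (nat_lit 9340261498) (nat_lit 23) (nat_lit 5) (nat_lit 25) (nat_lit 5) (nat_lit 24) (nat_lit 5) (nat_lit 358) (nat_lit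 349) (nat_lit 313)) (XT.lf (nat_lit 0) (nat_lit 8309734432) (nat_lit 152) (nat_lit 674889432) (nat_lit 76) (nat_lit 22296177303) (nat_lit 23) (nat_lit 5) (nat_lit 25) (nat_lit 5) (nat_lit 24) (nat_lit 5) (nat_lit 359) (nat_lit 349) (nat_lit 312)))) (XT.nd (nat_lit 78) (nat_lit 76) (nat_lit 0) (XT.lf (nat_lit 0) (nat_lit 15805273237) (nat_lit 228) (nat_lit 14704609557) (nat_lit 76) (nat_lit 3558577614) (nat_lit 21) (nat_lit 5) (nat_lit 24) (nat_lit 5) (nat_lit 22) (nat_lit 4) (nat_lit 360) (nat_lit 349) (nat_lit 311)) (XT.nd (nat_lit 78) (nat_lit 0) (nat_lit 0) (XT.lf (nat_lit 0) (nat_lit 5221281411) (nat_lit 76) (nat_lit 19866503238) (nat_lit 152) (nat_lit 12087101077) (nat_lit 20) (nat_lit 5) (nat_lit 21) (nat_lit 5) (nat_lit 22) (nat_lit 4) (nat_lit 361) (nat_lit 349) (nat_lit 310)) (XT.lf (nat_lit 0) (nat_lit 29760678022) (nat_lit 76) (nat_lit 6753523074) (nat_lit 152) (nat_lit 4120356195)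 (nat_lit 20) (nat_lit 5) (nat_lit 21) (nat_lit 5) (nat_lit 22) (nat_lit 4) (nat_lit 362) (nat_lit 349) (nat_lit 309))))) (XT.nd (nat_lit 234) (nat_lit 228) (nat_lit 0) (XT.nd (nat_lit 78) (nat_lit 76) (nat_lit 0) (XT.lf (nat_lit 0) (nat_lit 5556658100) (nat_lit 152) (nat_lit 30460732333) (nat_lit 76) (nat_lit 8419873259) (nat_lit 18) (nat_lit 5) (nat_lit 20) (nat_lit 5) (nat_lit 19) (nat_lit 4) (nat_lit 363) (nat_lit 349) (nat_lit 308)) (XT.nd (nat_lit 78) (nat_lit 76) (nat_lit 0) (XT.lf (nat_lit 0) (nat_lit 17165438142) (nat_lit 152) (nat_lit 5519870369) (nat_lit 76) (nat_lit 25960335182) (nat_lit 18) (nat_lit 5) (nat_lit 20) (nat_lit 5) (nat_lit 19) (nat_lit 4) (nat_lit 364) (nat_lit 349) (nat_lit 307)) (XT.lf (nat_lit 0) (nat_lit 25400430743) (nat_lit 76) (nat_lit 6153828997) (nat_lit 152) (nat_lit 21775218959) (nat_lit 17) (nat_lit 5) (nat_lit 18) (nat_lit 5) (nat_lit 19) (nat_lit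 4) (nat_lit 365) (nat_lit 349) (nat_lit 306)))) (XT.nd (nat_lit 78) (nat_lit 152) (nat_lit 0) (XT.lf (nat_lit 0) (nat_lit 2565368497) (nat_lit 76) (nat_lit 46464275498) (nat_lit 76) (nat_lit 9547014869) (nat_lit 16) (nat_lit 4) (nat_lit 17) (nat_lit 5) (nat_lit 17) (nat_lit 4) (nat_lit 366) (nat_lit 349) (nat_lit 305)) (XT.nd (nat_lit 78) (nat_lit 76) (nat_lit 0) (XT.lf (nat_lit 0) (nat_lit 5923404594) (nat_lit 152) (nat_lit 24192240956) (nat_lit 76) (nat_lit 34195732017) (nat_lit 15) (nat_lit 5) (nat_lit 17) (nat_lit 5) (nat_lit 16) (nat_lit 4) (nat_lit 367) (nat_lit 349) (nat_lit 304)) (XT.lf (nat_lit 0) (nat_lit 13089902488) (nat_lit 76) (nat_lit 10178199847) (nat_lit 152) (nat_lit 47490340425) (nat_lit 14) (nat_lit 5) (nat_lit 15) (nat_lit 5) (nat_lit 16) (nat_lit 4) (nat_lit 368) (nat_lit 349) (nat_lit 303))))))))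
noncomputable def xc65 : XT := (XT.nd (nat_lit 1794) (nat_lit 76) (nat_lit 0) (XT.nd (nat_lit 858) (nat_lit 380) (nat_lit 0) (XT.nd (nat_lit 390) (nat_lit 304) (nat_lit 0) (XT.nd (nat_lit 156) (nat_lit 152) (nat_lit 0) (XT.nd (nat_lit 78) (nat_lit 76) (nat_lit 0) (XT.lf (nat_lit 0) (nat_lit 45056609061) (nat_lit 152) (nat_lit 19908520742) (nat_lit 0) (nat_lit 12931125609) (nat_lit 14) (nat_lit 5) (nat_lit 16) (nat_lit 4) (nat_lit 14) (nat_lit 4) (nat_lit 369) (nat_lit 349) (nat_lit 302)) (XT.lf (nat_lit 0) (nat_lit 25261783110) (nat_lit 76) (nat_lit 46373057523) (nat_lit 76) (nat_lit 14241684895) (nat_lit 13) (nat_lit 4) (nat_lit 14) (nat_lit 5) (nat_lit 14) (nat_lit 4) (nat_lit 370) (nat_lit 349) (nat_lit 301))) (XT.nd (nat_lit 78) (nat_lit 76) (nat_lit 0) (XT.lf (nat_lit 0) (nat_lit 7590827883) (nat_lit 152) (nat_lit 15816213700) (nat_lit 76) (nat_lit 71440255727) (nat_lit 12) (nat_lit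 5) (nat_lit 14) (nat_lit 5) (nat_lit 13) (nat_lit 4) (nat_lit 371) (nat_lit 349) (nat_lit 300)) (XT.nd (nat_lit 78) (nat_lit 0) (nat_lit 0) (XT.lf (nat_lit 0) (nat_lit 33055564350) (nat_lit 152) (nat_lit 66627167454) (nat_lit 0) (nat_lit 5106915033) (nat_lit 11) (nat_lit 5) (nat_lit 13) (nat_lit 4) (nat_lit 11) (nat_lit 4) (nat_lit 372) (nat_lit 349) (nat_lit 299)) (XT.lf (nat_lit 0) (nat_lit 64312880193) (nat_lit 152) (nat_lit 15253676196) (nat_lit 0) (nat_lit 36360863721) (nat_lit 11) (nat_lit 5) (nat_lit 13) (nat_lit 4) (nat_lit 11) (nat_lit 4) (nat_lit 373) (nat_lit 349) (nat_lit 298))))) (XT.nd (nat_lit 234) (nat_lit 76) (nat_lit 0) (XT.nd (nat_lit 78) (nat_lit 152) (nat_lit 0) (XT.lf (nat_lit 0) (nat_lit 48093685386) (nat_lit 76) (nat_lit 54149714448) (nat_lit 76) (nat_lit 26194770015) (nat_lit 10) (nat_lit 4) (nat_lit 11) (nat_lit 5) (nat_lit 11) (nat_lit 4) (nat_lit 374) (nat_lit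 349) (nat_lit 297)) (XT.nd (nat_lit 78) (nat_lit 76) (nat_lit 0) (XT.lf (nat_lit 0) (nat_lit 3596012421) (nat_lit 152) (nat_lit 20226063780) (nat_lit 76) (nat_lit 118860311424) (nat_lit 9) (nat_lit 5) (nat_lit 11) (nat_lit 5) (nat_lit 10) (nat_lit 4) (nat_lit 375) (nat_lit 349) (nat_lit 296)) (XT.lf (nat_lit 0) (nat_lit 37953622867) (nat_lit 152) (nat_lit 106864665831) (nat_lit 0) (nat_lit 13640836392) (nat_lit 8) (nat_lit 5) (nat_lit 10) (nat_lit 4) (nat_lit 8) (nat_lit 4) (nat_lit 376) (nat_lit 349) (nat_lit 295)))) (XT.nd (nat_lit 78) (nat_lit 76) (nat_lit 0) (XT.lf (nat_lit 0) (nat_lit 79701008489) (nat_lit 152) (nat_lit 41179397526) (nat_lit 0) (nat_lit 55386547943) (nat_lit 8) (nat_lit 5) (nat_lit 10) (nat_lit 4) (nat_lit 8) (nat_lit 4) (nat_lit 377) (nat_lit 349) (nat_lit 294)) (XT.nd (nat_lit 78) (nat_lit 0) (nat_lit 0) (XT.lf (nat_lit 0) (nat_lit 37704909546) (nat_lit 76) (nat_lit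 91561769045) (nat_lit 76) (nat_lit 67245852784) (nat_lit 7) (nat_lit 4) (nat_lit 8) (nat_lit 5) (nat_lit 8) (nat_lit 4) (nat_lit 378) (nat_lit 349) (nat_lit 293)) (XT.lf (nat_lit 0) (nat_lit 133039839585) (nat_lit 76) (nat_lit 55375066271) (nat_lit 76) (nat_lit 31057884172) (nat_lit 7) (nat_lit 4) (nat_lit 8) (nat_lit 5) (nat_lit 8) (nat_lit 4) (nat_lit 379) (nat_lit 349) (nat_lit 292)))))) (XT.nd (nat_lit 468) (nat_lit 152) (nat_lit 0) (XT.nd (nat_lit 234) (nat_lit 76) (nat_lit 0) (XT.nd (nat_lit 78) (nat_lit 76) (nat_lit 0) (XT.lf (nat_lit 0) (nat_lit 9613887425) (nat_lit 152) (nat_lit 3648424862) (nat_lit 76) (nat_lit 232549859469) (nat_lit 6) (nat_lit 5) (nat_lit 8) (nat_lit 5) (nat_lit 7) (nat_lit 4) (nat_lit 380) (nat_lit 349) (nat_lit 291)) (XT.nd (nat_lit 78) (nat_lit 0) (nat_lit 0) (XT.lf (nat_lit 0) (nat_lit 59018204206) (nat_lit 152) (nat_lit 178119648635) (nat_lit 0) (nat_lit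 37871039003) (nat_lit 5) (nat_lit 5) (nat_lit 7) (nat_lit 4) (nat_lit 5) (nat_lit 4) (nat_lit 381) (nat_lit 349) (nat_lit 290)) (XT.lf (nat_lit 0) (nat_lit 116660681226) (nat_lit 152) (nat_lit 96287519890) (nat_lit 0) (nat_lit 95512792275) (nat_lit 5) (nat_lit 5) (nat_lit 7) (nat_lit 4) (nat_lit 5) (nat_lit 4) (nat_lit 382) (nat_lit 349) (nat_lit 289)))) (XT.nd (nat_lit 78) (nat_lit 76) (nat_lit 0) (XT.lf (nat_lit 0) (nat_lit 182946207491) (nat_lit 152) (nat_lit 2187512140) (nat_lit 0) (nat_lit 161797689195) (nat_lit 5) (nat_lit 5) (nat_lit 7) (nat_lit 4) (nat_lit 5) (nat_lit 4) (nat_lit 383) (nat_lit 349) (nat_lit 288)) (XT.nd (nat_lit 78) (nat_lit 0) (nat_lit 0) (XT.lf (nat_lit 0) (nat_lit 116382650027) (nat_lit 76) (nat_lit 147608181056) (nat_lit 76) (nat_lit 126459115503) (nat_lit 4) (nat_lit 4) (nat_lit 5) (nat_lit 5) (nat_lit 5) (nat_lit 4) (nat_lit 384) (nat_lit 349) (nat_lit 287))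 (XT.lf (nat_lit 0) (nat_lit 252978422327) (nat_lit 76) (nat_lit 104325322432) (nat_lit 76) (nat_lit 83175781003) (nat_lit 4) (nat_lit 4) (nat_lit 5) (nat_lit 5) (nat_lit 5) (nat_lit 4) (nat_lit 385) (nat_lit 349) (nat_lit 286))))) (XT.nd (nat_lit 234) (nat_lit 0) (nat_lit 0) (XT.nd (nat_lit 78) (nat_lit 152) (nat_lit 0) (XT.lf (nat_lit 0) (nat_lit 410058551142) (nat_lit 76) (nat_lit 54552652447) (nat_lit 76) (nat_lit 33402697214) (nat_lit 4) (nat_lit 4) (nat_lit 5) (nat_lit 5) (nat_lit 5) (nat_lit 4) (nat_lit 386) (nat_lit 349) (nat_lit 285)) (XT.nd (nat_lit 78) (nat_lit 0) (nat_lit 0) (XT.lf (nat_lit 0) (nat_lit 23085960103) (nat_lit 152) (nat_lit 536044285367) (nat_lit 0) (nat_lit 4694381786) (nat_lit 2) (nat_lit 5) (nat_lit 4) (nat_lit 4) (nat_lit 2) (nat_lit 4) (nat_lit 387) (nat_lit 349) (nat_lit 284)) (XT.lf (nat_lit 0) (nat_lit 92040293770) (nat_lit 152) (nat_lit 472467808322)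 (nat_lit 0) (nat_lit 73648443370) (nat_lit 2) (nat_lit 5) (nat_lit 4) (nat_lit 4) (nat_lit 2) (nat_lit 4) (nat_lit 388) (nat_lit 349) (nat_lit 283)))) (XT.nd (nat_lit 78) (nat_lit 0) (nat_lit 0) (XT.lf (nat_lit 0) (nat_lit 171335890417) (nat_lit 152) (nat_lit 399358840735) (nat_lit 0) (nat_lit 152943803423) (nat_lit 2) (nat_lit 5) (nat_lit 4) (nat_lit 4) (nat_lit 2) (nat_lit 4) (nat_lit 389) (nat_lit 349) (nat_lit 282)) (XT.nd (nat_lit 78) (nat_lit 0) (nat_lit 0) (XT.lf (nat_lit 0) (nat_lit 262524185630) (nat_lit 152) (nat_lit 315286989763) (nat_lit 0) (nat_lit 244131892901) (nat_lit 2) (nat_lit 5) (nat_lit 4) (nat_lit 4) (nat_lit 2) (nat_lit 4) (nat_lit 390) (nat_lit 349) (nat_lit 281)) (XT.lf (nat_lit 0) (nat_lit 367389298228) (nat_lit 152) (nat_lit 218607371366) (nat_lit 0) (nat_lit 348996826601) (nat_lit 2) (nat_lit 5) (nat_lit 4) (nat_lit 4) (nat_lit 2) (nat_lit 4) (nat_lit 391)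 (nat_lit 349) (nat_lit 280))))))) (XT.nd (nat_lit 858) (nat_lit 0) (nat_lit 0) (XT.nd (nat_lit 390) (nat_lit 0) (nat_lit 0) (XT.nd (nat_lit 156) (nat_lit 0) (nat_lit 0) (XT.nd (nat_lit 78) (nat_lit 76) (nat_lit 0) (XT.lf (nat_lit 0) (nat_lit 487982936937) (nat_lit 152) (nat_lit 107428427792) (nat_lit 0) (nat_lit 469590309745) (nat_lit 2) (nat_lit 5) (nat_lit 4) (nat_lit 4) (nat_lit 2) (nat_lit 4) (nat_lit 392) (nat_lit 349) (nat_lit 279)) (XT.lf (nat_lit 0) (nat_lit 22421168636) (nat_lit 76) (nat_lit 605171786658) (nat_lit 76) (nat_lit 586779024192) (nat_lit 1) (nat_lit 4) (nat_lit 2) (nat_lit 5) (nat_lit 2) (nat_lit 4) (nat_lit 393) (nat_lit 349) (nat_lit 278))) (XT.nd (nat_lit 78) (nat_lit 0) (nat_lit 0) (XT.lf (nat_lit 0) (nat_lit 183819522182) (nat_lit 76) (nat_lit 609939502954) (nat_lit 76) (nat_lit 591546622859) (nat_lit 1) (nat_lit 4) (nat_lit 2) (nat_lit 5) (nat_lit 2) (nat_lit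 4) (nat_lit 394) (nat_lit 349) (nat_lit 277)) (XT.nd (nat_lit 78) (nat_lit 0) (nat_lit 0) (XT.lf (nat_lit 0) (nat_lit 369425739459) (nat_lit 76) (nat_lit 615423371933) (nat_lit 76) (nat_lit 597030389551) (nat_lit 1) (nat_lit 4) (nat_lit 2) (nat_lit 5) (nat_lit 2) (nat_lit 4) (nat_lit 395) (nat_lit 349) (nat_lit 276)) (XT.lf (nat_lit 0) (nat_lit 582871246456) (nat_lit 76) (nat_lit 621730686681) (nat_lit 76) (nat_lit 603337615356) (nat_lit 1) (nat_lit 4) (nat_lit 2) (nat_lit 5) (nat_lit 2) (nat_lit 4) (nat_lit 396) (nat_lit 349) (nat_lit 275))))) (XT.nd (nat_lit 234) (nat_lit 0) (nat_lit 0) (XT.nd (nat_lit 78) (nat_lit 0) (nat_lit 0) (XT.lf (nat_lit 0) (nat_lit 828332150919) (nat_lit 76) (nat_lit 628984851185) (nat_lit 76) (nat_lit 610591702516) (nat_lit 1) (nat_lit 4) (nat_lit 2) (nat_lit 5) (nat_lit 2) (nat_lit 4) (nat_lit 397) (nat_lit 349) (nat_lit 274)) (XT.nd (nat_lit 78) (nat_lit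 0) (nat_lit 0) (XT.lf (nat_lit 0) (nat_lit 1110610948805) (nat_lit 76) (nat_lit 637327794748) (nat_lit 76) (nat_lit 618934578825) (nat_lit 1) (nat_lit 4) (nat_lit 2) (nat_lit 5) (nat_lit 2) (nat_lit 4) (nat_lit 398) (nat_lit 349) (nat_lit 273)) (XT.lf (nat_lit 0) (nat_lit 1435230486159) (nat_lit 76) (nat_lit 646922748876) (nat_lit 76) (nat_lit 628529474470) (nat_lit 1) (nat_lit 4) (nat_lit 2) (nat_lit 5) (nat_lit 2) (nat_lit 4) (nat_lit 399) (nat_lit 349) (nat_lit 272)))) (XT.nd (nat_lit 78) (nat_lit 0) (nat_lit 0) (XT.lf (nat_lit 0) (nat_lit 1808542014799) (nat_lit 76) (nat_lit 657957440932) (nat_lit 76) (nat_lit 639564115672) (nat_lit 1) (nat_lit 4) (nat_lit 2) (nat_lit 5) (nat_lit 2) (nat_lit 4) (nat_lit 400) (nat_lit 349) (nat_lit 271)) (XT.nd (nat_lit 78) (nat_lit 0) (nat_lit 0) (XT.lf (nat_lit 0) (nat_lit 2237849455939) (nat_lit 76) (nat_lit 670647767065) (nat_lit 76) (nat_lit 652254397584)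 (nat_lit 1) (nat_lit 4) (nat_lit 2) (nat_lit 5) (nat_lit 2) (nat_lit 4) (nat_lit 401) (nat_lit 349) (nat_lit 270)) (XT.lf (nat_lit 0) (nat_lit 2731552302990) (nat_lit 76) (nat_lit 685242016265) (nat_lit 76) (nat_lit 666848608330) (nat_lit 1) (nat_lit 4) (nat_lit 2) (nat_lit 5) (nat_lit 2) (nat_lit 4) (nat_lit 402) (nat_lit 349) (nat_lit 269)))))) (XT.nd (nat_lit 468) (nat_lit 0) (nat_lit 0) (XT.nd (nat_lit 234) (nat_lit 0) (nat_lit 0) (XT.nd (nat_lit 78) (nat_lit 0) (nat_lit 0) (XT.lf (nat_lit 0) (nat_lit 3299309959483) (nat_lit 76) (nat_lit 702025728189) (nat_lit 76) (nat_lit 683632286817) (nat_lit 1) (nat_lit 4) (nat_lit 2) (nat_lit 5) (nat_lit 2) (nat_lit 4) (nat_lit 403) (nat_lit 349) (nat_lit 268)) (XT.nd (nat_lit 78) (nat_lit 0) (nat_lit 0) (XT.lf (nat_lit 0) (nat_lit 3952230727393) (nat_lit 76) (nat_lit 721327279811) (nat_lit 76) (nat_lit 702933809362) (nat_lit 1) (nat_lit 4) (nat_lit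 2) (nat_lit 5) (nat_lit 2) (nat_lit 4) (nat_lit 404) (nat_lit 349) (nat_lit 267)) (XT.lf (nat_lit 0) (nat_lit 4703089143483) (nat_lit 76) (nat_lit 743524310183) (nat_lit 76) (nat_lit 725130814451) (nat_lit 1) (nat_lit 4) (nat_lit 2) (nat_lit 5) (nat_lit 2) (nat_lit 4) (nat_lit 405) (nat_lit 349) (nat_lit 266)))) (XT.nd (nat_lit 78) (nat_lit 0) (nat_lit 0) (XT.lf (nat_lit 0) (nat_lit 5566575915893) (nat_lit 76) (nat_lit 769051109030) (nat_lit 76) (nat_lit 750657591312) (nat_lit 1) (nat_lit 4) (nat_lit 2) (nat_lit 5) (nat_lit 2) (nat_lit 4) (nat_lit 406) (nat_lit 349) (nat_lit 265)) (XT.nd (nat_lit 78) (nat_lit 0) (nat_lit 0) (XT.lf (nat_lit 0) (nat_lit 6559585351042) (nat_lit 76) (nat_lit 798407113721) (nat_lit 76) (nat_lit 780013576886) (nat_lit 1) (nat_lit 4) (nat_lit 2) (nat_lit 5) (nat_lit 2) (nat_lit 4) (nat_lit 407) (nat_lit 349) (nat_lit 264)) (XT.lf (nat_lit 0) (nat_lit 7701545894398)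 (nat_lit 76) (nat_lit 832166680870) (nat_lit 76) (nat_lit 813773127410) (nat_lit 1) (nat_lit 4) (nat_lit 2) (nat_lit 5) (nat_lit 2) (nat_lit 4) (nat_lit 408) (nat_lit 349) (nat_lit 263))))) (XT.nd (nat_lit 234) (nat_lit 0) (nat_lit 0) (XT.nd (nat_lit 78) (nat_lit 0) (nat_lit 0) (XT.lf (nat_lit 0) (nat_lit 9014800252244) (nat_lit 76) (nat_lit 870990323747) (nat_lit 76) (nat_lit 852596755831) (nat_lit 1) (nat_lit 4) (nat_lit 2) (nat_lit 5) (nat_lit 2) (nat_lit 4) (nat_lit 409) (nat_lit 349) (nat_lit 262)) (XT.nd (nat_lit 78) (nat_lit 0) (nat_lit 0) (XT.lf (nat_lit 0) (nat_lit 10525042531584) (nat_lit 76) (nat_lit 915637635365) (nat_lit 76) (nat_lit 897244054878) (nat_lit 1) (nat_lit 4) (nat_lit 2) (nat_lit 5) (nat_lit 2) (nat_lit 4) (nat_lit 410) (nat_lit 349) (nat_lit 261)) (XT.lf (nat_lit 0) (nat_lit 12261820950924) (nat_lit 76) (nat_lit 966982150081) (nat_lit 76) (nat_lit 948588558664)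 (nat_lit 1) (nat_lit 4) (nat_lit 2) (nat_lit 5) (nat_lit 2) (nat_lit 4) (nat_lit 411) (nat_lit 349) (nat_lit 260)))) (XT.nd (nat_lit 78) (nat_lit 0) (nat_lit 0) (XT.lf (nat_lit 0) (nat_lit 14259115957600) (nat_lit 76) (nat_lit 1026028434488) (nat_lit 76) (nat_lit 1007634833565) (nat_lit 1) (nat_lit 4) (nat_lit 2) (nat_lit 5) (nat_lit 2) (nat_lit 4) (nat_lit 412) (nat_lit 349) (nat_lit 259)) (XT.nd (nat_lit 78) (nat_lit 0) (nat_lit 0) (XT.lf (nat_lit 0) (nat_lit 16556005062612) (nat_lit 76) (nat_lit 1093931741976) (nat_lit 76) (nat_lit 1075538132788) (nat_lit 1) (nat_lit 4) (nat_lit 2) (nat_lit 5) (nat_lit 2) (nat_lit 4) (nat_lit 413) (nat_lit 349) (nat_lit 258)) (XT.lf (nat_lit 0) (nat_lit 19197427400624) (nat_lit 76) (nat_lit 1172020615517) (nat_lit 76) (nat_lit 1153626999143) (nat_lit 1) (nat_lit 4) (nat_lit 2) (nat_lit 5) (nat_lit 2) (nat_lit 4) (nat_lit 414) (nat_lit 349) (nat_lit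 257))))))))
noncomputable def xc66 : XT := (XT.nd (nat_lit 49062) (nat_lit 0) (nat_lit 228) (XT.nd (nat_lit 48204) (nat_lit 0) (nat_lit 1444) (XT.nd (nat_lit 390) (nat_lit 0) (nat_lit 0) (XT.nd (nat_lit 156) (nat_lit 0) (nat_lit 0) (XT.nd (nat_lit 78) (nat_lit 0) (nat_lit 0) (XT.lf (nat_lit 0) (nat_lit 22235062973901) (nat_lit 76) (nat_lit 1261822880900) (nat_lit 76) (nat_lit 1243429258275) (nat_lit 1) (nat_lit 4) (nat_lit 2) (nat_lit 5) (nat_lit 2) (nat_lit 4) (nat_lit 415) (nat_lit 349) (nat_lit 256)) (XT.lf (nat_lit 0) (nat_lit 25728343782790) (nat_lit 76) (nat_lit 1365095538967) (nat_lit 76) (nat_lit 1346701910908) (nat_lit 1) (nat_lit 4) (nat_lit 2) (nat_lit 5) (nat_lit 2) (nat_lit 4) (nat_lit 416) (nat_lit 349) (nat_lit 255))) (XT.nd (nat_lit 78) (nat_lit 0) (nat_lit 0) (XT.lf (nat_lit 0) (nat_lit 29745616625724) (nat_lit 76) (nat_lit 1483859141725) (nat_lit 76) (nat_lit 1465465508940)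 (nat_lit 1) (nat_lit 4) (nat_lit 2) (nat_lit 5) (nat_lit 2) (nat_lit 4) (nat_lit 417) (nat_lit 349) (nat_lit 254)) (XT.nd (nat_lit 78) (nat_lit 0) (nat_lit 0) (XT.lf (nat_lit 0) (nat_lit 34365480319198) (nat_lit 76) (nat_lit 1620437324880) (nat_lit 76) (nat_lit 1602043687986) (nat_lit 1) (nat_lit 4) (nat_lit 2) (nat_lit 5) (nat_lit 2) (nat_lit 4) (nat_lit 418) (nat_lit 349) (nat_lit 253)) (XT.lf (nat_lit 0) (nat_lit 39678323500691) (nat_lit 76) (nat_lit 1777502270276) (nat_lit 76) (nat_lit 1759108629809) (nat_lit 1) (nat_lit 4) (nat_lit 2) (nat_lit 5) (nat_lit 2) (nat_lit 4) (nat_lit 419) (nat_lit 349) (nat_lit 252))))) (XT.nd (nat_lit 234) (nat_lit 0) (nat_lit 0) (XT.nd (nat_lit 78) (nat_lit 0) (nat_lit 0) (XT.lf (nat_lit 0) (nat_lit 45788093102015) (nat_lit 76) (nat_lit 1958126987714) (nat_lit 76) (nat_lit 1939733344140) (nat_lit 1) (nat_lit 4) (nat_lit 2) (nat_lit 5) (nat_lit 2) (nat_lit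 4) (nat_lit 420) (nat_lit 349) (nat_lit 251)) (XT.nd (nat_lit 78) (nat_lit 0) (nat_lit 0) (XT.lf (nat_lit 0) (nat_lit 52814328093632) (nat_lit 76) (nat_lit 2165845439058) (nat_lit 76) (nat_lit 2147451792781) (nat_lit 1) (nat_lit 4) (nat_lit 2) (nat_lit 5) (nat_lit 2) (nat_lit 4) (nat_lit 421) (nat_lit 349) (nat_lit 250)) (XT.lf (nat_lit 0) (nat_lit 60894498290594) (nat_lit 76) (nat_lit 2404721680963) (nat_lit 76) (nat_lit 2386328032337) (nat_lit 1) (nat_lit 4) (nat_lit 2) (nat_lit 5) (nat_lit 2) (nat_lit 4) (nat_lit 422) (nat_lit 349) (nat_lit 249)))) (XT.nd (nat_lit 47424) (nat_lit 0) (nat_lit 2128) (XT.lf (nat_lit 0) (nat_lit 70186693979364) (nat_lit 76) (nat_lit 2679429379033) (nat_lit 76) (nat_lit 2661035728364) (nat_lit 1) (nat_lit 4) (nat_lit 2) (nat_lit 5) (nat_lit 2) (nat_lit 4) (nat_lit 423) (nat_lit 349) (nat_lit 248)) (XT.nd (nat_lit 78) (nat_lit 0) (nat_lit 0) (XT.lf (nat_lit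 0) (nat_lit 1591707756) (nat_lit 380) (nat_lit 3347932155) (nat_lit 380) (nat_lit 3347932155) (nat_lit 29) (nat_lit 3) (nat_lit 34) (nat_lit 3) (nat_lit 34) (nat_lit 5) (nat_lit 350) (nat_lit 350) (nat_lit 320)) (XT.lf (nat_lit 76) (nat_lit 1557457080) (nat_lit 0) (nat_lit 2153204600) (nat_lit 380) (nat_lit 14064078907) (nat_lit 30) (nat_lit 5) (nat_lit 29) (nat_lit 3) (nat_lit 34) (nat_lit 5) (nat_lit 351) (nat_lit 350) (nat_lit 319)))))) (XT.nd (nat_lit 390) (nat_lit 532) (nat_lit 0) (XT.nd (nat_lit 156) (nat_lit 228) (nat_lit 0) (XT.nd (nat_lit 78) (nat_lit 0) (nat_lit 0) (XT.lf (nat_lit 0) (nat_lit 4922145630) (nat_lit 304) (nat_lit 7627928335) (nat_lit 380) (nat_lit 6513477253) (nat_lit 30) (nat_lit 5) (nat_lit 34) (nat_lit 5) (nat_lit 35) (nat_lit 5) (nat_lit 352) (nat_lit 350) (nat_lit 318)) (XT.lf (nat_lit 76) (nat_lit 2326564192) (nat_lit 0) (nat_lit 4152636845) (nat_lit 380)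 (nat_lit 14041946237) (nat_lit 31) (nat_lit 5) (nat_lit 30) (nat_lit 5) (nat_lit 35) (nat_lit 5) (nat_lit 353) (nat_lit 350) (nat_lit 317))) (XT.nd (nat_lit 78) (nat_lit 304) (nat_lit 0) (XT.lf (nat_lit 0) (nat_lit 8884110547) (nat_lit 304) (nat_lit 7784548036) (nat_lit 76) (nat_lit 5436615583) (nat_lit 31) (nat_lit 5) (nat_lit 35) (nat_lit 5) (nat_lit 32) (nat_lit 5) (nat_lit 354) (nat_lit 350) (nat_lit 316)) (XT.nd (nat_lit 78) (nat_lit 0) (nat_lit 0) (XT.lf (nat_lit 0) (nat_lit 4348973312) (nat_lit 304) (nat_lit 7651348435) (nat_lit 380) (nat_lit 11874144678) (nat_lit 27) (nat_lit 5) (nat_lit 31) (nat_lit 5) (nat_lit 32) (nat_lit 5) (nat_lit 355) (nat_lit 350) (nat_lit 315)) (XT.lf (nat_lit 0) (nat_lit 16097982285) (nat_lit 380) (nat_lit 6832435928) (nat_lit 76) (nat_lit 2901543726) (nat_lit 27) (nat_lit 5) (nat_lit 32) (nat_lit 5) (nat_lit 28) (nat_lit 5) (nat_lit 356) (nat_lit 350)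 (nat_lit 314))))) (XT.nd (nat_lit 234) (nat_lit 228) (nat_lit 0) (XT.nd (nat_lit 78) (nat_lit 152) (nat_lit 0) (XT.lf (nat_lit 0) (nat_lit 8094903379) (nat_lit 152) (nat_lit 13393323555) (nat_lit 228) (nat_lit 6493188127) (nat_lit 25) (nat_lit 5) (nat_lit 27) (nat_lit 5) (nat_lit 28) (nat_lit 5) (nat_lit 357) (nat_lit 350) (nat_lit 313)) (XT.nd (nat_lit 78) (nat_lit 152) (nat_lit 0) (XT.lf (nat_lit 0) (nat_lit 26004406806) (nat_lit 152) (nat_lit 2019935027) (nat_lit 228) (nat_lit 2378364749) (nat_lit 25) (nat_lit 5) (nat_lit 27) (nat_lit 5) (nat_lit 28) (nat_lit 5) (nat_lit 358) (nat_lit 350) (nat_lit 312)) (XT.lf (nat_lit 0) (nat_lit 3221411413) (nat_lit 152) (nat_lit 18984459746) (nat_lit 76) (nat_lit 10805126452) (nat_lit 23) (nat_lit 5) (nat_lit 25) (nat_lit 5) (nat_lit 24) (nat_lit 5) (nat_lit 359) (nat_lit 350) (nat_lit 311)))) (XT.nd (nat_lit 78) (nat_lit 228) (nat_lit 0) (XT.lf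 (nat_lit 0) (nat_lit 9737832253) (nat_lit 152) (nat_lit 511594022) (nat_lit 76) (nat_lit 25696104532) (nat_lit 23) (nat_lit 5) (nat_lit 25) (nat_lit 5) (nat_lit 24) (nat_lit 5) (nat_lit 360) (nat_lit 350) (nat_lit 310)) (XT.nd (nat_lit 78) (nat_lit 76) (nat_lit 0) (XT.lf (nat_lit 0) (nat_lit 18347948234) (nat_lit 228) (nat_lit 16635892534) (nat_lit 76) (nat_lit 4168980112) (nat_lit 21) (nat_lit 5) (nat_lit 24) (nat_lit 5) (nat_lit 22) (nat_lit 4) (nat_lit 361) (nat_lit 350) (nat_lit 309)) (XT.lf (nat_lit 0) (nat_lit 6266408968) (nat_lit 76) (nat_lit 22744853919) (nat_lit 152) (nat_lit 13715699561) (nat_lit 20) (nat_lit 5) (nat_lit 21) (nat_lit 5) (nat_lit 22) (nat_lit 4) (nat_lit 362) (nat_lit 350) (nat_lit 308))))))) (XT.nd (nat_lit 858) (nat_lit 532) (nat_lit 0) (XT.nd (nat_lit 390) (nat_lit 380) (nat_lit 0) (XT.nd (nat_lit 156) (nat_lit 152) (nat_lit 0) (XT.nd (nat_lit 78) (nat_lit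 152) (nat_lit 0) (XT.lf (nat_lit 0) (nat_lit 34452549591) (nat_lit 76) (nat_lit 7678182141) (nat_lit 152) (nat_lit 4578003818) (nat_lit 20) (nat_lit 5) (nat_lit 21) (nat_lit 5) (nat_lit 22) (nat_lit 4) (nat_lit 363) (nat_lit 350) (nat_lit 307)) (XT.lf (nat_lit 0) (nat_lit 6530705511) (nat_lit 152) (nat_lit 34782060332) (nat_lit 76) (nat_lit 9768933066) (nat_lit 18) (nat_lit 5) (nat_lit 20) (nat_lit 5) (nat_lit 19) (nat_lit 4) (nat_lit 364) (nat_lit 350) (nat_lit 306))) (XT.nd (nat_lit 78) (nat_lit 152) (nat_lit 0) (XT.lf (nat_lit 0) (nat_lit 19862470119) (nat_lit 152) (nat_lit 6132388445) (nat_lit 76) (nat_lit 29929236605) (nat_lit 18) (nat_lit 5) (nat_lit 20) (nat_lit 5) (nat_lit 19) (nat_lit 4) (nat_lit 365) (nat_lit 350) (nat_lit 305)) (XT.nd (nat_lit 78) (nat_lit 76) (nat_lit 0) (XT.lf (nat_lit 0) (nat_lit 29416164086) (nat_lit 76) (nat_lit 6986025925) (nat_lit 152) (nat_lit 24909437330)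 (nat_lit 17) (nat_lit 5) (nat_lit 18) (nat_lit 5) (nat_lit 19) (nat_lit 4) (nat_lit 366) (nat_lit 350) (nat_lit 304)) (XT.lf (nat_lit 0) (nat_lit 3159389951) (nat_lit 76) (nat_lit 53336454577) (nat_lit 76) (nat_lit 10850502712) (nat_lit 16) (nat_lit 4) (nat_lit 17) (nat_lit 5) (nat_lit 17) (nat_lit 4) (nat_lit 367) (nat_lit 350) (nat_lit 303))))) (XT.nd (nat_lit 234) (nat_lit 228) (nat_lit 0) (XT.nd (nat_lit 78) (nat_lit 76) (nat_lit 0) (XT.lf (nat_lit 0) (nat_lit 6913757628) (nat_lit 152) (nat_lit 27629161398) (nat_lit 76) (nat_lit 39399853009) (nat_lit 15) (nat_lit 5) (nat_lit 17) (nat_lit 5) (nat_lit 16) (nat_lit 4) (nat_lit 368) (nat_lit 350) (nat_lit 302)) (XT.nd (nat_lit 78) (nat_lit 0) (nat_lit 0) (XT.lf (nat_lit 0) (nat_lit 15236580122) (nat_lit 76) (nat_lit 11617881726) (nat_lit 152) (nat_lit 54503294560) (nat_lit 14) (nat_lit 5) (nat_lit 15) (nat_lit 5) (nat_lit 16) (nat_lit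 4) (nat_lit 369) (nat_lit 350) (nat_lit 301)) (XT.lf (nat_lit 0) (nat_lit 51901838367) (nat_lit 152) (nat_lit 22726067940) (nat_lit 0) (nat_lit 14939749645) (nat_lit 14) (nat_lit 5) (nat_lit 16) (nat_lit 4) (nat_lit 14) (nat_lit 4) (nat_lit 370) (nat_lit 350) (nat_lit 300)))) (XT.nd (nat_lit 78) (nat_lit 152) (nat_lit 0) (XT.lf (nat_lit 0) (nat_lit 29212111904) (nat_lit 76) (nat_lit 53250048332) (nat_lit 76) (nat_lit 16283506548) (nat_lit 13) (nat_lit 4) (nat_lit 14) (nat_lit 5) (nat_lit 14) (nat_lit 4) (nat_lit 371) (nat_lit 350) (nat_lit 299)) (XT.nd (nat_lit 78) (nat_lit 76) (nat_lit 0) (XT.lf (nat_lit 0) (nat_lit 8804255695) (nat_lit 152) (nat_lit 18041264267) (nat_lit 76) (nat_lit 82217633595) (nat_lit 12) (nat_lit 5) (nat_lit 14) (nat_lit 5) (nat_lit 13) (nat_lit 4) (nat_lit 372) (nat_lit 350) (nat_lit 298)) (XT.lf (nat_lit 0) (nat_lit 38087661689) (nat_lit 152) (nat_lit 76472804658)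 (nat_lit 0) (nat_lit 5936547629) (nat_lit 11) (nat_lit 5) (nat_lit 13) (nat_lit 4) (nat_lit 11) (nat_lit 4) (nat_lit 373) (nat_lit 350) (nat_lit 297)))))) (XT.nd (nat_lit 468) (nat_lit 228) (nat_lit 0) (XT.nd (nat_lit 234) (nat_lit 152) (nat_lit 0) (XT.nd (nat_lit 78) (nat_lit 152) (nat_lit 0) (XT.lf (nat_lit 0) (nat_lit 74023953689) (nat_lit 152) (nat_lit 17412651178) (nat_lit 0) (nat_lit 41870293576) (nat_lit 11) (nat_lit 5) (nat_lit 13) (nat_lit 4) (nat_lit 11) (nat_lit 4) (nat_lit 374) (nat_lit 350) (nat_lit 296)) (XT.nd (nat_lit 78) (nat_lit 76) (nat_lit 0) (XT.lf (nat_lit 0) (nat_lit 55430947529) (nat_lit 76) (nat_lit 62209839304) (nat_lit 76) (nat_lit 30053965231) (nat_lit 10) (nat_lit 4) (nat_lit 11) (nat_lit 5) (nat_lit 11) (nat_lit 4) (nat_lit 375) (nat_lit 350) (nat_lit 295)) (XT.lf (nat_lit 0) (nat_lit 4190880889) (nat_lit 152) (nat_lit 23147405341) (nat_lit 76) (nat_lit 136738130695)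 (nat_lit 9) (nat_lit 5) (nat_lit 11) (nat_lit 5) (nat_lit 10) (nat_lit 4) (nat_lit 376) (nat_lit 350) (nat_lit 294)))) (XT.nd (nat_lit 78) (nat_lit 76) (nat_lit 0) (XT.lf (nat_lit 0) (nat_lit 43701615370) (nat_lit 152) (nat_lit 122781272470) (nat_lit 0) (nat_lit 15736855956) (nat_lit 8) (nat_lit 5) (nat_lit 10) (nat_lit 4) (nat_lit 8) (nat_lit 4) (nat_lit 377) (nat_lit 350) (nat_lit 293)) (XT.nd (nat_lit 78) (nat_lit 76) (nat_lit 0) (XT.lf (nat_lit 0) (nat_lit 91703941565) (nat_lit 152) (nat_lit 47257965211) (nat_lit 0) (nat_lit 63737916312) (nat_lit 8) (nat_lit 5) (nat_lit 10) (nat_lit 4) (nat_lit 8) (nat_lit 4) (nat_lit 378) (nat_lit 350) (nat_lit 292)) (XT.lf (nat_lit 0) (nat_lit 43454517833) (nat_lit 76) (nat_lit 105247598972) (nat_lit 76) (nat_lit 77280472991) (nat_lit 7) (nat_lit 4) (nat_lit 8) (nat_lit 5) (nat_lit 8) (nat_lit 4) (nat_lit 379) (nat_lit 350) (nat_lit 291))))) (XT.nd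 (nat_lit 234) (nat_lit 76) (nat_lit 0) (XT.nd (nat_lit 78) (nat_lit 152) (nat_lit 0) (XT.lf (nat_lit 0) (nat_lit 153077443224) (nat_lit 76) (nat_lit 63639208447) (nat_lit 76) (nat_lit 35671125309) (nat_lit 7) (nat_lit 4) (nat_lit 8) (nat_lit 5) (nat_lit 8) (nat_lit 4) (nat_lit 380) (nat_lit 350) (nat_lit 290)) (XT.nd (nat_lit 78) (nat_lit 76) (nat_lit 0) (XT.lf (nat_lit 0) (nat_lit 11091967037) (nat_lit 152) (nat_lit 4121186316) (nat_lit 76) (nat_lit 267465440866) (nat_lit 6) (nat_lit 5) (nat_lit 8) (nat_lit 5) (nat_lit 7) (nat_lit 4) (nat_lit 381) (nat_lit 350) (nat_lit 289)) (XT.lf (nat_lit 0) (nat_lit 67906707592) (nat_lit 152) (nat_lit 204762866582) (nat_lit 0) (nat_lit 43585282206) (nat_lit 5) (nat_lit 5) (nat_lit 7) (nat_lit 4) (nat_lit 5) (nat_lit 4) (nat_lit 382) (nat_lit 350) (nat_lit 288)))) (XT.nd (nat_lit 78) (nat_lit 76) (nat_lit 0) (XT.lf (nat_lit 0) (nat_lit 134190890153)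 (nat_lit 152) (nat_lit 110665665832) (nat_lit 0) (nat_lit 109868917510) (nat_lit 5) (nat_lit 5) (nat_lit 7) (nat_lit 4) (nat_lit 5) (nat_lit 4) (nat_lit 383) (nat_lit 350) (nat_lit 287)) (XT.nd (nat_lit 78) (nat_lit 76) (nat_lit 0) (XT.lf (nat_lit 0) (nat_lit 210415187956) (nat_lit 152) (nat_lit 2459132838) (nat_lit 0) (nat_lit 186092739438) (nat_lit 5) (nat_lit 5) (nat_lit 7) (nat_lit 4) (nat_lit 5) (nat_lit 4) (nat_lit 384) (nat_lit 350) (nat_lit 286)) (XT.lf (nat_lit 0) (nat_lit 133893985194) (nat_lit 76) (nat_lit 169721225162) (nat_lit 76) (nat_lit 145398362838) (nat_lit 4) (nat_lit 4) (nat_lit 5) (nat_lit 5) (nat_lit 5) (nat_lit 4) (nat_lit 385) (nat_lit 350) (nat_lit 285))))))))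
noncomputable def xc67 : XT := (XT.nd (nat_lit 1794) (nat_lit 0) (nat_lit 0) (XT.nd (nat_lit 858) (nat_lit 0) (nat_lit 0) (XT.nd (nat_lit 390) (nat_lit 76) (nat_lit 0) (XT.nd (nat_lit 156) (nat_lit 152) (nat_lit 0) (XT.nd (nat_lit 78) (nat_lit 0) (nat_lit 0) (XT.lf (nat_lit 0) (nat_lit 290972087991) (nat_lit 76) (nat_lit 119949613795) (nat_lit 76) (nat_lit 95626391641) (nat_lit 4) (nat_lit 4) (nat_lit 5) (nat_lit 5) (nat_lit 5) (nat_lit 4) (nat_lit 386) (nat_lit 350) (nat_lit 284)) (XT.lf (nat_lit 0) (nat_lit 471608118435) (nat_lit 76) (nat_lit 62714239878) (nat_lit 76) (nat_lit 38390704828) (nat_lit 4) (nat_lit 4) (nat_lit 5) (nat_lit 5) (nat_lit 5) (nat_lit 4) (nat_lit 387) (nat_lit 350) (nat_lit 283))) (XT.nd (nat_lit 78) (nat_lit 0) (nat_lit 0) (XT.lf (nat_lit 0) (nat_lit 26569173040) (nat_lit 152) (nat_lit 616408062814) (nat_lit 0) (nat_lit 5418036402) (nat_lit 2) (nat_lit 5) (nat_lit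 4) (nat_lit 4) (nat_lit 2) (nat_lit 4) (nat_lit 388) (nat_lit 350) (nat_lit 282)) (XT.nd (nat_lit 78) (nat_lit 0) (nat_lit 0) (XT.lf (nat_lit 0) (nat_lit 105864006463) (nat_lit 152) (nat_lit 543300705345) (nat_lit 0) (nat_lit 84712664091) (nat_lit 2) (nat_lit 5) (nat_lit 4) (nat_lit 4) (nat_lit 2) (nat_lit 4) (nat_lit 389) (nat_lit 350) (nat_lit 281)) (XT.lf (nat_lit 0) (nat_lit 197051638003) (nat_lit 152) (nat_lit 459230254476) (nat_lit 0) (nat_lit 175900116732) (nat_lit 2) (nat_lit 5) (nat_lit 4) (nat_lit 4) (nat_lit 2) (nat_lit 4) (nat_lit 390) (nat_lit 350) (nat_lit 280))))) (XT.nd (nat_lit 234) (nat_lit 76) (nat_lit 0) (XT.nd (nat_lit 78) (nat_lit 0) (nat_lit 0) (XT.lf (nat_lit 0) (nat_lit 301916173495) (nat_lit 152) (nat_lit 362551853559) (nat_lit 0) (nat_lit 280764496659) (nat_lit 2) (nat_lit 5) (nat_lit 4) (nat_lit 4) (nat_lit 2) (nat_lit 4) (nat_lit 391) (nat_lit 350) (nat_lit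 279)) (XT.nd (nat_lit 78) (nat_lit 0) (nat_lit 0) (XT.lf (nat_lit 0) (nat_lit 422509310372) (nat_lit 152) (nat_lit 251373968663) (nat_lit 0) (nat_lit 401357498263) (nat_lit 2) (nat_lit 5) (nat_lit 4) (nat_lit 4) (nat_lit 2) (nat_lit 4) (nat_lit 392) (nat_lit 350) (nat_lit 278)) (XT.lf (nat_lit 0) (nat_lit 561190479573) (nat_lit 152) (nat_lit 123521380302) (nat_lit 0) (nat_lit 540038549835) (nat_lit 2) (nat_lit 5) (nat_lit 4) (nat_lit 4) (nat_lit 2) (nat_lit 4) (nat_lit 393) (nat_lit 350) (nat_lit 277)))) (XT.nd (nat_lit 78) (nat_lit 0) (nat_lit 0) (XT.lf (nat_lit 0) (nat_lit 25804686878) (nat_lit 76) (nat_lit 695936838497) (nat_lit 76) (nat_lit 674784806473) (nat_lit 1) (nat_lit 4) (nat_lit 2) (nat_lit 5) (nat_lit 2) (nat_lit 4) (nat_lit 394) (nat_lit 350) (nat_lit 276)) (XT.nd (nat_lit 78) (nat_lit 0) (nat_lit 0) (XT.lf (nat_lit 0) (nat_lit 211410140029) (nat_lit 76) (nat_lit 701421109998)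 (nat_lit 76) (nat_lit 680268989030) (nat_lit 1) (nat_lit 4) (nat_lit 2) (nat_lit 5) (nat_lit 2) (nat_lit 4) (nat_lit 395) (nat_lit 350) (nat_lit 275)) (XT.lf (nat_lit 0) (nat_lit 424854982568) (nat_lit 76) (nat_lit 707728774767) (nat_lit 76) (nat_lit 686576576455) (nat_lit 1) (nat_lit 4) (nat_lit 2) (nat_lit 5) (nat_lit 2) (nat_lit 4) (nat_lit 396) (nat_lit 350) (nat_lit 274)))))) (XT.nd (nat_lit 468) (nat_lit 0) (nat_lit 0) (XT.nd (nat_lit 234) (nat_lit 0) (nat_lit 0) (XT.nd (nat_lit 78) (nat_lit 0) (nat_lit 0) (XT.lf (nat_lit 0) (nat_lit 670315309242) (nat_lit 76) (nat_lit 714983243635) (nat_lit 76) (nat_lit 693830978068) (nat_lit 1) (nat_lit 4) (nat_lit 2) (nat_lit 5) (nat_lit 2) (nat_lit 4) (nat_lit 397) (nat_lit 350) (nat_lit 273)) (XT.nd (nat_lit 78) (nat_lit 0) (nat_lit 0) (XT.lf (nat_lit 0) (nat_lit 952593604703) (nat_lit 76) (nat_lit 723326451864) (nat_lit 76) (nat_lit 702174127814)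 (nat_lit 1) (nat_lit 4) (nat_lit 2) (nat_lit 5) (nat_lit 2) (nat_lit 4) (nat_lit 398) (nat_lit 350) (nat_lit 272)) (XT.lf (nat_lit 0) (nat_lit 1277212705165) (nat_lit 76) (nat_lit 732921636136) (nat_lit 76) (nat_lit 711769261232) (nat_lit 1) (nat_lit 4) (nat_lit 2) (nat_lit 5) (nat_lit 2) (nat_lit 4) (nat_lit 399) (nat_lit 350) (nat_lit 271)))) (XT.nd (nat_lit 78) (nat_lit 0) (nat_lit 0) (XT.lf (nat_lit 0) (nat_lit 1650523853900) (nat_lit 76) (nat_lit 743956528317) (nat_lit 76) (nat_lit 722804109192) (nat_lit 1) (nat_lit 4) (nat_lit 2) (nat_lit 5) (nat_lit 2) (nat_lit 4) (nat_lit 400) (nat_lit 350) (nat_lit 270)) (XT.nd (nat_lit 78) (nat_lit 0) (nat_lit 0) (XT.lf (nat_lit 0) (nat_lit 2079830964687) (nat_lit 76) (nat_lit 756647028471) (nat_lit 76) (nat_lit 735494570893) (nat_lit 1) (nat_lit 4) (nat_lit 2) (nat_lit 5) (nat_lit 2) (nat_lit 4) (nat_lit 401) (nat_lit 350) (nat_lit 269)) (XT.lf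 (nat_lit 0) (nat_lit 2573533524475) (nat_lit 76) (nat_lit 771241428994) (nat_lit 76) (nat_lit 750088937978) (nat_lit 1) (nat_lit 4) (nat_lit 2) (nat_lit 5) (nat_lit 2) (nat_lit 4) (nat_lit 402) (nat_lit 350) (nat_lit 268))))) (XT.nd (nat_lit 234) (nat_lit 0) (nat_lit 0) (XT.nd (nat_lit 78) (nat_lit 0) (nat_lit 0) (XT.lf (nat_lit 0) (nat_lit 3141290931174) (nat_lit 76) (nat_lit 788025272504) (nat_lit 76) (nat_lit 766872752412) (nat_lit 1) (nat_lit 4) (nat_lit 2) (nat_lit 5) (nat_lit 2) (nat_lit 4) (nat_lit 403) (nat_lit 350) (nat_lit 267)) (XT.nd (nat_lit 78) (nat_lit 0) (nat_lit 0) (XT.lf (nat_lit 0) (nat_lit 3794211481871) (nat_lit 76) (nat_lit 807326938547) (nat_lit 76) (nat_lit 786174393172) (nat_lit 1) (nat_lit 4) (nat_lit 2) (nat_lit 5) (nat_lit 2) (nat_lit 4) (nat_lit 404) (nat_lit 350) (nat_lit 266)) (XT.lf (nat_lit 0) (nat_lit 4545069709081) (nat_lit 76) (nat_lit 829524068417)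 (nat_lit 76) (nat_lit 808371501056) (nat_lit 1) (nat_lit 4) (nat_lit 2) (nat_lit 5) (nat_lit 2) (nat_lit 4) (nat_lit 405) (nat_lit 350) (nat_lit 265)))) (XT.nd (nat_lit 78) (nat_lit 0) (nat_lit 0) (XT.lf (nat_lit 0) (nat_lit 5408556317248) (nat_lit 76) (nat_lit 855050953783) (nat_lit 76) (nat_lit 833898367304) (nat_lit 1) (nat_lit 4) (nat_lit 2) (nat_lit 5) (nat_lit 2) (nat_lit 4) (nat_lit 406) (nat_lit 350) (nat_lit 264)) (XT.nd (nat_lit 78) (nat_lit 0) (nat_lit 0) (XT.lf (nat_lit 0) (nat_lit 6401565609575) (nat_lit 76) (nat_lit 884407033709) (nat_lit 76) (nat_lit 863254430606) (nat_lit 1) (nat_lit 4) (nat_lit 2) (nat_lit 5) (nat_lit 2) (nat_lit 4) (nat_lit 407) (nat_lit 350) (nat_lit 263)) (XT.lf (nat_lit 0) (nat_lit 7543526028739) (nat_lit 76) (nat_lit 918166666279) (nat_lit 76) (nat_lit 897014048720) (nat_lit 1) (nat_lit 4) (nat_lit 2) (nat_lit 5) (nat_lit 2) (nat_lit 4) (nat_lit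 408) (nat_lit 350) (nat_lit 262))))))) (XT.nd (nat_lit 858) (nat_lit 0) (nat_lit 0) (XT.nd (nat_lit 390) (nat_lit 0) (nat_lit 0) (XT.nd (nat_lit 156) (nat_lit 0) (nat_lit 0) (XT.nd (nat_lit 78) (nat_lit 0) (nat_lit 0) (XT.lf (nat_lit 0) (nat_lit 8856780278593) (nat_lit 76) (nat_lit 956990366044) (nat_lit 76) (nat_lit 935837735914) (nat_lit 1) (nat_lit 4) (nat_lit 2) (nat_lit 5) (nat_lit 2) (nat_lit 4) (nat_lit 409) (nat_lit 350) (nat_lit 261)) (XT.lf (nat_lit 0) (nat_lit 10367022464026) (nat_lit 76) (nat_lit 1001637727130) (nat_lit 76) (nat_lit 980485086069) (nat_lit 1) (nat_lit 4) (nat_lit 2) (nat_lit 5) (nat_lit 2) (nat_lit 4) (nat_lit 410) (nat_lit 350) (nat_lit 260))) (XT.nd (nat_lit 78) (nat_lit 0) (nat_lit 0) (XT.lf (nat_lit 0) (nat_lit 12103800801708) (nat_lit 76) (nat_lit 1052982284861) (nat_lit 76) (nat_lit 1031829634295) (nat_lit 1) (nat_lit 4) (nat_lit 2) (nat_lit 5) (nat_lit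 2) (nat_lit 4) (nat_lit 411) (nat_lit 350) (nat_lit 259)) (XT.nd (nat_lit 78) (nat_lit 0) (nat_lit 0) (XT.lf (nat_lit 0) (nat_lit 14101095737377) (nat_lit 76) (nat_lit 1112028606673) (nat_lit 76) (nat_lit 1090875947842) (nat_lit 1) (nat_lit 4) (nat_lit 2) (nat_lit 5) (nat_lit 2) (nat_lit 4) (nat_lit 412) (nat_lit 350) (nat_lit 258)) (XT.lf (nat_lit 0) (nat_lit 16397984780644) (nat_lit 76) (nat_lit 1179931946686) (nat_lit 76) (nat_lit 1158779280668) (nat_lit 1) (nat_lit 4) (nat_lit 2) (nat_lit 5) (nat_lit 2) (nat_lit 4) (nat_lit 413) (nat_lit 350) (nat_lit 257))))) (XT.nd (nat_lit 234) (nat_lit 0) (nat_lit 0) (XT.nd (nat_lit 78) (nat_lit 0) (nat_lit 0) (XT.lf (nat_lit 0) (nat_lit 19039407064964) (nat_lit 76) (nat_lit 1258020848512) (nat_lit 76) (nat_lit 1236868176244) (nat_lit 1) (nat_lit 4) (nat_lit 2) (nat_lit 5) (nat_lit 2) (nat_lit 4) (nat_lit 414) (nat_lit 350) (nat_lit 256)) (XT.nd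 (nat_lit 78) (nat_lit 0) (nat_lit 0) (XT.lf (nat_lit 0) (nat_lit 22077042591553) (nat_lit 76) (nat_lit 1347823138488) (nat_lit 76) (nat_lit 1326670460786) (nat_lit 1) (nat_lit 4) (nat_lit 2) (nat_lit 5) (nat_lit 2) (nat_lit 4) (nat_lit 415) (nat_lit 350) (nat_lit 255)) (XT.lf (nat_lit 0) (nat_lit 25570323359842) (nat_lit 76) (nat_lit 1451095817942) (nat_lit 76) (nat_lit 1429943135514) (nat_lit 1) (nat_lit 4) (nat_lit 2) (nat_lit 5) (nat_lit 2) (nat_lit 4) (nat_lit 416) (nat_lit 350) (nat_lit 254)))) (XT.nd (nat_lit 78) (nat_lit 0) (nat_lit 0) (XT.lf (nat_lit 0) (nat_lit 29587596167474) (nat_lit 76) (nat_lit 1569859439297) (nat_lit 76) (nat_lit 1548706752759) (nat_lit 1) (nat_lit 4) (nat_lit 2) (nat_lit 5) (nat_lit 2) (nat_lit 4) (nat_lit 417) (nat_lit 350) (nat_lit 253)) (XT.nd (nat_lit 78) (nat_lit 0) (nat_lit 0) (XT.lf (nat_lit 0) (nat_lit 34207459830249) (nat_lit 76) (nat_lit 1706437638623)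 (nat_lit 76) (nat_lit 1685284948512) (nat_lit 1) (nat_lit 4) (nat_lit 2) (nat_lit 5) (nat_lit 2) (nat_lit 4) (nat_lit 418) (nat_lit 350) (nat_lit 252)) (XT.lf (nat_lit 0) (nat_lit 39520302985048) (nat_lit 76) (nat_lit 1863502598080) (nat_lit 76) (nat_lit 1842349904863) (nat_lit 1) (nat_lit 4) (nat_lit 2) (nat_lit 5) (nat_lit 2) (nat_lit 4) (nat_lit 419) (nat_lit 350) (nat_lit 251)))))) (XT.nd (nat_lit 47736) (nat_lit 0) (nat_lit 1976) (XT.nd (nat_lit 234) (nat_lit 0) (nat_lit 0) (XT.nd (nat_lit 78) (nat_lit 0) (nat_lit 0) (XT.lf (nat_lit 0) (nat_lit 45630072563160) (nat_lit 76) (nat_lit 2044127327746) (nat_lit 76) (nat_lit 2022974631827) (nat_lit 1) (nat_lit 4) (nat_lit 2) (nat_lit 5) (nat_lit 2) (nat_lit 4) (nat_lit 420) (nat_lit 350) (nat_lit 250)) (XT.nd (nat_lit 78) (nat_lit 0) (nat_lit 0) (XT.lf (nat_lit 0) (nat_lit 52656307534592) (nat_lit 76) (nat_lit 2251845789723) (nat_lit 76)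 (nat_lit 2230693091453) (nat_lit 1) (nat_lit 4) (nat_lit 2) (nat_lit 5) (nat_lit 2) (nat_lit 4) (nat_lit 421) (nat_lit 350) (nat_lit 249)) (XT.lf (nat_lit 0) (nat_lit 60736477714002) (nat_lit 76) (nat_lit 2490722040874) (nat_lit 76) (nat_lit 2469569340562) (nat_lit 1) (nat_lit 4) (nat_lit 2) (nat_lit 5) (nat_lit 2) (nat_lit 4) (nat_lit 422) (nat_lit 350) (nat_lit 248)))) (XT.nd (nat_lit 78) (nat_lit 0) (nat_lit 0) (XT.lf (nat_lit 0) (nat_lit 70028673387510) (nat_lit 76) (nat_lit 2765429746984) (nat_lit 76) (nat_lit 2744277044895) (nat_lit 1) (nat_lit 4) (nat_lit 2) (nat_lit 5) (nat_lit 2) (nat_lit 4) (nat_lit 423) (nat_lit 350) (nat_lit 247)) (XT.nd (nat_lit 2028) (nat_lit 0) (nat_lit 0) (XT.lf (nat_lit 0) (nat_lit 80714698383509) (nat_lit 76) (nat_lit 3081343624041) (nat_lit 76) (nat_lit 3060190920408) (nat_lit 1) (nat_lit 4) (nat_lit 2) (nat_lit 5) (nat_lit 2) (nat_lit 4) (nat_lit 424)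 (nat_lit 350) (nat_lit 246)) (XT.lf (nat_lit 0) (nat_lit 3100251566223468) (nat_lit 76) (nat_lit 92348750766884) (nat_lit 76) (nat_lit 92327598053218) (nat_lit 1) (nat_lit 4) (nat_lit 2) (nat_lit 5) (nat_lit 2) (nat_lit 4) (nat_lit 450) (nat_lit 350) (nat_lit 220))))) (XT.nd (nat_lit 234) (nat_lit 152) (nat_lit 0) (XT.nd (nat_lit 78) (nat_lit 0) (nat_lit 0) (XT.lf (nat_lit 0) (nat_lit 2045187625) (nat_lit 380) (nat_lit 3726528424) (nat_lit 380) (nat_lit 3726528424) (nat_lit 29) (nat_lit 3) (nat_lit 34) (nat_lit 3) (nat_lit 34) (nat_lit 5) (nat_lit 351) (nat_lit 351) (nat_lit 318)) (XT.nd (nat_lit 78) (nat_lit 0) (nat_lit 76) (XT.lf (nat_lit 76) (nat_lit 2027026973) (nat_lit 0) (nat_lit 2623436733) (nat_lit 380) (nat_lit 15732564342) (nat_lit 30) (nat_lit 5) (nat_lit 29) (nat_lit 3) (nat_lit 34) (nat_lit 5) (nat_lit 352) (nat_lit 351) (nat_lit 317)) (XT.lf (nat_lit 0) (nat_lit 5988385219)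 (nat_lit 304) (nat_lit 8511272084) (nat_lit 380) (nat_lit 7373853535) (nat_lit 30) (nat_lit 5) (nat_lit 34) (nat_lit 5) (nat_lit 35) (nat_lit 5) (nat_lit 353) (nat_lit 351) (nat_lit 316)))) (XT.nd (nat_lit 78) (nat_lit 228) (nat_lit 0) (XT.lf (nat_lit 76) (nat_lit 2924537709) (nat_lit 0) (nat_lit 4821999448) (nat_lit 380) (nat_lit 15808128683) (nat_lit 31) (nat_lit 5) (nat_lit 30) (nat_lit 5) (nat_lit 35) (nat_lit 5) (nat_lit 354) (nat_lit 351) (nat_lit 315)) (XT.nd (nat_lit 78) (nat_lit 304) (nat_lit 0) (XT.lf (nat_lit 0) (nat_lit 10471972226) (nat_lit 304) (nat_lit 8695215879) (nat_lit 76) (nat_lit 6215299002) (nat_lit 31) (nat_lit 5) (nat_lit 35) (nat_lit 5) (nat_lit 32) (nat_lit 5) (nat_lit 355) (nat_lit 351) (nat_lit 314)) (XT.lf (nat_lit 0) (nat_lit 5246651200) (nat_lit 304) (nat_lit 8785829737) (nat_lit 380) (nat_lit 13388085405) (nat_lit 27) (nat_lit 5) (nat_lit 31) (nat_lit 5)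 (nat_lit 32) (nat_lit 5) (nat_lit 356) (nat_lit 351) (nat_lit 313))))))))
noncomputable def xc68 : XT := (XT.nd (nat_lit 1716) (nat_lit 532) (nat_lit 0) (XT.nd (nat_lit 858) (nat_lit 684) (nat_lit 0) (XT.nd (nat_lit 390) (nat_lit 456) (nat_lit 0) (XT.nd (nat_lit 156) (nat_lit 152) (nat_lit 0) (XT.nd (nat_lit 78) (nat_lit 152) (nat_lit 0) (XT.lf (nat_lit 0) (nat_lit 18714991262) (nat_lit 380) (nat_lit 7613949591) (nat_lit 76) (nat_lit 3347248277) (nat_lit 27) (nat_lit 5) (nat_lit 32) (nat_lit 5) (nat_lit 28) (nat_lit 5) (nat_lit 357) (nat_lit 351) (nat_lit 312)) (XT.lf (nat_lit 0) (nat_lit 9541429170) (nat_lit 152) (nat_lit 15355573609) (nat_lit 228) (nat_lit 7253601657) (nat_lit 25) (nat_lit 5) (nat_lit 27) (nat_lit 5) (nat_lit 28) (nat_lit 5) (nat_lit 358) (nat_lit 351) (nat_lit 311))) (XT.nd (nat_lit 78) (nat_lit 152) (nat_lit 0) (XT.lf (nat_lit 0) (nat_lit 30107059379) (nat_lit 152)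 (nat_lit 2282274430) (nat_lit 228) (nat_lit 2549411035) (nat_lit 25) (nat_lit 5) (nat_lit 27) (nat_lit 5) (nat_lit 28) (nat_lit 5) (nat_lit 359) (nat_lit 351) (nat_lit 310)) (XT.nd (nat_lit 78) (nat_lit 0) (nat_lit 0) (XT.lf (nat_lit 0) (nat_lit 3862568913) (nat_lit 152) (nat_lit 21602103643) (nat_lit 76) (nat_lit 12474156840) (nat_lit 23) (nat_lit 5) (nat_lit 25) (nat_lit 5) (nat_lit 24) (nat_lit 5) (nat_lit 360) (nat_lit 351) (nat_lit 309)) (XT.lf (nat_lit 0) (nat_lit 11335851254) (nat_lit 152) (nat_lit 388311330) (nat_lit 76) (nat_lit 29592486665) (nat_lit 23) (nat_lit 5) (nat_lit 25) (nat_lit 5) (nat_lit 24) (nat_lit 5) (nat_lit 361) (nat_lit 351) (nat_lit 308))))) (XT.nd (nat_lit 234) (nat_lit 228) (nat_lit 0) (XT.nd (nat_lit 78) (nat_lit 76) (nat_lit 0) (XT.lf (nat_lit 0) (nat_lit 21230109476) (nat_lit 228) (nat_lit 18923784197) (nat_lit 76) (nat_lit 4852259723) (nat_lit 21) (nat_lit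 5) (nat_lit 24) (nat_lit 5) (nat_lit 22) (nat_lit 4) (nat_lit 362) (nat_lit 351) (nat_lit 307)) (XT.nd (nat_lit 78) (nat_lit 0) (nat_lit 0) (XT.lf (nat_lit 0) (nat_lit 7404431066) (nat_lit 76) (nat_lit 26079739055) (nat_lit 152) (nat_lit 15633571185) (nat_lit 20) (nat_lit 5) (nat_lit 21) (nat_lit 5) (nat_lit 22) (nat_lit 4) (nat_lit 363) (nat_lit 351) (nat_lit 306)) (XT.lf (nat_lit 0) (nat_lit 39792658771) (nat_lit 76) (nat_lit 8763089504) (nat_lit 152) (nat_lit 5143414555) (nat_lit 20) (nat_lit 5) (nat_lit 21) (nat_lit 5) (nat_lit 22) (nat_lit 4) (nat_lit 364) (nat_lit 351) (nat_lit 305)))) (XT.nd (nat_lit 78) (nat_lit 76) (nat_lit 0) (XT.lf (nat_lit 0) (nat_lit 7616586343) (nat_lit 152) (nat_lit 39812010704) (nat_lit 76) (nat_lit 11299360979) (nat_lit 18) (nat_lit 5) (nat_lit 20) (nat_lit 5) (nat_lit 19) (nat_lit 4) (nat_lit 365) (nat_lit 351) (nat_lit 304)) (XT.nd (nat_lit 78) (nat_lit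 76) (nat_lit 0) (XT.lf (nat_lit 0) (nat_lit 22934253686) (nat_lit 152) (nat_lit 6889326122) (nat_lit 76) (nat_lit 34475220317) (nat_lit 18) (nat_lit 5) (nat_lit 20) (nat_lit 5) (nat_lit 19) (nat_lit 4) (nat_lit 366) (nat_lit 351) (nat_lit 303)) (XT.lf (nat_lit 0) (nat_lit 33984103806) (nat_lit 76) (nat_lit 7965213428) (nat_lit 152) (nat_lit 28545993214) (nat_lit 17) (nat_lit 5) (nat_lit 18) (nat_lit 5) (nat_lit 19) (nat_lit 4) (nat_lit 367) (nat_lit 351) (nat_lit 302)))))) (XT.nd (nat_lit 390) (nat_lit 380) (nat_lit 0) (XT.nd (nat_lit 156) (nat_lit 152) (nat_lit 0) (XT.nd (nat_lit 78) (nat_lit 76) (nat_lit 0) (XT.lf (nat_lit 0) (nat_lit 3791495933) (nat_lit 76) (nat_lit 61263227304) (nat_lit 76) (nat_lit 12380864970) (nat_lit 16) (nat_lit 4) (nat_lit 17) (nat_lit 5) (nat_lit 17) (nat_lit 4) (nat_lit 368) (nat_lit 351) (nat_lit 301)) (XT.lf (nat_lit 0) (nat_lit 8027828717) (nat_lit 152)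 (nat_lit 31628419766) (nat_lit 76) (nat_lit 45366361161) (nat_lit 15) (nat_lit 5) (nat_lit 17) (nat_lit 5) (nat_lit 16) (nat_lit 4) (nat_lit 369) (nat_lit 351) (nat_lit 300))) (XT.nd (nat_lit 78) (nat_lit 76) (nat_lit 0) (XT.lf (nat_lit 0) (nat_lit 17660586807) (nat_lit 76) (nat_lit 13294743118) (nat_lit 152) (nat_lit 62595161577) (nat_lit 14) (nat_lit 5) (nat_lit 15) (nat_lit 5) (nat_lit 16) (nat_lit 4) (nat_lit 370) (nat_lit 351) (nat_lit 299)) (XT.nd (nat_lit 78) (nat_lit 76) (nat_lit 0) (XT.lf (nat_lit 0) (nat_lit 59752700471) (nat_lit 152) (nat_lit 26007393319) (nat_lit 0) (nat_lit 17232852126) (nat_lit 14) (nat_lit 5) (nat_lit 16) (nat_lit 4) (nat_lit 14) (nat_lit 4) (nat_lit 371) (nat_lit 351) (nat_lit 298)) (XT.lf (nat_lit 0) (nat_lit 33715714191) (nat_lit 76) (nat_lit 61177844565) (nat_lit 76) (nat_lit 18654629066) (nat_lit 13) (nat_lit 4) (nat_lit 14) (nat_lit 5) (nat_lit 14)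 (nat_lit 4) (nat_lit 372) (nat_lit 351) (nat_lit 297))))) (XT.nd (nat_lit 234) (nat_lit 228) (nat_lit 0) (XT.nd (nat_lit 78) (nat_lit 76) (nat_lit 0) (XT.lf (nat_lit 0) (nat_lit 10181456340) (nat_lit 152) (nat_lit 20636012328) (nat_lit 76) (nat_lit 94596660116) (nat_lit 12) (nat_lit 5) (nat_lit 14) (nat_lit 5) (nat_lit 13) (nat_lit 4) (nat_lit 373) (nat_lit 351) (nat_lit 296)) (XT.nd (nat_lit 78) (nat_lit 0) (nat_lit 0) (XT.lf (nat_lit 0) (nat_lit 43856586131) (nat_lit 152) (nat_lit 87831484968) (nat_lit 0) (nat_lit 6875116988) (nat_lit 11) (nat_lit 5) (nat_lit 13) (nat_lit 4) (nat_lit 11) (nat_lit 4) (nat_lit 374) (nat_lit 351) (nat_lit 295)) (XT.lf (nat_lit 0) (nat_lit 85176046906) (nat_lit 152) (nat_lit 19926948517) (nat_lit 0) (nat_lit 48192652581) (nat_lit 11) (nat_lit 5) (nat_lit 13) (nat_lit 4) (nat_lit 11) (nat_lit 4) (nat_lit 375) (nat_lit 351) (nat_lit 294)))) (XT.nd (nat_lit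 78) (nat_lit 152) (nat_lit 0) (XT.lf (nat_lit 0) (nat_lit 63838753617) (nat_lit 76) (nat_lit 71494183017) (nat_lit 76) (nat_lit 34509114621) (nat_lit 10) (nat_lit 4) (nat_lit 11) (nat_lit 5) (nat_lit 11) (nat_lit 4) (nat_lit 376) (nat_lit 351) (nat_lit 293)) (XT.nd (nat_lit 78) (nat_lit 76) (nat_lit 0) (XT.lf (nat_lit 0) (nat_lit 4861453745) (nat_lit 152) (nat_lit 26534398558) (nat_lit 76) (nat_lit 157285729359) (nat_lit 9) (nat_lit 5) (nat_lit 11) (nat_lit 5) (nat_lit 10) (nat_lit 4) (nat_lit 377) (nat_lit 351) (nat_lit 292)) (XT.lf (nat_lit 0) (nat_lit 50298407069) (nat_lit 152) (nat_lit 141112948607) (nat_lit 0) (nat_lit 18135111460) (nat_lit 8) (nat_lit 5) (nat_lit 10) (nat_lit 4) (nat_lit 8) (nat_lit 4) (nat_lit 378) (nat_lit 351) (nat_lit 291))))))) (XT.nd (nat_lit 858) (nat_lit 76) (nat_lit 0) (XT.nd (nat_lit 390) (nat_lit 228) (nat_lit 0) (XT.nd (nat_lit 156) (nat_lit 152) (nat_lit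 0) (XT.nd (nat_lit 78) (nat_lit 76) (nat_lit 0) (XT.lf (nat_lit 0) (nat_lit 105495662706) (nat_lit 152) (nat_lit 54272299355) (nat_lit 0) (nat_lit 73331409942) (nat_lit 8) (nat_lit 5) (nat_lit 10) (nat_lit 4) (nat_lit 8) (nat_lit 4) (nat_lit 379) (nat_lit 351) (nat_lit 290)) (XT.lf (nat_lit 0) (nat_lit 50043676117) (nat_lit 76) (nat_lit 120998114675) (nat_lit 76) (nat_lit 88833029602) (nat_lit 7) (nat_lit 4) (nat_lit 8) (nat_lit 5) (nat_lit 8) (nat_lit 4) (nat_lit 380) (nat_lit 351) (nat_lit 289))) (XT.nd (nat_lit 78) (nat_lit 152) (nat_lit 0) (XT.lf (nat_lit 0) (nat_lit 176100781976) (nat_lit 76) (nat_lit 73153242633) (nat_lit 76) (nat_lit 40987433813) (nat_lit 7) (nat_lit 4) (nat_lit 8) (nat_lit 5) (nat_lit 8) (nat_lit 4) (nat_lit 381) (nat_lit 351) (nat_lit 288)) (XT.nd (nat_lit 78) (nat_lit 76) (nat_lit 0) (XT.lf (nat_lit 0) (nat_lit 12782980617) (nat_lit 152) (nat_lit 4683029839)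 (nat_lit 76) (nat_lit 307610287224) (nat_lit 6) (nat_lit 5) (nat_lit 8) (nat_lit 5) (nat_lit 7) (nat_lit 4) (nat_lit 382) (nat_lit 351) (nat_lit 287)) (XT.lf (nat_lit 0) (nat_lit 78119763072) (nat_lit 152) (nat_lit 235420790447) (nat_lit 0) (nat_lit 50148471400) (nat_lit 5) (nat_lit 5) (nat_lit 7) (nat_lit 4) (nat_lit 5) (nat_lit 4) (nat_lit 383) (nat_lit 351) (nat_lit 286))))) (XT.nd (nat_lit 234) (nat_lit 152) (nat_lit 0) (XT.nd (nat_lit 78) (nat_lit 76) (nat_lit 0) (XT.lf (nat_lit 0) (nat_lit 154343044842) (nat_lit 152) (nat_lit 127216379948) (nat_lit 0) (nat_lit 126371339366) (nat_lit 5) (nat_lit 5) (nat_lit 7) (nat_lit 4) (nat_lit 5) (nat_lit 4) (nat_lit 384) (nat_lit 351) (nat_lit 285)) (XT.nd (nat_lit 78) (nat_lit 76) (nat_lit 0) (XT.lf (nat_lit 0) (nat_lit 241997919338) (nat_lit 152) (nat_lit 2785276017) (nat_lit 0) (nat_lit 214025854031) (nat_lit 5) (nat_lit 5) (nat_lit 7) (nat_lit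 4) (nat_lit 5) (nat_lit 4) (nat_lit 385) (nat_lit 351) (nat_lit 284)) (XT.lf (nat_lit 0) (nat_lit 154018867596) (nat_lit 76) (nat_lit 195158098499) (nat_lit 76) (nat_lit 167185720296) (nat_lit 4) (nat_lit 4) (nat_lit 5) (nat_lit 5) (nat_lit 5) (nat_lit 4) (nat_lit 386) (nat_lit 351) (nat_lit 283)))) (XT.nd (nat_lit 78) (nat_lit 152) (nat_lit 0) (XT.lf (nat_lit 0) (nat_lit 334653366079) (nat_lit 76) (nat_lit 137923525049) (nat_lit 76) (nat_lit 109950874763) (nat_lit 4) (nat_lit 4) (nat_lit 5) (nat_lit 5) (nat_lit 5) (nat_lit 4) (nat_lit 387) (nat_lit 351) (nat_lit 282)) (XT.nd (nat_lit 78) (nat_lit 152) (nat_lit 0) (XT.lf (nat_lit 0) (nat_lit 542380175234) (nat_lit 76) (nat_lit 72105262108) (nat_lit 76) (nat_lit 44132375227) (nat_lit 4) (nat_lit 4) (nat_lit 5) (nat_lit 5) (nat_lit 5) (nat_lit 4) (nat_lit 388) (nat_lit 351) (nat_lit 281)) (XT.lf (nat_lit 0) (nat_lit 30569913019) (nat_lit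 152) (nat_lit 708836859867) (nat_lit 0) (nat_lit 6245484658) (nat_lit 2) (nat_lit 5) (nat_lit 4) (nat_lit 4) (nat_lit 2) (nat_lit 4) (nat_lit 389) (nat_lit 351) (nat_lit 280)))))) (XT.nd (nat_lit 468) (nat_lit 0) (nat_lit 0) (XT.nd (nat_lit 234) (nat_lit 76) (nat_lit 0) (XT.nd (nat_lit 78) (nat_lit 0) (nat_lit 0) (XT.lf (nat_lit 0) (nat_lit 121756967453) (nat_lit 152) (nat_lit 624767626478) (nat_lit 0) (nat_lit 97432383527) (nat_lit 2) (nat_lit 5) (nat_lit 4) (nat_lit 4) (nat_lit 2) (nat_lit 4) (nat_lit 390) (nat_lit 351) (nat_lit 279)) (XT.nd (nat_lit 78) (nat_lit 0) (nat_lit 0) (XT.lf (nat_lit 0) (nat_lit 226621001113) (nat_lit 152) (nat_lit 528090284240) (nat_lit 0) (nat_lit 202296281914) (nat_lit 2) (nat_lit 5) (nat_lit 4) (nat_lit 4) (nat_lit 2) (nat_lit 4) (nat_lit 391) (nat_lit 351) (nat_lit 278)) (XT.lf (nat_lit 0) (nat_lit 347213701614) (nat_lit 152) (nat_lit 416913319934) (nat_lit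 0) (nat_lit 322888864786) (nat_lit 2) (nat_lit 5) (nat_lit 4) (nat_lit 4) (nat_lit 2) (nat_lit 4) (nat_lit 392) (nat_lit 351) (nat_lit 277)))) (XT.nd (nat_lit 78) (nat_lit 76) (nat_lit 0) (XT.lf (nat_lit 0) (nat_lit 485894491358) (nat_lit 152) (nat_lit 289061532085) (nat_lit 0) (nat_lit 461569552244) (nat_lit 2) (nat_lit 5) (nat_lit 4) (nat_lit 4) (nat_lit 2) (nat_lit 4) (nat_lit 393) (nat_lit 351) (nat_lit 276)) (XT.nd (nat_lit 78) (nat_lit 76) (nat_lit 0) (XT.lf (nat_lit 0) (nat_lit 645376690144) (nat_lit 152) (nat_lit 142033472671) (nat_lit 0) (nat_lit 621051662085) (nat_lit 2) (nat_lit 5) (nat_lit 4) (nat_lit 4) (nat_lit 2) (nat_lit 4) (nat_lit 394) (nat_lit 351) (nat_lit 275)) (XT.lf (nat_lit 0) (nat_lit 29690772101) (nat_lit 76) (nat_lit 800319261317) (nat_lit 76) (nat_lit 775994155915) (nat_lit 1) (nat_lit 4) (nat_lit 2) (nat_lit 5) (nat_lit 2) (nat_lit 4) (nat_lit 395) (nat_lit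 351) (nat_lit 274))))) (XT.nd (nat_lit 234) (nat_lit 0) (nat_lit 0) (XT.nd (nat_lit 78) (nat_lit 0) (nat_lit 0) (XT.lf (nat_lit 0) (nat_lit 243135036851) (nat_lit 76) (nat_lit 806627230450) (nat_lit 76) (nat_lit 782302057793) (nat_lit 1) (nat_lit 4) (nat_lit 2) (nat_lit 5) (nat_lit 2) (nat_lit 4) (nat_lit 396) (nat_lit 351) (nat_lit 273)) (XT.nd (nat_lit 78) (nat_lit 0) (nat_lit 0) (XT.lf (nat_lit 0) (nat_lit 488594861100) (nat_lit 76) (nat_lit 813881963983) (nat_lit 76) (nat_lit 789556732844) (nat_lit 1) (nat_lit 4) (nat_lit 2) (nat_lit 5) (nat_lit 2) (nat_lit 4) (nat_lit 397) (nat_lit 351) (nat_lit 272)) (XT.lf (nat_lit 0) (nat_lit 770872719669) (nat_lit 76) (nat_lit 822225402356) (nat_lit 76) (nat_lit 797900120362) (nat_lit 1) (nat_lit 4) (nat_lit 2) (nat_lit 5) (nat_lit 2) (nat_lit 4) (nat_lit 398) (nat_lit 351) (nat_lit 271)))) (XT.nd (nat_lit 78) (nat_lit 0) (nat_lit 0) (XT.lf (nat_lit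 0) (nat_lit 1095491440226) (nat_lit 76) (nat_lit 831820786752) (nat_lit 76) (nat_lit 807495460538) (nat_lit 1) (nat_lit 4) (nat_lit 2) (nat_lit 5) (nat_lit 2) (nat_lit 4) (nat_lit 399) (nat_lit 351) (nat_lit 270)) (XT.nd (nat_lit 78) (nat_lit 0) (nat_lit 0) (XT.lf (nat_lit 0) (nat_lit 1468802258608) (nat_lit 76) (nat_lit 842855852955) (nat_lit 76) (nat_lit 818530488287) (nat_lit 1) (nat_lit 4) (nat_lit 2) (nat_lit 5) (nat_lit 2) (nat_lit 4) (nat_lit 400) (nat_lit 351) (nat_lit 269)) (XT.lf (nat_lit 0) (nat_lit 1898109082131) (nat_lit 76) (nat_lit 855546504433) (nat_lit 76) (nat_lit 831221106327) (nat_lit 1) (nat_lit 4) (nat_lit 2) (nat_lit 5) (nat_lit 2) (nat_lit 4) (nat_lit 401) (nat_lit 351) (nat_lit 268))))))))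
noncomputable def xc69 : XT := (XT.nd (nat_lit 1794) (nat_lit 0) (nat_lit 0) (XT.nd (nat_lit 858) (nat_lit 0) (nat_lit 0) (XT.nd (nat_lit 390) (nat_lit 0) (nat_lit 0) (XT.nd (nat_lit 156) (nat_lit 0) (nat_lit 0) (XT.nd (nat_lit 78) (nat_lit 0) (nat_lit 0) (XT.lf (nat_lit 0) (nat_lit 2391811392125) (nat_lit 76) (nat_lit 870141036541) (nat_lit 76) (nat_lit 845815609359) (nat_lit 1) (nat_lit 4) (nat_lit 2) (nat_lit 5) (nat_lit 2) (nat_lit 4) (nat_lit 402) (nat_lit 351) (nat_lit 267)) (XT.lf (nat_lit 0) (nat_lit 2959568581612) (nat_lit 76) (nat_lit 886924994473) (nat_lit 76) (nat_lit 862599542007) (nat_lit 1) (nat_lit 4) (nat_lit 2) (nat_lit 5) (nat_lit 2) (nat_lit 4) (nat_lit 403) (nat_lit 351) (nat_lit 266))) (XT.nd (nat_lit 78) (nat_lit 0) (nat_lit 0) (XT.lf (nat_lit 0) (nat_lit 3612488943429) (nat_lit 76) (nat_lit 906226760014) (nat_lit 76) (nat_lit 881901285563) (nat_lit 1) (nat_lit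 4) (nat_lit 2) (nat_lit 5) (nat_lit 2) (nat_lit 4) (nat_lit 404) (nat_lit 351) (nat_lit 265)) (XT.nd (nat_lit 78) (nat_lit 0) (nat_lit 0) (XT.lf (nat_lit 0) (nat_lit 4363347006395) (nat_lit 76) (nat_lit 928423976403) (nat_lit 76) (nat_lit 904098482834) (nat_lit 1) (nat_lit 4) (nat_lit 2) (nat_lit 5) (nat_lit 2) (nat_lit 4) (nat_lit 405) (nat_lit 351) (nat_lit 264)) (XT.lf (nat_lit 0) (nat_lit 5226833471741) (nat_lit 76) (nat_lit 953950937004) (nat_lit 76) (nat_lit 929625426810) (nat_lit 1) (nat_lit 4) (nat_lit 2) (nat_lit 5) (nat_lit 2) (nat_lit 4) (nat_lit 406) (nat_lit 351) (nat_lit 263))))) (XT.nd (nat_lit 234) (nat_lit 0) (nat_lit 0) (XT.nd (nat_lit 78) (nat_lit 0) (nat_lit 0) (XT.lf (nat_lit 0) (nat_lit 6219842639876) (nat_lit 76) (nat_lit 983307082351) (nat_lit 76) (nat_lit 958981557701) (nat_lit 1) (nat_lit 4) (nat_lit 2) (nat_lit 5) (nat_lit 2) (nat_lit 4) (nat_lit 407) (nat_lit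 351) (nat_lit 262)) (XT.nd (nat_lit 78) (nat_lit 0) (nat_lit 0) (XT.lf (nat_lit 0) (nat_lit 7361802951048) (nat_lit 76) (nat_lit 1017066771809) (nat_lit 76) (nat_lit 992741234589) (nat_lit 1) (nat_lit 4) (nat_lit 2) (nat_lit 5) (nat_lit 2) (nat_lit 4) (nat_lit 408) (nat_lit 351) (nat_lit 261)) (XT.lf (nat_lit 0) (nat_lit 8675057106995) (nat_lit 76) (nat_lit 1055890521042) (nat_lit 76) (nat_lit 1031564972891) (nat_lit 1) (nat_lit 4) (nat_lit 2) (nat_lit 5) (nat_lit 2) (nat_lit 4) (nat_lit 409) (nat_lit 351) (nat_lit 260)))) (XT.nd (nat_lit 78) (nat_lit 0) (nat_lit 0) (XT.lf (nat_lit 0) (nat_lit 10185299210769) (nat_lit 76) (nat_lit 1100537925142) (nat_lit 76) (nat_lit 1076212367487) (nat_lit 1) (nat_lit 4) (nat_lit 2) (nat_lit 5) (nat_lit 2) (nat_lit 4) (nat_lit 410) (nat_lit 351) (nat_lit 259)) (XT.nd (nat_lit 78) (nat_lit 0) (nat_lit 0) (XT.lf (nat_lit 0) (nat_lit 11922077477444) (nat_lit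 76) (nat_lit 1151882520279) (nat_lit 76) (nat_lit 1127556954358) (nat_lit 1) (nat_lit 4) (nat_lit 2) (nat_lit 5) (nat_lit 2) (nat_lit 4) (nat_lit 411) (nat_lit 351) (nat_lit 258)) (XT.lf (nat_lit 0) (nat_lit 13919372351368) (nat_lit 76) (nat_lit 1210928874616) (nat_lit 76) (nat_lit 1186603301508) (nat_lit 1) (nat_lit 4) (nat_lit 2) (nat_lit 5) (nat_lit 2) (nat_lit 4) (nat_lit 412) (nat_lit 351) (nat_lit 257)))))) (XT.nd (nat_lit 468) (nat_lit 0) (nat_lit 0) (XT.nd (nat_lit 234) (nat_lit 0) (nat_lit 0) (XT.nd (nat_lit 78) (nat_lit 0) (nat_lit 0) (XT.lf (nat_lit 0) (nat_lit 16216261340943) (nat_lit 76) (nat_lit 1278832242913) (nat_lit 76) (nat_lit 1254506663556) (nat_lit 1) (nat_lit 4) (nat_lit 2) (nat_lit 5) (nat_lit 2) (nat_lit 4) (nat_lit 413) (nat_lit 351) (nat_lit 256)) (XT.nd (nat_lit 78) (nat_lit 0) (nat_lit 0) (XT.lf (nat_lit 0) (nat_lit 18857683578575) (nat_lit 76) (nat_lit 1356921169333)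 (nat_lit 76) (nat_lit 1332595584540) (nat_lit 1) (nat_lit 4) (nat_lit 2) (nat_lit 5) (nat_lit 2) (nat_lit 4) (nat_lit 414) (nat_lit 351) (nat_lit 255)) (XT.lf (nat_lit 0) (nat_lit 21895319064565) (nat_lit 76) (nat_lit 1446723480696) (nat_lit 76) (nat_lit 1422397891178) (nat_lit 1) (nat_lit 4) (nat_lit 2) (nat_lit 5) (nat_lit 2) (nat_lit 4) (nat_lit 415) (nat_lit 351) (nat_lit 254)))) (XT.nd (nat_lit 78) (nat_lit 0) (nat_lit 0) (XT.lf (nat_lit 0) (nat_lit 25388599797552) (nat_lit 76) (nat_lit 1549996178746) (nat_lit 76) (nat_lit 1525670585119) (nat_lit 1) (nat_lit 4) (nat_lit 2) (nat_lit 5) (nat_lit 2) (nat_lit 4) (nat_lit 416) (nat_lit 351) (nat_lit 253)) (XT.nd (nat_lit 78) (nat_lit 0) (nat_lit 0) (XT.lf (nat_lit 0) (nat_lit 29405872574485) (nat_lit 76) (nat_lit 1668759816272) (nat_lit 76) (nat_lit 1644434219071) (nat_lit 1) (nat_lit 4) (nat_lit 2) (nat_lit 5) (nat_lit 2) (nat_lit 4)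 (nat_lit 417) (nat_lit 351) (nat_lit 252)) (XT.lf (nat_lit 0) (nat_lit 34025736210566) (nat_lit 76) (nat_lit 1805338029660) (nat_lit 76) (nat_lit 1781012429352) (nat_lit 1) (nat_lit 4) (nat_lit 2) (nat_lit 5) (nat_lit 2) (nat_lit 4) (nat_lit 418) (nat_lit 351) (nat_lit 251))))) (XT.nd (nat_lit 234) (nat_lit 0) (nat_lit 0) (XT.nd (nat_lit 78) (nat_lit 0) (nat_lit 0) (XT.lf (nat_lit 0) (nat_lit 39338579342153) (nat_lit 76) (nat_lit 1962403001345) (nat_lit 76) (nat_lit 1938077398336) (nat_lit 1) (nat_lit 4) (nat_lit 2) (nat_lit 5) (nat_lit 2) (nat_lit 4) (nat_lit 419) (nat_lit 351) (nat_lit 250)) (XT.nd (nat_lit 78) (nat_lit 0) (nat_lit 0) (XT.lf (nat_lit 0) (nat_lit 45448348900080) (nat_lit 76) (nat_lit 2143027741644) (nat_lit 76) (nat_lit 2118702136285) (nat_lit 1) (nat_lit 4) (nat_lit 2) (nat_lit 5) (nat_lit 2) (nat_lit 4) (nat_lit 420) (nat_lit 351) (nat_lit 249)) (XT.lf (nat_lit 0)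 (nat_lit 52474583853960) (nat_lit 76) (nat_lit 2350746212866) (nat_lit 76) (nat_lit 2326420605464) (nat_lit 1) (nat_lit 4) (nat_lit 2) (nat_lit 5) (nat_lit 2) (nat_lit 4) (nat_lit 421) (nat_lit 351) (nat_lit 248)))) (XT.nd (nat_lit 78) (nat_lit 0) (nat_lit 0) (XT.lf (nat_lit 0) (nat_lit 60554754018108) (nat_lit 76) (nat_lit 2589622472057) (nat_lit 76) (nat_lit 2565296862879) (nat_lit 1) (nat_lit 4) (nat_lit 2) (nat_lit 5) (nat_lit 2) (nat_lit 4) (nat_lit 422) (nat_lit 351) (nat_lit 247)) (XT.nd (nat_lit 78) (nat_lit 0) (nat_lit 0) (XT.lf (nat_lit 0) (nat_lit 69846949678343) (nat_lit 76) (nat_lit 2864330185158) (nat_lit 76) (nat_lit 2840004574435) (nat_lit 1) (nat_lit 4) (nat_lit 2) (nat_lit 5) (nat_lit 2) (nat_lit 4) (nat_lit 423) (nat_lit 351) (nat_lit 246)) (XT.lf (nat_lit 0) (nat_lit 80532974662802) (nat_lit 76) (nat_lit 3180244068295) (nat_lit 76) (nat_lit 3155918456228) (nat_lit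 1) (nat_lit 4) (nat_lit 2) (nat_lit 5) (nat_lit 2) (nat_lit 4) (nat_lit 424) (nat_lit 351) (nat_lit 245))))))) (XT.nd (nat_lit 48048) (nat_lit 0) (nat_lit 988) (XT.nd (nat_lit 47580) (nat_lit 0) (nat_lit 1824) (XT.nd (nat_lit 1950) (nat_lit 0) (nat_lit 0) (XT.nd (nat_lit 1872) (nat_lit 0) (nat_lit 0) (XT.lf (nat_lit 0) (nat_lit 92821903373353) (nat_lit 76) (nat_lit 3543545045268) (nat_lit 76) (nat_lit 3519219432033) (nat_lit 1) (nat_lit 4) (nat_lit 2) (nat_lit 5) (nat_lit 2) (nat_lit 4) (nat_lit 425) (nat_lit 351) (nat_lit 244)) (XT.lf (nat_lit 0) (nat_lit 2695531182657564) (nat_lit 76) (nat_lit 80488162443821) (nat_lit 76) (nat_lit 80463836823072) (nat_lit 1) (nat_lit 4) (nat_lit 2) (nat_lit 5) (nat_lit 2) (nat_lit 4) (nat_lit 449) (nat_lit 351) (nat_lit 220))) (XT.nd (nat_lit 45474) (nat_lit 0) (nat_lit 2128) (XT.lf (nat_lit 0) (nat_lit 3100069842427853) (nat_lit 76) (nat_lit 92447651250593)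 (nat_lit 76) (nat_lit 92423325629810) (nat_lit 1) (nat_lit 4) (nat_lit 2) (nat_lit 5) (nat_lit 2) (nat_lit 4) (nat_lit 450) (nat_lit 351) (nat_lit 219)) (XT.nd (nat_lit 78) (nat_lit 0) (nat_lit 0) (XT.lf (nat_lit 0) (nat_lit 2514327740) (nat_lit 380) (nat_lit 4192053204) (nat_lit 380) (nat_lit 4192053204) (nat_lit 29) (nat_lit 3) (nat_lit 34) (nat_lit 3) (nat_lit 34) (nat_lit 5) (nat_lit 352) (nat_lit 352) (nat_lit 316)) (XT.lf (nat_lit 76) (nat_lit 2509494124) (nat_lit 0) (nat_lit 3128295489) (nat_lit 380) (nat_lit 17758894058) (nat_lit 30) (nat_lit 5) (nat_lit 29) (nat_lit 3) (nat_lit 34) (nat_lit 5) (nat_lit 353) (nat_lit 352) (nat_lit 315))))) (XT.nd (nat_lit 234) (nat_lit 380) (nat_lit 0) (XT.nd (nat_lit 78) (nat_lit 0) (nat_lit 0) (XT.lf (nat_lit 0) (nat_lit 7134595927) (nat_lit 304) (nat_lit 9590726222) (nat_lit 380) (nat_lit 8391730956) (nat_lit 30) (nat_lit 5) (nat_lit 34) (nat_lit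 5) (nat_lit 35) (nat_lit 5) (nat_lit 354) (nat_lit 352) (nat_lit 314)) (XT.nd (nat_lit 78) (nat_lit 0) (nat_lit 76) (XT.lf (nat_lit 76) (nat_lit 3551489736) (nat_lit 0) (nat_lit 5580435150) (nat_lit 380) (nat_lit 17922176349) (nat_lit 31) (nat_lit 5) (nat_lit 30) (nat_lit 5) (nat_lit 35) (nat_lit 5) (nat_lit 355) (nat_lit 352) (nat_lit 313)) (XT.lf (nat_lit 0) (nat_lit 12235770023) (nat_lit 304) (nat_lit 9805158479) (nat_lit 76) (nat_lit 7119761023) (nat_lit 31) (nat_lit 5) (nat_lit 35) (nat_lit 5) (nat_lit 32) (nat_lit 5) (nat_lit 356) (nat_lit 352) (nat_lit 312)))) (XT.nd (nat_lit 78) (nat_lit 152) (nat_lit 0) (XT.lf (nat_lit 0) (nat_lit 6219155035) (nat_lit 304) (nat_lit 10093707251) (nat_lit 380) (nat_lit 15194271014) (nat_lit 27) (nat_lit 5) (nat_lit 31) (nat_lit 5) (nat_lit 32) (nat_lit 5) (nat_lit 357) (nat_lit 352) (nat_lit 311)) (XT.nd (nat_lit 78) (nat_lit 152) (nat_lit 0) (XT.lf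 (nat_lit 0) (nat_lit 21675216613) (nat_lit 380) (nat_lit 8572033162) (nat_lit 76) (nat_lit 3857254605) (nat_lit 27) (nat_lit 5) (nat_lit 32) (nat_lit 5) (nat_lit 28) (nat_lit 5) (nat_lit 358) (nat_lit 352) (nat_lit 310)) (XT.lf (nat_lit 0) (nat_lit 11148288373) (nat_lit 152) (nat_lit 17623561085) (nat_lit 228) (nat_lit 8180156318) (nat_lit 25) (nat_lit 5) (nat_lit 27) (nat_lit 5) (nat_lit 28) (nat_lit 5) (nat_lit 359) (nat_lit 352) (nat_lit 309)))))) (XT.nd (nat_lit 468) (nat_lit 456) (nat_lit 0) (XT.nd (nat_lit 234) (nat_lit 228) (nat_lit 0) (XT.nd (nat_lit 78) (nat_lit 152) (nat_lit 0) (XT.lf (nat_lit 0) (nat_lit 34775852919) (nat_lit 152) (nat_lit 2593877711) (nat_lit 228) (nat_lit 2791400441) (nat_lit 25) (nat_lit 5) (nat_lit 27) (nat_lit 5) (nat_lit 28) (nat_lit 5) (nat_lit 360) (nat_lit 352) (nat_lit 308)) (XT.nd (nat_lit 78) (nat_lit 0) (nat_lit 0) (XT.lf (nat_lit 0) (nat_lit 4561383957)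 (nat_lit 152) (nat_lit 24668487194) (nat_lit 76) (nat_lit 14381772934) (nat_lit 23) (nat_lit 5) (nat_lit 25) (nat_lit 5) (nat_lit 24) (nat_lit 5) (nat_lit 361) (nat_lit 352) (nat_lit 307)) (XT.lf (nat_lit 0) (nat_lit 13140080861) (nat_lit 152) (nat_lit 295312815) (nat_lit 76) (nat_lit 34063092333) (nat_lit 23) (nat_lit 5) (nat_lit 25) (nat_lit 5) (nat_lit 24) (nat_lit 5) (nat_lit 362) (nat_lit 352) (nat_lit 306)))) (XT.nd (nat_lit 78) (nat_lit 76) (nat_lit 0) (XT.lf (nat_lit 0) (nat_lit 24512901139) (nat_lit 228) (nat_lit 21605457900) (nat_lit 76) (nat_lit 5623904046) (nat_lit 21) (nat_lit 5) (nat_lit 24) (nat_lit 5) (nat_lit 22) (nat_lit 4) (nat_lit 363) (nat_lit 352) (nat_lit 305)) (XT.nd (nat_lit 78) (nat_lit 0) (nat_lit 0) (XT.lf (nat_lit 0) (nat_lit 8664858110) (nat_lit 76) (nat_lit 29933595602) (nat_lit 152) (nat_lit 17873137440) (nat_lit 20) (nat_lit 5) (nat_lit 21) (nat_lit 5)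 (nat_lit 22) (nat_lit 4) (nat_lit 364) (nat_lit 352) (nat_lit 304)) (XT.lf (nat_lit 0) (nat_lit 45891785747) (nat_lit 76) (nat_lit 10027027441) (nat_lit 152) (nat_lit 5823214198) (nat_lit 20) (nat_lit 5) (nat_lit 21) (nat_lit 5) (nat_lit 22) (nat_lit 4) (nat_lit 365) (nat_lit 352) (nat_lit 303))))) (XT.nd (nat_lit 234) (nat_lit 228) (nat_lit 0) (XT.nd (nat_lit 78) (nat_lit 76) (nat_lit 0) (XT.lf (nat_lit 0) (nat_lit 8839433467) (nat_lit 152) (nat_lit 45642142232) (nat_lit 76) (nat_lit 13043480969) (nat_lit 18) (nat_lit 5) (nat_lit 20) (nat_lit 5) (nat_lit 19) (nat_lit 4) (nat_lit 366) (nat_lit 352) (nat_lit 302)) (XT.nd (nat_lit 78) (nat_lit 76) (nat_lit 0) (XT.lf (nat_lit 0) (nat_lit 26444269280) (nat_lit 152) (nat_lit 7799533669) (nat_lit 76) (nat_lit 39689299750) (nat_lit 18) (nat_lit 5) (nat_lit 20) (nat_lit 5) (nat_lit 19) (nat_lit 4) (nat_lit 367) (nat_lit 352) (nat_lit 301)) (XT.lf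 (nat_lit 0) (nat_lit 39199311142) (nat_lit 76) (nat_lit 9108035981) (nat_lit 152) (nat_lit 32752383904) (nat_lit 17) (nat_lit 5) (nat_lit 18) (nat_lit 5) (nat_lit 19) (nat_lit 4) (nat_lit 368) (nat_lit 352) (nat_lit 300)))) (XT.nd (nat_lit 78) (nat_lit 152) (nat_lit 0) (XT.lf (nat_lit 0) (nat_lit 4479840353) (nat_lit 76) (nat_lit 70396987045) (nat_lit 76) (nat_lit 14164487610) (nat_lit 16) (nat_lit 4) (nat_lit 17) (nat_lit 5) (nat_lit 17) (nat_lit 4) (nat_lit 369) (nat_lit 352) (nat_lit 299)) (XT.nd (nat_lit 78) (nat_lit 76) (nat_lit 0) (XT.lf (nat_lit 0) (nat_lit 9290231717) (nat_lit 152) (nat_lit 36262954306) (nat_lit 76) (nat_lit 52214060288) (nat_lit 15) (nat_lit 5) (nat_lit 17) (nat_lit 5) (nat_lit 16) (nat_lit 4) (nat_lit 370) (nat_lit 352) (nat_lit 298)) (XT.lf (nat_lit 0) (nat_lit 20414415598) (nat_lit 76) (nat_lit 15239184553) (nat_lit 152) (nat_lit 71921201661) (nat_lit 14)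 (nat_lit 5) (nat_lit 15) (nat_lit 5) (nat_lit 16) (nat_lit 4) (nat_lit 371) (nat_lit 352) (nat_lit 297))))))))
noncomputable def xc70 : XT := (XT.nd (nat_lit 1794) (nat_lit 76) (nat_lit 0) (XT.nd (nat_lit 858) (nat_lit 380) (nat_lit 0) (XT.nd (nat_lit 390) (nat_lit 304) (nat_lit 0) (XT.nd (nat_lit 156) (nat_lit 152) (nat_lit 0) (XT.nd (nat_lit 78) (nat_lit 76) (nat_lit 0) (XT.lf (nat_lit 0) (nat_lit 68765198244) (nat_lit 152) (nat_lit 29812029869) (nat_lit 0) (nat_lit 19857205302) (nat_lit 14) (nat_lit 5) (nat_lit 16) (nat_lit 4) (nat_lit 14) (nat_lit 4) (nat_lit 372) (nat_lit 352) (nat_lit 296)) (XT.lf (nat_lit 0) (nat_lit 38865158657) (nat_lit 76) (nat_lit 70309371143) (nat_lit 76) (nat_lit 21398832148) (nat_lit 13) (nat_lit 4) (nat_lit 14) (nat_lit 5) (nat_lit 14) (nat_lit 4) (nat_lit 373) (nat_lit 352) (nat_lit 295))) (XT.nd (nat_lit 78) (nat_lit 76) (nat_lit 0) (XT.lf (nat_lit 0)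 (nat_lit 11751444009) (nat_lit 152) (nat_lit 23647148334) (nat_lit 76) (nat_lit 108821230196) (nat_lit 12) (nat_lit 5) (nat_lit 14) (nat_lit 5) (nat_lit 13) (nat_lit 4) (nat_lit 374) (nat_lit 352) (nat_lit 294)) (XT.nd (nat_lit 78) (nat_lit 0) (nat_lit 0) (XT.lf (nat_lit 0) (nat_lit 50477248106) (nat_lit 152) (nat_lit 100921337854) (nat_lit 0) (nat_lit 7942745379) (nat_lit 11) (nat_lit 5) (nat_lit 13) (nat_lit 4) (nat_lit 11) (nat_lit 4) (nat_lit 375) (nat_lit 352) (nat_lit 293)) (XT.lf (nat_lit 0) (nat_lit 97989127034) (nat_lit 152) (nat_lit 22842190918) (nat_lit 0) (nat_lit 55453168592) (nat_lit 11) (nat_lit 5) (nat_lit 13) (nat_lit 4) (nat_lit 11) (nat_lit 4) (nat_lit 376) (nat_lit 352) (nat_lit 292))))) (XT.nd (nat_lit 234) (nat_lit 76) (nat_lit 0) (XT.nd (nat_lit 78) (nat_lit 152) (nat_lit 0) (XT.lf (nat_lit 0) (nat_lit 73485011997) (nat_lit 76) (nat_lit 82182671769) (nat_lit 76)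 (nat_lit 39645447488) (nat_lit 10) (nat_lit 4) (nat_lit 11) (nat_lit 5) (nat_lit 11) (nat_lit 4) (nat_lit 377) (nat_lit 352) (nat_lit 291)) (XT.nd (nat_lit 78) (nat_lit 76) (nat_lit 0) (XT.lf (nat_lit 0) (nat_lit 5622385018) (nat_lit 152) (nat_lit 30450197220) (nat_lit 76) (nat_lit 180906474631) (nat_lit 9) (nat_lit 5) (nat_lit 11) (nat_lit 5) (nat_lit 10) (nat_lit 4) (nat_lit 378) (nat_lit 352) (nat_lit 290)) (XT.lf (nat_lit 0) (nat_lit 57874585439) (nat_lit 152) (nat_lit 162215229473) (nat_lit 0) (nat_lit 20883905296) (nat_lit 8) (nat_lit 5) (nat_lit 10) (nat_lit 4) (nat_lit 8) (nat_lit 4) (nat_lit 379) (nat_lit 352) (nat_lit 289)))) (XT.nd (nat_lit 78) (nat_lit 76) (nat_lit 0) (XT.lf (nat_lit 0) (nat_lit 121347331513) (nat_lit 152) (nat_lit 62356916932) (nat_lit 0) (nat_lit 84355927622) (nat_lit 8) (nat_lit 5) (nat_lit 10) (nat_lit 4) (nat_lit 8) (nat_lit 4) (nat_lit 380) (nat_lit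 352) (nat_lit 288)) (XT.nd (nat_lit 78) (nat_lit 0) (nat_lit 0) (XT.lf (nat_lit 0) (nat_lit 57603899073) (nat_lit 76) (nat_lit 139120138763) (nat_lit 76) (nat_lit 102128105526) (nat_lit 7) (nat_lit 4) (nat_lit 8) (nat_lit 5) (nat_lit 8) (nat_lit 4) (nat_lit 381) (nat_lit 352) (nat_lit 287)) (XT.lf (nat_lit 0) (nat_lit 202562570176) (nat_lit 76) (nat_lit 84102148060) (nat_lit 76) (nat_lit 47109567566) (nat_lit 7) (nat_lit 4) (nat_lit 8) (nat_lit 5) (nat_lit 8) (nat_lit 4) (nat_lit 382) (nat_lit 352) (nat_lit 286)))))) (XT.nd (nat_lit 468) (nat_lit 152) (nat_lit 0) (XT.nd (nat_lit 234) (nat_lit 76) (nat_lit 0) (XT.nd (nat_lit 78) (nat_lit 76) (nat_lit 0) (XT.lf (nat_lit 0) (nat_lit 14721008824) (nat_lit 152) (nat_lit 5342887397) (nat_lit 76) (nat_lit 353770756756) (nat_lit 6) (nat_lit 5) (nat_lit 8) (nat_lit 5) (nat_lit 7) (nat_lit 4) (nat_lit 383) (nat_lit 352) (nat_lit 285)) (XT.nd (nat_lit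 78) (nat_lit 0) (nat_lit 0) (XT.lf (nat_lit 0) (nat_lit 89858180721) (nat_lit 152) (nat_lit 270691182267) (nat_lit 0) (nat_lit 57689945788) (nat_lit 5) (nat_lit 5) (nat_lit 7) (nat_lit 4) (nat_lit 5) (nat_lit 4) (nat_lit 384) (nat_lit 352) (nat_lit 284)) (XT.lf (nat_lit 0) (nat_lit 177512286950) (nat_lit 152) (nat_lit 146261683247) (nat_lit 0) (nat_lit 145343739121) (nat_lit 5) (nat_lit 5) (nat_lit 7) (nat_lit 4) (nat_lit 5) (nat_lit 4) (nat_lit 385) (nat_lit 352) (nat_lit 283)))) (XT.nd (nat_lit 78) (nat_lit 76) (nat_lit 0) (XT.lf (nat_lit 0) (nat_lit 278313072788) (nat_lit 152) (nat_lit 3170759860) (nat_lit 0) (nat_lit 246144252875) (nat_lit 5) (nat_lit 5) (nat_lit 7) (nat_lit 4) (nat_lit 5) (nat_lit 4) (nat_lit 386) (nat_lit 352) (nat_lit 282)) (XT.nd (nat_lit 78) (nat_lit 0) (nat_lit 0) (XT.lf (nat_lit 0) (nat_lit 177152536769) (nat_lit 76) (nat_lit 224415699522) (nat_lit 76) (nat_lit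 192246643015) (nat_lit 4) (nat_lit 4) (nat_lit 5) (nat_lit 5) (nat_lit 5) (nat_lit 4) (nat_lit 387) (nat_lit 352) (nat_lit 281)) (XT.lf (nat_lit 0) (nat_lit 384878187542) (nat_lit 76) (nat_lit 158598041849) (nat_lit 76) (nat_lit 126428779607) (nat_lit 4) (nat_lit 4) (nat_lit 5) (nat_lit 5) (nat_lit 5) (nat_lit 4) (nat_lit 388) (nat_lit 352) (nat_lit 280))))) (XT.nd (nat_lit 234) (nat_lit 0) (nat_lit 0) (XT.nd (nat_lit 78) (nat_lit 152) (nat_lit 0) (XT.lf (nat_lit 0) (nat_lit 623760520260) (nat_lit 76) (nat_lit 82908867112) (nat_lit 76) (nat_lit 50739425972) (nat_lit 4) (nat_lit 4) (nat_lit 5) (nat_lit 5) (nat_lit 5) (nat_lit 4) (nat_lit 389) (nat_lit 352) (nat_lit 279)) (XT.nd (nat_lit 78) (nat_lit 0) (nat_lit 0) (XT.lf (nat_lit 0) (nat_lit 35167017381) (nat_lit 152) (nat_lit 815137880439) (nat_lit 0) (nat_lit 7193455029) (nat_lit 2) (nat_lit 5) (nat_lit 4) (nat_lit 4) (nat_lit 2) (nat_lit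 4) (nat_lit 390) (nat_lit 352) (nat_lit 278)) (XT.lf (nat_lit 0) (nat_lit 140030614666) (nat_lit 152) (nat_lit 718461458791) (nat_lit 0) (nat_lit 112056934684) (nat_lit 2) (nat_lit 5) (nat_lit 4) (nat_lit 4) (nat_lit 2) (nat_lit 4) (nat_lit 391) (nat_lit 352) (nat_lit 277)))) (XT.nd (nat_lit 78) (nat_lit 0) (nat_lit 0) (XT.lf (nat_lit 0) (nat_lit 260622935710) (nat_lit 152) (nat_lit 607285294998) (nat_lit 0) (nat_lit 232649153442) (nat_lit 2) (nat_lit 5) (nat_lit 4) (nat_lit 4) (nat_lit 2) (nat_lit 4) (nat_lit 392) (nat_lit 352) (nat_lit 276)) (XT.nd (nat_lit 78) (nat_lit 0) (nat_lit 0) (XT.lf (nat_lit 0) (nat_lit 399303395491) (nat_lit 152) (nat_lit 479434203248) (nat_lit 0) (nat_lit 371329524279) (nat_lit 2) (nat_lit 5) (nat_lit 4) (nat_lit 4) (nat_lit 2) (nat_lit 4) (nat_lit 393) (nat_lit 352) (nat_lit 275)) (XT.lf (nat_lit 0) (nat_lit 558785307353) (nat_lit 152) (nat_lit 332406749137)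 (nat_lit 0) (nat_lit 530811358798) (nat_lit 2) (nat_lit 5) (nat_lit 4) (nat_lit 4) (nat_lit 2) (nat_lit 4) (nat_lit 394) (nat_lit 352) (nat_lit 274))))))) (XT.nd (nat_lit 858) (nat_lit 0) (nat_lit 0) (XT.nd (nat_lit 390) (nat_lit 0) (nat_lit 0) (XT.nd (nat_lit 156) (nat_lit 0) (nat_lit 0) (XT.nd (nat_lit 78) (nat_lit 76) (nat_lit 0) (XT.lf (nat_lit 0) (nat_lit 742188969571) (nat_lit 152) (nat_lit 163326308561) (nat_lit 0) (nat_lit 714214953761) (nat_lit 2) (nat_lit 5) (nat_lit 4) (nat_lit 4) (nat_lit 2) (nat_lit 4) (nat_lit 395) (nat_lit 352) (nat_lit 273)) (XT.lf (nat_lit 0) (nat_lit 34156019062) (nat_lit 76) (nat_lit 920361023516) (nat_lit 76) (nat_lit 892386949223) (nat_lit 1) (nat_lit 4) (nat_lit 2) (nat_lit 5) (nat_lit 2) (nat_lit 4) (nat_lit 396) (nat_lit 352) (nat_lit 272))) (XT.nd (nat_lit 78) (nat_lit 0) (nat_lit 0) (XT.lf (nat_lit 0) (nat_lit 279615406419) (nat_lit 76) (nat_lit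 927615987193) (nat_lit 76) (nat_lit 899641862046) (nat_lit 1) (nat_lit 4) (nat_lit 2) (nat_lit 5) (nat_lit 2) (nat_lit 4) (nat_lit 397) (nat_lit 352) (nat_lit 271)) (XT.nd (nat_lit 78) (nat_lit 0) (nat_lit 0) (XT.lf (nat_lit 0) (nat_lit 561892885082) (nat_lit 76) (nat_lit 935959625690) (nat_lit 76) (nat_lit 907985456322) (nat_lit 1) (nat_lit 4) (nat_lit 2) (nat_lit 5) (nat_lit 2) (nat_lit 4) (nat_lit 398) (nat_lit 352) (nat_lit 270)) (XT.lf (nat_lit 0) (nat_lit 886511275286) (nat_lit 76) (nat_lit 945555184108) (nat_lit 76) (nat_lit 917580976287) (nat_lit 1) (nat_lit 4) (nat_lit 2) (nat_lit 5) (nat_lit 2) (nat_lit 4) (nat_lit 399) (nat_lit 352) (nat_lit 269))))) (XT.nd (nat_lit 234) (nat_lit 0) (nat_lit 0) (XT.nd (nat_lit 78) (nat_lit 0) (nat_lit 0) (XT.lf (nat_lit 0) (nat_lit 1259821806405) (nat_lit 76) (nat_lit 956590401634) (nat_lit 76) (nat_lit 928616160375) (nat_lit 1) (nat_lit 4)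 (nat_lit 2) (nat_lit 5) (nat_lit 2) (nat_lit 4) (nat_lit 400) (nat_lit 352) (nat_lit 268)) (XT.nd (nat_lit 78) (nat_lit 0) (nat_lit 0) (XT.lf (nat_lit 0) (nat_lit 1689128380134) (nat_lit 76) (nat_lit 969281184697) (nat_lit 76) (nat_lit 941306914362) (nat_lit 1) (nat_lit 4) (nat_lit 2) (nat_lit 5) (nat_lit 2) (nat_lit 4) (nat_lit 401) (nat_lit 352) (nat_lit 267)) (XT.lf (nat_lit 0) (nat_lit 2182830472916) (nat_lit 76) (nat_lit 983875831227) (nat_lit 76) (nat_lit 955901535609) (nat_lit 1) (nat_lit 4) (nat_lit 2) (nat_lit 5) (nat_lit 2) (nat_lit 4) (nat_lit 402) (nat_lit 352) (nat_lit 266)))) (XT.nd (nat_lit 78) (nat_lit 0) (nat_lit 0) (XT.lf (nat_lit 0) (nat_lit 2750587473522) (nat_lit 76) (nat_lit 1000659888656) (nat_lit 76) (nat_lit 972685571052) (nat_lit 1) (nat_lit 4) (nat_lit 2) (nat_lit 5) (nat_lit 2) (nat_lit 4) (nat_lit 403) (nat_lit 352) (nat_lit 265)) (XT.nd (nat_lit 78) (nat_lit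 0) (nat_lit 0) (XT.lf (nat_lit 0) (nat_lit 3403507671096) (nat_lit 76) (nat_lit 1019961740717) (nat_lit 76) (nat_lit 991987403995) (nat_lit 1) (nat_lit 4) (nat_lit 2) (nat_lit 5) (nat_lit 2) (nat_lit 4) (nat_lit 404) (nat_lit 352) (nat_lit 264)) (XT.lf (nat_lit 0) (nat_lit 4154365591241) (nat_lit 76) (nat_lit 1042159032340) (nat_lit 76) (nat_lit 1014184678994) (nat_lit 1) (nat_lit 4) (nat_lit 2) (nat_lit 5) (nat_lit 2) (nat_lit 4) (nat_lit 405) (nat_lit 352) (nat_lit 263)))))) (XT.nd (nat_lit 468) (nat_lit 0) (nat_lit 0) (XT.nd (nat_lit 234) (nat_lit 0) (nat_lit 0) (XT.nd (nat_lit 78) (nat_lit 0) (nat_lit 0) (XT.lf (nat_lit 0) (nat_lit 5017851932395) (nat_lit 76) (nat_lit 1067686058363) (nat_lit 76) (nat_lit 1039711690560) (nat_lit 1) (nat_lit 4) (nat_lit 2) (nat_lit 5) (nat_lit 2) (nat_lit 4) (nat_lit 406) (nat_lit 352) (nat_lit 262)) (XT.nd (nat_lit 78) (nat_lit 0) (nat_lit 0) (XT.lf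 (nat_lit 0) (nat_lit 6010860992538) (nat_lit 76) (nat_lit 1097042260598) (nat_lit 76) (nat_lit 1069067880224) (nat_lit 1) (nat_lit 4) (nat_lit 2) (nat_lit 5) (nat_lit 2) (nat_lit 4) (nat_lit 407) (nat_lit 352) (nat_lit 261)) (XT.lf (nat_lit 0) (nat_lit 7152821209802) (nat_lit 76) (nat_lit 1130801999524) (nat_lit 76) (nat_lit 1102827608220) (nat_lit 1) (nat_lit 4) (nat_lit 2) (nat_lit 5) (nat_lit 2) (nat_lit 4) (nat_lit 408) (nat_lit 352) (nat_lit 260)))) (XT.nd (nat_lit 78) (nat_lit 0) (nat_lit 0) (XT.lf (nat_lit 0) (nat_lit 8466075284091) (nat_lit 76) (nat_lit 1169625791772) (nat_lit 76) (nat_lit 1141651390963) (nat_lit 1) (nat_lit 4) (nat_lit 2) (nat_lit 5) (nat_lit 2) (nat_lit 4) (nat_lit 409) (nat_lit 352) (nat_lit 259)) (XT.nd (nat_lit 78) (nat_lit 0) (nat_lit 0) (XT.lf (nat_lit 0) (nat_lit 9976317316858) (nat_lit 76) (nat_lit 1214273233277) (nat_lit 76) (nat_lit 1186298824203) (nat_lit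 1) (nat_lit 4) (nat_lit 2) (nat_lit 5) (nat_lit 2) (nat_lit 4) (nat_lit 410) (nat_lit 352) (nat_lit 258)) (XT.lf (nat_lit 0) (nat_lit 11713095521788) (nat_lit 76) (nat_lit 1265617860939) (nat_lit 76) (nat_lit 1237643444678) (nat_lit 1) (nat_lit 4) (nat_lit 2) (nat_lit 5) (nat_lit 2) (nat_lit 4) (nat_lit 411) (nat_lit 352) (nat_lit 257))))) (XT.nd (nat_lit 234) (nat_lit 0) (nat_lit 0) (XT.nd (nat_lit 78) (nat_lit 0) (nat_lit 0) (XT.lf (nat_lit 0) (nat_lit 13710390342020) (nat_lit 76) (nat_lit 1324664243560) (nat_lit 76) (nat_lit 1296689821049) (nat_lit 1) (nat_lit 4) (nat_lit 2) (nat_lit 5) (nat_lit 2) (nat_lit 4) (nat_lit 412) (nat_lit 352) (nat_lit 256)) (XT.nd (nat_lit 78) (nat_lit 0) (nat_lit 0) (XT.lf (nat_lit 0) (nat_lit 16007279284907) (nat_lit 76) (nat_lit 1392567636452) (nat_lit 76) (nat_lit 1364593208506) (nat_lit 1) (nat_lit 4) (nat_lit 2) (nat_lit 5) (nat_lit 2) (nat_lit 4)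 (nat_lit 413) (nat_lit 352) (nat_lit 255)) (XT.lf (nat_lit 0) (nat_lit 18648701481941) (nat_lit 76) (nat_lit 1470656584257) (nat_lit 76) (nat_lit 1442682151586) (nat_lit 1) (nat_lit 4) (nat_lit 2) (nat_lit 5) (nat_lit 2) (nat_lit 4) (nat_lit 414) (nat_lit 352) (nat_lit 254)))) (XT.nd (nat_lit 78) (nat_lit 0) (nat_lit 0) (XT.lf (nat_lit 0) (nat_lit 21686336932628) (nat_lit 76) (nat_lit 1560458914217) (nat_lit 76) (nat_lit 1532484477437) (nat_lit 1) (nat_lit 4) (nat_lit 2) (nat_lit 5) (nat_lit 2) (nat_lit 4) (nat_lit 415) (nat_lit 352) (nat_lit 253)) (XT.nd (nat_lit 78) (nat_lit 0) (nat_lit 0) (XT.lf (nat_lit 0) (nat_lit 25179617634916) (nat_lit 76) (nat_lit 1663731628439) (nat_lit 76) (nat_lit 1635757188085) (nat_lit 1) (nat_lit 4) (nat_lit 2) (nat_lit 5) (nat_lit 2) (nat_lit 4) (nat_lit 416) (nat_lit 352) (nat_lit 252)) (XT.lf (nat_lit 0) (nat_lit 29196890385155) (nat_lit 76) (nat_lit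 1782495280026) (nat_lit 76) (nat_lit 1754520836565) (nat_lit 1) (nat_lit 4) (nat_lit 2) (nat_lit 5) (nat_lit 2) (nat_lit 4) (nat_lit 417) (nat_lit 352) (nat_lit 251))))))))
noncomputable def xc71 : XT := (XT.nd (nat_lit 48984) (nat_lit 0) (nat_lit 304) (XT.nd (nat_lit 48048) (nat_lit 0) (nat_lit 1520) (XT.nd (nat_lit 390) (nat_lit 0) (nat_lit 0) (XT.nd (nat_lit 156) (nat_lit 0) (nat_lit 0) (XT.nd (nat_lit 78) (nat_lit 0) (nat_lit 0) (XT.lf (nat_lit 0) (nat_lit 33816753998024) (nat_lit 76) (nat_lit 1919073505642) (nat_lit 76) (nat_lit 1891099059479) (nat_lit 1) (nat_lit 4) (nat_lit 2) (nat_lit 5) (nat_lit 2) (nat_lit 4) (nat_lit 418) (nat_lit 352) (nat_lit 250)) (XT.lf (nat_lit 0) (nat_lit 39129597109426) (nat_lit 76) (nat_lit 2076138487960) (nat_lit 76) (nat_lit 2048164039448) (nat_lit 1) (nat_lit 4) (nat_lit 2) (nat_lit 5) (nat_lit 2) (nat_lit 4) (nat_lit 419) (nat_lit 352) (nat_lit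 249))) (XT.nd (nat_lit 78) (nat_lit 0) (nat_lit 0) (XT.lf (nat_lit 0) (nat_lit 45239366649801) (nat_lit 76) (nat_lit 2256763237505) (nat_lit 76) (nat_lit 2228788786949) (nat_lit 1) (nat_lit 4) (nat_lit 2) (nat_lit 5) (nat_lit 2) (nat_lit 4) (nat_lit 420) (nat_lit 352) (nat_lit 248)) (XT.nd (nat_lit 78) (nat_lit 0) (nat_lit 0) (XT.lf (nat_lit 0) (nat_lit 52265601588419) (nat_lit 76) (nat_lit 2464481716767) (nat_lit 76) (nat_lit 2436507264435) (nat_lit 1) (nat_lit 4) (nat_lit 2) (nat_lit 5) (nat_lit 2) (nat_lit 4) (nat_lit 421) (nat_lit 352) (nat_lit 247)) (XT.lf (nat_lit 0) (nat_lit 60345771739295) (nat_lit 76) (nat_lit 2703357982949) (nat_lit 76) (nat_lit 2675383529072) (nat_lit 1) (nat_lit 4) (nat_lit 2) (nat_lit 5) (nat_lit 2) (nat_lit 4) (nat_lit 422) (nat_lit 352) (nat_lit 246))))) (XT.nd (nat_lit 234) (nat_lit 0) (nat_lit 0) (XT.nd (nat_lit 78) (nat_lit 0) (nat_lit 0) (XT.lf (nat_lit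 0) (nat_lit 69637967387990) (nat_lit 76) (nat_lit 2978065702130) (nat_lit 76) (nat_lit 2950091246909) (nat_lit 1) (nat_lit 4) (nat_lit 2) (nat_lit 5) (nat_lit 2) (nat_lit 4) (nat_lit 423) (nat_lit 352) (nat_lit 245)) (XT.nd (nat_lit 78) (nat_lit 0) (nat_lit 0) (XT.lf (nat_lit 0) (nat_lit 80323992362413) (nat_lit 76) (nat_lit 3293979590553) (nat_lit 76) (nat_lit 3266005134165) (nat_lit 1) (nat_lit 4) (nat_lit 2) (nat_lit 5) (nat_lit 2) (nat_lit 4) (nat_lit 424) (nat_lit 352) (nat_lit 244)) (XT.lf (nat_lit 0) (nat_lit 92612921064238) (nat_lit 76) (nat_lit 3657280572123) (nat_lit 76) (nat_lit 3629306114719) (nat_lit 1) (nat_lit 4) (nat_lit 2) (nat_lit 5) (nat_lit 2) (nat_lit 4) (nat_lit 425) (nat_lit 352) (nat_lit 243)))) (XT.nd (nat_lit 1794) (nat_lit 0) (nat_lit 0) (XT.lf (nat_lit 0) (nat_lit 106745189055022) (nat_lit 76) (nat_lit 4075076709522) (nat_lit 76) (nat_lit 4047102251235) (nat_lit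 1) (nat_lit 4) (nat_lit 2) (nat_lit 5) (nat_lit 2) (nat_lit 4) (nat_lit 426) (nat_lit 352) (nat_lit 242)) (XT.nd (nat_lit 78) (nat_lit 0) (nat_lit 0) (XT.lf (nat_lit 0) (nat_lit 2695322200292305) (nat_lit 76) (nat_lit 80601898000251) (nat_lit 76) (nat_lit 80573923536313) (nat_lit 1) (nat_lit 4) (nat_lit 2) (nat_lit 5) (nat_lit 2) (nat_lit 4) (nat_lit 449) (nat_lit 352) (nat_lit 219)) (XT.lf (nat_lit 0) (nat_lit 3099860860062331) (nat_lit 76) (nat_lit 92561386807163) (nat_lit 76) (nat_lit 92533412343193) (nat_lit 1) (nat_lit 4) (nat_lit 2) (nat_lit 5) (nat_lit 2) (nat_lit 4) (nat_lit 450) (nat_lit 352) (nat_lit 218)))))) (XT.nd (nat_lit 468) (nat_lit 456) (nat_lit 0) (XT.nd (nat_lit 234) (nat_lit 152) (nat_lit 0) (XT.nd (nat_lit 78) (nat_lit 0) (nat_lit 0) (XT.lf (nat_lit 0) (nat_lit 3014245877) (nat_lit 380) (nat_lit 4750196169) (nat_lit 380) (nat_lit 4750196169) (nat_lit 29) (nat_lit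 3) (nat_lit 34) (nat_lit 3) (nat_lit 34) (nat_lit 5) (nat_lit 353) (nat_lit 353) (nat_lit 314)) (XT.nd (nat_lit 78) (nat_lit 0) (nat_lit 76) (XT.lf (nat_lit 76) (nat_lit 3020824182) (nat_lit 0) (nat_lit 3681731303) (nat_lit 380) (nat_lit 20170512715) (nat_lit 30) (nat_lit 5) (nat_lit 29) (nat_lit 3) (nat_lit 34) (nat_lit 5) (nat_lit 354) (nat_lit 353) (nat_lit 313)) (XT.lf (nat_lit 0) (nat_lit 8392273351) (nat_lit 304) (nat_lit 10880195893) (nat_lit 380) (nat_lit 9583798268) (nat_lit 30) (nat_lit 5) (nat_lit 34) (nat_lit 5) (nat_lit 35) (nat_lit 5) (nat_lit 355) (nat_lit 353) (nat_lit 312)))) (XT.nd (nat_lit 78) (nat_lit 228) (nat_lit 0) (XT.lf (nat_lit 76) (nat_lit 4226573402) (nat_lit 0) (nat_lit 6444068124) (nat_lit 380) (nat_lit 20416044097) (nat_lit 31) (nat_lit 5) (nat_lit 30) (nat_lit 5) (nat_lit 35) (nat_lit 5) (nat_lit 356) (nat_lit 353) (nat_lit 311)) (XT.nd (nat_lit 78) (nat_lit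 304) (nat_lit 0) (XT.lf (nat_lit 0) (nat_lit 14217072739) (nat_lit 304) (nat_lit 11128983455) (nat_lit 76) (nat_lit 8166679558) (nat_lit 31) (nat_lit 5) (nat_lit 35) (nat_lit 5) (nat_lit 32) (nat_lit 5) (nat_lit 357) (nat_lit 353) (nat_lit 310)) (XT.lf (nat_lit 0) (nat_lit 7292297596) (nat_lit 304) (nat_lit 11600204210) (nat_lit 380) (nat_lit 17320650076) (nat_lit 27) (nat_lit 5) (nat_lit 31) (nat_lit 5) (nat_lit 32) (nat_lit 5) (nat_lit 358) (nat_lit 353) (nat_lit 309))))) (XT.nd (nat_lit 234) (nat_lit 304) (nat_lit 0) (XT.nd (nat_lit 78) (nat_lit 152) (nat_lit 0) (XT.lf (nat_lit 0) (nat_lit 25042171439) (nat_lit 380) (nat_lit 9718700997) (nat_lit 76) (nat_lit 4441830764) (nat_lit 27) (nat_lit 5) (nat_lit 32) (nat_lit 5) (nat_lit 28) (nat_lit 5) (nat_lit 359) (nat_lit 353) (nat_lit 308)) (XT.nd (nat_lit 78) (nat_lit 0) (nat_lit 0) (XT.lf (nat_lit 0) (nat_lit 12953344354) (nat_lit 152)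 (nat_lit 20240366653) (nat_lit 228) (nat_lit 9285073461) (nat_lit 25) (nat_lit 5) (nat_lit 27) (nat_lit 5) (nat_lit 28) (nat_lit 5) (nat_lit 360) (nat_lit 353) (nat_lit 307)) (XT.lf (nat_lit 0) (nat_lit 40107720182) (nat_lit 152) (nat_lit 2959717112) (nat_lit 228) (nat_lit 3103931112) (nat_lit 25) (nat_lit 5) (nat_lit 27) (nat_lit 5) (nat_lit 28) (nat_lit 5) (nat_lit 361) (nat_lit 353) (nat_lit 306)))) (XT.nd (nat_lit 78) (nat_lit 152) (nat_lit 0) (XT.lf (nat_lit 0) (nat_lit 5335897567) (nat_lit 152) (nat_lit 28237242696) (nat_lit 76) (nat_lit 16566632499) (nat_lit 23) (nat_lit 5) (nat_lit 25) (nat_lit 5) (nat_lit 24) (nat_lit 5) (nat_lit 362) (nat_lit 353) (nat_lit 305)) (XT.nd (nat_lit 78) (nat_lit 152) (nat_lit 0) (XT.lf (nat_lit 0) (nat_lit 15189619961) (nat_lit 152) (nat_lit 225246627) (nat_lit 76) (nat_lit 39196550638) (nat_lit 23) (nat_lit 5) (nat_lit 25) (nat_lit 5) (nat_lit 24)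 (nat_lit 5) (nat_lit 363) (nat_lit 353) (nat_lit 304)) (XT.lf (nat_lit 0) (nat_lit 28264146511) (nat_lit 228) (nat_lit 24727642236) (nat_lit 76) (nat_lit 6500612802) (nat_lit 21) (nat_lit 5) (nat_lit 24) (nat_lit 5) (nat_lit 22) (nat_lit 4) (nat_lit 364) (nat_lit 353) (nat_lit 303))))))) (XT.nd (nat_lit 858) (nat_lit 532) (nat_lit 0) (XT.nd (nat_lit 390) (nat_lit 380) (nat_lit 0) (XT.nd (nat_lit 156) (nat_lit 228) (nat_lit 0) (XT.nd (nat_lit 78) (nat_lit 0) (nat_lit 0) (XT.lf (nat_lit 0) (nat_lit 10077828705) (nat_lit 76) (nat_lit 34379699735) (nat_lit 152) (nat_lit 20474358021) (nat_lit 20) (nat_lit 5) (nat_lit 21) (nat_lit 5) (nat_lit 22) (nat_lit 4) (nat_lit 365) (nat_lit 353) (nat_lit 302)) (XT.lf (nat_lit 0) (nat_lit 52874024808) (nat_lit 76) (nat_lit 11492877029) (nat_lit 152) (nat_lit 6627348471) (nat_lit 20) (nat_lit 5) (nat_lit 21) (nat_lit 5) (nat_lit 22) (nat_lit 4) (nat_lit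 366) (nat_lit 353) (nat_lit 301))) (XT.nd (nat_lit 78) (nat_lit 76) (nat_lit 0) (XT.lf (nat_lit 0) (nat_lit 10226111566) (nat_lit 152) (nat_lit 52381340634) (nat_lit 76) (nat_lit 15037217363) (nat_lit 18) (nat_lit 5) (nat_lit 20) (nat_lit 5) (nat_lit 19) (nat_lit 4) (nat_lit 367) (nat_lit 353) (nat_lit 300)) (XT.nd (nat_lit 78) (nat_lit 76) (nat_lit 0) (XT.lf (nat_lit 0) (nat_lit 30463747132) (nat_lit 152) (nat_lit 8876313343) (nat_lit 76) (nat_lit 45675054928) (nat_lit 18) (nat_lit 5) (nat_lit 20) (nat_lit 5) (nat_lit 19) (nat_lit 4) (nat_lit 368) (nat_lit 353) (nat_lit 299)) (XT.lf (nat_lit 0) (nat_lit 45168124081) (nat_lit 76) (nat_lit 10434952562) (nat_lit 152) (nat_lit 37608146374) (nat_lit 17) (nat_lit 5) (nat_lit 18) (nat_lit 5) (nat_lit 19) (nat_lit 4) (nat_lit 369) (nat_lit 353) (nat_lit 298))))) (XT.nd (nat_lit 234) (nat_lit 152) (nat_lit 0) (XT.nd (nat_lit 78) (nat_lit 152)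 (nat_lit 0) (XT.lf (nat_lit 0) (nat_lit 5242266334) (nat_lit 76) (nat_lit 80914399484) (nat_lit 76) (nat_lit 16233578818) (nat_lit 16) (nat_lit 4) (nat_lit 17) (nat_lit 5) (nat_lit 17) (nat_lit 4) (nat_lit 370) (nat_lit 353) (nat_lit 297)) (XT.nd (nat_lit 78) (nat_lit 76) (nat_lit 0) (XT.lf (nat_lit 0) (nat_lit 10727795731) (nat_lit 152) (nat_lit 41619426999) (nat_lit 76) (nat_lit 60078490657) (nat_lit 15) (nat_lit 5) (nat_lit 17) (nat_lit 5) (nat_lit 16) (nat_lit 4) (nat_lit 371) (nat_lit 353) (nat_lit 296)) (XT.lf (nat_lit 0) (nat_lit 23555777007) (nat_lit 76) (nat_lit 17487428941) (nat_lit 152) (nat_lit 82661567805) (nat_lit 14) (nat_lit 5) (nat_lit 15) (nat_lit 5) (nat_lit 16) (nat_lit 4) (nat_lit 372) (nat_lit 353) (nat_lit 295)))) (XT.nd (nat_lit 78) (nat_lit 152) (nat_lit 0) (XT.lf (nat_lit 0) (nat_lit 79117477188) (nat_lit 152) (nat_lit 34210887320) (nat_lit 0) (nat_lit 22865597331)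 (nat_lit 14) (nat_lit 5) (nat_lit 16) (nat_lit 4) (nat_lit 14) (nat_lit 4) (nat_lit 373) (nat_lit 353) (nat_lit 294)) (XT.nd (nat_lit 78) (nat_lit 76) (nat_lit 0) (XT.lf (nat_lit 0) (nat_lit 44764563711) (nat_lit 76) (nat_lit 80821636847) (nat_lit 76) (nat_lit 24567831808) (nat_lit 13) (nat_lit 4) (nat_lit 14) (nat_lit 5) (nat_lit 14) (nat_lit 4) (nat_lit 374) (nat_lit 353) (nat_lit 293)) (XT.lf (nat_lit 0) (nat_lit 13546500284) (nat_lit 152) (nat_lit 27130503499) (nat_lit 76) (nat_lit 125170933488) (nat_lit 12) (nat_lit 5) (nat_lit 14) (nat_lit 5) (nat_lit 13) (nat_lit 4) (nat_lit 375) (nat_lit 353) (nat_lit 292)))))) (XT.nd (nat_lit 468) (nat_lit 228) (nat_lit 0) (XT.nd (nat_lit 234) (nat_lit 152) (nat_lit 0) (XT.nd (nat_lit 78) (nat_lit 76) (nat_lit 0) (XT.lf (nat_lit 0) (nat_lit 58080724968) (nat_lit 152) (nat_lit 115995364726) (nat_lit 0) (nat_lit 9161651207) (nat_lit 11) (nat_lit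 5) (nat_lit 13) (nat_lit 4) (nat_lit 11) (nat_lit 4) (nat_lit 376) (nat_lit 353) (nat_lit 291)) (XT.nd (nat_lit 78) (nat_lit 76) (nat_lit 0) (XT.lf (nat_lit 0) (nat_lit 112715226215) (nat_lit 152) (nat_lit 26212716245) (nat_lit 0) (nat_lit 63795051725) (nat_lit 11) (nat_lit 5) (nat_lit 13) (nat_lit 4) (nat_lit 11) (nat_lit 4) (nat_lit 377) (nat_lit 353) (nat_lit 290)) (XT.lf (nat_lit 0) (nat_lit 84561030593) (nat_lit 76) (nat_lit 94483124556) (nat_lit 76) (nat_lit 45561992910) (nat_lit 10) (nat_lit 4) (nat_lit 11) (nat_lit 5) (nat_lit 11) (nat_lit 4) (nat_lit 378) (nat_lit 353) (nat_lit 289)))) (XT.nd (nat_lit 78) (nat_lit 76) (nat_lit 0) (XT.lf (nat_lit 0) (nat_lit 6489722514) (nat_lit 152) (nat_lit 34969060548) (nat_lit 76) (nat_lit 208063531548) (nat_lit 9) (nat_lit 5) (nat_lit 11) (nat_lit 5) (nat_lit 10) (nat_lit 4) (nat_lit 379) (nat_lit 353) (nat_lit 288)) (XT.nd (nat_lit 78) (nat_lit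 0) (nat_lit 0) (XT.lf (nat_lit 0) (nat_lit 66579529256) (nat_lit 152) (nat_lit 186498620568) (nat_lit 0) (nat_lit 24038061688) (nat_lit 8) (nat_lit 5) (nat_lit 10) (nat_lit 4) (nat_lit 8) (nat_lit 4) (nat_lit 380) (nat_lit 353) (nat_lit 287)) (XT.lf (nat_lit 0) (nat_lit 139570088631) (nat_lit 152) (nat_lit 71667938536) (nat_lit 0) (nat_lit 97028073807) (nat_lit 8) (nat_lit 5) (nat_lit 10) (nat_lit 4) (nat_lit 8) (nat_lit 4) (nat_lit 381) (nat_lit 353) (nat_lit 286))))) (XT.nd (nat_lit 234) (nat_lit 76) (nat_lit 0) (XT.nd (nat_lit 78) (nat_lit 76) (nat_lit 0) (XT.lf (nat_lit 0) (nat_lit 66285067328) (nat_lit 76) (nat_lit 159967219604) (nat_lit 76) (nat_lit 117424728905) (nat_lit 7) (nat_lit 4) (nat_lit 8) (nat_lit 5) (nat_lit 8) (nat_lit 4) (nat_lit 382) (nat_lit 353) (nat_lit 285)) (XT.nd (nat_lit 78) (nat_lit 76) (nat_lit 0) (XT.lf (nat_lit 0) (nat_lit 232982245610) (nat_lit 76) (nat_lit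 96699261597) (nat_lit 76) (nat_lit 54156357092) (nat_lit 7) (nat_lit 4) (nat_lit 8) (nat_lit 5) (nat_lit 8) (nat_lit 4) (nat_lit 383) (nat_lit 353) (nat_lit 284)) (XT.lf (nat_lit 0) (nat_lit 16944722426) (nat_lit 152) (nat_lit 6112111116) (nat_lit 76) (nat_lit 406850681383) (nat_lit 6) (nat_lit 5) (nat_lit 8) (nat_lit 5) (nat_lit 7) (nat_lit 4) (nat_lit 384) (nat_lit 353) (nat_lit 283)))) (XT.nd (nat_lit 78) (nat_lit 0) (nat_lit 0) (XT.lf (nat_lit 0) (nat_lit 103352373378) (nat_lit 152) (nat_lit 311262552048) (nat_lit 0) (nat_lit 66357958395) (nat_lit 5) (nat_lit 5) (nat_lit 7) (nat_lit 4) (nat_lit 5) (nat_lit 4) (nat_lit 385) (nat_lit 353) (nat_lit 282)) (XT.nd (nat_lit 78) (nat_lit 0) (nat_lit 0) (XT.lf (nat_lit 0) (nat_lit 204152578296) (nat_lit 152) (nat_lit 168172842204) (nat_lit 0) (nat_lit 167157926719) (nat_lit 5) (nat_lit 5) (nat_lit 7) (nat_lit 4) (nat_lit 5) (nat_lit 4) (nat_lit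 386) (nat_lit 353) (nat_lit 281)) (XT.lf (nat_lit 0) (nat_lit 320071727883) (nat_lit 152) (nat_lit 3621944683) (nat_lit 0) (nat_lit 283076870571) (nat_lit 5) (nat_lit 5) (nat_lit 7) (nat_lit 4) (nat_lit 5) (nat_lit 4) (nat_lit 387) (nat_lit 353) (nat_lit 280))))))))
noncomputable def xc72 : XT := (XT.nd (nat_lit 1716) (nat_lit 0) (nat_lit 0) (XT.nd (nat_lit 858) (nat_lit 0) (nat_lit 0) (XT.nd (nat_lit 390) (nat_lit 76) (nat_lit 0) (XT.nd (nat_lit 156) (nat_lit 152) (nat_lit 0) (XT.nd (nat_lit 78) (nat_lit 0) (nat_lit 0) (XT.lf (nat_lit 0) (nat_lit 203748736024) (nat_lit 76) (nat_lit 258065870139) (nat_lit 76) (nat_lit 221070833929) (nat_lit 4) (nat_lit 4) (nat_lit 5) (nat_lit 5) (nat_lit 5) (nat_lit 4) (nat_lit 388) (nat_lit 353) (nat_lit 279)) (XT.lf (nat_lit 0) (nat_lit 442630192839) (nat_lit 76) (nat_lit 182377153073) (nat_lit 76) (nat_lit 145381961297) (nat_lit 4) (nat_lit 4) (nat_lit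 5) (nat_lit 5) (nat_lit 5) (nat_lit 4) (nat_lit 389) (nat_lit 353) (nat_lit 278))) (XT.nd (nat_lit 78) (nat_lit 152) (nat_lit 0) (XT.lf (nat_lit 0) (nat_lit 717342230616) (nat_lit 76) (nat_lit 95335984090) (nat_lit 76) (nat_lit 58340657041) (nat_lit 4) (nat_lit 4) (nat_lit 5) (nat_lit 5) (nat_lit 5) (nat_lit 4) (nat_lit 390) (nat_lit 353) (nat_lit 277)) (XT.nd (nat_lit 78) (nat_lit 0) (nat_lit 0) (XT.lf (nat_lit 0) (nat_lit 40450854419) (nat_lit 152) (nat_lit 937390030628) (nat_lit 0) (nat_lit 8280902525) (nat_lit 2) (nat_lit 5) (nat_lit 4) (nat_lit 4) (nat_lit 2) (nat_lit 4) (nat_lit 391) (nat_lit 353) (nat_lit 276)) (XT.lf (nat_lit 0) (nat_lit 161042845501) (nat_lit 152) (nat_lit 826214562934) (nat_lit 0) (nat_lit 128872804662) (nat_lit 2) (nat_lit 5) (nat_lit 4) (nat_lit 4) (nat_lit 2) (nat_lit 4) (nat_lit 392) (nat_lit 353) (nat_lit 275))))) (XT.nd (nat_lit 234) (nat_lit 76) (nat_lit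 0) (XT.nd (nat_lit 78) (nat_lit 0) (nat_lit 0) (XT.lf (nat_lit 0) (nat_lit 299723018358) (nat_lit 152) (nat_lit 698364076486) (nat_lit 0) (nat_lit 267552900177) (nat_lit 2) (nat_lit 5) (nat_lit 4) (nat_lit 4) (nat_lit 2) (nat_lit 4) (nat_lit 393) (nat_lit 353) (nat_lit 274)) (XT.nd (nat_lit 78) (nat_lit 0) (nat_lit 0) (XT.lf (nat_lit 0) (nat_lit 459204680721) (nat_lit 152) (nat_lit 551337148725) (nat_lit 0) (nat_lit 427034495284) (nat_lit 2) (nat_lit 5) (nat_lit 4) (nat_lit 4) (nat_lit 2) (nat_lit 4) (nat_lit 394) (nat_lit 353) (nat_lit 273)) (XT.lf (nat_lit 0) (nat_lit 642608125983) (nat_lit 152) (nat_lit 382257165846) (nat_lit 0) (nat_lit 610437882064) (nat_lit 2) (nat_lit 5) (nat_lit 4) (nat_lit 4) (nat_lit 2) (nat_lit 4) (nat_lit 395) (nat_lit 353) (nat_lit 272)))) (XT.nd (nat_lit 78) (nat_lit 76) (nat_lit 0) (XT.lf (nat_lit 0) (nat_lit 853521682421) (nat_lit 152) (nat_lit 187816041228)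 (nat_lit 0) (nat_lit 821351387648) (nat_lit 2) (nat_lit 5) (nat_lit 4) (nat_lit 4) (nat_lit 2) (nat_lit 4) (nat_lit 396) (nat_lit 353) (nat_lit 271)) (XT.nd (nat_lit 78) (nat_lit 0) (nat_lit 0) (XT.lf (nat_lit 0) (nat_lit 39288216739) (nat_lit 76) (nat_lit 1058410544152) (nat_lit 76) (nat_lit 1026240205157) (nat_lit 1) (nat_lit 4) (nat_lit 2) (nat_lit 5) (nat_lit 2) (nat_lit 4) (nat_lit 397) (nat_lit 353) (nat_lit 270)) (XT.lf (nat_lit 0) (nat_lit 321565365049) (nat_lit 76) (nat_lit 1066754356671) (nat_lit 76) (nat_lit 1034583979223) (nat_lit 1) (nat_lit 4) (nat_lit 2) (nat_lit 5) (nat_lit 2) (nat_lit 4) (nat_lit 398) (nat_lit 353) (nat_lit 269)))))) (XT.nd (nat_lit 390) (nat_lit 0) (nat_lit 0) (XT.nd (nat_lit 156) (nat_lit 0) (nat_lit 0) (XT.nd (nat_lit 78) (nat_lit 0) (nat_lit 0) (XT.lf (nat_lit 0) (nat_lit 646183467990) (nat_lit 76) (nat_lit 1076350066412) (nat_lit 76) (nat_lit 1044179655527)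 (nat_lit 1) (nat_lit 4) (nat_lit 2) (nat_lit 5) (nat_lit 2) (nat_lit 4) (nat_lit 399) (nat_lit 353) (nat_lit 268)) (XT.lf (nat_lit 0) (nat_lit 1019493749315) (nat_lit 76) (nat_lit 1087385415523) (nat_lit 76) (nat_lit 1055214975562) (nat_lit 1) (nat_lit 4) (nat_lit 2) (nat_lit 5) (nat_lit 2) (nat_lit 4) (nat_lit 400) (nat_lit 353) (nat_lit 267))) (XT.nd (nat_lit 78) (nat_lit 0) (nat_lit 0) (XT.lf (nat_lit 0) (nat_lit 1448800105831) (nat_lit 76) (nat_lit 1100076313009) (nat_lit 76) (nat_lit 1067905847764) (nat_lit 1) (nat_lit 4) (nat_lit 2) (nat_lit 5) (nat_lit 2) (nat_lit 4) (nat_lit 401) (nat_lit 353) (nat_lit 266)) (XT.nd (nat_lit 78) (nat_lit 0) (nat_lit 0) (XT.lf (nat_lit 0) (nat_lit 1942502009733) (nat_lit 76) (nat_lit 1114671059036) (nat_lit 76) (nat_lit 1082500571805) (nat_lit 1) (nat_lit 4) (nat_lit 2) (nat_lit 5) (nat_lit 2) (nat_lit 4) (nat_lit 402) (nat_lit 353) (nat_lit 265))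 (XT.lf (nat_lit 0) (nat_lit 2510258846096) (nat_lit 76) (nat_lit 1131455202985) (nat_lit 76) (nat_lit 1099284696636) (nat_lit 1) (nat_lit 4) (nat_lit 2) (nat_lit 5) (nat_lit 2) (nat_lit 4) (nat_lit 403) (nat_lit 353) (nat_lit 264))))) (XT.nd (nat_lit 234) (nat_lit 0) (nat_lit 0) (XT.nd (nat_lit 78) (nat_lit 0) (nat_lit 0) (XT.lf (nat_lit 0) (nat_lit 3163178900848) (nat_lit 76) (nat_lit 1150757130280) (nat_lit 76) (nat_lit 1118586607307) (nat_lit 1) (nat_lit 4) (nat_lit 2) (nat_lit 5) (nat_lit 2) (nat_lit 4) (nat_lit 404) (nat_lit 353) (nat_lit 263)) (XT.nd (nat_lit 78) (nat_lit 0) (nat_lit 0) (XT.lf (nat_lit 0) (nat_lit 3914036696802) (nat_lit 76) (nat_lit 1172954487324) (nat_lit 76) (nat_lit 1140783949895) (nat_lit 1) (nat_lit 4) (nat_lit 2) (nat_lit 5) (nat_lit 2) (nat_lit 4) (nat_lit 405) (nat_lit 353) (nat_lit 262)) (XT.lf (nat_lit 0) (nat_lit 4777522929963) (nat_lit 76) (nat_lit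 1198481570235) (nat_lit 76) (nat_lit 1166311020235) (nat_lit 1) (nat_lit 4) (nat_lit 2) (nat_lit 5) (nat_lit 2) (nat_lit 4) (nat_lit 406) (nat_lit 353) (nat_lit 261)))) (XT.nd (nat_lit 78) (nat_lit 0) (nat_lit 0) (XT.lf (nat_lit 0) (nat_lit 5770531896199) (nat_lit 76) (nat_lit 1227837821937) (nat_lit 76) (nat_lit 1195667261007) (nat_lit 1) (nat_lit 4) (nat_lit 2) (nat_lit 5) (nat_lit 2) (nat_lit 4) (nat_lit 407) (nat_lit 353) (nat_lit 260)) (XT.nd (nat_lit 78) (nat_lit 0) (nat_lit 0) (XT.lf (nat_lit 0) (nat_lit 6912492031805) (nat_lit 76) (nat_lit 1261597603879) (nat_lit 76) (nat_lit 1229427033443) (nat_lit 1) (nat_lit 4) (nat_lit 2) (nat_lit 5) (nat_lit 2) (nat_lit 4) (nat_lit 408) (nat_lit 353) (nat_lit 259)) (XT.lf (nat_lit 0) (nat_lit 8225746035087) (nat_lit 76) (nat_lit 1300421433532) (nat_lit 76) (nat_lit 1268250854831) (nat_lit 1) (nat_lit 4) (nat_lit 2) (nat_lit 5) (nat_lit 2)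 (nat_lit 4) (nat_lit 409) (nat_lit 353) (nat_lit 258))))))) (XT.nd (nat_lit 858) (nat_lit 0) (nat_lit 0) (XT.nd (nat_lit 390) (nat_lit 0) (nat_lit 0) (XT.nd (nat_lit 156) (nat_lit 0) (nat_lit 0) (XT.nd (nat_lit 78) (nat_lit 0) (nat_lit 0) (XT.lf (nat_lit 0) (nat_lit 9735988006109) (nat_lit 76) (nat_lit 1345068907563) (nat_lit 76) (nat_lit 1312898321675) (nat_lit 1) (nat_lit 4) (nat_lit 2) (nat_lit 5) (nat_lit 2) (nat_lit 4) (nat_lit 410) (nat_lit 353) (nat_lit 257)) (XT.lf (nat_lit 0) (nat_lit 11472766157347) (nat_lit 76) (nat_lit 1396413563509) (nat_lit 76) (nat_lit 1364242971371) (nat_lit 1) (nat_lit 4) (nat_lit 2) (nat_lit 5) (nat_lit 2) (nat_lit 4) (nat_lit 411) (nat_lit 353) (nat_lit 256))) (XT.nd (nat_lit 78) (nat_lit 0) (nat_lit 0) (XT.lf (nat_lit 0) (nat_lit 13470060930891) (nat_lit 76) (nat_lit 1455459970724) (nat_lit 76) (nat_lit 1423289373152) (nat_lit 1) (nat_lit 4) (nat_lit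 2) (nat_lit 5) (nat_lit 2) (nat_lit 4) (nat_lit 412) (nat_lit 353) (nat_lit 255)) (XT.nd (nat_lit 78) (nat_lit 0) (nat_lit 0) (XT.lf (nat_lit 0) (nat_lit 15766949833179) (nat_lit 76) (nat_lit 1523363385001) (nat_lit 76) (nat_lit 1491192782704) (nat_lit 1) (nat_lit 4) (nat_lit 2) (nat_lit 5) (nat_lit 2) (nat_lit 4) (nat_lit 413) (nat_lit 353) (nat_lit 254)) (XT.lf (nat_lit 0) (nat_lit 18408371994910) (nat_lit 76) (nat_lit 1601452351404) (nat_lit 76) (nat_lit 1569281744997) (nat_lit 1) (nat_lit 4) (nat_lit 2) (nat_lit 5) (nat_lit 2) (nat_lit 4) (nat_lit 414) (nat_lit 353) (nat_lit 253))))) (XT.nd (nat_lit 234) (nat_lit 0) (nat_lit 0) (XT.nd (nat_lit 78) (nat_lit 0) (nat_lit 0) (XT.lf (nat_lit 0) (nat_lit 21446007414898) (nat_lit 76) (nat_lit 1691254697535) (nat_lit 76) (nat_lit 1659084087555) (nat_lit 1) (nat_lit 4) (nat_lit 2) (nat_lit 5) (nat_lit 2) (nat_lit 4) (nat_lit 415) (nat_lit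 353) (nat_lit 252)) (XT.nd (nat_lit 78) (nat_lit 0) (nat_lit 0) (XT.lf (nat_lit 0) (nat_lit 24939288090493) (nat_lit 76) (nat_lit 1794527425818) (nat_lit 76) (nat_lit 1762356812731) (nat_lit 1) (nat_lit 4) (nat_lit 2) (nat_lit 5) (nat_lit 2) (nat_lit 4) (nat_lit 416) (nat_lit 353) (nat_lit 251)) (XT.lf (nat_lit 0) (nat_lit 28956560817519) (nat_lit 76) (nat_lit 1913291089634) (nat_lit 76) (nat_lit 1881120473844) (nat_lit 1) (nat_lit 4) (nat_lit 2) (nat_lit 5) (nat_lit 2) (nat_lit 4) (nat_lit 417) (nat_lit 353) (nat_lit 250)))) (XT.nd (nat_lit 78) (nat_lit 0) (nat_lit 0) (XT.lf (nat_lit 0) (nat_lit 33576424410203) (nat_lit 76) (nat_lit 2049869325882) (nat_lit 76) (nat_lit 2017698707743) (nat_lit 1) (nat_lit 4) (nat_lit 2) (nat_lit 5) (nat_lit 2) (nat_lit 4) (nat_lit 418) (nat_lit 353) (nat_lit 249)) (XT.nd (nat_lit 78) (nat_lit 0) (nat_lit 0) (XT.lf (nat_lit 0) (nat_lit 38889267504053)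 (nat_lit 76) (nat_lit 2206934317446) (nat_lit 76) (nat_lit 2174763697264) (nat_lit 1) (nat_lit 4) (nat_lit 2) (nat_lit 5) (nat_lit 2) (nat_lit 4) (nat_lit 419) (nat_lit 353) (nat_lit 248)) (XT.lf (nat_lit 0) (nat_lit 44999037029166) (nat_lit 76) (nat_lit 2387559075030) (nat_lit 76) (nat_lit 2355388453072) (nat_lit 1) (nat_lit 4) (nat_lit 2) (nat_lit 5) (nat_lit 2) (nat_lit 4) (nat_lit 420) (nat_lit 353) (nat_lit 247)))))) (XT.nd (nat_lit 468) (nat_lit 0) (nat_lit 0) (XT.nd (nat_lit 234) (nat_lit 0) (nat_lit 0) (XT.nd (nat_lit 78) (nat_lit 0) (nat_lit 0) (XT.lf (nat_lit 0) (nat_lit 52025271954512) (nat_lit 76) (nat_lit 2595277561284) (nat_lit 76) (nat_lit 2563106937780) (nat_lit 1) (nat_lit 4) (nat_lit 2) (nat_lit 5) (nat_lit 2) (nat_lit 4) (nat_lit 421) (nat_lit 353) (nat_lit 246)) (XT.nd (nat_lit 78) (nat_lit 0) (nat_lit 0) (XT.lf (nat_lit 0) (nat_lit 60105442093848) (nat_lit 76) (nat_lit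 2834153833546) (nat_lit 76) (nat_lit 2801983208699) (nat_lit 1) (nat_lit 4) (nat_lit 2) (nat_lit 5) (nat_lit 2) (nat_lit 4) (nat_lit 422) (nat_lit 353) (nat_lit 245)) (XT.lf (nat_lit 0) (nat_lit 69397637732507) (nat_lit 76) (nat_lit 3108861558012) (nat_lit 76) (nat_lit 3076690931998) (nat_lit 1) (nat_lit 4) (nat_lit 2) (nat_lit 5) (nat_lit 2) (nat_lit 4) (nat_lit 423) (nat_lit 353) (nat_lit 244)))) (XT.nd (nat_lit 78) (nat_lit 0) (nat_lit 0) (XT.lf (nat_lit 0) (nat_lit 80083662698204) (nat_lit 76) (nat_lit 3424775451032) (nat_lit 76) (nat_lit 3392604824002) (nat_lit 1) (nat_lit 4) (nat_lit 2) (nat_lit 5) (nat_lit 2) (nat_lit 4) (nat_lit 424) (nat_lit 353) (nat_lit 243)) (XT.nd (nat_lit 78) (nat_lit 0) (nat_lit 0) (XT.lf (nat_lit 0) (nat_lit 92372591392441) (nat_lit 76) (nat_lit 3788076436599) (nat_lit 76) (nat_lit 3755905808686) (nat_lit 1) (nat_lit 4) (nat_lit 2) (nat_lit 5) (nat_lit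 2) (nat_lit 4) (nat_lit 425) (nat_lit 353) (nat_lit 242)) (XT.lf (nat_lit 0) (nat_lit 106504859376627) (nat_lit 76) (nat_lit 4205872577475) (nat_lit 76) (nat_lit 4173701948793) (nat_lit 1) (nat_lit 4) (nat_lit 2) (nat_lit 5) (nat_lit 2) (nat_lit 4) (nat_lit 426) (nat_lit 353) (nat_lit 241))))) (XT.nd (nat_lit 47580) (nat_lit 0) (nat_lit 2204) (XT.nd (nat_lit 47424) (nat_lit 0) (nat_lit 2128) (XT.lf (nat_lit 0) (nat_lit 122756967546105) (nat_lit 76) (nat_lit 4686338145980) (nat_lit 76) (nat_lit 4654167516630) (nat_lit 1) (nat_lit 4) (nat_lit 2) (nat_lit 5) (nat_lit 2) (nat_lit 4) (nat_lit 427) (nat_lit 353) (nat_lit 240)) (XT.nd (nat_lit 78) (nat_lit 0) (nat_lit 0) (XT.lf (nat_lit 0) (nat_lit 3559213743) (nat_lit 380) (nat_lit 5409292690) (nat_lit 380) (nat_lit 5409292690) (nat_lit 29) (nat_lit 3) (nat_lit 34) (nat_lit 3) (nat_lit 34) (nat_lit 5) (nat_lit 354) (nat_lit 354) (nat_lit 312))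 (XT.lf (nat_lit 76) (nat_lit 3575956081) (nat_lit 0) (nat_lit 4297651861) (nat_lit 380) (nat_lit 23005378505) (nat_lit 30) (nat_lit 5) (nat_lit 29) (nat_lit 3) (nat_lit 34) (nat_lit 5) (nat_lit 355) (nat_lit 354) (nat_lit 311)))) (XT.nd (nat_lit 78) (nat_lit 0) (nat_lit 0) (XT.lf (nat_lit 0) (nat_lit 9792882244) (nat_lit 304) (nat_lit 12399454569) (nat_lit 380) (nat_lit 10970939023) (nat_lit 30) (nat_lit 5) (nat_lit 34) (nat_lit 5) (nat_lit 35) (nat_lit 5) (nat_lit 356) (nat_lit 354) (nat_lit 310)) (XT.nd (nat_lit 78) (nat_lit 0) (nat_lit 76) (XT.lf (nat_lit 76) (nat_lit 4968204179) (nat_lit 0) (nat_lit 7430767342) (nat_lit 380) (nat_lit 23331411994) (nat_lit 31) (nat_lit 5) (nat_lit 30) (nat_lit 5) (nat_lit 35) (nat_lit 5) (nat_lit 357) (nat_lit 354) (nat_lit 309)) (XT.lf (nat_lit 0) (nat_lit 16459983149) (nat_lit 304) (nat_lit 12687216572) (nat_lit 76) (nat_lit 9375767981) (nat_lit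 31) (nat_lit 5) (nat_lit 35) (nat_lit 5) (nat_lit 32) (nat_lit 5) (nat_lit 358) (nat_lit 354) (nat_lit 308))))))))
noncomputable def xc73 : XT := (XT.nd (nat_lit 1794) (nat_lit 532) (nat_lit 0) (XT.nd (nat_lit 858) (nat_lit 760) (nat_lit 0) (XT.nd (nat_lit 390) (nat_lit 380) (nat_lit 0) (XT.nd (nat_lit 156) (nat_lit 304) (nat_lit 0) (XT.nd (nat_lit 78) (nat_lit 0) (nat_lit 0) (XT.lf (nat_lit 0) (nat_lit 8492205982) (nat_lit 304) (nat_lit 13334519055) (nat_lit 380) (nat_lit 19803237879) (nat_lit 27) (nat_lit 5) (nat_lit 31) (nat_lit 5) (nat_lit 32) (nat_lit 5) (nat_lit 359) (nat_lit 354) (nat_lit 307)) (XT.lf (nat_lit 0) (nat_lit 28885962058) (nat_lit 380) (nat_lit 11071298480) (nat_lit 76) (nat_lit 5112633142) (nat_lit 27) (nat_lit 5) (nat_lit 32) (nat_lit 5) (nat_lit 28) (nat_lit 5) (nat_lit 360) (nat_lit 354) (nat_lit 306))) (XT.nd (nat_lit 78) (nat_lit 152) (nat_lit 0) (XT.lf (nat_lit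 0) (nat_lit 14996771507) (nat_lit 152) (nat_lit 23256210994) (nat_lit 228) (nat_lit 10585504572) (nat_lit 25) (nat_lit 5) (nat_lit 27) (nat_lit 5) (nat_lit 28) (nat_lit 5) (nat_lit 361) (nat_lit 354) (nat_lit 305)) (XT.nd (nat_lit 78) (nat_lit 152) (nat_lit 0) (XT.lf (nat_lit 0) (nat_lit 46211204732) (nat_lit 152) (nat_lit 3386100194) (nat_lit 228) (nat_lit 3489233901) (nat_lit 25) (nat_lit 5) (nat_lit 27) (nat_lit 5) (nat_lit 28) (nat_lit 5) (nat_lit 362) (nat_lit 354) (nat_lit 304)) (XT.lf (nat_lit 0) (nat_lit 6204566525) (nat_lit 152) (nat_lit 32373382917) (nat_lit 76) (nat_lit 19072492118) (nat_lit 23) (nat_lit 5) (nat_lit 25) (nat_lit 5) (nat_lit 24) (nat_lit 5) (nat_lit 363) (nat_lit 354) (nat_lit 303))))) (XT.nd (nat_lit 234) (nat_lit 152) (nat_lit 0) (XT.nd (nat_lit 78) (nat_lit 228) (nat_lit 0) (XT.lf (nat_lit 0) (nat_lit 17527440627) (nat_lit 152) (nat_lit 172558679) (nat_lit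 76) (nat_lit 45094176490) (nat_lit 23) (nat_lit 5) (nat_lit 25) (nat_lit 5) (nat_lit 24) (nat_lit 5) (nat_lit 364) (nat_lit 354) (nat_lit 302)) (XT.nd (nat_lit 78) (nat_lit 76) (nat_lit 0) (XT.lf (nat_lit 0) (nat_lit 32559957676) (nat_lit 228) (nat_lit 28347083960) (nat_lit 76) (nat_lit 7500750582) (nat_lit 21) (nat_lit 5) (nat_lit 24) (nat_lit 5) (nat_lit 22) (nat_lit 4) (nat_lit 365) (nat_lit 354) (nat_lit 301)) (XT.lf (nat_lit 0) (nat_lit 11675130140) (nat_lit 76) (nat_lit 39503433367) (nat_lit 152) (nat_lit 23485209240) (nat_lit 20) (nat_lit 5) (nat_lit 21) (nat_lit 5) (nat_lit 22) (nat_lit 4) (nat_lit 366) (nat_lit 354) (nat_lit 300)))) (XT.nd (nat_lit 78) (nat_lit 152) (nat_lit 0) (XT.lf (nat_lit 0) (nat_lit 60879586902) (nat_lit 76) (nat_lit 13187920472) (nat_lit 152) (nat_lit 7569013798) (nat_lit 20) (nat_lit 5) (nat_lit 21) (nat_lit 5) (nat_lit 22) (nat_lit 4) (nat_lit 367) (nat_lit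 354) (nat_lit 299)) (XT.nd (nat_lit 78) (nat_lit 0) (nat_lit 0) (XT.lf (nat_lit 0) (nat_lit 11805973919) (nat_lit 152) (nat_lit 60157541403) (nat_lit 76) (nat_lit 17320939286) (nat_lit 18) (nat_lit 5) (nat_lit 20) (nat_lit 5) (nat_lit 19) (nat_lit 4) (nat_lit 368) (nat_lit 354) (nat_lit 298)) (XT.lf (nat_lit 0) (nat_lit 35073261913) (nat_lit 152) (nat_lit 10137325278) (nat_lit 76) (nat_lit 52550782140) (nat_lit 18) (nat_lit 5) (nat_lit 20) (nat_lit 5) (nat_lit 19) (nat_lit 4) (nat_lit 369) (nat_lit 354) (nat_lit 297)))))) (XT.nd (nat_lit 468) (nat_lit 380) (nat_lit 0) (XT.nd (nat_lit 234) (nat_lit 152) (nat_lit 0) (XT.nd (nat_lit 78) (nat_lit 152) (nat_lit 0) (XT.lf (nat_lit 0) (nat_lit 52010576166) (nat_lit 76) (nat_lit 11970487456) (nat_lit 152) (nat_lit 43206196219) (nat_lit 17) (nat_lit 5) (nat_lit 18) (nat_lit 5) (nat_lit 19) (nat_lit 4) (nat_lit 370) (nat_lit 354) (nat_lit 296))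 (XT.nd (nat_lit 78) (nat_lit 76) (nat_lit 0) (XT.lf (nat_lit 0) (nat_lit 6096999424) (nat_lit 76) (nat_lit 93019698826) (nat_lit 76) (nat_lit 18626587715) (nat_lit 16) (nat_lit 4) (nat_lit 17) (nat_lit 5) (nat_lit 17) (nat_lit 4) (nat_lit 371) (nat_lit 354) (nat_lit 295)) (XT.lf (nat_lit 0) (nat_lit 12370257534) (nat_lit 152) (nat_lit 47799603465) (nat_lit 76) (nat_lit 69114703821) (nat_lit 15) (nat_lit 5) (nat_lit 17) (nat_lit 5) (nat_lit 16) (nat_lit 4) (nat_lit 372) (nat_lit 354) (nat_lit 294)))) (XT.nd (nat_lit 78) (nat_lit 76) (nat_lit 0) (XT.lf (nat_lit 0) (nat_lit 27149029433) (nat_lit 76) (nat_lit 20082087104) (nat_lit 152) (nat_lit 95024648644) (nat_lit 14) (nat_lit 5) (nat_lit 15) (nat_lit 5) (nat_lit 16) (nat_lit 4) (nat_lit 373) (nat_lit 354) (nat_lit 293)) (XT.nd (nat_lit 78) (nat_lit 76) (nat_lit 0) (XT.lf (nat_lit 0) (nat_lit 91013453555) (nat_lit 152) (nat_lit 39287361983)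 (nat_lit 0) (nat_lit 26317978507) (nat_lit 14) (nat_lit 5) (nat_lit 16) (nat_lit 4) (nat_lit 14) (nat_lit 4) (nat_lit 374) (nat_lit 354) (nat_lit 292)) (XT.lf (nat_lit 0) (nat_lit 51531899501) (nat_lit 76) (nat_lit 92919067654) (nat_lit 76) (nat_lit 28222136891) (nat_lit 13) (nat_lit 4) (nat_lit 14) (nat_lit 5) (nat_lit 14) (nat_lit 4) (nat_lit 375) (nat_lit 354) (nat_lit 291))))) (XT.nd (nat_lit 234) (nat_lit 228) (nat_lit 0) (XT.nd (nat_lit 78) (nat_lit 76) (nat_lit 0) (XT.lf (nat_lit 0) (nat_lit 15602928765) (nat_lit 152) (nat_lit 31151899755) (nat_lit 76) (nat_lit 143966625506) (nat_lit 12) (nat_lit 5) (nat_lit 14) (nat_lit 5) (nat_lit 13) (nat_lit 4) (nat_lit 376) (nat_lit 354) (nat_lit 290)) (XT.nd (nat_lit 78) (nat_lit 0) (nat_lit 0) (XT.lf (nat_lit 0) (nat_lit 66816946866) (nat_lit 152) (nat_lit 133346144818) (nat_lit 0) (nat_lit 10556688318) (nat_lit 11) (nat_lit 5) (nat_lit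 13) (nat_lit 4) (nat_lit 11) (nat_lit 4) (nat_lit 377) (nat_lit 354) (nat_lit 289)) (XT.lf (nat_lit 0) (nat_lit 129643478107) (nat_lit 152) (nat_lit 30102428363) (nat_lit 0) (nat_lit 73382387249) (nat_lit 11) (nat_lit 5) (nat_lit 13) (nat_lit 4) (nat_lit 11) (nat_lit 4) (nat_lit 378) (nat_lit 354) (nat_lit 288)))) (XT.nd (nat_lit 78) (nat_lit 152) (nat_lit 0) (XT.lf (nat_lit 0) (nat_lit 97285462532) (nat_lit 76) (nat_lit 108635216696) (nat_lit 76) (nat_lit 52373402091) (nat_lit 10) (nat_lit 4) (nat_lit 11) (nat_lit 5) (nat_lit 11) (nat_lit 4) (nat_lit 379) (nat_lit 354) (nat_lit 287)) (XT.nd (nat_lit 78) (nat_lit 76) (nat_lit 0) (XT.lf (nat_lit 0) (nat_lit 7481313023) (nat_lit 152) (nat_lit 40177620949) (nat_lit 76) (nat_lit 239289005116) (nat_lit 9) (nat_lit 5) (nat_lit 11) (nat_lit 5) (nat_lit 10) (nat_lit 4) (nat_lit 380) (nat_lit 354) (nat_lit 286)) (XT.lf (nat_lit 0) (nat_lit 76584421593)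 (nat_lit 152) (nat_lit 214436443274) (nat_lit 0) (nat_lit 27660081413) (nat_lit 8) (nat_lit 5) (nat_lit 10) (nat_lit 4) (nat_lit 8) (nat_lit 4) (nat_lit 381) (nat_lit 354) (nat_lit 285))))))) (XT.nd (nat_lit 858) (nat_lit 76) (nat_lit 0) (XT.nd (nat_lit 390) (nat_lit 228) (nat_lit 0) (XT.nd (nat_lit 156) (nat_lit 152) (nat_lit 0) (XT.nd (nat_lit 78) (nat_lit 76) (nat_lit 0) (XT.lf (nat_lit 0) (nat_lit 160521221882) (nat_lit 152) (nat_lit 82385981160) (nat_lit 0) (nat_lit 111596467897) (nat_lit 8) (nat_lit 5) (nat_lit 10) (nat_lit 4) (nat_lit 8) (nat_lit 4) (nat_lit 382) (nat_lit 354) (nat_lit 284)) (XT.lf (nat_lit 0) (nat_lit 76258514303) (nat_lit 76) (nat_lit 183946468917) (nat_lit 76) (nat_lit 135021355102) (nat_lit 7) (nat_lit 4) (nat_lit 8) (nat_lit 5) (nat_lit 8) (nat_lit 4) (nat_lit 383) (nat_lit 354) (nat_lit 283))) (XT.nd (nat_lit 78) (nat_lit 152) (nat_lit 0) (XT.lf (nat_lit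 0) (nat_lit 267956266691) (nat_lit 76) (nat_lit 111190382464) (nat_lit 76) (nat_lit 62264955753) (nat_lit 7) (nat_lit 4) (nat_lit 8) (nat_lit 5) (nat_lit 8) (nat_lit 4) (nat_lit 384) (nat_lit 354) (nat_lit 282)) (XT.nd (nat_lit 78) (nat_lit 76) (nat_lit 0) (XT.lf (nat_lit 0) (nat_lit 19498198109) (nat_lit 152) (nat_lit 7004572858) (nat_lit 76) (nat_lit 467889104849) (nat_lit 6) (nat_lit 5) (nat_lit 8) (nat_lit 5) (nat_lit 7) (nat_lit 4) (nat_lit 385) (nat_lit 354) (nat_lit 281)) (XT.lf (nat_lit 0) (nat_lit 118866923562) (nat_lit 152) (nat_lit 357927505699) (nat_lit 0) (nat_lit 76322631920) (nat_lit 5) (nat_lit 5) (nat_lit 7) (nat_lit 4) (nat_lit 5) (nat_lit 4) (nat_lit 386) (nat_lit 354) (nat_lit 280))))) (XT.nd (nat_lit 234) (nat_lit 152) (nat_lit 0) (XT.nd (nat_lit 78) (nat_lit 76) (nat_lit 0) (XT.lf (nat_lit 0) (nat_lit 234785633890) (nat_lit 152) (nat_lit 193377525790) (nat_lit 0)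 (nat_lit 192241163348) (nat_lit 5) (nat_lit 5) (nat_lit 7) (nat_lit 4) (nat_lit 5) (nat_lit 4) (nat_lit 387) (nat_lit 354) (nat_lit 279)) (XT.nd (nat_lit 78) (nat_lit 76) (nat_lit 0) (XT.lf (nat_lit 0) (nat_lit 368091329543) (nat_lit 152) (nat_lit 4146764433) (nat_lit 0) (nat_lit 325546703437) (nat_lit 5) (nat_lit 5) (nat_lit 7) (nat_lit 4) (nat_lit 5) (nat_lit 4) (nat_lit 388) (nat_lit 354) (nat_lit 278)) (XT.lf (nat_lit 0) (nat_lit 234328678746) (nat_lit 76) (nat_lit 296766537570) (nat_lit 76) (nat_lit 254221776191) (nat_lit 4) (nat_lit 4) (nat_lit 5) (nat_lit 5) (nat_lit 5) (nat_lit 4) (nat_lit 389) (nat_lit 354) (nat_lit 277)))) (XT.nd (nat_lit 78) (nat_lit 152) (nat_lit 0) (XT.lf (nat_lit 0) (nat_lit 509040054215) (nat_lit 76) (nat_lit 209725714651) (nat_lit 76) (nat_lit 167180835642) (nat_lit 4) (nat_lit 4) (nat_lit 5) (nat_lit 5) (nat_lit 5) (nat_lit 4) (nat_lit 390) (nat_lit 354)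 (nat_lit 276)) (XT.nd (nat_lit 78) (nat_lit 152) (nat_lit 0) (XT.lf (nat_lit 0) (nat_lit 824956897774) (nat_lit 76) (nat_lit 109629415283) (nat_lit 76) (nat_lit 67084433988) (nat_lit 4) (nat_lit 4) (nat_lit 5) (nat_lit 5) (nat_lit 5) (nat_lit 4) (nat_lit 391) (nat_lit 354) (nat_lit 275)) (XT.lf (nat_lit 0) (nat_lit 46525124874) (nat_lit 152) (nat_lit 1077984522460) (nat_lit 0) (nat_lit 9529411622) (nat_lit 2) (nat_lit 5) (nat_lit 4) (nat_lit 4) (nat_lit 2) (nat_lit 4) (nat_lit 392) (nat_lit 354) (nat_lit 274)))))) (XT.nd (nat_lit 468) (nat_lit 0) (nat_lit 0) (XT.nd (nat_lit 234) (nat_lit 76) (nat_lit 0) (XT.nd (nat_lit 78) (nat_lit 0) (nat_lit 0) (XT.lf (nat_lit 0) (nat_lit 185205048232) (nat_lit 152) (nat_lit 950134562363) (nat_lit 0) (nat_lit 148209267725) (nat_lit 2) (nat_lit 5) (nat_lit 4) (nat_lit 4) (nat_lit 2) (nat_lit 4) (nat_lit 393) (nat_lit 354) (nat_lit 273)) (XT.nd (nat_lit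 78) (nat_lit 0) (nat_lit 0) (XT.lf (nat_lit 0) (nat_lit 344686493639) (nat_lit 152) (nat_lit 803108092298) (nat_lit 0) (nat_lit 307690654649) (nat_lit 2) (nat_lit 5) (nat_lit 4) (nat_lit 4) (nat_lit 2) (nat_lit 4) (nat_lit 394) (nat_lit 354) (nat_lit 272)) (XT.lf (nat_lit 0) (nat_lit 528089750243) (nat_lit 152) (nat_lit 634028507416) (nat_lit 0) (nat_lit 491093860400) (nat_lit 2) (nat_lit 5) (nat_lit 4) (nat_lit 4) (nat_lit 2) (nat_lit 4) (nat_lit 395) (nat_lit 354) (nat_lit 271)))) (XT.nd (nat_lit 78) (nat_lit 76) (nat_lit 0) (XT.lf (nat_lit 0) (nat_lit 739003142632) (nat_lit 152) (nat_lit 439587728881) (nat_lit 0) (nat_lit 702007208567) (nat_lit 2) (nat_lit 5) (nat_lit 4) (nat_lit 4) (nat_lit 2) (nat_lit 4) (nat_lit 396) (nat_lit 354) (nat_lit 270)) (XT.nd (nat_lit 78) (nat_lit 76) (nat_lit 0) (XT.lf (nat_lit 0) (nat_lit 981553237177) (nat_lit 152) (nat_lit 215981480593) (nat_lit 0)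 (nat_lit 944557264659) (nat_lit 2) (nat_lit 5) (nat_lit 4) (nat_lit 4) (nat_lit 2) (nat_lit 4) (nat_lit 397) (nat_lit 354) (nat_lit 269)) (XT.lf (nat_lit 0) (nat_lit 45188099396) (nat_lit 76) (nat_lit 1217168622644) (nat_lit 76) (nat_lit 1180172616688) (nat_lit 1) (nat_lit 4) (nat_lit 2) (nat_lit 5) (nat_lit 2) (nat_lit 4) (nat_lit 398) (nat_lit 354) (nat_lit 268))))) (XT.nd (nat_lit 234) (nat_lit 0) (nat_lit 0) (XT.nd (nat_lit 78) (nat_lit 0) (nat_lit 0) (XT.lf (nat_lit 0) (nat_lit 369805952542) (nat_lit 76) (nat_lit 1226764463970) (nat_lit 76) (nat_lit 1189768428939) (nat_lit 1) (nat_lit 4) (nat_lit 2) (nat_lit 5) (nat_lit 2) (nat_lit 4) (nat_lit 399) (nat_lit 354) (nat_lit 267)) (XT.nd (nat_lit 78) (nat_lit 0) (nat_lit 0) (XT.lf (nat_lit 0) (nat_lit 743116016654) (nat_lit 76) (nat_lit 1237799927504) (nat_lit 76) (nat_lit 1200803867188) (nat_lit 1) (nat_lit 4) (nat_lit 2) (nat_lit 5)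 (nat_lit 2) (nat_lit 4) (nat_lit 400) (nat_lit 354) (nat_lit 266)) (XT.lf (nat_lit 0) (nat_lit 1172422184291) (nat_lit 76) (nat_lit 1250490924486) (nat_lit 76) (nat_lit 1213494842185) (nat_lit 1) (nat_lit 4) (nat_lit 2) (nat_lit 5) (nat_lit 2) (nat_lit 4) (nat_lit 401) (nat_lit 354) (nat_lit 265)))) (XT.nd (nat_lit 78) (nat_lit 0) (nat_lit 0) (XT.lf (nat_lit 0) (nat_lit 1666123923948) (nat_lit 76) (nat_lit 1265085757033) (nat_lit 76) (nat_lit 1228089655614) (nat_lit 1) (nat_lit 4) (nat_lit 2) (nat_lit 5) (nat_lit 2) (nat_lit 4) (nat_lit 402) (nat_lit 354) (nat_lit 264)) (XT.nd (nat_lit 78) (nat_lit 0) (nat_lit 0) (XT.lf (nat_lit 0) (nat_lit 2233880617491) (nat_lit 76) (nat_lit 1281869976216) (nat_lit 76) (nat_lit 1244873858173) (nat_lit 1) (nat_lit 4) (nat_lit 2) (nat_lit 5) (nat_lit 2) (nat_lit 4) (nat_lit 403) (nat_lit 354) (nat_lit 263)) (XT.lf (nat_lit 0) (nat_lit 2886800548052) (nat_lit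 76) (nat_lit 1301171968932) (nat_lit 76) (nat_lit 1264175836433) (nat_lit 1) (nat_lit 4) (nat_lit 2) (nat_lit 5) (nat_lit 2) (nat_lit 4) (nat_lit 404) (nat_lit 354) (nat_lit 262))))))))
noncomputable def xc74 : XT := (XT.nd (nat_lit 1794) (nat_lit 0) (nat_lit 0) (XT.nd (nat_lit 858) (nat_lit 0) (nat_lit 0) (XT.nd (nat_lit 390) (nat_lit 0) (nat_lit 0) (XT.nd (nat_lit 156) (nat_lit 0) (nat_lit 0) (XT.nd (nat_lit 78) (nat_lit 0) (nat_lit 0) (XT.lf (nat_lit 0) (nat_lit 3637658236012) (nat_lit 76) (nat_lit 1323369382865) (nat_lit 76) (nat_lit 1286373237795) (nat_lit 1) (nat_lit 4) (nat_lit 2) (nat_lit 5) (nat_lit 2) (nat_lit 4) (nat_lit 405) (nat_lit 354) (nat_lit 261)) (XT.lf (nat_lit 0) (nat_lit 4501144375266) (nat_lit 76) (nat_lit 1348896515243) (nat_lit 76) (nat_lit 1311900359242) (nat_lit 1) (nat_lit 4) (nat_lit 2) (nat_lit 5) (nat_lit 2) (nat_lit 4) (nat_lit 406) (nat_lit 354) (nat_lit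 260))) (XT.nd (nat_lit 78) (nat_lit 0) (nat_lit 0) (XT.lf (nat_lit 0) (nat_lit 5494153259844) (nat_lit 76) (nat_lit 1378252809961) (nat_lit 76) (nat_lit 1341256644456) (nat_lit 1) (nat_lit 4) (nat_lit 2) (nat_lit 5) (nat_lit 2) (nat_lit 4) (nat_lit 407) (nat_lit 354) (nat_lit 259)) (XT.nd (nat_lit 78) (nat_lit 0) (nat_lit 0) (XT.lf (nat_lit 0) (nat_lit 6636113324443) (nat_lit 76) (nat_lit 1412012629307) (nat_lit 76) (nat_lit 1375016455537) (nat_lit 1) (nat_lit 4) (nat_lit 2) (nat_lit 5) (nat_lit 2) (nat_lit 4) (nat_lit 408) (nat_lit 354) (nat_lit 258)) (XT.lf (nat_lit 0) (nat_lit 7949367265980) (nat_lit 76) (nat_lit 1450836491486) (nat_lit 76) (nat_lit 1413840310528) (nat_lit 1) (nat_lit 4) (nat_lit 2) (nat_lit 5) (nat_lit 2) (nat_lit 4) (nat_lit 409) (nat_lit 354) (nat_lit 257))))) (XT.nd (nat_lit 234) (nat_lit 0) (nat_lit 0) (XT.nd (nat_lit 78) (nat_lit 0) (nat_lit 0) (XT.lf (nat_lit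 0) (nat_lit 9459609183310) (nat_lit 76) (nat_lit 1495483993801) (nat_lit 76) (nat_lit 1458487806593) (nat_lit 1) (nat_lit 4) (nat_lit 2) (nat_lit 5) (nat_lit 2) (nat_lit 4) (nat_lit 410) (nat_lit 354) (nat_lit 256)) (XT.nd (nat_lit 78) (nat_lit 0) (nat_lit 0) (XT.lf (nat_lit 0) (nat_lit 11196387287860) (nat_lit 76) (nat_lit 1546828674341) (nat_lit 76) (nat_lit 1509832481699) (nat_lit 1) (nat_lit 4) (nat_lit 2) (nat_lit 5) (nat_lit 2) (nat_lit 4) (nat_lit 411) (nat_lit 354) (nat_lit 255)) (XT.lf (nat_lit 0) (nat_lit 13193682020805) (nat_lit 76) (nat_lit 1605875102942) (nat_lit 76) (nat_lit 1568878905574) (nat_lit 1) (nat_lit 4) (nat_lit 2) (nat_lit 5) (nat_lit 2) (nat_lit 4) (nat_lit 412) (nat_lit 354) (nat_lit 254)))) (XT.nd (nat_lit 78) (nat_lit 0) (nat_lit 0) (XT.lf (nat_lit 0) (nat_lit 15490570887791) (nat_lit 76) (nat_lit 1673778535817) (nat_lit 76) (nat_lit 1636782334340) (nat_lit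 1) (nat_lit 4) (nat_lit 2) (nat_lit 5) (nat_lit 2) (nat_lit 4) (nat_lit 413) (nat_lit 354) (nat_lit 253)) (XT.nd (nat_lit 78) (nat_lit 0) (nat_lit 0) (XT.lf (nat_lit 0) (nat_lit 18131993018823) (nat_lit 76) (nat_lit 1751867518390) (nat_lit 76) (nat_lit 1714871313340) (nat_lit 1) (nat_lit 4) (nat_lit 2) (nat_lit 5) (nat_lit 2) (nat_lit 4) (nat_lit 414) (nat_lit 354) (nat_lit 252)) (XT.lf (nat_lit 0) (nat_lit 21169628412117) (nat_lit 76) (nat_lit 1841669878583) (nat_lit 76) (nat_lit 1804673670425) (nat_lit 1) (nat_lit 4) (nat_lit 2) (nat_lit 5) (nat_lit 2) (nat_lit 4) (nat_lit 415) (nat_lit 354) (nat_lit 251)))))) (XT.nd (nat_lit 468) (nat_lit 0) (nat_lit 0) (XT.nd (nat_lit 234) (nat_lit 0) (nat_lit 0) (XT.nd (nat_lit 78) (nat_lit 0) (nat_lit 0) (XT.lf (nat_lit 0) (nat_lit 24662909064499) (nat_lit 76) (nat_lit 1944942619094) (nat_lit 76) (nat_lit 1907946408235) (nat_lit 1) (nat_lit 4) (nat_lit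 2) (nat_lit 5) (nat_lit 2) (nat_lit 4) (nat_lit 416) (nat_lit 354) (nat_lit 250)) (XT.nd (nat_lit 78) (nat_lit 0) (nat_lit 0) (XT.lf (nat_lit 0) (nat_lit 28680181771341) (nat_lit 76) (nat_lit 2063706293542) (nat_lit 76) (nat_lit 2026710080333) (nat_lit 1) (nat_lit 4) (nat_lit 2) (nat_lit 5) (nat_lit 2) (nat_lit 4) (nat_lit 417) (nat_lit 354) (nat_lit 249)) (XT.lf (nat_lit 0) (nat_lit 33300045346473) (nat_lit 76) (nat_lit 2200284539037) (nat_lit 76) (nat_lit 2163288323784) (nat_lit 1) (nat_lit 4) (nat_lit 2) (nat_lit 5) (nat_lit 2) (nat_lit 4) (nat_lit 418) (nat_lit 354) (nat_lit 248)))) (XT.nd (nat_lit 78) (nat_lit 0) (nat_lit 0) (XT.lf (nat_lit 0) (nat_lit 38612888425061) (nat_lit 76) (nat_lit 2357349538641) (nat_lit 76) (nat_lit 2320353321612) (nat_lit 1) (nat_lit 4) (nat_lit 2) (nat_lit 5) (nat_lit 2) (nat_lit 4) (nat_lit 419) (nat_lit 354) (nat_lit 247)) (XT.nd (nat_lit 78) (nat_lit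 0) (nat_lit 0) (XT.lf (nat_lit 0) (nat_lit 44722657936902) (nat_lit 76) (nat_lit 2537974303216) (nat_lit 76) (nat_lit 2500978084642) (nat_lit 1) (nat_lit 4) (nat_lit 2) (nat_lit 5) (nat_lit 2) (nat_lit 4) (nat_lit 420) (nat_lit 354) (nat_lit 246)) (XT.lf (nat_lit 0) (nat_lit 51748892850707) (nat_lit 76) (nat_lit 2745692795549) (nat_lit 76) (nat_lit 2708696575632) (nat_lit 1) (nat_lit 4) (nat_lit 2) (nat_lit 5) (nat_lit 2) (nat_lit 4) (nat_lit 421) (nat_lit 354) (nat_lit 245))))) (XT.nd (nat_lit 234) (nat_lit 0) (nat_lit 0) (XT.nd (nat_lit 78) (nat_lit 0) (nat_lit 0) (XT.lf (nat_lit 0) (nat_lit 59829062980007) (nat_lit 76) (nat_lit 2984569073097) (nat_lit 76) (nat_lit 2947572852012) (nat_lit 1) (nat_lit 4) (nat_lit 2) (nat_lit 5) (nat_lit 2) (nat_lit 4) (nat_lit 422) (nat_lit 354) (nat_lit 244)) (XT.nd (nat_lit 78) (nat_lit 0) (nat_lit 0) (XT.lf (nat_lit 0) (nat_lit 69121258609940) (nat_lit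 76) (nat_lit 3259276802161) (nat_lit 76) (nat_lit 3222280580060) (nat_lit 1) (nat_lit 4) (nat_lit 2) (nat_lit 5) (nat_lit 2) (nat_lit 4) (nat_lit 423) (nat_lit 354) (nat_lit 243)) (XT.lf (nat_lit 0) (nat_lit 79807283568049) (nat_lit 76) (nat_lit 3575190699178) (nat_lit 76) (nat_lit 3538194476194) (nat_lit 1) (nat_lit 4) (nat_lit 2) (nat_lit 5) (nat_lit 2) (nat_lit 4) (nat_lit 424) (nat_lit 354) (nat_lit 242)))) (XT.nd (nat_lit 78) (nat_lit 0) (nat_lit 0) (XT.lf (nat_lit 0) (nat_lit 92096212255688) (nat_lit 76) (nat_lit 3938491688221) (nat_lit 76) (nat_lit 3901495464469) (nat_lit 1) (nat_lit 4) (nat_lit 2) (nat_lit 5) (nat_lit 2) (nat_lit 4) (nat_lit 425) (nat_lit 354) (nat_lit 241)) (XT.nd (nat_lit 78) (nat_lit 0) (nat_lit 0) (XT.lf (nat_lit 0) (nat_lit 106228480234136) (nat_lit 76) (nat_lit 4356287832119) (nat_lit 76) (nat_lit 4319291607699) (nat_lit 1) (nat_lit 4) (nat_lit 2) (nat_lit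 5) (nat_lit 2) (nat_lit 4) (nat_lit 426) (nat_lit 354) (nat_lit 240)) (XT.lf (nat_lit 0) (nat_lit 122480588398624) (nat_lit 76) (nat_lit 4836753403252) (nat_lit 76) (nat_lit 4799757178251) (nat_lit 1) (nat_lit 4) (nat_lit 2) (nat_lit 5) (nat_lit 2) (nat_lit 4) (nat_lit 427) (nat_lit 354) (nat_lit 239))))))) (XT.nd (nat_lit 48204) (nat_lit 0) (nat_lit 912) (XT.nd (nat_lit 47736) (nat_lit 0) (nat_lit 1672) (XT.nd (nat_lit 47502) (nat_lit 0) (nat_lit 2128) (XT.nd (nat_lit 47424) (nat_lit 0) (nat_lit 2128) (XT.lf (nat_lit 0) (nat_lit 141170512778458) (nat_lit 76) (nat_lit 5389288814969) (nat_lit 76) (nat_lit 5352292589463) (nat_lit 1) (nat_lit 4) (nat_lit 2) (nat_lit 5) (nat_lit 2) (nat_lit 4) (nat_lit 428) (nat_lit 354) (nat_lit 238)) (XT.lf (nat_lit 0) (nat_lit 4163289365) (nat_lit 380) (nat_lit 6180283641) (nat_lit 380) (nat_lit 6180283641) (nat_lit 29) (nat_lit 3) (nat_lit 34) (nat_lit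 3) (nat_lit 34) (nat_lit 5) (nat_lit 355) (nat_lit 355) (nat_lit 310))) (XT.nd (nat_lit 78) (nat_lit 0) (nat_lit 76) (XT.lf (nat_lit 76) (nat_lit 4189482402) (nat_lit 0) (nat_lit 4990436399) (nat_lit 380) (nat_lit 26311980278) (nat_lit 30) (nat_lit 5) (nat_lit 29) (nat_lit 3) (nat_lit 34) (nat_lit 5) (nat_lit 356) (nat_lit 355) (nat_lit 309)) (XT.nd (nat_lit 78) (nat_lit 0) (nat_lit 0) (XT.lf (nat_lit 0) (nat_lit 11369011473) (nat_lit 304) (nat_lit 14174101897) (nat_lit 380) (nat_lit 12578448320) (nat_lit 30) (nat_lit 5) (nat_lit 34) (nat_lit 5) (nat_lit 35) (nat_lit 5) (nat_lit 357) (nat_lit 355) (nat_lit 308)) (XT.lf (nat_lit 76) (nat_lit 5794829716) (nat_lit 0) (nat_lit 8560572612) (nat_lit 380) (nat_lit 26719941398) (nat_lit 31) (nat_lit 5) (nat_lit 30) (nat_lit 5) (nat_lit 35) (nat_lit 5) (nat_lit 358) (nat_lit 355) (nat_lit 307))))) (XT.nd (nat_lit 234) (nat_lit 304) (nat_lit 0)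 (XT.nd (nat_lit 78) (nat_lit 304) (nat_lit 0) (XT.lf (nat_lit 0) (nat_lit 19012420697) (nat_lit 304) (nat_lit 14506280607) (nat_lit 76) (nat_lit 10770100278) (nat_lit 31) (nat_lit 5) (nat_lit 35) (nat_lit 5) (nat_lit 32) (nat_lit 5) (nat_lit 359) (nat_lit 355) (nat_lit 306)) (XT.nd (nat_lit 78) (nat_lit 0) (nat_lit 0) (XT.lf (nat_lit 0) (nat_lit 9846236309) (nat_lit 304) (nat_lit 15330374957) (nat_lit 380) (nat_lit 22686381626) (nat_lit 27) (nat_lit 5) (nat_lit 31) (nat_lit 5) (nat_lit 32) (nat_lit 5) (nat_lit 360) (nat_lit 355) (nat_lit 305)) (XT.lf (nat_lit 0) (nat_lit 33284992399) (nat_lit 380) (nat_lit 12652441141) (nat_lit 76) (nat_lit 5882951753) (nat_lit 27) (nat_lit 5) (nat_lit 32) (nat_lit 5) (nat_lit 28) (nat_lit 5) (nat_lit 361) (nat_lit 355) (nat_lit 304)))) (XT.nd (nat_lit 78) (nat_lit 152) (nat_lit 0) (XT.lf (nat_lit 0) (nat_lit 17322223339) (nat_lit 152) (nat_lit 26729360482)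 (nat_lit 228) (nat_lit 12103515582) (nat_lit 25) (nat_lit 5) (nat_lit 27) (nat_lit 5) (nat_lit 28) (nat_lit 5) (nat_lit 362) (nat_lit 355) (nat_lit 303)) (XT.nd (nat_lit 78) (nat_lit 152) (nat_lit 0) (XT.lf (nat_lit 0) (nat_lit 53208916838) (nat_lit 152) (nat_lit 3880726388) (nat_lit 228) (nat_lit 3951910573) (nat_lit 25) (nat_lit 5) (nat_lit 27) (nat_lit 5) (nat_lit 28) (nat_lit 5) (nat_lit 363) (nat_lit 355) (nat_lit 302)) (XT.lf (nat_lit 0) (nat_lit 7186884262) (nat_lit 152) (nat_lit 37154194753) (nat_lit 76) (nat_lit 21949142680) (nat_lit 23) (nat_lit 5) (nat_lit 25) (nat_lit 5) (nat_lit 24) (nat_lit 5) (nat_lit 364) (nat_lit 355) (nat_lit 301)))))) (XT.nd (nat_lit 468) (nat_lit 380) (nat_lit 0) (XT.nd (nat_lit 234) (nat_lit 152) (nat_lit 0) (XT.nd (nat_lit 78) (nat_lit 228) (nat_lit 0) (XT.lf (nat_lit 0) (nat_lit 20201454772) (nat_lit 152) (nat_lit 133055001) (nat_lit 76) (nat_lit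 51872021871) (nat_lit 23) (nat_lit 5) (nat_lit 25) (nat_lit 5) (nat_lit 24) (nat_lit 5) (nat_lit 365) (nat_lit 355) (nat_lit 300)) (XT.nd (nat_lit 78) (nat_lit 76) (nat_lit 0) (XT.lf (nat_lit 0) (nat_lit 37486438426) (nat_lit 228) (nat_lit 32531316981) (nat_lit 76) (nat_lit 8644801437) (nat_lit 21) (nat_lit 5) (nat_lit 24) (nat_lit 5) (nat_lit 22) (nat_lit 4) (nat_lit 366) (nat_lit 355) (nat_lit 299)) (XT.lf (nat_lit 0) (nat_lit 13491146072) (nat_lit 76) (nat_lit 45403828274) (nat_lit 152) (nat_lit 26962393285) (nat_lit 20) (nat_lit 5) (nat_lit 21) (nat_lit 5) (nat_lit 22) (nat_lit 4) (nat_lit 367) (nat_lit 355) (nat_lit 298)))) (XT.nd (nat_lit 78) (nat_lit 152) (nat_lit 0) (XT.lf (nat_lit 0) (nat_lit 70067826165) (nat_lit 76) (nat_lit 15144264980) (nat_lit 152) (nat_lit 8664716006) (nat_lit 20) (nat_lit 5) (nat_lit 21) (nat_lit 5) (nat_lit 22) (nat_lit 4) (nat_lit 368) (nat_lit 355)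 (nat_lit 297)) (XT.nd (nat_lit 78) (nat_lit 0) (nat_lit 0) (XT.lf (nat_lit 0) (nat_lit 13611611495) (nat_lit 152) (nat_lit 69119924729) (nat_lit 76) (nat_lit 19940357546) (nat_lit 18) (nat_lit 5) (nat_lit 20) (nat_lit 5) (nat_lit 19) (nat_lit 4) (nat_lit 369) (nat_lit 355) (nat_lit 296)) (XT.lf (nat_lit 0) (nat_lit 40364461190) (nat_lit 152) (nat_lit 11604665040) (nat_lit 76) (nat_lit 60451901520) (nat_lit 18) (nat_lit 5) (nat_lit 20) (nat_lit 5) (nat_lit 19) (nat_lit 4) (nat_lit 370) (nat_lit 355) (nat_lit 295))))) (XT.nd (nat_lit 234) (nat_lit 152) (nat_lit 0) (XT.nd (nat_lit 78) (nat_lit 152) (nat_lit 0) (XT.lf (nat_lit 0) (nat_lit 59863000755) (nat_lit 76) (nat_lit 13743597065) (nat_lit 152) (nat_lit 49654481334) (nat_lit 17) (nat_lit 5) (nat_lit 18) (nat_lit 5) (nat_lit 19) (nat_lit 4) (nat_lit 371) (nat_lit 355) (nat_lit 294)) (XT.nd (nat_lit 78) (nat_lit 76) (nat_lit 0) (XT.lf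 (nat_lit 0) (nat_lit 7063264377) (nat_lit 76) (nat_lit 106948562473) (nat_lit 76) (nat_lit 21388796722) (nat_lit 16) (nat_lit 4) (nat_lit 17) (nat_lit 5) (nat_lit 17) (nat_lit 4) (nat_lit 372) (nat_lit 355) (nat_lit 293)) (XT.lf (nat_lit 0) (nat_lit 14250970034) (nat_lit 152) (nat_lit 54922105359) (nat_lit 76) (nat_lit 79500389217) (nat_lit 15) (nat_lit 5) (nat_lit 17) (nat_lit 5) (nat_lit 16) (nat_lit 4) (nat_lit 373) (nat_lit 355) (nat_lit 292)))) (XT.nd (nat_lit 78) (nat_lit 76) (nat_lit 0) (XT.lf (nat_lit 0) (nat_lit 31266666173) (nat_lit 76) (nat_lit 23072883211) (nat_lit 152) (nat_lit 109251008071) (nat_lit 14) (nat_lit 5) (nat_lit 15) (nat_lit 5) (nat_lit 16) (nat_lit 4) (nat_lit 374) (nat_lit 355) (nat_lit 291)) (XT.nd (nat_lit 78) (nat_lit 76) (nat_lit 0) (XT.lf (nat_lit 0) (nat_lit 104686911882) (nat_lit 152) (nat_lit 45138758579) (nat_lit 0) (nat_lit 30282719952) (nat_lit 14)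 (nat_lit 5) (nat_lit 16) (nat_lit 4) (nat_lit 14) (nat_lit 4) (nat_lit 375) (nat_lit 355) (nat_lit 290)) (XT.lf (nat_lit 0) (nat_lit 59301496323) (nat_lit 76) (nat_lit 106837408165) (nat_lit 76) (nat_lit 32432115506) (nat_lit 13) (nat_lit 4) (nat_lit 14) (nat_lit 5) (nat_lit 14) (nat_lit 4) (nat_lit 376) (nat_lit 355) (nat_lit 289))))))))
noncomputable def xc75 : XT := (XT.nd (nat_lit 1794) (nat_lit 0) (nat_lit 0) (XT.nd (nat_lit 858) (nat_lit 304) (nat_lit 0) (XT.nd (nat_lit 390) (nat_lit 304) (nat_lit 0) (XT.nd (nat_lit 156) (nat_lit 152) (nat_lit 0) (XT.nd (nat_lit 78) (nat_lit 76) (nat_lit 0) (XT.lf (nat_lit 0) (nat_lit 17961858393) (nat_lit 152) (nat_lit 35788254268) (nat_lit 76) (nat_lit 165576781520) (nat_lit 12) (nat_lit 5) (nat_lit 14) (nat_lit 5) (nat_lit 13) (nat_lit 4) (nat_lit 377) (nat_lit 355) (nat_lit 288)) (XT.lf (nat_lit 0) (nat_lit 76857721904) (nat_lit 152) (nat_lit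 153311374958) (nat_lit 0) (nat_lit 12155911361) (nat_lit 11) (nat_lit 5) (nat_lit 13) (nat_lit 4) (nat_lit 11) (nat_lit 4) (nat_lit 378) (nat_lit 355) (nat_lit 287))) (XT.nd (nat_lit 78) (nat_lit 152) (nat_lit 0) (XT.lf (nat_lit 0) (nat_lit 149105854612) (nat_lit 152) (nat_lit 34585886894) (nat_lit 0) (nat_lit 84403414724) (nat_lit 11) (nat_lit 5) (nat_lit 13) (nat_lit 4) (nat_lit 11) (nat_lit 4) (nat_lit 379) (nat_lit 355) (nat_lit 286)) (XT.nd (nat_lit 78) (nat_lit 76) (nat_lit 0) (XT.lf (nat_lit 0) (nat_lit 111908737376) (nat_lit 76) (nat_lit 124915091607) (nat_lit 76) (nat_lit 60212104461) (nat_lit 10) (nat_lit 4) (nat_lit 11) (nat_lit 5) (nat_lit 11) (nat_lit 4) (nat_lit 380) (nat_lit 355) (nat_lit 285)) (XT.lf (nat_lit 0) (nat_lit 8617220473) (nat_lit 152) (nat_lit 46176439002) (nat_lit 76) (nat_lit 275194411713) (nat_lit 9) (nat_lit 5) (nat_lit 11) (nat_lit 5) (nat_lit 10) (nat_lit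 4) (nat_lit 381) (nat_lit 355) (nat_lit 284))))) (XT.nd (nat_lit 234) (nat_lit 152) (nat_lit 0) (XT.nd (nat_lit 78) (nat_lit 76) (nat_lit 0) (XT.lf (nat_lit 0) (nat_lit 88085667403) (nat_lit 152) (nat_lit 246573954847) (nat_lit 0) (nat_lit 31821426685) (nat_lit 8) (nat_lit 5) (nat_lit 10) (nat_lit 4) (nat_lit 8) (nat_lit 4) (nat_lit 382) (nat_lit 355) (nat_lit 283)) (XT.nd (nat_lit 78) (nat_lit 76) (nat_lit 0) (XT.lf (nat_lit 0) (nat_lit 184611216095) (nat_lit 152) (nat_lit 94719569710) (nat_lit 0) (nat_lit 128346662481) (nat_lit 8) (nat_lit 5) (nat_lit 10) (nat_lit 4) (nat_lit 8) (nat_lit 4) (nat_lit 383) (nat_lit 355) (nat_lit 282)) (XT.lf (nat_lit 0) (nat_lit 87720495136) (nat_lit 76) (nat_lit 211526466758) (nat_lit 76) (nat_lit 155261641061) (nat_lit 7) (nat_lit 4) (nat_lit 8) (nat_lit 5) (nat_lit 8) (nat_lit 4) (nat_lit 384) (nat_lit 355) (nat_lit 281)))) (XT.nd (nat_lit 78) (nat_lit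 152) (nat_lit 0) (XT.lf (nat_lit 0) (nat_lit 308169883814) (nat_lit 76) (nat_lit 127858528967) (nat_lit 76) (nat_lit 71593466675) (nat_lit 7) (nat_lit 4) (nat_lit 8) (nat_lit 5) (nat_lit 8) (nat_lit 4) (nat_lit 385) (nat_lit 355) (nat_lit 280)) (XT.nd (nat_lit 78) (nat_lit 76) (nat_lit 0) (XT.lf (nat_lit 0) (nat_lit 22431825610) (nat_lit 152) (nat_lit 8036842963) (nat_lit 76) (nat_lit 538080653003) (nat_lit 6) (nat_lit 5) (nat_lit 8) (nat_lit 5) (nat_lit 7) (nat_lit 4) (nat_lit 386) (nat_lit 355) (nat_lit 279)) (XT.lf (nat_lit 0) (nat_lit 136705804574) (nat_lit 152) (nat_lit 411598159602) (nat_lit 0) (nat_lit 87779328987) (nat_lit 5) (nat_lit 5) (nat_lit 7) (nat_lit 4) (nat_lit 5) (nat_lit 4) (nat_lit 387) (nat_lit 355) (nat_lit 278)))))) (XT.nd (nat_lit 468) (nat_lit 76) (nat_lit 0) (XT.nd (nat_lit 234) (nat_lit 152) (nat_lit 0) (XT.nd (nat_lit 78) (nat_lit 76) (nat_lit 0) (XT.lf (nat_lit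 0) (nat_lit 270011168084) (nat_lit 152) (nat_lit 222368092092) (nat_lit 0) (nat_lit 221084557224) (nat_lit 5) (nat_lit 5) (nat_lit 7) (nat_lit 4) (nat_lit 5) (nat_lit 4) (nat_lit 388) (nat_lit 355) (nat_lit 277)) (XT.nd (nat_lit 78) (nat_lit 76) (nat_lit 0) (XT.lf (nat_lit 0) (nat_lit 423311715158) (nat_lit 152) (nat_lit 4754811649) (nat_lit 0) (nat_lit 374384986669) (nat_lit 5) (nat_lit 5) (nat_lit 7) (nat_lit 4) (nat_lit 5) (nat_lit 4) (nat_lit 389) (nat_lit 355) (nat_lit 276)) (XT.lf (nat_lit 0) (nat_lit 269491313123) (nat_lit 76) (nat_lit 341274551787) (nat_lit 76) (nat_lit 292347721011) (nat_lit 4) (nat_lit 4) (nat_lit 5) (nat_lit 5) (nat_lit 5) (nat_lit 4) (nat_lit 390) (nat_lit 355) (nat_lit 275)))) (XT.nd (nat_lit 78) (nat_lit 152) (nat_lit 0) (XT.lf (nat_lit 0) (nat_lit 585407655882) (nat_lit 76) (nat_lit 241178514093) (nat_lit 76) (nat_lit 192251594373) (nat_lit 4) (nat_lit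 4) (nat_lit 5) (nat_lit 5) (nat_lit 5) (nat_lit 4) (nat_lit 391) (nat_lit 355) (nat_lit 274)) (XT.nd (nat_lit 78) (nat_lit 152) (nat_lit 0) (XT.lf (nat_lit 0) (nat_lit 948710513775) (nat_lit 76) (nat_lit 126068559962) (nat_lit 76) (nat_lit 77141562899) (nat_lit 4) (nat_lit 4) (nat_lit 5) (nat_lit 5) (nat_lit 5) (nat_lit 4) (nat_lit 392) (nat_lit 355) (nat_lit 273)) (XT.lf (nat_lit 0) (nat_lit 53508916131) (nat_lit 152) (nat_lit 1239671605168) (nat_lit 0) (nat_lit 10963642811) (nat_lit 2) (nat_lit 5) (nat_lit 4) (nat_lit 4) (nat_lit 2) (nat_lit 4) (nat_lit 393) (nat_lit 355) (nat_lit 272))))) (XT.nd (nat_lit 234) (nat_lit 76) (nat_lit 0) (XT.nd (nat_lit 78) (nat_lit 0) (nat_lit 0) (XT.lf (nat_lit 0) (nat_lit 212990172881) (nat_lit 152) (nat_lit 1092645533100) (nat_lit 0) (nat_lit 170444848706) (nat_lit 2) (nat_lit 5) (nat_lit 4) (nat_lit 4) (nat_lit 2) (nat_lit 4) (nat_lit 394) (nat_lit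 355) (nat_lit 271)) (XT.nd (nat_lit 78) (nat_lit 0) (nat_lit 0) (XT.lf (nat_lit 0) (nat_lit 396393265436) (nat_lit 152) (nat_lit 923566294301) (nat_lit 0) (nat_lit 353847897040) (nat_lit 2) (nat_lit 5) (nat_lit 4) (nat_lit 4) (nat_lit 2) (nat_lit 4) (nat_lit 395) (nat_lit 355) (nat_lit 270)) (XT.lf (nat_lit 0) (nat_lit 607306515173) (nat_lit 152) (nat_lit 729125816709) (nat_lit 0) (nat_lit 564761108324) (nat_lit 2) (nat_lit 5) (nat_lit 4) (nat_lit 4) (nat_lit 2) (nat_lit 4) (nat_lit 396) (nat_lit 355) (nat_lit 269)))) (XT.nd (nat_lit 78) (nat_lit 76) (nat_lit 0) (XT.lf (nat_lit 0) (nat_lit 849856485673) (nat_lit 152) (nat_lit 505519830110) (nat_lit 0) (nat_lit 807311045387) (nat_lit 2) (nat_lit 5) (nat_lit 4) (nat_lit 4) (nat_lit 2) (nat_lit 4) (nat_lit 397) (nat_lit 355) (nat_lit 268)) (XT.nd (nat_lit 78) (nat_lit 76) (nat_lit 0) (XT.lf (nat_lit 0) (nat_lit 1128788719838) (nat_lit 152)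 (nat_lit 248373434765) (nat_lit 0) (nat_lit 1086243250475) (nat_lit 2) (nat_lit 5) (nat_lit 4) (nat_lit 4) (nat_lit 2) (nat_lit 4) (nat_lit 398) (nat_lit 355) (nat_lit 267)) (XT.lf (nat_lit 0) (nat_lit 51971342770) (nat_lit 76) (nat_lit 1399741267170) (nat_lit 76) (nat_lit 1357195772523) (nat_lit 1) (nat_lit 4) (nat_lit 2) (nat_lit 5) (nat_lit 2) (nat_lit 4) (nat_lit 399) (nat_lit 355) (nat_lit 266))))))) (XT.nd (nat_lit 858) (nat_lit 0) (nat_lit 0) (XT.nd (nat_lit 390) (nat_lit 0) (nat_lit 0) (XT.nd (nat_lit 156) (nat_lit 0) (nat_lit 0) (XT.nd (nat_lit 78) (nat_lit 0) (nat_lit 0) (XT.lf (nat_lit 0) (nat_lit 425281218002) (nat_lit 76) (nat_lit 1410776830200) (nat_lit 76) (nat_lit 1368231313568) (nat_lit 1) (nat_lit 4) (nat_lit 2) (nat_lit 5) (nat_lit 2) (nat_lit 4) (nat_lit 400) (nat_lit 355) (nat_lit 265)) (XT.lf (nat_lit 0) (nat_lit 854587221395) (nat_lit 76) (nat_lit 1423467913702)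 (nat_lit 76) (nat_lit 1380922377953) (nat_lit 1) (nat_lit 4) (nat_lit 2) (nat_lit 5) (nat_lit 2) (nat_lit 4) (nat_lit 401) (nat_lit 355) (nat_lit 264))) (XT.nd (nat_lit 78) (nat_lit 0) (nat_lit 0) (XT.lf (nat_lit 0) (nat_lit 1348288818232) (nat_lit 76) (nat_lit 1438062821484) (nat_lit 76) (nat_lit 1395517269110) (nat_lit 1) (nat_lit 4) (nat_lit 2) (nat_lit 5) (nat_lit 2) (nat_lit 4) (nat_lit 402) (nat_lit 355) (nat_lit 263)) (XT.nd (nat_lit 78) (nat_lit 0) (nat_lit 0) (XT.lf (nat_lit 0) (nat_lit 1916045387582) (nat_lit 76) (nat_lit 1454847106088) (nat_lit 76) (nat_lit 1412301539258) (nat_lit 1) (nat_lit 4) (nat_lit 2) (nat_lit 5) (nat_lit 2) (nat_lit 4) (nat_lit 403) (nat_lit 355) (nat_lit 262)) (XT.lf (nat_lit 0) (nat_lit 2568965210150) (nat_lit 76) (nat_lit 1474149155692) (nat_lit 76) (nat_lit 1431603576291) (nat_lit 1) (nat_lit 4) (nat_lit 2) (nat_lit 5) (nat_lit 2) (nat_lit 4) (nat_lit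 404) (nat_lit 355) (nat_lit 261))))) (XT.nd (nat_lit 234) (nat_lit 0) (nat_lit 0) (XT.nd (nat_lit 78) (nat_lit 0) (nat_lit 0) (XT.lf (nat_lit 0) (nat_lit 3319822804204) (nat_lit 76) (nat_lit 1496346619092) (nat_lit 76) (nat_lit 1453801028761) (nat_lit 1) (nat_lit 4) (nat_lit 2) (nat_lit 5) (nat_lit 2) (nat_lit 4) (nat_lit 405) (nat_lit 355) (nat_lit 260)) (XT.nd (nat_lit 78) (nat_lit 0) (nat_lit 0) (XT.lf (nat_lit 0) (nat_lit 4183308861800) (nat_lit 76) (nat_lit 1521873794486) (nat_lit 76) (nat_lit 1479328194650) (nat_lit 1) (nat_lit 4) (nat_lit 2) (nat_lit 5) (nat_lit 2) (nat_lit 4) (nat_lit 406) (nat_lit 355) (nat_lit 259)) (XT.lf (nat_lit 0) (nat_lit 5176317675371) (nat_lit 76) (nat_lit 1551230126609) (nat_lit 76) (nat_lit 1508684518507) (nat_lit 1) (nat_lit 4) (nat_lit 2) (nat_lit 5) (nat_lit 2) (nat_lit 4) (nat_lit 407) (nat_lit 355) (nat_lit 258)))) (XT.nd (nat_lit 78) (nat_lit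 0) (nat_lit 0) (XT.lf (nat_lit 0) (nat_lit 6318277678224) (nat_lit 76) (nat_lit 1584989978481) (nat_lit 76) (nat_lit 1542444363192) (nat_lit 1) (nat_lit 4) (nat_lit 2) (nat_lit 5) (nat_lit 2) (nat_lit 4) (nat_lit 408) (nat_lit 355) (nat_lit 257)) (XT.nd (nat_lit 78) (nat_lit 0) (nat_lit 0) (XT.lf (nat_lit 0) (nat_lit 7631531566069) (nat_lit 76) (nat_lit 1623813868943) (nat_lit 76) (nat_lit 1581268247405) (nat_lit 1) (nat_lit 4) (nat_lit 2) (nat_lit 5) (nat_lit 2) (nat_lit 4) (nat_lit 409) (nat_lit 355) (nat_lit 256)) (XT.lf (nat_lit 0) (nat_lit 9141773436711) (nat_lit 76) (nat_lit 1668461395853) (nat_lit 76) (nat_lit 1625915768879) (nat_lit 1) (nat_lit 4) (nat_lit 2) (nat_lit 5) (nat_lit 2) (nat_lit 4) (nat_lit 410) (nat_lit 355) (nat_lit 255)))))) (XT.nd (nat_lit 468) (nat_lit 0) (nat_lit 0) (XT.nd (nat_lit 234) (nat_lit 0) (nat_lit 0) (XT.nd (nat_lit 78) (nat_lit 0) (nat_lit 0) (XT.lf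 (nat_lit 0) (nat_lit 10878551500662) (nat_lit 76) (nat_lit 1719806097779) (nat_lit 76) (nat_lit 1677260466080) (nat_lit 1) (nat_lit 4) (nat_lit 2) (nat_lit 5) (nat_lit 2) (nat_lit 4) (nat_lit 411) (nat_lit 355) (nat_lit 254)) (XT.nd (nat_lit 78) (nat_lit 0) (nat_lit 0) (XT.lf (nat_lit 0) (nat_lit 12875846198305) (nat_lit 76) (nat_lit 1778852544977) (nat_lit 76) (nat_lit 1736306909169) (nat_lit 1) (nat_lit 4) (nat_lit 2) (nat_lit 5) (nat_lit 2) (nat_lit 4) (nat_lit 412) (nat_lit 355) (nat_lit 253)) (XT.lf (nat_lit 0) (nat_lit 15172735034592) (nat_lit 76) (nat_lit 1846755994022) (nat_lit 76) (nat_lit 1804210354641) (nat_lit 1) (nat_lit 4) (nat_lit 2) (nat_lit 5) (nat_lit 2) (nat_lit 4) (nat_lit 413) (nat_lit 355) (nat_lit 252)))) (XT.nd (nat_lit 78) (nat_lit 0) (nat_lit 0) (XT.lf (nat_lit 0) (nat_lit 17814157138930) (nat_lit 76) (nat_lit 1924844990658) (nat_lit 76) (nat_lit 1882299348169)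 (nat_lit 1) (nat_lit 4) (nat_lit 2) (nat_lit 5) (nat_lit 2) (nat_lit 4) (nat_lit 414) (nat_lit 355) (nat_lit 251)) (XT.nd (nat_lit 78) (nat_lit 0) (nat_lit 0) (XT.lf (nat_lit 0) (nat_lit 20851792509012) (nat_lit 76) (nat_lit 2014647363078) (nat_lit 76) (nat_lit 1972101717888) (nat_lit 1) (nat_lit 4) (nat_lit 2) (nat_lit 5) (nat_lit 2) (nat_lit 4) (nat_lit 415) (nat_lit 355) (nat_lit 250)) (XT.lf (nat_lit 0) (nat_lit 24345073141209) (nat_lit 76) (nat_lit 2117920114222) (nat_lit 76) (nat_lit 2075374466682) (nat_lit 1) (nat_lit 4) (nat_lit 2) (nat_lit 5) (nat_lit 2) (nat_lit 4) (nat_lit 416) (nat_lit 355) (nat_lit 249))))) (XT.nd (nat_lit 234) (nat_lit 0) (nat_lit 0) (XT.nd (nat_lit 78) (nat_lit 0) (nat_lit 0) (XT.lf (nat_lit 0) (nat_lit 28362345830499) (nat_lit 76) (nat_lit 2236683797916) (nat_lit 76) (nat_lit 2194138148333) (nat_lit 1) (nat_lit 4) (nat_lit 2) (nat_lit 5) (nat_lit 2) (nat_lit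 4) (nat_lit 417) (nat_lit 355) (nat_lit 248)) (XT.nd (nat_lit 78) (nat_lit 0) (nat_lit 0) (XT.lf (nat_lit 0) (nat_lit 32982209390369) (nat_lit 76) (nat_lit 2373262051450) (nat_lit 76) (nat_lit 2330716400090) (nat_lit 1) (nat_lit 4) (nat_lit 2) (nat_lit 5) (nat_lit 2) (nat_lit 4) (nat_lit 418) (nat_lit 355) (nat_lit 247)) (XT.lf (nat_lit 0) (nat_lit 38295052455685) (nat_lit 76) (nat_lit 2530327058045) (nat_lit 76) (nat_lit 2487781405141) (nat_lit 1) (nat_lit 4) (nat_lit 2) (nat_lit 5) (nat_lit 2) (nat_lit 4) (nat_lit 419) (nat_lit 355) (nat_lit 246)))) (XT.nd (nat_lit 78) (nat_lit 0) (nat_lit 0) (XT.lf (nat_lit 0) (nat_lit 44404821955986) (nat_lit 76) (nat_lit 2710951828700) (nat_lit 76) (nat_lit 2668406174452) (nat_lit 1) (nat_lit 4) (nat_lit 2) (nat_lit 5) (nat_lit 2) (nat_lit 4) (nat_lit 420) (nat_lit 355) (nat_lit 245)) (XT.nd (nat_lit 78) (nat_lit 0) (nat_lit 0) (XT.lf (nat_lit 0)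 (nat_lit 51431056859755) (nat_lit 76) (nat_lit 2918670326319) (nat_lit 76) (nat_lit 2876124670903) (nat_lit 1) (nat_lit 4) (nat_lit 2) (nat_lit 5) (nat_lit 2) (nat_lit 4) (nat_lit 421) (nat_lit 355) (nat_lit 244)) (XT.lf (nat_lit 0) (nat_lit 59511226980329) (nat_lit 76) (nat_lit 3157546608464) (nat_lit 76) (nat_lit 3115000952033) (nat_lit 1) (nat_lit 4) (nat_lit 2) (nat_lit 5) (nat_lit 2) (nat_lit 4) (nat_lit 422) (nat_lit 355) (nat_lit 243))))))))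
noncomputable def xc76 : XT := (XT.nd (nat_lit 49140) (nat_lit 0) (nat_lit 76) (XT.nd (nat_lit 48282) (nat_lit 0) (nat_lit 1292) (XT.nd (nat_lit 390) (nat_lit 0) (nat_lit 0) (XT.nd (nat_lit 156) (nat_lit 0) (nat_lit 0) (XT.nd (nat_lit 78) (nat_lit 0) (nat_lit 0) (XT.lf (nat_lit 0) (nat_lit 68803422602674) (nat_lit 76) (nat_lit 3432254341525) (nat_lit 76) (nat_lit 3389708684210) (nat_lit 1) (nat_lit 4) (nat_lit 2) (nat_lit 5) (nat_lit 2) (nat_lit 4) (nat_lit 423) (nat_lit 355) (nat_lit 242)) (XT.lf (nat_lit 0) (nat_lit 79489447554185) (nat_lit 76) (nat_lit 3748168242018) (nat_lit 76) (nat_lit 3705622583935) (nat_lit 1) (nat_lit 4) (nat_lit 2) (nat_lit 5) (nat_lit 2) (nat_lit 4) (nat_lit 424) (nat_lit 355) (nat_lit 241))) (XT.nd (nat_lit 78) (nat_lit 0) (nat_lit 0) (XT.lf (nat_lit 0) (nat_lit 91778376236085) (nat_lit 76) (nat_lit 4111469234084) (nat_lit 76) (nat_lit 4068923575333) (nat_lit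 1) (nat_lit 4) (nat_lit 2) (nat_lit 5) (nat_lit 2) (nat_lit 4) (nat_lit 425) (nat_lit 355) (nat_lit 240)) (XT.nd (nat_lit 78) (nat_lit 0) (nat_lit 0) (XT.lf (nat_lit 0) (nat_lit 105910644209544) (nat_lit 76) (nat_lit 4529265380610) (nat_lit 76) (nat_lit 4486719721278) (nat_lit 1) (nat_lit 4) (nat_lit 2) (nat_lit 5) (nat_lit 2) (nat_lit 4) (nat_lit 426) (nat_lit 355) (nat_lit 239)) (XT.lf (nat_lit 0) (nat_lit 122162752369694) (nat_lit 76) (nat_lit 5009730954028) (nat_lit 76) (nat_lit 4967185294192) (nat_lit 1) (nat_lit 4) (nat_lit 2) (nat_lit 5) (nat_lit 2) (nat_lit 4) (nat_lit 427) (nat_lit 355) (nat_lit 238))))) (XT.nd (nat_lit 47658) (nat_lit 0) (nat_lit 2204) (XT.nd (nat_lit 47502) (nat_lit 0) (nat_lit 2128) (XT.lf (nat_lit 0) (nat_lit 140852676745755) (nat_lit 76) (nat_lit 5562266367733) (nat_lit 76) (nat_lit 5519720707457) (nat_lit 1) (nat_lit 4) (nat_lit 2) (nat_lit 5) (nat_lit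 2) (nat_lit 4) (nat_lit 428) (nat_lit 355) (nat_lit 237)) (XT.nd (nat_lit 78) (nat_lit 0) (nat_lit 0) (XT.lf (nat_lit 0) (nat_lit 4840859186) (nat_lit 380) (nat_lit 7076775751) (nat_lit 380) (nat_lit 7076775751) (nat_lit 29) (nat_lit 3) (nat_lit 34) (nat_lit 3) (nat_lit 34) (nat_lit 5) (nat_lit 356) (nat_lit 356) (nat_lit 308)) (XT.lf (nat_lit 76) (nat_lit 4876228322) (nat_lit 0) (nat_lit 5775400163) (nat_lit 380) (nat_lit 30149737620) (nat_lit 30) (nat_lit 5) (nat_lit 29) (nat_lit 3) (nat_lit 34) (nat_lit 5) (nat_lit 357) (nat_lit 356) (nat_lit 307)))) (XT.nd (nat_lit 78) (nat_lit 0) (nat_lit 0) (XT.lf (nat_lit 0) (nat_lit 13155419445) (nat_lit 304) (nat_lit 16235740163) (nat_lit 380) (nat_lit 14436382632) (nat_lit 30) (nat_lit 5) (nat_lit 34) (nat_lit 5) (nat_lit 35) (nat_lit 5) (nat_lit 358) (nat_lit 356) (nat_lit 306)) (XT.nd (nat_lit 78) (nat_lit 0) (nat_lit 76) (XT.lf (nat_lit 76)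 (nat_lit 6725600418) (nat_lit 0) (nat_lit 9856144455) (nat_lit 380) (nat_lit 30643862743) (nat_lit 31) (nat_lit 5) (nat_lit 30) (nat_lit 5) (nat_lit 35) (nat_lit 5) (nat_lit 359) (nat_lit 356) (nat_lit 305)) (XT.lf (nat_lit 0) (nat_lit 21927376485) (nat_lit 304) (nat_lit 16618692679) (nat_lit 76) (nat_lit 12376516718) (nat_lit 31) (nat_lit 5) (nat_lit 35) (nat_lit 5) (nat_lit 32) (nat_lit 5) (nat_lit 360) (nat_lit 356) (nat_lit 304)))))) (XT.nd (nat_lit 390) (nat_lit 380) (nat_lit 0) (XT.nd (nat_lit 156) (nat_lit 304) (nat_lit 0) (XT.nd (nat_lit 78) (nat_lit 0) (nat_lit 0) (XT.lf (nat_lit 0) (nat_lit 11383814047) (nat_lit 304) (nat_lit 17626663181) (nat_lit 380) (nat_lit 26023295819) (nat_lit 27) (nat_lit 5) (nat_lit 31) (nat_lit 5) (nat_lit 32) (nat_lit 5) (nat_lit 361) (nat_lit 356) (nat_lit 303)) (XT.lf (nat_lit 0) (nat_lit 38327749601) (nat_lit 380) (nat_lit 14490154487) (nat_lit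 76) (nat_lit 6767983280) (nat_lit 27) (nat_lit 5) (nat_lit 32) (nat_lit 5) (nat_lit 28) (nat_lit 5) (nat_lit 362) (nat_lit 356) (nat_lit 302))) (XT.nd (nat_lit 78) (nat_lit 152) (nat_lit 0) (XT.lf (nat_lit 0) (nat_lit 19977975446) (nat_lit 152) (nat_lit 30727209046) (nat_lit 228) (nat_lit 13866252994) (nat_lit 25) (nat_lit 5) (nat_lit 27) (nat_lit 5) (nat_lit 28) (nat_lit 5) (nat_lit 363) (nat_lit 356) (nat_lit 301)) (XT.nd (nat_lit 78) (nat_lit 152) (nat_lit 0) (XT.lf (nat_lit 0) (nat_lit 61240183587) (nat_lit 152) (nat_lit 4452787077) (nat_lit 228) (nat_lit 4498792876) (nat_lit 25) (nat_lit 5) (nat_lit 27) (nat_lit 5) (nat_lit 28) (nat_lit 5) (nat_lit 364) (nat_lit 356) (nat_lit 300)) (XT.lf (nat_lit 0) (nat_lit 8303958685) (nat_lit 152) (nat_lit 42670465287) (nat_lit 76) (nat_lit 25253443567) (nat_lit 23) (nat_lit 5) (nat_lit 25) (nat_lit 5) (nat_lit 24) (nat_lit 5) (nat_lit 365) (nat_lit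 356) (nat_lit 299))))) (XT.nd (nat_lit 234) (nat_lit 152) (nat_lit 0) (XT.nd (nat_lit 78) (nat_lit 228) (nat_lit 0) (XT.lf (nat_lit 0) (nat_lit 23265622364) (nat_lit 152) (nat_lit 103570923) (nat_lit 76) (nat_lit 59663198617) (nat_lit 23) (nat_lit 5) (nat_lit 25) (nat_lit 5) (nat_lit 24) (nat_lit 5) (nat_lit 366) (nat_lit 356) (nat_lit 298)) (XT.nd (nat_lit 78) (nat_lit 76) (nat_lit 0) (XT.lf (nat_lit 0) (nat_lit 43141530541) (nat_lit 228) (nat_lit 37359725625) (nat_lit 76) (nat_lit 9955841704) (nat_lit 21) (nat_lit 5) (nat_lit 24) (nat_lit 5) (nat_lit 22) (nat_lit 4) (nat_lit 367) (nat_lit 356) (nat_lit 297)) (XT.lf (nat_lit 0) (nat_lit 15563775572) (nat_lit 76) (nat_lit 52195408113) (nat_lit 152) (nat_lit 30972274136) (nat_lit 20) (nat_lit 5) (nat_lit 21) (nat_lit 5) (nat_lit 22) (nat_lit 4) (nat_lit 368) (nat_lit 356) (nat_lit 296)))) (XT.nd (nat_lit 78) (nat_lit 152) (nat_lit 0) (XT.lf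 (nat_lit 0) (nat_lit 80620571906) (nat_lit 76) (nat_lit 17399387855) (nat_lit 152) (nat_lit 9934442415) (nat_lit 20) (nat_lit 5) (nat_lit 21) (nat_lit 5) (nat_lit 22) (nat_lit 4) (nat_lit 369) (nat_lit 356) (nat_lit 295)) (XT.nd (nat_lit 78) (nat_lit 0) (nat_lit 0) (XT.lf (nat_lit 0) (nat_lit 15679622775) (nat_lit 152) (nat_lit 79441601239) (nat_lit 76) (nat_lit 22947499925) (nat_lit 18) (nat_lit 5) (nat_lit 20) (nat_lit 5) (nat_lit 19) (nat_lit 4) (nat_lit 370) (nat_lit 356) (nat_lit 294)) (XT.lf (nat_lit 0) (nat_lit 46441973461) (nat_lit 152) (nat_lit 13305093318) (nat_lit 76) (nat_lit 69533676962) (nat_lit 18) (nat_lit 5) (nat_lit 20) (nat_lit 5) (nat_lit 19) (nat_lit 4) (nat_lit 371) (nat_lit 356) (nat_lit 293))))))) (XT.nd (nat_lit 858) (nat_lit 532) (nat_lit 0) (XT.nd (nat_lit 390) (nat_lit 380) (nat_lit 0) (XT.nd (nat_lit 156) (nat_lit 152) (nat_lit 0) (XT.nd (nat_lit 78) (nat_lit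 76) (nat_lit 0) (XT.lf (nat_lit 0) (nat_lit 68880891825) (nat_lit 76) (nat_lit 15788150986) (nat_lit 152) (nat_lit 57077969740) (nat_lit 17) (nat_lit 5) (nat_lit 18) (nat_lit 5) (nat_lit 19) (nat_lit 4) (nat_lit 372) (nat_lit 356) (nat_lit 292)) (XT.lf (nat_lit 0) (nat_lit 8161858034) (nat_lit 76) (nat_lit 122972630454) (nat_lit 76) (nat_lit 24573086626) (nat_lit 16) (nat_lit 4) (nat_lit 17) (nat_lit 5) (nat_lit 17) (nat_lit 4) (nat_lit 373) (nat_lit 356) (nat_lit 291))) (XT.nd (nat_lit 78) (nat_lit 76) (nat_lit 0) (XT.lf (nat_lit 0) (nat_lit 16407650602) (nat_lit 152) (nat_lit 63124550746) (nat_lit 76) (nat_lit 91439421001) (nat_lit 15) (nat_lit 5) (nat_lit 17) (nat_lit 5) (nat_lit 16) (nat_lit 4) (nat_lit 374) (nat_lit 356) (nat_lit 290)) (XT.nd (nat_lit 78) (nat_lit 0) (nat_lit 0) (XT.lf (nat_lit 0) (nat_lit 35990906042) (nat_lit 76) (nat_lit 26517545781) (nat_lit 152) (nat_lit 125617987925)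 (nat_lit 14) (nat_lit 5) (nat_lit 15) (nat_lit 5) (nat_lit 16) (nat_lit 4) (nat_lit 375) (nat_lit 356) (nat_lit 289)) (XT.lf (nat_lit 0) (nat_lit 120406160607) (nat_lit 152) (nat_lit 51878035351) (nat_lit 0) (nat_lit 34838016164) (nat_lit 14) (nat_lit 5) (nat_lit 16) (nat_lit 4) (nat_lit 14) (nat_lit 4) (nat_lit 376) (nat_lit 356) (nat_lit 288))))) (XT.nd (nat_lit 234) (nat_lit 152) (nat_lit 0) (XT.nd (nat_lit 78) (nat_lit 152) (nat_lit 0) (XT.lf (nat_lit 0) (nat_lit 68226824286) (nat_lit 76) (nat_lit 122848259740) (nat_lit 76) (nat_lit 37279282988) (nat_lit 13) (nat_lit 4) (nat_lit 14) (nat_lit 5) (nat_lit 14) (nat_lit 4) (nat_lit 377) (nat_lit 356) (nat_lit 287)) (XT.nd (nat_lit 78) (nat_lit 76) (nat_lit 0) (XT.lf (nat_lit 0) (nat_lit 20670118485) (nat_lit 152) (nat_lit 41128945754) (nat_lit 76) (nat_lit 190424763541) (nat_lit 12) (nat_lit 5) (nat_lit 14) (nat_lit 5) (nat_lit 13) (nat_lit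 4) (nat_lit 378) (nat_lit 356) (nat_lit 286)) (XT.lf (nat_lit 0) (nat_lit 88400166963) (nat_lit 152) (nat_lit 176280337095) (nat_lit 0) (nat_lit 13991184489) (nat_lit 11) (nat_lit 5) (nat_lit 13) (nat_lit 4) (nat_lit 11) (nat_lit 4) (nat_lit 379) (nat_lit 356) (nat_lit 285)))) (XT.nd (nat_lit 78) (nat_lit 152) (nat_lit 0) (XT.lf (nat_lit 0) (nat_lit 171483721303) (nat_lit 152) (nat_lit 39749644617) (nat_lit 0) (nat_lit 97074262953) (nat_lit 11) (nat_lit 5) (nat_lit 13) (nat_lit 4) (nat_lit 11) (nat_lit 4) (nat_lit 380) (nat_lit 356) (nat_lit 284)) (XT.nd (nat_lit 78) (nat_lit 76) (nat_lit 0) (XT.lf (nat_lit 0) (nat_lit 128718076688) (nat_lit 76) (nat_lit 143640704993) (nat_lit 76) (nat_lit 69230832839) (nat_lit 10) (nat_lit 4) (nat_lit 11) (nat_lit 5) (nat_lit 11) (nat_lit 4) (nat_lit 381) (nat_lit 356) (nat_lit 283)) (XT.lf (nat_lit 0) (nat_lit 9920170649) (nat_lit 152) (nat_lit 53081865088)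 (nat_lit 76) (nat_lit 316482689410) (nat_lit 9) (nat_lit 5) (nat_lit 11) (nat_lit 5) (nat_lit 10) (nat_lit 4) (nat_lit 382) (nat_lit 356) (nat_lit 282)))))) (XT.nd (nat_lit 468) (nat_lit 228) (nat_lit 0) (XT.nd (nat_lit 234) (nat_lit 152) (nat_lit 0) (XT.nd (nat_lit 78) (nat_lit 76) (nat_lit 0) (XT.lf (nat_lit 0) (nat_lit 101308787888) (nat_lit 152) (nat_lit 283538910139) (nat_lit 0) (nat_lit 36603966252) (nat_lit 8) (nat_lit 5) (nat_lit 10) (nat_lit 4) (nat_lit 8) (nat_lit 4) (nat_lit 383) (nat_lit 356) (nat_lit 281)) (XT.nd (nat_lit 78) (nat_lit 76) (nat_lit 0) (XT.lf (nat_lit 0) (nat_lit 212311829270) (nat_lit 152) (nat_lit 108909124354) (nat_lit 0) (nat_lit 147606771040) (nat_lit 8) (nat_lit 5) (nat_lit 10) (nat_lit 4) (nat_lit 8) (nat_lit 4) (nat_lit 384) (nat_lit 356) (nat_lit 280)) (XT.lf (nat_lit 0) (nat_lit 100896114728) (nat_lit 76) (nat_lit 243246383843) (nat_lit 76) (nat_lit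 178541119880) (nat_lit 7) (nat_lit 4) (nat_lit 8) (nat_lit 5) (nat_lit 8) (nat_lit 4) (nat_lit 385) (nat_lit 356) (nat_lit 279)))) (XT.nd (nat_lit 78) (nat_lit 152) (nat_lit 0) (XT.lf (nat_lit 0) (nat_lit 354410623187) (nat_lit 76) (nat_lit 147029436200) (nat_lit 76) (nat_lit 82323993338) (nat_lit 7) (nat_lit 4) (nat_lit 8) (nat_lit 5) (nat_lit 8) (nat_lit 4) (nat_lit 386) (nat_lit 356) (nat_lit 278)) (XT.nd (nat_lit 78) (nat_lit 76) (nat_lit 0) (XT.lf (nat_lit 0) (nat_lit 25803327454) (nat_lit 152) (nat_lit 9228444400) (nat_lit 76) (nat_lit 618798938043) (nat_lit 6) (nat_lit 5) (nat_lit 8) (nat_lit 5) (nat_lit 7) (nat_lit 4) (nat_lit 387) (nat_lit 356) (nat_lit 277)) (XT.lf (nat_lit 0) (nat_lit 157218361444) (nat_lit 152) (nat_lit 473323916093) (nat_lit 0) (nat_lit 100952506052) (nat_lit 5) (nat_lit 5) (nat_lit 7) (nat_lit 4) (nat_lit 5) (nat_lit 4) (nat_lit 388) (nat_lit 356) (nat_lit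 276))))) (XT.nd (nat_lit 234) (nat_lit 152) (nat_lit 0) (XT.nd (nat_lit 78) (nat_lit 76) (nat_lit 0) (XT.lf (nat_lit 0) (nat_lit 310518657370) (nat_lit 152) (nat_lit 255711160298) (nat_lit 0) (nat_lit 254252699692) (nat_lit 5) (nat_lit 5) (nat_lit 7) (nat_lit 4) (nat_lit 5) (nat_lit 4) (nat_lit 389) (nat_lit 356) (nat_lit 275)) (XT.nd (nat_lit 78) (nat_lit 76) (nat_lit 0) (XT.lf (nat_lit 0) (nat_lit 486813528147) (nat_lit 152) (nat_lit 5457471998) (nat_lit 0) (nat_lit 430547481525) (nat_lit 5) (nat_lit 5) (nat_lit 7) (nat_lit 4) (nat_lit 5) (nat_lit 4) (nat_lit 390) (nat_lit 356) (nat_lit 274)) (XT.lf (nat_lit 0) (nat_lit 309925091427) (nat_lit 76) (nat_lit 392460466941) (nat_lit 76) (nat_lit 336194342975) (nat_lit 4) (nat_lit 4) (nat_lit 5) (nat_lit 5) (nat_lit 5) (nat_lit 4) (nat_lit 391) (nat_lit 356) (nat_lit 273)))) (XT.nd (nat_lit 78) (nat_lit 152) (nat_lit 0) (XT.lf (nat_lit 0)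 (nat_lit 673227570643) (nat_lit 76) (nat_lit 277350710673) (nat_lit 76) (nat_lit 221084519452) (nat_lit 4) (nat_lit 4) (nat_lit 5) (nat_lit 5) (nat_lit 5) (nat_lit 4) (nat_lit 392) (nat_lit 356) (nat_lit 272)) (XT.nd (nat_lit 78) (nat_lit 152) (nat_lit 0) (XT.lf (nat_lit 0) (nat_lit 1091024713779) (nat_lit 76) (nat_lit 144974860883) (nat_lit 76) (nat_lit 88708611180) (nat_lit 4) (nat_lit 4) (nat_lit 5) (nat_lit 5) (nat_lit 5) (nat_lit 4) (nat_lit 393) (nat_lit 356) (nat_lit 271)) (XT.lf (nat_lit 0) (nat_lit 61539051303) (nat_lit 152) (nat_lit 1425614334102) (nat_lit 0) (nat_lit 12611833427) (nat_lit 2) (nat_lit 5) (nat_lit 4) (nat_lit 4) (nat_lit 2) (nat_lit 4) (nat_lit 394) (nat_lit 356) (nat_lit 270))))))))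
noncomputable def xc77 : XT := (XT.nd (nat_lit 1794) (nat_lit 0) (nat_lit 0) (XT.nd (nat_lit 858) (nat_lit 0) (nat_lit 0) (XT.nd (nat_lit 390) (nat_lit 76) (nat_lit 0) (XT.nd (nat_lit 156) (nat_lit 0) (nat_lit 0) (XT.nd (nat_lit 78) (nat_lit 0) (nat_lit 0) (XT.lf (nat_lit 0) (nat_lit 244942001206) (nat_lit 152) (nat_lit 1256535396246) (nat_lit 0) (nat_lit 196014744877) (nat_lit 2) (nat_lit 5) (nat_lit 4) (nat_lit 4) (nat_lit 2) (nat_lit 4) (nat_lit 395) (nat_lit 356) (nat_lit 269)) (XT.lf (nat_lit 0) (nat_lit 455855126898) (nat_lit 152) (nat_lit 1062095180343) (nat_lit 0) (nat_lit 406927837131) (nat_lit 2) (nat_lit 5) (nat_lit 4) (nat_lit 4) (nat_lit 2) (nat_lit 4) (nat_lit 396) (nat_lit 356) (nat_lit 268))) (XT.nd (nat_lit 78) (nat_lit 0) (nat_lit 0) (XT.lf (nat_lit 0) (nat_lit 698404989532) (nat_lit 152) (nat_lit 838489421299) (nat_lit 0) (nat_lit 649477670689) (nat_lit 2) (nat_lit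 5) (nat_lit 4) (nat_lit 4) (nat_lit 2) (nat_lit 4) (nat_lit 397) (nat_lit 356) (nat_lit 267)) (XT.nd (nat_lit 78) (nat_lit 0) (nat_lit 0) (XT.lf (nat_lit 0) (nat_lit 977337129901) (nat_lit 152) (nat_lit 581343223829) (nat_lit 0) (nat_lit 928409785774) (nat_lit 2) (nat_lit 5) (nat_lit 4) (nat_lit 4) (nat_lit 2) (nat_lit 4) (nat_lit 398) (nat_lit 356) (nat_lit 266)) (XT.lf (nat_lit 0) (nat_lit 1298108915967) (nat_lit 152) (nat_lit 285625466679) (nat_lit 0) (nat_lit 1249181549855) (nat_lit 2) (nat_lit 5) (nat_lit 4) (nat_lit 4) (nat_lit 2) (nat_lit 4) (nat_lit 399) (nat_lit 356) (nat_lit 265))))) (XT.nd (nat_lit 234) (nat_lit 0) (nat_lit 0) (XT.nd (nat_lit 78) (nat_lit 0) (nat_lit 0) (XT.lf (nat_lit 0) (nat_lit 59770846428) (nat_lit 76) (nat_lit 1609700454318) (nat_lit 76) (nat_lit 1560773069088) (nat_lit 1) (nat_lit 4) (nat_lit 2) (nat_lit 5) (nat_lit 2) (nat_lit 4) (nat_lit 400) (nat_lit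 356) (nat_lit 264)) (XT.nd (nat_lit 78) (nat_lit 0) (nat_lit 0) (XT.lf (nat_lit 0) (nat_lit 489076707000) (nat_lit 76) (nat_lit 1622391613055) (nat_lit 76) (nat_lit 1573464211200) (nat_lit 1) (nat_lit 4) (nat_lit 2) (nat_lit 5) (nat_lit 2) (nat_lit 4) (nat_lit 401) (nat_lit 356) (nat_lit 263)) (XT.lf (nat_lit 0) (nat_lit 982778179646) (nat_lit 76) (nat_lit 1636986586258) (nat_lit 76) (nat_lit 1588059169947) (nat_lit 1) (nat_lit 4) (nat_lit 2) (nat_lit 5) (nat_lit 2) (nat_lit 4) (nat_lit 402) (nat_lit 356) (nat_lit 262)))) (XT.nd (nat_lit 78) (nat_lit 0) (nat_lit 0) (XT.lf (nat_lit 0) (nat_lit 1550534641003) (nat_lit 76) (nat_lit 1653770927750) (nat_lit 76) (nat_lit 1604843498869) (nat_lit 1) (nat_lit 4) (nat_lit 2) (nat_lit 5) (nat_lit 2) (nat_lit 4) (nat_lit 403) (nat_lit 356) (nat_lit 261)) (XT.nd (nat_lit 78) (nat_lit 0) (nat_lit 0) (XT.lf (nat_lit 0) (nat_lit 2203454369664) (nat_lit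 76) (nat_lit 1673073026821) (nat_lit 76) (nat_lit 1624145587009) (nat_lit 1) (nat_lit 4) (nat_lit 2) (nat_lit 5) (nat_lit 2) (nat_lit 4) (nat_lit 404) (nat_lit 356) (nat_lit 260)) (XT.lf (nat_lit 0) (nat_lit 2954311882059) (nat_lit 76) (nat_lit 1695270533237) (nat_lit 76) (nat_lit 1646343083920) (nat_lit 1) (nat_lit 4) (nat_lit 2) (nat_lit 5) (nat_lit 2) (nat_lit 4) (nat_lit 405) (nat_lit 356) (nat_lit 259)))))) (XT.nd (nat_lit 468) (nat_lit 0) (nat_lit 0) (XT.nd (nat_lit 234) (nat_lit 0) (nat_lit 0) (XT.nd (nat_lit 78) (nat_lit 0) (nat_lit 0) (XT.lf (nat_lit 0) (nat_lit 3817797868649) (nat_lit 76) (nat_lit 1720797746036) (nat_lit 76) (nat_lit 1671870288453) (nat_lit 1) (nat_lit 4) (nat_lit 2) (nat_lit 5) (nat_lit 2) (nat_lit 4) (nat_lit 406) (nat_lit 356) (nat_lit 258)) (XT.nd (nat_lit 78) (nat_lit 0) (nat_lit 0) (XT.lf (nat_lit 0) (nat_lit 4810806620474) (nat_lit 76) (nat_lit 1750154110685)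 (nat_lit 76) (nat_lit 1701226645915) (nat_lit 1) (nat_lit 4) (nat_lit 2) (nat_lit 5) (nat_lit 2) (nat_lit 4) (nat_lit 407) (nat_lit 356) (nat_lit 257)) (XT.lf (nat_lit 0) (nat_lit 5952766569636) (nat_lit 76) (nat_lit 1783913990840) (nat_lit 76) (nat_lit 1734986519821) (nat_lit 1) (nat_lit 4) (nat_lit 2) (nat_lit 5) (nat_lit 2) (nat_lit 4) (nat_lit 408) (nat_lit 356) (nat_lit 256)))) (XT.nd (nat_lit 78) (nat_lit 0) (nat_lit 0) (XT.lf (nat_lit 0) (nat_lit 7266020410793) (nat_lit 76) (nat_lit 1822737905897) (nat_lit 76) (nat_lit 1773810429443) (nat_lit 1) (nat_lit 4) (nat_lit 2) (nat_lit 5) (nat_lit 2) (nat_lit 4) (nat_lit 409) (nat_lit 356) (nat_lit 255)) (XT.nd (nat_lit 78) (nat_lit 0) (nat_lit 0) (XT.lf (nat_lit 0) (nat_lit 8776262240836) (nat_lit 76) (nat_lit 1867385454192) (nat_lit 76) (nat_lit 1818457973013) (nat_lit 1) (nat_lit 4) (nat_lit 2) (nat_lit 5) (nat_lit 2) (nat_lit 4) (nat_lit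 410) (nat_lit 356) (nat_lit 254)) (XT.lf (nat_lit 0) (nat_lit 10513040269484) (nat_lit 76) (nat_lit 1918730174715) (nat_lit 76) (nat_lit 1869802689426) (nat_lit 1) (nat_lit 4) (nat_lit 2) (nat_lit 5) (nat_lit 2) (nat_lit 4) (nat_lit 411) (nat_lit 356) (nat_lit 253))))) (XT.nd (nat_lit 234) (nat_lit 0) (nat_lit 0) (XT.nd (nat_lit 78) (nat_lit 0) (nat_lit 0) (XT.lf (nat_lit 0) (nat_lit 12510334936428) (nat_lit 76) (nat_lit 1977776638084) (nat_lit 76) (nat_lit 1928849149222) (nat_lit 1) (nat_lit 4) (nat_lit 2) (nat_lit 5) (nat_lit 2) (nat_lit 4) (nat_lit 412) (nat_lit 356) (nat_lit 252)) (XT.nd (nat_lit 78) (nat_lit 0) (nat_lit 0) (XT.lf (nat_lit 0) (nat_lit 14807223746021) (nat_lit 76) (nat_lit 2045680101192) (nat_lit 76) (nat_lit 1996752609222) (nat_lit 1) (nat_lit 4) (nat_lit 2) (nat_lit 5) (nat_lit 2) (nat_lit 4) (nat_lit 413) (nat_lit 356) (nat_lit 251)) (XT.lf (nat_lit 0) (nat_lit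 17448645827147) (nat_lit 76) (nat_lit 2123769110055) (nat_lit 76) (nat_lit 2074841615384) (nat_lit 1) (nat_lit 4) (nat_lit 2) (nat_lit 5) (nat_lit 2) (nat_lit 4) (nat_lit 414) (nat_lit 356) (nat_lit 250)))) (XT.nd (nat_lit 78) (nat_lit 0) (nat_lit 0) (XT.lf (nat_lit 0) (nat_lit 20486281177044) (nat_lit 76) (nat_lit 2213571493108) (nat_lit 76) (nat_lit 2164643996087) (nat_lit 1) (nat_lit 4) (nat_lit 2) (nat_lit 5) (nat_lit 2) (nat_lit 4) (nat_lit 415) (nat_lit 356) (nat_lit 249)) (XT.nd (nat_lit 78) (nat_lit 0) (nat_lit 0) (XT.lf (nat_lit 0) (nat_lit 23979561791690) (nat_lit 76) (nat_lit 2316844253498) (nat_lit 76) (nat_lit 2267916754434) (nat_lit 1) (nat_lit 4) (nat_lit 2) (nat_lit 5) (nat_lit 2) (nat_lit 4) (nat_lit 416) (nat_lit 356) (nat_lit 248)) (XT.lf (nat_lit 0) (nat_lit 27996834465717) (nat_lit 76) (nat_lit 2435607945232) (nat_lit 76) (nat_lit 2386680444391) (nat_lit 1) (nat_lit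 4) (nat_lit 2) (nat_lit 5) (nat_lit 2) (nat_lit 4) (nat_lit 417) (nat_lit 356) (nat_lit 247))))))) (XT.nd (nat_lit 858) (nat_lit 0) (nat_lit 0) (XT.nd (nat_lit 390) (nat_lit 0) (nat_lit 0) (XT.nd (nat_lit 156) (nat_lit 0) (nat_lit 0) (XT.nd (nat_lit 78) (nat_lit 0) (nat_lit 0) (XT.lf (nat_lit 0) (nat_lit 32616698012315) (nat_lit 76) (nat_lit 2572186205757) (nat_lit 76) (nat_lit 2523258703372) (nat_lit 1) (nat_lit 4) (nat_lit 2) (nat_lit 5) (nat_lit 2) (nat_lit 4) (nat_lit 418) (nat_lit 356) (nat_lit 246)) (XT.lf (nat_lit 0) (nat_lit 37929541066090) (nat_lit 76) (nat_lit 2729251218431) (nat_lit 76) (nat_lit 2680323714703) (nat_lit 1) (nat_lit 4) (nat_lit 2) (nat_lit 5) (nat_lit 2) (nat_lit 4) (nat_lit 419) (nat_lit 356) (nat_lit 245))) (XT.nd (nat_lit 78) (nat_lit 0) (nat_lit 0) (XT.lf (nat_lit 0) (nat_lit 44039310556356) (nat_lit 76) (nat_lit 2909875994373) (nat_lit 76) (nat_lit 2860948489476)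 (nat_lit 1) (nat_lit 4) (nat_lit 2) (nat_lit 5) (nat_lit 2) (nat_lit 4) (nat_lit 420) (nat_lit 356) (nat_lit 244)) (XT.nd (nat_lit 78) (nat_lit 0) (nat_lit 0) (XT.lf (nat_lit 0) (nat_lit 51065545451399) (nat_lit 76) (nat_lit 3117594496589) (nat_lit 76) (nat_lit 3068666990676) (nat_lit 1) (nat_lit 4) (nat_lit 2) (nat_lit 5) (nat_lit 2) (nat_lit 4) (nat_lit 421) (nat_lit 356) (nat_lit 243)) (XT.lf (nat_lit 0) (nat_lit 59145715564385) (nat_lit 76) (nat_lit 3356470782731) (nat_lit 76) (nat_lit 3307543275935) (nat_lit 1) (nat_lit 4) (nat_lit 2) (nat_lit 5) (nat_lit 2) (nat_lit 4) (nat_lit 422) (nat_lit 356) (nat_lit 242))))) (XT.nd (nat_lit 234) (nat_lit 0) (nat_lit 0) (XT.nd (nat_lit 78) (nat_lit 0) (nat_lit 0) (XT.lf (nat_lit 0) (nat_lit 68437911180131) (nat_lit 76) (nat_lit 3631178519268) (nat_lit 76) (nat_lit 3582251011704) (nat_lit 1) (nat_lit 4) (nat_lit 2) (nat_lit 5) (nat_lit 2) (nat_lit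 4) (nat_lit 423) (nat_lit 356) (nat_lit 241)) (XT.nd (nat_lit 78) (nat_lit 0) (nat_lit 0) (XT.lf (nat_lit 0) (nat_lit 79123936125904) (nat_lit 76) (nat_lit 3947092422783) (nat_lit 76) (nat_lit 3898164914552) (nat_lit 1) (nat_lit 4) (nat_lit 2) (nat_lit 5) (nat_lit 2) (nat_lit 4) (nat_lit 424) (nat_lit 356) (nat_lit 240)) (XT.lf (nat_lit 0) (nat_lit 91412864802815) (nat_lit 76) (nat_lit 4310393417477) (nat_lit 76) (nat_lit 4261465908665) (nat_lit 1) (nat_lit 4) (nat_lit 2) (nat_lit 5) (nat_lit 2) (nat_lit 4) (nat_lit 425) (nat_lit 356) (nat_lit 239)))) (XT.nd (nat_lit 78) (nat_lit 0) (nat_lit 0) (XT.lf (nat_lit 0) (nat_lit 105545132771936) (nat_lit 76) (nat_lit 4728189566288) (nat_lit 76) (nat_lit 4679262056971) (nat_lit 1) (nat_lit 4) (nat_lit 2) (nat_lit 5) (nat_lit 2) (nat_lit 4) (nat_lit 426) (nat_lit 356) (nat_lit 238)) (XT.nd (nat_lit 78) (nat_lit 0) (nat_lit 0) (XT.lf (nat_lit 0)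 (nat_lit 121797240928313) (nat_lit 76) (nat_lit 5208655141695) (nat_lit 76) (nat_lit 5159727631938) (nat_lit 1) (nat_lit 4) (nat_lit 2) (nat_lit 5) (nat_lit 2) (nat_lit 4) (nat_lit 427) (nat_lit 356) (nat_lit 237)) (XT.lf (nat_lit 0) (nat_lit 140487165301093) (nat_lit 76) (nat_lit 5761190557127) (nat_lit 76) (nat_lit 5712263046989) (nat_lit 1) (nat_lit 4) (nat_lit 2) (nat_lit 5) (nat_lit 2) (nat_lit 4) (nat_lit 428) (nat_lit 356) (nat_lit 236)))))) (XT.nd (nat_lit 47892) (nat_lit 0) (nat_lit 1672) (XT.nd (nat_lit 47658) (nat_lit 0) (nat_lit 2204) (XT.nd (nat_lit 47502) (nat_lit 0) (nat_lit 2128) (XT.lf (nat_lit 0) (nat_lit 161980578323657) (nat_lit 76) (nat_lit 6396606288105) (nat_lit 76) (nat_lit 6347678777635) (nat_lit 1) (nat_lit 4) (nat_lit 2) (nat_lit 5) (nat_lit 2) (nat_lit 4) (nat_lit 429) (nat_lit 356) (nat_lit 235)) (XT.nd (nat_lit 78) (nat_lit 0) (nat_lit 0) (XT.lf (nat_lit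 0) (nat_lit 5607121460) (nat_lit 380) (nat_lit 8115191595) (nat_lit 380) (nat_lit 8115191595) (nat_lit 29) (nat_lit 3) (nat_lit 34) (nat_lit 3) (nat_lit 34) (nat_lit 5) (nat_lit 357) (nat_lit 357) (nat_lit 306)) (XT.lf (nat_lit 76) (nat_lit 5651763562) (nat_lit 0) (nat_lit 6669232535) (nat_lit 380) (nat_lit 34589748584) (nat_lit 30) (nat_lit 5) (nat_lit 29) (nat_lit 3) (nat_lit 34) (nat_lit 5) (nat_lit 358) (nat_lit 357) (nat_lit 305)))) (XT.nd (nat_lit 78) (nat_lit 0) (nat_lit 0) (XT.lf (nat_lit 0) (nat_lit 15190022533) (nat_lit 304) (nat_lit 18622347298) (nat_lit 380) (nat_lit 16580038185) (nat_lit 30) (nat_lit 5) (nat_lit 34) (nat_lit 5) (nat_lit 35) (nat_lit 5) (nat_lit 359) (nat_lit 357) (nat_lit 304)) (XT.nd (nat_lit 78) (nat_lit 0) (nat_lit 76) (XT.lf (nat_lit 76) (nat_lit 7780978284) (nat_lit 0) (nat_lit 11343251152) (nat_lit 380) (nat_lit 35176873259) (nat_lit 31) (nat_lit 5)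 (nat_lit 30) (nat_lit 5) (nat_lit 35) (nat_lit 5) (nat_lit 360) (nat_lit 357) (nat_lit 303)) (XT.lf (nat_lit 0) (nat_lit 25264190092) (nat_lit 304) (nat_lit 19063458759) (nat_lit 76) (nat_lit 14226114376) (nat_lit 31) (nat_lit 5) (nat_lit 35) (nat_lit 5) (nat_lit 32) (nat_lit 5) (nat_lit 361) (nat_lit 357) (nat_lit 302))))) (XT.nd (nat_lit 234) (nat_lit 152) (nat_lit 0) (XT.nd (nat_lit 78) (nat_lit 152) (nat_lit 0) (XT.lf (nat_lit 0) (nat_lit 13137240439) (nat_lit 304) (nat_lit 20268191565) (nat_lit 380) (nat_lit 29876852158) (nat_lit 27) (nat_lit 5) (nat_lit 31) (nat_lit 5) (nat_lit 32) (nat_lit 5) (nat_lit 362) (nat_lit 357) (nat_lit 301)) (XT.nd (nat_lit 78) (nat_lit 152) (nat_lit 0) (XT.lf (nat_lit 0) (nat_lit 44114725533) (nat_lit 380) (nat_lit 16618193482) (nat_lit 76) (nat_lit 7785138249) (nat_lit 27) (nat_lit 5) (nat_lit 32) (nat_lit 5) (nat_lit 28) (nat_lit 5) (nat_lit 363) (nat_lit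 357) (nat_lit 300)) (XT.lf (nat_lit 0) (nat_lit 23018088478) (nat_lit 152) (nat_lit 35327552778) (nat_lit 228) (nat_lit 15906274176) (nat_lit 25) (nat_lit 5) (nat_lit 27) (nat_lit 5) (nat_lit 28) (nat_lit 5) (nat_lit 364) (nat_lit 357) (nat_lit 299)))) (XT.nd (nat_lit 78) (nat_lit 152) (nat_lit 0) (XT.lf (nat_lit 0) (nat_lit 70463964790) (nat_lit 152) (nat_lit 5113107204) (nat_lit 228) (nat_lit 5138901575) (nat_lit 25) (nat_lit 5) (nat_lit 27) (nat_lit 5) (nat_lit 28) (nat_lit 5) (nat_lit 365) (nat_lit 357) (nat_lit 298)) (XT.nd (nat_lit 78) (nat_lit 0) (nat_lit 0) (XT.lf (nat_lit 0) (nat_lit 9579073684) (nat_lit 152) (nat_lit 49028041751) (nat_lit 76) (nat_lit 29050480506) (nat_lit 23) (nat_lit 5) (nat_lit 25) (nat_lit 5) (nat_lit 24) (nat_lit 5) (nat_lit 366) (nat_lit 357) (nat_lit 297)) (XT.lf (nat_lit 0) (nat_lit 26781136325) (nat_lit 152) (nat_lit 81721058) (nat_lit 76) (nat_lit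 68620522240) (nat_lit 23) (nat_lit 5) (nat_lit 25) (nat_lit 5) (nat_lit 24) (nat_lit 5) (nat_lit 367) (nat_lit 357) (nat_lit 296))))))))
noncomputable def xc78 : XT := (XT.nd (nat_lit 1794) (nat_lit 304) (nat_lit 0) (XT.nd (nat_lit 858) (nat_lit 608) (nat_lit 0) (XT.nd (nat_lit 390) (nat_lit 380) (nat_lit 0) (XT.nd (nat_lit 156) (nat_lit 152) (nat_lit 0) (XT.nd (nat_lit 78) (nat_lit 76) (nat_lit 0) (XT.lf (nat_lit 0) (nat_lit 49637052259) (nat_lit 228) (nat_lit 42924902690) (nat_lit 76) (nat_lit 11460045976) (nat_lit 21) (nat_lit 5) (nat_lit 24) (nat_lit 5) (nat_lit 22) (nat_lit 4) (nat_lit 368) (nat_lit 357) (nat_lit 295)) (XT.lf (nat_lit 0) (nat_lit 17935360879) (nat_lit 76) (nat_lit 60010356833) (nat_lit 152) (nat_lit 35592044829) (nat_lit 20) (nat_lit 5) (nat_lit 21) (nat_lit 5) (nat_lit 22) (nat_lit 4) (nat_lit 369) (nat_lit 357) (nat_lit 294))) (XT.nd (nat_lit 78) (nat_lit 152)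 (nat_lit 0) (XT.lf (nat_lit 0) (nat_lit 92745848101) (nat_lit 76) (nat_lit 19996806905) (nat_lit 152) (nat_lit 11401938840) (nat_lit 20) (nat_lit 5) (nat_lit 21) (nat_lit 5) (nat_lit 22) (nat_lit 4) (nat_lit 370) (nat_lit 357) (nat_lit 293)) (XT.nd (nat_lit 78) (nat_lit 0) (nat_lit 0) (XT.lf (nat_lit 0) (nat_lit 18051429750) (nat_lit 152) (nat_lit 91322822748) (nat_lit 76) (nat_lit 26401790317) (nat_lit 18) (nat_lit 5) (nat_lit 20) (nat_lit 5) (nat_lit 19) (nat_lit 4) (nat_lit 371) (nat_lit 357) (nat_lit 292)) (XT.lf (nat_lit 0) (nat_lit 53425542139) (nat_lit 152) (nat_lit 15270406293) (nat_lit 76) (nat_lit 79974307119) (nat_lit 18) (nat_lit 5) (nat_lit 20) (nat_lit 5) (nat_lit 19) (nat_lit 4) (nat_lit 372) (nat_lit 357) (nat_lit 291))))) (XT.nd (nat_lit 234) (nat_lit 152) (nat_lit 0) (XT.nd (nat_lit 78) (nat_lit 152) (nat_lit 0) (XT.lf (nat_lit 0) (nat_lit 79242092485) (nat_lit 76) (nat_lit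 18143530049) (nat_lit 152) (nat_lit 65621000706) (nat_lit 17) (nat_lit 5) (nat_lit 18) (nat_lit 5) (nat_lit 19) (nat_lit 4) (nat_lit 373) (nat_lit 357) (nat_lit 290)) (XT.nd (nat_lit 78) (nat_lit 76) (nat_lit 0) (XT.lf (nat_lit 0) (nat_lit 9415704981) (nat_lit 76) (nat_lit 141404750814) (nat_lit 76) (nat_lit 28240879788) (nat_lit 16) (nat_lit 4) (nat_lit 17) (nat_lit 5) (nat_lit 17) (nat_lit 4) (nat_lit 374) (nat_lit 357) (nat_lit 289)) (XT.lf (nat_lit 0) (nat_lit 18883191434) (nat_lit 152) (nat_lit 72566110170) (nat_lit 76) (nat_lit 105165900050) (nat_lit 15) (nat_lit 5) (nat_lit 17) (nat_lit 5) (nat_lit 16) (nat_lit 4) (nat_lit 375) (nat_lit 357) (nat_lit 288)))) (XT.nd (nat_lit 78) (nat_lit 76) (nat_lit 0) (XT.lf (nat_lit 0) (nat_lit 41415432265) (nat_lit 76) (nat_lit 30482875258) (nat_lit 152) (nat_lit 144445055599) (nat_lit 14) (nat_lit 5) (nat_lit 15) (nat_lit 5) (nat_lit 16) (nat_lit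 4) (nat_lit 376) (nat_lit 357) (nat_lit 287)) (XT.nd (nat_lit 78) (nat_lit 76) (nat_lit 0) (XT.lf (nat_lit 0) (nat_lit 138479343256) (nat_lit 152) (nat_lit 59635894141) (nat_lit 0) (nat_lit 40073463934) (nat_lit 14) (nat_lit 5) (nat_lit 16) (nat_lit 4) (nat_lit 14) (nat_lit 4) (nat_lit 377) (nat_lit 357) (nat_lit 286)) (XT.lf (nat_lit 0) (nat_lit 78483610510) (nat_lit 76) (nat_lit 141264338285) (nat_lit 76) (nat_lit 42857829618) (nat_lit 13) (nat_lit 4) (nat_lit 14) (nat_lit 5) (nat_lit 14) (nat_lit 4) (nat_lit 378) (nat_lit 357) (nat_lit 285)))))) (XT.nd (nat_lit 468) (nat_lit 228) (nat_lit 0) (XT.nd (nat_lit 234) (nat_lit 228) (nat_lit 0) (XT.nd (nat_lit 78) (nat_lit 76) (nat_lit 0) (XT.lf (nat_lit 0) (nat_lit 23781208155) (nat_lit 152) (nat_lit 47277458390) (nat_lit 76) (nat_lit 218997147102) (nat_lit 12) (nat_lit 5) (nat_lit 14) (nat_lit 5) (nat_lit 13) (nat_lit 4) (nat_lit 379) (nat_lit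 357) (nat_lit 284)) (XT.nd (nat_lit 78) (nat_lit 0) (nat_lit 0) (XT.lf (nat_lit 0) (nat_lit 101670616789) (nat_lit 152) (nat_lit 202701409128) (nat_lit 0) (nat_lit 16098850007) (nat_lit 11) (nat_lit 5) (nat_lit 13) (nat_lit 4) (nat_lit 11) (nat_lit 4) (nat_lit 380) (nat_lit 357) (nat_lit 283)) (XT.lf (nat_lit 0) (nat_lit 197215344526) (nat_lit 152) (nat_lit 45693849109) (nat_lit 0) (nat_lit 111643217913) (nat_lit 11) (nat_lit 5) (nat_lit 13) (nat_lit 4) (nat_lit 11) (nat_lit 4) (nat_lit 381) (nat_lit 357) (nat_lit 282)))) (XT.nd (nat_lit 78) (nat_lit 152) (nat_lit 0) (XT.lf (nat_lit 0) (nat_lit 148043201201) (nat_lit 76) (nat_lit 165178001400) (nat_lit 76) (nat_lit 79605561892) (nat_lit 10) (nat_lit 4) (nat_lit 11) (nat_lit 5) (nat_lit 11) (nat_lit 4) (nat_lit 382) (nat_lit 357) (nat_lit 281)) (XT.nd (nat_lit 78) (nat_lit 76) (nat_lit 0) (XT.lf (nat_lit 0) (nat_lit 11416035267) (nat_lit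 152) (nat_lit 61028235766) (nat_lit 76) (nat_lit 363961985782) (nat_lit 9) (nat_lit 5) (nat_lit 11) (nat_lit 5) (nat_lit 10) (nat_lit 4) (nat_lit 383) (nat_lit 357) (nat_lit 280)) (XT.lf (nat_lit 0) (nat_lit 116512871949) (nat_lit 152) (nat_lit 326053763345) (nat_lit 0) (nat_lit 42101612657) (nat_lit 8) (nat_lit 5) (nat_lit 10) (nat_lit 4) (nat_lit 8) (nat_lit 4) (nat_lit 384) (nat_lit 357) (nat_lit 279))))) (XT.nd (nat_lit 234) (nat_lit 152) (nat_lit 0) (XT.nd (nat_lit 78) (nat_lit 76) (nat_lit 0) (XT.lf (nat_lit 0) (nat_lit 244165356598) (nat_lit 152) (nat_lit 125231594472) (nat_lit 0) (nat_lit 169753918407) (nat_lit 8) (nat_lit 5) (nat_lit 10) (nat_lit 4) (nat_lit 8) (nat_lit 4) (nat_lit 385) (nat_lit 357) (nat_lit 278)) (XT.nd (nat_lit 78) (nat_lit 0) (nat_lit 0) (XT.lf (nat_lit 0) (nat_lit 116043798720) (nat_lit 76) (nat_lit 279726496106) (nat_lit 76) (nat_lit 205314902350) (nat_lit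 7) (nat_lit 4) (nat_lit 8) (nat_lit 5) (nat_lit 8) (nat_lit 4) (nat_lit 386) (nat_lit 357) (nat_lit 277)) (XT.lf (nat_lit 0) (nat_lit 407583752999) (nat_lit 76) (nat_lit 169077899183) (nat_lit 76) (nat_lit 94666170154) (nat_lit 7) (nat_lit 4) (nat_lit 8) (nat_lit 5) (nat_lit 8) (nat_lit 4) (nat_lit 387) (nat_lit 357) (nat_lit 276)))) (XT.nd (nat_lit 78) (nat_lit 76) (nat_lit 0) (XT.lf (nat_lit 0) (nat_lit 29678913909) (nat_lit 152) (nat_lit 10602181753) (nat_lit 76) (nat_lit 711623457078) (nat_lit 6) (nat_lit 5) (nat_lit 8) (nat_lit 5) (nat_lit 7) (nat_lit 4) (nat_lit 388) (nat_lit 357) (nat_lit 275)) (XT.nd (nat_lit 78) (nat_lit 0) (nat_lit 0) (XT.lf (nat_lit 0) (nat_lit 180806171376) (nat_lit 152) (nat_lit 544311942109) (nat_lit 0) (nat_lit 116100128815) (nat_lit 5) (nat_lit 5) (nat_lit 7) (nat_lit 4) (nat_lit 5) (nat_lit 4) (nat_lit 389) (nat_lit 357) (nat_lit 274)) (XT.lf (nat_lit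 0) (nat_lit 357100852250) (nat_lit 152) (nat_lit 294058650518) (nat_lit 0) (nat_lit 292394732346) (nat_lit 5) (nat_lit 5) (nat_lit 7) (nat_lit 4) (nat_lit 5) (nat_lit 4) (nat_lit 390) (nat_lit 357) (nat_lit 273))))))) (XT.nd (nat_lit 858) (nat_lit 0) (nat_lit 0) (XT.nd (nat_lit 390) (nat_lit 76) (nat_lit 0) (XT.nd (nat_lit 156) (nat_lit 152) (nat_lit 0) (XT.nd (nat_lit 78) (nat_lit 76) (nat_lit 0) (XT.lf (nat_lit 0) (nat_lit 559839380217) (nat_lit 152) (nat_lit 6268106863) (nat_lit 0) (nat_lit 495133193058) (nat_lit 5) (nat_lit 5) (nat_lit 7) (nat_lit 4) (nat_lit 5) (nat_lit 4) (nat_lit 391) (nat_lit 357) (nat_lit 272)) (XT.lf (nat_lit 0) (nat_lit 356421478078) (nat_lit 76) (nat_lit 451325553909) (nat_lit 76) (nat_lit 386619308267) (nat_lit 4) (nat_lit 4) (nat_lit 5) (nat_lit 5) (nat_lit 5) (nat_lit 4) (nat_lit 392) (nat_lit 357) (nat_lit 271))) (XT.nd (nat_lit 78) (nat_lit 152) (nat_lit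 0) (XT.lf (nat_lit 0) (nat_lit 774218334880) (nat_lit 76) (nat_lit 318949853732) (nat_lit 76) (nat_lit 254243557237) (nat_lit 4) (nat_lit 4) (nat_lit 5) (nat_lit 5) (nat_lit 5) (nat_lit 4) (nat_lit 393) (nat_lit 357) (nat_lit 270)) (XT.nd (nat_lit 78) (nat_lit 152) (nat_lit 0) (XT.lf (nat_lit 0) (nat_lit 1254684184882) (nat_lit 76) (nat_lit 166718078241) (nat_lit 76) (nat_lit 102011737524) (nat_lit 4) (nat_lit 4) (nat_lit 5) (nat_lit 5) (nat_lit 5) (nat_lit 4) (nat_lit 394) (nat_lit 357) (nat_lit 269)) (XT.lf (nat_lit 0) (nat_lit 70772780644) (nat_lit 152) (nat_lit 1639450426114) (nat_lit 0) (nat_lit 14506363975) (nat_lit 2) (nat_lit 5) (nat_lit 4) (nat_lit 4) (nat_lit 2) (nat_lit 4) (nat_lit 395) (nat_lit 357) (nat_lit 268))))) (XT.nd (nat_lit 234) (nat_lit 76) (nat_lit 0) (XT.nd (nat_lit 78) (nat_lit 0) (nat_lit 0) (XT.lf (nat_lit 0) (nat_lit 281685798470) (nat_lit 152) (nat_lit 1445010437766)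 (nat_lit 0) (nat_lit 225419352725) (nat_lit 2) (nat_lit 5) (nat_lit 4) (nat_lit 4) (nat_lit 2) (nat_lit 4) (nat_lit 396) (nat_lit 357) (nat_lit 267)) (XT.nd (nat_lit 78) (nat_lit 0) (nat_lit 0) (XT.lf (nat_lit 0) (nat_lit 524235567309) (nat_lit 152) (nat_lit 1221404876597) (nat_lit 0) (nat_lit 467969096280) (nat_lit 2) (nat_lit 5) (nat_lit 4) (nat_lit 4) (nat_lit 2) (nat_lit 4) (nat_lit 397) (nat_lit 357) (nat_lit 266)) (XT.lf (nat_lit 0) (nat_lit 803167626116) (nat_lit 152) (nat_lit 964258851193) (nat_lit 0) (nat_lit 746901133101) (nat_lit 2) (nat_lit 5) (nat_lit 4) (nat_lit 4) (nat_lit 2) (nat_lit 4) (nat_lit 398) (nat_lit 357) (nat_lit 265)))) (XT.nd (nat_lit 78) (nat_lit 76) (nat_lit 0) (XT.lf (nat_lit 0) (nat_lit 1123939341259) (nat_lit 152) (nat_lit 668541243664) (nat_lit 0) (nat_lit 1067672829126) (nat_lit 2) (nat_lit 5) (nat_lit 4) (nat_lit 4) (nat_lit 2) (nat_lit 4) (nat_lit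 399) (nat_lit 357) (nat_lit 264)) (XT.nd (nat_lit 78) (nat_lit 76) (nat_lit 0) (XT.lf (nat_lit 0) (nat_lit 1492826681078) (nat_lit 152) (nat_lit 328466274733) (nat_lit 0) (nat_lit 1436560152320) (nat_lit 2) (nat_lit 5) (nat_lit 4) (nat_lit 4) (nat_lit 2) (nat_lit 4) (nat_lit 400) (nat_lit 357) (nat_lit 263)) (XT.lf (nat_lit 0) (nat_lit 68739348434) (nat_lit 76) (nat_lit 1851154007966) (nat_lit 76) (nat_lit 1794887464753) (nat_lit 1) (nat_lit 4) (nat_lit 2) (nat_lit 5) (nat_lit 2) (nat_lit 4) (nat_lit 401) (nat_lit 357) (nat_lit 262)))))) (XT.nd (nat_lit 468) (nat_lit 0) (nat_lit 0) (XT.nd (nat_lit 234) (nat_lit 0) (nat_lit 0) (XT.nd (nat_lit 78) (nat_lit 0) (nat_lit 0) (XT.lf (nat_lit 0) (nat_lit 562440713086) (nat_lit 76) (nat_lit 1865749038056) (nat_lit 76) (nat_lit 1809482482273) (nat_lit 1) (nat_lit 4) (nat_lit 2) (nat_lit 5) (nat_lit 2) (nat_lit 4) (nat_lit 402) (nat_lit 357) (nat_lit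 261)) (XT.nd (nat_lit 78) (nat_lit 0) (nat_lit 0) (XT.lf (nat_lit 0) (nat_lit 1130197080537) (nat_lit 76) (nat_lit 1882533429016) (nat_lit 76) (nat_lit 1826266862302) (nat_lit 1) (nat_lit 4) (nat_lit 2) (nat_lit 5) (nat_lit 2) (nat_lit 4) (nat_lit 403) (nat_lit 357) (nat_lit 260)) (XT.lf (nat_lit 0) (nat_lit 1783116727540) (nat_lit 76) (nat_lit 1901835571104) (nat_lit 76) (nat_lit 1845568994884) (nat_lit 1) (nat_lit 4) (nat_lit 2) (nat_lit 5) (nat_lit 2) (nat_lit 4) (nat_lit 404) (nat_lit 357) (nat_lit 259)))) (XT.nd (nat_lit 78) (nat_lit 0) (nat_lit 0) (XT.lf (nat_lit 0) (nat_lit 2533974168928) (nat_lit 76) (nat_lit 1924033114924) (nat_lit 76) (nat_lit 1867766530439) (nat_lit 1) (nat_lit 4) (nat_lit 2) (nat_lit 5) (nat_lit 2) (nat_lit 4) (nat_lit 405) (nat_lit 357) (nat_lit 258)) (XT.nd (nat_lit 78) (nat_lit 0) (nat_lit 0) (XT.lf (nat_lit 0) (nat_lit 3397460093772) (nat_lit 76) (nat_lit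 1949560360249) (nat_lit 76) (nat_lit 1893293768577) (nat_lit 1) (nat_lit 4) (nat_lit 2) (nat_lit 5) (nat_lit 2) (nat_lit 4) (nat_lit 406) (nat_lit 357) (nat_lit 257)) (XT.lf (nat_lit 0) (nat_lit 4390468791906) (nat_lit 76) (nat_lit 1978916753181) (nat_lit 76) (nat_lit 1922650155259) (nat_lit 1) (nat_lit 4) (nat_lit 2) (nat_lit 5) (nat_lit 2) (nat_lit 4) (nat_lit 407) (nat_lit 357) (nat_lit 256))))) (XT.nd (nat_lit 234) (nat_lit 0) (nat_lit 0) (XT.nd (nat_lit 78) (nat_lit 0) (nat_lit 0) (XT.lf (nat_lit 0) (nat_lit 5532428694380) (nat_lit 76) (nat_lit 2012676657931) (nat_lit 76) (nat_lit 1956410054574) (nat_lit 1) (nat_lit 4) (nat_lit 2) (nat_lit 5) (nat_lit 2) (nat_lit 4) (nat_lit 408) (nat_lit 357) (nat_lit 255)) (XT.nd (nat_lit 78) (nat_lit 0) (nat_lit 0) (XT.lf (nat_lit 0) (nat_lit 6845682494938) (nat_lit 76) (nat_lit 2051500594373) (nat_lit 76) (nat_lit 1995233986291) (nat_lit 1) (nat_lit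 4) (nat_lit 2) (nat_lit 5) (nat_lit 2) (nat_lit 4) (nat_lit 409) (nat_lit 357) (nat_lit 254)) (XT.lf (nat_lit 0) (nat_lit 8355924289678) (nat_lit 76) (nat_lit 2096148161266) (nat_lit 76) (nat_lit 2039881549074) (nat_lit 1) (nat_lit 4) (nat_lit 2) (nat_lit 5) (nat_lit 2) (nat_lit 4) (nat_lit 410) (nat_lit 357) (nat_lit 253)))) (XT.nd (nat_lit 78) (nat_lit 0) (nat_lit 0) (XT.lf (nat_lit 0) (nat_lit 10092702287628) (nat_lit 76) (nat_lit 2147492897960) (nat_lit 76) (nat_lit 2091226282195) (nat_lit 1) (nat_lit 4) (nat_lit 2) (nat_lit 5) (nat_lit 2) (nat_lit 4) (nat_lit 411) (nat_lit 357) (nat_lit 252)) (XT.nd (nat_lit 78) (nat_lit 0) (nat_lit 0) (XT.lf (nat_lit 0) (nat_lit 12089996927878) (nat_lit 76) (nat_lit 2206539375391) (nat_lit 76) (nat_lit 2150272756519) (nat_lit 1) (nat_lit 4) (nat_lit 2) (nat_lit 5) (nat_lit 2) (nat_lit 4) (nat_lit 412) (nat_lit 357) (nat_lit 251)) (XT.lf (nat_lit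 0) (nat_lit 14386885714258) (nat_lit 76) (nat_lit 2274442850726) (nat_lit 76) (nat_lit 2218176229152) (nat_lit 1) (nat_lit 4) (nat_lit 2) (nat_lit 5) (nat_lit 2) (nat_lit 4) (nat_lit 413) (nat_lit 357) (nat_lit 250))))))))
noncomputable def xc79 : XT := (XT.nd (nat_lit 49296) (nat_lit 0) (nat_lit 456) (XT.nd (nat_lit 858) (nat_lit 0) (nat_lit 0) (XT.nd (nat_lit 390) (nat_lit 0) (nat_lit 0) (XT.nd (nat_lit 156) (nat_lit 0) (nat_lit 0) (XT.nd (nat_lit 78) (nat_lit 0) (nat_lit 0) (XT.lf (nat_lit 0) (nat_lit 17028307775199) (nat_lit 76) (nat_lit 2352531870222) (nat_lit 76) (nat_lit 2296265246299) (nat_lit 1) (nat_lit 4) (nat_lit 2) (nat_lit 5) (nat_lit 2) (nat_lit 4) (nat_lit 414) (nat_lit 357) (nat_lit 249)) (XT.lf (nat_lit 0) (nat_lit 20065943107545) (nat_lit 76) (nat_lit 2442334262521) (nat_lit 76) (nat_lit 2386067636555) (nat_lit 1) (nat_lit 4) (nat_lit 2) (nat_lit 5) (nat_lit 2) (nat_lit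 4) (nat_lit 415) (nat_lit 357) (nat_lit 248))) (XT.nd (nat_lit 78) (nat_lit 0) (nat_lit 0) (XT.lf (nat_lit 0) (nat_lit 23559223706928) (nat_lit 76) (nat_lit 2545607030950) (nat_lit 76) (nat_lit 2489340403208) (nat_lit 1) (nat_lit 4) (nat_lit 2) (nat_lit 5) (nat_lit 2) (nat_lit 4) (nat_lit 416) (nat_lit 357) (nat_lit 247)) (XT.nd (nat_lit 78) (nat_lit 0) (nat_lit 0) (XT.lf (nat_lit 0) (nat_lit 27576496367684) (nat_lit 76) (nat_lit 2664370729676) (nat_lit 76) (nat_lit 2608104100388) (nat_lit 1) (nat_lit 4) (nat_lit 2) (nat_lit 5) (nat_lit 2) (nat_lit 4) (nat_lit 417) (nat_lit 357) (nat_lit 246)) (XT.lf (nat_lit 0) (nat_lit 32196359902741) (nat_lit 76) (nat_lit 2800948996280) (nat_lit 76) (nat_lit 2744682365649) (nat_lit 1) (nat_lit 4) (nat_lit 2) (nat_lit 5) (nat_lit 2) (nat_lit 4) (nat_lit 418) (nat_lit 357) (nat_lit 245))))) (XT.nd (nat_lit 234) (nat_lit 0) (nat_lit 0) (XT.nd (nat_lit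 78) (nat_lit 0) (nat_lit 0) (XT.lf (nat_lit 0) (nat_lit 37509202946481) (nat_lit 76) (nat_lit 2958014014241) (nat_lit 76) (nat_lit 2901747382442) (nat_lit 1) (nat_lit 4) (nat_lit 2) (nat_lit 5) (nat_lit 2) (nat_lit 4) (nat_lit 419) (nat_lit 357) (nat_lit 244)) (XT.nd (nat_lit 78) (nat_lit 0) (nat_lit 0) (XT.lf (nat_lit 0) (nat_lit 43618972428020) (nat_lit 76) (nat_lit 3138638794779) (nat_lit 76) (nat_lit 3082372161964) (nat_lit 1) (nat_lit 4) (nat_lit 2) (nat_lit 5) (nat_lit 2) (nat_lit 4) (nat_lit 420) (nat_lit 357) (nat_lit 243)) (XT.lf (nat_lit 0) (nat_lit 50645207315475) (nat_lit 76) (nat_lit 3346357300992) (nat_lit 76) (nat_lit 3290090667294) (nat_lit 1) (nat_lit 4) (nat_lit 2) (nat_lit 5) (nat_lit 2) (nat_lit 4) (nat_lit 421) (nat_lit 357) (nat_lit 242)))) (XT.nd (nat_lit 78) (nat_lit 0) (nat_lit 0) (XT.lf (nat_lit 0) (nat_lit 58725377421862) (nat_lit 76) (nat_lit 3585233590611)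 (nat_lit 76) (nat_lit 3528966956144) (nat_lit 1) (nat_lit 4) (nat_lit 2) (nat_lit 5) (nat_lit 2) (nat_lit 4) (nat_lit 422) (nat_lit 357) (nat_lit 241)) (XT.nd (nat_lit 78) (nat_lit 0) (nat_lit 0) (XT.lf (nat_lit 0) (nat_lit 68017573031871) (nat_lit 76) (nat_lit 3859941330170) (nat_lit 76) (nat_lit 3803674695036) (nat_lit 1) (nat_lit 4) (nat_lit 2) (nat_lit 5) (nat_lit 2) (nat_lit 4) (nat_lit 423) (nat_lit 357) (nat_lit 240)) (XT.lf (nat_lit 0) (nat_lit 78703597972654) (nat_lit 76) (nat_lit 4175855236314) (nat_lit 76) (nat_lit 4119588600599) (nat_lit 1) (nat_lit 4) (nat_lit 2) (nat_lit 5) (nat_lit 2) (nat_lit 4) (nat_lit 424) (nat_lit 357) (nat_lit 239)))))) (XT.nd (nat_lit 47970) (nat_lit 0) (nat_lit 1976) (XT.nd (nat_lit 234) (nat_lit 0) (nat_lit 0) (XT.nd (nat_lit 78) (nat_lit 0) (nat_lit 0) (XT.lf (nat_lit 0) (nat_lit 90992526645227) (nat_lit 76) (nat_lit 4539156233293) (nat_lit 76)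 (nat_lit 4482889597073) (nat_lit 1) (nat_lit 4) (nat_lit 2) (nat_lit 5) (nat_lit 2) (nat_lit 4) (nat_lit 425) (nat_lit 357) (nat_lit 238)) (XT.nd (nat_lit 78) (nat_lit 0) (nat_lit 0) (XT.lf (nat_lit 0) (nat_lit 105124794610575) (nat_lit 76) (nat_lit 4956952384092) (nat_lit 76) (nat_lit 4900685747433) (nat_lit 1) (nat_lit 4) (nat_lit 2) (nat_lit 5) (nat_lit 2) (nat_lit 4) (nat_lit 426) (nat_lit 357) (nat_lit 237)) (XT.lf (nat_lit 0) (nat_lit 121376902763671) (nat_lit 76) (nat_lit 5437417961226) (nat_lit 76) (nat_lit 5381151324185) (nat_lit 1) (nat_lit 4) (nat_lit 2) (nat_lit 5) (nat_lit 2) (nat_lit 4) (nat_lit 427) (nat_lit 357) (nat_lit 236)))) (XT.nd (nat_lit 78) (nat_lit 0) (nat_lit 0) (XT.lf (nat_lit 0) (nat_lit 140066827133599) (nat_lit 76) (nat_lit 5989953378161) (nat_lit 76) (nat_lit 5933686740788) (nat_lit 1) (nat_lit 4) (nat_lit 2) (nat_lit 5) (nat_lit 2) (nat_lit 4) (nat_lit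 428) (nat_lit 357) (nat_lit 235)) (XT.nd (nat_lit 47580) (nat_lit 0) (nat_lit 2128) (XT.lf (nat_lit 0) (nat_lit 161560240153683) (nat_lit 76) (nat_lit 6625369110446) (nat_lit 76) (nat_lit 6569102472784) (nat_lit 1) (nat_lit 4) (nat_lit 2) (nat_lit 5) (nat_lit 2) (nat_lit 4) (nat_lit 429) (nat_lit 357) (nat_lit 234)) (XT.lf (nat_lit 0) (nat_lit 6478536292) (nat_lit 380) (nat_lit 9315003023) (nat_lit 380) (nat_lit 9315003023) (nat_lit 29) (nat_lit 3) (nat_lit 34) (nat_lit 3) (nat_lit 34) (nat_lit 5) (nat_lit 358) (nat_lit 358) (nat_lit 304))))) (XT.nd (nat_lit 234) (nat_lit 152) (nat_lit 0) (XT.nd (nat_lit 78) (nat_lit 0) (nat_lit 76) (XT.lf (nat_lit 76) (nat_lit 6532874781) (nat_lit 0) (nat_lit 7690428264) (nat_lit 380) (nat_lit 39715867070) (nat_lit 30) (nat_lit 5) (nat_lit 29) (nat_lit 3) (nat_lit 34) (nat_lit 5) (nat_lit 359) (nat_lit 358) (nat_lit 303)) (XT.nd (nat_lit 78) (nat_lit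 0) (nat_lit 0) (XT.lf (nat_lit 0) (nat_lit 17514870088) (nat_lit 304) (nat_lit 21378834448) (nat_lit 380) (nat_lit 19050558589) (nat_lit 30) (nat_lit 5) (nat_lit 34) (nat_lit 5) (nat_lit 35) (nat_lit 5) (nat_lit 360) (nat_lit 358) (nat_lit 302)) (XT.lf (nat_lit 76) (nat_lit 8983314292) (nat_lit 0) (nat_lit 13051305954) (nat_lit 380) (nat_lit 40405337030) (nat_lit 31) (nat_lit 5) (nat_lit 30) (nat_lit 5) (nat_lit 35) (nat_lit 5) (nat_lit 361) (nat_lit 358) (nat_lit 301)))) (XT.nd (nat_lit 78) (nat_lit 304) (nat_lit 0) (XT.lf (nat_lit 0) (nat_lit 29089892053) (nat_lit 304) (nat_lit 21886654078) (nat_lit 76) (nat_lit 16354829377) (nat_lit 31) (nat_lit 5) (nat_lit 35) (nat_lit 5) (nat_lit 32) (nat_lit 5) (nat_lit 362) (nat_lit 358) (nat_lit 300)) (XT.nd (nat_lit 78) (nat_lit 0) (nat_lit 0) (XT.lf (nat_lit 0) (nat_lit 15142498932) (nat_lit 304) (nat_lit 23306551799) (nat_lit 380) (nat_lit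 34320619653) (nat_lit 27) (nat_lit 5) (nat_lit 31) (nat_lit 5) (nat_lit 32) (nat_lit 5) (nat_lit 363) (nat_lit 358) (nat_lit 299)) (XT.lf (nat_lit 0) (nat_lit 50760526795) (nat_lit 380) (nat_lit 19076529932) (nat_lit 76) (nat_lit 8954389120) (nat_lit 27) (nat_lit 5) (nat_lit 32) (nat_lit 5) (nat_lit 28) (nat_lit 5) (nat_lit 364) (nat_lit 358) (nat_lit 298))))))) (XT.nd (nat_lit 858) (nat_lit 684) (nat_lit 0) (XT.nd (nat_lit 390) (nat_lit 380) (nat_lit 0) (XT.nd (nat_lit 156) (nat_lit 304) (nat_lit 0) (XT.nd (nat_lit 78) (nat_lit 0) (nat_lit 0) (XT.lf (nat_lit 0) (nat_lit 26503631024) (nat_lit 152) (nat_lit 40620078795) (nat_lit 228) (nat_lit 18262032491) (nat_lit 25) (nat_lit 5) (nat_lit 27) (nat_lit 5) (nat_lit 28) (nat_lit 5) (nat_lit 365) (nat_lit 358) (nat_lit 297)) (XT.lf (nat_lit 0) (nat_lit 81062106703) (nat_lit 152) (nat_lit 5874328155) (nat_lit 228) (nat_lit 5883490889) (nat_lit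 25) (nat_lit 5) (nat_lit 27) (nat_lit 5) (nat_lit 28) (nat_lit 5) (nat_lit 366) (nat_lit 358) (nat_lit 296))) (XT.nd (nat_lit 78) (nat_lit 152) (nat_lit 0) (XT.lf (nat_lit 0) (nat_lit 11038257003) (nat_lit 152) (nat_lit 56349738880) (nat_lit 76) (nat_lit 33414873304) (nat_lit 23) (nat_lit 5) (nat_lit 25) (nat_lit 5) (nat_lit 24) (nat_lit 5) (nat_lit 367) (nat_lit 358) (nat_lit 295)) (XT.nd (nat_lit 78) (nat_lit 152) (nat_lit 0) (XT.lf (nat_lit 0) (nat_lit 30817717440) (nat_lit 152) (nat_lit 65710404) (nat_lit 76) (nat_lit 78919531639) (nat_lit 23) (nat_lit 5) (nat_lit 25) (nat_lit 5) (nat_lit 24) (nat_lit 5) (nat_lit 368) (nat_lit 358) (nat_lit 294)) (XT.lf (nat_lit 0) (nat_lit 57100978443) (nat_lit 228) (nat_lit 49334313497) (nat_lit 76) (nat_lit 13187240409) (nat_lit 21) (nat_lit 5) (nat_lit 24) (nat_lit 5) (nat_lit 22) (nat_lit 4) (nat_lit 369) (nat_lit 358) (nat_lit 293))))) (XT.nd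 (nat_lit 234) (nat_lit 152) (nat_lit 0) (XT.nd (nat_lit 78) (nat_lit 152) (nat_lit 0) (XT.lf (nat_lit 0) (nat_lit 20653656672) (nat_lit 76) (nat_lit 69001050247) (nat_lit 152) (nat_lit 40911138564) (nat_lit 20) (nat_lit 5) (nat_lit 21) (nat_lit 5) (nat_lit 22) (nat_lit 4) (nat_lit 370) (nat_lit 358) (nat_lit 292)) (XT.nd (nat_lit 78) (nat_lit 152) (nat_lit 0) (XT.lf (nat_lit 0) (nat_lit 106682065891) (nat_lit 76) (nat_lit 22986884366) (nat_lit 152) (nat_lit 13095087936) (nat_lit 20) (nat_lit 5) (nat_lit 21) (nat_lit 5) (nat_lit 22) (nat_lit 4) (nat_lit 371) (nat_lit 358) (nat_lit 291)) (XT.lf (nat_lit 0) (nat_lit 20774163916) (nat_lit 152) (nat_lit 104994767010) (nat_lit 76) (nat_lit 30371257658) (nat_lit 18) (nat_lit 5) (nat_lit 20) (nat_lit 5) (nat_lit 19) (nat_lit 4) (nat_lit 372) (nat_lit 358) (nat_lit 290)))) (XT.nd (nat_lit 78) (nat_lit 152) (nat_lit 0) (XT.lf (nat_lit 0) (nat_lit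 61452434072) (nat_lit 152) (nat_lit 17537941888) (nat_lit 76) (nat_lit 91978452137) (nat_lit 18) (nat_lit 5) (nat_lit 20) (nat_lit 5) (nat_lit 19) (nat_lit 4) (nat_lit 373) (nat_lit 358) (nat_lit 289)) (XT.nd (nat_lit 78) (nat_lit 76) (nat_lit 0) (XT.lf (nat_lit 0) (nat_lit 91150385099) (nat_lit 76) (nat_lit 20855347962) (nat_lit 152) (nat_lit 75450037772) (nat_lit 17) (nat_lit 5) (nat_lit 18) (nat_lit 5) (nat_lit 19) (nat_lit 4) (nat_lit 374) (nat_lit 358) (nat_lit 288)) (XT.lf (nat_lit 0) (nat_lit 10850418567) (nat_lit 76) (nat_lit 162605048155) (nat_lit 76) (nat_lit 32463272752) (nat_lit 16) (nat_lit 4) (nat_lit 17) (nat_lit 5) (nat_lit 17) (nat_lit 4) (nat_lit 375) (nat_lit 358) (nat_lit 287)))))) (XT.nd (nat_lit 468) (nat_lit 304) (nat_lit 0) (XT.nd (nat_lit 234) (nat_lit 228) (nat_lit 0) (XT.nd (nat_lit 78) (nat_lit 76) (nat_lit 0) (XT.lf (nat_lit 0) (nat_lit 21726553508) (nat_lit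 152) (nat_lit 83430517668) (nat_lit 76) (nat_lit 120948774395) (nat_lit 15) (nat_lit 5) (nat_lit 17) (nat_lit 5) (nat_lit 16) (nat_lit 4) (nat_lit 376) (nat_lit 358) (nat_lit 286)) (XT.nd (nat_lit 78) (nat_lit 0) (nat_lit 0) (XT.lf (nat_lit 0) (nat_lit 47647323903) (nat_lit 76) (nat_lit 35046004172) (nat_lit 152) (nat_lit 166099995023) (nat_lit 14) (nat_lit 5) (nat_lit 15) (nat_lit 5) (nat_lit 16) (nat_lit 4) (nat_lit 377) (nat_lit 358) (nat_lit 285)) (XT.lf (nat_lit 0) (nat_lit 159260513975) (nat_lit 152) (nat_lit 68563246872) (nat_lit 0) (nat_lit 46091852405) (nat_lit 14) (nat_lit 5) (nat_lit 16) (nat_lit 4) (nat_lit 14) (nat_lit 4) (nat_lit 378) (nat_lit 358) (nat_lit 284)))) (XT.nd (nat_lit 78) (nat_lit 152) (nat_lit 0) (XT.lf (nat_lit 0) (nat_lit 90273363868) (nat_lit 76) (nat_lit 162445550150) (nat_lit 76) (nat_lit 49276412705) (nat_lit 13) (nat_lit 4) (nat_lit 14) (nat_lit 5) (nat_lit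 14) (nat_lit 4) (nat_lit 379) (nat_lit 358) (nat_lit 283)) (XT.nd (nat_lit 78) (nat_lit 76) (nat_lit 0) (XT.lf (nat_lit 0) (nat_lit 27356383251) (nat_lit 152) (nat_lit 54353327260) (nat_lit 76) (nat_lit 251853274200) (nat_lit 12) (nat_lit 5) (nat_lit 14) (nat_lit 5) (nat_lit 13) (nat_lit 4) (nat_lit 380) (nat_lit 358) (nat_lit 282)) (XT.lf (nat_lit 0) (nat_lit 116929091940) (nat_lit 152) (nat_lit 233090757714) (nat_lit 0) (nat_lit 18520473609) (nat_lit 11) (nat_lit 5) (nat_lit 13) (nat_lit 4) (nat_lit 11) (nat_lit 4) (nat_lit 381) (nat_lit 358) (nat_lit 281))))) (XT.nd (nat_lit 234) (nat_lit 152) (nat_lit 0) (XT.nd (nat_lit 78) (nat_lit 152) (nat_lit 0) (XT.lf (nat_lit 0) (nat_lit 226804500668) (nat_lit 152) (nat_lit 52534132751) (nat_lit 0) (nat_lit 128395610254) (nat_lit 11) (nat_lit 5) (nat_lit 13) (nat_lit 4) (nat_lit 11) (nat_lit 4) (nat_lit 382) (nat_lit 358) (nat_lit 280)) (XT.nd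 (nat_lit 78) (nat_lit 76) (nat_lit 0) (XT.lf (nat_lit 0) (nat_lit 170262848119) (nat_lit 76) (nat_lit 189948040482) (nat_lit 76) (nat_lit 91538913474) (nat_lit 10) (nat_lit 4) (nat_lit 11) (nat_lit 5) (nat_lit 11) (nat_lit 4) (nat_lit 383) (nat_lit 358) (nat_lit 279)) (XT.lf (nat_lit 0) (nat_lit 13134367983) (nat_lit 152) (nat_lit 70170441577) (nat_lit 76) (nat_lit 418561495717) (nat_lit 9) (nat_lit 5) (nat_lit 11) (nat_lit 5) (nat_lit 10) (nat_lit 4) (nat_lit 384) (nat_lit 358) (nat_lit 278)))) (XT.nd (nat_lit 78) (nat_lit 76) (nat_lit 0) (XT.lf (nat_lit 0) (nat_lit 133995674862) (nat_lit 152) (nat_lit 374949742164) (nat_lit 0) (nat_lit 48422186478) (nat_lit 8) (nat_lit 5) (nat_lit 10) (nat_lit 4) (nat_lit 8) (nat_lit 4) (nat_lit 385) (nat_lit 358) (nat_lit 277)) (XT.nd (nat_lit 78) (nat_lit 76) (nat_lit 0) (XT.lf (nat_lit 0) (nat_lit 280795266279) (nat_lit 152) (nat_lit 144005824354)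 (nat_lit 0) (nat_lit 195221642622) (nat_lit 8) (nat_lit 5) (nat_lit 10) (nat_lit 4) (nat_lit 8) (nat_lit 4) (nat_lit 386) (nat_lit 358) (nat_lit 276)) (XT.lf (nat_lit 0) (nat_lit 133460400123) (nat_lit 76) (nat_lit 321680294481) (nat_lit 76) (nat_lit 236106553194) (nat_lit 7) (nat_lit 4) (nat_lit 8) (nat_lit 5) (nat_lit 8) (nat_lit 4) (nat_lit 387) (nat_lit 358) (nat_lit 275))))))))
noncomputable def xc80 : XT := (XT.nd (nat_lit 1716) (nat_lit 0) (nat_lit 0) (XT.nd (nat_lit 858) (nat_lit 76) (nat_lit 0) (XT.nd (nat_lit 390) (nat_lit 228) (nat_lit 0) (XT.nd (nat_lit 156) (nat_lit 76) (nat_lit 0) (XT.nd (nat_lit 78) (nat_lit 76) (nat_lit 0) (XT.lf (nat_lit 0) (nat_lit 468730039074) (nat_lit 76) (nat_lit 194435083156) (nat_lit 76) (nat_lit 108861239583) (nat_lit 7) (nat_lit 4) (nat_lit 8) (nat_lit 5) (nat_lit 8) (nat_lit 4) (nat_lit 388) (nat_lit 358) (nat_lit 274)) (XT.lf (nat_lit 0) (nat_lit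 34134597753) (nat_lit 152) (nat_lit 12184547348) (nat_lit 76) (nat_lit 818370513128) (nat_lit 6) (nat_lit 5) (nat_lit 8) (nat_lit 5) (nat_lit 7) (nat_lit 4) (nat_lit 389) (nat_lit 358) (nat_lit 273))) (XT.nd (nat_lit 78) (nat_lit 0) (nat_lit 0) (XT.lf (nat_lit 0) (nat_lit 207930919930) (nat_lit 152) (nat_lit 625950747490) (nat_lit 0) (nat_lit 133518737442) (nat_lit 5) (nat_lit 5) (nat_lit 7) (nat_lit 4) (nat_lit 5) (nat_lit 4) (nat_lit 390) (nat_lit 358) (nat_lit 272)) (XT.nd (nat_lit 78) (nat_lit 0) (nat_lit 0) (XT.lf (nat_lit 0) (nat_lit 410669304302) (nat_lit 152) (nat_lit 338160503805) (nat_lit 0) (nat_lit 336257063332) (nat_lit 5) (nat_lit 5) (nat_lit 7) (nat_lit 4) (nat_lit 5) (nat_lit 4) (nat_lit 391) (nat_lit 358) (nat_lit 271)) (XT.lf (nat_lit 0) (nat_lit 643818177871) (nat_lit 152) (nat_lit 7202284379) (nat_lit 0) (nat_lit 569405886047) (nat_lit 5) (nat_lit 5) (nat_lit 7) (nat_lit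 4) (nat_lit 5) (nat_lit 4) (nat_lit 392) (nat_lit 358) (nat_lit 270))))) (XT.nd (nat_lit 234) (nat_lit 152) (nat_lit 0) (XT.nd (nat_lit 78) (nat_lit 0) (nat_lit 0) (XT.lf (nat_lit 0) (nat_lit 409890463826) (nat_lit 76) (nat_lit 519021375220) (nat_lit 76) (nat_lit 444609039174) (nat_lit 4) (nat_lit 4) (nat_lit 5) (nat_lit 5) (nat_lit 5) (nat_lit 4) (nat_lit 393) (nat_lit 358) (nat_lit 269)) (XT.nd (nat_lit 78) (nat_lit 0) (nat_lit 0) (XT.lf (nat_lit 0) (nat_lit 890356097318) (nat_lit 76) (nat_lit 366789712857) (nat_lit 76) (nat_lit 292377338358) (nat_lit 4) (nat_lit 4) (nat_lit 5) (nat_lit 5) (nat_lit 5) (nat_lit 4) (nat_lit 394) (nat_lit 358) (nat_lit 268)) (XT.lf (nat_lit 0) (nat_lit 1442891171054) (nat_lit 76) (nat_lit 191723512642) (nat_lit 76) (nat_lit 117311104706) (nat_lit 4) (nat_lit 4) (nat_lit 5) (nat_lit 5) (nat_lit 5) (nat_lit 4) (nat_lit 395) (nat_lit 358) (nat_lit 267))))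 (XT.nd (nat_lit 78) (nat_lit 0) (nat_lit 0) (XT.lf (nat_lit 0) (nat_lit 81390869118) (nat_lit 152) (nat_lit 1885363409234) (nat_lit 0) (nat_lit 16684402150) (nat_lit 2) (nat_lit 5) (nat_lit 4) (nat_lit 4) (nat_lit 2) (nat_lit 4) (nat_lit 396) (nat_lit 358) (nat_lit 266)) (XT.nd (nat_lit 78) (nat_lit 0) (nat_lit 0) (XT.lf (nat_lit 0) (nat_lit 323940556395) (nat_lit 152) (nat_lit 1661758020130) (nat_lit 0) (nat_lit 259234067442) (nat_lit 2) (nat_lit 5) (nat_lit 4) (nat_lit 4) (nat_lit 2) (nat_lit 4) (nat_lit 397) (nat_lit 358) (nat_lit 265)) (XT.lf (nat_lit 0) (nat_lit 602872544278) (nat_lit 152) (nat_lit 1404612144347) (nat_lit 0) (nat_lit 538166036207) (nat_lit 2) (nat_lit 5) (nat_lit 4) (nat_lit 4) (nat_lit 2) (nat_lit 4) (nat_lit 398) (nat_lit 358) (nat_lit 264)))))) (XT.nd (nat_lit 390) (nat_lit 0) (nat_lit 0) (XT.nd (nat_lit 156) (nat_lit 76) (nat_lit 0) (XT.nd (nat_lit 78) (nat_lit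 0) (nat_lit 0) (XT.lf (nat_lit 0) (nat_lit 923644197749) (nat_lit 152) (nat_lit 1108894666923) (nat_lit 0) (nat_lit 858937673054) (nat_lit 2) (nat_lit 5) (nat_lit 4) (nat_lit 4) (nat_lit 2) (nat_lit 4) (nat_lit 399) (nat_lit 358) (nat_lit 263)) (XT.lf (nat_lit 0) (nat_lit 1292531483940) (nat_lit 152) (nat_lit 768819811128) (nat_lit 0) (nat_lit 1227824944788) (nat_lit 2) (nat_lit 5) (nat_lit 4) (nat_lit 4) (nat_lit 2) (nat_lit 4) (nat_lit 400) (nat_lit 358) (nat_lit 262))) (XT.nd (nat_lit 78) (nat_lit 76) (nat_lit 0) (XT.lf (nat_lit 0) (nat_lit 1716751762798) (nat_lit 152) (nat_lit 377733938477) (nat_lit 0) (nat_lit 1652045211076) (nat_lit 2) (nat_lit 5) (nat_lit 4) (nat_lit 4) (nat_lit 2) (nat_lit 4) (nat_lit 401) (nat_lit 358) (nat_lit 261)) (XT.nd (nat_lit 78) (nat_lit 0) (nat_lit 0) (XT.lf (nat_lit 0) (nat_lit 79052424644) (nat_lit 76) (nat_lit 2128825963981) (nat_lit 76) (nat_lit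 2064119401328) (nat_lit 1) (nat_lit 4) (nat_lit 2) (nat_lit 5) (nat_lit 2) (nat_lit 4) (nat_lit 402) (nat_lit 358) (nat_lit 260)) (XT.lf (nat_lit 0) (nat_lit 646808710436) (nat_lit 76) (nat_lit 2145610397956) (nat_lit 76) (nat_lit 2080903825799) (nat_lit 1) (nat_lit 4) (nat_lit 2) (nat_lit 5) (nat_lit 2) (nat_lit 4) (nat_lit 403) (nat_lit 358) (nat_lit 259))))) (XT.nd (nat_lit 234) (nat_lit 0) (nat_lit 0) (XT.nd (nat_lit 78) (nat_lit 0) (nat_lit 0) (XT.lf (nat_lit 0) (nat_lit 1299728286432) (nat_lit 76) (nat_lit 2164912577449) (nat_lit 76) (nat_lit 2100205997026) (nat_lit 1) (nat_lit 4) (nat_lit 2) (nat_lit 5) (nat_lit 2) (nat_lit 4) (nat_lit 404) (nat_lit 358) (nat_lit 258)) (XT.nd (nat_lit 78) (nat_lit 0) (nat_lit 0) (XT.lf (nat_lit 0) (nat_lit 2050585666075) (nat_lit 76) (nat_lit 2187110153795) (nat_lit 76) (nat_lit 2122403566185) (nat_lit 1) (nat_lit 4) (nat_lit 2) (nat_lit 5) (nat_lit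 2) (nat_lit 4) (nat_lit 405) (nat_lit 358) (nat_lit 257)) (XT.lf (nat_lit 0) (nat_lit 2914071537227) (nat_lit 76) (nat_lit 2212637427403) (nat_lit 76) (nat_lit 2147930833543) (nat_lit 1) (nat_lit 4) (nat_lit 2) (nat_lit 5) (nat_lit 2) (nat_lit 4) (nat_lit 406) (nat_lit 358) (nat_lit 256)))) (XT.nd (nat_lit 78) (nat_lit 0) (nat_lit 0) (XT.lf (nat_lit 0) (nat_lit 3907080188672) (nat_lit 76) (nat_lit 2241993844929) (nat_lit 76) (nat_lit 2177287245635) (nat_lit 1) (nat_lit 4) (nat_lit 2) (nat_lit 5) (nat_lit 2) (nat_lit 4) (nat_lit 407) (nat_lit 358) (nat_lit 255)) (XT.nd (nat_lit 78) (nat_lit 0) (nat_lit 0) (XT.lf (nat_lit 0) (nat_lit 5049040050548) (nat_lit 76) (nat_lit 2275753771065) (nat_lit 76) (nat_lit 2211047167045) (nat_lit 1) (nat_lit 4) (nat_lit 2) (nat_lit 5) (nat_lit 2) (nat_lit 4) (nat_lit 408) (nat_lit 358) (nat_lit 254)) (XT.lf (nat_lit 0) (nat_lit 6362293815803) (nat_lit 76)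 (nat_lit 2314577726105) (nat_lit 76) (nat_lit 2249871117976) (nat_lit 1) (nat_lit 4) (nat_lit 2) (nat_lit 5) (nat_lit 2) (nat_lit 4) (nat_lit 409) (nat_lit 358) (nat_lit 253))))))) (XT.nd (nat_lit 858) (nat_lit 0) (nat_lit 0) (XT.nd (nat_lit 390) (nat_lit 0) (nat_lit 0) (XT.nd (nat_lit 156) (nat_lit 0) (nat_lit 0) (XT.nd (nat_lit 78) (nat_lit 0) (nat_lit 0) (XT.lf (nat_lit 0) (nat_lit 7872535579845) (nat_lit 76) (nat_lit 2359225309168) (nat_lit 76) (nat_lit 2294518697466) (nat_lit 1) (nat_lit 4) (nat_lit 2) (nat_lit 5) (nat_lit 2) (nat_lit 4) (nat_lit 410) (nat_lit 358) (nat_lit 252)) (XT.lf (nat_lit 0) (nat_lit 9609313551100) (nat_lit 76) (nat_lit 2410570059924) (nat_lit 76) (nat_lit 2345863445114) (nat_lit 1) (nat_lit 4) (nat_lit 2) (nat_lit 5) (nat_lit 2) (nat_lit 4) (nat_lit 411) (nat_lit 358) (nat_lit 251))) (XT.nd (nat_lit 78) (nat_lit 0) (nat_lit 0) (XT.lf (nat_lit 0) (nat_lit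 11606608168138) (nat_lit 76) (nat_lit 2469616549583) (nat_lit 76) (nat_lit 2404909932071) (nat_lit 1) (nat_lit 4) (nat_lit 2) (nat_lit 5) (nat_lit 2) (nat_lit 4) (nat_lit 412) (nat_lit 358) (nat_lit 250)) (XT.nd (nat_lit 78) (nat_lit 0) (nat_lit 0) (XT.lf (nat_lit 0) (nat_lit 13903496934334) (nat_lit 76) (nat_lit 2537520035551) (nat_lit 76) (nat_lit 2472813415690) (nat_lit 1) (nat_lit 4) (nat_lit 2) (nat_lit 5) (nat_lit 2) (nat_lit 4) (nat_lit 413) (nat_lit 358) (nat_lit 249)) (XT.lf (nat_lit 0) (nat_lit 16544918977723) (nat_lit 76) (nat_lit 2615609064293) (nat_lit 76) (nat_lit 2550902442388) (nat_lit 1) (nat_lit 4) (nat_lit 2) (nat_lit 5) (nat_lit 2) (nat_lit 4) (nat_lit 414) (nat_lit 358) (nat_lit 248))))) (XT.nd (nat_lit 234) (nat_lit 0) (nat_lit 0) (XT.nd (nat_lit 78) (nat_lit 0) (nat_lit 0) (XT.lf (nat_lit 0) (nat_lit 19582554294806) (nat_lit 76) (nat_lit 2705411464631) (nat_lit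 76) (nat_lit 2640704840951) (nat_lit 1) (nat_lit 4) (nat_lit 2) (nat_lit 5) (nat_lit 2) (nat_lit 4) (nat_lit 415) (nat_lit 358) (nat_lit 247)) (XT.nd (nat_lit 78) (nat_lit 0) (nat_lit 0) (XT.lf (nat_lit 0) (nat_lit 23075834880917) (nat_lit 76) (nat_lit 2808684240052) (nat_lit 76) (nat_lit 2743977614827) (nat_lit 1) (nat_lit 4) (nat_lit 2) (nat_lit 5) (nat_lit 2) (nat_lit 4) (nat_lit 416) (nat_lit 358) (nat_lit 246)) (XT.lf (nat_lit 0) (nat_lit 27093107530132) (nat_lit 76) (nat_lit 2927447944857) (nat_lit 76) (nat_lit 2862741318288) (nat_lit 1) (nat_lit 4) (nat_lit 2) (nat_lit 5) (nat_lit 2) (nat_lit 4) (nat_lit 417) (nat_lit 358) (nat_lit 245)))) (XT.nd (nat_lit 78) (nat_lit 0) (nat_lit 0) (XT.lf (nat_lit 0) (nat_lit 31712971055154) (nat_lit 76) (nat_lit 3064026216748) (nat_lit 76) (nat_lit 2999319589011) (nat_lit 1) (nat_lit 4) (nat_lit 2) (nat_lit 5) (nat_lit 2) (nat_lit 4) (nat_lit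 418) (nat_lit 358) (nat_lit 244)) (XT.nd (nat_lit 78) (nat_lit 0) (nat_lit 0) (XT.lf (nat_lit 0) (nat_lit 37025814090168) (nat_lit 76) (nat_lit 3221091239305) (nat_lit 76) (nat_lit 3156384610553) (nat_lit 1) (nat_lit 4) (nat_lit 2) (nat_lit 5) (nat_lit 2) (nat_lit 4) (nat_lit 419) (nat_lit 358) (nat_lit 243)) (XT.lf (nat_lit 0) (nat_lit 43135583564119) (nat_lit 76) (nat_lit 3401716023841) (nat_lit 76) (nat_lit 3337009394205) (nat_lit 1) (nat_lit 4) (nat_lit 2) (nat_lit 5) (nat_lit 2) (nat_lit 4) (nat_lit 420) (nat_lit 358) (nat_lit 242)))))) (XT.nd (nat_lit 468) (nat_lit 0) (nat_lit 0) (XT.nd (nat_lit 234) (nat_lit 0) (nat_lit 0) (XT.nd (nat_lit 78) (nat_lit 0) (nat_lit 0) (XT.lf (nat_lit 0) (nat_lit 50161818444976) (nat_lit 76) (nat_lit 3609434533530) (nat_lit 76) (nat_lit 3544727903126) (nat_lit 1) (nat_lit 4) (nat_lit 2) (nat_lit 5) (nat_lit 2) (nat_lit 4) (nat_lit 421) (nat_lit 358)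 (nat_lit 241)) (XT.nd (nat_lit 78) (nat_lit 0) (nat_lit 0) (XT.lf (nat_lit 0) (nat_lit 58241988545625) (nat_lit 76) (nat_lit 3848310826171) (nat_lit 76) (nat_lit 3783604195099) (nat_lit 1) (nat_lit 4) (nat_lit 2) (nat_lit 5) (nat_lit 2) (nat_lit 4) (nat_lit 422) (nat_lit 358) (nat_lit 240)) (XT.lf (nat_lit 0) (nat_lit 67534184150645) (nat_lit 76) (nat_lit 4123018568358) (nat_lit 76) (nat_lit 4058311936705) (nat_lit 1) (nat_lit 4) (nat_lit 2) (nat_lit 5) (nat_lit 2) (nat_lit 4) (nat_lit 423) (nat_lit 358) (nat_lit 239)))) (XT.nd (nat_lit 78) (nat_lit 0) (nat_lit 0) (XT.lf (nat_lit 0) (nat_lit 78220209087089) (nat_lit 76) (nat_lit 4438932476787) (nat_lit 76) (nat_lit 4374225844630) (nat_lit 1) (nat_lit 4) (nat_lit 2) (nat_lit 5) (nat_lit 2) (nat_lit 4) (nat_lit 424) (nat_lit 358) (nat_lit 238)) (XT.nd (nat_lit 78) (nat_lit 0) (nat_lit 0) (XT.lf (nat_lit 0) (nat_lit 90509137755889) (nat_lit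 76) (nat_lit 4802233475754) (nat_lit 76) (nat_lit 4737526843157) (nat_lit 1) (nat_lit 4) (nat_lit 2) (nat_lit 5) (nat_lit 2) (nat_lit 4) (nat_lit 425) (nat_lit 358) (nat_lit 237)) (XT.lf (nat_lit 0) (nat_lit 104641405717956) (nat_lit 76) (nat_lit 5220029628281) (nat_lit 76) (nat_lit 5155322995302) (nat_lit 1) (nat_lit 4) (nat_lit 2) (nat_lit 5) (nat_lit 2) (nat_lit 4) (nat_lit 426) (nat_lit 358) (nat_lit 236))))) (XT.nd (nat_lit 47814) (nat_lit 0) (nat_lit 2128) (XT.nd (nat_lit 78) (nat_lit 0) (nat_lit 0) (XT.lf (nat_lit 0) (nat_lit 120893513868200) (nat_lit 76) (nat_lit 5700495206918) (nat_lit 76) (nat_lit 5635788573607) (nat_lit 1) (nat_lit 4) (nat_lit 2) (nat_lit 5) (nat_lit 2) (nat_lit 4) (nat_lit 427) (nat_lit 358) (nat_lit 235)) (XT.nd (nat_lit 78) (nat_lit 0) (nat_lit 0) (XT.lf (nat_lit 0) (nat_lit 139583438235647) (nat_lit 76) (nat_lit 6253030625159) (nat_lit 76) (nat_lit 6188323991560)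 (nat_lit 1) (nat_lit 4) (nat_lit 2) (nat_lit 5) (nat_lit 2) (nat_lit 4) (nat_lit 428) (nat_lit 358) (nat_lit 234)) (XT.lf (nat_lit 0) (nat_lit 161076851253574) (nat_lit 76) (nat_lit 6888446358580) (nat_lit 76) (nat_lit 6823739724730) (nat_lit 1) (nat_lit 4) (nat_lit 2) (nat_lit 5) (nat_lit 2) (nat_lit 4) (nat_lit 429) (nat_lit 358) (nat_lit 233)))) (XT.nd (nat_lit 78) (nat_lit 0) (nat_lit 0) (XT.lf (nat_lit 0) (nat_lit 7473263135) (nat_lit 380) (nat_lit 10699045680) (nat_lit 380) (nat_lit 10699045680) (nat_lit 29) (nat_lit 3) (nat_lit 34) (nat_lit 3) (nat_lit 34) (nat_lit 5) (nat_lit 359) (nat_lit 359) (nat_lit 302)) (XT.nd (nat_lit 78) (nat_lit 0) (nat_lit 76) (XT.lf (nat_lit 76) (nat_lit 7538020883) (nat_lit 0) (nat_lit 8859728496) (nat_lit 380) (nat_lit 45626106259) (nat_lit 30) (nat_lit 5) (nat_lit 29) (nat_lit 3) (nat_lit 34) (nat_lit 5) (nat_lit 360) (nat_lit 359) (nat_lit 301))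 (XT.lf (nat_lit 0) (nat_lit 20177143456) (nat_lit 304) (nat_lit 24557784421) (nat_lit 380) (nat_lit 21895677103) (nat_lit 30) (nat_lit 5) (nat_lit 34) (nat_lit 5) (nat_lit 35) (nat_lit 5) (nat_lit 361) (nat_lit 359) (nat_lit 300))))))))
noncomputable def xc81 : XT := (XT.nd (nat_lit 1794) (nat_lit 684) (nat_lit 0) (XT.nd (nat_lit 858) (nat_lit 760) (nat_lit 0) (XT.nd (nat_lit 390) (nat_lit 380) (nat_lit 0) (XT.nd (nat_lit 156) (nat_lit 380) (nat_lit 0) (XT.nd (nat_lit 78) (nat_lit 0) (nat_lit 76) (XT.lf (nat_lit 76) (nat_lit 10357419576) (nat_lit 0) (nat_lit 15013967541) (nat_lit 380) (nat_lit 46429791863) (nat_lit 31) (nat_lit 5) (nat_lit 30) (nat_lit 5) (nat_lit 35) (nat_lit 5) (nat_lit 362) (nat_lit 359) (nat_lit 299)) (XT.lf (nat_lit 0) (nat_lit 33480652569) (nat_lit 304) (nat_lit 25142186409) (nat_lit 76) (nat_lit 18804120208) (nat_lit 31) (nat_lit 5) (nat_lit 35) (nat_lit 5) (nat_lit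 32) (nat_lit 5) (nat_lit 363) (nat_lit 359) (nat_lit 298))) (XT.nd (nat_lit 78) (nat_lit 152) (nat_lit 0) (XT.lf (nat_lit 0) (nat_lit 17440091108) (nat_lit 304) (nat_lit 26801121714) (nat_lit 380) (nat_lit 39440160368) (nat_lit 27) (nat_lit 5) (nat_lit 31) (nat_lit 5) (nat_lit 32) (nat_lit 5) (nat_lit 364) (nat_lit 359) (nat_lit 297)) (XT.nd (nat_lit 78) (nat_lit 152) (nat_lit 0) (XT.lf (nat_lit 0) (nat_lit 58396225800) (nat_lit 380) (nat_lit 21912003695) (nat_lit 76) (nat_lit 10298666682) (nat_lit 27) (nat_lit 5) (nat_lit 32) (nat_lit 5) (nat_lit 28) (nat_lit 5) (nat_lit 365) (nat_lit 359) (nat_lit 296)) (XT.lf (nat_lit 0) (nat_lit 30503999326) (nat_lit 152) (nat_lit 46708094849) (nat_lit 228) (nat_lit 20978514824) (nat_lit 25) (nat_lit 5) (nat_lit 27) (nat_lit 5) (nat_lit 28) (nat_lit 5) (nat_lit 366) (nat_lit 359) (nat_lit 295))))) (XT.nd (nat_lit 234) (nat_lit 228) (nat_lit 0) (XT.nd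 (nat_lit 78) (nat_lit 152) (nat_lit 0) (XT.lf (nat_lit 0) (nat_lit 93243008490) (nat_lit 152) (nat_lit 6751133234) (nat_lit 228) (nat_lit 6746168834) (nat_lit 25) (nat_lit 5) (nat_lit 27) (nat_lit 5) (nat_lit 28) (nat_lit 5) (nat_lit 367) (nat_lit 359) (nat_lit 294)) (XT.nd (nat_lit 78) (nat_lit 0) (nat_lit 0) (XT.lf (nat_lit 0) (nat_lit 12710874394) (nat_lit 152) (nat_lit 64777618137) (nat_lit 76) (nat_lit 38432261746) (nat_lit 23) (nat_lit 5) (nat_lit 25) (nat_lit 5) (nat_lit 24) (nat_lit 5) (nat_lit 368) (nat_lit 359) (nat_lit 293)) (XT.lf (nat_lit 0) (nat_lit 35455052309) (nat_lit 152) (nat_lit 54191682) (nat_lit 76) (nat_lit 90761946120) (nat_lit 23) (nat_lit 5) (nat_lit 25) (nat_lit 5) (nat_lit 24) (nat_lit 5) (nat_lit 369) (nat_lit 359) (nat_lit 292)))) (XT.nd (nat_lit 78) (nat_lit 76) (nat_lit 0) (XT.lf (nat_lit 0) (nat_lit 65680014318) (nat_lit 228) (nat_lit 56712286913) (nat_lit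 76) (nat_lit 15171517423) (nat_lit 21) (nat_lit 5) (nat_lit 24) (nat_lit 5) (nat_lit 22) (nat_lit 4) (nat_lit 370) (nat_lit 359) (nat_lit 291)) (XT.nd (nat_lit 78) (nat_lit 0) (nat_lit 0) (XT.lf (nat_lit 0) (nat_lit 23772870889) (nat_lit 76) (nat_lit 79342995980) (nat_lit 152) (nat_lit 47032903497) (nat_lit 20) (nat_lit 5) (nat_lit 21) (nat_lit 5) (nat_lit 22) (nat_lit 4) (nat_lit 371) (nat_lit 359) (nat_lit 290)) (XT.lf (nat_lit 0) (nat_lit 122702780746) (nat_lit 76) (nat_lit 26427776322) (nat_lit 152) (nat_lit 15046389516) (nat_lit 20) (nat_lit 5) (nat_lit 21) (nat_lit 5) (nat_lit 22) (nat_lit 4) (nat_lit 372) (nat_lit 359) (nat_lit 289)))))) (XT.nd (nat_lit 468) (nat_lit 304) (nat_lit 0) (XT.nd (nat_lit 234) (nat_lit 228) (nat_lit 0) (XT.nd (nat_lit 78) (nat_lit 76) (nat_lit 0) (XT.lf (nat_lit 0) (nat_lit 23901645558) (nat_lit 152) (nat_lit 120723960020) (nat_lit 76) (nat_lit 34933901916)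 (nat_lit 18) (nat_lit 5) (nat_lit 20) (nat_lit 5) (nat_lit 19) (nat_lit 4) (nat_lit 373) (nat_lit 359) (nat_lit 288)) (XT.nd (nat_lit 78) (nat_lit 76) (nat_lit 0) (XT.lf (nat_lit 0) (nat_lit 70680174882) (nat_lit 152) (nat_lit 20151222701) (nat_lit 76) (nat_lit 105781268314) (nat_lit 18) (nat_lit 5) (nat_lit 20) (nat_lit 5) (nat_lit 19) (nat_lit 4) (nat_lit 374) (nat_lit 359) (nat_lit 287)) (XT.lf (nat_lit 0) (nat_lit 104839561950) (nat_lit 76) (nat_lit 23976306796) (nat_lit 152) (nat_lit 86756871952) (nat_lit 17) (nat_lit 5) (nat_lit 18) (nat_lit 5) (nat_lit 19) (nat_lit 4) (nat_lit 375) (nat_lit 359) (nat_lit 286)))) (XT.nd (nat_lit 78) (nat_lit 152) (nat_lit 0) (XT.lf (nat_lit 0) (nat_lit 12494887091) (nat_lit 76) (nat_lit 186987929930) (nat_lit 76) (nat_lit 37322375005) (nat_lit 16) (nat_lit 4) (nat_lit 17) (nat_lit 5) (nat_lit 17) (nat_lit 4) (nat_lit 376) (nat_lit 359) (nat_lit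 285)) (XT.nd (nat_lit 78) (nat_lit 76) (nat_lit 0) (XT.lf (nat_lit 0) (nat_lit 24993765917) (nat_lit 152) (nat_lit 95929587547) (nat_lit 76) (nat_lit 139097131641) (nat_lit 15) (nat_lit 5) (nat_lit 17) (nat_lit 5) (nat_lit 16) (nat_lit 4) (nat_lit 377) (nat_lit 359) (nat_lit 284)) (XT.lf (nat_lit 0) (nat_lit 54809225361) (nat_lit 76) (nat_lit 40295870865) (nat_lit 152) (nat_lit 191006057479) (nat_lit 14) (nat_lit 5) (nat_lit 15) (nat_lit 5) (nat_lit 16) (nat_lit 4) (nat_lit 378) (nat_lit 359) (nat_lit 283))))) (XT.nd (nat_lit 234) (nat_lit 152) (nat_lit 0) (XT.nd (nat_lit 78) (nat_lit 152) (nat_lit 0) (XT.lf (nat_lit 0) (nat_lit 183156599941) (nat_lit 152) (nat_lit 78834099581) (nat_lit 0) (nat_lit 53011202199) (nat_lit 14) (nat_lit 5) (nat_lit 16) (nat_lit 4) (nat_lit 14) (nat_lit 4) (nat_lit 379) (nat_lit 359) (nat_lit 282)) (XT.nd (nat_lit 78) (nat_lit 76) (nat_lit 0) (XT.lf (nat_lit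 0) (nat_lit 103827383028) (nat_lit 76) (nat_lit 186806001669) (nat_lit 76) (nat_lit 56660244096) (nat_lit 13) (nat_lit 4) (nat_lit 14) (nat_lit 5) (nat_lit 14) (nat_lit 4) (nat_lit 380) (nat_lit 359) (nat_lit 281)) (XT.lf (nat_lit 0) (nat_lit 31465885254) (nat_lit 152) (nat_lit 62494417170) (nat_lit 76) (nat_lit 289636221877) (nat_lit 12) (nat_lit 5) (nat_lit 14) (nat_lit 5) (nat_lit 13) (nat_lit 4) (nat_lit 381) (nat_lit 359) (nat_lit 280)))) (XT.nd (nat_lit 78) (nat_lit 76) (nat_lit 0) (XT.lf (nat_lit 0) (nat_lit 134474416134) (nat_lit 152) (nat_lit 268042376828) (nat_lit 0) (nat_lit 21303683480) (nat_lit 11) (nat_lit 5) (nat_lit 13) (nat_lit 4) (nat_lit 11) (nat_lit 4) (nat_lit 382) (nat_lit 359) (nat_lit 279)) (XT.nd (nat_lit 78) (nat_lit 76) (nat_lit 0) (XT.lf (nat_lit 0) (nat_lit 260830358727) (nat_lit 152) (nat_lit 60403822626) (nat_lit 0) (nat_lit 147659420339) (nat_lit 11) (nat_lit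 5) (nat_lit 13) (nat_lit 4) (nat_lit 11) (nat_lit 4) (nat_lit 383) (nat_lit 359) (nat_lit 278)) (XT.lf (nat_lit 0) (nat_lit 195812231282) (nat_lit 76) (nat_lit 218435209784) (nat_lit 76) (nat_lit 105264092497) (nat_lit 10) (nat_lit 4) (nat_lit 11) (nat_lit 5) (nat_lit 11) (nat_lit 4) (nat_lit 384) (nat_lit 359) (nat_lit 277))))))) (XT.nd (nat_lit 858) (nat_lit 228) (nat_lit 0) (XT.nd (nat_lit 390) (nat_lit 228) (nat_lit 0) (XT.nd (nat_lit 156) (nat_lit 76) (nat_lit 0) (XT.nd (nat_lit 78) (nat_lit 76) (nat_lit 0) (XT.lf (nat_lit 0) (nat_lit 15109005167) (nat_lit 152) (nat_lit 80686911742) (nat_lit 76) (nat_lit 481349661147) (nat_lit 9) (nat_lit 5) (nat_lit 11) (nat_lit 5) (nat_lit 10) (nat_lit 4) (nat_lit 385) (nat_lit 359) (nat_lit 276)) (XT.lf (nat_lit 0) (nat_lit 154099466258) (nat_lit 152) (nat_lit 431183064977) (nat_lit 0) (nat_lit 55689546149) (nat_lit 8) (nat_lit 5) (nat_lit 10)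 (nat_lit 4) (nat_lit 8) (nat_lit 4) (nat_lit 386) (nat_lit 359) (nat_lit 275))) (XT.nd (nat_lit 78) (nat_lit 76) (nat_lit 0) (XT.lf (nat_lit 0) (nat_lit 322918417235) (nat_lit 152) (nat_lit 165598751475) (nat_lit 0) (nat_lit 224508394840) (nat_lit 8) (nat_lit 5) (nat_lit 10) (nat_lit 4) (nat_lit 8) (nat_lit 4) (nat_lit 387) (nat_lit 359) (nat_lit 274)) (XT.nd (nat_lit 78) (nat_lit 0) (nat_lit 0) (XT.lf (nat_lit 0) (nat_lit 153487045467) (nat_lit 76) (nat_lit 369928424822) (nat_lit 76) (nat_lit 271518313483) (nat_lit 7) (nat_lit 4) (nat_lit 8) (nat_lit 5) (nat_lit 8) (nat_lit 4) (nat_lit 388) (nat_lit 359) (nat_lit 273)) (XT.lf (nat_lit 0) (nat_lit 539046140871) (nat_lit 76) (nat_lit 223596942298) (nat_lit 76) (nat_lit 125186753615) (nat_lit 7) (nat_lit 4) (nat_lit 8) (nat_lit 5) (nat_lit 8) (nat_lit 4) (nat_lit 389) (nat_lit 359) (nat_lit 272))))) (XT.nd (nat_lit 234) (nat_lit 76) (nat_lit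 0) (XT.nd (nat_lit 78) (nat_lit 76) (nat_lit 0) (XT.lf (nat_lit 0) (nat_lit 39257696117) (nat_lit 152) (nat_lit 14006209284) (nat_lit 76) (nat_lit 941128764946) (nat_lit 6) (nat_lit 5) (nat_lit 8) (nat_lit 5) (nat_lit 7) (nat_lit 4) (nat_lit 390) (nat_lit 359) (nat_lit 271)) (XT.nd (nat_lit 78) (nat_lit 0) (nat_lit 0) (XT.lf (nat_lit 0) (nat_lit 239123448541) (nat_lit 152) (nat_lit 719837321100) (nat_lit 0) (nat_lit 153549262088) (nat_lit 5) (nat_lit 5) (nat_lit 7) (nat_lit 4) (nat_lit 5) (nat_lit 4) (nat_lit 391) (nat_lit 359) (nat_lit 270)) (XT.lf (nat_lit 0) (nat_lit 472272213532) (nat_lit 152) (nat_lit 388879328494) (nat_lit 0) (nat_lit 386697982858) (nat_lit 5) (nat_lit 5) (nat_lit 7) (nat_lit 4) (nat_lit 5) (nat_lit 4) (nat_lit 392) (nat_lit 359) (nat_lit 269)))) (XT.nd (nat_lit 78) (nat_lit 76) (nat_lit 0) (XT.lf (nat_lit 0) (nat_lit 740393090277) (nat_lit 152) (nat_lit 8278061052)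 (nat_lit 0) (nat_lit 654818821150) (nat_lit 5) (nat_lit 5) (nat_lit 7) (nat_lit 4) (nat_lit 5) (nat_lit 4) (nat_lit 393) (nat_lit 359) (nat_lit 268)) (XT.nd (nat_lit 78) (nat_lit 0) (nat_lit 0) (XT.lf (nat_lit 0) (nat_lit 471378391839) (nat_lit 76) (nat_lit 596872304168) (nat_lit 76) (nat_lit 511298001604) (nat_lit 4) (nat_lit 4) (nat_lit 5) (nat_lit 5) (nat_lit 5) (nat_lit 4) (nat_lit 394) (nat_lit 359) (nat_lit 267)) (XT.lf (nat_lit 0) (nat_lit 1023913301862) (nat_lit 76) (nat_lit 421806189494) (nat_lit 76) (nat_lit 336231857854) (nat_lit 4) (nat_lit 4) (nat_lit 5) (nat_lit 5) (nat_lit 5) (nat_lit 4) (nat_lit 395) (nat_lit 359) (nat_lit 266)))))) (XT.nd (nat_lit 468) (nat_lit 76) (nat_lit 0) (XT.nd (nat_lit 234) (nat_lit 0) (nat_lit 0) (XT.nd (nat_lit 78) (nat_lit 152) (nat_lit 0) (XT.lf (nat_lit 0) (nat_lit 1659328142318) (nat_lit 76) (nat_lit 220480317546) (nat_lit 76) (nat_lit 134905960622)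 (nat_lit 4) (nat_lit 4) (nat_lit 5) (nat_lit 5) (nat_lit 5) (nat_lit 4) (nat_lit 396) (nat_lit 359) (nat_lit 265)) (XT.nd (nat_lit 78) (nat_lit 0) (nat_lit 0) (XT.lf (nat_lit 0) (nat_lit 93601141358) (nat_lit 152) (nat_lit 2168164456879) (nat_lit 0) (nat_lit 19188637959) (nat_lit 2) (nat_lit 5) (nat_lit 4) (nat_lit 4) (nat_lit 2) (nat_lit 4) (nat_lit 397) (nat_lit 359) (nat_lit 264)) (XT.lf (nat_lit 0) (nat_lit 372533067570) (nat_lit 152) (nat_lit 1911018711201) (nat_lit 0) (nat_lit 298120547545) (nat_lit 2) (nat_lit 5) (nat_lit 4) (nat_lit 4) (nat_lit 2) (nat_lit 4) (nat_lit 398) (nat_lit 359) (nat_lit 263)))) (XT.nd (nat_lit 78) (nat_lit 0) (nat_lit 0) (XT.lf (nat_lit 0) (nat_lit 693304667412) (nat_lit 152) (nat_lit 1615301346914) (nat_lit 0) (nat_lit 618892132932) (nat_lit 2) (nat_lit 5) (nat_lit 4) (nat_lit 4) (nat_lit 2) (nat_lit 4) (nat_lit 399) (nat_lit 359) (nat_lit 262)) (XT.nd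 (nat_lit 78) (nat_lit 0) (nat_lit 0) (XT.lf (nat_lit 0) (nat_lit 1062191906969) (nat_lit 152) (nat_lit 1275226589497) (nat_lit 0) (nat_lit 987779359919) (nat_lit 2) (nat_lit 5) (nat_lit 4) (nat_lit 4) (nat_lit 2) (nat_lit 4) (nat_lit 400) (nat_lit 359) (nat_lit 261)) (XT.lf (nat_lit 0) (nat_lit 1486412145277) (nat_lit 152) (nat_lit 884140802392) (nat_lit 0) (nat_lit 1411999587295) (nat_lit 2) (nat_lit 5) (nat_lit 4) (nat_lit 4) (nat_lit 2) (nat_lit 4) (nat_lit 401) (nat_lit 359) (nat_lit 260))))) (XT.nd (nat_lit 234) (nat_lit 0) (nat_lit 0) (XT.nd (nat_lit 78) (nat_lit 76) (nat_lit 0) (XT.lf (nat_lit 0) (nat_lit 1974265343518) (nat_lit 152) (nat_lit 434392307157) (nat_lit 0) (nat_lit 1899852776032) (nat_lit 2) (nat_lit 5) (nat_lit 4) (nat_lit 4) (nat_lit 2) (nat_lit 4) (nat_lit 402) (nat_lit 359) (nat_lit 259)) (XT.nd (nat_lit 78) (nat_lit 0) (nat_lit 0) (XT.lf (nat_lit 0) (nat_lit 90911932154)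 (nat_lit 76) (nat_lit 2448148992658) (nat_lit 76) (nat_lit 2373736416906) (nat_lit 1) (nat_lit 4) (nat_lit 2) (nat_lit 5) (nat_lit 2) (nat_lit 4) (nat_lit 403) (nat_lit 359) (nat_lit 258)) (XT.lf (nat_lit 0) (nat_lit 743831446405) (nat_lit 76) (nat_lit 2467451204676) (nat_lit 76) (nat_lit 2393038621737) (nat_lit 1) (nat_lit 4) (nat_lit 2) (nat_lit 5) (nat_lit 2) (nat_lit 4) (nat_lit 404) (nat_lit 359) (nat_lit 257)))) (XT.nd (nat_lit 78) (nat_lit 0) (nat_lit 0) (XT.lf (nat_lit 0) (nat_lit 1494688772356) (nat_lit 76) (nat_lit 2489648809306) (nat_lit 76) (nat_lit 2415236220117) (nat_lit 1) (nat_lit 4) (nat_lit 2) (nat_lit 5) (nat_lit 2) (nat_lit 4) (nat_lit 405) (nat_lit 359) (nat_lit 256)) (XT.nd (nat_lit 78) (nat_lit 0) (nat_lit 0) (XT.lf (nat_lit 0) (nat_lit 2358174596820) (nat_lit 76) (nat_lit 2515176107508) (nat_lit 76) (nat_lit 2440763512885) (nat_lit 1) (nat_lit 4) (nat_lit 2) (nat_lit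 5) (nat_lit 2) (nat_lit 4) (nat_lit 406) (nat_lit 359) (nat_lit 255)) (XT.lf (nat_lit 0) (nat_lit 3351183207667) (nat_lit 76) (nat_lit 2544532546420) (nat_lit 76) (nat_lit 2470119947072) (nat_lit 1) (nat_lit 4) (nat_lit 2) (nat_lit 5) (nat_lit 2) (nat_lit 4) (nat_lit 407) (nat_lit 359) (nat_lit 254))))))))
noncomputable def xc82 : XT := (XT.nd (nat_lit 49452) (nat_lit 0) (nat_lit 760) (XT.nd (nat_lit 858) (nat_lit 0) (nat_lit 0) (XT.nd (nat_lit 390) (nat_lit 0) (nat_lit 0) (XT.nd (nat_lit 156) (nat_lit 0) (nat_lit 0) (XT.nd (nat_lit 78) (nat_lit 0) (nat_lit 0) (XT.lf (nat_lit 0) (nat_lit 4493143034240) (nat_lit 76) (nat_lit 2578292491153) (nat_lit 76) (nat_lit 2503879887695) (nat_lit 1) (nat_lit 4) (nat_lit 2) (nat_lit 5) (nat_lit 2) (nat_lit 4) (nat_lit 408) (nat_lit 359) (nat_lit 253)) (XT.lf (nat_lit 0) (nat_lit 5806396768796) (nat_lit 76) (nat_lit 2617116462364) (nat_lit 76) (nat_lit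 2542703855333) (nat_lit 1) (nat_lit 4) (nat_lit 2) (nat_lit 5) (nat_lit 2) (nat_lit 4) (nat_lit 409) (nat_lit 359) (nat_lit 252))) (XT.nd (nat_lit 78) (nat_lit 0) (nat_lit 0) (XT.lf (nat_lit 0) (nat_lit 7316638506144) (nat_lit 76) (nat_lit 2661764059489) (nat_lit 76) (nat_lit 2587351449351) (nat_lit 1) (nat_lit 4) (nat_lit 2) (nat_lit 5) (nat_lit 2) (nat_lit 4) (nat_lit 410) (nat_lit 359) (nat_lit 251)) (XT.nd (nat_lit 78) (nat_lit 0) (nat_lit 0) (XT.lf (nat_lit 0) (nat_lit 9053416454187) (nat_lit 76) (nat_lit 2713108822473) (nat_lit 76) (nat_lit 2638696209632) (nat_lit 1) (nat_lit 4) (nat_lit 2) (nat_lit 5) (nat_lit 2) (nat_lit 4) (nat_lit 411) (nat_lit 359) (nat_lit 250)) (XT.lf (nat_lit 0) (nat_lit 11050711051040) (nat_lit 76) (nat_lit 2772155322764) (nat_lit 76) (nat_lit 2697742707574) (nat_lit 1) (nat_lit 4) (nat_lit 2) (nat_lit 5) (nat_lit 2) (nat_lit 4) (nat_lit 412) (nat_lit 359)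 (nat_lit 249))))) (XT.nd (nat_lit 234) (nat_lit 0) (nat_lit 0) (XT.nd (nat_lit 78) (nat_lit 0) (nat_lit 0) (XT.lf (nat_lit 0) (nat_lit 13347599799684) (nat_lit 76) (nat_lit 2840058817978) (nat_lit 76) (nat_lit 2765646200745) (nat_lit 1) (nat_lit 4) (nat_lit 2) (nat_lit 5) (nat_lit 2) (nat_lit 4) (nat_lit 413) (nat_lit 359) (nat_lit 248)) (XT.nd (nat_lit 78) (nat_lit 0) (nat_lit 0) (XT.lf (nat_lit 0) (nat_lit 15989021827811) (nat_lit 76) (nat_lit 2918147854760) (nat_lit 76) (nat_lit 2843735235750) (nat_lit 1) (nat_lit 4) (nat_lit 2) (nat_lit 5) (nat_lit 2) (nat_lit 4) (nat_lit 414) (nat_lit 359) (nat_lit 247)) (XT.lf (nat_lit 0) (nat_lit 19026657131622) (nat_lit 76) (nat_lit 3007950262090) (nat_lit 76) (nat_lit 2933537641535) (nat_lit 1) (nat_lit 4) (nat_lit 2) (nat_lit 5) (nat_lit 2) (nat_lit 4) (nat_lit 415) (nat_lit 359) (nat_lit 246)))) (XT.nd (nat_lit 78) (nat_lit 0) (nat_lit 0) (XT.lf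 (nat_lit 0) (nat_lit 22519937706193) (nat_lit 76) (nat_lit 3111223043590) (nat_lit 76) (nat_lit 3036810421692) (nat_lit 1) (nat_lit 4) (nat_lit 2) (nat_lit 5) (nat_lit 2) (nat_lit 4) (nat_lit 416) (nat_lit 359) (nat_lit 245)) (XT.nd (nat_lit 78) (nat_lit 0) (nat_lit 0) (XT.lf (nat_lit 0) (nat_lit 26537210345373) (nat_lit 76) (nat_lit 3229986753681) (nat_lit 76) (nat_lit 3155574130615) (nat_lit 1) (nat_lit 4) (nat_lit 2) (nat_lit 5) (nat_lit 2) (nat_lit 4) (nat_lit 417) (nat_lit 359) (nat_lit 244)) (XT.lf (nat_lit 0) (nat_lit 31157073861668) (nat_lit 76) (nat_lit 3366565030169) (nat_lit 76) (nat_lit 3292152406087) (nat_lit 1) (nat_lit 4) (nat_lit 2) (nat_lit 5) (nat_lit 2) (nat_lit 4) (nat_lit 418) (nat_lit 359) (nat_lit 243)))))) (XT.nd (nat_lit 468) (nat_lit 0) (nat_lit 0) (XT.nd (nat_lit 234) (nat_lit 0) (nat_lit 0) (XT.nd (nat_lit 78) (nat_lit 0) (nat_lit 0) (XT.lf (nat_lit 0) (nat_lit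 36469916889093) (nat_lit 76) (nat_lit 3523630056724) (nat_lit 76) (nat_lit 3449217431759) (nat_lit 1) (nat_lit 4) (nat_lit 2) (nat_lit 5) (nat_lit 2) (nat_lit 4) (nat_lit 419) (nat_lit 359) (nat_lit 242)) (XT.nd (nat_lit 78) (nat_lit 0) (nat_lit 0) (XT.lf (nat_lit 0) (nat_lit 42579686356446) (nat_lit 76) (nat_lit 3704254844735) (nat_lit 76) (nat_lit 3629842219002) (nat_lit 1) (nat_lit 4) (nat_lit 2) (nat_lit 5) (nat_lit 2) (nat_lit 4) (nat_lit 420) (nat_lit 359) (nat_lit 241)) (XT.lf (nat_lit 0) (nat_lit 49605921231565) (nat_lit 76) (nat_lit 3911973357446) (nat_lit 76) (nat_lit 3837560731046) (nat_lit 1) (nat_lit 4) (nat_lit 2) (nat_lit 5) (nat_lit 2) (nat_lit 4) (nat_lit 421) (nat_lit 359) (nat_lit 240)))) (XT.nd (nat_lit 78) (nat_lit 0) (nat_lit 0) (XT.lf (nat_lit 0) (nat_lit 57686091327225) (nat_lit 76) (nat_lit 4150849652715) (nat_lit 76) (nat_lit 4076437025734) (nat_lit 1) (nat_lit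 4) (nat_lit 2) (nat_lit 5) (nat_lit 2) (nat_lit 4) (nat_lit 422) (nat_lit 359) (nat_lit 239)) (XT.nd (nat_lit 78) (nat_lit 0) (nat_lit 0) (XT.lf (nat_lit 0) (nat_lit 66978286927906) (nat_lit 76) (nat_lit 4425557397188) (nat_lit 76) (nat_lit 4351144769702) (nat_lit 1) (nat_lit 4) (nat_lit 2) (nat_lit 5) (nat_lit 2) (nat_lit 4) (nat_lit 423) (nat_lit 359) (nat_lit 238)) (XT.lf (nat_lit 0) (nat_lit 77664311860578) (nat_lit 76) (nat_lit 4741471307605) (nat_lit 76) (nat_lit 4667058679679) (nat_lit 1) (nat_lit 4) (nat_lit 2) (nat_lit 5) (nat_lit 2) (nat_lit 4) (nat_lit 424) (nat_lit 359) (nat_lit 237))))) (XT.nd (nat_lit 234) (nat_lit 0) (nat_lit 0) (XT.nd (nat_lit 78) (nat_lit 0) (nat_lit 0) (XT.lf (nat_lit 0) (nat_lit 89953240526098) (nat_lit 76) (nat_lit 5104772308299) (nat_lit 76) (nat_lit 5030359679992) (nat_lit 1) (nat_lit 4) (nat_lit 2) (nat_lit 5) (nat_lit 2) (nat_lit 4) (nat_lit 425)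 (nat_lit 359) (nat_lit 236)) (XT.nd (nat_lit 78) (nat_lit 0) (nat_lit 0) (XT.lf (nat_lit 0) (nat_lit 104085508485312) (nat_lit 76) (nat_lit 5522568462329) (nat_lit 76) (nat_lit 5448155833690) (nat_lit 1) (nat_lit 4) (nat_lit 2) (nat_lit 5) (nat_lit 2) (nat_lit 4) (nat_lit 426) (nat_lit 359) (nat_lit 235)) (XT.lf (nat_lit 0) (nat_lit 120337616633076) (nat_lit 76) (nat_lit 6003034042273) (nat_lit 76) (nat_lit 5928621413345) (nat_lit 1) (nat_lit 4) (nat_lit 2) (nat_lit 5) (nat_lit 2) (nat_lit 4) (nat_lit 427) (nat_lit 359) (nat_lit 234)))) (XT.nd (nat_lit 78) (nat_lit 0) (nat_lit 0) (XT.lf (nat_lit 0) (nat_lit 139027540998366) (nat_lit 76) (nat_lit 6555569461651) (nat_lit 76) (nat_lit 6481156832471) (nat_lit 1) (nat_lit 4) (nat_lit 2) (nat_lit 5) (nat_lit 2) (nat_lit 4) (nat_lit 428) (nat_lit 359) (nat_lit 233)) (XT.nd (nat_lit 47736) (nat_lit 0) (nat_lit 2128) (XT.lf (nat_lit 0) (nat_lit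 160520954014416) (nat_lit 76) (nat_lit 7190985196060) (nat_lit 76) (nat_lit 7116572566662) (nat_lit 1) (nat_lit 4) (nat_lit 2) (nat_lit 5) (nat_lit 2) (nat_lit 4) (nat_lit 429) (nat_lit 359) (nat_lit 232)) (XT.lf (nat_lit 0) (nat_lit 8611603380) (nat_lit 380) (nat_lit 12293915540) (nat_lit 380) (nat_lit 12293915540) (nat_lit 29) (nat_lit 3) (nat_lit 34) (nat_lit 3) (nat_lit 34) (nat_lit 5) (nat_lit 360) (nat_lit 360) (nat_lit 300))))))) (XT.nd (nat_lit 858) (nat_lit 760) (nat_lit 0) (XT.nd (nat_lit 390) (nat_lit 456) (nat_lit 0) (XT.nd (nat_lit 156) (nat_lit 152) (nat_lit 0) (XT.nd (nat_lit 78) (nat_lit 0) (nat_lit 76) (XT.lf (nat_lit 76) (nat_lit 8687790091) (nat_lit 0) (nat_lit 10200586441) (nat_lit 380) (nat_lit 52434376926) (nat_lit 30) (nat_lit 5) (nat_lit 29) (nat_lit 3) (nat_lit 34) (nat_lit 5) (nat_lit 361) (nat_lit 360) (nat_lit 299)) (XT.lf (nat_lit 0) (nat_lit 23230212407)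 (nat_lit 304) (nat_lit 28220374432) (nat_lit 380) (nat_lit 25170603131) (nat_lit 30) (nat_lit 5) (nat_lit 34) (nat_lit 5) (nat_lit 35) (nat_lit 5) (nat_lit 362) (nat_lit 360) (nat_lit 298))) (XT.nd (nat_lit 78) (nat_lit 228) (nat_lit 0) (XT.lf (nat_lit 76) (nat_lit 11931152090) (nat_lit 0) (nat_lit 17269817449) (nat_lit 380) (nat_lit 53366778054) (nat_lit 31) (nat_lit 5) (nat_lit 30) (nat_lit 5) (nat_lit 35) (nat_lit 5) (nat_lit 363) (nat_lit 360) (nat_lit 297)) (XT.nd (nat_lit 78) (nat_lit 304) (nat_lit 0) (XT.lf (nat_lit 0) (nat_lit 38523375565) (nat_lit 304) (nat_lit 28892746294) (nat_lit 76) (nat_lit 21621763890) (nat_lit 31) (nat_lit 5) (nat_lit 35) (nat_lit 5) (nat_lit 32) (nat_lit 5) (nat_lit 364) (nat_lit 360) (nat_lit 296)) (XT.lf (nat_lit 0) (nat_lit 20075928846) (nat_lit 304) (nat_lit 30820221650) (nat_lit 380) (nat_lit 45334594832) (nat_lit 27) (nat_lit 5) (nat_lit 31) (nat_lit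 5) (nat_lit 32) (nat_lit 5) (nat_lit 365) (nat_lit 360) (nat_lit 295))))) (XT.nd (nat_lit 234) (nat_lit 304) (nat_lit 0) (XT.nd (nat_lit 78) (nat_lit 152) (nat_lit 0) (XT.lf (nat_lit 0) (nat_lit 67172007486) (nat_lit 380) (nat_lit 25179140185) (nat_lit 76) (nat_lit 11844312956) (nat_lit 27) (nat_lit 5) (nat_lit 32) (nat_lit 5) (nat_lit 28) (nat_lit 5) (nat_lit 366) (nat_lit 360) (nat_lit 294)) (XT.nd (nat_lit 78) (nat_lit 0) (nat_lit 0) (XT.lf (nat_lit 0) (nat_lit 35098369469) (nat_lit 152) (nat_lit 53710531560) (nat_lit 228) (nat_lit 24108034927) (nat_lit 25) (nat_lit 5) (nat_lit 27) (nat_lit 5) (nat_lit 28) (nat_lit 5) (nat_lit 367) (nat_lit 360) (nat_lit 293)) (XT.lf (nat_lit 0) (nat_lit 107245781715) (nat_lit 152) (nat_lit 7760518423) (nat_lit 228) (nat_lit 7743087968) (nat_lit 25) (nat_lit 5) (nat_lit 27) (nat_lit 5) (nat_lit 28) (nat_lit 5) (nat_lit 368) (nat_lit 360) (nat_lit 292))))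 (XT.nd (nat_lit 78) (nat_lit 152) (nat_lit 0) (XT.lf (nat_lit 0) (nat_lit 14630268381) (nat_lit 152) (nat_lit 74475673655) (nat_lit 76) (nat_lit 44201000777) (nat_lit 23) (nat_lit 5) (nat_lit 25) (nat_lit 5) (nat_lit 24) (nat_lit 5) (nat_lit 369) (nat_lit 360) (nat_lit 291)) (XT.nd (nat_lit 78) (nat_lit 152) (nat_lit 0) (XT.lf (nat_lit 0) (nat_lit 40784408266) (nat_lit 152) (nat_lit 46157649) (nat_lit 76) (nat_lit 104379629142) (nat_lit 23) (nat_lit 5) (nat_lit 25) (nat_lit 5) (nat_lit 24) (nat_lit 5) (nat_lit 370) (nat_lit 360) (nat_lit 290)) (XT.lf (nat_lit 0) (nat_lit 75542518627) (nat_lit 228) (nat_lit 65202363517) (nat_lit 76) (nat_lit 17451926287) (nat_lit 21) (nat_lit 5) (nat_lit 24) (nat_lit 5) (nat_lit 22) (nat_lit 4) (nat_lit 371) (nat_lit 360) (nat_lit 289)))))) (XT.nd (nat_lit 468) (nat_lit 380) (nat_lit 0) (XT.nd (nat_lit 234) (nat_lit 152) (nat_lit 0) (XT.nd (nat_lit 78)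 (nat_lit 152) (nat_lit 0) (XT.lf (nat_lit 0) (nat_lit 27354805845) (nat_lit 76) (nat_lit 91238236073) (nat_lit 152) (nat_lit 54076568056) (nat_lit 20) (nat_lit 5) (nat_lit 21) (nat_lit 5) (nat_lit 22) (nat_lit 4) (nat_lit 372) (nat_lit 360) (nat_lit 288)) (XT.nd (nat_lit 78) (nat_lit 152) (nat_lit 0) (XT.lf (nat_lit 0) (nat_lit 141122114660) (nat_lit 76) (nat_lit 30386543376) (nat_lit 152) (nat_lit 17293547104) (nat_lit 20) (nat_lit 5) (nat_lit 21) (nat_lit 5) (nat_lit 22) (nat_lit 4) (nat_lit 373) (nat_lit 360) (nat_lit 287)) (XT.lf (nat_lit 0) (nat_lit 27495479956) (nat_lit 152) (nat_lit 138817414483) (nat_lit 76) (nat_lit 40179246643) (nat_lit 18) (nat_lit 5) (nat_lit 20) (nat_lit 5) (nat_lit 19) (nat_lit 4) (nat_lit 374) (nat_lit 360) (nat_lit 286)))) (XT.nd (nat_lit 78) (nat_lit 152) (nat_lit 0) (XT.lf (nat_lit 0) (nat_lit 81289668562) (nat_lit 152) (nat_lit 23160741288) (nat_lit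 76) (nat_lit 121653031987) (nat_lit 18) (nat_lit 5) (nat_lit 20) (nat_lit 5) (nat_lit 19) (nat_lit 4) (nat_lit 375) (nat_lit 360) (nat_lit 285)) (XT.nd (nat_lit 78) (nat_lit 76) (nat_lit 0) (XT.lf (nat_lit 0) (nat_lit 120578062659) (nat_lit 76) (nat_lit 27567200179) (nat_lit 152) (nat_lit 99762333569) (nat_lit 17) (nat_lit 5) (nat_lit 18) (nat_lit 5) (nat_lit 19) (nat_lit 4) (nat_lit 376) (nat_lit 360) (nat_lit 284)) (XT.lf (nat_lit 0) (nat_lit 14381903321) (nat_lit 76) (nat_lit 215030164450) (nat_lit 76) (nat_lit 42912875936) (nat_lit 16) (nat_lit 4) (nat_lit 17) (nat_lit 5) (nat_lit 17) (nat_lit 4) (nat_lit 377) (nat_lit 360) (nat_lit 283))))) (XT.nd (nat_lit 234) (nat_lit 228) (nat_lit 0) (XT.nd (nat_lit 78) (nat_lit 76) (nat_lit 0) (XT.lf (nat_lit 0) (nat_lit 28749053401) (nat_lit 152) (nat_lit 110307299576) (nat_lit 76) (nat_lit 159966269317) (nat_lit 15) (nat_lit 5) (nat_lit 17)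 (nat_lit 5) (nat_lit 16) (nat_lit 4) (nat_lit 378) (nat_lit 360) (nat_lit 282)) (XT.nd (nat_lit 78) (nat_lit 0) (nat_lit 0) (XT.lf (nat_lit 0) (nat_lit 63041802264) (nat_lit 76) (nat_lit 46334932832) (nat_lit 152) (nat_lit 219650208598) (nat_lit 14) (nat_lit 5) (nat_lit 15) (nat_lit 5) (nat_lit 16) (nat_lit 4) (nat_lit 379) (nat_lit 360) (nat_lit 281)) (XT.lf (nat_lit 0) (nat_lit 210635389645) (nat_lit 152) (nat_lit 90648905012) (nat_lit 0) (nat_lit 60967095710) (nat_lit 14) (nat_lit 5) (nat_lit 16) (nat_lit 4) (nat_lit 14) (nat_lit 4) (nat_lit 380) (nat_lit 360) (nat_lit 280)))) (XT.nd (nat_lit 78) (nat_lit 152) (nat_lit 0) (XT.lf (nat_lit 0) (nat_lit 119411331374) (nat_lit 76) (nat_lit 214822076963) (nat_lit 76) (nat_lit 65153510945) (nat_lit 13) (nat_lit 4) (nat_lit 14) (nat_lit 5) (nat_lit 14) (nat_lit 4) (nat_lit 381) (nat_lit 360) (nat_lit 279)) (XT.nd (nat_lit 78) (nat_lit 76)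 (nat_lit 0) (XT.lf (nat_lit 0) (nat_lit 36190338565) (nat_lit 152) (nat_lit 71859574695) (nat_lit 76) (nat_lit 333085403019) (nat_lit 12) (nat_lit 5) (nat_lit 14) (nat_lit 5) (nat_lit 13) (nat_lit 4) (nat_lit 382) (nat_lit 360) (nat_lit 278)) (XT.lf (nat_lit 0) (nat_lit 154650085475) (nat_lit 152) (nat_lit 308239663754) (nat_lit 0) (nat_lit 24503121695) (nat_lit 11) (nat_lit 5) (nat_lit 13) (nat_lit 4) (nat_lit 11) (nat_lit 4) (nat_lit 383) (nat_lit 360) (nat_lit 277))))))))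
noncomputable def xc83 : XT := (XT.nd (nat_lit 1794) (nat_lit 0) (nat_lit 0) (XT.nd (nat_lit 858) (nat_lit 304) (nat_lit 0) (XT.nd (nat_lit 390) (nat_lit 228) (nat_lit 0) (XT.nd (nat_lit 156) (nat_lit 152) (nat_lit 0) (XT.nd (nat_lit 78) (nat_lit 76) (nat_lit 0) (XT.lf (nat_lit 0) (nat_lit 299958831597) (nat_lit 152) (nat_lit 69456509413) (nat_lit 0) (nat_lit 169811712253) (nat_lit 11) (nat_lit 5) (nat_lit 13) (nat_lit 4) (nat_lit 11) (nat_lit 4) (nat_lit 384) (nat_lit 360) (nat_lit 276)) (XT.lf (nat_lit 0) (nat_lit 225191594099) (nat_lit 76) (nat_lit 251196682731) (nat_lit 76) (nat_lit 121049428113) (nat_lit 10) (nat_lit 4) (nat_lit 11) (nat_lit 5) (nat_lit 11) (nat_lit 4) (nat_lit 385) (nat_lit 360) (nat_lit 275))) (XT.nd (nat_lit 78) (nat_lit 76) (nat_lit 0) (XT.lf (nat_lit 0) (nat_lit 17378744967) (nat_lit 152) (nat_lit 92783070567) (nat_lit 76) (nat_lit 553555090336) (nat_lit 9)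 (nat_lit 5) (nat_lit 11) (nat_lit 5) (nat_lit 10) (nat_lit 4) (nat_lit 386) (nat_lit 360) (nat_lit 274)) (XT.nd (nat_lit 78) (nat_lit 0) (nat_lit 0) (XT.lf (nat_lit 0) (nat_lit 177217743600) (nat_lit 152) (nat_lit 495853614695) (nat_lit 0) (nat_lit 64046026615) (nat_lit 8) (nat_lit 5) (nat_lit 10) (nat_lit 4) (nat_lit 8) (nat_lit 4) (nat_lit 387) (nat_lit 360) (nat_lit 273)) (XT.lf (nat_lit 0) (nat_lit 371359099302) (nat_lit 152) (nat_lit 190432555476) (nat_lit 0) (nat_lit 258187304974) (nat_lit 8) (nat_lit 5) (nat_lit 10) (nat_lit 4) (nat_lit 8) (nat_lit 4) (nat_lit 388) (nat_lit 360) (nat_lit 272))))) (XT.nd (nat_lit 234) (nat_lit 76) (nat_lit 0) (XT.nd (nat_lit 78) (nat_lit 76) (nat_lit 0) (XT.lf (nat_lit 0) (nat_lit 176515837884) (nat_lit 76) (nat_lit 425414729127) (nat_lit 76) (nat_lit 312242867544) (nat_lit 7) (nat_lit 4) (nat_lit 8) (nat_lit 5) (nat_lit 8) (nat_lit 4) (nat_lit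 389) (nat_lit 360) (nat_lit 271)) (XT.nd (nat_lit 78) (nat_lit 76) (nat_lit 0) (XT.lf (nat_lit 0) (nat_lit 619908049478) (nat_lit 76) (nat_lit 257133910236) (nat_lit 76) (nat_lit 143961990170) (nat_lit 7) (nat_lit 4) (nat_lit 8) (nat_lit 5) (nat_lit 8) (nat_lit 4) (nat_lit 390) (nat_lit 360) (nat_lit 270)) (XT.lf (nat_lit 0) (nat_lit 45148549931) (nat_lit 152) (nat_lit 16102588567) (nat_lit 76) (nat_lit 1082300102259) (nat_lit 6) (nat_lit 5) (nat_lit 8) (nat_lit 5) (nat_lit 7) (nat_lit 4) (nat_lit 391) (nat_lit 360) (nat_lit 269)))) (XT.nd (nat_lit 78) (nat_lit 0) (nat_lit 0) (XT.lf (nat_lit 0) (nat_lit 274994151547) (nat_lit 152) (nat_lit 827808353281) (nat_lit 0) (nat_lit 176583703598) (nat_lit 5) (nat_lit 5) (nat_lit 7) (nat_lit 4) (nat_lit 5) (nat_lit 4) (nat_lit 392) (nat_lit 360) (nat_lit 268)) (XT.nd (nat_lit 78) (nat_lit 0) (nat_lit 0) (XT.lf (nat_lit 0) (nat_lit 543114946192)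 (nat_lit 152) (nat_lit 447207257348) (nat_lit 0) (nat_lit 444704464806) (nat_lit 5) (nat_lit 5) (nat_lit 7) (nat_lit 4) (nat_lit 5) (nat_lit 4) (nat_lit 393) (nat_lit 360) (nat_lit 267)) (XT.lf (nat_lit 0) (nat_lit 851453706541) (nat_lit 152) (nat_lit 9516317670) (nat_lit 0) (nat_lit 753043196079) (nat_lit 5) (nat_lit 5) (nat_lit 7) (nat_lit 4) (nat_lit 5) (nat_lit 4) (nat_lit 394) (nat_lit 360) (nat_lit 266)))))) (XT.nd (nat_lit 468) (nat_lit 76) (nat_lit 0) (XT.nd (nat_lit 234) (nat_lit 152) (nat_lit 0) (XT.nd (nat_lit 78) (nat_lit 0) (nat_lit 0) (XT.lf (nat_lit 0) (nat_lit 542088446221) (nat_lit 76) (nat_lit 686401427801) (nat_lit 76) (nat_lit 587990892055) (nat_lit 4) (nat_lit 4) (nat_lit 5) (nat_lit 5) (nat_lit 5) (nat_lit 4) (nat_lit 395) (nat_lit 360) (nat_lit 265)) (XT.nd (nat_lit 78) (nat_lit 0) (nat_lit 0) (XT.lf (nat_lit 0) (nat_lit 1177503162886) (nat_lit 76) (nat_lit 485075620534)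 (nat_lit 76) (nat_lit 386665062802) (nat_lit 4) (nat_lit 4) (nat_lit 5) (nat_lit 5) (nat_lit 5) (nat_lit 4) (nat_lit 396) (nat_lit 360) (nat_lit 264)) (XT.lf (nat_lit 0) (nat_lit 1908229855618) (nat_lit 76) (nat_lit 253551063104) (nat_lit 76) (nat_lit 155140486254) (nat_lit 4) (nat_lit 4) (nat_lit 5) (nat_lit 5) (nat_lit 5) (nat_lit 4) (nat_lit 397) (nat_lit 360) (nat_lit 263)))) (XT.nd (nat_lit 78) (nat_lit 0) (nat_lit 0) (XT.lf (nat_lit 0) (nat_lit 107642554054) (nat_lit 152) (nat_lit 2493386506325) (nat_lit 0) (nat_lit 22068124946) (nat_lit 2) (nat_lit 5) (nat_lit 4) (nat_lit 4) (nat_lit 2) (nat_lit 4) (nat_lit 398) (nat_lit 360) (nat_lit 262)) (XT.nd (nat_lit 78) (nat_lit 0) (nat_lit 0) (XT.lf (nat_lit 0) (nat_lit 428414107263) (nat_lit 152) (nat_lit 2197669240416) (nat_lit 0) (nat_lit 342839665585) (nat_lit 2) (nat_lit 5) (nat_lit 4) (nat_lit 4) (nat_lit 2) (nat_lit 4) (nat_lit 399)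 (nat_lit 360) (nat_lit 261)) (XT.lf (nat_lit 0) (nat_lit 797301306270) (nat_lit 152) (nat_lit 1857594568546) (nat_lit 0) (nat_lit 711726853661) (nat_lit 2) (nat_lit 5) (nat_lit 4) (nat_lit 4) (nat_lit 2) (nat_lit 4) (nat_lit 400) (nat_lit 360) (nat_lit 260))))) (XT.nd (nat_lit 234) (nat_lit 76) (nat_lit 0) (XT.nd (nat_lit 78) (nat_lit 0) (nat_lit 0) (XT.lf (nat_lit 0) (nat_lit 1221521509316) (nat_lit 152) (nat_lit 1466508855830) (nat_lit 0) (nat_lit 1135947047202) (nat_lit 2) (nat_lit 5) (nat_lit 4) (nat_lit 4) (nat_lit 2) (nat_lit 4) (nat_lit 401) (nat_lit 360) (nat_lit 259)) (XT.nd (nat_lit 78) (nat_lit 0) (nat_lit 0) (XT.lf (nat_lit 0) (nat_lit 1709374676895) (nat_lit 152) (nat_lit 1016760425281) (nat_lit 0) (nat_lit 1623800206516) (nat_lit 2) (nat_lit 5) (nat_lit 4) (nat_lit 4) (nat_lit 2) (nat_lit 4) (nat_lit 402) (nat_lit 360) (nat_lit 258)) (XT.lf (nat_lit 0) (nat_lit 2270405762287)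 (nat_lit 152) (nat_lit 499549851083) (nat_lit 0) (nat_lit 2184831284720) (nat_lit 2) (nat_lit 5) (nat_lit 4) (nat_lit 4) (nat_lit 2) (nat_lit 4) (nat_lit 403) (nat_lit 360) (nat_lit 257)))) (XT.nd (nat_lit 78) (nat_lit 0) (nat_lit 0) (XT.lf (nat_lit 0) (nat_lit 104549964937) (nat_lit 76) (nat_lit 2815370686796) (nat_lit 76) (nat_lit 2729796202980) (nat_lit 1) (nat_lit 4) (nat_lit 2) (nat_lit 5) (nat_lit 2) (nat_lit 4) (nat_lit 404) (nat_lit 360) (nat_lit 256)) (XT.nd (nat_lit 78) (nat_lit 0) (nat_lit 0) (XT.lf (nat_lit 0) (nat_lit 855407244200) (nat_lit 76) (nat_lit 2837568316020) (nat_lit 76) (nat_lit 2751993826769) (nat_lit 1) (nat_lit 4) (nat_lit 2) (nat_lit 5) (nat_lit 2) (nat_lit 4) (nat_lit 405) (nat_lit 360) (nat_lit 255)) (XT.lf (nat_lit 0) (nat_lit 1718893028066) (nat_lit 76) (nat_lit 2863095635609) (nat_lit 76) (nat_lit 2777521141632) (nat_lit 1) (nat_lit 4) (nat_lit 2) (nat_lit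 5) (nat_lit 2) (nat_lit 4) (nat_lit 406) (nat_lit 360) (nat_lit 254))))))) (XT.nd (nat_lit 858) (nat_lit 0) (nat_lit 0) (XT.nd (nat_lit 390) (nat_lit 0) (nat_lit 0) (XT.nd (nat_lit 156) (nat_lit 0) (nat_lit 0) (XT.nd (nat_lit 78) (nat_lit 0) (nat_lit 0) (XT.lf (nat_lit 0) (nat_lit 2711901603610) (nat_lit 76) (nat_lit 2892452093118) (nat_lit 76) (nat_lit 2806877595032) (nat_lit 1) (nat_lit 4) (nat_lit 2) (nat_lit 5) (nat_lit 2) (nat_lit 4) (nat_lit 407) (nat_lit 360) (nat_lit 253)) (XT.lf (nat_lit 0) (nat_lit 3853861399484) (nat_lit 76) (nat_lit 2926212054022) (nat_lit 76) (nat_lit 2840637552363) (nat_lit 1) (nat_lit 4) (nat_lit 2) (nat_lit 5) (nat_lit 2) (nat_lit 4) (nat_lit 408) (nat_lit 360) (nat_lit 252))) (XT.nd (nat_lit 78) (nat_lit 0) (nat_lit 0) (XT.lf (nat_lit 0) (nat_lit 5167115107346) (nat_lit 76) (nat_lit 2965036039295) (nat_lit 76) (nat_lit 2879461534528) (nat_lit 1) (nat_lit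 4) (nat_lit 2) (nat_lit 5) (nat_lit 2) (nat_lit 4) (nat_lit 409) (nat_lit 360) (nat_lit 251)) (XT.nd (nat_lit 78) (nat_lit 0) (nat_lit 0) (XT.lf (nat_lit 0) (nat_lit 6677356821482) (nat_lit 76) (nat_lit 3009683648648) (nat_lit 76) (nat_lit 2924109141179) (nat_lit 1) (nat_lit 4) (nat_lit 2) (nat_lit 5) (nat_lit 2) (nat_lit 4) (nat_lit 410) (nat_lit 360) (nat_lit 250)) (XT.lf (nat_lit 0) (nat_lit 8414134749340) (nat_lit 76) (nat_lit 3061028422264) (nat_lit 76) (nat_lit 2975453912446) (nat_lit 1) (nat_lit 4) (nat_lit 2) (nat_lit 5) (nat_lit 2) (nat_lit 4) (nat_lit 411) (nat_lit 360) (nat_lit 249))))) (XT.nd (nat_lit 234) (nat_lit 0) (nat_lit 0) (XT.nd (nat_lit 78) (nat_lit 0) (nat_lit 0) (XT.lf (nat_lit 0) (nat_lit 10411429328641) (nat_lit 76) (nat_lit 3120074931801) (nat_lit 76) (nat_lit 3034500419940) (nat_lit 1) (nat_lit 4) (nat_lit 2) (nat_lit 5) (nat_lit 2) (nat_lit 4) (nat_lit 412)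 (nat_lit 360) (nat_lit 248)) (XT.nd (nat_lit 78) (nat_lit 0) (nat_lit 0) (XT.lf (nat_lit 0) (nat_lit 12708318062023) (nat_lit 76) (nat_lit 3187978435055) (nat_lit 76) (nat_lit 3102403921418) (nat_lit 1) (nat_lit 4) (nat_lit 2) (nat_lit 5) (nat_lit 2) (nat_lit 4) (nat_lit 413) (nat_lit 360) (nat_lit 247)) (XT.lf (nat_lit 0) (nat_lit 15349740076878) (nat_lit 76) (nat_lit 3266067478828) (nat_lit 76) (nat_lit 3180492963646) (nat_lit 1) (nat_lit 4) (nat_lit 2) (nat_lit 5) (nat_lit 2) (nat_lit 4) (nat_lit 414) (nat_lit 360) (nat_lit 246)))) (XT.nd (nat_lit 78) (nat_lit 0) (nat_lit 0) (XT.lf (nat_lit 0) (nat_lit 18387375369148) (nat_lit 76) (nat_lit 3355869892237) (nat_lit 76) (nat_lit 3270295375712) (nat_lit 1) (nat_lit 4) (nat_lit 2) (nat_lit 5) (nat_lit 2) (nat_lit 4) (nat_lit 415) (nat_lit 360) (nat_lit 245)) (XT.nd (nat_lit 78) (nat_lit 0) (nat_lit 0) (XT.lf (nat_lit 0) (nat_lit 21880655933684)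 (nat_lit 76) (nat_lit 3459142679024) (nat_lit 76) (nat_lit 3373568161330) (nat_lit 1) (nat_lit 4) (nat_lit 2) (nat_lit 5) (nat_lit 2) (nat_lit 4) (nat_lit 416) (nat_lit 360) (nat_lit 244)) (XT.lf (nat_lit 0) (nat_lit 25897928564137) (nat_lit 76) (nat_lit 3577906393712) (nat_lit 76) (nat_lit 3492331875002) (nat_lit 1) (nat_lit 4) (nat_lit 2) (nat_lit 5) (nat_lit 2) (nat_lit 4) (nat_lit 417) (nat_lit 360) (nat_lit 243)))))) (XT.nd (nat_lit 468) (nat_lit 0) (nat_lit 0) (XT.nd (nat_lit 234) (nat_lit 0) (nat_lit 0) (XT.nd (nat_lit 78) (nat_lit 0) (nat_lit 0) (XT.lf (nat_lit 0) (nat_lit 30517792072845) (nat_lit 76) (nat_lit 3714484674197) (nat_lit 76) (nat_lit 3628910154604) (nat_lit 1) (nat_lit 4) (nat_lit 2) (nat_lit 5) (nat_lit 2) (nat_lit 4) (nat_lit 418) (nat_lit 360) (nat_lit 242)) (XT.nd (nat_lit 78) (nat_lit 0) (nat_lit 0) (XT.lf (nat_lit 0) (nat_lit 35830635093671) (nat_lit 76) (nat_lit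 3871549704228) (nat_lit 76) (nat_lit 3785975183867) (nat_lit 1) (nat_lit 4) (nat_lit 2) (nat_lit 5) (nat_lit 2) (nat_lit 4) (nat_lit 419) (nat_lit 360) (nat_lit 241)) (XT.lf (nat_lit 0) (nat_lit 41940404555286) (nat_lit 76) (nat_lit 4052174495261) (nat_lit 76) (nat_lit 3966599974233) (nat_lit 1) (nat_lit 4) (nat_lit 2) (nat_lit 5) (nat_lit 2) (nat_lit 4) (nat_lit 420) (nat_lit 360) (nat_lit 240)))) (XT.nd (nat_lit 78) (nat_lit 0) (nat_lit 0) (XT.lf (nat_lit 0) (nat_lit 48966639425416) (nat_lit 76) (nat_lit 4259893010601) (nat_lit 76) (nat_lit 4174318488992) (nat_lit 1) (nat_lit 4) (nat_lit 2) (nat_lit 5) (nat_lit 2) (nat_lit 4) (nat_lit 421) (nat_lit 360) (nat_lit 239)) (XT.nd (nat_lit 78) (nat_lit 0) (nat_lit 0) (XT.lf (nat_lit 0) (nat_lit 57046809516737) (nat_lit 76) (nat_lit 4498769308155) (nat_lit 76) (nat_lit 4413194786041) (nat_lit 1) (nat_lit 4) (nat_lit 2) (nat_lit 5) (nat_lit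 2) (nat_lit 4) (nat_lit 422) (nat_lit 360) (nat_lit 238)) (XT.lf (nat_lit 0) (nat_lit 66339005113646) (nat_lit 76) (nat_lit 4773477054616) (nat_lit 76) (nat_lit 4687902532062) (nat_lit 1) (nat_lit 4) (nat_lit 2) (nat_lit 5) (nat_lit 2) (nat_lit 4) (nat_lit 423) (nat_lit 360) (nat_lit 237))))) (XT.nd (nat_lit 234) (nat_lit 0) (nat_lit 0) (XT.nd (nat_lit 78) (nat_lit 0) (nat_lit 0) (XT.lf (nat_lit 0) (nat_lit 77025030043037) (nat_lit 76) (nat_lit 5089390966761) (nat_lit 76) (nat_lit 5003816443825) (nat_lit 1) (nat_lit 4) (nat_lit 2) (nat_lit 5) (nat_lit 2) (nat_lit 4) (nat_lit 424) (nat_lit 360) (nat_lit 236)) (XT.nd (nat_lit 78) (nat_lit 0) (nat_lit 0) (XT.lf (nat_lit 0) (nat_lit 89313958705704) (nat_lit 76) (nat_lit 5452691968958) (nat_lit 76) (nat_lit 5367117445690) (nat_lit 1) (nat_lit 4) (nat_lit 2) (nat_lit 5) (nat_lit 2) (nat_lit 4) (nat_lit 425) (nat_lit 360) (nat_lit 235)) (XT.lf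 (nat_lit 0) (nat_lit 103446226662438) (nat_lit 76) (nat_lit 5870488124294) (nat_lit 76) (nat_lit 5784913600738) (nat_lit 1) (nat_lit 4) (nat_lit 2) (nat_lit 5) (nat_lit 2) (nat_lit 4) (nat_lit 426) (nat_lit 360) (nat_lit 234)))) (XT.nd (nat_lit 78) (nat_lit 0) (nat_lit 0) (XT.lf (nat_lit 0) (nat_lit 119698334808044) (nat_lit 76) (nat_lit 6350953705374) (nat_lit 76) (nat_lit 6265379181567) (nat_lit 1) (nat_lit 4) (nat_lit 2) (nat_lit 5) (nat_lit 2) (nat_lit 4) (nat_lit 427) (nat_lit 360) (nat_lit 233)) (XT.nd (nat_lit 47892) (nat_lit 0) (nat_lit 2128) (XT.lf (nat_lit 0) (nat_lit 138388259171459) (nat_lit 76) (nat_lit 6903489125740) (nat_lit 76) (nat_lit 6817914601714) (nat_lit 1) (nat_lit 4) (nat_lit 2) (nat_lit 5) (nat_lit 2) (nat_lit 4) (nat_lit 428) (nat_lit 360) (nat_lit 232)) (XT.lf (nat_lit 0) (nat_lit 9916463566) (nat_lit 380) (nat_lit 14130451270) (nat_lit 380) (nat_lit 14130451270)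 (nat_lit 29) (nat_lit 3) (nat_lit 34) (nat_lit 3) (nat_lit 34) (nat_lit 5) (nat_lit 361) (nat_lit 361) (nat_lit 298))))))))
noncomputable def xc84 : XT := (XT.nd (nat_lit 1716) (nat_lit 836) (nat_lit 0) (XT.nd (nat_lit 858) (nat_lit 684) (nat_lit 0) (XT.nd (nat_lit 390) (nat_lit 456) (nat_lit 0) (XT.nd (nat_lit 156) (nat_lit 152) (nat_lit 0) (XT.nd (nat_lit 78) (nat_lit 0) (nat_lit 76) (XT.lf (nat_lit 76) (nat_lit 10005375297) (nat_lit 0) (nat_lit 11739671511) (nat_lit 380) (nat_lit 60272580519) (nat_lit 30) (nat_lit 5) (nat_lit 29) (nat_lit 3) (nat_lit 34) (nat_lit 5) (nat_lit 362) (nat_lit 361) (nat_lit 297)) (XT.lf (nat_lit 0) (nat_lit 26734780133) (nat_lit 304) (nat_lit 32437492864) (nat_lit 380) (nat_lit 28939066540) (nat_lit 30) (nat_lit 5) (nat_lit 34) (nat_lit 5) (nat_lit 35) (nat_lit 5) (nat_lit 363) (nat_lit 361) (nat_lit 296))) (XT.nd (nat_lit 78) (nat_lit 228) (nat_lit 0)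 (XT.lf (nat_lit 76) (nat_lit 13736038194) (nat_lit 0) (nat_lit 19863129218) (nat_lit 380) (nat_lit 61351013978) (nat_lit 31) (nat_lit 5) (nat_lit 30) (nat_lit 5) (nat_lit 35) (nat_lit 5) (nat_lit 364) (nat_lit 361) (nat_lit 295)) (XT.nd (nat_lit 78) (nat_lit 304) (nat_lit 0) (XT.lf (nat_lit 0) (nat_lit 44317477446) (nat_lit 304) (nat_lit 33210954589) (nat_lit 76) (nat_lit 24862779438) (nat_lit 31) (nat_lit 5) (nat_lit 35) (nat_lit 5) (nat_lit 32) (nat_lit 5) (nat_lit 365) (nat_lit 361) (nat_lit 294)) (XT.lf (nat_lit 0) (nat_lit 23102308020) (nat_lit 304) (nat_lit 35442447093) (nat_lit 380) (nat_lit 52118459225) (nat_lit 27) (nat_lit 5) (nat_lit 31) (nat_lit 5) (nat_lit 32) (nat_lit 5) (nat_lit 366) (nat_lit 361) (nat_lit 293))))) (XT.nd (nat_lit 234) (nat_lit 304) (nat_lit 0) (XT.nd (nat_lit 78) (nat_lit 152) (nat_lit 0) (XT.lf (nat_lit 0) (nat_lit 77260169906) (nat_lit 380) (nat_lit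 28941142354) (nat_lit 76) (nat_lit 13621599802) (nat_lit 27) (nat_lit 5) (nat_lit 32) (nat_lit 5) (nat_lit 28) (nat_lit 5) (nat_lit 367) (nat_lit 361) (nat_lit 292)) (XT.nd (nat_lit 78) (nat_lit 0) (nat_lit 0) (XT.lf (nat_lit 0) (nat_lit 40377317890) (nat_lit 152) (nat_lit 61764254949) (nat_lit 228) (nat_lit 27711191304) (nat_lit 25) (nat_lit 5) (nat_lit 27) (nat_lit 5) (nat_lit 28) (nat_lit 5) (nat_lit 368) (nat_lit 361) (nat_lit 291)) (XT.lf (nat_lit 0) (nat_lit 123344990712) (nat_lit 152) (nat_lit 8922112408) (nat_lit 228) (nat_lit 8893204327) (nat_lit 25) (nat_lit 5) (nat_lit 27) (nat_lit 5) (nat_lit 28) (nat_lit 5) (nat_lit 369) (nat_lit 361) (nat_lit 290)))) (XT.nd (nat_lit 78) (nat_lit 152) (nat_lit 0) (XT.lf (nat_lit 0) (nat_lit 16834459170) (nat_lit 152) (nat_lit 85632970107) (nat_lit 76) (nat_lit 50834099680) (nat_lit 23) (nat_lit 5) (nat_lit 25) (nat_lit 5) (nat_lit 24) (nat_lit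 5) (nat_lit 370) (nat_lit 361) (nat_lit 289)) (XT.nd (nat_lit 78) (nat_lit 152) (nat_lit 0) (XT.lf (nat_lit 0) (nat_lit 46910461273) (nat_lit 152) (nat_lit 40859909) (nat_lit 76) (nat_lit 120039137676) (nat_lit 23) (nat_lit 5) (nat_lit 25) (nat_lit 5) (nat_lit 24) (nat_lit 5) (nat_lit 371) (nat_lit 361) (nat_lit 288)) (XT.lf (nat_lit 0) (nat_lit 86881837563) (nat_lit 228) (nat_lit 74970040212) (nat_lit 76) (nat_lit 20073254928) (nat_lit 21) (nat_lit 5) (nat_lit 24) (nat_lit 5) (nat_lit 22) (nat_lit 4) (nat_lit 372) (nat_lit 361) (nat_lit 287)))))) (XT.nd (nat_lit 390) (nat_lit 380) (nat_lit 0) (XT.nd (nat_lit 156) (nat_lit 228) (nat_lit 0) (XT.nd (nat_lit 78) (nat_lit 0) (nat_lit 0) (XT.lf (nat_lit 0) (nat_lit 31470128289) (nat_lit 76) (nat_lit 104919276358) (nat_lit 152) (nat_lit 62179530796) (nat_lit 20) (nat_lit 5) (nat_lit 21) (nat_lit 5) (nat_lit 22) (nat_lit 4) (nat_lit 373) (nat_lit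 361) (nat_lit 286)) (XT.lf (nat_lit 0) (nat_lit 162300954961) (nat_lit 76) (nat_lit 34940442164) (nat_lit 152) (nat_lit 19880168327) (nat_lit 20) (nat_lit 5) (nat_lit 21) (nat_lit 5) (nat_lit 22) (nat_lit 4) (nat_lit 374) (nat_lit 361) (nat_lit 285))) (XT.nd (nat_lit 78) (nat_lit 76) (nat_lit 0) (XT.lf (nat_lit 0) (nat_lit 31626295382) (nat_lit 152) (nat_lit 159628578988) (nat_lit 76) (nat_lit 46210110532) (nat_lit 18) (nat_lit 5) (nat_lit 20) (nat_lit 5) (nat_lit 19) (nat_lit 4) (nat_lit 375) (nat_lit 361) (nat_lit 284)) (XT.nd (nat_lit 78) (nat_lit 76) (nat_lit 0) (XT.lf (nat_lit 0) (nat_lit 93488765310) (nat_lit 152) (nat_lit 26624897988) (nat_lit 76) (nat_lit 139904444952) (nat_lit 18) (nat_lit 5) (nat_lit 20) (nat_lit 5) (nat_lit 19) (nat_lit 4) (nat_lit 376) (nat_lit 361) (nat_lit 283)) (XT.lf (nat_lit 0) (nat_lit 138674274075) (nat_lit 76) (nat_lit 31698081616) (nat_lit 152) (nat_lit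 114720582148) (nat_lit 17) (nat_lit 5) (nat_lit 18) (nat_lit 5) (nat_lit 19) (nat_lit 4) (nat_lit 377) (nat_lit 361) (nat_lit 282))))) (XT.nd (nat_lit 234) (nat_lit 152) (nat_lit 0) (XT.nd (nat_lit 78) (nat_lit 152) (nat_lit 0) (XT.lf (nat_lit 0) (nat_lit 16548854730) (nat_lit 76) (nat_lit 247280186304) (nat_lit 76) (nat_lit 49343867576) (nat_lit 16) (nat_lit 4) (nat_lit 17) (nat_lit 5) (nat_lit 17) (nat_lit 4) (nat_lit 378) (nat_lit 361) (nat_lit 281)) (XT.nd (nat_lit 78) (nat_lit 76) (nat_lit 0) (XT.lf (nat_lit 0) (nat_lit 33066116587) (nat_lit 152) (nat_lit 126844527895) (nat_lit 76) (nat_lit 183964663725) (nat_lit 15) (nat_lit 5) (nat_lit 17) (nat_lit 5) (nat_lit 16) (nat_lit 4) (nat_lit 379) (nat_lit 361) (nat_lit 280)) (XT.lf (nat_lit 0) (nat_lit 72506536194) (nat_lit 76) (nat_lit 53281151084) (nat_lit 152) (nat_lit 252592630244) (nat_lit 14) (nat_lit 5) (nat_lit 15) (nat_lit 5)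 (nat_lit 16) (nat_lit 4) (nat_lit 380) (nat_lit 361) (nat_lit 279)))) (XT.nd (nat_lit 78) (nat_lit 152) (nat_lit 0) (XT.lf (nat_lit 0) (nat_lit 242234705436) (nat_lit 152) (nat_lit 104238445296) (nat_lit 0) (nat_lit 70115345838) (nat_lit 14) (nat_lit 5) (nat_lit 16) (nat_lit 4) (nat_lit 14) (nat_lit 4) (nat_lit 381) (nat_lit 361) (nat_lit 278)) (XT.nd (nat_lit 78) (nat_lit 76) (nat_lit 0) (XT.lf (nat_lit 0) (nat_lit 137330472208) (nat_lit 76) (nat_lit 247041740148) (nat_lit 76) (nat_lit 74922174815) (nat_lit 13) (nat_lit 4) (nat_lit 14) (nat_lit 5) (nat_lit 14) (nat_lit 4) (nat_lit 382) (nat_lit 361) (nat_lit 277)) (XT.lf (nat_lit 0) (nat_lit 41622345322) (nat_lit 152) (nat_lit 82631701788) (nat_lit 76) (nat_lit 383051047394) (nat_lit 12) (nat_lit 5) (nat_lit 14) (nat_lit 5) (nat_lit 13) (nat_lit 4) (nat_lit 383) (nat_lit 361) (nat_lit 276))))))) (XT.nd (nat_lit 858) (nat_lit 304) (nat_lit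 0) (XT.nd (nat_lit 390) (nat_lit 228) (nat_lit 0) (XT.nd (nat_lit 156) (nat_lit 228) (nat_lit 0) (XT.nd (nat_lit 78) (nat_lit 0) (nat_lit 0) (XT.lf (nat_lit 0) (nat_lit 177851006175) (nat_lit 152) (nat_lit 354468755398) (nat_lit 0) (nat_lit 28181528092) (nat_lit 11) (nat_lit 5) (nat_lit 13) (nat_lit 4) (nat_lit 11) (nat_lit 4) (nat_lit 384) (nat_lit 361) (nat_lit 275)) (XT.lf (nat_lit 0) (nat_lit 344955619711) (nat_lit 152) (nat_lit 79869022417) (nat_lit 0) (nat_lit 195286023998) (nat_lit 11) (nat_lit 5) (nat_lit 13) (nat_lit 4) (nat_lit 11) (nat_lit 4) (nat_lit 385) (nat_lit 361) (nat_lit 274))) (XT.nd (nat_lit 78) (nat_lit 152) (nat_lit 0) (XT.lf (nat_lit 0) (nat_lit 258976025557) (nat_lit 76) (nat_lit 288873305351) (nat_lit 76) (nat_lit 139203607352) (nat_lit 10) (nat_lit 4) (nat_lit 11) (nat_lit 5) (nat_lit 11) (nat_lit 4) (nat_lit 386) (nat_lit 361) (nat_lit 273)) (XT.nd (nat_lit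 78) (nat_lit 76) (nat_lit 0) (XT.lf (nat_lit 0) (nat_lit 19988119301) (nat_lit 152) (nat_lit 106695330444) (nat_lit 76) (nat_lit 636590607208) (nat_lit 9) (nat_lit 5) (nat_lit 11) (nat_lit 5) (nat_lit 10) (nat_lit 4) (nat_lit 387) (nat_lit 361) (nat_lit 272)) (XT.lf (nat_lit 0) (nat_lit 203802943820) (nat_lit 152) (nat_lit 570226431925) (nat_lit 0) (nat_lit 73655235744) (nat_lit 8) (nat_lit 5) (nat_lit 10) (nat_lit 4) (nat_lit 8) (nat_lit 4) (nat_lit 388) (nat_lit 361) (nat_lit 271))))) (XT.nd (nat_lit 234) (nat_lit 152) (nat_lit 0) (XT.nd (nat_lit 78) (nat_lit 76) (nat_lit 0) (XT.lf (nat_lit 0) (nat_lit 427065171745) (nat_lit 152) (nat_lit 218992895341) (nat_lit 0) (nat_lit 296917405187) (nat_lit 8) (nat_lit 5) (nat_lit 10) (nat_lit 4) (nat_lit 8) (nat_lit 4) (nat_lit 389) (nat_lit 361) (nat_lit 270)) (XT.nd (nat_lit 78) (nat_lit 0) (nat_lit 0) (XT.lf (nat_lit 0) (nat_lit 202997550502)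 (nat_lit 76) (nat_lit 489224700751) (nat_lit 76) (nat_lit 359076883339) (nat_lit 7) (nat_lit 4) (nat_lit 8) (nat_lit 5) (nat_lit 8) (nat_lit 4) (nat_lit 390) (nat_lit 361) (nat_lit 269)) (XT.lf (nat_lit 0) (nat_lit 712898028147) (nat_lit 76) (nat_lit 295702050906) (nat_lit 76) (nat_lit 165554189272) (nat_lit 7) (nat_lit 4) (nat_lit 8) (nat_lit 5) (nat_lit 8) (nat_lit 4) (nat_lit 391) (nat_lit 361) (nat_lit 268)))) (XT.nd (nat_lit 78) (nat_lit 76) (nat_lit 0) (XT.lf (nat_lit 0) (nat_lit 51922495480) (nat_lit 152) (nat_lit 18514534804) (nat_lit 76) (nat_lit 1244646646952) (nat_lit 6) (nat_lit 5) (nat_lit 8) (nat_lit 5) (nat_lit 7) (nat_lit 4) (nat_lit 392) (nat_lit 361) (nat_lit 267)) (XT.nd (nat_lit 78) (nat_lit 0) (nat_lit 0) (XT.lf (nat_lit 0) (nat_lit 316244927002) (nat_lit 152) (nat_lit 951976153734) (nat_lit 0) (nat_lit 203072810894) (nat_lit 5) (nat_lit 5) (nat_lit 7) (nat_lit 4)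 (nat_lit 5) (nat_lit 4) (nat_lit 393) (nat_lit 361) (nat_lit 266)) (XT.lf (nat_lit 0) (nat_lit 624583625271) (nat_lit 152) (nat_lit 514285343741) (nat_lit 0) (nat_lit 511411483879) (nat_lit 5) (nat_lit 5) (nat_lit 7) (nat_lit 4) (nat_lit 5) (nat_lit 4) (nat_lit 394) (nat_lit 361) (nat_lit 265)))))) (XT.nd (nat_lit 468) (nat_lit 76) (nat_lit 0) (XT.nd (nat_lit 234) (nat_lit 152) (nat_lit 0) (XT.nd (nat_lit 78) (nat_lit 76) (nat_lit 0) (XT.lf (nat_lit 0) (nat_lit 979173012218) (nat_lit 152) (nat_lit 10941154705) (nat_lit 0) (nat_lit 866000848840) (nat_lit 5) (nat_lit 5) (nat_lit 7) (nat_lit 4) (nat_lit 5) (nat_lit 4) (nat_lit 395) (nat_lit 361) (nat_lit 264)) (XT.nd (nat_lit 78) (nat_lit 0) (nat_lit 0) (XT.lf (nat_lit 0) (nat_lit 623404205106) (nat_lit 76) (nat_lit 789360339897) (nat_lit 76) (nat_lit 676188157402) (nat_lit 4) (nat_lit 4) (nat_lit 5) (nat_lit 5) (nat_lit 5) (nat_lit 4) (nat_lit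 396) (nat_lit 361) (nat_lit 263)) (XT.lf (nat_lit 0) (nat_lit 1354130804234) (nat_lit 76) (nat_lit 557835831376) (nat_lit 76) (nat_lit 444663632256) (nat_lit 4) (nat_lit 4) (nat_lit 5) (nat_lit 5) (nat_lit 5) (nat_lit 4) (nat_lit 397) (nat_lit 361) (nat_lit 262)))) (XT.nd (nat_lit 78) (nat_lit 152) (nat_lit 0) (XT.lf (nat_lit 0) (nat_lit 2194466218234) (nat_lit 76) (nat_lit 291582738015) (nat_lit 76) (nat_lit 178410524439) (nat_lit 4) (nat_lit 4) (nat_lit 5) (nat_lit 5) (nat_lit 5) (nat_lit 4) (nat_lit 398) (nat_lit 361) (nat_lit 261)) (XT.nd (nat_lit 78) (nat_lit 0) (nat_lit 0) (XT.lf (nat_lit 0) (nat_lit 123789875908) (nat_lit 152) (nat_lit 2867392501869) (nat_lit 0) (nat_lit 25379244477) (nat_lit 2) (nat_lit 5) (nat_lit 4) (nat_lit 4) (nat_lit 2) (nat_lit 4) (nat_lit 399) (nat_lit 361) (nat_lit 260)) (XT.lf (nat_lit 0) (nat_lit 492677039654) (nat_lit 152) (nat_lit 2527317904387) (nat_lit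 0) (nat_lit 394266398717) (nat_lit 2) (nat_lit 5) (nat_lit 4) (nat_lit 4) (nat_lit 2) (nat_lit 4) (nat_lit 400) (nat_lit 361) (nat_lit 259))))) (XT.nd (nat_lit 234) (nat_lit 76) (nat_lit 0) (XT.nd (nat_lit 78) (nat_lit 0) (nat_lit 0) (XT.lf (nat_lit 0) (nat_lit 916897212037) (nat_lit 152) (nat_lit 2136232256357) (nat_lit 0) (nat_lit 818486562836) (nat_lit 2) (nat_lit 5) (nat_lit 4) (nat_lit 4) (nat_lit 2) (nat_lit 4) (nat_lit 401) (nat_lit 361) (nat_lit 258)) (XT.nd (nat_lit 78) (nat_lit 0) (nat_lit 0) (XT.lf (nat_lit 0) (nat_lit 1404750352954) (nat_lit 152) (nat_lit 1686483882056) (nat_lit 0) (nat_lit 1306339696565) (nat_lit 2) (nat_lit 5) (nat_lit 4) (nat_lit 4) (nat_lit 2) (nat_lit 4) (nat_lit 402) (nat_lit 361) (nat_lit 257)) (XT.lf (nat_lit 0) (nat_lit 1965781415161) (nat_lit 152) (nat_lit 1169273356770) (nat_lit 0) (nat_lit 1867370752522) (nat_lit 2) (nat_lit 5) (nat_lit 4) (nat_lit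 4) (nat_lit 2) (nat_lit 4) (nat_lit 403) (nat_lit 361) (nat_lit 256)))) (XT.nd (nat_lit 78) (nat_lit 76) (nat_lit 0) (XT.lf (nat_lit 0) (nat_lit 2610967093353) (nat_lit 152) (nat_lit 574481344134) (nat_lit 0) (nat_lit 2512556425280) (nat_lit 2) (nat_lit 5) (nat_lit 4) (nat_lit 4) (nat_lit 2) (nat_lit 4) (nat_lit 404) (nat_lit 361) (nat_lit 255)) (XT.nd (nat_lit 78) (nat_lit 0) (nat_lit 0) (XT.lf (nat_lit 0) (nat_lit 120233399534) (nat_lit 76) (nat_lit 3237675794723) (nat_lit 76) (nat_lit 3139265121924) (nat_lit 1) (nat_lit 4) (nat_lit 2) (nat_lit 5) (nat_lit 2) (nat_lit 4) (nat_lit 405) (nat_lit 361) (nat_lit 254)) (XT.lf (nat_lit 0) (nat_lit 983719148097) (nat_lit 76) (nat_lit 3263203132908) (nat_lit 76) (nat_lit 3164792456000) (nat_lit 1) (nat_lit 4) (nat_lit 2) (nat_lit 5) (nat_lit 2) (nat_lit 4) (nat_lit 406) (nat_lit 361) (nat_lit 253))))))))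
noncomputable def xc85 : XT := (XT.nd (nat_lit 49608) (nat_lit 0) (nat_lit 836) (XT.nd (nat_lit 858) (nat_lit 0) (nat_lit 0) (XT.nd (nat_lit 390) (nat_lit 0) (nat_lit 0) (XT.nd (nat_lit 156) (nat_lit 0) (nat_lit 0) (XT.nd (nat_lit 78) (nat_lit 0) (nat_lit 0) (XT.lf (nat_lit 0) (nat_lit 1976727692942) (nat_lit 76) (nat_lit 3292559606589) (nat_lit 76) (nat_lit 3194148926107) (nat_lit 1) (nat_lit 4) (nat_lit 2) (nat_lit 5) (nat_lit 2) (nat_lit 4) (nat_lit 407) (nat_lit 361) (nat_lit 252)) (XT.lf (nat_lit 0) (nat_lit 3118687462122) (nat_lit 76) (nat_lit 3326319581554) (nat_lit 76) (nat_lit 3227908897966) (nat_lit 1) (nat_lit 4) (nat_lit 2) (nat_lit 5) (nat_lit 2) (nat_lit 4) (nat_lit 408) (nat_lit 361) (nat_lit 251))) (XT.nd (nat_lit 78) (nat_lit 0) (nat_lit 0) (XT.lf (nat_lit 0) (nat_lit 4431941146772) (nat_lit 76) (nat_lit 3365143579055) (nat_lit 76) (nat_lit 3266732892764) (nat_lit 1)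 (nat_lit 4) (nat_lit 2) (nat_lit 5) (nat_lit 2) (nat_lit 4) (nat_lit 409) (nat_lit 361) (nat_lit 250)) (XT.nd (nat_lit 78) (nat_lit 0) (nat_lit 0) (XT.lf (nat_lit 0) (nat_lit 5942182840723) (nat_lit 76) (nat_lit 3409791199040) (nat_lit 76) (nat_lit 3311380510400) (nat_lit 1) (nat_lit 4) (nat_lit 2) (nat_lit 5) (nat_lit 2) (nat_lit 4) (nat_lit 410) (nat_lit 361) (nat_lit 249)) (XT.lf (nat_lit 0) (nat_lit 7678960751030) (nat_lit 76) (nat_lit 3461135981902) (nat_lit 76) (nat_lit 3362725291219) (nat_lit 1) (nat_lit 4) (nat_lit 2) (nat_lit 5) (nat_lit 2) (nat_lit 4) (nat_lit 411) (nat_lit 361) (nat_lit 248))))) (XT.nd (nat_lit 234) (nat_lit 0) (nat_lit 0) (XT.nd (nat_lit 78) (nat_lit 0) (nat_lit 0) (XT.lf (nat_lit 0) (nat_lit 9676255315068) (nat_lit 76) (nat_lit 3520182499480) (nat_lit 76) (nat_lit 3421771807020) (nat_lit 1) (nat_lit 4) (nat_lit 2) (nat_lit 5) (nat_lit 2) (nat_lit 4) (nat_lit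 412) (nat_lit 361) (nat_lit 247)) (XT.nd (nat_lit 78) (nat_lit 0) (nat_lit 0) (XT.lf (nat_lit 0) (nat_lit 11973144035178) (nat_lit 76) (nat_lit 3588086009725) (nat_lit 76) (nat_lit 3489675315720) (nat_lit 1) (nat_lit 4) (nat_lit 2) (nat_lit 5) (nat_lit 2) (nat_lit 4) (nat_lit 413) (nat_lit 361) (nat_lit 246)) (XT.lf (nat_lit 0) (nat_lit 14614566038492) (nat_lit 76) (nat_lit 3666175059577) (nat_lit 76) (nat_lit 3567764364229) (nat_lit 1) (nat_lit 4) (nat_lit 2) (nat_lit 5) (nat_lit 2) (nat_lit 4) (nat_lit 414) (nat_lit 361) (nat_lit 245)))) (XT.nd (nat_lit 78) (nat_lit 0) (nat_lit 0) (XT.lf (nat_lit 0) (nat_lit 17652201320727) (nat_lit 76) (nat_lit 3755977478273) (nat_lit 76) (nat_lit 3657566781757) (nat_lit 1) (nat_lit 4) (nat_lit 2) (nat_lit 5) (nat_lit 2) (nat_lit 4) (nat_lit 415) (nat_lit 361) (nat_lit 244)) (XT.nd (nat_lit 78) (nat_lit 0) (nat_lit 0) (XT.lf (nat_lit 0) (nat_lit 21145481876536)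 (nat_lit 76) (nat_lit 3859250269656) (nat_lit 76) (nat_lit 3760839572125) (nat_lit 1) (nat_lit 4) (nat_lit 2) (nat_lit 5) (nat_lit 2) (nat_lit 4) (nat_lit 416) (nat_lit 361) (nat_lit 243)) (XT.lf (nat_lit 0) (nat_lit 25162754499402) (nat_lit 76) (nat_lit 3978013988341) (nat_lit 76) (nat_lit 3879603289926) (nat_lit 1) (nat_lit 4) (nat_lit 2) (nat_lit 5) (nat_lit 2) (nat_lit 4) (nat_lit 417) (nat_lit 361) (nat_lit 242)))))) (XT.nd (nat_lit 468) (nat_lit 0) (nat_lit 0) (XT.nd (nat_lit 234) (nat_lit 0) (nat_lit 0) (XT.nd (nat_lit 78) (nat_lit 0) (nat_lit 0) (XT.lf (nat_lit 0) (nat_lit 29782618001511) (nat_lit 76) (nat_lit 4114592272302) (nat_lit 76) (nat_lit 4016181573119) (nat_lit 1) (nat_lit 4) (nat_lit 2) (nat_lit 5) (nat_lit 2) (nat_lit 4) (nat_lit 418) (nat_lit 361) (nat_lit 241)) (XT.nd (nat_lit 78) (nat_lit 0) (nat_lit 0) (XT.lf (nat_lit 0) (nat_lit 35095461016600) (nat_lit 76) (nat_lit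 4271657305355) (nat_lit 76) (nat_lit 4173246605505) (nat_lit 1) (nat_lit 4) (nat_lit 2) (nat_lit 5) (nat_lit 2) (nat_lit 4) (nat_lit 419) (nat_lit 361) (nat_lit 240)) (XT.lf (nat_lit 0) (nat_lit 41205230473225) (nat_lit 76) (nat_lit 4452282099018) (nat_lit 76) (nat_lit 4353871398586) (nat_lit 1) (nat_lit 4) (nat_lit 2) (nat_lit 5) (nat_lit 2) (nat_lit 4) (nat_lit 420) (nat_lit 361) (nat_lit 239)))) (XT.nd (nat_lit 78) (nat_lit 0) (nat_lit 0) (XT.lf (nat_lit 0) (nat_lit 48231465339017) (nat_lit 76) (nat_lit 4660000616643) (nat_lit 76) (nat_lit 4561589915706) (nat_lit 1) (nat_lit 4) (nat_lit 2) (nat_lit 5) (nat_lit 2) (nat_lit 4) (nat_lit 421) (nat_lit 361) (nat_lit 238)) (XT.nd (nat_lit 78) (nat_lit 0) (nat_lit 0) (XT.lf (nat_lit 0) (nat_lit 56311635426565) (nat_lit 76) (nat_lit 4898876916184) (nat_lit 76) (nat_lit 4800466214809) (nat_lit 1) (nat_lit 4) (nat_lit 2) (nat_lit 5) (nat_lit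 2) (nat_lit 4) (nat_lit 422) (nat_lit 361) (nat_lit 237)) (XT.lf (nat_lit 0) (nat_lit 65603831020193) (nat_lit 76) (nat_lit 5173584664373) (nat_lit 76) (nat_lit 5075173962615) (nat_lit 1) (nat_lit 4) (nat_lit 2) (nat_lit 5) (nat_lit 2) (nat_lit 4) (nat_lit 423) (nat_lit 361) (nat_lit 236))))) (XT.nd (nat_lit 234) (nat_lit 0) (nat_lit 0) (XT.nd (nat_lit 78) (nat_lit 0) (nat_lit 0) (XT.lf (nat_lit 0) (nat_lit 76289855946732) (nat_lit 76) (nat_lit 5489498578020) (nat_lit 76) (nat_lit 5391087875931) (nat_lit 1) (nat_lit 4) (nat_lit 2) (nat_lit 5) (nat_lit 2) (nat_lit 4) (nat_lit 424) (nat_lit 361) (nat_lit 235)) (XT.nd (nat_lit 78) (nat_lit 0) (nat_lit 0) (XT.lf (nat_lit 0) (nat_lit 88578784606918) (nat_lit 76) (nat_lit 5852799581524) (nat_lit 76) (nat_lit 5754388879146) (nat_lit 1) (nat_lit 4) (nat_lit 2) (nat_lit 5) (nat_lit 2) (nat_lit 4) (nat_lit 425) (nat_lit 361) (nat_lit 234)) (XT.lf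 (nat_lit 0) (nat_lit 102711052561495) (nat_lit 76) (nat_lit 6270595737997) (nat_lit 76) (nat_lit 6172185035368) (nat_lit 1) (nat_lit 4) (nat_lit 2) (nat_lit 5) (nat_lit 2) (nat_lit 4) (nat_lit 426) (nat_lit 361) (nat_lit 233)))) (XT.nd (nat_lit 78) (nat_lit 0) (nat_lit 0) (XT.lf (nat_lit 0) (nat_lit 118963160705226) (nat_lit 76) (nat_lit 6751061320065) (nat_lit 76) (nat_lit 6652650617217) (nat_lit 1) (nat_lit 4) (nat_lit 2) (nat_lit 5) (nat_lit 2) (nat_lit 4) (nat_lit 427) (nat_lit 361) (nat_lit 232)) (XT.nd (nat_lit 78) (nat_lit 0) (nat_lit 0) (XT.lf (nat_lit 0) (nat_lit 137653085067009) (nat_lit 76) (nat_lit 7303596741290) (nat_lit 76) (nat_lit 7205186038252) (nat_lit 1) (nat_lit 4) (nat_lit 2) (nat_lit 5) (nat_lit 2) (nat_lit 4) (nat_lit 428) (nat_lit 361) (nat_lit 231)) (XT.lf (nat_lit 0) (nat_lit 159146498080011) (nat_lit 76) (nat_lit 7939012477306) (nat_lit 76) (nat_lit 7840601774103)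 (nat_lit 1) (nat_lit 4) (nat_lit 2) (nat_lit 5) (nat_lit 2) (nat_lit 4) (nat_lit 429) (nat_lit 361) (nat_lit 230))))))) (XT.nd (nat_lit 858) (nat_lit 836) (nat_lit 0) (XT.nd (nat_lit 390) (nat_lit 456) (nat_lit 0) (XT.nd (nat_lit 156) (nat_lit 0) (nat_lit 76) (XT.nd (nat_lit 78) (nat_lit 0) (nat_lit 0) (XT.lf (nat_lit 0) (nat_lit 11413853462) (nat_lit 380) (nat_lit 16244308866) (nat_lit 380) (nat_lit 16244308866) (nat_lit 29) (nat_lit 3) (nat_lit 34) (nat_lit 3) (nat_lit 34) (nat_lit 5) (nat_lit 362) (nat_lit 362) (nat_lit 296)) (XT.lf (nat_lit 76) (nat_lit 11517082682) (nat_lit 0) (nat_lit 13507425341) (nat_lit 380) (nat_lit 69293087297) (nat_lit 30) (nat_lit 5) (nat_lit 29) (nat_lit 3) (nat_lit 34) (nat_lit 5) (nat_lit 363) (nat_lit 362) (nat_lit 295))) (XT.nd (nat_lit 78) (nat_lit 0) (nat_lit 0) (XT.lf (nat_lit 0) (nat_lit 30760147146) (nat_lit 304) (nat_lit 37291065578) (nat_lit 380)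 (nat_lit 33274537439) (nat_lit 30) (nat_lit 5) (nat_lit 34) (nat_lit 5) (nat_lit 35) (nat_lit 5) (nat_lit 364) (nat_lit 362) (nat_lit 294)) (XT.nd (nat_lit 78) (nat_lit 0) (nat_lit 76) (XT.lf (nat_lit 76) (nat_lit 15807947356) (nat_lit 0) (nat_lit 22844745407) (nat_lit 380) (nat_lit 70537952816) (nat_lit 31) (nat_lit 5) (nat_lit 30) (nat_lit 5) (nat_lit 35) (nat_lit 5) (nat_lit 365) (nat_lit 362) (nat_lit 293)) (XT.lf (nat_lit 0) (nat_lit 50976891537) (nat_lit 304) (nat_lit 38180723563) (nat_lit 76) (nat_lit 28590495760) (nat_lit 31) (nat_lit 5) (nat_lit 35) (nat_lit 5) (nat_lit 32) (nat_lit 5) (nat_lit 366) (nat_lit 362) (nat_lit 292))))) (XT.nd (nat_lit 234) (nat_lit 152) (nat_lit 0) (XT.nd (nat_lit 78) (nat_lit 152) (nat_lit 0) (XT.lf (nat_lit 0) (nat_lit 26578988701) (nat_lit 304) (nat_lit 40758203341) (nat_lit 380) (nat_lit 59923884191) (nat_lit 27) (nat_lit 5) (nat_lit 31) (nat_lit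 5) (nat_lit 32) (nat_lit 5) (nat_lit 367) (nat_lit 362) (nat_lit 291)) (XT.nd (nat_lit 78) (nat_lit 152) (nat_lit 0) (XT.lf (nat_lit 0) (nat_lit 88858542309) (nat_lit 380) (nat_lit 33271070714) (nat_lit 76) (nat_lit 15665323631) (nat_lit 27) (nat_lit 5) (nat_lit 32) (nat_lit 5) (nat_lit 28) (nat_lit 5) (nat_lit 368) (nat_lit 362) (nat_lit 290)) (XT.lf (nat_lit 0) (nat_lit 46444647522) (nat_lit 152) (nat_lit 71026733384) (nat_lit 228) (nat_lit 31858003185) (nat_lit 25) (nat_lit 5) (nat_lit 27) (nat_lit 5) (nat_lit 28) (nat_lit 5) (nat_lit 369) (nat_lit 362) (nat_lit 289)))) (XT.nd (nat_lit 78) (nat_lit 152) (nat_lit 0) (XT.lf (nat_lit 0) (nat_lit 141856071448) (nat_lit 152) (nat_lit 10258551176) (nat_lit 228) (nat_lit 10218605137) (nat_lit 25) (nat_lit 5) (nat_lit 27) (nat_lit 5) (nat_lit 28) (nat_lit 5) (nat_lit 370) (nat_lit 362) (nat_lit 288)) (XT.nd (nat_lit 78) (nat_lit 0) (nat_lit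 0) (XT.lf (nat_lit 0) (nat_lit 19366925234) (nat_lit 152) (nat_lit 98467288330) (nat_lit 76) (nat_lit 58461444339) (nat_lit 23) (nat_lit 5) (nat_lit 25) (nat_lit 5) (nat_lit 24) (nat_lit 5) (nat_lit 371) (nat_lit 362) (nat_lit 287)) (XT.lf (nat_lit 0) (nat_lit 53953375845) (nat_lit 152) (nat_lit 37747771) (nat_lit 76) (nat_lit 138046947202) (nat_lit 23) (nat_lit 5) (nat_lit 25) (nat_lit 5) (nat_lit 24) (nat_lit 5) (nat_lit 372) (nat_lit 362) (nat_lit 286)))))) (XT.nd (nat_lit 468) (nat_lit 380) (nat_lit 0) (XT.nd (nat_lit 234) (nat_lit 228) (nat_lit 0) (XT.nd (nat_lit 78) (nat_lit 76) (nat_lit 0) (XT.lf (nat_lit 0) (nat_lit 99920117842) (nat_lit 228) (nat_lit 86205959982) (nat_lit 76) (nat_lit 23086919687) (nat_lit 21) (nat_lit 5) (nat_lit 24) (nat_lit 5) (nat_lit 22) (nat_lit 4) (nat_lit 373) (nat_lit 362) (nat_lit 285)) (XT.nd (nat_lit 78) (nat_lit 0) (nat_lit 0) (XT.lf (nat_lit 0)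 (nat_lit 36199798056) (nat_lit 76) (nat_lit 120653617622) (nat_lit 152) (nat_lit 71500016204) (nat_lit 20) (nat_lit 5) (nat_lit 21) (nat_lit 5) (nat_lit 22) (nat_lit 4) (nat_lit 374) (nat_lit 362) (nat_lit 284)) (XT.lf (nat_lit 0) (nat_lit 186654055182) (nat_lit 76) (nat_lit 40178421367) (nat_lit 152) (nat_lit 22856589915) (nat_lit 20) (nat_lit 5) (nat_lit 21) (nat_lit 5) (nat_lit 22) (nat_lit 4) (nat_lit 375) (nat_lit 362) (nat_lit 283)))) (XT.nd (nat_lit 78) (nat_lit 76) (nat_lit 0) (XT.lf (nat_lit 0) (nat_lit 36375149657) (nat_lit 152) (nat_lit 183564209755) (nat_lit 76) (nat_lit 53144634213) (nat_lit 18) (nat_lit 5) (nat_lit 20) (nat_lit 5) (nat_lit 19) (nat_lit 4) (nat_lit 376) (nat_lit 362) (nat_lit 282)) (XT.nd (nat_lit 78) (nat_lit 76) (nat_lit 0) (XT.lf (nat_lit 0) (nat_lit 107516349644) (nat_lit 152) (nat_lit 30611105659) (nat_lit 76) (nat_lit 160892726566) (nat_lit 18) (nat_lit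 5) (nat_lit 20) (nat_lit 5) (nat_lit 19) (nat_lit 4) (nat_lit 377) (nat_lit 362) (nat_lit 281)) (XT.lf (nat_lit 0) (nat_lit 159482600076) (nat_lit 76) (nat_lit 36449619121) (nat_lit 152) (nat_lit 131924055893) (nat_lit 17) (nat_lit 5) (nat_lit 18) (nat_lit 5) (nat_lit 19) (nat_lit 4) (nat_lit 378) (nat_lit 362) (nat_lit 280))))) (XT.nd (nat_lit 234) (nat_lit 152) (nat_lit 0) (XT.nd (nat_lit 78) (nat_lit 152) (nat_lit 0) (XT.lf (nat_lit 0) (nat_lit 19038491757) (nat_lit 76) (nat_lit 284368809476) (nat_lit 76) (nat_lit 56740956407) (nat_lit 16) (nat_lit 4) (nat_lit 17) (nat_lit 5) (nat_lit 17) (nat_lit 4) (nat_lit 379) (nat_lit 362) (nat_lit 279)) (XT.nd (nat_lit 78) (nat_lit 76) (nat_lit 0) (XT.lf (nat_lit 0) (nat_lit 38029591865) (nat_lit 152) (nat_lit 145864502641) (nat_lit 76) (nat_lit 211561975013) (nat_lit 15) (nat_lit 5) (nat_lit 17) (nat_lit 5) (nat_lit 16) (nat_lit 4) (nat_lit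 380) (nat_lit 362) (nat_lit 278)) (XT.lf (nat_lit 0) (nat_lit 83388916313) (nat_lit 76) (nat_lit 61270282784) (nat_lit 152) (nat_lit 290477661156) (nat_lit 14) (nat_lit 5) (nat_lit 15) (nat_lit 5) (nat_lit 16) (nat_lit 4) (nat_lit 381) (nat_lit 362) (nat_lit 277)))) (XT.nd (nat_lit 78) (nat_lit 152) (nat_lit 0) (XT.lf (nat_lit 0) (nat_lit 278572941380) (nat_lit 152) (nat_lit 119868317597) (nat_lit 0) (nat_lit 80635056614) (nat_lit 14) (nat_lit 5) (nat_lit 16) (nat_lit 4) (nat_lit 14) (nat_lit 4) (nat_lit 382) (nat_lit 362) (nat_lit 276)) (XT.nd (nat_lit 78) (nat_lit 76) (nat_lit 0) (XT.lf (nat_lit 0) (nat_lit 157935669601) (nat_lit 76) (nat_lit 284095242486) (nat_lit 76) (nat_lit 86157202156) (nat_lit 13) (nat_lit 4) (nat_lit 14) (nat_lit 5) (nat_lit 14) (nat_lit 4) (nat_lit 383) (nat_lit 362) (nat_lit 275)) (XT.lf (nat_lit 0) (nat_lit 47868310331) (nat_lit 152) (nat_lit 95021308390)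 (nat_lit 76) (nat_lit 440510847355) (nat_lit 12) (nat_lit 5) (nat_lit 14) (nat_lit 5) (nat_lit 13) (nat_lit 4) (nat_lit 384) (nat_lit 362) (nat_lit 274))))))))
noncomputable def xc86 : XT := (XT.nd (nat_lit 1794) (nat_lit 0) (nat_lit 0) (XT.nd (nat_lit 858) (nat_lit 304) (nat_lit 0) (XT.nd (nat_lit 390) (nat_lit 228) (nat_lit 0) (XT.nd (nat_lit 156) (nat_lit 228) (nat_lit 0) (XT.nd (nat_lit 78) (nat_lit 0) (nat_lit 0) (XT.lf (nat_lit 0) (nat_lit 204531233948) (nat_lit 152) (nat_lit 407633883136) (nat_lit 0) (nat_lit 32410978963) (nat_lit 11) (nat_lit 5) (nat_lit 13) (nat_lit 4) (nat_lit 11) (nat_lit 4) (nat_lit 385) (nat_lit 362) (nat_lit 273)) (XT.lf (nat_lit 0) (nat_lit 396701203404) (nat_lit 152) (nat_lit 91844866586) (nat_lit 0) (nat_lit 224580859474) (nat_lit 11) (nat_lit 5) (nat_lit 13) (nat_lit 4) (nat_lit 11) (nat_lit 4) (nat_lit 386) (nat_lit 362) (nat_lit 272))) (XT.nd (nat_lit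 78) (nat_lit 152) (nat_lit 0) (XT.lf (nat_lit 0) (nat_lit 297826733621) (nat_lit 76) (nat_lit 332202123619) (nat_lit 76) (nat_lit 160081702346) (nat_lit 10) (nat_lit 4) (nat_lit 11) (nat_lit 5) (nat_lit 11) (nat_lit 4) (nat_lit 387) (nat_lit 362) (nat_lit 271)) (XT.nd (nat_lit 78) (nat_lit 76) (nat_lit 0) (XT.lf (nat_lit 0) (nat_lit 22988274883) (nat_lit 152) (nat_lit 122695697528) (nat_lit 76) (nat_lit 732080902123) (nat_lit 9) (nat_lit 5) (nat_lit 11) (nat_lit 5) (nat_lit 10) (nat_lit 4) (nat_lit 388) (nat_lit 362) (nat_lit 270)) (XT.lf (nat_lit 0) (nat_lit 234375304999) (nat_lit 152) (nat_lit 655756445883) (nat_lit 0) (nat_lit 84705264120) (nat_lit 8) (nat_lit 5) (nat_lit 10) (nat_lit 4) (nat_lit 8) (nat_lit 4) (nat_lit 389) (nat_lit 362) (nat_lit 269))))) (XT.nd (nat_lit 234) (nat_lit 152) (nat_lit 0) (XT.nd (nat_lit 78) (nat_lit 76) (nat_lit 0) (XT.lf (nat_lit 0) (nat_lit 491126616730)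 (nat_lit 152) (nat_lit 251838394137) (nat_lit 0) (nat_lit 341456531630) (nat_lit 8) (nat_lit 5) (nat_lit 10) (nat_lit 4) (nat_lit 8) (nat_lit 4) (nat_lit 390) (nat_lit 362) (nat_lit 268)) (XT.nd (nat_lit 78) (nat_lit 0) (nat_lit 0) (XT.lf (nat_lit 0) (nat_lit 233450462423) (nat_lit 76) (nat_lit 562606713807) (nat_lit 76) (nat_lit 412936590254) (nat_lit 7) (nat_lit 4) (nat_lit 8) (nat_lit 5) (nat_lit 8) (nat_lit 4) (nat_lit 391) (nat_lit 362) (nat_lit 267)) (XT.lf (nat_lit 0) (nat_lit 819835583974) (nat_lit 76) (nat_lit 340055887188) (nat_lit 76) (nat_lit 190385730198) (nat_lit 7) (nat_lit 4) (nat_lit 8) (nat_lit 5) (nat_lit 8) (nat_lit 4) (nat_lit 392) (nat_lit 362) (nat_lit 266)))) (XT.nd (nat_lit 78) (nat_lit 76) (nat_lit 0) (XT.lf (nat_lit 0) (nat_lit 59712127314) (nat_lit 152) (nat_lit 21289112341) (nat_lit 76) (nat_lit 1431344800406) (nat_lit 6) (nat_lit 5) (nat_lit 8) (nat_lit 5)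 (nat_lit 7) (nat_lit 4) (nat_lit 393) (nat_lit 362) (nat_lit 265)) (XT.nd (nat_lit 78) (nat_lit 0) (nat_lit 0) (XT.lf (nat_lit 0) (nat_lit 363682915747) (nat_lit 152) (nat_lit 1094769966178) (nat_lit 0) (nat_lit 233534905878) (nat_lit 5) (nat_lit 5) (nat_lit 7) (nat_lit 4) (nat_lit 5) (nat_lit 4) (nat_lit 394) (nat_lit 362) (nat_lit 264)) (XT.lf (nat_lit 0) (nat_lit 718272255753) (nat_lit 152) (nat_lit 591425875202) (nat_lit 0) (nat_lit 588124226765) (nat_lit 5) (nat_lit 5) (nat_lit 7) (nat_lit 4) (nat_lit 5) (nat_lit 4) (nat_lit 395) (nat_lit 362) (nat_lit 263)))))) (XT.nd (nat_lit 468) (nat_lit 76) (nat_lit 0) (XT.nd (nat_lit 234) (nat_lit 152) (nat_lit 0) (XT.nd (nat_lit 78) (nat_lit 76) (nat_lit 0) (XT.lf (nat_lit 0) (nat_lit 1126049909000) (nat_lit 152) (nat_lit 12580353909) (nat_lit 0) (nat_lit 995901863388) (nat_lit 5) (nat_lit 5) (nat_lit 7) (nat_lit 4) (nat_lit 5) (nat_lit 4)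 (nat_lit 396) (nat_lit 362) (nat_lit 262)) (XT.nd (nat_lit 78) (nat_lit 0) (nat_lit 0) (XT.lf (nat_lit 0) (nat_lit 716916720146) (nat_lit 76) (nat_lit 907763406327) (nat_lit 76) (nat_lit 777615346259) (nat_lit 4) (nat_lit 4) (nat_lit 5) (nat_lit 5) (nat_lit 5) (nat_lit 4) (nat_lit 397) (nat_lit 362) (nat_lit 261)) (XT.lf (nat_lit 0) (nat_lit 1557252063368) (nat_lit 76) (nat_lit 641510349948) (nat_lit 76) (nat_lit 511362277310) (nat_lit 4) (nat_lit 4) (nat_lit 5) (nat_lit 5) (nat_lit 5) (nat_lit 4) (nat_lit 398) (nat_lit 362) (nat_lit 260)))) (XT.nd (nat_lit 78) (nat_lit 152) (nat_lit 0) (XT.lf (nat_lit 0) (nat_lit 2523637575750) (nat_lit 76) (nat_lit 335319404253) (nat_lit 76) (nat_lit 205171320683) (nat_lit 4) (nat_lit 4) (nat_lit 5) (nat_lit 5) (nat_lit 5) (nat_lit 4) (nat_lit 399) (nat_lit 362) (nat_lit 259)) (XT.nd (nat_lit 78) (nat_lit 0) (nat_lit 0) (XT.lf (nat_lit 0) (nat_lit 142359067121)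 (nat_lit 152) (nat_lit 3297499879679) (nat_lit 0) (nat_lit 29186812274) (nat_lit 2) (nat_lit 5) (nat_lit 4) (nat_lit 4) (nat_lit 2) (nat_lit 4) (nat_lit 400) (nat_lit 362) (nat_lit 258)) (XT.lf (nat_lit 0) (nat_lit 566579212843) (nat_lit 152) (nat_lit 2906414287897) (nat_lit 0) (nat_lit 453406950808) (nat_lit 2) (nat_lit 5) (nat_lit 4) (nat_lit 4) (nat_lit 2) (nat_lit 4) (nat_lit 401) (nat_lit 362) (nat_lit 257))))) (XT.nd (nat_lit 234) (nat_lit 76) (nat_lit 0) (XT.nd (nat_lit 78) (nat_lit 0) (nat_lit 0) (XT.lf (nat_lit 0) (nat_lit 1054432330574) (nat_lit 152) (nat_lit 2456665962508) (nat_lit 0) (nat_lit 941260062290) (nat_lit 2) (nat_lit 5) (nat_lit 4) (nat_lit 4) (nat_lit 2) (nat_lit 4) (nat_lit 402) (nat_lit 362) (nat_lit 256)) (XT.nd (nat_lit 78) (nat_lit 0) (nat_lit 0) (XT.lf (nat_lit 0) (nat_lit 1615463372620) (nat_lit 152) (nat_lit 1939455479753) (nat_lit 0) (nat_lit 1502291098901)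 (nat_lit 2) (nat_lit 5) (nat_lit 4) (nat_lit 4) (nat_lit 2) (nat_lit 4) (nat_lit 403) (nat_lit 362) (nat_lit 255)) (XT.lf (nat_lit 0) (nat_lit 2260649033281) (nat_lit 152) (nat_lit 1344663504102) (nat_lit 0) (nat_lit 2147476754837) (nat_lit 2) (nat_lit 5) (nat_lit 4) (nat_lit 4) (nat_lit 2) (nat_lit 4) (nat_lit 404) (nat_lit 362) (nat_lit 254)))) (XT.nd (nat_lit 78) (nat_lit 76) (nat_lit 0) (XT.lf (nat_lit 0) (nat_lit 3002612510265) (nat_lit 152) (nat_lit 660652801247) (nat_lit 0) (nat_lit 2889440227711) (nat_lit 2) (nat_lit 5) (nat_lit 4) (nat_lit 4) (nat_lit 2) (nat_lit 4) (nat_lit 405) (nat_lit 362) (nat_lit 253)) (XT.nd (nat_lit 78) (nat_lit 0) (nat_lit 0) (XT.lf (nat_lit 0) (nat_lit 138269120131) (nat_lit 76) (nat_lit 3723326789570) (nat_lit 76) (nat_lit 3610154503443) (nat_lit 1) (nat_lit 4) (nat_lit 2) (nat_lit 5) (nat_lit 2) (nat_lit 4) (nat_lit 406) (nat_lit 362) (nat_lit 252))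 (XT.lf (nat_lit 0) (nat_lit 1131277638282) (nat_lit 76) (nat_lit 3752683277313) (nat_lit 76) (nat_lit 3639510988079) (nat_lit 1) (nat_lit 4) (nat_lit 2) (nat_lit 5) (nat_lit 2) (nat_lit 4) (nat_lit 407) (nat_lit 362) (nat_lit 251))))))) (XT.nd (nat_lit 858) (nat_lit 0) (nat_lit 0) (XT.nd (nat_lit 390) (nat_lit 0) (nat_lit 0) (XT.nd (nat_lit 156) (nat_lit 0) (nat_lit 0) (XT.nd (nat_lit 78) (nat_lit 0) (nat_lit 0) (XT.lf (nat_lit 0) (nat_lit 2273237384250) (nat_lit 76) (nat_lit 3786443264506) (nat_lit 76) (nat_lit 3673270972570) (nat_lit 1) (nat_lit 4) (nat_lit 2) (nat_lit 5) (nat_lit 2) (nat_lit 4) (nat_lit 408) (nat_lit 362) (nat_lit 250)) (XT.lf (nat_lit 0) (nat_lit 3586491048715) (nat_lit 76) (nat_lit 3825267272639) (nat_lit 76) (nat_lit 3712094978354) (nat_lit 1) (nat_lit 4) (nat_lit 2) (nat_lit 5) (nat_lit 2) (nat_lit 4) (nat_lit 409) (nat_lit 362) (nat_lit 249))) (XT.nd (nat_lit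 78) (nat_lit 0) (nat_lit 0) (XT.lf (nat_lit 0) (nat_lit 5096732725114) (nat_lit 76) (nat_lit 3869914901871) (nat_lit 76) (nat_lit 3756742605542) (nat_lit 1) (nat_lit 4) (nat_lit 2) (nat_lit 5) (nat_lit 2) (nat_lit 4) (nat_lit 410) (nat_lit 362) (nat_lit 248)) (XT.nd (nat_lit 78) (nat_lit 0) (nat_lit 0) (XT.lf (nat_lit 0) (nat_lit 6833510620158) (nat_lit 76) (nat_lit 3921259692773) (nat_lit 76) (nat_lit 3808087394668) (nat_lit 1) (nat_lit 4) (nat_lit 2) (nat_lit 5) (nat_lit 2) (nat_lit 4) (nat_lit 411) (nat_lit 362) (nat_lit 247)) (XT.lf (nat_lit 0) (nat_lit 8830805170925) (nat_lit 76) (nat_lit 3980306217341) (nat_lit 76) (nat_lit 3867133917691) (nat_lit 1) (nat_lit 4) (nat_lit 2) (nat_lit 5) (nat_lit 2) (nat_lit 4) (nat_lit 412) (nat_lit 362) (nat_lit 246))))) (XT.nd (nat_lit 234) (nat_lit 0) (nat_lit 0) (XT.nd (nat_lit 78) (nat_lit 0) (nat_lit 0) (XT.lf (nat_lit 0) (nat_lit 11127693879494)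 (nat_lit 76) (nat_lit 4048209733665) (nat_lit 76) (nat_lit 3935037432672) (nat_lit 1) (nat_lit 4) (nat_lit 2) (nat_lit 5) (nat_lit 2) (nat_lit 4) (nat_lit 413) (nat_lit 362) (nat_lit 245)) (XT.nd (nat_lit 78) (nat_lit 0) (nat_lit 0) (XT.lf (nat_lit 0) (nat_lit 13769115872773) (nat_lit 76) (nat_lit 4126298788804) (nat_lit 76) (nat_lit 4013126486643) (nat_lit 1) (nat_lit 4) (nat_lit 2) (nat_lit 5) (nat_lit 2) (nat_lit 4) (nat_lit 414) (nat_lit 362) (nat_lit 244)) (XT.lf (nat_lit 0) (nat_lit 16806751146282) (nat_lit 76) (nat_lit 4216101212097) (nat_lit 76) (nat_lit 4102928908920) (nat_lit 1) (nat_lit 4) (nat_lit 2) (nat_lit 5) (nat_lit 2) (nat_lit 4) (nat_lit 415) (nat_lit 362) (nat_lit 243)))) (XT.nd (nat_lit 78) (nat_lit 0) (nat_lit 0) (XT.lf (nat_lit 0) (nat_lit 20300031694503) (nat_lit 76) (nat_lit 4319374007477) (nat_lit 76) (nat_lit 4206201703417) (nat_lit 1) (nat_lit 4) (nat_lit 2)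 (nat_lit 5) (nat_lit 2) (nat_lit 4) (nat_lit 416) (nat_lit 362) (nat_lit 242)) (XT.nd (nat_lit 78) (nat_lit 0) (nat_lit 0) (XT.lf (nat_lit 0) (nat_lit 24317304310770) (nat_lit 76) (nat_lit 4438137729638) (nat_lit 76) (nat_lit 4324965424810) (nat_lit 1) (nat_lit 4) (nat_lit 2) (nat_lit 5) (nat_lit 2) (nat_lit 4) (nat_lit 417) (nat_lit 362) (nat_lit 241)) (XT.lf (nat_lit 0) (nat_lit 28937167807141) (nat_lit 76) (nat_lit 4574716016622) (nat_lit 76) (nat_lit 4461543711125) (nat_lit 1) (nat_lit 4) (nat_lit 2) (nat_lit 5) (nat_lit 2) (nat_lit 4) (nat_lit 418) (nat_lit 362) (nat_lit 240)))))) (XT.nd (nat_lit 468) (nat_lit 0) (nat_lit 0) (XT.nd (nat_lit 234) (nat_lit 0) (nat_lit 0) (XT.nd (nat_lit 78) (nat_lit 0) (nat_lit 0) (XT.lf (nat_lit 0) (nat_lit 34250010817241) (nat_lit 76) (nat_lit 4731781052303) (nat_lit 76) (nat_lit 4618608746226) (nat_lit 1) (nat_lit 4) (nat_lit 2) (nat_lit 5) (nat_lit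 2) (nat_lit 4) (nat_lit 419) (nat_lit 362) (nat_lit 239)) (XT.nd (nat_lit 78) (nat_lit 0) (nat_lit 0) (XT.lf (nat_lit 0) (nat_lit 40359780269527) (nat_lit 76) (nat_lit 4912405848251) (nat_lit 76) (nat_lit 4799233541669) (nat_lit 1) (nat_lit 4) (nat_lit 2) (nat_lit 5) (nat_lit 2) (nat_lit 4) (nat_lit 420) (nat_lit 362) (nat_lit 238)) (XT.lf (nat_lit 0) (nat_lit 47386015131546) (nat_lit 76) (nat_lit 5120124367863) (nat_lit 76) (nat_lit 5006952060842) (nat_lit 1) (nat_lit 4) (nat_lit 2) (nat_lit 5) (nat_lit 2) (nat_lit 4) (nat_lit 421) (nat_lit 362) (nat_lit 237)))) (XT.nd (nat_lit 78) (nat_lit 0) (nat_lit 0) (XT.lf (nat_lit 0) (nat_lit 55466185215814) (nat_lit 76) (nat_lit 5359000669133) (nat_lit 76) (nat_lit 5245828361730) (nat_lit 1) (nat_lit 4) (nat_lit 2) (nat_lit 5) (nat_lit 2) (nat_lit 4) (nat_lit 422) (nat_lit 362) (nat_lit 236)) (XT.nd (nat_lit 78) (nat_lit 0) (nat_lit 0) (XT.lf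 (nat_lit 0) (nat_lit 64758380806590) (nat_lit 76) (nat_lit 5633708418824) (nat_lit 76) (nat_lit 5520536111089) (nat_lit 1) (nat_lit 4) (nat_lit 2) (nat_lit 5) (nat_lit 2) (nat_lit 4) (nat_lit 423) (nat_lit 362) (nat_lit 235)) (XT.lf (nat_lit 0) (nat_lit 75444405730648) (nat_lit 76) (nat_lit 5949622333778) (nat_lit 76) (nat_lit 5836450025755) (nat_lit 1) (nat_lit 4) (nat_lit 2) (nat_lit 5) (nat_lit 2) (nat_lit 4) (nat_lit 424) (nat_lit 362) (nat_lit 234))))) (XT.nd (nat_lit 234) (nat_lit 0) (nat_lit 0) (XT.nd (nat_lit 78) (nat_lit 0) (nat_lit 0) (XT.lf (nat_lit 0) (nat_lit 87733334388677) (nat_lit 76) (nat_lit 6312923338419) (nat_lit 76) (nat_lit 6199751030144) (nat_lit 1) (nat_lit 4) (nat_lit 2) (nat_lit 5) (nat_lit 2) (nat_lit 4) (nat_lit 425) (nat_lit 362) (nat_lit 233)) (XT.nd (nat_lit 78) (nat_lit 0) (nat_lit 0) (XT.lf (nat_lit 0) (nat_lit 101865602341378) (nat_lit 76) (nat_lit 6730719495880)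 (nat_lit 76) (nat_lit 6617547187386) (nat_lit 1) (nat_lit 4) (nat_lit 2) (nat_lit 5) (nat_lit 2) (nat_lit 4) (nat_lit 426) (nat_lit 362) (nat_lit 232)) (XT.lf (nat_lit 0) (nat_lit 118117710483478) (nat_lit 76) (nat_lit 7211185078806) (nat_lit 76) (nat_lit 7098012770124) (nat_lit 1) (nat_lit 4) (nat_lit 2) (nat_lit 5) (nat_lit 2) (nat_lit 4) (nat_lit 427) (nat_lit 362) (nat_lit 231)))) (XT.nd (nat_lit 2574) (nat_lit 0) (nat_lit 0) (XT.lf (nat_lit 0) (nat_lit 136807634843843) (nat_lit 76) (nat_lit 7763720500779) (nat_lit 76) (nat_lit 7650548191931) (nat_lit 1) (nat_lit 4) (nat_lit 2) (nat_lit 5) (nat_lit 2) (nat_lit 4) (nat_lit 428) (nat_lit 362) (nat_lit 230)) (XT.nd (nat_lit 45474) (nat_lit 0) (nat_lit 2128) (XT.lf (nat_lit 0) (nat_lit 14422738262171538) (nat_lit 76) (nat_lit 430102657231722) (nat_lit 76) (nat_lit 429989484921777) (nat_lit 1) (nat_lit 4) (nat_lit 2) (nat_lit 5) (nat_lit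 2) (nat_lit 4) (nat_lit 461) (nat_lit 362) (nat_lit 197)) (XT.lf (nat_lit 0) (nat_lit 13133432700) (nat_lit 380) (nat_lit 18676637544) (nat_lit 380) (nat_lit 18676637544) (nat_lit 29) (nat_lit 3) (nat_lit 34) (nat_lit 3) (nat_lit 34) (nat_lit 5) (nat_lit 363) (nat_lit 363) (nat_lit 294))))))))
noncomputable def xc87 : XT := (XT.nd (nat_lit 1794) (nat_lit 760) (nat_lit 0) (XT.nd (nat_lit 858) (nat_lit 760) (nat_lit 0) (XT.nd (nat_lit 390) (nat_lit 456) (nat_lit 0) (XT.nd (nat_lit 156) (nat_lit 152) (nat_lit 0) (XT.nd (nat_lit 78) (nat_lit 0) (nat_lit 76) (XT.lf (nat_lit 76) (nat_lit 13252887874) (nat_lit 0) (nat_lit 15538683266) (nat_lit 380) (nat_lit 79671639958) (nat_lit 30) (nat_lit 5) (nat_lit 29) (nat_lit 3) (nat_lit 34) (nat_lit 5) (nat_lit 364) (nat_lit 363) (nat_lit 293)) (XT.lf (nat_lit 0) (nat_lit 35385624790) (nat_lit 304) (nat_lit 42875612965) (nat_lit 380) (nat_lit 38261643135)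 (nat_lit 30) (nat_lit 5) (nat_lit 34) (nat_lit 5) (nat_lit 35) (nat_lit 5) (nat_lit 365) (nat_lit 363) (nat_lit 292))) (XT.nd (nat_lit 78) (nat_lit 228) (nat_lit 0) (XT.lf (nat_lit 76) (nat_lit 18187837708) (nat_lit 0) (nat_lit 26273080512) (nat_lit 380) (nat_lit 81106764257) (nat_lit 31) (nat_lit 5) (nat_lit 30) (nat_lit 5) (nat_lit 35) (nat_lit 5) (nat_lit 366) (nat_lit 363) (nat_lit 291)) (XT.nd (nat_lit 78) (nat_lit 304) (nat_lit 0) (XT.lf (nat_lit 0) (nat_lit 58632342072) (nat_lit 304) (nat_lit 43898853485) (nat_lit 76) (nat_lit 32877784231) (nat_lit 31) (nat_lit 5) (nat_lit 35) (nat_lit 5) (nat_lit 32) (nat_lit 5) (nat_lit 367) (nat_lit 363) (nat_lit 290)) (XT.lf (nat_lit 0) (nat_lit 30574407500) (nat_lit 304) (nat_lit 46871471977) (nat_lit 380) (nat_lit 68903133043) (nat_lit 27) (nat_lit 5) (nat_lit 31) (nat_lit 5) (nat_lit 32) (nat_lit 5) (nat_lit 368) (nat_lit 363) (nat_lit 289)))))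 (XT.nd (nat_lit 234) (nat_lit 304) (nat_lit 0) (XT.nd (nat_lit 78) (nat_lit 152) (nat_lit 0) (XT.lf (nat_lit 0) (nat_lit 102194391267) (nat_lit 380) (nat_lit 38253230003) (nat_lit 76) (nat_lit 18015488042) (nat_lit 27) (nat_lit 5) (nat_lit 32) (nat_lit 5) (nat_lit 28) (nat_lit 5) (nat_lit 369) (nat_lit 363) (nat_lit 288)) (XT.nd (nat_lit 78) (nat_lit 0) (nat_lit 0) (XT.lf (nat_lit 0) (nat_lit 53419459545) (nat_lit 152) (nat_lit 81679110267) (nat_lit 228) (nat_lit 36629242934) (nat_lit 25) (nat_lit 5) (nat_lit 27) (nat_lit 5) (nat_lit 28) (nat_lit 5) (nat_lit 370) (nat_lit 363) (nat_lit 287)) (XT.lf (nat_lit 0) (nat_lit 163141538595) (nat_lit 152) (nat_lit 11795913744) (nat_lit 228) (nat_lit 11744908317) (nat_lit 25) (nat_lit 5) (nat_lit 27) (nat_lit 5) (nat_lit 28) (nat_lit 5) (nat_lit 371) (nat_lit 363) (nat_lit 286)))) (XT.nd (nat_lit 78) (nat_lit 152) (nat_lit 0) (XT.lf (nat_lit 0)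 (nat_lit 22277481742) (nat_lit 152) (nat_lit 113229345819) (nat_lit 76) (nat_lit 67232346968) (nat_lit 23) (nat_lit 5) (nat_lit 25) (nat_lit 5) (nat_lit 24) (nat_lit 5) (nat_lit 372) (nat_lit 363) (nat_lit 285)) (XT.nd (nat_lit 78) (nat_lit 152) (nat_lit 0) (XT.lf (nat_lit 0) (nat_lit 62051180242) (nat_lit 152) (nat_lit 36422319) (nat_lit 76) (nat_lit 158755455351) (nat_lit 23) (nat_lit 5) (nat_lit 25) (nat_lit 5) (nat_lit 24) (nat_lit 5) (nat_lit 373) (nat_lit 363) (nat_lit 284)) (XT.lf (nat_lit 0) (nat_lit 114912675893) (nat_lit 228) (nat_lit 99129605387) (nat_lit 76) (nat_lit 26551981474) (nat_lit 21) (nat_lit 5) (nat_lit 24) (nat_lit 5) (nat_lit 22) (nat_lit 4) (nat_lit 374) (nat_lit 363) (nat_lit 283)))))) (XT.nd (nat_lit 468) (nat_lit 380) (nat_lit 0) (XT.nd (nat_lit 234) (nat_lit 152) (nat_lit 0) (XT.nd (nat_lit 78) (nat_lit 152) (nat_lit 0) (XT.lf (nat_lit 0) (nat_lit 41636686875)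 (nat_lit 76) (nat_lit 138748975812) (nat_lit 152) (nat_lit 82220145885) (nat_lit 20) (nat_lit 5) (nat_lit 21) (nat_lit 5) (nat_lit 22) (nat_lit 4) (nat_lit 375) (nat_lit 363) (nat_lit 282)) (XT.nd (nat_lit 78) (nat_lit 152) (nat_lit 0) (XT.lf (nat_lit 0) (nat_lit 214658180077) (nat_lit 76) (nat_lit 46202850265) (nat_lit 152) (nat_lit 26280841228) (nat_lit 20) (nat_lit 5) (nat_lit 21) (nat_lit 5) (nat_lit 22) (nat_lit 4) (nat_lit 376) (nat_lit 363) (nat_lit 281)) (XT.lf (nat_lit 0) (nat_lit 41835134747) (nat_lit 152) (nat_lit 211092295977) (nat_lit 76) (nat_lit 61118603147) (nat_lit 18) (nat_lit 5) (nat_lit 20) (nat_lit 5) (nat_lit 19) (nat_lit 4) (nat_lit 377) (nat_lit 363) (nat_lit 280)))) (XT.nd (nat_lit 78) (nat_lit 152) (nat_lit 0) (XT.lf (nat_lit 0) (nat_lit 123647030474) (nat_lit 152) (nat_lit 35197079994) (nat_lit 76) (nat_lit 185028612769) (nat_lit 18) (nat_lit 5) (nat_lit 20)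 (nat_lit 5) (nat_lit 19) (nat_lit 4) (nat_lit 378) (nat_lit 363) (nat_lit 279)) (XT.nd (nat_lit 78) (nat_lit 76) (nat_lit 0) (XT.lf (nat_lit 0) (nat_lit 183410422896) (nat_lit 76) (nat_lit 41914661432) (nat_lit 152) (nat_lit 151709175749) (nat_lit 17) (nat_lit 5) (nat_lit 18) (nat_lit 5) (nat_lit 19) (nat_lit 4) (nat_lit 379) (nat_lit 363) (nat_lit 278)) (XT.lf (nat_lit 0) (nat_lit 21899792036) (nat_lit 76) (nat_lit 327021556400) (nat_lit 76) (nat_lit 65248703797) (nat_lit 16) (nat_lit 4) (nat_lit 17) (nat_lit 5) (nat_lit 17) (nat_lit 4) (nat_lit 380) (nat_lit 363) (nat_lit 277))))) (XT.nd (nat_lit 234) (nat_lit 228) (nat_lit 0) (XT.nd (nat_lit 78) (nat_lit 76) (nat_lit 0) (XT.lf (nat_lit 0) (nat_lit 43736720844) (nat_lit 152) (nat_lit 167739108520) (nat_lit 76) (nat_lit 243298246107) (nat_lit 15) (nat_lit 5) (nat_lit 17) (nat_lit 5) (nat_lit 16) (nat_lit 4) (nat_lit 381) (nat_lit 363)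 (nat_lit 276)) (XT.nd (nat_lit 78) (nat_lit 0) (nat_lit 0) (XT.lf (nat_lit 0) (nat_lit 95902092846) (nat_lit 76) (nat_lit 70458525796) (nat_lit 152) (nat_lit 334046388875) (nat_lit 14) (nat_lit 5) (nat_lit 15) (nat_lit 5) (nat_lit 16) (nat_lit 4) (nat_lit 382) (nat_lit 363) (nat_lit 275)) (XT.lf (nat_lit 0) (nat_lit 320361173799) (nat_lit 152) (nat_lit 137844108153) (nat_lit 0) (nat_lit 92732136581) (nat_lit 14) (nat_lit 5) (nat_lit 16) (nat_lit 4) (nat_lit 14) (nat_lit 4) (nat_lit 383) (nat_lit 363) (nat_lit 274)))) (XT.nd (nat_lit 78) (nat_lit 152) (nat_lit 0) (XT.lf (nat_lit 0) (nat_lit 181630274531) (nat_lit 76) (nat_lit 326707442897) (nat_lit 76) (nat_lit 99078288050) (nat_lit 13) (nat_lit 4) (nat_lit 14) (nat_lit 5) (nat_lit 14) (nat_lit 4) (nat_lit 384) (nat_lit 363) (nat_lit 273)) (XT.nd (nat_lit 78) (nat_lit 76) (nat_lit 0) (XT.lf (nat_lit 0) (nat_lit 55050532844) (nat_lit 152)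 (nat_lit 109270611517) (nat_lit 76) (nat_lit 506589094762) (nat_lit 12) (nat_lit 5) (nat_lit 14) (nat_lit 5) (nat_lit 13) (nat_lit 4) (nat_lit 385) (nat_lit 363) (nat_lit 272)) (XT.lf (nat_lit 0) (nat_lit 235212867507) (nat_lit 152) (nat_lit 468775044569) (nat_lit 0) (nat_lit 37274305700) (nat_lit 11) (nat_lit 5) (nat_lit 13) (nat_lit 4) (nat_lit 11) (nat_lit 4) (nat_lit 386) (nat_lit 363) (nat_lit 271))))))) (XT.nd (nat_lit 858) (nat_lit 304) (nat_lit 0) (XT.nd (nat_lit 390) (nat_lit 228) (nat_lit 0) (XT.nd (nat_lit 156) (nat_lit 152) (nat_lit 0) (XT.nd (nat_lit 78) (nat_lit 76) (nat_lit 0) (XT.lf (nat_lit 0) (nat_lit 456208078233) (nat_lit 152) (nat_lit 105618186976) (nat_lit 0) (nat_lit 258269449171) (nat_lit 11) (nat_lit 5) (nat_lit 13) (nat_lit 4) (nat_lit 11) (nat_lit 4) (nat_lit 387) (nat_lit 363) (nat_lit 270)) (XT.lf (nat_lit 0) (nat_lit 342503998280) (nat_lit 76) (nat_lit 382030795633)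 (nat_lit 76) (nat_lit 184092108088) (nat_lit 10) (nat_lit 4) (nat_lit 11) (nat_lit 5) (nat_lit 11) (nat_lit 4) (nat_lit 388) (nat_lit 363) (nat_lit 269))) (XT.nd (nat_lit 78) (nat_lit 76) (nat_lit 0) (XT.lf (nat_lit 0) (nat_lit 26437981284) (nat_lit 152) (nat_lit 141097078636) (nat_lit 76) (nat_lit 841894325785) (nat_lit 9) (nat_lit 5) (nat_lit 11) (nat_lit 5) (nat_lit 10) (nat_lit 4) (nat_lit 389) (nat_lit 363) (nat_lit 268)) (XT.nd (nat_lit 78) (nat_lit 0) (nat_lit 0) (XT.lf (nat_lit 0) (nat_lit 269533052247) (nat_lit 152) (nat_lit 754116925370) (nat_lit 0) (nat_lit 97412371708) (nat_lit 8) (nat_lit 5) (nat_lit 10) (nat_lit 4) (nat_lit 8) (nat_lit 4) (nat_lit 390) (nat_lit 363) (nat_lit 267)) (XT.lf (nat_lit 0) (nat_lit 564796871412) (nat_lit 152) (nat_lit 289611555523) (nat_lit 0) (nat_lit 392676157435) (nat_lit 8) (nat_lit 5) (nat_lit 10) (nat_lit 4) (nat_lit 8) (nat_lit 4) (nat_lit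 391) (nat_lit 363) (nat_lit 266))))) (XT.nd (nat_lit 234) (nat_lit 76) (nat_lit 0) (XT.nd (nat_lit 78) (nat_lit 76) (nat_lit 0) (XT.lf (nat_lit 0) (nat_lit 268470511443) (nat_lit 76) (nat_lit 646996441440) (nat_lit 76) (nat_lit 474875698387) (nat_lit 7) (nat_lit 4) (nat_lit 8) (nat_lit 5) (nat_lit 8) (nat_lit 4) (nat_lit 392) (nat_lit 363) (nat_lit 265)) (XT.nd (nat_lit 78) (nat_lit 76) (nat_lit 0) (XT.lf (nat_lit 0) (nat_lit 942813077794) (nat_lit 76) (nat_lit 391063157711) (nat_lit 76) (nat_lit 218942389375) (nat_lit 7) (nat_lit 4) (nat_lit 8) (nat_lit 5) (nat_lit 8) (nat_lit 4) (nat_lit 393) (nat_lit 363) (nat_lit 264)) (XT.lf (nat_lit 0) (nat_lit 68669897270) (nat_lit 152) (nat_lit 24480511189) (nat_lit 76) (nat_lit 1646047394880) (nat_lit 6) (nat_lit 5) (nat_lit 8) (nat_lit 5) (nat_lit 7) (nat_lit 4) (nat_lit 394) (nat_lit 363) (nat_lit 263)))) (XT.nd (nat_lit 78) (nat_lit 0) (nat_lit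 0) (XT.lf (nat_lit 0) (nat_lit 418236298059) (nat_lit 152) (nat_lit 1258983487104) (nat_lit 0) (nat_lit 268566028981) (nat_lit 5) (nat_lit 5) (nat_lit 7) (nat_lit 4) (nat_lit 5) (nat_lit 4) (nat_lit 395) (nat_lit 363) (nat_lit 262)) (XT.nd (nat_lit 78) (nat_lit 0) (nat_lit 0) (XT.lf (nat_lit 0) (nat_lit 826013915811) (nat_lit 152) (nat_lit 680138039959) (nat_lit 0) (nat_lit 676343632277) (nat_lit 5) (nat_lit 5) (nat_lit 7) (nat_lit 4) (nat_lit 5) (nat_lit 4) (nat_lit 396) (nat_lit 363) (nat_lit 261)) (XT.lf (nat_lit 0) (nat_lit 1294958109867) (nat_lit 152) (nat_lit 14465914368) (nat_lit 0) (nat_lit 1145287813763) (nat_lit 5) (nat_lit 5) (nat_lit 7) (nat_lit 4) (nat_lit 5) (nat_lit 4) (nat_lit 397) (nat_lit 363) (nat_lit 260)))))) (XT.nd (nat_lit 468) (nat_lit 76) (nat_lit 0) (XT.nd (nat_lit 234) (nat_lit 152) (nat_lit 0) (XT.nd (nat_lit 78) (nat_lit 0) (nat_lit 0) (XT.lf (nat_lit 0) (nat_lit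 824455652949) (nat_lit 76) (nat_lit 1043927172811) (nat_lit 76) (nat_lit 894256865776) (nat_lit 4) (nat_lit 4) (nat_lit 5) (nat_lit 5) (nat_lit 5) (nat_lit 4) (nat_lit 398) (nat_lit 363) (nat_lit 259)) (XT.nd (nat_lit 78) (nat_lit 0) (nat_lit 0) (XT.lf (nat_lit 0) (nat_lit 1790841111814) (nat_lit 76) (nat_lit 737736255080) (nat_lit 76) (nat_lit 588065938539) (nat_lit 4) (nat_lit 4) (nat_lit 5) (nat_lit 5) (nat_lit 5) (nat_lit 4) (nat_lit 399) (nat_lit 363) (nat_lit 258)) (XT.lf (nat_lit 0) (nat_lit 2902184289453) (nat_lit 76) (nat_lit 385616751968) (nat_lit 76) (nat_lit 235946427162) (nat_lit 4) (nat_lit 4) (nat_lit 5) (nat_lit 5) (nat_lit 5) (nat_lit 4) (nat_lit 400) (nat_lit 363) (nat_lit 257)))) (XT.nd (nat_lit 78) (nat_lit 0) (nat_lit 0) (XT.lf (nat_lit 0) (nat_lit 163713463921) (nat_lit 152) (nat_lit 3792123729328) (nat_lit 0) (nat_lit 33565349144) (nat_lit 2) (nat_lit 5) (nat_lit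 4) (nat_lit 4) (nat_lit 2) (nat_lit 4) (nat_lit 401) (nat_lit 363) (nat_lit 256)) (XT.nd (nat_lit 78) (nat_lit 0) (nat_lit 0) (XT.lf (nat_lit 0) (nat_lit 651566561492) (nat_lit 152) (nat_lit 3342375446471) (nat_lit 0) (nat_lit 521418441281) (nat_lit 2) (nat_lit 5) (nat_lit 4) (nat_lit 4) (nat_lit 2) (nat_lit 4) (nat_lit 402) (nat_lit 363) (nat_lit 255)) (XT.lf (nat_lit 0) (nat_lit 1212597586006) (nat_lit 152) (nat_lit 2825165000701) (nat_lit 0) (nat_lit 1082449461070) (nat_lit 2) (nat_lit 5) (nat_lit 4) (nat_lit 4) (nat_lit 2) (nat_lit 4) (nat_lit 403) (nat_lit 363) (nat_lit 254))))) (XT.nd (nat_lit 234) (nat_lit 76) (nat_lit 0) (XT.nd (nat_lit 78) (nat_lit 0) (nat_lit 0) (XT.lf (nat_lit 0) (nat_lit 1857783231423) (nat_lit 152) (nat_lit 2230373057209) (nat_lit 0) (nat_lit 1727635102377) (nat_lit 2) (nat_lit 5) (nat_lit 4) (nat_lit 4) (nat_lit 2) (nat_lit 4) (nat_lit 404) (nat_lit 363)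 (nat_lit 253)) (XT.nd (nat_lit 78) (nat_lit 0) (nat_lit 0) (XT.lf (nat_lit 0) (nat_lit 2599746695151) (nat_lit 152) (nat_lit 1546362382319) (nat_lit 0) (nat_lit 2469598562532) (nat_lit 2) (nat_lit 5) (nat_lit 4) (nat_lit 4) (nat_lit 2) (nat_lit 4) (nat_lit 405) (nat_lit 363) (nat_lit 252)) (XT.lf (nat_lit 0) (nat_lit 3453004653655) (nat_lit 152) (nat_lit 759750158479) (nat_lit 0) (nat_lit 3322856517929) (nat_lit 2) (nat_lit 5) (nat_lit 4) (nat_lit 4) (nat_lit 2) (nat_lit 4) (nat_lit 406) (nat_lit 363) (nat_lit 251)))) (XT.nd (nat_lit 78) (nat_lit 0) (nat_lit 0) (XT.lf (nat_lit 0) (nat_lit 159010025516) (nat_lit 76) (nat_lit 4281825524935) (nat_lit 76) (nat_lit 4151677386506) (nat_lit 1) (nat_lit 4) (nat_lit 2) (nat_lit 5) (nat_lit 2) (nat_lit 4) (nat_lit 407) (nat_lit 363) (nat_lit 250)) (XT.nd (nat_lit 78) (nat_lit 0) (nat_lit 0) (XT.lf (nat_lit 0) (nat_lit 1300969751299) (nat_lit 76)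 (nat_lit 4315585522761) (nat_lit 76) (nat_lit 4185437381983) (nat_lit 1) (nat_lit 4) (nat_lit 2) (nat_lit 5) (nat_lit 2) (nat_lit 4) (nat_lit 408) (nat_lit 363) (nat_lit 249)) (XT.lf (nat_lit 0) (nat_lit 2614223398213) (nat_lit 76) (nat_lit 4354409540140) (nat_lit 76) (nat_lit 4224261397319) (nat_lit 1) (nat_lit 4) (nat_lit 2) (nat_lit 5) (nat_lit 2) (nat_lit 4) (nat_lit 409) (nat_lit 363) (nat_lit 248))))))))
noncomputable def xc88 : XT := (XT.nd (nat_lit 49764) (nat_lit 0) (nat_lit 684) (XT.nd (nat_lit 858) (nat_lit 0) (nat_lit 0) (XT.nd (nat_lit 390) (nat_lit 0) (nat_lit 0) (XT.nd (nat_lit 156) (nat_lit 0) (nat_lit 0) (XT.nd (nat_lit 78) (nat_lit 0) (nat_lit 0) (XT.lf (nat_lit 0) (nat_lit 4124465059349) (nat_lit 76) (nat_lit 4399057177411) (nat_lit 76) (nat_lit 4268909032814) (nat_lit 1) (nat_lit 4) (nat_lit 2) (nat_lit 5) (nat_lit 2) (nat_lit 4) (nat_lit 410) (nat_lit 363) (nat_lit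 247)) (XT.lf (nat_lit 0) (nat_lit 5861242941122) (nat_lit 76) (nat_lit 4450401975305) (nat_lit 76) (nat_lit 4320253829162) (nat_lit 1) (nat_lit 4) (nat_lit 2) (nat_lit 5) (nat_lit 2) (nat_lit 4) (nat_lit 411) (nat_lit 363) (nat_lit 246))) (XT.nd (nat_lit 78) (nat_lit 0) (nat_lit 0) (XT.lf (nat_lit 0) (nat_lit 7858537480348) (nat_lit 76) (nat_lit 4509448505952) (nat_lit 76) (nat_lit 4379300358467) (nat_lit 1) (nat_lit 4) (nat_lit 2) (nat_lit 5) (nat_lit 2) (nat_lit 4) (nat_lit 412) (nat_lit 363) (nat_lit 245)) (XT.nd (nat_lit 78) (nat_lit 0) (nat_lit 0) (XT.lf (nat_lit 0) (nat_lit 10155426178882) (nat_lit 76) (nat_lit 4577352027563) (nat_lit 76) (nat_lit 4447203878909) (nat_lit 1) (nat_lit 4) (nat_lit 2) (nat_lit 5) (nat_lit 2) (nat_lit 4) (nat_lit 413) (nat_lit 363) (nat_lit 244)) (XT.lf (nat_lit 0) (nat_lit 12796848163434) (nat_lit 76) (nat_lit 4655441087299) (nat_lit 76) (nat_lit 4525292937629)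 (nat_lit 1) (nat_lit 4) (nat_lit 2) (nat_lit 5) (nat_lit 2) (nat_lit 4) (nat_lit 414) (nat_lit 363) (nat_lit 243))))) (XT.nd (nat_lit 234) (nat_lit 0) (nat_lit 0) (XT.nd (nat_lit 78) (nat_lit 0) (nat_lit 0) (XT.lf (nat_lit 0) (nat_lit 15834483429355) (nat_lit 76) (nat_lit 4745243514588) (nat_lit 76) (nat_lit 4615095364036) (nat_lit 1) (nat_lit 4) (nat_lit 2) (nat_lit 5) (nat_lit 2) (nat_lit 4) (nat_lit 415) (nat_lit 363) (nat_lit 242)) (XT.nd (nat_lit 78) (nat_lit 0) (nat_lit 0) (XT.lf (nat_lit 0) (nat_lit 19327763970977) (nat_lit 76) (nat_lit 4848516313445) (nat_lit 76) (nat_lit 4718368162124) (nat_lit 1) (nat_lit 4) (nat_lit 2) (nat_lit 5) (nat_lit 2) (nat_lit 4) (nat_lit 416) (nat_lit 363) (nat_lit 241)) (XT.lf (nat_lit 0) (nat_lit 23345036581507) (nat_lit 76) (nat_lit 4967280038628) (nat_lit 76) (nat_lit 4837131886640) (nat_lit 1) (nat_lit 4) (nat_lit 2) (nat_lit 5) (nat_lit 2) (nat_lit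 4) (nat_lit 417) (nat_lit 363) (nat_lit 240)))) (XT.nd (nat_lit 78) (nat_lit 0) (nat_lit 0) (XT.lf (nat_lit 0) (nat_lit 27964900072888) (nat_lit 76) (nat_lit 5103858328240) (nat_lit 76) (nat_lit 4973710175670) (nat_lit 1) (nat_lit 4) (nat_lit 2) (nat_lit 5) (nat_lit 2) (nat_lit 4) (nat_lit 418) (nat_lit 363) (nat_lit 239)) (XT.nd (nat_lit 78) (nat_lit 0) (nat_lit 0) (XT.lf (nat_lit 0) (nat_lit 33277743078650) (nat_lit 76) (nat_lit 5260923366207) (nat_lit 76) (nat_lit 5130775213132) (nat_lit 1) (nat_lit 4) (nat_lit 2) (nat_lit 5) (nat_lit 2) (nat_lit 4) (nat_lit 419) (nat_lit 363) (nat_lit 238)) (XT.lf (nat_lit 0) (nat_lit 39387512527164) (nat_lit 76) (nat_lit 5441548164142) (nat_lit 76) (nat_lit 5311400010628) (nat_lit 1) (nat_lit 4) (nat_lit 2) (nat_lit 5) (nat_lit 2) (nat_lit 4) (nat_lit 420) (nat_lit 363) (nat_lit 237)))))) (XT.nd (nat_lit 390) (nat_lit 0) (nat_lit 0) (XT.nd (nat_lit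 156) (nat_lit 0) (nat_lit 0) (XT.nd (nat_lit 78) (nat_lit 0) (nat_lit 0) (XT.lf (nat_lit 0) (nat_lit 46413747385902) (nat_lit 76) (nat_lit 5649266685483) (nat_lit 76) (nat_lit 5519118531587) (nat_lit 1) (nat_lit 4) (nat_lit 2) (nat_lit 5) (nat_lit 2) (nat_lit 4) (nat_lit 421) (nat_lit 363) (nat_lit 236)) (XT.lf (nat_lit 0) (nat_lit 54493917467317) (nat_lit 76) (nat_lit 5888142988255) (nat_lit 76) (nat_lit 5757994834027) (nat_lit 1) (nat_lit 4) (nat_lit 2) (nat_lit 5) (nat_lit 2) (nat_lit 4) (nat_lit 422) (nat_lit 363) (nat_lit 235))) (XT.nd (nat_lit 78) (nat_lit 0) (nat_lit 0) (XT.lf (nat_lit 0) (nat_lit 63786113055612) (nat_lit 76) (nat_lit 6162850739253) (nat_lit 76) (nat_lit 6032702584737) (nat_lit 1) (nat_lit 4) (nat_lit 2) (nat_lit 5) (nat_lit 2) (nat_lit 4) (nat_lit 423) (nat_lit 363) (nat_lit 234)) (XT.nd (nat_lit 78) (nat_lit 0) (nat_lit 0) (XT.lf (nat_lit 0) (nat_lit 74472137977513)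 (nat_lit 76) (nat_lit 6478764655343) (nat_lit 76) (nat_lit 6348616500576) (nat_lit 1) (nat_lit 4) (nat_lit 2) (nat_lit 5) (nat_lit 2) (nat_lit 4) (nat_lit 424) (nat_lit 363) (nat_lit 233)) (XT.lf (nat_lit 0) (nat_lit 86761066633667) (nat_lit 76) (nat_lit 6842065660972) (nat_lit 76) (nat_lit 6711917505986) (nat_lit 1) (nat_lit 4) (nat_lit 2) (nat_lit 5) (nat_lit 2) (nat_lit 4) (nat_lit 425) (nat_lit 363) (nat_lit 232))))) (XT.nd (nat_lit 48282) (nat_lit 0) (nat_lit 2128) (XT.nd (nat_lit 78) (nat_lit 0) (nat_lit 0) (XT.lf (nat_lit 0) (nat_lit 100893334584737) (nat_lit 76) (nat_lit 7259861819292) (nat_lit 76) (nat_lit 7129713664116) (nat_lit 1) (nat_lit 4) (nat_lit 2) (nat_lit 5) (nat_lit 2) (nat_lit 4) (nat_lit 426) (nat_lit 363) (nat_lit 231)) (XT.nd (nat_lit 78) (nat_lit 0) (nat_lit 0) (XT.lf (nat_lit 0) (nat_lit 117145442725418) (nat_lit 76) (nat_lit 7740327402966) (nat_lit 76) (nat_lit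 7610179247625) (nat_lit 1) (nat_lit 4) (nat_lit 2) (nat_lit 5) (nat_lit 2) (nat_lit 4) (nat_lit 427) (nat_lit 363) (nat_lit 230)) (XT.lf (nat_lit 0) (nat_lit 135835367084550) (nat_lit 76) (nat_lit 8292862825588) (nat_lit 76) (nat_lit 8162714670103) (nat_lit 1) (nat_lit 4) (nat_lit 2) (nat_lit 5) (nat_lit 2) (nat_lit 4) (nat_lit 428) (nat_lit 363) (nat_lit 229)))) (XT.nd (nat_lit 78) (nat_lit 0) (nat_lit 0) (XT.lf (nat_lit 0) (nat_lit 15109119604) (nat_lit 380) (nat_lit 21474868410) (nat_lit 380) (nat_lit 21474868410) (nat_lit 29) (nat_lit 3) (nat_lit 34) (nat_lit 3) (nat_lit 34) (nat_lit 5) (nat_lit 364) (nat_lit 364) (nat_lit 292)) (XT.nd (nat_lit 78) (nat_lit 0) (nat_lit 76) (XT.lf (nat_lit 76) (nat_lit 15247053790) (nat_lit 0) (nat_lit 17873375452) (nat_lit 380) (nat_lit 91610733449) (nat_lit 30) (nat_lit 5) (nat_lit 29) (nat_lit 3) (nat_lit 34) (nat_lit 5) (nat_lit 365) (nat_lit 364)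 (nat_lit 291)) (XT.lf (nat_lit 0) (nat_lit 40702130566) (nat_lit 304) (nat_lit 49300064588) (nat_lit 380) (nat_lit 43997808381) (nat_lit 30) (nat_lit 5) (nat_lit 34) (nat_lit 5) (nat_lit 35) (nat_lit 5) (nat_lit 366) (nat_lit 364) (nat_lit 290))))))) (XT.nd (nat_lit 858) (nat_lit 760) (nat_lit 0) (XT.nd (nat_lit 390) (nat_lit 380) (nat_lit 0) (XT.nd (nat_lit 156) (nat_lit 380) (nat_lit 0) (XT.nd (nat_lit 78) (nat_lit 0) (nat_lit 76) (XT.lf (nat_lit 76) (nat_lit 20922590489) (nat_lit 0) (nat_lit 30215270033) (nat_lit 380) (nat_lit 93263794789) (nat_lit 31) (nat_lit 5) (nat_lit 30) (nat_lit 5) (nat_lit 35) (nat_lit 5) (nat_lit 367) (nat_lit 364) (nat_lit 289)) (XT.lf (nat_lit 0) (nat_lit 67433935768) (nat_lit 304) (nat_lit 50476892387) (nat_lit 76) (nat_lit 37808479546) (nat_lit 31) (nat_lit 5) (nat_lit 35) (nat_lit 5) (nat_lit 32) (nat_lit 5) (nat_lit 368) (nat_lit 364) (nat_lit 288)))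 (XT.nd (nat_lit 78) (nat_lit 152) (nat_lit 0) (XT.lf (nat_lit 0) (nat_lit 35167049150) (nat_lit 304) (nat_lit 53901843537) (nat_lit 380) (nat_lit 79231545325) (nat_lit 27) (nat_lit 5) (nat_lit 31) (nat_lit 5) (nat_lit 32) (nat_lit 5) (nat_lit 369) (nat_lit 364) (nat_lit 287)) (XT.nd (nat_lit 78) (nat_lit 152) (nat_lit 0) (XT.lf (nat_lit 0) (nat_lit 117528894088) (nat_lit 380) (nat_lit 43984786286) (nat_lit 76) (nat_lit 20718087896) (nat_lit 27) (nat_lit 5) (nat_lit 32) (nat_lit 5) (nat_lit 28) (nat_lit 5) (nat_lit 370) (nat_lit 364) (nat_lit 286)) (XT.lf (nat_lit 0) (nat_lit 61438514503) (nat_lit 152) (nat_lit 93929741931) (nat_lit 228) (nat_lit 42117987991) (nat_lit 25) (nat_lit 5) (nat_lit 27) (nat_lit 5) (nat_lit 28) (nat_lit 5) (nat_lit 371) (nat_lit 364) (nat_lit 285))))) (XT.nd (nat_lit 234) (nat_lit 228) (nat_lit 0) (XT.nd (nat_lit 78) (nat_lit 152) (nat_lit 0) (XT.lf (nat_lit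 0) (nat_lit 187618105059) (nat_lit 152) (nat_lit 13564227000) (nat_lit 228) (nat_lit 13501739014) (nat_lit 25) (nat_lit 5) (nat_lit 27) (nat_lit 5) (nat_lit 28) (nat_lit 5) (nat_lit 372) (nat_lit 364) (nat_lit 284)) (XT.nd (nat_lit 78) (nat_lit 0) (nat_lit 0) (XT.lf (nat_lit 0) (nat_lit 25623276195) (nat_lit 152) (nat_lit 130207671502) (nat_lit 76) (nat_lit 77318473855) (nat_lit 23) (nat_lit 5) (nat_lit 25) (nat_lit 5) (nat_lit 24) (nat_lit 5) (nat_lit 373) (nat_lit 364) (nat_lit 283)) (XT.lf (nat_lit 0) (nat_lit 71362485271) (nat_lit 152) (nat_lit 36602023) (nat_lit 76) (nat_lit 182569882211) (nat_lit 23) (nat_lit 5) (nat_lit 25) (nat_lit 5) (nat_lit 24) (nat_lit 5) (nat_lit 374) (nat_lit 364) (nat_lit 282)))) (XT.nd (nat_lit 78) (nat_lit 76) (nat_lit 0) (XT.lf (nat_lit 0) (nat_lit 132153010452) (nat_lit 228) (nat_lit 113993565219) (nat_lit 76) (nat_lit 30536309004) (nat_lit 21) (nat_lit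 5) (nat_lit 24) (nat_lit 5) (nat_lit 22) (nat_lit 4) (nat_lit 375) (nat_lit 364) (nat_lit 281)) (XT.nd (nat_lit 78) (nat_lit 0) (nat_lit 0) (XT.lf (nat_lit 0) (nat_lit 47887421748) (nat_lit 76) (nat_lit 159559292351) (nat_lit 152) (nat_lit 94549483270) (nat_lit 20) (nat_lit 5) (nat_lit 21) (nat_lit 5) (nat_lit 22) (nat_lit 4) (nat_lit 376) (nat_lit 364) (nat_lit 280)) (XT.lf (nat_lit 0) (nat_lit 246861456517) (nat_lit 76) (nat_lit 53131512733) (nat_lit 152) (nat_lit 30219763501) (nat_lit 20) (nat_lit 5) (nat_lit 21) (nat_lit 5) (nat_lit 22) (nat_lit 4) (nat_lit 377) (nat_lit 364) (nat_lit 279)))))) (XT.nd (nat_lit 468) (nat_lit 304) (nat_lit 0) (XT.nd (nat_lit 234) (nat_lit 228) (nat_lit 0) (XT.nd (nat_lit 78) (nat_lit 76) (nat_lit 0) (XT.lf (nat_lit 0) (nat_lit 48113212249) (nat_lit 152) (nat_lit 242751191231) (nat_lit 76) (nat_lit 70288112939) (nat_lit 18) (nat_lit 5) (nat_lit 20) (nat_lit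 5) (nat_lit 19) (nat_lit 4) (nat_lit 378) (nat_lit 364) (nat_lit 278)) (XT.nd (nat_lit 78) (nat_lit 76) (nat_lit 0) (XT.lf (nat_lit 0) (nat_lit 142196526167) (nat_lit 152) (nat_lit 40472338391) (nat_lit 76) (nat_lit 212784399746) (nat_lit 18) (nat_lit 5) (nat_lit 20) (nat_lit 5) (nat_lit 19) (nat_lit 4) (nat_lit 379) (nat_lit 364) (nat_lit 277)) (XT.lf (nat_lit 0) (nat_lit 210926094314) (nat_lit 76) (nat_lit 48200045480) (nat_lit 152) (nat_lit 174462914284) (nat_lit 17) (nat_lit 5) (nat_lit 18) (nat_lit 5) (nat_lit 19) (nat_lit 4) (nat_lit 380) (nat_lit 364) (nat_lit 276)))) (XT.nd (nat_lit 78) (nat_lit 152) (nat_lit 0) (XT.lf (nat_lit 0) (nat_lit 25188939682) (nat_lit 76) (nat_lit 376072843169) (nat_lit 76) (nat_lit 75033441448) (nat_lit 16) (nat_lit 4) (nat_lit 17) (nat_lit 5) (nat_lit 17) (nat_lit 4) (nat_lit 381) (nat_lit 364) (nat_lit 275)) (XT.nd (nat_lit 78) (nat_lit 76) (nat_lit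 0) (XT.lf (nat_lit 0) (nat_lit 50299263149) (nat_lit 152) (nat_lit 192896141514) (nat_lit 76) (nat_lit 279794476287) (nat_lit 15) (nat_lit 5) (nat_lit 17) (nat_lit 5) (nat_lit 16) (nat_lit 4) (nat_lit 382) (nat_lit 364) (nat_lit 274)) (XT.lf (nat_lit 0) (nat_lit 110291065816) (nat_lit 76) (nat_lit 81025565986) (nat_lit 152) (nat_lit 384151138166) (nat_lit 14) (nat_lit 5) (nat_lit 15) (nat_lit 5) (nat_lit 16) (nat_lit 4) (nat_lit 383) (nat_lit 364) (nat_lit 273))))) (XT.nd (nat_lit 234) (nat_lit 152) (nat_lit 0) (XT.nd (nat_lit 78) (nat_lit 152) (nat_lit 0) (XT.lf (nat_lit 0) (nat_lit 368417082354) (nat_lit 152) (nat_lit 158517354181) (nat_lit 0) (nat_lit 106643334364) (nat_lit 14) (nat_lit 5) (nat_lit 16) (nat_lit 4) (nat_lit 14) (nat_lit 4) (nat_lit 384) (nat_lit 364) (nat_lit 272)) (XT.nd (nat_lit 78) (nat_lit 76) (nat_lit 0) (XT.lf (nat_lit 0) (nat_lit 208878032716) (nat_lit 76) (nat_lit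 375711982045) (nat_lit 76) (nat_lit 113938145111) (nat_lit 13) (nat_lit 4) (nat_lit 14) (nat_lit 5) (nat_lit 14) (nat_lit 4) (nat_lit 385) (nat_lit 364) (nat_lit 271)) (XT.lf (nat_lit 0) (nat_lit 63309606883) (nat_lit 152) (nat_lit 125658259478) (nat_lit 76) (nat_lit 582578684158) (nat_lit 12) (nat_lit 5) (nat_lit 14) (nat_lit 5) (nat_lit 13) (nat_lit 4) (nat_lit 386) (nat_lit 364) (nat_lit 270)))) (XT.nd (nat_lit 78) (nat_lit 76) (nat_lit 0) (XT.lf (nat_lit 0) (nat_lit 270496270953) (nat_lit 152) (nat_lit 539088336387) (nat_lit 0) (nat_lit 42866721795) (nat_lit 11) (nat_lit 5) (nat_lit 13) (nat_lit 4) (nat_lit 11) (nat_lit 4) (nat_lit 387) (nat_lit 364) (nat_lit 269)) (XT.nd (nat_lit 78) (nat_lit 76) (nat_lit 0) (XT.lf (nat_lit 0) (nat_lit 524640571116) (nat_lit 152) (nat_lit 121458336877) (nat_lit 0) (nat_lit 297010971103) (nat_lit 11) (nat_lit 5) (nat_lit 13) (nat_lit 4) (nat_lit 11)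 (nat_lit 4) (nat_lit 388) (nat_lit 364) (nat_lit 268)) (XT.lf (nat_lit 0) (nat_lit 393882058980) (nat_lit 76) (nat_lit 439334169965) (nat_lit 76) (nat_lit 211704525731) (nat_lit 10) (nat_lit 4) (nat_lit 11) (nat_lit 5) (nat_lit 11) (nat_lit 4) (nat_lit 389) (nat_lit 364) (nat_lit 267))))))))
noncomputable def xc89 : XT := (XT.nd (nat_lit 1794) (nat_lit 0) (nat_lit 0) (XT.nd (nat_lit 858) (nat_lit 228) (nat_lit 0) (XT.nd (nat_lit 390) (nat_lit 228) (nat_lit 0) (XT.nd (nat_lit 156) (nat_lit 76) (nat_lit 0) (XT.nd (nat_lit 78) (nat_lit 76) (nat_lit 0) (XT.lf (nat_lit 0) (nat_lit 30404786355) (nat_lit 152) (nat_lit 162259392022) (nat_lit 76) (nat_lit 968179448826) (nat_lit 9) (nat_lit 5) (nat_lit 11) (nat_lit 5) (nat_lit 10) (nat_lit 4) (nat_lit 390) (nat_lit 364) (nat_lit 266)) (XT.lf (nat_lit 0) (nat_lit 309964107625) (nat_lit 152) (nat_lit 867232205275) (nat_lit 0) (nat_lit 112025224039)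 (nat_lit 8) (nat_lit 5) (nat_lit 10) (nat_lit 4) (nat_lit 8) (nat_lit 4) (nat_lit 391) (nat_lit 364) (nat_lit 265))) (XT.nd (nat_lit 78) (nat_lit 76) (nat_lit 0) (XT.lf (nat_lit 0) (nat_lit 649517356507) (nat_lit 152) (nat_lit 333051324590) (nat_lit 0) (nat_lit 451578447637) (nat_lit 8) (nat_lit 5) (nat_lit 10) (nat_lit 4) (nat_lit 8) (nat_lit 4) (nat_lit 392) (nat_lit 364) (nat_lit 264)) (XT.nd (nat_lit 78) (nat_lit 0) (nat_lit 0) (XT.lf (nat_lit 0) (nat_lit 308742963137) (nat_lit 76) (nat_lit 744044940217) (nat_lit 76) (nat_lit 546106009361) (nat_lit 7) (nat_lit 4) (nat_lit 8) (nat_lit 5) (nat_lit 8) (nat_lit 4) (nat_lit 393) (nat_lit 364) (nat_lit 263)) (XT.lf (nat_lit 0) (nat_lit 1084236669878) (nat_lit 76) (nat_lit 449721790117) (nat_lit 76) (nat_lit 251782840143) (nat_lit 7) (nat_lit 4) (nat_lit 8) (nat_lit 5) (nat_lit 8) (nat_lit 4) (nat_lit 394) (nat_lit 364) (nat_lit 262)))))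 (XT.nd (nat_lit 234) (nat_lit 76) (nat_lit 0) (XT.nd (nat_lit 78) (nat_lit 76) (nat_lit 0) (XT.lf (nat_lit 0) (nat_lit 78971100848) (nat_lit 152) (nat_lit 28151099775) (nat_lit 76) (nat_lit 1892955165294) (nat_lit 6) (nat_lit 5) (nat_lit 8) (nat_lit 5) (nat_lit 7) (nat_lit 4) (nat_lit 395) (nat_lit 364) (nat_lit 261)) (XT.nd (nat_lit 78) (nat_lit 0) (nat_lit 0) (XT.lf (nat_lit 0) (nat_lit 480972457285) (nat_lit 152) (nat_lit 1447829517541) (nat_lit 0) (nat_lit 308851604195) (nat_lit 5) (nat_lit 5) (nat_lit 7) (nat_lit 4) (nat_lit 5) (nat_lit 4) (nat_lit 396) (nat_lit 364) (nat_lit 260)) (XT.lf (nat_lit 0) (nat_lit 949916624503) (nat_lit 152) (nat_lit 782157448016) (nat_lit 0) (nat_lit 777795760481) (nat_lit 5) (nat_lit 5) (nat_lit 7) (nat_lit 4) (nat_lit 5) (nat_lit 4) (nat_lit 397) (nat_lit 364) (nat_lit 259)))) (XT.nd (nat_lit 78) (nat_lit 76) (nat_lit 0) (XT.lf (nat_lit 0) (nat_lit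 1489202366625) (nat_lit 152) (nat_lit 16634672882) (nat_lit 0) (nat_lit 1317081493099) (nat_lit 5) (nat_lit 5) (nat_lit 7) (nat_lit 4) (nat_lit 5) (nat_lit 4) (nat_lit 398) (nat_lit 364) (nat_lit 258)) (XT.nd (nat_lit 78) (nat_lit 0) (nat_lit 0) (XT.lf (nat_lit 0) (nat_lit 948125078231) (nat_lit 76) (nat_lit 1200515685811) (nat_lit 76) (nat_lit 1028394804019) (nat_lit 4) (nat_lit 4) (nat_lit 5) (nat_lit 5) (nat_lit 5) (nat_lit 4) (nat_lit 399) (nat_lit 364) (nat_lit 257)) (XT.lf (nat_lit 0) (nat_lit 2059468215403) (nat_lit 76) (nat_lit 848396203844) (nat_lit 76) (nat_lit 676275314865) (nat_lit 4) (nat_lit 4) (nat_lit 5) (nat_lit 5) (nat_lit 5) (nat_lit 4) (nat_lit 400) (nat_lit 364) (nat_lit 256)))))) (XT.nd (nat_lit 468) (nat_lit 76) (nat_lit 0) (XT.nd (nat_lit 234) (nat_lit 0) (nat_lit 0) (XT.nd (nat_lit 78) (nat_lit 152) (nat_lit 0) (XT.lf (nat_lit 0) (nat_lit 3337512747494) (nat_lit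 76) (nat_lit 443458839113) (nat_lit 76) (nat_lit 271337943884) (nat_lit 4) (nat_lit 4) (nat_lit 5) (nat_lit 5) (nat_lit 5) (nat_lit 4) (nat_lit 401) (nat_lit 364) (nat_lit 255)) (XT.nd (nat_lit 78) (nat_lit 0) (nat_lit 0) (XT.lf (nat_lit 0) (nat_lit 188270889355) (nat_lit 152) (nat_lit 4360941432544) (nat_lit 0) (nat_lit 38600540952) (nat_lit 2) (nat_lit 5) (nat_lit 4) (nat_lit 4) (nat_lit 2) (nat_lit 4) (nat_lit 402) (nat_lit 364) (nat_lit 254)) (XT.lf (nat_lit 0) (nat_lit 749301898625) (nat_lit 152) (nat_lit 3843731018934) (nat_lit 0) (nat_lit 599631546113) (nat_lit 2) (nat_lit 5) (nat_lit 4) (nat_lit 4) (nat_lit 2) (nat_lit 4) (nat_lit 403) (nat_lit 364) (nat_lit 253)))) (XT.nd (nat_lit 78) (nat_lit 0) (nat_lit 0) (XT.lf (nat_lit 0) (nat_lit 1394487530785) (nat_lit 152) (nat_lit 3248939103408) (nat_lit 0) (nat_lit 1244817174700) (nat_lit 2) (nat_lit 5) (nat_lit 4) (nat_lit 4) (nat_lit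 2) (nat_lit 4) (nat_lit 404) (nat_lit 364) (nat_lit 252)) (XT.nd (nat_lit 78) (nat_lit 0) (nat_lit 0) (XT.lf (nat_lit 0) (nat_lit 2136450982986) (nat_lit 152) (nat_lit 2564928452836) (nat_lit 0) (nat_lit 1986780623794) (nat_lit 2) (nat_lit 5) (nat_lit 4) (nat_lit 4) (nat_lit 2) (nat_lit 4) (nat_lit 405) (nat_lit 364) (nat_lit 251)) (XT.lf (nat_lit 0) (nat_lit 2989708931467) (nat_lit 152) (nat_lit 1778316250142) (nat_lit 0) (nat_lit 2840038569573) (nat_lit 2) (nat_lit 5) (nat_lit 4) (nat_lit 4) (nat_lit 2) (nat_lit 4) (nat_lit 406) (nat_lit 364) (nat_lit 250))))) (XT.nd (nat_lit 234) (nat_lit 0) (nat_lit 0) (XT.nd (nat_lit 78) (nat_lit 76) (nat_lit 0) (XT.lf (nat_lit 0) (nat_lit 3970955553481) (nat_lit 152) (nat_lit 873712256577) (nat_lit 0) (nat_lit 3821285189237) (nat_lit 2) (nat_lit 5) (nat_lit 4) (nat_lit 4) (nat_lit 2) (nat_lit 4) (nat_lit 407) (nat_lit 364) (nat_lit 249)) (XT.nd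 (nat_lit 78) (nat_lit 0) (nat_lit 0) (XT.lf (nat_lit 0) (nat_lit 182861935670) (nat_lit 76) (nat_lit 4924099139633) (nat_lit 76) (nat_lit 4774428773346) (nat_lit 1) (nat_lit 4) (nat_lit 2) (nat_lit 5) (nat_lit 2) (nat_lit 4) (nat_lit 408) (nat_lit 364) (nat_lit 248)) (XT.lf (nat_lit 0) (nat_lit 1496115567321) (nat_lit 76) (nat_lit 4962923165051) (nat_lit 76) (nat_lit 4813252796988) (nat_lit 1) (nat_lit 4) (nat_lit 2) (nat_lit 5) (nat_lit 2) (nat_lit 4) (nat_lit 409) (nat_lit 364) (nat_lit 247)))) (XT.nd (nat_lit 78) (nat_lit 0) (nat_lit 0) (XT.lf (nat_lit 0) (nat_lit 3006357215185) (nat_lit 76) (nat_lit 5007570809314) (nat_lit 76) (nat_lit 4857900439706) (nat_lit 1) (nat_lit 4) (nat_lit 2) (nat_lit 5) (nat_lit 2) (nat_lit 4) (nat_lit 410) (nat_lit 364) (nat_lit 246)) (XT.nd (nat_lit 78) (nat_lit 0) (nat_lit 0) (XT.lf (nat_lit 0) (nat_lit 4743135085417) (nat_lit 76) (nat_lit 5058915613287)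 (nat_lit 76) (nat_lit 4909245242335) (nat_lit 1) (nat_lit 4) (nat_lit 2) (nat_lit 5) (nat_lit 2) (nat_lit 4) (nat_lit 411) (nat_lit 364) (nat_lit 245)) (XT.lf (nat_lit 0) (nat_lit 6740429614608) (nat_lit 76) (nat_lit 5117962149221) (nat_lit 76) (nat_lit 4968291777101) (nat_lit 1) (nat_lit 4) (nat_lit 2) (nat_lit 5) (nat_lit 2) (nat_lit 4) (nat_lit 412) (nat_lit 364) (nat_lit 244))))))) (XT.nd (nat_lit 858) (nat_lit 0) (nat_lit 0) (XT.nd (nat_lit 390) (nat_lit 0) (nat_lit 0) (XT.nd (nat_lit 156) (nat_lit 0) (nat_lit 0) (XT.nd (nat_lit 78) (nat_lit 0) (nat_lit 0) (XT.lf (nat_lit 0) (nat_lit 9037318304416) (nat_lit 76) (nat_lit 5185865675428) (nat_lit 76) (nat_lit 5036195302293) (nat_lit 1) (nat_lit 4) (nat_lit 2) (nat_lit 5) (nat_lit 2) (nat_lit 4) (nat_lit 413) (nat_lit 364) (nat_lit 243)) (XT.lf (nat_lit 0) (nat_lit 11678740281380) (nat_lit 76) (nat_lit 5263954739161) (nat_lit 76) (nat_lit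 5114284365142) (nat_lit 1) (nat_lit 4) (nat_lit 2) (nat_lit 5) (nat_lit 2) (nat_lit 4) (nat_lit 414) (nat_lit 364) (nat_lit 242))) (XT.nd (nat_lit 78) (nat_lit 0) (nat_lit 0) (XT.lf (nat_lit 0) (nat_lit 14716375540702) (nat_lit 76) (nat_lit 5353757169927) (nat_lit 76) (nat_lit 5204086795140) (nat_lit 1) (nat_lit 4) (nat_lit 2) (nat_lit 5) (nat_lit 2) (nat_lit 4) (nat_lit 415) (nat_lit 364) (nat_lit 241)) (XT.nd (nat_lit 78) (nat_lit 0) (nat_lit 0) (XT.lf (nat_lit 0) (nat_lit 18209656076587) (nat_lit 76) (nat_lit 5457029971806) (nat_lit 76) (nat_lit 5307359596351) (nat_lit 1) (nat_lit 4) (nat_lit 2) (nat_lit 5) (nat_lit 2) (nat_lit 4) (nat_lit 416) (nat_lit 364) (nat_lit 240)) (XT.lf (nat_lit 0) (nat_lit 22226928682127) (nat_lit 76) (nat_lit 5575793699618) (nat_lit 76) (nat_lit 5426123323582) (nat_lit 1) (nat_lit 4) (nat_lit 2) (nat_lit 5) (nat_lit 2) (nat_lit 4) (nat_lit 417) (nat_lit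 364) (nat_lit 239))))) (XT.nd (nat_lit 234) (nat_lit 0) (nat_lit 0) (XT.nd (nat_lit 78) (nat_lit 0) (nat_lit 0) (XT.lf (nat_lit 0) (nat_lit 26846792169170) (nat_lit 76) (nat_lit 5712371991515) (nat_lit 76) (nat_lit 5562701614974) (nat_lit 1) (nat_lit 4) (nat_lit 2) (nat_lit 5) (nat_lit 2) (nat_lit 4) (nat_lit 418) (nat_lit 364) (nat_lit 238)) (XT.nd (nat_lit 78) (nat_lit 0) (nat_lit 0) (XT.lf (nat_lit 0) (nat_lit 32159635171159) (nat_lit 76) (nat_lit 5869437031469) (nat_lit 76) (nat_lit 5719766654489) (nat_lit 1) (nat_lit 4) (nat_lit 2) (nat_lit 5) (nat_lit 2) (nat_lit 4) (nat_lit 419) (nat_lit 364) (nat_lit 237)) (XT.lf (nat_lit 0) (nat_lit 38269404616392) (nat_lit 76) (nat_lit 6050061831132) (nat_lit 76) (nat_lit 5900391453770) (nat_lit 1) (nat_lit 4) (nat_lit 2) (nat_lit 5) (nat_lit 2) (nat_lit 4) (nat_lit 420) (nat_lit 364) (nat_lit 236)))) (XT.nd (nat_lit 78) (nat_lit 0) (nat_lit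 0) (XT.lf (nat_lit 0) (nat_lit 45295639472278) (nat_lit 76) (nat_lit 6257780353975) (nat_lit 76) (nat_lit 6108109976282) (nat_lit 1) (nat_lit 4) (nat_lit 2) (nat_lit 5) (nat_lit 2) (nat_lit 4) (nat_lit 421) (nat_lit 364) (nat_lit 235)) (XT.nd (nat_lit 78) (nat_lit 0) (nat_lit 0) (XT.lf (nat_lit 0) (nat_lit 53375809551213) (nat_lit 76) (nat_lit 6496656658055) (nat_lit 76) (nat_lit 6346986280072) (nat_lit 1) (nat_lit 4) (nat_lit 2) (nat_lit 5) (nat_lit 2) (nat_lit 4) (nat_lit 422) (nat_lit 364) (nat_lit 234)) (XT.lf (nat_lit 0) (nat_lit 62668005137350) (nat_lit 76) (nat_lit 6771364410189) (nat_lit 76) (nat_lit 6621694031955) (nat_lit 1) (nat_lit 4) (nat_lit 2) (nat_lit 5) (nat_lit 2) (nat_lit 4) (nat_lit 423) (nat_lit 364) (nat_lit 233)))))) (XT.nd (nat_lit 48516) (nat_lit 0) (nat_lit 1976) (XT.nd (nat_lit 234) (nat_lit 0) (nat_lit 0) (XT.nd (nat_lit 78) (nat_lit 0) (nat_lit 0) (XT.lf (nat_lit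 0) (nat_lit 73354030057376) (nat_lit 76) (nat_lit 7087278327267) (nat_lit 76) (nat_lit 6937607948815) (nat_lit 1) (nat_lit 4) (nat_lit 2) (nat_lit 5) (nat_lit 2) (nat_lit 4) (nat_lit 424) (nat_lit 364) (nat_lit 232)) (XT.nd (nat_lit 78) (nat_lit 0) (nat_lit 0) (XT.lf (nat_lit 0) (nat_lit 85642958711898) (nat_lit 76) (nat_lit 7450579333755) (nat_lit 76) (nat_lit 7300908955113) (nat_lit 1) (nat_lit 4) (nat_lit 2) (nat_lit 5) (nat_lit 2) (nat_lit 4) (nat_lit 425) (nat_lit 364) (nat_lit 231)) (XT.lf (nat_lit 0) (nat_lit 99775226661550) (nat_lit 76) (nat_lit 7868375492822) (nat_lit 76) (nat_lit 7718705114015) (nat_lit 1) (nat_lit 4) (nat_lit 2) (nat_lit 5) (nat_lit 2) (nat_lit 4) (nat_lit 426) (nat_lit 364) (nat_lit 230)))) (XT.nd (nat_lit 78) (nat_lit 0) (nat_lit 0) (XT.lf (nat_lit 0) (nat_lit 116027334800998) (nat_lit 76) (nat_lit 8348841077146) (nat_lit 76) (nat_lit 8199170698195) (nat_lit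 1) (nat_lit 4) (nat_lit 2) (nat_lit 5) (nat_lit 2) (nat_lit 4) (nat_lit 427) (nat_lit 364) (nat_lit 229)) (XT.nd (nat_lit 78) (nat_lit 0) (nat_lit 0) (XT.lf (nat_lit 0) (nat_lit 134717259159058) (nat_lit 76) (nat_lit 8901376500333) (nat_lit 76) (nat_lit 8751706121257) (nat_lit 1) (nat_lit 4) (nat_lit 2) (nat_lit 5) (nat_lit 2) (nat_lit 4) (nat_lit 428) (nat_lit 364) (nat_lit 228)) (XT.lf (nat_lit 0) (nat_lit 156210672168821) (nat_lit 76) (nat_lit 9536792238054) (nat_lit 76) (nat_lit 9387121858870) (nat_lit 1) (nat_lit 4) (nat_lit 2) (nat_lit 5) (nat_lit 2) (nat_lit 4) (nat_lit 429) (nat_lit 364) (nat_lit 227))))) (XT.nd (nat_lit 234) (nat_lit 152) (nat_lit 0) (XT.nd (nat_lit 78) (nat_lit 0) (nat_lit 0) (XT.lf (nat_lit 0) (nat_lit 17379776391) (nat_lit 380) (nat_lit 24693630040) (nat_lit 380) (nat_lit 24693630040) (nat_lit 29) (nat_lit 3) (nat_lit 34) (nat_lit 3) (nat_lit 34) (nat_lit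 5) (nat_lit 365) (nat_lit 365) (nat_lit 290)) (XT.nd (nat_lit 78) (nat_lit 0) (nat_lit 76) (XT.lf (nat_lit 76) (nat_lit 17538824700) (nat_lit 0) (nat_lit 20557322940) (nat_lit 380) (nat_lit 105343532500) (nat_lit 30) (nat_lit 5) (nat_lit 29) (nat_lit 3) (nat_lit 34) (nat_lit 5) (nat_lit 366) (nat_lit 365) (nat_lit 289)) (XT.lf (nat_lit 0) (nat_lit 46813999911) (nat_lit 304) (nat_lit 56689864203) (nat_lit 380) (nat_lit 50595149789) (nat_lit 30) (nat_lit 5) (nat_lit 34) (nat_lit 5) (nat_lit 35) (nat_lit 5) (nat_lit 367) (nat_lit 365) (nat_lit 288)))) (XT.nd (nat_lit 78) (nat_lit 228) (nat_lit 0) (XT.lf (nat_lit 76) (nat_lit 24065952314) (nat_lit 0) (nat_lit 34748488661) (nat_lit 380) (nat_lit 107246570733) (nat_lit 31) (nat_lit 5) (nat_lit 30) (nat_lit 5) (nat_lit 35) (nat_lit 5) (nat_lit 368) (nat_lit 365) (nat_lit 287)) (XT.nd (nat_lit 78) (nat_lit 304) (nat_lit 0) (XT.lf (nat_lit 0)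 (nat_lit 77554124345) (nat_lit 304) (nat_lit 58043292694) (nat_lit 76) (nat_lit 43479016265) (nat_lit 31) (nat_lit 5) (nat_lit 35) (nat_lit 5) (nat_lit 32) (nat_lit 5) (nat_lit 369) (nat_lit 365) (nat_lit 286)) (XT.lf (nat_lit 0) (nat_lit 40447006730) (nat_lit 304) (nat_lit 61986855995) (nat_lit 380) (nat_lit 91110940507) (nat_lit 27) (nat_lit 5) (nat_lit 31) (nat_lit 5) (nat_lit 32) (nat_lit 5) (nat_lit 370) (nat_lit 365) (nat_lit 285))))))))
noncomputable def xc90 : XT := (XT.nd (nat_lit 1794) (nat_lit 532) (nat_lit 0) (XT.nd (nat_lit 858) (nat_lit 684) (nat_lit 0) (XT.nd (nat_lit 390) (nat_lit 456) (nat_lit 0) (XT.nd (nat_lit 156) (nat_lit 152) (nat_lit 0) (XT.nd (nat_lit 78) (nat_lit 152) (nat_lit 0) (XT.lf (nat_lit 0) (nat_lit 135162269131) (nat_lit 380) (nat_lit 50577643573) (nat_lit 76) (nat_lit 23826010266) (nat_lit 27) (nat_lit 5) (nat_lit 32) (nat_lit 5) (nat_lit 28) (nat_lit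 5) (nat_lit 371) (nat_lit 365) (nat_lit 284)) (XT.lf (nat_lit 0) (nat_lit 70658931396) (nat_lit 152) (nat_lit 108018269476) (nat_lit 228) (nat_lit 48431420494) (nat_lit 25) (nat_lit 5) (nat_lit 27) (nat_lit 5) (nat_lit 28) (nat_lit 5) (nat_lit 372) (nat_lit 365) (nat_lit 283))) (XT.nd (nat_lit 78) (nat_lit 152) (nat_lit 0) (XT.lf (nat_lit 0) (nat_lit 215764855355) (nat_lit 152) (nat_lit 15598049098) (nat_lit 228) (nat_lit 15523290565) (nat_lit 25) (nat_lit 5) (nat_lit 27) (nat_lit 5) (nat_lit 28) (nat_lit 5) (nat_lit 373) (nat_lit 365) (nat_lit 282)) (XT.nd (nat_lit 78) (nat_lit 0) (nat_lit 0) (XT.lf (nat_lit 0) (nat_lit 29469922400) (nat_lit 152) (nat_lit 149734227756) (nat_lit 76) (nat_lit 88917208896) (nat_lit 23) (nat_lit 5) (nat_lit 25) (nat_lit 5) (nat_lit 24) (nat_lit 5) (nat_lit 374) (nat_lit 365) (nat_lit 281)) (XT.lf (nat_lit 0) (nat_lit 82069601345) (nat_lit 152) (nat_lit 38097134)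 (nat_lit 76) (nat_lit 209956202772) (nat_lit 23) (nat_lit 5) (nat_lit 25) (nat_lit 5) (nat_lit 24) (nat_lit 5) (nat_lit 375) (nat_lit 365) (nat_lit 280))))) (XT.nd (nat_lit 234) (nat_lit 228) (nat_lit 0) (XT.nd (nat_lit 78) (nat_lit 76) (nat_lit 0) (XT.lf (nat_lit 0) (nat_lit 151978557993) (nat_lit 228) (nat_lit 131088455595) (nat_lit 76) (nat_lit 35117912488) (nat_lit 21) (nat_lit 5) (nat_lit 24) (nat_lit 5) (nat_lit 22) (nat_lit 4) (nat_lit 376) (nat_lit 365) (nat_lit 279)) (XT.nd (nat_lit 78) (nat_lit 0) (nat_lit 0) (XT.lf (nat_lit 0) (nat_lit 55074491034) (nat_lit 76) (nat_lit 183491651359) (nat_lit 152) (nat_lit 108729119750) (nat_lit 20) (nat_lit 5) (nat_lit 21) (nat_lit 5) (nat_lit 22) (nat_lit 4) (nat_lit 377) (nat_lit 365) (nat_lit 278)) (XT.lf (nat_lit 0) (nat_lit 283894115015) (nat_lit 76) (nat_lit 61099904995) (nat_lit 152) (nat_lit 34750305408) (nat_lit 20) (nat_lit 5) (nat_lit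 21) (nat_lit 5) (nat_lit 22) (nat_lit 4) (nat_lit 378) (nat_lit 365) (nat_lit 277)))) (XT.nd (nat_lit 78) (nat_lit 76) (nat_lit 0) (XT.lf (nat_lit 0) (nat_lit 55332316801) (nat_lit 152) (nat_lit 279160127653) (nat_lit 76) (nat_lit 80832629933) (nat_lit 18) (nat_lit 5) (nat_lit 20) (nat_lit 5) (nat_lit 19) (nat_lit 4) (nat_lit 379) (nat_lit 365) (nat_lit 276)) (XT.nd (nat_lit 78) (nat_lit 76) (nat_lit 0) (XT.lf (nat_lit 0) (nat_lit 163527850930) (nat_lit 152) (nat_lit 46539935008) (nat_lit 76) (nat_lit 244703190188) (nat_lit 18) (nat_lit 5) (nat_lit 20) (nat_lit 5) (nat_lit 19) (nat_lit 4) (nat_lit 380) (nat_lit 365) (nat_lit 275)) (XT.lf (nat_lit 0) (nat_lit 242568114688) (nat_lit 76) (nat_lit 55428679775) (nat_lit 152) (nat_lit 200630356850) (nat_lit 17) (nat_lit 5) (nat_lit 18) (nat_lit 5) (nat_lit 19) (nat_lit 4) (nat_lit 381) (nat_lit 365) (nat_lit 274)))))) (XT.nd (nat_lit 468) (nat_lit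 304) (nat_lit 0) (XT.nd (nat_lit 234) (nat_lit 152) (nat_lit 0) (XT.nd (nat_lit 78) (nat_lit 152) (nat_lit 0) (XT.lf (nat_lit 0) (nat_lit 28970440438) (nat_lit 76) (nat_lit 432482297667) (nat_lit 76) (nat_lit 86286515951) (nat_lit 16) (nat_lit 4) (nat_lit 17) (nat_lit 5) (nat_lit 17) (nat_lit 4) (nat_lit 382) (nat_lit 365) (nat_lit 273)) (XT.nd (nat_lit 78) (nat_lit 76) (nat_lit 0) (XT.lf (nat_lit 0) (nat_lit 57845690752) (nat_lit 152) (nat_lit 221827664228) (nat_lit 76) (nat_lit 321764776852) (nat_lit 15) (nat_lit 5) (nat_lit 17) (nat_lit 5) (nat_lit 16) (nat_lit 4) (nat_lit 383) (nat_lit 365) (nat_lit 272)) (XT.lf (nat_lit 0) (nat_lit 126837492451) (nat_lit 76) (nat_lit 93178086191) (nat_lit 152) (nat_lit 441772138540) (nat_lit 14) (nat_lit 5) (nat_lit 15) (nat_lit 5) (nat_lit 16) (nat_lit 4) (nat_lit 384) (nat_lit 365) (nat_lit 271)))) (XT.nd (nat_lit 78) (nat_lit 152) (nat_lit 0)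 (XT.lf (nat_lit 0) (nat_lit 423680954715) (nat_lit 152) (nat_lit 182292408956) (nat_lit 0) (nat_lit 122640875953) (nat_lit 14) (nat_lit 5) (nat_lit 16) (nat_lit 4) (nat_lit 14) (nat_lit 4) (nat_lit 385) (nat_lit 365) (nat_lit 270)) (XT.nd (nat_lit 78) (nat_lit 76) (nat_lit 0) (XT.lf (nat_lit 0) (nat_lit 240212170141) (nat_lit 76) (nat_lit 432067586697) (nat_lit 76) (nat_lit 131027440680) (nat_lit 13) (nat_lit 4) (nat_lit 14) (nat_lit 5) (nat_lit 14) (nat_lit 4) (nat_lit 386) (nat_lit 365) (nat_lit 269)) (XT.lf (nat_lit 0) (nat_lit 72807177679) (nat_lit 152) (nat_lit 144504772489) (nat_lit 76) (nat_lit 669966413196) (nat_lit 12) (nat_lit 5) (nat_lit 14) (nat_lit 5) (nat_lit 13) (nat_lit 4) (nat_lit 387) (nat_lit 365) (nat_lit 268))))) (XT.nd (nat_lit 234) (nat_lit 152) (nat_lit 0) (XT.nd (nat_lit 78) (nat_lit 76) (nat_lit 0) (XT.lf (nat_lit 0) (nat_lit 311071825638) (nat_lit 152) (nat_lit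 619949344979) (nat_lit 0) (nat_lit 49297690548) (nat_lit 11) (nat_lit 5) (nat_lit 13) (nat_lit 4) (nat_lit 11) (nat_lit 4) (nat_lit 388) (nat_lit 365) (nat_lit 267)) (XT.nd (nat_lit 78) (nat_lit 76) (nat_lit 0) (XT.lf (nat_lit 0) (nat_lit 603337625515) (nat_lit 152) (nat_lit 139675137960) (nat_lit 0) (nat_lit 341563451972) (nat_lit 11) (nat_lit 5) (nat_lit 13) (nat_lit 4) (nat_lit 11) (nat_lit 4) (nat_lit 389) (nat_lit 365) (nat_lit 266)) (XT.lf (nat_lit 0) (nat_lit 452966228664) (nat_lit 76) (nat_lit 505233354052) (nat_lit 76) (nat_lit 243459147071) (nat_lit 10) (nat_lit 4) (nat_lit 11) (nat_lit 5) (nat_lit 11) (nat_lit 4) (nat_lit 390) (nat_lit 365) (nat_lit 265)))) (XT.nd (nat_lit 78) (nat_lit 76) (nat_lit 0) (XT.lf (nat_lit 0) (nat_lit 34966342024) (nat_lit 152) (nat_lit 186596600704) (nat_lit 76) (nat_lit 1113407102765) (nat_lit 9) (nat_lit 5) (nat_lit 11) (nat_lit 5) (nat_lit 10)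 (nat_lit 4) (nat_lit 391) (nat_lit 365) (nat_lit 264)) (XT.nd (nat_lit 78) (nat_lit 0) (nat_lit 0) (XT.lf (nat_lit 0) (nat_lit 356459553668) (nat_lit 152) (nat_lit 997315328012) (nat_lit 0) (nat_lit 128829761198) (nat_lit 8) (nat_lit 5) (nat_lit 10) (nat_lit 4) (nat_lit 8) (nat_lit 4) (nat_lit 392) (nat_lit 365) (nat_lit 263)) (XT.lf (nat_lit 0) (nat_lit 746945681635) (nat_lit 152) (nat_lit 383007538015) (nat_lit 0) (nat_lit 519315870047) (nat_lit 8) (nat_lit 5) (nat_lit 10) (nat_lit 4) (nat_lit 8) (nat_lit 4) (nat_lit 393) (nat_lit 365) (nat_lit 262))))))) (XT.nd (nat_lit 858) (nat_lit 76) (nat_lit 0) (XT.nd (nat_lit 390) (nat_lit 228) (nat_lit 0) (XT.nd (nat_lit 156) (nat_lit 152) (nat_lit 0) (XT.nd (nat_lit 78) (nat_lit 0) (nat_lit 0) (XT.lf (nat_lit 0) (nat_lit 355055825359) (nat_lit 76) (nat_lit 855650949727) (nat_lit 76) (nat_lit 628021121514) (nat_lit 7) (nat_lit 4) (nat_lit 8)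 (nat_lit 5) (nat_lit 8) (nat_lit 4) (nat_lit 394) (nat_lit 365) (nat_lit 261)) (XT.lf (nat_lit 0) (nat_lit 1246873403187) (nat_lit 76) (nat_lit 517179422527) (nat_lit 76) (nat_lit 289549579859) (nat_lit 7) (nat_lit 4) (nat_lit 8) (nat_lit 5) (nat_lit 8) (nat_lit 4) (nat_lit 395) (nat_lit 365) (nat_lit 260))) (XT.nd (nat_lit 78) (nat_lit 76) (nat_lit 0) (XT.lf (nat_lit 0) (nat_lit 90817309632) (nat_lit 152) (nat_lit 32372639529) (nat_lit 76) (nat_lit 2176898940037) (nat_lit 6) (nat_lit 5) (nat_lit 8) (nat_lit 5) (nat_lit 7) (nat_lit 4) (nat_lit 396) (nat_lit 365) (nat_lit 259)) (XT.nd (nat_lit 78) (nat_lit 0) (nat_lit 0) (XT.lf (nat_lit 0) (nat_lit 553118866156) (nat_lit 152) (nat_lit 1665002816531) (nat_lit 0) (nat_lit 355179852095) (nat_lit 5) (nat_lit 5) (nat_lit 7) (nat_lit 4) (nat_lit 5) (nat_lit 4) (nat_lit 397) (nat_lit 365) (nat_lit 258)) (XT.lf (nat_lit 0) (nat_lit 1092404587985)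 (nat_lit 152) (nat_lit 899480083791) (nat_lit 0) (nat_lit 894465565659) (nat_lit 5) (nat_lit 5) (nat_lit 7) (nat_lit 4) (nat_lit 5) (nat_lit 4) (nat_lit 398) (nat_lit 365) (nat_lit 257))))) (XT.nd (nat_lit 234) (nat_lit 152) (nat_lit 0) (XT.nd (nat_lit 78) (nat_lit 76) (nat_lit 0) (XT.lf (nat_lit 0) (nat_lit 1712583130147) (nat_lit 152) (nat_lit 19129020399) (nat_lit 0) (nat_lit 1514644100634) (nat_lit 5) (nat_lit 5) (nat_lit 7) (nat_lit 4) (nat_lit 5) (nat_lit 4) (nat_lit 399) (nat_lit 365) (nat_lit 256)) (XT.nd (nat_lit 78) (nat_lit 0) (nat_lit 0) (XT.lf (nat_lit 0) (nat_lit 1090344654589) (nat_lit 76) (nat_lit 1380592613032) (nat_lit 76) (nat_lit 1182653577270) (nat_lit 4) (nat_lit 4) (nat_lit 5) (nat_lit 5) (nat_lit 5) (nat_lit 4) (nat_lit 400) (nat_lit 365) (nat_lit 255)) (XT.lf (nat_lit 0) (nat_lit 2368389156082) (nat_lit 76) (nat_lit 975655264290) (nat_lit 76) (nat_lit 777716223093)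 (nat_lit 4) (nat_lit 4) (nat_lit 5) (nat_lit 5) (nat_lit 5) (nat_lit 4) (nat_lit 401) (nat_lit 365) (nat_lit 254)))) (XT.nd (nat_lit 78) (nat_lit 152) (nat_lit 0) (XT.lf (nat_lit 0) (nat_lit 3838140275591) (nat_lit 76) (nat_lit 509977343128) (nat_lit 76) (nat_lit 312038297205) (nat_lit 4) (nat_lit 4) (nat_lit 5) (nat_lit 5) (nat_lit 5) (nat_lit 4) (nat_lit 402) (nat_lit 365) (nat_lit 253)) (XT.nd (nat_lit 78) (nat_lit 0) (nat_lit 0) (XT.lf (nat_lit 0) (nat_lit 216511829636) (nat_lit 152) (nat_lit 5015082000028) (nat_lit 0) (nat_lit 44390916564) (nat_lit 2) (nat_lit 5) (nat_lit 4) (nat_lit 4) (nat_lit 2) (nat_lit 4) (nat_lit 403) (nat_lit 365) (nat_lit 252)) (XT.lf (nat_lit 0) (nat_lit 861697450269) (nat_lit 152) (nat_lit 4420290108820) (nat_lit 0) (nat_lit 689576534090) (nat_lit 2) (nat_lit 5) (nat_lit 4) (nat_lit 4) (nat_lit 2) (nat_lit 4) (nat_lit 404) (nat_lit 365) (nat_lit 251))))))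 (XT.nd (nat_lit 468) (nat_lit 0) (nat_lit 0) (XT.nd (nat_lit 234) (nat_lit 76) (nat_lit 0) (XT.nd (nat_lit 78) (nat_lit 0) (nat_lit 0) (XT.lf (nat_lit 0) (nat_lit 1603660892447) (nat_lit 152) (nat_lit 3736279479393) (nat_lit 0) (nat_lit 1431539973566) (nat_lit 2) (nat_lit 5) (nat_lit 4) (nat_lit 4) (nat_lit 2) (nat_lit 4) (nat_lit 405) (nat_lit 365) (nat_lit 250)) (XT.nd (nat_lit 78) (nat_lit 0) (nat_lit 0) (XT.lf (nat_lit 0) (nat_lit 2456918832211) (nat_lit 152) (nat_lit 2949667295087) (nat_lit 0) (nat_lit 2284797910981) (nat_lit 2) (nat_lit 5) (nat_lit 4) (nat_lit 4) (nat_lit 2) (nat_lit 4) (nat_lit 406) (nat_lit 365) (nat_lit 249)) (XT.lf (nat_lit 0) (nat_lit 3438165446646) (nat_lit 152) (nat_lit 2045063317511) (nat_lit 0) (nat_lit 3266044523372) (nat_lit 2) (nat_lit 5) (nat_lit 4) (nat_lit 4) (nat_lit 2) (nat_lit 4) (nat_lit 407) (nat_lit 365) (nat_lit 248)))) (XT.nd (nat_lit 78)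 (nat_lit 76) (nat_lit 0) (XT.lf (nat_lit 0) (nat_lit 4566599039075) (nat_lit 152) (nat_lit 1004768773192) (nat_lit 0) (nat_lit 4394478114025) (nat_lit 2) (nat_lit 5) (nat_lit 4) (nat_lit 4) (nat_lit 2) (nat_lit 4) (nat_lit 408) (nat_lit 365) (nat_lit 247)) (XT.nd (nat_lit 78) (nat_lit 0) (nat_lit 0) (XT.lf (nat_lit 0) (nat_lit 210291533261) (nat_lit 76) (nat_lit 5662713848731) (nat_lit 76) (nat_lit 5490592922136) (nat_lit 1) (nat_lit 4) (nat_lit 2) (nat_lit 5) (nat_lit 2) (nat_lit 4) (nat_lit 409) (nat_lit 365) (nat_lit 246)) (XT.lf (nat_lit 0) (nat_lit 1720533169585) (nat_lit 76) (nat_lit 5707361499073) (nat_lit 76) (nat_lit 5535240571135) (nat_lit 1) (nat_lit 4) (nat_lit 2) (nat_lit 5) (nat_lit 2) (nat_lit 4) (nat_lit 410) (nat_lit 365) (nat_lit 245))))) (XT.nd (nat_lit 234) (nat_lit 0) (nat_lit 0) (XT.nd (nat_lit 78) (nat_lit 0) (nat_lit 0) (XT.lf (nat_lit 0) (nat_lit 3457311029781)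 (nat_lit 76) (nat_lit 5758706308332) (nat_lit 76) (nat_lit 5586585379226) (nat_lit 1) (nat_lit 4) (nat_lit 2) (nat_lit 5) (nat_lit 2) (nat_lit 4) (nat_lit 411) (nat_lit 365) (nat_lit 244)) (XT.nd (nat_lit 78) (nat_lit 0) (nat_lit 0) (XT.lf (nat_lit 0) (nat_lit 5454605550246) (nat_lit 76) (nat_lit 5817752848863) (nat_lit 76) (nat_lit 5645631918741) (nat_lit 1) (nat_lit 4) (nat_lit 2) (nat_lit 5) (nat_lit 2) (nat_lit 4) (nat_lit 412) (nat_lit 365) (nat_lit 243)) (XT.lf (nat_lit 0) (nat_lit 7751494232465) (nat_lit 76) (nat_lit 5885656379068) (nat_lit 76) (nat_lit 5713535448063) (nat_lit 1) (nat_lit 4) (nat_lit 2) (nat_lit 5) (nat_lit 2) (nat_lit 4) (nat_lit 413) (nat_lit 365) (nat_lit 242)))) (XT.nd (nat_lit 78) (nat_lit 0) (nat_lit 0) (XT.lf (nat_lit 0) (nat_lit 10392916202831) (nat_lit 76) (nat_lit 5963745446276) (nat_lit 76) (nat_lit 5791624514503) (nat_lit 1) (nat_lit 4) (nat_lit 2)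 (nat_lit 5) (nat_lit 2) (nat_lit 4) (nat_lit 414) (nat_lit 365) (nat_lit 241)) (XT.nd (nat_lit 78) (nat_lit 0) (nat_lit 0) (XT.lf (nat_lit 0) (nat_lit 13430551456416) (nat_lit 76) (nat_lit 6053547880065) (nat_lit 76) (nat_lit 5881426947624) (nat_lit 1) (nat_lit 4) (nat_lit 2) (nat_lit 5) (nat_lit 2) (nat_lit 4) (nat_lit 415) (nat_lit 365) (nat_lit 240)) (XT.lf (nat_lit 0) (nat_lit 16923831987311) (nat_lit 76) (nat_lit 6156820684572) (nat_lit 76) (nat_lit 5984699751550) (nat_lit 1) (nat_lit 4) (nat_lit 2) (nat_lit 5) (nat_lit 2) (nat_lit 4) (nat_lit 416) (nat_lit 365) (nat_lit 239))))))))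
noncomputable def xc91 : XT := (XT.nd (nat_lit 49920) (nat_lit 0) (nat_lit 304) (XT.nd (nat_lit 858) (nat_lit 0) (nat_lit 0) (XT.nd (nat_lit 390) (nat_lit 0) (nat_lit 0) (XT.nd (nat_lit 156) (nat_lit 0) (nat_lit 0) (XT.nd (nat_lit 78) (nat_lit 0) (nat_lit 0) (XT.lf (nat_lit 0) (nat_lit 20941104588512) (nat_lit 76) (nat_lit 6275584414669) (nat_lit 76) (nat_lit 6103463481142) (nat_lit 1) (nat_lit 4) (nat_lit 2) (nat_lit 5) (nat_lit 2) (nat_lit 4) (nat_lit 417) (nat_lit 365) (nat_lit 238)) (XT.lf (nat_lit 0) (nat_lit 25560968071783) (nat_lit 76) (nat_lit 6412162708553) (nat_lit 76) (nat_lit 6240041774587) (nat_lit 1) (nat_lit 4) (nat_lit 2) (nat_lit 5) (nat_lit 2) (nat_lit 4) (nat_lit 418) (nat_lit 365) (nat_lit 237))) (XT.nd (nat_lit 78) (nat_lit 0) (nat_lit 0) (XT.lf (nat_lit 0) (nat_lit 30873811070491) (nat_lit 76) (nat_lit 6569227750236) (nat_lit 76) (nat_lit 6397106815888) (nat_lit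 1) (nat_lit 4) (nat_lit 2) (nat_lit 5) (nat_lit 2) (nat_lit 4) (nat_lit 419) (nat_lit 365) (nat_lit 236)) (XT.nd (nat_lit 78) (nat_lit 0) (nat_lit 0) (XT.lf (nat_lit 0) (nat_lit 36983580512872) (nat_lit 76) (nat_lit 6749852551402) (nat_lit 76) (nat_lit 6577731616722) (nat_lit 1) (nat_lit 4) (nat_lit 2) (nat_lit 5) (nat_lit 2) (nat_lit 4) (nat_lit 420) (nat_lit 365) (nat_lit 235)) (XT.lf (nat_lit 0) (nat_lit 44009815366277) (nat_lit 76) (nat_lit 6957571075552) (nat_lit 76) (nat_lit 6785450140583) (nat_lit 1) (nat_lit 4) (nat_lit 2) (nat_lit 5) (nat_lit 2) (nat_lit 4) (nat_lit 421) (nat_lit 365) (nat_lit 234))))) (XT.nd (nat_lit 234) (nat_lit 0) (nat_lit 0) (XT.nd (nat_lit 78) (nat_lit 0) (nat_lit 0) (XT.lf (nat_lit 0) (nat_lit 52089985443055) (nat_lit 76) (nat_lit 7196447380767) (nat_lit 76) (nat_lit 7024326445548) (nat_lit 1) (nat_lit 4) (nat_lit 2) (nat_lit 5) (nat_lit 2) (nat_lit 4)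 (nat_lit 422) (nat_lit 365) (nat_lit 233)) (XT.nd (nat_lit 78) (nat_lit 0) (nat_lit 0) (XT.lf (nat_lit 0) (nat_lit 61382181027317) (nat_lit 76) (nat_lit 7471155133889) (nat_lit 76) (nat_lit 7299034198451) (nat_lit 1) (nat_lit 4) (nat_lit 2) (nat_lit 5) (nat_lit 2) (nat_lit 4) (nat_lit 423) (nat_lit 365) (nat_lit 232)) (XT.lf (nat_lit 0) (nat_lit 72068205945711) (nat_lit 76) (nat_lit 7787069051827) (nat_lit 76) (nat_lit 7614948116199) (nat_lit 1) (nat_lit 4) (nat_lit 2) (nat_lit 5) (nat_lit 2) (nat_lit 4) (nat_lit 424) (nat_lit 365) (nat_lit 231)))) (XT.nd (nat_lit 78) (nat_lit 0) (nat_lit 0) (XT.lf (nat_lit 0) (nat_lit 84357134598815) (nat_lit 76) (nat_lit 8150370059062) (nat_lit 76) (nat_lit 7978249123269) (nat_lit 1) (nat_lit 4) (nat_lit 2) (nat_lit 5) (nat_lit 2) (nat_lit 4) (nat_lit 425) (nat_lit 365) (nat_lit 230)) (XT.nd (nat_lit 78) (nat_lit 0) (nat_lit 0) (XT.lf (nat_lit 0) (nat_lit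 98489402547234) (nat_lit 76) (nat_lit 8568166218778) (nat_lit 76) (nat_lit 8396045282842) (nat_lit 1) (nat_lit 4) (nat_lit 2) (nat_lit 5) (nat_lit 2) (nat_lit 4) (nat_lit 426) (nat_lit 365) (nat_lit 229)) (XT.lf (nat_lit 0) (nat_lit 114741510685610) (nat_lit 76) (nat_lit 9048631803667) (nat_lit 76) (nat_lit 8876510867606) (nat_lit 1) (nat_lit 4) (nat_lit 2) (nat_lit 5) (nat_lit 2) (nat_lit 4) (nat_lit 427) (nat_lit 365) (nat_lit 228)))))) (XT.nd (nat_lit 48594) (nat_lit 0) (nat_lit 1672) (XT.nd (nat_lit 48360) (nat_lit 0) (nat_lit 2128) (XT.nd (nat_lit 78) (nat_lit 0) (nat_lit 0) (XT.lf (nat_lit 0) (nat_lit 133431435042736) (nat_lit 76) (nat_lit 9601167227345) (nat_lit 76) (nat_lit 9429046291175) (nat_lit 1) (nat_lit 4) (nat_lit 2) (nat_lit 5) (nat_lit 2) (nat_lit 4) (nat_lit 428) (nat_lit 365) (nat_lit 227)) (XT.nd (nat_lit 48204) (nat_lit 0) (nat_lit 2128) (XT.lf (nat_lit 0) (nat_lit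 154924848051689) (nat_lit 76) (nat_lit 10236582965494) (nat_lit 76) (nat_lit 10064462029230) (nat_lit 1) (nat_lit 4) (nat_lit 2) (nat_lit 5) (nat_lit 2) (nat_lit 4) (nat_lit 429) (nat_lit 365) (nat_lit 226)) (XT.lf (nat_lit 0) (nat_lit 19989985834) (nat_lit 380) (nat_lit 28395807906) (nat_lit 380) (nat_lit 28395807906) (nat_lit 29) (nat_lit 3) (nat_lit 34) (nat_lit 3) (nat_lit 34) (nat_lit 5) (nat_lit 366) (nat_lit 366) (nat_lit 288)))) (XT.nd (nat_lit 78) (nat_lit 0) (nat_lit 76) (XT.lf (nat_lit 76) (nat_lit 20173211991) (nat_lit 0) (nat_lit 23643145327) (nat_lit 380) (nat_lit 121138400019) (nat_lit 30) (nat_lit 5) (nat_lit 29) (nat_lit 3) (nat_lit 34) (nat_lit 5) (nat_lit 367) (nat_lit 366) (nat_lit 287)) (XT.nd (nat_lit 78) (nat_lit 0) (nat_lit 0) (XT.lf (nat_lit 0) (nat_lit 53841052457) (nat_lit 304) (nat_lit 65189404269) (nat_lit 380) (nat_lit 58182660557) (nat_lit 30) (nat_lit 5)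 (nat_lit 34) (nat_lit 5) (nat_lit 35) (nat_lit 5) (nat_lit 368) (nat_lit 366) (nat_lit 286)) (XT.lf (nat_lit 76) (nat_lit 27679605654) (nat_lit 0) (nat_lit 39961463755) (nat_lit 380) (nat_lit 123328419650) (nat_lit 31) (nat_lit 5) (nat_lit 30) (nat_lit 5) (nat_lit 35) (nat_lit 5) (nat_lit 369) (nat_lit 366) (nat_lit 285))))) (XT.nd (nat_lit 234) (nat_lit 304) (nat_lit 0) (XT.nd (nat_lit 78) (nat_lit 304) (nat_lit 0) (XT.lf (nat_lit 0) (nat_lit 89191097978) (nat_lit 304) (nat_lit 66745904896) (nat_lit 76) (nat_lit 50000312777) (nat_lit 31) (nat_lit 5) (nat_lit 35) (nat_lit 5) (nat_lit 32) (nat_lit 5) (nat_lit 370) (nat_lit 366) (nat_lit 284)) (XT.nd (nat_lit 78) (nat_lit 0) (nat_lit 0) (XT.lf (nat_lit 0) (nat_lit 46517763001) (nat_lit 304) (nat_lit 71284684718) (nat_lit 380) (nat_lit 104773546334) (nat_lit 27) (nat_lit 5) (nat_lit 31) (nat_lit 5) (nat_lit 32) (nat_lit 5) (nat_lit 371)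 (nat_lit 366) (nat_lit 283)) (XT.lf (nat_lit 0) (nat_lit 155439665024) (nat_lit 380) (nat_lit 58160614754) (nat_lit 76) (nat_lit 27400069980) (nat_lit 27) (nat_lit 5) (nat_lit 32) (nat_lit 5) (nat_lit 28) (nat_lit 5) (nat_lit 372) (nat_lit 366) (nat_lit 282)))) (XT.nd (nat_lit 78) (nat_lit 152) (nat_lit 0) (XT.lf (nat_lit 0) (nat_lit 81261279398) (nat_lit 152) (nat_lit 124220303853) (nat_lit 228) (nat_lit 55692908089) (nat_lit 25) (nat_lit 5) (nat_lit 27) (nat_lit 5) (nat_lit 28) (nat_lit 5) (nat_lit 373) (nat_lit 366) (nat_lit 281)) (XT.nd (nat_lit 78) (nat_lit 152) (nat_lit 0) (XT.lf (nat_lit 0) (nat_lit 248132634347) (nat_lit 152) (nat_lit 17937142511) (nat_lit 228) (nat_lit 17848979386) (nat_lit 25) (nat_lit 5) (nat_lit 27) (nat_lit 5) (nat_lit 28) (nat_lit 5) (nat_lit 374) (nat_lit 366) (nat_lit 280)) (XT.lf (nat_lit 0) (nat_lit 33892796224) (nat_lit 152) (nat_lit 172190887838) (nat_lit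 76) (nat_lit 102255519126) (nat_lit 23) (nat_lit 5) (nat_lit 25) (nat_lit 5) (nat_lit 24) (nat_lit 5) (nat_lit 375) (nat_lit 366) (nat_lit 279))))))) (XT.nd (nat_lit 858) (nat_lit 684) (nat_lit 0) (XT.nd (nat_lit 390) (nat_lit 304) (nat_lit 0) (XT.nd (nat_lit 156) (nat_lit 228) (nat_lit 0) (XT.nd (nat_lit 78) (nat_lit 152) (nat_lit 0) (XT.lf (nat_lit 0) (nat_lit 94382115863) (nat_lit 152) (nat_lit 40790764) (nat_lit 76) (nat_lit 241450267010) (nat_lit 23) (nat_lit 5) (nat_lit 25) (nat_lit 5) (nat_lit 24) (nat_lit 5) (nat_lit 376) (nat_lit 366) (nat_lit 278)) (XT.lf (nat_lit 0) (nat_lit 174777304621) (nat_lit 228) (nat_lit 150748590169) (nat_lit 76) (nat_lit 40386474321) (nat_lit 21) (nat_lit 5) (nat_lit 24) (nat_lit 5) (nat_lit 22) (nat_lit 4) (nat_lit 377) (nat_lit 366) (nat_lit 277))) (XT.nd (nat_lit 78) (nat_lit 152) (nat_lit 0) (XT.lf (nat_lit 0) (nat_lit 63338656012) (nat_lit 76)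 (nat_lit 211014238500) (nat_lit 152) (nat_lit 125036381088) (nat_lit 20) (nat_lit 5) (nat_lit 21) (nat_lit 5) (nat_lit 22) (nat_lit 4) (nat_lit 378) (nat_lit 366) (nat_lit 276)) (XT.nd (nat_lit 78) (nat_lit 152) (nat_lit 0) (XT.lf (nat_lit 0) (nat_lit 326480833417) (nat_lit 76) (nat_lit 70263881559) (nat_lit 152) (nat_lit 39961019373) (nat_lit 20) (nat_lit 5) (nat_lit 21) (nat_lit 5) (nat_lit 22) (nat_lit 4) (nat_lit 379) (nat_lit 366) (nat_lit 275)) (XT.lf (nat_lit 0) (nat_lit 63633769398) (nat_lit 152) (nat_lit 321031317112) (nat_lit 76) (nat_lit 92958507450) (nat_lit 18) (nat_lit 5) (nat_lit 20) (nat_lit 5) (nat_lit 19) (nat_lit 4) (nat_lit 380) (nat_lit 366) (nat_lit 274))))) (XT.nd (nat_lit 234) (nat_lit 152) (nat_lit 0) (XT.nd (nat_lit 78) (nat_lit 152) (nat_lit 0) (XT.lf (nat_lit 0) (nat_lit 188058424289) (nat_lit 152) (nat_lit 53518464661) (nat_lit 76) (nat_lit 281409523523) (nat_lit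 18) (nat_lit 5) (nat_lit 20) (nat_lit 5) (nat_lit 19) (nat_lit 4) (nat_lit 381) (nat_lit 366) (nat_lit 273)) (XT.nd (nat_lit 78) (nat_lit 76) (nat_lit 0) (XT.lf (nat_lit 0) (nat_lit 278955680644) (nat_lit 76) (nat_lit 63741943914) (nat_lit 152) (nat_lit 230723402190) (nat_lit 17) (nat_lit 5) (nat_lit 18) (nat_lit 5) (nat_lit 19) (nat_lit 4) (nat_lit 382) (nat_lit 366) (nat_lit 272)) (XT.lf (nat_lit 0) (nat_lit 33318395769) (nat_lit 76) (nat_lit 497353529291) (nat_lit 76) (nat_lit 99228025128) (nat_lit 16) (nat_lit 4) (nat_lit 17) (nat_lit 5) (nat_lit 17) (nat_lit 4) (nat_lit 383) (nat_lit 366) (nat_lit 271)))) (XT.nd (nat_lit 78) (nat_lit 76) (nat_lit 0) (XT.lf (nat_lit 0) (nat_lit 66523707412) (nat_lit 152) (nat_lit 255099622170) (nat_lit 76) (nat_lit 370030347159) (nat_lit 15) (nat_lit 5) (nat_lit 17) (nat_lit 5) (nat_lit 16) (nat_lit 4) (nat_lit 384) (nat_lit 366) (nat_lit 270)) (XT.nd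 (nat_lit 78) (nat_lit 0) (nat_lit 0) (XT.lf (nat_lit 0) (nat_lit 145865208389) (nat_lit 76) (nat_lit 107153805024) (nat_lit 152) (nat_lit 508036696295) (nat_lit 14) (nat_lit 5) (nat_lit 15) (nat_lit 5) (nat_lit 16) (nat_lit 4) (nat_lit 385) (nat_lit 366) (nat_lit 269)) (XT.lf (nat_lit 0) (nat_lit 487234088477) (nat_lit 152) (nat_lit 209634343379) (nat_lit 0) (nat_lit 141037794820) (nat_lit 14) (nat_lit 5) (nat_lit 16) (nat_lit 4) (nat_lit 14) (nat_lit 4) (nat_lit 386) (nat_lit 366) (nat_lit 268)))))) (XT.nd (nat_lit 468) (nat_lit 304) (nat_lit 0) (XT.nd (nat_lit 234) (nat_lit 152) (nat_lit 0) (XT.nd (nat_lit 78) (nat_lit 152) (nat_lit 0) (XT.lf (nat_lit 0) (nat_lit 276245834995) (nat_lit 76) (nat_lit 496876822883) (nat_lit 76) (nat_lit 150680478372) (nat_lit 13) (nat_lit 4) (nat_lit 14) (nat_lit 5) (nat_lit 14) (nat_lit 4) (nat_lit 387) (nat_lit 366) (nat_lit 267)) (XT.nd (nat_lit 78)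 (nat_lit 76) (nat_lit 0) (XT.lf (nat_lit 0) (nat_lit 83729108594) (nat_lit 152) (nat_lit 166178805254) (nat_lit 76) (nat_lit 770462075678) (nat_lit 12) (nat_lit 5) (nat_lit 14) (nat_lit 5) (nat_lit 13) (nat_lit 4) (nat_lit 388) (nat_lit 366) (nat_lit 266)) (XT.lf (nat_lit 0) (nat_lit 357733441860) (nat_lit 152) (nat_lit 712940051553) (nat_lit 0) (nat_lit 56693070394) (nat_lit 11) (nat_lit 5) (nat_lit 13) (nat_lit 4) (nat_lit 11) (nat_lit 4) (nat_lit 389) (nat_lit 366) (nat_lit 265)))) (XT.nd (nat_lit 78) (nat_lit 152) (nat_lit 0) (XT.lf (nat_lit 0) (nat_lit 693839001843) (nat_lit 152) (nat_lit 160624934591) (nat_lit 0) (nat_lit 392798601301) (nat_lit 11) (nat_lit 5) (nat_lit 13) (nat_lit 4) (nat_lit 11) (nat_lit 4) (nat_lit 390) (nat_lit 366) (nat_lit 264)) (XT.nd (nat_lit 78) (nat_lit 76) (nat_lit 0) (XT.lf (nat_lit 0) (nat_lit 520912570024) (nat_lit 76) (nat_lit 581017645320) (nat_lit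 76) (nat_lit 279977219495) (nat_lit 10) (nat_lit 4) (nat_lit 11) (nat_lit 5) (nat_lit 11) (nat_lit 4) (nat_lit 391) (nat_lit 366) (nat_lit 263)) (XT.lf (nat_lit 0) (nat_lit 40211926761) (nat_lit 152) (nat_lit 214584805274) (nat_lit 76) (nat_lit 1280418725166) (nat_lit 9) (nat_lit 5) (nat_lit 11) (nat_lit 5) (nat_lit 10) (nat_lit 4) (nat_lit 392) (nat_lit 366) (nat_lit 262))))) (XT.nd (nat_lit 234) (nat_lit 152) (nat_lit 0) (XT.nd (nat_lit 78) (nat_lit 76) (nat_lit 0) (XT.lf (nat_lit 0) (nat_lit 409929114241) (nat_lit 152) (nat_lit 1146911335681) (nat_lit 0) (nat_lit 148154795173) (nat_lit 8) (nat_lit 5) (nat_lit 10) (nat_lit 4) (nat_lit 8) (nat_lit 4) (nat_lit 393) (nat_lit 366) (nat_lit 261)) (XT.nd (nat_lit 78) (nat_lit 76) (nat_lit 0) (XT.lf (nat_lit 0) (nat_lit 858988079552) (nat_lit 152) (nat_lit 440457545644) (nat_lit 0) (nat_lit 597213746027) (nat_lit 8) (nat_lit 5) (nat_lit 10)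 (nat_lit 4) (nat_lit 8) (nat_lit 4) (nat_lit 394) (nat_lit 366) (nat_lit 260)) (XT.lf (nat_lit 0) (nat_lit 408315271187) (nat_lit 76) (nat_lit 983998039049) (nat_lit 76) (nat_lit 722223692954) (nat_lit 7) (nat_lit 4) (nat_lit 8) (nat_lit 5) (nat_lit 8) (nat_lit 4) (nat_lit 395) (nat_lit 366) (nat_lit 259)))) (XT.nd (nat_lit 78) (nat_lit 152) (nat_lit 0) (XT.lf (nat_lit 0) (nat_lit 1433905345860) (nat_lit 76) (nat_lit 594755854918) (nat_lit 76) (nat_lit 332981497892) (nat_lit 7) (nat_lit 4) (nat_lit 8) (nat_lit 5) (nat_lit 8) (nat_lit 4) (nat_lit 396) (nat_lit 366) (nat_lit 258)) (XT.nd (nat_lit 78) (nat_lit 76) (nat_lit 0) (XT.lf (nat_lit 0) (nat_lit 104440317159) (nat_lit 152) (nat_lit 37227684637) (nat_lit 76) (nat_lit 2503434159075) (nat_lit 6) (nat_lit 5) (nat_lit 8) (nat_lit 5) (nat_lit 7) (nat_lit 4) (nat_lit 397) (nat_lit 366) (nat_lit 257)) (XT.lf (nat_lit 0) (nat_lit 636087104607)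 (nat_lit 152) (nat_lit 1914752385595) (nat_lit 0) (nat_lit 408457213480) (nat_lit 5) (nat_lit 5) (nat_lit 7) (nat_lit 4) (nat_lit 5) (nat_lit 4) (nat_lit 398) (nat_lit 366) (nat_lit 256))))))))
noncomputable def xc92 : XT := (XT.nd (nat_lit 1716) (nat_lit 0) (nat_lit 0) (XT.nd (nat_lit 858) (nat_lit 76) (nat_lit 0) (XT.nd (nat_lit 390) (nat_lit 152) (nat_lit 0) (XT.nd (nat_lit 156) (nat_lit 76) (nat_lit 0) (XT.nd (nat_lit 78) (nat_lit 0) (nat_lit 0) (XT.lf (nat_lit 0) (nat_lit 1256265631424) (nat_lit 152) (nat_lit 1034401354259) (nat_lit 0) (nat_lit 1028635734047) (nat_lit 5) (nat_lit 5) (nat_lit 7) (nat_lit 4) (nat_lit 5) (nat_lit 4) (nat_lit 399) (nat_lit 366) (nat_lit 255)) (XT.lf (nat_lit 0) (nat_lit 1969470908575) (nat_lit 152) (nat_lit 21997728154) (nat_lit 0) (nat_lit 1741841005763) (nat_lit 5) (nat_lit 5) (nat_lit 7) (nat_lit 4) (nat_lit 5) (nat_lit 4) (nat_lit 400) (nat_lit 366)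 (nat_lit 254))) (XT.nd (nat_lit 78) (nat_lit 0) (nat_lit 0) (XT.lf (nat_lit 0) (nat_lit 1253896968750) (nat_lit 76) (nat_lit 1587681183135) (nat_lit 76) (nat_lit 1360051275597) (nat_lit 4) (nat_lit 4) (nat_lit 5) (nat_lit 5) (nat_lit 5) (nat_lit 4) (nat_lit 401) (nat_lit 366) (nat_lit 253)) (XT.nd (nat_lit 78) (nat_lit 0) (nat_lit 0) (XT.lf (nat_lit 0) (nat_lit 2723648065122) (nat_lit 76) (nat_lit 1122003274062) (nat_lit 76) (nat_lit 894373362415) (nat_lit 4) (nat_lit 4) (nat_lit 5) (nat_lit 5) (nat_lit 5) (nat_lit 4) (nat_lit 402) (nat_lit 366) (nat_lit 252)) (XT.lf (nat_lit 0) (nat_lit 4413861782693) (nat_lit 76) (nat_lit 586473701230) (nat_lit 76) (nat_lit 358843786010) (nat_lit 4) (nat_lit 4) (nat_lit 5) (nat_lit 5) (nat_lit 5) (nat_lit 4) (nat_lit 403) (nat_lit 366) (nat_lit 251))))) (XT.nd (nat_lit 234) (nat_lit 0) (nat_lit 0) (XT.nd (nat_lit 78) (nat_lit 0) (nat_lit 0) (XT.lf (nat_lit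 0) (nat_lit 248988836125) (nat_lit 152) (nat_lit 5767343810507) (nat_lit 0) (nat_lit 51049776710) (nat_lit 2) (nat_lit 5) (nat_lit 4) (nat_lit 4) (nat_lit 2) (nat_lit 4) (nat_lit 404) (nat_lit 366) (nat_lit 250)) (XT.nd (nat_lit 78) (nat_lit 0) (nat_lit 0) (XT.lf (nat_lit 0) (nat_lit 990952269587) (nat_lit 152) (nat_lit 5083333199468) (nat_lit 0) (nat_lit 793013207822) (nat_lit 2) (nat_lit 5) (nat_lit 4) (nat_lit 4) (nat_lit 2) (nat_lit 4) (nat_lit 405) (nat_lit 366) (nat_lit 249)) (XT.lf (nat_lit 0) (nat_lit 1844210201772) (nat_lit 152) (nat_lit 4296721031151) (nat_lit 0) (nat_lit 1646271137965) (nat_lit 2) (nat_lit 5) (nat_lit 4) (nat_lit 4) (nat_lit 2) (nat_lit 4) (nat_lit 406) (nat_lit 366) (nat_lit 248)))) (XT.nd (nat_lit 78) (nat_lit 0) (nat_lit 0) (XT.lf (nat_lit 0) (nat_lit 2825456809616) (nat_lit 152) (nat_lit 3392117067479) (nat_lit 0) (nat_lit 2627517744032) (nat_lit 2) (nat_lit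 5) (nat_lit 4) (nat_lit 4) (nat_lit 2) (nat_lit 4) (nat_lit 407) (nat_lit 366) (nat_lit 247)) (XT.nd (nat_lit 78) (nat_lit 0) (nat_lit 0) (XT.lf (nat_lit 0) (nat_lit 3953890396314) (nat_lit 152) (nat_lit 2351822535250) (nat_lit 0) (nat_lit 3755951329186) (nat_lit 2) (nat_lit 5) (nat_lit 4) (nat_lit 4) (nat_lit 2) (nat_lit 4) (nat_lit 408) (nat_lit 366) (nat_lit 246)) (XT.lf (nat_lit 0) (nat_lit 5251589010303) (nat_lit 152) (nat_lit 1155483845790) (nat_lit 0) (nat_lit 5053649941831) (nat_lit 2) (nat_lit 5) (nat_lit 4) (nat_lit 4) (nat_lit 2) (nat_lit 4) (nat_lit 409) (nat_lit 366) (nat_lit 245)))))) (XT.nd (nat_lit 390) (nat_lit 0) (nat_lit 0) (XT.nd (nat_lit 156) (nat_lit 0) (nat_lit 0) (XT.nd (nat_lit 78) (nat_lit 0) (nat_lit 0) (XT.lf (nat_lit 0) (nat_lit 241835495568) (nat_lit 76) (nat_lit 6512120803661) (nat_lit 76) (nat_lit 6314181734021) (nat_lit 1) (nat_lit 4) (nat_lit 2) (nat_lit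 5) (nat_lit 2) (nat_lit 4) (nat_lit 410) (nat_lit 366) (nat_lit 244)) (XT.lf (nat_lit 0) (nat_lit 1978613347038) (nat_lit 76) (nat_lit 6563465617517) (nat_lit 76) (nat_lit 6365526546861) (nat_lit 1) (nat_lit 4) (nat_lit 2) (nat_lit 5) (nat_lit 2) (nat_lit 4) (nat_lit 411) (nat_lit 366) (nat_lit 243))) (XT.nd (nat_lit 78) (nat_lit 0) (nat_lit 0) (XT.lf (nat_lit 0) (nat_lit 3975907859914) (nat_lit 76) (nat_lit 6622512162045) (nat_lit 76) (nat_lit 6424573090506) (nat_lit 1) (nat_lit 4) (nat_lit 2) (nat_lit 5) (nat_lit 2) (nat_lit 4) (nat_lit 412) (nat_lit 366) (nat_lit 242)) (XT.nd (nat_lit 78) (nat_lit 0) (nat_lit 0) (XT.lf (nat_lit 0) (nat_lit 6272796535536) (nat_lit 76) (nat_lit 6690415695726) (nat_lit 76) (nat_lit 6492476623419) (nat_lit 1) (nat_lit 4) (nat_lit 2) (nat_lit 5) (nat_lit 2) (nat_lit 4) (nat_lit 413) (nat_lit 366) (nat_lit 241)) (XT.lf (nat_lit 0) (nat_lit 8914218500164)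 (nat_lit 76) (nat_lit 6768504765957) (nat_lit 76) (nat_lit 6570565692982) (nat_lit 1) (nat_lit 4) (nat_lit 2) (nat_lit 5) (nat_lit 2) (nat_lit 4) (nat_lit 414) (nat_lit 366) (nat_lit 240))))) (XT.nd (nat_lit 234) (nat_lit 0) (nat_lit 0) (XT.nd (nat_lit 78) (nat_lit 0) (nat_lit 0) (XT.lf (nat_lit 0) (nat_lit 11951853748759) (nat_lit 76) (nat_lit 6858307202374) (nat_lit 76) (nat_lit 6660368128818) (nat_lit 1) (nat_lit 4) (nat_lit 2) (nat_lit 5) (nat_lit 2) (nat_lit 4) (nat_lit 415) (nat_lit 366) (nat_lit 239)) (XT.nd (nat_lit 78) (nat_lit 0) (nat_lit 0) (XT.lf (nat_lit 0) (nat_lit 15445134275316) (nat_lit 76) (nat_lit 6961580009166) (nat_lit 76) (nat_lit 6763640935106) (nat_lit 1) (nat_lit 4) (nat_lit 2) (nat_lit 5) (nat_lit 2) (nat_lit 4) (nat_lit 416) (nat_lit 366) (nat_lit 238)) (XT.lf (nat_lit 0) (nat_lit 19462406872744) (nat_lit 76) (nat_lit 7080343741251) (nat_lit 76) (nat_lit 6882404666751)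 (nat_lit 1) (nat_lit 4) (nat_lit 2) (nat_lit 5) (nat_lit 2) (nat_lit 4) (nat_lit 417) (nat_lit 366) (nat_lit 237)))) (XT.nd (nat_lit 78) (nat_lit 0) (nat_lit 0) (XT.lf (nat_lit 0) (nat_lit 24082270352734) (nat_lit 76) (nat_lit 7216922036863) (nat_lit 76) (nat_lit 7018982961982) (nat_lit 1) (nat_lit 4) (nat_lit 2) (nat_lit 5) (nat_lit 2) (nat_lit 4) (nat_lit 418) (nat_lit 366) (nat_lit 236)) (XT.nd (nat_lit 78) (nat_lit 0) (nat_lit 0) (XT.lf (nat_lit 0) (nat_lit 29395113348590) (nat_lit 76) (nat_lit 7373987080049) (nat_lit 76) (nat_lit 7176048004835) (nat_lit 1) (nat_lit 4) (nat_lit 2) (nat_lit 5) (nat_lit 2) (nat_lit 4) (nat_lit 419) (nat_lit 366) (nat_lit 235)) (XT.lf (nat_lit 0) (nat_lit 35504882788490) (nat_lit 76) (nat_lit 7554611882521) (nat_lit 76) (nat_lit 7356672807018) (nat_lit 1) (nat_lit 4) (nat_lit 2) (nat_lit 5) (nat_lit 2) (nat_lit 4) (nat_lit 420) (nat_lit 366) (nat_lit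 234))))))) (XT.nd (nat_lit 48984) (nat_lit 0) (nat_lit 1444) (XT.nd (nat_lit 390) (nat_lit 0) (nat_lit 0) (XT.nd (nat_lit 156) (nat_lit 0) (nat_lit 0) (XT.nd (nat_lit 78) (nat_lit 0) (nat_lit 0) (XT.lf (nat_lit 0) (nat_lit 42531117639738) (nat_lit 76) (nat_lit 7762330407807) (nat_lit 76) (nat_lit 7564391332054) (nat_lit 1) (nat_lit 4) (nat_lit 2) (nat_lit 5) (nat_lit 2) (nat_lit 4) (nat_lit 421) (nat_lit 366) (nat_lit 233)) (XT.lf (nat_lit 0) (nat_lit 50611287714640) (nat_lit 76) (nat_lit 8001206714011) (nat_lit 76) (nat_lit 7803267638039) (nat_lit 1) (nat_lit 4) (nat_lit 2) (nat_lit 5) (nat_lit 2) (nat_lit 4) (nat_lit 422) (nat_lit 366) (nat_lit 232))) (XT.nd (nat_lit 78) (nat_lit 0) (nat_lit 0) (XT.lf (nat_lit 0) (nat_lit 59903483297271) (nat_lit 76) (nat_lit 8275914467992) (nat_lit 76) (nat_lit 8077975391830) (nat_lit 1) (nat_lit 4) (nat_lit 2) (nat_lit 5) (nat_lit 2) (nat_lit 4) (nat_lit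 423) (nat_lit 366) (nat_lit 231)) (XT.nd (nat_lit 78) (nat_lit 0) (nat_lit 0) (XT.lf (nat_lit 0) (nat_lit 70589508214247) (nat_lit 76) (nat_lit 8591828386677) (nat_lit 76) (nat_lit 8393889310350) (nat_lit 1) (nat_lit 4) (nat_lit 2) (nat_lit 5) (nat_lit 2) (nat_lit 4) (nat_lit 424) (nat_lit 366) (nat_lit 230)) (XT.lf (nat_lit 0) (nat_lit 82878436866118) (nat_lit 76) (nat_lit 8955129394561) (nat_lit 76) (nat_lit 8757190318091) (nat_lit 1) (nat_lit 4) (nat_lit 2) (nat_lit 5) (nat_lit 2) (nat_lit 4) (nat_lit 425) (nat_lit 366) (nat_lit 229))))) (XT.nd (nat_lit 234) (nat_lit 0) (nat_lit 0) (XT.nd (nat_lit 78) (nat_lit 0) (nat_lit 0) (XT.lf (nat_lit 0) (nat_lit 97010704813464) (nat_lit 76) (nat_lit 9372925554843) (nat_lit 76) (nat_lit 9174986478248) (nat_lit 1) (nat_lit 4) (nat_lit 2) (nat_lit 5) (nat_lit 2) (nat_lit 4) (nat_lit 426) (nat_lit 366) (nat_lit 228)) (XT.nd (nat_lit 78) (nat_lit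 0) (nat_lit 0) (XT.lf (nat_lit 0) (nat_lit 113262812950908) (nat_lit 76) (nat_lit 9853391140223) (nat_lit 76) (nat_lit 9655452063519) (nat_lit 1) (nat_lit 4) (nat_lit 2) (nat_lit 5) (nat_lit 2) (nat_lit 4) (nat_lit 427) (nat_lit 366) (nat_lit 227)) (XT.lf (nat_lit 0) (nat_lit 131952737307223) (nat_lit 76) (nat_lit 10405926564328) (nat_lit 76) (nat_lit 10207987487530) (nat_lit 1) (nat_lit 4) (nat_lit 2) (nat_lit 5) (nat_lit 2) (nat_lit 4) (nat_lit 428) (nat_lit 366) (nat_lit 226)))) (XT.nd (nat_lit 78) (nat_lit 0) (nat_lit 0) (XT.lf (nat_lit 0) (nat_lit 153446150315471) (nat_lit 76) (nat_lit 11041342302848) (nat_lit 76) (nat_lit 10843403225968) (nat_lit 1) (nat_lit 4) (nat_lit 2) (nat_lit 5) (nat_lit 2) (nat_lit 4) (nat_lit 429) (nat_lit 366) (nat_lit 225)) (XT.nd (nat_lit 48204) (nat_lit 0) (nat_lit 2128) (XT.lf (nat_lit 0) (nat_lit 178163575273637) (nat_lit 76) (nat_lit 11772070402841)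 (nat_lit 76) (nat_lit 11574131325889) (nat_lit 1) (nat_lit 4) (nat_lit 2) (nat_lit 5) (nat_lit 2) (nat_lit 4) (nat_lit 430) (nat_lit 366) (nat_lit 224)) (XT.lf (nat_lit 0) (nat_lit 22990935871) (nat_lit 380) (nat_lit 32653767644) (nat_lit 380) (nat_lit 32653767644) (nat_lit 29) (nat_lit 3) (nat_lit 34) (nat_lit 3) (nat_lit 34) (nat_lit 5) (nat_lit 367) (nat_lit 367) (nat_lit 286)))))) (XT.nd (nat_lit 468) (nat_lit 532) (nat_lit 0) (XT.nd (nat_lit 234) (nat_lit 152) (nat_lit 0) (XT.nd (nat_lit 78) (nat_lit 0) (nat_lit 76) (XT.lf (nat_lit 76) (nat_lit 23201888373) (nat_lit 0) (nat_lit 27191298749) (nat_lit 380) (nat_lit 139304122324) (nat_lit 30) (nat_lit 5) (nat_lit 29) (nat_lit 3) (nat_lit 34) (nat_lit 5) (nat_lit 368) (nat_lit 367) (nat_lit 285)) (XT.nd (nat_lit 78) (nat_lit 0) (nat_lit 0) (XT.lf (nat_lit 0) (nat_lit 61920955172) (nat_lit 304) (nat_lit 74964836034) (nat_lit 380) (nat_lit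 66908727542) (nat_lit 30) (nat_lit 5) (nat_lit 34) (nat_lit 5) (nat_lit 35) (nat_lit 5) (nat_lit 369) (nat_lit 367) (nat_lit 284)) (XT.lf (nat_lit 76) (nat_lit 31834389975) (nat_lit 0) (nat_lit 45956213976) (nat_lit 380) (nat_lit 141823798521) (nat_lit 31) (nat_lit 5) (nat_lit 30) (nat_lit 5) (nat_lit 35) (nat_lit 5) (nat_lit 370) (nat_lit 367) (nat_lit 283)))) (XT.nd (nat_lit 78) (nat_lit 304) (nat_lit 0) (XT.lf (nat_lit 0) (nat_lit 102572677594) (nat_lit 304) (nat_lit 76754855506) (nat_lit 76) (nat_lit 57499939333) (nat_lit 31) (nat_lit 5) (nat_lit 35) (nat_lit 5) (nat_lit 32) (nat_lit 5) (nat_lit 371) (nat_lit 367) (nat_lit 282)) (XT.nd (nat_lit 78) (nat_lit 0) (nat_lit 0) (XT.lf (nat_lit 0) (nat_lit 53498229160) (nat_lit 304) (nat_lit 81977236441) (nat_lit 380) (nat_lit 120486527056) (nat_lit 27) (nat_lit 5) (nat_lit 31) (nat_lit 5) (nat_lit 32) (nat_lit 5) (nat_lit 372) (nat_lit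 367) (nat_lit 281)) (XT.lf (nat_lit 0) (nat_lit 178757925193) (nat_lit 380) (nat_lit 66881927871) (nat_lit 76) (nat_lit 31510200079) (nat_lit 27) (nat_lit 5) (nat_lit 32) (nat_lit 5) (nat_lit 28) (nat_lit 5) (nat_lit 373) (nat_lit 367) (nat_lit 280))))) (XT.nd (nat_lit 234) (nat_lit 228) (nat_lit 0) (XT.nd (nat_lit 78) (nat_lit 152) (nat_lit 0) (XT.lf (nat_lit 0) (nat_lit 93453124081) (nat_lit 152) (nat_lit 142852815559) (nat_lit 228) (nat_lit 64044405376) (nat_lit 25) (nat_lit 5) (nat_lit 27) (nat_lit 5) (nat_lit 28) (nat_lit 5) (nat_lit 374) (nat_lit 367) (nat_lit 279)) (XT.nd (nat_lit 78) (nat_lit 152) (nat_lit 0) (XT.lf (nat_lit 0) (nat_lit 285354836259) (nat_lit 152) (nat_lit 20627249652) (nat_lit 228) (nat_lit 20524205489) (nat_lit 25) (nat_lit 5) (nat_lit 27) (nat_lit 5) (nat_lit 28) (nat_lit 5) (nat_lit 375) (nat_lit 367) (nat_lit 278)) (XT.lf (nat_lit 0) (nat_lit 38978519411)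 (nat_lit 152) (nat_lit 198016894109) (nat_lit 76) (nat_lit 117594398144) (nat_lit 23) (nat_lit 5) (nat_lit 25) (nat_lit 5) (nat_lit 24) (nat_lit 5) (nat_lit 376) (nat_lit 367) (nat_lit 277)))) (XT.nd (nat_lit 78) (nat_lit 228) (nat_lit 0) (XT.lf (nat_lit 0) (nat_lit 108541001724) (nat_lit 152) (nat_lit 44625114) (nat_lit 76) (nat_lit 277668286321) (nat_lit 23) (nat_lit 5) (nat_lit 25) (nat_lit 5) (nat_lit 24) (nat_lit 5) (nat_lit 377) (nat_lit 367) (nat_lit 276)) (XT.nd (nat_lit 78) (nat_lit 76) (nat_lit 0) (XT.lf (nat_lit 0) (nat_lit 200995384571) (nat_lit 228) (nat_lit 173358509116) (nat_lit 76) (nat_lit 46445107064) (nat_lit 21) (nat_lit 5) (nat_lit 24) (nat_lit 5) (nat_lit 22) (nat_lit 4) (nat_lit 378) (nat_lit 367) (nat_lit 275)) (XT.lf (nat_lit 0) (nat_lit 72841716283) (nat_lit 76) (nat_lit 242665496722) (nat_lit 152) (nat_lit 143790245341) (nat_lit 20) (nat_lit 5) (nat_lit 21)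 (nat_lit 5) (nat_lit 22) (nat_lit 4) (nat_lit 379) (nat_lit 367) (nat_lit 274))))))))
noncomputable def xc93 : XT := (XT.nd (nat_lit 1794) (nat_lit 228) (nat_lit 0) (XT.nd (nat_lit 858) (nat_lit 532) (nat_lit 0) (XT.nd (nat_lit 390) (nat_lit 380) (nat_lit 0) (XT.nd (nat_lit 156) (nat_lit 152) (nat_lit 0) (XT.nd (nat_lit 78) (nat_lit 152) (nat_lit 0) (XT.lf (nat_lit 0) (nat_lit 375454925273) (nat_lit 76) (nat_lit 80802700704) (nat_lit 152) (nat_lit 45953787139) (nat_lit 20) (nat_lit 5) (nat_lit 21) (nat_lit 5) (nat_lit 22) (nat_lit 4) (nat_lit 380) (nat_lit 367) (nat_lit 273)) (XT.lf (nat_lit 0) (nat_lit 73180048477) (nat_lit 152) (nat_lit 369183875028) (nat_lit 76) (nat_lit 106903026877) (nat_lit 18) (nat_lit 5) (nat_lit 20) (nat_lit 5) (nat_lit 19) (nat_lit 4) (nat_lit 381) (nat_lit 367) (nat_lit 272))) (XT.nd (nat_lit 78) (nat_lit 152) (nat_lit 0) (XT.lf (nat_lit 0) (nat_lit 216268243297)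 (nat_lit 152) (nat_lit 61544373794) (nat_lit 76) (nat_lit 323621598407) (nat_lit 18) (nat_lit 5) (nat_lit 20) (nat_lit 5) (nat_lit 19) (nat_lit 4) (nat_lit 382) (nat_lit 367) (nat_lit 271)) (XT.nd (nat_lit 78) (nat_lit 76) (nat_lit 0) (XT.lf (nat_lit 0) (nat_lit 320800808735) (nat_lit 76) (nat_lit 73302450755) (nat_lit 152) (nat_lit 265330772113) (nat_lit 17) (nat_lit 5) (nat_lit 18) (nat_lit 5) (nat_lit 19) (nat_lit 4) (nat_lit 383) (nat_lit 367) (nat_lit 270)) (XT.lf (nat_lit 0) (nat_lit 38317961762) (nat_lit 76) (nat_lit 571955717076) (nat_lit 76) (nat_lit 114111118715) (nat_lit 16) (nat_lit 4) (nat_lit 17) (nat_lit 5) (nat_lit 17) (nat_lit 4) (nat_lit 384) (nat_lit 367) (nat_lit 269))))) (XT.nd (nat_lit 234) (nat_lit 228) (nat_lit 0) (XT.nd (nat_lit 78) (nat_lit 76) (nat_lit 0) (XT.lf (nat_lit 0) (nat_lit 76503142955) (nat_lit 152) (nat_lit 293362908261) (nat_lit 76) (nat_lit 425535544812)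 (nat_lit 15) (nat_lit 5) (nat_lit 17) (nat_lit 5) (nat_lit 16) (nat_lit 4) (nat_lit 385) (nat_lit 367) (nat_lit 268)) (XT.nd (nat_lit 78) (nat_lit 0) (nat_lit 0) (XT.lf (nat_lit 0) (nat_lit 167746571553) (nat_lit 76) (nat_lit 123226124098) (nat_lit 152) (nat_lit 584241245711) (nat_lit 14) (nat_lit 5) (nat_lit 15) (nat_lit 5) (nat_lit 16) (nat_lit 4) (nat_lit 386) (nat_lit 367) (nat_lit 267)) (XT.lf (nat_lit 0) (nat_lit 560319950750) (nat_lit 152) (nat_lit 241078037857) (nat_lit 0) (nat_lit 162194059486) (nat_lit 14) (nat_lit 5) (nat_lit 16) (nat_lit 4) (nat_lit 14) (nat_lit 4) (nat_lit 387) (nat_lit 367) (nat_lit 266)))) (XT.nd (nat_lit 78) (nat_lit 152) (nat_lit 0) (XT.lf (nat_lit 0) (nat_lit 317684101045) (nat_lit 76) (nat_lit 571407664411) (nat_lit 76) (nat_lit 173281734694) (nat_lit 13) (nat_lit 4) (nat_lit 14) (nat_lit 5) (nat_lit 14) (nat_lit 4) (nat_lit 388) (nat_lit 367) (nat_lit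 265)) (XT.nd (nat_lit 78) (nat_lit 76) (nat_lit 0) (XT.lf (nat_lit 0) (nat_lit 96289120829) (nat_lit 152) (nat_lit 191104353371) (nat_lit 76) (nat_lit 886031916710) (nat_lit 12) (nat_lit 5) (nat_lit 14) (nat_lit 5) (nat_lit 13) (nat_lit 4) (nat_lit 389) (nat_lit 367) (nat_lit 264)) (XT.lf (nat_lit 0) (nat_lit 411394095096) (nat_lit 152) (nat_lit 819879777492) (nat_lit 0) (nat_lit 65197580113) (nat_lit 11) (nat_lit 5) (nat_lit 13) (nat_lit 4) (nat_lit 11) (nat_lit 4) (nat_lit 390) (nat_lit 367) (nat_lit 263)))))) (XT.nd (nat_lit 468) (nat_lit 228) (nat_lit 0) (XT.nd (nat_lit 234) (nat_lit 152) (nat_lit 0) (XT.nd (nat_lit 78) (nat_lit 152) (nat_lit 0) (XT.lf (nat_lit 0) (nat_lit 797915405995) (nat_lit 152) (nat_lit 184717560176) (nat_lit 0) (nat_lit 451718869027) (nat_lit 11) (nat_lit 5) (nat_lit 13) (nat_lit 4) (nat_lit 11) (nat_lit 4) (nat_lit 391) (nat_lit 367) (nat_lit 262)) (XT.nd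 (nat_lit 78) (nat_lit 76) (nat_lit 0) (XT.lf (nat_lit 0) (nat_lit 599050519467) (nat_lit 76) (nat_lit 668169753865) (nat_lit 76) (nat_lit 321973197778) (nat_lit 10) (nat_lit 4) (nat_lit 11) (nat_lit 5) (nat_lit 11) (nat_lit 4) (nat_lit 392) (nat_lit 367) (nat_lit 261)) (XT.lf (nat_lit 0) (nat_lit 46244194741) (nat_lit 152) (nat_lit 246771554016) (nat_lit 76) (nat_lit 1472481955103) (nat_lit 9) (nat_lit 5) (nat_lit 11) (nat_lit 5) (nat_lit 10) (nat_lit 4) (nat_lit 393) (nat_lit 367) (nat_lit 260)))) (XT.nd (nat_lit 78) (nat_lit 76) (nat_lit 0) (XT.lf (nat_lit 0) (nat_lit 471418955875) (nat_lit 152) (nat_lit 1318947059448) (nat_lit 0) (nat_lit 170378445295) (nat_lit 8) (nat_lit 5) (nat_lit 10) (nat_lit 4) (nat_lit 8) (nat_lit 4) (nat_lit 394) (nat_lit 367) (nat_lit 259)) (XT.nd (nat_lit 78) (nat_lit 76) (nat_lit 0) (XT.lf (nat_lit 0) (nat_lit 987836704091) (nat_lit 152) (nat_lit 506525328286)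 (nat_lit 0) (nat_lit 686796182581) (nat_lit 8) (nat_lit 5) (nat_lit 10) (nat_lit 4) (nat_lit 8) (nat_lit 4) (nat_lit 395) (nat_lit 367) (nat_lit 258)) (XT.lf (nat_lit 0) (nat_lit 469563372469) (nat_lit 76) (nat_lit 1131597326656) (nat_lit 76) (nat_lit 830556795641) (nat_lit 7) (nat_lit 4) (nat_lit 8) (nat_lit 5) (nat_lit 8) (nat_lit 4) (nat_lit 396) (nat_lit 367) (nat_lit 257))))) (XT.nd (nat_lit 234) (nat_lit 76) (nat_lit 0) (XT.nd (nat_lit 78) (nat_lit 152) (nat_lit 0) (XT.lf (nat_lit 0) (nat_lit 1648991852612) (nat_lit 76) (nat_lit 683968869460) (nat_lit 76) (nat_lit 382928330179) (nat_lit 7) (nat_lit 4) (nat_lit 8) (nat_lit 5) (nat_lit 8) (nat_lit 4) (nat_lit 397) (nat_lit 367) (nat_lit 256)) (XT.nd (nat_lit 78) (nat_lit 76) (nat_lit 0) (XT.lf (nat_lit 0) (nat_lit 120106675571) (nat_lit 152) (nat_lit 42811193989) (nat_lit 76) (nat_lit 2878949568784) (nat_lit 6) (nat_lit 5) (nat_lit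 8) (nat_lit 5) (nat_lit 7) (nat_lit 4) (nat_lit 398) (nat_lit 367) (nat_lit 255)) (XT.lf (nat_lit 0) (nat_lit 731500479204) (nat_lit 152) (nat_lit 2201964598130) (nat_lit 0) (nat_lit 469726085536) (nat_lit 5) (nat_lit 5) (nat_lit 7) (nat_lit 4) (nat_lit 5) (nat_lit 4) (nat_lit 399) (nat_lit 367) (nat_lit 254)))) (XT.nd (nat_lit 78) (nat_lit 76) (nat_lit 0) (XT.lf (nat_lit 0) (nat_lit 1444705744751) (nat_lit 152) (nat_lit 1189560996264) (nat_lit 0) (nat_lit 1182931346358) (nat_lit 5) (nat_lit 5) (nat_lit 7) (nat_lit 4) (nat_lit 5) (nat_lit 4) (nat_lit 400) (nat_lit 367) (nat_lit 253)) (XT.nd (nat_lit 78) (nat_lit 76) (nat_lit 0) (XT.lf (nat_lit 0) (nat_lit 2264891778438) (nat_lit 152) (nat_lit 25296899435) (nat_lit 0) (nat_lit 2003117375935) (nat_lit 5) (nat_lit 5) (nat_lit 7) (nat_lit 4) (nat_lit 5) (nat_lit 4) (nat_lit 401) (nat_lit 367) (nat_lit 252)) (XT.lf (nat_lit 0) (nat_lit 1441981979826)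 (nat_lit 76) (nat_lit 1825833117238) (nat_lit 76) (nat_lit 1564058711162) (nat_lit 4) (nat_lit 4) (nat_lit 5) (nat_lit 5) (nat_lit 5) (nat_lit 4) (nat_lit 402) (nat_lit 367) (nat_lit 251))))))) (XT.nd (nat_lit 858) (nat_lit 0) (nat_lit 0) (XT.nd (nat_lit 390) (nat_lit 76) (nat_lit 0) (XT.nd (nat_lit 156) (nat_lit 152) (nat_lit 0) (XT.nd (nat_lit 78) (nat_lit 0) (nat_lit 0) (XT.lf (nat_lit 0) (nat_lit 3132195679902) (nat_lit 76) (nat_lit 1290303553548) (nat_lit 76) (nat_lit 1028529144364) (nat_lit 4) (nat_lit 4) (nat_lit 5) (nat_lit 5) (nat_lit 5) (nat_lit 4) (nat_lit 403) (nat_lit 367) (nat_lit 250)) (XT.lf (nat_lit 0) (nat_lit 5075941402281) (nat_lit 76) (nat_lit 674444572394) (nat_lit 76) (nat_lit 412670160509) (nat_lit 4) (nat_lit 4) (nat_lit 5) (nat_lit 5) (nat_lit 5) (nat_lit 4) (nat_lit 404) (nat_lit 367) (nat_lit 249))) (XT.nd (nat_lit 78) (nat_lit 0) (nat_lit 0) (XT.lf (nat_lit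 0) (nat_lit 286337337002) (nat_lit 152) (nat_lit 6632445011931) (nat_lit 0) (nat_lit 58707411581) (nat_lit 2) (nat_lit 5) (nat_lit 4) (nat_lit 4) (nat_lit 2) (nat_lit 4) (nat_lit 405) (nat_lit 367) (nat_lit 248)) (XT.nd (nat_lit 78) (nat_lit 0) (nat_lit 0) (XT.lf (nat_lit 0) (nat_lit 1139595262597) (nat_lit 152) (nat_lit 5845832857517) (nat_lit 0) (nat_lit 911965335399) (nat_lit 2) (nat_lit 5) (nat_lit 4) (nat_lit 4) (nat_lit 2) (nat_lit 4) (nat_lit 406) (nat_lit 367) (nat_lit 247)) (XT.lf (nat_lit 0) (nat_lit 2120841864710) (nat_lit 152) (nat_lit 4941228905935) (nat_lit 0) (nat_lit 1893211935967) (nat_lit 2) (nat_lit 5) (nat_lit 4) (nat_lit 4) (nat_lit 2) (nat_lit 4) (nat_lit 407) (nat_lit 367) (nat_lit 246))))) (XT.nd (nat_lit 234) (nat_lit 76) (nat_lit 0) (XT.nd (nat_lit 78) (nat_lit 0) (nat_lit 0) (XT.lf (nat_lit 0) (nat_lit 3249275446425) (nat_lit 152) (nat_lit 3900934384220) (nat_lit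 0) (nat_lit 3021645516339) (nat_lit 2) (nat_lit 5) (nat_lit 4) (nat_lit 4) (nat_lit 2) (nat_lit 4) (nat_lit 408) (nat_lit 367) (nat_lit 245)) (XT.nd (nat_lit 78) (nat_lit 0) (nat_lit 0) (XT.lf (nat_lit 0) (nat_lit 4546974056081) (nat_lit 152) (nat_lit 2704595703902) (nat_lit 0) (nat_lit 4319344124826) (nat_lit 2) (nat_lit 5) (nat_lit 4) (nat_lit 4) (nat_lit 2) (nat_lit 4) (nat_lit 409) (nat_lit 367) (nat_lit 244)) (XT.lf (nat_lit 0) (nat_lit 6039327449083) (nat_lit 152) (nat_lit 1328806238628) (nat_lit 0) (nat_lit 5811697516813) (nat_lit 2) (nat_lit 5) (nat_lit 4) (nat_lit 4) (nat_lit 2) (nat_lit 4) (nat_lit 410) (nat_lit 367) (nat_lit 243)))) (XT.nd (nat_lit 78) (nat_lit 0) (nat_lit 0) (XT.lf (nat_lit 0) (nat_lit 278110995569) (nat_lit 76) (nat_lit 7488938831674) (nat_lit 76) (nat_lit 7261308898521) (nat_lit 1) (nat_lit 4) (nat_lit 2) (nat_lit 5) (nat_lit 2) (nat_lit 4) (nat_lit 411)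 (nat_lit 367) (nat_lit 242)) (XT.nd (nat_lit 78) (nat_lit 0) (nat_lit 0) (XT.lf (nat_lit 0) (nat_lit 2275405501847) (nat_lit 76) (nat_lit 7547985379678) (nat_lit 76) (nat_lit 7320355445757) (nat_lit 1) (nat_lit 4) (nat_lit 2) (nat_lit 5) (nat_lit 2) (nat_lit 4) (nat_lit 412) (nat_lit 367) (nat_lit 241)) (XT.lf (nat_lit 0) (nat_lit 4572294171730) (nat_lit 76) (nat_lit 7615888916382) (nat_lit 76) (nat_lit 7388258981792) (nat_lit 1) (nat_lit 4) (nat_lit 2) (nat_lit 5) (nat_lit 2) (nat_lit 4) (nat_lit 413) (nat_lit 367) (nat_lit 240)))))) (XT.nd (nat_lit 468) (nat_lit 0) (nat_lit 0) (XT.nd (nat_lit 234) (nat_lit 0) (nat_lit 0) (XT.nd (nat_lit 78) (nat_lit 0) (nat_lit 0) (XT.lf (nat_lit 0) (nat_lit 7213716131369) (nat_lit 76) (nat_lit 7693977989241) (nat_lit 76) (nat_lit 7466348054071) (nat_lit 1) (nat_lit 4) (nat_lit 2) (nat_lit 5) (nat_lit 2) (nat_lit 4) (nat_lit 414) (nat_lit 367) (nat_lit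 239)) (XT.nd (nat_lit 78) (nat_lit 0) (nat_lit 0) (XT.lf (nat_lit 0) (nat_lit 10251351375626) (nat_lit 76) (nat_lit 7783780427943) (nat_lit 76) (nat_lit 7556150492268) (nat_lit 1) (nat_lit 4) (nat_lit 2) (nat_lit 5) (nat_lit 2) (nat_lit 4) (nat_lit 415) (nat_lit 367) (nat_lit 238)) (XT.lf (nat_lit 0) (nat_lit 13744631898410) (nat_lit 76) (nat_lit 7887053236723) (nat_lit 76) (nat_lit 7659423300609) (nat_lit 1) (nat_lit 4) (nat_lit 2) (nat_lit 5) (nat_lit 2) (nat_lit 4) (nat_lit 416) (nat_lit 367) (nat_lit 237)))) (XT.nd (nat_lit 78) (nat_lit 0) (nat_lit 0) (XT.lf (nat_lit 0) (nat_lit 17761904492558) (nat_lit 76) (nat_lit 8005816970535) (nat_lit 76) (nat_lit 7778187034039) (nat_lit 1) (nat_lit 4) (nat_lit 2) (nat_lit 5) (nat_lit 2) (nat_lit 4) (nat_lit 417) (nat_lit 367) (nat_lit 236)) (XT.nd (nat_lit 78) (nat_lit 0) (nat_lit 0) (XT.lf (nat_lit 0) (nat_lit 22381767969695) (nat_lit 76) (nat_lit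 8142395267651) (nat_lit 76) (nat_lit 7914765330823) (nat_lit 1) (nat_lit 4) (nat_lit 2) (nat_lit 5) (nat_lit 2) (nat_lit 4) (nat_lit 418) (nat_lit 367) (nat_lit 235)) (XT.lf (nat_lit 0) (nat_lit 27694610963070) (nat_lit 76) (nat_lit 8299460312143) (nat_lit 76) (nat_lit 8071830375026) (nat_lit 1) (nat_lit 4) (nat_lit 2) (nat_lit 5) (nat_lit 2) (nat_lit 4) (nat_lit 419) (nat_lit 367) (nat_lit 234))))) (XT.nd (nat_lit 234) (nat_lit 0) (nat_lit 0) (XT.nd (nat_lit 78) (nat_lit 0) (nat_lit 0) (XT.lf (nat_lit 0) (nat_lit 33804380400813) (nat_lit 76) (nat_lit 8480085115751) (nat_lit 76) (nat_lit 8252455178384) (nat_lit 1) (nat_lit 4) (nat_lit 2) (nat_lit 5) (nat_lit 2) (nat_lit 4) (nat_lit 420) (nat_lit 367) (nat_lit 233)) (XT.nd (nat_lit 78) (nat_lit 0) (nat_lit 0) (XT.lf (nat_lit 0) (nat_lit 40830615250186) (nat_lit 76) (nat_lit 8687803642026) (nat_lit 76) (nat_lit 8460173704440) (nat_lit 1)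 (nat_lit 4) (nat_lit 2) (nat_lit 5) (nat_lit 2) (nat_lit 4) (nat_lit 421) (nat_lit 367) (nat_lit 232)) (XT.lf (nat_lit 0) (nat_lit 48910785323457) (nat_lit 76) (nat_lit 8926679949088) (nat_lit 76) (nat_lit 8699050011312) (nat_lit 1) (nat_lit 4) (nat_lit 2) (nat_lit 5) (nat_lit 2) (nat_lit 4) (nat_lit 422) (nat_lit 367) (nat_lit 231)))) (XT.nd (nat_lit 78) (nat_lit 0) (nat_lit 0) (XT.lf (nat_lit 0) (nat_lit 58202980904670) (nat_lit 76) (nat_lit 9201387703817) (nat_lit 76) (nat_lit 8973757765876) (nat_lit 1) (nat_lit 4) (nat_lit 2) (nat_lit 5) (nat_lit 2) (nat_lit 4) (nat_lit 423) (nat_lit 367) (nat_lit 230)) (XT.nd (nat_lit 78) (nat_lit 0) (nat_lit 0) (XT.lf (nat_lit 0) (nat_lit 68889005820412) (nat_lit 76) (nat_lit 9517301623151) (nat_lit 76) (nat_lit 9289671685067) (nat_lit 1) (nat_lit 4) (nat_lit 2) (nat_lit 5) (nat_lit 2) (nat_lit 4) (nat_lit 424) (nat_lit 367) (nat_lit 229)) (XT.lf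 (nat_lit 0) (nat_lit 81177934471211) (nat_lit 76) (nat_lit 9880602631601) (nat_lit 76) (nat_lit 9652972693391) (nat_lit 1) (nat_lit 4) (nat_lit 2) (nat_lit 5) (nat_lit 2) (nat_lit 4) (nat_lit 425) (nat_lit 367) (nat_lit 228))))))))
noncomputable def xc94 : XT := (XT.nd (nat_lit 49920) (nat_lit 0) (nat_lit 76) (XT.nd (nat_lit 48984) (nat_lit 0) (nat_lit 1216) (XT.nd (nat_lit 390) (nat_lit 0) (nat_lit 0) (XT.nd (nat_lit 156) (nat_lit 0) (nat_lit 0) (XT.nd (nat_lit 78) (nat_lit 0) (nat_lit 0) (XT.lf (nat_lit 0) (nat_lit 95310202417625) (nat_lit 76) (nat_lit 10298398792374) (nat_lit 76) (nat_lit 10070768854055) (nat_lit 1) (nat_lit 4) (nat_lit 2) (nat_lit 5) (nat_lit 2) (nat_lit 4) (nat_lit 426) (nat_lit 367) (nat_lit 227)) (XT.lf (nat_lit 0) (nat_lit 111562310554257) (nat_lit 76) (nat_lit 10778864378181) (nat_lit 76) (nat_lit 10551234439768) (nat_lit 1) (nat_lit 4) (nat_lit 2) (nat_lit 5)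 (nat_lit 2) (nat_lit 4) (nat_lit 427) (nat_lit 367) (nat_lit 226))) (XT.nd (nat_lit 78) (nat_lit 0) (nat_lit 0) (XT.lf (nat_lit 0) (nat_lit 130252234909868) (nat_lit 76) (nat_lit 11331399802658) (nat_lit 76) (nat_lit 11103769864163) (nat_lit 1) (nat_lit 4) (nat_lit 2) (nat_lit 5) (nat_lit 2) (nat_lit 4) (nat_lit 428) (nat_lit 367) (nat_lit 225)) (XT.nd (nat_lit 78) (nat_lit 0) (nat_lit 0) (XT.lf (nat_lit 0) (nat_lit 151745647917502) (nat_lit 76) (nat_lit 11966815541500) (nat_lit 76) (nat_lit 11739185602935) (nat_lit 1) (nat_lit 4) (nat_lit 2) (nat_lit 5) (nat_lit 2) (nat_lit 4) (nat_lit 429) (nat_lit 367) (nat_lit 224)) (XT.lf (nat_lit 0) (nat_lit 176463072875135) (nat_lit 76) (nat_lit 12697543641774) (nat_lit 76) (nat_lit 12469913703145) (nat_lit 1) (nat_lit 4) (nat_lit 2) (nat_lit 5) (nat_lit 2) (nat_lit 4) (nat_lit 430) (nat_lit 367) (nat_lit 223))))) (XT.nd (nat_lit 48360) (nat_lit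 0) (nat_lit 2204) (XT.nd (nat_lit 48204) (nat_lit 0) (nat_lit 2128) (XT.lf (nat_lit 0) (nat_lit 204888111575415) (nat_lit 76) (nat_lit 13537880957613) (nat_lit 76) (nat_lit 13310251018931) (nat_lit 1) (nat_lit 4) (nat_lit 2) (nat_lit 5) (nat_lit 2) (nat_lit 4) (nat_lit 431) (nat_lit 367) (nat_lit 222)) (XT.nd (nat_lit 78) (nat_lit 0) (nat_lit 0) (XT.lf (nat_lit 0) (nat_lit 26441430438) (nat_lit 380) (nat_lit 37550765533) (nat_lit 380) (nat_lit 37550765533) (nat_lit 29) (nat_lit 3) (nat_lit 34) (nat_lit 3) (nat_lit 34) (nat_lit 5) (nat_lit 368) (nat_lit 368) (nat_lit 284)) (XT.lf (nat_lit 76) (nat_lit 26684209121) (nat_lit 0) (nat_lit 31271265111) (nat_lit 380) (nat_lit 160195931449) (nat_lit 30) (nat_lit 5) (nat_lit 29) (nat_lit 3) (nat_lit 34) (nat_lit 5) (nat_lit 369) (nat_lit 368) (nat_lit 283)))) (XT.nd (nat_lit 78) (nat_lit 0) (nat_lit 0) (XT.lf (nat_lit 0) (nat_lit 71211930090)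 (nat_lit 304) (nat_lit 86207308980) (nat_lit 380) (nat_lit 76944029416) (nat_lit 30) (nat_lit 5) (nat_lit 34) (nat_lit 5) (nat_lit 35) (nat_lit 5) (nat_lit 370) (nat_lit 368) (nat_lit 282)) (XT.nd (nat_lit 78) (nat_lit 0) (nat_lit 76) (XT.lf (nat_lit 76) (nat_lit 36611698546) (nat_lit 0) (nat_lit 52850047326) (nat_lit 380) (nat_lit 163094431379) (nat_lit 31) (nat_lit 5) (nat_lit 30) (nat_lit 5) (nat_lit 35) (nat_lit 5) (nat_lit 371) (nat_lit 368) (nat_lit 281)) (XT.lf (nat_lit 0) (nat_lit 117960783330) (nat_lit 304) (nat_lit 88265864457) (nat_lit 76) (nat_lit 66124612380) (nat_lit 31) (nat_lit 5) (nat_lit 35) (nat_lit 5) (nat_lit 32) (nat_lit 5) (nat_lit 372) (nat_lit 368) (nat_lit 280)))))) (XT.nd (nat_lit 468) (nat_lit 456) (nat_lit 0) (XT.nd (nat_lit 234) (nat_lit 152) (nat_lit 0) (XT.nd (nat_lit 78) (nat_lit 152) (nat_lit 0) (XT.lf (nat_lit 0) (nat_lit 61525082030) (nat_lit 304) (nat_lit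 94273707741) (nat_lit 380) (nat_lit 138557198948) (nat_lit 27) (nat_lit 5) (nat_lit 31) (nat_lit 5) (nat_lit 32) (nat_lit 5) (nat_lit 373) (nat_lit 368) (nat_lit 279)) (XT.nd (nat_lit 78) (nat_lit 152) (nat_lit 0) (XT.lf (nat_lit 0) (nat_lit 205573360977) (nat_lit 380) (nat_lit 76912115656) (nat_lit 76) (nat_lit 36236820528) (nat_lit 27) (nat_lit 5) (nat_lit 32) (nat_lit 5) (nat_lit 28) (nat_lit 5) (nat_lit 374) (nat_lit 368) (nat_lit 278)) (XT.lf (nat_lit 0) (nat_lit 107473098571) (nat_lit 152) (nat_lit 164280334210) (nat_lit 228) (nat_lit 73649222005) (nat_lit 25) (nat_lit 5) (nat_lit 27) (nat_lit 5) (nat_lit 28) (nat_lit 5) (nat_lit 375) (nat_lit 368) (nat_lit 277)))) (XT.nd (nat_lit 78) (nat_lit 152) (nat_lit 0) (XT.lf (nat_lit 0) (nat_lit 328159805939) (nat_lit 152) (nat_lit 23720986071) (nat_lit 228) (nat_lit 23601232679) (nat_lit 25) (nat_lit 5) (nat_lit 27) (nat_lit 5) (nat_lit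 28) (nat_lit 5) (nat_lit 376) (nat_lit 368) (nat_lit 276)) (XT.nd (nat_lit 78) (nat_lit 0) (nat_lit 0) (XT.lf (nat_lit 0) (nat_lit 44826661219) (nat_lit 152) (nat_lit 227717441908) (nat_lit 76) (nat_lit 135233974614) (nat_lit 23) (nat_lit 5) (nat_lit 25) (nat_lit 5) (nat_lit 24) (nat_lit 5) (nat_lit 377) (nat_lit 368) (nat_lit 275)) (XT.lf (nat_lit 0) (nat_lit 124823337980) (nat_lit 152) (nat_lit 49591649) (nat_lit 76) (nat_lit 319318891659) (nat_lit 23) (nat_lit 5) (nat_lit 25) (nat_lit 5) (nat_lit 24) (nat_lit 5) (nat_lit 378) (nat_lit 368) (nat_lit 274))))) (XT.nd (nat_lit 234) (nat_lit 228) (nat_lit 0) (XT.nd (nat_lit 78) (nat_lit 76) (nat_lit 0) (XT.lf (nat_lit 0) (nat_lit 231145814568) (nat_lit 228) (nat_lit 199360493743) (nat_lit 76) (nat_lit 53412373384) (nat_lit 21) (nat_lit 5) (nat_lit 24) (nat_lit 5) (nat_lit 22) (nat_lit 4) (nat_lit 379) (nat_lit 368) (nat_lit 273)) (XT.nd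 (nat_lit 78) (nat_lit 0) (nat_lit 0) (XT.lf (nat_lit 0) (nat_lit 83769684024) (nat_lit 76) (nat_lit 279064657675) (nat_lit 152) (nat_lit 165357577673) (nat_lit 20) (nat_lit 5) (nat_lit 21) (nat_lit 5) (nat_lit 22) (nat_lit 4) (nat_lit 380) (nat_lit 368) (nat_lit 272)) (XT.lf (nat_lit 0) (nat_lit 431774651279) (nat_lit 76) (nat_lit 92922528805) (nat_lit 152) (nat_lit 52845807846) (nat_lit 20) (nat_lit 5) (nat_lit 21) (nat_lit 5) (nat_lit 22) (nat_lit 4) (nat_lit 381) (nat_lit 368) (nat_lit 271)))) (XT.nd (nat_lit 78) (nat_lit 76) (nat_lit 0) (XT.lf (nat_lit 0) (nat_lit 84157973457) (nat_lit 152) (nat_lit 424559838399) (nat_lit 76) (nat_lit 122939042957) (nat_lit 18) (nat_lit 5) (nat_lit 20) (nat_lit 5) (nat_lit 19) (nat_lit 4) (nat_lit 382) (nat_lit 368) (nat_lit 270)) (XT.nd (nat_lit 78) (nat_lit 76) (nat_lit 0) (XT.lf (nat_lit 0) (nat_lit 248709277799) (nat_lit 152) (nat_lit 70774623008)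 (nat_lit 76) (nat_lit 372165326907) (nat_lit 18) (nat_lit 5) (nat_lit 20) (nat_lit 5) (nat_lit 19) (nat_lit 4) (nat_lit 383) (nat_lit 368) (nat_lit 269)) (XT.lf (nat_lit 0) (nat_lit 368922272953) (nat_lit 76) (nat_lit 84297224987) (nat_lit 152) (nat_lit 305129525619) (nat_lit 17) (nat_lit 5) (nat_lit 18) (nat_lit 5) (nat_lit 19) (nat_lit 4) (nat_lit 384) (nat_lit 368) (nat_lit 268))))))) (XT.nd (nat_lit 858) (nat_lit 456) (nat_lit 0) (XT.nd (nat_lit 390) (nat_lit 380) (nat_lit 0) (XT.nd (nat_lit 156) (nat_lit 152) (nat_lit 0) (XT.nd (nat_lit 78) (nat_lit 76) (nat_lit 0) (XT.lf (nat_lit 0) (nat_lit 44067022096) (nat_lit 76) (nat_lit 657748438261) (nat_lit 76) (nat_lit 131226947066) (nat_lit 16) (nat_lit 4) (nat_lit 17) (nat_lit 5) (nat_lit 17) (nat_lit 4) (nat_lit 385) (nat_lit 368) (nat_lit 267)) (XT.lf (nat_lit 0) (nat_lit 87979279375) (nat_lit 152) (nat_lit 337366091393) (nat_lit 76)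 (nat_lit 489366364685) (nat_lit 15) (nat_lit 5) (nat_lit 17) (nat_lit 5) (nat_lit 16) (nat_lit 4) (nat_lit 386) (nat_lit 368) (nat_lit 266))) (XT.nd (nat_lit 78) (nat_lit 76) (nat_lit 0) (XT.lf (nat_lit 0) (nat_lit 192909753434) (nat_lit 76) (nat_lit 141709474335) (nat_lit 152) (nat_lit 671876710428) (nat_lit 14) (nat_lit 5) (nat_lit 15) (nat_lit 5) (nat_lit 16) (nat_lit 4) (nat_lit 387) (nat_lit 368) (nat_lit 265)) (XT.nd (nat_lit 78) (nat_lit 76) (nat_lit 0) (XT.lf (nat_lit 0) (nat_lit 644368509715) (nat_lit 152) (nat_lit 277238641812) (nat_lit 0) (nat_lit 186523618650) (nat_lit 14) (nat_lit 5) (nat_lit 16) (nat_lit 4) (nat_lit 14) (nat_lit 4) (nat_lit 388) (nat_lit 368) (nat_lit 264)) (XT.lf (nat_lit 0) (nat_lit 365337767846) (nat_lit 76) (nat_lit 657118298455) (nat_lit 76) (nat_lit 199273378314) (nat_lit 13) (nat_lit 4) (nat_lit 14) (nat_lit 5) (nat_lit 14) (nat_lit 4) (nat_lit 389)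 (nat_lit 368) (nat_lit 263))))) (XT.nd (nat_lit 234) (nat_lit 228) (nat_lit 0) (XT.nd (nat_lit 78) (nat_lit 76) (nat_lit 0) (XT.lf (nat_lit 0) (nat_lit 110732977381) (nat_lit 152) (nat_lit 219769044054) (nat_lit 76) (nat_lit 1018937104730) (nat_lit 12) (nat_lit 5) (nat_lit 14) (nat_lit 5) (nat_lit 13) (nat_lit 4) (nat_lit 390) (nat_lit 368) (nat_lit 262)) (XT.nd (nat_lit 78) (nat_lit 0) (nat_lit 0) (XT.lf (nat_lit 0) (nat_lit 473103690991) (nat_lit 152) (nat_lit 942860774895) (nat_lit 0) (nat_lit 74977632374) (nat_lit 11) (nat_lit 5) (nat_lit 13) (nat_lit 4) (nat_lit 11) (nat_lit 4) (nat_lit 391) (nat_lit 368) (nat_lit 261)) (XT.lf (nat_lit 0) (nat_lit 917603135704) (nat_lit 152) (nat_lit 212424351402) (nat_lit 0) (nat_lit 519477060463) (nat_lit 11) (nat_lit 5) (nat_lit 13) (nat_lit 4) (nat_lit 11) (nat_lit 4) (nat_lit 392) (nat_lit 368) (nat_lit 260)))) (XT.nd (nat_lit 78) (nat_lit 152)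 (nat_lit 0) (XT.lf (nat_lit 0) (nat_lit 688908901879) (nat_lit 76) (nat_lit 768394809948) (nat_lit 76) (nat_lit 370268720250) (nat_lit 10) (nat_lit 4) (nat_lit 11) (nat_lit 5) (nat_lit 11) (nat_lit 4) (nat_lit 393) (nat_lit 368) (nat_lit 259)) (XT.nd (nat_lit 78) (nat_lit 76) (nat_lit 0) (XT.lf (nat_lit 0) (nat_lit 53181186120) (nat_lit 152) (nat_lit 283786552109) (nat_lit 76) (nat_lit 1693354566827) (nat_lit 9) (nat_lit 5) (nat_lit 11) (nat_lit 5) (nat_lit 10) (nat_lit 4) (nat_lit 394) (nat_lit 368) (nat_lit 258)) (XT.lf (nat_lit 0) (nat_lit 542132158044) (nat_lit 152) (nat_lit 1516788379927) (nat_lit 0) (nat_lit 195935537871) (nat_lit 8) (nat_lit 5) (nat_lit 10) (nat_lit 4) (nat_lit 8) (nat_lit 4) (nat_lit 395) (nat_lit 368) (nat_lit 257)))))) (XT.nd (nat_lit 468) (nat_lit 228) (nat_lit 0) (XT.nd (nat_lit 234) (nat_lit 152) (nat_lit 0) (XT.nd (nat_lit 78) (nat_lit 76) (nat_lit 0) (XT.lf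 (nat_lit 0) (nat_lit 1136012521695) (nat_lit 152) (nat_lit 582503485409) (nat_lit 0) (nat_lit 789815893256) (nat_lit 8) (nat_lit 5) (nat_lit 10) (nat_lit 4) (nat_lit 8) (nat_lit 4) (nat_lit 396) (nat_lit 368) (nat_lit 256)) (XT.nd (nat_lit 78) (nat_lit 0) (nat_lit 0) (XT.lf (nat_lit 0) (nat_lit 539998491273) (nat_lit 76) (nat_lit 1301336609397) (nat_lit 76) (nat_lit 955139973772) (nat_lit 7) (nat_lit 4) (nat_lit 8) (nat_lit 5) (nat_lit 8) (nat_lit 4) (nat_lit 397) (nat_lit 368) (nat_lit 255)) (XT.lf (nat_lit 0) (nat_lit 1896341163489) (nat_lit 76) (nat_lit 786563924873) (nat_lit 76) (nat_lit 440367282997) (nat_lit 7) (nat_lit 4) (nat_lit 8) (nat_lit 5) (nat_lit 8) (nat_lit 4) (nat_lit 398) (nat_lit 368) (nat_lit 254)))) (XT.nd (nat_lit 78) (nat_lit 76) (nat_lit 0) (XT.lf (nat_lit 0) (nat_lit 138122911945) (nat_lit 152) (nat_lit 49232386627) (nat_lit 76) (nat_lit 3310792220243) (nat_lit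 6) (nat_lit 5) (nat_lit 8) (nat_lit 5) (nat_lit 7) (nat_lit 4) (nat_lit 399) (nat_lit 368) (nat_lit 253)) (XT.nd (nat_lit 78) (nat_lit 0) (nat_lit 0) (XT.lf (nat_lit 0) (nat_lit 841225784662) (nat_lit 152) (nat_lit 2532258799907) (nat_lit 0) (nat_lit 540185217674) (nat_lit 5) (nat_lit 5) (nat_lit 7) (nat_lit 4) (nat_lit 5) (nat_lit 4) (nat_lit 400) (nat_lit 368) (nat_lit 252)) (XT.lf (nat_lit 0) (nat_lit 1661411809575) (nat_lit 152) (nat_lit 1367994721406) (nat_lit 0) (nat_lit 1360371239014) (nat_lit 5) (nat_lit 5) (nat_lit 7) (nat_lit 4) (nat_lit 5) (nat_lit 4) (nat_lit 401) (nat_lit 368) (nat_lit 251))))) (XT.nd (nat_lit 234) (nat_lit 152) (nat_lit 0) (XT.nd (nat_lit 78) (nat_lit 76) (nat_lit 0) (XT.lf (nat_lit 0) (nat_lit 2604625721822) (nat_lit 152) (nat_lit 29091065395) (nat_lit 0) (nat_lit 2303585148154) (nat_lit 5) (nat_lit 5) (nat_lit 7) (nat_lit 4) (nat_lit 5) (nat_lit 4) (nat_lit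 402) (nat_lit 368) (nat_lit 250)) (XT.nd (nat_lit 78) (nat_lit 0) (nat_lit 0) (XT.lf (nat_lit 0) (nat_lit 1658279628985) (nat_lit 76) (nat_lit 2099707900803) (nat_lit 76) (nat_lit 1798667324434) (nat_lit 4) (nat_lit 4) (nat_lit 5) (nat_lit 5) (nat_lit 5) (nat_lit 4) (nat_lit 403) (nat_lit 368) (nat_lit 249)) (XT.lf (nat_lit 0) (nat_lit 3602025338135) (nat_lit 76) (nat_lit 1483848926562) (nat_lit 76) (nat_lit 1182808347843) (nat_lit 4) (nat_lit 4) (nat_lit 5) (nat_lit 5) (nat_lit 5) (nat_lit 4) (nat_lit 404) (nat_lit 368) (nat_lit 248)))) (XT.nd (nat_lit 78) (nat_lit 152) (nat_lit 0) (XT.lf (nat_lit 0) (nat_lit 5837332878925) (nat_lit 76) (nat_lit 775611119108) (nat_lit 76) (nat_lit 474570538345) (nat_lit 4) (nat_lit 4) (nat_lit 5) (nat_lit 5) (nat_lit 5) (nat_lit 4) (nat_lit 405) (nat_lit 368) (nat_lit 247)) (XT.nd (nat_lit 78) (nat_lit 0) (nat_lit 0) (XT.lf (nat_lit 0) (nat_lit 329288070224)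 (nat_lit 152) (nat_lit 7627311483832) (nat_lit 0) (nat_lit 67513650625) (nat_lit 2) (nat_lit 5) (nat_lit 4) (nat_lit 4) (nat_lit 2) (nat_lit 4) (nat_lit 406) (nat_lit 368) (nat_lit 246)) (XT.lf (nat_lit 0) (nat_lit 1310534667354) (nat_lit 152) (nat_lit 6722707542764) (nat_lit 0) (nat_lit 1048760246411) (nat_lit 2) (nat_lit 5) (nat_lit 4) (nat_lit 4) (nat_lit 2) (nat_lit 4) (nat_lit 407) (nat_lit 368) (nat_lit 245))))))))
noncomputable def xc95 : XT := (XT.nd (nat_lit 1794) (nat_lit 0) (nat_lit 0) (XT.nd (nat_lit 858) (nat_lit 0) (nat_lit 0) (XT.nd (nat_lit 390) (nat_lit 0) (nat_lit 0) (XT.nd (nat_lit 156) (nat_lit 76) (nat_lit 0) (XT.nd (nat_lit 78) (nat_lit 0) (nat_lit 0) (XT.lf (nat_lit 0) (nat_lit 2438968244735) (nat_lit 152) (nat_lit 5682413030190) (nat_lit 0) (nat_lit 2177193822625) (nat_lit 2) (nat_lit 5) (nat_lit 4) (nat_lit 4) (nat_lit 2) (nat_lit 4) (nat_lit 408) (nat_lit 368)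 (nat_lit 244)) (XT.lf (nat_lit 0) (nat_lit 3736666850623) (nat_lit 152) (nat_lit 4486074357822) (nat_lit 0) (nat_lit 3474892427496) (nat_lit 2) (nat_lit 5) (nat_lit 4) (nat_lit 4) (nat_lit 2) (nat_lit 4) (nat_lit 409) (nat_lit 368) (nat_lit 243))) (XT.nd (nat_lit 78) (nat_lit 76) (nat_lit 0) (XT.lf (nat_lit 0) (nat_lit 5229020240348) (nat_lit 152) (nat_lit 3110284899460) (nat_lit 0) (nat_lit 4967245816339) (nat_lit 2) (nat_lit 5) (nat_lit 4) (nat_lit 4) (nat_lit 2) (nat_lit 4) (nat_lit 410) (nat_lit 368) (nat_lit 242)) (XT.nd (nat_lit 78) (nat_lit 76) (nat_lit 0) (XT.lf (nat_lit 0) (nat_lit 6945226632407) (nat_lit 152) (nat_lit 1528127035268) (nat_lit 0) (nat_lit 6683452207629) (nat_lit 2) (nat_lit 5) (nat_lit 4) (nat_lit 4) (nat_lit 2) (nat_lit 4) (nat_lit 411) (nat_lit 368) (nat_lit 241)) (XT.lf (nat_lit 0) (nat_lit 319827777733) (nat_lit 76) (nat_lit 8612279586455) (nat_lit 76) (nat_lit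 8350505161009) (nat_lit 1) (nat_lit 4) (nat_lit 2) (nat_lit 5) (nat_lit 2) (nat_lit 4) (nat_lit 412) (nat_lit 368) (nat_lit 240))))) (XT.nd (nat_lit 234) (nat_lit 0) (nat_lit 0) (XT.nd (nat_lit 78) (nat_lit 0) (nat_lit 0) (XT.lf (nat_lit 0) (nat_lit 2616716442627) (nat_lit 76) (nat_lit 8680183125786) (nat_lit 76) (nat_lit 8418408699760) (nat_lit 1) (nat_lit 4) (nat_lit 2) (nat_lit 5) (nat_lit 2) (nat_lit 4) (nat_lit 413) (nat_lit 368) (nat_lit 239)) (XT.nd (nat_lit 78) (nat_lit 0) (nat_lit 0) (XT.lf (nat_lit 0) (nat_lit 5258138397927) (nat_lit 76) (nat_lit 8758272200931) (nat_lit 76) (nat_lit 8496497774400) (nat_lit 1) (nat_lit 4) (nat_lit 2) (nat_lit 5) (nat_lit 2) (nat_lit 4) (nat_lit 414) (nat_lit 368) (nat_lit 238)) (XT.lf (nat_lit 0) (nat_lit 8295773638411) (nat_lit 76) (nat_lit 8848074641620) (nat_lit 76) (nat_lit 8586300214650) (nat_lit 1) (nat_lit 4) (nat_lit 2) (nat_lit 5) (nat_lit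 2) (nat_lit 4) (nat_lit 415) (nat_lit 368) (nat_lit 237)))) (XT.nd (nat_lit 78) (nat_lit 0) (nat_lit 0) (XT.lf (nat_lit 0) (nat_lit 11789054157915) (nat_lit 76) (nat_lit 8951347452128) (nat_lit 76) (nat_lit 8689573024776) (nat_lit 1) (nat_lit 4) (nat_lit 2) (nat_lit 5) (nat_lit 2) (nat_lit 4) (nat_lit 416) (nat_lit 368) (nat_lit 236)) (XT.nd (nat_lit 78) (nat_lit 0) (nat_lit 0) (XT.lf (nat_lit 0) (nat_lit 15806326749211) (nat_lit 76) (nat_lit 9070111187444) (nat_lit 76) (nat_lit 8808336759759) (nat_lit 1) (nat_lit 4) (nat_lit 2) (nat_lit 5) (nat_lit 2) (nat_lit 4) (nat_lit 417) (nat_lit 368) (nat_lit 235)) (XT.lf (nat_lit 0) (nat_lit 20426190223867) (nat_lit 76) (nat_lit 9206689485865) (nat_lit 76) (nat_lit 8944915057893) (nat_lit 1) (nat_lit 4) (nat_lit 2) (nat_lit 5) (nat_lit 2) (nat_lit 4) (nat_lit 418) (nat_lit 368) (nat_lit 234)))))) (XT.nd (nat_lit 468) (nat_lit 0) (nat_lit 0) (XT.nd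 (nat_lit 234) (nat_lit 0) (nat_lit 0) (XT.nd (nat_lit 78) (nat_lit 0) (nat_lit 0) (XT.lf (nat_lit 0) (nat_lit 25739033215085) (nat_lit 76) (nat_lit 9363754531494) (nat_lit 76) (nat_lit 9101980103270) (nat_lit 1) (nat_lit 4) (nat_lit 2) (nat_lit 5) (nat_lit 2) (nat_lit 4) (nat_lit 419) (nat_lit 368) (nat_lit 233)) (XT.nd (nat_lit 78) (nat_lit 0) (nat_lit 0) (XT.lf (nat_lit 0) (nat_lit 31848802650953) (nat_lit 76) (nat_lit 9544379336090) (nat_lit 76) (nat_lit 9282604907648) (nat_lit 1) (nat_lit 4) (nat_lit 2) (nat_lit 5) (nat_lit 2) (nat_lit 4) (nat_lit 420) (nat_lit 368) (nat_lit 232)) (XT.lf (nat_lit 0) (nat_lit 38875037498694) (nat_lit 76) (nat_lit 9752097863224) (nat_lit 76) (nat_lit 9490323434592) (nat_lit 1) (nat_lit 4) (nat_lit 2) (nat_lit 5) (nat_lit 2) (nat_lit 4) (nat_lit 421) (nat_lit 368) (nat_lit 231)))) (XT.nd (nat_lit 78) (nat_lit 0) (nat_lit 0) (XT.lf (nat_lit 0) (nat_lit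 46955207570547) (nat_lit 76) (nat_lit 9990974171034) (nat_lit 76) (nat_lit 9729199742237) (nat_lit 1) (nat_lit 4) (nat_lit 2) (nat_lit 5) (nat_lit 2) (nat_lit 4) (nat_lit 422) (nat_lit 368) (nat_lit 230)) (XT.nd (nat_lit 78) (nat_lit 0) (nat_lit 0) (XT.lf (nat_lit 0) (nat_lit 56247403150526) (nat_lit 76) (nat_lit 10265681926412) (nat_lit 76) (nat_lit 10003907497471) (nat_lit 1) (nat_lit 4) (nat_lit 2) (nat_lit 5) (nat_lit 2) (nat_lit 4) (nat_lit 423) (nat_lit 368) (nat_lit 229)) (XT.lf (nat_lit 0) (nat_lit 66933428065197) (nat_lit 76) (nat_lit 10581595846312) (nat_lit 76) (nat_lit 10319821417246) (nat_lit 1) (nat_lit 4) (nat_lit 2) (nat_lit 5) (nat_lit 2) (nat_lit 4) (nat_lit 424) (nat_lit 368) (nat_lit 228))))) (XT.nd (nat_lit 234) (nat_lit 0) (nat_lit 0) (XT.nd (nat_lit 78) (nat_lit 0) (nat_lit 0) (XT.lf (nat_lit 0) (nat_lit 79222356715063) (nat_lit 76) (nat_lit 10944896855252) (nat_lit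 76) (nat_lit 10683122426078) (nat_lit 1) (nat_lit 4) (nat_lit 2) (nat_lit 5) (nat_lit 2) (nat_lit 4) (nat_lit 425) (nat_lit 368) (nat_lit 227)) (XT.nd (nat_lit 78) (nat_lit 0) (nat_lit 0) (XT.lf (nat_lit 0) (nat_lit 93354624660665) (nat_lit 76) (nat_lit 11362693016452) (nat_lit 76) (nat_lit 11100918587183) (nat_lit 1) (nat_lit 4) (nat_lit 2) (nat_lit 5) (nat_lit 2) (nat_lit 4) (nat_lit 426) (nat_lit 368) (nat_lit 226)) (XT.lf (nat_lit 0) (nat_lit 109606732796592) (nat_lit 76) (nat_lit 11843158602631) (nat_lit 76) (nat_lit 11581384173280) (nat_lit 1) (nat_lit 4) (nat_lit 2) (nat_lit 5) (nat_lit 2) (nat_lit 4) (nat_lit 427) (nat_lit 368) (nat_lit 225)))) (XT.nd (nat_lit 78) (nat_lit 0) (nat_lit 0) (XT.lf (nat_lit 0) (nat_lit 128296657151590) (nat_lit 76) (nat_lit 12395694027430) (nat_lit 76) (nat_lit 12133919598008) (nat_lit 1) (nat_lit 4) (nat_lit 2) (nat_lit 5) (nat_lit 2) (nat_lit 4)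 (nat_lit 428) (nat_lit 368) (nat_lit 224)) (XT.nd (nat_lit 78) (nat_lit 0) (nat_lit 0) (XT.lf (nat_lit 0) (nat_lit 149790070158691) (nat_lit 76) (nat_lit 13031109766554) (nat_lit 76) (nat_lit 12769335337070) (nat_lit 1) (nat_lit 4) (nat_lit 2) (nat_lit 5) (nat_lit 2) (nat_lit 4) (nat_lit 429) (nat_lit 368) (nat_lit 223)) (XT.lf (nat_lit 0) (nat_lit 174507495115860) (nat_lit 76) (nat_lit 13761837867072) (nat_lit 76) (nat_lit 13500063437533) (nat_lit 1) (nat_lit 4) (nat_lit 2) (nat_lit 5) (nat_lit 2) (nat_lit 4) (nat_lit 430) (nat_lit 368) (nat_lit 222))))))) (XT.nd (nat_lit 49062) (nat_lit 0) (nat_lit 912) (XT.nd (nat_lit 48594) (nat_lit 0) (nat_lit 1672) (XT.nd (nat_lit 48360) (nat_lit 0) (nat_lit 2128) (XT.nd (nat_lit 48282) (nat_lit 0) (nat_lit 2128) (XT.lf (nat_lit 0) (nat_lit 202932533815738) (nat_lit 76) (nat_lit 14602175183123) (nat_lit 76) (nat_lit 14340400753538) (nat_lit 1) (nat_lit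 4) (nat_lit 2) (nat_lit 5) (nat_lit 2) (nat_lit 4) (nat_lit 431) (nat_lit 368) (nat_lit 221)) (XT.lf (nat_lit 0) (nat_lit 30409047035) (nat_lit 380) (nat_lit 43182573363) (nat_lit 380) (nat_lit 43182573363) (nat_lit 29) (nat_lit 3) (nat_lit 34) (nat_lit 3) (nat_lit 34) (nat_lit 5) (nat_lit 369) (nat_lit 369) (nat_lit 282))) (XT.nd (nat_lit 78) (nat_lit 0) (nat_lit 76) (XT.lf (nat_lit 76) (nat_lit 30688381125) (nat_lit 0) (nat_lit 35962916351) (nat_lit 380) (nat_lit 184222440846) (nat_lit 30) (nat_lit 5) (nat_lit 29) (nat_lit 3) (nat_lit 34) (nat_lit 5) (nat_lit 370) (nat_lit 369) (nat_lit 281)) (XT.nd (nat_lit 78) (nat_lit 0) (nat_lit 0) (XT.lf (nat_lit 0) (nat_lit 81895860732) (nat_lit 304) (nat_lit 99136702145) (nat_lit 380) (nat_lit 88484872196) (nat_lit 30) (nat_lit 5) (nat_lit 34) (nat_lit 5) (nat_lit 35) (nat_lit 5) (nat_lit 371) (nat_lit 369) (nat_lit 280)) (XT.lf (nat_lit 76)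 (nat_lit 42105079092) (nat_lit 0) (nat_lit 60777857830) (nat_lit 380) (nat_lit 187556375352) (nat_lit 31) (nat_lit 5) (nat_lit 30) (nat_lit 5) (nat_lit 35) (nat_lit 5) (nat_lit 372) (nat_lit 369) (nat_lit 279))))) (XT.nd (nat_lit 234) (nat_lit 304) (nat_lit 0) (XT.nd (nat_lit 78) (nat_lit 304) (nat_lit 0) (XT.lf (nat_lit 0) (nat_lit 135656567444) (nat_lit 304) (nat_lit 101504065958) (nat_lit 76) (nat_lit 76043063894) (nat_lit 31) (nat_lit 5) (nat_lit 35) (nat_lit 5) (nat_lit 32) (nat_lit 5) (nat_lit 373) (nat_lit 369) (nat_lit 278)) (XT.nd (nat_lit 78) (nat_lit 0) (nat_lit 0) (XT.lf (nat_lit 0) (nat_lit 70755446221) (nat_lit 304) (nat_lit 108414677577) (nat_lit 380) (nat_lit 159339034241) (nat_lit 27) (nat_lit 5) (nat_lit 31) (nat_lit 5) (nat_lit 32) (nat_lit 5) (nat_lit 374) (nat_lit 369) (nat_lit 277)) (XT.lf (nat_lit 0) (nat_lit 236410686111) (nat_lit 380) (nat_lit 88447344048) (nat_lit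 76) (nat_lit 41672411990) (nat_lit 27) (nat_lit 5) (nat_lit 32) (nat_lit 5) (nat_lit 28) (nat_lit 5) (nat_lit 375) (nat_lit 369) (nat_lit 276)))) (XT.nd (nat_lit 78) (nat_lit 152) (nat_lit 0) (XT.lf (nat_lit 0) (nat_lit 123595580088) (nat_lit 152) (nat_lit 188922079099) (nat_lit 228) (nat_lit 84695210842) (nat_lit 25) (nat_lit 5) (nat_lit 27) (nat_lit 5) (nat_lit 28) (nat_lit 5) (nat_lit 376) (nat_lit 369) (nat_lit 275)) (XT.nd (nat_lit 78) (nat_lit 152) (nat_lit 0) (XT.lf (nat_lit 0) (nat_lit 377385095728) (nat_lit 152) (nat_lit 27278868553) (nat_lit 228) (nat_lit 27140205004) (nat_lit 25) (nat_lit 5) (nat_lit 27) (nat_lit 5) (nat_lit 28) (nat_lit 5) (nat_lit 377) (nat_lit 369) (nat_lit 274)) (XT.lf (nat_lit 0) (nat_lit 51551691704) (nat_lit 152) (nat_lit 261873556254) (nat_lit 76) (nat_lit 155519385927) (nat_lit 23) (nat_lit 5) (nat_lit 25) (nat_lit 5) (nat_lit 24) (nat_lit 5) (nat_lit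 378) (nat_lit 369) (nat_lit 273)))))) (XT.nd (nat_lit 468) (nat_lit 380) (nat_lit 0) (XT.nd (nat_lit 234) (nat_lit 152) (nat_lit 0) (XT.nd (nat_lit 78) (nat_lit 228) (nat_lit 0) (XT.lf (nat_lit 0) (nat_lit 143547735461) (nat_lit 152) (nat_lit 55724360) (nat_lit 76) (nat_lit 367216999427) (nat_lit 23) (nat_lit 5) (nat_lit 25) (nat_lit 5) (nat_lit 24) (nat_lit 5) (nat_lit 379) (nat_lit 369) (nat_lit 272)) (XT.nd (nat_lit 78) (nat_lit 76) (nat_lit 0) (XT.lf (nat_lit 0) (nat_lit 265818535381) (nat_lit 228) (nat_lit 229263212991) (nat_lit 76) (nat_lit 61424607661) (nat_lit 21) (nat_lit 5) (nat_lit 24) (nat_lit 5) (nat_lit 22) (nat_lit 4) (nat_lit 380) (nat_lit 369) (nat_lit 271)) (XT.lf (nat_lit 0) (nat_lit 96336429858) (nat_lit 76) (nat_lit 320923854583) (nat_lit 152) (nat_lit 190160303573) (nat_lit 20) (nat_lit 5) (nat_lit 21) (nat_lit 5) (nat_lit 22) (nat_lit 4) (nat_lit 381) (nat_lit 369)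 (nat_lit 270)))) (XT.nd (nat_lit 78) (nat_lit 152) (nat_lit 0) (XT.lf (nat_lit 0) (nat_lit 496541973520) (nat_lit 76) (nat_lit 106860471827) (nat_lit 152) (nat_lit 60771887065) (nat_lit 20) (nat_lit 5) (nat_lit 21) (nat_lit 5) (nat_lit 22) (nat_lit 4) (nat_lit 382) (nat_lit 369) (nat_lit 269)) (XT.nd (nat_lit 78) (nat_lit 0) (nat_lit 0) (XT.lf (nat_lit 0) (nat_lit 96782363394) (nat_lit 152) (nat_lit 488242590807) (nat_lit 76) (nat_lit 141380324390) (nat_lit 18) (nat_lit 5) (nat_lit 20) (nat_lit 5) (nat_lit 19) (nat_lit 4) (nat_lit 383) (nat_lit 369) (nat_lit 268)) (XT.lf (nat_lit 0) (nat_lit 286016272877) (nat_lit 152) (nat_lit 81389752675) (nat_lit 76) (nat_lit 427990495499) (nat_lit 18) (nat_lit 5) (nat_lit 20) (nat_lit 5) (nat_lit 19) (nat_lit 4) (nat_lit 384) (nat_lit 369) (nat_lit 267))))) (XT.nd (nat_lit 234) (nat_lit 152) (nat_lit 0) (XT.nd (nat_lit 78) (nat_lit 152) (nat_lit 0)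 (XT.lf (nat_lit 0) (nat_lit 424261629327) (nat_lit 76) (nat_lit 96941360054) (nat_lit 152) (nat_lit 350898302432) (nat_lit 17) (nat_lit 5) (nat_lit 18) (nat_lit 5) (nat_lit 19) (nat_lit 4) (nat_lit 385) (nat_lit 369) (nat_lit 266)) (XT.nd (nat_lit 78) (nat_lit 76) (nat_lit 0) (XT.lf (nat_lit 0) (nat_lit 50678108356) (nat_lit 76) (nat_lit 756410222809) (nat_lit 76) (nat_lit 150910354376) (nat_lit 16) (nat_lit 4) (nat_lit 17) (nat_lit 5) (nat_lit 17) (nat_lit 4) (nat_lit 386) (nat_lit 369) (nat_lit 265)) (XT.lf (nat_lit 0) (nat_lit 101176674099) (nat_lit 152) (nat_lit 387970057573) (nat_lit 76) (nat_lit 562771688500) (nat_lit 15) (nat_lit 5) (nat_lit 17) (nat_lit 5) (nat_lit 16) (nat_lit 4) (nat_lit 387) (nat_lit 369) (nat_lit 264)))) (XT.nd (nat_lit 78) (nat_lit 76) (nat_lit 0) (XT.lf (nat_lit 0) (nat_lit 221847120909) (nat_lit 76) (nat_lit 162965465710) (nat_lit 152) (nat_lit 772657670952)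 (nat_lit 14) (nat_lit 5) (nat_lit 15) (nat_lit 5) (nat_lit 16) (nat_lit 4) (nat_lit 388) (nat_lit 369) (nat_lit 263)) (XT.nd (nat_lit 78) (nat_lit 76) (nat_lit 0) (XT.lf (nat_lit 0) (nat_lit 741024214416) (nat_lit 152) (nat_lit 318823605024) (nat_lit 0) (nat_lit 214502501894) (nat_lit 14) (nat_lit 5) (nat_lit 16) (nat_lit 4) (nat_lit 14) (nat_lit 4) (nat_lit 389) (nat_lit 369) (nat_lit 262)) (XT.lf (nat_lit 0) (nat_lit 420139228218) (nat_lit 76) (nat_lit 755685653342) (nat_lit 76) (nat_lit 229163918835) (nat_lit 13) (nat_lit 4) (nat_lit 14) (nat_lit 5) (nat_lit 14) (nat_lit 4) (nat_lit 390) (nat_lit 369) (nat_lit 261))))))))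
noncomputable def xc96 : XT := (XT.nd (nat_lit 1716) (nat_lit 76) (nat_lit 0) (XT.nd (nat_lit 858) (nat_lit 228) (nat_lit 0) (XT.nd (nat_lit 390) (nat_lit 304) (nat_lit 0) (XT.nd (nat_lit 156) (nat_lit 152) (nat_lit 0) (XT.nd (nat_lit 78) (nat_lit 76) (nat_lit 0) (XT.lf (nat_lit 0) (nat_lit 127343293310) (nat_lit 152) (nat_lit 252733673008) (nat_lit 76) (nat_lit 1171777973286) (nat_lit 12) (nat_lit 5) (nat_lit 14) (nat_lit 5) (nat_lit 13) (nat_lit 4) (nat_lit 391) (nat_lit 369) (nat_lit 260)) (XT.lf (nat_lit 0) (nat_lit 544069608822) (nat_lit 152) (nat_lit 1084289158260) (nat_lit 0) (nat_lit 86224591214) (nat_lit 11) (nat_lit 5) (nat_lit 13) (nat_lit 4) (nat_lit 11) (nat_lit 4) (nat_lit 392) (nat_lit 369) (nat_lit 259))) (XT.nd (nat_lit 78) (nat_lit 152) (nat_lit 0) (XT.lf (nat_lit 0) (nat_lit 1055243922740) (nat_lit 152) (nat_lit 244287366835) (nat_lit 0) (nat_lit 597398892561) (nat_lit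 11) (nat_lit 5) (nat_lit 13) (nat_lit 4) (nat_lit 11) (nat_lit 4) (nat_lit 393) (nat_lit 369) (nat_lit 258)) (XT.nd (nat_lit 78) (nat_lit 76) (nat_lit 0) (XT.lf (nat_lit 0) (nat_lit 792245845472) (nat_lit 76) (nat_lit 883653723692) (nat_lit 76) (nat_lit 425808682582) (nat_lit 10) (nat_lit 4) (nat_lit 11) (nat_lit 5) (nat_lit 11) (nat_lit 4) (nat_lit 394) (nat_lit 369) (nat_lit 257)) (XT.lf (nat_lit 0) (nat_lit 61158637888) (nat_lit 152) (nat_lit 326353979153) (nat_lit 76) (nat_lit 1947357992652) (nat_lit 9) (nat_lit 5) (nat_lit 11) (nat_lit 5) (nat_lit 10) (nat_lit 4) (nat_lit 395) (nat_lit 369) (nat_lit 256))))) (XT.nd (nat_lit 234) (nat_lit 152) (nat_lit 0) (XT.nd (nat_lit 78) (nat_lit 76) (nat_lit 0) (XT.lf (nat_lit 0) (nat_lit 623452253047) (nat_lit 152) (nat_lit 1744306078550) (nat_lit 0) (nat_lit 225326114890) (nat_lit 8) (nat_lit 5) (nat_lit 10) (nat_lit 4) (nat_lit 8) (nat_lit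 4) (nat_lit 396) (nat_lit 369) (nat_lit 255)) (XT.nd (nat_lit 78) (nat_lit 76) (nat_lit 0) (XT.lf (nat_lit 0) (nat_lit 1306414635858) (nat_lit 152) (nat_lit 669878522685) (nat_lit 0) (nat_lit 908288491452) (nat_lit 8) (nat_lit 5) (nat_lit 10) (nat_lit 4) (nat_lit 8) (nat_lit 4) (nat_lit 397) (nat_lit 369) (nat_lit 254)) (XT.lf (nat_lit 0) (nat_lit 620998728430) (nat_lit 76) (nat_lit 1496536861671) (nat_lit 76) (nat_lit 1098410711830) (nat_lit 7) (nat_lit 4) (nat_lit 8) (nat_lit 5) (nat_lit 8) (nat_lit 4) (nat_lit 398) (nat_lit 369) (nat_lit 253)))) (XT.nd (nat_lit 78) (nat_lit 152) (nat_lit 0) (XT.lf (nat_lit 0) (nat_lit 2180792741026) (nat_lit 76) (nat_lit 904548305659) (nat_lit 76) (nat_lit 506422151093) (nat_lit 7) (nat_lit 4) (nat_lit 8) (nat_lit 5) (nat_lit 8) (nat_lit 4) (nat_lit 399) (nat_lit 369) (nat_lit 252)) (XT.nd (nat_lit 78) (nat_lit 76) (nat_lit 0) (XT.lf (nat_lit 0) (nat_lit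 158841526459) (nat_lit 152) (nat_lit 56616876787) (nat_lit 76) (nat_lit 3807411216714) (nat_lit 6) (nat_lit 5) (nat_lit 8) (nat_lit 5) (nat_lit 7) (nat_lit 4) (nat_lit 400) (nat_lit 369) (nat_lit 251)) (XT.lf (nat_lit 0) (nat_lit 967409828979) (nat_lit 152) (nat_lit 2912097250938) (nat_lit 0) (nat_lit 621213166154) (nat_lit 5) (nat_lit 5) (nat_lit 7) (nat_lit 4) (nat_lit 5) (nat_lit 4) (nat_lit 401) (nat_lit 369) (nat_lit 250)))))) (XT.nd (nat_lit 390) (nat_lit 152) (nat_lit 0) (XT.nd (nat_lit 156) (nat_lit 76) (nat_lit 0) (XT.nd (nat_lit 78) (nat_lit 0) (nat_lit 0) (XT.lf (nat_lit 0) (nat_lit 1910623734592) (nat_lit 152) (nat_lit 1573193608786) (nat_lit 0) (nat_lit 1564427069064) (nat_lit 5) (nat_lit 5) (nat_lit 7) (nat_lit 4) (nat_lit 5) (nat_lit 4) (nat_lit 402) (nat_lit 369) (nat_lit 249)) (XT.lf (nat_lit 0) (nat_lit 2995319713643) (nat_lit 152) (nat_lit 33454446221) (nat_lit 0) (nat_lit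 2649123045767) (nat_lit 5) (nat_lit 5) (nat_lit 7) (nat_lit 4) (nat_lit 5) (nat_lit 4) (nat_lit 403) (nat_lit 369) (nat_lit 248))) (XT.nd (nat_lit 78) (nat_lit 0) (nat_lit 0) (XT.lf (nat_lit 0) (nat_lit 1907021839634) (nat_lit 76) (nat_lit 2414663946778) (nat_lit 76) (nat_lit 2068467276858) (nat_lit 4) (nat_lit 4) (nat_lit 5) (nat_lit 5) (nat_lit 5) (nat_lit 4) (nat_lit 404) (nat_lit 369) (nat_lit 247)) (XT.nd (nat_lit 78) (nat_lit 0) (nat_lit 0) (XT.lf (nat_lit 0) (nat_lit 4142329370422) (nat_lit 76) (nat_lit 1706426144550) (nat_lit 76) (nat_lit 1360229472854) (nat_lit 4) (nat_lit 4) (nat_lit 5) (nat_lit 5) (nat_lit 5) (nat_lit 4) (nat_lit 405) (nat_lit 369) (nat_lit 246)) (XT.lf (nat_lit 0) (nat_lit 6712933012127) (nat_lit 76) (nat_lit 891952681760) (nat_lit 76) (nat_lit 545756008518) (nat_lit 4) (nat_lit 4) (nat_lit 5) (nat_lit 5) (nat_lit 5) (nat_lit 4) (nat_lit 406) (nat_lit 369)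 (nat_lit 245))))) (XT.nd (nat_lit 234) (nat_lit 0) (nat_lit 0) (XT.nd (nat_lit 78) (nat_lit 0) (nat_lit 0) (XT.lf (nat_lit 0) (nat_lit 378681381077) (nat_lit 152) (nat_lit 8771407994772) (nat_lit 0) (nat_lit 77640794482) (nat_lit 2) (nat_lit 5) (nat_lit 4) (nat_lit 4) (nat_lit 2) (nat_lit 4) (nat_lit 407) (nat_lit 369) (nat_lit 244)) (XT.nd (nat_lit 78) (nat_lit 0) (nat_lit 0) (XT.lf (nat_lit 0) (nat_lit 1507114954690) (nat_lit 152) (nat_lit 7731113490148) (nat_lit 0) (nat_lit 1206074367080) (nat_lit 2) (nat_lit 5) (nat_lit 4) (nat_lit 4) (nat_lit 2) (nat_lit 4) (nat_lit 408) (nat_lit 369) (nat_lit 243)) (XT.lf (nat_lit 0) (nat_lit 2804813557301) (nat_lit 152) (nat_lit 6534774824692) (nat_lit 0) (nat_lit 2503772968807) (nat_lit 2) (nat_lit 5) (nat_lit 4) (nat_lit 4) (nat_lit 2) (nat_lit 4) (nat_lit 409) (nat_lit 369) (nat_lit 242)))) (XT.nd (nat_lit 78) (nat_lit 0) (nat_lit 0) (XT.lf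 (nat_lit 0) (nat_lit 4297166944177) (nat_lit 152) (nat_lit 5158985372341) (nat_lit 0) (nat_lit 3996126354915) (nat_lit 2) (nat_lit 5) (nat_lit 4) (nat_lit 4) (nat_lit 2) (nat_lit 4) (nat_lit 410) (nat_lit 369) (nat_lit 241)) (XT.nd (nat_lit 78) (nat_lit 0) (nat_lit 0) (XT.lf (nat_lit 0) (nat_lit 6013373333758) (nat_lit 152) (nat_lit 3576827513376) (nat_lit 0) (nat_lit 5712332743828) (nat_lit 2) (nat_lit 5) (nat_lit 4) (nat_lit 4) (nat_lit 2) (nat_lit 4) (nat_lit 411) (nat_lit 369) (nat_lit 240)) (XT.lf (nat_lit 0) (nat_lit 7987010677144) (nat_lit 152) (nat_lit 1757345985338) (nat_lit 0) (nat_lit 7685970086633) (nat_lit 2) (nat_lit 5) (nat_lit 4) (nat_lit 4) (nat_lit 2) (nat_lit 4) (nat_lit 412) (nat_lit 369) (nat_lit 239))))))) (XT.nd (nat_lit 858) (nat_lit 0) (nat_lit 0) (XT.nd (nat_lit 390) (nat_lit 0) (nat_lit 0) (XT.nd (nat_lit 156) (nat_lit 0) (nat_lit 0) (XT.nd (nat_lit 78) (nat_lit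 0) (nat_lit 0) (XT.lf (nat_lit 0) (nat_lit 367802044831) (nat_lit 76) (nat_lit 9904121471515) (nat_lit 76) (nat_lit 9603080880499) (nat_lit 1) (nat_lit 4) (nat_lit 2) (nat_lit 5) (nat_lit 2) (nat_lit 4) (nat_lit 413) (nat_lit 369) (nat_lit 238)) (XT.lf (nat_lit 0) (nat_lit 3009223996358) (nat_lit 76) (nat_lit 9982210548647) (nat_lit 76) (nat_lit 9681169957192) (nat_lit 1) (nat_lit 4) (nat_lit 2) (nat_lit 5) (nat_lit 2) (nat_lit 4) (nat_lit 414) (nat_lit 369) (nat_lit 237))) (XT.nd (nat_lit 78) (nat_lit 0) (nat_lit 0) (XT.lf (nat_lit 0) (nat_lit 6046859233562) (nat_lit 76) (nat_lit 10072012991064) (nat_lit 76) (nat_lit 9770972399228) (nat_lit 1) (nat_lit 4) (nat_lit 2) (nat_lit 5) (nat_lit 2) (nat_lit 4) (nat_lit 415) (nat_lit 369) (nat_lit 236)) (XT.nd (nat_lit 78) (nat_lit 0) (nat_lit 0) (XT.lf (nat_lit 0) (nat_lit 9540139750213) (nat_lit 76) (nat_lit 10175285803075) (nat_lit 76) (nat_lit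 9874245210906) (nat_lit 1) (nat_lit 4) (nat_lit 2) (nat_lit 5) (nat_lit 2) (nat_lit 4) (nat_lit 416) (nat_lit 369) (nat_lit 235)) (XT.lf (nat_lit 0) (nat_lit 13557412339028) (nat_lit 76) (nat_lit 10294049539697) (nat_lit 76) (nat_lit 9993008947240) (nat_lit 1) (nat_lit 4) (nat_lit 2) (nat_lit 5) (nat_lit 2) (nat_lit 4) (nat_lit 417) (nat_lit 369) (nat_lit 234))))) (XT.nd (nat_lit 234) (nat_lit 0) (nat_lit 0) (XT.nd (nat_lit 78) (nat_lit 0) (nat_lit 0) (XT.lf (nat_lit 0) (nat_lit 18177275811527) (nat_lit 76) (nat_lit 10430627839256) (nat_lit 76) (nat_lit 10129587246547) (nat_lit 1) (nat_lit 4) (nat_lit 2) (nat_lit 5) (nat_lit 2) (nat_lit 4) (nat_lit 418) (nat_lit 369) (nat_lit 233)) (XT.nd (nat_lit 78) (nat_lit 0) (nat_lit 0) (XT.lf (nat_lit 0) (nat_lit 23490118800869) (nat_lit 76) (nat_lit 10587692885872) (nat_lit 76) (nat_lit 10286652292945) (nat_lit 1) (nat_lit 4) (nat_lit 2) (nat_lit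 5) (nat_lit 2) (nat_lit 4) (nat_lit 419) (nat_lit 369) (nat_lit 232)) (XT.lf (nat_lit 0) (nat_lit 29599888235106) (nat_lit 76) (nat_lit 10768317691328) (nat_lit 76) (nat_lit 10467277098211) (nat_lit 1) (nat_lit 4) (nat_lit 2) (nat_lit 5) (nat_lit 2) (nat_lit 4) (nat_lit 420) (nat_lit 369) (nat_lit 231)))) (XT.nd (nat_lit 78) (nat_lit 0) (nat_lit 0) (XT.lf (nat_lit 0) (nat_lit 36626123081429) (nat_lit 76) (nat_lit 10976036219208) (nat_lit 76) (nat_lit 10674995625926) (nat_lit 1) (nat_lit 4) (nat_lit 2) (nat_lit 5) (nat_lit 2) (nat_lit 4) (nat_lit 421) (nat_lit 369) (nat_lit 230)) (XT.nd (nat_lit 78) (nat_lit 0) (nat_lit 0) (XT.lf (nat_lit 0) (nat_lit 44706293152049) (nat_lit 76) (nat_lit 11214912527668) (nat_lit 76) (nat_lit 10913871934242) (nat_lit 1) (nat_lit 4) (nat_lit 2) (nat_lit 5) (nat_lit 2) (nat_lit 4) (nat_lit 422) (nat_lit 369) (nat_lit 229)) (XT.lf (nat_lit 0) (nat_lit 53998488730955)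 (nat_lit 76) (nat_lit 11489620283611) (nat_lit 76) (nat_lit 11188579690061) (nat_lit 1) (nat_lit 4) (nat_lit 2) (nat_lit 5) (nat_lit 2) (nat_lit 4) (nat_lit 423) (nat_lit 369) (nat_lit 228)))))) (XT.nd (nat_lit 468) (nat_lit 0) (nat_lit 0) (XT.nd (nat_lit 234) (nat_lit 0) (nat_lit 0) (XT.nd (nat_lit 78) (nat_lit 0) (nat_lit 0) (XT.lf (nat_lit 0) (nat_lit 64684513644693) (nat_lit 76) (nat_lit 11805534204002) (nat_lit 76) (nat_lit 11504493610343) (nat_lit 1) (nat_lit 4) (nat_lit 2) (nat_lit 5) (nat_lit 2) (nat_lit 4) (nat_lit 424) (nat_lit 369) (nat_lit 227)) (XT.nd (nat_lit 78) (nat_lit 0) (nat_lit 0) (XT.lf (nat_lit 0) (nat_lit 76973442293749) (nat_lit 76) (nat_lit 12168835213369) (nat_lit 76) (nat_lit 11867794619616) (nat_lit 1) (nat_lit 4) (nat_lit 2) (nat_lit 5) (nat_lit 2) (nat_lit 4) (nat_lit 425) (nat_lit 369) (nat_lit 226)) (XT.lf (nat_lit 0) (nat_lit 91105710238646) (nat_lit 76)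 (nat_lit 12586631374941) (nat_lit 76) (nat_lit 12285590781105) (nat_lit 1) (nat_lit 4) (nat_lit 2) (nat_lit 5) (nat_lit 2) (nat_lit 4) (nat_lit 426) (nat_lit 369) (nat_lit 225)))) (XT.nd (nat_lit 78) (nat_lit 0) (nat_lit 0) (XT.lf (nat_lit 0) (nat_lit 107357818373960) (nat_lit 76) (nat_lit 13067096961442) (nat_lit 76) (nat_lit 12766056367536) (nat_lit 1) (nat_lit 4) (nat_lit 2) (nat_lit 5) (nat_lit 2) (nat_lit 4) (nat_lit 427) (nat_lit 369) (nat_lit 224)) (XT.nd (nat_lit 78) (nat_lit 0) (nat_lit 0) (XT.lf (nat_lit 0) (nat_lit 126047742728424) (nat_lit 76) (nat_lit 13619632386523) (nat_lit 76) (nat_lit 13318591792554) (nat_lit 1) (nat_lit 4) (nat_lit 2) (nat_lit 5) (nat_lit 2) (nat_lit 4) (nat_lit 428) (nat_lit 369) (nat_lit 223)) (XT.lf (nat_lit 0) (nat_lit 147541155735062) (nat_lit 76) (nat_lit 14255048125891) (nat_lit 76) (nat_lit 13954007531868) (nat_lit 1) (nat_lit 4) (nat_lit 2)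 (nat_lit 5) (nat_lit 2) (nat_lit 4) (nat_lit 429) (nat_lit 369) (nat_lit 222))))) (XT.nd (nat_lit 48438) (nat_lit 0) (nat_lit 2128) (XT.nd (nat_lit 78) (nat_lit 0) (nat_lit 0) (XT.lf (nat_lit 0) (nat_lit 172258580691828) (nat_lit 76) (nat_lit 14985776226621) (nat_lit 76) (nat_lit 14684735632551) (nat_lit 1) (nat_lit 4) (nat_lit 2) (nat_lit 5) (nat_lit 2) (nat_lit 4) (nat_lit 430) (nat_lit 369) (nat_lit 221)) (XT.nd (nat_lit 78) (nat_lit 0) (nat_lit 0) (XT.lf (nat_lit 0) (nat_lit 200683619391355) (nat_lit 76) (nat_lit 15826113542857) (nat_lit 76) (nat_lit 15525072948747) (nat_lit 1) (nat_lit 4) (nat_lit 2) (nat_lit 5) (nat_lit 2) (nat_lit 4) (nat_lit 431) (nat_lit 369) (nat_lit 220)) (XT.lf (nat_lit 0) (nat_lit 233372413895156) (nat_lit 76) (nat_lit 16792501456874) (nat_lit 76) (nat_lit 16491460862728) (nat_lit 1) (nat_lit 4) (nat_lit 2) (nat_lit 5) (nat_lit 2) (nat_lit 4) (nat_lit 432)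 (nat_lit 369) (nat_lit 219)))) (XT.nd (nat_lit 78) (nat_lit 0) (nat_lit 0) (XT.lf (nat_lit 0) (nat_lit 34971464227) (nat_lit 380) (nat_lit 49659349159) (nat_lit 380) (nat_lit 49659349159) (nat_lit 29) (nat_lit 3) (nat_lit 34) (nat_lit 3) (nat_lit 34) (nat_lit 5) (nat_lit 370) (nat_lit 370) (nat_lit 280)) (XT.nd (nat_lit 78) (nat_lit 0) (nat_lit 76) (XT.lf (nat_lit 76) (nat_lit 35292803237) (nat_lit 0) (nat_lit 41358080815) (nat_lit 380) (nat_lit 211853629037) (nat_lit 30) (nat_lit 5) (nat_lit 29) (nat_lit 3) (nat_lit 34) (nat_lit 5) (nat_lit 371) (nat_lit 370) (nat_lit 279)) (XT.lf (nat_lit 0) (nat_lit 94181858842) (nat_lit 304) (nat_lit 114005919617) (nat_lit 380) (nat_lit 101757027123) (nat_lit 30) (nat_lit 5) (nat_lit 34) (nat_lit 5) (nat_lit 35) (nat_lit 5) (nat_lit 372) (nat_lit 370) (nat_lit 278))))))))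
noncomputable def xc97 : XT := (XT.nd (nat_lit 1794) (nat_lit 684) (nat_lit 0) (XT.nd (nat_lit 858) (nat_lit 760) (nat_lit 0) (XT.nd (nat_lit 390) (nat_lit 380) (nat_lit 0) (XT.nd (nat_lit 156) (nat_lit 380) (nat_lit 0) (XT.nd (nat_lit 78) (nat_lit 0) (nat_lit 76) (XT.lf (nat_lit 76) (nat_lit 48422070268) (nat_lit 0) (nat_lit 69894765923) (nat_lit 380) (nat_lit 215688152461) (nat_lit 31) (nat_lit 5) (nat_lit 30) (nat_lit 5) (nat_lit 35) (nat_lit 5) (nat_lit 373) (nat_lit 370) (nat_lit 277)) (XT.lf (nat_lit 0) (nat_lit 156006312761) (nat_lit 304) (nat_lit 116728406917) (nat_lit 76) (nat_lit 87449341745) (nat_lit 31) (nat_lit 5) (nat_lit 35) (nat_lit 5) (nat_lit 32) (nat_lit 5) (nat_lit 374) (nat_lit 370) (nat_lit 276))) (XT.nd (nat_lit 78) (nat_lit 152) (nat_lit 0) (XT.lf (nat_lit 0) (nat_lit 81369974410) (nat_lit 304) (nat_lit 124676813939) (nat_lit 380) (nat_lit 183238570248) (nat_lit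 27) (nat_lit 5) (nat_lit 31) (nat_lit 5) (nat_lit 32) (nat_lit 5) (nat_lit 375) (nat_lit 370) (nat_lit 275)) (XT.nd (nat_lit 78) (nat_lit 152) (nat_lit 0) (XT.lf (nat_lit 0) (nat_lit 271873287884) (nat_lit 380) (nat_lit 101713244175) (nat_lit 76) (nat_lit 47923325496) (nat_lit 27) (nat_lit 5) (nat_lit 32) (nat_lit 5) (nat_lit 28) (nat_lit 5) (nat_lit 376) (nat_lit 370) (nat_lit 274)) (XT.lf (nat_lit 0) (nat_lit 142136063969) (nat_lit 152) (nat_lit 217260160156) (nat_lit 228) (nat_lit 97398438053) (nat_lit 25) (nat_lit 5) (nat_lit 27) (nat_lit 5) (nat_lit 28) (nat_lit 5) (nat_lit 377) (nat_lit 370) (nat_lit 273))))) (XT.nd (nat_lit 234) (nat_lit 228) (nat_lit 0) (XT.nd (nat_lit 78) (nat_lit 152) (nat_lit 0) (XT.lf (nat_lit 0) (nat_lit 433993857363) (nat_lit 152) (nat_lit 31370498134) (nat_lit 228) (nat_lit 31210318872) (nat_lit 25) (nat_lit 5) (nat_lit 27) (nat_lit 5) (nat_lit 28) (nat_lit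 5) (nat_lit 378) (nat_lit 370) (nat_lit 272)) (XT.nd (nat_lit 78) (nat_lit 0) (nat_lit 0) (XT.lf (nat_lit 0) (nat_lit 59285225272) (nat_lit 152) (nat_lit 301153454009) (nat_lit 76) (nat_lit 178847532093) (nat_lit 23) (nat_lit 5) (nat_lit 25) (nat_lit 5) (nat_lit 24) (nat_lit 5) (nat_lit 379) (nat_lit 370) (nat_lit 271)) (XT.lf (nat_lit 0) (nat_lit 165080573878) (nat_lit 152) (nat_lit 63095464) (nat_lit 76) (nat_lit 422299756538) (nat_lit 23) (nat_lit 5) (nat_lit 25) (nat_lit 5) (nat_lit 24) (nat_lit 5) (nat_lit 380) (nat_lit 370) (nat_lit 270)))) (XT.nd (nat_lit 78) (nat_lit 76) (nat_lit 0) (XT.lf (nat_lit 0) (nat_lit 305691957374) (nat_lit 228) (nat_lit 263651670506) (nat_lit 76) (nat_lit 70638584836) (nat_lit 21) (nat_lit 5) (nat_lit 24) (nat_lit 5) (nat_lit 22) (nat_lit 4) (nat_lit 381) (nat_lit 370) (nat_lit 269)) (XT.nd (nat_lit 78) (nat_lit 0) (nat_lit 0) (XT.lf (nat_lit 0) (nat_lit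 110787872206) (nat_lit 76) (nat_lit 369062053380) (nat_lit 152) (nat_lit 218683660449) (nat_lit 20) (nat_lit 5) (nat_lit 21) (nat_lit 5) (nat_lit 22) (nat_lit 4) (nat_lit 382) (nat_lit 370) (nat_lit 268)) (XT.lf (nat_lit 0) (nat_lit 571024119869) (nat_lit 76) (nat_lit 122889212696) (nat_lit 152) (nat_lit 69887071290) (nat_lit 20) (nat_lit 5) (nat_lit 21) (nat_lit 5) (nat_lit 22) (nat_lit 4) (nat_lit 383) (nat_lit 370) (nat_lit 267)))))) (XT.nd (nat_lit 468) (nat_lit 304) (nat_lit 0) (XT.nd (nat_lit 234) (nat_lit 228) (nat_lit 0) (XT.nd (nat_lit 78) (nat_lit 76) (nat_lit 0) (XT.lf (nat_lit 0) (nat_lit 111300242606) (nat_lit 152) (nat_lit 561478054398) (nat_lit 76) (nat_lit 162587694402) (nat_lit 18) (nat_lit 5) (nat_lit 20) (nat_lit 5) (nat_lit 19) (nat_lit 4) (nat_lit 384) (nat_lit 370) (nat_lit 266)) (XT.nd (nat_lit 78) (nat_lit 76) (nat_lit 0) (XT.lf (nat_lit 0) (nat_lit 328919170071)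 (nat_lit 152) (nat_lit 93597411202) (nat_lit 76) (nat_lit 492189349261) (nat_lit 18) (nat_lit 5) (nat_lit 20) (nat_lit 5) (nat_lit 19) (nat_lit 4) (nat_lit 385) (nat_lit 370) (nat_lit 265)) (XT.lf (nat_lit 0) (nat_lit 487901641538) (nat_lit 76) (nat_lit 111482224794) (nat_lit 152) (nat_lit 403532554768) (nat_lit 17) (nat_lit 5) (nat_lit 18) (nat_lit 5) (nat_lit 19) (nat_lit 4) (nat_lit 386) (nat_lit 370) (nat_lit 264)))) (XT.nd (nat_lit 78) (nat_lit 152) (nat_lit 0) (XT.lf (nat_lit 0) (nat_lit 58280605665) (nat_lit 76) (nat_lit 869871392380) (nat_lit 76) (nat_lit 173546427570) (nat_lit 16) (nat_lit 4) (nat_lit 17) (nat_lit 5) (nat_lit 17) (nat_lit 4) (nat_lit 387) (nat_lit 370) (nat_lit 263)) (XT.nd (nat_lit 78) (nat_lit 76) (nat_lit 0) (XT.lf (nat_lit 0) (nat_lit 116353555416) (nat_lit 152) (nat_lit 446164849741) (nat_lit 76) (nat_lit 647187720877) (nat_lit 15) (nat_lit 5) (nat_lit 17)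 (nat_lit 5) (nat_lit 16) (nat_lit 4) (nat_lit 388) (nat_lit 370) (nat_lit 262)) (XT.lf (nat_lit 0) (nat_lit 255124872947) (nat_lit 76) (nat_lit 187409960595) (nat_lit 152) (nat_lit 888555908709) (nat_lit 14) (nat_lit 5) (nat_lit 15) (nat_lit 5) (nat_lit 16) (nat_lit 4) (nat_lit 389) (nat_lit 370) (nat_lit 261))))) (XT.nd (nat_lit 234) (nat_lit 152) (nat_lit 0) (XT.nd (nat_lit 78) (nat_lit 152) (nat_lit 0) (XT.lf (nat_lit 0) (nat_lit 852178170392) (nat_lit 152) (nat_lit 366646515864) (nat_lit 0) (nat_lit 246678134605) (nat_lit 14) (nat_lit 5) (nat_lit 16) (nat_lit 4) (nat_lit 14) (nat_lit 4) (nat_lit 390) (nat_lit 370) (nat_lit 260)) (XT.nd (nat_lit 78) (nat_lit 76) (nat_lit 0) (XT.lf (nat_lit 0) (nat_lit 483160713732) (nat_lit 76) (nat_lit 869038206537) (nat_lit 76) (nat_lit 263538154126) (nat_lit 13) (nat_lit 4) (nat_lit 14) (nat_lit 5) (nat_lit 14) (nat_lit 4) (nat_lit 391) (nat_lit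 370) (nat_lit 259)) (XT.lf (nat_lit 0) (nat_lit 146445066567) (nat_lit 152) (nat_lit 290643173748) (nat_lit 76) (nat_lit 1347544898275) (nat_lit 12) (nat_lit 5) (nat_lit 14) (nat_lit 5) (nat_lit 13) (nat_lit 4) (nat_lit 392) (nat_lit 370) (nat_lit 258)))) (XT.nd (nat_lit 78) (nat_lit 76) (nat_lit 0) (XT.lf (nat_lit 0) (nat_lit 625680325520) (nat_lit 152) (nat_lit 1246931977844) (nat_lit 0) (nat_lit 99158517313) (nat_lit 11) (nat_lit 5) (nat_lit 13) (nat_lit 4) (nat_lit 11) (nat_lit 4) (nat_lit 393) (nat_lit 370) (nat_lit 257)) (XT.nd (nat_lit 78) (nat_lit 76) (nat_lit 0) (XT.lf (nat_lit 0) (nat_lit 1213530750607) (nat_lit 152) (nat_lit 280929989986) (nat_lit 0) (nat_lit 687008932895) (nat_lit 11) (nat_lit 5) (nat_lit 13) (nat_lit 4) (nat_lit 11) (nat_lit 4) (nat_lit 394) (nat_lit 370) (nat_lit 256)) (XT.lf (nat_lit 0) (nat_lit 911083182263) (nat_lit 76) (nat_lit 1016201549544) (nat_lit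 76) (nat_lit 489679723567) (nat_lit 10) (nat_lit 4) (nat_lit 11) (nat_lit 5) (nat_lit 11) (nat_lit 4) (nat_lit 395) (nat_lit 370) (nat_lit 255))))))) (XT.nd (nat_lit 858) (nat_lit 228) (nat_lit 0) (XT.nd (nat_lit 390) (nat_lit 228) (nat_lit 0) (XT.nd (nat_lit 156) (nat_lit 76) (nat_lit 0) (XT.nd (nat_lit 78) (nat_lit 76) (nat_lit 0) (XT.lf (nat_lit 0) (nat_lit 70332640642) (nat_lit 152) (nat_lit 375306655783) (nat_lit 76) (nat_lit 2239461873630) (nat_lit 9) (nat_lit 5) (nat_lit 11) (nat_lit 5) (nat_lit 10) (nat_lit 4) (nat_lit 396) (nat_lit 370) (nat_lit 254)) (XT.lf (nat_lit 0) (nat_lit 716970296142) (nat_lit 152) (nat_lit 2005951568128) (nat_lit 0) (nat_lit 259125218390) (nat_lit 8) (nat_lit 5) (nat_lit 10) (nat_lit 4) (nat_lit 8) (nat_lit 4) (nat_lit 397) (nat_lit 370) (nat_lit 253))) (XT.nd (nat_lit 78) (nat_lit 76) (nat_lit 0) (XT.lf (nat_lit 0) (nat_lit 1502377009618) (nat_lit 152)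 (nat_lit 770359933953) (nat_lit 0) (nat_lit 1044531927141) (nat_lit 8) (nat_lit 5) (nat_lit 10) (nat_lit 4) (nat_lit 8) (nat_lit 4) (nat_lit 398) (nat_lit 370) (nat_lit 252)) (XT.nd (nat_lit 78) (nat_lit 0) (nat_lit 0) (XT.lf (nat_lit 0) (nat_lit 714148888141) (nat_lit 76) (nat_lit 1721017210100) (nat_lit 76) (nat_lit 1263172123514) (nat_lit 7) (nat_lit 4) (nat_lit 8) (nat_lit 5) (nat_lit 8) (nat_lit 4) (nat_lit 399) (nat_lit 370) (nat_lit 251)) (XT.lf (nat_lit 0) (nat_lit 2507911956916) (nat_lit 76) (nat_lit 1040230394272) (nat_lit 76) (nat_lit 582385304112) (nat_lit 7) (nat_lit 4) (nat_lit 8) (nat_lit 5) (nat_lit 8) (nat_lit 4) (nat_lit 400) (nat_lit 370) (nat_lit 250))))) (XT.nd (nat_lit 234) (nat_lit 76) (nat_lit 0) (XT.nd (nat_lit 78) (nat_lit 76) (nat_lit 0) (XT.lf (nat_lit 0) (nat_lit 182667889812) (nat_lit 152) (nat_lit 65109130170) (nat_lit 76) (nat_lit 4378523022800) (nat_lit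 6) (nat_lit 5) (nat_lit 8) (nat_lit 5) (nat_lit 7) (nat_lit 4) (nat_lit 401) (nat_lit 370) (nat_lit 249)) (XT.nd (nat_lit 78) (nat_lit 0) (nat_lit 0) (XT.lf (nat_lit 0) (nat_lit 1112521436874) (nat_lit 152) (nat_lit 3348911559596) (nat_lit 0) (nat_lit 714395266466) (nat_lit 5) (nat_lit 5) (nat_lit 7) (nat_lit 4) (nat_lit 5) (nat_lit 4) (nat_lit 402) (nat_lit 370) (nat_lit 248)) (XT.lf (nat_lit 0) (nat_lit 2197217410909) (nat_lit 152) (nat_lit 1809172407511) (nat_lit 0) (nat_lit 1799091238459) (nat_lit 5) (nat_lit 5) (nat_lit 7) (nat_lit 4) (nat_lit 5) (nat_lit 4) (nat_lit 403) (nat_lit 370) (nat_lit 247)))) (XT.nd (nat_lit 78) (nat_lit 76) (nat_lit 0) (XT.lf (nat_lit 0) (nat_lit 3444617771672) (nat_lit 152) (nat_lit 38472402204) (nat_lit 0) (nat_lit 3046491597444) (nat_lit 5) (nat_lit 5) (nat_lit 7) (nat_lit 4) (nat_lit 5) (nat_lit 4) (nat_lit 404) (nat_lit 370) (nat_lit 246)) (XT.nd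 (nat_lit 78) (nat_lit 0) (nat_lit 0) (XT.lf (nat_lit 0) (nat_lit 2193075316942) (nat_lit 76) (nat_lit 2776863433581) (nat_lit 76) (nat_lit 2378737257809) (nat_lit 4) (nat_lit 4) (nat_lit 5) (nat_lit 5) (nat_lit 5) (nat_lit 4) (nat_lit 405) (nat_lit 370) (nat_lit 245)) (XT.lf (nat_lit 0) (nat_lit 4763678951083) (nat_lit 76) (nat_lit 1962389974742) (nat_lit 76) (nat_lit 1564263797627) (nat_lit 4) (nat_lit 4) (nat_lit 5) (nat_lit 5) (nat_lit 5) (nat_lit 4) (nat_lit 406) (nat_lit 370) (nat_lit 244)))))) (XT.nd (nat_lit 468) (nat_lit 76) (nat_lit 0) (XT.nd (nat_lit 234) (nat_lit 0) (nat_lit 0) (XT.nd (nat_lit 78) (nat_lit 152) (nat_lit 0) (XT.lf (nat_lit 0) (nat_lit 7719873116205) (nat_lit 76) (nat_lit 1025745504467) (nat_lit 76) (nat_lit 627619326183) (nat_lit 4) (nat_lit 4) (nat_lit 5) (nat_lit 5) (nat_lit 5) (nat_lit 4) (nat_lit 407) (nat_lit 370) (nat_lit 243)) (XT.nd (nat_lit 78) (nat_lit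 0) (nat_lit 0) (XT.lf (nat_lit 0) (nat_lit 435483664094) (nat_lit 152) (nat_lit 10087119033961) (nat_lit 0) (nat_lit 89286986442) (nat_lit 2) (nat_lit 5) (nat_lit 4) (nat_lit 4) (nat_lit 2) (nat_lit 4) (nat_lit 408) (nat_lit 370) (nat_lit 242)) (XT.lf (nat_lit 0) (nat_lit 1733182263855) (nat_lit 152) (nat_lit 8890780374516) (nat_lit 0) (nat_lit 1386985585436) (nat_lit 2) (nat_lit 5) (nat_lit 4) (nat_lit 4) (nat_lit 2) (nat_lit 4) (nat_lit 409) (nat_lit 370) (nat_lit 241)))) (XT.nd (nat_lit 78) (nat_lit 0) (nat_lit 0) (XT.lf (nat_lit 0) (nat_lit 3225535648254) (nat_lit 152) (nat_lit 7514990927393) (nat_lit 0) (nat_lit 2879338969166) (nat_lit 2) (nat_lit 5) (nat_lit 4) (nat_lit 4) (nat_lit 2) (nat_lit 4) (nat_lit 410) (nat_lit 370) (nat_lit 240)) (XT.nd (nat_lit 78) (nat_lit 0) (nat_lit 0) (XT.lf (nat_lit 0) (nat_lit 4941742035680) (nat_lit 152) (nat_lit 5932833072972) (nat_lit 0) (nat_lit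 4595545356012) (nat_lit 2) (nat_lit 5) (nat_lit 4) (nat_lit 4) (nat_lit 2) (nat_lit 4) (nat_lit 411) (nat_lit 370) (nat_lit 239)) (XT.lf (nat_lit 0) (nat_lit 6915379377193) (nat_lit 152) (nat_lit 4113351548887) (nat_lit 0) (nat_lit 6569182697019) (nat_lit 2) (nat_lit 5) (nat_lit 4) (nat_lit 4) (nat_lit 2) (nat_lit 4) (nat_lit 412) (nat_lit 370) (nat_lit 238))))) (XT.nd (nat_lit 234) (nat_lit 0) (nat_lit 0) (XT.nd (nat_lit 78) (nat_lit 76) (nat_lit 0) (XT.lf (nat_lit 0) (nat_lit 9185062316429) (nat_lit 152) (nat_lit 2020947803577) (nat_lit 0) (nat_lit 8838865635817) (nat_lit 2) (nat_lit 5) (nat_lit 4) (nat_lit 4) (nat_lit 2) (nat_lit 4) (nat_lit 413) (nat_lit 370) (nat_lit 237)) (XT.nd (nat_lit 78) (nat_lit 0) (nat_lit 0) (XT.lf (nat_lit 0) (nat_lit 422972427501) (nat_lit 76) (nat_lit 11389739652236) (nat_lit 76) (nat_lit 11043542971242) (nat_lit 1) (nat_lit 4) (nat_lit 2) (nat_lit 5)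 (nat_lit 2) (nat_lit 4) (nat_lit 414) (nat_lit 370) (nat_lit 236)) (XT.lf (nat_lit 0) (nat_lit 3460607661851) (nat_lit 76) (nat_lit 11479542096156) (nat_lit 76) (nat_lit 11133345414830) (nat_lit 1) (nat_lit 4) (nat_lit 2) (nat_lit 5) (nat_lit 2) (nat_lit 4) (nat_lit 415) (nat_lit 370) (nat_lit 235)))) (XT.nd (nat_lit 78) (nat_lit 0) (nat_lit 0) (XT.lf (nat_lit 0) (nat_lit 6953888176022) (nat_lit 76) (nat_lit 11582814909474) (nat_lit 76) (nat_lit 11236618227859) (nat_lit 1) (nat_lit 4) (nat_lit 2) (nat_lit 5) (nat_lit 2) (nat_lit 4) (nat_lit 416) (nat_lit 370) (nat_lit 234)) (XT.nd (nat_lit 78) (nat_lit 0) (nat_lit 0) (XT.lf (nat_lit 0) (nat_lit 10971160762680) (nat_lit 76) (nat_lit 11701578647232) (nat_lit 76) (nat_lit 11355381965366) (nat_lit 1) (nat_lit 4) (nat_lit 2) (nat_lit 5) (nat_lit 2) (nat_lit 4) (nat_lit 417) (nat_lit 370) (nat_lit 233)) (XT.lf (nat_lit 0) (nat_lit 15591024233304)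 (nat_lit 76) (nat_lit 11838156947778) (nat_lit 76) (nat_lit 11491960265694) (nat_lit 1) (nat_lit 4) (nat_lit 2) (nat_lit 5) (nat_lit 2) (nat_lit 4) (nat_lit 418) (nat_lit 370) (nat_lit 232))))))))
noncomputable def xc98 : XT := (XT.nd (nat_lit 50076) (nat_lit 0) (nat_lit 380) (XT.nd (nat_lit 858) (nat_lit 0) (nat_lit 0) (XT.nd (nat_lit 390) (nat_lit 0) (nat_lit 0) (XT.nd (nat_lit 156) (nat_lit 0) (nat_lit 0) (XT.nd (nat_lit 78) (nat_lit 0) (nat_lit 0) (XT.lf (nat_lit 0) (nat_lit 20903867221015) (nat_lit 76) (nat_lit 11995221995254) (nat_lit 76) (nat_lit 11649025312980) (nat_lit 1) (nat_lit 4) (nat_lit 2) (nat_lit 5) (nat_lit 2) (nat_lit 4) (nat_lit 419) (nat_lit 370) (nat_lit 231)) (XT.lf (nat_lit 0) (nat_lit 27013636653833) (nat_lit 76) (nat_lit 12175846801457) (nat_lit 76) (nat_lit 11829650119018) (nat_lit 1) (nat_lit 4) (nat_lit 2) (nat_lit 5) (nat_lit 2) (nat_lit 4) (nat_lit 420)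 (nat_lit 370) (nat_lit 230))) (XT.nd (nat_lit 78) (nat_lit 0) (nat_lit 0) (XT.lf (nat_lit 0) (nat_lit 34039871498923) (nat_lit 76) (nat_lit 12383565329987) (nat_lit 76) (nat_lit 12037368647404) (nat_lit 1) (nat_lit 4) (nat_lit 2) (nat_lit 5) (nat_lit 2) (nat_lit 4) (nat_lit 421) (nat_lit 370) (nat_lit 229)) (XT.nd (nat_lit 78) (nat_lit 0) (nat_lit 0) (XT.lf (nat_lit 0) (nat_lit 42120041568470) (nat_lit 76) (nat_lit 12622441639012) (nat_lit 76) (nat_lit 12276244956304) (nat_lit 1) (nat_lit 4) (nat_lit 2) (nat_lit 5) (nat_lit 2) (nat_lit 4) (nat_lit 422) (nat_lit 370) (nat_lit 228)) (XT.lf (nat_lit 0) (nat_lit 51412237146444) (nat_lit 76) (nat_lit 12897149395446) (nat_lit 76) (nat_lit 12550952712630) (nat_lit 1) (nat_lit 4) (nat_lit 2) (nat_lit 5) (nat_lit 2) (nat_lit 4) (nat_lit 423) (nat_lit 370) (nat_lit 227))))) (XT.nd (nat_lit 234) (nat_lit 0) (nat_lit 0) (XT.nd (nat_lit 78) (nat_lit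 0) (nat_lit 0) (XT.lf (nat_lit 0) (nat_lit 62098262059371) (nat_lit 76) (nat_lit 13213063316264) (nat_lit 76) (nat_lit 12866866633353) (nat_lit 1) (nat_lit 4) (nat_lit 2) (nat_lit 5) (nat_lit 2) (nat_lit 4) (nat_lit 424) (nat_lit 370) (nat_lit 226)) (XT.nd (nat_lit 78) (nat_lit 0) (nat_lit 0) (XT.lf (nat_lit 0) (nat_lit 74387190707721) (nat_lit 76) (nat_lit 13576364326003) (nat_lit 76) (nat_lit 13230167643010) (nat_lit 1) (nat_lit 4) (nat_lit 2) (nat_lit 5) (nat_lit 2) (nat_lit 4) (nat_lit 425) (nat_lit 370) (nat_lit 225)) (XT.lf (nat_lit 0) (nat_lit 88519458652006) (nat_lit 76) (nat_lit 13994160487897) (nat_lit 76) (nat_lit 13647963804833) (nat_lit 1) (nat_lit 4) (nat_lit 2) (nat_lit 5) (nat_lit 2) (nat_lit 4) (nat_lit 426) (nat_lit 370) (nat_lit 224)))) (XT.nd (nat_lit 78) (nat_lit 0) (nat_lit 0) (XT.lf (nat_lit 0) (nat_lit 104771566786786) (nat_lit 76) (nat_lit 14474626074680) (nat_lit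 76) (nat_lit 14128429391554) (nat_lit 1) (nat_lit 4) (nat_lit 2) (nat_lit 5) (nat_lit 2) (nat_lit 4) (nat_lit 427) (nat_lit 370) (nat_lit 223)) (XT.nd (nat_lit 78) (nat_lit 0) (nat_lit 0) (XT.lf (nat_lit 0) (nat_lit 123461491140787) (nat_lit 76) (nat_lit 15027161500005) (nat_lit 76) (nat_lit 14680964816825) (nat_lit 1) (nat_lit 4) (nat_lit 2) (nat_lit 5) (nat_lit 2) (nat_lit 4) (nat_lit 428) (nat_lit 370) (nat_lit 222)) (XT.lf (nat_lit 0) (nat_lit 144954904147021) (nat_lit 76) (nat_lit 15662577239585) (nat_lit 76) (nat_lit 15316380556358) (nat_lit 1) (nat_lit 4) (nat_lit 2) (nat_lit 5) (nat_lit 2) (nat_lit 4) (nat_lit 429) (nat_lit 370) (nat_lit 221)))))) (XT.nd (nat_lit 48750) (nat_lit 0) (nat_lit 1824) (XT.nd (nat_lit 48516) (nat_lit 0) (nat_lit 2128) (XT.nd (nat_lit 78) (nat_lit 0) (nat_lit 0) (XT.lf (nat_lit 0) (nat_lit 169672329103437) (nat_lit 76) (nat_lit 16393305340499) (nat_lit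 76) (nat_lit 16047108657232) (nat_lit 1) (nat_lit 4) (nat_lit 2) (nat_lit 5) (nat_lit 2) (nat_lit 4) (nat_lit 430) (nat_lit 370) (nat_lit 220)) (XT.nd (nat_lit 78) (nat_lit 0) (nat_lit 0) (XT.lf (nat_lit 0) (nat_lit 198097367802659) (nat_lit 76) (nat_lit 17233642656896) (nat_lit 76) (nat_lit 16887445973593) (nat_lit 1) (nat_lit 4) (nat_lit 2) (nat_lit 5) (nat_lit 2) (nat_lit 4) (nat_lit 431) (nat_lit 370) (nat_lit 219)) (XT.lf (nat_lit 0) (nat_lit 230786162306195) (nat_lit 76) (nat_lit 18200030571053) (nat_lit 76) (nat_lit 17853833887719) (nat_lit 1) (nat_lit 4) (nat_lit 2) (nat_lit 5) (nat_lit 2) (nat_lit 4) (nat_lit 432) (nat_lit 370) (nat_lit 218)))) (XT.nd (nat_lit 78) (nat_lit 0) (nat_lit 0) (XT.lf (nat_lit 0) (nat_lit 40217985478) (nat_lit 380) (nat_lit 57107790128) (nat_lit 380) (nat_lit 57107790128) (nat_lit 29) (nat_lit 3) (nat_lit 34) (nat_lit 3) (nat_lit 34) (nat_lit 5) (nat_lit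 371) (nat_lit 371) (nat_lit 278)) (XT.nd (nat_lit 78) (nat_lit 0) (nat_lit 76) (XT.lf (nat_lit 76) (nat_lit 40587604586) (nat_lit 0) (nat_lit 47562342663) (nat_lit 380) (nat_lit 243630026560) (nat_lit 30) (nat_lit 5) (nat_lit 29) (nat_lit 3) (nat_lit 34) (nat_lit 5) (nat_lit 372) (nat_lit 371) (nat_lit 277)) (XT.lf (nat_lit 0) (nat_lit 108310361866) (nat_lit 304) (nat_lit 131105833760) (nat_lit 380) (nat_lit 117020145726) (nat_lit 30) (nat_lit 5) (nat_lit 34) (nat_lit 5) (nat_lit 35) (nat_lit 5) (nat_lit 373) (nat_lit 371) (nat_lit 276))))) (XT.nd (nat_lit 234) (nat_lit 152) (nat_lit 0) (XT.nd (nat_lit 78) (nat_lit 228) (nat_lit 0) (XT.lf (nat_lit 76) (nat_lit 55686310345) (nat_lit 0) (nat_lit 80379154285) (nat_lit 380) (nat_lit 248040105618) (nat_lit 31) (nat_lit 5) (nat_lit 30) (nat_lit 5) (nat_lit 35) (nat_lit 5) (nat_lit 374) (nat_lit 371) (nat_lit 275)) (XT.nd (nat_lit 78) (nat_lit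 304) (nat_lit 0) (XT.lf (nat_lit 0) (nat_lit 179408212568) (nat_lit 304) (nat_lit 134236708457) (nat_lit 76) (nat_lit 100566605590) (nat_lit 31) (nat_lit 5) (nat_lit 35) (nat_lit 5) (nat_lit 32) (nat_lit 5) (nat_lit 375) (nat_lit 371) (nat_lit 274)) (XT.lf (nat_lit 0) (nat_lit 93576386455) (nat_lit 304) (nat_lit 143378286672) (nat_lit 380) (nat_lit 210723358333) (nat_lit 27) (nat_lit 5) (nat_lit 31) (nat_lit 5) (nat_lit 32) (nat_lit 5) (nat_lit 376) (nat_lit 371) (nat_lit 273)))) (XT.nd (nat_lit 78) (nat_lit 152) (nat_lit 0) (XT.lf (nat_lit 0) (nat_lit 312655036345) (nat_lit 380) (nat_lit 116969322310) (nat_lit 76) (nat_lit 55111863419) (nat_lit 27) (nat_lit 5) (nat_lit 32) (nat_lit 5) (nat_lit 28) (nat_lit 5) (nat_lit 377) (nat_lit 371) (nat_lit 272)) (XT.nd (nat_lit 78) (nat_lit 0) (nat_lit 0) (XT.lf (nat_lit 0) (nat_lit 163457340761) (nat_lit 152) (nat_lit 249849009657) (nat_lit 228)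 (nat_lit 112007406472) (nat_lit 25) (nat_lit 5) (nat_lit 27) (nat_lit 5) (nat_lit 28) (nat_lit 5) (nat_lit 378) (nat_lit 371) (nat_lit 271)) (XT.lf (nat_lit 0) (nat_lit 499093690051) (nat_lit 152) (nat_lit 36075921094) (nat_lit 228) (nat_lit 35891173408) (nat_lit 25) (nat_lit 5) (nat_lit 27) (nat_lit 5) (nat_lit 28) (nat_lit 5) (nat_lit 379) (nat_lit 371) (nat_lit 270))))))) (XT.nd (nat_lit 858) (nat_lit 608) (nat_lit 0) (XT.nd (nat_lit 390) (nat_lit 456) (nat_lit 0) (XT.nd (nat_lit 156) (nat_lit 228) (nat_lit 0) (XT.nd (nat_lit 78) (nat_lit 0) (nat_lit 0) (XT.lf (nat_lit 0) (nat_lit 68178598713) (nat_lit 152) (nat_lit 346325613370) (nat_lit 76) (nat_lit 205674842079) (nat_lit 23) (nat_lit 5) (nat_lit 25) (nat_lit 5) (nat_lit 24) (nat_lit 5) (nat_lit 380) (nat_lit 371) (nat_lit 269)) (XT.lf (nat_lit 0) (nat_lit 189843172699) (nat_lit 152) (nat_lit 71813053) (nat_lit 76) (nat_lit 485644876690)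 (nat_lit 23) (nat_lit 5) (nat_lit 25) (nat_lit 5) (nat_lit 24) (nat_lit 5) (nat_lit 381) (nat_lit 371) (nat_lit 268))) (XT.nd (nat_lit 78) (nat_lit 76) (nat_lit 0) (XT.lf (nat_lit 0) (nat_lit 351546236186) (nat_lit 228) (nat_lit 303198646463) (nat_lit 76) (nat_lit 81234588838) (nat_lit 21) (nat_lit 5) (nat_lit 24) (nat_lit 5) (nat_lit 22) (nat_lit 4) (nat_lit 382) (nat_lit 371) (nat_lit 267)) (XT.nd (nat_lit 78) (nat_lit 0) (nat_lit 0) (XT.lf (nat_lit 0) (nat_lit 127406792446) (nat_lit 76) (nat_lit 424421074513) (nat_lit 152) (nat_lit 251485688792) (nat_lit 20) (nat_lit 5) (nat_lit 21) (nat_lit 5) (nat_lit 22) (nat_lit 4) (nat_lit 383) (nat_lit 371) (nat_lit 266)) (XT.lf (nat_lit 0) (nat_lit 656678380814) (nat_lit 76) (nat_lit 141322345146) (nat_lit 152) (nat_lit 80369679180) (nat_lit 20) (nat_lit 5) (nat_lit 21) (nat_lit 5) (nat_lit 22) (nat_lit 4) (nat_lit 384) (nat_lit 371) (nat_lit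 265))))) (XT.nd (nat_lit 234) (nat_lit 228) (nat_lit 0) (XT.nd (nat_lit 78) (nat_lit 76) (nat_lit 0) (XT.lf (nat_lit 0) (nat_lit 127995675748) (nat_lit 152) (nat_lit 645699063102) (nat_lit 76) (nat_lit 186976091552) (nat_lit 18) (nat_lit 5) (nat_lit 20) (nat_lit 5) (nat_lit 19) (nat_lit 4) (nat_lit 385) (nat_lit 371) (nat_lit 264)) (XT.nd (nat_lit 78) (nat_lit 76) (nat_lit 0) (XT.lf (nat_lit 0) (nat_lit 378257390583) (nat_lit 152) (nat_lit 107636414660) (nat_lit 76) (nat_lit 566017962946) (nat_lit 18) (nat_lit 5) (nat_lit 20) (nat_lit 5) (nat_lit 19) (nat_lit 4) (nat_lit 386) (nat_lit 371) (nat_lit 263)) (XT.lf (nat_lit 0) (nat_lit 561087468344) (nat_lit 76) (nat_lit 128204301979) (nat_lit 152) (nat_lit 464062065182) (nat_lit 17) (nat_lit 5) (nat_lit 18) (nat_lit 5) (nat_lit 19) (nat_lit 4) (nat_lit 387) (nat_lit 371) (nat_lit 262)))) (XT.nd (nat_lit 78) (nat_lit 152) (nat_lit 0) (XT.lf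 (nat_lit 0) (nat_lit 67023287105) (nat_lit 76) (nat_lit 1000351826113) (nat_lit 76) (nat_lit 199578028785) (nat_lit 16) (nat_lit 4) (nat_lit 17) (nat_lit 5) (nat_lit 17) (nat_lit 4) (nat_lit 388) (nat_lit 371) (nat_lit 261)) (XT.nd (nat_lit 78) (nat_lit 76) (nat_lit 0) (XT.lf (nat_lit 0) (nat_lit 133806876216) (nat_lit 152) (nat_lit 513089035449) (nat_lit 76) (nat_lit 744266090049) (nat_lit 15) (nat_lit 5) (nat_lit 17) (nat_lit 5) (nat_lit 16) (nat_lit 4) (nat_lit 389) (nat_lit 371) (nat_lit 260)) (XT.lf (nat_lit 0) (nat_lit 293394121017) (nat_lit 76) (nat_lit 215521208959) (nat_lit 152) (nat_lit 1021838982815) (nat_lit 14) (nat_lit 5) (nat_lit 15) (nat_lit 5) (nat_lit 16) (nat_lit 4) (nat_lit 390) (nat_lit 371) (nat_lit 259)))))) (XT.nd (nat_lit 468) (nat_lit 304) (nat_lit 0) (XT.nd (nat_lit 234) (nat_lit 152) (nat_lit 0) (XT.nd (nat_lit 78) (nat_lit 152) (nat_lit 0) (XT.lf (nat_lit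 0) (nat_lit 980005140801) (nat_lit 152) (nat_lit 421643016938) (nat_lit 0) (nat_lit 283680049447) (nat_lit 14) (nat_lit 5) (nat_lit 16) (nat_lit 4) (nat_lit 14) (nat_lit 4) (nat_lit 391) (nat_lit 371) (nat_lit 258)) (XT.nd (nat_lit 78) (nat_lit 76) (nat_lit 0) (XT.lf (nat_lit 0) (nat_lit 555635275447) (nat_lit 76) (nat_lit 999393714602) (nat_lit 76) (nat_lit 303068610678) (nat_lit 13) (nat_lit 4) (nat_lit 14) (nat_lit 5) (nat_lit 14) (nat_lit 4) (nat_lit 392) (nat_lit 371) (nat_lit 257)) (XT.lf (nat_lit 0) (nat_lit 168412037713) (nat_lit 152) (nat_lit 334239233771) (nat_lit 76) (nat_lit 1549676806169) (nat_lit 12) (nat_lit 5) (nat_lit 14) (nat_lit 5) (nat_lit 13) (nat_lit 4) (nat_lit 393) (nat_lit 371) (nat_lit 256)))) (XT.nd (nat_lit 78) (nat_lit 76) (nat_lit 0) (XT.lf (nat_lit 0) (nat_lit 719532582570) (nat_lit 152) (nat_lit 1433971355500) (nat_lit 0) (nat_lit 114032474431) (nat_lit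 11) (nat_lit 5) (nat_lit 13) (nat_lit 4) (nat_lit 11) (nat_lit 4) (nat_lit 394) (nat_lit 371) (nat_lit 255)) (XT.nd (nat_lit 78) (nat_lit 76) (nat_lit 0) (XT.lf (nat_lit 0) (nat_lit 1395560544261) (nat_lit 152) (nat_lit 323069124118) (nat_lit 0) (nat_lit 790060428935) (nat_lit 11) (nat_lit 5) (nat_lit 13) (nat_lit 4) (nat_lit 11) (nat_lit 4) (nat_lit 395) (nat_lit 371) (nat_lit 254)) (XT.lf (nat_lit 0) (nat_lit 1047746007406) (nat_lit 76) (nat_lit 1168631606020) (nat_lit 76) (nat_lit 563131484444) (nat_lit 10) (nat_lit 4) (nat_lit 11) (nat_lit 5) (nat_lit 11) (nat_lit 4) (nat_lit 396) (nat_lit 371) (nat_lit 253))))) (XT.nd (nat_lit 234) (nat_lit 152) (nat_lit 0) (XT.nd (nat_lit 78) (nat_lit 76) (nat_lit 0) (XT.lf (nat_lit 0) (nat_lit 80882693313) (nat_lit 152) (nat_lit 431602336385) (nat_lit 76) (nat_lit 2575381292353) (nat_lit 9) (nat_lit 5) (nat_lit 11) (nat_lit 5) (nat_lit 10) (nat_lit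 4) (nat_lit 397) (nat_lit 371) (nat_lit 252)) (XT.nd (nat_lit 78) (nat_lit 0) (nat_lit 0) (XT.lf (nat_lit 0) (nat_lit 824515995677) (nat_lit 152) (nat_lit 2306843984100) (nat_lit 0) (nat_lit 297994141994) (nat_lit 8) (nat_lit 5) (nat_lit 10) (nat_lit 4) (nat_lit 8) (nat_lit 4) (nat_lit 398) (nat_lit 371) (nat_lit 251)) (XT.lf (nat_lit 0) (nat_lit 1727733695942) (nat_lit 152) (nat_lit 885913646440) (nat_lit 0) (nat_lit 1201211838686) (nat_lit 8) (nat_lit 5) (nat_lit 10) (nat_lit 4) (nat_lit 8) (nat_lit 4) (nat_lit 399) (nat_lit 371) (nat_lit 250)))) (XT.nd (nat_lit 78) (nat_lit 76) (nat_lit 0) (XT.lf (nat_lit 0) (nat_lit 821271486350) (nat_lit 76) (nat_lit 1979169654888) (nat_lit 76) (nat_lit 1452647794524) (nat_lit 7) (nat_lit 4) (nat_lit 8) (nat_lit 5) (nat_lit 8) (nat_lit 4) (nat_lit 400) (nat_lit 371) (nat_lit 249)) (XT.nd (nat_lit 78) (nat_lit 76) (nat_lit 0) (XT.lf (nat_lit 0) (nat_lit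 2884098980878) (nat_lit 76) (nat_lit 1196264834520) (nat_lit 76) (nat_lit 669742971454) (nat_lit 7) (nat_lit 4) (nat_lit 8) (nat_lit 5) (nat_lit 8) (nat_lit 4) (nat_lit 401) (nat_lit 371) (nat_lit 248)) (XT.lf (nat_lit 0) (nat_lit 210068174897) (nat_lit 152) (nat_lit 74875289385) (nat_lit 76) (nat_lit 5035301569664) (nat_lit 6) (nat_lit 5) (nat_lit 8) (nat_lit 5) (nat_lit 7) (nat_lit 4) (nat_lit 402) (nat_lit 371) (nat_lit 247))))))))
noncomputable def xc99 : XT := (XT.nd (nat_lit 2106) (nat_lit 0) (nat_lit 0) (XT.nd (nat_lit 858) (nat_lit 76) (nat_lit 0) (XT.nd (nat_lit 390) (nat_lit 152) (nat_lit 0) (XT.nd (nat_lit 156) (nat_lit 76) (nat_lit 0) (XT.nd (nat_lit 78) (nat_lit 0) (nat_lit 0) (XT.lf (nat_lit 0) (nat_lit 1279399753387) (nat_lit 152) (nat_lit 3851248082585) (nat_lit 0) (nat_lit 821554651249) (nat_lit 5) (nat_lit 5) (nat_lit 7) (nat_lit 4) (nat_lit 5) (nat_lit 4) (nat_lit 403)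 (nat_lit 371) (nat_lit 246)) (XT.lf (nat_lit 0) (nat_lit 2526800110356) (nat_lit 152) (nat_lit 2080548085202) (nat_lit 0) (nat_lit 2068955006673) (nat_lit 5) (nat_lit 5) (nat_lit 7) (nat_lit 4) (nat_lit 5) (nat_lit 4) (nat_lit 404) (nat_lit 371) (nat_lit 245))) (XT.nd (nat_lit 78) (nat_lit 76) (nat_lit 0) (XT.lf (nat_lit 0) (nat_lit 3961310513779) (nat_lit 152) (nat_lit 44243103025) (nat_lit 0) (nat_lit 3503465408753) (nat_lit 5) (nat_lit 5) (nat_lit 7) (nat_lit 4) (nat_lit 5) (nat_lit 4) (nat_lit 405) (nat_lit 371) (nat_lit 244)) (XT.nd (nat_lit 78) (nat_lit 0) (nat_lit 0) (XT.lf (nat_lit 0) (nat_lit 2522036766742) (nat_lit 76) (nat_lit 3193392869061) (nat_lit 76) (nat_lit 2735547762867) (nat_lit 4) (nat_lit 4) (nat_lit 5) (nat_lit 5) (nat_lit 5) (nat_lit 4) (nat_lit 406) (nat_lit 371) (nat_lit 243)) (XT.lf (nat_lit 0) (nat_lit 5478230926145) (nat_lit 76) (nat_lit 2256748401774) (nat_lit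 76) (nat_lit 1798903294564) (nat_lit 4) (nat_lit 4) (nat_lit 5) (nat_lit 5) (nat_lit 5) (nat_lit 4) (nat_lit 407) (nat_lit 371) (nat_lit 242))))) (XT.nd (nat_lit 234) (nat_lit 0) (nat_lit 0) (XT.nd (nat_lit 78) (nat_lit 152) (nat_lit 0) (XT.lf (nat_lit 0) (nat_lit 8877854198765) (nat_lit 76) (nat_lit 1179607269980) (nat_lit 76) (nat_lit 721762161887) (nat_lit 4) (nat_lit 4) (nat_lit 5) (nat_lit 5) (nat_lit 5) (nat_lit 4) (nat_lit 408) (nat_lit 371) (nat_lit 241)) (XT.nd (nat_lit 78) (nat_lit 0) (nat_lit 0) (XT.lf (nat_lit 0) (nat_lit 500806271066) (nat_lit 152) (nat_lit 11600186768052) (nat_lit 0) (nat_lit 102680089447) (nat_lit 2) (nat_lit 5) (nat_lit 4) (nat_lit 4) (nat_lit 2) (nat_lit 4) (nat_lit 409) (nat_lit 371) (nat_lit 240)) (XT.lf (nat_lit 0) (nat_lit 1993159653310) (nat_lit 152) (nat_lit 10224397325473) (nat_lit 0) (nat_lit 1595033471111) (nat_lit 2) (nat_lit 5) (nat_lit 4)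 (nat_lit 4) (nat_lit 2) (nat_lit 4) (nat_lit 410) (nat_lit 371) (nat_lit 239)))) (XT.nd (nat_lit 78) (nat_lit 0) (nat_lit 0) (XT.lf (nat_lit 0) (nat_lit 3709366038863) (nat_lit 152) (nat_lit 8642239475006) (nat_lit 0) (nat_lit 3311239856158) (nat_lit 2) (nat_lit 5) (nat_lit 4) (nat_lit 4) (nat_lit 2) (nat_lit 4) (nat_lit 411) (nat_lit 371) (nat_lit 238)) (XT.nd (nat_lit 78) (nat_lit 0) (nat_lit 0) (XT.lf (nat_lit 0) (nat_lit 5683003378746) (nat_lit 152) (nat_lit 6822757954357) (nat_lit 0) (nat_lit 5284877195603) (nat_lit 2) (nat_lit 5) (nat_lit 4) (nat_lit 4) (nat_lit 2) (nat_lit 4) (nat_lit 412) (nat_lit 371) (nat_lit 237)) (XT.lf (nat_lit 0) (nat_lit 7952686316566) (nat_lit 152) (nat_lit 4730354212036) (nat_lit 0) (nat_lit 7554560133041) (nat_lit 2) (nat_lit 5) (nat_lit 4) (nat_lit 4) (nat_lit 2) (nat_lit 4) (nat_lit 413) (nat_lit 371) (nat_lit 236)))))) (XT.nd (nat_lit 468) (nat_lit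 0) (nat_lit 0) (XT.nd (nat_lit 234) (nat_lit 0) (nat_lit 0) (XT.nd (nat_lit 78) (nat_lit 76) (nat_lit 0) (XT.lf (nat_lit 0) (nat_lit 10562821692410) (nat_lit 152) (nat_lit 2324089913954) (nat_lit 0) (nat_lit 10164695508553) (nat_lit 2) (nat_lit 5) (nat_lit 4) (nat_lit 4) (nat_lit 2) (nat_lit 4) (nat_lit 414) (nat_lit 371) (nat_lit 235)) (XT.nd (nat_lit 78) (nat_lit 0) (nat_lit 0) (XT.lf (nat_lit 0) (nat_lit 486418349051) (nat_lit 76) (nat_lit 13098200569821) (nat_lit 76) (nat_lit 12700074385675) (nat_lit 1) (nat_lit 4) (nat_lit 2) (nat_lit 5) (nat_lit 2) (nat_lit 4) (nat_lit 415) (nat_lit 371) (nat_lit 234)) (XT.lf (nat_lit 0) (nat_lit 3979698861064) (nat_lit 76) (nat_lit 13201473384275) (nat_lit 76) (nat_lit 12803347199878) (nat_lit 1) (nat_lit 4) (nat_lit 2) (nat_lit 5) (nat_lit 2) (nat_lit 4) (nat_lit 416) (nat_lit 371) (nat_lit 233)))) (XT.nd (nat_lit 78) (nat_lit 0) (nat_lit 0) (XT.lf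 (nat_lit 0) (nat_lit 7996971445847) (nat_lit 76) (nat_lit 13320237123022) (nat_lit 76) (nat_lit 12922110938406) (nat_lit 1) (nat_lit 4) (nat_lit 2) (nat_lit 5) (nat_lit 2) (nat_lit 4) (nat_lit 417) (nat_lit 371) (nat_lit 232)) (XT.nd (nat_lit 78) (nat_lit 0) (nat_lit 0) (XT.lf (nat_lit 0) (nat_lit 12616834914840) (nat_lit 76) (nat_lit 13456815424427) (nat_lit 76) (nat_lit 13058689239622) (nat_lit 1) (nat_lit 4) (nat_lit 2) (nat_lit 5) (nat_lit 2) (nat_lit 4) (nat_lit 418) (nat_lit 371) (nat_lit 231)) (XT.lf (nat_lit 0) (nat_lit 17929677901133) (nat_lit 76) (nat_lit 13613880472650) (nat_lit 76) (nat_lit 13215754287679) (nat_lit 1) (nat_lit 4) (nat_lit 2) (nat_lit 5) (nat_lit 2) (nat_lit 4) (nat_lit 419) (nat_lit 371) (nat_lit 230))))) (XT.nd (nat_lit 546) (nat_lit 0) (nat_lit 0) (XT.nd (nat_lit 78) (nat_lit 0) (nat_lit 0) (XT.lf (nat_lit 0) (nat_lit 24039447332718) (nat_lit 76) (nat_lit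 13794505279502) (nat_lit 76) (nat_lit 13396379094388) (nat_lit 1) (nat_lit 4) (nat_lit 2) (nat_lit 5) (nat_lit 2) (nat_lit 4) (nat_lit 420) (nat_lit 371) (nat_lit 229)) (XT.nd (nat_lit 390) (nat_lit 0) (nat_lit 0) (XT.lf (nat_lit 0) (nat_lit 31065682176735) (nat_lit 76) (nat_lit 14002223808598) (nat_lit 76) (nat_lit 13604097623359) (nat_lit 1) (nat_lit 4) (nat_lit 2) (nat_lit 5) (nat_lit 2) (nat_lit 4) (nat_lit 421) (nat_lit 371) (nat_lit 228)) (XT.lf (nat_lit 0) (nat_lit 85545269326223) (nat_lit 76) (nat_lit 15612818968401) (nat_lit 76) (nat_lit 15214692782744) (nat_lit 1) (nat_lit 4) (nat_lit 2) (nat_lit 5) (nat_lit 2) (nat_lit 4) (nat_lit 426) (nat_lit 371) (nat_lit 223)))) (XT.nd (nat_lit 78) (nat_lit 0) (nat_lit 0) (XT.lf (nat_lit 0) (nat_lit 101797377460540) (nat_lit 76) (nat_lit 16093284555428) (nat_lit 76) (nat_lit 15695158369717) (nat_lit 1) (nat_lit 4) (nat_lit 2) (nat_lit 5)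 (nat_lit 2) (nat_lit 4) (nat_lit 427) (nat_lit 371) (nat_lit 222)) (XT.nd (nat_lit 78) (nat_lit 0) (nat_lit 0) (XT.lf (nat_lit 0) (nat_lit 120487301814138) (nat_lit 76) (nat_lit 16645819980965) (nat_lit 76) (nat_lit 16247693795207) (nat_lit 1) (nat_lit 4) (nat_lit 2) (nat_lit 5) (nat_lit 2) (nat_lit 4) (nat_lit 428) (nat_lit 371) (nat_lit 221)) (XT.lf (nat_lit 0) (nat_lit 141980714820021) (nat_lit 76) (nat_lit 17281235720730) (nat_lit 76) (nat_lit 16883109534932) (nat_lit 1) (nat_lit 4) (nat_lit 2) (nat_lit 5) (nat_lit 2) (nat_lit 4) (nat_lit 429) (nat_lit 371) (nat_lit 220))))))) (XT.nd (nat_lit 49140) (nat_lit 0) (nat_lit 1064) (XT.nd (nat_lit 48672) (nat_lit 0) (nat_lit 1976) (XT.nd (nat_lit 156) (nat_lit 0) (nat_lit 0) (XT.nd (nat_lit 78) (nat_lit 0) (nat_lit 0) (XT.lf (nat_lit 0) (nat_lit 166698139776132) (nat_lit 76) (nat_lit 18011963821806) (nat_lit 76) (nat_lit 17613837635971)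 (nat_lit 1) (nat_lit 4) (nat_lit 2) (nat_lit 5) (nat_lit 2) (nat_lit 4) (nat_lit 430) (nat_lit 371) (nat_lit 219)) (XT.lf (nat_lit 0) (nat_lit 195123178475089) (nat_lit 76) (nat_lit 18852301138342) (nat_lit 76) (nat_lit 18454174952477) (nat_lit 1) (nat_lit 4) (nat_lit 2) (nat_lit 5) (nat_lit 2) (nat_lit 4) (nat_lit 431) (nat_lit 371) (nat_lit 218))) (XT.nd (nat_lit 546) (nat_lit 0) (nat_lit 0) (XT.lf (nat_lit 0) (nat_lit 227811972978395) (nat_lit 76) (nat_lit 19818689052620) (nat_lit 76) (nat_lit 19420562866728) (nat_lit 1) (nat_lit 4) (nat_lit 2) (nat_lit 5) (nat_lit 2) (nat_lit 4) (nat_lit 432) (nat_lit 371) (nat_lit 217)) (XT.nd (nat_lit 47892) (nat_lit 0) (nat_lit 2128) (XT.lf (nat_lit 0) (nat_lit 643836346669571) (nat_lit 76) (nat_lit 32117733209143) (nat_lit 76) (nat_lit 31719607023138) (nat_lit 1) (nat_lit 4) (nat_lit 2) (nat_lit 5) (nat_lit 2) (nat_lit 4) (nat_lit 439) (nat_lit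 371) (nat_lit 210)) (XT.lf (nat_lit 0) (nat_lit 46251289436) (nat_lit 380) (nat_lit 65673609759) (nat_lit 380) (nat_lit 65673609759) (nat_lit 29) (nat_lit 3) (nat_lit 34) (nat_lit 3) (nat_lit 34) (nat_lit 5) (nat_lit 372) (nat_lit 372) (nat_lit 276))))) (XT.nd (nat_lit 234) (nat_lit 152) (nat_lit 0) (XT.nd (nat_lit 78) (nat_lit 0) (nat_lit 76) (XT.lf (nat_lit 76) (nat_lit 46676411334) (nat_lit 0) (nat_lit 54697109735) (nat_lit 380) (nat_lit 280173285302) (nat_lit 30) (nat_lit 5) (nat_lit 29) (nat_lit 3) (nat_lit 34) (nat_lit 5) (nat_lit 373) (nat_lit 372) (nat_lit 275)) (XT.nd (nat_lit 78) (nat_lit 0) (nat_lit 0) (XT.lf (nat_lit 0) (nat_lit 124557841815) (nat_lit 304) (nat_lit 150770972491) (nat_lit 380) (nat_lit 134572838311) (nat_lit 30) (nat_lit 5) (nat_lit 34) (nat_lit 5) (nat_lit 35) (nat_lit 5) (nat_lit 374) (nat_lit 372) (nat_lit 274)) (XT.lf (nat_lit 76) (nat_lit 64039959759)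 (nat_lit 0) (nat_lit 92436158598) (nat_lit 380) (nat_lit 285245161377) (nat_lit 31) (nat_lit 5) (nat_lit 30) (nat_lit 5) (nat_lit 35) (nat_lit 5) (nat_lit 375) (nat_lit 372) (nat_lit 273)))) (XT.nd (nat_lit 78) (nat_lit 304) (nat_lit 0) (XT.lf (nat_lit 0) (nat_lit 206320164976) (nat_lit 304) (nat_lit 154371489208) (nat_lit 76) (nat_lit 115651492522) (nat_lit 31) (nat_lit 5) (nat_lit 35) (nat_lit 5) (nat_lit 32) (nat_lit 5) (nat_lit 376) (nat_lit 372) (nat_lit 272)) (XT.nd (nat_lit 78) (nat_lit 0) (nat_lit 0) (XT.lf (nat_lit 0) (nat_lit 107613536964) (nat_lit 304) (nat_lit 164884992352) (nat_lit 380) (nat_lit 242331107866) (nat_lit 27) (nat_lit 5) (nat_lit 31) (nat_lit 5) (nat_lit 32) (nat_lit 5) (nat_lit 377) (nat_lit 372) (nat_lit 271)) (XT.lf (nat_lit 0) (nat_lit 359553862897) (nat_lit 380) (nat_lit 134514033707) (nat_lit 76) (nat_lit 63378672495) (nat_lit 27) (nat_lit 5) (nat_lit 32)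 (nat_lit 5) (nat_lit 28) (nat_lit 5) (nat_lit 378) (nat_lit 372) (nat_lit 270)))))) (XT.nd (nat_lit 468) (nat_lit 380) (nat_lit 0) (XT.nd (nat_lit 234) (nat_lit 228) (nat_lit 0) (XT.nd (nat_lit 78) (nat_lit 152) (nat_lit 0) (XT.lf (nat_lit 0) (nat_lit 187976597600) (nat_lit 152) (nat_lit 287326229140) (nat_lit 228) (nat_lit 128807914578) (nat_lit 25) (nat_lit 5) (nat_lit 27) (nat_lit 5) (nat_lit 28) (nat_lit 5) (nat_lit 379) (nat_lit 372) (nat_lit 269)) (XT.nd (nat_lit 78) (nat_lit 152) (nat_lit 0) (XT.lf (nat_lit 0) (nat_lit 573958313754) (nat_lit 152) (nat_lit 41487194507) (nat_lit 228) (nat_lit 41274325189) (nat_lit 25) (nat_lit 5) (nat_lit 27) (nat_lit 5) (nat_lit 28) (nat_lit 5) (nat_lit 380) (nat_lit 372) (nat_lit 268)) (XT.lf (nat_lit 0) (nat_lit 78405834381) (nat_lit 152) (nat_lit 398273806045) (nat_lit 76) (nat_lit 236526204626) (nat_lit 23) (nat_lit 5) (nat_lit 25) (nat_lit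 5) (nat_lit 24) (nat_lit 5) (nat_lit 381) (nat_lit 372) (nat_lit 267)))) (XT.nd (nat_lit 78) (nat_lit 228) (nat_lit 0) (XT.lf (nat_lit 0) (nat_lit 218320036309) (nat_lit 152) (nat_lit 82020376) (nat_lit 76) (nat_lit 558491726659) (nat_lit 23) (nat_lit 5) (nat_lit 25) (nat_lit 5) (nat_lit 24) (nat_lit 5) (nat_lit 382) (nat_lit 372) (nat_lit 266)) (XT.nd (nat_lit 78) (nat_lit 76) (nat_lit 0) (XT.lf (nat_lit 0) (nat_lit 404278538499) (nat_lit 228) (nat_lit 348677857709) (nat_lit 76) (nat_lit 93419940700) (nat_lit 21) (nat_lit 5) (nat_lit 24) (nat_lit 5) (nat_lit 22) (nat_lit 4) (nat_lit 383) (nat_lit 372) (nat_lit 265)) (XT.lf (nat_lit 0) (nat_lit 146518370412) (nat_lit 76) (nat_lit 488084018773) (nat_lit 152) (nat_lit 289208148367) (nat_lit 20) (nat_lit 5) (nat_lit 21) (nat_lit 5) (nat_lit 22) (nat_lit 4) (nat_lit 384) (nat_lit 372) (nat_lit 264))))) (XT.nd (nat_lit 234) (nat_lit 228) (nat_lit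 0) (XT.nd (nat_lit 78) (nat_lit 152) (nat_lit 0) (XT.lf (nat_lit 0) (nat_lit 755180624109) (nat_lit 76) (nat_lit 162520508294) (nat_lit 152) (nat_lit 92424788671) (nat_lit 20) (nat_lit 5) (nat_lit 21) (nat_lit 5) (nat_lit 22) (nat_lit 4) (nat_lit 385) (nat_lit 372) (nat_lit 263)) (XT.nd (nat_lit 78) (nat_lit 0) (nat_lit 0) (XT.lf (nat_lit 0) (nat_lit 147195327110) (nat_lit 152) (nat_lit 742553393678) (nat_lit 76) (nat_lit 215022689020) (nat_lit 18) (nat_lit 5) (nat_lit 20) (nat_lit 5) (nat_lit 19) (nat_lit 4) (nat_lit 386) (nat_lit 372) (nat_lit 262)) (XT.lf (nat_lit 0) (nat_lit 434996260040) (nat_lit 152) (nat_lit 123781416955) (nat_lit 76) (nat_lit 650920817157) (nat_lit 18) (nat_lit 5) (nat_lit 20) (nat_lit 5) (nat_lit 19) (nat_lit 4) (nat_lit 387) (nat_lit 372) (nat_lit 261)))) (XT.nd (nat_lit 78) (nat_lit 152) (nat_lit 0) (XT.lf (nat_lit 0) (nat_lit 645251027595) (nat_lit 76) (nat_lit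 147434753298) (nat_lit 152) (nat_lit 533671093069) (nat_lit 17) (nat_lit 5) (nat_lit 18) (nat_lit 5) (nat_lit 19) (nat_lit 4) (nat_lit 388) (nat_lit 372) (nat_lit 260)) (XT.nd (nat_lit 78) (nat_lit 76) (nat_lit 0) (XT.lf (nat_lit 0) (nat_lit 77077226741) (nat_lit 76) (nat_lit 1150404391998) (nat_lit 76) (nat_lit 229514458683) (nat_lit 16) (nat_lit 4) (nat_lit 17) (nat_lit 5) (nat_lit 17) (nat_lit 4) (nat_lit 389) (nat_lit 372) (nat_lit 259)) (XT.lf (nat_lit 0) (nat_lit 153878125030) (nat_lit 152) (nat_lit 590051981123) (nat_lit 76) (nat_lit 855906163134) (nat_lit 15) (nat_lit 5) (nat_lit 17) (nat_lit 5) (nat_lit 16) (nat_lit 4) (nat_lit 390) (nat_lit 372) (nat_lit 258))))))))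
noncomputable def xc100 : XT := (XT.nd (nat_lit 1716) (nat_lit 76) (nat_lit 0) (XT.nd (nat_lit 858) (nat_lit 380) (nat_lit 0) (XT.nd (nat_lit 390) (nat_lit 304) (nat_lit 0) (XT.nd (nat_lit 156) (nat_lit 228) (nat_lit 0) (XT.nd (nat_lit 78) (nat_lit 0) (nat_lit 0) (XT.lf (nat_lit 0) (nat_lit 337403630192) (nat_lit 76) (nat_lit 247849204499) (nat_lit 152) (nat_lit 1175114594169) (nat_lit 14) (nat_lit 5) (nat_lit 15) (nat_lit 5) (nat_lit 16) (nat_lit 4) (nat_lit 391) (nat_lit 372) (nat_lit 257)) (XT.lf (nat_lit 0) (nat_lit 1127006097063) (nat_lit 152) (nat_lit 484889109323) (nat_lit 0) (nat_lit 326232204049) (nat_lit 14) (nat_lit 5) (nat_lit 16) (nat_lit 4) (nat_lit 14) (nat_lit 4) (nat_lit 392) (nat_lit 372) (nat_lit 256))) (XT.nd (nat_lit 78) (nat_lit 152) (nat_lit 0) (XT.lf (nat_lit 0) (nat_lit 638980910548) (nat_lit 76) (nat_lit 1149302603236) (nat_lit 76) (nat_lit 348528700717) (nat_lit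 13) (nat_lit 4) (nat_lit 14) (nat_lit 5) (nat_lit 14) (nat_lit 4) (nat_lit 393) (nat_lit 372) (nat_lit 255)) (XT.nd (nat_lit 78) (nat_lit 76) (nat_lit 0) (XT.lf (nat_lit 0) (nat_lit 193674003037) (nat_lit 152) (nat_lit 384374804252) (nat_lit 76) (nat_lit 1782128458024) (nat_lit 12) (nat_lit 5) (nat_lit 14) (nat_lit 5) (nat_lit 13) (nat_lit 4) (nat_lit 394) (nat_lit 372) (nat_lit 254)) (XT.lf (nat_lit 0) (nat_lit 827462627402) (nat_lit 152) (nat_lit 1649066741985) (nat_lit 0) (nat_lit 131137481340) (nat_lit 11) (nat_lit 5) (nat_lit 13) (nat_lit 4) (nat_lit 11) (nat_lit 4) (nat_lit 395) (nat_lit 372) (nat_lit 253))))) (XT.nd (nat_lit 234) (nat_lit 152) (nat_lit 0) (XT.nd (nat_lit 78) (nat_lit 152) (nat_lit 0) (XT.lf (nat_lit 0) (nat_lit 1604894762810) (nat_lit 152) (nat_lit 371529217223) (nat_lit 0) (nat_lit 908569611314) (nat_lit 11) (nat_lit 5) (nat_lit 13) (nat_lit 4) (nat_lit 11) (nat_lit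 4) (nat_lit 396) (nat_lit 372) (nat_lit 252)) (XT.nd (nat_lit 78) (nat_lit 76) (nat_lit 0) (XT.lf (nat_lit 0) (nat_lit 1204908171507) (nat_lit 76) (nat_lit 1343926213875) (nat_lit 76) (nat_lit 647601057652) (nat_lit 10) (nat_lit 4) (nat_lit 11) (nat_lit 5) (nat_lit 11) (nat_lit 4) (nat_lit 397) (nat_lit 372) (nat_lit 251)) (XT.lf (nat_lit 0) (nat_lit 93015215704) (nat_lit 152) (nat_lit 496342446567) (nat_lit 76) (nat_lit 2961688590310) (nat_lit 9) (nat_lit 5) (nat_lit 11) (nat_lit 5) (nat_lit 10) (nat_lit 4) (nat_lit 398) (nat_lit 372) (nat_lit 250)))) (XT.nd (nat_lit 78) (nat_lit 76) (nat_lit 0) (XT.lf (nat_lit 0) (nat_lit 948193512317) (nat_lit 152) (nat_lit 2652870340318) (nat_lit 0) (nat_lit 342693369791) (nat_lit 8) (nat_lit 5) (nat_lit 10) (nat_lit 4) (nat_lit 8) (nat_lit 4) (nat_lit 399) (nat_lit 372) (nat_lit 249)) (XT.nd (nat_lit 78) (nat_lit 76) (nat_lit 0) (XT.lf (nat_lit 0)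 (nat_lit 1986893852324) (nat_lit 152) (nat_lit 1018800483496) (nat_lit 0) (nat_lit 1381393707096) (nat_lit 8) (nat_lit 5) (nat_lit 10) (nat_lit 4) (nat_lit 8) (nat_lit 4) (nat_lit 400) (nat_lit 372) (nat_lit 248)) (XT.lf (nat_lit 0) (nat_lit 944462409671) (nat_lit 76) (nat_lit 2276044999737) (nat_lit 76) (nat_lit 1670544852159) (nat_lit 7) (nat_lit 4) (nat_lit 8) (nat_lit 5) (nat_lit 8) (nat_lit 4) (nat_lit 401) (nat_lit 372) (nat_lit 247)))))) (XT.nd (nat_lit 390) (nat_lit 228) (nat_lit 0) (XT.nd (nat_lit 156) (nat_lit 76) (nat_lit 0) (XT.nd (nat_lit 78) (nat_lit 76) (nat_lit 0) (XT.lf (nat_lit 0) (nat_lit 3316714002244) (nat_lit 76) (nat_lit 1375704469798) (nat_lit 76) (nat_lit 770204320177) (nat_lit 7) (nat_lit 4) (nat_lit 8) (nat_lit 5) (nat_lit 8) (nat_lit 4) (nat_lit 402) (nat_lit 372) (nat_lit 246)) (XT.lf (nat_lit 0) (nat_lit 241578477966) (nat_lit 152) (nat_lit 86106423769) (nat_lit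 76) (nat_lit 5790596875771) (nat_lit 6) (nat_lit 5) (nat_lit 8) (nat_lit 5) (nat_lit 7) (nat_lit 4) (nat_lit 403) (nat_lit 372) (nat_lit 245))) (XT.nd (nat_lit 78) (nat_lit 0) (nat_lit 0) (XT.lf (nat_lit 0) (nat_lit 1471309792752) (nat_lit 152) (nat_lit 4428935135463) (nat_lit 0) (nat_lit 944787920629) (nat_lit 5) (nat_lit 5) (nat_lit 7) (nat_lit 4) (nat_lit 5) (nat_lit 4) (nat_lit 404) (nat_lit 372) (nat_lit 244)) (XT.nd (nat_lit 78) (nat_lit 0) (nat_lit 0) (XT.lf (nat_lit 0) (nat_lit 2905820193307) (nat_lit 152) (nat_lit 2392630159278) (nat_lit 0) (nat_lit 2379298320015) (nat_lit 5) (nat_lit 5) (nat_lit 7) (nat_lit 4) (nat_lit 5) (nat_lit 4) (nat_lit 405) (nat_lit 372) (nat_lit 243)) (XT.lf (nat_lit 0) (nat_lit 4555507148583) (nat_lit 152) (nat_lit 50879447867) (nat_lit 0) (nat_lit 4028985274276) (nat_lit 5) (nat_lit 5) (nat_lit 7) (nat_lit 4) (nat_lit 5) (nat_lit 4) (nat_lit 406) (nat_lit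 372) (nat_lit 242))))) (XT.nd (nat_lit 234) (nat_lit 152) (nat_lit 0) (XT.nd (nat_lit 78) (nat_lit 0) (nat_lit 0) (XT.lf (nat_lit 0) (nat_lit 2900342396883) (nat_lit 76) (nat_lit 3672401739264) (nat_lit 76) (nat_lit 3145879864073) (nat_lit 4) (nat_lit 4) (nat_lit 5) (nat_lit 5) (nat_lit 5) (nat_lit 4) (nat_lit 407) (nat_lit 372) (nat_lit 241)) (XT.nd (nat_lit 78) (nat_lit 0) (nat_lit 0) (XT.lf (nat_lit 0) (nat_lit 6299965665179) (nat_lit 76) (nat_lit 2595260609730) (nat_lit 76) (nat_lit 2068738733771) (nat_lit 4) (nat_lit 4) (nat_lit 5) (nat_lit 5) (nat_lit 5) (nat_lit 4) (nat_lit 408) (nat_lit 372) (nat_lit 240)) (XT.lf (nat_lit 0) (nat_lit 10209532415634) (nat_lit 76) (nat_lit 1356548314990) (nat_lit 76) (nat_lit 830026438364) (nat_lit 4) (nat_lit 4) (nat_lit 5) (nat_lit 5) (nat_lit 5) (nat_lit 4) (nat_lit 409) (nat_lit 372) (nat_lit 239)))) (XT.nd (nat_lit 78) (nat_lit 0) (nat_lit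 0) (XT.lf (nat_lit 0) (nat_lit 575927255096) (nat_lit 152) (nat_lit 13340214691764) (nat_lit 0) (nat_lit 118082144482) (nat_lit 2) (nat_lit 5) (nat_lit 4) (nat_lit 4) (nat_lit 2) (nat_lit 4) (nat_lit 410) (nat_lit 372) (nat_lit 238)) (XT.nd (nat_lit 78) (nat_lit 0) (nat_lit 0) (XT.lf (nat_lit 0) (nat_lit 2292133639020) (nat_lit 152) (nat_lit 11758056844733) (nat_lit 0) (nat_lit 1834288527966) (nat_lit 2) (nat_lit 5) (nat_lit 4) (nat_lit 4) (nat_lit 2) (nat_lit 4) (nat_lit 411) (nat_lit 372) (nat_lit 237)) (XT.lf (nat_lit 0) (nat_lit 4265770977487) (nat_lit 152) (nat_lit 9938575327073) (nat_lit 0) (nat_lit 3807925866051) (nat_lit 2) (nat_lit 5) (nat_lit 4) (nat_lit 4) (nat_lit 2) (nat_lit 4) (nat_lit 412) (nat_lit 372) (nat_lit 236))))))) (XT.nd (nat_lit 1248) (nat_lit 0) (nat_lit 0) (XT.nd (nat_lit 390) (nat_lit 0) (nat_lit 0) (XT.nd (nat_lit 156) (nat_lit 76) (nat_lit 0) (XT.nd (nat_lit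 78) (nat_lit 0) (nat_lit 0) (XT.lf (nat_lit 0) (nat_lit 6535453914075) (nat_lit 152) (nat_lit 7846171587350) (nat_lit 0) (nat_lit 6077608802307) (nat_lit 2) (nat_lit 5) (nat_lit 4) (nat_lit 4) (nat_lit 2) (nat_lit 4) (nat_lit 413) (nat_lit 372) (nat_lit 235)) (XT.lf (nat_lit 0) (nat_lit 9145589288848) (nat_lit 152) (nat_lit 5439907291528) (nat_lit 0) (nat_lit 8687744176791) (nat_lit 2) (nat_lit 5) (nat_lit 4) (nat_lit 4) (nat_lit 2) (nat_lit 4) (nat_lit 414) (nat_lit 372) (nat_lit 234))) (XT.nd (nat_lit 78) (nat_lit 76) (nat_lit 0) (XT.lf (nat_lit 0) (nat_lit 12147244967835) (nat_lit 152) (nat_lit 2672703355558) (nat_lit 0) (nat_lit 11689399855527) (nat_lit 2) (nat_lit 5) (nat_lit 4) (nat_lit 4) (nat_lit 2) (nat_lit 4) (nat_lit 415) (nat_lit 372) (nat_lit 233)) (XT.nd (nat_lit 78) (nat_lit 0) (nat_lit 0) (XT.lf (nat_lit 0) (nat_lit 559381144831) (nat_lit 76) (nat_lit 15062930632421) (nat_lit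 76) (nat_lit 14605085519895) (nat_lit 1) (nat_lit 4) (nat_lit 2) (nat_lit 5) (nat_lit 2) (nat_lit 4) (nat_lit 416) (nat_lit 372) (nat_lit 232)) (XT.lf (nat_lit 0) (nat_lit 4576653727982) (nat_lit 76) (nat_lit 15181694372027) (nat_lit 76) (nat_lit 14723849259311) (nat_lit 1) (nat_lit 4) (nat_lit 2) (nat_lit 5) (nat_lit 2) (nat_lit 4) (nat_lit 417) (nat_lit 372) (nat_lit 231))))) (XT.nd (nat_lit 624) (nat_lit 0) (nat_lit 0) (XT.nd (nat_lit 78) (nat_lit 0) (nat_lit 0) (XT.lf (nat_lit 0) (nat_lit 9196517195557) (nat_lit 76) (nat_lit 15318272674179) (nat_lit 76) (nat_lit 14860427561298) (nat_lit 1) (nat_lit 4) (nat_lit 2) (nat_lit 5) (nat_lit 2) (nat_lit 4) (nat_lit 418) (nat_lit 372) (nat_lit 230)) (XT.nd (nat_lit 78) (nat_lit 0) (nat_lit 0) (XT.lf (nat_lit 0) (nat_lit 14509360180617) (nat_lit 76) (nat_lit 15475337723051) (nat_lit 76) (nat_lit 15017492610027) (nat_lit 1) (nat_lit 4) (nat_lit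 2) (nat_lit 5) (nat_lit 2) (nat_lit 4) (nat_lit 419) (nat_lit 372) (nat_lit 229)) (XT.lf (nat_lit 0) (nat_lit 20619129611129) (nat_lit 76) (nat_lit 15655962530469) (nat_lit 76) (nat_lit 15198117417320) (nat_lit 1) (nat_lit 4) (nat_lit 2) (nat_lit 5) (nat_lit 2) (nat_lit 4) (nat_lit 420) (nat_lit 372) (nat_lit 228)))) (XT.nd (nat_lit 78) (nat_lit 0) (nat_lit 0) (XT.lf (nat_lit 0) (nat_lit 82124951600576) (nat_lit 76) (nat_lit 17474276221506) (nat_lit 76) (nat_lit 17016431107884) (nat_lit 1) (nat_lit 4) (nat_lit 2) (nat_lit 5) (nat_lit 2) (nat_lit 4) (nat_lit 426) (nat_lit 372) (nat_lit 222)) (XT.nd (nat_lit 78) (nat_lit 0) (nat_lit 0) (XT.lf (nat_lit 0) (nat_lit 98377059734490) (nat_lit 76) (nat_lit 17954741808745) (nat_lit 76) (nat_lit 17496896695076) (nat_lit 1) (nat_lit 4) (nat_lit 2) (nat_lit 5) (nat_lit 2) (nat_lit 4) (nat_lit 427) (nat_lit 372) (nat_lit 221)) (XT.lf (nat_lit 0) (nat_lit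 117066984087737) (nat_lit 76) (nat_lit 18507277234467) (nat_lit 76) (nat_lit 18049432120757) (nat_lit 1) (nat_lit 4) (nat_lit 2) (nat_lit 5) (nat_lit 2) (nat_lit 4) (nat_lit 428) (nat_lit 372) (nat_lit 220)))))) (XT.nd (nat_lit 48750) (nat_lit 0) (nat_lit 1976) (XT.nd (nat_lit 234) (nat_lit 0) (nat_lit 0) (XT.nd (nat_lit 78) (nat_lit 0) (nat_lit 0) (XT.lf (nat_lit 0) (nat_lit 138560397093316) (nat_lit 76) (nat_lit 19142692974393) (nat_lit 76) (nat_lit 18684847860648) (nat_lit 1) (nat_lit 4) (nat_lit 2) (nat_lit 5) (nat_lit 2) (nat_lit 4) (nat_lit 429) (nat_lit 372) (nat_lit 219)) (XT.nd (nat_lit 78) (nat_lit 0) (nat_lit 0) (XT.lf (nat_lit 0) (nat_lit 163277822049161) (nat_lit 76) (nat_lit 19873421075607) (nat_lit 76) (nat_lit 19415575961831) (nat_lit 1) (nat_lit 4) (nat_lit 2) (nat_lit 5) (nat_lit 2) (nat_lit 4) (nat_lit 430) (nat_lit 372) (nat_lit 218)) (XT.lf (nat_lit 0) (nat_lit 191702860747888)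 (nat_lit 76) (nat_lit 20713758392265) (nat_lit 76) (nat_lit 20255913278463) (nat_lit 1) (nat_lit 4) (nat_lit 2) (nat_lit 5) (nat_lit 2) (nat_lit 4) (nat_lit 431) (nat_lit 372) (nat_lit 217)))) (XT.nd (nat_lit 468) (nat_lit 0) (nat_lit 0) (XT.lf (nat_lit 0) (nat_lit 224391655250993) (nat_lit 76) (nat_lit 21680146306649) (nat_lit 76) (nat_lit 21222301192823) (nat_lit 1) (nat_lit 4) (nat_lit 2) (nat_lit 5) (nat_lit 2) (nat_lit 4) (nat_lit 432) (nat_lit 372) (nat_lit 216)) (XT.nd (nat_lit 78) (nat_lit 0) (nat_lit 0) (XT.lf (nat_lit 0) (nat_lit 553463185697571) (nat_lit 76) (nat_lit 31408579397498) (nat_lit 76) (nat_lit 30950734283583) (nat_lit 1) (nat_lit 4) (nat_lit 2) (nat_lit 5) (nat_lit 2) (nat_lit 4) (nat_lit 438) (nat_lit 372) (nat_lit 210)) (XT.lf (nat_lit 0) (nat_lit 640416028941335) (nat_lit 76) (nat_lit 33979190463611) (nat_lit 76) (nat_lit 33521345349688) (nat_lit 1) (nat_lit 4)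 (nat_lit 2) (nat_lit 5) (nat_lit 2) (nat_lit 4) (nat_lit 439) (nat_lit 372) (nat_lit 209))))) (XT.nd (nat_lit 234) (nat_lit 152) (nat_lit 0) (XT.nd (nat_lit 78) (nat_lit 0) (nat_lit 0) (XT.lf (nat_lit 0) (nat_lit 53189441178) (nat_lit 380) (nat_lit 75524387414) (nat_lit 380) (nat_lit 75524387414) (nat_lit 29) (nat_lit 3) (nat_lit 34) (nat_lit 3) (nat_lit 34) (nat_lit 5) (nat_lit 373) (nat_lit 373) (nat_lit 274)) (XT.nd (nat_lit 78) (nat_lit 0) (nat_lit 76) (XT.lf (nat_lit 76) (nat_lit 53678376671) (nat_lit 0) (nat_lit 62901990502) (nat_lit 380) (nat_lit 322198336516) (nat_lit 30) (nat_lit 5) (nat_lit 29) (nat_lit 3) (nat_lit 34) (nat_lit 5) (nat_lit 374) (nat_lit 373) (nat_lit 273)) (XT.lf (nat_lit 0) (nat_lit 143242218025) (nat_lit 304) (nat_lit 173386061591) (nat_lit 380) (nat_lit 154758515079) (nat_lit 30) (nat_lit 5) (nat_lit 34) (nat_lit 5) (nat_lit 35) (nat_lit 5) (nat_lit 375)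 (nat_lit 373) (nat_lit 272)))) (XT.nd (nat_lit 78) (nat_lit 228) (nat_lit 0) (XT.lf (nat_lit 76) (nat_lit 73646485189) (nat_lit 0) (nat_lit 106301681571) (nat_lit 380) (nat_lit 328031209621) (nat_lit 31) (nat_lit 5) (nat_lit 30) (nat_lit 5) (nat_lit 35) (nat_lit 5) (nat_lit 376) (nat_lit 373) (nat_lit 271)) (XT.nd (nat_lit 78) (nat_lit 304) (nat_lit 0) (XT.lf (nat_lit 0) (nat_lit 237268734542) (nat_lit 304) (nat_lit 177526663993) (nat_lit 76) (nat_lit 132999137832) (nat_lit 31) (nat_lit 5) (nat_lit 35) (nat_lit 5) (nat_lit 32) (nat_lit 5) (nat_lit 377) (nat_lit 373) (nat_lit 270)) (XT.lf (nat_lit 0) (nat_lit 123756091168) (nat_lit 304) (nat_lit 189617712985) (nat_lit 380) (nat_lit 278680203750) (nat_lit 27) (nat_lit 5) (nat_lit 31) (nat_lit 5) (nat_lit 32) (nat_lit 5) (nat_lit 378) (nat_lit 373) (nat_lit 269))))))))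
noncomputable def xc101 : XT := (XT.nd (nat_lit 1794) (nat_lit 532) (nat_lit 0) (XT.nd (nat_lit 858) (nat_lit 684) (nat_lit 0) (XT.nd (nat_lit 390) (nat_lit 456) (nat_lit 0) (XT.nd (nat_lit 156) (nat_lit 152) (nat_lit 0) (XT.nd (nat_lit 78) (nat_lit 152) (nat_lit 0) (XT.lf (nat_lit 0) (nat_lit 413487374164) (nat_lit 380) (nat_lit 154690619330) (nat_lit 76) (nat_lit 72885495724) (nat_lit 27) (nat_lit 5) (nat_lit 32) (nat_lit 5) (nat_lit 28) (nat_lit 5) (nat_lit 379) (nat_lit 373) (nat_lit 268)) (XT.lf (nat_lit 0) (nat_lit 216173583062) (nat_lit 152) (nat_lit 330425063727) (nat_lit 228) (nat_lit 148128645912) (nat_lit 25) (nat_lit 5) (nat_lit 27) (nat_lit 5) (nat_lit 28) (nat_lit 5) (nat_lit 380) (nat_lit 373) (nat_lit 267))) (XT.nd (nat_lit 78) (nat_lit 152) (nat_lit 0) (XT.lf (nat_lit 0) (nat_lit 660052491967) (nat_lit 152) (nat_lit 47710186914) (nat_lit 228) (nat_lit 47465077574) (nat_lit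 25) (nat_lit 5) (nat_lit 27) (nat_lit 5) (nat_lit 28) (nat_lit 5) (nat_lit 381) (nat_lit 373) (nat_lit 266)) (XT.nd (nat_lit 78) (nat_lit 0) (nat_lit 0) (XT.lf (nat_lit 0) (nat_lit 90167046672) (nat_lit 152) (nat_lit 458014385965) (nat_lit 76) (nat_lit 272005238334) (nat_lit 23) (nat_lit 5) (nat_lit 25) (nat_lit 5) (nat_lit 24) (nat_lit 5) (nat_lit 382) (nat_lit 373) (nat_lit 265)) (XT.lf (nat_lit 0) (nat_lit 251068334915) (nat_lit 152) (nat_lit 93896487) (nat_lit 76) (nat_lit 642265575235) (nat_lit 23) (nat_lit 5) (nat_lit 25) (nat_lit 5) (nat_lit 24) (nat_lit 5) (nat_lit 383) (nat_lit 373) (nat_lit 264))))) (XT.nd (nat_lit 234) (nat_lit 228) (nat_lit 0) (XT.nd (nat_lit 78) (nat_lit 76) (nat_lit 0) (XT.lf (nat_lit 0) (nat_lit 464920596692) (nat_lit 228) (nat_lit 400979093474) (nat_lit 76) (nat_lit 107433055462) (nat_lit 21) (nat_lit 5) (nat_lit 24) (nat_lit 5) (nat_lit 22) (nat_lit 4)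 (nat_lit 384) (nat_lit 373) (nat_lit 263)) (XT.nd (nat_lit 78) (nat_lit 0) (nat_lit 0) (XT.lf (nat_lit 0) (nat_lit 168496548734) (nat_lit 76) (nat_lit 561296457568) (nat_lit 152) (nat_lit 332589072896) (nat_lit 20) (nat_lit 5) (nat_lit 21) (nat_lit 5) (nat_lit 22) (nat_lit 4) (nat_lit 385) (nat_lit 373) (nat_lit 262)) (XT.lf (nat_lit 0) (nat_lit 868458085343) (nat_lit 76) (nat_lit 186898441911) (nat_lit 152) (nat_lit 106288248080) (nat_lit 20) (nat_lit 5) (nat_lit 21) (nat_lit 5) (nat_lit 22) (nat_lit 4) (nat_lit 386) (nat_lit 373) (nat_lit 261)))) (XT.nd (nat_lit 78) (nat_lit 76) (nat_lit 0) (XT.lf (nat_lit 0) (nat_lit 169274853020) (nat_lit 152) (nat_lit 853936002814) (nat_lit 76) (nat_lit 247276231302) (nat_lit 18) (nat_lit 5) (nat_lit 20) (nat_lit 5) (nat_lit 19) (nat_lit 4) (nat_lit 387) (nat_lit 373) (nat_lit 260)) (XT.nd (nat_lit 78) (nat_lit 76) (nat_lit 0) (XT.lf (nat_lit 0)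 (nat_lit 500245896301) (nat_lit 152) (nat_lit 142348281746) (nat_lit 76) (nat_lit 748559060539) (nat_lit 18) (nat_lit 5) (nat_lit 20) (nat_lit 5) (nat_lit 19) (nat_lit 4) (nat_lit 388) (nat_lit 373) (nat_lit 259)) (XT.lf (nat_lit 0) (nat_lit 742039013680) (nat_lit 76) (nat_lit 169549819618) (nat_lit 152) (nat_lit 613721543879) (nat_lit 17) (nat_lit 5) (nat_lit 18) (nat_lit 5) (nat_lit 19) (nat_lit 4) (nat_lit 389) (nat_lit 373) (nat_lit 258)))))) (XT.nd (nat_lit 468) (nat_lit 304) (nat_lit 0) (XT.nd (nat_lit 234) (nat_lit 152) (nat_lit 0) (XT.nd (nat_lit 78) (nat_lit 152) (nat_lit 0) (XT.lf (nat_lit 0) (nat_lit 88639148424) (nat_lit 76) (nat_lit 1322964893495) (nat_lit 76) (nat_lit 263941419984) (nat_lit 16) (nat_lit 4) (nat_lit 17) (nat_lit 5) (nat_lit 17) (nat_lit 4) (nat_lit 390) (nat_lit 373) (nat_lit 257)) (XT.nd (nat_lit 78) (nat_lit 76) (nat_lit 0) (XT.lf (nat_lit 0) (nat_lit 176960008157)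 (nat_lit 152) (nat_lit 678559468543) (nat_lit 76) (nat_lit 984292208268) (nat_lit 15) (nat_lit 5) (nat_lit 17) (nat_lit 5) (nat_lit 16) (nat_lit 4) (nat_lit 391) (nat_lit 373) (nat_lit 256)) (XT.lf (nat_lit 0) (nat_lit 388014470390) (nat_lit 76) (nat_lit 285026444680) (nat_lit 152) (nat_lit 1351381604793) (nat_lit 14) (nat_lit 5) (nat_lit 15) (nat_lit 5) (nat_lit 16) (nat_lit 4) (nat_lit 392) (nat_lit 373) (nat_lit 255)))) (XT.nd (nat_lit 78) (nat_lit 152) (nat_lit 0) (XT.lf (nat_lit 0) (nat_lit 1296057151616) (nat_lit 152) (nat_lit 557622203393) (nat_lit 0) (nat_lit 375167145949) (nat_lit 14) (nat_lit 5) (nat_lit 16) (nat_lit 4) (nat_lit 14) (nat_lit 4) (nat_lit 393) (nat_lit 373) (nat_lit 254)) (XT.nd (nat_lit 78) (nat_lit 76) (nat_lit 0) (XT.lf (nat_lit 0) (nat_lit 734828307081) (nat_lit 76) (nat_lit 1321697866269) (nat_lit 76) (nat_lit 400807853415) (nat_lit 13) (nat_lit 4) (nat_lit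 14) (nat_lit 5) (nat_lit 14) (nat_lit 4) (nat_lit 394) (nat_lit 373) (nat_lit 253)) (XT.lf (nat_lit 0) (nat_lit 222725224225) (nat_lit 152) (nat_lit 442030787019) (nat_lit 76) (nat_lit 2049447825728) (nat_lit 12) (nat_lit 5) (nat_lit 14) (nat_lit 5) (nat_lit 13) (nat_lit 4) (nat_lit 395) (nat_lit 373) (nat_lit 252))))) (XT.nd (nat_lit 234) (nat_lit 152) (nat_lit 0) (XT.nd (nat_lit 78) (nat_lit 76) (nat_lit 0) (XT.lf (nat_lit 0) (nat_lit 951582140564) (nat_lit 152) (nat_lit 1896426513706) (nat_lit 0) (nat_lit 150808206183) (nat_lit 11) (nat_lit 5) (nat_lit 13) (nat_lit 4) (nat_lit 11) (nat_lit 4) (nat_lit 396) (nat_lit 373) (nat_lit 251)) (XT.nd (nat_lit 78) (nat_lit 76) (nat_lit 0) (XT.lf (nat_lit 0) (nat_lit 1845629080755) (nat_lit 152) (nat_lit 427258391479) (nat_lit 0) (nat_lit 1044855142265) (nat_lit 11) (nat_lit 5) (nat_lit 13) (nat_lit 4) (nat_lit 11) (nat_lit 4) (nat_lit 397) (nat_lit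 373) (nat_lit 250)) (XT.lf (nat_lit 0) (nat_lit 1385644596091) (nat_lit 76) (nat_lit 1545515045353) (nat_lit 76) (nat_lit 744741103289) (nat_lit 10) (nat_lit 4) (nat_lit 11) (nat_lit 5) (nat_lit 11) (nat_lit 4) (nat_lit 398) (nat_lit 373) (nat_lit 249)))) (XT.nd (nat_lit 78) (nat_lit 76) (nat_lit 0) (XT.lf (nat_lit 0) (nat_lit 106967587581) (nat_lit 152) (nat_lit 570793631870) (nat_lit 76) (nat_lit 3405941957575) (nat_lit 9) (nat_lit 5) (nat_lit 11) (nat_lit 5) (nat_lit 10) (nat_lit 4) (nat_lit 399) (nat_lit 373) (nat_lit 248)) (XT.nd (nat_lit 78) (nat_lit 0) (nat_lit 0) (XT.lf (nat_lit 0) (nat_lit 1090422627852) (nat_lit 152) (nat_lit 3050800708835) (nat_lit 0) (nat_lit 394097455789) (nat_lit 8) (nat_lit 5) (nat_lit 10) (nat_lit 4) (nat_lit 8) (nat_lit 4) (nat_lit 400) (nat_lit 373) (nat_lit 247)) (XT.lf (nat_lit 0) (nat_lit 2284928007292) (nat_lit 152) (nat_lit 1171620397298) (nat_lit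 0) (nat_lit 1588602833185) (nat_lit 8) (nat_lit 5) (nat_lit 10) (nat_lit 4) (nat_lit 8) (nat_lit 4) (nat_lit 401) (nat_lit 373) (nat_lit 246))))))) (XT.nd (nat_lit 858) (nat_lit 76) (nat_lit 0) (XT.nd (nat_lit 390) (nat_lit 228) (nat_lit 0) (XT.nd (nat_lit 156) (nat_lit 152) (nat_lit 0) (XT.nd (nat_lit 78) (nat_lit 0) (nat_lit 0) (XT.lf (nat_lit 0) (nat_lit 1086131922630) (nat_lit 76) (nat_lit 2617451671523) (nat_lit 76) (nat_lit 1921126495640) (nat_lit 7) (nat_lit 4) (nat_lit 8) (nat_lit 5) (nat_lit 8) (nat_lit 4) (nat_lit 402) (nat_lit 373) (nat_lit 245)) (XT.lf (nat_lit 0) (nat_lit 3814221234326) (nat_lit 76) (nat_lit 1582060072290) (nat_lit 76) (nat_lit 885734894862) (nat_lit 7) (nat_lit 4) (nat_lit 8) (nat_lit 5) (nat_lit 8) (nat_lit 4) (nat_lit 403) (nat_lit 373) (nat_lit 244))) (XT.nd (nat_lit 78) (nat_lit 76) (nat_lit 0) (XT.lf (nat_lit 0) (nat_lit 277815307759) (nat_lit 152)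 (nat_lit 99022267088) (nat_lit 76) (nat_lit 6659186460564) (nat_lit 6) (nat_lit 5) (nat_lit 8) (nat_lit 5) (nat_lit 7) (nat_lit 4) (nat_lit 404) (nat_lit 373) (nat_lit 243)) (XT.nd (nat_lit 78) (nat_lit 0) (nat_lit 0) (XT.lf (nat_lit 0) (nat_lit 1692006319401) (nat_lit 152) (nat_lit 5093275285171) (nat_lit 0) (nat_lit 1086506162932) (nat_lit 5) (nat_lit 5) (nat_lit 7) (nat_lit 4) (nat_lit 5) (nat_lit 4) (nat_lit 405) (nat_lit 373) (nat_lit 242)) (XT.lf (nat_lit 0) (nat_lit 3341693272509) (nat_lit 152) (nat_lit 2751524578290) (nat_lit 0) (nat_lit 2736193115156) (nat_lit 5) (nat_lit 5) (nat_lit 7) (nat_lit 4) (nat_lit 5) (nat_lit 4) (nat_lit 406) (nat_lit 373) (nat_lit 241))))) (XT.nd (nat_lit 234) (nat_lit 152) (nat_lit 0) (XT.nd (nat_lit 78) (nat_lit 76) (nat_lit 0) (XT.lf (nat_lit 0) (nat_lit 5238833264528) (nat_lit 152) (nat_lit 58511273847) (nat_lit 0) (nat_lit 4633333106407) (nat_lit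 5) (nat_lit 5) (nat_lit 7) (nat_lit 4) (nat_lit 5) (nat_lit 4) (nat_lit 407) (nat_lit 373) (nat_lit 240)) (XT.nd (nat_lit 78) (nat_lit 0) (nat_lit 0) (XT.lf (nat_lit 0) (nat_lit 3335393843471) (nat_lit 76) (nat_lit 4223261954666) (nat_lit 76) (nat_lit 3617761795878) (nat_lit 4) (nat_lit 4) (nat_lit 5) (nat_lit 5) (nat_lit 5) (nat_lit 4) (nat_lit 408) (nat_lit 373) (nat_lit 239)) (XT.lf (nat_lit 0) (nat_lit 7244960590656) (nat_lit 76) (nat_lit 2984549661635) (nat_lit 76) (nat_lit 2379049502266) (nat_lit 4) (nat_lit 4) (nat_lit 5) (nat_lit 5) (nat_lit 5) (nat_lit 4) (nat_lit 409) (nat_lit 373) (nat_lit 238)))) (XT.nd (nat_lit 78) (nat_lit 152) (nat_lit 0) (XT.lf (nat_lit 0) (nat_lit 11740962343805) (nat_lit 76) (nat_lit 1560030527844) (nat_lit 76) (nat_lit 954530367970) (nat_lit 4) (nat_lit 4) (nat_lit 5) (nat_lit 5) (nat_lit 5) (nat_lit 4) (nat_lit 410) (nat_lit 373) (nat_lit 237)) (XT.nd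 (nat_lit 78) (nat_lit 0) (nat_lit 0) (XT.lf (nat_lit 0) (nat_lit 662316376155) (nat_lit 152) (nat_lit 15341246826344) (nat_lit 0) (nat_lit 135794497622) (nat_lit 2) (nat_lit 5) (nat_lit 4) (nat_lit 4) (nat_lit 2) (nat_lit 4) (nat_lit 411) (nat_lit 373) (nat_lit 236)) (XT.lf (nat_lit 0) (nat_lit 2635953713390) (nat_lit 152) (nat_lit 13521765311283) (nat_lit 0) (nat_lit 2109431834525) (nat_lit 2) (nat_lit 5) (nat_lit 4) (nat_lit 4) (nat_lit 2) (nat_lit 4) (nat_lit 412) (nat_lit 373) (nat_lit 235)))))) (XT.nd (nat_lit 468) (nat_lit 0) (nat_lit 0) (XT.nd (nat_lit 234) (nat_lit 76) (nat_lit 0) (XT.nd (nat_lit 78) (nat_lit 0) (nat_lit 0) (XT.lf (nat_lit 0) (nat_lit 4905636648907) (nat_lit 152) (nat_lit 11429361573820) (nat_lit 0) (nat_lit 4379114769753) (nat_lit 2) (nat_lit 5) (nat_lit 4) (nat_lit 4) (nat_lit 2) (nat_lit 4) (nat_lit 413) (nat_lit 373) (nat_lit 234)) (XT.nd (nat_lit 78) (nat_lit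 0) (nat_lit 0) (XT.lf (nat_lit 0) (nat_lit 7515772022749) (nat_lit 152) (nat_lit 9023097279963) (nat_lit 0) (nat_lit 6989250143344) (nat_lit 2) (nat_lit 5) (nat_lit 4) (nat_lit 4) (nat_lit 2) (nat_lit 4) (nat_lit 414) (nat_lit 373) (nat_lit 233)) (XT.lf (nat_lit 0) (nat_lit 10517427700926) (nat_lit 152) (nat_lit 6255893345701) (nat_lit 0) (nat_lit 9990905821302) (nat_lit 2) (nat_lit 5) (nat_lit 4) (nat_lit 4) (nat_lit 2) (nat_lit 4) (nat_lit 415) (nat_lit 373) (nat_lit 232)))) (XT.nd (nat_lit 78) (nat_lit 76) (nat_lit 0) (XT.lf (nat_lit 0) (nat_lit 13969331729315) (nat_lit 152) (nat_lit 3073608824495) (nat_lit 0) (nat_lit 13442809849502) (nat_lit 2) (nat_lit 5) (nat_lit 4) (nat_lit 4) (nat_lit 2) (nat_lit 4) (nat_lit 416) (nat_lit 373) (nat_lit 231)) (XT.nd (nat_lit 78) (nat_lit 0) (nat_lit 0) (XT.lf (nat_lit 0) (nat_lit 643288349389) (nat_lit 76) (nat_lit 17322370209989) (nat_lit 76)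 (nat_lit 16795848330010) (nat_lit 1) (nat_lit 4) (nat_lit 2) (nat_lit 5) (nat_lit 2) (nat_lit 4) (nat_lit 417) (nat_lit 373) (nat_lit 230)) (XT.lf (nat_lit 0) (nat_lit 5263151815730) (nat_lit 76) (nat_lit 17458948512791) (nat_lit 76) (nat_lit 16932426632669) (nat_lit 1) (nat_lit 4) (nat_lit 2) (nat_lit 5) (nat_lit 2) (nat_lit 4) (nat_lit 418) (nat_lit 373) (nat_lit 229))))) (XT.nd (nat_lit 702) (nat_lit 0) (nat_lit 0) (XT.nd (nat_lit 78) (nat_lit 0) (nat_lit 0) (XT.lf (nat_lit 0) (nat_lit 10575994799717) (nat_lit 76) (nat_lit 17616013562228) (nat_lit 76) (nat_lit 17089491681981) (nat_lit 1) (nat_lit 4) (nat_lit 2) (nat_lit 5) (nat_lit 2) (nat_lit 4) (nat_lit 419) (nat_lit 373) (nat_lit 228)) (XT.nd (nat_lit 546) (nat_lit 0) (nat_lit 0) (XT.lf (nat_lit 0) (nat_lit 16685764229297) (nat_lit 76) (nat_lit 17796638370137) (nat_lit 76) (nat_lit 17270116489782) (nat_lit 1) (nat_lit 4) (nat_lit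 2) (nat_lit 5) (nat_lit 2) (nat_lit 4) (nat_lit 420) (nat_lit 373) (nat_lit 227)) (XT.lf (nat_lit 0) (nat_lit 94443694348778) (nat_lit 76) (nat_lit 20095417650457) (nat_lit 76) (nat_lit 19568895769650) (nat_lit 1) (nat_lit 4) (nat_lit 2) (nat_lit 5) (nat_lit 2) (nat_lit 4) (nat_lit 427) (nat_lit 373) (nat_lit 220)))) (XT.nd (nat_lit 78) (nat_lit 0) (nat_lit 0) (XT.lf (nat_lit 0) (nat_lit 113133618701721) (nat_lit 76) (nat_lit 20647953076339) (nat_lit 76) (nat_lit 20121431195497) (nat_lit 1) (nat_lit 4) (nat_lit 2) (nat_lit 5) (nat_lit 2) (nat_lit 4) (nat_lit 428) (nat_lit 373) (nat_lit 219)) (XT.nd (nat_lit 78) (nat_lit 0) (nat_lit 0) (XT.lf (nat_lit 0) (nat_lit 134627031707034) (nat_lit 76) (nat_lit 21283368816405) (nat_lit 76) (nat_lit 20756846935531) (nat_lit 1) (nat_lit 4) (nat_lit 2) (nat_lit 5) (nat_lit 2) (nat_lit 4) (nat_lit 429) (nat_lit 373) (nat_lit 218)) (XT.lf (nat_lit 0)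 (nat_lit 159344456662649) (nat_lit 76) (nat_lit 22014096917741) (nat_lit 76) (nat_lit 21487575036841) (nat_lit 1) (nat_lit 4) (nat_lit 2) (nat_lit 5) (nat_lit 2) (nat_lit 4) (nat_lit 430) (nat_lit 373) (nat_lit 217))))))))
noncomputable def xc102 : XT := (XT.nd (nat_lit 50154) (nat_lit 0) (nat_lit 76) (XT.nd (nat_lit 49218) (nat_lit 0) (nat_lit 1064) (XT.nd (nat_lit 48750) (nat_lit 0) (nat_lit 1976) (XT.nd (nat_lit 546) (nat_lit 0) (nat_lit 0) (XT.nd (nat_lit 468) (nat_lit 0) (nat_lit 0) (XT.lf (nat_lit 0) (nat_lit 187769495361176) (nat_lit 76) (nat_lit 22854434234504) (nat_lit 76) (nat_lit 22327912353581) (nat_lit 1) (nat_lit 4) (nat_lit 2) (nat_lit 5) (nat_lit 2) (nat_lit 4) (nat_lit 431) (nat_lit 373) (nat_lit 216)) (XT.lf (nat_lit 0) (nat_lit 473918652271903) (nat_lit 76) (nat_lit 31313941269678) (nat_lit 76) (nat_lit 30787419388666) (nat_lit 1) (nat_lit 4) (nat_lit 2) (nat_lit 5)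 (nat_lit 2) (nat_lit 4) (nat_lit 437) (nat_lit 373) (nat_lit 210))) (XT.nd (nat_lit 78) (nat_lit 0) (nat_lit 0) (XT.lf (nat_lit 0) (nat_lit 549529820310025) (nat_lit 76) (nat_lit 33549255240176) (nat_lit 76) (nat_lit 33022733359155) (nat_lit 1) (nat_lit 4) (nat_lit 2) (nat_lit 5) (nat_lit 2) (nat_lit 4) (nat_lit 438) (nat_lit 373) (nat_lit 209)) (XT.nd (nat_lit 48048) (nat_lit 0) (nat_lit 2128) (XT.lf (nat_lit 0) (nat_lit 636482663553724) (nat_lit 76) (nat_lit 36119866306323) (nat_lit 76) (nat_lit 35593344425295) (nat_lit 1) (nat_lit 4) (nat_lit 2) (nat_lit 5) (nat_lit 2) (nat_lit 4) (nat_lit 439) (nat_lit 373) (nat_lit 208)) (XT.lf (nat_lit 0) (nat_lit 61168203916) (nat_lit 380) (nat_lit 86852846048) (nat_lit 380) (nat_lit 86852846048) (nat_lit 29) (nat_lit 3) (nat_lit 34) (nat_lit 3) (nat_lit 34) (nat_lit 5) (nat_lit 374) (nat_lit 374) (nat_lit 272))))) (XT.nd (nat_lit 234) (nat_lit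 152) (nat_lit 0) (XT.nd (nat_lit 78) (nat_lit 0) (nat_lit 76) (XT.lf (nat_lit 76) (nat_lit 61730513993) (nat_lit 0) (nat_lit 72337526739) (nat_lit 380) (nat_lit 370527375022) (nat_lit 30) (nat_lit 5) (nat_lit 29) (nat_lit 3) (nat_lit 34) (nat_lit 5) (nat_lit 375) (nat_lit 374) (nat_lit 271)) (XT.nd (nat_lit 78) (nat_lit 0) (nat_lit 0) (XT.lf (nat_lit 0) (nat_lit 164729079983) (nat_lit 304) (nat_lit 199393549830) (nat_lit 380) (nat_lit 177972104077) (nat_lit 30) (nat_lit 5) (nat_lit 34) (nat_lit 5) (nat_lit 35) (nat_lit 5) (nat_lit 376) (nat_lit 374) (nat_lit 270)) (XT.lf (nat_lit 76) (nat_lit 84693859831) (nat_lit 0) (nat_lit 122247008804) (nat_lit 380) (nat_lit 377235342133) (nat_lit 31) (nat_lit 5) (nat_lit 30) (nat_lit 5) (nat_lit 35) (nat_lit 5) (nat_lit 377) (nat_lit 374) (nat_lit 269)))) (XT.nd (nat_lit 78) (nat_lit 304) (nat_lit 0) (XT.lf (nat_lit 0) (nat_lit 272859456685) (nat_lit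 304) (nat_lit 204155248775) (nat_lit 76) (nat_lit 152948949098) (nat_lit 31) (nat_lit 5) (nat_lit 35) (nat_lit 5) (nat_lit 32) (nat_lit 5) (nat_lit 378) (nat_lit 374) (nat_lit 268)) (XT.nd (nat_lit 78) (nat_lit 0) (nat_lit 0) (XT.lf (nat_lit 0) (nat_lit 142319900805) (nat_lit 304) (nat_lit 218060348594) (nat_lit 380) (nat_lit 320481803087) (nat_lit 27) (nat_lit 5) (nat_lit 31) (nat_lit 5) (nat_lit 32) (nat_lit 5) (nat_lit 379) (nat_lit 374) (nat_lit 267)) (XT.lf (nat_lit 0) (nat_lit 475510806817) (nat_lit 380) (nat_lit 177893819463) (nat_lit 76) (nat_lit 83818336986) (nat_lit 27) (nat_lit 5) (nat_lit 32) (nat_lit 5) (nat_lit 28) (nat_lit 5) (nat_lit 380) (nat_lit 374) (nat_lit 266)))))) (XT.nd (nat_lit 468) (nat_lit 380) (nat_lit 0) (XT.nd (nat_lit 234) (nat_lit 228) (nat_lit 0) (XT.nd (nat_lit 78) (nat_lit 152) (nat_lit 0) (XT.lf (nat_lit 0) (nat_lit 248599995435) (nat_lit 152) (nat_lit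 379988747835) (nat_lit 228) (nat_lit 170347598109) (nat_lit 25) (nat_lit 5) (nat_lit 27) (nat_lit 5) (nat_lit 28) (nat_lit 5) (nat_lit 381) (nat_lit 374) (nat_lit 265)) (XT.nd (nat_lit 78) (nat_lit 152) (nat_lit 0) (XT.lf (nat_lit 0) (nat_lit 759060691774) (nat_lit 152) (nat_lit 54866649341) (nat_lit 228) (nat_lit 54584539480) (nat_lit 25) (nat_lit 5) (nat_lit 27) (nat_lit 5) (nat_lit 28) (nat_lit 5) (nat_lit 382) (nat_lit 374) (nat_lit 264)) (XT.lf (nat_lit 0) (nat_lit 103692358595) (nat_lit 152) (nat_lit 526716172603) (nat_lit 76) (nat_lit 312806101978) (nat_lit 23) (nat_lit 5) (nat_lit 25) (nat_lit 5) (nat_lit 24) (nat_lit 5) (nat_lit 383) (nat_lit 374) (nat_lit 263)))) (XT.nd (nat_lit 78) (nat_lit 228) (nat_lit 0) (XT.lf (nat_lit 0) (nat_lit 288728806824) (nat_lit 152) (nat_lit 107658128) (nat_lit 76) (nat_lit 738605479254) (nat_lit 23) (nat_lit 5) (nat_lit 25) (nat_lit 5) (nat_lit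 24) (nat_lit 5) (nat_lit 384) (nat_lit 374) (nat_lit 262)) (XT.nd (nat_lit 78) (nat_lit 76) (nat_lit 0) (XT.lf (nat_lit 0) (nat_lit 534658895964) (nat_lit 228) (nat_lit 461125622606) (nat_lit 76) (nat_lit 123548107283) (nat_lit 21) (nat_lit 5) (nat_lit 24) (nat_lit 5) (nat_lit 22) (nat_lit 4) (nat_lit 385) (nat_lit 374) (nat_lit 261)) (XT.lf (nat_lit 0) (nat_lit 193771350711) (nat_lit 76) (nat_lit 645490802180) (nat_lit 152) (nat_lit 382477208707) (nat_lit 20) (nat_lit 5) (nat_lit 21) (nat_lit 5) (nat_lit 22) (nat_lit 4) (nat_lit 386) (nat_lit 374) (nat_lit 260))))) (XT.nd (nat_lit 234) (nat_lit 228) (nat_lit 0) (XT.nd (nat_lit 78) (nat_lit 152) (nat_lit 0) (XT.lf (nat_lit 0) (nat_lit 998727076116) (nat_lit 76) (nat_lit 214933100351) (nat_lit 152) (nat_lit 122231289532) (nat_lit 20) (nat_lit 5) (nat_lit 21) (nat_lit 5) (nat_lit 22) (nat_lit 4) (nat_lit 387) (nat_lit 374) (nat_lit 259))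 (XT.nd (nat_lit 78) (nat_lit 0) (nat_lit 0) (XT.lf (nat_lit 0) (nat_lit 194666252500) (nat_lit 152) (nat_lit 982026100842) (nat_lit 76) (nat_lit 284367771049) (nat_lit 18) (nat_lit 5) (nat_lit 20) (nat_lit 5) (nat_lit 19) (nat_lit 4) (nat_lit 388) (nat_lit 374) (nat_lit 258)) (XT.lf (nat_lit 0) (nat_lit 575282929900) (nat_lit 152) (nat_lit 163700261056) (nat_lit 76) (nat_lit 860843010969) (nat_lit 18) (nat_lit 5) (nat_lit 20) (nat_lit 5) (nat_lit 19) (nat_lit 4) (nat_lit 389) (nat_lit 374) (nat_lit 257)))) (XT.nd (nat_lit 78) (nat_lit 152) (nat_lit 0) (XT.lf (nat_lit 0) (nat_lit 853345116731) (nat_lit 76) (nat_lit 194982181654) (nat_lit 152) (nat_lit 705779614289) (nat_lit 17) (nat_lit 5) (nat_lit 18) (nat_lit 5) (nat_lit 19) (nat_lit 4) (nat_lit 390) (nat_lit 374) (nat_lit 256)) (XT.nd (nat_lit 78) (nat_lit 76) (nat_lit 0) (XT.lf (nat_lit 0) (nat_lit 101935276016) (nat_lit 76) (nat_lit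 1521409508576) (nat_lit 76) (nat_lit 303532476081) (nat_lit 16) (nat_lit 4) (nat_lit 17) (nat_lit 5) (nat_lit 17) (nat_lit 4) (nat_lit 391) (nat_lit 374) (nat_lit 255)) (XT.lf (nat_lit 0) (nat_lit 203504133669) (nat_lit 152) (nat_lit 780343154610) (nat_lit 76) (nat_lit 1131936130747) (nat_lit 15) (nat_lit 5) (nat_lit 17) (nat_lit 5) (nat_lit 16) (nat_lit 4) (nat_lit 392) (nat_lit 374) (nat_lit 254))))))) (XT.nd (nat_lit 858) (nat_lit 380) (nat_lit 0) (XT.nd (nat_lit 390) (nat_lit 304) (nat_lit 0) (XT.nd (nat_lit 156) (nat_lit 228) (nat_lit 0) (XT.nd (nat_lit 78) (nat_lit 0) (nat_lit 0) (XT.lf (nat_lit 0) (nat_lit 446216864517) (nat_lit 76) (nat_lit 327780305148) (nat_lit 152) (nat_lit 1554088710539) (nat_lit 14) (nat_lit 5) (nat_lit 15) (nat_lit 5) (nat_lit 16) (nat_lit 4) (nat_lit 393) (nat_lit 374) (nat_lit 253)) (XT.lf (nat_lit 0) (nat_lit 1490465830214) (nat_lit 152) (nat_lit 641265327982)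 (nat_lit 0) (nat_lit 431442301994) (nat_lit 14) (nat_lit 5) (nat_lit 16) (nat_lit 4) (nat_lit 14) (nat_lit 4) (nat_lit 394) (nat_lit 374) (nat_lit 252))) (XT.nd (nat_lit 78) (nat_lit 152) (nat_lit 0) (XT.lf (nat_lit 0) (nat_lit 845052749703) (nat_lit 76) (nat_lit 1519952449837) (nat_lit 76) (nat_lit 460928916183) (nat_lit 13) (nat_lit 4) (nat_lit 14) (nat_lit 5) (nat_lit 14) (nat_lit 4) (nat_lit 395) (nat_lit 374) (nat_lit 251)) (XT.nd (nat_lit 78) (nat_lit 76) (nat_lit 0) (XT.lf (nat_lit 0) (nat_lit 256134099149) (nat_lit 152) (nat_lit 508335225207) (nat_lit 76) (nat_lit 2356865074447) (nat_lit 12) (nat_lit 5) (nat_lit 14) (nat_lit 5) (nat_lit 13) (nat_lit 4) (nat_lit 396) (nat_lit 374) (nat_lit 250)) (XT.lf (nat_lit 0) (nat_lit 1094319551669) (nat_lit 152) (nat_lit 2180890309608) (nat_lit 0) (nat_lit 173429514723) (nat_lit 11) (nat_lit 5) (nat_lit 13) (nat_lit 4) (nat_lit 11) (nat_lit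 4) (nat_lit 397) (nat_lit 374) (nat_lit 249))))) (XT.nd (nat_lit 234) (nat_lit 152) (nat_lit 0) (XT.nd (nat_lit 78) (nat_lit 152) (nat_lit 0) (XT.lf (nat_lit 0) (nat_lit 2122473521147) (nat_lit 152) (nat_lit 491346992676) (nat_lit 0) (nat_lit 1201583481093) (nat_lit 11) (nat_lit 5) (nat_lit 13) (nat_lit 4) (nat_lit 11) (nat_lit 4) (nat_lit 398) (nat_lit 374) (nat_lit 248)) (XT.nd (nat_lit 78) (nat_lit 76) (nat_lit 0) (XT.lf (nat_lit 0) (nat_lit 1593491435870) (nat_lit 76) (nat_lit 1777342226085) (nat_lit 76) (nat_lit 856452183329) (nat_lit 10) (nat_lit 4) (nat_lit 11) (nat_lit 5) (nat_lit 11) (nat_lit 4) (nat_lit 399) (nat_lit 374) (nat_lit 247)) (XT.lf (nat_lit 0) (nat_lit 123012793410) (nat_lit 152) (nat_lit 656412539272) (nat_lit 76) (nat_lit 3916833310734) (nat_lit 9) (nat_lit 5) (nat_lit 11) (nat_lit 5) (nat_lit 10) (nat_lit 4) (nat_lit 400) (nat_lit 374) (nat_lit 246)))) (XT.nd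 (nat_lit 78) (nat_lit 76) (nat_lit 0) (XT.lf (nat_lit 0) (nat_lit 1253986089090) (nat_lit 152) (nat_lit 3508420677141) (nat_lit 0) (nat_lit 453212135048) (nat_lit 8) (nat_lit 5) (nat_lit 10) (nat_lit 4) (nat_lit 8) (nat_lit 4) (nat_lit 401) (nat_lit 374) (nat_lit 245)) (XT.nd (nat_lit 78) (nat_lit 76) (nat_lit 0) (XT.lf (nat_lit 0) (nat_lit 2627667266699) (nat_lit 152) (nat_lit 1347363336875) (nat_lit 0) (nat_lit 1826893311112) (nat_lit 8) (nat_lit 5) (nat_lit 10) (nat_lit 4) (nat_lit 8) (nat_lit 4) (nat_lit 402) (nat_lit 374) (nat_lit 244)) (XT.lf (nat_lit 0) (nat_lit 1249051825586) (nat_lit 76) (nat_lit 3010069363141) (nat_lit 76) (nat_lit 2209295406211) (nat_lit 7) (nat_lit 4) (nat_lit 8) (nat_lit 5) (nat_lit 8) (nat_lit 4) (nat_lit 403) (nat_lit 374) (nat_lit 243)))))) (XT.nd (nat_lit 468) (nat_lit 152) (nat_lit 0) (XT.nd (nat_lit 234) (nat_lit 76) (nat_lit 0) (XT.nd (nat_lit 78)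 (nat_lit 152) (nat_lit 0) (XT.lf (nat_lit 0) (nat_lit 4386354519094) (nat_lit 76) (nat_lit 1819369031733) (nat_lit 76) (nat_lit 1018595073635) (nat_lit 7) (nat_lit 4) (nat_lit 8) (nat_lit 5) (nat_lit 8) (nat_lit 4) (nat_lit 404) (nat_lit 374) (nat_lit 242)) (XT.nd (nat_lit 78) (nat_lit 76) (nat_lit 0) (XT.lf (nat_lit 0) (nat_lit 319487647853) (nat_lit 152) (nat_lit 113875516229) (nat_lit 76) (nat_lit 7658064470047) (nat_lit 6) (nat_lit 5) (nat_lit 8) (nat_lit 5) (nat_lit 7) (nat_lit 4) (nat_lit 405) (nat_lit 374) (nat_lit 241)) (XT.lf (nat_lit 0) (nat_lit 1945807310969) (nat_lit 152) (nat_lit 5857266486746) (nat_lit 0) (nat_lit 1249482128362) (nat_lit 5) (nat_lit 5) (nat_lit 7) (nat_lit 4) (nat_lit 5) (nat_lit 4) (nat_lit 406) (nat_lit 374) (nat_lit 240)))) (XT.nd (nat_lit 78) (nat_lit 76) (nat_lit 0) (XT.lf (nat_lit 0) (nat_lit 3842947301348) (nat_lit 152) (nat_lit 3164253185729) (nat_lit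 0) (nat_lit 3146622118074) (nat_lit 5) (nat_lit 5) (nat_lit 7) (nat_lit 4) (nat_lit 5) (nat_lit 4) (nat_lit 407) (nat_lit 374) (nat_lit 239)) (XT.nd (nat_lit 78) (nat_lit 76) (nat_lit 0) (XT.lf (nat_lit 0) (nat_lit 6024658287218) (nat_lit 152) (nat_lit 67287895964) (nat_lit 0) (nat_lit 5328333103363) (nat_lit 5) (nat_lit 5) (nat_lit 7) (nat_lit 4) (nat_lit 5) (nat_lit 4) (nat_lit 408) (nat_lit 374) (nat_lit 238)) (XT.lf (nat_lit 0) (nat_lit 3835702985817) (nat_lit 76) (nat_lit 4856751213471) (nat_lit 76) (nat_lit 4160426029111) (nat_lit 4) (nat_lit 4) (nat_lit 5) (nat_lit 5) (nat_lit 5) (nat_lit 4) (nat_lit 409) (nat_lit 374) (nat_lit 237))))) (XT.nd (nat_lit 234) (nat_lit 0) (nat_lit 0) (XT.nd (nat_lit 78) (nat_lit 152) (nat_lit 0) (XT.lf (nat_lit 0) (nat_lit 8331704736494) (nat_lit 76) (nat_lit 3432232080972) (nat_lit 76) (nat_lit 2735906896173) (nat_lit 4) (nat_lit 4) (nat_lit 5) (nat_lit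 5) (nat_lit 5) (nat_lit 4) (nat_lit 410) (nat_lit 374) (nat_lit 236)) (XT.nd (nat_lit 78) (nat_lit 152) (nat_lit 0) (XT.lf (nat_lit 0) (nat_lit 13502106745150) (nat_lit 76) (nat_lit 1794035081013) (nat_lit 76) (nat_lit 1097709895832) (nat_lit 4) (nat_lit 4) (nat_lit 5) (nat_lit 5) (nat_lit 5) (nat_lit 4) (nat_lit 411) (nat_lit 374) (nat_lit 235)) (XT.lf (nat_lit 0) (nat_lit 761663857376) (nat_lit 152) (nat_lit 17642433797983) (nat_lit 0) (nat_lit 156163696060) (nat_lit 2) (nat_lit 5) (nat_lit 4) (nat_lit 4) (nat_lit 2) (nat_lit 4) (nat_lit 412) (nat_lit 374) (nat_lit 234)))) (XT.nd (nat_lit 78) (nat_lit 0) (nat_lit 0) (XT.lf (nat_lit 0) (nat_lit 3031346791962) (nat_lit 152) (nat_lit 15550030062486) (nat_lit 0) (nat_lit 2425846630395) (nat_lit 2) (nat_lit 5) (nat_lit 4) (nat_lit 4) (nat_lit 2) (nat_lit 4) (nat_lit 413) (nat_lit 374) (nat_lit 233)) (XT.nd (nat_lit 78) (nat_lit 0) (nat_lit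 0) (XT.lf (nat_lit 0) (nat_lit 5641482164994) (nat_lit 152) (nat_lit 13143765770337) (nat_lit 0) (nat_lit 5035982003208) (nat_lit 2) (nat_lit 5) (nat_lit 4) (nat_lit 4) (nat_lit 2) (nat_lit 4) (nat_lit 414) (nat_lit 374) (nat_lit 232)) (XT.lf (nat_lit 0) (nat_lit 8643137842466) (nat_lit 152) (nat_lit 10376561837561) (nat_lit 0) (nat_lit 8037637680491) (nat_lit 2) (nat_lit 5) (nat_lit 4) (nat_lit 4) (nat_lit 2) (nat_lit 4) (nat_lit 415) (nat_lit 374) (nat_lit 231))))))))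
noncomputable def xc103 : XT := (XT.nd (nat_lit 50934) (nat_lit 0) (nat_lit 228) (XT.nd (nat_lit 49998) (nat_lit 0) (nat_lit 1444) (XT.nd (nat_lit 1014) (nat_lit 0) (nat_lit 0) (XT.nd (nat_lit 156) (nat_lit 76) (nat_lit 0) (XT.nd (nat_lit 78) (nat_lit 0) (nat_lit 0) (XT.lf (nat_lit 0) (nat_lit 12095041870243) (nat_lit 152) (nat_lit 7194277317647) (nat_lit 0) (nat_lit 11489541708103) (nat_lit 2) (nat_lit 5) (nat_lit 4) (nat_lit 4) (nat_lit 2) (nat_lit 4) (nat_lit 416) (nat_lit 374) (nat_lit 230)) (XT.lf (nat_lit 0) (nat_lit 16064731501041) (nat_lit 152) (nat_lit 3534650122160) (nat_lit 0) (nat_lit 15459231338757) (nat_lit 2) (nat_lit 5) (nat_lit 4) (nat_lit 4) (nat_lit 2) (nat_lit 4) (nat_lit 417) (nat_lit 374) (nat_lit 229))) (XT.nd (nat_lit 78) (nat_lit 0) (nat_lit 0) (XT.lf (nat_lit 0) (nat_lit 739781626624) (nat_lit 76) (nat_lit 19920725728409) (nat_lit 76) (nat_lit 19315225566000)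 (nat_lit 1) (nat_lit 4) (nat_lit 2) (nat_lit 5) (nat_lit 2) (nat_lit 4) (nat_lit 418) (nat_lit 374) (nat_lit 228)) (XT.nd (nat_lit 78) (nat_lit 0) (nat_lit 0) (XT.lf (nat_lit 0) (nat_lit 6052624609678) (nat_lit 76) (nat_lit 20077790778337) (nat_lit 76) (nat_lit 19472290615820) (nat_lit 1) (nat_lit 4) (nat_lit 2) (nat_lit 5) (nat_lit 2) (nat_lit 4) (nat_lit 419) (nat_lit 374) (nat_lit 227)) (XT.lf (nat_lit 0) (nat_lit 12162394038448) (nat_lit 76) (nat_lit 20258415586673) (nat_lit 76) (nat_lit 19652915424062) (nat_lit 1) (nat_lit 4) (nat_lit 2) (nat_lit 5) (nat_lit 2) (nat_lit 4) (nat_lit 420) (nat_lit 374) (nat_lit 226))))) (XT.nd (nat_lit 702) (nat_lit 0) (nat_lit 0) (XT.nd (nat_lit 78) (nat_lit 0) (nat_lit 0) (XT.lf (nat_lit 0) (nat_lit 130103661512315) (nat_lit 76) (nat_lit 23745146034979) (nat_lit 76) (nat_lit 23139645871918) (nat_lit 1) (nat_lit 4) (nat_lit 2) (nat_lit 5) (nat_lit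 2) (nat_lit 4) (nat_lit 429) (nat_lit 374) (nat_lit 217)) (XT.nd (nat_lit 546) (nat_lit 0) (nat_lit 0) (XT.lf (nat_lit 0) (nat_lit 154821086467729) (nat_lit 76) (nat_lit 24475874136421) (nat_lit 76) (nat_lit 23870373973336) (nat_lit 1) (nat_lit 4) (nat_lit 2) (nat_lit 5) (nat_lit 2) (nat_lit 4) (nat_lit 430) (nat_lit 374) (nat_lit 216)) (XT.lf (nat_lit 0) (nat_lit 469395282076150) (nat_lit 76) (nat_lit 33775718488797) (nat_lit 76) (nat_lit 33170218325615) (nat_lit 1) (nat_lit 4) (nat_lit 2) (nat_lit 5) (nat_lit 2) (nat_lit 4) (nat_lit 437) (nat_lit 374) (nat_lit 209)))) (XT.nd (nat_lit 78) (nat_lit 0) (nat_lit 0) (XT.lf (nat_lit 0) (nat_lit 545006450114206) (nat_lit 76) (nat_lit 36011032459330) (nat_lit 76) (nat_lit 35405532296140) (nat_lit 1) (nat_lit 4) (nat_lit 2) (nat_lit 5) (nat_lit 2) (nat_lit 4) (nat_lit 438) (nat_lit 374) (nat_lit 208)) (XT.nd (nat_lit 48126) (nat_lit 0) (nat_lit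 2128) (XT.lf (nat_lit 0) (nat_lit 631959293357848) (nat_lit 76) (nat_lit 38581643525508) (nat_lit 76) (nat_lit 37976143362311) (nat_lit 1) (nat_lit 4) (nat_lit 2) (nat_lit 5) (nat_lit 2) (nat_lit 4) (nat_lit 439) (nat_lit 374) (nat_lit 207)) (XT.lf (nat_lit 0) (nat_lit 70343696553) (nat_lit 380) (nat_lit 99880622121) (nat_lit 380) (nat_lit 99880622121) (nat_lit 29) (nat_lit 3) (nat_lit 34) (nat_lit 3) (nat_lit 34) (nat_lit 5) (nat_lit 375) (nat_lit 375) (nat_lit 270)))))) (XT.nd (nat_lit 468) (nat_lit 532) (nat_lit 0) (XT.nd (nat_lit 234) (nat_lit 152) (nat_lit 0) (XT.nd (nat_lit 78) (nat_lit 0) (nat_lit 76) (XT.lf (nat_lit 76) (nat_lit 70990379048) (nat_lit 0) (nat_lit 83188335456) (nat_lit 380) (nat_lit 426105942923) (nat_lit 30) (nat_lit 5) (nat_lit 29) (nat_lit 3) (nat_lit 34) (nat_lit 5) (nat_lit 376) (nat_lit 375) (nat_lit 269)) (XT.nd (nat_lit 78) (nat_lit 0) (nat_lit 0) (XT.lf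 (nat_lit 0) (nat_lit 189438842173) (nat_lit 304) (nat_lit 229302263967) (nat_lit 380) (nat_lit 204667777334) (nat_lit 30) (nat_lit 5) (nat_lit 34) (nat_lit 5) (nat_lit 35) (nat_lit 5) (nat_lit 377) (nat_lit 375) (nat_lit 268)) (XT.lf (nat_lit 76) (nat_lit 97398242673) (nat_lit 0) (nat_lit 140584116833) (nat_lit 380) (nat_lit 433820228382) (nat_lit 31) (nat_lit 5) (nat_lit 30) (nat_lit 5) (nat_lit 35) (nat_lit 5) (nat_lit 378) (nat_lit 375) (nat_lit 267)))) (XT.nd (nat_lit 78) (nat_lit 304) (nat_lit 0) (XT.lf (nat_lit 0) (nat_lit 313788686690) (nat_lit 304) (nat_lit 234778222430) (nat_lit 76) (nat_lit 175891246541) (nat_lit 31) (nat_lit 5) (nat_lit 35) (nat_lit 5) (nat_lit 32) (nat_lit 5) (nat_lit 379) (nat_lit 375) (nat_lit 266)) (XT.nd (nat_lit 78) (nat_lit 0) (nat_lit 0) (XT.lf (nat_lit 0) (nat_lit 163668185330) (nat_lit 304) (nat_lit 250769384749) (nat_lit 380) (nat_lit 368553747481)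 (nat_lit 27) (nat_lit 5) (nat_lit 31) (nat_lit 5) (nat_lit 32) (nat_lit 5) (nat_lit 380) (nat_lit 375) (nat_lit 265)) (XT.lf (nat_lit 0) (nat_lit 546837674741) (nat_lit 380) (nat_lit 204577595395) (nat_lit 76) (nat_lit 96391100315) (nat_lit 27) (nat_lit 5) (nat_lit 32) (nat_lit 5) (nat_lit 28) (nat_lit 5) (nat_lit 381) (nat_lit 375) (nat_lit 264))))) (XT.nd (nat_lit 234) (nat_lit 228) (nat_lit 0) (XT.nd (nat_lit 78) (nat_lit 152) (nat_lit 0) (XT.lf (nat_lit 0) (nat_lit 285890278238) (nat_lit 152) (nat_lit 436987002958) (nat_lit 228) (nat_lit 195899477190) (nat_lit 25) (nat_lit 5) (nat_lit 27) (nat_lit 5) (nat_lit 28) (nat_lit 5) (nat_lit 382) (nat_lit 375) (nat_lit 263)) (XT.nd (nat_lit 78) (nat_lit 152) (nat_lit 0) (XT.lf (nat_lit 0) (nat_lit 872920042051) (nat_lit 152) (nat_lit 63096597132) (nat_lit 228) (nat_lit 62771993762) (nat_lit 25) (nat_lit 5) (nat_lit 27) (nat_lit 5) (nat_lit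 28) (nat_lit 5) (nat_lit 383) (nat_lit 375) (nat_lit 262)) (XT.lf (nat_lit 0) (nat_lit 119246405142) (nat_lit 152) (nat_lit 605723317770) (nat_lit 76) (nat_lit 359727076173) (nat_lit 23) (nat_lit 5) (nat_lit 25) (nat_lit 5) (nat_lit 24) (nat_lit 5) (nat_lit 384) (nat_lit 375) (nat_lit 261)))) (XT.nd (nat_lit 78) (nat_lit 228) (nat_lit 0) (XT.lf (nat_lit 0) (nat_lit 332038295463) (nat_lit 152) (nat_lit 123562740) (nat_lit 76) (nat_lit 849396352358) (nat_lit 23) (nat_lit 5) (nat_lit 25) (nat_lit 5) (nat_lit 24) (nat_lit 5) (nat_lit 385) (nat_lit 375) (nat_lit 260)) (XT.nd (nat_lit 78) (nat_lit 76) (nat_lit 0) (XT.lf (nat_lit 0) (nat_lit 614857888973) (nat_lit 228) (nat_lit 530294212773) (nat_lit 76) (nat_lit 142080394077) (nat_lit 21) (nat_lit 5) (nat_lit 24) (nat_lit 5) (nat_lit 22) (nat_lit 4) (nat_lit 386) (nat_lit 375) (nat_lit 259)) (XT.lf (nat_lit 0) (nat_lit 222837295032) (nat_lit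 76) (nat_lit 742314328728) (nat_lit 152) (nat_lit 439848619787) (nat_lit 20) (nat_lit 5) (nat_lit 21) (nat_lit 5) (nat_lit 22) (nat_lit 4) (nat_lit 387) (nat_lit 375) (nat_lit 258))))))) (XT.nd (nat_lit 858) (nat_lit 532) (nat_lit 0) (XT.nd (nat_lit 390) (nat_lit 380) (nat_lit 0) (XT.nd (nat_lit 156) (nat_lit 152) (nat_lit 0) (XT.nd (nat_lit 78) (nat_lit 152) (nat_lit 0) (XT.lf (nat_lit 0) (nat_lit 1148536347719) (nat_lit 76) (nat_lit 247172983857) (nat_lit 152) (nat_lit 140565834939) (nat_lit 20) (nat_lit 5) (nat_lit 21) (nat_lit 5) (nat_lit 22) (nat_lit 4) (nat_lit 388) (nat_lit 375) (nat_lit 257)) (XT.lf (nat_lit 0) (nat_lit 223866320073) (nat_lit 152) (nat_lit 1129329787316) (nat_lit 76) (nat_lit 327023016140) (nat_lit 18) (nat_lit 5) (nat_lit 20) (nat_lit 5) (nat_lit 19) (nat_lit 4) (nat_lit 389) (nat_lit 375) (nat_lit 256))) (XT.nd (nat_lit 78) (nat_lit 152) (nat_lit 0) (XT.lf (nat_lit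 0) (nat_lit 661575482166) (nat_lit 152) (nat_lit 188255101386) (nat_lit 76) (nat_lit 989969531687) (nat_lit 18) (nat_lit 5) (nat_lit 20) (nat_lit 5) (nat_lit 19) (nat_lit 4) (nat_lit 390) (nat_lit 375) (nat_lit 255)) (XT.nd (nat_lit 78) (nat_lit 76) (nat_lit 0) (XT.lf (nat_lit 0) (nat_lit 981347074032) (nat_lit 76) (nat_lit 224229425040) (nat_lit 152) (nat_lit 811646434563) (nat_lit 17) (nat_lit 5) (nat_lit 18) (nat_lit 5) (nat_lit 19) (nat_lit 4) (nat_lit 391) (nat_lit 375) (nat_lit 254)) (XT.lf (nat_lit 0) (nat_lit 117225760483) (nat_lit 76) (nat_lit 1749620844924) (nat_lit 76) (nat_lit 349062228854) (nat_lit 16) (nat_lit 4) (nat_lit 17) (nat_lit 5) (nat_lit 17) (nat_lit 4) (nat_lit 392) (nat_lit 375) (nat_lit 253))))) (XT.nd (nat_lit 234) (nat_lit 228) (nat_lit 0) (XT.nd (nat_lit 78) (nat_lit 76) (nat_lit 0) (XT.lf (nat_lit 0) (nat_lit 234029847700) (nat_lit 152) (nat_lit 897394450701)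 (nat_lit 76) (nat_lit 1301726619348) (nat_lit 15) (nat_lit 5) (nat_lit 17) (nat_lit 5) (nat_lit 16) (nat_lit 4) (nat_lit 393) (nat_lit 375) (nat_lit 252)) (XT.nd (nat_lit 78) (nat_lit 0) (nat_lit 0) (XT.lf (nat_lit 0) (nat_lit 513149563245) (nat_lit 76) (nat_lit 376947270592) (nat_lit 152) (nat_lit 1787201915061) (nat_lit 14) (nat_lit 5) (nat_lit 15) (nat_lit 5) (nat_lit 16) (nat_lit 4) (nat_lit 394) (nat_lit 375) (nat_lit 251)) (XT.lf (nat_lit 0) (nat_lit 1714035784788) (nat_lit 152) (nat_lit 737454971474) (nat_lit 0) (nat_lit 496158710926) (nat_lit 14) (nat_lit 5) (nat_lit 16) (nat_lit 4) (nat_lit 14) (nat_lit 4) (nat_lit 395) (nat_lit 375) (nat_lit 250)))) (XT.nd (nat_lit 78) (nat_lit 152) (nat_lit 0) (XT.lf (nat_lit 0) (nat_lit 971810810786) (nat_lit 76) (nat_lit 1747945244440) (nat_lit 76) (nat_lit 530068166469) (nat_lit 13) (nat_lit 4) (nat_lit 14) (nat_lit 5) (nat_lit 14) (nat_lit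 4) (nat_lit 396) (nat_lit 375) (nat_lit 249)) (XT.nd (nat_lit 78) (nat_lit 76) (nat_lit 0) (XT.lf (nat_lit 0) (nat_lit 294554283051) (nat_lit 152) (nat_lit 584585372984) (nat_lit 76) (nat_lit 2710394892218) (nat_lit 12) (nat_lit 5) (nat_lit 14) (nat_lit 5) (nat_lit 13) (nat_lit 4) (nat_lit 397) (nat_lit 375) (nat_lit 248)) (XT.lf (nat_lit 0) (nat_lit 1258467552488) (nat_lit 152) (nat_lit 2508023719070) (nat_lit 0) (nat_lit 199444000617) (nat_lit 11) (nat_lit 5) (nat_lit 13) (nat_lit 4) (nat_lit 11) (nat_lit 4) (nat_lit 398) (nat_lit 375) (nat_lit 247)))))) (XT.nd (nat_lit 468) (nat_lit 228) (nat_lit 0) (XT.nd (nat_lit 234) (nat_lit 152) (nat_lit 0) (XT.nd (nat_lit 78) (nat_lit 152) (nat_lit 0) (XT.lf (nat_lit 0) (nat_lit 2440844608509) (nat_lit 152) (nat_lit 565048922465) (nat_lit 0) (nat_lit 1381821054288) (nat_lit 11) (nat_lit 5) (nat_lit 13) (nat_lit 4) (nat_lit 11) (nat_lit 4) (nat_lit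 399) (nat_lit 375) (nat_lit 246)) (XT.nd (nat_lit 78) (nat_lit 76) (nat_lit 0) (XT.lf (nat_lit 0) (nat_lit 1832515264948) (nat_lit 76) (nat_lit 2043943502478) (nat_lit 76) (nat_lit 984919946214) (nat_lit 10) (nat_lit 4) (nat_lit 11) (nat_lit 5) (nat_lit 11) (nat_lit 4) (nat_lit 400) (nat_lit 375) (nat_lit 245)) (XT.lf (nat_lit 0) (nat_lit 141464763607) (nat_lit 152) (nat_lit 754874316285) (nat_lit 76) (nat_lit 4504358352351) (nat_lit 9) (nat_lit 5) (nat_lit 11) (nat_lit 5) (nat_lit 10) (nat_lit 4) (nat_lit 401) (nat_lit 375) (nat_lit 244)))) (XT.nd (nat_lit 78) (nat_lit 76) (nat_lit 0) (XT.lf (nat_lit 0) (nat_lit 1442084053161) (nat_lit 152) (nat_lit 4034683674350) (nat_lit 0) (nat_lit 521194001347) (nat_lit 8) (nat_lit 5) (nat_lit 10) (nat_lit 4) (nat_lit 8) (nat_lit 4) (nat_lit 402) (nat_lit 375) (nat_lit 243)) (XT.nd (nat_lit 78) (nat_lit 76) (nat_lit 0) (XT.lf (nat_lit 0) (nat_lit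 3021817400796) (nat_lit 152) (nat_lit 1549467746657) (nat_lit 0) (nat_lit 2100927347815) (nat_lit 8) (nat_lit 5) (nat_lit 10) (nat_lit 4) (nat_lit 8) (nat_lit 4) (nat_lit 403) (nat_lit 375) (nat_lit 242)) (XT.lf (nat_lit 0) (nat_lit 1436409686049) (nat_lit 76) (nat_lit 3461579722916) (nat_lit 76) (nat_lit 2540689668919) (nat_lit 7) (nat_lit 4) (nat_lit 8) (nat_lit 5) (nat_lit 8) (nat_lit 4) (nat_lit 404) (nat_lit 375) (nat_lit 241))))) (XT.nd (nat_lit 234) (nat_lit 76) (nat_lit 0) (XT.nd (nat_lit 78) (nat_lit 152) (nat_lit 0) (XT.lf (nat_lit 0) (nat_lit 5044307772284) (nat_lit 76) (nat_lit 2092274347627) (nat_lit 76) (nat_lit 1171384292747) (nat_lit 7) (nat_lit 4) (nat_lit 8) (nat_lit 5) (nat_lit 8) (nat_lit 4) (nat_lit 405) (nat_lit 375) (nat_lit 240)) (XT.nd (nat_lit 78) (nat_lit 76) (nat_lit 0) (XT.lf (nat_lit 0) (nat_lit 367410828249) (nat_lit 152) (nat_lit 130956774913) (nat_lit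 76) (nat_lit 8806774171101) (nat_lit 6) (nat_lit 5) (nat_lit 8) (nat_lit 5) (nat_lit 7) (nat_lit 4) (nat_lit 406) (nat_lit 375) (nat_lit 239)) (XT.lf (nat_lit 0) (nat_lit 2237678440626) (nat_lit 152) (nat_lit 6735856390798) (nat_lit 0) (nat_lit 1436904478611) (nat_lit 5) (nat_lit 5) (nat_lit 7) (nat_lit 4) (nat_lit 5) (nat_lit 4) (nat_lit 407) (nat_lit 375) (nat_lit 238)))) (XT.nd (nat_lit 78) (nat_lit 76) (nat_lit 0) (XT.lf (nat_lit 0) (nat_lit 4419389425256) (nat_lit 152) (nat_lit 3638891103623) (nat_lit 0) (nat_lit 3618615462736) (nat_lit 5) (nat_lit 5) (nat_lit 7) (nat_lit 4) (nat_lit 5) (nat_lit 4) (nat_lit 408) (nat_lit 375) (nat_lit 237)) (XT.nd (nat_lit 78) (nat_lit 76) (nat_lit 0) (XT.lf (nat_lit 0) (nat_lit 6928357055262) (nat_lit 152) (nat_lit 77381028214) (nat_lit 0) (nat_lit 6127583092304) (nat_lit 5) (nat_lit 5) (nat_lit 7) (nat_lit 4) (nat_lit 5) (nat_lit 4) (nat_lit 409)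 (nat_lit 375) (nat_lit 236)) (XT.lf (nat_lit 0) (nat_lit 4411058483463) (nat_lit 76) (nat_lit 5585263869485) (nat_lit 76) (nat_lit 4784489906145) (nat_lit 4) (nat_lit 4) (nat_lit 5) (nat_lit 5) (nat_lit 5) (nat_lit 4) (nat_lit 410) (nat_lit 375) (nat_lit 235))))))))
noncomputable def xc104 : XT := (XT.nd (nat_lit 51246) (nat_lit 0) (nat_lit 304) (XT.nd (nat_lit 50388) (nat_lit 0) (nat_lit 1672) (XT.nd (nat_lit 390) (nat_lit 76) (nat_lit 0) (XT.nd (nat_lit 156) (nat_lit 152) (nat_lit 0) (XT.nd (nat_lit 78) (nat_lit 0) (nat_lit 0) (XT.lf (nat_lit 0) (nat_lit 9581460490250) (nat_lit 76) (nat_lit 3947066870503) (nat_lit 76) (nat_lit 3146292906831) (nat_lit 4) (nat_lit 4) (nat_lit 5) (nat_lit 5) (nat_lit 5) (nat_lit 4) (nat_lit 411) (nat_lit 375) (nat_lit 234)) (XT.lf (nat_lit 0) (nat_lit 15527422794558) (nat_lit 76) (nat_lit 2063140323500) (nat_lit 76) (nat_lit 1262366359539) (nat_lit 4)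 (nat_lit 4) (nat_lit 5) (nat_lit 5) (nat_lit 5) (nat_lit 4) (nat_lit 412) (nat_lit 375) (nat_lit 233))) (XT.nd (nat_lit 78) (nat_lit 0) (nat_lit 0) (XT.lf (nat_lit 0) (nat_lit 875913454733) (nat_lit 152) (nat_lit 20288798828124) (nat_lit 0) (nat_lit 179588268462) (nat_lit 2) (nat_lit 5) (nat_lit 4) (nat_lit 4) (nat_lit 2) (nat_lit 4) (nat_lit 413) (nat_lit 375) (nat_lit 232)) (XT.nd (nat_lit 78) (nat_lit 0) (nat_lit 0) (XT.lf (nat_lit 0) (nat_lit 3486048827061) (nat_lit 152) (nat_lit 17882534537462) (nat_lit 0) (nat_lit 2789723640599) (nat_lit 2) (nat_lit 5) (nat_lit 4) (nat_lit 4) (nat_lit 2) (nat_lit 4) (nat_lit 414) (nat_lit 375) (nat_lit 231)) (XT.lf (nat_lit 0) (nat_lit 6487704503921) (nat_lit 152) (nat_lit 15115330605978) (nat_lit 0) (nat_lit 5791379317294) (nat_lit 2) (nat_lit 5) (nat_lit 4) (nat_lit 4) (nat_lit 2) (nat_lit 4) (nat_lit 415) (nat_lit 375) (nat_lit 230))))) (XT.nd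 (nat_lit 234) (nat_lit 76) (nat_lit 0) (XT.nd (nat_lit 78) (nat_lit 0) (nat_lit 0) (XT.lf (nat_lit 0) (nat_lit 9939608531165) (nat_lit 152) (nat_lit 11933046087187) (nat_lit 0) (nat_lit 9243283344395) (nat_lit 2) (nat_lit 5) (nat_lit 4) (nat_lit 4) (nat_lit 2) (nat_lit 4) (nat_lit 416) (nat_lit 375) (nat_lit 229)) (XT.nd (nat_lit 78) (nat_lit 0) (nat_lit 0) (XT.lf (nat_lit 0) (nat_lit 13909298161500) (nat_lit 152) (nat_lit 8273418892677) (nat_lit 0) (nat_lit 13212972974605) (nat_lit 2) (nat_lit 5) (nat_lit 4) (nat_lit 4) (nat_lit 2) (nat_lit 4) (nat_lit 417) (nat_lit 375) (nat_lit 228)) (XT.lf (nat_lit 0) (nat_lit 18474441235519) (nat_lit 152) (nat_lit 4064847620818) (nat_lit 0) (nat_lit 17778116048516) (nat_lit 2) (nat_lit 5) (nat_lit 4) (nat_lit 4) (nat_lit 2) (nat_lit 4) (nat_lit 418) (nat_lit 375) (nat_lit 227)))) (XT.nd (nat_lit 78) (nat_lit 0) (nat_lit 0) (XT.lf (nat_lit 0) (nat_lit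 850748889390) (nat_lit 76) (nat_lit 22908834577781) (nat_lit 76) (nat_lit 22212509390684) (nat_lit 1) (nat_lit 4) (nat_lit 2) (nat_lit 5) (nat_lit 2) (nat_lit 4) (nat_lit 419) (nat_lit 375) (nat_lit 226)) (XT.nd (nat_lit 78) (nat_lit 0) (nat_lit 0) (XT.lf (nat_lit 0) (nat_lit 6960518317454) (nat_lit 76) (nat_lit 23089459386489) (nat_lit 76) (nat_lit 22393134199309) (nat_lit 1) (nat_lit 4) (nat_lit 2) (nat_lit 5) (nat_lit 2) (nat_lit 4) (nat_lit 420) (nat_lit 375) (nat_lit 225)) (XT.lf (nat_lit 0) (nat_lit 13986753158409) (nat_lit 76) (nat_lit 23297177917197) (nat_lit 76) (nat_lit 22600852729946) (nat_lit 1) (nat_lit 4) (nat_lit 2) (nat_lit 5) (nat_lit 2) (nat_lit 4) (nat_lit 421) (nat_lit 375) (nat_lit 224)))))) (XT.nd (nat_lit 390) (nat_lit 456) (nat_lit 0) (XT.nd (nat_lit 156) (nat_lit 0) (nat_lit 76) (XT.nd (nat_lit 78) (nat_lit 0) (nat_lit 0) (XT.lf (nat_lit 0) (nat_lit 80895449183)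 (nat_lit 380) (nat_lit 114862601387) (nat_lit 380) (nat_lit 114862601387) (nat_lit 29) (nat_lit 3) (nat_lit 34) (nat_lit 3) (nat_lit 34) (nat_lit 5) (nat_lit 376) (nat_lit 376) (nat_lit 268)) (XT.lf (nat_lit 76) (nat_lit 81639153641) (nat_lit 0) (nat_lit 95666721659) (nat_lit 380) (nat_lit 490021427290) (nat_lit 30) (nat_lit 5) (nat_lit 29) (nat_lit 3) (nat_lit 34) (nat_lit 5) (nat_lit 377) (nat_lit 376) (nat_lit 267))) (XT.nd (nat_lit 78) (nat_lit 0) (nat_lit 0) (XT.lf (nat_lit 0) (nat_lit 217854971102) (nat_lit 304) (nat_lit 263697362854) (nat_lit 380) (nat_lit 235367836294) (nat_lit 30) (nat_lit 5) (nat_lit 34) (nat_lit 5) (nat_lit 35) (nat_lit 5) (nat_lit 378) (nat_lit 376) (nat_lit 266)) (XT.nd (nat_lit 78) (nat_lit 0) (nat_lit 76) (XT.lf (nat_lit 76) (nat_lit 112008208841) (nat_lit 0) (nat_lit 161671777238) (nat_lit 380) (nat_lit 498892948786) (nat_lit 31) (nat_lit 5) (nat_lit 30)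 (nat_lit 5) (nat_lit 35) (nat_lit 5) (nat_lit 379) (nat_lit 376) (nat_lit 265)) (XT.lf (nat_lit 0) (nat_lit 360857225234) (nat_lit 304) (nat_lit 269994718622) (nat_lit 76) (nat_lit 202274899555) (nat_lit 31) (nat_lit 5) (nat_lit 35) (nat_lit 5) (nat_lit 32) (nat_lit 5) (nat_lit 380) (nat_lit 376) (nat_lit 264))))) (XT.nd (nat_lit 234) (nat_lit 152) (nat_lit 0) (XT.nd (nat_lit 78) (nat_lit 152) (nat_lit 0) (XT.lf (nat_lit 0) (nat_lit 188218639522) (nat_lit 304) (nat_lit 288384780261) (nat_lit 380) (nat_lit 423836563048) (nat_lit 27) (nat_lit 5) (nat_lit 31) (nat_lit 5) (nat_lit 32) (nat_lit 5) (nat_lit 381) (nat_lit 376) (nat_lit 263)) (XT.nd (nat_lit 78) (nat_lit 152) (nat_lit 0) (XT.lf (nat_lit 0) (nat_lit 628863512646) (nat_lit 380) (nat_lit 235264010140) (nat_lit 76) (nat_lit 110849775027) (nat_lit 27) (nat_lit 5) (nat_lit 32) (nat_lit 5) (nat_lit 28) (nat_lit 5) (nat_lit 382) (nat_lit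 376) (nat_lit 262)) (XT.lf (nat_lit 0) (nat_lit 328774034331) (nat_lit 152) (nat_lit 502535010262) (nat_lit 228) (nat_lit 225284201691) (nat_lit 25) (nat_lit 5) (nat_lit 27) (nat_lit 5) (nat_lit 28) (nat_lit 5) (nat_lit 383) (nat_lit 376) (nat_lit 261)))) (XT.nd (nat_lit 78) (nat_lit 152) (nat_lit 0) (XT.lf (nat_lit 0) (nat_lit 1003858234757) (nat_lit 152) (nat_lit 72561049189) (nat_lit 228) (nat_lit 72187621455) (nat_lit 25) (nat_lit 5) (nat_lit 27) (nat_lit 5) (nat_lit 28) (nat_lit 5) (nat_lit 384) (nat_lit 376) (nat_lit 260)) (XT.nd (nat_lit 78) (nat_lit 0) (nat_lit 0) (XT.lf (nat_lit 0) (nat_lit 137133511666) (nat_lit 152) (nat_lit 696581603168) (nat_lit 76) (nat_lit 413686182134) (nat_lit 23) (nat_lit 5) (nat_lit 25) (nat_lit 5) (nat_lit 24) (nat_lit 5) (nat_lit 385) (nat_lit 376) (nat_lit 259)) (XT.lf (nat_lit 0) (nat_lit 381844166524) (nat_lit 152) (nat_lit 141912570) (nat_lit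 76) (nat_lit 976805843939) (nat_lit 23) (nat_lit 5) (nat_lit 25) (nat_lit 5) (nat_lit 24) (nat_lit 5) (nat_lit 386) (nat_lit 376) (nat_lit 258))))))) (XT.nd (nat_lit 858) (nat_lit 608) (nat_lit 0) (XT.nd (nat_lit 390) (nat_lit 380) (nat_lit 0) (XT.nd (nat_lit 156) (nat_lit 152) (nat_lit 0) (XT.nd (nat_lit 78) (nat_lit 76) (nat_lit 0) (XT.lf (nat_lit 0) (nat_lit 707086692255) (nat_lit 228) (nat_lit 609838153215) (nat_lit 76) (nat_lit 163392506649) (nat_lit 21) (nat_lit 5) (nat_lit 24) (nat_lit 5) (nat_lit 22) (nat_lit 4) (nat_lit 387) (nat_lit 376) (nat_lit 257)) (XT.lf (nat_lit 0) (nat_lit 256263072058) (nat_lit 76) (nat_lit 853661407126) (nat_lit 152) (nat_lit 505825784040) (nat_lit 20) (nat_lit 5) (nat_lit 21) (nat_lit 5) (nat_lit 22) (nat_lit 4) (nat_lit 388) (nat_lit 376) (nat_lit 256))) (XT.nd (nat_lit 78) (nat_lit 152) (nat_lit 0) (XT.lf (nat_lit 0) (nat_lit 1320816958808) (nat_lit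 76) (nat_lit 284248869774) (nat_lit 152) (nat_lit 161650598253) (nat_lit 20) (nat_lit 5) (nat_lit 21) (nat_lit 5) (nat_lit 22) (nat_lit 4) (nat_lit 389) (nat_lit 376) (nat_lit 255)) (XT.nd (nat_lit 78) (nat_lit 0) (nat_lit 0) (XT.lf (nat_lit 0) (nat_lit 257446366155) (nat_lit 152) (nat_lit 1298729082518) (nat_lit 76) (nat_lit 376076528624) (nat_lit 18) (nat_lit 5) (nat_lit 20) (nat_lit 5) (nat_lit 19) (nat_lit 4) (nat_lit 390) (nat_lit 376) (nat_lit 254)) (XT.lf (nat_lit 0) (nat_lit 760811889770) (nat_lit 152) (nat_lit 216493216251) (nat_lit 76) (nat_lit 1138465013669) (nat_lit 18) (nat_lit 5) (nat_lit 20) (nat_lit 5) (nat_lit 19) (nat_lit 4) (nat_lit 391) (nat_lit 376) (nat_lit 253))))) (XT.nd (nat_lit 234) (nat_lit 152) (nat_lit 0) (XT.nd (nat_lit 78) (nat_lit 152) (nat_lit 0) (XT.lf (nat_lit 0) (nat_lit 1128549278647) (nat_lit 76) (nat_lit 257863775385) (nat_lit 152) (nat_lit 933393307597)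 (nat_lit 17) (nat_lit 5) (nat_lit 18) (nat_lit 5) (nat_lit 19) (nat_lit 4) (nat_lit 392) (nat_lit 376) (nat_lit 252)) (XT.nd (nat_lit 78) (nat_lit 76) (nat_lit 0) (XT.lf (nat_lit 0) (nat_lit 134809770541) (nat_lit 76) (nat_lit 2012063903657) (nat_lit 76) (nat_lit 401421473474) (nat_lit 16) (nat_lit 4) (nat_lit 17) (nat_lit 5) (nat_lit 17) (nat_lit 4) (nat_lit 393) (nat_lit 376) (nat_lit 251)) (XT.lf (nat_lit 0) (nat_lit 269134395917) (nat_lit 152) (nat_lit 1032003484394) (nat_lit 76) (nat_lit 1496985664417) (nat_lit 15) (nat_lit 5) (nat_lit 17) (nat_lit 5) (nat_lit 16) (nat_lit 4) (nat_lit 394) (nat_lit 376) (nat_lit 250)))) (XT.nd (nat_lit 78) (nat_lit 76) (nat_lit 0) (XT.lf (nat_lit 0) (nat_lit 590122125558) (nat_lit 76) (nat_lit 433489300442) (nat_lit 152) (nat_lit 2055282125149) (nat_lit 14) (nat_lit 5) (nat_lit 15) (nat_lit 5) (nat_lit 16) (nat_lit 4) (nat_lit 395) (nat_lit 376)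 (nat_lit 249)) (XT.nd (nat_lit 78) (nat_lit 76) (nat_lit 0) (XT.lf (nat_lit 0) (nat_lit 1971141213029) (nat_lit 152) (nat_lit 848073099460) (nat_lit 0) (nat_lit 570582565679) (nat_lit 14) (nat_lit 5) (nat_lit 16) (nat_lit 4) (nat_lit 14) (nat_lit 4) (nat_lit 396) (nat_lit 376) (nat_lit 248)) (XT.lf (nat_lit 0) (nat_lit 1117582544788) (nat_lit 76) (nat_lit 2010136976005) (nat_lit 76) (nat_lit 609578325548) (nat_lit 13) (nat_lit 4) (nat_lit 14) (nat_lit 5) (nat_lit 14) (nat_lit 4) (nat_lit 397) (nat_lit 376) (nat_lit 247)))))) (XT.nd (nat_lit 468) (nat_lit 228) (nat_lit 0) (XT.nd (nat_lit 234) (nat_lit 228) (nat_lit 0) (XT.nd (nat_lit 78) (nat_lit 76) (nat_lit 0) (XT.lf (nat_lit 0) (nat_lit 338737477704) (nat_lit 152) (nat_lit 672273076093) (nat_lit 76) (nat_lit 3116954168852) (nat_lit 12) (nat_lit 5) (nat_lit 14) (nat_lit 5) (nat_lit 13) (nat_lit 4) (nat_lit 398) (nat_lit 376) (nat_lit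 246)) (XT.nd (nat_lit 78) (nat_lit 0) (nat_lit 0) (XT.lf (nat_lit 0) (nat_lit 1447237736831) (nat_lit 152) (nat_lit 2884227173355) (nat_lit 0) (nat_lit 229360645084) (nat_lit 11) (nat_lit 5) (nat_lit 13) (nat_lit 4) (nat_lit 11) (nat_lit 4) (nat_lit 399) (nat_lit 376) (nat_lit 245)) (XT.lf (nat_lit 0) (nat_lit 2806971344541) (nat_lit 152) (nat_lit 649806170769) (nat_lit 0) (nat_lit 1589094251018) (nat_lit 11) (nat_lit 5) (nat_lit 13) (nat_lit 4) (nat_lit 11) (nat_lit 4) (nat_lit 400) (nat_lit 376) (nat_lit 244)))) (XT.nd (nat_lit 78) (nat_lit 152) (nat_lit 0) (XT.lf (nat_lit 0) (nat_lit 2107392640662) (nat_lit 76) (nat_lit 2350534984356) (nat_lit 76) (nat_lit 1132657889288) (nat_lit 10) (nat_lit 4) (nat_lit 11) (nat_lit 5) (nat_lit 11) (nat_lit 4) (nat_lit 401) (nat_lit 376) (nat_lit 243)) (XT.nd (nat_lit 78) (nat_lit 76) (nat_lit 0) (XT.lf (nat_lit 0) (nat_lit 162684516851) (nat_lit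 152) (nat_lit 868105385181) (nat_lit 76) (nat_lit 5180012139236) (nat_lit 9) (nat_lit 5) (nat_lit 11) (nat_lit 5) (nat_lit 10) (nat_lit 4) (nat_lit 402) (nat_lit 376) (nat_lit 242)) (XT.lf (nat_lit 0) (nat_lit 1658396699477) (nat_lit 152) (nat_lit 4639886146589) (nat_lit 0) (nat_lit 599373136364) (nat_lit 8) (nat_lit 5) (nat_lit 10) (nat_lit 4) (nat_lit 8) (nat_lit 4) (nat_lit 403) (nat_lit 376) (nat_lit 241))))) (XT.nd (nat_lit 234) (nat_lit 152) (nat_lit 0) (XT.nd (nat_lit 78) (nat_lit 76) (nat_lit 0) (XT.lf (nat_lit 0) (nat_lit 3475090044257) (nat_lit 152) (nat_lit 1781887840035) (nat_lit 0) (nat_lit 2416066480261) (nat_lit 8) (nat_lit 5) (nat_lit 10) (nat_lit 4) (nat_lit 8) (nat_lit 4) (nat_lit 404) (nat_lit 376) (nat_lit 240)) (XT.nd (nat_lit 78) (nat_lit 0) (nat_lit 0) (XT.lf (nat_lit 0) (nat_lit 1651871204457) (nat_lit 76) (nat_lit 3980816647556) (nat_lit 76) (nat_lit 2921793082793)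 (nat_lit 7) (nat_lit 4) (nat_lit 8) (nat_lit 5) (nat_lit 8) (nat_lit 4) (nat_lit 405) (nat_lit 376) (nat_lit 239)) (XT.lf (nat_lit 0) (nat_lit 5800953995084) (nat_lit 76) (nat_lit 2406115470383) (nat_lit 76) (nat_lit 1347091904951) (nat_lit 7) (nat_lit 4) (nat_lit 8) (nat_lit 5) (nat_lit 8) (nat_lit 4) (nat_lit 406) (nat_lit 376) (nat_lit 238)))) (XT.nd (nat_lit 78) (nat_lit 76) (nat_lit 0) (XT.lf (nat_lit 0) (nat_lit 422522477603) (nat_lit 152) (nat_lit 150600239164) (nat_lit 76) (nat_lit 10127790319864) (nat_lit 6) (nat_lit 5) (nat_lit 8) (nat_lit 5) (nat_lit 7) (nat_lit 4) (nat_lit 407) (nat_lit 376) (nat_lit 237)) (XT.nd (nat_lit 78) (nat_lit 0) (nat_lit 0) (XT.lf (nat_lit 0) (nat_lit 2573330231681) (nat_lit 152) (nat_lit 7746234797274) (nat_lit 0) (nat_lit 1652440173839) (nat_lit 5) (nat_lit 5) (nat_lit 7) (nat_lit 4) (nat_lit 5) (nat_lit 4) (nat_lit 408) (nat_lit 376) (nat_lit 236))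 (XT.lf (nat_lit 0) (nat_lit 5082297860749) (nat_lit 152) (nat_lit 4184724723824) (nat_lit 0) (nat_lit 4161407802526) (nat_lit 5) (nat_lit 5) (nat_lit 7) (nat_lit 4) (nat_lit 5) (nat_lit 4) (nat_lit 409) (nat_lit 376) (nat_lit 235))))))))
noncomputable def xc105 : XT := (XT.nd (nat_lit 51402) (nat_lit 0) (nat_lit 304) (XT.nd (nat_lit 858) (nat_lit 0) (nat_lit 0) (XT.nd (nat_lit 390) (nat_lit 76) (nat_lit 0) (XT.nd (nat_lit 156) (nat_lit 152) (nat_lit 0) (XT.nd (nat_lit 78) (nat_lit 76) (nat_lit 0) (XT.lf (nat_lit 0) (nat_lit 7967610632426) (nat_lit 152) (nat_lit 88988143018) (nat_lit 0) (nat_lit 7046720573870) (nat_lit 5) (nat_lit 5) (nat_lit 7) (nat_lit 4) (nat_lit 5) (nat_lit 4) (nat_lit 410) (nat_lit 376) (nat_lit 234)) (XT.lf (nat_lit 0) (nat_lit 5072717293619) (nat_lit 76) (nat_lit 6423053430242) (nat_lit 76) (nat_lit 5502163371399) (nat_lit 4) (nat_lit 4) (nat_lit 5) (nat_lit 5)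 (nat_lit 5) (nat_lit 4) (nat_lit 411) (nat_lit 376) (nat_lit 233))) (XT.nd (nat_lit 78) (nat_lit 152) (nat_lit 0) (XT.lf (nat_lit 0) (nat_lit 11018679596514) (nat_lit 76) (nat_lit 4539126883978) (nat_lit 76) (nat_lit 3618236824883) (nat_lit 4) (nat_lit 4) (nat_lit 5) (nat_lit 5) (nat_lit 5) (nat_lit 4) (nat_lit 412) (nat_lit 376) (nat_lit 232)) (XT.nd (nat_lit 78) (nat_lit 152) (nat_lit 0) (XT.lf (nat_lit 0) (nat_lit 17856536242201) (nat_lit 76) (nat_lit 2372611357155) (nat_lit 76) (nat_lit 1451721297842) (nat_lit 4) (nat_lit 4) (nat_lit 5) (nat_lit 5) (nat_lit 5) (nat_lit 4) (nat_lit 413) (nat_lit 376) (nat_lit 231)) (XT.lf (nat_lit 0) (nat_lit 1007300487121) (nat_lit 152) (nat_lit 23332118622433) (nat_lit 0) (nat_lit 206526522336) (nat_lit 2) (nat_lit 5) (nat_lit 4) (nat_lit 4) (nat_lit 2) (nat_lit 4) (nat_lit 414) (nat_lit 376) (nat_lit 230))))) (XT.nd (nat_lit 234) (nat_lit 76) (nat_lit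 0) (XT.nd (nat_lit 78) (nat_lit 0) (nat_lit 0) (XT.lf (nat_lit 0) (nat_lit 4008956163448) (nat_lit 152) (nat_lit 20564914692073) (nat_lit 0) (nat_lit 3208182198519) (nat_lit 2) (nat_lit 5) (nat_lit 4) (nat_lit 4) (nat_lit 2) (nat_lit 4) (nat_lit 415) (nat_lit 376) (nat_lit 229)) (XT.nd (nat_lit 78) (nat_lit 0) (nat_lit 0) (XT.lf (nat_lit 0) (nat_lit 7460860190229) (nat_lit 152) (nat_lit 17382630174258) (nat_lit 0) (nat_lit 6660086225176) (nat_lit 2) (nat_lit 5) (nat_lit 4) (nat_lit 4) (nat_lit 2) (nat_lit 4) (nat_lit 416) (nat_lit 376) (nat_lit 228)) (XT.lf (nat_lit 0) (nat_lit 11430549820162) (nat_lit 152) (nat_lit 13723002980598) (nat_lit 0) (nat_lit 10629775854999) (nat_lit 2) (nat_lit 5) (nat_lit 4) (nat_lit 4) (nat_lit 2) (nat_lit 4) (nat_lit 417) (nat_lit 376) (nat_lit 227)))) (XT.nd (nat_lit 78) (nat_lit 76) (nat_lit 0) (XT.lf (nat_lit 0) (nat_lit 15995692893831) (nat_lit 152)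 (nat_lit 9514431709478) (nat_lit 0) (nat_lit 15194918928574) (nat_lit 2) (nat_lit 5) (nat_lit 4) (nat_lit 4) (nat_lit 2) (nat_lit 4) (nat_lit 418) (nat_lit 376) (nat_lit 226)) (XT.nd (nat_lit 78) (nat_lit 76) (nat_lit 0) (XT.lf (nat_lit 0) (nat_lit 21245607427896) (nat_lit 152) (nat_lit 4674574749070) (nat_lit 0) (nat_lit 20444833462557) (nat_lit 2) (nat_lit 5) (nat_lit 4) (nat_lit 4) (nat_lit 2) (nat_lit 4) (nat_lit 419) (nat_lit 376) (nat_lit 225)) (XT.lf (nat_lit 0) (nat_lit 978361236993) (nat_lit 76) (nat_lit 26345159756971) (nat_lit 76) (nat_lit 25544385791561) (nat_lit 1) (nat_lit 4) (nat_lit 2) (nat_lit 5) (nat_lit 2) (nat_lit 4) (nat_lit 420) (nat_lit 376) (nat_lit 224)))))) (XT.nd (nat_lit 50076) (nat_lit 0) (nat_lit 1672) (XT.nd (nat_lit 49842) (nat_lit 0) (nat_lit 2204) (XT.nd (nat_lit 49686) (nat_lit 0) (nat_lit 2128) (XT.lf (nat_lit 0) (nat_lit 8004596077416) (nat_lit 76)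 (nat_lit 26552878287960) (nat_lit 76) (nat_lit 25752104322488) (nat_lit 1) (nat_lit 4) (nat_lit 2) (nat_lit 5) (nat_lit 2) (nat_lit 4) (nat_lit 421) (nat_lit 376) (nat_lit 223)) (XT.nd (nat_lit 78) (nat_lit 0) (nat_lit 0) (XT.lf (nat_lit 0) (nat_lit 93029916388) (nat_lit 380) (nat_lit 132091905355) (nat_lit 380) (nat_lit 132091905355) (nat_lit 29) (nat_lit 3) (nat_lit 34) (nat_lit 3) (nat_lit 34) (nat_lit 5) (nat_lit 377) (nat_lit 377) (nat_lit 266)) (XT.lf (nat_lit 76) (nat_lit 93885191327) (nat_lit 0) (nat_lit 110016832655) (nat_lit 380) (nat_lit 563524333578) (nat_lit 30) (nat_lit 5) (nat_lit 29) (nat_lit 3) (nat_lit 34) (nat_lit 5) (nat_lit 378) (nat_lit 377) (nat_lit 265)))) (XT.nd (nat_lit 78) (nat_lit 0) (nat_lit 0) (XT.lf (nat_lit 0) (nat_lit 250533445579) (nat_lit 304) (nat_lit 303251785272) (nat_lit 380) (nat_lit 270672930346) (nat_lit 30) (nat_lit 5) (nat_lit 34) (nat_lit 5)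 (nat_lit 35) (nat_lit 5) (nat_lit 379) (nat_lit 377) (nat_lit 264)) (XT.nd (nat_lit 78) (nat_lit 0) (nat_lit 76) (XT.lf (nat_lit 76) (nat_lit 128809613905) (nat_lit 0) (nat_lit 185922576248) (nat_lit 380) (nat_lit 573726653786) (nat_lit 31) (nat_lit 5) (nat_lit 30) (nat_lit 5) (nat_lit 35) (nat_lit 5) (nat_lit 380) (nat_lit 377) (nat_lit 263)) (XT.lf (nat_lit 0) (nat_lit 414985987122) (nat_lit 304) (nat_lit 310493747078) (nat_lit 76) (nat_lit 232616108804) (nat_lit 31) (nat_lit 5) (nat_lit 35) (nat_lit 5) (nat_lit 32) (nat_lit 5) (nat_lit 381) (nat_lit 377) (nat_lit 262))))) (XT.nd (nat_lit 234) (nat_lit 152) (nat_lit 0) (XT.nd (nat_lit 78) (nat_lit 152) (nat_lit 0) (XT.lf (nat_lit 0) (nat_lit 216451606635) (nat_lit 304) (nat_lit 331642488075) (nat_lit 380) (nat_lit 487411861075) (nat_lit 27) (nat_lit 5) (nat_lit 31) (nat_lit 5) (nat_lit 32) (nat_lit 5) (nat_lit 382) (nat_lit 377) (nat_lit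 261)) (XT.nd (nat_lit 78) (nat_lit 152) (nat_lit 0) (XT.lf (nat_lit 0) (nat_lit 723193180710) (nat_lit 380) (nat_lit 270553441857) (nat_lit 76) (nat_lit 127477248589) (nat_lit 27) (nat_lit 5) (nat_lit 32) (nat_lit 5) (nat_lit 28) (nat_lit 5) (nat_lit 383) (nat_lit 377) (nat_lit 260)) (XT.lf (nat_lit 0) (nat_lit 378090301566) (nat_lit 152) (nat_lit 577915229182) (nat_lit 228) (nat_lit 259076682926) (nat_lit 25) (nat_lit 5) (nat_lit 27) (nat_lit 5) (nat_lit 28) (nat_lit 5) (nat_lit 384) (nat_lit 377) (nat_lit 259)))) (XT.nd (nat_lit 78) (nat_lit 152) (nat_lit 0) (XT.lf (nat_lit 0) (nat_lit 1154437110914) (nat_lit 152) (nat_lit 83445178202) (nat_lit 228) (nat_lit 83015635091) (nat_lit 25) (nat_lit 5) (nat_lit 27) (nat_lit 5) (nat_lit 28) (nat_lit 5) (nat_lit 385) (nat_lit 377) (nat_lit 258)) (XT.nd (nat_lit 78) (nat_lit 0) (nat_lit 0) (XT.lf (nat_lit 0) (nat_lit 157703648626) (nat_lit 152)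 (nat_lit 801068683139) (nat_lit 76) (nat_lit 475739143130) (nat_lit 23) (nat_lit 5) (nat_lit 25) (nat_lit 5) (nat_lit 24) (nat_lit 5) (nat_lit 386) (nat_lit 377) (nat_lit 257)) (XT.lf (nat_lit 0) (nat_lit 439120887337) (nat_lit 152) (nat_lit 163059887) (nat_lit 76) (nat_lit 1123326749813) (nat_lit 23) (nat_lit 5) (nat_lit 25) (nat_lit 5) (nat_lit 24) (nat_lit 5) (nat_lit 387) (nat_lit 377) (nat_lit 256))))))) (XT.nd (nat_lit 858) (nat_lit 608) (nat_lit 0) (XT.nd (nat_lit 390) (nat_lit 380) (nat_lit 0) (XT.nd (nat_lit 156) (nat_lit 152) (nat_lit 0) (XT.nd (nat_lit 78) (nat_lit 76) (nat_lit 0) (XT.lf (nat_lit 0) (nat_lit 813149786782) (nat_lit 228) (nat_lit 701313731415) (nat_lit 76) (nat_lit 187901423070) (nat_lit 21) (nat_lit 5) (nat_lit 24) (nat_lit 5) (nat_lit 22) (nat_lit 4) (nat_lit 388) (nat_lit 377) (nat_lit 255)) (XT.lf (nat_lit 0) (nat_lit 294702671067) (nat_lit 76) (nat_lit 981710564576)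 (nat_lit 152) (nat_lit 581699554318) (nat_lit 20) (nat_lit 5) (nat_lit 21) (nat_lit 5) (nat_lit 22) (nat_lit 4) (nat_lit 389) (nat_lit 377) (nat_lit 254))) (XT.nd (nat_lit 78) (nat_lit 152) (nat_lit 0) (XT.lf (nat_lit 0) (nat_lit 1518939622804) (nat_lit 76) (nat_lit 326886153615) (nat_lit 152) (nat_lit 185898103359) (nat_lit 20) (nat_lit 5) (nat_lit 21) (nat_lit 5) (nat_lit 22) (nat_lit 4) (nat_lit 390) (nat_lit 377) (nat_lit 253)) (XT.nd (nat_lit 78) (nat_lit 0) (nat_lit 0) (XT.lf (nat_lit 0) (nat_lit 296063395234) (nat_lit 152) (nat_lit 1493538314163) (nat_lit 76) (nat_lit 432488053334) (nat_lit 18) (nat_lit 5) (nat_lit 20) (nat_lit 5) (nat_lit 19) (nat_lit 4) (nat_lit 391) (nat_lit 377) (nat_lit 252)) (XT.lf (nat_lit 0) (nat_lit 874933737719) (nat_lit 152) (nat_lit 248967085007) (nat_lit 76) (nat_lit 1309234805212) (nat_lit 18) (nat_lit 5) (nat_lit 20) (nat_lit 5) (nat_lit 19) (nat_lit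 4) (nat_lit 392) (nat_lit 377) (nat_lit 251))))) (XT.nd (nat_lit 234) (nat_lit 152) (nat_lit 0) (XT.nd (nat_lit 78) (nat_lit 152) (nat_lit 0) (XT.lf (nat_lit 0) (nat_lit 1297831778957) (nat_lit 76) (nat_lit 296543293745) (nat_lit 152) (nat_lit 1073402234058) (nat_lit 17) (nat_lit 5) (nat_lit 18) (nat_lit 5) (nat_lit 19) (nat_lit 4) (nat_lit 393) (nat_lit 377) (nat_lit 250)) (XT.nd (nat_lit 78) (nat_lit 76) (nat_lit 0) (XT.lf (nat_lit 0) (nat_lit 155031346507) (nat_lit 76) (nat_lit 2313873437783) (nat_lit 76) (nat_lit 461634626663) (nat_lit 16) (nat_lit 4) (nat_lit 17) (nat_lit 5) (nat_lit 17) (nat_lit 4) (nat_lit 394) (nat_lit 377) (nat_lit 249)) (XT.lf (nat_lit 0) (nat_lit 309504609038) (nat_lit 152) (nat_lit 1186803905795) (nat_lit 76) (nat_lit 1721533553525) (nat_lit 15) (nat_lit 5) (nat_lit 17) (nat_lit 5) (nat_lit 16) (nat_lit 4) (nat_lit 395) (nat_lit 377) (nat_lit 248)))) (XT.nd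 (nat_lit 78) (nat_lit 76) (nat_lit 0) (XT.lf (nat_lit 0) (nat_lit 678640541047) (nat_lit 76) (nat_lit 498512649580) (nat_lit 152) (nat_lit 2363574385569) (nat_lit 14) (nat_lit 5) (nat_lit 15) (nat_lit 5) (nat_lit 16) (nat_lit 4) (nat_lit 396) (nat_lit 377) (nat_lit 247)) (XT.nd (nat_lit 78) (nat_lit 76) (nat_lit 0) (XT.lf (nat_lit 0) (nat_lit 2266812440748) (nat_lit 152) (nat_lit 975283975355) (nat_lit 0) (nat_lit 656169986913) (nat_lit 14) (nat_lit 5) (nat_lit 16) (nat_lit 4) (nat_lit 14) (nat_lit 4) (nat_lit 397) (nat_lit 377) (nat_lit 246)) (XT.lf (nat_lit 0) (nat_lit 1285220011485) (nat_lit 76) (nat_lit 2311657480742) (nat_lit 76) (nat_lit 701015024557) (nat_lit 13) (nat_lit 4) (nat_lit 14) (nat_lit 5) (nat_lit 14) (nat_lit 4) (nat_lit 398) (nat_lit 377) (nat_lit 245)))))) (XT.nd (nat_lit 468) (nat_lit 228) (nat_lit 0) (XT.nd (nat_lit 234) (nat_lit 228) (nat_lit 0) (XT.nd (nat_lit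 78) (nat_lit 76) (nat_lit 0) (XT.lf (nat_lit 0) (nat_lit 389548138827) (nat_lit 152) (nat_lit 773113959747) (nat_lit 76) (nat_lit 3584497326543) (nat_lit 12) (nat_lit 5) (nat_lit 14) (nat_lit 5) (nat_lit 13) (nat_lit 4) (nat_lit 399) (nat_lit 377) (nat_lit 244)) (XT.nd (nat_lit 78) (nat_lit 0) (nat_lit 0) (XT.lf (nat_lit 0) (nat_lit 1664323436274) (nat_lit 152) (nat_lit 3316861171041) (nat_lit 0) (nat_lit 263764775401) (nat_lit 11) (nat_lit 5) (nat_lit 13) (nat_lit 4) (nat_lit 11) (nat_lit 4) (nat_lit 400) (nat_lit 377) (nat_lit 243)) (XT.lf (nat_lit 0) (nat_lit 3228017080065) (nat_lit 152) (nat_lit 747277028282) (nat_lit 0) (nat_lit 1827458417849) (nat_lit 11) (nat_lit 5) (nat_lit 13) (nat_lit 4) (nat_lit 11) (nat_lit 4) (nat_lit 401) (nat_lit 377) (nat_lit 242)))) (XT.nd (nat_lit 78) (nat_lit 152) (nat_lit 0) (XT.lf (nat_lit 0) (nat_lit 2423501601769) (nat_lit 76) (nat_lit 2703115199122)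 (nat_lit 76) (nat_lit 1302556535737) (nat_lit 10) (nat_lit 4) (nat_lit 11) (nat_lit 5) (nat_lit 11) (nat_lit 4) (nat_lit 402) (nat_lit 377) (nat_lit 241)) (XT.nd (nat_lit 78) (nat_lit 76) (nat_lit 0) (XT.lf (nat_lit 0) (nat_lit 187087223643) (nat_lit 152) (nat_lit 998321133566) (nat_lit 76) (nat_lit 5957013985854) (nat_lit 9) (nat_lit 5) (nat_lit 11) (nat_lit 5) (nat_lit 10) (nat_lit 4) (nat_lit 403) (nat_lit 377) (nat_lit 240)) (XT.lf (nat_lit 0) (nat_lit 1907156233390) (nat_lit 152) (nat_lit 5335869008908) (nat_lit 0) (nat_lit 689279133144) (nat_lit 8) (nat_lit 5) (nat_lit 10) (nat_lit 4) (nat_lit 8) (nat_lit 4) (nat_lit 404) (nat_lit 377) (nat_lit 239))))) (XT.nd (nat_lit 234) (nat_lit 152) (nat_lit 0) (XT.nd (nat_lit 78) (nat_lit 76) (nat_lit 0) (XT.lf (nat_lit 0) (nat_lit 3996353576106) (nat_lit 152) (nat_lit 2049170964154) (nat_lit 0) (nat_lit 2778476475192) (nat_lit 8) (nat_lit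 5) (nat_lit 10) (nat_lit 4) (nat_lit 8) (nat_lit 4) (nat_lit 405) (nat_lit 377) (nat_lit 238)) (XT.nd (nat_lit 78) (nat_lit 0) (nat_lit 0) (XT.lf (nat_lit 0) (nat_lit 1899651934654) (nat_lit 76) (nat_lit 4577939119135) (nat_lit 76) (nat_lit 3360062017640) (nat_lit 7) (nat_lit 4) (nat_lit 8) (nat_lit 5) (nat_lit 8) (nat_lit 4) (nat_lit 406) (nat_lit 377) (nat_lit 237)) (XT.lf (nat_lit 0) (nat_lit 6671097137415) (nat_lit 76) (nat_lit 2767032768718) (nat_lit 76) (nat_lit 1549155666718) (nat_lit 7) (nat_lit 4) (nat_lit 8) (nat_lit 5) (nat_lit 8) (nat_lit 4) (nat_lit 407) (nat_lit 377) (nat_lit 236)))) (XT.nd (nat_lit 78) (nat_lit 76) (nat_lit 0) (XT.lf (nat_lit 0) (nat_lit 485900868236) (nat_lit 152) (nat_lit 173190235730) (nat_lit 76) (nat_lit 11646958885309) (nat_lit 6) (nat_lit 5) (nat_lit 8) (nat_lit 5) (nat_lit 7) (nat_lit 4) (nat_lit 408) (nat_lit 377) (nat_lit 235)) (XT.nd (nat_lit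 78) (nat_lit 0) (nat_lit 0) (XT.lf (nat_lit 0) (nat_lit 2959329785307) (nat_lit 152) (nat_lit 8908169977437) (nat_lit 0) (nat_lit 1900306217637) (nat_lit 5) (nat_lit 5) (nat_lit 7) (nat_lit 4) (nat_lit 5) (nat_lit 4) (nat_lit 409) (nat_lit 377) (nat_lit 234)) (XT.lf (nat_lit 0) (nat_lit 5844642556274) (nat_lit 152) (nat_lit 4812433398112) (nat_lit 0) (nat_lit 4785618988315) (nat_lit 5) (nat_lit 5) (nat_lit 7) (nat_lit 4) (nat_lit 5) (nat_lit 4) (nat_lit 410) (nat_lit 377) (nat_lit 233))))))))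
noncomputable def xc106 : XT := (XT.nd (nat_lit 51480) (nat_lit 0) (nat_lit 304) (XT.nd (nat_lit 50544) (nat_lit 0) (nat_lit 1520) (XT.nd (nat_lit 390) (nat_lit 76) (nat_lit 0) (XT.nd (nat_lit 156) (nat_lit 152) (nat_lit 0) (XT.nd (nat_lit 78) (nat_lit 76) (nat_lit 0) (XT.lf (nat_lit 0) (nat_lit 9162752241561) (nat_lit 152) (nat_lit 102336334658) (nat_lit 0) (nat_lit 8103728673351) (nat_lit 5) (nat_lit 5) (nat_lit 7) (nat_lit 4) (nat_lit 5) (nat_lit 4) (nat_lit 411) (nat_lit 377) (nat_lit 232)) (XT.lf (nat_lit 0) (nat_lit 5833624916120) (nat_lit 76) (nat_lit 7386511429909) (nat_lit 76) (nat_lit 6327487861480) (nat_lit 4) (nat_lit 4) (nat_lit 5) (nat_lit 5) (nat_lit 5) (nat_lit 4) (nat_lit 412) (nat_lit 377) (nat_lit 231))) (XT.nd (nat_lit 78) (nat_lit 152) (nat_lit 0) (XT.lf (nat_lit 0) (nat_lit 12671481560738) (nat_lit 76) (nat_lit 5219995903645) (nat_lit 76) (nat_lit 4160972335026)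 (nat_lit 4) (nat_lit 4) (nat_lit 5) (nat_lit 5) (nat_lit 5) (nat_lit 4) (nat_lit 413) (nat_lit 377) (nat_lit 230)) (XT.nd (nat_lit 78) (nat_lit 152) (nat_lit 0) (XT.lf (nat_lit 0) (nat_lit 20535016700049) (nat_lit 76) (nat_lit 2728503049485) (nat_lit 76) (nat_lit 1669479480702) (nat_lit 4) (nat_lit 4) (nat_lit 5) (nat_lit 5) (nat_lit 5) (nat_lit 4) (nat_lit 414) (nat_lit 377) (nat_lit 229)) (XT.lf (nat_lit 0) (nat_lit 1158395570910) (nat_lit 152) (nat_lit 26831936393182) (nat_lit 0) (nat_lit 237505510973) (nat_lit 2) (nat_lit 5) (nat_lit 4) (nat_lit 4) (nat_lit 2) (nat_lit 4) (nat_lit 415) (nat_lit 377) (nat_lit 228))))) (XT.nd (nat_lit 234) (nat_lit 76) (nat_lit 0) (XT.nd (nat_lit 78) (nat_lit 0) (nat_lit 0) (XT.lf (nat_lit 0) (nat_lit 4610299597288) (nat_lit 152) (nat_lit 23649651876217) (nat_lit 0) (nat_lit 3689409537243) (nat_lit 2) (nat_lit 5) (nat_lit 4) (nat_lit 4) (nat_lit 2)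 (nat_lit 4) (nat_lit 416) (nat_lit 377) (nat_lit 227)) (XT.nd (nat_lit 78) (nat_lit 0) (nat_lit 0) (XT.lf (nat_lit 0) (nat_lit 8579989226870) (nat_lit 152) (nat_lit 19990024683296) (nat_lit 0) (nat_lit 7659099166731) (nat_lit 2) (nat_lit 5) (nat_lit 4) (nat_lit 4) (nat_lit 2) (nat_lit 4) (nat_lit 417) (nat_lit 377) (nat_lit 226)) (XT.lf (nat_lit 0) (nat_lit 13145132300235) (nat_lit 152) (nat_lit 15781453412818) (nat_lit 0) (nat_lit 12224242240013) (nat_lit 2) (nat_lit 5) (nat_lit 4) (nat_lit 4) (nat_lit 2) (nat_lit 4) (nat_lit 418) (nat_lit 377) (nat_lit 225)))) (XT.nd (nat_lit 78) (nat_lit 76) (nat_lit 0) (XT.lf (nat_lit 0) (nat_lit 18395046834035) (nat_lit 152) (nat_lit 10941596452968) (nat_lit 0) (nat_lit 17474156773742) (nat_lit 2) (nat_lit 5) (nat_lit 4) (nat_lit 4) (nat_lit 2) (nat_lit 4) (nat_lit 419) (nat_lit 377) (nat_lit 224)) (XT.nd (nat_lit 78) (nat_lit 76) (nat_lit 0) (XT.lf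 (nat_lit 0) (nat_lit 24432448547411) (nat_lit 152) (nat_lit 5375760950186) (nat_lit 0) (nat_lit 23511558487056) (nat_lit 2) (nat_lit 5) (nat_lit 4) (nat_lit 4) (nat_lit 2) (nat_lit 4) (nat_lit 420) (nat_lit 377) (nat_lit 223)) (XT.lf (nat_lit 0) (nat_lit 1125115433276) (nat_lit 76) (nat_lit 30296933714863) (nat_lit 76) (nat_lit 29376043654454) (nat_lit 1) (nat_lit 4) (nat_lit 2) (nat_lit 5) (nat_lit 2) (nat_lit 4) (nat_lit 421) (nat_lit 377) (nat_lit 222)))))) (XT.nd (nat_lit 468) (nat_lit 456) (nat_lit 0) (XT.nd (nat_lit 234) (nat_lit 152) (nat_lit 0) (XT.nd (nat_lit 78) (nat_lit 0) (nat_lit 0) (XT.lf (nat_lit 0) (nat_lit 106984517138) (nat_lit 380) (nat_lit 151905625949) (nat_lit 380) (nat_lit 151905625949) (nat_lit 29) (nat_lit 3) (nat_lit 34) (nat_lit 3) (nat_lit 34) (nat_lit 5) (nat_lit 378) (nat_lit 378) (nat_lit 264)) (XT.nd (nat_lit 78) (nat_lit 0) (nat_lit 76) (XT.lf (nat_lit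 76) (nat_lit 107968094518) (nat_lit 0) (nat_lit 126519435245) (nat_lit 380) (nat_lit 648052750871) (nat_lit 30) (nat_lit 5) (nat_lit 29) (nat_lit 3) (nat_lit 34) (nat_lit 5) (nat_lit 379) (nat_lit 378) (nat_lit 263)) (XT.lf (nat_lit 0) (nat_lit 288113635430) (nat_lit 304) (nat_lit 348739415437) (nat_lit 380) (nat_lit 311273808354) (nat_lit 30) (nat_lit 5) (nat_lit 34) (nat_lit 5) (nat_lit 35) (nat_lit 5) (nat_lit 380) (nat_lit 378) (nat_lit 262)))) (XT.nd (nat_lit 78) (nat_lit 228) (nat_lit 0) (XT.lf (nat_lit 76) (nat_lit 148131187361) (nat_lit 0) (nat_lit 213810987202) (nat_lit 380) (nat_lit 659785472407) (nat_lit 31) (nat_lit 5) (nat_lit 30) (nat_lit 5) (nat_lit 35) (nat_lit 5) (nat_lit 381) (nat_lit 378) (nat_lit 261)) (XT.nd (nat_lit 78) (nat_lit 304) (nat_lit 0) (XT.lf (nat_lit 0) (nat_lit 477234019861) (nat_lit 304) (nat_lit 357067673536) (nat_lit 76) (nat_lit 267508505704) (nat_lit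 31) (nat_lit 5) (nat_lit 35) (nat_lit 5) (nat_lit 32) (nat_lit 5) (nat_lit 382) (nat_lit 378) (nat_lit 260)) (XT.lf (nat_lit 0) (nat_lit 248919477071) (nat_lit 304) (nat_lit 381388854310) (nat_lit 380) (nat_lit 560523499267) (nat_lit 27) (nat_lit 5) (nat_lit 31) (nat_lit 5) (nat_lit 32) (nat_lit 5) (nat_lit 383) (nat_lit 378) (nat_lit 259))))) (XT.nd (nat_lit 234) (nat_lit 304) (nat_lit 0) (XT.nd (nat_lit 78) (nat_lit 152) (nat_lit 0) (XT.lf (nat_lit 0) (nat_lit 831672264559) (nat_lit 380) (nat_lit 311136329740) (nat_lit 76) (nat_lit 146598841403) (nat_lit 27) (nat_lit 5) (nat_lit 32) (nat_lit 5) (nat_lit 28) (nat_lit 5) (nat_lit 384) (nat_lit 378) (nat_lit 258)) (XT.nd (nat_lit 78) (nat_lit 0) (nat_lit 0) (XT.lf (nat_lit 0) (nat_lit 434803969361) (nat_lit 152) (nat_lit 664602488894) (nat_lit 228) (nat_lit 297938072685) (nat_lit 25) (nat_lit 5) (nat_lit 27) (nat_lit 5) (nat_lit 28) (nat_lit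 5) (nat_lit 385) (nat_lit 378) (nat_lit 257)) (XT.lf (nat_lit 0) (nat_lit 1327602784125) (nat_lit 152) (nat_lit 95961933485) (nat_lit 228) (nat_lit 95467882373) (nat_lit 25) (nat_lit 5) (nat_lit 27) (nat_lit 5) (nat_lit 28) (nat_lit 5) (nat_lit 386) (nat_lit 378) (nat_lit 256)))) (XT.nd (nat_lit 78) (nat_lit 152) (nat_lit 0) (XT.lf (nat_lit 0) (nat_lit 181359279255) (nat_lit 152) (nat_lit 921228864245) (nat_lit 76) (nat_lit 547100040063) (nat_lit 23) (nat_lit 5) (nat_lit 25) (nat_lit 5) (nat_lit 24) (nat_lit 5) (nat_lit 387) (nat_lit 378) (nat_lit 255)) (XT.nd (nat_lit 78) (nat_lit 152) (nat_lit 0) (XT.lf (nat_lit 0) (nat_lit 504989092903) (nat_lit 152) (nat_lit 187413335) (nat_lit 76) (nat_lit 1291825784427) (nat_lit 23) (nat_lit 5) (nat_lit 25) (nat_lit 5) (nat_lit 24) (nat_lit 5) (nat_lit 388) (nat_lit 378) (nat_lit 254)) (XT.lf (nat_lit 0) (nat_lit 935122323373) (nat_lit 228) (nat_lit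 806510681652) (nat_lit 76) (nat_lit 216086667096) (nat_lit 21) (nat_lit 5) (nat_lit 24) (nat_lit 5) (nat_lit 22) (nat_lit 4) (nat_lit 389) (nat_lit 378) (nat_lit 253))))))) (XT.nd (nat_lit 858) (nat_lit 532) (nat_lit 0) (XT.nd (nat_lit 390) (nat_lit 380) (nat_lit 0) (XT.nd (nat_lit 156) (nat_lit 228) (nat_lit 0) (XT.nd (nat_lit 78) (nat_lit 0) (nat_lit 0) (XT.lf (nat_lit 0) (nat_lit 338908176227) (nat_lit 76) (nat_lit 1128967108720) (nat_lit 152) (nat_lit 668954413873) (nat_lit 20) (nat_lit 5) (nat_lit 21) (nat_lit 5) (nat_lit 22) (nat_lit 4) (nat_lit 390) (nat_lit 378) (nat_lit 252)) (XT.lf (nat_lit 0) (nat_lit 1746780657094) (nat_lit 76) (nat_lit 375919041402) (nat_lit 152) (nat_lit 213782754869) (nat_lit 20) (nat_lit 5) (nat_lit 21) (nat_lit 5) (nat_lit 22) (nat_lit 4) (nat_lit 391) (nat_lit 378) (nat_lit 251))) (XT.nd (nat_lit 78) (nat_lit 76) (nat_lit 0) (XT.lf (nat_lit 0) (nat_lit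 340472960591) (nat_lit 152) (nat_lit 1717568962434) (nat_lit 76) (nat_lit 497361295676) (nat_lit 18) (nat_lit 5) (nat_lit 20) (nat_lit 5) (nat_lit 19) (nat_lit 4) (nat_lit 392) (nat_lit 378) (nat_lit 250)) (XT.nd (nat_lit 78) (nat_lit 76) (nat_lit 0) (XT.lf (nat_lit 0) (nat_lit 1006173847135) (nat_lit 152) (nat_lit 286312061799) (nat_lit 76) (nat_lit 1505620055856) (nat_lit 18) (nat_lit 5) (nat_lit 20) (nat_lit 5) (nat_lit 19) (nat_lit 4) (nat_lit 393) (nat_lit 378) (nat_lit 249)) (XT.lf (nat_lit 0) (nat_lit 1492506627853) (nat_lit 76) (nat_lit 341024751551) (nat_lit 152) (nat_lit 1234412516479) (nat_lit 17) (nat_lit 5) (nat_lit 18) (nat_lit 5) (nat_lit 19) (nat_lit 4) (nat_lit 394) (nat_lit 378) (nat_lit 248))))) (XT.nd (nat_lit 234) (nat_lit 152) (nat_lit 0) (XT.nd (nat_lit 78) (nat_lit 152) (nat_lit 0) (XT.lf (nat_lit 0) (nat_lit 178286131951) (nat_lit 76) (nat_lit 2660954414568) (nat_lit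 76) (nat_lit 530879769372) (nat_lit 16) (nat_lit 4) (nat_lit 17) (nat_lit 5) (nat_lit 17) (nat_lit 4) (nat_lit 395) (nat_lit 378) (nat_lit 247)) (XT.nd (nat_lit 78) (nat_lit 76) (nat_lit 0) (XT.lf (nat_lit 0) (nat_lit 355930341024) (nat_lit 152) (nat_lit 1364824415099) (nat_lit 76) (nat_lit 1979763616379) (nat_lit 15) (nat_lit 5) (nat_lit 17) (nat_lit 5) (nat_lit 16) (nat_lit 4) (nat_lit 396) (nat_lit 378) (nat_lit 246)) (XT.lf (nat_lit 0) (nat_lit 780436695289) (nat_lit 76) (nat_lit 573289512289) (nat_lit 152) (nat_lit 2718110499281) (nat_lit 14) (nat_lit 5) (nat_lit 15) (nat_lit 5) (nat_lit 16) (nat_lit 4) (nat_lit 397) (nat_lit 378) (nat_lit 245)))) (XT.nd (nat_lit 78) (nat_lit 152) (nat_lit 0) (XT.lf (nat_lit 0) (nat_lit 2606834341464) (nat_lit 152) (nat_lit 1121576504342) (nat_lit 0) (nat_lit 754595512460) (nat_lit 14) (nat_lit 5) (nat_lit 16) (nat_lit 4) (nat_lit 14) (nat_lit 4)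 (nat_lit 398) (nat_lit 378) (nat_lit 244)) (XT.nd (nat_lit 78) (nat_lit 76) (nat_lit 0) (XT.lf (nat_lit 0) (nat_lit 1478003077463) (nat_lit 76) (nat_lit 2658406071348) (nat_lit 76) (nat_lit 806167240568) (nat_lit 13) (nat_lit 4) (nat_lit 14) (nat_lit 5) (nat_lit 14) (nat_lit 4) (nat_lit 399) (nat_lit 378) (nat_lit 243)) (XT.lf (nat_lit 0) (nat_lit 447980389495) (nat_lit 152) (nat_lit 889080994911) (nat_lit 76) (nat_lit 4122171949996) (nat_lit 12) (nat_lit 5) (nat_lit 14) (nat_lit 5) (nat_lit 13) (nat_lit 4) (nat_lit 400) (nat_lit 378) (nat_lit 242)))))) (XT.nd (nat_lit 468) (nat_lit 228) (nat_lit 0) (XT.nd (nat_lit 234) (nat_lit 152) (nat_lit 0) (XT.nd (nat_lit 78) (nat_lit 76) (nat_lit 0) (XT.lf (nat_lit 0) (nat_lit 1913971981143) (nat_lit 152) (nat_lit 3814390287477) (nat_lit 0) (nat_lit 303329517083) (nat_lit 11) (nat_lit 5) (nat_lit 13) (nat_lit 4) (nat_lit 11) (nat_lit 4) (nat_lit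 401) (nat_lit 378) (nat_lit 241)) (XT.nd (nat_lit 78) (nat_lit 76) (nat_lit 0) (XT.lf (nat_lit 0) (nat_lit 3712219667664) (nat_lit 152) (nat_lit 859368531029) (nat_lit 0) (nat_lit 2101577202588) (nat_lit 11) (nat_lit 5) (nat_lit 13) (nat_lit 4) (nat_lit 11) (nat_lit 4) (nat_lit 402) (nat_lit 378) (nat_lit 240)) (XT.lf (nat_lit 0) (nat_lit 2787026891189) (nat_lit 76) (nat_lit 3108582454122) (nat_lit 76) (nat_lit 1497939988163) (nat_lit 10) (nat_lit 4) (nat_lit 11) (nat_lit 5) (nat_lit 11) (nat_lit 4) (nat_lit 403) (nat_lit 378) (nat_lit 239)))) (XT.nd (nat_lit 78) (nat_lit 76) (nat_lit 0) (XT.lf (nat_lit 0) (nat_lit 215150329318) (nat_lit 152) (nat_lit 1148069258691) (nat_lit 76) (nat_lit 6850566103191) (nat_lit 9) (nat_lit 5) (nat_lit 11) (nat_lit 5) (nat_lit 10) (nat_lit 4) (nat_lit 404) (nat_lit 378) (nat_lit 238)) (XT.nd (nat_lit 78) (nat_lit 0) (nat_lit 0) (XT.lf (nat_lit 0) (nat_lit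 2193229690321) (nat_lit 152) (nat_lit 6136249315125) (nat_lit 0) (nat_lit 792671023021) (nat_lit 8) (nat_lit 5) (nat_lit 10) (nat_lit 4) (nat_lit 8) (nat_lit 4) (nat_lit 405) (nat_lit 378) (nat_lit 237)) (XT.lf (nat_lit 0) (nat_lit 4595806631584) (nat_lit 152) (nat_lit 2356546569543) (nat_lit 0) (nat_lit 3195247963779) (nat_lit 8) (nat_lit 5) (nat_lit 10) (nat_lit 4) (nat_lit 8) (nat_lit 4) (nat_lit 406) (nat_lit 378) (nat_lit 236))))) (XT.nd (nat_lit 234) (nat_lit 76) (nat_lit 0) (XT.nd (nat_lit 78) (nat_lit 76) (nat_lit 0) (XT.lf (nat_lit 0) (nat_lit 2184599762303) (nat_lit 76) (nat_lit 5264629967682) (nat_lit 76) (nat_lit 3864071299437) (nat_lit 7) (nat_lit 4) (nat_lit 8) (nat_lit 5) (nat_lit 8) (nat_lit 4) (nat_lit 407) (nat_lit 378) (nat_lit 235)) (XT.nd (nat_lit 78) (nat_lit 76) (nat_lit 0) (XT.lf (nat_lit 0) (nat_lit 7671761740593) (nat_lit 76) (nat_lit 3182087667223) (nat_lit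 76) (nat_lit 1781528998597) (nat_lit 7) (nat_lit 4) (nat_lit 8) (nat_lit 5) (nat_lit 8) (nat_lit 4) (nat_lit 408) (nat_lit 378) (nat_lit 234)) (XT.lf (nat_lit 0) (nat_lit 558786012832) (nat_lit 152) (nat_lit 199168741367) (nat_lit 76) (nat_lit 13394002731312) (nat_lit 6) (nat_lit 5) (nat_lit 8) (nat_lit 5) (nat_lit 7) (nat_lit 4) (nat_lit 409) (nat_lit 378) (nat_lit 233)))) (XT.nd (nat_lit 78) (nat_lit 0) (nat_lit 0) (XT.lf (nat_lit 0) (nat_lit 3403229267375) (nat_lit 152) (nat_lit 10244395444239) (nat_lit 0) (nat_lit 2185352163682) (nat_lit 5) (nat_lit 5) (nat_lit 7) (nat_lit 4) (nat_lit 5) (nat_lit 4) (nat_lit 410) (nat_lit 378) (nat_lit 232)) (XT.nd (nat_lit 78) (nat_lit 0) (nat_lit 0) (XT.lf (nat_lit 0) (nat_lit 6721338952125) (nat_lit 152) (nat_lit 5534298381904) (nat_lit 0) (nat_lit 5503461848214) (nat_lit 5) (nat_lit 5) (nat_lit 7) (nat_lit 4) (nat_lit 5) (nat_lit 4) (nat_lit 411)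 (nat_lit 378) (nat_lit 231)) (XT.lf (nat_lit 0) (nat_lit 10537165088587) (nat_lit 152) (nat_lit 117686762313) (nat_lit 0) (nat_lit 9319287984486) (nat_lit 5) (nat_lit 5) (nat_lit 7) (nat_lit 4) (nat_lit 5) (nat_lit 4) (nat_lit 412) (nat_lit 378) (nat_lit 230))))))))
noncomputable def xc107 : XT := (XT.nd (nat_lit 51480) (nat_lit 0) (nat_lit 228) (XT.nd (nat_lit 50544) (nat_lit 0) (nat_lit 1444) (XT.nd (nat_lit 390) (nat_lit 76) (nat_lit 0) (XT.nd (nat_lit 156) (nat_lit 152) (nat_lit 0) (XT.nd (nat_lit 78) (nat_lit 0) (nat_lit 0) (XT.lf (nat_lit 0) (nat_lit 6708668675057) (nat_lit 76) (nat_lit 8494488133152) (nat_lit 76) (nat_lit 7276611028886) (nat_lit 4) (nat_lit 4) (nat_lit 5) (nat_lit 5) (nat_lit 5) (nat_lit 4) (nat_lit 413) (nat_lit 378) (nat_lit 229)) (XT.lf (nat_lit 0) (nat_lit 14572203813560) (nat_lit 76) (nat_lit 6002995279414) (nat_lit 76) (nat_lit 4785118175005) (nat_lit 4)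 (nat_lit 4) (nat_lit 5) (nat_lit 5) (nat_lit 5) (nat_lit 4) (nat_lit 414) (nat_lit 378) (nat_lit 228))) (XT.nd (nat_lit 78) (nat_lit 152) (nat_lit 0) (XT.lf (nat_lit 0) (nat_lit 23615269221328) (nat_lit 76) (nat_lit 3137778498406) (nat_lit 76) (nat_lit 1919901393872) (nat_lit 4) (nat_lit 4) (nat_lit 5) (nat_lit 5) (nat_lit 5) (nat_lit 4) (nat_lit 415) (nat_lit 378) (nat_lit 227)) (XT.nd (nat_lit 78) (nat_lit 0) (nat_lit 0) (XT.lf (nat_lit 0) (nat_lit 1332154914652) (nat_lit 152) (nat_lit 30856726835058) (nat_lit 0) (nat_lit 273131345398) (nat_lit 2) (nat_lit 5) (nat_lit 4) (nat_lit 4) (nat_lit 2) (nat_lit 4) (nat_lit 416) (nat_lit 378) (nat_lit 226)) (XT.lf (nat_lit 0) (nat_lit 5301844543930) (nat_lit 152) (nat_lit 27197099642779) (nat_lit 0) (nat_lit 4242820974593) (nat_lit 2) (nat_lit 5) (nat_lit 4) (nat_lit 4) (nat_lit 2) (nat_lit 4) (nat_lit 417) (nat_lit 378) (nat_lit 225))))) (XT.nd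 (nat_lit 234) (nat_lit 76) (nat_lit 0) (XT.nd (nat_lit 78) (nat_lit 0) (nat_lit 0) (XT.lf (nat_lit 0) (nat_lit 9866987617030) (nat_lit 152) (nat_lit 22988528372859) (nat_lit 0) (nat_lit 8807964047622) (nat_lit 2) (nat_lit 5) (nat_lit 4) (nat_lit 4) (nat_lit 2) (nat_lit 4) (nat_lit 418) (nat_lit 378) (nat_lit 224)) (XT.nd (nat_lit 78) (nat_lit 0) (nat_lit 0) (XT.lf (nat_lit 0) (nat_lit 15116902150600) (nat_lit 152) (nat_lit 18148671413496) (nat_lit 0) (nat_lit 14057878581130) (nat_lit 2) (nat_lit 5) (nat_lit 4) (nat_lit 4) (nat_lit 2) (nat_lit 4) (nat_lit 419) (nat_lit 378) (nat_lit 223)) (XT.lf (nat_lit 0) (nat_lit 21154303863775) (nat_lit 152) (nat_lit 12582835911136) (nat_lit 0) (nat_lit 20095280294251) (nat_lit 2) (nat_lit 5) (nat_lit 4) (nat_lit 4) (nat_lit 2) (nat_lit 4) (nat_lit 420) (nat_lit 378) (nat_lit 222)))) (XT.nd (nat_lit 78) (nat_lit 76) (nat_lit 0) (XT.lf (nat_lit 0) (nat_lit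 28097315833552) (nat_lit 152) (nat_lit 6182125084212) (nat_lit 0) (nat_lit 27038292263981) (nat_lit 2) (nat_lit 5) (nat_lit 4) (nat_lit 4) (nat_lit 2) (nat_lit 4) (nat_lit 421) (nat_lit 378) (nat_lit 221)) (XT.nd (nat_lit 49764) (nat_lit 0) (nat_lit 2128) (XT.lf (nat_lit 0) (nat_lit 1293882756383) (nat_lit 76) (nat_lit 34841473767817) (nat_lit 76) (nat_lit 33782450198205) (nat_lit 1) (nat_lit 4) (nat_lit 2) (nat_lit 5) (nat_lit 2) (nat_lit 4) (nat_lit 422) (nat_lit 378) (nat_lit 220)) (XT.lf (nat_lit 0) (nat_lit 123032280373) (nat_lit 380) (nat_lit 174691420533) (nat_lit 380) (nat_lit 174691420533) (nat_lit 29) (nat_lit 3) (nat_lit 34) (nat_lit 3) (nat_lit 34) (nat_lit 5) (nat_lit 379) (nat_lit 379) (nat_lit 262)))))) (XT.nd (nat_lit 468) (nat_lit 532) (nat_lit 0) (XT.nd (nat_lit 234) (nat_lit 152) (nat_lit 0) (XT.nd (nat_lit 78) (nat_lit 0) (nat_lit 76) (XT.lf (nat_lit 76) (nat_lit 124163402829)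 (nat_lit 0) (nat_lit 145497409279) (nat_lit 380) (nat_lit 745260487513) (nat_lit 30) (nat_lit 5) (nat_lit 29) (nat_lit 3) (nat_lit 34) (nat_lit 5) (nat_lit 380) (nat_lit 379) (nat_lit 261)) (XT.nd (nat_lit 78) (nat_lit 0) (nat_lit 0) (XT.lf (nat_lit 0) (nat_lit 331330811568) (nat_lit 304) (nat_lit 401050223688) (nat_lit 380) (nat_lit 357964833072) (nat_lit 30) (nat_lit 5) (nat_lit 34) (nat_lit 5) (nat_lit 35) (nat_lit 5) (nat_lit 381) (nat_lit 379) (nat_lit 260)) (XT.lf (nat_lit 76) (nat_lit 170350964799) (nat_lit 0) (nat_lit 245882653820) (nat_lit 380) (nat_lit 758753157581) (nat_lit 31) (nat_lit 5) (nat_lit 30) (nat_lit 5) (nat_lit 35) (nat_lit 5) (nat_lit 382) (nat_lit 379) (nat_lit 259)))) (XT.nd (nat_lit 78) (nat_lit 304) (nat_lit 0) (XT.lf (nat_lit 0) (nat_lit 548819224671) (nat_lit 304) (nat_lit 410627722030) (nat_lit 76) (nat_lit 307634766875) (nat_lit 31) (nat_lit 5) (nat_lit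 35) (nat_lit 5) (nat_lit 32) (nat_lit 5) (nat_lit 383) (nat_lit 379) (nat_lit 258)) (XT.nd (nat_lit 78) (nat_lit 0) (nat_lit 0) (XT.lf (nat_lit 0) (nat_lit 286257496508) (nat_lit 304) (nat_lit 438597177183) (nat_lit 380) (nat_lit 644601917565) (nat_lit 27) (nat_lit 5) (nat_lit 31) (nat_lit 5) (nat_lit 32) (nat_lit 5) (nat_lit 384) (nat_lit 379) (nat_lit 257)) (XT.lf (nat_lit 0) (nat_lit 956423184955) (nat_lit 380) (nat_lit 357806682115) (nat_lit 76) (nat_lit 168588671792) (nat_lit 27) (nat_lit 5) (nat_lit 32) (nat_lit 5) (nat_lit 28) (nat_lit 5) (nat_lit 385) (nat_lit 379) (nat_lit 256))))) (XT.nd (nat_lit 234) (nat_lit 228) (nat_lit 0) (XT.nd (nat_lit 78) (nat_lit 152) (nat_lit 0) (XT.lf (nat_lit 0) (nat_lit 500024657438) (nat_lit 152) (nat_lit 764292843578) (nat_lit 228) (nat_lit 342628698386) (nat_lit 25) (nat_lit 5) (nat_lit 27) (nat_lit 5) (nat_lit 28) (nat_lit 5) (nat_lit 386) (nat_lit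 379) (nat_lit 255)) (XT.nd (nat_lit 78) (nat_lit 152) (nat_lit 0) (XT.lf (nat_lit 0) (nat_lit 1526743282329) (nat_lit 152) (nat_lit 110356207290) (nat_lit 228) (nat_lit 109787990640) (nat_lit 25) (nat_lit 5) (nat_lit 27) (nat_lit 5) (nat_lit 28) (nat_lit 5) (nat_lit 387) (nat_lit 379) (nat_lit 254)) (XT.lf (nat_lit 0) (nat_lit 208563234156) (nat_lit 152) (nat_lit 1059413102113) (nat_lit 76) (nat_lit 629165065326) (nat_lit 23) (nat_lit 5) (nat_lit 25) (nat_lit 5) (nat_lit 24) (nat_lit 5) (nat_lit 388) (nat_lit 379) (nat_lit 253)))) (XT.nd (nat_lit 78) (nat_lit 228) (nat_lit 0) (XT.lf (nat_lit 0) (nat_lit 580737511632) (nat_lit 152) (nat_lit 215445537) (nat_lit 76) (nat_lit 1485599668833) (nat_lit 23) (nat_lit 5) (nat_lit 25) (nat_lit 5) (nat_lit 24) (nat_lit 5) (nat_lit 389) (nat_lit 379) (nat_lit 252)) (XT.nd (nat_lit 78) (nat_lit 76) (nat_lit 0) (XT.lf (nat_lit 0) (nat_lit 1075390723730)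 (nat_lit 228) (nat_lit 927487201120) (nat_lit 76) (nat_lit 248499690273) (nat_lit 21) (nat_lit 5) (nat_lit 24) (nat_lit 5) (nat_lit 22) (nat_lit 4) (nat_lit 390) (nat_lit 379) (nat_lit 251)) (XT.lf (nat_lit 0) (nat_lit 389744481678) (nat_lit 76) (nat_lit 1298312144371) (nat_lit 152) (nat_lit 769297520307) (nat_lit 20) (nat_lit 5) (nat_lit 21) (nat_lit 5) (nat_lit 22) (nat_lit 4) (nat_lit 391) (nat_lit 379) (nat_lit 250))))))) (XT.nd (nat_lit 858) (nat_lit 532) (nat_lit 0) (XT.nd (nat_lit 390) (nat_lit 380) (nat_lit 0) (XT.nd (nat_lit 156) (nat_lit 152) (nat_lit 0) (XT.nd (nat_lit 78) (nat_lit 152) (nat_lit 0) (XT.lf (nat_lit 0) (nat_lit 2008797824369) (nat_lit 76) (nat_lit 432306870955) (nat_lit 152) (nat_lit 245850119710) (nat_lit 20) (nat_lit 5) (nat_lit 21) (nat_lit 5) (nat_lit 22) (nat_lit 4) (nat_lit 392) (nat_lit 379) (nat_lit 249)) (XT.lf (nat_lit 0) (nat_lit 391543947078) (nat_lit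 152) (nat_lit 1975204232052) (nat_lit 76) (nat_lit 571965515994) (nat_lit 18) (nat_lit 5) (nat_lit 20) (nat_lit 5) (nat_lit 19) (nat_lit 4) (nat_lit 393) (nat_lit 379) (nat_lit 248))) (XT.nd (nat_lit 78) (nat_lit 152) (nat_lit 0) (XT.lf (nat_lit 0) (nat_lit 1157099961074) (nat_lit 152) (nat_lit 329258806071) (nat_lit 76) (nat_lit 1731463086814) (nat_lit 18) (nat_lit 5) (nat_lit 20) (nat_lit 5) (nat_lit 19) (nat_lit 4) (nat_lit 394) (nat_lit 379) (nat_lit 247)) (XT.nd (nat_lit 78) (nat_lit 76) (nat_lit 0) (XT.lf (nat_lit 0) (nat_lit 1716382684074) (nat_lit 76) (nat_lit 392178436869) (nat_lit 152) (nat_lit 1419574354111) (nat_lit 17) (nat_lit 5) (nat_lit 18) (nat_lit 5) (nat_lit 19) (nat_lit 4) (nat_lit 395) (nat_lit 379) (nat_lit 246)) (XT.lf (nat_lit 0) (nat_lit 205029114857) (nat_lit 76) (nat_lit 3060097547352) (nat_lit 76) (nat_lit 610511695994) (nat_lit 16) (nat_lit 4) (nat_lit 17)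 (nat_lit 5) (nat_lit 17) (nat_lit 4) (nat_lit 396) (nat_lit 379) (nat_lit 245))))) (XT.nd (nat_lit 234) (nat_lit 228) (nat_lit 0) (XT.nd (nat_lit 78) (nat_lit 76) (nat_lit 0) (XT.lf (nat_lit 0) (nat_lit 409319922901) (nat_lit 152) (nat_lit 1569548019470) (nat_lit 76) (nat_lit 2276728181389) (nat_lit 15) (nat_lit 5) (nat_lit 17) (nat_lit 5) (nat_lit 16) (nat_lit 4) (nat_lit 397) (nat_lit 379) (nat_lit 244)) (XT.nd (nat_lit 78) (nat_lit 0) (nat_lit 0) (XT.lf (nat_lit 0) (nat_lit 897502254845) (nat_lit 76) (nat_lit 659282912873) (nat_lit 152) (nat_lit 3125827040810) (nat_lit 14) (nat_lit 5) (nat_lit 15) (nat_lit 5) (nat_lit 16) (nat_lit 4) (nat_lit 398) (nat_lit 379) (nat_lit 243)) (XT.lf (nat_lit 0) (nat_lit 2997859518850) (nat_lit 152) (nat_lit 1289812929093) (nat_lit 0) (nat_lit 867784860131) (nat_lit 14) (nat_lit 5) (nat_lit 16) (nat_lit 4) (nat_lit 14) (nat_lit 4) (nat_lit 399) (nat_lit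 379) (nat_lit 242)))) (XT.nd (nat_lit 78) (nat_lit 152) (nat_lit 0) (XT.lf (nat_lit 0) (nat_lit 1699703587670) (nat_lit 76) (nat_lit 3057166958229) (nat_lit 76) (nat_lit 927092298166) (nat_lit 13) (nat_lit 4) (nat_lit 14) (nat_lit 5) (nat_lit 14) (nat_lit 4) (nat_lit 400) (nat_lit 379) (nat_lit 241)) (XT.nd (nat_lit 78) (nat_lit 76) (nat_lit 0) (XT.lf (nat_lit 0) (nat_lit 515177470485) (nat_lit 152) (nat_lit 1022443099687) (nat_lit 76) (nat_lit 4740497760999) (nat_lit 12) (nat_lit 5) (nat_lit 14) (nat_lit 5) (nat_lit 13) (nat_lit 4) (nat_lit 401) (nat_lit 379) (nat_lit 240)) (XT.lf (nat_lit 0) (nat_lit 2201067800566) (nat_lit 152) (nat_lit 4386548785820) (nat_lit 0) (nat_lit 348828963830) (nat_lit 11) (nat_lit 5) (nat_lit 13) (nat_lit 4) (nat_lit 11) (nat_lit 4) (nat_lit 402) (nat_lit 379) (nat_lit 239)))))) (XT.nd (nat_lit 468) (nat_lit 228) (nat_lit 0) (XT.nd (nat_lit 234) (nat_lit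 152) (nat_lit 0) (XT.nd (nat_lit 78) (nat_lit 152) (nat_lit 0) (XT.lf (nat_lit 0) (nat_lit 4269052637163) (nat_lit 152) (nat_lit 988273771746) (nat_lit 0) (nat_lit 2416813799658) (nat_lit 11) (nat_lit 5) (nat_lit 13) (nat_lit 4) (nat_lit 11) (nat_lit 4) (nat_lit 403) (nat_lit 379) (nat_lit 238)) (XT.nd (nat_lit 78) (nat_lit 76) (nat_lit 0) (XT.lf (nat_lit 0) (nat_lit 3205080962035) (nat_lit 76) (nat_lit 3574869803437) (nat_lit 76) (nat_lit 1722630965265) (nat_lit 10) (nat_lit 4) (nat_lit 11) (nat_lit 5) (nat_lit 11) (nat_lit 4) (nat_lit 404) (nat_lit 379) (nat_lit 237)) (XT.lf (nat_lit 0) (nat_lit 247422895448) (nat_lit 152) (nat_lit 1320279613537) (nat_lit 76) (nat_lit 7878151033382) (nat_lit 9) (nat_lit 5) (nat_lit 11) (nat_lit 5) (nat_lit 10) (nat_lit 4) (nat_lit 405) (nat_lit 379) (nat_lit 236)))) (XT.nd (nat_lit 78) (nat_lit 76) (nat_lit 0) (XT.lf (nat_lit 0) (nat_lit 2522214160445)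 (nat_lit 152) (nat_lit 7056686678278) (nat_lit 0) (nat_lit 911571691525) (nat_lit 8) (nat_lit 5) (nat_lit 10) (nat_lit 4) (nat_lit 8) (nat_lit 4) (nat_lit 406) (nat_lit 379) (nat_lit 235)) (XT.nd (nat_lit 78) (nat_lit 76) (nat_lit 0) (XT.lf (nat_lit 0) (nat_lit 5285177640736) (nat_lit 152) (nat_lit 2710028525309) (nat_lit 0) (nat_lit 3674535171434) (nat_lit 8) (nat_lit 5) (nat_lit 10) (nat_lit 4) (nat_lit 8) (nat_lit 4) (nat_lit 407) (nat_lit 379) (nat_lit 234)) (XT.lf (nat_lit 0) (nat_lit 2512289754966) (nat_lit 76) (nat_lit 6054324448223) (nat_lit 76) (nat_lit 4443681978589) (nat_lit 7) (nat_lit 4) (nat_lit 8) (nat_lit 5) (nat_lit 8) (nat_lit 4) (nat_lit 408) (nat_lit 379) (nat_lit 233))))) (XT.nd (nat_lit 234) (nat_lit 76) (nat_lit 0) (XT.nd (nat_lit 78) (nat_lit 152) (nat_lit 0) (XT.lf (nat_lit 0) (nat_lit 8822526026306) (nat_lit 76) (nat_lit 3659400804601) (nat_lit 76) (nat_lit 2048758334678)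 (nat_lit 7) (nat_lit 4) (nat_lit 8) (nat_lit 5) (nat_lit 8) (nat_lit 4) (nat_lit 409) (nat_lit 379) (nat_lit 232)) (XT.nd (nat_lit 78) (nat_lit 76) (nat_lit 0) (XT.lf (nat_lit 0) (nat_lit 642603925616) (nat_lit 152) (nat_lit 229044030097) (nat_lit 76) (nat_lit 15403103150994) (nat_lit 6) (nat_lit 5) (nat_lit 8) (nat_lit 5) (nat_lit 7) (nat_lit 4) (nat_lit 410) (nat_lit 379) (nat_lit 231)) (XT.lf (nat_lit 0) (nat_lit 3913713668272) (nat_lit 152) (nat_lit 11781054738332) (nat_lit 0) (nat_lit 2513154998366) (nat_lit 5) (nat_lit 5) (nat_lit 7) (nat_lit 4) (nat_lit 5) (nat_lit 4) (nat_lit 411) (nat_lit 379) (nat_lit 230)))) (XT.nd (nat_lit 78) (nat_lit 76) (nat_lit 0) (XT.lf (nat_lit 0) (nat_lit 7729539804328) (nat_lit 152) (nat_lit 6364443119587) (nat_lit 0) (nat_lit 6328981134257) (nat_lit 5) (nat_lit 5) (nat_lit 7) (nat_lit 4) (nat_lit 5) (nat_lit 4) (nat_lit 412) (nat_lit 379) (nat_lit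 229)) (XT.nd (nat_lit 78) (nat_lit 76) (nat_lit 0) (XT.lf (nat_lit 0) (nat_lit 12117739860035) (nat_lit 152) (nat_lit 135339759614) (nat_lit 0) (nat_lit 10717181189820) (nat_lit 5) (nat_lit 5) (nat_lit 7) (nat_lit 4) (nat_lit 5) (nat_lit 4) (nat_lit 413) (nat_lit 379) (nat_lit 228)) (XT.lf (nat_lit 0) (nat_lit 7714968992587) (nat_lit 76) (nat_lit 9768661344623) (nat_lit 76) (nat_lit 8368102674283) (nat_lit 4) (nat_lit 4) (nat_lit 5) (nat_lit 5) (nat_lit 5) (nat_lit 4) (nat_lit 414) (nat_lit 379) (nat_lit 227))))))))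
noncomputable def xc108 : XT := (XT.nd (nat_lit 51480) (nat_lit 0) (nat_lit 152) (XT.nd (nat_lit 50622) (nat_lit 0) (nat_lit 1368) (XT.nd (nat_lit 390) (nat_lit 0) (nat_lit 0) (XT.nd (nat_lit 156) (nat_lit 152) (nat_lit 0) (XT.nd (nat_lit 78) (nat_lit 0) (nat_lit 0) (XT.lf (nat_lit 0) (nat_lit 16758034399743) (nat_lit 76) (nat_lit 6903444563934) (nat_lit 76) (nat_lit 5502885893486) (nat_lit 4) (nat_lit 4) (nat_lit 5) (nat_lit 5) (nat_lit 5) (nat_lit 4) (nat_lit 415) (nat_lit 379) (nat_lit 226)) (XT.lf (nat_lit 0) (nat_lit 27157559616830) (nat_lit 76) (nat_lit 3608445266738) (nat_lit 76) (nat_lit 2207886596196) (nat_lit 4) (nat_lit 4) (nat_lit 5) (nat_lit 5) (nat_lit 5) (nat_lit 4) (nat_lit 416) (nat_lit 379) (nat_lit 225))) (XT.nd (nat_lit 78) (nat_lit 0) (nat_lit 0) (XT.lf (nat_lit 0) (nat_lit 1531978157980) (nat_lit 152) (nat_lit 35485235847386) (nat_lit 0) (nat_lit 314101053089) (nat_lit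 2) (nat_lit 5) (nat_lit 4) (nat_lit 4) (nat_lit 2) (nat_lit 4) (nat_lit 417) (nat_lit 379) (nat_lit 224)) (XT.nd (nat_lit 78) (nat_lit 0) (nat_lit 0) (XT.lf (nat_lit 0) (nat_lit 6097121230850) (nat_lit 152) (nat_lit 31276664577952) (nat_lit 0) (nat_lit 4879244125897) (nat_lit 2) (nat_lit 5) (nat_lit 4) (nat_lit 4) (nat_lit 2) (nat_lit 4) (nat_lit 418) (nat_lit 379) (nat_lit 223)) (XT.lf (nat_lit 0) (nat_lit 11347035764220) (nat_lit 152) (nat_lit 26436807619011) (nat_lit 0) (nat_lit 10129158659213) (nat_lit 2) (nat_lit 5) (nat_lit 4) (nat_lit 4) (nat_lit 2) (nat_lit 4) (nat_lit 419) (nat_lit 379) (nat_lit 222))))) (XT.nd (nat_lit 49998) (nat_lit 0) (nat_lit 2052) (XT.nd (nat_lit 78) (nat_lit 0) (nat_lit 0) (XT.lf (nat_lit 0) (nat_lit 17384437477221) (nat_lit 152) (nat_lit 20870972117018) (nat_lit 0) (nat_lit 16166560372167) (nat_lit 2) (nat_lit 5) (nat_lit 4) (nat_lit 4) (nat_lit 2) (nat_lit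 4) (nat_lit 420) (nat_lit 379) (nat_lit 221)) (XT.nd (nat_lit 78) (nat_lit 0) (nat_lit 0) (XT.lf (nat_lit 0) (nat_lit 24327449446846) (nat_lit 152) (nat_lit 14470261290413) (nat_lit 0) (nat_lit 23109572341752) (nat_lit 2) (nat_lit 5) (nat_lit 4) (nat_lit 4) (nat_lit 2) (nat_lit 4) (nat_lit 421) (nat_lit 379) (nat_lit 220)) (XT.lf (nat_lit 0) (nat_lit 32311913211633) (nat_lit 152) (nat_lit 7109443840415) (nat_lit 0) (nat_lit 31094036106503) (nat_lit 2) (nat_lit 5) (nat_lit 4) (nat_lit 4) (nat_lit 2) (nat_lit 4) (nat_lit 422) (nat_lit 379) (nat_lit 219)))) (XT.nd (nat_lit 78) (nat_lit 0) (nat_lit 0) (XT.lf (nat_lit 0) (nat_lit 141487187204) (nat_lit 380) (nat_lit 200895096329) (nat_lit 380) (nat_lit 200895096329) (nat_lit 29) (nat_lit 3) (nat_lit 34) (nat_lit 3) (nat_lit 34) (nat_lit 5) (nat_lit 380) (nat_lit 380) (nat_lit 260)) (XT.nd (nat_lit 78) (nat_lit 0) (nat_lit 76) (XT.lf (nat_lit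 76) (nat_lit 142787984432) (nat_lit 0) (nat_lit 167322065091) (nat_lit 380) (nat_lit 857049427567) (nat_lit 30) (nat_lit 5) (nat_lit 29) (nat_lit 3) (nat_lit 34) (nat_lit 5) (nat_lit 381) (nat_lit 380) (nat_lit 259)) (XT.lf (nat_lit 0) (nat_lit 381030532224) (nat_lit 304) (nat_lit 461207678553) (nat_lit 380) (nat_lit 411659522845) (nat_lit 30) (nat_lit 5) (nat_lit 34) (nat_lit 5) (nat_lit 35) (nat_lit 5) (nat_lit 382) (nat_lit 380) (nat_lit 258)))))) (XT.nd (nat_lit 390) (nat_lit 380) (nat_lit 0) (XT.nd (nat_lit 156) (nat_lit 380) (nat_lit 0) (XT.nd (nat_lit 78) (nat_lit 0) (nat_lit 76) (XT.lf (nat_lit 76) (nat_lit 195903684631) (nat_lit 0) (nat_lit 282765065911) (nat_lit 380) (nat_lit 872566028619) (nat_lit 31) (nat_lit 5) (nat_lit 30) (nat_lit 5) (nat_lit 35) (nat_lit 5) (nat_lit 383) (nat_lit 380) (nat_lit 257)) (XT.lf (nat_lit 0) (nat_lit 631142185370) (nat_lit 304) (nat_lit 472221802802)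 (nat_lit 76) (nat_lit 353779970802) (nat_lit 31) (nat_lit 5) (nat_lit 35) (nat_lit 5) (nat_lit 32) (nat_lit 5) (nat_lit 384) (nat_lit 380) (nat_lit 256))) (XT.nd (nat_lit 78) (nat_lit 152) (nat_lit 0) (XT.lf (nat_lit 0) (nat_lit 329196194992) (nat_lit 304) (nat_lit 504386749772) (nat_lit 380) (nat_lit 741292124601) (nat_lit 27) (nat_lit 5) (nat_lit 31) (nat_lit 5) (nat_lit 32) (nat_lit 5) (nat_lit 385) (nat_lit 380) (nat_lit 255)) (XT.nd (nat_lit 78) (nat_lit 152) (nat_lit 0) (XT.lf (nat_lit 0) (nat_lit 1099886723729) (nat_lit 380) (nat_lit 411477611022) (nat_lit 76) (nat_lit 193876975720) (nat_lit 27) (nat_lit 5) (nat_lit 32) (nat_lit 5) (nat_lit 28) (nat_lit 5) (nat_lit 386) (nat_lit 380) (nat_lit 254)) (XT.lf (nat_lit 0) (nat_lit 575028426128) (nat_lit 152) (nat_lit 878936756012) (nat_lit 228) (nat_lit 394022938719) (nat_lit 25) (nat_lit 5) (nat_lit 27) (nat_lit 5) (nat_lit 28) (nat_lit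 5) (nat_lit 387) (nat_lit 380) (nat_lit 253))))) (XT.nd (nat_lit 234) (nat_lit 228) (nat_lit 0) (XT.nd (nat_lit 78) (nat_lit 152) (nat_lit 0) (XT.lf (nat_lit 0) (nat_lit 1755754835612) (nat_lit 152) (nat_lit 126909626121) (nat_lit 228) (nat_lit 126256133214) (nat_lit 25) (nat_lit 5) (nat_lit 27) (nat_lit 5) (nat_lit 28) (nat_lit 5) (nat_lit 388) (nat_lit 380) (nat_lit 252)) (XT.nd (nat_lit 78) (nat_lit 0) (nat_lit 0) (XT.lf (nat_lit 0) (nat_lit 239847766926) (nat_lit 152) (nat_lit 1218324998039) (nat_lit 76) (nat_lit 723539839684) (nat_lit 23) (nat_lit 5) (nat_lit 25) (nat_lit 5) (nat_lit 24) (nat_lit 5) (nat_lit 389) (nat_lit 380) (nat_lit 251)) (XT.lf (nat_lit 0) (nat_lit 667848179809) (nat_lit 152) (nat_lit 247702028) (nat_lit 76) (nat_lit 1708439631818) (nat_lit 23) (nat_lit 5) (nat_lit 25) (nat_lit 5) (nat_lit 24) (nat_lit 5) (nat_lit 390) (nat_lit 380) (nat_lit 250)))) (XT.nd (nat_lit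 78) (nat_lit 76) (nat_lit 0) (XT.lf (nat_lit 0) (nat_lit 1236699371497) (nat_lit 228) (nat_lit 1066610218695) (nat_lit 76) (nat_lit 285774661291) (nat_lit 21) (nat_lit 5) (nat_lit 24) (nat_lit 5) (nat_lit 22) (nat_lit 4) (nat_lit 391) (nat_lit 380) (nat_lit 249)) (XT.nd (nat_lit 78) (nat_lit 0) (nat_lit 0) (XT.lf (nat_lit 0) (nat_lit 448206213678) (nat_lit 76) (nat_lit 1493058942846) (nat_lit 152) (nat_lit 884692106276) (nat_lit 20) (nat_lit 5) (nat_lit 21) (nat_lit 5) (nat_lit 22) (nat_lit 4) (nat_lit 392) (nat_lit 380) (nat_lit 248)) (XT.lf (nat_lit 0) (nat_lit 2310117549979) (nat_lit 76) (nat_lit 497152881441) (nat_lit 152) (nat_lit 282727601078) (nat_lit 20) (nat_lit 5) (nat_lit 21) (nat_lit 5) (nat_lit 22) (nat_lit 4) (nat_lit 393) (nat_lit 380) (nat_lit 247))))))) (XT.nd (nat_lit 858) (nat_lit 532) (nat_lit 0) (XT.nd (nat_lit 390) (nat_lit 304) (nat_lit 0) (XT.nd (nat_lit 156) (nat_lit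 228) (nat_lit 0) (XT.nd (nat_lit 78) (nat_lit 0) (nat_lit 0) (XT.lf (nat_lit 0) (nat_lit 450275571200) (nat_lit 152) (nat_lit 2271484810341) (nat_lit 76) (nat_lit 657760363028) (nat_lit 18) (nat_lit 5) (nat_lit 20) (nat_lit 5) (nat_lit 19) (nat_lit 4) (nat_lit 394) (nat_lit 380) (nat_lit 246)) (XT.lf (nat_lit 0) (nat_lit 1330664983113) (nat_lit 152) (nat_lit 378647577835) (nat_lit 76) (nat_lit 1991182566910) (nat_lit 18) (nat_lit 5) (nat_lit 20) (nat_lit 5) (nat_lit 19) (nat_lit 4) (nat_lit 395) (nat_lit 380) (nat_lit 245))) (XT.nd (nat_lit 78) (nat_lit 152) (nat_lit 0) (XT.lf (nat_lit 0) (nat_lit 1973840133599) (nat_lit 76) (nat_lit 451005181670) (nat_lit 152) (nat_lit 1632510477104) (nat_lit 17) (nat_lit 5) (nat_lit 18) (nat_lit 5) (nat_lit 19) (nat_lit 4) (nat_lit 396) (nat_lit 380) (nat_lit 244)) (XT.nd (nat_lit 78) (nat_lit 76) (nat_lit 0) (XT.lf (nat_lit 0) (nat_lit 235783529808)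 (nat_lit 76) (nat_lit 3519112157224) (nat_lit 76) (nat_lit 702088421067) (nat_lit 16) (nat_lit 4) (nat_lit 17) (nat_lit 5) (nat_lit 17) (nat_lit 4) (nat_lit 397) (nat_lit 380) (nat_lit 243)) (XT.lf (nat_lit 0) (nat_lit 470717934566) (nat_lit 152) (nat_lit 1804980178614) (nat_lit 76) (nat_lit 2618237425651) (nat_lit 15) (nat_lit 5) (nat_lit 17) (nat_lit 5) (nat_lit 16) (nat_lit 4) (nat_lit 398) (nat_lit 380) (nat_lit 242))))) (XT.nd (nat_lit 234) (nat_lit 152) (nat_lit 0) (XT.nd (nat_lit 78) (nat_lit 76) (nat_lit 0) (XT.lf (nat_lit 0) (nat_lit 1032127634858) (nat_lit 76) (nat_lit 758175329948) (nat_lit 152) (nat_lit 3594701071704) (nat_lit 14) (nat_lit 5) (nat_lit 15) (nat_lit 5) (nat_lit 16) (nat_lit 4) (nat_lit 399) (nat_lit 380) (nat_lit 241)) (XT.nd (nat_lit 78) (nat_lit 76) (nat_lit 0) (XT.lf (nat_lit 0) (nat_lit 3447538466463) (nat_lit 152) (nat_lit 1483284829970) (nat_lit 0) (nat_lit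 997952604879) (nat_lit 14) (nat_lit 5) (nat_lit 16) (nat_lit 4) (nat_lit 14) (nat_lit 4) (nat_lit 400) (nat_lit 380) (nat_lit 240)) (XT.lf (nat_lit 0) (nat_lit 1954659162559) (nat_lit 76) (nat_lit 3515741983951) (nat_lit 76) (nat_lit 1066156121351) (nat_lit 13) (nat_lit 4) (nat_lit 14) (nat_lit 5) (nat_lit 14) (nat_lit 4) (nat_lit 401) (nat_lit 380) (nat_lit 239)))) (XT.nd (nat_lit 78) (nat_lit 76) (nat_lit 0) (XT.lf (nat_lit 0) (nat_lit 592454108120) (nat_lit 152) (nat_lit 1175809531022) (nat_lit 76) (nat_lit 5451572439141) (nat_lit 12) (nat_lit 5) (nat_lit 14) (nat_lit 5) (nat_lit 13) (nat_lit 4) (nat_lit 402) (nat_lit 380) (nat_lit 238)) (XT.nd (nat_lit 78) (nat_lit 0) (nat_lit 0) (XT.lf (nat_lit 0) (nat_lit 2531227987476) (nat_lit 152) (nat_lit 5044531069835) (nat_lit 0) (nat_lit 401153322910) (nat_lit 11) (nat_lit 5) (nat_lit 13) (nat_lit 4) (nat_lit 11) (nat_lit 4) (nat_lit 403)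 (nat_lit 380) (nat_lit 237)) (XT.lf (nat_lit 0) (nat_lit 4909410547368) (nat_lit 152) (nat_lit 1136514808065) (nat_lit 0) (nat_lit 2779335882221) (nat_lit 11) (nat_lit 5) (nat_lit 13) (nat_lit 4) (nat_lit 11) (nat_lit 4) (nat_lit 404) (nat_lit 380) (nat_lit 236)))))) (XT.nd (nat_lit 468) (nat_lit 228) (nat_lit 0) (XT.nd (nat_lit 234) (nat_lit 76) (nat_lit 0) (XT.nd (nat_lit 78) (nat_lit 152) (nat_lit 0) (XT.lf (nat_lit 0) (nat_lit 3685843134445) (nat_lit 76) (nat_lit 4111100259735) (nat_lit 76) (nat_lit 1981025594083) (nat_lit 10) (nat_lit 4) (nat_lit 11) (nat_lit 5) (nat_lit 11) (nat_lit 4) (nat_lit 405) (nat_lit 380) (nat_lit 235)) (XT.nd (nat_lit 78) (nat_lit 76) (nat_lit 0) (XT.lf (nat_lit 0) (nat_lit 284536342418) (nat_lit 152) (nat_lit 1518321529891) (nat_lit 76) (nat_lit 9059873699515) (nat_lit 9) (nat_lit 5) (nat_lit 11) (nat_lit 5) (nat_lit 10) (nat_lit 4) (nat_lit 406) (nat_lit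 380) (nat_lit 234)) (XT.lf (nat_lit 0) (nat_lit 2900546297046) (nat_lit 152) (nat_lit 8115189654223) (nat_lit 0) (nat_lit 1048307456635) (nat_lit 8) (nat_lit 5) (nat_lit 10) (nat_lit 4) (nat_lit 8) (nat_lit 4) (nat_lit 407) (nat_lit 380) (nat_lit 233)))) (XT.nd (nat_lit 78) (nat_lit 76) (nat_lit 0) (XT.lf (nat_lit 0) (nat_lit 6077954297746) (nat_lit 152) (nat_lit 3116532781673) (nat_lit 0) (nat_lit 4225715457046) (nat_lit 8) (nat_lit 5) (nat_lit 10) (nat_lit 4) (nat_lit 8) (nat_lit 4) (nat_lit 408) (nat_lit 380) (nat_lit 232)) (XT.nd (nat_lit 78) (nat_lit 0) (nat_lit 0) (XT.lf (nat_lit 0) (nat_lit 2889133239623) (nat_lit 76) (nat_lit 6962473104408) (nat_lit 76) (nat_lit 5110234263457) (nat_lit 7) (nat_lit 4) (nat_lit 8) (nat_lit 5) (nat_lit 8) (nat_lit 4) (nat_lit 409) (nat_lit 380) (nat_lit 231)) (XT.lf (nat_lit 0) (nat_lit 10145904948872) (nat_lit 76) (nat_lit 4208310915684) (nat_lit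 76) (nat_lit 2356072074515) (nat_lit 7) (nat_lit 4) (nat_lit 8) (nat_lit 5) (nat_lit 8) (nat_lit 4) (nat_lit 410) (nat_lit 380) (nat_lit 230))))) (XT.nd (nat_lit 234) (nat_lit 76) (nat_lit 0) (XT.nd (nat_lit 78) (nat_lit 76) (nat_lit 0) (XT.lf (nat_lit 0) (nat_lit 738994522669) (nat_lit 152) (nat_lit 263400617618) (nat_lit 76) (nat_lit 17713568631194) (nat_lit 6) (nat_lit 5) (nat_lit 8) (nat_lit 5) (nat_lit 7) (nat_lit 4) (nat_lit 411) (nat_lit 380) (nat_lit 229)) (XT.nd (nat_lit 78) (nat_lit 0) (nat_lit 0) (XT.lf (nat_lit 0) (nat_lit 4500770726673) (nat_lit 152) (nat_lit 13548212932036) (nat_lit 0) (nat_lit 2890128255783) (nat_lit 5) (nat_lit 5) (nat_lit 7) (nat_lit 4) (nat_lit 5) (nat_lit 4) (nat_lit 412) (nat_lit 380) (nat_lit 228)) (XT.lf (nat_lit 0) (nat_lit 8888970782073) (nat_lit 152) (nat_lit 7319109572703) (nat_lit 0) (nat_lit 7278328311058) (nat_lit 5) (nat_lit 5) (nat_lit 7)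 (nat_lit 4) (nat_lit 5) (nat_lit 4) (nat_lit 413) (nat_lit 380) (nat_lit 227)))) (XT.nd (nat_lit 78) (nat_lit 76) (nat_lit 0) (XT.lf (nat_lit 0) (nat_lit 13935400845210) (nat_lit 152) (nat_lit 155640710667) (nat_lit 0) (nat_lit 12324758374086) (nat_lit 5) (nat_lit 5) (nat_lit 7) (nat_lit 4) (nat_lit 5) (nat_lit 4) (nat_lit 414) (nat_lit 380) (nat_lit 226)) (XT.nd (nat_lit 78) (nat_lit 0) (nat_lit 0) (XT.lf (nat_lit 0) (nat_lit 8872214353778) (nat_lit 76) (nat_lit 11233960539888) (nat_lit 76) (nat_lit 9623318068669) (nat_lit 4) (nat_lit 4) (nat_lit 5) (nat_lit 5) (nat_lit 5) (nat_lit 4) (nat_lit 415) (nat_lit 380) (nat_lit 225)) (XT.lf (nat_lit 0) (nat_lit 19271739570403) (nat_lit 76) (nat_lit 7938961242934) (nat_lit 76) (nat_lit 6328318771633) (nat_lit 4) (nat_lit 4) (nat_lit 5) (nat_lit 5) (nat_lit 5) (nat_lit 4) (nat_lit 416) (nat_lit 380) (nat_lit 224))))))))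
noncomputable def xc109 : XT := (XT.nd (nat_lit 51714) (nat_lit 0) (nat_lit 0) (XT.nd (nat_lit 50778) (nat_lit 0) (nat_lit 1064) (XT.nd (nat_lit 50310) (nat_lit 0) (nat_lit 1900) (XT.nd (nat_lit 156) (nat_lit 0) (nat_lit 0) (XT.nd (nat_lit 78) (nat_lit 152) (nat_lit 0) (XT.lf (nat_lit 0) (nat_lit 31231193568658) (nat_lit 76) (nat_lit 4149712051888) (nat_lit 76) (nat_lit 2539069580517) (nat_lit 4) (nat_lit 4) (nat_lit 5) (nat_lit 5) (nat_lit 5) (nat_lit 4) (nat_lit 417) (nat_lit 380) (nat_lit 223)) (XT.lf (nat_lit 0) (nat_lit 1761774886312) (nat_lit 152) (nat_lit 40808021214716) (nat_lit 0) (nat_lit 361216215500) (nat_lit 2) (nat_lit 5) (nat_lit 4) (nat_lit 4) (nat_lit 2) (nat_lit 4) (nat_lit 418) (nat_lit 380) (nat_lit 222))) (XT.nd (nat_lit 78) (nat_lit 0) (nat_lit 0) (XT.lf (nat_lit 0) (nat_lit 7011689419507) (nat_lit 152) (nat_lit 35968164256142) (nat_lit 0) (nat_lit 5611130748649)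 (nat_lit 2) (nat_lit 5) (nat_lit 4) (nat_lit 4) (nat_lit 2) (nat_lit 4) (nat_lit 419) (nat_lit 380) (nat_lit 221)) (XT.nd (nat_lit 78) (nat_lit 0) (nat_lit 0) (XT.lf (nat_lit 0) (nat_lit 13049091132357) (nat_lit 152) (nat_lit 30402328754469) (nat_lit 0) (nat_lit 11648532461457) (nat_lit 2) (nat_lit 5) (nat_lit 4) (nat_lit 4) (nat_lit 2) (nat_lit 4) (nat_lit 420) (nat_lit 380) (nat_lit 220)) (XT.lf (nat_lit 0) (nat_lit 19992103101851) (nat_lit 152) (nat_lit 24001617928142) (nat_lit 0) (nat_lit 18591544430916) (nat_lit 2) (nat_lit 5) (nat_lit 4) (nat_lit 4) (nat_lit 2) (nat_lit 4) (nat_lit 421) (nat_lit 380) (nat_lit 219))))) (XT.nd (nat_lit 234) (nat_lit 152) (nat_lit 0) (XT.nd (nat_lit 78) (nat_lit 0) (nat_lit 0) (XT.lf (nat_lit 0) (nat_lit 162710314264) (nat_lit 380) (nat_lit 231029332587) (nat_lit 380) (nat_lit 231029332587) (nat_lit 29) (nat_lit 3) (nat_lit 34) (nat_lit 3) (nat_lit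 34) (nat_lit 5) (nat_lit 381) (nat_lit 381) (nat_lit 258)) (XT.nd (nat_lit 78) (nat_lit 0) (nat_lit 76) (XT.lf (nat_lit 76) (nat_lit 164206235918) (nat_lit 0) (nat_lit 192420408443) (nat_lit 380) (nat_lit 985606741081) (nat_lit 30) (nat_lit 5) (nat_lit 29) (nat_lit 3) (nat_lit 34) (nat_lit 5) (nat_lit 382) (nat_lit 381) (nat_lit 257)) (XT.lf (nat_lit 0) (nat_lit 438185186857) (nat_lit 304) (nat_lit 530388770836) (nat_lit 380) (nat_lit 473408424664) (nat_lit 30) (nat_lit 5) (nat_lit 34) (nat_lit 5) (nat_lit 35) (nat_lit 5) (nat_lit 383) (nat_lit 381) (nat_lit 256)))) (XT.nd (nat_lit 78) (nat_lit 228) (nat_lit 0) (XT.lf (nat_lit 76) (nat_lit 225289294120) (nat_lit 0) (nat_lit 325179836396) (nat_lit 380) (nat_lit 1003450855332) (nat_lit 31) (nat_lit 5) (nat_lit 30) (nat_lit 5) (nat_lit 35) (nat_lit 5) (nat_lit 384) (nat_lit 381) (nat_lit 255)) (XT.nd (nat_lit 78) (nat_lit 304) (nat_lit 0)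 (XT.lf (nat_lit 0) (nat_lit 725813571397) (nat_lit 304) (nat_lit 543055014597) (nat_lit 76) (nat_lit 406846958026) (nat_lit 31) (nat_lit 5) (nat_lit 35) (nat_lit 5) (nat_lit 32) (nat_lit 5) (nat_lit 385) (nat_lit 381) (nat_lit 254)) (XT.lf (nat_lit 0) (nat_lit 378575680202) (nat_lit 304) (nat_lit 580044759222) (nat_lit 380) (nat_lit 852485882346) (nat_lit 27) (nat_lit 5) (nat_lit 31) (nat_lit 5) (nat_lit 32) (nat_lit 5) (nat_lit 386) (nat_lit 381) (nat_lit 253)))))) (XT.nd (nat_lit 468) (nat_lit 380) (nat_lit 0) (XT.nd (nat_lit 234) (nat_lit 304) (nat_lit 0) (XT.nd (nat_lit 78) (nat_lit 152) (nat_lit 0) (XT.lf (nat_lit 0) (nat_lit 1264869778436) (nat_lit 380) (nat_lit 473199197166) (nat_lit 76) (nat_lit 222958524468) (nat_lit 27) (nat_lit 5) (nat_lit 32) (nat_lit 5) (nat_lit 28) (nat_lit 5) (nat_lit 387) (nat_lit 381) (nat_lit 252)) (XT.nd (nat_lit 78) (nat_lit 0) (nat_lit 0) (XT.lf (nat_lit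 0) (nat_lit 661282743033) (nat_lit 152) (nat_lit 1010777258751) (nat_lit 228) (nat_lit 453126330813) (nat_lit 25) (nat_lit 5) (nat_lit 27) (nat_lit 5) (nat_lit 28) (nat_lit 5) (nat_lit 388) (nat_lit 381) (nat_lit 251)) (XT.lf (nat_lit 0) (nat_lit 2019118107029) (nat_lit 152) (nat_lit 145946060766) (nat_lit 228) (nat_lit 145194510836) (nat_lit 25) (nat_lit 5) (nat_lit 27) (nat_lit 5) (nat_lit 28) (nat_lit 5) (nat_lit 389) (nat_lit 381) (nat_lit 250)))) (XT.nd (nat_lit 78) (nat_lit 152) (nat_lit 0) (XT.lf (nat_lit 0) (nat_lit 275824967993) (nat_lit 152) (nat_lit 1401073695276) (nat_lit 76) (nat_lit 832070826646) (nat_lit 23) (nat_lit 5) (nat_lit 25) (nat_lit 5) (nat_lit 24) (nat_lit 5) (nat_lit 390) (nat_lit 381) (nat_lit 249)) (XT.nd (nat_lit 78) (nat_lit 152) (nat_lit 0) (XT.lf (nat_lit 0) (nat_lit 768025438109) (nat_lit 152) (nat_lit 284811706) (nat_lit 76) (nat_lit 1964705586164) (nat_lit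 23) (nat_lit 5) (nat_lit 25) (nat_lit 5) (nat_lit 24) (nat_lit 5) (nat_lit 391) (nat_lit 381) (nat_lit 248)) (XT.lf (nat_lit 0) (nat_lit 1422204306867) (nat_lit 228) (nat_lit 1226601704170) (nat_lit 76) (nat_lit 328640873699) (nat_lit 21) (nat_lit 5) (nat_lit 24) (nat_lit 5) (nat_lit 22) (nat_lit 4) (nat_lit 392) (nat_lit 381) (nat_lit 247))))) (XT.nd (nat_lit 234) (nat_lit 152) (nat_lit 0) (XT.nd (nat_lit 78) (nat_lit 152) (nat_lit 0) (XT.lf (nat_lit 0) (nat_lit 515437190908) (nat_lit 76) (nat_lit 1717017766745) (nat_lit 152) (nat_lit 1017395890401) (nat_lit 20) (nat_lit 5) (nat_lit 21) (nat_lit 5) (nat_lit 22) (nat_lit 4) (nat_lit 393) (nat_lit 381) (nat_lit 246)) (XT.nd (nat_lit 78) (nat_lit 152) (nat_lit 0) (XT.lf (nat_lit 0) (nat_lit 2656635221761) (nat_lit 76) (nat_lit 571725798415) (nat_lit 152) (nat_lit 325136713573) (nat_lit 20) (nat_lit 5) (nat_lit 21) (nat_lit 5) (nat_lit 22)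 (nat_lit 4) (nat_lit 394) (nat_lit 381) (nat_lit 245)) (XT.lf (nat_lit 0) (nat_lit 517816931121) (nat_lit 152) (nat_lit 2612207489155) (nat_lit 76) (nat_lit 756424432329) (nat_lit 18) (nat_lit 5) (nat_lit 20) (nat_lit 5) (nat_lit 19) (nat_lit 4) (nat_lit 395) (nat_lit 381) (nat_lit 244)))) (XT.nd (nat_lit 78) (nat_lit 152) (nat_lit 0) (XT.lf (nat_lit 0) (nat_lit 1530264751659) (nat_lit 152) (nat_lit 435444677348) (nat_lit 76) (nat_lit 2289859964857) (nat_lit 18) (nat_lit 5) (nat_lit 20) (nat_lit 5) (nat_lit 19) (nat_lit 4) (nat_lit 396) (nat_lit 381) (nat_lit 243)) (XT.nd (nat_lit 78) (nat_lit 76) (nat_lit 0) (XT.lf (nat_lit 0) (nat_lit 2269916189112) (nat_lit 76) (nat_lit 518655943246) (nat_lit 152) (nat_lit 1877387025892) (nat_lit 17) (nat_lit 5) (nat_lit 18) (nat_lit 5) (nat_lit 19) (nat_lit 4) (nat_lit 397) (nat_lit 381) (nat_lit 242)) (XT.lf (nat_lit 0) (nat_lit 271151095364) (nat_lit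 76) (nat_lit 4046978963997) (nat_lit 76) (nat_lit 807401662053) (nat_lit 16) (nat_lit 4) (nat_lit 17) (nat_lit 5) (nat_lit 17) (nat_lit 4) (nat_lit 398) (nat_lit 381) (nat_lit 241))))))) (XT.nd (nat_lit 858) (nat_lit 456) (nat_lit 0) (XT.nd (nat_lit 390) (nat_lit 304) (nat_lit 0) (XT.nd (nat_lit 156) (nat_lit 152) (nat_lit 0) (XT.nd (nat_lit 78) (nat_lit 76) (nat_lit 0) (XT.lf (nat_lit 0) (nat_lit 541325642317) (nat_lit 152) (nat_lit 2075727172305) (nat_lit 76) (nat_lit 3010973052393) (nat_lit 15) (nat_lit 5) (nat_lit 17) (nat_lit 5) (nat_lit 16) (nat_lit 4) (nat_lit 399) (nat_lit 381) (nat_lit 240)) (XT.lf (nat_lit 0) (nat_lit 1186946811684) (nat_lit 76) (nat_lit 871901614427) (nat_lit 152) (nat_lit 4133906213384) (nat_lit 14) (nat_lit 5) (nat_lit 15) (nat_lit 5) (nat_lit 16) (nat_lit 4) (nat_lit 400) (nat_lit 381) (nat_lit 239))) (XT.nd (nat_lit 78) (nat_lit 152) (nat_lit 0) (XT.lf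 (nat_lit 0) (nat_lit 3964669251392) (nat_lit 152) (nat_lit 1705777525363) (nat_lit 0) (nat_lit 1147645507504) (nat_lit 14) (nat_lit 5) (nat_lit 16) (nat_lit 4) (nat_lit 14) (nat_lit 4) (nat_lit 401) (nat_lit 381) (nat_lit 238)) (XT.nd (nat_lit 78) (nat_lit 76) (nat_lit 0) (XT.lf (nat_lit 0) (nat_lit 2247858064722) (nat_lit 76) (nat_lit 4043103267923) (nat_lit 76) (nat_lit 1226079523267) (nat_lit 13) (nat_lit 4) (nat_lit 14) (nat_lit 5) (nat_lit 14) (nat_lit 4) (nat_lit 402) (nat_lit 381) (nat_lit 237)) (XT.lf (nat_lit 0) (nat_lit 681322237240) (nat_lit 152) (nat_lit 1352180935256) (nat_lit 76) (nat_lit 6269308315592) (nat_lit 12) (nat_lit 5) (nat_lit 14) (nat_lit 5) (nat_lit 13) (nat_lit 4) (nat_lit 403) (nat_lit 381) (nat_lit 236))))) (XT.nd (nat_lit 234) (nat_lit 152) (nat_lit 0) (XT.nd (nat_lit 78) (nat_lit 76) (nat_lit 0) (XT.lf (nat_lit 0) (nat_lit 2910912198320) (nat_lit 152) (nat_lit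 5801210704708) (nat_lit 0) (nat_lit 461326332316) (nat_lit 11) (nat_lit 5) (nat_lit 13) (nat_lit 4) (nat_lit 11) (nat_lit 4) (nat_lit 404) (nat_lit 381) (nat_lit 235)) (XT.nd (nat_lit 78) (nat_lit 76) (nat_lit 0) (XT.lf (nat_lit 0) (nat_lit 5645822140536) (nat_lit 152) (nat_lit 1306992007012) (nat_lit 0) (nat_lit 3196236274093) (nat_lit 11) (nat_lit 5) (nat_lit 13) (nat_lit 4) (nat_lit 11) (nat_lit 4) (nat_lit 405) (nat_lit 381) (nat_lit 234)) (XT.lf (nat_lit 0) (nat_lit 4238719625862) (nat_lit 76) (nat_lit 4727765287944) (nat_lit 76) (nat_lit 2278179421119) (nat_lit 10) (nat_lit 4) (nat_lit 11) (nat_lit 5) (nat_lit 11) (nat_lit 4) (nat_lit 406) (nat_lit 381) (nat_lit 233)))) (XT.nd (nat_lit 78) (nat_lit 76) (nat_lit 0) (XT.lf (nat_lit 0) (nat_lit 327216803347) (nat_lit 152) (nat_lit 1746069739959) (nat_lit 76) (nat_lit 10418854762854) (nat_lit 9) (nat_lit 5) (nat_lit 11) (nat_lit 5)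 (nat_lit 10) (nat_lit 4) (nat_lit 407) (nat_lit 381) (nat_lit 232)) (XT.nd (nat_lit 78) (nat_lit 0) (nat_lit 0) (XT.lf (nat_lit 0) (nat_lit 3335628251080) (nat_lit 152) (nat_lit 9332468082850) (nat_lit 0) (nat_lit 1205553583736) (nat_lit 8) (nat_lit 5) (nat_lit 10) (nat_lit 4) (nat_lit 8) (nat_lit 4) (nat_lit 408) (nat_lit 381) (nat_lit 231)) (XT.lf (nat_lit 0) (nat_lit 6989647450649) (nat_lit 152) (nat_lit 3584012681962) (nat_lit 0) (nat_lit 4859572783086) (nat_lit 8) (nat_lit 5) (nat_lit 10) (nat_lit 4) (nat_lit 8) (nat_lit 4) (nat_lit 409) (nat_lit 381) (nat_lit 230)))))) (XT.nd (nat_lit 468) (nat_lit 228) (nat_lit 0) (XT.nd (nat_lit 234) (nat_lit 76) (nat_lit 0) (XT.nd (nat_lit 78) (nat_lit 76) (nat_lit 0) (XT.lf (nat_lit 0) (nat_lit 3322503241758) (nat_lit 76) (nat_lit 8006844061715) (nat_lit 76) (nat_lit 5876769393962) (nat_lit 7) (nat_lit 4) (nat_lit 8) (nat_lit 5) (nat_lit 8)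 (nat_lit 4) (nat_lit 410) (nat_lit 381) (nat_lit 229)) (XT.nd (nat_lit 78) (nat_lit 76) (nat_lit 0) (XT.lf (nat_lit 0) (nat_lit 11667790705282) (nat_lit 76) (nat_lit 4839557545772) (nat_lit 76) (nat_lit 2709482877855) (nat_lit 7) (nat_lit 4) (nat_lit 8) (nat_lit 5) (nat_lit 8) (nat_lit 4) (nat_lit 411) (nat_lit 381) (nat_lit 228)) (XT.lf (nat_lit 0) (nat_lit 849843707279) (nat_lit 152) (nat_lit 302910697411) (nat_lit 76) (nat_lit 20370603931583) (nat_lit 6) (nat_lit 5) (nat_lit 8) (nat_lit 5) (nat_lit 7) (nat_lit 4) (nat_lit 412) (nat_lit 381) (nat_lit 227)))) (XT.nd (nat_lit 78) (nat_lit 0) (nat_lit 0) (XT.lf (nat_lit 0) (nat_lit 5175886341844) (nat_lit 152) (nat_lit 15580444858952) (nat_lit 0) (nat_lit 3323647499943) (nat_lit 5) (nat_lit 5) (nat_lit 7) (nat_lit 4) (nat_lit 5) (nat_lit 4) (nat_lit 413) (nat_lit 381) (nat_lit 226)) (XT.nd (nat_lit 78) (nat_lit 0) (nat_lit 0) (XT.lf (nat_lit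 0) (nat_lit 10222316404749) (nat_lit 152) (nat_lit 8416975997400) (nat_lit 0) (nat_lit 8370077562754) (nat_lit 5) (nat_lit 5) (nat_lit 7) (nat_lit 4) (nat_lit 5) (nat_lit 4) (nat_lit 414) (nat_lit 381) (nat_lit 225)) (XT.lf (nat_lit 0) (nat_lit 16025710976657) (nat_lit 152) (nat_lit 178986807521) (nat_lit 0) (nat_lit 14173472134580) (nat_lit 5) (nat_lit 5) (nat_lit 7) (nat_lit 4) (nat_lit 5) (nat_lit 4) (nat_lit 415) (nat_lit 381) (nat_lit 224))))) (XT.nd (nat_lit 234) (nat_lit 152) (nat_lit 0) (XT.nd (nat_lit 78) (nat_lit 0) (nat_lit 0) (XT.lf (nat_lit 0) (nat_lit 10203046516148) (nat_lit 76) (nat_lit 12919054616010) (nat_lit 76) (nat_lit 11066815773861) (nat_lit 4) (nat_lit 4) (nat_lit 5) (nat_lit 5) (nat_lit 5) (nat_lit 4) (nat_lit 416) (nat_lit 381) (nat_lit 223)) (XT.nd (nat_lit 78) (nat_lit 0) (nat_lit 0) (XT.lf (nat_lit 0) (nat_lit 22162500514053) (nat_lit 76) (nat_lit 9129805425147)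 (nat_lit 76) (nat_lit 7277566582936) (nat_lit 4) (nat_lit 4) (nat_lit 5) (nat_lit 5) (nat_lit 5) (nat_lit 4) (nat_lit 417) (nat_lit 381) (nat_lit 222)) (XT.lf (nat_lit 0) (nat_lit 35915872610991) (nat_lit 76) (nat_lit 4772168855996) (nat_lit 76) (nat_lit 2919930013731) (nat_lit 4) (nat_lit 4) (nat_lit 5) (nat_lit 5) (nat_lit 5) (nat_lit 4) (nat_lit 418) (nat_lit 381) (nat_lit 221)))) (XT.nd (nat_lit 78) (nat_lit 0) (nat_lit 0) (XT.lf (nat_lit 0) (nat_lit 2026041122763) (nat_lit 152) (nat_lit 46929224389530) (nat_lit 0) (nat_lit 415398651188) (nat_lit 2) (nat_lit 5) (nat_lit 4) (nat_lit 4) (nat_lit 2) (nat_lit 4) (nat_lit 419) (nat_lit 381) (nat_lit 220)) (XT.nd (nat_lit 78) (nat_lit 0) (nat_lit 0) (XT.lf (nat_lit 0) (nat_lit 8063442835481) (nat_lit 152) (nat_lit 41363388888135) (nat_lit 0) (nat_lit 6452800363870) (nat_lit 2) (nat_lit 5) (nat_lit 4) (nat_lit 4) (nat_lit 2) (nat_lit 4)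 (nat_lit 420) (nat_lit 381) (nat_lit 219)) (XT.lf (nat_lit 0) (nat_lit 15006454804861) (nat_lit 152) (nat_lit 34962678062049) (nat_lit 0) (nat_lit 13395812333219) (nat_lit 2) (nat_lit 5) (nat_lit 4) (nat_lit 4) (nat_lit 2) (nat_lit 4) (nat_lit 421) (nat_lit 381) (nat_lit 218))))))))
noncomputable def xc110 : XT := (XT.nd (nat_lit 1794) (nat_lit 760) (nat_lit 0) (XT.nd (nat_lit 858) (nat_lit 836) (nat_lit 0) (XT.nd (nat_lit 390) (nat_lit 456) (nat_lit 0) (XT.nd (nat_lit 156) (nat_lit 0) (nat_lit 76) (XT.nd (nat_lit 78) (nat_lit 0) (nat_lit 0) (XT.lf (nat_lit 0) (nat_lit 187116898439) (nat_lit 380) (nat_lit 265683711158) (nat_lit 380) (nat_lit 265683711158) (nat_lit 29) (nat_lit 3) (nat_lit 34) (nat_lit 3) (nat_lit 34) (nat_lit 5) (nat_lit 382) (nat_lit 382) (nat_lit 256)) (XT.lf (nat_lit 76) (nat_lit 188837212002) (nat_lit 0) (nat_lit 221283495108) (nat_lit 380) (nat_lit 1133447676158)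 (nat_lit 30) (nat_lit 5) (nat_lit 29) (nat_lit 3) (nat_lit 34) (nat_lit 5) (nat_lit 383) (nat_lit 382) (nat_lit 255))) (XT.nd (nat_lit 78) (nat_lit 0) (nat_lit 0) (XT.lf (nat_lit 0) (nat_lit 503913021444) (nat_lit 304) (nat_lit 609947041472) (nat_lit 380) (nat_lit 544419668245) (nat_lit 30) (nat_lit 5) (nat_lit 34) (nat_lit 5) (nat_lit 35) (nat_lit 5) (nat_lit 384) (nat_lit 382) (nat_lit 254)) (XT.nd (nat_lit 78) (nat_lit 0) (nat_lit 76) (XT.lf (nat_lit 76) (nat_lit 259082731184) (nat_lit 0) (nat_lit 373956819871) (nat_lit 380) (nat_lit 1153968424971) (nat_lit 31) (nat_lit 5) (nat_lit 30) (nat_lit 5) (nat_lit 35) (nat_lit 5) (nat_lit 385) (nat_lit 382) (nat_lit 253)) (XT.lf (nat_lit 0) (nat_lit 834685651131) (nat_lit 304) (nat_lit 624513222457) (nat_lit 76) (nat_lit 467873995382) (nat_lit 31) (nat_lit 5) (nat_lit 35) (nat_lit 5) (nat_lit 32) (nat_lit 5) (nat_lit 386) (nat_lit 382) (nat_lit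 252))))) (XT.nd (nat_lit 234) (nat_lit 152) (nat_lit 0) (XT.nd (nat_lit 78) (nat_lit 152) (nat_lit 0) (XT.lf (nat_lit 0) (nat_lit 435362074547) (nat_lit 304) (nat_lit 667051470825) (nat_lit 380) (nat_lit 980358718616) (nat_lit 27) (nat_lit 5) (nat_lit 31) (nat_lit 5) (nat_lit 32) (nat_lit 5) (nat_lit 387) (nat_lit 382) (nat_lit 251)) (XT.nd (nat_lit 78) (nat_lit 152) (nat_lit 0) (XT.lf (nat_lit 0) (nat_lit 1454600280096) (nat_lit 380) (nat_lit 544179034768) (nat_lit 76) (nat_lit 256402304944) (nat_lit 27) (nat_lit 5) (nat_lit 32) (nat_lit 5) (nat_lit 28) (nat_lit 5) (nat_lit 388) (nat_lit 382) (nat_lit 250)) (XT.lf (nat_lit 0) (nat_lit 760475194553) (nat_lit 152) (nat_lit 1162393839501) (nat_lit 228) (nat_lit 521095243599) (nat_lit 25) (nat_lit 5) (nat_lit 27) (nat_lit 5) (nat_lit 28) (nat_lit 5) (nat_lit 389) (nat_lit 382) (nat_lit 249)))) (XT.nd (nat_lit 78) (nat_lit 152) (nat_lit 0)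 (XT.lf (nat_lit 0) (nat_lit 2321985857922) (nat_lit 152) (nat_lit 167837962870) (nat_lit 228) (nat_lit 166973655431) (nat_lit 25) (nat_lit 5) (nat_lit 27) (nat_lit 5) (nat_lit 28) (nat_lit 5) (nat_lit 390) (nat_lit 382) (nat_lit 248)) (XT.nd (nat_lit 78) (nat_lit 0) (nat_lit 0) (XT.lf (nat_lit 0) (nat_lit 317198740434) (nat_lit 152) (nat_lit 1611234709893) (nat_lit 76) (nat_lit 956881458967) (nat_lit 23) (nat_lit 5) (nat_lit 25) (nat_lit 5) (nat_lit 24) (nat_lit 5) (nat_lit 391) (nat_lit 382) (nat_lit 247)) (XT.lf (nat_lit 0) (nat_lit 883229277514) (nat_lit 152) (nat_lit 327498963) (nat_lit 76) (nat_lit 2259411431327) (nat_lit 23) (nat_lit 5) (nat_lit 25) (nat_lit 5) (nat_lit 24) (nat_lit 5) (nat_lit 392) (nat_lit 382) (nat_lit 246)))))) (XT.nd (nat_lit 468) (nat_lit 380) (nat_lit 0) (XT.nd (nat_lit 234) (nat_lit 228) (nat_lit 0) (XT.nd (nat_lit 78) (nat_lit 76) (nat_lit 0) (XT.lf (nat_lit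 0) (nat_lit 1635534975314) (nat_lit 228) (nat_lit 1410591924008) (nat_lit 76) (nat_lit 377937014746) (nat_lit 21) (nat_lit 5) (nat_lit 24) (nat_lit 5) (nat_lit 22) (nat_lit 4) (nat_lit 393) (nat_lit 382) (nat_lit 245)) (XT.nd (nat_lit 78) (nat_lit 0) (nat_lit 0) (XT.lf (nat_lit 0) (nat_lit 592752803705) (nat_lit 76) (nat_lit 1974570418503) (nat_lit 152) (nat_lit 1170005249903) (nat_lit 20) (nat_lit 5) (nat_lit 21) (nat_lit 5) (nat_lit 22) (nat_lit 4) (nat_lit 394) (nat_lit 382) (nat_lit 244)) (XT.lf (nat_lit 0) (nat_lit 3055130534731) (nat_lit 76) (nat_lit 657484656652) (nat_lit 152) (nat_lit 373907199689) (nat_lit 20) (nat_lit 5) (nat_lit 21) (nat_lit 5) (nat_lit 22) (nat_lit 4) (nat_lit 395) (nat_lit 382) (nat_lit 243)))) (XT.nd (nat_lit 78) (nat_lit 76) (nat_lit 0) (XT.lf (nat_lit 0) (nat_lit 595489489119) (nat_lit 152) (nat_lit 3004038580213) (nat_lit 76) (nat_lit 869888108405) (nat_lit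 18) (nat_lit 5) (nat_lit 20) (nat_lit 5) (nat_lit 19) (nat_lit 4) (nat_lit 396) (nat_lit 382) (nat_lit 242)) (XT.nd (nat_lit 78) (nat_lit 76) (nat_lit 0) (XT.lf (nat_lit 0) (nat_lit 1759804480347) (nat_lit 152) (nat_lit 500761350850) (nat_lit 76) (nat_lit 2633338969347) (nat_lit 18) (nat_lit 5) (nat_lit 20) (nat_lit 5) (nat_lit 19) (nat_lit 4) (nat_lit 397) (nat_lit 382) (nat_lit 241)) (XT.lf (nat_lit 0) (nat_lit 2610403644302) (nat_lit 76) (nat_lit 596454322881) (nat_lit 152) (nat_lit 2158995062552) (nat_lit 17) (nat_lit 5) (nat_lit 18) (nat_lit 5) (nat_lit 19) (nat_lit 4) (nat_lit 398) (nat_lit 382) (nat_lit 240))))) (XT.nd (nat_lit 234) (nat_lit 152) (nat_lit 0) (XT.nd (nat_lit 78) (nat_lit 152) (nat_lit 0) (XT.lf (nat_lit 0) (nat_lit 311823786955) (nat_lit 76) (nat_lit 4654025795886) (nat_lit 76) (nat_lit 928511894594) (nat_lit 16) (nat_lit 4) (nat_lit 17) (nat_lit 5) (nat_lit 17)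 (nat_lit 4) (nat_lit 399) (nat_lit 382) (nat_lit 239)) (XT.nd (nat_lit 78) (nat_lit 76) (nat_lit 0) (XT.lf (nat_lit 0) (nat_lit 622524501946) (nat_lit 152) (nat_lit 2387086223122) (nat_lit 76) (nat_lit 3462619020003) (nat_lit 15) (nat_lit 5) (nat_lit 17) (nat_lit 5) (nat_lit 16) (nat_lit 4) (nat_lit 400) (nat_lit 382) (nat_lit 238)) (XT.lf (nat_lit 0) (nat_lit 1364988857328) (nat_lit 76) (nat_lit 1002686845238) (nat_lit 152) (nat_lit 4753992130968) (nat_lit 14) (nat_lit 5) (nat_lit 15) (nat_lit 5) (nat_lit 16) (nat_lit 4) (nat_lit 401) (nat_lit 382) (nat_lit 237)))) (XT.nd (nat_lit 78) (nat_lit 152) (nat_lit 0) (XT.lf (nat_lit 0) (nat_lit 4559369650414) (nat_lit 152) (nat_lit 1961644132162) (nat_lit 0) (nat_lit 1319792342623) (nat_lit 14) (nat_lit 5) (nat_lit 16) (nat_lit 4) (nat_lit 14) (nat_lit 4) (nat_lit 402) (nat_lit 382) (nat_lit 236)) (XT.nd (nat_lit 78) (nat_lit 76) (nat_lit 0)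 (XT.lf (nat_lit 0) (nat_lit 2585036795436) (nat_lit 76) (nat_lit 4649568747813) (nat_lit 76) (nat_lit 1409991439441) (nat_lit 13) (nat_lit 4) (nat_lit 14) (nat_lit 5) (nat_lit 14) (nat_lit 4) (nat_lit 403) (nat_lit 382) (nat_lit 235)) (XT.lf (nat_lit 0) (nat_lit 783520582582) (nat_lit 152) (nat_lit 1555008056323) (nat_lit 76) (nat_lit 7209704570931) (nat_lit 12) (nat_lit 5) (nat_lit 14) (nat_lit 5) (nat_lit 13) (nat_lit 4) (nat_lit 404) (nat_lit 382) (nat_lit 234))))))) (XT.nd (nat_lit 858) (nat_lit 228) (nat_lit 0) (XT.nd (nat_lit 390) (nat_lit 228) (nat_lit 0) (XT.nd (nat_lit 156) (nat_lit 228) (nat_lit 0) (XT.nd (nat_lit 78) (nat_lit 0) (nat_lit 0) (XT.lf (nat_lit 0) (nat_lit 3347549037688) (nat_lit 152) (nat_lit 6671392291055) (nat_lit 0) (nat_lit 530525290457) (nat_lit 11) (nat_lit 5) (nat_lit 13) (nat_lit 4) (nat_lit 11) (nat_lit 4) (nat_lit 405) (nat_lit 382) (nat_lit 233)) (XT.lf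 (nat_lit 0) (nat_lit 6492695469982) (nat_lit 152) (nat_lit 1503040791230) (nat_lit 0) (nat_lit 3675671722419) (nat_lit 11) (nat_lit 5) (nat_lit 13) (nat_lit 4) (nat_lit 11) (nat_lit 4) (nat_lit 406) (nat_lit 382) (nat_lit 232))) (XT.nd (nat_lit 78) (nat_lit 152) (nat_lit 0) (XT.lf (nat_lit 0) (nat_lit 4874527585810) (nat_lit 76) (nat_lit 5436930073006) (nat_lit 76) (nat_lit 2619906325155) (nat_lit 10) (nat_lit 4) (nat_lit 11) (nat_lit 5) (nat_lit 11) (nat_lit 4) (nat_lit 407) (nat_lit 382) (nat_lit 231)) (XT.nd (nat_lit 78) (nat_lit 76) (nat_lit 0) (XT.lf (nat_lit 0) (nat_lit 376299331083) (nat_lit 152) (nat_lit 2007980186272) (nat_lit 76) (nat_lit 11981682983643) (nat_lit 9) (nat_lit 5) (nat_lit 11) (nat_lit 5) (nat_lit 10) (nat_lit 4) (nat_lit 408) (nat_lit 382) (nat_lit 230)) (XT.lf (nat_lit 0) (nat_lit 3835972495909) (nat_lit 152) (nat_lit 10732338280528) (nat_lit 0) (nat_lit 1386386627804)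 (nat_lit 8) (nat_lit 5) (nat_lit 10) (nat_lit 4) (nat_lit 8) (nat_lit 4) (nat_lit 409) (nat_lit 382) (nat_lit 229))))) (XT.nd (nat_lit 234) (nat_lit 152) (nat_lit 0) (XT.nd (nat_lit 78) (nat_lit 76) (nat_lit 0) (XT.lf (nat_lit 0) (nat_lit 8038094574478) (nat_lit 152) (nat_lit 4121614571431) (nat_lit 0) (nat_lit 5588508706208) (nat_lit 8) (nat_lit 5) (nat_lit 10) (nat_lit 4) (nat_lit 8) (nat_lit 4) (nat_lit 410) (nat_lit 382) (nat_lit 228)) (XT.nd (nat_lit 78) (nat_lit 0) (nat_lit 0) (XT.lf (nat_lit 0) (nat_lit 3820878740264) (nat_lit 76) (nat_lit 9207870664656) (nat_lit 76) (nat_lit 6758284796242) (nat_lit 7) (nat_lit 4) (nat_lit 8) (nat_lit 5) (nat_lit 8) (nat_lit 4) (nat_lit 411) (nat_lit 382) (nat_lit 227)) (XT.lf (nat_lit 0) (nat_lit 13417959321720) (nat_lit 76) (nat_lit 5565491172145) (nat_lit 76) (nat_lit 3115905303607) (nat_lit 7) (nat_lit 4) (nat_lit 8) (nat_lit 5) (nat_lit 8)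 (nat_lit 4) (nat_lit 412) (nat_lit 382) (nat_lit 226)))) (XT.nd (nat_lit 78) (nat_lit 76) (nat_lit 0) (XT.lf (nat_lit 0) (nat_lit 977320268065) (nat_lit 152) (nat_lit 348347292306) (nat_lit 76) (nat_lit 23426194525638) (nat_lit 6) (nat_lit 5) (nat_lit 8) (nat_lit 5) (nat_lit 7) (nat_lit 4) (nat_lit 413) (nat_lit 382) (nat_lit 225)) (XT.nd (nat_lit 78) (nat_lit 0) (nat_lit 0) (XT.lf (nat_lit 0) (nat_lit 5952269297786) (nat_lit 152) (nat_lit 17917511578049) (nat_lit 0) (nat_lit 3822194629315) (nat_lit 5) (nat_lit 5) (nat_lit 7) (nat_lit 4) (nat_lit 5) (nat_lit 4) (nat_lit 414) (nat_lit 382) (nat_lit 224)) (XT.lf (nat_lit 0) (nat_lit 11755663869519) (nat_lit 152) (nat_lit 9679522388536) (nat_lit 0) (nat_lit 9625589200976) (nat_lit 5) (nat_lit 5) (nat_lit 7) (nat_lit 4) (nat_lit 5) (nat_lit 4) (nat_lit 415) (nat_lit 382) (nat_lit 223)))))) (XT.nd (nat_lit 468) (nat_lit 0) (nat_lit 0) (XT.nd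 (nat_lit 234) (nat_lit 152) (nat_lit 0) (XT.nd (nat_lit 78) (nat_lit 76) (nat_lit 0) (XT.lf (nat_lit 0) (nat_lit 18429567626683) (nat_lit 152) (nat_lit 205834821280) (nat_lit 0) (nat_lit 16299492958079) (nat_lit 5) (nat_lit 5) (nat_lit 7) (nat_lit 4) (nat_lit 5) (nat_lit 4) (nat_lit 416) (nat_lit 382) (nat_lit 222)) (XT.nd (nat_lit 78) (nat_lit 0) (nat_lit 0) (XT.lf (nat_lit 0) (nat_lit 11733503500604) (nat_lit 76) (nat_lit 14856912804736) (nat_lit 76) (nat_lit 12726838136077) (nat_lit 4) (nat_lit 4) (nat_lit 5) (nat_lit 5) (nat_lit 5) (nat_lit 4) (nat_lit 417) (nat_lit 382) (nat_lit 221)) (XT.lf (nat_lit 0) (nat_lit 25486875597278) (nat_lit 76) (nat_lit 10499276235723) (nat_lit 76) (nat_lit 8369201567018) (nat_lit 4) (nat_lit 4) (nat_lit 5) (nat_lit 5) (nat_lit 5) (nat_lit 4) (nat_lit 418) (nat_lit 382) (nat_lit 220)))) (XT.nd (nat_lit 78) (nat_lit 152) (nat_lit 0) (XT.lf (nat_lit 0)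 (nat_lit 41303253507959) (nat_lit 76) (nat_lit 5487994181616) (nat_lit 76) (nat_lit 3357919512870) (nat_lit 4) (nat_lit 4) (nat_lit 5) (nat_lit 5) (nat_lit 5) (nat_lit 4) (nat_lit 419) (nat_lit 382) (nat_lit 219)) (XT.nd (nat_lit 78) (nat_lit 0) (nat_lit 0) (XT.lf (nat_lit 0) (nat_lit 2329947293827) (nat_lit 152) (nat_lit 53968608042369) (nat_lit 0) (nat_lit 477708451409) (nat_lit 2) (nat_lit 5) (nat_lit 4) (nat_lit 4) (nat_lit 2) (nat_lit 4) (nat_lit 420) (nat_lit 382) (nat_lit 218)) (XT.lf (nat_lit 0) (nat_lit 9272959263108) (nat_lit 152) (nat_lit 47567897216493) (nat_lit 0) (nat_lit 7420720420662) (nat_lit 2) (nat_lit 5) (nat_lit 4) (nat_lit 4) (nat_lit 2) (nat_lit 4) (nat_lit 421) (nat_lit 382) (nat_lit 217))))) (XT.nd (nat_lit 50232) (nat_lit 0) (nat_lit 2128) (XT.nd (nat_lit 50076) (nat_lit 0) (nat_lit 2052) (XT.lf (nat_lit 0) (nat_lit 17257423027594) (nat_lit 152) (nat_lit 40207079767129)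 (nat_lit 0) (nat_lit 15405184185125) (nat_lit 2) (nat_lit 5) (nat_lit 4) (nat_lit 4) (nat_lit 2) (nat_lit 4) (nat_lit 422) (nat_lit 382) (nat_lit 216)) (XT.nd (nat_lit 78) (nat_lit 0) (nat_lit 0) (XT.lf (nat_lit 0) (nat_lit 215184461208) (nat_lit 380) (nat_lit 305536251712) (nat_lit 380) (nat_lit 305536251712) (nat_lit 29) (nat_lit 3) (nat_lit 34) (nat_lit 3) (nat_lit 34) (nat_lit 5) (nat_lit 383) (nat_lit 383) (nat_lit 254)) (XT.lf (nat_lit 76) (nat_lit 217162824574) (nat_lit 0) (nat_lit 254476038578) (nat_lit 380) (nat_lit 1303464770051) (nat_lit 30) (nat_lit 5) (nat_lit 29) (nat_lit 3) (nat_lit 34) (nat_lit 5) (nat_lit 384) (nat_lit 383) (nat_lit 253)))) (XT.nd (nat_lit 78) (nat_lit 0) (nat_lit 0) (XT.lf (nat_lit 0) (nat_lit 579500017427) (nat_lit 304) (nat_lit 701439063673) (nat_lit 380) (nat_lit 626082603270) (nat_lit 30) (nat_lit 5) (nat_lit 34) (nat_lit 5) (nat_lit 35) (nat_lit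 5) (nat_lit 385) (nat_lit 383) (nat_lit 252)) (XT.nd (nat_lit 78) (nat_lit 0) (nat_lit 76) (XT.lf (nat_lit 76) (nat_lit 297945173334) (nat_lit 0) (nat_lit 430050348911) (nat_lit 380) (nat_lit 1327063644360) (nat_lit 31) (nat_lit 5) (nat_lit 30) (nat_lit 5) (nat_lit 35) (nat_lit 5) (nat_lit 386) (nat_lit 383) (nat_lit 251)) (XT.lf (nat_lit 0) (nat_lit 959888532090) (nat_lit 304) (nat_lit 718190172306) (nat_lit 76) (nat_lit 538055089888) (nat_lit 31) (nat_lit 5) (nat_lit 35) (nat_lit 5) (nat_lit 32) (nat_lit 5) (nat_lit 387) (nat_lit 383) (nat_lit 250))))))))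
noncomputable def xc111 : XT := (XT.nd (nat_lit 1794) (nat_lit 532) (nat_lit 0) (XT.nd (nat_lit 858) (nat_lit 760) (nat_lit 0) (XT.nd (nat_lit 390) (nat_lit 380) (nat_lit 0) (XT.nd (nat_lit 156) (nat_lit 304) (nat_lit 0) (XT.nd (nat_lit 78) (nat_lit 0) (nat_lit 0) (XT.lf (nat_lit 0) (nat_lit 500666417725) (nat_lit 304) (nat_lit 767109189724) (nat_lit 380) (nat_lit 1127412491563) (nat_lit 27) (nat_lit 5) (nat_lit 31) (nat_lit 5) (nat_lit 32) (nat_lit 5) (nat_lit 388) (nat_lit 383) (nat_lit 249)) (XT.lf (nat_lit 0) (nat_lit 1672790348496) (nat_lit 380) (nat_lit 625805858246) (nat_lit 76) (nat_lit 294862652052) (nat_lit 27) (nat_lit 5) (nat_lit 32) (nat_lit 5) (nat_lit 28) (nat_lit 5) (nat_lit 389) (nat_lit 383) (nat_lit 248))) (XT.nd (nat_lit 78) (nat_lit 152) (nat_lit 0) (XT.lf (nat_lit 0) (nat_lit 874546504031) (nat_lit 152) (nat_lit 1336752909329) (nat_lit 228) (nat_lit 599259502287)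 (nat_lit 25) (nat_lit 5) (nat_lit 27) (nat_lit 5) (nat_lit 28) (nat_lit 5) (nat_lit 390) (nat_lit 383) (nat_lit 247)) (XT.nd (nat_lit 78) (nat_lit 152) (nat_lit 0) (XT.lf (nat_lit 0) (nat_lit 2670283762954) (nat_lit 152) (nat_lit 193013651999) (nat_lit 228) (nat_lit 192019679526) (nat_lit 25) (nat_lit 5) (nat_lit 27) (nat_lit 5) (nat_lit 28) (nat_lit 5) (nat_lit 391) (nat_lit 383) (nat_lit 246)) (XT.lf (nat_lit 0) (nat_lit 364778572098) (nat_lit 152) (nat_lit 1852919886378) (nat_lit 76) (nat_lit 1100413684106) (nat_lit 23) (nat_lit 5) (nat_lit 25) (nat_lit 5) (nat_lit 24) (nat_lit 5) (nat_lit 392) (nat_lit 383) (nat_lit 245))))) (XT.nd (nat_lit 234) (nat_lit 152) (nat_lit 0) (XT.nd (nat_lit 78) (nat_lit 228) (nat_lit 0) (XT.lf (nat_lit 0) (nat_lit 1015713687053) (nat_lit 152) (nat_lit 376597721) (nat_lit 76) (nat_lit 2598323151499) (nat_lit 23) (nat_lit 5) (nat_lit 25) (nat_lit 5) (nat_lit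 24) (nat_lit 5) (nat_lit 393) (nat_lit 383) (nat_lit 244)) (XT.nd (nat_lit 78) (nat_lit 76) (nat_lit 0) (XT.lf (nat_lit 0) (nat_lit 1880865238562) (nat_lit 228) (nat_lit 1622180685548) (nat_lit 76) (nat_lit 434627574513) (nat_lit 21) (nat_lit 5) (nat_lit 24) (nat_lit 5) (nat_lit 22) (nat_lit 4) (nat_lit 394) (nat_lit 383) (nat_lit 243)) (XT.lf (nat_lit 0) (nat_lit 681665750091) (nat_lit 76) (nat_lit 2270755971256) (nat_lit 152) (nat_lit 1345506019197) (nat_lit 20) (nat_lit 5) (nat_lit 21) (nat_lit 5) (nat_lit 22) (nat_lit 4) (nat_lit 395) (nat_lit 383) (nat_lit 242)))) (XT.nd (nat_lit 78) (nat_lit 152) (nat_lit 0) (XT.lf (nat_lit 0) (nat_lit 3513400137402) (nat_lit 76) (nat_lit 756107346436) (nat_lit 152) (nat_lit 429993263824) (nat_lit 20) (nat_lit 5) (nat_lit 21) (nat_lit 5) (nat_lit 22) (nat_lit 4) (nat_lit 396) (nat_lit 383) (nat_lit 241)) (XT.nd (nat_lit 78) (nat_lit 0) (nat_lit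 0) (XT.lf (nat_lit 0) (nat_lit 684812926348) (nat_lit 152) (nat_lit 3454644342810) (nat_lit 76) (nat_lit 1000371333154) (nat_lit 18) (nat_lit 5) (nat_lit 20) (nat_lit 5) (nat_lit 19) (nat_lit 4) (nat_lit 397) (nat_lit 383) (nat_lit 240)) (XT.lf (nat_lit 0) (nat_lit 2023775164452) (nat_lit 152) (nat_lit 575875532229) (nat_lit 76) (nat_lit 3028339822131) (nat_lit 18) (nat_lit 5) (nat_lit 20) (nat_lit 5) (nat_lit 19) (nat_lit 4) (nat_lit 398) (nat_lit 383) (nat_lit 239)))))) (XT.nd (nat_lit 468) (nat_lit 380) (nat_lit 0) (XT.nd (nat_lit 234) (nat_lit 152) (nat_lit 0) (XT.nd (nat_lit 78) (nat_lit 152) (nat_lit 0) (XT.lf (nat_lit 0) (nat_lit 3001964211230) (nat_lit 76) (nat_lit 685922462351) (nat_lit 152) (nat_lit 2482844308911) (nat_lit 17) (nat_lit 5) (nat_lit 18) (nat_lit 5) (nat_lit 19) (nat_lit 4) (nat_lit 399) (nat_lit 383) (nat_lit 238)) (XT.nd (nat_lit 78) (nat_lit 76) (nat_lit 0)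 (XT.lf (nat_lit 0) (nat_lit 358597375630) (nat_lit 76) (nat_lit 5352129655658) (nat_lit 76) (nat_lit 1067788666105) (nat_lit 16) (nat_lit 4) (nat_lit 17) (nat_lit 5) (nat_lit 17) (nat_lit 4) (nat_lit 400) (nat_lit 383) (nat_lit 237)) (XT.lf (nat_lit 0) (nat_lit 715903187282) (nat_lit 152) (nat_lit 2745149137664) (nat_lit 76) (nat_lit 3982011880376) (nat_lit 15) (nat_lit 5) (nat_lit 17) (nat_lit 5) (nat_lit 16) (nat_lit 4) (nat_lit 401) (nat_lit 383) (nat_lit 236)))) (XT.nd (nat_lit 78) (nat_lit 76) (nat_lit 0) (XT.lf (nat_lit 0) (nat_lit 1569737203993) (nat_lit 76) (nat_lit 1153089863440) (nat_lit 152) (nat_lit 5467090939707) (nat_lit 14) (nat_lit 5) (nat_lit 15) (nat_lit 5) (nat_lit 16) (nat_lit 4) (nat_lit 402) (nat_lit 383) (nat_lit 235)) (XT.nd (nat_lit 78) (nat_lit 76) (nat_lit 0) (XT.lf (nat_lit 0) (nat_lit 5243275106529) (nat_lit 152) (nat_lit 2255890735347) (nat_lit 0) (nat_lit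 1517761200816) (nat_lit 14) (nat_lit 5) (nat_lit 16) (nat_lit 4) (nat_lit 14) (nat_lit 4) (nat_lit 403) (nat_lit 383) (nat_lit 234)) (XT.lf (nat_lit 0) (nat_lit 2972792330634) (nat_lit 76) (nat_lit 5347004052197) (nat_lit 76) (nat_lit 1621490146045) (nat_lit 13) (nat_lit 4) (nat_lit 14) (nat_lit 5) (nat_lit 14) (nat_lit 4) (nat_lit 404) (nat_lit 383) (nat_lit 233))))) (XT.nd (nat_lit 234) (nat_lit 228) (nat_lit 0) (XT.nd (nat_lit 78) (nat_lit 76) (nat_lit 0) (XT.lf (nat_lit 0) (nat_lit 901048677346) (nat_lit 152) (nat_lit 1788259250237) (nat_lit 76) (nat_lit 8291160262620) (nat_lit 12) (nat_lit 5) (nat_lit 14) (nat_lit 5) (nat_lit 13) (nat_lit 4) (nat_lit 405) (nat_lit 383) (nat_lit 232)) (XT.nd (nat_lit 78) (nat_lit 0) (nat_lit 0) (XT.lf (nat_lit 0) (nat_lit 3849681400616) (nat_lit 152) (nat_lit 7672101120075) (nat_lit 0) (nat_lit 610104090297) (nat_lit 11) (nat_lit 5) (nat_lit 13) (nat_lit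 4) (nat_lit 11) (nat_lit 4) (nat_lit 406) (nat_lit 383) (nat_lit 231)) (XT.lf (nat_lit 0) (nat_lit 7466599796805) (nat_lit 152) (nat_lit 1728496897186) (nat_lit 0) (nat_lit 4227022486235) (nat_lit 11) (nat_lit 5) (nat_lit 13) (nat_lit 4) (nat_lit 11) (nat_lit 4) (nat_lit 407) (nat_lit 383) (nat_lit 230)))) (XT.nd (nat_lit 78) (nat_lit 152) (nat_lit 0) (XT.lf (nat_lit 0) (nat_lit 5605706735832) (nat_lit 76) (nat_lit 6252469577811) (nat_lit 76) (nat_lit 3012892267023) (nat_lit 10) (nat_lit 4) (nat_lit 11) (nat_lit 5) (nat_lit 11) (nat_lit 4) (nat_lit 408) (nat_lit 383) (nat_lit 229)) (XT.nd (nat_lit 78) (nat_lit 76) (nat_lit 0) (XT.lf (nat_lit 0) (nat_lit 432744236216) (nat_lit 152) (nat_lit 2309177203112) (nat_lit 76) (nat_lit 13778935436000) (nat_lit 9) (nat_lit 5) (nat_lit 11) (nat_lit 5) (nat_lit 10) (nat_lit 4) (nat_lit 409) (nat_lit 383) (nat_lit 228)) (XT.lf (nat_lit 0) (nat_lit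 4411368375714) (nat_lit 152) (nat_lit 12342189011455) (nat_lit 0) (nat_lit 1594344626895) (nat_lit 8) (nat_lit 5) (nat_lit 10) (nat_lit 4) (nat_lit 8) (nat_lit 4) (nat_lit 410) (nat_lit 383) (nat_lit 227))))))) (XT.nd (nat_lit 858) (nat_lit 76) (nat_lit 0) (XT.nd (nat_lit 390) (nat_lit 228) (nat_lit 0) (XT.nd (nat_lit 156) (nat_lit 152) (nat_lit 0) (XT.nd (nat_lit 78) (nat_lit 76) (nat_lit 0) (XT.lf (nat_lit 0) (nat_lit 9243808765362) (nat_lit 152) (nat_lit 4739856747448) (nat_lit 0) (nat_lit 6426785016417) (nat_lit 8) (nat_lit 5) (nat_lit 10) (nat_lit 4) (nat_lit 8) (nat_lit 4) (nat_lit 411) (nat_lit 383) (nat_lit 226)) (XT.lf (nat_lit 0) (nat_lit 4394010560561) (nat_lit 76) (nat_lit 10589051259577) (nat_lit 76) (nat_lit 7772027510524) (nat_lit 7) (nat_lit 4) (nat_lit 8) (nat_lit 5) (nat_lit 8) (nat_lit 4) (nat_lit 412) (nat_lit 383) (nat_lit 225))) (XT.nd (nat_lit 78) (nat_lit 152)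 (nat_lit 0) (XT.lf (nat_lit 0) (nat_lit 15430653228027) (nat_lit 76) (nat_lit 6400314843814) (nat_lit 76) (nat_lit 3583291094666) (nat_lit 7) (nat_lit 4) (nat_lit 8) (nat_lit 5) (nat_lit 8) (nat_lit 4) (nat_lit 413) (nat_lit 383) (nat_lit 224)) (XT.nd (nat_lit 78) (nat_lit 76) (nat_lit 0) (XT.lf (nat_lit 0) (nat_lit 1123918311825) (nat_lit 152) (nat_lit 400599378805) (nat_lit 76) (nat_lit 26940123707748) (nat_lit 6) (nat_lit 5) (nat_lit 8) (nat_lit 5) (nat_lit 7) (nat_lit 4) (nat_lit 414) (nat_lit 383) (nat_lit 223)) (XT.lf (nat_lit 0) (nat_lit 6845109695982) (nat_lit 152) (nat_lit 20605138307387) (nat_lit 0) (nat_lit 4395523827025) (nat_lit 5) (nat_lit 5) (nat_lit 7) (nat_lit 4) (nat_lit 5) (nat_lit 4) (nat_lit 415) (nat_lit 383) (nat_lit 222))))) (XT.nd (nat_lit 234) (nat_lit 152) (nat_lit 0) (XT.nd (nat_lit 78) (nat_lit 76) (nat_lit 0) (XT.lf (nat_lit 0) (nat_lit 13519013453014) (nat_lit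 152) (nat_lit 11131450740408) (nat_lit 0) (nat_lit 11069427584003) (nat_lit 5) (nat_lit 5) (nat_lit 7) (nat_lit 4) (nat_lit 5) (nat_lit 4) (nat_lit 416) (nat_lit 383) (nat_lit 221)) (XT.nd (nat_lit 78) (nat_lit 76) (nat_lit 0) (XT.lf (nat_lit 0) (nat_lit 21194002773353) (nat_lit 152) (nat_lit 236710038900) (nat_lit 0) (nat_lit 18744416904295) (nat_lit 5) (nat_lit 5) (nat_lit 7) (nat_lit 4) (nat_lit 5) (nat_lit 4) (nat_lit 417) (nat_lit 383) (nat_lit 220)) (XT.lf (nat_lit 0) (nat_lit 13493529031014) (nat_lit 76) (nat_lit 17085449722667) (nat_lit 76) (nat_lit 14635863853568) (nat_lit 4) (nat_lit 4) (nat_lit 5) (nat_lit 5) (nat_lit 5) (nat_lit 4) (nat_lit 418) (nat_lit 383) (nat_lit 219)))) (XT.nd (nat_lit 78) (nat_lit 152) (nat_lit 0) (XT.lf (nat_lit 0) (nat_lit 29309906941495) (nat_lit 76) (nat_lit 12074167668665) (nat_lit 76) (nat_lit 9624581799530) (nat_lit 4) (nat_lit 4) (nat_lit 5)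 (nat_lit 5) (nat_lit 5) (nat_lit 4) (nat_lit 419) (nat_lit 383) (nat_lit 218)) (XT.nd (nat_lit 78) (nat_lit 152) (nat_lit 0) (XT.lf (nat_lit 0) (nat_lit 47498741538175) (nat_lit 76) (nat_lit 6311193306757) (nat_lit 76) (nat_lit 3861607437592) (nat_lit 4) (nat_lit 4) (nat_lit 5) (nat_lit 5) (nat_lit 5) (nat_lit 4) (nat_lit 420) (nat_lit 383) (nat_lit 217)) (XT.lf (nat_lit 0) (nat_lit 2679439389905) (nat_lit 152) (nat_lit 62063899244497) (nat_lit 0) (nat_lit 549364721043) (nat_lit 2) (nat_lit 5) (nat_lit 4) (nat_lit 4) (nat_lit 2) (nat_lit 4) (nat_lit 421) (nat_lit 383) (nat_lit 216)))))) (XT.nd (nat_lit 50388) (nat_lit 0) (nat_lit 1824) (XT.nd (nat_lit 50154) (nat_lit 0) (nat_lit 2128) (XT.nd (nat_lit 78) (nat_lit 76) (nat_lit 0) (XT.lf (nat_lit 0) (nat_lit 10663903154316) (nat_lit 152) (nat_lit 54703081795292) (nat_lit 0) (nat_lit 8533828485433) (nat_lit 2) (nat_lit 5) (nat_lit 4) (nat_lit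 4) (nat_lit 2) (nat_lit 4) (nat_lit 422) (nat_lit 383) (nat_lit 215)) (XT.nd (nat_lit 2106) (nat_lit 76) (nat_lit 0) (XT.lf (nat_lit 0) (nat_lit 19846036483248) (nat_lit 152) (nat_lit 46238141729002) (nat_lit 0) (nat_lit 17715961814347) (nat_lit 2) (nat_lit 5) (nat_lit 4) (nat_lit 4) (nat_lit 2) (nat_lit 4) (nat_lit 423) (nat_lit 383) (nat_lit 214)) (XT.lf (nat_lit 0) (nat_lit 2979466022963630) (nat_lit 76) (nat_lit 158084493349997) (nat_lit 76) (nat_lit 155954418680989) (nat_lit 1) (nat_lit 4) (nat_lit 2) (nat_lit 5) (nat_lit 2) (nat_lit 4) (nat_lit 450) (nat_lit 383) (nat_lit 187)))) (XT.nd (nat_lit 78) (nat_lit 0) (nat_lit 0) (XT.lf (nat_lit 0) (nat_lit 247462151565) (nat_lit 380) (nat_lit 351366677281) (nat_lit 380) (nat_lit 351366677281) (nat_lit 29) (nat_lit 3) (nat_lit 34) (nat_lit 3) (nat_lit 34) (nat_lit 5) (nat_lit 384) (nat_lit 384) (nat_lit 252)) (XT.nd (nat_lit 78) (nat_lit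 0) (nat_lit 76) (XT.lf (nat_lit 76) (nat_lit 249737271529) (nat_lit 0) (nat_lit 292647458886) (nat_lit 380) (nat_lit 1498984442057) (nat_lit 30) (nat_lit 5) (nat_lit 29) (nat_lit 3) (nat_lit 34) (nat_lit 5) (nat_lit 385) (nat_lit 384) (nat_lit 251)) (XT.lf (nat_lit 0) (nat_lit 666425052379) (nat_lit 304) (nat_lit 806654897501) (nat_lit 380) (nat_lit 719994982257) (nat_lit 30) (nat_lit 5) (nat_lit 34) (nat_lit 5) (nat_lit 35) (nat_lit 5) (nat_lit 386) (nat_lit 384) (nat_lit 250))))) (XT.nd (nat_lit 234) (nat_lit 152) (nat_lit 0) (XT.nd (nat_lit 78) (nat_lit 228) (nat_lit 0) (XT.lf (nat_lit 76) (nat_lit 342636973888) (nat_lit 0) (nat_lit 494557905830) (nat_lit 380) (nat_lit 1526123157474) (nat_lit 31) (nat_lit 5) (nat_lit 30) (nat_lit 5) (nat_lit 35) (nat_lit 5) (nat_lit 387) (nat_lit 384) (nat_lit 249)) (XT.nd (nat_lit 78) (nat_lit 304) (nat_lit 0) (XT.lf (nat_lit 0) (nat_lit 1103871837074)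 (nat_lit 304) (nat_lit 825918672807) (nat_lit 76) (nat_lit 618763349742) (nat_lit 31) (nat_lit 5) (nat_lit 35) (nat_lit 5) (nat_lit 32) (nat_lit 5) (nat_lit 388) (nat_lit 384) (nat_lit 248)) (XT.lf (nat_lit 0) (nat_lit 575766404577) (nat_lit 304) (nat_lit 882175566879) (nat_lit 380) (nat_lit 1296524338949) (nat_lit 27) (nat_lit 5) (nat_lit 31) (nat_lit 5) (nat_lit 32) (nat_lit 5) (nat_lit 389) (nat_lit 384) (nat_lit 247)))) (XT.nd (nat_lit 78) (nat_lit 152) (nat_lit 0) (XT.lf (nat_lit 0) (nat_lit 1923708920721) (nat_lit 380) (nat_lit 719676712985) (nat_lit 76) (nat_lit 339092050892) (nat_lit 27) (nat_lit 5) (nat_lit 32) (nat_lit 5) (nat_lit 28) (nat_lit 5) (nat_lit 390) (nat_lit 384) (nat_lit 246)) (XT.nd (nat_lit 78) (nat_lit 0) (nat_lit 0) (XT.lf (nat_lit 0) (nat_lit 1005728502543) (nat_lit 152) (nat_lit 1537265841118) (nat_lit 228) (nat_lit 689148406569) (nat_lit 25) (nat_lit 5) (nat_lit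 27) (nat_lit 5) (nat_lit 28) (nat_lit 5) (nat_lit 391) (nat_lit 384) (nat_lit 245)) (XT.lf (nat_lit 0) (nat_lit 3070826347317) (nat_lit 152) (nat_lit 221965695790) (nat_lit 228) (nat_lit 220822613141) (nat_lit 25) (nat_lit 5) (nat_lit 27) (nat_lit 5) (nat_lit 28) (nat_lit 5) (nat_lit 392) (nat_lit 384) (nat_lit 244))))))))
noncomputable def xc112 : XT := (XT.nd (nat_lit 1716) (nat_lit 456) (nat_lit 0) (XT.nd (nat_lit 858) (nat_lit 532) (nat_lit 0) (XT.nd (nat_lit 390) (nat_lit 456) (nat_lit 0) (XT.nd (nat_lit 156) (nat_lit 228) (nat_lit 0) (XT.nd (nat_lit 78) (nat_lit 0) (nat_lit 0) (XT.lf (nat_lit 0) (nat_lit 419495373488) (nat_lit 152) (nat_lit 2130857846651) (nat_lit 76) (nat_lit 1265475741481) (nat_lit 23) (nat_lit 5) (nat_lit 25) (nat_lit 5) (nat_lit 24) (nat_lit 5) (nat_lit 393) (nat_lit 384) (nat_lit 243)) (XT.lf (nat_lit 0) (nat_lit 1168070753656) (nat_lit 152) (nat_lit 433067654)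 (nat_lit 76) (nat_lit 2988071628362) (nat_lit 23) (nat_lit 5) (nat_lit 25) (nat_lit 5) (nat_lit 24) (nat_lit 5) (nat_lit 394) (nat_lit 384) (nat_lit 242))) (XT.nd (nat_lit 78) (nat_lit 76) (nat_lit 0) (XT.lf (nat_lit 0) (nat_lit 2162995037163) (nat_lit 228) (nat_lit 1865507767919) (nat_lit 76) (nat_lit 499821716403) (nat_lit 21) (nat_lit 5) (nat_lit 24) (nat_lit 5) (nat_lit 22) (nat_lit 4) (nat_lit 395) (nat_lit 384) (nat_lit 241)) (XT.nd (nat_lit 78) (nat_lit 0) (nat_lit 0) (XT.lf (nat_lit 0) (nat_lit 783915632137) (nat_lit 76) (nat_lit 2611369359367) (nat_lit 152) (nat_lit 1547331908322) (nat_lit 20) (nat_lit 5) (nat_lit 21) (nat_lit 5) (nat_lit 22) (nat_lit 4) (nat_lit 396) (nat_lit 384) (nat_lit 240)) (XT.lf (nat_lit 0) (nat_lit 4040410174997) (nat_lit 76) (nat_lit 869523441812) (nat_lit 152) (nat_lit 494492241437) (nat_lit 20) (nat_lit 5) (nat_lit 21) (nat_lit 5) (nat_lit 22) (nat_lit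 4) (nat_lit 397) (nat_lit 384) (nat_lit 239))))) (XT.nd (nat_lit 234) (nat_lit 228) (nat_lit 0) (XT.nd (nat_lit 78) (nat_lit 76) (nat_lit 0) (XT.lf (nat_lit 0) (nat_lit 787534875780) (nat_lit 152) (nat_lit 3972840975755) (nat_lit 76) (nat_lit 1150427039546) (nat_lit 18) (nat_lit 5) (nat_lit 20) (nat_lit 5) (nat_lit 19) (nat_lit 4) (nat_lit 398) (nat_lit 384) (nat_lit 238)) (XT.nd (nat_lit 78) (nat_lit 76) (nat_lit 0) (XT.lf (nat_lit 0) (nat_lit 2327341448233) (nat_lit 152) (nat_lit 662256845997) (nat_lit 76) (nat_lit 3482590801032) (nat_lit 18) (nat_lit 5) (nat_lit 20) (nat_lit 5) (nat_lit 19) (nat_lit 4) (nat_lit 399) (nat_lit 384) (nat_lit 237)) (XT.lf (nat_lit 0) (nat_lit 3452258858250) (nat_lit 76) (nat_lit 788810824927) (nat_lit 152) (nat_lit 2855270945400) (nat_lit 17) (nat_lit 5) (nat_lit 18) (nat_lit 5) (nat_lit 19) (nat_lit 4) (nat_lit 400) (nat_lit 384) (nat_lit 236)))) (XT.nd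 (nat_lit 78) (nat_lit 152) (nat_lit 0) (XT.lf (nat_lit 0) (nat_lit 412386997575) (nat_lit 76) (nat_lit 6154949096739) (nat_lit 76) (nat_lit 1227956956434) (nat_lit 16) (nat_lit 4) (nat_lit 17) (nat_lit 5) (nat_lit 17) (nat_lit 4) (nat_lit 401) (nat_lit 384) (nat_lit 235)) (XT.nd (nat_lit 78) (nat_lit 76) (nat_lit 0) (XT.lf (nat_lit 0) (nat_lit 823288672968) (nat_lit 152) (nat_lit 3156921494003) (nat_lit 76) (nat_lit 4579313668007) (nat_lit 15) (nat_lit 5) (nat_lit 17) (nat_lit 5) (nat_lit 16) (nat_lit 4) (nat_lit 402) (nat_lit 384) (nat_lit 234)) (XT.lf (nat_lit 0) (nat_lit 1805197798252) (nat_lit 76) (nat_lit 1326053336465) (nat_lit 152) (nat_lit 6287154572416) (nat_lit 14) (nat_lit 5) (nat_lit 15) (nat_lit 5) (nat_lit 16) (nat_lit 4) (nat_lit 403) (nat_lit 384) (nat_lit 233)))))) (XT.nd (nat_lit 390) (nat_lit 304) (nat_lit 0) (XT.nd (nat_lit 156) (nat_lit 152) (nat_lit 0) (XT.nd (nat_lit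 78) (nat_lit 76) (nat_lit 0) (XT.lf (nat_lit 0) (nat_lit 6029766378977) (nat_lit 152) (nat_lit 2594274333067) (nat_lit 0) (nat_lit 1745425386081) (nat_lit 14) (nat_lit 5) (nat_lit 16) (nat_lit 4) (nat_lit 14) (nat_lit 4) (nat_lit 404) (nat_lit 384) (nat_lit 232)) (XT.lf (nat_lit 0) (nat_lit 3418711192239) (nat_lit 76) (nat_lit 6149054654139) (nat_lit 76) (nat_lit 1864713660911) (nat_lit 13) (nat_lit 4) (nat_lit 14) (nat_lit 5) (nat_lit 14) (nat_lit 4) (nat_lit 405) (nat_lit 384) (nat_lit 231))) (XT.nd (nat_lit 78) (nat_lit 76) (nat_lit 0) (XT.lf (nat_lit 0) (nat_lit 1036205984526) (nat_lit 152) (nat_lit 2056498126783) (nat_lit 76) (nat_lit 9534834306586) (nat_lit 12) (nat_lit 5) (nat_lit 14) (nat_lit 5) (nat_lit 13) (nat_lit 4) (nat_lit 406) (nat_lit 384) (nat_lit 230)) (XT.nd (nat_lit 78) (nat_lit 0) (nat_lit 0) (XT.lf (nat_lit 0) (nat_lit 4427133616208) (nat_lit 152) (nat_lit 8822916277018)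 (nat_lit 0) (nat_lit 701619708584) (nat_lit 11) (nat_lit 5) (nat_lit 13) (nat_lit 4) (nat_lit 11) (nat_lit 4) (nat_lit 407) (nat_lit 384) (nat_lit 229)) (XT.lf (nat_lit 0) (nat_lit 8586589771108) (nat_lit 152) (nat_lit 1987771422139) (nat_lit 0) (nat_lit 4861075863294) (nat_lit 11) (nat_lit 5) (nat_lit 13) (nat_lit 4) (nat_lit 11) (nat_lit 4) (nat_lit 408) (nat_lit 384) (nat_lit 228))))) (XT.nd (nat_lit 234) (nat_lit 76) (nat_lit 0) (XT.nd (nat_lit 78) (nat_lit 152) (nat_lit 0) (XT.lf (nat_lit 0) (nat_lit 6446562755395) (nat_lit 76) (nat_lit 7190340009834) (nat_lit 76) (nat_lit 3464826101855) (nat_lit 10) (nat_lit 4) (nat_lit 11) (nat_lit 5) (nat_lit 11) (nat_lit 4) (nat_lit 409) (nat_lit 384) (nat_lit 227)) (XT.nd (nat_lit 78) (nat_lit 76) (nat_lit 0) (XT.lf (nat_lit 0) (nat_lit 497655875784) (nat_lit 152) (nat_lit 2655553775185) (nat_lit 76) (nat_lit 15845775755036) (nat_lit 9) (nat_lit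 5) (nat_lit 11) (nat_lit 5) (nat_lit 10) (nat_lit 4) (nat_lit 410) (nat_lit 384) (nat_lit 226)) (XT.lf (nat_lit 0) (nat_lit 5073073636169) (nat_lit 152) (nat_lit 14193517354740) (nat_lit 0) (nat_lit 1833496324649) (nat_lit 8) (nat_lit 5) (nat_lit 10) (nat_lit 4) (nat_lit 8) (nat_lit 4) (nat_lit 411) (nat_lit 384) (nat_lit 225)))) (XT.nd (nat_lit 78) (nat_lit 76) (nat_lit 0) (XT.lf (nat_lit 0) (nat_lit 10630380083729) (nat_lit 152) (nat_lit 5450835252232) (nat_lit 0) (nat_lit 7390802772115) (nat_lit 8) (nat_lit 5) (nat_lit 10) (nat_lit 4) (nat_lit 8) (nat_lit 4) (nat_lit 412) (nat_lit 384) (nat_lit 224)) (XT.nd (nat_lit 78) (nat_lit 0) (nat_lit 0) (XT.lf (nat_lit 0) (nat_lit 5053112151645) (nat_lit 76) (nat_lit 12177408944902) (nat_lit 76) (nat_lit 8937831633206) (nat_lit 7) (nat_lit 4) (nat_lit 8) (nat_lit 5) (nat_lit 8) (nat_lit 4) (nat_lit 413) (nat_lit 384) (nat_lit 223)) (XT.lf (nat_lit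 0) (nat_lit 17745251218318) (nat_lit 76) (nat_lit 7360362067245) (nat_lit 76) (nat_lit 4120784755478) (nat_lit 7) (nat_lit 4) (nat_lit 8) (nat_lit 5) (nat_lit 8) (nat_lit 4) (nat_lit 414) (nat_lit 384) (nat_lit 222))))))) (XT.nd (nat_lit 2730) (nat_lit 0) (nat_lit 0) (XT.nd (nat_lit 390) (nat_lit 228) (nat_lit 0) (XT.nd (nat_lit 156) (nat_lit 76) (nat_lit 0) (XT.nd (nat_lit 78) (nat_lit 76) (nat_lit 0) (XT.lf (nat_lit 0) (nat_lit 1292506061283) (nat_lit 152) (nat_lit 460689280070) (nat_lit 76) (nat_lit 30981142266378) (nat_lit 6) (nat_lit 5) (nat_lit 8) (nat_lit 5) (nat_lit 7) (nat_lit 4) (nat_lit 415) (nat_lit 384) (nat_lit 221)) (XT.lf (nat_lit 0) (nat_lit 7871876153047) (nat_lit 152) (nat_lit 23695909047922) (nat_lit 0) (nat_lit 5054852403583) (nat_lit 5) (nat_lit 5) (nat_lit 7) (nat_lit 4) (nat_lit 5) (nat_lit 4) (nat_lit 416) (nat_lit 384) (nat_lit 220))) (XT.nd (nat_lit 78) (nat_lit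 76) (nat_lit 0) (XT.lf (nat_lit 0) (nat_lit 15546865473286) (nat_lit 152) (nat_lit 12801168346624) (nat_lit 0) (nat_lit 12729841723781) (nat_lit 5) (nat_lit 5) (nat_lit 7) (nat_lit 4) (nat_lit 5) (nat_lit 4) (nat_lit 417) (nat_lit 384) (nat_lit 219)) (XT.nd (nat_lit 78) (nat_lit 76) (nat_lit 0) (XT.lf (nat_lit 0) (nat_lit 24373103191373) (nat_lit 152) (nat_lit 272216540521) (nat_lit 0) (nat_lit 21556079441833) (nat_lit 5) (nat_lit 5) (nat_lit 7) (nat_lit 4) (nat_lit 5) (nat_lit 4) (nat_lit 418) (nat_lit 384) (nat_lit 218)) (XT.lf (nat_lit 0) (nat_lit 15517558389689) (nat_lit 76) (nat_lit 19648267178965) (nat_lit 76) (nat_lit 16831243429395) (nat_lit 4) (nat_lit 4) (nat_lit 5) (nat_lit 5) (nat_lit 5) (nat_lit 4) (nat_lit 419) (nat_lit 384) (nat_lit 217))))) (XT.nd (nat_lit 234) (nat_lit 76) (nat_lit 0) (XT.nd (nat_lit 78) (nat_lit 152) (nat_lit 0) (XT.lf (nat_lit 0) (nat_lit 33706392986217)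 (nat_lit 76) (nat_lit 13885292817137) (nat_lit 76) (nat_lit 11068269067539) (nat_lit 4) (nat_lit 4) (nat_lit 5) (nat_lit 5) (nat_lit 5) (nat_lit 4) (nat_lit 420) (nat_lit 384) (nat_lit 216)) (XT.nd (nat_lit 78) (nat_lit 152) (nat_lit 0) (XT.lf (nat_lit 0) (nat_lit 54623552771943) (nat_lit 76) (nat_lit 7257872301182) (nat_lit 76) (nat_lit 4440848551561) (nat_lit 4) (nat_lit 4) (nat_lit 5) (nat_lit 5) (nat_lit 5) (nat_lit 4) (nat_lit 421) (nat_lit 384) (nat_lit 215)) (XT.lf (nat_lit 0) (nat_lit 3081355299907) (nat_lit 152) (nat_lit 71373484127976) (nat_lit 0) (nat_lit 631769430653) (nat_lit 2) (nat_lit 5) (nat_lit 4) (nat_lit 4) (nat_lit 2) (nat_lit 4) (nat_lit 422) (nat_lit 384) (nat_lit 214)))) (XT.nd (nat_lit 78) (nat_lit 76) (nat_lit 0) (XT.lf (nat_lit 0) (nat_lit 12263488628781) (nat_lit 152) (nat_lit 62908544061806) (nat_lit 0) (nat_lit 9813902759512) (nat_lit 2) (nat_lit 5) (nat_lit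 4) (nat_lit 4) (nat_lit 2) (nat_lit 4) (nat_lit 423) (nat_lit 384) (nat_lit 213)) (XT.nd (nat_lit 1950) (nat_lit 76) (nat_lit 0) (XT.lf (nat_lit 0) (nat_lit 22822941956881) (nat_lit 152) (nat_lit 53173862985936) (nat_lit 0) (nat_lit 20373356087599) (nat_lit 2) (nat_lit 5) (nat_lit 4) (nat_lit 4) (nat_lit 2) (nat_lit 4) (nat_lit 424) (nat_lit 384) (nat_lit 212)) (XT.lf (nat_lit 0) (nat_lit 2556627807906438) (nat_lit 76) (nat_lit 156084266415630) (nat_lit 76) (nat_lit 153634680546257) (nat_lit 1) (nat_lit 4) (nat_lit 2) (nat_lit 5) (nat_lit 2) (nat_lit 4) (nat_lit 449) (nat_lit 384) (nat_lit 187)))))) (XT.nd (nat_lit 48438) (nat_lit 0) (nat_lit 1672) (XT.nd (nat_lit 48204) (nat_lit 0) (nat_lit 2204) (XT.nd (nat_lit 48048) (nat_lit 0) (nat_lit 2128) (XT.lf (nat_lit 0) (nat_lit 2961166467674715) (nat_lit 76) (nat_lit 168043755223459) (nat_lit 76) (nat_lit 165594169354093) (nat_lit 1) (nat_lit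 4) (nat_lit 2) (nat_lit 5) (nat_lit 2) (nat_lit 4) (nat_lit 450) (nat_lit 384) (nat_lit 186)) (XT.nd (nat_lit 78) (nat_lit 0) (nat_lit 0) (XT.lf (nat_lit 0) (nat_lit 284581490311) (nat_lit 380) (nat_lit 404071669657) (nat_lit 380) (nat_lit 404071669657) (nat_lit 29) (nat_lit 3) (nat_lit 34) (nat_lit 3) (nat_lit 34) (nat_lit 5) (nat_lit 385) (nat_lit 385) (nat_lit 250)) (XT.lf (nat_lit 76) (nat_lit 287197879853) (nat_lit 0) (nat_lit 336544588699) (nat_lit 380) (nat_lit 1723832075472) (nat_lit 30) (nat_lit 5) (nat_lit 29) (nat_lit 3) (nat_lit 34) (nat_lit 5) (nat_lit 386) (nat_lit 385) (nat_lit 249)))) (XT.nd (nat_lit 78) (nat_lit 0) (nat_lit 0) (XT.lf (nat_lit 0) (nat_lit 766388834688) (nat_lit 304) (nat_lit 927653112676) (nat_lit 380) (nat_lit 827994220898) (nat_lit 30) (nat_lit 5) (nat_lit 34) (nat_lit 5) (nat_lit 35) (nat_lit 5) (nat_lit 387) (nat_lit 385) (nat_lit 248)) (XT.nd (nat_lit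 78) (nat_lit 0) (nat_lit 76) (XT.lf (nat_lit 76) (nat_lit 394032538538) (nat_lit 0) (nat_lit 568741595170) (nat_lit 380) (nat_lit 1755041605735) (nat_lit 31) (nat_lit 5) (nat_lit 30) (nat_lit 5) (nat_lit 35) (nat_lit 5) (nat_lit 388) (nat_lit 385) (nat_lit 247)) (XT.lf (nat_lit 0) (nat_lit 1269452631668) (nat_lit 304) (nat_lit 949806454563) (nat_lit 76) (nat_lit 711577849458) (nat_lit 31) (nat_lit 5) (nat_lit 35) (nat_lit 5) (nat_lit 32) (nat_lit 5) (nat_lit 389) (nat_lit 385) (nat_lit 246))))) (XT.nd (nat_lit 234) (nat_lit 152) (nat_lit 0) (XT.nd (nat_lit 78) (nat_lit 152) (nat_lit 0) (XT.lf (nat_lit 0) (nat_lit 662131383557) (nat_lit 304) (nat_lit 1014501900925) (nat_lit 380) (nat_lit 1491002969869) (nat_lit 27) (nat_lit 5) (nat_lit 31) (nat_lit 5) (nat_lit 32) (nat_lit 5) (nat_lit 390) (nat_lit 385) (nat_lit 245)) (XT.nd (nat_lit 78) (nat_lit 152) (nat_lit 0) (XT.lf (nat_lit 0) (nat_lit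 2212265273915) (nat_lit 380) (nat_lit 827628201787) (nat_lit 76) (nat_lit 389955859307) (nat_lit 27) (nat_lit 5) (nat_lit 32) (nat_lit 5) (nat_lit 28) (nat_lit 5) (nat_lit 391) (nat_lit 385) (nat_lit 244)) (XT.lf (nat_lit 0) (nat_lit 1156587795245) (nat_lit 152) (nat_lit 1767855713800) (nat_lit 228) (nat_lit 792520651629) (nat_lit 25) (nat_lit 5) (nat_lit 27) (nat_lit 5) (nat_lit 28) (nat_lit 5) (nat_lit 392) (nat_lit 385) (nat_lit 243)))) (XT.nd (nat_lit 78) (nat_lit 152) (nat_lit 0) (XT.lf (nat_lit 0) (nat_lit 3531450314476) (nat_lit 152) (nat_lit 255260547127) (nat_lit 228) (nat_lit 253945991264) (nat_lit 25) (nat_lit 5) (nat_lit 27) (nat_lit 5) (nat_lit 28) (nat_lit 5) (nat_lit 393) (nat_lit 385) (nat_lit 242)) (XT.nd (nat_lit 78) (nat_lit 0) (nat_lit 0) (XT.lf (nat_lit 0) (nat_lit 482419691289) (nat_lit 152) (nat_lit 2450486506496) (nat_lit 76) (nat_lit 1455297106302) (nat_lit 23)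 (nat_lit 5) (nat_lit 25) (nat_lit 5) (nat_lit 24) (nat_lit 5) (nat_lit 394) (nat_lit 385) (nat_lit 241)) (XT.lf (nat_lit 0) (nat_lit 1343281376945) (nat_lit 152) (nat_lit 498012887) (nat_lit 76) (nat_lit 3436282375746) (nat_lit 23) (nat_lit 5) (nat_lit 25) (nat_lit 5) (nat_lit 24) (nat_lit 5) (nat_lit 395) (nat_lit 385) (nat_lit 240))))))))
noncomputable def xc113 : XT := (XT.nd (nat_lit 1794) (nat_lit 228) (nat_lit 0) (XT.nd (nat_lit 858) (nat_lit 608) (nat_lit 0) (XT.nd (nat_lit 390) (nat_lit 380) (nat_lit 0) (XT.nd (nat_lit 156) (nat_lit 152) (nat_lit 0) (XT.nd (nat_lit 78) (nat_lit 76) (nat_lit 0) (XT.lf (nat_lit 0) (nat_lit 2487444302429) (nat_lit 228) (nat_lit 2145333917635) (nat_lit 76) (nat_lit 574794978184) (nat_lit 21) (nat_lit 5) (nat_lit 24) (nat_lit 5) (nat_lit 22) (nat_lit 4) (nat_lit 396) (nat_lit 385) (nat_lit 239)) (XT.lf (nat_lit 0) (nat_lit 901502991726) (nat_lit 76)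 (nat_lit 3003074757542) (nat_lit 152) (nat_lit 1779431684169) (nat_lit 20) (nat_lit 5) (nat_lit 21) (nat_lit 5) (nat_lit 22) (nat_lit 4) (nat_lit 397) (nat_lit 385) (nat_lit 238))) (XT.nd (nat_lit 78) (nat_lit 152) (nat_lit 0) (XT.lf (nat_lit 0) (nat_lit 4646471714089) (nat_lit 76) (nat_lit 999951953101) (nat_lit 152) (nat_lit 568666068609) (nat_lit 20) (nat_lit 5) (nat_lit 21) (nat_lit 5) (nat_lit 22) (nat_lit 4) (nat_lit 398) (nat_lit 385) (nat_lit 237)) (XT.nd (nat_lit 78) (nat_lit 0) (nat_lit 0) (XT.lf (nat_lit 0) (nat_lit 905665115072) (nat_lit 152) (nat_lit 4568767108148) (nat_lit 76) (nat_lit 1322991100332) (nat_lit 18) (nat_lit 5) (nat_lit 20) (nat_lit 5) (nat_lit 19) (nat_lit 4) (nat_lit 399) (nat_lit 385) (nat_lit 236)) (XT.lf (nat_lit 0) (nat_lit 2676442672359) (nat_lit 152) (nat_lit 761595360748) (nat_lit 76) (nat_lit 4004979425408) (nat_lit 18) (nat_lit 5) (nat_lit 20) (nat_lit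 5) (nat_lit 19) (nat_lit 4) (nat_lit 400) (nat_lit 385) (nat_lit 235))))) (XT.nd (nat_lit 234) (nat_lit 152) (nat_lit 0) (XT.nd (nat_lit 78) (nat_lit 152) (nat_lit 0) (XT.lf (nat_lit 0) (nat_lit 3970097698584) (nat_lit 76) (nat_lit 907132443542) (nat_lit 152) (nat_lit 3283561579764) (nat_lit 17) (nat_lit 5) (nat_lit 18) (nat_lit 5) (nat_lit 19) (nat_lit 4) (nat_lit 401) (nat_lit 385) (nat_lit 234)) (XT.nd (nat_lit 78) (nat_lit 76) (nat_lit 0) (XT.lf (nat_lit 0) (nat_lit 474245059008) (nat_lit 76) (nat_lit 7078191455755) (nat_lit 76) (nat_lit 1412150492650) (nat_lit 16) (nat_lit 4) (nat_lit 17) (nat_lit 5) (nat_lit 17) (nat_lit 4) (nat_lit 402) (nat_lit 385) (nat_lit 233)) (XT.lf (nat_lit 0) (nat_lit 946781979655) (nat_lit 152) (nat_lit 3630459707283) (nat_lit 76) (nat_lit 5266210722423) (nat_lit 15) (nat_lit 5) (nat_lit 17) (nat_lit 5) (nat_lit 16) (nat_lit 4) (nat_lit 403) (nat_lit 385)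 (nat_lit 232)))) (XT.nd (nat_lit 78) (nat_lit 76) (nat_lit 0) (XT.lf (nat_lit 0) (nat_lit 2075977478318) (nat_lit 76) (nat_lit 1524961332027) (nat_lit 152) (nat_lit 7230227752043) (nat_lit 14) (nat_lit 5) (nat_lit 15) (nat_lit 5) (nat_lit 16) (nat_lit 4) (nat_lit 404) (nat_lit 385) (nat_lit 231)) (XT.nd (nat_lit 78) (nat_lit 76) (nat_lit 0) (XT.lf (nat_lit 0) (nat_lit 6934231340714) (nat_lit 152) (nat_lit 2983415473513) (nat_lit 0) (nat_lit 2007239197881) (nat_lit 14) (nat_lit 5) (nat_lit 16) (nat_lit 4) (nat_lit 14) (nat_lit 4) (nat_lit 405) (nat_lit 385) (nat_lit 230)) (XT.lf (nat_lit 0) (nat_lit 3931517880156) (nat_lit 76) (nat_lit 7071412847807) (nat_lit 76) (nat_lit 2144420704723) (nat_lit 13) (nat_lit 4) (nat_lit 14) (nat_lit 5) (nat_lit 14) (nat_lit 4) (nat_lit 406) (nat_lit 385) (nat_lit 229)))))) (XT.nd (nat_lit 468) (nat_lit 228) (nat_lit 0) (XT.nd (nat_lit 234) (nat_lit 228)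 (nat_lit 0) (XT.nd (nat_lit 78) (nat_lit 76) (nat_lit 0) (XT.lf (nat_lit 0) (nat_lit 1191636886423) (nat_lit 152) (nat_lit 2364972837491) (nat_lit 76) (nat_lit 10965059456033) (nat_lit 12) (nat_lit 5) (nat_lit 14) (nat_lit 5) (nat_lit 13) (nat_lit 4) (nat_lit 407) (nat_lit 385) (nat_lit 228)) (XT.nd (nat_lit 78) (nat_lit 0) (nat_lit 0) (XT.lf (nat_lit 0) (nat_lit 5091203662798) (nat_lit 152) (nat_lit 10146353710201) (nat_lit 0) (nat_lit 806862668458) (nat_lit 11) (nat_lit 5) (nat_lit 13) (nat_lit 4) (nat_lit 11) (nat_lit 4) (nat_lit 408) (nat_lit 385) (nat_lit 227)) (XT.lf (nat_lit 0) (nat_lit 9874578240391) (nat_lit 152) (nat_lit 2285937128182) (nat_lit 0) (nat_lit 5590237245907) (nat_lit 11) (nat_lit 5) (nat_lit 13) (nat_lit 4) (nat_lit 11) (nat_lit 4) (nat_lit 409) (nat_lit 385) (nat_lit 226)))) (XT.nd (nat_lit 78) (nat_lit 152) (nat_lit 0) (XT.lf (nat_lit 0) (nat_lit 7413547175651)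 (nat_lit 76) (nat_lit 8268891007795) (nat_lit 76) (nat_lit 3984550013186) (nat_lit 10) (nat_lit 4) (nat_lit 11) (nat_lit 5) (nat_lit 11) (nat_lit 4) (nat_lit 410) (nat_lit 385) (nat_lit 225)) (XT.nd (nat_lit 78) (nat_lit 76) (nat_lit 0) (XT.lf (nat_lit 0) (nat_lit 572304260279) (nat_lit 152) (nat_lit 3053886835116) (nat_lit 76) (nat_lit 18222642121042) (nat_lit 9) (nat_lit 5) (nat_lit 11) (nat_lit 5) (nat_lit 10) (nat_lit 4) (nat_lit 411) (nat_lit 385) (nat_lit 224)) (XT.lf (nat_lit 0) (nat_lit 5834034684692) (nat_lit 152) (nat_lit 16322544951575) (nat_lit 0) (nat_lit 2108520776160) (nat_lit 8) (nat_lit 5) (nat_lit 10) (nat_lit 4) (nat_lit 8) (nat_lit 4) (nat_lit 412) (nat_lit 385) (nat_lit 223))))) (XT.nd (nat_lit 234) (nat_lit 152) (nat_lit 0) (XT.nd (nat_lit 78) (nat_lit 76) (nat_lit 0) (XT.lf (nat_lit 0) (nat_lit 12224937098983) (nat_lit 152) (nat_lit 6268460534522) (nat_lit 0) (nat_lit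 8499423190379) (nat_lit 8) (nat_lit 5) (nat_lit 10) (nat_lit 4) (nat_lit 8) (nat_lit 4) (nat_lit 413) (nat_lit 385) (nat_lit 222)) (XT.nd (nat_lit 78) (nat_lit 0) (nat_lit 0) (XT.lf (nat_lit 0) (nat_lit 5811078979684) (nat_lit 76) (nat_lit 14004020283907) (nat_lit 76) (nat_lit 10278506375241) (nat_lit 7) (nat_lit 4) (nat_lit 8) (nat_lit 5) (nat_lit 8) (nat_lit 4) (nat_lit 414) (nat_lit 385) (nat_lit 221)) (XT.lf (nat_lit 0) (nat_lit 20407038905669) (nat_lit 76) (nat_lit 8464416374957) (nat_lit 76) (nat_lit 4738902466238) (nat_lit 7) (nat_lit 4) (nat_lit 8) (nat_lit 5) (nat_lit 8) (nat_lit 4) (nat_lit 415) (nat_lit 385) (nat_lit 220)))) (XT.nd (nat_lit 78) (nat_lit 76) (nat_lit 0) (XT.lf (nat_lit 0) (nat_lit 1486381972505) (nat_lit 152) (nat_lit 529792667880) (nat_lit 76) (nat_lit 35628313608202) (nat_lit 6) (nat_lit 5) (nat_lit 8) (nat_lit 5) (nat_lit 7) (nat_lit 4) (nat_lit 416) (nat_lit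 385) (nat_lit 219)) (XT.nd (nat_lit 78) (nat_lit 0) (nat_lit 0) (XT.lf (nat_lit 0) (nat_lit 9052657578021) (nat_lit 152) (nat_lit 27250295400898) (nat_lit 0) (nat_lit 5813080266014) (nat_lit 5) (nat_lit 5) (nat_lit 7) (nat_lit 4) (nat_lit 5) (nat_lit 4) (nat_lit 417) (nat_lit 385) (nat_lit 218)) (XT.lf (nat_lit 0) (nat_lit 17878895296033) (nat_lit 152) (nat_lit 14721343594953) (nat_lit 0) (nat_lit 14639317983995) (nat_lit 5) (nat_lit 5) (nat_lit 7) (nat_lit 4) (nat_lit 5) (nat_lit 4) (nat_lit 418) (nat_lit 385) (nat_lit 217))))))) (XT.nd (nat_lit 50856) (nat_lit 0) (nat_lit 1216) (XT.nd (nat_lit 390) (nat_lit 0) (nat_lit 0) (XT.nd (nat_lit 156) (nat_lit 152) (nat_lit 0) (XT.nd (nat_lit 78) (nat_lit 76) (nat_lit 0) (XT.lf (nat_lit 0) (nat_lit 28029068671605) (nat_lit 152) (nat_lit 313049018414) (nat_lit 0) (nat_lit 24789491359540) (nat_lit 5) (nat_lit 5) (nat_lit 7) (nat_lit 4) (nat_lit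 5) (nat_lit 4) (nat_lit 419) (nat_lit 385) (nat_lit 216)) (XT.lf (nat_lit 0) (nat_lit 17845192151183) (nat_lit 76) (nat_lit 22595507254221) (nat_lit 76) (nat_lit 19355929942134) (nat_lit 4) (nat_lit 4) (nat_lit 5) (nat_lit 5) (nat_lit 5) (nat_lit 4) (nat_lit 420) (nat_lit 385) (nat_lit 215))) (XT.nd (nat_lit 78) (nat_lit 152) (nat_lit 0) (XT.lf (nat_lit 0) (nat_lit 38762351936794) (nat_lit 76) (nat_lit 15968086738326) (nat_lit 76) (nat_lit 12728509426218) (nat_lit 4) (nat_lit 4) (nat_lit 5) (nat_lit 5) (nat_lit 5) (nat_lit 4) (nat_lit 421) (nat_lit 385) (nat_lit 214)) (XT.nd (nat_lit 78) (nat_lit 152) (nat_lit 0) (XT.lf (nat_lit 0) (nat_lit 62817085690034) (nat_lit 76) (nat_lit 8346553145158) (nat_lit 76) (nat_lit 5106975833032) (nat_lit 4) (nat_lit 4) (nat_lit 5) (nat_lit 5) (nat_lit 5) (nat_lit 4) (nat_lit 422) (nat_lit 385) (nat_lit 213)) (XT.lf (nat_lit 0) (nat_lit 3543558596038)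 (nat_lit 152) (nat_lit 82079506744755) (nat_lit 0) (nat_lit 726534846350) (nat_lit 2) (nat_lit 5) (nat_lit 4) (nat_lit 4) (nat_lit 2) (nat_lit 4) (nat_lit 423) (nat_lit 385) (nat_lit 212))))) (XT.nd (nat_lit 50232) (nat_lit 0) (nat_lit 2052) (XT.nd (nat_lit 78) (nat_lit 0) (nat_lit 0) (XT.lf (nat_lit 0) (nat_lit 14103011924095) (nat_lit 152) (nat_lit 72344825668976) (nat_lit 0) (nat_lit 11285988174395) (nat_lit 2) (nat_lit 5) (nat_lit 4) (nat_lit 4) (nat_lit 2) (nat_lit 4) (nat_lit 424) (nat_lit 385) (nat_lit 211)) (XT.nd (nat_lit 50076) (nat_lit 0) (nat_lit 2052) (XT.lf (nat_lit 0) (nat_lit 26246383251279) (nat_lit 152) (nat_lit 61149942431999) (nat_lit 0) (nat_lit 23429359501570) (nat_lit 2) (nat_lit 5) (nat_lit 4) (nat_lit 4) (nat_lit 2) (nat_lit 4) (nat_lit 425) (nat_lit 385) (nat_lit 210)) (XT.lf (nat_lit 0) (nat_lit 327268725964) (nat_lit 380) (nat_lit 464682413137) (nat_lit 380)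 (nat_lit 464682413137) (nat_lit 29) (nat_lit 3) (nat_lit 34) (nat_lit 3) (nat_lit 34) (nat_lit 5) (nat_lit 386) (nat_lit 386) (nat_lit 248)))) (XT.nd (nat_lit 78) (nat_lit 0) (nat_lit 76) (XT.lf (nat_lit 76) (nat_lit 330277575134) (nat_lit 0) (nat_lit 387026285307) (nat_lit 380) (nat_lit 1982406861921) (nat_lit 30) (nat_lit 5) (nat_lit 29) (nat_lit 3) (nat_lit 34) (nat_lit 5) (nat_lit 387) (nat_lit 386) (nat_lit 247)) (XT.nd (nat_lit 78) (nat_lit 0) (nat_lit 0) (XT.lf (nat_lit 0) (nat_lit 881347178380) (nat_lit 304) (nat_lit 1066801064870) (nat_lit 380) (nat_lit 952193347456) (nat_lit 30) (nat_lit 5) (nat_lit 34) (nat_lit 5) (nat_lit 35) (nat_lit 5) (nat_lit 388) (nat_lit 386) (nat_lit 246)) (XT.lf (nat_lit 76) (nat_lit 453137433357) (nat_lit 0) (nat_lit 654052837066) (nat_lit 380) (nat_lit 2018297827418) (nat_lit 31) (nat_lit 5) (nat_lit 30) (nat_lit 5) (nat_lit 35) (nat_lit 5) (nat_lit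 389) (nat_lit 386) (nat_lit 245)))))) (XT.nd (nat_lit 468) (nat_lit 380) (nat_lit 0) (XT.nd (nat_lit 234) (nat_lit 304) (nat_lit 0) (XT.nd (nat_lit 78) (nat_lit 304) (nat_lit 0) (XT.lf (nat_lit 0) (nat_lit 1459870540810) (nat_lit 304) (nat_lit 1092277408256) (nat_lit 76) (nat_lit 818314524802) (nat_lit 31) (nat_lit 5) (nat_lit 35) (nat_lit 5) (nat_lit 32) (nat_lit 5) (nat_lit 390) (nat_lit 386) (nat_lit 244)) (XT.nd (nat_lit 78) (nat_lit 0) (nat_lit 0) (XT.lf (nat_lit 0) (nat_lit 761451104923) (nat_lit 304) (nat_lit 1166677185319) (nat_lit 380) (nat_lit 1714653400285) (nat_lit 27) (nat_lit 5) (nat_lit 31) (nat_lit 5) (nat_lit 32) (nat_lit 5) (nat_lit 391) (nat_lit 386) (nat_lit 243)) (XT.lf (nat_lit 0) (nat_lit 2544105076410) (nat_lit 380) (nat_lit 951772418334) (nat_lit 76) (nat_lit 448449238794) (nat_lit 27) (nat_lit 5) (nat_lit 32) (nat_lit 5) (nat_lit 28) (nat_lit 5) (nat_lit 392)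 (nat_lit 386) (nat_lit 242)))) (XT.nd (nat_lit 78) (nat_lit 152) (nat_lit 0) (XT.lf (nat_lit 0) (nat_lit 1330075977630) (nat_lit 152) (nat_lit 2033034068234) (nat_lit 228) (nat_lit 911398737332) (nat_lit 25) (nat_lit 5) (nat_lit 27) (nat_lit 5) (nat_lit 28) (nat_lit 5) (nat_lit 393) (nat_lit 386) (nat_lit 241)) (XT.nd (nat_lit 78) (nat_lit 152) (nat_lit 0) (XT.lf (nat_lit 0) (nat_lit 4061167873037) (nat_lit 152) (nat_lit 293549626904) (nat_lit 228) (nat_lit 292037879483) (nat_lit 25) (nat_lit 5) (nat_lit 27) (nat_lit 5) (nat_lit 28) (nat_lit 5) (nat_lit 394) (nat_lit 386) (nat_lit 240)) (XT.lf (nat_lit 0) (nat_lit 554782653888) (nat_lit 152) (nat_lit 2818059469501) (nat_lit 76) (nat_lit 1673591674968) (nat_lit 23) (nat_lit 5) (nat_lit 25) (nat_lit 5) (nat_lit 24) (nat_lit 5) (nat_lit 395) (nat_lit 386) (nat_lit 239))))) (XT.nd (nat_lit 234) (nat_lit 152) (nat_lit 0) (XT.nd (nat_lit 78)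 (nat_lit 228) (nat_lit 0) (XT.lf (nat_lit 0) (nat_lit 1544773591231) (nat_lit 152) (nat_lit 572703543) (nat_lit 76) (nat_lit 3951724734474) (nat_lit 23) (nat_lit 5) (nat_lit 25) (nat_lit 5) (nat_lit 24) (nat_lit 5) (nat_lit 396) (nat_lit 386) (nat_lit 238)) (XT.nd (nat_lit 78) (nat_lit 76) (nat_lit 0) (XT.lf (nat_lit 0) (nat_lit 2860560955122) (nat_lit 228) (nat_lit 2467133993581) (nat_lit 76) (nat_lit 661014228178) (nat_lit 21) (nat_lit 5) (nat_lit 24) (nat_lit 5) (nat_lit 22) (nat_lit 4) (nat_lit 397) (nat_lit 386) (nat_lit 237)) (XT.lf (nat_lit 0) (nat_lit 1036728451653) (nat_lit 76) (nat_lit 3453535966841) (nat_lit 152) (nat_lit 2046346428930) (nat_lit 20) (nat_lit 5) (nat_lit 21) (nat_lit 5) (nat_lit 22) (nat_lit 4) (nat_lit 398) (nat_lit 386) (nat_lit 236)))) (XT.nd (nat_lit 78) (nat_lit 152) (nat_lit 0) (XT.lf (nat_lit 0) (nat_lit 5343442480913) (nat_lit 76) (nat_lit 1149944742299)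 (nat_lit 152) (nat_lit 653965972061) (nat_lit 20) (nat_lit 5) (nat_lit 21) (nat_lit 5) (nat_lit 22) (nat_lit 4) (nat_lit 399) (nat_lit 386) (nat_lit 235)) (XT.nd (nat_lit 78) (nat_lit 0) (nat_lit 0) (XT.lf (nat_lit 0) (nat_lit 1041514888325) (nat_lit 152) (nat_lit 5254082163806) (nat_lit 76) (nat_lit 1521439769051) (nat_lit 18) (nat_lit 5) (nat_lit 20) (nat_lit 5) (nat_lit 19) (nat_lit 4) (nat_lit 400) (nat_lit 386) (nat_lit 234)) (XT.lf (nat_lit 0) (nat_lit 3077909078423) (nat_lit 152) (nat_lit 875834655675) (nat_lit 76) (nat_lit 4605726342410) (nat_lit 18) (nat_lit 5) (nat_lit 20) (nat_lit 5) (nat_lit 19) (nat_lit 4) (nat_lit 401) (nat_lit 386) (nat_lit 233))))))))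
noncomputable def xc114 : XT := (XT.nd (nat_lit 1794) (nat_lit 0) (nat_lit 0) (XT.nd (nat_lit 858) (nat_lit 532) (nat_lit 0) (XT.nd (nat_lit 390) (nat_lit 380) (nat_lit 0) (XT.nd (nat_lit 156) (nat_lit 152) (nat_lit 0) (XT.nd (nat_lit 78) (nat_lit 76) (nat_lit 0) (XT.lf (nat_lit 0) (nat_lit 4565612362140) (nat_lit 76) (nat_lit 1043202306199) (nat_lit 152) (nat_lit 3776095811098) (nat_lit 17) (nat_lit 5) (nat_lit 18) (nat_lit 5) (nat_lit 19) (nat_lit 4) (nat_lit 402) (nat_lit 386) (nat_lit 232)) (XT.lf (nat_lit 0) (nat_lit 545381826779) (nat_lit 76) (nat_lit 8139920169963) (nat_lit 76) (nat_lit 1623973061066) (nat_lit 16) (nat_lit 4) (nat_lit 17) (nat_lit 5) (nat_lit 17) (nat_lit 4) (nat_lit 403) (nat_lit 386) (nat_lit 231))) (XT.nd (nat_lit 78) (nat_lit 76) (nat_lit 0) (XT.lf (nat_lit 0) (nat_lit 1088799280946) (nat_lit 152) (nat_lit 4175028655193) (nat_lit 76) (nat_lit 6056142333974)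 (nat_lit 15) (nat_lit 5) (nat_lit 17) (nat_lit 5) (nat_lit 16) (nat_lit 4) (nat_lit 404) (nat_lit 386) (nat_lit 230)) (XT.nd (nat_lit 78) (nat_lit 0) (nat_lit 0) (XT.lf (nat_lit 0) (nat_lit 2387374107877) (nat_lit 76) (nat_lit 1753705528120) (nat_lit 152) (nat_lit 8314761910134) (nat_lit 14) (nat_lit 5) (nat_lit 15) (nat_lit 5) (nat_lit 16) (nat_lit 4) (nat_lit 405) (nat_lit 386) (nat_lit 229)) (XT.lf (nat_lit 0) (nat_lit 7974366045519) (nat_lit 152) (nat_lit 3430927787347) (nat_lit 0) (nat_lit 2308325080503) (nat_lit 14) (nat_lit 5) (nat_lit 16) (nat_lit 4) (nat_lit 14) (nat_lit 4) (nat_lit 406) (nat_lit 386) (nat_lit 228))))) (XT.nd (nat_lit 234) (nat_lit 152) (nat_lit 0) (XT.nd (nat_lit 78) (nat_lit 152) (nat_lit 0) (XT.lf (nat_lit 0) (nat_lit 4521245569046) (nat_lit 76) (nat_lit 8132124771612) (nat_lit 76) (nat_lit 2466083806406) (nat_lit 13) (nat_lit 4) (nat_lit 14) (nat_lit 5) (nat_lit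 14) (nat_lit 4) (nat_lit 407) (nat_lit 386) (nat_lit 227)) (XT.nd (nat_lit 78) (nat_lit 76) (nat_lit 0) (XT.lf (nat_lit 0) (nat_lit 1370382422576) (nat_lit 152) (nat_lit 2719718756831) (nat_lit 76) (nat_lit 12609818377053) (nat_lit 12) (nat_lit 5) (nat_lit 14) (nat_lit 5) (nat_lit 13) (nat_lit 4) (nat_lit 408) (nat_lit 386) (nat_lit 226)) (XT.lf (nat_lit 0) (nat_lit 5854884215363) (nat_lit 152) (nat_lit 11668306760403) (nat_lit 0) (nat_lit 927892071438) (nat_lit 11) (nat_lit 5) (nat_lit 13) (nat_lit 4) (nat_lit 11) (nat_lit 4) (nat_lit 409) (nat_lit 386) (nat_lit 225)))) (XT.nd (nat_lit 78) (nat_lit 152) (nat_lit 0) (XT.lf (nat_lit 0) (nat_lit 11355764979184) (nat_lit 152) (nat_lit 2628827691906) (nat_lit 0) (nat_lit 6428772835150) (nat_lit 11) (nat_lit 5) (nat_lit 13) (nat_lit 4) (nat_lit 11) (nat_lit 4) (nat_lit 410) (nat_lit 386) (nat_lit 224)) (XT.nd (nat_lit 78) (nat_lit 76) (nat_lit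 0) (XT.lf (nat_lit 0) (nat_lit 8525579257251) (nat_lit 76) (nat_lit 9509224656307) (nat_lit 76) (nat_lit 4582232512178) (nat_lit 10) (nat_lit 4) (nat_lit 11) (nat_lit 5) (nat_lit 11) (nat_lit 4) (nat_lit 411) (nat_lit 386) (nat_lit 223)) (XT.lf (nat_lit 0) (nat_lit 658149901686) (nat_lit 152) (nat_lit 3511969855584) (nat_lit 76) (nat_lit 20956038441278) (nat_lit 9) (nat_lit 5) (nat_lit 11) (nat_lit 5) (nat_lit 10) (nat_lit 4) (nat_lit 412) (nat_lit 386) (nat_lit 222)))))) (XT.nd (nat_lit 468) (nat_lit 228) (nat_lit 0) (XT.nd (nat_lit 234) (nat_lit 152) (nat_lit 0) (XT.nd (nat_lit 78) (nat_lit 76) (nat_lit 0) (XT.lf (nat_lit 0) (nat_lit 6709139889739) (nat_lit 152) (nat_lit 18770926689490) (nat_lit 0) (nat_lit 2424798894711) (nat_lit 8) (nat_lit 5) (nat_lit 10) (nat_lit 4) (nat_lit 8) (nat_lit 4) (nat_lit 413) (nat_lit 386) (nat_lit 221)) (XT.nd (nat_lit 78) (nat_lit 76) (nat_lit 0) (XT.lf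 (nat_lit 0) (nat_lit 14058677665867) (nat_lit 152) (nat_lit 7208729610508) (nat_lit 0) (nat_lit 9774336670786) (nat_lit 8) (nat_lit 5) (nat_lit 10) (nat_lit 4) (nat_lit 8) (nat_lit 4) (nat_lit 414) (nat_lit 386) (nat_lit 220)) (XT.lf (nat_lit 0) (nat_lit 6682740830639) (nat_lit 76) (nat_lit 16104623324428) (nat_lit 76) (nat_lit 11820282329299) (nat_lit 7) (nat_lit 4) (nat_lit 8) (nat_lit 5) (nat_lit 8) (nat_lit 4) (nat_lit 415) (nat_lit 386) (nat_lit 219)))) (XT.nd (nat_lit 78) (nat_lit 152) (nat_lit 0) (XT.lf (nat_lit 0) (nat_lit 23468094744999) (nat_lit 76) (nat_lit 9734078829405) (nat_lit 76) (nat_lit 5449737834236) (nat_lit 7) (nat_lit 4) (nat_lit 8) (nat_lit 5) (nat_lit 8) (nat_lit 4) (nat_lit 416) (nat_lit 386) (nat_lit 218)) (XT.nd (nat_lit 78) (nat_lit 76) (nat_lit 0) (XT.lf (nat_lit 0) (nat_lit 1709339269915) (nat_lit 152) (nat_lit 609261564886) (nat_lit 76) (nat_lit 40972560650843)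 (nat_lit 6) (nat_lit 5) (nat_lit 8) (nat_lit 5) (nat_lit 7) (nat_lit 4) (nat_lit 417) (nat_lit 386) (nat_lit 217)) (XT.lf (nat_lit 0) (nat_lit 10410556216249) (nat_lit 152) (nat_lit 31337839707846) (nat_lit 0) (nat_lit 6685042307349) (nat_lit 5) (nat_lit 5) (nat_lit 7) (nat_lit 4) (nat_lit 5) (nat_lit 4) (nat_lit 418) (nat_lit 386) (nat_lit 216))))) (XT.nd (nat_lit 234) (nat_lit 152) (nat_lit 0) (XT.nd (nat_lit 78) (nat_lit 76) (nat_lit 0) (XT.lf (nat_lit 0) (nat_lit 20560729591764) (nat_lit 152) (nat_lit 16929545131426) (nat_lit 0) (nat_lit 16835215682840) (nat_lit 5) (nat_lit 5) (nat_lit 7) (nat_lit 4) (nat_lit 5) (nat_lit 4) (nat_lit 419) (nat_lit 386) (nat_lit 215)) (XT.nd (nat_lit 78) (nat_lit 76) (nat_lit 0) (XT.lf (nat_lit 0) (nat_lit 32233428973499) (nat_lit 152) (nat_lit 360006368767) (nat_lit 0) (nat_lit 28507915064554) (nat_lit 5) (nat_lit 5) (nat_lit 7) (nat_lit 4) (nat_lit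 5) (nat_lit 4) (nat_lit 420) (nat_lit 386) (nat_lit 214)) (XT.lf (nat_lit 0) (nat_lit 20521970976160) (nat_lit 76) (nat_lit 25984833341153) (nat_lit 76) (nat_lit 22259319432191) (nat_lit 4) (nat_lit 4) (nat_lit 5) (nat_lit 5) (nat_lit 5) (nat_lit 4) (nat_lit 421) (nat_lit 386) (nat_lit 213)))) (XT.nd (nat_lit 78) (nat_lit 152) (nat_lit 0) (XT.lf (nat_lit 0) (nat_lit 44576704729313) (nat_lit 76) (nat_lit 18363299748030) (nat_lit 76) (nat_lit 14637785839053) (nat_lit 4) (nat_lit 4) (nat_lit 5) (nat_lit 5) (nat_lit 5) (nat_lit 4) (nat_lit 422) (nat_lit 386) (nat_lit 212)) (XT.nd (nat_lit 78) (nat_lit 152) (nat_lit 0) (XT.lf (nat_lit 0) (nat_lit 72239648545277) (nat_lit 76) (nat_lit 9598536116023) (nat_lit 76) (nat_lit 5873022207032) (nat_lit 4) (nat_lit 4) (nat_lit 5) (nat_lit 5) (nat_lit 5) (nat_lit 4) (nat_lit 423) (nat_lit 386) (nat_lit 211)) (XT.lf (nat_lit 0) (nat_lit 4075092386310)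 (nat_lit 152) (nat_lit 94391432754641) (nat_lit 0) (nat_lit 835515074134) (nat_lit 2) (nat_lit 5) (nat_lit 4) (nat_lit 4) (nat_lit 2) (nat_lit 4) (nat_lit 424) (nat_lit 386) (nat_lit 210))))))) (XT.nd (nat_lit 50856) (nat_lit 0) (nat_lit 912) (XT.nd (nat_lit 50388) (nat_lit 0) (nat_lit 1748) (XT.nd (nat_lit 50154) (nat_lit 0) (nat_lit 2052) (XT.nd (nat_lit 78) (nat_lit 0) (nat_lit 0) (XT.lf (nat_lit 0) (nat_lit 16218463713462) (nat_lit 152) (nat_lit 83196549517733) (nat_lit 0) (nat_lit 12978886401277) (nat_lit 2) (nat_lit 5) (nat_lit 4) (nat_lit 4) (nat_lit 2) (nat_lit 4) (nat_lit 425) (nat_lit 386) (nat_lit 209)) (XT.lf (nat_lit 0) (nat_lit 30183340739626) (nat_lit 152) (nat_lit 70322433795417) (nat_lit 0) (nat_lit 26943763427434) (nat_lit 2) (nat_lit 5) (nat_lit 4) (nat_lit 4) (nat_lit 2) (nat_lit 4) (nat_lit 426) (nat_lit 386) (nat_lit 208))) (XT.nd (nat_lit 78) (nat_lit 0) (nat_lit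 0) (XT.lf (nat_lit 0) (nat_lit 376359044013) (nat_lit 380) (nat_lit 534384769839) (nat_lit 380) (nat_lit 534384769839) (nat_lit 29) (nat_lit 3) (nat_lit 34) (nat_lit 3) (nat_lit 34) (nat_lit 5) (nat_lit 387) (nat_lit 387) (nat_lit 246)) (XT.nd (nat_lit 78) (nat_lit 0) (nat_lit 76) (XT.lf (nat_lit 76) (nat_lit 379819221464) (nat_lit 0) (nat_lit 445080234381) (nat_lit 380) (nat_lit 2279767872402) (nat_lit 30) (nat_lit 5) (nat_lit 29) (nat_lit 3) (nat_lit 34) (nat_lit 5) (nat_lit 388) (nat_lit 387) (nat_lit 245)) (XT.lf (nat_lit 0) (nat_lit 1013549269117) (nat_lit 304) (nat_lit 1226821213480) (nat_lit 380) (nat_lit 1095022344601) (nat_lit 30) (nat_lit 5) (nat_lit 34) (nat_lit 5) (nat_lit 35) (nat_lit 5) (nat_lit 389) (nat_lit 387) (nat_lit 244))))) (XT.nd (nat_lit 234) (nat_lit 152) (nat_lit 0) (XT.nd (nat_lit 78) (nat_lit 228) (nat_lit 0) (XT.lf (nat_lit 76) (nat_lit 521108058976) (nat_lit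 0) (nat_lit 752160764606) (nat_lit 380) (nat_lit 2321042487031) (nat_lit 31) (nat_lit 5) (nat_lit 30) (nat_lit 5) (nat_lit 35) (nat_lit 5) (nat_lit 390) (nat_lit 387) (nat_lit 243)) (XT.nd (nat_lit 78) (nat_lit 304) (nat_lit 0) (XT.lf (nat_lit 0) (nat_lit 1678851132814) (nat_lit 304) (nat_lit 1256119008537) (nat_lit 76) (nat_lit 941061701953) (nat_lit 31) (nat_lit 5) (nat_lit 35) (nat_lit 5) (nat_lit 32) (nat_lit 5) (nat_lit 391) (nat_lit 387) (nat_lit 242)) (XT.lf (nat_lit 0) (nat_lit 875668781121) (nat_lit 304) (nat_lit 1341678762553) (nat_lit 380) (nat_lit 1971851398936) (nat_lit 27) (nat_lit 5) (nat_lit 31) (nat_lit 5) (nat_lit 32) (nat_lit 5) (nat_lit 392) (nat_lit 387) (nat_lit 241)))) (XT.nd (nat_lit 78) (nat_lit 152) (nat_lit 0) (XT.lf (nat_lit 0) (nat_lit 2925720846497) (nat_lit 380) (nat_lit 1094538270709) (nat_lit 76) (nat_lit 515716625059) (nat_lit 27) (nat_lit 5) (nat_lit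 32) (nat_lit 5) (nat_lit 28) (nat_lit 5) (nat_lit 393) (nat_lit 387) (nat_lit 240)) (XT.nd (nat_lit 78) (nat_lit 0) (nat_lit 0) (XT.lf (nat_lit 0) (nat_lit 1529587384178) (nat_lit 152) (nat_lit 2337989176476) (nat_lit 228) (nat_lit 1048108538827) (nat_lit 25) (nat_lit 5) (nat_lit 27) (nat_lit 5) (nat_lit 28) (nat_lit 5) (nat_lit 394) (nat_lit 387) (nat_lit 239)) (XT.lf (nat_lit 0) (nat_lit 4670343062604) (nat_lit 152) (nat_lit 337582069207) (nat_lit 228) (nat_lit 335843553488) (nat_lit 25) (nat_lit 5) (nat_lit 27) (nat_lit 5) (nat_lit 28) (nat_lit 5) (nat_lit 395) (nat_lit 387) (nat_lit 238)))))) (XT.nd (nat_lit 468) (nat_lit 304) (nat_lit 0) (XT.nd (nat_lit 234) (nat_lit 228) (nat_lit 0) (XT.nd (nat_lit 78) (nat_lit 152) (nat_lit 0) (XT.lf (nat_lit 0) (nat_lit 638000058705) (nat_lit 152) (nat_lit 3240768380119) (nat_lit 76) (nat_lit 1924630428271) (nat_lit 23) (nat_lit 5) (nat_lit 25)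 (nat_lit 5) (nat_lit 24) (nat_lit 5) (nat_lit 396) (nat_lit 387) (nat_lit 237)) (XT.nd (nat_lit 78) (nat_lit 152) (nat_lit 0) (XT.lf (nat_lit 0) (nat_lit 1776489635771) (nat_lit 152) (nat_lit 658600546) (nat_lit 76) (nat_lit 4544483446435) (nat_lit 23) (nat_lit 5) (nat_lit 25) (nat_lit 5) (nat_lit 24) (nat_lit 5) (nat_lit 397) (nat_lit 387) (nat_lit 236)) (XT.lf (nat_lit 0) (nat_lit 3289645103931) (nat_lit 228) (nat_lit 2837204083772) (nat_lit 76) (nat_lit 760166364874) (nat_lit 21) (nat_lit 5) (nat_lit 24) (nat_lit 5) (nat_lit 22) (nat_lit 4) (nat_lit 398) (nat_lit 387) (nat_lit 235)))) (XT.nd (nat_lit 78) (nat_lit 152) (nat_lit 0) (XT.lf (nat_lit 0) (nat_lit 1192237727845) (nat_lit 76) (nat_lit 3971566358591) (nat_lit 152) (nat_lit 2353298387323) (nat_lit 20) (nat_lit 5) (nat_lit 21) (nat_lit 5) (nat_lit 22) (nat_lit 4) (nat_lit 399) (nat_lit 387) (nat_lit 234)) (XT.nd (nat_lit 78)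 (nat_lit 152) (nat_lit 0) (XT.lf (nat_lit 0) (nat_lit 6144958860393) (nat_lit 76) (nat_lit 1322436450795) (nat_lit 152) (nat_lit 752060862700) (nat_lit 20) (nat_lit 5) (nat_lit 21) (nat_lit 5) (nat_lit 22) (nat_lit 4) (nat_lit 400) (nat_lit 387) (nat_lit 233)) (XT.lf (nat_lit 0) (nat_lit 1197742126105) (nat_lit 152) (nat_lit 6042194480389) (nat_lit 76) (nat_lit 1749655737184) (nat_lit 18) (nat_lit 5) (nat_lit 20) (nat_lit 5) (nat_lit 19) (nat_lit 4) (nat_lit 401) (nat_lit 387) (nat_lit 232))))) (XT.nd (nat_lit 234) (nat_lit 152) (nat_lit 0) (XT.nd (nat_lit 78) (nat_lit 152) (nat_lit 0) (XT.lf (nat_lit 0) (nat_lit 3539595444127) (nat_lit 152) (nat_lit 1007209847080) (nat_lit 76) (nat_lit 5296585296185) (nat_lit 18) (nat_lit 5) (nat_lit 20) (nat_lit 5) (nat_lit 19) (nat_lit 4) (nat_lit 402) (nat_lit 387) (nat_lit 231)) (XT.nd (nat_lit 78) (nat_lit 76) (nat_lit 0) (XT.lf (nat_lit 0) (nat_lit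 5250454223092) (nat_lit 76) (nat_lit 1199682649200) (nat_lit 152) (nat_lit 4342510178506) (nat_lit 17) (nat_lit 5) (nat_lit 18) (nat_lit 5) (nat_lit 19) (nat_lit 4) (nat_lit 403) (nat_lit 387) (nat_lit 230)) (XT.lf (nat_lit 0) (nat_lit 627189107540) (nat_lit 76) (nat_lit 9360908192315) (nat_lit 76) (nat_lit 1867569016082) (nat_lit 16) (nat_lit 4) (nat_lit 17) (nat_lit 5) (nat_lit 17) (nat_lit 4) (nat_lit 404) (nat_lit 387) (nat_lit 229)))) (XT.nd (nat_lit 78) (nat_lit 76) (nat_lit 0) (XT.lf (nat_lit 0) (nat_lit 1252119176371) (nat_lit 152) (nat_lit 4801282947286) (nat_lit 76) (nat_lit 6964563686481) (nat_lit 15) (nat_lit 5) (nat_lit 17) (nat_lit 5) (nat_lit 16) (nat_lit 4) (nat_lit 405) (nat_lit 387) (nat_lit 228)) (XT.nd (nat_lit 78) (nat_lit 0) (nat_lit 0) (XT.lf (nat_lit 0) (nat_lit 2745480229964) (nat_lit 76) (nat_lit 2016761354532) (nat_lit 152) (nat_lit 9561976193089) (nat_lit 14)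 (nat_lit 5) (nat_lit 15) (nat_lit 5) (nat_lit 16) (nat_lit 4) (nat_lit 406) (nat_lit 387) (nat_lit 227)) (XT.lf (nat_lit 0) (nat_lit 9170520955143) (nat_lit 152) (nat_lit 3945566950009) (nat_lit 0) (nat_lit 2654573844801) (nat_lit 14) (nat_lit 5) (nat_lit 16) (nat_lit 4) (nat_lit 14) (nat_lit 4) (nat_lit 407) (nat_lit 387) (nat_lit 226))))))))
noncomputable def xc115 : XT := (XT.nd (nat_lit 51870) (nat_lit 0) (nat_lit 532) (XT.nd (nat_lit 858) (nat_lit 304) (nat_lit 0) (XT.nd (nat_lit 390) (nat_lit 304) (nat_lit 0) (XT.nd (nat_lit 156) (nat_lit 152) (nat_lit 0) (XT.nd (nat_lit 78) (nat_lit 76) (nat_lit 0) (XT.lf (nat_lit 0) (nat_lit 5199432409596) (nat_lit 76) (nat_lit 9351943484808) (nat_lit 76) (nat_lit 2835996374323) (nat_lit 13) (nat_lit 4) (nat_lit 14) (nat_lit 5) (nat_lit 14) (nat_lit 4) (nat_lit 408) (nat_lit 387) (nat_lit 225)) (XT.lf (nat_lit 0) (nat_lit 1575939788374) (nat_lit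 152) (nat_lit 3127676565605) (nat_lit 76) (nat_lit 14501291135589) (nat_lit 12) (nat_lit 5) (nat_lit 14) (nat_lit 5) (nat_lit 13) (nat_lit 4) (nat_lit 409) (nat_lit 387) (nat_lit 224))) (XT.nd (nat_lit 78) (nat_lit 76) (nat_lit 0) (XT.lf (nat_lit 0) (nat_lit 6733116850046) (nat_lit 152) (nat_lit 13418552769678) (nat_lit 0) (nat_lit 1067075884203) (nat_lit 11) (nat_lit 5) (nat_lit 13) (nat_lit 4) (nat_lit 11) (nat_lit 4) (nat_lit 410) (nat_lit 387) (nat_lit 223)) (XT.nd (nat_lit 78) (nat_lit 76) (nat_lit 0) (XT.lf (nat_lit 0) (nat_lit 13059129728130) (nat_lit 152) (nat_lit 3023151841531) (nat_lit 0) (nat_lit 7393088762206) (nat_lit 11) (nat_lit 5) (nat_lit 13) (nat_lit 4) (nat_lit 11) (nat_lit 4) (nat_lit 411) (nat_lit 387) (nat_lit 222)) (XT.lf (nat_lit 0) (nat_lit 9804416149811) (nat_lit 76) (nat_lit 10935608352744) (nat_lit 76) (nat_lit 5269567386748) (nat_lit 10) (nat_lit 4) (nat_lit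 11) (nat_lit 5) (nat_lit 11) (nat_lit 4) (nat_lit 412) (nat_lit 387) (nat_lit 221))))) (XT.nd (nat_lit 234) (nat_lit 152) (nat_lit 0) (XT.nd (nat_lit 78) (nat_lit 76) (nat_lit 0) (XT.lf (nat_lit 0) (nat_lit 756872388727) (nat_lit 152) (nat_lit 4038765330293) (nat_lit 76) (nat_lit 24099444209042) (nat_lit 9) (nat_lit 5) (nat_lit 11) (nat_lit 5) (nat_lit 10) (nat_lit 4) (nat_lit 413) (nat_lit 387) (nat_lit 220)) (XT.nd (nat_lit 78) (nat_lit 0) (nat_lit 0) (XT.lf (nat_lit 0) (nat_lit 7715510874971) (nat_lit 152) (nat_lit 21586565689267) (nat_lit 0) (nat_lit 2788518730526) (nat_lit 8) (nat_lit 5) (nat_lit 10) (nat_lit 4) (nat_lit 8) (nat_lit 4) (nat_lit 414) (nat_lit 387) (nat_lit 219)) (XT.lf (nat_lit 0) (nat_lit 16167479317288) (nat_lit 152) (nat_lit 8290039048914) (nat_lit 0) (nat_lit 11240487172802) (nat_lit 8) (nat_lit 5) (nat_lit 10) (nat_lit 4) (nat_lit 8) (nat_lit 4) (nat_lit 415)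 (nat_lit 387) (nat_lit 218)))) (XT.nd (nat_lit 78) (nat_lit 76) (nat_lit 0) (XT.lf (nat_lit 0) (nat_lit 7685151958262) (nat_lit 76) (nat_lit 18520316821531) (nat_lit 76) (nat_lit 13593324677010) (nat_lit 7) (nat_lit 4) (nat_lit 8) (nat_lit 5) (nat_lit 8) (nat_lit 4) (nat_lit 416) (nat_lit 387) (nat_lit 217)) (XT.nd (nat_lit 78) (nat_lit 76) (nat_lit 0) (XT.lf (nat_lit 0) (nat_lit 26988308959380) (nat_lit 76) (nat_lit 11194190652458) (nat_lit 76) (nat_lit 6267198507906) (nat_lit 7) (nat_lit 4) (nat_lit 8) (nat_lit 5) (nat_lit 8) (nat_lit 4) (nat_lit 417) (nat_lit 387) (nat_lit 216)) (XT.lf (nat_lit 0) (nat_lit 1965740161563) (nat_lit 152) (nat_lit 700650797217) (nat_lit 76) (nat_lit 47118444749537) (nat_lit 6) (nat_lit 5) (nat_lit 8) (nat_lit 5) (nat_lit 7) (nat_lit 4) (nat_lit 418) (nat_lit 387) (nat_lit 215)))))) (XT.nd (nat_lit 468) (nat_lit 152) (nat_lit 0) (XT.nd (nat_lit 234) (nat_lit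 76) (nat_lit 0) (XT.nd (nat_lit 78) (nat_lit 0) (nat_lit 0) (XT.lf (nat_lit 0) (nat_lit 11972139649840) (nat_lit 152) (nat_lit 36038515661614) (nat_lit 0) (nat_lit 7687798654534) (nat_lit 5) (nat_lit 5) (nat_lit 7) (nat_lit 4) (nat_lit 5) (nat_lit 4) (nat_lit 419) (nat_lit 387) (nat_lit 214)) (XT.nd (nat_lit 78) (nat_lit 0) (nat_lit 0) (XT.lf (nat_lit 0) (nat_lit 23644839031531) (nat_lit 152) (nat_lit 19468976899045) (nat_lit 0) (nat_lit 19360498036208) (nat_lit 5) (nat_lit 5) (nat_lit 7) (nat_lit 4) (nat_lit 5) (nat_lit 4) (nat_lit 420) (nat_lit 387) (nat_lit 213)) (XT.lf (nat_lit 0) (nat_lit 37068443320395) (nat_lit 152) (nat_lit 414007322260) (nat_lit 0) (nat_lit 32784102325056) (nat_lit 5) (nat_lit 5) (nat_lit 7) (nat_lit 4) (nat_lit 5) (nat_lit 4) (nat_lit 421) (nat_lit 387) (nat_lit 212)))) (XT.nd (nat_lit 78) (nat_lit 0) (nat_lit 0) (XT.lf (nat_lit 0) (nat_lit 23600266624323) (nat_lit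 76) (nat_lit 29882558341417) (nat_lit 76) (nat_lit 25598217346065) (nat_lit 4) (nat_lit 4) (nat_lit 5) (nat_lit 5) (nat_lit 5) (nat_lit 4) (nat_lit 422) (nat_lit 387) (nat_lit 211)) (XT.nd (nat_lit 78) (nat_lit 0) (nat_lit 0) (XT.lf (nat_lit 0) (nat_lit 51263210440222) (nat_lit 76) (nat_lit 21117794709444) (nat_lit 76) (nat_lit 16833453714080) (nat_lit 4) (nat_lit 4) (nat_lit 5) (nat_lit 5) (nat_lit 5) (nat_lit 4) (nat_lit 423) (nat_lit 387) (nat_lit 210)) (XT.lf (nat_lit 0) (nat_lit 83075595828384) (nat_lit 76) (nat_lit 11038316532739) (nat_lit 76) (nat_lit 6753975537365) (nat_lit 4) (nat_lit 4) (nat_lit 5) (nat_lit 5) (nat_lit 5) (nat_lit 4) (nat_lit 424) (nat_lit 387) (nat_lit 209))))) (XT.nd (nat_lit 50310) (nat_lit 0) (nat_lit 2052) (XT.nd (nat_lit 78) (nat_lit 0) (nat_lit 0) (XT.lf (nat_lit 0) (nat_lit 4686356244912) (nat_lit 152) (nat_lit 108550147666455) (nat_lit 0) (nat_lit 960842335883)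 (nat_lit 2) (nat_lit 5) (nat_lit 4) (nat_lit 4) (nat_lit 2) (nat_lit 4) (nat_lit 425) (nat_lit 387) (nat_lit 208)) (XT.nd (nat_lit 50154) (nat_lit 0) (nat_lit 2052) (XT.lf (nat_lit 0) (nat_lit 18651233271051) (nat_lit 152) (nat_lit 95676031944191) (nat_lit 0) (nat_lit 14925719362016) (nat_lit 2) (nat_lit 5) (nat_lit 4) (nat_lit 4) (nat_lit 2) (nat_lit 4) (nat_lit 426) (nat_lit 387) (nat_lit 207)) (XT.lf (nat_lit 0) (nat_lit 432812907538) (nat_lit 380) (nat_lit 614542481330) (nat_lit 380) (nat_lit 614542481330) (nat_lit 29) (nat_lit 3) (nat_lit 34) (nat_lit 3) (nat_lit 34) (nat_lit 5) (nat_lit 388) (nat_lit 388) (nat_lit 244)))) (XT.nd (nat_lit 78) (nat_lit 0) (nat_lit 76) (XT.lf (nat_lit 76) (nat_lit 436792112290) (nat_lit 0) (nat_lit 511842274285) (nat_lit 380) (nat_lit 2621733039042) (nat_lit 30) (nat_lit 5) (nat_lit 29) (nat_lit 3) (nat_lit 34) (nat_lit 5) (nat_lit 389) (nat_lit 388)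 (nat_lit 243)) (XT.nd (nat_lit 78) (nat_lit 0) (nat_lit 0) (XT.lf (nat_lit 0) (nat_lit 1165581670056) (nat_lit 304) (nat_lit 1410844387093) (nat_lit 380) (nat_lit 1259275692531) (nat_lit 30) (nat_lit 5) (nat_lit 34) (nat_lit 5) (nat_lit 35) (nat_lit 5) (nat_lit 390) (nat_lit 388) (nat_lit 242)) (XT.lf (nat_lit 76) (nat_lit 599274275850) (nat_lit 0) (nat_lit 864984880796) (nat_lit 380) (nat_lit 2669198849121) (nat_lit 31) (nat_lit 5) (nat_lit 30) (nat_lit 5) (nat_lit 35) (nat_lit 5) (nat_lit 391) (nat_lit 388) (nat_lit 241))))))) (XT.nd (nat_lit 858) (nat_lit 684) (nat_lit 0) (XT.nd (nat_lit 390) (nat_lit 532) (nat_lit 0) (XT.nd (nat_lit 156) (nat_lit 152) (nat_lit 0) (XT.nd (nat_lit 78) (nat_lit 304) (nat_lit 0) (XT.lf (nat_lit 0) (nat_lit 1930678810964) (nat_lit 304) (nat_lit 1444536851532) (nat_lit 76) (nat_lit 1082220956059) (nat_lit 31) (nat_lit 5) (nat_lit 35) (nat_lit 5) (nat_lit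 32) (nat_lit 5) (nat_lit 392) (nat_lit 388) (nat_lit 240)) (XT.lf (nat_lit 0) (nat_lit 1007019106198) (nat_lit 304) (nat_lit 1542930576510) (nat_lit 380) (nat_lit 2267629100164) (nat_lit 27) (nat_lit 5) (nat_lit 31) (nat_lit 5) (nat_lit 32) (nat_lit 5) (nat_lit 393) (nat_lit 388) (nat_lit 239))) (XT.nd (nat_lit 78) (nat_lit 152) (nat_lit 0) (XT.lf (nat_lit 0) (nat_lit 3364578979993) (nat_lit 380) (nat_lit 1258719003470) (nat_lit 76) (nat_lit 593074119156) (nat_lit 27) (nat_lit 5) (nat_lit 32) (nat_lit 5) (nat_lit 28) (nat_lit 5) (nat_lit 394) (nat_lit 388) (nat_lit 238)) (XT.nd (nat_lit 78) (nat_lit 0) (nat_lit 0) (XT.lf (nat_lit 0) (nat_lit 1759025499293) (nat_lit 152) (nat_lit 2688687551441) (nat_lit 228) (nat_lit 1205324812767) (nat_lit 25) (nat_lit 5) (nat_lit 27) (nat_lit 5) (nat_lit 28) (nat_lit 5) (nat_lit 395) (nat_lit 388) (nat_lit 237)) (XT.lf (nat_lit 0) (nat_lit 5370894528507)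 (nat_lit 152) (nat_lit 388219378278) (nat_lit 228) (nat_lit 386220080525) (nat_lit 25) (nat_lit 5) (nat_lit 27) (nat_lit 5) (nat_lit 28) (nat_lit 5) (nat_lit 396) (nat_lit 388) (nat_lit 236))))) (XT.nd (nat_lit 234) (nat_lit 228) (nat_lit 0) (XT.nd (nat_lit 78) (nat_lit 152) (nat_lit 0) (XT.lf (nat_lit 0) (nat_lit 733700072603) (nat_lit 152) (nat_lit 3726883629722) (nat_lit 76) (nat_lit 2213324994068) (nat_lit 23) (nat_lit 5) (nat_lit 25) (nat_lit 5) (nat_lit 24) (nat_lit 5) (nat_lit 397) (nat_lit 388) (nat_lit 235)) (XT.nd (nat_lit 78) (nat_lit 152) (nat_lit 0) (XT.lf (nat_lit 0) (nat_lit 2042963085565) (nat_lit 152) (nat_lit 757384180) (nat_lit 76) (nat_lit 5226155964753) (nat_lit 23) (nat_lit 5) (nat_lit 25) (nat_lit 5) (nat_lit 24) (nat_lit 5) (nat_lit 398) (nat_lit 388) (nat_lit 234)) (XT.lf (nat_lit 0) (nat_lit 3783091873711) (nat_lit 228) (nat_lit 3262784689649) (nat_lit 76) (nat_lit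 874191321473) (nat_lit 21) (nat_lit 5) (nat_lit 24) (nat_lit 5) (nat_lit 22) (nat_lit 4) (nat_lit 399) (nat_lit 388) (nat_lit 233)))) (XT.nd (nat_lit 78) (nat_lit 152) (nat_lit 0) (XT.lf (nat_lit 0) (nat_lit 1371073393406) (nat_lit 76) (nat_lit 4567301309903) (nat_lit 152) (nat_lit 2706293140925) (nat_lit 20) (nat_lit 5) (nat_lit 21) (nat_lit 5) (nat_lit 22) (nat_lit 4) (nat_lit 400) (nat_lit 388) (nat_lit 232)) (XT.nd (nat_lit 78) (nat_lit 152) (nat_lit 0) (XT.lf (nat_lit 0) (nat_lit 7066702695004) (nat_lit 76) (nat_lit 1520801916260) (nat_lit 152) (nat_lit 864869988194) (nat_lit 20) (nat_lit 5) (nat_lit 21) (nat_lit 5) (nat_lit 22) (nat_lit 4) (nat_lit 401) (nat_lit 388) (nat_lit 231)) (XT.lf (nat_lit 0) (nat_lit 1377403448446) (nat_lit 152) (nat_lit 6948523646407) (nat_lit 76) (nat_lit 2012104099860) (nat_lit 18) (nat_lit 5) (nat_lit 20) (nat_lit 5) (nat_lit 19) (nat_lit 4) (nat_lit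 402) (nat_lit 388) (nat_lit 230)))))) (XT.nd (nat_lit 468) (nat_lit 380) (nat_lit 0) (XT.nd (nat_lit 234) (nat_lit 152) (nat_lit 0) (XT.nd (nat_lit 78) (nat_lit 152) (nat_lit 0) (XT.lf (nat_lit 0) (nat_lit 4070534763725) (nat_lit 152) (nat_lit 1158291318890) (nat_lit 76) (nat_lit 6091073092437) (nat_lit 18) (nat_lit 5) (nat_lit 20) (nat_lit 5) (nat_lit 19) (nat_lit 4) (nat_lit 403) (nat_lit 388) (nat_lit 229)) (XT.nd (nat_lit 78) (nat_lit 76) (nat_lit 0) (XT.lf (nat_lit 0) (nat_lit 6038022361569) (nat_lit 76) (nat_lit 1379635044364) (nat_lit 152) (nat_lit 4993886702062) (nat_lit 17) (nat_lit 5) (nat_lit 18) (nat_lit 5) (nat_lit 19) (nat_lit 4) (nat_lit 404) (nat_lit 388) (nat_lit 228)) (XT.lf (nat_lit 0) (nat_lit 721267478771) (nat_lit 76) (nat_lit 10765044418787) (nat_lit 76) (nat_lit 2147704365360) (nat_lit 16) (nat_lit 4) (nat_lit 17) (nat_lit 5) (nat_lit 17) (nat_lit 4) (nat_lit 405)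 (nat_lit 388) (nat_lit 227)))) (XT.nd (nat_lit 78) (nat_lit 76) (nat_lit 0) (XT.lf (nat_lit 0) (nat_lit 1439937055309) (nat_lit 152) (nat_lit 5521475384700) (nat_lit 76) (nat_lit 8009248241275) (nat_lit 15) (nat_lit 5) (nat_lit 17) (nat_lit 5) (nat_lit 16) (nat_lit 4) (nat_lit 406) (nat_lit 388) (nat_lit 226)) (XT.nd (nat_lit 78) (nat_lit 0) (nat_lit 0) (XT.lf (nat_lit 0) (nat_lit 3157302268924) (nat_lit 76) (nat_lit 2319275555589) (nat_lit 152) (nat_lit 10996272619357) (nat_lit 14) (nat_lit 5) (nat_lit 15) (nat_lit 5) (nat_lit 16) (nat_lit 4) (nat_lit 407) (nat_lit 388) (nat_lit 225)) (XT.lf (nat_lit 0) (nat_lit 10546099100529) (nat_lit 152) (nat_lit 4537401988398) (nat_lit 0) (nat_lit 3052759923203) (nat_lit 14) (nat_lit 5) (nat_lit 16) (nat_lit 4) (nat_lit 14) (nat_lit 4) (nat_lit 408) (nat_lit 388) (nat_lit 224))))) (XT.nd (nat_lit 234) (nat_lit 152) (nat_lit 0) (XT.nd (nat_lit 78)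 (nat_lit 152) (nat_lit 0) (XT.lf (nat_lit 0) (nat_lit 5979347274961) (nat_lit 76) (nat_lit 10754735005604) (nat_lit 76) (nat_lit 3261395828169) (nat_lit 13) (nat_lit 4) (nat_lit 14) (nat_lit 5) (nat_lit 14) (nat_lit 4) (nat_lit 409) (nat_lit 388) (nat_lit 223)) (XT.nd (nat_lit 78) (nat_lit 76) (nat_lit 0) (XT.lf (nat_lit 0) (nat_lit 1812330758453) (nat_lit 152) (nat_lit 3596828046853) (nat_lit 76) (nat_lit 16676484807422) (nat_lit 12) (nat_lit 5) (nat_lit 14) (nat_lit 5) (nat_lit 13) (nat_lit 4) (nat_lit 410) (nat_lit 388) (nat_lit 222)) (XT.lf (nat_lit 0) (nat_lit 7743084379350) (nat_lit 152) (nat_lit 15431335681511) (nat_lit 0) (nat_lit 1227137268384) (nat_lit 11) (nat_lit 5) (nat_lit 13) (nat_lit 4) (nat_lit 11) (nat_lit 4) (nat_lit 411) (nat_lit 388) (nat_lit 221)))) (XT.nd (nat_lit 78) (nat_lit 152) (nat_lit 0) (XT.lf (nat_lit 0) (nat_lit 15017999188913) (nat_lit 152) (nat_lit 3476624614614)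 (nat_lit 0) (nat_lit 8502052077885) (nat_lit 11) (nat_lit 5) (nat_lit 13) (nat_lit 4) (nat_lit 11) (nat_lit 4) (nat_lit 412) (nat_lit 388) (nat_lit 220)) (XT.nd (nat_lit 78) (nat_lit 76) (nat_lit 0) (XT.lf (nat_lit 0) (nat_lit 11275078575286) (nat_lit 76) (nat_lit 12575949604136) (nat_lit 76) (nat_lit 6060002493053) (nat_lit 10) (nat_lit 4) (nat_lit 11) (nat_lit 5) (nat_lit 11) (nat_lit 4) (nat_lit 413) (nat_lit 388) (nat_lit 219)) (XT.lf (nat_lit 0) (nat_lit 870403248388) (nat_lit 152) (nat_lit 4644580127093) (nat_lit 76) (nat_lit 27714360841587) (nat_lit 9) (nat_lit 5) (nat_lit 11) (nat_lit 5) (nat_lit 10) (nat_lit 4) (nat_lit 414) (nat_lit 388) (nat_lit 218))))))))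
noncomputable def xc116 : XT := (XT.nd (nat_lit 51792) (nat_lit 0) (nat_lit 304) (XT.nd (nat_lit 858) (nat_lit 152) (nat_lit 0) (XT.nd (nat_lit 390) (nat_lit 152) (nat_lit 0) (XT.nd (nat_lit 156) (nat_lit 152) (nat_lit 0) (XT.nd (nat_lit 78) (nat_lit 0) (nat_lit 0) (XT.lf (nat_lit 0) (nat_lit 8872837507556) (nat_lit 152) (nat_lit 24824550539901) (nat_lit 0) (nat_lit 3206796541322) (nat_lit 8) (nat_lit 5) (nat_lit 10) (nat_lit 4) (nat_lit 8) (nat_lit 4) (nat_lit 415) (nat_lit 388) (nat_lit 217)) (XT.lf (nat_lit 0) (nat_lit 18592601216046) (nat_lit 152) (nat_lit 9533544903854) (nat_lit 0) (nat_lit 12926560249780) (nat_lit 8) (nat_lit 5) (nat_lit 10) (nat_lit 4) (nat_lit 8) (nat_lit 4) (nat_lit 416) (nat_lit 388) (nat_lit 216))) (XT.nd (nat_lit 78) (nat_lit 76) (nat_lit 0) (XT.lf (nat_lit 0) (nat_lit 8837924754289) (nat_lit 76) (nat_lit 21298364343580) (nat_lit 76) (nat_lit 15632323377287)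 (nat_lit 7) (nat_lit 4) (nat_lit 8) (nat_lit 5) (nat_lit 8) (nat_lit 4) (nat_lit 417) (nat_lit 388) (nat_lit 215)) (XT.nd (nat_lit 78) (nat_lit 76) (nat_lit 0) (XT.lf (nat_lit 0) (nat_lit 31036555305277) (nat_lit 76) (nat_lit 12873319249301) (nat_lit 76) (nat_lit 7207278282985) (nat_lit 7) (nat_lit 4) (nat_lit 8) (nat_lit 5) (nat_lit 8) (nat_lit 4) (nat_lit 418) (nat_lit 388) (nat_lit 214)) (XT.lf (nat_lit 0) (nat_lit 2260601186675) (nat_lit 152) (nat_lit 805748414983) (nat_lit 76) (nat_lit 54186211462774) (nat_lit 6) (nat_lit 5) (nat_lit 8) (nat_lit 5) (nat_lit 7) (nat_lit 4) (nat_lit 419) (nat_lit 388) (nat_lit 213))))) (XT.nd (nat_lit 234) (nat_lit 76) (nat_lit 0) (XT.nd (nat_lit 78) (nat_lit 0) (nat_lit 0) (XT.lf (nat_lit 0) (nat_lit 13767960598188) (nat_lit 152) (nat_lit 41444293009035) (nat_lit 0) (nat_lit 8840968453533) (nat_lit 5) (nat_lit 5) (nat_lit 7) (nat_lit 4) (nat_lit 5)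 (nat_lit 4) (nat_lit 420) (nat_lit 388) (nat_lit 212)) (XT.nd (nat_lit 78) (nat_lit 0) (nat_lit 0) (XT.lf (nat_lit 0) (nat_lit 27191564887019) (nat_lit 152) (nat_lit 22389323432318) (nat_lit 0) (nat_lit 22264572742351) (nat_lit 5) (nat_lit 5) (nat_lit 7) (nat_lit 4) (nat_lit 5) (nat_lit 4) (nat_lit 421) (nat_lit 388) (nat_lit 211)) (XT.lf (nat_lit 0) (nat_lit 42628709819114) (nat_lit 152) (nat_lit 476108419222) (nat_lit 0) (nat_lit 37701717674434) (nat_lit 5) (nat_lit 5) (nat_lit 7) (nat_lit 4) (nat_lit 5) (nat_lit 4) (nat_lit 422) (nat_lit 388) (nat_lit 210)))) (XT.nd (nat_lit 78) (nat_lit 0) (nat_lit 0) (XT.lf (nat_lit 0) (nat_lit 27140306619286) (nat_lit 76) (nat_lit 34364942091943) (nat_lit 76) (nat_lit 29437949947253) (nat_lit 4) (nat_lit 4) (nat_lit 5) (nat_lit 5) (nat_lit 5) (nat_lit 4) (nat_lit 423) (nat_lit 388) (nat_lit 209)) (XT.nd (nat_lit 78) (nat_lit 0) (nat_lit 0) (XT.lf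 (nat_lit 0) (nat_lit 58952692007399) (nat_lit 76) (nat_lit 24285463915264) (nat_lit 76) (nat_lit 19358471770565) (nat_lit 4) (nat_lit 4) (nat_lit 5) (nat_lit 5) (nat_lit 5) (nat_lit 4) (nat_lit 424) (nat_lit 388) (nat_lit 208)) (XT.lf (nat_lit 0) (nat_lit 95536935203635) (nat_lit 76) (nat_lit 12694064012131) (nat_lit 76) (nat_lit 7767071867424) (nat_lit 4) (nat_lit 4) (nat_lit 5) (nat_lit 5) (nat_lit 5) (nat_lit 4) (nat_lit 425) (nat_lit 388) (nat_lit 207)))))) (XT.nd (nat_lit 50466) (nat_lit 0) (nat_lit 1748) (XT.nd (nat_lit 50232) (nat_lit 0) (nat_lit 2052) (XT.nd (nat_lit 78) (nat_lit 0) (nat_lit 0) (XT.lf (nat_lit 0) (nat_lit 5389309682144) (nat_lit 152) (nat_lit 124832669815379) (nat_lit 0) (nat_lit 1104968686741) (nat_lit 2) (nat_lit 5) (nat_lit 4) (nat_lit 4) (nat_lit 2) (nat_lit 4) (nat_lit 426) (nat_lit 388) (nat_lit 206)) (XT.lf (nat_lit 0) (nat_lit 21448918262140) (nat_lit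 152) (nat_lit 110027436734911) (nat_lit 0) (nat_lit 17164577266732) (nat_lit 2) (nat_lit 5) (nat_lit 4) (nat_lit 4) (nat_lit 2) (nat_lit 4) (nat_lit 427) (nat_lit 388) (nat_lit 205))) (XT.nd (nat_lit 78) (nat_lit 0) (nat_lit 0) (XT.lf (nat_lit 0) (nat_lit 497734848903) (nat_lit 380) (nat_lit 706723850517) (nat_lit 380) (nat_lit 706723850517) (nat_lit 29) (nat_lit 3) (nat_lit 34) (nat_lit 3) (nat_lit 34) (nat_lit 5) (nat_lit 389) (nat_lit 389) (nat_lit 242)) (XT.nd (nat_lit 78) (nat_lit 0) (nat_lit 76) (XT.lf (nat_lit 76) (nat_lit 502310934885) (nat_lit 0) (nat_lit 588618619017) (nat_lit 380) (nat_lit 3014992984145) (nat_lit 30) (nat_lit 5) (nat_lit 29) (nat_lit 3) (nat_lit 34) (nat_lit 5) (nat_lit 390) (nat_lit 389) (nat_lit 241)) (XT.lf (nat_lit 0) (nat_lit 1340418928558) (nat_lit 304) (nat_lit 1622471038799) (nat_lit 380) (nat_lit 1448167043568) (nat_lit 30) (nat_lit 5) (nat_lit 34)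 (nat_lit 5) (nat_lit 35) (nat_lit 5) (nat_lit 391) (nat_lit 389) (nat_lit 240))))) (XT.nd (nat_lit 234) (nat_lit 152) (nat_lit 0) (XT.nd (nat_lit 78) (nat_lit 228) (nat_lit 0) (XT.lf (nat_lit 76) (nat_lit 689165423297) (nat_lit 0) (nat_lit 994732614048) (nat_lit 380) (nat_lit 3069578668199) (nat_lit 31) (nat_lit 5) (nat_lit 30) (nat_lit 5) (nat_lit 35) (nat_lit 5) (nat_lit 392) (nat_lit 389) (nat_lit 239)) (XT.nd (nat_lit 78) (nat_lit 304) (nat_lit 0) (XT.lf (nat_lit 0) (nat_lit 2220280638831) (nat_lit 304) (nat_lit 1661217372997) (nat_lit 76) (nat_lit 1244554098571) (nat_lit 31) (nat_lit 5) (nat_lit 35) (nat_lit 5) (nat_lit 32) (nat_lit 5) (nat_lit 393) (nat_lit 389) (nat_lit 238)) (XT.lf (nat_lit 0) (nat_lit 1158071978108) (nat_lit 304) (nat_lit 1774370162664) (nat_lit 380) (nat_lit 2607773458675) (nat_lit 27) (nat_lit 5) (nat_lit 31) (nat_lit 5) (nat_lit 32) (nat_lit 5) (nat_lit 394)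 (nat_lit 389) (nat_lit 237)))) (XT.nd (nat_lit 78) (nat_lit 152) (nat_lit 0) (XT.lf (nat_lit 0) (nat_lit 3869265831924) (nat_lit 380) (nat_lit 1447526848059) (nat_lit 76) (nat_lit 682035237285) (nat_lit 27) (nat_lit 5) (nat_lit 32) (nat_lit 5) (nat_lit 28) (nat_lit 5) (nat_lit 395) (nat_lit 389) (nat_lit 236)) (XT.nd (nat_lit 78) (nat_lit 0) (nat_lit 0) (XT.lf (nat_lit 0) (nat_lit 2022879329849) (nat_lit 152) (nat_lit 3091990683018) (nat_lit 228) (nat_lit 1386123529476) (nat_lit 25) (nat_lit 5) (nat_lit 27) (nat_lit 5) (nat_lit 28) (nat_lit 5) (nat_lit 396) (nat_lit 389) (nat_lit 235)) (XT.lf (nat_lit 0) (nat_lit 6176528712706) (nat_lit 152) (nat_lit 446452284028) (nat_lit 228) (nat_lit 444153088077) (nat_lit 25) (nat_lit 5) (nat_lit 27) (nat_lit 5) (nat_lit 28) (nat_lit 5) (nat_lit 397) (nat_lit 389) (nat_lit 234))))))) (XT.nd (nat_lit 858) (nat_lit 608) (nat_lit 0) (XT.nd (nat_lit 390)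 (nat_lit 456) (nat_lit 0) (XT.nd (nat_lit 156) (nat_lit 228) (nat_lit 0) (XT.nd (nat_lit 78) (nat_lit 0) (nat_lit 0) (XT.lf (nat_lit 0) (nat_lit 843755087344) (nat_lit 152) (nat_lit 4285916168573) (nat_lit 76) (nat_lit 2545323744355) (nat_lit 23) (nat_lit 5) (nat_lit 25) (nat_lit 5) (nat_lit 24) (nat_lit 5) (nat_lit 398) (nat_lit 389) (nat_lit 233)) (XT.lf (nat_lit 0) (nat_lit 2349407551748) (nat_lit 152) (nat_lit 870986931) (nat_lit 76) (nat_lit 6010079360489) (nat_lit 23) (nat_lit 5) (nat_lit 25) (nat_lit 5) (nat_lit 24) (nat_lit 5) (nat_lit 399) (nat_lit 389) (nat_lit 232))) (XT.nd (nat_lit 78) (nat_lit 76) (nat_lit 0) (XT.lf (nat_lit 0) (nat_lit 4350555657936) (nat_lit 228) (nat_lit 3752202388039) (nat_lit 76) (nat_lit 1005320021106) (nat_lit 21) (nat_lit 5) (nat_lit 24) (nat_lit 5) (nat_lit 22) (nat_lit 4) (nat_lit 400) (nat_lit 389) (nat_lit 231)) (XT.nd (nat_lit 78) (nat_lit 0)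 (nat_lit 0) (XT.lf (nat_lit 0) (nat_lit 1576734407245) (nat_lit 76) (nat_lit 5252396504515) (nat_lit 152) (nat_lit 3112237108664) (nat_lit 20) (nat_lit 5) (nat_lit 21) (nat_lit 5) (nat_lit 22) (nat_lit 4) (nat_lit 401) (nat_lit 389) (nat_lit 230)) (XT.lf (nat_lit 0) (nat_lit 8126708103453) (nat_lit 76) (nat_lit 1748922202070) (nat_lit 152) (nat_lit 994600483467) (nat_lit 20) (nat_lit 5) (nat_lit 21) (nat_lit 5) (nat_lit 22) (nat_lit 4) (nat_lit 402) (nat_lit 389) (nat_lit 229))))) (XT.nd (nat_lit 234) (nat_lit 228) (nat_lit 0) (XT.nd (nat_lit 78) (nat_lit 76) (nat_lit 0) (XT.lf (nat_lit 0) (nat_lit 1584013968304) (nat_lit 152) (nat_lit 7990802188802) (nat_lit 76) (nat_lit 2313919716425) (nat_lit 18) (nat_lit 5) (nat_lit 20) (nat_lit 5) (nat_lit 19) (nat_lit 4) (nat_lit 403) (nat_lit 389) (nat_lit 228)) (XT.nd (nat_lit 78) (nat_lit 76) (nat_lit 0) (XT.lf (nat_lit 0) (nat_lit 4681114980537)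 (nat_lit 152) (nat_lit 1332035012752) (nat_lit 76) (nat_lit 7004734057682) (nat_lit 18) (nat_lit 5) (nat_lit 20) (nat_lit 5) (nat_lit 19) (nat_lit 4) (nat_lit 404) (nat_lit 389) (nat_lit 227)) (XT.lf (nat_lit 0) (nat_lit 6943725719595) (nat_lit 76) (nat_lit 1586580299344) (nat_lit 152) (nat_lit 5742969704937) (nat_lit 17) (nat_lit 5) (nat_lit 18) (nat_lit 5) (nat_lit 19) (nat_lit 4) (nat_lit 405) (nat_lit 389) (nat_lit 226)))) (XT.nd (nat_lit 78) (nat_lit 152) (nat_lit 0) (XT.lf (nat_lit 0) (nat_lit 829457604443) (nat_lit 76) (nat_lit 12379801079809) (nat_lit 76) (nat_lit 2469860017795) (nat_lit 16) (nat_lit 4) (nat_lit 17) (nat_lit 5) (nat_lit 17) (nat_lit 4) (nat_lit 406) (nat_lit 389) (nat_lit 225)) (XT.nd (nat_lit 78) (nat_lit 76) (nat_lit 0) (XT.lf (nat_lit 0) (nat_lit 1655927615483) (nat_lit 152) (nat_lit 6349696688868) (nat_lit 76) (nat_lit 9210635478844) (nat_lit 15) (nat_lit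 5) (nat_lit 17) (nat_lit 5) (nat_lit 16) (nat_lit 4) (nat_lit 407) (nat_lit 389) (nat_lit 224)) (XT.lf (nat_lit 0) (nat_lit 3630897612639) (nat_lit 76) (nat_lit 2667166887324) (nat_lit 152) (nat_lit 12645713510222) (nat_lit 14) (nat_lit 5) (nat_lit 15) (nat_lit 5) (nat_lit 16) (nat_lit 4) (nat_lit 408) (nat_lit 389) (nat_lit 223)))))) (XT.nd (nat_lit 468) (nat_lit 304) (nat_lit 0) (XT.nd (nat_lit 234) (nat_lit 152) (nat_lit 0) (XT.nd (nat_lit 78) (nat_lit 152) (nat_lit 0) (XT.lf (nat_lit 0) (nat_lit 12128013967207) (nat_lit 152) (nat_lit 5218012283548) (nat_lit 0) (nat_lit 3510673912954) (nat_lit 14) (nat_lit 5) (nat_lit 16) (nat_lit 4) (nat_lit 14) (nat_lit 4) (nat_lit 409) (nat_lit 389) (nat_lit 222)) (XT.nd (nat_lit 78) (nat_lit 76) (nat_lit 0) (XT.lf (nat_lit 0) (nat_lit 6876249369174) (nat_lit 76) (nat_lit 12367945254989) (nat_lit 76) (nat_lit 3750605200654) (nat_lit 13) (nat_lit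 4) (nat_lit 14) (nat_lit 5) (nat_lit 14) (nat_lit 4) (nat_lit 410) (nat_lit 389) (nat_lit 221)) (XT.lf (nat_lit 0) (nat_lit 2084180373600) (nat_lit 152) (nat_lit 4136352251165) (nat_lit 76) (nat_lit 19177957529666) (nat_lit 12) (nat_lit 5) (nat_lit 14) (nat_lit 5) (nat_lit 13) (nat_lit 4) (nat_lit 411) (nat_lit 389) (nat_lit 220)))) (XT.nd (nat_lit 78) (nat_lit 76) (nat_lit 0) (XT.lf (nat_lit 0) (nat_lit 8904547037613) (nat_lit 152) (nat_lit 17746036031002) (nat_lit 0) (nat_lit 1411207859814) (nat_lit 11) (nat_lit 5) (nat_lit 13) (nat_lit 4) (nat_lit 11) (nat_lit 4) (nat_lit 412) (nat_lit 389) (nat_lit 219)) (XT.nd (nat_lit 78) (nat_lit 76) (nat_lit 0) (XT.lf (nat_lit 0) (nat_lit 17270699068432) (nat_lit 152) (nat_lit 3998118304427) (nat_lit 0) (nat_lit 9777359890587) (nat_lit 11) (nat_lit 5) (nat_lit 13) (nat_lit 4) (nat_lit 11) (nat_lit 4) (nat_lit 413) (nat_lit 389) (nat_lit 218))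 (XT.lf (nat_lit 0) (nat_lit 12966340363850) (nat_lit 76) (nat_lit 14462342043607) (nat_lit 76) (nat_lit 6969002865721) (nat_lit 10) (nat_lit 4) (nat_lit 11) (nat_lit 5) (nat_lit 11) (nat_lit 4) (nat_lit 414) (nat_lit 389) (nat_lit 217))))) (XT.nd (nat_lit 234) (nat_lit 152) (nat_lit 0) (XT.nd (nat_lit 78) (nat_lit 76) (nat_lit 0) (XT.lf (nat_lit 0) (nat_lit 1000963736669) (nat_lit 152) (nat_lit 5341267144082) (nat_lit 76) (nat_lit 31871514968724) (nat_lit 9) (nat_lit 5) (nat_lit 11) (nat_lit 5) (nat_lit 10) (nat_lit 4) (nat_lit 415) (nat_lit 389) (nat_lit 216)) (XT.nd (nat_lit 78) (nat_lit 0) (nat_lit 0) (XT.lf (nat_lit 0) (nat_lit 10203763134703) (nat_lit 152) (nat_lit 28548233118801) (nat_lit 0) (nat_lit 3687816023440) (nat_lit 8) (nat_lit 5) (nat_lit 10) (nat_lit 4) (nat_lit 8) (nat_lit 4) (nat_lit 416) (nat_lit 389) (nat_lit 215)) (XT.lf (nat_lit 0) (nat_lit 21381491399333) (nat_lit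 152) (nat_lit 10963576637619) (nat_lit 0) (nat_lit 14865544288047) (nat_lit 8) (nat_lit 5) (nat_lit 10) (nat_lit 4) (nat_lit 8) (nat_lit 4) (nat_lit 417) (nat_lit 389) (nat_lit 214)))) (XT.nd (nat_lit 78) (nat_lit 76) (nat_lit 0) (XT.lf (nat_lit 0) (nat_lit 10163613469163) (nat_lit 76) (nat_lit 24493118994224) (nat_lit 76) (nat_lit 17977171882917) (nat_lit 7) (nat_lit 4) (nat_lit 8) (nat_lit 5) (nat_lit 8) (nat_lit 4) (nat_lit 418) (nat_lit 389) (nat_lit 213)) (XT.nd (nat_lit 78) (nat_lit 76) (nat_lit 0) (XT.lf (nat_lit 0) (nat_lit 35692038602574) (nat_lit 76) (nat_lit 14804317135919) (nat_lit 76) (nat_lit 8288370024595) (nat_lit 7) (nat_lit 4) (nat_lit 8) (nat_lit 5) (nat_lit 8) (nat_lit 4) (nat_lit 419) (nat_lit 389) (nat_lit 212)) (XT.lf (nat_lit 0) (nat_lit 2599691365340) (nat_lit 152) (nat_lit 926610675858) (nat_lit 76) (nat_lit 62314143182801) (nat_lit 6) (nat_lit 5) (nat_lit 8)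 (nat_lit 5) (nat_lit 7) (nat_lit 4) (nat_lit 420) (nat_lit 389) (nat_lit 211))))))))
noncomputable def xc117 : XT := (XT.nd (nat_lit 51948) (nat_lit 0) (nat_lit 152) (XT.nd (nat_lit 51012) (nat_lit 0) (nat_lit 1216) (XT.nd (nat_lit 390) (nat_lit 152) (nat_lit 0) (XT.nd (nat_lit 156) (nat_lit 76) (nat_lit 0) (XT.nd (nat_lit 78) (nat_lit 0) (nat_lit 0) (XT.lf (nat_lit 0) (nat_lit 15833154688576) (nat_lit 152) (nat_lit 47660936959012) (nat_lit 0) (nat_lit 10167113722182) (nat_lit 5) (nat_lit 5) (nat_lit 7) (nat_lit 4) (nat_lit 5) (nat_lit 4) (nat_lit 421) (nat_lit 389) (nat_lit 210)) (XT.lf (nat_lit 0) (nat_lit 31270299620646) (nat_lit 152) (nat_lit 25747721945968) (nat_lit 0) (nat_lit 25604258654242) (nat_lit 5) (nat_lit 5) (nat_lit 7) (nat_lit 4) (nat_lit 5) (nat_lit 4) (nat_lit 422) (nat_lit 389) (nat_lit 209))) (XT.nd (nat_lit 78) (nat_lit 76) (nat_lit 0) (XT.lf (nat_lit 0) (nat_lit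 49023016292480) (nat_lit 152) (nat_lit 547524681064) (nat_lit 0) (nat_lit 43356975326067) (nat_lit 5) (nat_lit 5) (nat_lit 7) (nat_lit 4) (nat_lit 5) (nat_lit 4) (nat_lit 423) (nat_lit 389) (nat_lit 208)) (XT.nd (nat_lit 78) (nat_lit 0) (nat_lit 0) (XT.lf (nat_lit 0) (nat_lit 31211352613174) (nat_lit 76) (nat_lit 39519683405215) (nat_lit 76) (nat_lit 33853642438795) (nat_lit 4) (nat_lit 4) (nat_lit 5) (nat_lit 5) (nat_lit 5) (nat_lit 4) (nat_lit 424) (nat_lit 389) (nat_lit 207)) (XT.lf (nat_lit 0) (nat_lit 67795595809373) (nat_lit 76) (nat_lit 27928283502102) (nat_lit 76) (nat_lit 22262242535675) (nat_lit 4) (nat_lit 4) (nat_lit 5) (nat_lit 5) (nat_lit 5) (nat_lit 4) (nat_lit 425) (nat_lit 389) (nat_lit 206))))) (XT.nd (nat_lit 50388) (nat_lit 0) (nat_lit 2052) (XT.nd (nat_lit 78) (nat_lit 152) (nat_lit 0) (XT.lf (nat_lit 0) (nat_lit 109867475484933) (nat_lit 76) (nat_lit 14598173613558)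 (nat_lit 76) (nat_lit 8932132647125) (nat_lit 4) (nat_lit 4) (nat_lit 5) (nat_lit 5) (nat_lit 5) (nat_lit 4) (nat_lit 426) (nat_lit 389) (nat_lit 205)) (XT.nd (nat_lit 50232) (nat_lit 0) (nat_lit 2052) (XT.lf (nat_lit 0) (nat_lit 6197706134840) (nat_lit 152) (nat_lit 143557570286896) (nat_lit 0) (nat_lit 1270713990112) (nat_lit 2) (nat_lit 5) (nat_lit 4) (nat_lit 4) (nat_lit 2) (nat_lit 4) (nat_lit 427) (nat_lit 389) (nat_lit 204)) (XT.lf (nat_lit 0) (nat_lit 572395080196) (nat_lit 380) (nat_lit 812732425817) (nat_lit 380) (nat_lit 812732425817) (nat_lit 29) (nat_lit 3) (nat_lit 34) (nat_lit 3) (nat_lit 34) (nat_lit 5) (nat_lit 390) (nat_lit 390) (nat_lit 240)))) (XT.nd (nat_lit 78) (nat_lit 0) (nat_lit 76) (XT.lf (nat_lit 76) (nat_lit 577657579467) (nat_lit 0) (nat_lit 676911414584) (nat_lit 380) (nat_lit 3467241923637) (nat_lit 30) (nat_lit 5) (nat_lit 29) (nat_lit 3) (nat_lit 34) (nat_lit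 5) (nat_lit 391) (nat_lit 390) (nat_lit 239)) (XT.nd (nat_lit 78) (nat_lit 0) (nat_lit 0) (XT.lf (nat_lit 0) (nat_lit 1541481773886) (nat_lit 304) (nat_lit 1865841689811) (nat_lit 380) (nat_lit 1665392097953) (nat_lit 30) (nat_lit 5) (nat_lit 34) (nat_lit 5) (nat_lit 35) (nat_lit 5) (nat_lit 392) (nat_lit 390) (nat_lit 238)) (XT.lf (nat_lit 76) (nat_lit 792540241381) (nat_lit 0) (nat_lit 1143942507011) (nat_lit 380) (nat_lit 3530015462160) (nat_lit 31) (nat_lit 5) (nat_lit 30) (nat_lit 5) (nat_lit 35) (nat_lit 5) (nat_lit 393) (nat_lit 390) (nat_lit 237)))))) (XT.nd (nat_lit 468) (nat_lit 380) (nat_lit 0) (XT.nd (nat_lit 234) (nat_lit 304) (nat_lit 0) (XT.nd (nat_lit 78) (nat_lit 304) (nat_lit 0) (XT.lf (nat_lit 0) (nat_lit 2553322739360) (nat_lit 304) (nat_lit 1910399974209) (nat_lit 76) (nat_lit 1431237212678) (nat_lit 31) (nat_lit 5) (nat_lit 35) (nat_lit 5) (nat_lit 32) (nat_lit 5)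 (nat_lit 394) (nat_lit 390) (nat_lit 236)) (XT.nd (nat_lit 78) (nat_lit 0) (nat_lit 0) (XT.lf (nat_lit 0) (nat_lit 1331782779347) (nat_lit 304) (nat_lit 2040525686820) (nat_lit 380) (nat_lit 2998939472552) (nat_lit 27) (nat_lit 5) (nat_lit 31) (nat_lit 5) (nat_lit 32) (nat_lit 5) (nat_lit 395) (nat_lit 390) (nat_lit 235)) (XT.lf (nat_lit 0) (nat_lit 4449655710442) (nat_lit 380) (nat_lit 1664655870782) (nat_lit 76) (nat_lit 784340523071) (nat_lit 27) (nat_lit 5) (nat_lit 32) (nat_lit 5) (nat_lit 28) (nat_lit 5) (nat_lit 396) (nat_lit 390) (nat_lit 234)))) (XT.nd (nat_lit 78) (nat_lit 152) (nat_lit 0) (XT.lf (nat_lit 0) (nat_lit 2326311233608) (nat_lit 152) (nat_lit 3555789284609) (nat_lit 228) (nat_lit 1594042054961) (nat_lit 25) (nat_lit 5) (nat_lit 27) (nat_lit 5) (nat_lit 28) (nat_lit 5) (nat_lit 397) (nat_lit 390) (nat_lit 233)) (XT.nd (nat_lit 78) (nat_lit 152) (nat_lit 0) (XT.lf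 (nat_lit 0) (nat_lit 7103008023336) (nat_lit 152) (nat_lit 513420125883) (nat_lit 228) (nat_lit 510776047865) (nat_lit 25) (nat_lit 5) (nat_lit 27) (nat_lit 5) (nat_lit 28) (nat_lit 5) (nat_lit 398) (nat_lit 390) (nat_lit 232)) (XT.lf (nat_lit 0) (nat_lit 970318353357) (nat_lit 152) (nat_lit 4928803589619) (nat_lit 76) (nat_lit 2927122306897) (nat_lit 23) (nat_lit 5) (nat_lit 25) (nat_lit 5) (nat_lit 24) (nat_lit 5) (nat_lit 399) (nat_lit 390) (nat_lit 231))))) (XT.nd (nat_lit 234) (nat_lit 152) (nat_lit 0) (XT.nd (nat_lit 78) (nat_lit 228) (nat_lit 0) (XT.lf (nat_lit 0) (nat_lit 2701818687041) (nat_lit 152) (nat_lit 1001631284) (nat_lit 76) (nat_lit 6911591265336) (nat_lit 23) (nat_lit 5) (nat_lit 25) (nat_lit 5) (nat_lit 24) (nat_lit 5) (nat_lit 400) (nat_lit 390) (nat_lit 230)) (XT.nd (nat_lit 78) (nat_lit 76) (nat_lit 0) (XT.lf (nat_lit 0) (nat_lit 5003139009022) (nat_lit 228) (nat_lit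 4315032742420) (nat_lit 76) (nat_lit 1156118025340) (nat_lit 21) (nat_lit 5) (nat_lit 24) (nat_lit 5) (nat_lit 22) (nat_lit 4) (nat_lit 401) (nat_lit 390) (nat_lit 229)) (XT.lf (nat_lit 0) (nat_lit 1813244571983) (nat_lit 76) (nat_lit 6040255978776) (nat_lit 152) (nat_lit 3579072672392) (nat_lit 20) (nat_lit 5) (nat_lit 21) (nat_lit 5) (nat_lit 22) (nat_lit 4) (nat_lit 402) (nat_lit 390) (nat_lit 228)))) (XT.nd (nat_lit 78) (nat_lit 152) (nat_lit 0) (XT.lf (nat_lit 0) (nat_lit 9345714322145) (nat_lit 76) (nat_lit 2011260531149) (nat_lit 152) (nat_lit 1143790553752) (nat_lit 20) (nat_lit 5) (nat_lit 21) (nat_lit 5) (nat_lit 22) (nat_lit 4) (nat_lit 403) (nat_lit 390) (nat_lit 227)) (XT.nd (nat_lit 78) (nat_lit 0) (nat_lit 0) (XT.lf (nat_lit 0) (nat_lit 1821616065509) (nat_lit 152) (nat_lit 9189422513668) (nat_lit 76) (nat_lit 2661007675089) (nat_lit 18) (nat_lit 5) (nat_lit 20) (nat_lit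 5) (nat_lit 19) (nat_lit 4) (nat_lit 404) (nat_lit 390) (nat_lit 226)) (XT.lf (nat_lit 0) (nat_lit 5383282229321) (nat_lit 152) (nat_lit 1531840261662) (nat_lit 76) (nat_lit 8055444167378) (nat_lit 18) (nat_lit 5) (nat_lit 20) (nat_lit 5) (nat_lit 19) (nat_lit 4) (nat_lit 405) (nat_lit 390) (nat_lit 225))))))) (XT.nd (nat_lit 858) (nat_lit 380) (nat_lit 0) (XT.nd (nat_lit 390) (nat_lit 380) (nat_lit 0) (XT.nd (nat_lit 156) (nat_lit 152) (nat_lit 0) (XT.nd (nat_lit 78) (nat_lit 76) (nat_lit 0) (XT.lf (nat_lit 0) (nat_lit 7985284580401) (nat_lit 76) (nat_lit 1824567342979) (nat_lit 152) (nat_lit 6604415158838) (nat_lit 17) (nat_lit 5) (nat_lit 18) (nat_lit 5) (nat_lit 19) (nat_lit 4) (nat_lit 406) (nat_lit 390) (nat_lit 224)) (XT.lf (nat_lit 0) (nat_lit 953876248025) (nat_lit 76) (nat_lit 14236771240422) (nat_lit 76) (nat_lit 2840339018672) (nat_lit 16) (nat_lit 4) (nat_lit 17) (nat_lit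 5) (nat_lit 17) (nat_lit 4) (nat_lit 407) (nat_lit 390) (nat_lit 223))) (XT.nd (nat_lit 78) (nat_lit 76) (nat_lit 0) (XT.lf (nat_lit 0) (nat_lit 1904316759225) (nat_lit 152) (nat_lit 7302151189524) (nat_lit 76) (nat_lit 10592230801713) (nat_lit 15) (nat_lit 5) (nat_lit 17) (nat_lit 5) (nat_lit 16) (nat_lit 4) (nat_lit 408) (nat_lit 390) (nat_lit 222)) (XT.nd (nat_lit 78) (nat_lit 0) (nat_lit 0) (XT.lf (nat_lit 0) (nat_lit 4175532257088) (nat_lit 76) (nat_lit 3067241919209) (nat_lit 152) (nat_lit 14542570535214) (nat_lit 14) (nat_lit 5) (nat_lit 15) (nat_lit 5) (nat_lit 16) (nat_lit 4) (nat_lit 409) (nat_lit 390) (nat_lit 221)) (XT.lf (nat_lit 0) (nat_lit 13947216063497) (nat_lit 152) (nat_lit 6000714123728) (nat_lit 0) (nat_lit 4037275000858) (nat_lit 14) (nat_lit 5) (nat_lit 16) (nat_lit 4) (nat_lit 14) (nat_lit 4) (nat_lit 410) (nat_lit 390) (nat_lit 220))))) (XT.nd (nat_lit 234) (nat_lit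 152) (nat_lit 0) (XT.nd (nat_lit 78) (nat_lit 152) (nat_lit 0) (XT.lf (nat_lit 0) (nat_lit 7907686776795) (nat_lit 76) (nat_lit 14223137042137) (nat_lit 76) (nat_lit 4313195979436) (nat_lit 13) (nat_lit 4) (nat_lit 14) (nat_lit 5) (nat_lit 14) (nat_lit 4) (nat_lit 411) (nat_lit 390) (nat_lit 219)) (XT.nd (nat_lit 78) (nat_lit 76) (nat_lit 0) (XT.lf (nat_lit 0) (nat_lit 2396807430683) (nat_lit 152) (nat_lit 4756805086785) (nat_lit 76) (nat_lit 22054651159971) (nat_lit 12) (nat_lit 5) (nat_lit 14) (nat_lit 5) (nat_lit 13) (nat_lit 4) (nat_lit 412) (nat_lit 390) (nat_lit 218)) (XT.lf (nat_lit 0) (nat_lit 10240229094283) (nat_lit 152) (nat_lit 20407941433584) (nat_lit 0) (nat_lit 1622889039673) (nat_lit 11) (nat_lit 5) (nat_lit 13) (nat_lit 4) (nat_lit 11) (nat_lit 4) (nat_lit 413) (nat_lit 390) (nat_lit 217)))) (XT.nd (nat_lit 78) (nat_lit 152) (nat_lit 0) (XT.lf (nat_lit 0) (nat_lit 19861303929591)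 (nat_lit 152) (nat_lit 4597836048293) (nat_lit 0) (nat_lit 11243963874945) (nat_lit 11) (nat_lit 5) (nat_lit 13) (nat_lit 4) (nat_lit 11) (nat_lit 4) (nat_lit 414) (nat_lit 390) (nat_lit 216)) (XT.nd (nat_lit 78) (nat_lit 76) (nat_lit 0) (XT.lf (nat_lit 0) (nat_lit 14911291420145) (nat_lit 76) (nat_lit 16631693349280) (nat_lit 76) (nat_lit 8014353294603) (nat_lit 10) (nat_lit 4) (nat_lit 11) (nat_lit 5) (nat_lit 11) (nat_lit 4) (nat_lit 415) (nat_lit 390) (nat_lit 215)) (XT.lf (nat_lit 0) (nat_lit 1151108297943) (nat_lit 152) (nat_lit 6142457214125) (nat_lit 76) (nat_lit 36652242214712) (nat_lit 9) (nat_lit 5) (nat_lit 11) (nat_lit 5) (nat_lit 10) (nat_lit 4) (nat_lit 416) (nat_lit 390) (nat_lit 214)))))) (XT.nd (nat_lit 468) (nat_lit 76) (nat_lit 0) (XT.nd (nat_lit 234) (nat_lit 152) (nat_lit 0) (XT.nd (nat_lit 78) (nat_lit 76) (nat_lit 0) (XT.lf (nat_lit 0) (nat_lit 11734327605674)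 (nat_lit 152) (nat_lit 32830468085045) (nat_lit 0) (nat_lit 4240988427651) (nat_lit 8) (nat_lit 5) (nat_lit 10) (nat_lit 4) (nat_lit 8) (nat_lit 4) (nat_lit 417) (nat_lit 390) (nat_lit 213)) (XT.nd (nat_lit 78) (nat_lit 76) (nat_lit 0) (XT.lf (nat_lit 0) (nat_lit 24588715109900) (nat_lit 152) (nat_lit 12608113131891) (nat_lit 0) (nat_lit 17095375931859) (nat_lit 8) (nat_lit 5) (nat_lit 10) (nat_lit 4) (nat_lit 8) (nat_lit 4) (nat_lit 418) (nat_lit 390) (nat_lit 212)) (XT.lf (nat_lit 0) (nat_lit 11688155490845) (nat_lit 76) (nat_lit 28167086842683) (nat_lit 76) (nat_lit 20673747664627) (nat_lit 7) (nat_lit 4) (nat_lit 8) (nat_lit 5) (nat_lit 8) (nat_lit 4) (nat_lit 419) (nat_lit 390) (nat_lit 211)))) (XT.nd (nat_lit 78) (nat_lit 152) (nat_lit 0) (XT.lf (nat_lit 0) (nat_lit 41045844394097) (nat_lit 76) (nat_lit 17024964705720) (nat_lit 76) (nat_lit 9531625527651) (nat_lit 7) (nat_lit 4)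 (nat_lit 8) (nat_lit 5) (nat_lit 8) (nat_lit 4) (nat_lit 420) (nat_lit 390) (nat_lit 210)) (XT.nd (nat_lit 78) (nat_lit 76) (nat_lit 0) (XT.lf (nat_lit 0) (nat_lit 2989645070642) (nat_lit 152) (nat_lit 1065602276198) (nat_lit 76) (nat_lit 71661264660682) (nat_lit 6) (nat_lit 5) (nat_lit 8) (nat_lit 5) (nat_lit 7) (nat_lit 4) (nat_lit 421) (nat_lit 390) (nat_lit 209)) (XT.lf (nat_lit 0) (nat_lit 18208127892361) (nat_lit 152) (nat_lit 54810077501823) (nat_lit 0) (nat_lit 11692180780977) (nat_lit 5) (nat_lit 5) (nat_lit 7) (nat_lit 4) (nat_lit 5) (nat_lit 4) (nat_lit 422) (nat_lit 390) (nat_lit 208))))) (XT.nd (nat_lit 234) (nat_lit 0) (nat_lit 0) (XT.nd (nat_lit 78) (nat_lit 76) (nat_lit 0) (XT.lf (nat_lit 0) (nat_lit 35960844564176) (nat_lit 152) (nat_lit 29609880236958) (nat_lit 0) (nat_lit 29444897452785) (nat_lit 5) (nat_lit 5) (nat_lit 7) (nat_lit 4) (nat_lit 5) (nat_lit 4) (nat_lit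 423) (nat_lit 390) (nat_lit 207)) (XT.nd (nat_lit 78) (nat_lit 76) (nat_lit 0) (XT.lf (nat_lit 0) (nat_lit 56376468736729) (nat_lit 152) (nat_lit 629653382436) (nat_lit 0) (nat_lit 49860521625331) (nat_lit 5) (nat_lit 5) (nat_lit 7) (nat_lit 4) (nat_lit 5) (nat_lit 4) (nat_lit 424) (nat_lit 390) (nat_lit 206)) (XT.lf (nat_lit 0) (nat_lit 35893055505901) (nat_lit 76) (nat_lit 45447635915605) (nat_lit 76) (nat_lit 38931688804201) (nat_lit 4) (nat_lit 4) (nat_lit 5) (nat_lit 5) (nat_lit 5) (nat_lit 4) (nat_lit 425) (nat_lit 390) (nat_lit 205)))) (XT.nd (nat_lit 50388) (nat_lit 0) (nat_lit 1900) (XT.lf (nat_lit 0) (nat_lit 77964935181433) (nat_lit 76) (nat_lit 32117526027076) (nat_lit 76) (nat_lit 25601578915667) (nat_lit 4) (nat_lit 4) (nat_lit 5) (nat_lit 5) (nat_lit 5) (nat_lit 4) (nat_lit 426) (nat_lit 390) (nat_lit 204)) (XT.nd (nat_lit 78) (nat_lit 0) (nat_lit 0) (XT.lf (nat_lit 0)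 (nat_lit 658254345218) (nat_lit 380) (nat_lit 934642287967) (nat_lit 380) (nat_lit 934642287967) (nat_lit 29) (nat_lit 3) (nat_lit 34) (nat_lit 3) (nat_lit 34) (nat_lit 5) (nat_lit 391) (nat_lit 391) (nat_lit 238)) (XT.lf (nat_lit 76) (nat_lit 664306219676) (nat_lit 0) (nat_lit 778448128824) (nat_lit 380) (nat_lit 3987328206034) (nat_lit 30) (nat_lit 5) (nat_lit 29) (nat_lit 3) (nat_lit 34) (nat_lit 5) (nat_lit 392) (nat_lit 391) (nat_lit 237))))))))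
noncomputable def xc118 : XT := (XT.nd (nat_lit 1794) (nat_lit 532) (nat_lit 0) (XT.nd (nat_lit 858) (nat_lit 684) (nat_lit 0) (XT.nd (nat_lit 390) (nat_lit 532) (nat_lit 0) (XT.nd (nat_lit 156) (nat_lit 228) (nat_lit 0) (XT.nd (nat_lit 78) (nat_lit 0) (nat_lit 0) (XT.lf (nat_lit 0) (nat_lit 1772704044539) (nat_lit 304) (nat_lit 2145717939647) (nat_lit 380) (nat_lit 1915200911020) (nat_lit 30) (nat_lit 5) (nat_lit 34) (nat_lit 5) (nat_lit 35) (nat_lit 5) (nat_lit 393) (nat_lit 391) (nat_lit 236)) (XT.lf (nat_lit 76) (nat_lit 911421281058) (nat_lit 0) (nat_lit 1315533883711) (nat_lit 380) (nat_lit 4059517776744) (nat_lit 31) (nat_lit 5) (nat_lit 30) (nat_lit 5) (nat_lit 35) (nat_lit 5) (nat_lit 394) (nat_lit 391) (nat_lit 235))) (XT.nd (nat_lit 78) (nat_lit 304) (nat_lit 0) (XT.lf (nat_lit 0) (nat_lit 2936321153822) (nat_lit 304) (nat_lit 2196959966759) (nat_lit 76) (nat_lit 1645922794067)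 (nat_lit 31) (nat_lit 5) (nat_lit 35) (nat_lit 5) (nat_lit 32) (nat_lit 5) (nat_lit 395) (nat_lit 391) (nat_lit 234)) (XT.nd (nat_lit 78) (nat_lit 0) (nat_lit 0) (XT.lf (nat_lit 0) (nat_lit 1531550199668) (nat_lit 304) (nat_lit 2346604539659) (nat_lit 380) (nat_lit 3448780389711) (nat_lit 27) (nat_lit 5) (nat_lit 31) (nat_lit 5) (nat_lit 32) (nat_lit 5) (nat_lit 396) (nat_lit 391) (nat_lit 233)) (XT.lf (nat_lit 0) (nat_lit 5117104069827) (nat_lit 380) (nat_lit 1914354248008) (nat_lit 76) (nat_lit 901991601677) (nat_lit 27) (nat_lit 5) (nat_lit 32) (nat_lit 5) (nat_lit 28) (nat_lit 5) (nat_lit 397) (nat_lit 391) (nat_lit 232))))) (XT.nd (nat_lit 234) (nat_lit 228) (nat_lit 0) (XT.nd (nat_lit 78) (nat_lit 152) (nat_lit 0) (XT.lf (nat_lit 0) (nat_lit 2675257921887) (nat_lit 152) (nat_lit 4089157676649) (nat_lit 228) (nat_lit 1833148360229) (nat_lit 25) (nat_lit 5) (nat_lit 27) (nat_lit 5)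 (nat_lit 28) (nat_lit 5) (nat_lit 398) (nat_lit 391) (nat_lit 231)) (XT.nd (nat_lit 78) (nat_lit 152) (nat_lit 0) (XT.lf (nat_lit 0) (nat_lit 8168459229651) (nat_lit 152) (nat_lit 590433144199) (nat_lit 228) (nat_lit 587392452457) (nat_lit 25) (nat_lit 5) (nat_lit 27) (nat_lit 5) (nat_lit 28) (nat_lit 5) (nat_lit 399) (nat_lit 391) (nat_lit 230)) (XT.lf (nat_lit 0) (nat_lit 1115866108561) (nat_lit 152) (nat_lit 5668124124856) (nat_lit 76) (nat_lit 3366190653605) (nat_lit 23) (nat_lit 5) (nat_lit 25) (nat_lit 5) (nat_lit 24) (nat_lit 5) (nat_lit 400) (nat_lit 391) (nat_lit 229)))) (XT.nd (nat_lit 78) (nat_lit 228) (nat_lit 0) (XT.lf (nat_lit 0) (nat_lit 3107091492012) (nat_lit 152) (nat_lit 1151873189) (nat_lit 76) (nat_lit 7948329955721) (nat_lit 23) (nat_lit 5) (nat_lit 25) (nat_lit 5) (nat_lit 24) (nat_lit 5) (nat_lit 401) (nat_lit 391) (nat_lit 228)) (XT.nd (nat_lit 78) (nat_lit 76)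 (nat_lit 0) (XT.lf (nat_lit 0) (nat_lit 5753609862187) (nat_lit 228) (nat_lit 4962287650891) (nat_lit 76) (nat_lit 1329535729949) (nat_lit 21) (nat_lit 5) (nat_lit 24) (nat_lit 5) (nat_lit 22) (nat_lit 4) (nat_lit 402) (nat_lit 391) (nat_lit 227)) (XT.lf (nat_lit 0) (nat_lit 2085231260541) (nat_lit 76) (nat_lit 6946294374521) (nat_lit 152) (nat_lit 4115933571307) (nat_lit 20) (nat_lit 5) (nat_lit 21) (nat_lit 5) (nat_lit 22) (nat_lit 4) (nat_lit 403) (nat_lit 391) (nat_lit 226)))))) (XT.nd (nat_lit 468) (nat_lit 304) (nat_lit 0) (XT.nd (nat_lit 234) (nat_lit 228) (nat_lit 0) (XT.nd (nat_lit 78) (nat_lit 152) (nat_lit 0) (XT.lf (nat_lit 0) (nat_lit 10747571472867) (nat_lit 76) (nat_lit 2312949609890) (nat_lit 152) (nat_lit 1315359135124) (nat_lit 20) (nat_lit 5) (nat_lit 21) (nat_lit 5) (nat_lit 22) (nat_lit 4) (nat_lit 404) (nat_lit 391) (nat_lit 225)) (XT.nd (nat_lit 78) (nat_lit 0)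 (nat_lit 0) (XT.lf (nat_lit 0) (nat_lit 2094858476816) (nat_lit 152) (nat_lit 10567835888108) (nat_lit 76) (nat_lit 3060158827260) (nat_lit 18) (nat_lit 5) (nat_lit 20) (nat_lit 5) (nat_lit 19) (nat_lit 4) (nat_lit 405) (nat_lit 391) (nat_lit 224)) (XT.lf (nat_lit 0) (nat_lit 6190774565007) (nat_lit 152) (nat_lit 1761616298641) (nat_lit 76) (nat_lit 9263760793273) (nat_lit 18) (nat_lit 5) (nat_lit 20) (nat_lit 5) (nat_lit 19) (nat_lit 4) (nat_lit 406) (nat_lit 391) (nat_lit 223)))) (XT.nd (nat_lit 78) (nat_lit 152) (nat_lit 0) (XT.lf (nat_lit 0) (nat_lit 9183077269629) (nat_lit 76) (nat_lit 2098252443469) (nat_lit 152) (nat_lit 7595077431272) (nat_lit 17) (nat_lit 5) (nat_lit 18) (nat_lit 5) (nat_lit 19) (nat_lit 4) (nat_lit 407) (nat_lit 391) (nat_lit 222)) (XT.nd (nat_lit 78) (nat_lit 76) (nat_lit 0) (XT.lf (nat_lit 0) (nat_lit 1096957687434) (nat_lit 76) (nat_lit 16372286925458) (nat_lit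 76) (nat_lit 3266389870118) (nat_lit 16) (nat_lit 4) (nat_lit 17) (nat_lit 5) (nat_lit 17) (nat_lit 4) (nat_lit 408) (nat_lit 391) (nat_lit 221)) (XT.lf (nat_lit 0) (nat_lit 2189964274182) (nat_lit 152) (nat_lit 8397473865930) (nat_lit 76) (nat_lit 12181065422758) (nat_lit 15) (nat_lit 5) (nat_lit 17) (nat_lit 5) (nat_lit 16) (nat_lit 4) (nat_lit 409) (nat_lit 391) (nat_lit 220))))) (XT.nd (nat_lit 234) (nat_lit 152) (nat_lit 0) (XT.nd (nat_lit 78) (nat_lit 76) (nat_lit 0) (XT.lf (nat_lit 0) (nat_lit 4801862097582) (nat_lit 76) (nat_lit 3527328206173) (nat_lit 152) (nat_lit 16723956114330) (nat_lit 14) (nat_lit 5) (nat_lit 15) (nat_lit 5) (nat_lit 16) (nat_lit 4) (nat_lit 410) (nat_lit 391) (nat_lit 219)) (XT.nd (nat_lit 78) (nat_lit 76) (nat_lit 0) (XT.lf (nat_lit 0) (nat_lit 16039298473935) (nat_lit 152) (nat_lit 6900821240509) (nat_lit 0) (nat_lit 4642866251714) (nat_lit 14) (nat_lit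 5) (nat_lit 16) (nat_lit 4) (nat_lit 14) (nat_lit 4) (nat_lit 411) (nat_lit 391) (nat_lit 218)) (XT.lf (nat_lit 0) (nat_lit 9093839795012) (nat_lit 76) (nat_lit 16356607597625) (nat_lit 76) (nat_lit 4960175375357) (nat_lit 13) (nat_lit 4) (nat_lit 14) (nat_lit 5) (nat_lit 14) (nat_lit 4) (nat_lit 412) (nat_lit 391) (nat_lit 217)))) (XT.nd (nat_lit 78) (nat_lit 76) (nat_lit 0) (XT.lf (nat_lit 0) (nat_lit 2756328546073) (nat_lit 152) (nat_lit 5470325848250) (nat_lit 76) (nat_lit 25362848834613) (nat_lit 12) (nat_lit 5) (nat_lit 14) (nat_lit 5) (nat_lit 13) (nat_lit 4) (nat_lit 413) (nat_lit 391) (nat_lit 216)) (XT.nd (nat_lit 78) (nat_lit 0) (nat_lit 0) (XT.lf (nat_lit 0) (nat_lit 11776263459203) (nat_lit 152) (nat_lit 23469132647057) (nat_lit 0) (nat_lit 1866322396294) (nat_lit 11) (nat_lit 5) (nat_lit 13) (nat_lit 4) (nat_lit 11) (nat_lit 4) (nat_lit 414) (nat_lit 391) (nat_lit 215))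 (XT.lf (nat_lit 0) (nat_lit 22840499519706) (nat_lit 152) (nat_lit 5287511454176) (nat_lit 0) (nat_lit 12930558456770) (nat_lit 11) (nat_lit 5) (nat_lit 13) (nat_lit 4) (nat_lit 11) (nat_lit 4) (nat_lit 415) (nat_lit 391) (nat_lit 214))))))) (XT.nd (nat_lit 51246) (nat_lit 0) (nat_lit 1292) (XT.nd (nat_lit 390) (nat_lit 228) (nat_lit 0) (XT.nd (nat_lit 156) (nat_lit 152) (nat_lit 0) (XT.nd (nat_lit 78) (nat_lit 76) (nat_lit 0) (XT.lf (nat_lit 0) (nat_lit 17147985134466) (nat_lit 76) (nat_lit 19126447351015) (nat_lit 76) (nat_lit 9216506288056) (nat_lit 10) (nat_lit 4) (nat_lit 11) (nat_lit 5) (nat_lit 11) (nat_lit 4) (nat_lit 416) (nat_lit 391) (nat_lit 213)) (XT.lf (nat_lit 0) (nat_lit 1323774543218) (nat_lit 152) (nat_lit 7063825795058) (nat_lit 76) (nat_lit 42150078547433) (nat_lit 9) (nat_lit 5) (nat_lit 11) (nat_lit 5) (nat_lit 10) (nat_lit 4) (nat_lit 417) (nat_lit 391) (nat_lit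 212))) (XT.nd (nat_lit 78) (nat_lit 76) (nat_lit 0) (XT.lf (nat_lit 0) (nat_lit 13494476747104) (nat_lit 152) (nat_lit 37755038296610) (nat_lit 0) (nat_lit 4877136692325) (nat_lit 8) (nat_lit 5) (nat_lit 10) (nat_lit 4) (nat_lit 8) (nat_lit 4) (nat_lit 418) (nat_lit 391) (nat_lit 211)) (XT.nd (nat_lit 78) (nat_lit 76) (nat_lit 0) (XT.lf (nat_lit 0) (nat_lit 28277022376888) (nat_lit 152) (nat_lit 14499330100639) (nat_lit 0) (nat_lit 19659682322095) (nat_lit 8) (nat_lit 5) (nat_lit 10) (nat_lit 4) (nat_lit 8) (nat_lit 4) (nat_lit 419) (nat_lit 391) (nat_lit 210)) (XT.lf (nat_lit 0) (nat_lit 13441378815462) (nat_lit 76) (nat_lit 32392149868575) (nat_lit 76) (nat_lit 23774809813770) (nat_lit 7) (nat_lit 4) (nat_lit 8) (nat_lit 5) (nat_lit 8) (nat_lit 4) (nat_lit 420) (nat_lit 391) (nat_lit 209))))) (XT.nd (nat_lit 234) (nat_lit 76) (nat_lit 0) (XT.nd (nat_lit 78) (nat_lit 152) (nat_lit 0)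 (XT.lf (nat_lit 0) (nat_lit 47202721054072) (nat_lit 76) (nat_lit 19578709411135) (nat_lit 76) (nat_lit 10961369356320) (nat_lit 7) (nat_lit 4) (nat_lit 8) (nat_lit 5) (nat_lit 8) (nat_lit 4) (nat_lit 421) (nat_lit 391) (nat_lit 208)) (XT.nd (nat_lit 78) (nat_lit 76) (nat_lit 0) (XT.lf (nat_lit 0) (nat_lit 3438091831618) (nat_lit 152) (nat_lit 1225442616843) (nat_lit 76) (nat_lit 82410454360134) (nat_lit 6) (nat_lit 5) (nat_lit 8) (nat_lit 5) (nat_lit 7) (nat_lit 4) (nat_lit 422) (nat_lit 391) (nat_lit 207)) (XT.lf (nat_lit 0) (nat_lit 20939347076592) (nat_lit 152) (nat_lit 63031589126309) (nat_lit 0) (nat_lit 13446007898478) (nat_lit 5) (nat_lit 5) (nat_lit 7) (nat_lit 4) (nat_lit 5) (nat_lit 4) (nat_lit 423) (nat_lit 391) (nat_lit 206)))) (XT.nd (nat_lit 78) (nat_lit 76) (nat_lit 0) (XT.lf (nat_lit 0) (nat_lit 41354971249131) (nat_lit 152) (nat_lit 34051362271816) (nat_lit 0) (nat_lit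 33861632071011) (nat_lit 5) (nat_lit 5) (nat_lit 7) (nat_lit 4) (nat_lit 5) (nat_lit 4) (nat_lit 424) (nat_lit 391) (nat_lit 205)) (XT.nd (nat_lit 78) (nat_lit 76) (nat_lit 0) (XT.lf (nat_lit 0) (nat_lit 64832939047523) (nat_lit 152) (nat_lit 724101389206) (nat_lit 0) (nat_lit 57339599869398) (nat_lit 5) (nat_lit 5) (nat_lit 7) (nat_lit 4) (nat_lit 5) (nat_lit 4) (nat_lit 425) (nat_lit 391) (nat_lit 204)) (XT.lf (nat_lit 0) (nat_lit 41277013832355) (nat_lit 76) (nat_lit 52264781302649) (nat_lit 76) (nat_lit 44771442124519) (nat_lit 4) (nat_lit 4) (nat_lit 5) (nat_lit 5) (nat_lit 5) (nat_lit 4) (nat_lit 426) (nat_lit 391) (nat_lit 203)))))) (XT.nd (nat_lit 468) (nat_lit 456) (nat_lit 0) (XT.nd (nat_lit 234) (nat_lit 152) (nat_lit 0) (XT.nd (nat_lit 78) (nat_lit 0) (nat_lit 0) (XT.lf (nat_lit 0) (nat_lit 756992499263) (nat_lit 380) (nat_lit 1074838629860) (nat_lit 380) (nat_lit 1074838629860)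 (nat_lit 29) (nat_lit 3) (nat_lit 34) (nat_lit 3) (nat_lit 34) (nat_lit 5) (nat_lit 392) (nat_lit 392) (nat_lit 236)) (XT.nd (nat_lit 78) (nat_lit 0) (nat_lit 76) (XT.lf (nat_lit 76) (nat_lit 763952155114) (nat_lit 0) (nat_lit 895215349699) (nat_lit 380) (nat_lit 4585427432291) (nat_lit 30) (nat_lit 5) (nat_lit 29) (nat_lit 3) (nat_lit 34) (nat_lit 5) (nat_lit 393) (nat_lit 392) (nat_lit 235)) (XT.lf (nat_lit 0) (nat_lit 2038609654676) (nat_lit 304) (nat_lit 2467575627845) (nat_lit 380) (nat_lit 2202481046444) (nat_lit 30) (nat_lit 5) (nat_lit 34) (nat_lit 5) (nat_lit 35) (nat_lit 5) (nat_lit 394) (nat_lit 392) (nat_lit 234)))) (XT.nd (nat_lit 78) (nat_lit 228) (nat_lit 0) (XT.lf (nat_lit 76) (nat_lit 1048134475841) (nat_lit 0) (nat_lit 1512863966757) (nat_lit 380) (nat_lit 4668445439672) (nat_lit 31) (nat_lit 5) (nat_lit 30) (nat_lit 5) (nat_lit 35) (nat_lit 5) (nat_lit 395) (nat_lit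 392) (nat_lit 233)) (XT.nd (nat_lit 78) (nat_lit 304) (nat_lit 0) (XT.lf (nat_lit 0) (nat_lit 3376769329585) (nat_lit 304) (nat_lit 2526503959064) (nat_lit 76) (nat_lit 1892811212789) (nat_lit 31) (nat_lit 5) (nat_lit 35) (nat_lit 5) (nat_lit 32) (nat_lit 5) (nat_lit 396) (nat_lit 392) (nat_lit 232)) (XT.lf (nat_lit 0) (nat_lit 1761282732203) (nat_lit 304) (nat_lit 2698595220469) (nat_lit 380) (nat_lit 3966097445353) (nat_lit 27) (nat_lit 5) (nat_lit 31) (nat_lit 5) (nat_lit 32) (nat_lit 5) (nat_lit 397) (nat_lit 392) (nat_lit 231))))) (XT.nd (nat_lit 234) (nat_lit 304) (nat_lit 0) (XT.nd (nat_lit 78) (nat_lit 152) (nat_lit 0) (XT.lf (nat_lit 0) (nat_lit 5884669682434) (nat_lit 380) (nat_lit 2201507382645) (nat_lit 76) (nat_lit 1037290342039) (nat_lit 27) (nat_lit 5) (nat_lit 32) (nat_lit 5) (nat_lit 28) (nat_lit 5) (nat_lit 398) (nat_lit 392) (nat_lit 230)) (XT.nd (nat_lit 78) (nat_lit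 0) (nat_lit 0) (XT.lf (nat_lit 0) (nat_lit 3076546612618) (nat_lit 152) (nat_lit 4702531327653) (nat_lit 228) (nat_lit 2108120612012) (nat_lit 25) (nat_lit 5) (nat_lit 27) (nat_lit 5) (nat_lit 28) (nat_lit 5) (nat_lit 399) (nat_lit 392) (nat_lit 229)) (XT.lf (nat_lit 0) (nat_lit 9393728116228) (nat_lit 152) (nat_lit 678998115401) (nat_lit 228) (nat_lit 675501318369) (nat_lit 25) (nat_lit 5) (nat_lit 27) (nat_lit 5) (nat_lit 28) (nat_lit 5) (nat_lit 400) (nat_lit 392) (nat_lit 228)))) (XT.nd (nat_lit 78) (nat_lit 152) (nat_lit 0) (XT.lf (nat_lit 0) (nat_lit 1283246026510) (nat_lit 152) (nat_lit 6518342741161) (nat_lit 76) (nat_lit 3871119252154) (nat_lit 23) (nat_lit 5) (nat_lit 25) (nat_lit 5) (nat_lit 24) (nat_lit 5) (nat_lit 401) (nat_lit 392) (nat_lit 227)) (XT.nd (nat_lit 78) (nat_lit 152) (nat_lit 0) (XT.lf (nat_lit 0) (nat_lit 3573155217261) (nat_lit 152) (nat_lit 1324652060) (nat_lit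 76) (nat_lit 9140579449522) (nat_lit 23) (nat_lit 5) (nat_lit 25) (nat_lit 5) (nat_lit 24) (nat_lit 5) (nat_lit 402) (nat_lit 392) (nat_lit 226)) (XT.lf (nat_lit 0) (nat_lit 6616651342884) (nat_lit 228) (nat_lit 5706630796338) (nat_lit 76) (nat_lit 1528966090051) (nat_lit 21) (nat_lit 5) (nat_lit 24) (nat_lit 5) (nat_lit 22) (nat_lit 4) (nat_lit 403) (nat_lit 392) (nat_lit 225))))))))
noncomputable def xc119 : XT := (XT.nd (nat_lit 52260) (nat_lit 0) (nat_lit 532) (XT.nd (nat_lit 858) (nat_lit 532) (nat_lit 0) (XT.nd (nat_lit 390) (nat_lit 380) (nat_lit 0) (XT.nd (nat_lit 156) (nat_lit 228) (nat_lit 0) (XT.nd (nat_lit 78) (nat_lit 0) (nat_lit 0) (XT.lf (nat_lit 0) (nat_lit 2398015951709) (nat_lit 76) (nat_lit 7988238529890) (nat_lit 152) (nat_lit 4733323605534) (nat_lit 20) (nat_lit 5) (nat_lit 21) (nat_lit 5) (nat_lit 22) (nat_lit 4) (nat_lit 404) (nat_lit 392) (nat_lit 224)) (XT.lf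 (nat_lit 0) (nat_lit 12359707195613) (nat_lit 76) (nat_lit 2659892050670) (nat_lit 152) (nat_lit 1512663004115) (nat_lit 20) (nat_lit 5) (nat_lit 21) (nat_lit 5) (nat_lit 22) (nat_lit 4) (nat_lit 405) (nat_lit 392) (nat_lit 223))) (XT.nd (nat_lit 78) (nat_lit 76) (nat_lit 0) (XT.lf (nat_lit 0) (nat_lit 2409087249458) (nat_lit 152) (nat_lit 12153011269349) (nat_lit 76) (nat_lit 3519182652035) (nat_lit 18) (nat_lit 5) (nat_lit 20) (nat_lit 5) (nat_lit 19) (nat_lit 4) (nat_lit 406) (nat_lit 392) (nat_lit 222)) (XT.nd (nat_lit 78) (nat_lit 76) (nat_lit 0) (XT.lf (nat_lit 0) (nat_lit 7119390750732) (nat_lit 152) (nat_lit 2025858741720) (nat_lit 76) (nat_lit 10653324912861) (nat_lit 18) (nat_lit 5) (nat_lit 20) (nat_lit 5) (nat_lit 19) (nat_lit 4) (nat_lit 407) (nat_lit 392) (nat_lit 221)) (XT.lf (nat_lit 0) (nat_lit 10560538861712) (nat_lit 76) (nat_lit 2412990309265) (nat_lit 152) (nat_lit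 8734339044910) (nat_lit 17) (nat_lit 5) (nat_lit 18) (nat_lit 5) (nat_lit 19) (nat_lit 4) (nat_lit 408) (nat_lit 392) (nat_lit 220))))) (XT.nd (nat_lit 234) (nat_lit 152) (nat_lit 0) (XT.nd (nat_lit 78) (nat_lit 152) (nat_lit 0) (XT.lf (nat_lit 0) (nat_lit 1261501342216) (nat_lit 76) (nat_lit 18828129963500) (nat_lit 76) (nat_lit 3756348349612) (nat_lit 16) (nat_lit 4) (nat_lit 17) (nat_lit 5) (nat_lit 17) (nat_lit 4) (nat_lit 409) (nat_lit 392) (nat_lit 219)) (XT.nd (nat_lit 78) (nat_lit 76) (nat_lit 0) (XT.lf (nat_lit 0) (nat_lit 2518458916120) (nat_lit 152) (nat_lit 9657094944290) (nat_lit 76) (nat_lit 14008225236767) (nat_lit 15) (nat_lit 5) (nat_lit 17) (nat_lit 5) (nat_lit 16) (nat_lit 4) (nat_lit 410) (nat_lit 392) (nat_lit 218)) (XT.lf (nat_lit 0) (nat_lit 5522141413679) (nat_lit 76) (nat_lit 4056427436405) (nat_lit 152) (nat_lit 19232549530599) (nat_lit 14) (nat_lit 5) (nat_lit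 15) (nat_lit 5) (nat_lit 16) (nat_lit 4) (nat_lit 411) (nat_lit 392) (nat_lit 217)))) (XT.nd (nat_lit 78) (nat_lit 152) (nat_lit 0) (XT.lf (nat_lit 0) (nat_lit 18445193245717) (nat_lit 152) (nat_lit 7935944425241) (nat_lit 0) (nat_lit 5339296190020) (nat_lit 14) (nat_lit 5) (nat_lit 16) (nat_lit 4) (nat_lit 14) (nat_lit 4) (nat_lit 412) (nat_lit 392) (nat_lit 216)) (XT.nd (nat_lit 78) (nat_lit 76) (nat_lit 0) (XT.lf (nat_lit 0) (nat_lit 10457915765547) (nat_lit 76) (nat_lit 18810098736640) (nat_lit 76) (nat_lit 5704201680908) (nat_lit 13) (nat_lit 4) (nat_lit 14) (nat_lit 5) (nat_lit 14) (nat_lit 4) (nat_lit 413) (nat_lit 392) (nat_lit 215)) (XT.lf (nat_lit 0) (nat_lit 3169777828581) (nat_lit 152) (nat_lit 6290874724313) (nat_lit 76) (nat_lit 29167276160294) (nat_lit 12) (nat_lit 5) (nat_lit 14) (nat_lit 5) (nat_lit 13) (nat_lit 4) (nat_lit 414) (nat_lit 392) (nat_lit 214)))))) (XT.nd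 (nat_lit 468) (nat_lit 228) (nat_lit 0) (XT.nd (nat_lit 234) (nat_lit 152) (nat_lit 0) (XT.nd (nat_lit 78) (nat_lit 76) (nat_lit 0) (XT.lf (nat_lit 0) (nat_lit 13542702978671) (nat_lit 152) (nat_lit 26989502542933) (nat_lit 0) (nat_lit 2146270756245) (nat_lit 11) (nat_lit 5) (nat_lit 13) (nat_lit 4) (nat_lit 11) (nat_lit 4) (nat_lit 415) (nat_lit 392) (nat_lit 213)) (XT.nd (nat_lit 78) (nat_lit 76) (nat_lit 0) (XT.lf (nat_lit 0) (nat_lit 26266574448173) (nat_lit 152) (nat_lit 6080638171274) (nat_lit 0) (nat_lit 14870142225727) (nat_lit 11) (nat_lit 5) (nat_lit 13) (nat_lit 4) (nat_lit 11) (nat_lit 4) (nat_lit 416) (nat_lit 392) (nat_lit 212)) (XT.lf (nat_lit 0) (nat_lit 19720182905617) (nat_lit 76) (nat_lit 21995414453171) (nat_lit 76) (nat_lit 10598982230707) (nat_lit 10) (nat_lit 4) (nat_lit 11) (nat_lit 5) (nat_lit 11) (nat_lit 4) (nat_lit 417) (nat_lit 392) (nat_lit 211)))) (XT.nd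 (nat_lit 78) (nat_lit 76) (nat_lit 0) (XT.lf (nat_lit 0) (nat_lit 1522340725143) (nat_lit 152) (nat_lit 8123399663419) (nat_lit 76) (nat_lit 48472590329937) (nat_lit 9) (nat_lit 5) (nat_lit 11) (nat_lit 5) (nat_lit 10) (nat_lit 4) (nat_lit 418) (nat_lit 392) (nat_lit 210)) (XT.nd (nat_lit 78) (nat_lit 0) (nat_lit 0) (XT.lf (nat_lit 0) (nat_lit 15518648259608) (nat_lit 152) (nat_lit 43418294040201) (nat_lit 0) (nat_lit 5608707196571) (nat_lit 8) (nat_lit 5) (nat_lit 10) (nat_lit 4) (nat_lit 8) (nat_lit 4) (nat_lit 419) (nat_lit 392) (nat_lit 209)) (XT.lf (nat_lit 0) (nat_lit 32518575733802) (nat_lit 152) (nat_lit 16674229614951) (nat_lit 0) (nat_lit 22608634670755) (nat_lit 8) (nat_lit 5) (nat_lit 10) (nat_lit 4) (nat_lit 8) (nat_lit 4) (nat_lit 420) (nat_lit 392) (nat_lit 208))))) (XT.nd (nat_lit 234) (nat_lit 76) (nat_lit 0) (XT.nd (nat_lit 78) (nat_lit 76) (nat_lit 0) (XT.lf (nat_lit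 0) (nat_lit 15457585638529) (nat_lit 76) (nat_lit 37250972348475) (nat_lit 76) (nat_lit 27341031285419) (nat_lit 7) (nat_lit 4) (nat_lit 8) (nat_lit 5) (nat_lit 8) (nat_lit 4) (nat_lit 421) (nat_lit 392) (nat_lit 207)) (XT.nd (nat_lit 78) (nat_lit 76) (nat_lit 0) (XT.lf (nat_lit 0) (nat_lit 54283129212834) (nat_lit 76) (nat_lit 22515515822469) (nat_lit 76) (nat_lit 12605574759406) (nat_lit 7) (nat_lit 4) (nat_lit 8) (nat_lit 5) (nat_lit 8) (nat_lit 4) (nat_lit 422) (nat_lit 392) (nat_lit 206)) (XT.lf (nat_lit 0) (nat_lit 3953805606648) (nat_lit 152) (nat_lit 1409259008776) (nat_lit 76) (nat_lit 94772022514417) (nat_lit 6) (nat_lit 5) (nat_lit 8) (nat_lit 5) (nat_lit 7) (nat_lit 4) (nat_lit 423) (nat_lit 392) (nat_lit 205)))) (XT.nd (nat_lit 78) (nat_lit 0) (nat_lit 0) (XT.lf (nat_lit 0) (nat_lit 24080249138366) (nat_lit 152) (nat_lit 72486327494660) (nat_lit 0) (nat_lit 15462909083517)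 (nat_lit 5) (nat_lit 5) (nat_lit 7) (nat_lit 4) (nat_lit 5) (nat_lit 4) (nat_lit 424) (nat_lit 392) (nat_lit 204)) (XT.nd (nat_lit 78) (nat_lit 0) (nat_lit 0) (XT.lf (nat_lit 0) (nat_lit 47558216936748) (nat_lit 152) (nat_lit 39159066612071) (nat_lit 0) (nat_lit 38940876881895) (nat_lit 5) (nat_lit 5) (nat_lit 7) (nat_lit 4) (nat_lit 5) (nat_lit 4) (nat_lit 425) (nat_lit 392) (nat_lit 203)) (XT.lf (nat_lit 0) (nat_lit 74557879904868) (nat_lit 152) (nat_lit 832716597136) (nat_lit 0) (nat_lit 65940539850011) (nat_lit 5) (nat_lit 5) (nat_lit 7) (nat_lit 4) (nat_lit 5) (nat_lit 4) (nat_lit 426) (nat_lit 392) (nat_lit 202))))))) (XT.nd (nat_lit 858) (nat_lit 836) (nat_lit 0) (XT.nd (nat_lit 390) (nat_lit 456) (nat_lit 0) (XT.nd (nat_lit 156) (nat_lit 0) (nat_lit 76) (XT.nd (nat_lit 78) (nat_lit 0) (nat_lit 0) (XT.lf (nat_lit 0) (nat_lit 870541375864) (nat_lit 380) (nat_lit 1236064423354) (nat_lit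 380) (nat_lit 1236064423354) (nat_lit 29) (nat_lit 3) (nat_lit 34) (nat_lit 3) (nat_lit 34) (nat_lit 5) (nat_lit 393) (nat_lit 393) (nat_lit 234)) (XT.lf (nat_lit 76) (nat_lit 878544980261) (nat_lit 0) (nat_lit 1029497653327) (nat_lit 380) (nat_lit 5273241543619) (nat_lit 30) (nat_lit 5) (nat_lit 29) (nat_lit 3) (nat_lit 34) (nat_lit 5) (nat_lit 394) (nat_lit 393) (nat_lit 233))) (XT.nd (nat_lit 78) (nat_lit 0) (nat_lit 0) (XT.lf (nat_lit 0) (nat_lit 2344401105491) (nat_lit 304) (nat_lit 2837711969943) (nat_lit 380) (nat_lit 2532853202481) (nat_lit 30) (nat_lit 5) (nat_lit 34) (nat_lit 5) (nat_lit 35) (nat_lit 5) (nat_lit 395) (nat_lit 393) (nat_lit 232)) (XT.nd (nat_lit 78) (nat_lit 0) (nat_lit 76) (XT.lf (nat_lit 76) (nat_lit 1205354649201) (nat_lit 0) (nat_lit 1739793562141) (nat_lit 380) (nat_lit 5368712252912) (nat_lit 31) (nat_lit 5) (nat_lit 30) (nat_lit 5) (nat_lit 35) (nat_lit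 5) (nat_lit 396) (nat_lit 393) (nat_lit 231)) (XT.lf (nat_lit 0) (nat_lit 3883284731057) (nat_lit 304) (nat_lit 2905479550876) (nat_lit 76) (nat_lit 2176732894414) (nat_lit 31) (nat_lit 5) (nat_lit 35) (nat_lit 5) (nat_lit 32) (nat_lit 5) (nat_lit 397) (nat_lit 393) (nat_lit 230))))) (XT.nd (nat_lit 234) (nat_lit 152) (nat_lit 0) (XT.nd (nat_lit 78) (nat_lit 152) (nat_lit 0) (XT.lf (nat_lit 0) (nat_lit 2025475143989) (nat_lit 304) (nat_lit 3103384503434) (nat_lit 380) (nat_lit 4561012060026) (nat_lit 27) (nat_lit 5) (nat_lit 31) (nat_lit 5) (nat_lit 32) (nat_lit 5) (nat_lit 398) (nat_lit 393) (nat_lit 229)) (XT.nd (nat_lit 78) (nat_lit 152) (nat_lit 0) (XT.lf (nat_lit 0) (nat_lit 6767370136411) (nat_lit 380) (nat_lit 2531733488103) (nat_lit 76) (nat_lit 1192883893429) (nat_lit 27) (nat_lit 5) (nat_lit 32) (nat_lit 5) (nat_lit 28) (nat_lit 5) (nat_lit 399) (nat_lit 393) (nat_lit 228))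 (XT.lf (nat_lit 0) (nat_lit 3538028606362) (nat_lit 152) (nat_lit 5407911026429) (nat_lit 228) (nat_lit 2424338702112) (nat_lit 25) (nat_lit 5) (nat_lit 27) (nat_lit 5) (nat_lit 28) (nat_lit 5) (nat_lit 400) (nat_lit 393) (nat_lit 227)))) (XT.nd (nat_lit 78) (nat_lit 152) (nat_lit 0) (XT.lf (nat_lit 0) (nat_lit 10802787335271) (nat_lit 152) (nat_lit 780847832387) (nat_lit 228) (nat_lit 776826514644) (nat_lit 25) (nat_lit 5) (nat_lit 27) (nat_lit 5) (nat_lit 28) (nat_lit 5) (nat_lit 401) (nat_lit 393) (nat_lit 226)) (XT.nd (nat_lit 78) (nat_lit 0) (nat_lit 0) (XT.lf (nat_lit 0) (nat_lit 1475732931745) (nat_lit 152) (nat_lit 7496094150502) (nat_lit 76) (nat_lit 4451787140362) (nat_lit 23) (nat_lit 5) (nat_lit 25) (nat_lit 5) (nat_lit 24) (nat_lit 5) (nat_lit 402) (nat_lit 393) (nat_lit 225)) (XT.lf (nat_lit 0) (nat_lit 4109128500945) (nat_lit 152) (nat_lit 1523348275) (nat_lit 76) (nat_lit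 10511666367284) (nat_lit 23) (nat_lit 5) (nat_lit 25) (nat_lit 5) (nat_lit 24) (nat_lit 5) (nat_lit 403) (nat_lit 393) (nat_lit 224)))))) (XT.nd (nat_lit 468) (nat_lit 380) (nat_lit 0) (XT.nd (nat_lit 234) (nat_lit 228) (nat_lit 0) (XT.nd (nat_lit 78) (nat_lit 76) (nat_lit 0) (XT.lf (nat_lit 0) (nat_lit 7609149045353) (nat_lit 228) (nat_lit 6562625414136) (nat_lit 76) (nat_lit 1758311004021) (nat_lit 21) (nat_lit 5) (nat_lit 24) (nat_lit 5) (nat_lit 22) (nat_lit 4) (nat_lit 404) (nat_lit 393) (nat_lit 223)) (XT.nd (nat_lit 78) (nat_lit 0) (nat_lit 0) (XT.lf (nat_lit 0) (nat_lit 2757718346044) (nat_lit 76) (nat_lit 9186474308761) (nat_lit 152) (nat_lit 5443322145252) (nat_lit 20) (nat_lit 5) (nat_lit 21) (nat_lit 5) (nat_lit 22) (nat_lit 4) (nat_lit 405) (nat_lit 393) (nat_lit 222)) (XT.lf (nat_lit 0) (nat_lit 14213663276327) (nat_lit 76) (nat_lit 3058875857738) (nat_lit 152) (nat_lit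 1739562453765) (nat_lit 20) (nat_lit 5) (nat_lit 21) (nat_lit 5) (nat_lit 22) (nat_lit 4) (nat_lit 406) (nat_lit 393) (nat_lit 221)))) (XT.nd (nat_lit 78) (nat_lit 76) (nat_lit 0) (XT.lf (nat_lit 0) (nat_lit 2770450337724) (nat_lit 152) (nat_lit 13975962958259) (nat_lit 76) (nat_lit 4047060050359) (nat_lit 18) (nat_lit 5) (nat_lit 20) (nat_lit 5) (nat_lit 19) (nat_lit 4) (nat_lit 407) (nat_lit 393) (nat_lit 220)) (XT.nd (nat_lit 78) (nat_lit 76) (nat_lit 0) (XT.lf (nat_lit 0) (nat_lit 8187299364078) (nat_lit 152) (nat_lit 2329737551680) (nat_lit 76) (nat_lit 12251323650241) (nat_lit 18) (nat_lit 5) (nat_lit 20) (nat_lit 5) (nat_lit 19) (nat_lit 4) (nat_lit 408) (nat_lit 393) (nat_lit 219)) (XT.lf (nat_lit 0) (nat_lit 12144619692208) (nat_lit 76) (nat_lit 2774938855107) (nat_lit 152) (nat_lit 10044489900851) (nat_lit 17) (nat_lit 5) (nat_lit 18) (nat_lit 5) (nat_lit 19) (nat_lit 4) (nat_lit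 409) (nat_lit 393) (nat_lit 218))))) (XT.nd (nat_lit 234) (nat_lit 152) (nat_lit 0) (XT.nd (nat_lit 78) (nat_lit 152) (nat_lit 0) (XT.lf (nat_lit 0) (nat_lit 1450726544810) (nat_lit 76) (nat_lit 21652349457438) (nat_lit 76) (nat_lit 4319800601279) (nat_lit 16) (nat_lit 4) (nat_lit 17) (nat_lit 5) (nat_lit 17) (nat_lit 4) (nat_lit 410) (nat_lit 393) (nat_lit 217)) (XT.nd (nat_lit 78) (nat_lit 76) (nat_lit 0) (XT.lf (nat_lit 0) (nat_lit 2896227754152) (nat_lit 152) (nat_lit 11105659184777) (nat_lit 76) (nat_lit 16109459022733) (nat_lit 15) (nat_lit 5) (nat_lit 17) (nat_lit 5) (nat_lit 16) (nat_lit 4) (nat_lit 411) (nat_lit 393) (nat_lit 216)) (XT.lf (nat_lit 0) (nat_lit 6350462626835) (nat_lit 76) (nat_lit 4664891551342) (nat_lit 152) (nat_lit 22117431959522) (nat_lit 14) (nat_lit 5) (nat_lit 15) (nat_lit 5) (nat_lit 16) (nat_lit 4) (nat_lit 412) (nat_lit 393) (nat_lit 215)))) (XT.nd (nat_lit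 78) (nat_lit 152) (nat_lit 0) (XT.lf (nat_lit 0) (nat_lit 21211972233097) (nat_lit 152) (nat_lit 9126336088011) (nat_lit 0) (nat_lit 6140190618939) (nat_lit 14) (nat_lit 5) (nat_lit 16) (nat_lit 4) (nat_lit 14) (nat_lit 4) (nat_lit 413) (nat_lit 393) (nat_lit 214)) (XT.nd (nat_lit 78) (nat_lit 76) (nat_lit 0) (XT.lf (nat_lit 0) (nat_lit 12026603131349) (nat_lit 76) (nat_lit 21631613546660) (nat_lit 76) (nat_lit 6559831932475) (nat_lit 13) (nat_lit 4) (nat_lit 14) (nat_lit 5) (nat_lit 14) (nat_lit 4) (nat_lit 414) (nat_lit 393) (nat_lit 213)) (XT.lf (nat_lit 0) (nat_lit 3645244503319) (nat_lit 152) (nat_lit 7234505932072) (nat_lit 76) (nat_lit 33542367584708) (nat_lit 12) (nat_lit 5) (nat_lit 14) (nat_lit 5) (nat_lit 13) (nat_lit 4) (nat_lit 415) (nat_lit 393) (nat_lit 212))))))))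
noncomputable def xc120 : XT := (XT.nd (nat_lit 52104) (nat_lit 0) (nat_lit 152) (XT.nd (nat_lit 858) (nat_lit 76) (nat_lit 0) (XT.nd (nat_lit 390) (nat_lit 228) (nat_lit 0) (XT.nd (nat_lit 156) (nat_lit 228) (nat_lit 0) (XT.nd (nat_lit 78) (nat_lit 0) (nat_lit 0) (XT.lf (nat_lit 0) (nat_lit 15574108425916) (nat_lit 152) (nat_lit 31037927923478) (nat_lit 0) (nat_lit 2468211370065) (nat_lit 11) (nat_lit 5) (nat_lit 13) (nat_lit 4) (nat_lit 11) (nat_lit 4) (nat_lit 416) (nat_lit 393) (nat_lit 211)) (XT.lf (nat_lit 0) (nat_lit 30206560615785) (nat_lit 152) (nat_lit 6992733896188) (nat_lit 0) (nat_lit 17100663559919) (nat_lit 11) (nat_lit 5) (nat_lit 13) (nat_lit 4) (nat_lit 11) (nat_lit 4) (nat_lit 417) (nat_lit 393) (nat_lit 210))) (XT.nd (nat_lit 78) (nat_lit 152) (nat_lit 0) (XT.lf (nat_lit 0) (nat_lit 22678210342202) (nat_lit 76) (nat_lit 25294726620771) (nat_lit 76) (nat_lit 12188829564891)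 (nat_lit 10) (nat_lit 4) (nat_lit 11) (nat_lit 5) (nat_lit 11) (nat_lit 4) (nat_lit 418) (nat_lit 393) (nat_lit 209)) (XT.nd (nat_lit 78) (nat_lit 76) (nat_lit 0) (XT.lf (nat_lit 0) (nat_lit 1750691834249) (nat_lit 152) (nat_lit 9341909612254) (nat_lit 76) (nat_lit 55743478879721) (nat_lit 9) (nat_lit 5) (nat_lit 11) (nat_lit 5) (nat_lit 10) (nat_lit 4) (nat_lit 419) (nat_lit 393) (nat_lit 208)) (XT.lf (nat_lit 0) (nat_lit 17846445498880) (nat_lit 152) (nat_lit 49931038145550) (nat_lit 0) (nat_lit 6450013276357) (nat_lit 8) (nat_lit 5) (nat_lit 10) (nat_lit 4) (nat_lit 8) (nat_lit 4) (nat_lit 420) (nat_lit 393) (nat_lit 207))))) (XT.nd (nat_lit 234) (nat_lit 152) (nat_lit 0) (XT.nd (nat_lit 78) (nat_lit 76) (nat_lit 0) (XT.lf (nat_lit 0) (nat_lit 37396362094160) (nat_lit 152) (nat_lit 19175364056601) (nat_lit 0) (nat_lit 25999929871630) (nat_lit 8) (nat_lit 5) (nat_lit 10) (nat_lit 4)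 (nat_lit 8) (nat_lit 4) (nat_lit 421) (nat_lit 393) (nat_lit 206)) (XT.nd (nat_lit 78) (nat_lit 0) (nat_lit 0) (XT.lf (nat_lit 0) (nat_lit 17776223484874) (nat_lit 76) (nat_lit 42838618200455) (nat_lit 76) (nat_lit 31442185977917) (nat_lit 7) (nat_lit 4) (nat_lit 8) (nat_lit 5) (nat_lit 8) (nat_lit 4) (nat_lit 422) (nat_lit 393) (nat_lit 205)) (XT.lf (nat_lit 0) (nat_lit 62425598595250) (nat_lit 76) (nat_lit 25892843195586) (nat_lit 76) (nat_lit 14496410973043) (nat_lit 7) (nat_lit 4) (nat_lit 8) (nat_lit 5) (nat_lit 8) (nat_lit 4) (nat_lit 423) (nat_lit 393) (nat_lit 204)))) (XT.nd (nat_lit 78) (nat_lit 76) (nat_lit 0) (XT.lf (nat_lit 0) (nat_lit 4546876447862) (nat_lit 152) (nat_lit 1620647859643) (nat_lit 76) (nat_lit 108987825891779) (nat_lit 6) (nat_lit 5) (nat_lit 8) (nat_lit 5) (nat_lit 7) (nat_lit 4) (nat_lit 424) (nat_lit 393) (nat_lit 203)) (XT.nd (nat_lit 78) (nat_lit 0) (nat_lit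 0) (XT.lf (nat_lit 0) (nat_lit 27692286509336) (nat_lit 152) (nat_lit 83359276618409) (nat_lit 0) (nat_lit 17782345446247) (nat_lit 5) (nat_lit 5) (nat_lit 7) (nat_lit 4) (nat_lit 5) (nat_lit 4) (nat_lit 425) (nat_lit 393) (nat_lit 202)) (XT.lf (nat_lit 0) (nat_lit 54691949477448) (nat_lit 152) (nat_lit 45032926603490) (nat_lit 0) (nat_lit 44782008414355) (nat_lit 5) (nat_lit 5) (nat_lit 7) (nat_lit 4) (nat_lit 5) (nat_lit 4) (nat_lit 426) (nat_lit 393) (nat_lit 201)))))) (XT.nd (nat_lit 50778) (nat_lit 0) (nat_lit 1596) (XT.nd (nat_lit 50544) (nat_lit 0) (nat_lit 1900) (XT.nd (nat_lit 78) (nat_lit 76) (nat_lit 0) (XT.lf (nat_lit 0) (nat_lit 85741561890761) (nat_lit 152) (nat_lit 957624086366) (nat_lit 0) (nat_lit 75831620827666) (nat_lit 5) (nat_lit 5) (nat_lit 7) (nat_lit 4) (nat_lit 5) (nat_lit 4) (nat_lit 427) (nat_lit 393) (nat_lit 200)) (XT.lf (nat_lit 0) (nat_lit 54588850794109)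 (nat_lit 76) (nat_lit 69120173272325) (nat_lit 76) (nat_lit 59210232209227) (nat_lit 4) (nat_lit 4) (nat_lit 5) (nat_lit 5) (nat_lit 5) (nat_lit 4) (nat_lit 428) (nat_lit 393) (nat_lit 199))) (XT.nd (nat_lit 78) (nat_lit 0) (nat_lit 0) (XT.lf (nat_lit 0) (nat_lit 1001122583538) (nat_lit 380) (nat_lit 1421474086112) (nat_lit 380) (nat_lit 1421474086112) (nat_lit 29) (nat_lit 3) (nat_lit 34) (nat_lit 3) (nat_lit 34) (nat_lit 5) (nat_lit 394) (nat_lit 394) (nat_lit 232)) (XT.nd (nat_lit 78) (nat_lit 0) (nat_lit 76) (XT.lf (nat_lit 76) (nat_lit 1010326728722) (nat_lit 0) (nat_lit 1183922302214) (nat_lit 380) (nat_lit 6064227772504) (nat_lit 30) (nat_lit 5) (nat_lit 29) (nat_lit 3) (nat_lit 34) (nat_lit 5) (nat_lit 395) (nat_lit 394) (nat_lit 231)) (XT.lf (nat_lit 0) (nat_lit 2696061273290) (nat_lit 304) (nat_lit 3263368763863) (nat_lit 380) (nat_lit 2912781182151) (nat_lit 30) (nat_lit 5)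 (nat_lit 34) (nat_lit 5) (nat_lit 35) (nat_lit 5) (nat_lit 396) (nat_lit 394) (nat_lit 230))))) (XT.nd (nat_lit 234) (nat_lit 152) (nat_lit 0) (XT.nd (nat_lit 78) (nat_lit 228) (nat_lit 0) (XT.lf (nat_lit 76) (nat_lit 1386157848081) (nat_lit 0) (nat_lit 2000762596742) (nat_lit 380) (nat_lit 6174019088800) (nat_lit 31) (nat_lit 5) (nat_lit 30) (nat_lit 5) (nat_lit 35) (nat_lit 5) (nat_lit 397) (nat_lit 394) (nat_lit 229)) (XT.nd (nat_lit 78) (nat_lit 304) (nat_lit 0) (XT.lf (nat_lit 0) (nat_lit 4465777442253) (nat_lit 304) (nat_lit 3341301481959) (nat_lit 76) (nat_lit 2503242828355) (nat_lit 31) (nat_lit 5) (nat_lit 35) (nat_lit 5) (nat_lit 32) (nat_lit 5) (nat_lit 398) (nat_lit 394) (nat_lit 228)) (XT.lf (nat_lit 0) (nat_lit 2329296417066) (nat_lit 304) (nat_lit 3568892178869) (nat_lit 380) (nat_lit 5245163867421) (nat_lit 27) (nat_lit 5) (nat_lit 31) (nat_lit 5) (nat_lit 32) (nat_lit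 5) (nat_lit 399) (nat_lit 394) (nat_lit 227)))) (XT.nd (nat_lit 78) (nat_lit 152) (nat_lit 0) (XT.lf (nat_lit 0) (nat_lit 7782475658092) (nat_lit 380) (nat_lit 2911493509852) (nat_lit 76) (nat_lit 1371816477506) (nat_lit 27) (nat_lit 5) (nat_lit 32) (nat_lit 5) (nat_lit 28) (nat_lit 5) (nat_lit 400) (nat_lit 394) (nat_lit 226)) (XT.nd (nat_lit 78) (nat_lit 0) (nat_lit 0) (XT.lf (nat_lit 0) (nat_lit 4068732898716) (nat_lit 152) (nat_lit 6219097680112) (nat_lit 228) (nat_lit 2787989506143) (nat_lit 25) (nat_lit 5) (nat_lit 27) (nat_lit 5) (nat_lit 28) (nat_lit 5) (nat_lit 401) (nat_lit 394) (nat_lit 225)) (XT.lf (nat_lit 0) (nat_lit 12423205436779) (nat_lit 152) (nat_lit 897975007001) (nat_lit 228) (nat_lit 893350490722) (nat_lit 25) (nat_lit 5) (nat_lit 27) (nat_lit 5) (nat_lit 28) (nat_lit 5) (nat_lit 402) (nat_lit 394) (nat_lit 224))))))) (XT.nd (nat_lit 858) (nat_lit 608) (nat_lit 0)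 (XT.nd (nat_lit 390) (nat_lit 456) (nat_lit 0) (XT.nd (nat_lit 156) (nat_lit 228) (nat_lit 0) (XT.nd (nat_lit 78) (nat_lit 0) (nat_lit 0) (XT.lf (nat_lit 0) (nat_lit 1697092872459) (nat_lit 152) (nat_lit 8620508271691) (nat_lit 76) (nat_lit 5119555211707) (nat_lit 23) (nat_lit 5) (nat_lit 25) (nat_lit 5) (nat_lit 24) (nat_lit 5) (nat_lit 403) (nat_lit 394) (nat_lit 223)) (XT.lf (nat_lit 0) (nat_lit 4725497776914) (nat_lit 152) (nat_lit 1751849311) (nat_lit 76) (nat_lit 12088416322630) (nat_lit 23) (nat_lit 5) (nat_lit 25) (nat_lit 5) (nat_lit 24) (nat_lit 5) (nat_lit 404) (nat_lit 394) (nat_lit 222))) (XT.nd (nat_lit 78) (nat_lit 76) (nat_lit 0) (XT.lf (nat_lit 0) (nat_lit 8750521402939) (nat_lit 228) (nat_lit 7547019225006) (nat_lit 76) (nat_lit 2022057654973) (nat_lit 21) (nat_lit 5) (nat_lit 24) (nat_lit 5) (nat_lit 22) (nat_lit 4) (nat_lit 405) (nat_lit 394) (nat_lit 221)) (XT.nd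 (nat_lit 78) (nat_lit 0) (nat_lit 0) (XT.lf (nat_lit 0) (nat_lit 3171376099144) (nat_lit 76) (nat_lit 10564445454612) (nat_lit 152) (nat_lit 6259820466200) (nat_lit 20) (nat_lit 5) (nat_lit 21) (nat_lit 5) (nat_lit 22) (nat_lit 4) (nat_lit 406) (nat_lit 394) (nat_lit 220)) (XT.lf (nat_lit 0) (nat_lit 16345712768814) (nat_lit 76) (nat_lit 3517707235996) (nat_lit 152) (nat_lit 2000496821099) (nat_lit 20) (nat_lit 5) (nat_lit 21) (nat_lit 5) (nat_lit 22) (nat_lit 4) (nat_lit 407) (nat_lit 394) (nat_lit 219))))) (XT.nd (nat_lit 234) (nat_lit 228) (nat_lit 0) (XT.nd (nat_lit 78) (nat_lit 76) (nat_lit 0) (XT.lf (nat_lit 0) (nat_lit 3186017889023) (nat_lit 152) (nat_lit 16072357400869) (nat_lit 76) (nat_lit 4654119058305) (nat_lit 18) (nat_lit 5) (nat_lit 20) (nat_lit 5) (nat_lit 19) (nat_lit 4) (nat_lit 408) (nat_lit 394) (nat_lit 218)) (XT.nd (nat_lit 78) (nat_lit 76) (nat_lit 0) (XT.lf (nat_lit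 0) (nat_lit 9415394269247) (nat_lit 152) (nat_lit 2679198183451) (nat_lit 76) (nat_lit 14089022198118) (nat_lit 18) (nat_lit 5) (nat_lit 20) (nat_lit 5) (nat_lit 19) (nat_lit 4) (nat_lit 409) (nat_lit 394) (nat_lit 217)) (XT.lf (nat_lit 0) (nat_lit 13966312646976) (nat_lit 76) (nat_lit 3191179682959) (nat_lit 152) (nat_lit 11551163385377) (nat_lit 17) (nat_lit 5) (nat_lit 18) (nat_lit 5) (nat_lit 19) (nat_lit 4) (nat_lit 410) (nat_lit 394) (nat_lit 216)))) (XT.nd (nat_lit 78) (nat_lit 152) (nat_lit 0) (XT.lf (nat_lit 0) (nat_lit 1668335527484) (nat_lit 76) (nat_lit 24900201875609) (nat_lit 76) (nat_lit 4967770690885) (nat_lit 16) (nat_lit 4) (nat_lit 17) (nat_lit 5) (nat_lit 17) (nat_lit 4) (nat_lit 411) (nat_lit 394) (nat_lit 215)) (XT.nd (nat_lit 78) (nat_lit 76) (nat_lit 0) (XT.lf (nat_lit 0) (nat_lit 3330661917739) (nat_lit 152) (nat_lit 12771508061619) (nat_lit 76) (nat_lit 18525877876484)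 (nat_lit 15) (nat_lit 5) (nat_lit 17) (nat_lit 5) (nat_lit 16) (nat_lit 4) (nat_lit 412) (nat_lit 394) (nat_lit 214)) (XT.lf (nat_lit 0) (nat_lit 7303032021695) (nat_lit 76) (nat_lit 5364625283646) (nat_lit 152) (nat_lit 25435046752947) (nat_lit 14) (nat_lit 5) (nat_lit 15) (nat_lit 5) (nat_lit 16) (nat_lit 4) (nat_lit 413) (nat_lit 394) (nat_lit 213)))))) (XT.nd (nat_lit 468) (nat_lit 304) (nat_lit 0) (XT.nd (nat_lit 234) (nat_lit 152) (nat_lit 0) (XT.nd (nat_lit 78) (nat_lit 152) (nat_lit 0) (XT.lf (nat_lit 0) (nat_lit 24393768068457) (nat_lit 152) (nat_lit 10495286500444) (nat_lit 0) (nat_lit 7061219212094) (nat_lit 14) (nat_lit 5) (nat_lit 16) (nat_lit 4) (nat_lit 14) (nat_lit 4) (nat_lit 414) (nat_lit 394) (nat_lit 212)) (XT.nd (nat_lit 78) (nat_lit 76) (nat_lit 0) (XT.lf (nat_lit 0) (nat_lit 13830593601786) (nat_lit 76) (nat_lit 24876355578299) (nat_lit 76) (nat_lit 7543806721916)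 (nat_lit 13) (nat_lit 4) (nat_lit 14) (nat_lit 5) (nat_lit 14) (nat_lit 4) (nat_lit 415) (nat_lit 394) (nat_lit 211)) (XT.lf (nat_lit 0) (nat_lit 4192031179157) (nat_lit 152) (nat_lit 8319681821212) (nat_lit 76) (nat_lit 38573722722694) (nat_lit 12) (nat_lit 5) (nat_lit 14) (nat_lit 5) (nat_lit 13) (nat_lit 4) (nat_lit 416) (nat_lit 394) (nat_lit 210)))) (XT.nd (nat_lit 78) (nat_lit 76) (nat_lit 0) (XT.lf (nat_lit 0) (nat_lit 17910224690140) (nat_lit 152) (nat_lit 35693617111324) (nat_lit 0) (nat_lit 2838443075864) (nat_lit 11) (nat_lit 5) (nat_lit 13) (nat_lit 4) (nat_lit 11) (nat_lit 4) (nat_lit 417) (nat_lit 394) (nat_lit 209)) (XT.nd (nat_lit 78) (nat_lit 76) (nat_lit 0) (XT.lf (nat_lit 0) (nat_lit 34737544708445) (nat_lit 152) (nat_lit 8041643980028) (nat_lit 0) (nat_lit 19665763094159) (nat_lit 11) (nat_lit 5) (nat_lit 13) (nat_lit 4) (nat_lit 11) (nat_lit 4) (nat_lit 418) (nat_lit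 394) (nat_lit 208)) (XT.lf (nat_lit 0) (nat_lit 26079941894094) (nat_lit 76) (nat_lit 29088935613602) (nat_lit 76) (nat_lit 14017153999305) (nat_lit 10) (nat_lit 4) (nat_lit 11) (nat_lit 5) (nat_lit 11) (nat_lit 4) (nat_lit 419) (nat_lit 394) (nat_lit 207))))) (XT.nd (nat_lit 234) (nat_lit 152) (nat_lit 0) (XT.nd (nat_lit 78) (nat_lit 76) (nat_lit 0) (XT.lf (nat_lit 0) (nat_lit 2013295609639) (nat_lit 152) (nat_lit 10743196053580) (nat_lit 76) (nat_lit 64105000711902) (nat_lit 9) (nat_lit 5) (nat_lit 11) (nat_lit 5) (nat_lit 10) (nat_lit 4) (nat_lit 420) (nat_lit 394) (nat_lit 206)) (XT.nd (nat_lit 78) (nat_lit 0) (nat_lit 0) (XT.lf (nat_lit 0) (nat_lit 20523412323963) (nat_lit 152) (nat_lit 57420693866867) (nat_lit 0) (nat_lit 7417515268038) (nat_lit 8) (nat_lit 5) (nat_lit 10) (nat_lit 4) (nat_lit 8) (nat_lit 4) (nat_lit 421) (nat_lit 394) (nat_lit 205)) (XT.lf (nat_lit 0) (nat_lit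 43005816408502) (nat_lit 152) (nat_lit 22051668664643) (nat_lit 0) (nat_lit 29899919352572) (nat_lit 8) (nat_lit 5) (nat_lit 10) (nat_lit 4) (nat_lit 8) (nat_lit 4) (nat_lit 422) (nat_lit 394) (nat_lit 204)))) (XT.nd (nat_lit 78) (nat_lit 76) (nat_lit 0) (XT.lf (nat_lit 0) (nat_lit 20442657008033) (nat_lit 76) (nat_lit 49264410930302) (nat_lit 76) (nat_lit 36158513874367) (nat_lit 7) (nat_lit 4) (nat_lit 8) (nat_lit 5) (nat_lit 8) (nat_lit 4) (nat_lit 423) (nat_lit 394) (nat_lit 203)) (XT.nd (nat_lit 78) (nat_lit 76) (nat_lit 0) (XT.lf (nat_lit 0) (nat_lit 71789438384910) (nat_lit 76) (nat_lit 29776769674732) (nat_lit 76) (nat_lit 16670872618792) (nat_lit 7) (nat_lit 4) (nat_lit 8) (nat_lit 5) (nat_lit 8) (nat_lit 4) (nat_lit 424) (nat_lit 394) (nat_lit 202)) (XT.lf (nat_lit 0) (nat_lit 5228907915205) (nat_lit 152) (nat_lit 1863745038250) (nat_lit 76) (nat_lit 125335999775697) (nat_lit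 6) (nat_lit 5) (nat_lit 8) (nat_lit 5) (nat_lit 7) (nat_lit 4) (nat_lit 425) (nat_lit 394) (nat_lit 201))))))))
noncomputable def xc121 : XT := (XT.nd (nat_lit 52260) (nat_lit 0) (nat_lit 0) (XT.nd (nat_lit 51324) (nat_lit 0) (nat_lit 684) (XT.nd (nat_lit 50856) (nat_lit 0) (nat_lit 1520) (XT.nd (nat_lit 156) (nat_lit 0) (nat_lit 0) (XT.nd (nat_lit 78) (nat_lit 0) (nat_lit 0) (XT.lf (nat_lit 0) (nat_lit 31846129485900) (nat_lit 152) (nat_lit 95863168110829) (nat_lit 0) (nat_lit 20449697263337) (nat_lit 5) (nat_lit 5) (nat_lit 7) (nat_lit 4) (nat_lit 5) (nat_lit 4) (nat_lit 426) (nat_lit 394) (nat_lit 200)) (XT.lf (nat_lit 0) (nat_lit 62895741899207) (nat_lit 152) (nat_lit 51787865593718) (nat_lit 0) (nat_lit 51499309676642) (nat_lit 5) (nat_lit 5) (nat_lit 7) (nat_lit 4) (nat_lit 5) (nat_lit 4) (nat_lit 427) (nat_lit 394) (nat_lit 199))) (XT.nd (nat_lit 50544) (nat_lit 0) (nat_lit 1824)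 (XT.lf (nat_lit 0) (nat_lit 98602796174498) (nat_lit 152) (nat_lit 1101267699064) (nat_lit 0) (nat_lit 87206363951931) (nat_lit 5) (nat_lit 5) (nat_lit 7) (nat_lit 4) (nat_lit 5) (nat_lit 4) (nat_lit 428) (nat_lit 394) (nat_lit 198)) (XT.nd (nat_lit 78) (nat_lit 0) (nat_lit 0) (XT.lf (nat_lit 0) (nat_lit 1151290972047) (nat_lit 380) (nat_lit 1634695198466) (nat_lit 380) (nat_lit 1634695198466) (nat_lit 29) (nat_lit 3) (nat_lit 34) (nat_lit 3) (nat_lit 34) (nat_lit 5) (nat_lit 395) (nat_lit 395) (nat_lit 230)) (XT.lf (nat_lit 76) (nat_lit 1161875739105) (nat_lit 0) (nat_lit 1361510648217) (nat_lit 380) (nat_lit 6973861936370) (nat_lit 30) (nat_lit 5) (nat_lit 29) (nat_lit 3) (nat_lit 34) (nat_lit 5) (nat_lit 396) (nat_lit 395) (nat_lit 229))))) (XT.nd (nat_lit 234) (nat_lit 380) (nat_lit 0) (XT.nd (nat_lit 78) (nat_lit 0) (nat_lit 0) (XT.lf (nat_lit 0) (nat_lit 3100470465778) (nat_lit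 304) (nat_lit 3752874077254) (nat_lit 380) (nat_lit 3349698358942) (nat_lit 30) (nat_lit 5) (nat_lit 34) (nat_lit 5) (nat_lit 35) (nat_lit 5) (nat_lit 397) (nat_lit 395) (nat_lit 228)) (XT.nd (nat_lit 78) (nat_lit 0) (nat_lit 76) (XT.lf (nat_lit 76) (nat_lit 1594081526428) (nat_lit 0) (nat_lit 2300876986465) (nat_lit 380) (nat_lit 7100121950571) (nat_lit 31) (nat_lit 5) (nat_lit 30) (nat_lit 5) (nat_lit 35) (nat_lit 5) (nat_lit 398) (nat_lit 395) (nat_lit 227)) (XT.lf (nat_lit 0) (nat_lit 5135644059754) (nat_lit 304) (nat_lit 3842496703081) (nat_lit 76) (nat_lit 2878729252440) (nat_lit 31) (nat_lit 5) (nat_lit 35) (nat_lit 5) (nat_lit 32) (nat_lit 5) (nat_lit 399) (nat_lit 395) (nat_lit 226)))) (XT.nd (nat_lit 78) (nat_lit 152) (nat_lit 0) (XT.lf (nat_lit 0) (nat_lit 2678690880743) (nat_lit 304) (nat_lit 4104226005640) (nat_lit 380) (nat_lit 6031938446316) (nat_lit 27) (nat_lit 5) (nat_lit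 31) (nat_lit 5) (nat_lit 32) (nat_lit 5) (nat_lit 400) (nat_lit 395) (nat_lit 225)) (XT.nd (nat_lit 78) (nat_lit 152) (nat_lit 0) (XT.lf (nat_lit 0) (nat_lit 8949847007727) (nat_lit 380) (nat_lit 3348217535221) (nat_lit 76) (nat_lit 1577588949180) (nat_lit 27) (nat_lit 5) (nat_lit 32) (nat_lit 5) (nat_lit 28) (nat_lit 5) (nat_lit 401) (nat_lit 395) (nat_lit 224)) (XT.lf (nat_lit 0) (nat_lit 4679042834581) (nat_lit 152) (nat_lit 7151962331915) (nat_lit 228) (nat_lit 3206187931091) (nat_lit 25) (nat_lit 5) (nat_lit 27) (nat_lit 5) (nat_lit 28) (nat_lit 5) (nat_lit 402) (nat_lit 395) (nat_lit 223)))))) (XT.nd (nat_lit 468) (nat_lit 456) (nat_lit 0) (XT.nd (nat_lit 234) (nat_lit 228) (nat_lit 0) (XT.nd (nat_lit 78) (nat_lit 152) (nat_lit 0) (XT.lf (nat_lit 0) (nat_lit 14286686253216) (nat_lit 152) (nat_lit 1032671257866) (nat_lit 228) (nat_lit 1027353063484) (nat_lit 25) (nat_lit 5) (nat_lit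 27) (nat_lit 5) (nat_lit 28) (nat_lit 5) (nat_lit 403) (nat_lit 395) (nat_lit 222)) (XT.nd (nat_lit 78) (nat_lit 0) (nat_lit 0) (XT.lf (nat_lit 0) (nat_lit 1951656804047) (nat_lit 152) (nat_lit 9913584511397) (nat_lit 76) (nat_lit 5887488493683) (nat_lit 23) (nat_lit 5) (nat_lit 25) (nat_lit 5) (nat_lit 24) (nat_lit 5) (nat_lit 404) (nat_lit 395) (nat_lit 221)) (XT.lf (nat_lit 0) (nat_lit 5434322444077) (nat_lit 152) (nat_lit 2014625797) (nat_lit 76) (nat_lit 13901678771216) (nat_lit 23) (nat_lit 5) (nat_lit 25) (nat_lit 5) (nat_lit 24) (nat_lit 5) (nat_lit 405) (nat_lit 395) (nat_lit 220)))) (XT.nd (nat_lit 78) (nat_lit 76) (nat_lit 0) (XT.lf (nat_lit 0) (nat_lit 10063099613972) (nat_lit 228) (nat_lit 8679072107811) (nat_lit 76) (nat_lit 2325366303483) (nat_lit 21) (nat_lit 5) (nat_lit 24) (nat_lit 5) (nat_lit 22) (nat_lit 4) (nat_lit 406) (nat_lit 395) (nat_lit 219)) (XT.nd (nat_lit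 78) (nat_lit 0) (nat_lit 0) (XT.lf (nat_lit 0) (nat_lit 3647082514918) (nat_lit 76) (nat_lit 12149112272454) (nat_lit 152) (nat_lit 7198793535494) (nat_lit 20) (nat_lit 5) (nat_lit 21) (nat_lit 5) (nat_lit 22) (nat_lit 4) (nat_lit 407) (nat_lit 395) (nat_lit 218)) (XT.lf (nat_lit 0) (nat_lit 18797569684921) (nat_lit 76) (nat_lit 4045363321091) (nat_lit 152) (nat_lit 2300571343712) (nat_lit 20) (nat_lit 5) (nat_lit 21) (nat_lit 5) (nat_lit 22) (nat_lit 4) (nat_lit 408) (nat_lit 395) (nat_lit 217))))) (XT.nd (nat_lit 234) (nat_lit 228) (nat_lit 0) (XT.nd (nat_lit 78) (nat_lit 76) (nat_lit 0) (XT.lf (nat_lit 0) (nat_lit 3663920572861) (nat_lit 152) (nat_lit 18483211010146) (nat_lit 76) (nat_lit 5352236917347) (nat_lit 18) (nat_lit 5) (nat_lit 20) (nat_lit 5) (nat_lit 19) (nat_lit 4) (nat_lit 409) (nat_lit 395) (nat_lit 216)) (XT.nd (nat_lit 78) (nat_lit 76) (nat_lit 0) (XT.lf (nat_lit 0)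 (nat_lit 10827703410055) (nat_lit 152) (nat_lit 3081077910226) (nat_lit 76) (nat_lit 16202375528094) (nat_lit 18) (nat_lit 5) (nat_lit 20) (nat_lit 5) (nat_lit 19) (nat_lit 4) (nat_lit 410) (nat_lit 395) (nat_lit 215)) (XT.lf (nat_lit 0) (nat_lit 16061259544731) (nat_lit 76) (nat_lit 3669856635090) (nat_lit 152) (nat_lit 13283837892728) (nat_lit 17) (nat_lit 5) (nat_lit 18) (nat_lit 5) (nat_lit 19) (nat_lit 4) (nat_lit 411) (nat_lit 395) (nat_lit 214)))) (XT.nd (nat_lit 78) (nat_lit 152) (nat_lit 0) (XT.lf (nat_lit 0) (nat_lit 1918585857328) (nat_lit 76) (nat_lit 28635232156615) (nat_lit 76) (nat_lit 5712936294075) (nat_lit 16) (nat_lit 4) (nat_lit 17) (nat_lit 5) (nat_lit 17) (nat_lit 4) (nat_lit 412) (nat_lit 395) (nat_lit 213)) (XT.nd (nat_lit 78) (nat_lit 76) (nat_lit 0) (XT.lf (nat_lit 0) (nat_lit 3830261205751) (nat_lit 152) (nat_lit 14687234270201) (nat_lit 76) (nat_lit 21304759558214)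 (nat_lit 15) (nat_lit 5) (nat_lit 17) (nat_lit 5) (nat_lit 16) (nat_lit 4) (nat_lit 413) (nat_lit 395) (nat_lit 212)) (XT.lf (nat_lit 0) (nat_lit 8398486825580) (nat_lit 76) (nat_lit 6169319075894) (nat_lit 152) (nat_lit 29250303765508) (nat_lit 14) (nat_lit 5) (nat_lit 15) (nat_lit 5) (nat_lit 16) (nat_lit 4) (nat_lit 414) (nat_lit 395) (nat_lit 211))))))) (XT.nd (nat_lit 936) (nat_lit 76) (nat_lit 0) (XT.nd (nat_lit 390) (nat_lit 380) (nat_lit 0) (XT.nd (nat_lit 156) (nat_lit 152) (nat_lit 0) (XT.nd (nat_lit 78) (nat_lit 76) (nat_lit 0) (XT.lf (nat_lit 0) (nat_lit 28052833279025) (nat_lit 152) (nat_lit 12069579474929) (nat_lit 0) (nat_lit 8120402094146) (nat_lit 14) (nat_lit 5) (nat_lit 16) (nat_lit 4) (nat_lit 14) (nat_lit 4) (nat_lit 415) (nat_lit 395) (nat_lit 210)) (XT.lf (nat_lit 0) (nat_lit 15905182642609) (nat_lit 76) (nat_lit 28607808914772) (nat_lit 76) (nat_lit 8675377729878)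 (nat_lit 13) (nat_lit 4) (nat_lit 14) (nat_lit 5) (nat_lit 14) (nat_lit 4) (nat_lit 416) (nat_lit 395) (nat_lit 209))) (XT.nd (nat_lit 78) (nat_lit 76) (nat_lit 0) (XT.lf (nat_lit 0) (nat_lit 4820835856288) (nat_lit 152) (nat_lit 9567634093886) (nat_lit 76) (nat_lit 44359781131309) (nat_lit 12) (nat_lit 5) (nat_lit 14) (nat_lit 5) (nat_lit 13) (nat_lit 4) (nat_lit 417) (nat_lit 395) (nat_lit 208)) (XT.nd (nat_lit 78) (nat_lit 0) (nat_lit 0) (XT.lf (nat_lit 0) (nat_lit 20596758393915) (nat_lit 152) (nat_lit 41047659677511) (nat_lit 0) (nat_lit 3264209537463) (nat_lit 11) (nat_lit 5) (nat_lit 13) (nat_lit 4) (nat_lit 11) (nat_lit 4) (nat_lit 418) (nat_lit 395) (nat_lit 207)) (XT.lf (nat_lit 0) (nat_lit 39948176414933) (nat_lit 152) (nat_lit 9247890576587) (nat_lit 0) (nat_lit 22615627558473) (nat_lit 11) (nat_lit 5) (nat_lit 13) (nat_lit 4) (nat_lit 11) (nat_lit 4) (nat_lit 419) (nat_lit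 395) (nat_lit 206))))) (XT.nd (nat_lit 234) (nat_lit 152) (nat_lit 0) (XT.nd (nat_lit 78) (nat_lit 152) (nat_lit 0) (XT.lf (nat_lit 0) (nat_lit 29991933178633) (nat_lit 76) (nat_lit 33452275955428) (nat_lit 76) (nat_lit 16119727098960) (nat_lit 10) (nat_lit 4) (nat_lit 11) (nat_lit 5) (nat_lit 11) (nat_lit 4) (nat_lit 420) (nat_lit 395) (nat_lit 205)) (XT.nd (nat_lit 78) (nat_lit 76) (nat_lit 0) (XT.lf (nat_lit 0) (nat_lit 2315289951277) (nat_lit 152) (nat_lit 12354675461228) (nat_lit 76) (nat_lit 73720750818855) (nat_lit 9) (nat_lit 5) (nat_lit 11) (nat_lit 5) (nat_lit 10) (nat_lit 4) (nat_lit 421) (nat_lit 395) (nat_lit 204)) (XT.lf (nat_lit 0) (nat_lit 23601924172747) (nat_lit 152) (nat_lit 66033797946507) (nat_lit 0) (nat_lit 8530142558416) (nat_lit 8) (nat_lit 5) (nat_lit 10) (nat_lit 4) (nat_lit 8) (nat_lit 4) (nat_lit 422) (nat_lit 395) (nat_lit 203)))) (XT.nd (nat_lit 78) (nat_lit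 152) (nat_lit 0) (XT.lf (nat_lit 0) (nat_lit 49456688869942) (nat_lit 152) (nat_lit 25359418964001) (nat_lit 0) (nat_lit 34384907255607) (nat_lit 8) (nat_lit 5) (nat_lit 10) (nat_lit 4) (nat_lit 8) (nat_lit 4) (nat_lit 423) (nat_lit 395) (nat_lit 202)) (XT.nd (nat_lit 156) (nat_lit 76) (nat_lit 0) (XT.lf (nat_lit 0) (nat_lit 23509055559561) (nat_lit 76) (nat_lit 56654072569681) (nat_lit 76) (nat_lit 41582290955342) (nat_lit 7) (nat_lit 4) (nat_lit 8) (nat_lit 5) (nat_lit 8) (nat_lit 4) (nat_lit 424) (nat_lit 395) (nat_lit 201)) (XT.lf (nat_lit 0) (nat_lit 6013244102610) (nat_lit 152) (nat_lit 2143306793731) (nat_lit 76) (nat_lit 144136399742166) (nat_lit 6) (nat_lit 5) (nat_lit 8) (nat_lit 5) (nat_lit 7) (nat_lit 4) (nat_lit 426) (nat_lit 395) (nat_lit 199)))))) (XT.nd (nat_lit 51012) (nat_lit 0) (nat_lit 1368) (XT.nd (nat_lit 50778) (nat_lit 0) (nat_lit 1824) (XT.nd (nat_lit 78) (nat_lit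 0) (nat_lit 0) (XT.lf (nat_lit 0) (nat_lit 36623048908909) (nat_lit 152) (nat_lit 110242643327196) (nat_lit 0) (nat_lit 23517151852954) (nat_lit 5) (nat_lit 5) (nat_lit 7) (nat_lit 4) (nat_lit 5) (nat_lit 4) (nat_lit 427) (nat_lit 395) (nat_lit 198)) (XT.nd (nat_lit 50622) (nat_lit 0) (nat_lit 1824) (XT.lf (nat_lit 0) (nat_lit 72330103184195) (nat_lit 152) (nat_lit 59556045432552) (nat_lit 0) (nat_lit 59224206128239) (nat_lit 5) (nat_lit 5) (nat_lit 7) (nat_lit 4) (nat_lit 5) (nat_lit 4) (nat_lit 428) (nat_lit 395) (nat_lit 197)) (XT.lf (nat_lit 0) (nat_lit 1323984618593) (nat_lit 380) (nat_lit 1879899477810) (nat_lit 380) (nat_lit 1879899477810) (nat_lit 29) (nat_lit 3) (nat_lit 34) (nat_lit 3) (nat_lit 34) (nat_lit 5) (nat_lit 396) (nat_lit 396) (nat_lit 228)))) (XT.nd (nat_lit 78) (nat_lit 0) (nat_lit 76) (XT.lf (nat_lit 76) (nat_lit 1336157100784) (nat_lit 0) (nat_lit 1565737245957)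 (nat_lit 380) (nat_lit 8019941225306) (nat_lit 30) (nat_lit 5) (nat_lit 29) (nat_lit 3) (nat_lit 34) (nat_lit 5) (nat_lit 397) (nat_lit 396) (nat_lit 227)) (XT.nd (nat_lit 78) (nat_lit 0) (nat_lit 0) (XT.lf (nat_lit 0) (nat_lit 3565541036774) (nat_lit 304) (nat_lit 4315805187944) (nat_lit 380) (nat_lit 3852153112381) (nat_lit 30) (nat_lit 5) (nat_lit 34) (nat_lit 5) (nat_lit 35) (nat_lit 5) (nat_lit 398) (nat_lit 396) (nat_lit 226)) (XT.lf (nat_lit 76) (nat_lit 1833193756250) (nat_lit 0) (nat_lit 2646008534595) (nat_lit 380) (nat_lit 8165140241985) (nat_lit 31) (nat_lit 5) (nat_lit 30) (nat_lit 5) (nat_lit 35) (nat_lit 5) (nat_lit 399) (nat_lit 396) (nat_lit 225))))) (XT.nd (nat_lit 234) (nat_lit 304) (nat_lit 0) (XT.nd (nat_lit 78) (nat_lit 304) (nat_lit 0) (XT.lf (nat_lit 0) (nat_lit 5905990669597) (nat_lit 304) (nat_lit 4418871207658) (nat_lit 76) (nat_lit 3310538640180) (nat_lit 31)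 (nat_lit 5) (nat_lit 35) (nat_lit 5) (nat_lit 32) (nat_lit 5) (nat_lit 400) (nat_lit 396) (nat_lit 224)) (XT.nd (nat_lit 78) (nat_lit 0) (nat_lit 0) (XT.lf (nat_lit 0) (nat_lit 3080494513700) (nat_lit 304) (nat_lit 4719859906440) (nat_lit 380) (nat_lit 6936729212343) (nat_lit 27) (nat_lit 5) (nat_lit 31) (nat_lit 5) (nat_lit 32) (nat_lit 5) (nat_lit 401) (nat_lit 396) (nat_lit 223)) (XT.lf (nat_lit 0) (nat_lit 10292324059583) (nat_lit 380) (nat_lit 3850450164666) (nat_lit 76) (nat_lit 1814227291593) (nat_lit 27) (nat_lit 5) (nat_lit 32) (nat_lit 5) (nat_lit 28) (nat_lit 5) (nat_lit 402) (nat_lit 396) (nat_lit 222)))) (XT.nd (nat_lit 78) (nat_lit 152) (nat_lit 0) (XT.lf (nat_lit 0) (nat_lit 5380899260569) (nat_lit 152) (nat_lit 8224756681542) (nat_lit 228) (nat_lit 3687116120019) (nat_lit 25) (nat_lit 5) (nat_lit 27) (nat_lit 5) (nat_lit 28) (nat_lit 5) (nat_lit 403) (nat_lit 396) (nat_lit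 221)) (XT.nd (nat_lit 78) (nat_lit 152) (nat_lit 0) (XT.lf (nat_lit 0) (nat_lit 16429689191895) (nat_lit 152) (nat_lit 1187571946406) (nat_lit 228) (nat_lit 1181456022367) (nat_lit 25) (nat_lit 5) (nat_lit 27) (nat_lit 5) (nat_lit 28) (nat_lit 5) (nat_lit 404) (nat_lit 396) (nat_lit 220)) (XT.lf (nat_lit 0) (nat_lit 2244405325199) (nat_lit 152) (nat_lit 11400622187314) (nat_lit 76) (nat_lit 6770611767902) (nat_lit 23) (nat_lit 5) (nat_lit 25) (nat_lit 5) (nat_lit 24) (nat_lit 5) (nat_lit 405) (nat_lit 396) (nat_lit 219))))))))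
noncomputable def xc122 : XT := (XT.nd (nat_lit 52416) (nat_lit 0) (nat_lit 380) (XT.nd (nat_lit 858) (nat_lit 684) (nat_lit 0) (XT.nd (nat_lit 390) (nat_lit 304) (nat_lit 0) (XT.nd (nat_lit 156) (nat_lit 228) (nat_lit 0) (XT.nd (nat_lit 78) (nat_lit 152) (nat_lit 0) (XT.lf (nat_lit 0) (nat_lit 6249470811162) (nat_lit 152) (nat_lit 2316818977) (nat_lit 76) (nat_lit 15986930587042) (nat_lit 23) (nat_lit 5) (nat_lit 25) (nat_lit 5) (nat_lit 24) (nat_lit 5) (nat_lit 406) (nat_lit 396) (nat_lit 218)) (XT.lf (nat_lit 0) (nat_lit 11572564556515) (nat_lit 228) (nat_lit 9980932923268) (nat_lit 76) (nat_lit 2674171249205) (nat_lit 21) (nat_lit 5) (nat_lit 24) (nat_lit 5) (nat_lit 22) (nat_lit 4) (nat_lit 407) (nat_lit 396) (nat_lit 217))) (XT.nd (nat_lit 78) (nat_lit 152) (nat_lit 0) (XT.lf (nat_lit 0) (nat_lit 4194144892839) (nat_lit 76) (nat_lit 13971479113058) (nat_lit 152) (nat_lit 8278612565338)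 (nat_lit 20) (nat_lit 5) (nat_lit 21) (nat_lit 5) (nat_lit 22) (nat_lit 4) (nat_lit 408) (nat_lit 396) (nat_lit 216)) (XT.nd (nat_lit 78) (nat_lit 152) (nat_lit 0) (XT.lf (nat_lit 0) (nat_lit 21617205138252) (nat_lit 76) (nat_lit 4652167819024) (nat_lit 152) (nat_lit 2645657044851) (nat_lit 20) (nat_lit 5) (nat_lit 21) (nat_lit 5) (nat_lit 22) (nat_lit 4) (nat_lit 409) (nat_lit 396) (nat_lit 215)) (XT.lf (nat_lit 0) (nat_lit 4213508659156) (nat_lit 152) (nat_lit 21255692661022) (nat_lit 76) (nat_lit 6155072455173) (nat_lit 18) (nat_lit 5) (nat_lit 20) (nat_lit 5) (nat_lit 19) (nat_lit 4) (nat_lit 410) (nat_lit 396) (nat_lit 214))))) (XT.nd (nat_lit 234) (nat_lit 152) (nat_lit 0) (XT.nd (nat_lit 78) (nat_lit 152) (nat_lit 0) (XT.lf (nat_lit 0) (nat_lit 12451858921881) (nat_lit 152) (nat_lit 3543239596199) (nat_lit 76) (nat_lit 18632731857503) (nat_lit 18) (nat_lit 5) (nat_lit 20) (nat_lit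 5) (nat_lit 19) (nat_lit 4) (nat_lit 411) (nat_lit 396) (nat_lit 213)) (XT.nd (nat_lit 78) (nat_lit 76) (nat_lit 0) (XT.lf (nat_lit 0) (nat_lit 18470448476977) (nat_lit 76) (nat_lit 4220335130117) (nat_lit 152) (nat_lit 15276413576294) (nat_lit 17) (nat_lit 5) (nat_lit 18) (nat_lit 5) (nat_lit 19) (nat_lit 4) (nat_lit 412) (nat_lit 396) (nat_lit 212)) (XT.lf (nat_lit 0) (nat_lit 2206373736472) (nat_lit 76) (nat_lit 32930516979853) (nat_lit 76) (nat_lit 6569876737851) (nat_lit 16) (nat_lit 4) (nat_lit 17) (nat_lit 5) (nat_lit 17) (nat_lit 4) (nat_lit 413) (nat_lit 396) (nat_lit 211)))) (XT.nd (nat_lit 78) (nat_lit 76) (nat_lit 0) (XT.lf (nat_lit 0) (nat_lit 4404800386879) (nat_lit 152) (nat_lit 16890319410232) (nat_lit 76) (nat_lit 24500473492141) (nat_lit 15) (nat_lit 5) (nat_lit 17) (nat_lit 5) (nat_lit 16) (nat_lit 4) (nat_lit 414) (nat_lit 396) (nat_lit 210)) (XT.nd (nat_lit 78) (nat_lit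 0) (nat_lit 0) (XT.lf (nat_lit 0) (nat_lit 9658259849895) (nat_lit 76) (nat_lit 7094716937051) (nat_lit 152) (nat_lit 33637849330046) (nat_lit 14) (nat_lit 5) (nat_lit 15) (nat_lit 5) (nat_lit 16) (nat_lit 4) (nat_lit 415) (nat_lit 396) (nat_lit 209)) (XT.lf (nat_lit 0) (nat_lit 32260758271104) (nat_lit 152) (nat_lit 13880016395729) (nat_lit 0) (nat_lit 9338462408447) (nat_lit 14) (nat_lit 5) (nat_lit 16) (nat_lit 4) (nat_lit 14) (nat_lit 4) (nat_lit 416) (nat_lit 396) (nat_lit 208)))))) (XT.nd (nat_lit 468) (nat_lit 304) (nat_lit 0) (XT.nd (nat_lit 234) (nat_lit 152) (nat_lit 0) (XT.nd (nat_lit 78) (nat_lit 152) (nat_lit 0) (XT.lf (nat_lit 0) (nat_lit 18290960039419) (nat_lit 76) (nat_lit 32898980251783) (nat_lit 76) (nat_lit 9976684389114) (nat_lit 13) (nat_lit 4) (nat_lit 14) (nat_lit 5) (nat_lit 14) (nat_lit 4) (nat_lit 417) (nat_lit 396) (nat_lit 207)) (XT.nd (nat_lit 78) (nat_lit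 76) (nat_lit 0) (XT.lf (nat_lit 0) (nat_lit 5543961234927) (nat_lit 152) (nat_lit 11002779207585) (nat_lit 76) (nat_lit 51013748301165) (nat_lit 12) (nat_lit 5) (nat_lit 14) (nat_lit 5) (nat_lit 13) (nat_lit 4) (nat_lit 418) (nat_lit 396) (nat_lit 206)) (XT.lf (nat_lit 0) (nat_lit 23686272153194) (nat_lit 152) (nat_lit 47204808628751) (nat_lit 0) (nat_lit 3753840968248) (nat_lit 11) (nat_lit 5) (nat_lit 13) (nat_lit 4) (nat_lit 11) (nat_lit 4) (nat_lit 419) (nat_lit 396) (nat_lit 205)))) (XT.nd (nat_lit 78) (nat_lit 152) (nat_lit 0) (XT.lf (nat_lit 0) (nat_lit 45940402877340) (nat_lit 152) (nat_lit 10635074162740) (nat_lit 0) (nat_lit 26007971692388) (nat_lit 11) (nat_lit 5) (nat_lit 13) (nat_lit 4) (nat_lit 11) (nat_lit 4) (nat_lit 420) (nat_lit 396) (nat_lit 204)) (XT.nd (nat_lit 78) (nat_lit 76) (nat_lit 0) (XT.lf (nat_lit 0) (nat_lit 34490723155749) (nat_lit 76) (nat_lit 38470117348580)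 (nat_lit 76) (nat_lit 18537686163622) (nat_lit 10) (nat_lit 4) (nat_lit 11) (nat_lit 5) (nat_lit 11) (nat_lit 4) (nat_lit 421) (nat_lit 396) (nat_lit 203)) (XT.lf (nat_lit 0) (nat_lit 2662583444113) (nat_lit 152) (nat_lit 14207876780120) (nat_lit 76) (nat_lit 84778863441811) (nat_lit 9) (nat_lit 5) (nat_lit 11) (nat_lit 5) (nat_lit 10) (nat_lit 4) (nat_lit 422) (nat_lit 396) (nat_lit 202))))) (XT.nd (nat_lit 234) (nat_lit 152) (nat_lit 0) (XT.nd (nat_lit 78) (nat_lit 76) (nat_lit 0) (XT.lf (nat_lit 0) (nat_lit 27142212798802) (nat_lit 152) (nat_lit 75938867638189) (nat_lit 0) (nat_lit 9809663942308) (nat_lit 8) (nat_lit 5) (nat_lit 10) (nat_lit 4) (nat_lit 8) (nat_lit 4) (nat_lit 423) (nat_lit 396) (nat_lit 201)) (XT.nd (nat_lit 78) (nat_lit 76) (nat_lit 0) (XT.lf (nat_lit 0) (nat_lit 56875192200558) (nat_lit 152) (nat_lit 29163331808345) (nat_lit 0) (nat_lit 39542643344061) (nat_lit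 8) (nat_lit 5) (nat_lit 10) (nat_lit 4) (nat_lit 8) (nat_lit 4) (nat_lit 424) (nat_lit 396) (nat_lit 200)) (XT.lf (nat_lit 0) (nat_lit 27035413893739) (nat_lit 76) (nat_lit 65152183455007) (nat_lit 76) (nat_lit 47819634598508) (nat_lit 7) (nat_lit 4) (nat_lit 8) (nat_lit 5) (nat_lit 8) (nat_lit 4) (nat_lit 425) (nat_lit 396) (nat_lit 199)))) (XT.nd (nat_lit 78) (nat_lit 152) (nat_lit 0) (XT.lf (nat_lit 0) (nat_lit 94941532264580) (nat_lit 76) (nat_lit 39379777894557) (nat_lit 76) (nat_lit 22047229038055) (nat_lit 7) (nat_lit 4) (nat_lit 8) (nat_lit 5) (nat_lit 8) (nat_lit 4) (nat_lit 426) (nat_lit 396) (nat_lit 198)) (XT.nd (nat_lit 78) (nat_lit 76) (nat_lit 0) (XT.lf (nat_lit 0) (nat_lit 6915230718096) (nat_lit 152) (nat_lit 2464802812597) (nat_lit 76) (nat_lit 165756859703577) (nat_lit 6) (nat_lit 5) (nat_lit 8) (nat_lit 5) (nat_lit 7) (nat_lit 4) (nat_lit 427) (nat_lit 396) (nat_lit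 197)) (XT.lf (nat_lit 0) (nat_lit 42116506245338) (nat_lit 152) (nat_lit 126779039826082) (nat_lit 0) (nat_lit 27044724630984) (nat_lit 5) (nat_lit 5) (nat_lit 7) (nat_lit 4) (nat_lit 5) (nat_lit 4) (nat_lit 428) (nat_lit 396) (nat_lit 196))))))) (XT.nd (nat_lit 858) (nat_lit 988) (nat_lit 0) (XT.nd (nat_lit 390) (nat_lit 456) (nat_lit 0) (XT.nd (nat_lit 156) (nat_lit 0) (nat_lit 76) (XT.nd (nat_lit 78) (nat_lit 0) (nat_lit 0) (XT.lf (nat_lit 0) (nat_lit 1522582311942) (nat_lit 380) (nat_lit 2161884399160) (nat_lit 380) (nat_lit 2161884399160) (nat_lit 29) (nat_lit 3) (nat_lit 34) (nat_lit 3) (nat_lit 34) (nat_lit 5) (nat_lit 397) (nat_lit 397) (nat_lit 226)) (XT.lf (nat_lit 76) (nat_lit 1536580666516) (nat_lit 0) (nat_lit 1800597833234) (nat_lit 380) (nat_lit 9222932407953) (nat_lit 30) (nat_lit 5) (nat_lit 29) (nat_lit 3) (nat_lit 34) (nat_lit 5) (nat_lit 398) (nat_lit 397) (nat_lit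 225))) (XT.nd (nat_lit 78) (nat_lit 0) (nat_lit 0) (XT.lf (nat_lit 0) (nat_lit 4100372193144) (nat_lit 304) (nat_lit 4963175965456) (nat_lit 380) (nat_lit 4429976078935) (nat_lit 30) (nat_lit 5) (nat_lit 34) (nat_lit 5) (nat_lit 35) (nat_lit 5) (nat_lit 399) (nat_lit 397) (nat_lit 224)) (XT.nd (nat_lit 78) (nat_lit 0) (nat_lit 76) (XT.lf (nat_lit 76) (nat_lit 2108172820336) (nat_lit 0) (nat_lit 3042909814906) (nat_lit 380) (nat_lit 9389911277396) (nat_lit 31) (nat_lit 5) (nat_lit 30) (nat_lit 5) (nat_lit 35) (nat_lit 5) (nat_lit 400) (nat_lit 397) (nat_lit 223)) (XT.lf (nat_lit 0) (nat_lit 6791889270701) (nat_lit 304) (nat_lit 5081701888138) (nat_lit 76) (nat_lit 3807119436111) (nat_lit 31) (nat_lit 5) (nat_lit 35) (nat_lit 5) (nat_lit 32) (nat_lit 5) (nat_lit 401) (nat_lit 397) (nat_lit 222))))) (XT.nd (nat_lit 234) (nat_lit 152) (nat_lit 0) (XT.nd (nat_lit 78) (nat_lit 152) (nat_lit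 0) (XT.lf (nat_lit 0) (nat_lit 3542568691394) (nat_lit 304) (nat_lit 5427838892372) (nat_lit 380) (nat_lit 7977238593499) (nat_lit 27) (nat_lit 5) (nat_lit 31) (nat_lit 5) (nat_lit 32) (nat_lit 5) (nat_lit 402) (nat_lit 397) (nat_lit 221)) (XT.nd (nat_lit 78) (nat_lit 152) (nat_lit 0) (XT.lf (nat_lit 0) (nat_lit 11836172669048) (nat_lit 380) (nat_lit 4428017688732) (nat_lit 76) (nat_lit 2086361385360) (nat_lit 27) (nat_lit 5) (nat_lit 32) (nat_lit 5) (nat_lit 28) (nat_lit 5) (nat_lit 403) (nat_lit 397) (nat_lit 220)) (XT.lf (nat_lit 0) (nat_lit 6188034150259) (nat_lit 152) (nat_lit 9458470183651) (nat_lit 228) (nat_lit 4240183537466) (nat_lit 25) (nat_lit 5) (nat_lit 27) (nat_lit 5) (nat_lit 28) (nat_lit 5) (nat_lit 404) (nat_lit 397) (nat_lit 219)))) (XT.nd (nat_lit 78) (nat_lit 152) (nat_lit 0) (XT.lf (nat_lit 0) (nat_lit 18894142571205) (nat_lit 152) (nat_lit 1365707738260) (nat_lit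 228) (nat_lit 1358674425238) (nat_lit 25) (nat_lit 5) (nat_lit 27) (nat_lit 5) (nat_lit 28) (nat_lit 5) (nat_lit 405) (nat_lit 397) (nat_lit 218)) (XT.nd (nat_lit 78) (nat_lit 0) (nat_lit 0) (XT.lf (nat_lit 0) (nat_lit 2581066124390) (nat_lit 152) (nat_lit 13110715514812) (nat_lit 76) (nat_lit 7786203533213) (nat_lit 23) (nat_lit 5) (nat_lit 25) (nat_lit 5) (nat_lit 24) (nat_lit 5) (nat_lit 406) (nat_lit 397) (nat_lit 217)) (XT.lf (nat_lit 0) (nat_lit 7186891433194) (nat_lit 152) (nat_lit 2664341303) (nat_lit 76) (nat_lit 18384970175208) (nat_lit 23) (nat_lit 5) (nat_lit 25) (nat_lit 5) (nat_lit 24) (nat_lit 5) (nat_lit 407) (nat_lit 397) (nat_lit 216)))))) (XT.nd (nat_lit 702) (nat_lit 532) (nat_lit 0) (XT.nd (nat_lit 234) (nat_lit 228) (nat_lit 0) (XT.nd (nat_lit 78) (nat_lit 76) (nat_lit 0) (XT.lf (nat_lit 0) (nat_lit 13308449240331) (nat_lit 228) (nat_lit 11478072861218) (nat_lit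 76) (nat_lit 3075296936737) (nat_lit 21) (nat_lit 5) (nat_lit 24) (nat_lit 5) (nat_lit 22) (nat_lit 4) (nat_lit 408) (nat_lit 397) (nat_lit 215)) (XT.nd (nat_lit 78) (nat_lit 0) (nat_lit 0) (XT.lf (nat_lit 0) (nat_lit 4823266627280) (nat_lit 76) (nat_lit 16067200979816) (nat_lit 152) (nat_lit 9520404449775) (nat_lit 20) (nat_lit 5) (nat_lit 21) (nat_lit 5) (nat_lit 22) (nat_lit 4) (nat_lit 409) (nat_lit 397) (nat_lit 214)) (XT.lf (nat_lit 0) (nat_lit 24859785909439) (nat_lit 76) (nat_lit 5349992991704) (nat_lit 152) (nat_lit 3042505601262) (nat_lit 20) (nat_lit 5) (nat_lit 21) (nat_lit 5) (nat_lit 22) (nat_lit 4) (nat_lit 410) (nat_lit 397) (nat_lit 213)))) (XT.nd (nat_lit 78) (nat_lit 76) (nat_lit 0) (XT.lf (nat_lit 0) (nat_lit 4845534958307) (nat_lit 152) (nat_lit 24444046559687) (nat_lit 76) (nat_lit 7078333323619) (nat_lit 18) (nat_lit 5) (nat_lit 20) (nat_lit 5) (nat_lit 19) (nat_lit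 4) (nat_lit 411) (nat_lit 397) (nat_lit 212)) (XT.nd (nat_lit 78) (nat_lit 76) (nat_lit 0) (XT.lf (nat_lit 0) (nat_lit 14319637760404) (nat_lit 152) (nat_lit 4074725535204) (nat_lit 76) (nat_lit 21427641636276) (nat_lit 18) (nat_lit 5) (nat_lit 20) (nat_lit 5) (nat_lit 19) (nat_lit 4) (nat_lit 412) (nat_lit 397) (nat_lit 211)) (XT.lf (nat_lit 0) (nat_lit 21241015748929) (nat_lit 76) (nat_lit 4853385399455) (nat_lit 152) (nat_lit 17567875612478) (nat_lit 17) (nat_lit 5) (nat_lit 18) (nat_lit 5) (nat_lit 19) (nat_lit 4) (nat_lit 413) (nat_lit 397) (nat_lit 210))))) (XT.nd (nat_lit 234) (nat_lit 152) (nat_lit 0) (XT.nd (nat_lit 78) (nat_lit 152) (nat_lit 0) (XT.lf (nat_lit 0) (nat_lit 37099872011941) (nat_lit 152) (nat_lit 15962018854756) (nat_lit 0) (nat_lit 10739231769850) (nat_lit 14) (nat_lit 5) (nat_lit 16) (nat_lit 4) (nat_lit 14) (nat_lit 4) (nat_lit 417) (nat_lit 397) (nat_lit 206))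 (XT.nd (nat_lit 78) (nat_lit 76) (nat_lit 0) (XT.lf (nat_lit 0) (nat_lit 21034604045650) (nat_lit 76) (nat_lit 37833827289394) (nat_lit 76) (nat_lit 11473187047295) (nat_lit 13) (nat_lit 4) (nat_lit 14) (nat_lit 5) (nat_lit 14) (nat_lit 4) (nat_lit 418) (nat_lit 397) (nat_lit 205)) (XT.lf (nat_lit 0) (nat_lit 6375555420313) (nat_lit 152) (nat_lit 12653196088432) (nat_lit 76) (nat_lit 58665810546461) (nat_lit 12) (nat_lit 5) (nat_lit 14) (nat_lit 5) (nat_lit 13) (nat_lit 4) (nat_lit 419) (nat_lit 397) (nat_lit 204)))) (XT.nd (nat_lit 78) (nat_lit 76) (nat_lit 0) (XT.lf (nat_lit 0) (nat_lit 27239212976319) (nat_lit 152) (nat_lit 54285529922772) (nat_lit 0) (nat_lit 4316917113611) (nat_lit 11) (nat_lit 5) (nat_lit 13) (nat_lit 4) (nat_lit 11) (nat_lit 4) (nat_lit 420) (nat_lit 397) (nat_lit 203)) (XT.nd (nat_lit 78) (nat_lit 76) (nat_lit 0) (XT.lf (nat_lit 0) (nat_lit 52831463309068) (nat_lit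 152) (nat_lit 12230335286896) (nat_lit 0) (nat_lit 29909167446355) (nat_lit 11) (nat_lit 5) (nat_lit 13) (nat_lit 4) (nat_lit 11) (nat_lit 4) (nat_lit 421) (nat_lit 397) (nat_lit 202)) (XT.lf (nat_lit 0) (nat_lit 39664331629354) (nat_lit 76) (nat_lit 44240634950744) (nat_lit 76) (nat_lit 21318339088027) (nat_lit 10) (nat_lit 4) (nat_lit 11) (nat_lit 5) (nat_lit 11) (nat_lit 4) (nat_lit 422) (nat_lit 397) (nat_lit 201))))))))
noncomputable def xc123 : XT := (XT.nd (nat_lit 104520) (nat_lit 0) (nat_lit 760) (XT.nd (nat_lit 51870) (nat_lit 0) (nat_lit 228) (XT.nd (nat_lit 51402) (nat_lit 0) (nat_lit 1292) (XT.nd (nat_lit 51168) (nat_lit 0) (nat_lit 1596) (XT.nd (nat_lit 78) (nat_lit 76) (nat_lit 0) (XT.lf (nat_lit 0) (nat_lit 3061970960839) (nat_lit 152) (nat_lit 16339058296916) (nat_lit 76) (nat_lit 97495692958178) (nat_lit 9) (nat_lit 5) (nat_lit 11) (nat_lit 5) (nat_lit 10) (nat_lit 4)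 (nat_lit 423) (nat_lit 397) (nat_lit 200)) (XT.lf (nat_lit 0) (nat_lit 31213544718731) (nat_lit 152) (nat_lit 87329697783694) (nat_lit 0) (nat_lit 11281113533753) (nat_lit 8) (nat_lit 5) (nat_lit 10) (nat_lit 4) (nat_lit 8) (nat_lit 4) (nat_lit 424) (nat_lit 397) (nat_lit 199))) (XT.nd (nat_lit 78) (nat_lit 0) (nat_lit 0) (XT.lf (nat_lit 0) (nat_lit 1750969659156) (nat_lit 380) (nat_lit 2486167058791) (nat_lit 380) (nat_lit 2486167058791) (nat_lit 29) (nat_lit 3) (nat_lit 34) (nat_lit 3) (nat_lit 34) (nat_lit 5) (nat_lit 398) (nat_lit 398) (nat_lit 224)) (XT.nd (nat_lit 78) (nat_lit 0) (nat_lit 76) (XT.lf (nat_lit 76) (nat_lit 1767067766959) (nat_lit 0) (nat_lit 2070687508509) (nat_lit 380) (nat_lit 10606372268277) (nat_lit 30) (nat_lit 5) (nat_lit 29) (nat_lit 3) (nat_lit 34) (nat_lit 5) (nat_lit 399) (nat_lit 398) (nat_lit 223)) (XT.lf (nat_lit 0) (nat_lit 4715428022762) (nat_lit 304)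 (nat_lit 5707652359761) (nat_lit 380) (nat_lit 5094472490545) (nat_lit 30) (nat_lit 5) (nat_lit 34) (nat_lit 5) (nat_lit 35) (nat_lit 5) (nat_lit 400) (nat_lit 398) (nat_lit 222))))) (XT.nd (nat_lit 234) (nat_lit 152) (nat_lit 0) (XT.nd (nat_lit 78) (nat_lit 228) (nat_lit 0) (XT.lf (nat_lit 76) (nat_lit 2424398743877) (nat_lit 0) (nat_lit 3499346287233) (nat_lit 380) (nat_lit 10798397968336) (nat_lit 31) (nat_lit 5) (nat_lit 30) (nat_lit 5) (nat_lit 35) (nat_lit 5) (nat_lit 401) (nat_lit 398) (nat_lit 221)) (XT.nd (nat_lit 78) (nat_lit 304) (nat_lit 0) (XT.lf (nat_lit 0) (nat_lit 7810672661809) (nat_lit 304) (nat_lit 5843957170852) (nat_lit 76) (nat_lit 4378187351455) (nat_lit 31) (nat_lit 5) (nat_lit 35) (nat_lit 5) (nat_lit 32) (nat_lit 5) (nat_lit 402) (nat_lit 398) (nat_lit 220)) (XT.lf (nat_lit 0) (nat_lit 4073953995587) (nat_lit 304) (nat_lit 6242014726202) (nat_lit 380) (nat_lit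 9173824381998) (nat_lit 27) (nat_lit 5) (nat_lit 31) (nat_lit 5) (nat_lit 32) (nat_lit 5) (nat_lit 403) (nat_lit 398) (nat_lit 219)))) (XT.nd (nat_lit 78) (nat_lit 152) (nat_lit 0) (XT.lf (nat_lit 0) (nat_lit 13611598569804) (nat_lit 380) (nat_lit 5092220341562) (nat_lit 76) (nat_lit 2399315593184) (nat_lit 27) (nat_lit 5) (nat_lit 32) (nat_lit 5) (nat_lit 28) (nat_lit 5) (nat_lit 404) (nat_lit 398) (nat_lit 218)) (XT.nd (nat_lit 78) (nat_lit 0) (nat_lit 0) (XT.lf (nat_lit 0) (nat_lit 7116239273256) (nat_lit 152) (nat_lit 10877240711107) (nat_lit 228) (nat_lit 4876211067665) (nat_lit 25) (nat_lit 5) (nat_lit 27) (nat_lit 5) (nat_lit 28) (nat_lit 5) (nat_lit 405) (nat_lit 398) (nat_lit 217)) (XT.lf (nat_lit 0) (nat_lit 21728263957284) (nat_lit 152) (nat_lit 1570563898920) (nat_lit 228) (nat_lit 1562475588658) (nat_lit 25) (nat_lit 5) (nat_lit 27) (nat_lit 5) (nat_lit 28) (nat_lit 5) (nat_lit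 406) (nat_lit 398) (nat_lit 216)))))) (XT.nd (nat_lit 468) (nat_lit 532) (nat_lit 0) (XT.nd (nat_lit 234) (nat_lit 228) (nat_lit 0) (XT.nd (nat_lit 78) (nat_lit 152) (nat_lit 0) (XT.lf (nat_lit 0) (nat_lit 2968226043360) (nat_lit 152) (nat_lit 15077322841581) (nat_lit 76) (nat_lit 8954134063290) (nat_lit 23) (nat_lit 5) (nat_lit 25) (nat_lit 5) (nat_lit 24) (nat_lit 5) (nat_lit 407) (nat_lit 398) (nat_lit 215)) (XT.nd (nat_lit 78) (nat_lit 152) (nat_lit 0) (XT.lf (nat_lit 0) (nat_lit 8264925148444) (nat_lit 152) (nat_lit 3063992104) (nat_lit 76) (nat_lit 21142715701572) (nat_lit 23) (nat_lit 5) (nat_lit 25) (nat_lit 5) (nat_lit 24) (nat_lit 5) (nat_lit 408) (nat_lit 398) (nat_lit 214)) (XT.lf (nat_lit 0) (nat_lit 15304716626637) (nat_lit 228) (nat_lit 13199783789992) (nat_lit 76) (nat_lit 3536591477362) (nat_lit 21) (nat_lit 5) (nat_lit 24) (nat_lit 5) (nat_lit 22) (nat_lit 4) (nat_lit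 409) (nat_lit 398) (nat_lit 213)))) (XT.nd (nat_lit 78) (nat_lit 152) (nat_lit 0) (XT.lf (nat_lit 0) (nat_lit 5546756621763) (nat_lit 76) (nat_lit 18477281126637) (nat_lit 152) (nat_lit 10948465116967) (nat_lit 20) (nat_lit 5) (nat_lit 21) (nat_lit 5) (nat_lit 22) (nat_lit 4) (nat_lit 410) (nat_lit 398) (nat_lit 212)) (XT.nd (nat_lit 78) (nat_lit 152) (nat_lit 0) (XT.lf (nat_lit 0) (nat_lit 28588753796194) (nat_lit 76) (nat_lit 6152491940328) (nat_lit 152) (nat_lit 3498881441213) (nat_lit 20) (nat_lit 5) (nat_lit 21) (nat_lit 5) (nat_lit 22) (nat_lit 4) (nat_lit 411) (nat_lit 398) (nat_lit 211)) (XT.lf (nat_lit 0) (nat_lit 5572365202262) (nat_lit 152) (nat_lit 28110653543271) (nat_lit 76) (nat_lit 8140083322290) (nat_lit 18) (nat_lit 5) (nat_lit 20) (nat_lit 5) (nat_lit 19) (nat_lit 4) (nat_lit 412) (nat_lit 398) (nat_lit 210))))) (XT.nd (nat_lit 624) (nat_lit 76) (nat_lit 0) (XT.nd (nat_lit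 468) (nat_lit 456) (nat_lit 0) (XT.lf (nat_lit 0) (nat_lit 16467583424647) (nat_lit 152) (nat_lit 4685934365164) (nat_lit 76) (nat_lit 24641787881829) (nat_lit 18) (nat_lit 5) (nat_lit 20) (nat_lit 5) (nat_lit 19) (nat_lit 4) (nat_lit 413) (nat_lit 398) (nat_lit 209)) (XT.nd (nat_lit 78) (nat_lit 76) (nat_lit 0) (XT.lf (nat_lit 0) (nat_lit 24189794652737) (nat_lit 76) (nat_lit 43508901382686) (nat_lit 76) (nat_lit 13194165104249) (nat_lit 13) (nat_lit 4) (nat_lit 14) (nat_lit 5) (nat_lit 14) (nat_lit 4) (nat_lit 419) (nat_lit 398) (nat_lit 203)) (XT.lf (nat_lit 0) (nat_lit 7331888733472) (nat_lit 152) (nat_lit 14551175501478) (nat_lit 76) (nat_lit 67465682128521) (nat_lit 12) (nat_lit 5) (nat_lit 14) (nat_lit 5) (nat_lit 13) (nat_lit 4) (nat_lit 420) (nat_lit 398) (nat_lit 202)))) (XT.nd (nat_lit 51402) (nat_lit 0) (nat_lit 1368) (XT.lf (nat_lit 0) (nat_lit 31325094922876) (nat_lit 152)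 (nat_lit 62428359410966) (nat_lit 0) (nat_lit 4964454680747) (nat_lit 11) (nat_lit 5) (nat_lit 13) (nat_lit 4) (nat_lit 11) (nat_lit 4) (nat_lit 421) (nat_lit 398) (nat_lit 201)) (XT.nd (nat_lit 78) (nat_lit 0) (nat_lit 0) (XT.lf (nat_lit 0) (nat_lit 2013615108349) (nat_lit 380) (nat_lit 2859092117425) (nat_lit 380) (nat_lit 2859092117425) (nat_lit 29) (nat_lit 3) (nat_lit 34) (nat_lit 3) (nat_lit 34) (nat_lit 5) (nat_lit 399) (nat_lit 399) (nat_lit 222)) (XT.lf (nat_lit 76) (nat_lit 2032127932354) (nat_lit 0) (nat_lit 2381290635005) (nat_lit 380) (nat_lit 12197328107861) (nat_lit 30) (nat_lit 5) (nat_lit 29) (nat_lit 3) (nat_lit 34) (nat_lit 5) (nat_lit 400) (nat_lit 399) (nat_lit 221))))))) (XT.nd (nat_lit 858) (nat_lit 152) (nat_lit 0) (XT.nd (nat_lit 390) (nat_lit 532) (nat_lit 0) (XT.nd (nat_lit 156) (nat_lit 228) (nat_lit 0) (XT.nd (nat_lit 78) (nat_lit 0) (nat_lit 0) (XT.lf (nat_lit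 0) (nat_lit 5422742226665) (nat_lit 304) (nat_lit 6563800213337) (nat_lit 380) (nat_lit 5858643363953) (nat_lit 30) (nat_lit 5) (nat_lit 34) (nat_lit 5) (nat_lit 35) (nat_lit 5) (nat_lit 401) (nat_lit 399) (nat_lit 220)) (XT.lf (nat_lit 76) (nat_lit 2788058555830) (nat_lit 0) (nat_lit 4024248230387) (nat_lit 380) (nat_lit 12418157663080) (nat_lit 31) (nat_lit 5) (nat_lit 30) (nat_lit 5) (nat_lit 35) (nat_lit 5) (nat_lit 402) (nat_lit 399) (nat_lit 219))) (XT.nd (nat_lit 78) (nat_lit 304) (nat_lit 0) (XT.lf (nat_lit 0) (nat_lit 8982273561461) (nat_lit 304) (nat_lit 6720550746097) (nat_lit 76) (nat_lit 5034915454118) (nat_lit 31) (nat_lit 5) (nat_lit 35) (nat_lit 5) (nat_lit 32) (nat_lit 5) (nat_lit 403) (nat_lit 399) (nat_lit 218)) (XT.nd (nat_lit 78) (nat_lit 0) (nat_lit 0) (XT.lf (nat_lit 0) (nat_lit 4685047095290) (nat_lit 304) (nat_lit 7178316935112) (nat_lit 380) (nat_lit 10549898038900)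 (nat_lit 27) (nat_lit 5) (nat_lit 31) (nat_lit 5) (nat_lit 32) (nat_lit 5) (nat_lit 404) (nat_lit 399) (nat_lit 217)) (XT.lf (nat_lit 0) (nat_lit 15653338355576) (nat_lit 380) (nat_lit 5856053392434) (nat_lit 76) (nat_lit 2759212932178) (nat_lit 27) (nat_lit 5) (nat_lit 32) (nat_lit 5) (nat_lit 28) (nat_lit 5) (nat_lit 405) (nat_lit 399) (nat_lit 216))))) (XT.nd (nat_lit 234) (nat_lit 228) (nat_lit 0) (XT.nd (nat_lit 78) (nat_lit 152) (nat_lit 0) (XT.lf (nat_lit 0) (nat_lit 8183675164590) (nat_lit 152) (nat_lit 12508826817703) (nat_lit 228) (nat_lit 5607642727497) (nat_lit 25) (nat_lit 5) (nat_lit 27) (nat_lit 5) (nat_lit 28) (nat_lit 5) (nat_lit 406) (nat_lit 399) (nat_lit 215)) (XT.nd (nat_lit 78) (nat_lit 152) (nat_lit 0) (XT.lf (nat_lit 0) (nat_lit 24987503551178) (nat_lit 152) (nat_lit 1806148483697) (nat_lit 228) (nat_lit 1796846926681) (nat_lit 25) (nat_lit 5) (nat_lit 27) (nat_lit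 5) (nat_lit 28) (nat_lit 5) (nat_lit 407) (nat_lit 399) (nat_lit 214)) (XT.lf (nat_lit 0) (nat_lit 3413459950099) (nat_lit 152) (nat_lit 17338921267475) (nat_lit 76) (nat_lit 10297254172856) (nat_lit 23) (nat_lit 5) (nat_lit 25) (nat_lit 5) (nat_lit 24) (nat_lit 5) (nat_lit 408) (nat_lit 399) (nat_lit 213)))) (XT.nd (nat_lit 78) (nat_lit 228) (nat_lit 0) (XT.lf (nat_lit 0) (nat_lit 9504663920915) (nat_lit 152) (nat_lit 3523590622) (nat_lit 76) (nat_lit 24314123056871) (nat_lit 23) (nat_lit 5) (nat_lit 25) (nat_lit 5) (nat_lit 24) (nat_lit 5) (nat_lit 409) (nat_lit 399) (nat_lit 212)) (XT.nd (nat_lit 78) (nat_lit 76) (nat_lit 0) (XT.lf (nat_lit 0) (nat_lit 17600424120826) (nat_lit 228) (nat_lit 15179751358182) (nat_lit 76) (nat_lit 4067080199053) (nat_lit 21) (nat_lit 5) (nat_lit 24) (nat_lit 5) (nat_lit 22) (nat_lit 4) (nat_lit 410) (nat_lit 399) (nat_lit 211)) (XT.lf (nat_lit 0) (nat_lit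 6378770115322) (nat_lit 76) (nat_lit 21248873295519) (nat_lit 152) (nat_lit 12590734884304) (nat_lit 20) (nat_lit 5) (nat_lit 21) (nat_lit 5) (nat_lit 22) (nat_lit 4) (nat_lit 411) (nat_lit 399) (nat_lit 210)))))) (XT.nd (nat_lit 52494) (nat_lit 0) (nat_lit 380) (XT.nd (nat_lit 52260) (nat_lit 0) (nat_lit 836) (XT.nd (nat_lit 78) (nat_lit 152) (nat_lit 0) (XT.lf (nat_lit 0) (nat_lit 32877066865879) (nat_lit 76) (nat_lit 7075365731278) (nat_lit 152) (nat_lit 4023713657214) (nat_lit 20) (nat_lit 5) (nat_lit 21) (nat_lit 5) (nat_lit 22) (nat_lit 4) (nat_lit 412) (nat_lit 399) (nat_lit 209)) (XT.nd (nat_lit 52104) (nat_lit 0) (nat_lit 836) (XT.lf (nat_lit 0) (nat_lit 6408219982760) (nat_lit 152) (nat_lit 32327251574483) (nat_lit 76) (nat_lit 9361095820731) (nat_lit 18) (nat_lit 5) (nat_lit 20) (nat_lit 5) (nat_lit 19) (nat_lit 4) (nat_lit 413) (nat_lit 399) (nat_lit 208)) (XT.lf (nat_lit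 0) (nat_lit 2315657374844) (nat_lit 380) (nat_lit 3287955934900) (nat_lit 380) (nat_lit 3287955934900) (nat_lit 29) (nat_lit 3) (nat_lit 34) (nat_lit 3) (nat_lit 34) (nat_lit 5) (nat_lit 400) (nat_lit 400) (nat_lit 220)))) (XT.nd (nat_lit 78) (nat_lit 0) (nat_lit 76) (XT.lf (nat_lit 76) (nat_lit 2336947122473) (nat_lit 0) (nat_lit 2738484230421) (nat_lit 380) (nat_lit 14026927323544) (nat_lit 30) (nat_lit 5) (nat_lit 29) (nat_lit 3) (nat_lit 34) (nat_lit 5) (nat_lit 401) (nat_lit 400) (nat_lit 219)) (XT.nd (nat_lit 78) (nat_lit 0) (nat_lit 0) (XT.lf (nat_lit 0) (nat_lit 6236153561034) (nat_lit 304) (nat_lit 7548370245043) (nat_lit 380) (nat_lit 6737439868415) (nat_lit 30) (nat_lit 5) (nat_lit 34) (nat_lit 5) (nat_lit 35) (nat_lit 5) (nat_lit 402) (nat_lit 400) (nat_lit 218)) (XT.lf (nat_lit 76) (nat_lit 3206267339485) (nat_lit 0) (nat_lit 4627885464998) (nat_lit 380) (nat_lit 14280881312159)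 (nat_lit 31) (nat_lit 5) (nat_lit 30) (nat_lit 5) (nat_lit 35) (nat_lit 5) (nat_lit 403) (nat_lit 400) (nat_lit 217))))) (XT.nd (nat_lit 234) (nat_lit 304) (nat_lit 0) (XT.nd (nat_lit 78) (nat_lit 304) (nat_lit 0) (XT.lf (nat_lit 0) (nat_lit 10329614595968) (nat_lit 304) (nat_lit 7728633357722) (nat_lit 76) (nat_lit 5790152772195) (nat_lit 31) (nat_lit 5) (nat_lit 35) (nat_lit 5) (nat_lit 32) (nat_lit 5) (nat_lit 404) (nat_lit 400) (nat_lit 216)) (XT.nd (nat_lit 78) (nat_lit 0) (nat_lit 0) (XT.lf (nat_lit 0) (nat_lit 5387804159860) (nat_lit 304) (nat_lit 8255064475364) (nat_lit 380) (nat_lit 12132382744434) (nat_lit 27) (nat_lit 5) (nat_lit 31) (nat_lit 5) (nat_lit 32) (nat_lit 5) (nat_lit 405) (nat_lit 400) (nat_lit 215)) (XT.lf (nat_lit 0) (nat_lit 18001339109140) (nat_lit 380) (nat_lit 6734461401025) (nat_lit 76) (nat_lit 3173094872016) (nat_lit 27) (nat_lit 5) (nat_lit 32) (nat_lit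 5) (nat_lit 28) (nat_lit 5) (nat_lit 406) (nat_lit 400) (nat_lit 214)))) (XT.nd (nat_lit 78) (nat_lit 152) (nat_lit 0) (XT.lf (nat_lit 0) (nat_lit 9411226439541) (nat_lit 152) (nat_lit 14385150840306) (nat_lit 228) (nat_lit 6448789136381) (nat_lit 25) (nat_lit 5) (nat_lit 27) (nat_lit 5) (nat_lit 28) (nat_lit 5) (nat_lit 407) (nat_lit 400) (nat_lit 213)) (XT.nd (nat_lit 78) (nat_lit 152) (nat_lit 0) (XT.lf (nat_lit 0) (nat_lit 28735629084082) (nat_lit 152) (nat_lit 2077070756206) (nat_lit 228) (nat_lit 2066373965474) (nat_lit 25) (nat_lit 5) (nat_lit 27) (nat_lit 5) (nat_lit 28) (nat_lit 5) (nat_lit 408) (nat_lit 400) (nat_lit 212)) (XT.lf (nat_lit 0) (nat_lit 3925478942792) (nat_lit 152) (nat_lit 19939759457337) (nat_lit 76) (nat_lit 11841842298838) (nat_lit 23) (nat_lit 5) (nat_lit 25) (nat_lit 5) (nat_lit 24) (nat_lit 5) (nat_lit 409) (nat_lit 400) (nat_lit 211))))))))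
noncomputable def xc124 : XT := (XT.nd (nat_lit 106002) (nat_lit 0) (nat_lit 0) (XT.nd (nat_lit 52962) (nat_lit 0) (nat_lit 0) (XT.nd (nat_lit 52494) (nat_lit 0) (nat_lit 532) (XT.nd (nat_lit 156) (nat_lit 76) (nat_lit 0) (XT.nd (nat_lit 78) (nat_lit 152) (nat_lit 0) (XT.lf (nat_lit 0) (nat_lit 10930363509207) (nat_lit 152) (nat_lit 4052128990) (nat_lit 76) (nat_lit 27961241515449) (nat_lit 23) (nat_lit 5) (nat_lit 25) (nat_lit 5) (nat_lit 24) (nat_lit 5) (nat_lit 410) (nat_lit 400) (nat_lit 210)) (XT.lf (nat_lit 0) (nat_lit 20240487739097) (nat_lit 228) (nat_lit 17456714061676) (nat_lit 76) (nat_lit 4677142228976) (nat_lit 21) (nat_lit 5) (nat_lit 24) (nat_lit 5) (nat_lit 22) (nat_lit 4) (nat_lit 411) (nat_lit 400) (nat_lit 209))) (XT.nd (nat_lit 78) (nat_lit 0) (nat_lit 0) (XT.lf (nat_lit 0) (nat_lit 7335585632844) (nat_lit 76) (nat_lit 24436204289760) (nat_lit 152) (nat_lit 14479345116793)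 (nat_lit 20) (nat_lit 5) (nat_lit 21) (nat_lit 5) (nat_lit 22) (nat_lit 4) (nat_lit 412) (nat_lit 400) (nat_lit 208)) (XT.nd (nat_lit 52182) (nat_lit 0) (nat_lit 684) (XT.lf (nat_lit 0) (nat_lit 37808626895956) (nat_lit 76) (nat_lit 8136670590894) (nat_lit 152) (nat_lit 4627270705660) (nat_lit 20) (nat_lit 5) (nat_lit 21) (nat_lit 5) (nat_lit 22) (nat_lit 4) (nat_lit 413) (nat_lit 400) (nat_lit 207)) (XT.lf (nat_lit 0) (nat_lit 2663005981253) (nat_lit 380) (nat_lit 3781149325030) (nat_lit 380) (nat_lit 3781149325030) (nat_lit 29) (nat_lit 3) (nat_lit 34) (nat_lit 3) (nat_lit 34) (nat_lit 5) (nat_lit 401) (nat_lit 401) (nat_lit 218))))) (XT.nd (nat_lit 234) (nat_lit 152) (nat_lit 0) (XT.nd (nat_lit 78) (nat_lit 0) (nat_lit 76) (XT.lf (nat_lit 76) (nat_lit 2687489191045) (nat_lit 0) (nat_lit 3149256865110) (nat_lit 380) (nat_lit 16130966421700) (nat_lit 30) (nat_lit 5) (nat_lit 29) (nat_lit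 3) (nat_lit 34) (nat_lit 5) (nat_lit 402) (nat_lit 401) (nat_lit 217)) (XT.nd (nat_lit 78) (nat_lit 0) (nat_lit 0) (XT.lf (nat_lit 0) (nat_lit 7171576595468) (nat_lit 304) (nat_lit 8680625781578) (nat_lit 380) (nat_lit 7748055848578) (nat_lit 30) (nat_lit 5) (nat_lit 34) (nat_lit 5) (nat_lit 35) (nat_lit 5) (nat_lit 403) (nat_lit 401) (nat_lit 216)) (XT.lf (nat_lit 76) (nat_lit 3687207440619) (nat_lit 0) (nat_lit 5322068284787) (nat_lit 380) (nat_lit 16423013508693) (nat_lit 31) (nat_lit 5) (nat_lit 30) (nat_lit 5) (nat_lit 35) (nat_lit 5) (nat_lit 404) (nat_lit 401) (nat_lit 215)))) (XT.nd (nat_lit 78) (nat_lit 304) (nat_lit 0) (XT.lf (nat_lit 0) (nat_lit 11879056785580) (nat_lit 304) (nat_lit 8887928361162) (nat_lit 76) (nat_lit 6658675687993) (nat_lit 31) (nat_lit 5) (nat_lit 35) (nat_lit 5) (nat_lit 32) (nat_lit 5) (nat_lit 405) (nat_lit 401) (nat_lit 214)) (XT.nd (nat_lit 78) (nat_lit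 0) (nat_lit 0) (XT.lf (nat_lit 0) (nat_lit 6195974784048) (nat_lit 304) (nat_lit 9493324146658) (nat_lit 380) (nat_lit 13952240155871) (nat_lit 27) (nat_lit 5) (nat_lit 31) (nat_lit 5) (nat_lit 32) (nat_lit 5) (nat_lit 406) (nat_lit 401) (nat_lit 213)) (XT.lf (nat_lit 0) (nat_lit 20701539975683) (nat_lit 380) (nat_lit 7744630610972) (nat_lit 76) (nat_lit 3649059102827) (nat_lit 27) (nat_lit 5) (nat_lit 32) (nat_lit 5) (nat_lit 28) (nat_lit 5) (nat_lit 407) (nat_lit 401) (nat_lit 212)))))) (XT.nd (nat_lit 390) (nat_lit 76) (nat_lit 0) (XT.nd (nat_lit 156) (nat_lit 304) (nat_lit 0) (XT.nd (nat_lit 78) (nat_lit 0) (nat_lit 0) (XT.lf (nat_lit 0) (nat_lit 10822910405670) (nat_lit 152) (nat_lit 16542923466312) (nat_lit 228) (nat_lit 7416107506656) (nat_lit 25) (nat_lit 5) (nat_lit 27) (nat_lit 5) (nat_lit 28) (nat_lit 5) (nat_lit 408) (nat_lit 401) (nat_lit 211)) (XT.lf (nat_lit 0) (nat_lit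 33045973446866) (nat_lit 152) (nat_lit 2388631369602) (nat_lit 228) (nat_lit 2376330060137) (nat_lit 25) (nat_lit 5) (nat_lit 27) (nat_lit 5) (nat_lit 28) (nat_lit 5) (nat_lit 409) (nat_lit 401) (nat_lit 210))) (XT.nd (nat_lit 78) (nat_lit 152) (nat_lit 0) (XT.lf (nat_lit 0) (nat_lit 4514300784345) (nat_lit 152) (nat_lit 22930723375742) (nat_lit 76) (nat_lit 13618118643705) (nat_lit 23) (nat_lit 5) (nat_lit 25) (nat_lit 5) (nat_lit 24) (nat_lit 5) (nat_lit 410) (nat_lit 401) (nat_lit 209)) (XT.nd (nat_lit 78) (nat_lit 152) (nat_lit 0) (XT.lf (nat_lit 0) (nat_lit 12569918035705) (nat_lit 152) (nat_lit 4659948169) (nat_lit 76) (nat_lit 32155427742802) (nat_lit 23) (nat_lit 5) (nat_lit 25) (nat_lit 5) (nat_lit 24) (nat_lit 5) (nat_lit 411) (nat_lit 401) (nat_lit 208)) (XT.lf (nat_lit 0) (nat_lit 23276560900072) (nat_lit 228) (nat_lit 20075221170751) (nat_lit 76) (nat_lit 5378713563372) (nat_lit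 21) (nat_lit 5) (nat_lit 24) (nat_lit 5) (nat_lit 22) (nat_lit 4) (nat_lit 412) (nat_lit 401) (nat_lit 207))))) (XT.nd (nat_lit 52416) (nat_lit 0) (nat_lit 760) (XT.nd (nat_lit 52260) (nat_lit 0) (nat_lit 684) (XT.lf (nat_lit 0) (nat_lit 8435923477939) (nat_lit 76) (nat_lit 28101634933159) (nat_lit 152) (nat_lit 16651246884193) (nat_lit 20) (nat_lit 5) (nat_lit 21) (nat_lit 5) (nat_lit 22) (nat_lit 4) (nat_lit 413) (nat_lit 401) (nat_lit 206)) (XT.nd (nat_lit 78) (nat_lit 0) (nat_lit 0) (XT.lf (nat_lit 0) (nat_lit 3062456878579) (nat_lit 380) (nat_lit 4348321723705) (nat_lit 380) (nat_lit 4348321723705) (nat_lit 29) (nat_lit 3) (nat_lit 34) (nat_lit 3) (nat_lit 34) (nat_lit 5) (nat_lit 402) (nat_lit 402) (nat_lit 216)) (XT.lf (nat_lit 76) (nat_lit 3090612569854) (nat_lit 0) (nat_lit 3621645394971) (nat_lit 380) (nat_lit 18550611384671) (nat_lit 30) (nat_lit 5) (nat_lit 29) (nat_lit 3)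 (nat_lit 34) (nat_lit 5) (nat_lit 403) (nat_lit 402) (nat_lit 215)))) (XT.nd (nat_lit 78) (nat_lit 0) (nat_lit 0) (XT.lf (nat_lit 0) (nat_lit 8247313085000) (nat_lit 304) (nat_lit 9982719648647) (nat_lit 380) (nat_lit 8910264225790) (nat_lit 30) (nat_lit 5) (nat_lit 34) (nat_lit 5) (nat_lit 35) (nat_lit 5) (nat_lit 404) (nat_lit 402) (nat_lit 214)) (XT.nd (nat_lit 78) (nat_lit 0) (nat_lit 76) (XT.lf (nat_lit 76) (nat_lit 4240288556873) (nat_lit 0) (nat_lit 6120378527535) (nat_lit 380) (nat_lit 18886465534778) (nat_lit 31) (nat_lit 5) (nat_lit 30) (nat_lit 5) (nat_lit 35) (nat_lit 5) (nat_lit 405) (nat_lit 402) (nat_lit 213)) (XT.lf (nat_lit 0) (nat_lit 13660915303582) (nat_lit 304) (nat_lit 10221117615171) (nat_lit 76) (nat_lit 7657477041168) (nat_lit 31) (nat_lit 5) (nat_lit 35) (nat_lit 5) (nat_lit 32) (nat_lit 5) (nat_lit 406) (nat_lit 402) (nat_lit 212))))))) (XT.nd (nat_lit 53040)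 (nat_lit 0) (nat_lit 76) (XT.nd (nat_lit 390) (nat_lit 228) (nat_lit 0) (XT.nd (nat_lit 156) (nat_lit 304) (nat_lit 0) (XT.nd (nat_lit 78) (nat_lit 0) (nat_lit 0) (XT.lf (nat_lit 0) (nat_lit 7125371001813) (nat_lit 304) (nat_lit 10917322768648) (nat_lit 380) (nat_lit 16045076179080) (nat_lit 27) (nat_lit 5) (nat_lit 31) (nat_lit 5) (nat_lit 32) (nat_lit 5) (nat_lit 407) (nat_lit 402) (nat_lit 211)) (XT.lf (nat_lit 0) (nat_lit 23806770972166) (nat_lit 380) (nat_lit 8906325202461) (nat_lit 76) (nat_lit 4196417968258) (nat_lit 27) (nat_lit 5) (nat_lit 32) (nat_lit 5) (nat_lit 28) (nat_lit 5) (nat_lit 408) (nat_lit 402) (nat_lit 210))) (XT.nd (nat_lit 78) (nat_lit 152) (nat_lit 0) (XT.lf (nat_lit 0) (nat_lit 12446346966669) (nat_lit 152) (nat_lit 19024361986229) (nat_lit 228) (nat_lit 8528523632517) (nat_lit 25) (nat_lit 5) (nat_lit 27) (nat_lit 5) (nat_lit 28) (nat_lit 5) (nat_lit 409) (nat_lit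 402) (nat_lit 209)) (XT.nd (nat_lit 78) (nat_lit 152) (nat_lit 0) (XT.lf (nat_lit 0) (nat_lit 38002869464026) (nat_lit 152) (nat_lit 2746926075017) (nat_lit 228) (nat_lit 2732779569038) (nat_lit 25) (nat_lit 5) (nat_lit 27) (nat_lit 5) (nat_lit 28) (nat_lit 5) (nat_lit 410) (nat_lit 402) (nat_lit 208)) (XT.lf (nat_lit 0) (nat_lit 5191445902099) (nat_lit 152) (nat_lit 26370331881956) (nat_lit 76) (nat_lit 15660836440292) (nat_lit 23) (nat_lit 5) (nat_lit 25) (nat_lit 5) (nat_lit 24) (nat_lit 5) (nat_lit 411) (nat_lit 402) (nat_lit 207))))) (XT.nd (nat_lit 52416) (nat_lit 0) (nat_lit 684) (XT.nd (nat_lit 78) (nat_lit 228) (nat_lit 0) (XT.lf (nat_lit 0) (nat_lit 14455405741149) (nat_lit 152) (nat_lit 5358940266) (nat_lit 76) (nat_lit 36978741904249) (nat_lit 23) (nat_lit 5) (nat_lit 25) (nat_lit 5) (nat_lit 24) (nat_lit 5) (nat_lit 412) (nat_lit 402) (nat_lit 206)) (XT.nd (nat_lit 78) (nat_lit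 76) (nat_lit 0) (XT.lf (nat_lit 0) (nat_lit 26768045035167) (nat_lit 228) (nat_lit 23086504346230) (nat_lit 76) (nat_lit 6185520597915) (nat_lit 21) (nat_lit 5) (nat_lit 24) (nat_lit 5) (nat_lit 22) (nat_lit 4) (nat_lit 413) (nat_lit 402) (nat_lit 205)) (XT.lf (nat_lit 0) (nat_lit 9701311999757) (nat_lit 76) (nat_lit 32316880173083) (nat_lit 152) (nat_lit 19148933916733) (nat_lit 20) (nat_lit 5) (nat_lit 21) (nat_lit 5) (nat_lit 22) (nat_lit 4) (nat_lit 414) (nat_lit 402) (nat_lit 204)))) (XT.nd (nat_lit 78) (nat_lit 0) (nat_lit 0) (XT.lf (nat_lit 0) (nat_lit 3521825410471) (nat_lit 380) (nat_lit 5000569982200) (nat_lit 380) (nat_lit 5000569982200) (nat_lit 29) (nat_lit 3) (nat_lit 34) (nat_lit 3) (nat_lit 34) (nat_lit 5) (nat_lit 403) (nat_lit 403) (nat_lit 214)) (XT.nd (nat_lit 78) (nat_lit 0) (nat_lit 76) (XT.lf (nat_lit 76) (nat_lit 3554204455447) (nat_lit 0) (nat_lit 4164892204289)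 (nat_lit 380) (nat_lit 21333203092157) (nat_lit 30) (nat_lit 5) (nat_lit 29) (nat_lit 3) (nat_lit 34) (nat_lit 5) (nat_lit 404) (nat_lit 403) (nat_lit 213)) (XT.lf (nat_lit 0) (nat_lit 9484410047909) (nat_lit 304) (nat_lit 11480127595816) (nat_lit 380) (nat_lit 10246803859602) (nat_lit 30) (nat_lit 5) (nat_lit 34) (nat_lit 5) (nat_lit 35) (nat_lit 5) (nat_lit 405) (nat_lit 403) (nat_lit 212)))))) (XT.nd (nat_lit 468) (nat_lit 304) (nat_lit 0) (XT.nd (nat_lit 234) (nat_lit 152) (nat_lit 0) (XT.nd (nat_lit 78) (nat_lit 228) (nat_lit 0) (XT.lf (nat_lit 76) (nat_lit 4876331840525) (nat_lit 0) (nat_lit 7038435306688) (nat_lit 380) (nat_lit 21719435364829) (nat_lit 31) (nat_lit 5) (nat_lit 30) (nat_lit 5) (nat_lit 35) (nat_lit 5) (nat_lit 406) (nat_lit 403) (nat_lit 211)) (XT.nd (nat_lit 78) (nat_lit 304) (nat_lit 0) (XT.lf (nat_lit 0) (nat_lit 15710052599243) (nat_lit 304) (nat_lit 11754285257321)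 (nat_lit 76) (nat_lit 8806098597326) (nat_lit 31) (nat_lit 5) (nat_lit 35) (nat_lit 5) (nat_lit 32) (nat_lit 5) (nat_lit 407) (nat_lit 403) (nat_lit 210)) (XT.lf (nat_lit 0) (nat_lit 8194176652205) (nat_lit 304) (nat_lit 12554921183938) (nat_lit 380) (nat_lit 18451837605812) (nat_lit 27) (nat_lit 5) (nat_lit 31) (nat_lit 5) (nat_lit 32) (nat_lit 5) (nat_lit 408) (nat_lit 403) (nat_lit 209)))) (XT.nd (nat_lit 78) (nat_lit 152) (nat_lit 0) (XT.lf (nat_lit 0) (nat_lit 27377786618090) (nat_lit 380) (nat_lit 10242273982712) (nat_lit 76) (nat_lit 4825880663502) (nat_lit 27) (nat_lit 5) (nat_lit 32) (nat_lit 5) (nat_lit 28) (nat_lit 5) (nat_lit 409) (nat_lit 403) (nat_lit 208)) (XT.nd (nat_lit 78) (nat_lit 0) (nat_lit 0) (XT.lf (nat_lit 0) (nat_lit 14313299011783) (nat_lit 152) (nat_lit 21878016284141) (nat_lit 228) (nat_lit 9807802177291) (nat_lit 25) (nat_lit 5) (nat_lit 27) (nat_lit 5) (nat_lit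 28) (nat_lit 5) (nat_lit 410) (nat_lit 403) (nat_lit 207)) (XT.lf (nat_lit 0) (nat_lit 43703299883728) (nat_lit 152) (nat_lit 3158964986249) (nat_lit 228) (nat_lit 3142696504303) (nat_lit 25) (nat_lit 5) (nat_lit 27) (nat_lit 5) (nat_lit 28) (nat_lit 5) (nat_lit 411) (nat_lit 403) (nat_lit 206))))) (XT.nd (nat_lit 52494) (nat_lit 0) (nat_lit 608) (XT.nd (nat_lit 78) (nat_lit 152) (nat_lit 0) (XT.lf (nat_lit 0) (nat_lit 5970162787491) (nat_lit 152) (nat_lit 30325881664137) (nat_lit 76) (nat_lit 18009961906360) (nat_lit 23) (nat_lit 5) (nat_lit 25) (nat_lit 5) (nat_lit 24) (nat_lit 5) (nat_lit 412) (nat_lit 403) (nat_lit 205)) (XT.nd (nat_lit 78) (nat_lit 152) (nat_lit 0) (XT.lf (nat_lit 0) (nat_lit 16623716602388) (nat_lit 152) (nat_lit 6162781208) (nat_lit 76) (nat_lit 42525553189907) (nat_lit 23) (nat_lit 5) (nat_lit 25) (nat_lit 5) (nat_lit 24) (nat_lit 5) (nat_lit 413) (nat_lit 403)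 (nat_lit 204)) (XT.lf (nat_lit 0) (nat_lit 30783251790505) (nat_lit 228) (nat_lit 26549479998063) (nat_lit 76) (nat_lit 7113348687630) (nat_lit 21) (nat_lit 5) (nat_lit 24) (nat_lit 5) (nat_lit 22) (nat_lit 4) (nat_lit 414) (nat_lit 403) (nat_lit 203)))) (XT.nd (nat_lit 78) (nat_lit 0) (nat_lit 0) (XT.lf (nat_lit 0) (nat_lit 4050099222121) (nat_lit 380) (nat_lit 5750655479485) (nat_lit 380) (nat_lit 5750655479485) (nat_lit 29) (nat_lit 3) (nat_lit 34) (nat_lit 3) (nat_lit 34) (nat_lit 5) (nat_lit 404) (nat_lit 404) (nat_lit 212)) (XT.nd (nat_lit 78) (nat_lit 0) (nat_lit 76) (XT.lf (nat_lit 76) (nat_lit 4087335123851) (nat_lit 0) (nat_lit 4789626034986) (nat_lit 380) (nat_lit 24533183555818) (nat_lit 30) (nat_lit 5) (nat_lit 29) (nat_lit 3) (nat_lit 34) (nat_lit 5) (nat_lit 405) (nat_lit 404) (nat_lit 211)) (XT.lf (nat_lit 0) (nat_lit 10907071555217) (nat_lit 304) (nat_lit 13202146735093)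 (nat_lit 380) (nat_lit 11783824438499) (nat_lit 30) (nat_lit 5) (nat_lit 34) (nat_lit 5) (nat_lit 35) (nat_lit 5) (nat_lit 406) (nat_lit 404) (nat_lit 210))))))))
noncomputable def xc125 : XT := (XT.nd (nat_lit 55536) (nat_lit 1140) (nat_lit 0) (XT.nd (nat_lit 53040) (nat_lit 0) (nat_lit 0) (XT.nd (nat_lit 390) (nat_lit 380) (nat_lit 0) (XT.nd (nat_lit 156) (nat_lit 380) (nat_lit 0) (XT.nd (nat_lit 78) (nat_lit 0) (nat_lit 76) (XT.lf (nat_lit 76) (nat_lit 5607781616695) (nat_lit 0) (nat_lit 8094200602709) (nat_lit 380) (nat_lit 24977350669429) (nat_lit 31) (nat_lit 5) (nat_lit 30) (nat_lit 5) (nat_lit 35) (nat_lit 5) (nat_lit 407) (nat_lit 404) (nat_lit 209)) (XT.lf (nat_lit 0) (nat_lit 18066560489224) (nat_lit 304) (nat_lit 13517428045825) (nat_lit 76) (nat_lit 10127013386911) (nat_lit 31) (nat_lit 5) (nat_lit 35) (nat_lit 5) (nat_lit 32) (nat_lit 5) (nat_lit 408) (nat_lit 404) (nat_lit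 208))) (XT.nd (nat_lit 78) (nat_lit 152) (nat_lit 0) (XT.lf (nat_lit 0) (nat_lit 9423303150126) (nat_lit 304) (nat_lit 14438159361525) (nat_lit 380) (nat_lit 21219613246586) (nat_lit 27) (nat_lit 5) (nat_lit 31) (nat_lit 5) (nat_lit 32) (nat_lit 5) (nat_lit 409) (nat_lit 404) (nat_lit 207)) (XT.nd (nat_lit 78) (nat_lit 152) (nat_lit 0) (XT.lf (nat_lit 0) (nat_lit 31484454610878) (nat_lit 380) (nat_lit 11778615080029) (nat_lit 76) (nat_lit 5549762763032) (nat_lit 27) (nat_lit 5) (nat_lit 32) (nat_lit 5) (nat_lit 28) (nat_lit 5) (nat_lit 410) (nat_lit 404) (nat_lit 206)) (XT.lf (nat_lit 0) (nat_lit 16460293863636) (nat_lit 152) (nat_lit 25159718726745) (nat_lit 228) (nat_lit 11278972503806) (nat_lit 25) (nat_lit 5) (nat_lit 27) (nat_lit 5) (nat_lit 28) (nat_lit 5) (nat_lit 411) (nat_lit 404) (nat_lit 205))))) (XT.nd (nat_lit 234) (nat_lit 228) (nat_lit 0) (XT.nd (nat_lit 78) (nat_lit 152)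 (nat_lit 0) (XT.lf (nat_lit 0) (nat_lit 50258794866362) (nat_lit 152) (nat_lit 3632809734172) (nat_lit 228) (nat_lit 3614100979880) (nat_lit 25) (nat_lit 5) (nat_lit 27) (nat_lit 5) (nat_lit 28) (nat_lit 5) (nat_lit 412) (nat_lit 404) (nat_lit 204)) (XT.nd (nat_lit 78) (nat_lit 0) (nat_lit 0) (XT.lf (nat_lit 0) (nat_lit 6865687205673) (nat_lit 152) (nat_lit 34874763913673) (nat_lit 76) (nat_lit 20711456192331) (nat_lit 23) (nat_lit 5) (nat_lit 25) (nat_lit 5) (nat_lit 24) (nat_lit 5) (nat_lit 413) (nat_lit 404) (nat_lit 203)) (XT.lf (nat_lit 0) (nat_lit 19117274092797) (nat_lit 152) (nat_lit 7087198316) (nat_lit 76) (nat_lit 48904386168408) (nat_lit 23) (nat_lit 5) (nat_lit 25) (nat_lit 5) (nat_lit 24) (nat_lit 5) (nat_lit 414) (nat_lit 404) (nat_lit 202)))) (XT.nd (nat_lit 78) (nat_lit 76) (nat_lit 0) (XT.lf (nat_lit 0) (nat_lit 35400739559129) (nat_lit 228) (nat_lit 30531901997696)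 (nat_lit 76) (nat_lit 8180350990796) (nat_lit 21) (nat_lit 5) (nat_lit 24) (nat_lit 5) (nat_lit 22) (nat_lit 4) (nat_lit 415) (nat_lit 404) (nat_lit 201)) (XT.nd (nat_lit 52260) (nat_lit 0) (nat_lit 684) (XT.lf (nat_lit 0) (nat_lit 12829985119863) (nat_lit 76) (nat_lit 42739074028831) (nat_lit 152) (nat_lit 25324465104749) (nat_lit 20) (nat_lit 5) (nat_lit 21) (nat_lit 5) (nat_lit 22) (nat_lit 4) (nat_lit 416) (nat_lit 404) (nat_lit 200)) (XT.lf (nat_lit 0) (nat_lit 4657614105498) (nat_lit 380) (nat_lit 6613253801373) (nat_lit 380) (nat_lit 6613253801373) (nat_lit 29) (nat_lit 3) (nat_lit 34) (nat_lit 3) (nat_lit 34) (nat_lit 5) (nat_lit 405) (nat_lit 405) (nat_lit 210)))))) (XT.nd (nat_lit 468) (nat_lit 532) (nat_lit 0) (XT.nd (nat_lit 234) (nat_lit 152) (nat_lit 0) (XT.nd (nat_lit 78) (nat_lit 0) (nat_lit 76) (XT.lf (nat_lit 76) (nat_lit 4700435392494) (nat_lit 0) (nat_lit 5508069940275)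 (nat_lit 380) (nat_lit 28213161089068) (nat_lit 30) (nat_lit 5) (nat_lit 29) (nat_lit 3) (nat_lit 34) (nat_lit 5) (nat_lit 406) (nat_lit 405) (nat_lit 209)) (XT.nd (nat_lit 78) (nat_lit 0) (nat_lit 0) (XT.lf (nat_lit 0) (nat_lit 12543132288590) (nat_lit 304) (nat_lit 15182468745285) (nat_lit 380) (nat_lit 13551398104241) (nat_lit 30) (nat_lit 5) (nat_lit 34) (nat_lit 5) (nat_lit 35) (nat_lit 5) (nat_lit 407) (nat_lit 405) (nat_lit 208)) (XT.lf (nat_lit 76) (nat_lit 6448948859269) (nat_lit 0) (nat_lit 9308330693128) (nat_lit 380) (nat_lit 28723953269749) (nat_lit 31) (nat_lit 5) (nat_lit 30) (nat_lit 5) (nat_lit 35) (nat_lit 5) (nat_lit 408) (nat_lit 405) (nat_lit 207)))) (XT.nd (nat_lit 78) (nat_lit 304) (nat_lit 0) (XT.lf (nat_lit 0) (nat_lit 20776544562678) (nat_lit 304) (nat_lit 15545042252628) (nat_lit 76) (nat_lit 11646065394937) (nat_lit 31) (nat_lit 5) (nat_lit 35) (nat_lit 5)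 (nat_lit 32) (nat_lit 5) (nat_lit 409) (nat_lit 405) (nat_lit 206)) (XT.nd (nat_lit 78) (nat_lit 0) (nat_lit 0) (XT.lf (nat_lit 0) (nat_lit 10836798622713) (nat_lit 304) (nat_lit 16603883265750) (nat_lit 380) (nat_lit 24402555233499) (nat_lit 27) (nat_lit 5) (nat_lit 31) (nat_lit 5) (nat_lit 32) (nat_lit 5) (nat_lit 410) (nat_lit 405) (nat_lit 205)) (XT.lf (nat_lit 0) (nat_lit 36207122802566) (nat_lit 380) (nat_lit 13545407341966) (nat_lit 76) (nat_lit 6382227177489) (nat_lit 27) (nat_lit 5) (nat_lit 32) (nat_lit 5) (nat_lit 28) (nat_lit 5) (nat_lit 411) (nat_lit 405) (nat_lit 204))))) (XT.nd (nat_lit 234) (nat_lit 228) (nat_lit 0) (XT.nd (nat_lit 78) (nat_lit 152) (nat_lit 0) (XT.lf (nat_lit 0) (nat_lit 18929337943246) (nat_lit 152) (nat_lit 28933676535744) (nat_lit 228) (nat_lit 12970818379317) (nat_lit 25) (nat_lit 5) (nat_lit 27) (nat_lit 5) (nat_lit 28) (nat_lit 5) (nat_lit 412)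 (nat_lit 405) (nat_lit 203)) (XT.nd (nat_lit 78) (nat_lit 152) (nat_lit 0) (XT.lf (nat_lit 0) (nat_lit 57797614096373) (nat_lit 152) (nat_lit 4177731194286) (nat_lit 228) (nat_lit 4156216126811) (nat_lit 25) (nat_lit 5) (nat_lit 27) (nat_lit 5) (nat_lit 28) (nat_lit 5) (nat_lit 413) (nat_lit 405) (nat_lit 202)) (XT.lf (nat_lit 0) (nat_lit 7895540286567) (nat_lit 152) (nat_lit 40105978500660) (nat_lit 76) (nat_lit 23818174621194) (nat_lit 23) (nat_lit 5) (nat_lit 25) (nat_lit 5) (nat_lit 24) (nat_lit 5) (nat_lit 414) (nat_lit 405) (nat_lit 201)))) (XT.nd (nat_lit 78) (nat_lit 228) (nat_lit 0) (XT.lf (nat_lit 0) (nat_lit 21984865206755) (nat_lit 152) (nat_lit 8150278008) (nat_lit 76) (nat_lit 56240044093681) (nat_lit 23) (nat_lit 5) (nat_lit 25) (nat_lit 5) (nat_lit 24) (nat_lit 5) (nat_lit 415) (nat_lit 405) (nat_lit 200)) (XT.nd (nat_lit 78) (nat_lit 76) (nat_lit 0) (XT.lf (nat_lit 0)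 (nat_lit 40710850493034) (nat_lit 228) (nat_lit 35111687297293) (nat_lit 76) (nat_lit 9407403639432) (nat_lit 21) (nat_lit 5) (nat_lit 24) (nat_lit 5) (nat_lit 22) (nat_lit 4) (nat_lit 416) (nat_lit 405) (nat_lit 199)) (XT.lf (nat_lit 0) (nat_lit 14754482887897) (nat_lit 76) (nat_lit 49149935133135) (nat_lit 152) (nat_lit 29123134870423) (nat_lit 20) (nat_lit 5) (nat_lit 21) (nat_lit 5) (nat_lit 22) (nat_lit 4) (nat_lit 417) (nat_lit 405) (nat_lit 198))))))) (XT.nd (nat_lit 51324) (nat_lit 0) (nat_lit 0) (XT.nd (nat_lit 50856) (nat_lit 0) (nat_lit 1520) (XT.nd (nat_lit 50622) (nat_lit 0) (nat_lit 1824) (XT.nd (nat_lit 78) (nat_lit 0) (nat_lit 0) (XT.lf (nat_lit 0) (nat_lit 292615608462193) (nat_lit 152) (nat_lit 240937420306121) (nat_lit 0) (nat_lit 239594945244027) (nat_lit 5) (nat_lit 5) (nat_lit 7) (nat_lit 4) (nat_lit 5) (nat_lit 4) (nat_lit 438) (nat_lit 405) (nat_lit 177)) (XT.lf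 (nat_lit 0) (nat_lit 458738800551187) (nat_lit 152) (nat_lit 5123528365615) (nat_lit 0) (nat_lit 405718137333022) (nat_lit 5) (nat_lit 5) (nat_lit 7) (nat_lit 4) (nat_lit 5) (nat_lit 4) (nat_lit 439) (nat_lit 405) (nat_lit 176))) (XT.nd (nat_lit 78) (nat_lit 0) (nat_lit 0) (XT.lf (nat_lit 0) (nat_lit 5356256221369) (nat_lit 380) (nat_lit 7605241871554) (nat_lit 380) (nat_lit 7605241871554) (nat_lit 29) (nat_lit 3) (nat_lit 34) (nat_lit 3) (nat_lit 34) (nat_lit 5) (nat_lit 406) (nat_lit 406) (nat_lit 208)) (XT.nd (nat_lit 78) (nat_lit 0) (nat_lit 76) (XT.lf (nat_lit 76) (nat_lit 5405500701418) (nat_lit 0) (nat_lit 6334280431347) (nat_lit 380) (nat_lit 32445135252335) (nat_lit 30) (nat_lit 5) (nat_lit 29) (nat_lit 3) (nat_lit 34) (nat_lit 5) (nat_lit 407) (nat_lit 406) (nat_lit 207)) (XT.lf (nat_lit 0) (nat_lit 14424602131948) (nat_lit 304) (nat_lit 17459839057022) (nat_lit 380) (nat_lit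 15584107819853) (nat_lit 30) (nat_lit 5) (nat_lit 34) (nat_lit 5) (nat_lit 35) (nat_lit 5) (nat_lit 408) (nat_lit 406) (nat_lit 206))))) (XT.nd (nat_lit 234) (nat_lit 152) (nat_lit 0) (XT.nd (nat_lit 78) (nat_lit 228) (nat_lit 0) (XT.lf (nat_lit 76) (nat_lit 7416291188212) (nat_lit 0) (nat_lit 10704580297107) (nat_lit 380) (nat_lit 33032546260139) (nat_lit 31) (nat_lit 5) (nat_lit 30) (nat_lit 5) (nat_lit 35) (nat_lit 5) (nat_lit 409) (nat_lit 406) (nat_lit 205)) (XT.nd (nat_lit 78) (nat_lit 304) (nat_lit 0) (XT.lf (nat_lit 0) (nat_lit 23893026247134) (nat_lit 304) (nat_lit 17876798590467) (nat_lit 76) (nat_lit 13392975204171) (nat_lit 31) (nat_lit 5) (nat_lit 35) (nat_lit 5) (nat_lit 32) (nat_lit 5) (nat_lit 410) (nat_lit 406) (nat_lit 204)) (XT.lf (nat_lit 0) (nat_lit 12462318416172) (nat_lit 304) (nat_lit 19094465755610) (nat_lit 380) (nat_lit 28062938518468) (nat_lit 27) (nat_lit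 5) (nat_lit 31) (nat_lit 5) (nat_lit 32) (nat_lit 5) (nat_lit 411) (nat_lit 406) (nat_lit 203)))) (XT.nd (nat_lit 78) (nat_lit 152) (nat_lit 0) (XT.lf (nat_lit 0) (nat_lit 41638191222993) (nat_lit 380) (nat_lit 15577218443209) (nat_lit 76) (nat_lit 7339561254115) (nat_lit 27) (nat_lit 5) (nat_lit 32) (nat_lit 5) (nat_lit 28) (nat_lit 5) (nat_lit 412) (nat_lit 406) (nat_lit 202)) (XT.nd (nat_lit 78) (nat_lit 0) (nat_lit 0) (XT.lf (nat_lit 0) (nat_lit 21768738634783) (nat_lit 152) (nat_lit 33273728016096) (nat_lit 228) (nat_lit 14916441136170) (nat_lit 25) (nat_lit 5) (nat_lit 27) (nat_lit 5) (nat_lit 28) (nat_lit 5) (nat_lit 413) (nat_lit 406) (nat_lit 201)) (XT.lf (nat_lit 0) (nat_lit 66467256210871) (nat_lit 152) (nat_lit 4804390873421) (nat_lit 228) (nat_lit 4779648545793) (nat_lit 25) (nat_lit 5) (nat_lit 27) (nat_lit 5) (nat_lit 28) (nat_lit 5) (nat_lit 414) (nat_lit 406) (nat_lit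 200)))))) (XT.nd (nat_lit 52572) (nat_lit 0) (nat_lit 1672) (XT.nd (nat_lit 1794) (nat_lit 1216) (nat_lit 0) (XT.nd (nat_lit 78) (nat_lit 152) (nat_lit 0) (XT.lf (nat_lit 0) (nat_lit 9079871329586) (nat_lit 152) (nat_lit 46121875275710) (nat_lit 76) (nat_lit 27390900814384) (nat_lit 23) (nat_lit 5) (nat_lit 25) (nat_lit 5) (nat_lit 24) (nat_lit 5) (nat_lit 415) (nat_lit 406) (nat_lit 199)) (XT.nd (nat_lit 78) (nat_lit 152) (nat_lit 0) (XT.lf (nat_lit 0) (nat_lit 25282594987797) (nat_lit 152) (nat_lit 9372819666) (nat_lit 76) (nat_lit 64676050707743) (nat_lit 23) (nat_lit 5) (nat_lit 25) (nat_lit 5) (nat_lit 24) (nat_lit 5) (nat_lit 416) (nat_lit 406) (nat_lit 198)) (XT.lf (nat_lit 0) (nat_lit 46817478067017) (nat_lit 228) (nat_lit 40378440391844) (nat_lit 76) (nat_lit 10818514185359) (nat_lit 21) (nat_lit 5) (nat_lit 24) (nat_lit 5) (nat_lit 22) (nat_lit 4) (nat_lit 417) (nat_lit 406)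 (nat_lit 197)))) (XT.nd (nat_lit 78) (nat_lit 0) (nat_lit 0) (XT.lf (nat_lit 0) (nat_lit 170384757642533) (nat_lit 152) (nat_lit 512891925292534) (nat_lit 0) (nat_lit 109410994941641) (nat_lit 5) (nat_lit 5) (nat_lit 7) (nat_lit 4) (nat_lit 5) (nat_lit 4) (nat_lit 438) (nat_lit 406) (nat_lit 176)) (XT.nd (nat_lit 50622) (nat_lit 0) (nat_lit 1824) (XT.lf (nat_lit 0) (nat_lit 336507949731526) (nat_lit 152) (nat_lit 277078033352029) (nat_lit 0) (nat_lit 275534187030636) (nat_lit 5) (nat_lit 5) (nat_lit 7) (nat_lit 4) (nat_lit 5) (nat_lit 4) (nat_lit 439) (nat_lit 406) (nat_lit 175)) (XT.lf (nat_lit 0) (nat_lit 6159694654608) (nat_lit 380) (nat_lit 8746028152267) (nat_lit 380) (nat_lit 8746028152267) (nat_lit 29) (nat_lit 3) (nat_lit 34) (nat_lit 3) (nat_lit 34) (nat_lit 5) (nat_lit 407) (nat_lit 407) (nat_lit 206))))) (XT.nd (nat_lit 234) (nat_lit 152) (nat_lit 0) (XT.nd (nat_lit 78) (nat_lit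 0) (nat_lit 76) (XT.lf (nat_lit 76) (nat_lit 6216325806669) (nat_lit 0) (nat_lit 7284422496073) (nat_lit 380) (nat_lit 37311905540115) (nat_lit 30) (nat_lit 5) (nat_lit 29) (nat_lit 3) (nat_lit 34) (nat_lit 5) (nat_lit 408) (nat_lit 407) (nat_lit 205)) (XT.nd (nat_lit 78) (nat_lit 0) (nat_lit 0) (XT.lf (nat_lit 0) (nat_lit 16588292451793) (nat_lit 304) (nat_lit 20078814915534) (nat_lit 380) (nat_lit 17921723992812) (nat_lit 30) (nat_lit 5) (nat_lit 34) (nat_lit 5) (nat_lit 35) (nat_lit 5) (nat_lit 409) (nat_lit 407) (nat_lit 204)) (XT.lf (nat_lit 76) (nat_lit 8528734866483) (nat_lit 0) (nat_lit 12310267341681) (nat_lit 380) (nat_lit 37987428199106) (nat_lit 31) (nat_lit 5) (nat_lit 30) (nat_lit 5) (nat_lit 35) (nat_lit 5) (nat_lit 410) (nat_lit 407) (nat_lit 203)))) (XT.nd (nat_lit 78) (nat_lit 304) (nat_lit 0) (XT.lf (nat_lit 0) (nat_lit 27476980184245) (nat_lit 304) (nat_lit 20558318378997)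 (nat_lit 76) (nat_lit 15401921484790) (nat_lit 31) (nat_lit 5) (nat_lit 35) (nat_lit 5) (nat_lit 32) (nat_lit 5) (nat_lit 411) (nat_lit 407) (nat_lit 202)) (XT.nd (nat_lit 78) (nat_lit 0) (nat_lit 0) (XT.lf (nat_lit 0) (nat_lit 14331666178637) (nat_lit 304) (nat_lit 21958635618949) (nat_lit 380) (nat_lit 32272379296196) (nat_lit 27) (nat_lit 5) (nat_lit 31) (nat_lit 5) (nat_lit 32) (nat_lit 5) (nat_lit 412) (nat_lit 407) (nat_lit 201)) (XT.lf (nat_lit 0) (nat_lit 47883919906475) (nat_lit 380) (nat_lit 17913801209652) (nat_lit 76) (nat_lit 8440495442234) (nat_lit 27) (nat_lit 5) (nat_lit 32) (nat_lit 5) (nat_lit 28) (nat_lit 5) (nat_lit 413) (nat_lit 407) (nat_lit 200))))))))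
noncomputable def xc126 : XT := (XT.nd (nat_lit 106236) (nat_lit 0) (nat_lit 1368) (XT.nd (nat_lit 52962) (nat_lit 0) (nat_lit 1368) (XT.nd (nat_lit 1872) (nat_lit 1216) (nat_lit 0) (XT.nd (nat_lit 156) (nat_lit 304) (nat_lit 0) (XT.nd (nat_lit 78) (nat_lit 0) (nat_lit 0) (XT.lf (nat_lit 0) (nat_lit 25034049430036) (nat_lit 152) (nat_lit 38264787218503) (nat_lit 228) (nat_lit 17153907306561) (nat_lit 25) (nat_lit 5) (nat_lit 27) (nat_lit 5) (nat_lit 28) (nat_lit 5) (nat_lit 414) (nat_lit 407) (nat_lit 199)) (XT.lf (nat_lit 0) (nat_lit 76437344642534) (nat_lit 152) (nat_lit 5525049504428) (nat_lit 228) (nat_lit 5496595827633) (nat_lit 25) (nat_lit 5) (nat_lit 27) (nat_lit 5) (nat_lit 28) (nat_lit 5) (nat_lit 415) (nat_lit 407) (nat_lit 198))) (XT.nd (nat_lit 78) (nat_lit 152) (nat_lit 0) (XT.lf (nat_lit 0) (nat_lit 10441852029049) (nat_lit 152) (nat_lit 53040156567031) (nat_lit 76) (nat_lit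 31499535936550) (nat_lit 23) (nat_lit 5) (nat_lit 25) (nat_lit 5) (nat_lit 24) (nat_lit 5) (nat_lit 416) (nat_lit 407) (nat_lit 197)) (XT.nd (nat_lit 78) (nat_lit 152) (nat_lit 0) (XT.lf (nat_lit 0) (nat_lit 29074984235989) (nat_lit 152) (nat_lit 10778742585) (nat_lit 76) (nat_lit 74377458313911) (nat_lit 23) (nat_lit 5) (nat_lit 25) (nat_lit 5) (nat_lit 24) (nat_lit 5) (nat_lit 417) (nat_lit 407) (nat_lit 196)) (XT.lf (nat_lit 0) (nat_lit 53840099777090) (nat_lit 228) (nat_lit 46435206450587) (nat_lit 76) (nat_lit 12441291313172) (nat_lit 21) (nat_lit 5) (nat_lit 24) (nat_lit 5) (nat_lit 22) (nat_lit 4) (nat_lit 418) (nat_lit 407) (nat_lit 195))))) (XT.nd (nat_lit 50856) (nat_lit 0) (nat_lit 1824) (XT.nd (nat_lit 78) (nat_lit 76) (nat_lit 0) (XT.lf (nat_lit 0) (nat_lit 32172359895498) (nat_lit 152) (nat_lit 11467227396605) (nat_lit 76) (nat_lit 771165787924291) (nat_lit 6) (nat_lit 5)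 (nat_lit 8) (nat_lit 5) (nat_lit 7) (nat_lit 4) (nat_lit 438) (nat_lit 407) (nat_lit 175)) (XT.nd (nat_lit 50700) (nat_lit 0) (nat_lit 1824) (XT.lf (nat_lit 0) (nat_lit 195942471288913) (nat_lit 152) (nat_lit 589825714086410) (nat_lit 0) (nat_lit 125822644182891) (nat_lit 5) (nat_lit 5) (nat_lit 7) (nat_lit 4) (nat_lit 5) (nat_lit 4) (nat_lit 439) (nat_lit 407) (nat_lit 174)) (XT.lf (nat_lit 0) (nat_lit 7083648852825) (nat_lit 380) (nat_lit 10057932375092) (nat_lit 380) (nat_lit 10057932375092) (nat_lit 29) (nat_lit 3) (nat_lit 34) (nat_lit 3) (nat_lit 34) (nat_lit 5) (nat_lit 408) (nat_lit 408) (nat_lit 204)))) (XT.nd (nat_lit 78) (nat_lit 0) (nat_lit 76) (XT.lf (nat_lit 76) (nat_lit 7148774677697) (nat_lit 0) (nat_lit 8377085870502) (nat_lit 380) (nat_lit 42908691371079) (nat_lit 30) (nat_lit 5) (nat_lit 29) (nat_lit 3) (nat_lit 34) (nat_lit 5) (nat_lit 409) (nat_lit 408) (nat_lit 203))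 (XT.nd (nat_lit 78) (nat_lit 0) (nat_lit 0) (XT.lf (nat_lit 0) (nat_lit 19076536319601) (nat_lit 304) (nat_lit 23090637152833) (nat_lit 380) (nat_lit 20609982591720) (nat_lit 30) (nat_lit 5) (nat_lit 34) (nat_lit 5) (nat_lit 35) (nat_lit 5) (nat_lit 410) (nat_lit 408) (nat_lit 202)) (XT.lf (nat_lit 76) (nat_lit 9808045096485) (nat_lit 0) (nat_lit 14156807442939) (nat_lit 380) (nat_lit 43685542428931) (nat_lit 31) (nat_lit 5) (nat_lit 30) (nat_lit 5) (nat_lit 35) (nat_lit 5) (nat_lit 411) (nat_lit 408) (nat_lit 201)))))) (XT.nd (nat_lit 468) (nat_lit 0) (nat_lit 0) (XT.nd (nat_lit 234) (nat_lit 304) (nat_lit 0) (XT.nd (nat_lit 78) (nat_lit 304) (nat_lit 0) (XT.lf (nat_lit 0) (nat_lit 31598527211912) (nat_lit 304) (nat_lit 23642066135816) (nat_lit 76) (nat_lit 17712209707504) (nat_lit 31) (nat_lit 5) (nat_lit 35) (nat_lit 5) (nat_lit 32) (nat_lit 5) (nat_lit 412) (nat_lit 408) (nat_lit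 200)) (XT.nd (nat_lit 78) (nat_lit 0) (nat_lit 0) (XT.lf (nat_lit 0) (nat_lit 16481416105462) (nat_lit 304) (nat_lit 25252430961790) (nat_lit 380) (nat_lit 37113236190593) (nat_lit 27) (nat_lit 5) (nat_lit 31) (nat_lit 5) (nat_lit 32) (nat_lit 5) (nat_lit 413) (nat_lit 408) (nat_lit 199)) (XT.lf (nat_lit 0) (nat_lit 55066507892470) (nat_lit 380) (nat_lit 20600871391071) (nat_lit 76) (nat_lit 9706569758570) (nat_lit 27) (nat_lit 5) (nat_lit 32) (nat_lit 5) (nat_lit 28) (nat_lit 5) (nat_lit 414) (nat_lit 408) (nat_lit 198)))) (XT.nd (nat_lit 78) (nat_lit 152) (nat_lit 0) (XT.lf (nat_lit 0) (nat_lit 28789156844570) (nat_lit 152) (nat_lit 44004505301273) (nat_lit 228) (nat_lit 19726993402520) (nat_lit 25) (nat_lit 5) (nat_lit 27) (nat_lit 5) (nat_lit 28) (nat_lit 5) (nat_lit 415) (nat_lit 408) (nat_lit 197)) (XT.nd (nat_lit 78) (nat_lit 152) (nat_lit 0) (XT.lf (nat_lit 0) (nat_lit 87902946338939)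 (nat_lit 152) (nat_lit 6353806930087) (nat_lit 228) (nat_lit 6321085201755) (nat_lit 25) (nat_lit 5) (nat_lit 27) (nat_lit 5) (nat_lit 28) (nat_lit 5) (nat_lit 416) (nat_lit 408) (nat_lit 196)) (XT.lf (nat_lit 0) (nat_lit 12008129833425) (nat_lit 152) (nat_lit 60996180052058) (nat_lit 76) (nat_lit 36224466327037) (nat_lit 23) (nat_lit 5) (nat_lit 25) (nat_lit 5) (nat_lit 24) (nat_lit 5) (nat_lit 417) (nat_lit 408) (nat_lit 195))))) (XT.nd (nat_lit 52572) (nat_lit 0) (nat_lit 532) (XT.nd (nat_lit 52416) (nat_lit 0) (nat_lit 456) (XT.lf (nat_lit 0) (nat_lit 33436231871404) (nat_lit 152) (nat_lit 12395553949) (nat_lit 76) (nat_lit 85534077061002) (nat_lit 23) (nat_lit 5) (nat_lit 25) (nat_lit 5) (nat_lit 24) (nat_lit 5) (nat_lit 418) (nat_lit 408) (nat_lit 194)) (XT.nd (nat_lit 78) (nat_lit 0) (nat_lit 0) (XT.lf (nat_lit 0) (nat_lit 8146196180769) (nat_lit 380) (nat_lit 11566622231345) (nat_lit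 380) (nat_lit 11566622231345) (nat_lit 29) (nat_lit 3) (nat_lit 34) (nat_lit 3) (nat_lit 34) (nat_lit 5) (nat_lit 409) (nat_lit 409) (nat_lit 202)) (XT.lf (nat_lit 76) (nat_lit 8221090879373) (nat_lit 0) (nat_lit 9633648751091) (nat_lit 380) (nat_lit 49344995076701) (nat_lit 30) (nat_lit 5) (nat_lit 29) (nat_lit 3) (nat_lit 34) (nat_lit 5) (nat_lit 410) (nat_lit 409) (nat_lit 201)))) (XT.nd (nat_lit 78) (nat_lit 0) (nat_lit 0) (XT.lf (nat_lit 0) (nat_lit 21938016767571) (nat_lit 304) (nat_lit 26554232725735) (nat_lit 380) (nat_lit 23701479980467) (nat_lit 30) (nat_lit 5) (nat_lit 34) (nat_lit 5) (nat_lit 35) (nat_lit 5) (nat_lit 411) (nat_lit 409) (nat_lit 200)) (XT.nd (nat_lit 78) (nat_lit 0) (nat_lit 76) (XT.lf (nat_lit 76) (nat_lit 11279251860981) (nat_lit 0) (nat_lit 16280328559383) (nat_lit 380) (nat_lit 50238373793240) (nat_lit 31) (nat_lit 5) (nat_lit 30) (nat_lit 5) (nat_lit 35)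 (nat_lit 5) (nat_lit 412) (nat_lit 409) (nat_lit 199)) (XT.lf (nat_lit 0) (nat_lit 36338306293723) (nat_lit 304) (nat_lit 27188376056164) (nat_lit 76) (nat_lit 20369041163627) (nat_lit 31) (nat_lit 5) (nat_lit 35) (nat_lit 5) (nat_lit 32) (nat_lit 5) (nat_lit 413) (nat_lit 409) (nat_lit 198))))))) (XT.nd (nat_lit 53274) (nat_lit 0) (nat_lit 152) (XT.nd (nat_lit 52806) (nat_lit 0) (nat_lit 304) (XT.nd (nat_lit 156) (nat_lit 304) (nat_lit 0) (XT.nd (nat_lit 78) (nat_lit 0) (nat_lit 0) (XT.lf (nat_lit 0) (nat_lit 18953628521303) (nat_lit 304) (nat_lit 29040295606057) (nat_lit 380) (nat_lit 42680221619157) (nat_lit 27) (nat_lit 5) (nat_lit 31) (nat_lit 5) (nat_lit 32) (nat_lit 5) (nat_lit 414) (nat_lit 409) (nat_lit 197)) (XT.lf (nat_lit 0) (nat_lit 63326484076359) (nat_lit 380) (nat_lit 23691002099709) (nat_lit 76) (nat_lit 11162555222357) (nat_lit 27) (nat_lit 5) (nat_lit 32) (nat_lit 5)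 (nat_lit 28) (nat_lit 5) (nat_lit 415) (nat_lit 409) (nat_lit 196))) (XT.nd (nat_lit 78) (nat_lit 152) (nat_lit 0) (XT.lf (nat_lit 0) (nat_lit 33107530371277) (nat_lit 152) (nat_lit 50605181096459) (nat_lit 228) (nat_lit 22686042412878) (nat_lit 25) (nat_lit 5) (nat_lit 27) (nat_lit 5) (nat_lit 28) (nat_lit 5) (nat_lit 416) (nat_lit 409) (nat_lit 195)) (XT.nd (nat_lit 78) (nat_lit 152) (nat_lit 0) (XT.lf (nat_lit 0) (nat_lit 101088388289798) (nat_lit 152) (nat_lit 7306877969596) (nat_lit 228) (nat_lit 7269247982002) (nat_lit 25) (nat_lit 5) (nat_lit 27) (nat_lit 5) (nat_lit 28) (nat_lit 5) (nat_lit 417) (nat_lit 409) (nat_lit 194)) (XT.lf (nat_lit 0) (nat_lit 13809349308454) (nat_lit 152) (nat_lit 70145607059845) (nat_lit 76) (nat_lit 41658136276098) (nat_lit 23) (nat_lit 5) (nat_lit 25) (nat_lit 5) (nat_lit 24) (nat_lit 5) (nat_lit 418) (nat_lit 409) (nat_lit 193))))) (XT.nd (nat_lit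 234) (nat_lit 152) (nat_lit 0) (XT.nd (nat_lit 78) (nat_lit 0) (nat_lit 0) (XT.lf (nat_lit 0) (nat_lit 9368125607899) (nat_lit 380) (nat_lit 13301615566038) (nat_lit 380) (nat_lit 13301615566038) (nat_lit 29) (nat_lit 3) (nat_lit 34) (nat_lit 3) (nat_lit 34) (nat_lit 5) (nat_lit 410) (nat_lit 410) (nat_lit 200)) (XT.nd (nat_lit 78) (nat_lit 0) (nat_lit 76) (XT.lf (nat_lit 76) (nat_lit 9454254511295) (nat_lit 0) (nat_lit 11078696063765) (nat_lit 380) (nat_lit 56746744338176) (nat_lit 30) (nat_lit 5) (nat_lit 29) (nat_lit 3) (nat_lit 34) (nat_lit 5) (nat_lit 411) (nat_lit 410) (nat_lit 199)) (XT.lf (nat_lit 0) (nat_lit 25228719282729) (nat_lit 304) (nat_lit 30537367634577) (nat_lit 380) (nat_lit 27256701977530) (nat_lit 30) (nat_lit 5) (nat_lit 34) (nat_lit 5) (nat_lit 35) (nat_lit 5) (nat_lit 412) (nat_lit 410) (nat_lit 198)))) (XT.nd (nat_lit 78) (nat_lit 228) (nat_lit 0) (XT.lf (nat_lit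 76) (nat_lit 12971139640146) (nat_lit 0) (nat_lit 18722377843294) (nat_lit 380) (nat_lit 57774129862203) (nat_lit 31) (nat_lit 5) (nat_lit 30) (nat_lit 5) (nat_lit 35) (nat_lit 5) (nat_lit 413) (nat_lit 410) (nat_lit 197)) (XT.nd (nat_lit 78) (nat_lit 304) (nat_lit 0) (XT.lf (nat_lit 0) (nat_lit 41789052237798) (nat_lit 304) (nat_lit 31266632464572) (nat_lit 76) (nat_lit 23424397338168) (nat_lit 31) (nat_lit 5) (nat_lit 35) (nat_lit 5) (nat_lit 32) (nat_lit 5) (nat_lit 414) (nat_lit 410) (nat_lit 196)) (XT.lf (nat_lit 0) (nat_lit 21796672799516) (nat_lit 304) (nat_lit 33396339946965) (nat_lit 380) (nat_lit 49082254862013) (nat_lit 27) (nat_lit 5) (nat_lit 31) (nat_lit 5) (nat_lit 32) (nat_lit 5) (nat_lit 415) (nat_lit 410) (nat_lit 195)))))) (XT.nd (nat_lit 52962) (nat_lit 0) (nat_lit 0) (XT.nd (nat_lit 52728) (nat_lit 0) (nat_lit 304) (XT.nd (nat_lit 78) (nat_lit 152) (nat_lit 0) (XT.lf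 (nat_lit 0) (nat_lit 72825456687827) (nat_lit 380) (nat_lit 27244652414649) (nat_lit 76) (nat_lit 12836938505711) (nat_lit 27) (nat_lit 5) (nat_lit 32) (nat_lit 5) (nat_lit 28) (nat_lit 5) (nat_lit 416) (nat_lit 410) (nat_lit 194)) (XT.nd (nat_lit 78) (nat_lit 0) (nat_lit 0) (XT.lf (nat_lit 0) (nat_lit 38073659926984) (nat_lit 152) (nat_lit 58195958260925) (nat_lit 228) (nat_lit 26088948774796) (nat_lit 25) (nat_lit 5) (nat_lit 27) (nat_lit 5) (nat_lit 28) (nat_lit 5) (nat_lit 417) (nat_lit 410) (nat_lit 193)) (XT.lf (nat_lit 0) (nat_lit 116251646533282) (nat_lit 152) (nat_lit 8402909665033) (nat_lit 228) (nat_lit 8359635179289) (nat_lit 25) (nat_lit 5) (nat_lit 27) (nat_lit 5) (nat_lit 28) (nat_lit 5) (nat_lit 418) (nat_lit 410) (nat_lit 192)))) (XT.nd (nat_lit 78) (nat_lit 0) (nat_lit 0) (XT.lf (nat_lit 0) (nat_lit 10773344449095) (nat_lit 380) (nat_lit 15296857900937) (nat_lit 380)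 (nat_lit 15296857900937) (nat_lit 29) (nat_lit 3) (nat_lit 34) (nat_lit 3) (nat_lit 34) (nat_lit 5) (nat_lit 411) (nat_lit 411) (nat_lit 198)) (XT.nd (nat_lit 78) (nat_lit 0) (nat_lit 76) (XT.lf (nat_lit 76) (nat_lit 10872392688002) (nat_lit 0) (nat_lit 12740500473337) (nat_lit 380) (nat_lit 65258755988880) (nat_lit 30) (nat_lit 5) (nat_lit 29) (nat_lit 3) (nat_lit 34) (nat_lit 5) (nat_lit 412) (nat_lit 411) (nat_lit 197)) (XT.lf (nat_lit 0) (nat_lit 29013027175156) (nat_lit 304) (nat_lit 35117972779749) (nat_lit 380) (nat_lit 31345207274154) (nat_lit 30) (nat_lit 5) (nat_lit 34) (nat_lit 5) (nat_lit 35) (nat_lit 5) (nat_lit 413) (nat_lit 411) (nat_lit 196))))) (XT.nd (nat_lit 234) (nat_lit 152) (nat_lit 0) (XT.nd (nat_lit 78) (nat_lit 228) (nat_lit 0) (XT.lf (nat_lit 76) (nat_lit 14916810586181) (nat_lit 0) (nat_lit 21530734519791) (nat_lit 380) (nat_lit 66440249341515) (nat_lit 31)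 (nat_lit 5) (nat_lit 30) (nat_lit 5) (nat_lit 35) (nat_lit 5) (nat_lit 414) (nat_lit 411) (nat_lit 195)) (XT.nd (nat_lit 78) (nat_lit 304) (nat_lit 0) (XT.lf (nat_lit 0) (nat_lit 48057410073482) (nat_lit 304) (nat_lit 35956627334244) (nat_lit 76) (nat_lit 26938056938892) (nat_lit 31) (nat_lit 5) (nat_lit 35) (nat_lit 5) (nat_lit 32) (nat_lit 5) (nat_lit 415) (nat_lit 411) (nat_lit 194)) (XT.lf (nat_lit 0) (nat_lit 25066173719457) (nat_lit 304) (nat_lit 38405790939008) (nat_lit 380) (nat_lit 56444593091301) (nat_lit 27) (nat_lit 5) (nat_lit 31) (nat_lit 5) (nat_lit 32) (nat_lit 5) (nat_lit 416) (nat_lit 411) (nat_lit 193)))) (XT.nd (nat_lit 78) (nat_lit 152) (nat_lit 0) (XT.lf (nat_lit 0) (nat_lit 83749275191012) (nat_lit 380) (nat_lit 31331350276834) (nat_lit 76) (nat_lit 14762479281569) (nat_lit 27) (nat_lit 5) (nat_lit 32) (nat_lit 5) (nat_lit 28) (nat_lit 5) (nat_lit 417) (nat_lit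 411) (nat_lit 192)) (XT.nd (nat_lit 52650) (nat_lit 0) (nat_lit 304) (XT.lf (nat_lit 0) (nat_lit 43784708916045) (nat_lit 152) (nat_lit 66925352000061) (nat_lit 228) (nat_lit 30002291091004) (nat_lit 25) (nat_lit 5) (nat_lit 27) (nat_lit 5) (nat_lit 28) (nat_lit 5) (nat_lit 418) (nat_lit 411) (nat_lit 191)) (XT.lf (nat_lit 0) (nat_lit 12389346116467) (nat_lit 380) (nat_lit 17591386586073) (nat_lit 380) (nat_lit 17591386586073) (nat_lit 29) (nat_lit 3) (nat_lit 34) (nat_lit 3) (nat_lit 34) (nat_lit 5) (nat_lit 412) (nat_lit 412) (nat_lit 196))))))))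
noncomputable def xc127 : XT := (XT.nd (nat_lit 212706) (nat_lit 1672) (nat_lit 0) (XT.nd (nat_lit 53508) (nat_lit 0) (nat_lit 0) (XT.nd (nat_lit 390) (nat_lit 0) (nat_lit 0) (XT.nd (nat_lit 156) (nat_lit 152) (nat_lit 0) (XT.nd (nat_lit 78) (nat_lit 0) (nat_lit 76) (XT.lf (nat_lit 76) (nat_lit 12503251591212) (nat_lit 0) (nat_lit 14651575544343) (nat_lit 380) (nat_lit 75047569387195) (nat_lit 30) (nat_lit 5) (nat_lit 29) (nat_lit 3) (nat_lit 34) (nat_lit 5) (nat_lit 413) (nat_lit 412) (nat_lit 195)) (XT.lf (nat_lit 0) (nat_lit 33364981251442) (nat_lit 304) (nat_lit 40385668696702) (nat_lit 380) (nat_lit 36046988365272) (nat_lit 30) (nat_lit 5) (nat_lit 34) (nat_lit 5) (nat_lit 35) (nat_lit 5) (nat_lit 414) (nat_lit 412) (nat_lit 194))) (XT.nd (nat_lit 78) (nat_lit 228) (nat_lit 0) (XT.lf (nat_lit 76) (nat_lit 17154332174118) (nat_lit 0) (nat_lit 24760344697761) (nat_lit 380) (nat_lit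 76406286742729) (nat_lit 31) (nat_lit 5) (nat_lit 30) (nat_lit 5) (nat_lit 35) (nat_lit 5) (nat_lit 415) (nat_lit 412) (nat_lit 193)) (XT.nd (nat_lit 78) (nat_lit 304) (nat_lit 0) (XT.lf (nat_lit 0) (nat_lit 55266021584514) (nat_lit 304) (nat_lit 41350121434370) (nat_lit 76) (nat_lit 30978765479724) (nat_lit 31) (nat_lit 5) (nat_lit 35) (nat_lit 5) (nat_lit 32) (nat_lit 5) (nat_lit 416) (nat_lit 412) (nat_lit 192)) (XT.lf (nat_lit 0) (nat_lit 28826099777384) (nat_lit 304) (nat_lit 44166659579860) (nat_lit 380) (nat_lit 64911282054985) (nat_lit 27) (nat_lit 5) (nat_lit 31) (nat_lit 5) (nat_lit 32) (nat_lit 5) (nat_lit 417) (nat_lit 412) (nat_lit 191))))) (XT.nd (nat_lit 52884) (nat_lit 0) (nat_lit 228) (XT.nd (nat_lit 52728) (nat_lit 0) (nat_lit 152) (XT.lf (nat_lit 0) (nat_lit 96311666469672) (nat_lit 380) (nat_lit 36031052818349) (nat_lit 76) (nat_lit 16976851173804) (nat_lit 27) (nat_lit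 5) (nat_lit 32) (nat_lit 5) (nat_lit 28) (nat_lit 5) (nat_lit 418) (nat_lit 412) (nat_lit 190)) (XT.nd (nat_lit 78) (nat_lit 0) (nat_lit 0) (XT.lf (nat_lit 0) (nat_lit 14247748033944) (nat_lit 380) (nat_lit 20230094573981) (nat_lit 380) (nat_lit 20230094573981) (nat_lit 29) (nat_lit 3) (nat_lit 34) (nat_lit 3) (nat_lit 34) (nat_lit 5) (nat_lit 413) (nat_lit 413) (nat_lit 194)) (XT.lf (nat_lit 76) (nat_lit 14378739329900) (nat_lit 0) (nat_lit 16849311876000) (nat_lit 380) (nat_lit 86304704795261) (nat_lit 30) (nat_lit 5) (nat_lit 29) (nat_lit 3) (nat_lit 34) (nat_lit 5) (nat_lit 414) (nat_lit 413) (nat_lit 193)))) (XT.nd (nat_lit 78) (nat_lit 0) (nat_lit 0) (XT.lf (nat_lit 0) (nat_lit 38369728439168) (nat_lit 304) (nat_lit 46443519001200) (nat_lit 380) (nat_lit 41454036620059) (nat_lit 30) (nat_lit 5) (nat_lit 34) (nat_lit 5) (nat_lit 35) (nat_lit 5) (nat_lit 415) (nat_lit 413) (nat_lit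 192)) (XT.nd (nat_lit 78) (nat_lit 0) (nat_lit 76) (XT.lf (nat_lit 76) (nat_lit 19727482000243) (nat_lit 0) (nat_lit 28474396402427) (nat_lit 380) (nat_lit 87867229754129) (nat_lit 31) (nat_lit 5) (nat_lit 30) (nat_lit 5) (nat_lit 35) (nat_lit 5) (nat_lit 416) (nat_lit 413) (nat_lit 191)) (XT.lf (nat_lit 0) (nat_lit 63555924822199) (nat_lit 304) (nat_lit 47552639649519) (nat_lit 76) (nat_lit 35625580301681) (nat_lit 31) (nat_lit 5) (nat_lit 35) (nat_lit 5) (nat_lit 32) (nat_lit 5) (nat_lit 417) (nat_lit 413) (nat_lit 190)))))) (XT.nd (nat_lit 53118) (nat_lit 0) (nat_lit 0) (XT.nd (nat_lit 52884) (nat_lit 0) (nat_lit 152) (XT.nd (nat_lit 78) (nat_lit 0) (nat_lit 0) (XT.lf (nat_lit 0) (nat_lit 33150014743999) (nat_lit 304) (nat_lit 50791658516838) (nat_lit 380) (nat_lit 74647974363225) (nat_lit 27) (nat_lit 5) (nat_lit 31) (nat_lit 5) (nat_lit 32) (nat_lit 5) (nat_lit 418) (nat_lit 413)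 (nat_lit 189)) (XT.nd (nat_lit 52728) (nat_lit 0) (nat_lit 152) (XT.lf (nat_lit 0) (nat_lit 110758416440129) (nat_lit 380) (nat_lit 41435710741094) (nat_lit 76) (nat_lit 19523378849875) (nat_lit 27) (nat_lit 5) (nat_lit 32) (nat_lit 5) (nat_lit 28) (nat_lit 5) (nat_lit 419) (nat_lit 413) (nat_lit 188)) (XT.lf (nat_lit 0) (nat_lit 16384910239040) (nat_lit 380) (nat_lit 23264608760075) (nat_lit 380) (nat_lit 23264608760075) (nat_lit 29) (nat_lit 3) (nat_lit 34) (nat_lit 3) (nat_lit 34) (nat_lit 5) (nat_lit 414) (nat_lit 414) (nat_lit 192)))) (XT.nd (nat_lit 78) (nat_lit 0) (nat_lit 76) (XT.lf (nat_lit 76) (nat_lit 16535550229391) (nat_lit 0) (nat_lit 19376708657402) (nat_lit 380) (nat_lit 99250410514540) (nat_lit 30) (nat_lit 5) (nat_lit 29) (nat_lit 3) (nat_lit 34) (nat_lit 5) (nat_lit 415) (nat_lit 414) (nat_lit 191)) (XT.nd (nat_lit 78) (nat_lit 0) (nat_lit 0) (XT.lf (nat_lit 0) (nat_lit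 44125187705051) (nat_lit 304) (nat_lit 53410046851373) (nat_lit 380) (nat_lit 47672142113066) (nat_lit 30) (nat_lit 5) (nat_lit 34) (nat_lit 5) (nat_lit 35) (nat_lit 5) (nat_lit 416) (nat_lit 414) (nat_lit 190)) (XT.lf (nat_lit 76) (nat_lit 22686604300285) (nat_lit 0) (nat_lit 32745555862792) (nat_lit 380) (nat_lit 101047314217241) (nat_lit 31) (nat_lit 5) (nat_lit 30) (nat_lit 5) (nat_lit 35) (nat_lit 5) (nat_lit 417) (nat_lit 414) (nat_lit 189))))) (XT.nd (nat_lit 52962) (nat_lit 0) (nat_lit 152) (XT.nd (nat_lit 78) (nat_lit 304) (nat_lit 0) (XT.lf (nat_lit 0) (nat_lit 73089313545534) (nat_lit 304) (nat_lit 54685535596940) (nat_lit 76) (nat_lit 40969417346934) (nat_lit 31) (nat_lit 5) (nat_lit 35) (nat_lit 5) (nat_lit 32) (nat_lit 5) (nat_lit 418) (nat_lit 414) (nat_lit 188)) (XT.nd (nat_lit 52806) (nat_lit 0) (nat_lit 152) (XT.lf (nat_lit 0) (nat_lit 38122516955606) (nat_lit 304) (nat_lit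 58410407294363) (nat_lit 380) (nat_lit 85845170517703) (nat_lit 27) (nat_lit 5) (nat_lit 31) (nat_lit 5) (nat_lit 32) (nat_lit 5) (nat_lit 419) (nat_lit 414) (nat_lit 187)) (XT.lf (nat_lit 0) (nat_lit 18842646774900) (nat_lit 380) (nat_lit 26754300074084) (nat_lit 380) (nat_lit 26754300074084) (nat_lit 29) (nat_lit 3) (nat_lit 34) (nat_lit 3) (nat_lit 34) (nat_lit 5) (nat_lit 415) (nat_lit 415) (nat_lit 190)))) (XT.nd (nat_lit 78) (nat_lit 0) (nat_lit 76) (XT.lf (nat_lit 76) (nat_lit 19015882763804) (nat_lit 0) (nat_lit 22283214956015) (nat_lit 380) (nat_lit 114137972091714) (nat_lit 30) (nat_lit 5) (nat_lit 29) (nat_lit 3) (nat_lit 34) (nat_lit 5) (nat_lit 416) (nat_lit 415) (nat_lit 189)) (XT.nd (nat_lit 78) (nat_lit 0) (nat_lit 0) (XT.lf (nat_lit 0) (nat_lit 50743965860814) (nat_lit 304) (nat_lit 61421553879076) (nat_lit 380) (nat_lit 54822963430023) (nat_lit 30) (nat_lit 5) (nat_lit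 34) (nat_lit 5) (nat_lit 35) (nat_lit 5) (nat_lit 417) (nat_lit 415) (nat_lit 188)) (XT.lf (nat_lit 76) (nat_lit 26089594945332) (nat_lit 0) (nat_lit 37657389242212) (nat_lit 380) (nat_lit 116204411349821) (nat_lit 31) (nat_lit 5) (nat_lit 30) (nat_lit 5) (nat_lit 35) (nat_lit 5) (nat_lit 418) (nat_lit 415) (nat_lit 187))))))) (XT.nd (nat_lit 159666) (nat_lit 0) (nat_lit 1824) (XT.nd (nat_lit 53352) (nat_lit 1824) (nat_lit 0) (XT.nd (nat_lit 156) (nat_lit 0) (nat_lit 0) (XT.nd (nat_lit 78) (nat_lit 0) (nat_lit 0) (XT.lf (nat_lit 0) (nat_lit 21669043791138) (nat_lit 380) (nat_lit 30767445085196) (nat_lit 380) (nat_lit 30767445085196) (nat_lit 29) (nat_lit 3) (nat_lit 34) (nat_lit 3) (nat_lit 34) (nat_lit 5) (nat_lit 416) (nat_lit 416) (nat_lit 188)) (XT.lf (nat_lit 76) (nat_lit 21868265178377) (nat_lit 0) (nat_lit 25625697199421) (nat_lit 380) (nat_lit 131258667905465) (nat_lit 30) (nat_lit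 5) (nat_lit 29) (nat_lit 3) (nat_lit 34) (nat_lit 5) (nat_lit 417) (nat_lit 416) (nat_lit 187))) (XT.nd (nat_lit 53040) (nat_lit 76) (nat_lit 0) (XT.lf (nat_lit 0) (nat_lit 58355560739941) (nat_lit 304) (nat_lit 70634786960934) (nat_lit 380) (nat_lit 63046407944525) (nat_lit 30) (nat_lit 5) (nat_lit 34) (nat_lit 5) (nat_lit 35) (nat_lit 5) (nat_lit 418) (nat_lit 416) (nat_lit 186)) (XT.nd (nat_lit 78) (nat_lit 0) (nat_lit 0) (XT.lf (nat_lit 0) (nat_lit 24919400359811) (nat_lit 380) (nat_lit 35382561847974) (nat_lit 380) (nat_lit 35382561847974) (nat_lit 29) (nat_lit 3) (nat_lit 34) (nat_lit 3) (nat_lit 34) (nat_lit 5) (nat_lit 417) (nat_lit 417) (nat_lit 186)) (XT.lf (nat_lit 76) (nat_lit 25148504955137) (nat_lit 0) (nat_lit 29469551779334) (nat_lit 380) (nat_lit 150947468091280) (nat_lit 30) (nat_lit 5) (nat_lit 29) (nat_lit 3) (nat_lit 34) (nat_lit 5) (nat_lit 418) (nat_lit 417) (nat_lit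 185))))) (XT.nd (nat_lit 53118) (nat_lit 0) (nat_lit 1824) (XT.nd (nat_lit 2418) (nat_lit 1900) (nat_lit 0) (XT.lf (nat_lit 0) (nat_lit 67108894850935) (nat_lit 304) (nat_lit 81230005005071) (nat_lit 380) (nat_lit 72503369136204) (nat_lit 30) (nat_lit 5) (nat_lit 34) (nat_lit 5) (nat_lit 35) (nat_lit 5) (nat_lit 419) (nat_lit 417) (nat_lit 184)) (XT.nd (nat_lit 50622) (nat_lit 0) (nat_lit 1824) (XT.lf (nat_lit 0) (nat_lit 1565566690038166) (nat_lit 152) (nat_lit 1289075458405253) (nat_lit 0) (nat_lit 1281892881062884) (nat_lit 5) (nat_lit 5) (nat_lit 7) (nat_lit 4) (nat_lit 5) (nat_lit 4) (nat_lit 450) (nat_lit 417) (nat_lit 153)) (XT.lf (nat_lit 0) (nat_lit 28657310413784) (nat_lit 380) (nat_lit 40689946125169) (nat_lit 380) (nat_lit 40689946125169) (nat_lit 29) (nat_lit 3) (nat_lit 34) (nat_lit 3) (nat_lit 34) (nat_lit 5) (nat_lit 418) (nat_lit 418) (nat_lit 184)))) (XT.nd (nat_lit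 78) (nat_lit 0) (nat_lit 0) (XT.lf (nat_lit 76) (nat_lit 28920780698410) (nat_lit 0) (nat_lit 33889984546235) (nat_lit 380) (nat_lit 173589588304969) (nat_lit 30) (nat_lit 5) (nat_lit 29) (nat_lit 3) (nat_lit 34) (nat_lit 5) (nat_lit 419) (nat_lit 418) (nat_lit 183)) (XT.nd (nat_lit 53040) (nat_lit 76) (nat_lit 0) (XT.lf (nat_lit 0) (nat_lit 77175229078578) (nat_lit 304) (nat_lit 93414505755831) (nat_lit 380) (nat_lit 83378874506633) (nat_lit 30) (nat_lit 5) (nat_lit 34) (nat_lit 5) (nat_lit 35) (nat_lit 5) (nat_lit 420) (nat_lit 418) (nat_lit 182)) (XT.lf (nat_lit 0) (nat_lit 32955906975853) (nat_lit 380) (nat_lit 46793438043944) (nat_lit 380) (nat_lit 46793438043944) (nat_lit 29) (nat_lit 3) (nat_lit 34) (nat_lit 3) (nat_lit 34) (nat_lit 5) (nat_lit 419) (nat_lit 419) (nat_lit 182)))))) (XT.nd (nat_lit 106392) (nat_lit 0) (nat_lit 0) (XT.nd (nat_lit 53196) (nat_lit 0) (nat_lit 0) (XT.nd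 (nat_lit 78) (nat_lit 0) (nat_lit 0) (XT.lf (nat_lit 76) (nat_lit 33258897803170) (nat_lit 0) (nat_lit 38973482228173) (nat_lit 380) (nat_lit 199628026550712) (nat_lit 30) (nat_lit 5) (nat_lit 29) (nat_lit 3) (nat_lit 34) (nat_lit 5) (nat_lit 420) (nat_lit 419) (nat_lit 181)) (XT.nd (nat_lit 53040) (nat_lit 76) (nat_lit 0) (XT.lf (nat_lit 0) (nat_lit 88751513440367) (nat_lit 304) (nat_lit 107426681619204) (nat_lit 380) (nat_lit 95885705682627) (nat_lit 30) (nat_lit 5) (nat_lit 34) (nat_lit 5) (nat_lit 35) (nat_lit 5) (nat_lit 421) (nat_lit 419) (nat_lit 180)) (XT.lf (nat_lit 0) (nat_lit 37899293022232) (nat_lit 380) (nat_lit 53812453750535) (nat_lit 380) (nat_lit 53812453750535) (nat_lit 29) (nat_lit 3) (nat_lit 34) (nat_lit 3) (nat_lit 34) (nat_lit 5) (nat_lit 420) (nat_lit 420) (nat_lit 180)))) (XT.nd (nat_lit 78) (nat_lit 0) (nat_lit 0) (XT.lf (nat_lit 76) (nat_lit 38247732473649)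 (nat_lit 0) (nat_lit 44819504562397) (nat_lit 380) (nat_lit 229572230533317) (nat_lit 30) (nat_lit 5) (nat_lit 29) (nat_lit 3) (nat_lit 34) (nat_lit 5) (nat_lit 421) (nat_lit 420) (nat_lit 179)) (XT.nd (nat_lit 53040) (nat_lit 76) (nat_lit 0) (XT.lf (nat_lit 0) (nat_lit 102064240456424) (nat_lit 304) (nat_lit 123540683862081) (nat_lit 380) (nat_lit 110268561535023) (nat_lit 30) (nat_lit 5) (nat_lit 34) (nat_lit 5) (nat_lit 35) (nat_lit 5) (nat_lit 422) (nat_lit 420) (nat_lit 178)) (XT.lf (nat_lit 0) (nat_lit 43584186975568) (nat_lit 380) (nat_lit 61884321813115) (nat_lit 380) (nat_lit 61884321813115) (nat_lit 29) (nat_lit 3) (nat_lit 34) (nat_lit 3) (nat_lit 34) (nat_lit 5) (nat_lit 421) (nat_lit 421) (nat_lit 178))))) (XT.nd (nat_lit 319098) (nat_lit 0) (nat_lit 0) (XT.nd (nat_lit 53118) (nat_lit 0) (nat_lit 0) (XT.lf (nat_lit 76) (nat_lit 43984892344697) (nat_lit 0) (nat_lit 51542430246758)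 (nat_lit 380) (nat_lit 264008065113313) (nat_lit 30) (nat_lit 5) (nat_lit 29) (nat_lit 3) (nat_lit 34) (nat_lit 5) (nat_lit 422) (nat_lit 421) (nat_lit 177)) (XT.nd (nat_lit 212940) (nat_lit 0) (nat_lit 76) (XT.lf (nat_lit 0) (nat_lit 50121815021904) (nat_lit 380) (nat_lit 71166970085082) (nat_lit 380) (nat_lit 71166970085082) (nat_lit 29) (nat_lit 3) (nat_lit 34) (nat_lit 3) (nat_lit 34) (nat_lit 5) (nat_lit 422) (nat_lit 422) (nat_lit 176)) (XT.lf (nat_lit 0) (nat_lit 236080790173075) (nat_lit 304) (nat_lit 285757108799863) (nat_lit 380) (nat_lit 255057883368561) (nat_lit 30) (nat_lit 5) (nat_lit 34) (nat_lit 5) (nat_lit 35) (nat_lit 5) (nat_lit 428) (nat_lit 426) (nat_lit 166)))) (XT.nd (nat_lit 78) (nat_lit 0) (nat_lit 0) (XT.lf (nat_lit 0) (nat_lit 100812872894854) (nat_lit 380) (nat_lit 143142196793226) (nat_lit 380) (nat_lit 143142196793226) (nat_lit 29) (nat_lit 3) (nat_lit 34)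 (nat_lit 3) (nat_lit 34) (nat_lit 5) (nat_lit 427) (nat_lit 427) (nat_lit 166)) (XT.nd (nat_lit 53118) (nat_lit 0) (nat_lit 0) (XT.lf (nat_lit 76) (nat_lit 101739728762757) (nat_lit 0) (nat_lit 119220773168746) (nat_lit 380) (nat_lit 610666697222171) (nat_lit 30) (nat_lit 5) (nat_lit 29) (nat_lit 3) (nat_lit 34) (nat_lit 5) (nat_lit 428) (nat_lit 427) (nat_lit 165)) (XT.lf (nat_lit 0) (nat_lit 115934803829082) (nat_lit 380) (nat_lit 164613526312210) (nat_lit 380) (nat_lit 164613526312210) (nat_lit 29) (nat_lit 3) (nat_lit 34) (nat_lit 3) (nat_lit 34) (nat_lit 5) (nat_lit 428) (nat_lit 428) (nat_lit 164))))))))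

set_option maxRecDepth 10000000 in
noncomputable def Tp : PT := (PT.nd (nat_lit 9149712) (PT.nd (nat_lit 8831082) pc0 pc1) (PT.nd (nat_lit 211458) pc2 pc3))

set_option maxRecDepth 10000000 in
noncomputable def Tx : XT := (XT.nd (nat_lit 15173730) (nat_lit 0) (nat_lit 76) XT.nil (XT.nd (nat_lit 7594236) (nat_lit 0) (nat_lit 0) (XT.nd (nat_lit 3342534) (nat_lit 0) (nat_lit 0) (XT.nd (nat_lit 2489526) (nat_lit 0) (nat_lit 0) (XT.nd (nat_lit 1854606) (nat_lit 0) (nat_lit 0) (XT.nd (nat_lit 1430598) (nat_lit 0) (nat_lit 0) (XT.nd (nat_lit 1165632) (nat_lit 0) (nat_lit 0) (XT.nd (nat_lit 954642) (nat_lit 0) (nat_lit 0) (XT.nd (nat_lit 847626) (nat_lit 0) (nat_lit 0) xc0 xc1) (XT.nd (nat_lit 105924) (nat_lit 0) (nat_lit 0) xc2 xc3)) (XT.nd (nat_lit 107640) (nat_lit 0) (nat_lit 0) (XT.nd (nat_lit 53898) (nat_lit 0) (nat_lit 0) xc4 xc5) (XT.nd (nat_lit 103740) (nat_lit 0) (nat_lit 0) xc6 xc7)))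 (XT.nd (nat_lit 213096) (nat_lit 0) (nat_lit 0) (XT.nd (nat_lit 106704) (nat_lit 0) (nat_lit 0) (XT.nd (nat_lit 53352) (nat_lit 0) (nat_lit 0) xc8 xc9) (XT.nd (nat_lit 53274) (nat_lit 0) (nat_lit 0) xc10 xc11)) (XT.nd (nat_lit 105690) (nat_lit 0) (nat_lit 0) (XT.nd (nat_lit 52962) (nat_lit 0) (nat_lit 0) xc12 xc13) (XT.nd (nat_lit 52650) (nat_lit 0) (nat_lit 0) xc14 xc15)))) (XT.nd (nat_lit 320424) (nat_lit 0) (nat_lit 0) (XT.nd (nat_lit 160992) (nat_lit 0) (nat_lit 0) (XT.nd (nat_lit 105066) (nat_lit 0) (nat_lit 0) (XT.nd (nat_lit 52572) (nat_lit 0) (nat_lit 0) xc16 xc17) (XT.nd (nat_lit 3588) (nat_lit 0) (nat_lit 0) xc18 xc19)) (XT.nd (nat_lit 104052) (nat_lit 0) (nat_lit 0) (XT.nd (nat_lit 52104) (nat_lit 0) (nat_lit 0) xc20 xc21) (XT.nd (nat_lit 51792) (nat_lit 0) (nat_lit 0) xc22 xc23))) (XT.nd (nat_lit 157950) (nat_lit 0) (nat_lit 0) (XT.nd (nat_lit 103038) (nat_lit 0) (nat_lit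 0) (XT.nd (nat_lit 51558) (nat_lit 0) (nat_lit 0) xc24 xc25) (XT.nd (nat_lit 3588) (nat_lit 0) (nat_lit 0) xc26 xc27)) (XT.nd (nat_lit 54678) (nat_lit 0) (nat_lit 0) (XT.nd (nat_lit 51090) (nat_lit 0) (nat_lit 0) xc28 xc29) (XT.nd (nat_lit 51012) (nat_lit 0) (nat_lit 0) xc30 xc31))))) (XT.nd (nat_lit 427284) (nat_lit 0) (nat_lit 0) (XT.nd (nat_lit 215358) (nat_lit 0) (nat_lit 0) (XT.nd (nat_lit 108186) (nat_lit 0) (nat_lit 0) (XT.nd (nat_lit 54210) (nat_lit 0) (nat_lit 0) (XT.nd (nat_lit 3510) (nat_lit 0) (nat_lit 0) xc32 xc33) (XT.nd (nat_lit 3588) (nat_lit 0) (nat_lit 0) xc34 xc35)) (XT.nd (nat_lit 53664) (nat_lit 0) (nat_lit 0) (XT.nd (nat_lit 3510) (nat_lit 0) (nat_lit 0) xc36 xc37) (XT.nd (nat_lit 49920) (nat_lit 0) (nat_lit 0) xc38 xc39))) (XT.nd (nat_lit 106392) (nat_lit 0) (nat_lit 0) (XT.nd (nat_lit 53274) (nat_lit 0) (nat_lit 0) (XT.nd (nat_lit 49686) (nat_lit 0) (nat_lit 0)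 xc40 xc41) (XT.nd (nat_lit 49530) (nat_lit 0) (nat_lit 0) xc42 xc43)) (XT.nd (nat_lit 52884) (nat_lit 0) (nat_lit 0) (XT.nd (nat_lit 49296) (nat_lit 0) (nat_lit 0) xc44 xc45) (XT.nd (nat_lit 49062) (nat_lit 0) (nat_lit 0) xc46 xc47)))) (XT.nd (nat_lit 211536) (nat_lit 0) (nat_lit 0) (XT.nd (nat_lit 105378) (nat_lit 0) (nat_lit 0) (XT.nd (nat_lit 52572) (nat_lit 0) (nat_lit 0) (XT.nd (nat_lit 3510) (nat_lit 0) (nat_lit 0) xc48 xc49) (XT.nd (nat_lit 3588) (nat_lit 0) (nat_lit 0) xc50 xc51)) (XT.nd (nat_lit 52884) (nat_lit 0) (nat_lit 0) (XT.nd (nat_lit 3510) (nat_lit 0) (nat_lit 0) xc52 xc53) (XT.nd (nat_lit 3588) (nat_lit 0) (nat_lit 0) xc54 xc55))) (XT.nd (nat_lit 106782) (nat_lit 0) (nat_lit 0) (XT.nd (nat_lit 53274) (nat_lit 0) (nat_lit 0) (XT.nd (nat_lit 3510) (nat_lit 0) (nat_lit 0) xc56 xc57) (XT.nd (nat_lit 3588) (nat_lit 0) (nat_lit 0) xc58 xc59)) (XT.nd (nat_lit 53586) (nat_lit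 0) (nat_lit 0) (XT.nd (nat_lit 3510) (nat_lit 0) (nat_lit 0) xc60 xc61) (XT.nd (nat_lit 50232) (nat_lit 0) (nat_lit 0) xc62 xc63)))))) (XT.nd (nat_lit 1114776) (nat_lit 0) (nat_lit 0) (XT.nd (nat_lit 530244) (nat_lit 0) (nat_lit 0) (XT.nd (nat_lit 264654) (nat_lit 0) (nat_lit 0) (XT.nd (nat_lit 156000) (nat_lit 0) (nat_lit 0) (XT.nd (nat_lit 54288) (nat_lit 0) (nat_lit 0) (XT.nd (nat_lit 50700) (nat_lit 0) (nat_lit 0) xc64 xc65) (XT.nd (nat_lit 50856) (nat_lit 0) (nat_lit 0) xc66 xc67)) (XT.nd (nat_lit 54288) (nat_lit 0) (nat_lit 0) (XT.nd (nat_lit 3510) (nat_lit 0) (nat_lit 0) xc68 xc69) (XT.nd (nat_lit 3588) (nat_lit 0) (nat_lit 0) xc70 xc71))) (XT.nd (nat_lit 108966) (nat_lit 0) (nat_lit 0) (XT.nd (nat_lit 54444) (nat_lit 0) (nat_lit 0) (XT.nd (nat_lit 50856) (nat_lit 0) (nat_lit 0) xc72 xc73) (XT.nd (nat_lit 50934) (nat_lit 0) (nat_lit 0) xc74 xc75)) (XT.nd (nat_lit 101946) (nat_lit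 0) (nat_lit 0) (XT.nd (nat_lit 50934) (nat_lit 0) (nat_lit 0) xc76 xc77) (XT.nd (nat_lit 3588) (nat_lit 0) (nat_lit 0) xc78 xc79)))) (XT.nd (nat_lit 267306) (nat_lit 0) (nat_lit 0) (XT.nd (nat_lit 157326) (nat_lit 0) (nat_lit 0) (XT.nd (nat_lit 54678) (nat_lit 0) (nat_lit 0) (XT.nd (nat_lit 51090) (nat_lit 0) (nat_lit 0) xc80 xc81) (XT.nd (nat_lit 51246) (nat_lit 0) (nat_lit 0) xc82 xc83)) (XT.nd (nat_lit 54912) (nat_lit 0) (nat_lit 0) (XT.nd (nat_lit 3510) (nat_lit 0) (nat_lit 0) xc84 xc85) (XT.nd (nat_lit 51480) (nat_lit 0) (nat_lit 0) xc86 xc87))) (XT.nd (nat_lit 158496) (nat_lit 0) (nat_lit 0) (XT.nd (nat_lit 103194) (nat_lit 0) (nat_lit 0) (XT.nd (nat_lit 51558) (nat_lit 0) (nat_lit 0) xc88 xc89) (XT.nd (nat_lit 3588) (nat_lit 0) (nat_lit 0) xc90 xc91)) (XT.nd (nat_lit 55224) (nat_lit 0) (nat_lit 0) (XT.nd (nat_lit 51636) (nat_lit 0) (nat_lit 0) xc92 xc93) (XT.nd (nat_lit 51714)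 (nat_lit 0) (nat_lit 0) xc94 xc95))))) (XT.nd (nat_lit 796926) (nat_lit 0) (nat_lit 0) (XT.nd (nat_lit 320268) (nat_lit 0) (nat_lit 0) (XT.nd (nat_lit 159354) (nat_lit 0) (nat_lit 0) (XT.nd (nat_lit 55302) (nat_lit 0) (nat_lit 0) (XT.nd (nat_lit 51714) (nat_lit 0) (nat_lit 0) xc96 xc97) (XT.nd (nat_lit 51870) (nat_lit 0) (nat_lit 0) xc98 xc99)) (XT.nd (nat_lit 56238) (nat_lit 0) (nat_lit 0) (XT.nd (nat_lit 52182) (nat_lit 0) (nat_lit 0) xc100 xc101) (XT.nd (nat_lit 51948) (nat_lit 0) (nat_lit 0) xc102 xc103))) (XT.nd (nat_lit 212784) (nat_lit 0) (nat_lit 0) (XT.nd (nat_lit 106236) (nat_lit 0) (nat_lit 0) (XT.nd (nat_lit 53040) (nat_lit 0) (nat_lit 0) xc104 xc105) (XT.nd (nat_lit 53274) (nat_lit 0) (nat_lit 0) xc106 xc107)) (XT.nd (nat_lit 156780) (nat_lit 76) (nat_lit 0) (XT.nd (nat_lit 53274) (nat_lit 0) (nat_lit 0) xc108 xc109) (XT.nd (nat_lit 53586) (nat_lit 76) (nat_lit 0) xc110 xc111))))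 (XT.nd (nat_lit 479856) (nat_lit 0) (nat_lit 228) (XT.nd (nat_lit 214188) (nat_lit 0) (nat_lit 76) (XT.nd (nat_lit 106938) (nat_lit 0) (nat_lit 76) (XT.nd (nat_lit 53352) (nat_lit 0) (nat_lit 76) xc112 xc113) (XT.nd (nat_lit 53586) (nat_lit 0) (nat_lit 0) xc114 xc115)) (XT.nd (nat_lit 157638) (nat_lit 0) (nat_lit 152) (XT.nd (nat_lit 53586) (nat_lit 0) (nat_lit 0) xc116 xc117) (XT.nd (nat_lit 53976) (nat_lit 0) (nat_lit 76) xc118 xc119))) (XT.nd (nat_lit 371358) (nat_lit 0) (nat_lit 76) (XT.nd (nat_lit 158574) (nat_lit 0) (nat_lit 76) (XT.nd (nat_lit 53898) (nat_lit 0) (nat_lit 76) xc120 xc121) (XT.nd (nat_lit 54444) (nat_lit 0) (nat_lit 228) xc122 xc123)) (XT.nd (nat_lit 372138) (nat_lit 0) (nat_lit 0) (XT.nd (nat_lit 212238) (nat_lit 1140) (nat_lit 0) xc124 xc125) (XT.nd (nat_lit 265512) (nat_lit 0) (nat_lit 0) xc126 xc127))))))) XT.nil))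

set_option maxRecDepth 10000000 in
noncomputable def Te : XT := XT.nil

set_option maxRecDepth 10000000 in
noncomputable def Tz : ZL := (ZL.cons (nat_lit 76) (nat_lit 3) (nat_lit 172495197269016366077) (ZL.cons (nat_lit 152) (nat_lit 6) (nat_lit 322857859214578115058) (ZL.cons (nat_lit 228) (nat_lit 6) (nat_lit 303683876524776964796) (ZL.cons (nat_lit 304) (nat_lit 3) (nat_lit 150381837580488096491) (ZL.cons (nat_lit 380) (nat_lit 6) (nat_lit 281633796431505641996) (ZL.cons (nat_lit 456) (nat_lit 6) (nat_lit 265093942790155081756) (ZL.cons (nat_lit 532) (nat_lit 3) (nat_lit 131277318628207640089) (ZL.cons (nat_lit 608) (nat_lit 6) (nat_lit 246073111102601937482) (ZL.cons (nat_lit 684) (nat_lit 6) (nat_lit 231866753327925787634) (ZL.cons (nat_lit 760) (nat_lit 3) (nat_lit 114829330779728197479) (ZL.cons (nat_lit 836) (nat_lit 6) (nat_lit 215529441887048215310) (ZL.cons (nat_lit 912) (nat_lit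 6) (nat_lit 203409010830917238504) (ZL.cons (nat_lit 988) (nat_lit 3) (nat_lit 100744465516124100696) (ZL.cons (nat_lit 1064) (nat_lit 6) (nat_lit 189470515116366615174) (ZL.cons (nat_lit 1140) (nat_lit 6) (nat_lit 179239051219310121276) (ZL.cons (nat_lit 1216) (nat_lit 3) (nat_lit 88784708305885914068) (ZL.cons (nat_lit 1292) (nat_lit 6) (nat_lit 167472867737695153290) (ZL.cons (nat_lit 1368) (nat_lit 6) (nat_lit 158983327320513351348) (ZL.cons (nat_lit 1444) (nat_lit 3) (nat_lit 78765735570022635179) (ZL.cons (nat_lit 1520) (nat_lit 6) (nat_lit 149220355840754279116) (ZL.cons (nat_lit 1596) (nat_lit 6) (nat_lit 142376913062227355818) (ZL.cons (nat_lit 1672) (nat_lit 3) (nat_lit 70557214713518860088) (ZL.cons (nat_lit 1748) (nat_lit 6) (nat_lit 136867249358797669366) (ZL.cons (nat_lit 1824) (nat_lit 6) (nat_lit 134506953866921394030) (ZL.cons (nat_lit 1900) (nat_lit 6) (nat_lit 129268652464663894298)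 (ZL.cons (nat_lit 1976) (nat_lit 3) (nat_lit 64085420303988627302) (ZL.cons (nat_lit 2052) (nat_lit 6) (nat_lit 125297036714568878594) (ZL.cons (nat_lit 2128) (nat_lit 6) (nat_lit 123244605852067769606) (ZL.cons (nat_lit 2204) (nat_lit 3) (nat_lit 60160248104228468906) (ZL.cons (nat_lit 2280) (nat_lit 6) (nat_lit 120866302723336155254) (ZL.cons (nat_lit 2356) (nat_lit 6) (nat_lit 122514401091091009652) (ZL.cons (nat_lit 2432) (nat_lit 6) (nat_lit 119631866745272970840) (ZL.cons (nat_lit 2508) (nat_lit 3) (nat_lit 59338623869729250773) (ZL.cons (nat_lit 2584) (nat_lit 6) (nat_lit 116088455254600033884) (ZL.cons (nat_lit 2660) (nat_lit 6) (nat_lit 117261939261590351380) (ZL.cons (nat_lit 2736) (nat_lit 6) (nat_lit 115477216772458952262) (ZL.cons (nat_lit 2812) (nat_lit 3) (nat_lit 56477113078714884825) (ZL.cons (nat_lit 2888) (nat_lit 6) (nat_lit 113581903649540869704) (ZL.cons (nat_lit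 2964) (nat_lit 3) (nat_lit 56375900083111969940) (ZL.cons (nat_lit 3040) (nat_lit 6) (nat_lit 111402293558185074764) (ZL.cons (nat_lit 3116) (nat_lit 1) (nat_lit 18446744073709551617) ZL.nil)))))))))))))))))))))))))))))))))))))))))

noncomputable def vl : XL := ⟨(nat_lit 0), (nat_lit 76), (nat_lit 326418059), (nat_lit 152), (nat_lit 9649987), (nat_lit 152), (nat_lit 9649987), (nat_lit 1), (nat_lit 4), (nat_lit 2), (nat_lit 5), (nat_lit 2), (nat_lit 4), (nat_lit 0), (nat_lit 0), (nat_lit 0)⟩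

noncomputable def cp0 : Nat := (nat_lit 30286975072079454672089498472194998551935778344764940103379320832)

noncomputable def cp1 : Nat := (nat_lit 569651032715475534206261003550534493005382910163235947796013694983992266466810690503605585391219431850366385730853885377569122496263826052807769223174861311118364649890060801631260067078971928605541373050392268013167967266407317283590310787302687015950269780497349208471950866277680706286408026285735194584954652637664670915074571149145774926465383010633702116074852524920587954987805629523622701065075469091929115583050276646001849706885360200836601171766470775504296904698536098596811131182133984532585016666360410034528360098325427642801810440182359403242446107724220629283159043928119237750263433307964201559852846139784637551992606293971510331147981535516880773356121959591768200597106214103152742680045407874360189399726351576110113317332490871001603292684690938400356309595671700380199263624878756396850121491944253018448852055038734256994029010649857582127517969829709864474103095147243009206816915346730043999812744462029826052384317599037974904832)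

noncomputable def rc0 : Nat := (nat_lit 551176918726319880885492003592006439725983583502518274604729275037348272897374168316911411435252982612569720786254626201674804427321230812928329670922966819228947088151519895676331031980555975471603813555072596447554530747238359412449467533991279453638599677346363669582529182601426276647206457111939758626576771663973498565803938496592183850312741354254937660311475801176088451947062025996093555552498137230307859938260261218438612825103490271104825454613166622295703382635821761437502784647370426549178068373699584162569008860033860126494869946446331213350094998960185087893315329356265883053262157488720532363029904332010185472671711248528800155131550156026207982619737551272575631074499390830417313000775764260238228996060864389311551198418673329701772707780066468361923771934663423420063558306445328682719005356267495291462155498229896645769542995499011616415721401870239152831539957120574393830916916024678362536844546968638389578782454049649725538304)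

noncomputable def rc1 : Nat := (nat_lit 569651032715475534206261003550534493005382910163235947796013694983992266466810690503605585391219431850366385730853885377569122496263826052807769223174861311118364649890060801631260067078971928605541373050392268013167967266407317283590310787302687015950269780497349208471950866277680706286408026285735194584954652637664670915074571149145774926465383010633702116074852524920587954987805629523622701065075469091929115583050276646001849706885360200836601171766470775504296904698536098596811131182133984532585016666360410034528360098325427642801810440182359403242446107724220629283159043928119237750263433307964201559852846139784637551992606293971510331147981535516880773356121959591768200597106214103152742680045407874360189399726351576110113317332490871001603292684690938400356309595671700380199263624878756396850121491944253018448852055038734256994029010649857582127517969829709864474103095147243009206816915346730043999812744462029826052384317599037974904832)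

end Vale.Agent.Lib.P154.PChain.BE.S0
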