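import Vale.Agent.Lib.P154.PChain.BE.R0_0

set_option linter.all false

namespace Vale.Agent.Lib.P154.PChain.BE.S1

open Vale.Agent.Lib.P154.Chain

noncomputable def pc0 : PT := (PT.nd (nat_lit 8406450) (PT.nd (nat_lit 8141016) (PT.nd (nat_lit 8034780) (PT.nd (nat_lit 7981662) (PT.nd (nat_lit 7928622) (PT.nd (nat_lit 7875582) PT.nil (PT.lf (nat_lit 76) (nat_lit 3) (nat_lit 1) (nat_lit 1) (nat_lit 181) (nat_lit 148) (nat_lit 181))) (PT.nd (nat_lit 78) (PT.lf (nat_lit 152) (nat_lit 6) (nat_lit 2) (nat_lit 3) (nat_lit 180) (nat_lit 149) (nat_lit 181)) (PT.lf (nat_lit 152) (nat_lit 6) (nat_lit 2) (nat_lit 1) (nat_lit 181) (nat_lit 149) (nat_lit 180)))) (PT.nd (nat_lit 78) (PT.lf (nat_lit 228) (nat_lit 6) (nat_lit 3) (nat_lit 3) (nat_lit 179) (nat_lit 150) (nat_lit 181)) (PT.nd (nat_lit 78) (PT.lf (nat_lit 304) (nat_lit 3) (nat_lit 4) (nat_lit 1) (nat_lit 180) (nat_lit 150) (nat_lit 180)) (PT.lf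 (nat_lit 228) (nat_lit 6) (nat_lit 3) (nat_lit 1) (nat_lit 181) (nat_lit 150) (nat_lit 179))))) (PT.nd (nat_lit 53118) (PT.nd (nat_lit 78) (PT.lf (nat_lit 380) (nat_lit 6) (nat_lit 5) (nat_lit 3) (nat_lit 179) (nat_lit 151) (nat_lit 180)) (PT.nd (nat_lit 52962) (PT.lf (nat_lit 380) (nat_lit 6) (nat_lit 5) (nat_lit 1) (nat_lit 180) (nat_lit 151) (nat_lit 179)) (PT.lf (nat_lit 456) (nat_lit 6) (nat_lit 6) (nat_lit 3) (nat_lit 178) (nat_lit 152) (nat_lit 180)))) (PT.nd (nat_lit 78) (PT.lf (nat_lit 532) (nat_lit 3) (nat_lit 7) (nat_lit 1) (nat_lit 179) (nat_lit 152) (nat_lit 179)) (PT.nd (nat_lit 52962) (PT.lf (nat_lit 456) (nat_lit 6) (nat_lit 6) (nat_lit 1) (nat_lit 180) (nat_lit 152) (nat_lit 178)) (PT.lf (nat_lit 608) (nat_lit 6) (nat_lit 8) (nat_lit 3) (nat_lit 178) (nat_lit 153) (nat_lit 179)))))) (PT.nd (nat_lit 159120) (PT.nd (nat_lit 53118) (PT.nd (nat_lit 52962) (PT.lf (nat_lit 608)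 (nat_lit 6) (nat_lit 8) (nat_lit 1) (nat_lit 179) (nat_lit 153) (nat_lit 178)) (PT.nd (nat_lit 78) (PT.lf (nat_lit 684) (nat_lit 6) (nat_lit 9) (nat_lit 3) (nat_lit 177) (nat_lit 154) (nat_lit 179)) (PT.lf (nat_lit 760) (nat_lit 3) (nat_lit 10) (nat_lit 1) (nat_lit 178) (nat_lit 154) (nat_lit 178)))) (PT.nd (nat_lit 52962) (PT.lf (nat_lit 684) (nat_lit 6) (nat_lit 9) (nat_lit 1) (nat_lit 179) (nat_lit 154) (nat_lit 177)) (PT.nd (nat_lit 78) (PT.lf (nat_lit 836) (nat_lit 6) (nat_lit 11) (nat_lit 3) (nat_lit 177) (nat_lit 155) (nat_lit 178)) (PT.lf (nat_lit 836) (nat_lit 6) (nat_lit 11) (nat_lit 1) (nat_lit 178) (nat_lit 155) (nat_lit 177))))) (PT.nd (nat_lit 53118) (PT.nd (nat_lit 78) (PT.lf (nat_lit 912) (nat_lit 6) (nat_lit 12) (nat_lit 3) (nat_lit 176) (nat_lit 156) (nat_lit 178)) (PT.nd (nat_lit 78) (PT.lf (nat_lit 988) (nat_lit 3) (nat_lit 13) (nat_lit 1) (nat_lit 177) (nat_lit 156)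 (nat_lit 177)) (PT.lf (nat_lit 912) (nat_lit 6) (nat_lit 12) (nat_lit 1) (nat_lit 178) (nat_lit 156) (nat_lit 176)))) (PT.nd (nat_lit 53040) (PT.nd (nat_lit 78) (PT.lf (nat_lit 1064) (nat_lit 6) (nat_lit 14) (nat_lit 3) (nat_lit 176) (nat_lit 157) (nat_lit 177)) (PT.lf (nat_lit 1064) (nat_lit 6) (nat_lit 14) (nat_lit 1) (nat_lit 177) (nat_lit 157) (nat_lit 176))) (PT.nd (nat_lit 78) (PT.lf (nat_lit 1140) (nat_lit 6) (nat_lit 15) (nat_lit 3) (nat_lit 175) (nat_lit 158) (nat_lit 177)) (PT.lf (nat_lit 1216) (nat_lit 3) (nat_lit 16) (nat_lit 1) (nat_lit 176) (nat_lit 158) (nat_lit 176))))))) (PT.nd (nat_lit 265278) (PT.nd (nat_lit 159120) (PT.nd (nat_lit 106002) (PT.nd (nat_lit 52962) (PT.lf (nat_lit 1140) (nat_lit 6) (nat_lit 15) (nat_lit 1) (nat_lit 177) (nat_lit 158) (nat_lit 175)) (PT.nd (nat_lit 78) (PT.lf (nat_lit 1292) (nat_lit 6) (nat_lit 17) (nat_lit 3) (nat_lit 175) (nat_lit 159) (nat_lit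 176)) (PT.lf (nat_lit 1292) (nat_lit 6) (nat_lit 17) (nat_lit 1) (nat_lit 176) (nat_lit 159) (nat_lit 175)))) (PT.nd (nat_lit 78) (PT.lf (nat_lit 1368) (nat_lit 6) (nat_lit 18) (nat_lit 3) (nat_lit 174) (nat_lit 160) (nat_lit 176)) (PT.nd (nat_lit 78) (PT.lf (nat_lit 1444) (nat_lit 3) (nat_lit 19) (nat_lit 1) (nat_lit 175) (nat_lit 160) (nat_lit 175)) (PT.lf (nat_lit 1368) (nat_lit 6) (nat_lit 18) (nat_lit 1) (nat_lit 176) (nat_lit 160) (nat_lit 174))))) (PT.nd (nat_lit 53118) (PT.nd (nat_lit 78) (PT.lf (nat_lit 1520) (nat_lit 6) (nat_lit 20) (nat_lit 3) (nat_lit 174) (nat_lit 161) (nat_lit 175)) (PT.nd (nat_lit 52962) (PT.lf (nat_lit 1520) (nat_lit 6) (nat_lit 20) (nat_lit 1) (nat_lit 175) (nat_lit 161) (nat_lit 174)) (PT.lf (nat_lit 1596) (nat_lit 6) (nat_lit 21) (nat_lit 3) (nat_lit 173) (nat_lit 162) (nat_lit 175)))) (PT.nd (nat_lit 78) (PT.lf (nat_lit 1672) (nat_lit 3) (nat_lit 22)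 (nat_lit 1) (nat_lit 174) (nat_lit 162) (nat_lit 174)) (PT.nd (nat_lit 52884) (PT.lf (nat_lit 1596) (nat_lit 6) (nat_lit 21) (nat_lit 1) (nat_lit 175) (nat_lit 162) (nat_lit 173)) (PT.lf (nat_lit 1748) (nat_lit 6) (nat_lit 23) (nat_lit 3) (nat_lit 172) (nat_lit 163) (nat_lit 175)))))) (PT.nd (nat_lit 106080) (PT.nd (nat_lit 53040) (PT.nd (nat_lit 78) (PT.lf (nat_lit 1824) (nat_lit 6) (nat_lit 24) (nat_lit 3) (nat_lit 173) (nat_lit 163) (nat_lit 174)) (PT.nd (nat_lit 78) (PT.lf (nat_lit 1824) (nat_lit 6) (nat_lit 24) (nat_lit 1) (nat_lit 174) (nat_lit 163) (nat_lit 173)) (PT.lf (nat_lit 1748) (nat_lit 6) (nat_lit 23) (nat_lit 1) (nat_lit 175) (nat_lit 163) (nat_lit 172)))) (PT.nd (nat_lit 78) (PT.lf (nat_lit 1900) (nat_lit 6) (nat_lit 25) (nat_lit 3) (nat_lit 172) (nat_lit 164) (nat_lit 174)) (PT.nd (nat_lit 78) (PT.lf (nat_lit 1976) (nat_lit 3) (nat_lit 26) (nat_lit 1) (nat_lit 173) (nat_lit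 164) (nat_lit 173)) (PT.lf (nat_lit 1900) (nat_lit 6) (nat_lit 25) (nat_lit 1) (nat_lit 174) (nat_lit 164) (nat_lit 172))))) (PT.nd (nat_lit 234) (PT.nd (nat_lit 78) (PT.lf (nat_lit 2052) (nat_lit 6) (nat_lit 27) (nat_lit 3) (nat_lit 171) (nat_lit 165) (nat_lit 174)) (PT.nd (nat_lit 78) (PT.lf (nat_lit 2128) (nat_lit 6) (nat_lit 28) (nat_lit 3) (nat_lit 172) (nat_lit 165) (nat_lit 173)) (PT.lf (nat_lit 2128) (nat_lit 6) (nat_lit 28) (nat_lit 1) (nat_lit 173) (nat_lit 165) (nat_lit 172)))) (PT.nd (nat_lit 52884) (PT.nd (nat_lit 52806) (PT.lf (nat_lit 2052) (nat_lit 6) (nat_lit 27) (nat_lit 1) (nat_lit 174) (nat_lit 165) (nat_lit 171)) (PT.lf (nat_lit 2356) (nat_lit 6) (nat_lit 31) (nat_lit 3) (nat_lit 170) (nat_lit 166) (nat_lit 174))) (PT.nd (nat_lit 78) (PT.lf (nat_lit 2432) (nat_lit 6) (nat_lit 32) (nat_lit 3) (nat_lit 171) (nat_lit 166) (nat_lit 173)) (PT.lf (nat_lit 2508) (nat_lit 3)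 (nat_lit 33) (nat_lit 1) (nat_lit 172) (nat_lit 166) (nat_lit 172))))))))
noncomputable def pc1 : PT := (PT.nd (nat_lit 212082) (PT.nd (nat_lit 106158) (PT.nd (nat_lit 53118) (PT.nd (nat_lit 52884) (PT.nd (nat_lit 78) (PT.lf (nat_lit 2432) (nat_lit 6) (nat_lit 32) (nat_lit 1) (nat_lit 173) (nat_lit 166) (nat_lit 171)) (PT.nd (nat_lit 52728) (PT.lf (nat_lit 2356) (nat_lit 6) (nat_lit 31) (nat_lit 1) (nat_lit 174) (nat_lit 166) (nat_lit 170)) (PT.lf (nat_lit 2280) (nat_lit 6) (nat_lit 30) (nat_lit 3) (nat_lit 169) (nat_lit 167) (nat_lit 174)))) (PT.nd (nat_lit 78) (PT.lf (nat_lit 2660) (nat_lit 6) (nat_lit 35) (nat_lit 3) (nat_lit 170) (nat_lit 167) (nat_lit 173)) (PT.nd (nat_lit 78) (PT.lf (nat_lit 2736) (nat_lit 6) (nat_lit 36) (nat_lit 3) (nat_lit 171) (nat_lit 167) (nat_lit 172)) (PT.lf (nat_lit 2736) (nat_lit 6) (nat_lit 36) (nat_lit 1) (nat_lit 172) (nat_lit 167) (nat_lit 171))))) (PT.nd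 (nat_lit 52806) (PT.nd (nat_lit 78) (PT.lf (nat_lit 2660) (nat_lit 6) (nat_lit 35) (nat_lit 1) (nat_lit 173) (nat_lit 167) (nat_lit 170)) (PT.nd (nat_lit 52650) (PT.lf (nat_lit 2280) (nat_lit 6) (nat_lit 30) (nat_lit 1) (nat_lit 174) (nat_lit 167) (nat_lit 169)) (PT.lf (nat_lit 2204) (nat_lit 3) (nat_lit 29) (nat_lit 3) (nat_lit 168) (nat_lit 168) (nat_lit 174)))) (PT.nd (nat_lit 78) (PT.lf (nat_lit 2584) (nat_lit 6) (nat_lit 34) (nat_lit 3) (nat_lit 169) (nat_lit 168) (nat_lit 173)) (PT.nd (nat_lit 78) (PT.lf (nat_lit 2888) (nat_lit 6) (nat_lit 38) (nat_lit 3) (nat_lit 170) (nat_lit 168) (nat_lit 172)) (PT.lf (nat_lit 2964) (nat_lit 3) (nat_lit 39) (nat_lit 1) (nat_lit 171) (nat_lit 168) (nat_lit 171)))))) (PT.nd (nat_lit 52962) (PT.nd (nat_lit 52728) (PT.nd (nat_lit 78) (PT.lf (nat_lit 2888) (nat_lit 6) (nat_lit 38) (nat_lit 1) (nat_lit 172) (nat_lit 168) (nat_lit 170)) (PT.nd (nat_lit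 78) (PT.lf (nat_lit 2584) (nat_lit 6) (nat_lit 34) (nat_lit 1) (nat_lit 173) (nat_lit 168) (nat_lit 169)) (PT.lf (nat_lit 2204) (nat_lit 3) (nat_lit 29) (nat_lit 0) (nat_lit 174) (nat_lit 168) (nat_lit 168)))) (PT.nd (nat_lit 78) (PT.lf (nat_lit 2280) (nat_lit 6) (nat_lit 30) (nat_lit 5) (nat_lit 167) (nat_lit 169) (nat_lit 174)) (PT.nd (nat_lit 78) (PT.lf (nat_lit 2584) (nat_lit 6) (nat_lit 34) (nat_lit 5) (nat_lit 168) (nat_lit 169) (nat_lit 173)) (PT.lf (nat_lit 2812) (nat_lit 3) (nat_lit 37) (nat_lit 3) (nat_lit 169) (nat_lit 169) (nat_lit 172))))) (PT.nd (nat_lit 234) (PT.nd (nat_lit 78) (PT.lf (nat_lit 3040) (nat_lit 6) (nat_lit 40) (nat_lit 3) (nat_lit 170) (nat_lit 169) (nat_lit 171)) (PT.nd (nat_lit 78) (PT.lf (nat_lit 3040) (nat_lit 6) (nat_lit 40) (nat_lit 1) (nat_lit 171) (nat_lit 169) (nat_lit 170)) (PT.lf (nat_lit 2812) (nat_lit 3) (nat_lit 37) (nat_lit 0) (nat_lit 172) (nat_lit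 169) (nat_lit 169)))) (PT.nd (nat_lit 52572) (PT.nd (nat_lit 78) (PT.lf (nat_lit 2584) (nat_lit 6) (nat_lit 34) (nat_lit 0) (nat_lit 173) (nat_lit 169) (nat_lit 168)) (PT.lf (nat_lit 2280) (nat_lit 6) (nat_lit 30) (nat_lit 0) (nat_lit 174) (nat_lit 169) (nat_lit 167))) (PT.nd (nat_lit 78) (PT.lf (nat_lit 2356) (nat_lit 6) (nat_lit 31) (nat_lit 5) (nat_lit 166) (nat_lit 170) (nat_lit 174)) (PT.lf (nat_lit 2660) (nat_lit 6) (nat_lit 35) (nat_lit 5) (nat_lit 167) (nat_lit 170) (nat_lit 173))))))) (PT.nd (nat_lit 53352) (PT.nd (nat_lit 468) (PT.nd (nat_lit 234) (PT.nd (nat_lit 78) (PT.lf (nat_lit 2888) (nat_lit 6) (nat_lit 38) (nat_lit 5) (nat_lit 168) (nat_lit 170) (nat_lit 172)) (PT.nd (nat_lit 78) (PT.lf (nat_lit 3040) (nat_lit 6) (nat_lit 40) (nat_lit 5) (nat_lit 169) (nat_lit 170) (nat_lit 171)) (PT.lf (nat_lit 3116) (nat_lit 1) (nat_lit 41) (nat_lit 0) (nat_lit 170) (nat_lit 170) (nat_lit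 170)))) (PT.nd (nat_lit 78) (PT.lf (nat_lit 3040) (nat_lit 6) (nat_lit 40) (nat_lit 0) (nat_lit 171) (nat_lit 170) (nat_lit 169)) (PT.nd (nat_lit 78) (PT.lf (nat_lit 2888) (nat_lit 6) (nat_lit 38) (nat_lit 0) (nat_lit 172) (nat_lit 170) (nat_lit 168)) (PT.lf (nat_lit 2660) (nat_lit 6) (nat_lit 35) (nat_lit 0) (nat_lit 173) (nat_lit 170) (nat_lit 167))))) (PT.nd (nat_lit 52572) (PT.nd (nat_lit 52416) (PT.lf (nat_lit 2356) (nat_lit 6) (nat_lit 31) (nat_lit 0) (nat_lit 174) (nat_lit 170) (nat_lit 166)) (PT.nd (nat_lit 78) (PT.lf (nat_lit 2052) (nat_lit 6) (nat_lit 27) (nat_lit 5) (nat_lit 165) (nat_lit 171) (nat_lit 174)) (PT.lf (nat_lit 2432) (nat_lit 6) (nat_lit 32) (nat_lit 5) (nat_lit 166) (nat_lit 171) (nat_lit 173)))) (PT.nd (nat_lit 156) (PT.nd (nat_lit 78) (PT.lf (nat_lit 2736) (nat_lit 6) (nat_lit 36) (nat_lit 5) (nat_lit 167) (nat_lit 171) (nat_lit 172)) (PT.lf (nat_lit 2964) (nat_lit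 3) (nat_lit 39) (nat_lit 4) (nat_lit 168) (nat_lit 171) (nat_lit 171))) (PT.nd (nat_lit 78) (PT.lf (nat_lit 3040) (nat_lit 6) (nat_lit 40) (nat_lit 4) (nat_lit 169) (nat_lit 171) (nat_lit 170)) (PT.lf (nat_lit 3040) (nat_lit 6) (nat_lit 40) (nat_lit 2) (nat_lit 170) (nat_lit 171) (nat_lit 169)))))) (PT.nd (nat_lit 52650) (PT.nd (nat_lit 234) (PT.nd (nat_lit 78) (PT.lf (nat_lit 2964) (nat_lit 3) (nat_lit 39) (nat_lit 0) (nat_lit 171) (nat_lit 171) (nat_lit 168)) (PT.nd (nat_lit 78) (PT.lf (nat_lit 2736) (nat_lit 6) (nat_lit 36) (nat_lit 0) (nat_lit 172) (nat_lit 171) (nat_lit 167)) (PT.lf (nat_lit 2432) (nat_lit 6) (nat_lit 32) (nat_lit 0) (nat_lit 173) (nat_lit 171) (nat_lit 166)))) (PT.nd (nat_lit 52260) (PT.lf (nat_lit 2052) (nat_lit 6) (nat_lit 27) (nat_lit 0) (nat_lit 174) (nat_lit 171) (nat_lit 165)) (PT.nd (nat_lit 78) (PT.lf (nat_lit 1748) (nat_lit 6) (nat_lit 23) (nat_lit 5) (nat_lit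 163) (nat_lit 172) (nat_lit 175)) (PT.lf (nat_lit 1900) (nat_lit 6) (nat_lit 25) (nat_lit 5) (nat_lit 164) (nat_lit 172) (nat_lit 174))))) (PT.nd (nat_lit 234) (PT.nd (nat_lit 78) (PT.lf (nat_lit 2128) (nat_lit 6) (nat_lit 28) (nat_lit 5) (nat_lit 165) (nat_lit 172) (nat_lit 173)) (PT.nd (nat_lit 78) (PT.lf (nat_lit 2508) (nat_lit 3) (nat_lit 33) (nat_lit 4) (nat_lit 166) (nat_lit 172) (nat_lit 172)) (PT.lf (nat_lit 2736) (nat_lit 6) (nat_lit 36) (nat_lit 4) (nat_lit 167) (nat_lit 172) (nat_lit 171)))) (PT.nd (nat_lit 156) (PT.nd (nat_lit 78) (PT.lf (nat_lit 2888) (nat_lit 6) (nat_lit 38) (nat_lit 4) (nat_lit 168) (nat_lit 172) (nat_lit 170)) (PT.lf (nat_lit 2812) (nat_lit 3) (nat_lit 37) (nat_lit 2) (nat_lit 169) (nat_lit 172) (nat_lit 169))) (PT.nd (nat_lit 78) (PT.lf (nat_lit 2888) (nat_lit 6) (nat_lit 38) (nat_lit 2) (nat_lit 170) (nat_lit 172) (nat_lit 168)) (PT.lf (nat_lit 2736) (nat_lit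 6) (nat_lit 36) (nat_lit 2) (nat_lit 171) (nat_lit 172) (nat_lit 167))))))))
noncomputable def pc2 : PT := (PT.nd (nat_lit 105846) (PT.nd (nat_lit 52962) (PT.nd (nat_lit 52494) (PT.nd (nat_lit 234) (PT.nd (nat_lit 78) (PT.lf (nat_lit 2508) (nat_lit 3) (nat_lit 33) (nat_lit 0) (nat_lit 172) (nat_lit 172) (nat_lit 166)) (PT.nd (nat_lit 78) (PT.lf (nat_lit 2128) (nat_lit 6) (nat_lit 28) (nat_lit 0) (nat_lit 173) (nat_lit 172) (nat_lit 165)) (PT.lf (nat_lit 1900) (nat_lit 6) (nat_lit 25) (nat_lit 0) (nat_lit 174) (nat_lit 172) (nat_lit 164)))) (PT.nd (nat_lit 52104) (PT.lf (nat_lit 1748) (nat_lit 6) (nat_lit 23) (nat_lit 0) (nat_lit 175) (nat_lit 172) (nat_lit 163)) (PT.nd (nat_lit 78) (PT.lf (nat_lit 1596) (nat_lit 6) (nat_lit 21) (nat_lit 5) (nat_lit 162) (nat_lit 173) (nat_lit 175)) (PT.lf (nat_lit 1824) (nat_lit 6) (nat_lit 24) (nat_lit 5) (nat_lit 163) (nat_lit 173) (nat_lit 174))))) (PT.nd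 (nat_lit 234) (PT.nd (nat_lit 78) (PT.lf (nat_lit 1976) (nat_lit 3) (nat_lit 26) (nat_lit 4) (nat_lit 164) (nat_lit 173) (nat_lit 173)) (PT.nd (nat_lit 78) (PT.lf (nat_lit 2128) (nat_lit 6) (nat_lit 28) (nat_lit 4) (nat_lit 165) (nat_lit 173) (nat_lit 172)) (PT.lf (nat_lit 2432) (nat_lit 6) (nat_lit 32) (nat_lit 4) (nat_lit 166) (nat_lit 173) (nat_lit 171)))) (PT.nd (nat_lit 78) (PT.lf (nat_lit 2660) (nat_lit 6) (nat_lit 35) (nat_lit 4) (nat_lit 167) (nat_lit 173) (nat_lit 170)) (PT.nd (nat_lit 78) (PT.lf (nat_lit 2584) (nat_lit 6) (nat_lit 34) (nat_lit 4) (nat_lit 168) (nat_lit 173) (nat_lit 169)) (PT.lf (nat_lit 2584) (nat_lit 6) (nat_lit 34) (nat_lit 2) (nat_lit 169) (nat_lit 173) (nat_lit 168)))))) (PT.nd (nat_lit 52338) (PT.nd (nat_lit 234) (PT.nd (nat_lit 78) (PT.lf (nat_lit 2660) (nat_lit 6) (nat_lit 35) (nat_lit 2) (nat_lit 170) (nat_lit 173) (nat_lit 167)) (PT.nd (nat_lit 78) (PT.lf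 (nat_lit 2432) (nat_lit 6) (nat_lit 32) (nat_lit 2) (nat_lit 171) (nat_lit 173) (nat_lit 166)) (PT.lf (nat_lit 2128) (nat_lit 6) (nat_lit 28) (nat_lit 2) (nat_lit 172) (nat_lit 173) (nat_lit 165)))) (PT.nd (nat_lit 78) (PT.lf (nat_lit 1976) (nat_lit 3) (nat_lit 26) (nat_lit 0) (nat_lit 173) (nat_lit 173) (nat_lit 164)) (PT.nd (nat_lit 78) (PT.lf (nat_lit 1824) (nat_lit 6) (nat_lit 24) (nat_lit 0) (nat_lit 174) (nat_lit 173) (nat_lit 163)) (PT.lf (nat_lit 1596) (nat_lit 6) (nat_lit 21) (nat_lit 0) (nat_lit 175) (nat_lit 173) (nat_lit 162))))) (PT.nd (nat_lit 234) (PT.nd (nat_lit 78) (PT.lf (nat_lit 1368) (nat_lit 6) (nat_lit 18) (nat_lit 5) (nat_lit 160) (nat_lit 174) (nat_lit 176)) (PT.nd (nat_lit 78) (PT.lf (nat_lit 1520) (nat_lit 6) (nat_lit 20) (nat_lit 5) (nat_lit 161) (nat_lit 174) (nat_lit 175)) (PT.lf (nat_lit 1672) (nat_lit 3) (nat_lit 22) (nat_lit 4) (nat_lit 162) (nat_lit 174)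 (nat_lit 174)))) (PT.nd (nat_lit 156) (PT.nd (nat_lit 78) (PT.lf (nat_lit 1824) (nat_lit 6) (nat_lit 24) (nat_lit 4) (nat_lit 163) (nat_lit 174) (nat_lit 173)) (PT.lf (nat_lit 1900) (nat_lit 6) (nat_lit 25) (nat_lit 4) (nat_lit 164) (nat_lit 174) (nat_lit 172))) (PT.nd (nat_lit 78) (PT.lf (nat_lit 2052) (nat_lit 6) (nat_lit 27) (nat_lit 4) (nat_lit 165) (nat_lit 174) (nat_lit 171)) (PT.lf (nat_lit 2356) (nat_lit 6) (nat_lit 31) (nat_lit 4) (nat_lit 166) (nat_lit 174) (nat_lit 170))))))) (PT.nd (nat_lit 52572) (PT.nd (nat_lit 468) (PT.nd (nat_lit 234) (PT.nd (nat_lit 78) (PT.lf (nat_lit 2280) (nat_lit 6) (nat_lit 30) (nat_lit 4) (nat_lit 167) (nat_lit 174) (nat_lit 169)) (PT.nd (nat_lit 78) (PT.lf (nat_lit 2204) (nat_lit 3) (nat_lit 29) (nat_lit 2) (nat_lit 168) (nat_lit 174) (nat_lit 168)) (PT.lf (nat_lit 2280) (nat_lit 6) (nat_lit 30) (nat_lit 2) (nat_lit 169) (nat_lit 174) (nat_lit 167))))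 (PT.nd (nat_lit 78) (PT.lf (nat_lit 2356) (nat_lit 6) (nat_lit 31) (nat_lit 2) (nat_lit 170) (nat_lit 174) (nat_lit 166)) (PT.nd (nat_lit 78) (PT.lf (nat_lit 2052) (nat_lit 6) (nat_lit 27) (nat_lit 2) (nat_lit 171) (nat_lit 174) (nat_lit 165)) (PT.lf (nat_lit 1900) (nat_lit 6) (nat_lit 25) (nat_lit 2) (nat_lit 172) (nat_lit 174) (nat_lit 164))))) (PT.nd (nat_lit 234) (PT.nd (nat_lit 78) (PT.lf (nat_lit 1824) (nat_lit 6) (nat_lit 24) (nat_lit 2) (nat_lit 173) (nat_lit 174) (nat_lit 163)) (PT.nd (nat_lit 78) (PT.lf (nat_lit 1672) (nat_lit 3) (nat_lit 22) (nat_lit 0) (nat_lit 174) (nat_lit 174) (nat_lit 162)) (PT.lf (nat_lit 1520) (nat_lit 6) (nat_lit 20) (nat_lit 0) (nat_lit 175) (nat_lit 174) (nat_lit 161)))) (PT.nd (nat_lit 51714) (PT.lf (nat_lit 1368) (nat_lit 6) (nat_lit 18) (nat_lit 0) (nat_lit 176) (nat_lit 174) (nat_lit 160)) (PT.nd (nat_lit 78) (PT.lf (nat_lit 1140) (nat_lit 6) (nat_lit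 15) (nat_lit 5) (nat_lit 158) (nat_lit 175) (nat_lit 177)) (PT.lf (nat_lit 1292) (nat_lit 6) (nat_lit 17) (nat_lit 5) (nat_lit 159) (nat_lit 175) (nat_lit 176)))))) (PT.nd (nat_lit 1092) (PT.nd (nat_lit 234) (PT.nd (nat_lit 78) (PT.lf (nat_lit 1444) (nat_lit 3) (nat_lit 19) (nat_lit 4) (nat_lit 160) (nat_lit 175) (nat_lit 175)) (PT.nd (nat_lit 78) (PT.lf (nat_lit 1520) (nat_lit 6) (nat_lit 20) (nat_lit 4) (nat_lit 161) (nat_lit 175) (nat_lit 174)) (PT.lf (nat_lit 1596) (nat_lit 6) (nat_lit 21) (nat_lit 4) (nat_lit 162) (nat_lit 175) (nat_lit 173)))) (PT.nd (nat_lit 702) (PT.lf (nat_lit 1748) (nat_lit 6) (nat_lit 23) (nat_lit 4) (nat_lit 163) (nat_lit 175) (nat_lit 172)) (PT.nd (nat_lit 78) (PT.lf (nat_lit 1748) (nat_lit 6) (nat_lit 23) (nat_lit 2) (nat_lit 172) (nat_lit 175) (nat_lit 163)) (PT.lf (nat_lit 1596) (nat_lit 6) (nat_lit 21) (nat_lit 2) (nat_lit 173) (nat_lit 175) (nat_lit 162)))))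 (PT.nd (nat_lit 234) (PT.nd (nat_lit 78) (PT.lf (nat_lit 1520) (nat_lit 6) (nat_lit 20) (nat_lit 2) (nat_lit 174) (nat_lit 175) (nat_lit 161)) (PT.nd (nat_lit 78) (PT.lf (nat_lit 1444) (nat_lit 3) (nat_lit 19) (nat_lit 0) (nat_lit 175) (nat_lit 175) (nat_lit 160)) (PT.lf (nat_lit 1292) (nat_lit 6) (nat_lit 17) (nat_lit 0) (nat_lit 176) (nat_lit 175) (nat_lit 159)))) (PT.nd (nat_lit 51558) (PT.nd (nat_lit 51480) (PT.lf (nat_lit 1140) (nat_lit 6) (nat_lit 15) (nat_lit 0) (nat_lit 177) (nat_lit 175) (nat_lit 158)) (PT.lf (nat_lit 912) (nat_lit 6) (nat_lit 12) (nat_lit 5) (nat_lit 156) (nat_lit 176) (nat_lit 178))) (PT.nd (nat_lit 78) (PT.lf (nat_lit 1064) (nat_lit 6) (nat_lit 14) (nat_lit 5) (nat_lit 157) (nat_lit 176) (nat_lit 177)) (PT.lf (nat_lit 1216) (nat_lit 3) (nat_lit 16) (nat_lit 4) (nat_lit 158) (nat_lit 176) (nat_lit 176))))))))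
noncomputable def pc3 : PT := (PT.nd (nat_lit 107796) (PT.nd (nat_lit 54366) (PT.nd (nat_lit 1482) (PT.nd (nat_lit 1248) (PT.nd (nat_lit 78) (PT.lf (nat_lit 1292) (nat_lit 6) (nat_lit 17) (nat_lit 4) (nat_lit 159) (nat_lit 176) (nat_lit 175)) (PT.nd (nat_lit 1092) (PT.lf (nat_lit 1368) (nat_lit 6) (nat_lit 18) (nat_lit 4) (nat_lit 160) (nat_lit 176) (nat_lit 174)) (PT.lf (nat_lit 1368) (nat_lit 6) (nat_lit 18) (nat_lit 2) (nat_lit 174) (nat_lit 176) (nat_lit 160)))) (PT.nd (nat_lit 78) (PT.lf (nat_lit 1292) (nat_lit 6) (nat_lit 17) (nat_lit 2) (nat_lit 175) (nat_lit 176) (nat_lit 159)) (PT.nd (nat_lit 78) (PT.lf (nat_lit 1216) (nat_lit 3) (nat_lit 16) (nat_lit 0) (nat_lit 176) (nat_lit 176) (nat_lit 158)) (PT.lf (nat_lit 1064) (nat_lit 6) (nat_lit 14) (nat_lit 0) (nat_lit 177) (nat_lit 176) (nat_lit 157))))) (PT.nd (nat_lit 51402) (PT.nd (nat_lit 51246) (PT.lf (nat_lit 912) (nat_lit 6) (nat_lit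 12) (nat_lit 0) (nat_lit 178) (nat_lit 176) (nat_lit 156)) (PT.nd (nat_lit 78) (PT.lf (nat_lit 684) (nat_lit 6) (nat_lit 9) (nat_lit 5) (nat_lit 154) (nat_lit 177) (nat_lit 179)) (PT.lf (nat_lit 836) (nat_lit 6) (nat_lit 11) (nat_lit 5) (nat_lit 155) (nat_lit 177) (nat_lit 178)))) (PT.nd (nat_lit 78) (PT.lf (nat_lit 988) (nat_lit 3) (nat_lit 13) (nat_lit 4) (nat_lit 156) (nat_lit 177) (nat_lit 177)) (PT.nd (nat_lit 78) (PT.lf (nat_lit 1064) (nat_lit 6) (nat_lit 14) (nat_lit 4) (nat_lit 157) (nat_lit 177) (nat_lit 176)) (PT.lf (nat_lit 1140) (nat_lit 6) (nat_lit 15) (nat_lit 4) (nat_lit 158) (nat_lit 177) (nat_lit 175)))))) (PT.nd (nat_lit 51402) (PT.nd (nat_lit 234) (PT.nd (nat_lit 78) (PT.lf (nat_lit 1140) (nat_lit 6) (nat_lit 15) (nat_lit 2) (nat_lit 175) (nat_lit 177) (nat_lit 158)) (PT.nd (nat_lit 78) (PT.lf (nat_lit 1064) (nat_lit 6) (nat_lit 14) (nat_lit 2) (nat_lit 176) (nat_lit 177)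 (nat_lit 157)) (PT.lf (nat_lit 988) (nat_lit 3) (nat_lit 13) (nat_lit 0) (nat_lit 177) (nat_lit 177) (nat_lit 156)))) (PT.nd (nat_lit 78) (PT.lf (nat_lit 836) (nat_lit 6) (nat_lit 11) (nat_lit 0) (nat_lit 178) (nat_lit 177) (nat_lit 155)) (PT.nd (nat_lit 51012) (PT.lf (nat_lit 684) (nat_lit 6) (nat_lit 9) (nat_lit 0) (nat_lit 179) (nat_lit 177) (nat_lit 154)) (PT.lf (nat_lit 456) (nat_lit 6) (nat_lit 6) (nat_lit 5) (nat_lit 152) (nat_lit 178) (nat_lit 180))))) (PT.nd (nat_lit 234) (PT.nd (nat_lit 78) (PT.lf (nat_lit 608) (nat_lit 6) (nat_lit 8) (nat_lit 5) (nat_lit 153) (nat_lit 178) (nat_lit 179)) (PT.nd (nat_lit 78) (PT.lf (nat_lit 760) (nat_lit 3) (nat_lit 10) (nat_lit 4) (nat_lit 154) (nat_lit 178) (nat_lit 178)) (PT.lf (nat_lit 836) (nat_lit 6) (nat_lit 11) (nat_lit 4) (nat_lit 155) (nat_lit 178) (nat_lit 177)))) (PT.nd (nat_lit 1638) (PT.nd (nat_lit 1560) (PT.lf (nat_lit 912) (nat_lit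 6) (nat_lit 12) (nat_lit 4) (nat_lit 156) (nat_lit 178) (nat_lit 176)) (PT.lf (nat_lit 912) (nat_lit 6) (nat_lit 12) (nat_lit 2) (nat_lit 176) (nat_lit 178) (nat_lit 156))) (PT.nd (nat_lit 78) (PT.lf (nat_lit 836) (nat_lit 6) (nat_lit 11) (nat_lit 2) (nat_lit 177) (nat_lit 178) (nat_lit 155)) (PT.lf (nat_lit 760) (nat_lit 3) (nat_lit 10) (nat_lit 0) (nat_lit 178) (nat_lit 178) (nat_lit 154))))))) (PT.nd (nat_lit 103974) (PT.nd (nat_lit 51168) (PT.nd (nat_lit 50934) (PT.nd (nat_lit 78) (PT.lf (nat_lit 608) (nat_lit 6) (nat_lit 8) (nat_lit 0) (nat_lit 179) (nat_lit 178) (nat_lit 153)) (PT.nd (nat_lit 50778) (PT.lf (nat_lit 456) (nat_lit 6) (nat_lit 6) (nat_lit 0) (nat_lit 180) (nat_lit 178) (nat_lit 152)) (PT.lf (nat_lit 228) (nat_lit 6) (nat_lit 3) (nat_lit 5) (nat_lit 150) (nat_lit 179) (nat_lit 181)))) (PT.nd (nat_lit 78) (PT.lf (nat_lit 380) (nat_lit 6) (nat_lit 5) (nat_lit 5) (nat_lit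 151) (nat_lit 179) (nat_lit 180)) (PT.nd (nat_lit 78) (PT.lf (nat_lit 532) (nat_lit 3) (nat_lit 7) (nat_lit 4) (nat_lit 152) (nat_lit 179) (nat_lit 179)) (PT.lf (nat_lit 608) (nat_lit 6) (nat_lit 8) (nat_lit 4) (nat_lit 153) (nat_lit 179) (nat_lit 178))))) (PT.nd (nat_lit 1950) (PT.nd (nat_lit 1794) (PT.lf (nat_lit 684) (nat_lit 6) (nat_lit 9) (nat_lit 4) (nat_lit 154) (nat_lit 179) (nat_lit 177)) (PT.nd (nat_lit 78) (PT.lf (nat_lit 684) (nat_lit 6) (nat_lit 9) (nat_lit 2) (nat_lit 177) (nat_lit 179) (nat_lit 154)) (PT.lf (nat_lit 608) (nat_lit 6) (nat_lit 8) (nat_lit 2) (nat_lit 178) (nat_lit 179) (nat_lit 153)))) (PT.nd (nat_lit 156) (PT.nd (nat_lit 78) (PT.lf (nat_lit 532) (nat_lit 3) (nat_lit 7) (nat_lit 0) (nat_lit 179) (nat_lit 179) (nat_lit 152)) (PT.lf (nat_lit 380) (nat_lit 6) (nat_lit 5) (nat_lit 0) (nat_lit 180) (nat_lit 179) (nat_lit 151))) (PT.nd (nat_lit 50622) (PT.lf (nat_lit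 228) (nat_lit 6) (nat_lit 3) (nat_lit 0) (nat_lit 181) (nat_lit 179) (nat_lit 150)) (PT.lf (nat_lit 152) (nat_lit 6) (nat_lit 2) (nat_lit 5) (nat_lit 149) (nat_lit 180) (nat_lit 181)))))) (PT.nd (nat_lit 2418) (PT.nd (nat_lit 2184) (PT.nd (nat_lit 78) (PT.lf (nat_lit 304) (nat_lit 3) (nat_lit 4) (nat_lit 4) (nat_lit 150) (nat_lit 180) (nat_lit 180)) (PT.nd (nat_lit 78) (PT.lf (nat_lit 380) (nat_lit 6) (nat_lit 5) (nat_lit 4) (nat_lit 151) (nat_lit 180) (nat_lit 179)) (PT.lf (nat_lit 456) (nat_lit 6) (nat_lit 6) (nat_lit 4) (nat_lit 152) (nat_lit 180) (nat_lit 178)))) (PT.nd (nat_lit 78) (PT.lf (nat_lit 456) (nat_lit 6) (nat_lit 6) (nat_lit 2) (nat_lit 178) (nat_lit 180) (nat_lit 152)) (PT.nd (nat_lit 78) (PT.lf (nat_lit 380) (nat_lit 6) (nat_lit 5) (nat_lit 2) (nat_lit 179) (nat_lit 180) (nat_lit 151)) (PT.lf (nat_lit 304) (nat_lit 3) (nat_lit 4) (nat_lit 0) (nat_lit 180) (nat_lit 180) (nat_lit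 150))))) (PT.nd (nat_lit 50700) (PT.nd (nat_lit 50544) (PT.lf (nat_lit 152) (nat_lit 6) (nat_lit 2) (nat_lit 0) (nat_lit 181) (nat_lit 180) (nat_lit 149)) (PT.nd (nat_lit 78) (PT.lf (nat_lit 76) (nat_lit 3) (nat_lit 1) (nat_lit 4) (nat_lit 148) (nat_lit 181) (nat_lit 181)) (PT.lf (nat_lit 152) (nat_lit 6) (nat_lit 2) (nat_lit 4) (nat_lit 149) (nat_lit 181) (nat_lit 180)))) (PT.nd (nat_lit 2340) (PT.nd (nat_lit 2262) (PT.lf (nat_lit 228) (nat_lit 6) (nat_lit 3) (nat_lit 4) (nat_lit 150) (nat_lit 181) (nat_lit 179)) (PT.lf (nat_lit 228) (nat_lit 6) (nat_lit 3) (nat_lit 2) (nat_lit 179) (nat_lit 181) (nat_lit 150))) (PT.nd (nat_lit 78) (PT.lf (nat_lit 152) (nat_lit 6) (nat_lit 2) (nat_lit 2) (nat_lit 180) (nat_lit 181) (nat_lit 149)) (PT.lf (nat_lit 76) (nat_lit 3) (nat_lit 1) (nat_lit 0) (nat_lit 181) (nat_lit 181) (nat_lit 148))))))))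
noncomputable def xc0 : XT := (XT.nd (nat_lit 159198) (nat_lit 0) (nat_lit 0) (XT.nd (nat_lit 106080) (nat_lit 0) (nat_lit 0) (XT.nd (nat_lit 53118) (nat_lit 0) (nat_lit 0) (XT.nd (nat_lit 52962) (nat_lit 0) (nat_lit 0) (XT.nd (nat_lit 78) (nat_lit 0) (nat_lit 0) (XT.lf (nat_lit 0) (nat_lit 15941172502026) (nat_lit 76) (nat_lit 1408554735272) (nat_lit 76) (nat_lit 1408554735272) (nat_lit 1) (nat_lit 4) (nat_lit 2) (nat_lit 5) (nat_lit 2) (nat_lit 4) (nat_lit 418) (nat_lit 301) (nat_lit 301)) (XT.lf (nat_lit 0) (nat_lit 36665749531027) (nat_lit 76) (nat_lit 3239131497163) (nat_lit 76) (nat_lit 3239126350881) (nat_lit 1) (nat_lit 4) (nat_lit 2) (nat_lit 5) (nat_lit 2) (nat_lit 4) (nat_lit 419) (nat_lit 301) (nat_lit 300))) (XT.nd (nat_lit 78) (nat_lit 0) (nat_lit 0) (XT.lf (nat_lit 0) (nat_lit 12052853325511) (nat_lit 76) (nat_lit 1065570228828) (nat_lit 76) (nat_lit 1065570228828) (nat_lit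 1) (nat_lit 4) (nat_lit 2) (nat_lit 5) (nat_lit 2) (nat_lit 4) (nat_lit 416) (nat_lit 302) (nat_lit 302)) (XT.lf (nat_lit 0) (nat_lit 27722773341498) (nat_lit 76) (nat_lit 2450185473246) (nat_lit 76) (nat_lit 2450179555021) (nat_lit 1) (nat_lit 4) (nat_lit 2) (nat_lit 5) (nat_lit 2) (nat_lit 4) (nat_lit 417) (nat_lit 302) (nat_lit 301)))) (XT.nd (nat_lit 52806) (nat_lit 0) (nat_lit 0) (XT.nd (nat_lit 78) (nat_lit 0) (nat_lit 0) (XT.lf (nat_lit 0) (nat_lit 31882297150581) (nat_lit 76) (nat_lit 2817139864941) (nat_lit 76) (nat_lit 2817128800432) (nat_lit 1) (nat_lit 4) (nat_lit 2) (nat_lit 5) (nat_lit 2) (nat_lit 4) (nat_lit 418) (nat_lit 302) (nat_lit 300)) (XT.lf (nat_lit 0) (nat_lit 36665660065842) (nat_lit 76) (nat_lit 3239183175185) (nat_lit 76) (nat_lit 3239167635648) (nat_lit 1) (nat_lit 4) (nat_lit 2) (nat_lit 5) (nat_lit 2) (nat_lit 4) (nat_lit 419) (nat_lit 302) (nat_lit 299))) (XT.nd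 (nat_lit 78) (nat_lit 0) (nat_lit 0) (XT.lf (nat_lit 0) (nat_lit 9112580907083) (nat_lit 76) (nat_lit 806299739155) (nat_lit 76) (nat_lit 806299739155) (nat_lit 1) (nat_lit 4) (nat_lit 2) (nat_lit 5) (nat_lit 2) (nat_lit 4) (nat_lit 414) (nat_lit 303) (nat_lit 303)) (XT.lf (nat_lit 0) (nat_lit 20960328383038) (nat_lit 76) (nat_lit 1853769439041) (nat_lit 76) (nat_lit 1853762633082) (nat_lit 1) (nat_lit 4) (nat_lit 2) (nat_lit 5) (nat_lit 2) (nat_lit 4) (nat_lit 415) (nat_lit 303) (nat_lit 302))))) (XT.nd (nat_lit 52806) (nat_lit 0) (nat_lit 0) (XT.nd (nat_lit 156) (nat_lit 0) (nat_lit 0) (XT.nd (nat_lit 78) (nat_lit 0) (nat_lit 0) (XT.lf (nat_lit 0) (nat_lit 24105651619531) (nat_lit 76) (nat_lit 2131175411211) (nat_lit 76) (nat_lit 2131162687026) (nat_lit 1) (nat_lit 4) (nat_lit 2) (nat_lit 5) (nat_lit 2) (nat_lit 4) (nat_lit 416) (nat_lit 303) (nat_lit 301)) (XT.lf (nat_lit 0) (nat_lit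 27722670456535) (nat_lit 76) (nat_lit 2450244902971) (nat_lit 76) (nat_lit 2450227032503) (nat_lit 1) (nat_lit 4) (nat_lit 2) (nat_lit 5) (nat_lit 2) (nat_lit 4) (nat_lit 417) (nat_lit 303) (nat_lit 300))) (XT.nd (nat_lit 78) (nat_lit 0) (nat_lit 0) (XT.lf (nat_lit 0) (nat_lit 31882152653904) (nat_lit 76) (nat_lit 2817220578291) (nat_lit 76) (nat_lit 2817198232795) (nat_lit 1) (nat_lit 4) (nat_lit 2) (nat_lit 5) (nat_lit 2) (nat_lit 4) (nat_lit 418) (nat_lit 303) (nat_lit 299)) (XT.lf (nat_lit 0) (nat_lit 36665479385066) (nat_lit 76) (nat_lit 3239282396036) (nat_lit 76) (nat_lit 3239256159211) (nat_lit 1) (nat_lit 4) (nat_lit 2) (nat_lit 5) (nat_lit 2) (nat_lit 4) (nat_lit 419) (nat_lit 303) (nat_lit 298)))) (XT.nd (nat_lit 156) (nat_lit 0) (nat_lit 0) (XT.nd (nat_lit 78) (nat_lit 0) (nat_lit 0) (XT.lf (nat_lit 0) (nat_lit 6889146366583) (nat_lit 76) (nat_lit 610340334058) (nat_lit 76) (nat_lit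 610340334058) (nat_lit 1) (nat_lit 4) (nat_lit 2) (nat_lit 5) (nat_lit 2) (nat_lit 4) (nat_lit 412) (nat_lit 304) (nat_lit 304)) (XT.lf (nat_lit 0) (nat_lit 15846637784399) (nat_lit 76) (nat_lit 1402954813164) (nat_lit 76) (nat_lit 1402946986311) (nat_lit 1) (nat_lit 4) (nat_lit 2) (nat_lit 5) (nat_lit 2) (nat_lit 4) (nat_lit 413) (nat_lit 304) (nat_lit 303))) (XT.nd (nat_lit 78) (nat_lit 0) (nat_lit 0) (XT.lf (nat_lit 0) (nat_lit 18225098527952) (nat_lit 76) (nat_lit 1612639674899) (nat_lit 76) (nat_lit 1612625042087) (nat_lit 1) (nat_lit 4) (nat_lit 2) (nat_lit 5) (nat_lit 2) (nat_lit 4) (nat_lit 414) (nat_lit 304) (nat_lit 302)) (XT.lf (nat_lit 0) (nat_lit 20960210065330) (nat_lit 76) (nat_lit 1853837783224) (nat_lit 76) (nat_lit 1853817232187) (nat_lit 1) (nat_lit 4) (nat_lit 2) (nat_lit 5) (nat_lit 2) (nat_lit 4) (nat_lit 415) (nat_lit 304) (nat_lit 301)))))) (XT.nd (nat_lit 52962)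 (nat_lit 0) (nat_lit 0) (XT.nd (nat_lit 52650) (nat_lit 0) (nat_lit 0) (XT.nd (nat_lit 156) (nat_lit 0) (nat_lit 0) (XT.nd (nat_lit 78) (nat_lit 0) (nat_lit 0) (XT.lf (nat_lit 0) (nat_lit 24105485448352) (nat_lit 76) (nat_lit 2131268231564) (nat_lit 76) (nat_lit 2131242534243) (nat_lit 1) (nat_lit 4) (nat_lit 2) (nat_lit 5) (nat_lit 2) (nat_lit 4) (nat_lit 416) (nat_lit 304) (nat_lit 300)) (XT.lf (nat_lit 0) (nat_lit 27722462673642) (nat_lit 76) (nat_lit 2450359006950) (nat_lit 76) (nat_lit 2450328834601) (nat_lit 1) (nat_lit 4) (nat_lit 2) (nat_lit 5) (nat_lit 2) (nat_lit 4) (nat_lit 417) (nat_lit 304) (nat_lit 299))) (XT.nd (nat_lit 78) (nat_lit 0) (nat_lit 0) (XT.lf (nat_lit 0) (nat_lit 31881908686912) (nat_lit 76) (nat_lit 2817353189771) (nat_lit 76) (nat_lit 2817319126093) (nat_lit 1) (nat_lit 4) (nat_lit 2) (nat_lit 5) (nat_lit 2) (nat_lit 4) (nat_lit 418) (nat_lit 304) (nat_lit 298))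 (XT.lf (nat_lit 0) (nat_lit 36665203953639) (nat_lit 76) (nat_lit 3239431100995) (nat_lit 76) (nat_lit 3239393653552) (nat_lit 1) (nat_lit 4) (nat_lit 2) (nat_lit 5) (nat_lit 2) (nat_lit 4) (nat_lit 419) (nat_lit 304) (nat_lit 297)))) (XT.nd (nat_lit 156) (nat_lit 0) (nat_lit 0) (XT.nd (nat_lit 78) (nat_lit 0) (nat_lit 0) (XT.lf (nat_lit 0) (nat_lit 5207719322279) (nat_lit 76) (nat_lit 462266154699) (nat_lit 76) (nat_lit 462266154699) (nat_lit 1) (nat_lit 4) (nat_lit 2) (nat_lit 5) (nat_lit 2) (nat_lit 4) (nat_lit 410) (nat_lit 305) (nat_lit 305)) (XT.lf (nat_lit 0) (nat_lit 11979595753688) (nat_lit 76) (nat_lit 1062260007363) (nat_lit 76) (nat_lit 1062251006482) (nat_lit 1) (nat_lit 4) (nat_lit 2) (nat_lit 5) (nat_lit 2) (nat_lit 4) (nat_lit 411) (nat_lit 305) (nat_lit 304))) (XT.nd (nat_lit 78) (nat_lit 0) (nat_lit 0) (XT.lf (nat_lit 0) (nat_lit 13778219954019) (nat_lit 76) (nat_lit 1220726894192)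 (nat_lit 76) (nat_lit 1220710066458) (nat_lit 1) (nat_lit 4) (nat_lit 2) (nat_lit 5) (nat_lit 2) (nat_lit 4) (nat_lit 412) (nat_lit 305) (nat_lit 303)) (XT.lf (nat_lit 0) (nat_lit 15846501719035) (nat_lit 76) (nat_lit 1403033408975) (nat_lit 76) (nat_lit 1403009775282) (nat_lit 1) (nat_lit 4) (nat_lit 2) (nat_lit 5) (nat_lit 2) (nat_lit 4) (nat_lit 413) (nat_lit 305) (nat_lit 302))))) (XT.nd (nat_lit 312) (nat_lit 0) (nat_lit 0) (XT.nd (nat_lit 156) (nat_lit 0) (nat_lit 0) (XT.nd (nat_lit 78) (nat_lit 0) (nat_lit 0) (XT.lf (nat_lit 0) (nat_lit 18224907431096) (nat_lit 76) (nat_lit 1612746418305) (nat_lit 76) (nat_lit 1612716866386) (nat_lit 1) (nat_lit 4) (nat_lit 2) (nat_lit 5) (nat_lit 2) (nat_lit 4) (nat_lit 414) (nat_lit 305) (nat_lit 301)) (XT.lf (nat_lit 0) (nat_lit 20959971115003) (nat_lit 76) (nat_lit 1853969002800) (nat_lit 76) (nat_lit 1853934304599) (nat_lit 1) (nat_lit 4) (nat_lit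 2) (nat_lit 5) (nat_lit 2) (nat_lit 4) (nat_lit 415) (nat_lit 305) (nat_lit 300))) (XT.nd (nat_lit 78) (nat_lit 0) (nat_lit 0) (XT.lf (nat_lit 0) (nat_lit 24105204886311) (nat_lit 76) (nat_lit 2131420734766) (nat_lit 76) (nat_lit 2131381561535) (nat_lit 1) (nat_lit 4) (nat_lit 2) (nat_lit 5) (nat_lit 2) (nat_lit 4) (nat_lit 416) (nat_lit 305) (nat_lit 299)) (XT.lf (nat_lit 0) (nat_lit 27722145927502) (nat_lit 76) (nat_lit 2450530017653) (nat_lit 76) (nat_lit 2450486953093) (nat_lit 1) (nat_lit 4) (nat_lit 2) (nat_lit 5) (nat_lit 2) (nat_lit 4) (nat_lit 417) (nat_lit 305) (nat_lit 298)))) (XT.nd (nat_lit 52416) (nat_lit 0) (nat_lit 0) (XT.nd (nat_lit 52338) (nat_lit 0) (nat_lit 0) (XT.lf (nat_lit 0) (nat_lit 31881560476338) (nat_lit 76) (nat_lit 2817540293953) (nat_lit 76) (nat_lit 2817493845629) (nat_lit 1) (nat_lit 4) (nat_lit 2) (nat_lit 5) (nat_lit 2) (nat_lit 4) (nat_lit 418) (nat_lit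 305) (nat_lit 297)) (XT.lf (nat_lit 0) (nat_lit 3936099149323) (nat_lit 76) (nat_lit 350414978117) (nat_lit 76) (nat_lit 350414978117) (nat_lit 1) (nat_lit 4) (nat_lit 2) (nat_lit 5) (nat_lit 2) (nat_lit 4) (nat_lit 408) (nat_lit 306) (nat_lit 306))) (XT.nd (nat_lit 78) (nat_lit 0) (nat_lit 0) (XT.lf (nat_lit 0) (nat_lit 9055145552756) (nat_lit 76) (nat_lit 804859478959) (nat_lit 76) (nat_lit 804849127946) (nat_lit 1) (nat_lit 4) (nat_lit 2) (nat_lit 5) (nat_lit 2) (nat_lit 4) (nat_lit 409) (nat_lit 306) (nat_lit 305)) (XT.nd (nat_lit 78) (nat_lit 0) (nat_lit 0) (XT.lf (nat_lit 0) (nat_lit 10415354948539) (nat_lit 76) (nat_lit 924585469386) (nat_lit 76) (nat_lit 924566117491) (nat_lit 1) (nat_lit 4) (nat_lit 2) (nat_lit 5) (nat_lit 2) (nat_lit 4) (nat_lit 410) (nat_lit 306) (nat_lit 304)) (XT.lf (nat_lit 0) (nat_lit 11979439278520) (nat_lit 76) (nat_lit 1062350392545) (nat_lit 76) (nat_lit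 1062323213798) (nat_lit 1) (nat_lit 4) (nat_lit 2) (nat_lit 5) (nat_lit 2) (nat_lit 4) (nat_lit 411) (nat_lit 306) (nat_lit 303))))))))
noncomputable def xc1 : XT := (XT.nd (nat_lit 53352) (nat_lit 0) (nat_lit 0) (XT.nd (nat_lit 52728) (nat_lit 0) (nat_lit 0) (XT.nd (nat_lit 312) (nat_lit 0) (nat_lit 0) (XT.nd (nat_lit 156) (nat_lit 0) (nat_lit 0) (XT.nd (nat_lit 78) (nat_lit 0) (nat_lit 0) (XT.lf (nat_lit 0) (nat_lit 13778000192635) (nat_lit 76) (nat_lit 1220849649109) (nat_lit 76) (nat_lit 1220815664403) (nat_lit 1) (nat_lit 4) (nat_lit 2) (nat_lit 5) (nat_lit 2) (nat_lit 4) (nat_lit 412) (nat_lit 306) (nat_lit 302)) (XT.lf (nat_lit 0) (nat_lit 15846226926159) (nat_lit 76) (nat_lit 1403184311487) (nat_lit 76) (nat_lit 1403144408555) (nat_lit 1) (nat_lit 4) (nat_lit 2) (nat_lit 5) (nat_lit 2) (nat_lit 4) (nat_lit 413) (nat_lit 306) (nat_lit 301))) (XT.nd (nat_lit 78) (nat_lit 0) (nat_lit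 0) (XT.lf (nat_lit 0) (nat_lit 18224584784749) (nat_lit 76) (nat_lit 1612921796987) (nat_lit 76) (nat_lit 1612876747773) (nat_lit 1) (nat_lit 4) (nat_lit 2) (nat_lit 5) (nat_lit 2) (nat_lit 4) (nat_lit 414) (nat_lit 306) (nat_lit 300)) (XT.lf (nat_lit 0) (nat_lit 20959606856942) (nat_lit 76) (nat_lit 1854165665109) (nat_lit 76) (nat_lit 1854116140865) (nat_lit 1) (nat_lit 4) (nat_lit 2) (nat_lit 5) (nat_lit 2) (nat_lit 4) (nat_lit 415) (nat_lit 306) (nat_lit 299)))) (XT.nd (nat_lit 156) (nat_lit 0) (nat_lit 0) (XT.nd (nat_lit 78) (nat_lit 0) (nat_lit 0) (XT.lf (nat_lit 0) (nat_lit 24104804444151) (nat_lit 76) (nat_lit 2131635904575) (nat_lit 76) (nat_lit 2131582489002) (nat_lit 1) (nat_lit 4) (nat_lit 2) (nat_lit 5) (nat_lit 2) (nat_lit 4) (nat_lit 416) (nat_lit 306) (nat_lit 298)) (XT.lf (nat_lit 0) (nat_lit 27721714020907) (nat_lit 76) (nat_lit 2450761280941) (nat_lit 76) (nat_lit 2450704481604)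 (nat_lit 1) (nat_lit 4) (nat_lit 2) (nat_lit 5) (nat_lit 2) (nat_lit 4) (nat_lit 417) (nat_lit 306) (nat_lit 297))) (XT.nd (nat_lit 52182) (nat_lit 0) (nat_lit 0) (XT.lf (nat_lit 0) (nat_lit 31881101209366) (nat_lit 76) (nat_lit 2817785551571) (nat_lit 76) (nat_lit 2817725809830) (nat_lit 1) (nat_lit 4) (nat_lit 2) (nat_lit 5) (nat_lit 2) (nat_lit 4) (nat_lit 418) (nat_lit 306) (nat_lit 296)) (XT.lf (nat_lit 0) (nat_lit 2974318882744) (nat_lit 76) (nat_lit 265970722161) (nat_lit 76) (nat_lit 265970722161) (nat_lit 1) (nat_lit 4) (nat_lit 2) (nat_lit 5) (nat_lit 2) (nat_lit 4) (nat_lit 406) (nat_lit 307) (nat_lit 307))))) (XT.nd (nat_lit 312) (nat_lit 0) (nat_lit 0) (XT.nd (nat_lit 156) (nat_lit 0) (nat_lit 0) (XT.nd (nat_lit 78) (nat_lit 0) (nat_lit 0) (XT.lf (nat_lit 0) (nat_lit 6843368566022) (nat_lit 76) (nat_lit 610473444652) (nat_lit 76) (nat_lit 610461540987) (nat_lit 1) (nat_lit 4)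 (nat_lit 2) (nat_lit 5) (nat_lit 2) (nat_lit 4) (nat_lit 407) (nat_lit 307) (nat_lit 306)) (XT.lf (nat_lit 0) (nat_lit 7872102048224) (nat_lit 76) (nat_lit 700891090220) (nat_lit 76) (nat_lit 700868835542) (nat_lit 1) (nat_lit 4) (nat_lit 2) (nat_lit 5) (nat_lit 2) (nat_lit 4) (nat_lit 408) (nat_lit 307) (nat_lit 305))) (XT.nd (nat_lit 78) (nat_lit 0) (nat_lit 0) (XT.lf (nat_lit 0) (nat_lit 9054965606313) (nat_lit 76) (nat_lit 804963421918) (nat_lit 76) (nat_lit 804932166359) (nat_lit 1) (nat_lit 4) (nat_lit 2) (nat_lit 5) (nat_lit 2) (nat_lit 4) (nat_lit 409) (nat_lit 307) (nat_lit 304)) (XT.lf (nat_lit 0) (nat_lit 10415102222947) (nat_lit 76) (nat_lit 924726637540) (nat_lit 76) (nat_lit 924687555128) (nat_lit 1) (nat_lit 4) (nat_lit 2) (nat_lit 5) (nat_lit 2) (nat_lit 4) (nat_lit 410) (nat_lit 307) (nat_lit 303)))) (XT.nd (nat_lit 156) (nat_lit 0) (nat_lit 0) (XT.nd (nat_lit 78) (nat_lit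 0) (nat_lit 0) (XT.lf (nat_lit 0) (nat_lit 11979123266713) (nat_lit 76) (nat_lit 1062523930435) (nat_lit 76) (nat_lit 1062478042063) (nat_lit 1) (nat_lit 4) (nat_lit 2) (nat_lit 5) (nat_lit 2) (nat_lit 4) (nat_lit 411) (nat_lit 307) (nat_lit 302)) (XT.lf (nat_lit 0) (nat_lit 13777629149335) (nat_lit 76) (nat_lit 1221051334594) (nat_lit 76) (nat_lit 1220999527997) (nat_lit 1) (nat_lit 4) (nat_lit 2) (nat_lit 5) (nat_lit 2) (nat_lit 4) (nat_lit 412) (nat_lit 307) (nat_lit 301))) (XT.nd (nat_lit 78) (nat_lit 0) (nat_lit 0) (XT.lf (nat_lit 0) (nat_lit 15845808029389) (nat_lit 76) (nat_lit 1403410473142) (nat_lit 76) (nat_lit 1403353520262) (nat_lit 1) (nat_lit 4) (nat_lit 2) (nat_lit 5) (nat_lit 2) (nat_lit 4) (nat_lit 413) (nat_lit 307) (nat_lit 300)) (XT.lf (nat_lit 0) (nat_lit 18224124276264) (nat_lit 76) (nat_lit 1613169242268) (nat_lit 76) (nat_lit 1613107814360) (nat_lit 1) (nat_lit 4)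 (nat_lit 2) (nat_lit 5) (nat_lit 2) (nat_lit 4) (nat_lit 414) (nat_lit 307) (nat_lit 299)))))) (XT.nd (nat_lit 52572) (nat_lit 0) (nat_lit 0) (XT.nd (nat_lit 52260) (nat_lit 0) (nat_lit 0) (XT.nd (nat_lit 156) (nat_lit 0) (nat_lit 0) (XT.nd (nat_lit 78) (nat_lit 0) (nat_lit 0) (XT.lf (nat_lit 0) (nat_lit 20959110164358) (nat_lit 76) (nat_lit 1854431617890) (nat_lit 76) (nat_lit 1854366298652) (nat_lit 1) (nat_lit 4) (nat_lit 2) (nat_lit 5) (nat_lit 2) (nat_lit 4) (nat_lit 415) (nat_lit 307) (nat_lit 298)) (XT.lf (nat_lit 0) (nat_lit 24104276287133) (nat_lit 76) (nat_lit 2131917950835) (nat_lit 76) (nat_lit 2131849247833) (nat_lit 1) (nat_lit 4) (nat_lit 2) (nat_lit 5) (nat_lit 2) (nat_lit 4) (nat_lit 416) (nat_lit 307) (nat_lit 297))) (XT.nd (nat_lit 78) (nat_lit 0) (nat_lit 0) (XT.lf (nat_lit 0) (nat_lit 27721158503512) (nat_lit 76) (nat_lit 2451057321531) (nat_lit 76) (nat_lit 2450985676125)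 (nat_lit 1) (nat_lit 4) (nat_lit 2) (nat_lit 5) (nat_lit 2) (nat_lit 4) (nat_lit 417) (nat_lit 307) (nat_lit 296)) (XT.lf (nat_lit 0) (nat_lit 31880521900338) (nat_lit 76) (nat_lit 2818093761143) (nat_lit 76) (nat_lit 2818019557125) (nat_lit 1) (nat_lit 4) (nat_lit 2) (nat_lit 5) (nat_lit 2) (nat_lit 4) (nat_lit 418) (nat_lit 307) (nat_lit 295)))) (XT.nd (nat_lit 156) (nat_lit 0) (nat_lit 0) (XT.nd (nat_lit 78) (nat_lit 0) (nat_lit 0) (XT.lf (nat_lit 0) (nat_lit 2246784190409) (nat_lit 76) (nat_lit 202269731109) (nat_lit 76) (nat_lit 202269731109) (nat_lit 1) (nat_lit 4) (nat_lit 2) (nat_lit 5) (nat_lit 2) (nat_lit 4) (nat_lit 404) (nat_lit 308) (nat_lit 308)) (XT.lf (nat_lit 0) (nat_lit 5170404044007) (nat_lit 76) (nat_lit 463772282786) (nat_lit 76) (nat_lit 463758593571) (nat_lit 1) (nat_lit 4) (nat_lit 2) (nat_lit 5) (nat_lit 2) (nat_lit 4) (nat_lit 405) (nat_lit 308) (nat_lit 307)))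 (XT.nd (nat_lit 78) (nat_lit 0) (nat_lit 0) (XT.lf (nat_lit 0) (nat_lit 5948527077502) (nat_lit 76) (nat_lit 532011748405) (nat_lit 76) (nat_lit 531986155525) (nat_lit 1) (nat_lit 4) (nat_lit 2) (nat_lit 5) (nat_lit 2) (nat_lit 4) (nat_lit 406) (nat_lit 308) (nat_lit 306)) (XT.lf (nat_lit 0) (nat_lit 6843161627611) (nat_lit 76) (nat_lit 610592979056) (nat_lit 76) (nat_lit 610557035162) (nat_lit 1) (nat_lit 4) (nat_lit 2) (nat_lit 5) (nat_lit 2) (nat_lit 4) (nat_lit 407) (nat_lit 308) (nat_lit 305))))) (XT.nd (nat_lit 312) (nat_lit 0) (nat_lit 0) (XT.nd (nat_lit 156) (nat_lit 0) (nat_lit 0) (XT.nd (nat_lit 78) (nat_lit 0) (nat_lit 0) (XT.lf (nat_lit 0) (nat_lit 7871811413794) (nat_lit 76) (nat_lit 701053433598) (nat_lit 76) (nat_lit 701008488824) (nat_lit 1) (nat_lit 4) (nat_lit 2) (nat_lit 5) (nat_lit 2) (nat_lit 4) (nat_lit 408) (nat_lit 308) (nat_lit 304)) (XT.lf (nat_lit 0) (nat_lit 9054602192735)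 (nat_lit 76) (nat_lit 805162990491) (nat_lit 76) (nat_lit 805110218864) (nat_lit 1) (nat_lit 4) (nat_lit 2) (nat_lit 5) (nat_lit 2) (nat_lit 4) (nat_lit 409) (nat_lit 308) (nat_lit 303))) (XT.nd (nat_lit 78) (nat_lit 0) (nat_lit 0) (XT.lf (nat_lit 0) (nat_lit 10414675523153) (nat_lit 76) (nat_lit 924958575847) (nat_lit 76) (nat_lit 924898998261) (nat_lit 1) (nat_lit 4) (nat_lit 2) (nat_lit 5) (nat_lit 2) (nat_lit 4) (nat_lit 410) (nat_lit 308) (nat_lit 302)) (XT.lf (nat_lit 0) (nat_lit 11978641535427) (nat_lit 76) (nat_lit 1062784016337) (nat_lit 76) (nat_lit 1062718520526) (nat_lit 1) (nat_lit 4) (nat_lit 2) (nat_lit 5) (nat_lit 2) (nat_lit 4) (nat_lit 411) (nat_lit 308) (nat_lit 301)))) (XT.nd (nat_lit 156) (nat_lit 0) (nat_lit 0) (XT.nd (nat_lit 78) (nat_lit 0) (nat_lit 0) (XT.lf (nat_lit 0) (nat_lit 13777099564578) (nat_lit 76) (nat_lit 1221335896666) (nat_lit 76) (nat_lit 1221265254572)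 (nat_lit 1) (nat_lit 4) (nat_lit 2) (nat_lit 5) (nat_lit 2) (nat_lit 4) (nat_lit 412) (nat_lit 308) (nat_lit 300)) (XT.lf (nat_lit 0) (nat_lit 15845236832917) (nat_lit 76) (nat_lit 1403716318840) (nat_lit 76) (nat_lit 1403641201717) (nat_lit 1) (nat_lit 4) (nat_lit 2) (nat_lit 5) (nat_lit 2) (nat_lit 4) (nat_lit 413) (nat_lit 308) (nat_lit 299))) (XT.nd (nat_lit 78) (nat_lit 0) (nat_lit 0) (XT.lf (nat_lit 0) (nat_lit 18223516895694) (nat_lit 76) (nat_lit 1613493595468) (nat_lit 76) (nat_lit 1613414587015) (nat_lit 1) (nat_lit 4) (nat_lit 2) (nat_lit 5) (nat_lit 2) (nat_lit 4) (nat_lit 414) (nat_lit 308) (nat_lit 298)) (XT.nd (nat_lit 78) (nat_lit 0) (nat_lit 0) (XT.lf (nat_lit 0) (nat_lit 20958471319354) (nat_lit 76) (nat_lit 1854772064569) (nat_lit 76) (nat_lit 1854689672352) (nat_lit 1) (nat_lit 4) (nat_lit 2) (nat_lit 5) (nat_lit 2) (nat_lit 4) (nat_lit 415) (nat_lit 308) (nat_lit 297))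 (XT.lf (nat_lit 0) (nat_lit 24103610081751) (nat_lit 76) (nat_lit 2132272391844) (nat_lit 76) (nat_lit 2132187057222) (nat_lit 1) (nat_lit 4) (nat_lit 2) (nat_lit 5) (nat_lit 2) (nat_lit 4) (nat_lit 416) (nat_lit 308) (nat_lit 296))))))))
noncomputable def xc2 : XT := (XT.nd (nat_lit 53040) (nat_lit 0) (nat_lit 0) (XT.nd (nat_lit 52416) (nat_lit 0) (nat_lit 0) (XT.nd (nat_lit 52104) (nat_lit 0) (nat_lit 0) (XT.nd (nat_lit 51948) (nat_lit 0) (nat_lit 0) (XT.nd (nat_lit 78) (nat_lit 0) (nat_lit 0) (XT.lf (nat_lit 0) (nat_lit 27720468506497) (nat_lit 76) (nat_lit 2451423931522) (nat_lit 76) (nat_lit 2451336038288) (nat_lit 1) (nat_lit 4) (nat_lit 2) (nat_lit 5) (nat_lit 2) (nat_lit 4) (nat_lit 417) (nat_lit 308) (nat_lit 295)) (XT.lf (nat_lit 0) (nat_lit 31879811214947) (nat_lit 76) (nat_lit 2818470952857) (nat_lit 76) (nat_lit 2818380834744) (nat_lit 1) (nat_lit 4) (nat_lit 2) (nat_lit 5)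 (nat_lit 2) (nat_lit 4) (nat_lit 418) (nat_lit 308) (nat_lit 294))) (XT.nd (nat_lit 78) (nat_lit 0) (nat_lit 0) (XT.lf (nat_lit 0) (nat_lit 1696329210467) (nat_lit 76) (nat_lit 154276278205) (nat_lit 76) (nat_lit 154276278205) (nat_lit 1) (nat_lit 4) (nat_lit 2) (nat_lit 5) (nat_lit 2) (nat_lit 4) (nat_lit 402) (nat_lit 309) (nat_lit 309)) (XT.lf (nat_lit 0) (nat_lit 3904777651049) (nat_lit 76) (nat_lit 353170126290) (nat_lit 76) (nat_lit 353154383693) (nat_lit 1) (nat_lit 4) (nat_lit 2) (nat_lit 5) (nat_lit 2) (nat_lit 4) (nat_lit 403) (nat_lit 309) (nat_lit 308)))) (XT.nd (nat_lit 156) (nat_lit 0) (nat_lit 0) (XT.nd (nat_lit 78) (nat_lit 0) (nat_lit 0) (XT.lf (nat_lit 0) (nat_lit 4493441089634) (nat_lit 76) (nat_lit 404620311915) (nat_lit 76) (nat_lit 404590880103) (nat_lit 1) (nat_lit 4) (nat_lit 2) (nat_lit 5) (nat_lit 2) (nat_lit 4) (nat_lit 404) (nat_lit 309) (nat_lit 307)) (XT.lf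 (nat_lit 0) (nat_lit 5170166064836) (nat_lit 76) (nat_lit 463909747350) (nat_lit 76) (nat_lit 463868411873) (nat_lit 1) (nat_lit 4) (nat_lit 2) (nat_lit 5) (nat_lit 2) (nat_lit 4) (nat_lit 405) (nat_lit 309) (nat_lit 306))) (XT.nd (nat_lit 78) (nat_lit 0) (nat_lit 0) (XT.lf (nat_lit 0) (nat_lit 5948192847907) (nat_lit 76) (nat_lit 532198443290) (nat_lit 76) (nat_lit 532146756799) (nat_lit 1) (nat_lit 4) (nat_lit 2) (nat_lit 5) (nat_lit 2) (nat_lit 4) (nat_lit 406) (nat_lit 309) (nat_lit 305)) (XT.lf (nat_lit 0) (nat_lit 6842743701996) (nat_lit 76) (nat_lit 610822482914) (nat_lit 76) (nat_lit 610761795543) (nat_lit 1) (nat_lit 4) (nat_lit 2) (nat_lit 5) (nat_lit 2) (nat_lit 4) (nat_lit 407) (nat_lit 309) (nat_lit 304))))) (XT.nd (nat_lit 312) (nat_lit 0) (nat_lit 0) (XT.nd (nat_lit 156) (nat_lit 0) (nat_lit 0) (XT.nd (nat_lit 78) (nat_lit 0) (nat_lit 0) (XT.lf (nat_lit 0) (nat_lit 7871320709030)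 (nat_lit 76) (nat_lit 701320162652) (nat_lit 76) (nat_lit 701251648427) (nat_lit 1) (nat_lit 4) (nat_lit 2) (nat_lit 5) (nat_lit 2) (nat_lit 4) (nat_lit 408) (nat_lit 309) (nat_lit 303)) (XT.lf (nat_lit 0) (nat_lit 9054048201756) (nat_lit 76) (nat_lit 805462089279) (nat_lit 76) (nat_lit 805386769096) (nat_lit 1) (nat_lit 4) (nat_lit 2) (nat_lit 5) (nat_lit 2) (nat_lit 4) (nat_lit 409) (nat_lit 309) (nat_lit 302))) (XT.nd (nat_lit 78) (nat_lit 0) (nat_lit 0) (XT.lf (nat_lit 0) (nat_lit 10414066500682) (nat_lit 76) (nat_lit 925285822231) (nat_lit 76) (nat_lit 925204583822) (nat_lit 1) (nat_lit 4) (nat_lit 2) (nat_lit 5) (nat_lit 2) (nat_lit 4) (nat_lit 410) (nat_lit 309) (nat_lit 301)) (XT.lf (nat_lit 0) (nat_lit 11977984659485) (nat_lit 76) (nat_lit 1063135738891) (nat_lit 76) (nat_lit 1063049354199) (nat_lit 1) (nat_lit 4) (nat_lit 2) (nat_lit 5) (nat_lit 2) (nat_lit 4) (nat_lit 411) (nat_lit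 309) (nat_lit 300)))) (XT.nd (nat_lit 156) (nat_lit 0) (nat_lit 0) (XT.nd (nat_lit 78) (nat_lit 0) (nat_lit 0) (XT.lf (nat_lit 0) (nat_lit 13776401076922) (nat_lit 76) (nat_lit 1221708902846) (nat_lit 76) (nat_lit 1221618043125) (nat_lit 1) (nat_lit 4) (nat_lit 2) (nat_lit 5) (nat_lit 2) (nat_lit 4) (nat_lit 412) (nat_lit 309) (nat_lit 299)) (XT.lf (nat_lit 0) (nat_lit 15844502161162) (nat_lit 76) (nat_lit 1404107832521) (nat_lit 76) (nat_lit 1404013081471) (nat_lit 1) (nat_lit 4) (nat_lit 2) (nat_lit 5) (nat_lit 2) (nat_lit 4) (nat_lit 413) (nat_lit 309) (nat_lit 298))) (XT.nd (nat_lit 78) (nat_lit 0) (nat_lit 0) (XT.lf (nat_lit 0) (nat_lit 18222750759505) (nat_lit 76) (nat_lit 1613901202627) (nat_lit 76) (nat_lit 1613803067813) (nat_lit 1) (nat_lit 4) (nat_lit 2) (nat_lit 5) (nat_lit 2) (nat_lit 4) (nat_lit 414) (nat_lit 309) (nat_lit 297)) (XT.lf (nat_lit 0) (nat_lit 20957677822787) (nat_lit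 76) (nat_lit 1855193666058) (nat_lit 76) (nat_lit 1855092588839) (nat_lit 1) (nat_lit 4) (nat_lit 2) (nat_lit 5) (nat_lit 2) (nat_lit 4) (nat_lit 415) (nat_lit 309) (nat_lit 296)))))) (XT.nd (nat_lit 52260) (nat_lit 0) (nat_lit 0) (XT.nd (nat_lit 51948) (nat_lit 0) (nat_lit 0) (XT.nd (nat_lit 156) (nat_lit 0) (nat_lit 0) (XT.nd (nat_lit 78) (nat_lit 0) (nat_lit 0) (XT.lf (nat_lit 0) (nat_lit 24102792793551) (nat_lit 76) (nat_lit 2132706162315) (nat_lit 76) (nat_lit 2132602526484) (nat_lit 1) (nat_lit 4) (nat_lit 2) (nat_lit 5) (nat_lit 2) (nat_lit 4) (nat_lit 416) (nat_lit 309) (nat_lit 295)) (XT.lf (nat_lit 0) (nat_lit 27719630529922) (nat_lit 76) (nat_lit 2451868283717) (nat_lit 76) (nat_lit 2451762423006) (nat_lit 1) (nat_lit 4) (nat_lit 2) (nat_lit 5) (nat_lit 2) (nat_lit 4) (nat_lit 417) (nat_lit 309) (nat_lit 294))) (XT.nd (nat_lit 51714) (nat_lit 0) (nat_lit 0) (XT.lf (nat_lit 0)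 (nat_lit 31878955248479) (nat_lit 76) (nat_lit 2818924506551) (nat_lit 76) (nat_lit 2818816711162) (nat_lit 1) (nat_lit 4) (nat_lit 2) (nat_lit 5) (nat_lit 2) (nat_lit 4) (nat_lit 418) (nat_lit 309) (nat_lit 293)) (XT.lf (nat_lit 0) (nat_lit 1279721799217) (nat_lit 76) (nat_lit 118186028010) (nat_lit 76) (nat_lit 118186028010) (nat_lit 1) (nat_lit 4) (nat_lit 2) (nat_lit 5) (nat_lit 2) (nat_lit 4) (nat_lit 400) (nat_lit 310) (nat_lit 310)))) (XT.nd (nat_lit 156) (nat_lit 0) (nat_lit 0) (XT.nd (nat_lit 78) (nat_lit 0) (nat_lit 0) (XT.lf (nat_lit 0) (nat_lit 2947063675221) (nat_lit 76) (nat_lit 269912753806) (nat_lit 76) (nat_lit 269894649819) (nat_lit 1) (nat_lit 4) (nat_lit 2) (nat_lit 5) (nat_lit 2) (nat_lit 4) (nat_lit 401) (nat_lit 310) (nat_lit 309)) (XT.lf (nat_lit 0) (nat_lit 3392512036071) (nat_lit 76) (nat_lit 308645533560) (nat_lit 76) (nat_lit 308611686976) (nat_lit 1) (nat_lit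 4) (nat_lit 2) (nat_lit 5) (nat_lit 2) (nat_lit 4) (nat_lit 402) (nat_lit 310) (nat_lit 308))) (XT.nd (nat_lit 78) (nat_lit 0) (nat_lit 0) (XT.lf (nat_lit 0) (nat_lit 3904503975002) (nat_lit 76) (nat_lit 353328210539) (nat_lit 76) (nat_lit 353280674740) (nat_lit 1) (nat_lit 4) (nat_lit 2) (nat_lit 5) (nat_lit 2) (nat_lit 4) (nat_lit 403) (nat_lit 310) (nat_lit 307)) (XT.lf (nat_lit 0) (nat_lit 4493056725600) (nat_lit 76) (nat_lit 404835011032) (nat_lit 76) (nat_lit 404775571568) (nat_lit 1) (nat_lit 4) (nat_lit 2) (nat_lit 5) (nat_lit 2) (nat_lit 4) (nat_lit 404) (nat_lit 310) (nat_lit 306))))) (XT.nd (nat_lit 312) (nat_lit 0) (nat_lit 0) (XT.nd (nat_lit 156) (nat_lit 0) (nat_lit 0) (XT.nd (nat_lit 78) (nat_lit 0) (nat_lit 0) (XT.lf (nat_lit 0) (nat_lit 5169685450378) (nat_lit 76) (nat_lit 464173676788) (nat_lit 76) (nat_lit 464103886311) (nat_lit 1) (nat_lit 4) (nat_lit 2) (nat_lit 5) (nat_lit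 2) (nat_lit 4) (nat_lit 405) (nat_lit 310) (nat_lit 305)) (XT.lf (nat_lit 0) (nat_lit 5947628537430) (nat_lit 76) (nat_lit 532505181701) (nat_lit 76) (nat_lit 532426390343) (nat_lit 1) (nat_lit 4) (nat_lit 2) (nat_lit 5) (nat_lit 2) (nat_lit 4) (nat_lit 406) (nat_lit 310) (nat_lit 304))) (XT.nd (nat_lit 78) (nat_lit 0) (nat_lit 0) (XT.lf (nat_lit 0) (nat_lit 6842106612371) (nat_lit 76) (nat_lit 611166446521) (nat_lit 76) (nat_lit 611079828310) (nat_lit 1) (nat_lit 4) (nat_lit 2) (nat_lit 5) (nat_lit 2) (nat_lit 4) (nat_lit 407) (nat_lit 310) (nat_lit 303)) (XT.lf (nat_lit 0) (nat_lit 7870620333189) (nat_lit 76) (nat_lit 701696495993) (nat_lit 76) (nat_lit 701603071822) (nat_lit 1) (nat_lit 4) (nat_lit 2) (nat_lit 5) (nat_lit 2) (nat_lit 4) (nat_lit 408) (nat_lit 310) (nat_lit 302)))) (XT.nd (nat_lit 156) (nat_lit 0) (nat_lit 0) (XT.nd (nat_lit 78) (nat_lit 0) (nat_lit 0) (XT.lf (nat_lit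 0) (nat_lit 9053292794423) (nat_lit 76) (nat_lit 805866570216) (nat_lit 76) (nat_lit 805767227820) (nat_lit 1) (nat_lit 4) (nat_lit 2) (nat_lit 5) (nat_lit 2) (nat_lit 4) (nat_lit 409) (nat_lit 310) (nat_lit 301)) (XT.lf (nat_lit 0) (nat_lit 10413263239878) (nat_lit 76) (nat_lit 925714779337) (nat_lit 76) (nat_lit 925610290659) (nat_lit 1) (nat_lit 4) (nat_lit 2) (nat_lit 5) (nat_lit 2) (nat_lit 4) (nat_lit 410) (nat_lit 310) (nat_lit 300))) (XT.nd (nat_lit 78) (nat_lit 0) (nat_lit 0) (XT.lf (nat_lit 0) (nat_lit 11977139786966) (nat_lit 76) (nat_lit 1063585979623) (nat_lit 76) (nat_lit 1063477015916) (nat_lit 1) (nat_lit 4) (nat_lit 2) (nat_lit 5) (nat_lit 2) (nat_lit 4) (nat_lit 411) (nat_lit 310) (nat_lit 299)) (XT.nd (nat_lit 78) (nat_lit 0) (nat_lit 0) (XT.lf (nat_lit 0) (nat_lit 13775520020305) (nat_lit 76) (nat_lit 1222177651079) (nat_lit 76) (nat_lit 1222064796043) (nat_lit 1) (nat_lit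 4) (nat_lit 2) (nat_lit 5) (nat_lit 2) (nat_lit 4) (nat_lit 412) (nat_lit 310) (nat_lit 298)) (XT.lf (nat_lit 0) (nat_lit 15843589640110) (nat_lit 76) (nat_lit 1404592674233) (nat_lit 76) (nat_lit 1404476435432) (nat_lit 1) (nat_lit 4) (nat_lit 2) (nat_lit 5) (nat_lit 2) (nat_lit 4) (nat_lit 413) (nat_lit 310) (nat_lit 297))))))))
noncomputable def xc3 : XT := (XT.nd (nat_lit 52728) (nat_lit 0) (nat_lit 0) (XT.nd (nat_lit 52104) (nat_lit 0) (nat_lit 0) (XT.nd (nat_lit 312) (nat_lit 0) (nat_lit 0) (XT.nd (nat_lit 156) (nat_lit 0) (nat_lit 0) (XT.nd (nat_lit 78) (nat_lit 0) (nat_lit 0) (XT.lf (nat_lit 0) (nat_lit 18221810878075) (nat_lit 76) (nat_lit 1614400038669) (nat_lit 76) (nat_lit 1614280857464) (nat_lit 1) (nat_lit 4) (nat_lit 2) (nat_lit 5) (nat_lit 2) (nat_lit 4) (nat_lit 414) (nat_lit 310) (nat_lit 296)) (XT.lf (nat_lit 0) (nat_lit 20956714149725) (nat_lit 76) (nat_lit 1855704671082)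 (nat_lit 76) (nat_lit 1855582931265) (nat_lit 1) (nat_lit 4) (nat_lit 2) (nat_lit 5) (nat_lit 2) (nat_lit 4) (nat_lit 415) (nat_lit 310) (nat_lit 295))) (XT.nd (nat_lit 78) (nat_lit 0) (nat_lit 0) (XT.lf (nat_lit 0) (nat_lit 24101808432113) (nat_lit 76) (nat_lit 2133227749063) (nat_lit 76) (nat_lit 2133103784366) (nat_lit 1) (nat_lit 4) (nat_lit 2) (nat_lit 5) (nat_lit 2) (nat_lit 4) (nat_lit 416) (nat_lit 310) (nat_lit 294)) (XT.lf (nat_lit 0) (nat_lit 27718628178591) (nat_lit 76) (nat_lit 2452399071963) (nat_lit 76) (nat_lit 2452273172588) (nat_lit 1) (nat_lit 4) (nat_lit 2) (nat_lit 5) (nat_lit 2) (nat_lit 4) (nat_lit 417) (nat_lit 310) (nat_lit 293)))) (XT.nd (nat_lit 51636) (nat_lit 0) (nat_lit 0) (XT.nd (nat_lit 51558) (nat_lit 0) (nat_lit 0) (XT.lf (nat_lit 0) (nat_lit 31877937253764) (nat_lit 76) (nat_lit 2819463296101) (nat_lit 76) (nat_lit 2819335714397) (nat_lit 1) (nat_lit 4)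 (nat_lit 2) (nat_lit 5) (nat_lit 2) (nat_lit 4) (nat_lit 418) (nat_lit 310) (nat_lit 292)) (XT.lf (nat_lit 0) (nat_lit 964264724812) (nat_lit 76) (nat_lit 91126263459) (nat_lit 76) (nat_lit 91126263459) (nat_lit 1) (nat_lit 4) (nat_lit 2) (nat_lit 5) (nat_lit 2) (nat_lit 4) (nat_lit 398) (nat_lit 311) (nat_lit 311))) (XT.nd (nat_lit 78) (nat_lit 0) (nat_lit 0) (XT.lf (nat_lit 0) (nat_lit 2222067934644) (nat_lit 76) (nat_lit 207388028746) (nat_lit 76) (nat_lit 207367209161) (nat_lit 1) (nat_lit 4) (nat_lit 2) (nat_lit 5) (nat_lit 2) (nat_lit 4) (nat_lit 399) (nat_lit 311) (nat_lit 310)) (XT.lf (nat_lit 0) (nat_lit 2559275255842) (nat_lit 76) (nat_lit 236478979743) (nat_lit 76) (nat_lit 236440056172) (nat_lit 1) (nat_lit 4) (nat_lit 2) (nat_lit 5) (nat_lit 2) (nat_lit 4) (nat_lit 400) (nat_lit 311) (nat_lit 309))))) (XT.nd (nat_lit 312) (nat_lit 0) (nat_lit 0) (XT.nd (nat_lit 156) (nat_lit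 0) (nat_lit 0) (XT.nd (nat_lit 78) (nat_lit 0) (nat_lit 0) (XT.lf (nat_lit 0) (nat_lit 2946748947766) (nat_lit 76) (nat_lit 270094550692) (nat_lit 76) (nat_lit 270039884523) (nat_lit 1) (nat_lit 4) (nat_lit 2) (nat_lit 5) (nat_lit 2) (nat_lit 4) (nat_lit 401) (nat_lit 311) (nat_lit 308)) (XT.lf (nat_lit 0) (nat_lit 3392070017432) (nat_lit 76) (nat_lit 308892437545) (nat_lit 76) (nat_lit 308824082161) (nat_lit 1) (nat_lit 4) (nat_lit 2) (nat_lit 5) (nat_lit 2) (nat_lit 4) (nat_lit 402) (nat_lit 311) (nat_lit 307))) (XT.nd (nat_lit 78) (nat_lit 0) (nat_lit 0) (XT.lf (nat_lit 0) (nat_lit 3903951268376) (nat_lit 76) (nat_lit 353631729392) (nat_lit 76) (nat_lit 353551470343) (nat_lit 1) (nat_lit 4) (nat_lit 2) (nat_lit 5) (nat_lit 2) (nat_lit 4) (nat_lit 403) (nat_lit 311) (nat_lit 306)) (XT.lf (nat_lit 0) (nat_lit 4492407768551) (nat_lit 76) (nat_lit 405187760205) (nat_lit 76) (nat_lit 405097150144)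 (nat_lit 1) (nat_lit 4) (nat_lit 2) (nat_lit 5) (nat_lit 2) (nat_lit 4) (nat_lit 404) (nat_lit 311) (nat_lit 305)))) (XT.nd (nat_lit 156) (nat_lit 0) (nat_lit 0) (XT.nd (nat_lit 78) (nat_lit 0) (nat_lit 0) (XT.lf (nat_lit 0) (nat_lit 5168952797309) (nat_lit 76) (nat_lit 464569234935) (nat_lit 76) (nat_lit 464469623992) (nat_lit 1) (nat_lit 4) (nat_lit 2) (nat_lit 5) (nat_lit 2) (nat_lit 4) (nat_lit 405) (nat_lit 311) (nat_lit 304)) (XT.lf (nat_lit 0) (nat_lit 5946823105212) (nat_lit 76) (nat_lit 532937965043) (nat_lit 76) (nat_lit 532830527248) (nat_lit 1) (nat_lit 4) (nat_lit 2) (nat_lit 5) (nat_lit 2) (nat_lit 4) (nat_lit 406) (nat_lit 311) (nat_lit 303))) (XT.nd (nat_lit 78) (nat_lit 0) (nat_lit 0) (XT.lf (nat_lit 0) (nat_lit 6841237893938) (nat_lit 76) (nat_lit 611631599598) (nat_lit 76) (nat_lit 611517355843) (nat_lit 1) (nat_lit 4) (nat_lit 2) (nat_lit 5) (nat_lit 2) (nat_lit 4) (nat_lit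 407) (nat_lit 311) (nat_lit 302)) (XT.lf (nat_lit 0) (nat_lit 7869696583264) (nat_lit 76) (nat_lit 702189796665) (nat_lit 76) (nat_lit 702069634685) (nat_lit 1) (nat_lit 4) (nat_lit 2) (nat_lit 5) (nat_lit 2) (nat_lit 4) (nat_lit 408) (nat_lit 311) (nat_lit 301)))))) (XT.nd (nat_lit 624) (nat_lit 0) (nat_lit 0) (XT.nd (nat_lit 312) (nat_lit 0) (nat_lit 0) (XT.nd (nat_lit 156) (nat_lit 0) (nat_lit 0) (XT.nd (nat_lit 78) (nat_lit 0) (nat_lit 0) (XT.lf (nat_lit 0) (nat_lit 9052321191026) (nat_lit 76) (nat_lit 806384347058) (nat_lit 76) (nat_lit 806259038795) (nat_lit 1) (nat_lit 4) (nat_lit 2) (nat_lit 5) (nat_lit 2) (nat_lit 4) (nat_lit 409) (nat_lit 311) (nat_lit 300)) (XT.lf (nat_lit 0) (nat_lit 10412250024767) (nat_lit 76) (nat_lit 926253839806) (nat_lit 76) (nat_lit 926124056514) (nat_lit 1) (nat_lit 4) (nat_lit 2) (nat_lit 5) (nat_lit 2) (nat_lit 4) (nat_lit 410) (nat_lit 311) (nat_lit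 299))) (XT.nd (nat_lit 78) (nat_lit 0) (nat_lit 0) (XT.lf (nat_lit 0) (nat_lit 11976090387757) (nat_lit 76) (nat_lit 1064143547593) (nat_lit 76) (nat_lit 1064009872971) (nat_lit 1) (nat_lit 4) (nat_lit 2) (nat_lit 5) (nat_lit 2) (nat_lit 4) (nat_lit 411) (nat_lit 311) (nat_lit 298)) (XT.lf (nat_lit 0) (nat_lit 13774439156661) (nat_lit 76) (nat_lit 1222751312527) (nat_lit 76) (nat_lit 1222614254142) (nat_lit 1) (nat_lit 4) (nat_lit 2) (nat_lit 5) (nat_lit 2) (nat_lit 4) (nat_lit 412) (nat_lit 311) (nat_lit 297)))) (XT.nd (nat_lit 156) (nat_lit 0) (nat_lit 0) (XT.nd (nat_lit 78) (nat_lit 0) (nat_lit 0) (XT.lf (nat_lit 0) (nat_lit 15842481416089) (nat_lit 76) (nat_lit 1405180330011) (nat_lit 76) (nat_lit 1405040329221) (nat_lit 1) (nat_lit 4) (nat_lit 2) (nat_lit 5) (nat_lit 2) (nat_lit 4) (nat_lit 413) (nat_lit 311) (nat_lit 296)) (XT.lf (nat_lit 0) (nat_lit 18220678862421) (nat_lit 76) (nat_lit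 1614999863429) (nat_lit 76) (nat_lit 1614857304027) (nat_lit 1) (nat_lit 4) (nat_lit 2) (nat_lit 5) (nat_lit 2) (nat_lit 4) (nat_lit 414) (nat_lit 311) (nat_lit 295))) (XT.nd (nat_lit 78) (nat_lit 0) (nat_lit 0) (XT.lf (nat_lit 0) (nat_lit 20955561445695) (nat_lit 76) (nat_lit 1856315077566) (nat_lit 76) (nat_lit 1856170293284) (nat_lit 1) (nat_lit 4) (nat_lit 2) (nat_lit 5) (nat_lit 2) (nat_lit 4) (nat_lit 415) (nat_lit 311) (nat_lit 294)) (XT.lf (nat_lit 0) (nat_lit 24100637738191) (nat_lit 76) (nat_lit 2133847357045) (nat_lit 76) (nat_lit 2133700638085) (nat_lit 1) (nat_lit 4) (nat_lit 2) (nat_lit 5) (nat_lit 2) (nat_lit 4) (nat_lit 416) (nat_lit 311) (nat_lit 293))))) (XT.nd (nat_lit 51636) (nat_lit 0) (nat_lit 0) (XT.nd (nat_lit 51480) (nat_lit 0) (nat_lit 0) (XT.nd (nat_lit 78) (nat_lit 0) (nat_lit 0) (XT.lf (nat_lit 0) (nat_lit 27717441841284) (nat_lit 76) (nat_lit 2453026681249)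 (nat_lit 76) (nat_lit 2452878279960) (nat_lit 1) (nat_lit 4) (nat_lit 2) (nat_lit 5) (nat_lit 2) (nat_lit 4) (nat_lit 417) (nat_lit 311) (nat_lit 292)) (XT.lf (nat_lit 0) (nat_lit 31876737313514) (nat_lit 76) (nat_lit 2820097863042) (nat_lit 76) (nat_lit 2819947998858) (nat_lit 1) (nat_lit 4) (nat_lit 2) (nat_lit 5) (nat_lit 2) (nat_lit 4) (nat_lit 418) (nat_lit 311) (nat_lit 291))) (XT.nd (nat_lit 78) (nat_lit 0) (nat_lit 0) (XT.lf (nat_lit 0) (nat_lit 725225534262) (nat_lit 76) (nat_lit 70929290878) (nat_lit 76) (nat_lit 70929290878) (nat_lit 1) (nat_lit 4) (nat_lit 2) (nat_lit 5) (nat_lit 2) (nat_lit 4) (nat_lit 396) (nat_lit 312) (nat_lit 312)) (XT.lf (nat_lit 0) (nat_lit 1672916656515) (nat_lit 76) (nat_lit 160604635227) (nat_lit 76) (nat_lit 160580692705) (nat_lit 1) (nat_lit 4) (nat_lit 2) (nat_lit 5) (nat_lit 2) (nat_lit 4) (nat_lit 397) (nat_lit 312) (nat_lit 311)))) (XT.nd (nat_lit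 156) (nat_lit 0) (nat_lit 0) (XT.nd (nat_lit 78) (nat_lit 0) (nat_lit 0) (XT.lf (nat_lit 0) (nat_lit 1928335855644) (nat_lit 76) (nat_lit 182375489200) (nat_lit 76) (nat_lit 182330727093) (nat_lit 1) (nat_lit 4) (nat_lit 2) (nat_lit 5) (nat_lit 2) (nat_lit 4) (nat_lit 398) (nat_lit 312) (nat_lit 310)) (XT.lf (nat_lit 0) (nat_lit 2221705998071) (nat_lit 76) (nat_lit 207597095165) (nat_lit 76) (nat_lit 207534229071) (nat_lit 1) (nat_lit 4) (nat_lit 2) (nat_lit 5) (nat_lit 2) (nat_lit 4) (nat_lit 399) (nat_lit 312) (nat_lit 309))) (XT.nd (nat_lit 78) (nat_lit 0) (nat_lit 0) (XT.lf (nat_lit 0) (nat_lit 2558766934407) (nat_lit 76) (nat_lit 236762919326) (nat_lit 76) (nat_lit 236684310635) (nat_lit 1) (nat_lit 4) (nat_lit 2) (nat_lit 5) (nat_lit 2) (nat_lit 4) (nat_lit 400) (nat_lit 312) (nat_lit 308)) (XT.nd (nat_lit 78) (nat_lit 0) (nat_lit 0) (XT.lf (nat_lit 0) (nat_lit 2946113335147) (nat_lit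 76) (nat_lit 270443597373) (nat_lit 76) (nat_lit 270351299467) (nat_lit 1) (nat_lit 4) (nat_lit 2) (nat_lit 5) (nat_lit 2) (nat_lit 4) (nat_lit 401) (nat_lit 312) (nat_lit 307)) (XT.lf (nat_lit 0) (nat_lit 3391323716825) (nat_lit 76) (nat_lit 309298099094) (nat_lit 76) (nat_lit 309193897523) (nat_lit 1) (nat_lit 4) (nat_lit 2) (nat_lit 5) (nat_lit 2) (nat_lit 4) (nat_lit 402) (nat_lit 312) (nat_lit 306))))))))
noncomputable def xc4 : XT := (XT.nd (nat_lit 52416) (nat_lit 0) (nat_lit 0) (XT.nd (nat_lit 624) (nat_lit 0) (nat_lit 0) (XT.nd (nat_lit 312) (nat_lit 0) (nat_lit 0) (XT.nd (nat_lit 156) (nat_lit 0) (nat_lit 0) (XT.nd (nat_lit 78) (nat_lit 0) (nat_lit 0) (XT.lf (nat_lit 0) (nat_lit 3903108717346) (nat_lit 76) (nat_lit 354086621261) (nat_lit 76) (nat_lit 353972068677) (nat_lit 1) (nat_lit 4) (nat_lit 2) (nat_lit 5) (nat_lit 2) (nat_lit 4) (nat_lit 403) (nat_lit 312) (nat_lit 305))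 (XT.lf (nat_lit 0) (nat_lit 4491481521501) (nat_lit 76) (nat_lit 405685461049) (nat_lit 76) (nat_lit 405561907584) (nat_lit 1) (nat_lit 4) (nat_lit 2) (nat_lit 5) (nat_lit 2) (nat_lit 4) (nat_lit 404) (nat_lit 312) (nat_lit 304))) (XT.nd (nat_lit 78) (nat_lit 0) (nat_lit 0) (XT.lf (nat_lit 0) (nat_lit 5167953771111) (nat_lit 76) (nat_lit 465104160974) (nat_lit 76) (nat_lit 464972780655) (nat_lit 1) (nat_lit 4) (nat_lit 2) (nat_lit 5) (nat_lit 2) (nat_lit 4) (nat_lit 405) (nat_lit 312) (nat_lit 303)) (XT.lf (nat_lit 0) (nat_lit 5945760792798) (nat_lit 76) (nat_lit 533505260817) (nat_lit 76) (nat_lit 533367074539) (nat_lit 1) (nat_lit 4) (nat_lit 2) (nat_lit 5) (nat_lit 2) (nat_lit 4) (nat_lit 406) (nat_lit 312) (nat_lit 302)))) (XT.nd (nat_lit 156) (nat_lit 0) (nat_lit 0) (XT.nd (nat_lit 78) (nat_lit 0) (nat_lit 0) (XT.lf (nat_lit 0) (nat_lit 6840120550032) (nat_lit 76) (nat_lit 612227042966)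 (nat_lit 76) (nat_lit 612082938464) (nat_lit 1) (nat_lit 4) (nat_lit 2) (nat_lit 5) (nat_lit 2) (nat_lit 4) (nat_lit 407) (nat_lit 312) (nat_lit 301)) (XT.lf (nat_lit 0) (nat_lit 7868531385887) (nat_lit 76) (nat_lit 702809716204) (nat_lit 76) (nat_lit 702660465418) (nat_lit 1) (nat_lit 4) (nat_lit 2) (nat_lit 5) (nat_lit 2) (nat_lit 4) (nat_lit 408) (nat_lit 312) (nat_lit 300))) (XT.nd (nat_lit 78) (nat_lit 0) (nat_lit 0) (XT.lf (nat_lit 0) (nat_lit 9051114381935) (nat_lit 76) (nat_lit 807025550223) (nat_lit 76) (nat_lit 806871824408) (nat_lit 1) (nat_lit 4) (nat_lit 2) (nat_lit 5) (nat_lit 2) (nat_lit 4) (nat_lit 409) (nat_lit 312) (nat_lit 299)) (XT.lf (nat_lit 0) (nat_lit 10411007031577) (nat_lit 76) (nat_lit 926913550471) (nat_lit 76) (nat_lit 926755933328) (nat_lit 1) (nat_lit 4) (nat_lit 2) (nat_lit 5) (nat_lit 2) (nat_lit 4) (nat_lit 410) (nat_lit 312) (nat_lit 298))))) (XT.nd (nat_lit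 312) (nat_lit 0) (nat_lit 0) (XT.nd (nat_lit 156) (nat_lit 0) (nat_lit 0) (XT.nd (nat_lit 78) (nat_lit 0) (nat_lit 0) (XT.lf (nat_lit 0) (nat_lit 11974815930132) (nat_lit 76) (nat_lit 1064819351737) (nat_lit 76) (nat_lit 1064658350829) (nat_lit 1) (nat_lit 4) (nat_lit 2) (nat_lit 5) (nat_lit 2) (nat_lit 4) (nat_lit 411) (nat_lit 312) (nat_lit 297)) (XT.lf (nat_lit 0) (nat_lit 13773137338659) (nat_lit 76) (nat_lit 1223441111001) (nat_lit 76) (nat_lit 1223277167689) (nat_lit 1) (nat_lit 4) (nat_lit 2) (nat_lit 5) (nat_lit 2) (nat_lit 4) (nat_lit 412) (nat_lit 312) (nat_lit 296))) (XT.nd (nat_lit 78) (nat_lit 0) (nat_lit 0) (XT.lf (nat_lit 0) (nat_lit 15841155806455) (nat_lit 76) (nat_lit 1405882297467) (nat_lit 76) (nat_lit 1405715795543) (nat_lit 1) (nat_lit 4) (nat_lit 2) (nat_lit 5) (nat_lit 2) (nat_lit 4) (nat_lit 413) (nat_lit 312) (nat_lit 295)) (XT.lf (nat_lit 0) (nat_lit 18219332564411)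 (nat_lit 76) (nat_lit 1615712412609) (nat_lit 76) (nat_lit 1615543685805) (nat_lit 1) (nat_lit 4) (nat_lit 2) (nat_lit 5) (nat_lit 2) (nat_lit 4) (nat_lit 414) (nat_lit 312) (nat_lit 294)))) (XT.nd (nat_lit 156) (nat_lit 0) (nat_lit 0) (XT.nd (nat_lit 78) (nat_lit 0) (nat_lit 0) (XT.lf (nat_lit 0) (nat_lit 20954197157792) (nat_lit 76) (nat_lit 1857036828245) (nat_lit 76) (nat_lit 1856866166762) (nat_lit 1) (nat_lit 4) (nat_lit 2) (nat_lit 5) (nat_lit 2) (nat_lit 4) (nat_lit 415) (nat_lit 312) (nat_lit 293)) (XT.lf (nat_lit 0) (nat_lit 24099257806903) (nat_lit 76) (nat_lit 2134577109028) (nat_lit 76) (nat_lit 2134404765216) (nat_lit 1) (nat_lit 4) (nat_lit 2) (nat_lit 5) (nat_lit 2) (nat_lit 4) (nat_lit 416) (nat_lit 312) (nat_lit 292))) (XT.nd (nat_lit 78) (nat_lit 0) (nat_lit 0) (XT.lf (nat_lit 0) (nat_lit 27716048307054) (nat_lit 76) (nat_lit 2453763390887) (nat_lit 76) (nat_lit 2453589584180)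 (nat_lit 1) (nat_lit 4) (nat_lit 2) (nat_lit 5) (nat_lit 2) (nat_lit 4) (nat_lit 417) (nat_lit 312) (nat_lit 291)) (XT.lf (nat_lit 0) (nat_lit 31875331950637) (nat_lit 76) (nat_lit 2820840622815) (nat_lit 76) (nat_lit 2820665544026) (nat_lit 1) (nat_lit 4) (nat_lit 2) (nat_lit 5) (nat_lit 2) (nat_lit 4) (nat_lit 418) (nat_lit 312) (nat_lit 290)))))) (XT.nd (nat_lit 624) (nat_lit 0) (nat_lit 0) (XT.nd (nat_lit 312) (nat_lit 0) (nat_lit 0) (XT.nd (nat_lit 156) (nat_lit 0) (nat_lit 0) (XT.nd (nat_lit 78) (nat_lit 0) (nat_lit 0) (XT.lf (nat_lit 0) (nat_lit 543892994442) (nat_lit 76) (nat_lit 55961189538) (nat_lit 76) (nat_lit 55961189538) (nat_lit 1) (nat_lit 4) (nat_lit 2) (nat_lit 5) (nat_lit 2) (nat_lit 4) (nat_lit 394) (nat_lit 313) (nat_lit 313)) (XT.lf (nat_lit 0) (nat_lit 1256586504084) (nat_lit 76) (nat_lit 125798092076) (nat_lit 76) (nat_lit 125770558175) (nat_lit 1) (nat_lit 4) (nat_lit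 2) (nat_lit 5) (nat_lit 2) (nat_lit 4) (nat_lit 395) (nat_lit 313) (nat_lit 312))) (XT.nd (nat_lit 78) (nat_lit 0) (nat_lit 0) (XT.lf (nat_lit 0) (nat_lit 1450228435447) (nat_lit 76) (nat_lit 141999988379) (nat_lit 76) (nat_lit 141948511956) (nat_lit 1) (nat_lit 4) (nat_lit 2) (nat_lit 5) (nat_lit 2) (nat_lit 4) (nat_lit 396) (nat_lit 313) (nat_lit 311)) (XT.lf (nat_lit 0) (nat_lit 1672500429456) (nat_lit 76) (nat_lit 160845061609) (nat_lit 76) (nat_lit 160772765601) (nat_lit 1) (nat_lit 4) (nat_lit 2) (nat_lit 5) (nat_lit 2) (nat_lit 4) (nat_lit 397) (nat_lit 313) (nat_lit 310)))) (XT.nd (nat_lit 156) (nat_lit 0) (nat_lit 0) (XT.nd (nat_lit 78) (nat_lit 0) (nat_lit 0) (XT.lf (nat_lit 0) (nat_lit 1927751285994) (nat_lit 76) (nat_lit 182702019719) (nat_lit 76) (nat_lit 182611619725) (nat_lit 1) (nat_lit 4) (nat_lit 2) (nat_lit 5) (nat_lit 2) (nat_lit 4) (nat_lit 398) (nat_lit 313) (nat_lit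 309)) (XT.lf (nat_lit 0) (nat_lit 2220975043558) (nat_lit 76) (nat_lit 207998498848) (nat_lit 76) (nat_lit 207892356256) (nat_lit 1) (nat_lit 4) (nat_lit 2) (nat_lit 5) (nat_lit 2) (nat_lit 4) (nat_lit 399) (nat_lit 313) (nat_lit 308))) (XT.nd (nat_lit 78) (nat_lit 0) (nat_lit 0) (XT.lf (nat_lit 0) (nat_lit 2557908688710) (nat_lit 76) (nat_lit 237229430107) (nat_lit 76) (nat_lit 237109598300) (nat_lit 1) (nat_lit 4) (nat_lit 2) (nat_lit 5) (nat_lit 2) (nat_lit 4) (nat_lit 400) (nat_lit 313) (nat_lit 307)) (XT.lf (nat_lit 0) (nat_lit 2945144401462) (nat_lit 76) (nat_lit 270966723022) (nat_lit 76) (nat_lit 270834987551) (nat_lit 1) (nat_lit 4) (nat_lit 2) (nat_lit 5) (nat_lit 2) (nat_lit 4) (nat_lit 401) (nat_lit 313) (nat_lit 306))))) (XT.nd (nat_lit 312) (nat_lit 0) (nat_lit 0) (XT.nd (nat_lit 156) (nat_lit 0) (nat_lit 0) (XT.nd (nat_lit 78) (nat_lit 0) (nat_lit 0) (XT.lf (nat_lit 0) (nat_lit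 3390258532718) (nat_lit 76) (nat_lit 309870455064) (nat_lit 76) (nat_lit 309728368579) (nat_lit 1) (nat_lit 4) (nat_lit 2) (nat_lit 5) (nat_lit 2) (nat_lit 4) (nat_lit 402) (nat_lit 313) (nat_lit 305)) (XT.lf (nat_lit 0) (nat_lit 3901959837218) (nat_lit 76) (nat_lit 354701786206) (nat_lit 76) (nat_lit 354550698840) (nat_lit 1) (nat_lit 4) (nat_lit 2) (nat_lit 5) (nat_lit 2) (nat_lit 4) (nat_lit 403) (nat_lit 313) (nat_lit 304))) (XT.nd (nat_lit 78) (nat_lit 0) (nat_lit 0) (XT.lf (nat_lit 0) (nat_lit 4490259862225) (nat_lit 76) (nat_lit 406337851188) (nat_lit 76) (nat_lit 406178936969) (nat_lit 1) (nat_lit 4) (nat_lit 2) (nat_lit 5) (nat_lit 2) (nat_lit 4) (nat_lit 404) (nat_lit 313) (nat_lit 303)) (XT.lf (nat_lit 0) (nat_lit 5166668825619) (nat_lit 76) (nat_lit 465788920848) (nat_lit 76) (nat_lit 465623200669) (nat_lit 1) (nat_lit 4) (nat_lit 2) (nat_lit 5) (nat_lit 2) (nat_lit 4) (nat_lit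 405) (nat_lit 313) (nat_lit 302)))) (XT.nd (nat_lit 156) (nat_lit 0) (nat_lit 0) (XT.nd (nat_lit 78) (nat_lit 0) (nat_lit 0) (XT.lf (nat_lit 0) (nat_lit 5944420815815) (nat_lit 76) (nat_lit 534218168286) (nat_lit 76) (nat_lit 534046529883) (nat_lit 1) (nat_lit 4) (nat_lit 2) (nat_lit 5) (nat_lit 2) (nat_lit 4) (nat_lit 406) (nat_lit 313) (nat_lit 301)) (XT.lf (nat_lit 0) (nat_lit 6838732719577) (nat_lit 76) (nat_lit 612964426606) (nat_lit 76) (nat_lit 612787641919) (nat_lit 1) (nat_lit 4) (nat_lit 2) (nat_lit 5) (nat_lit 2) (nat_lit 4) (nat_lit 407) (nat_lit 313) (nat_lit 300))) (XT.nd (nat_lit 78) (nat_lit 0) (nat_lit 0) (XT.lf (nat_lit 0) (nat_lit 7867101943718) (nat_lit 76) (nat_lit 703568383469) (nat_lit 76) (nat_lit 703387123754) (nat_lit 1) (nat_lit 4) (nat_lit 2) (nat_lit 5) (nat_lit 2) (nat_lit 4) (nat_lit 408) (nat_lit 313) (nat_lit 299)) (XT.nd (nat_lit 78) (nat_lit 0) (nat_lit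 0) (XT.lf (nat_lit 0) (nat_lit 9049648755667) (nat_lit 76) (nat_lit 807802724989) (nat_lit 76) (nat_lit 807617573944) (nat_lit 1) (nat_lit 4) (nat_lit 2) (nat_lit 5) (nat_lit 2) (nat_lit 4) (nat_lit 409) (nat_lit 313) (nat_lit 298)) (XT.lf (nat_lit 0) (nat_lit 10409509940875) (nat_lit 76) (nat_lit 927706818716) (nat_lit 76) (nat_lit 927518283908) (nat_lit 1) (nat_lit 4) (nat_lit 2) (nat_lit 5) (nat_lit 2) (nat_lit 4) (nat_lit 410) (nat_lit 313) (nat_lit 297))))))))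
noncomputable def xc5 : XT := (XT.nd (nat_lit 52260) (nat_lit 0) (nat_lit 0) (XT.nd (nat_lit 51636) (nat_lit 0) (nat_lit 0) (XT.nd (nat_lit 312) (nat_lit 0) (nat_lit 0) (XT.nd (nat_lit 156) (nat_lit 0) (nat_lit 0) (XT.nd (nat_lit 78) (nat_lit 0) (nat_lit 0) (XT.lf (nat_lit 0) (nat_lit 11973291479052) (nat_lit 76) (nat_lit 1065626614312) (nat_lit 76) (nat_lit 1065435137099) (nat_lit 1) (nat_lit 4) (nat_lit 2) (nat_lit 5) (nat_lit 2) (nat_lit 4) (nat_lit 411) (nat_lit 313) (nat_lit 296)) (XT.lf (nat_lit 0) (nat_lit 13771589095947) (nat_lit 76) (nat_lit 1224260542559) (nat_lit 76) (nat_lit 1224066506734) (nat_lit 1) (nat_lit 4) (nat_lit 2) (nat_lit 5) (nat_lit 2) (nat_lit 4) (nat_lit 412) (nat_lit 313) (nat_lit 295))) (XT.nd (nat_lit 78) (nat_lit 0) (nat_lit 0) (XT.lf (nat_lit 0) (nat_lit 15839586875366) (nat_lit 76) (nat_lit 1406712310748) (nat_lit 76) (nat_lit 1406516050043) (nat_lit 1) (nat_lit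 4) (nat_lit 2) (nat_lit 5) (nat_lit 2) (nat_lit 4) (nat_lit 413) (nat_lit 313) (nat_lit 294)) (XT.lf (nat_lit 0) (nat_lit 18217745643430) (nat_lit 76) (nat_lit 1616551627389) (nat_lit 76) (nat_lit 1616353432005) (nat_lit 1) (nat_lit 4) (nat_lit 2) (nat_lit 5) (nat_lit 2) (nat_lit 4) (nat_lit 414) (nat_lit 313) (nat_lit 293)))) (XT.nd (nat_lit 156) (nat_lit 0) (nat_lit 0) (XT.nd (nat_lit 78) (nat_lit 0) (nat_lit 0) (XT.lf (nat_lit 0) (nat_lit 20952594593426) (nat_lit 76) (nat_lit 1857884044328) (nat_lit 76) (nat_lit 1857684166615) (nat_lit 1) (nat_lit 4) (nat_lit 2) (nat_lit 5) (nat_lit 2) (nat_lit 4) (nat_lit 415) (nat_lit 313) (nat_lit 292)) (XT.lf (nat_lit 0) (nat_lit 24097641639595) (nat_lit 76) (nat_lit 2135431282766) (nat_lit 76) (nat_lit 2135229942159) (nat_lit 1) (nat_lit 4) (nat_lit 2) (nat_lit 5) (nat_lit 2) (nat_lit 4) (nat_lit 416) (nat_lit 313) (nat_lit 291))) (XT.nd (nat_lit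 78) (nat_lit 0) (nat_lit 0) (XT.lf (nat_lit 0) (nat_lit 27714420311099) (nat_lit 76) (nat_lit 2454623614760) (nat_lit 76) (nat_lit 2454421002070) (nat_lit 1) (nat_lit 4) (nat_lit 2) (nat_lit 5) (nat_lit 2) (nat_lit 4) (nat_lit 417) (nat_lit 313) (nat_lit 290)) (XT.lf (nat_lit 0) (nat_lit 31873693668903) (nat_lit 76) (nat_lit 2821706107675) (nat_lit 76) (nat_lit 2821502388826) (nat_lit 1) (nat_lit 4) (nat_lit 2) (nat_lit 5) (nat_lit 2) (nat_lit 4) (nat_lit 418) (nat_lit 313) (nat_lit 289))))) (XT.nd (nat_lit 312) (nat_lit 0) (nat_lit 0) (XT.nd (nat_lit 156) (nat_lit 0) (nat_lit 0) (XT.nd (nat_lit 78) (nat_lit 0) (nat_lit 0) (XT.lf (nat_lit 0) (nat_lit 406107287684) (nat_lit 76) (nat_lit 44992422810) (nat_lit 76) (nat_lit 44992422810) (nat_lit 1) (nat_lit 4) (nat_lit 2) (nat_lit 5) (nat_lit 2) (nat_lit 4) (nat_lit 392) (nat_lit 314) (nat_lit 314)) (XT.lf (nat_lit 0) (nat_lit 940524271071)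 (nat_lit 76) (nat_lit 100133032023) (nat_lit 76) (nat_lit 100101368037) (nat_lit 1) (nat_lit 4) (nat_lit 2) (nat_lit 5) (nat_lit 2) (nat_lit 4) (nat_lit 393) (nat_lit 314) (nat_lit 313))) (XT.nd (nat_lit 78) (nat_lit 0) (nat_lit 0) (XT.lf (nat_lit 0) (nat_lit 1087529960845) (nat_lit 76) (nat_lit 112084996692) (nat_lit 76) (nat_lit 112025798806) (nat_lit 1) (nat_lit 4) (nat_lit 2) (nat_lit 5) (nat_lit 2) (nat_lit 4) (nat_lit 394) (nat_lit 314) (nat_lit 312)) (XT.lf (nat_lit 0) (nat_lit 1256107842967) (nat_lit 76) (nat_lit 126074582415) (nat_lit 76) (nat_lit 125991442006) (nat_lit 1) (nat_lit 4) (nat_lit 2) (nat_lit 5) (nat_lit 2) (nat_lit 4) (nat_lit 395) (nat_lit 314) (nat_lit 311)))) (XT.nd (nat_lit 156) (nat_lit 0) (nat_lit 0) (XT.nd (nat_lit 78) (nat_lit 0) (nat_lit 0) (XT.lf (nat_lit 0) (nat_lit 1449556180349) (nat_lit 76) (nat_lit 142375498477) (nat_lit 76) (nat_lit 142271538483) (nat_lit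 1) (nat_lit 4) (nat_lit 2) (nat_lit 5) (nat_lit 2) (nat_lit 4) (nat_lit 396) (nat_lit 314) (nat_lit 310)) (XT.lf (nat_lit 0) (nat_lit 1671659831766) (nat_lit 76) (nat_lit 161306675844) (nat_lit 76) (nat_lit 161184611864) (nat_lit 1) (nat_lit 4) (nat_lit 2) (nat_lit 5) (nat_lit 2) (nat_lit 4) (nat_lit 397) (nat_lit 314) (nat_lit 309))) (XT.nd (nat_lit 78) (nat_lit 0) (nat_lit 0) (XT.lf (nat_lit 0) (nat_lit 1926764303442) (nat_lit 76) (nat_lit 183238507118) (nat_lit 76) (nat_lit 183100700540) (nat_lit 1) (nat_lit 4) (nat_lit 2) (nat_lit 5) (nat_lit 2) (nat_lit 4) (nat_lit 398) (nat_lit 314) (nat_lit 308)) (XT.lf (nat_lit 0) (nat_lit 2219860769821) (nat_lit 76) (nat_lit 208600093345) (nat_lit 76) (nat_lit 208448597552) (nat_lit 1) (nat_lit 4) (nat_lit 2) (nat_lit 5) (nat_lit 2) (nat_lit 4) (nat_lit 399) (nat_lit 314) (nat_lit 307)))))) (XT.nd (nat_lit 624) (nat_lit 0) (nat_lit 0) (XT.nd (nat_lit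 312) (nat_lit 0) (nat_lit 0) (XT.nd (nat_lit 156) (nat_lit 0) (nat_lit 0) (XT.nd (nat_lit 78) (nat_lit 0) (nat_lit 0) (XT.lf (nat_lit 0) (nat_lit 2556683726986) (nat_lit 76) (nat_lit 237887639473) (nat_lit 76) (nat_lit 237724240015) (nat_lit 1) (nat_lit 4) (nat_lit 2) (nat_lit 5) (nat_lit 2) (nat_lit 4) (nat_lit 400) (nat_lit 314) (nat_lit 306)) (XT.lf (nat_lit 0) (nat_lit 2943823189315) (nat_lit 76) (nat_lit 271674162708) (nat_lit 76) (nat_lit 271500412238) (nat_lit 1) (nat_lit 4) (nat_lit 2) (nat_lit 5) (nat_lit 2) (nat_lit 4) (nat_lit 401) (nat_lit 314) (nat_lit 305))) (XT.nd (nat_lit 78) (nat_lit 0) (nat_lit 0) (XT.lf (nat_lit 0) (nat_lit 3388853624550) (nat_lit 76) (nat_lit 310620703724) (nat_lit 76) (nat_lit 310437952372) (nat_lit 1) (nat_lit 4) (nat_lit 2) (nat_lit 5) (nat_lit 2) (nat_lit 4) (nat_lit 402) (nat_lit 314) (nat_lit 304)) (XT.lf (nat_lit 0) (nat_lit 3900482149902) (nat_lit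 76) (nat_lit 355489260061) (nat_lit 76) (nat_lit 355298681856) (nat_lit 1) (nat_lit 4) (nat_lit 2) (nat_lit 5) (nat_lit 2) (nat_lit 4) (nat_lit 403) (nat_lit 314) (nat_lit 303)))) (XT.nd (nat_lit 156) (nat_lit 0) (nat_lit 0) (XT.nd (nat_lit 78) (nat_lit 0) (nat_lit 0) (XT.lf (nat_lit 0) (nat_lit 4488718888694) (nat_lit 76) (nat_lit 407157694778) (nat_lit 76) (nat_lit 406960310614) (nat_lit 1) (nat_lit 4) (nat_lit 2) (nat_lit 5) (nat_lit 2) (nat_lit 4) (nat_lit 404) (nat_lit 314) (nat_lit 302)) (XT.lf (nat_lit 0) (nat_lit 5165072820596) (nat_lit 76) (nat_lit 466636912033) (nat_lit 76) (nat_lit 466433609643) (nat_lit 1) (nat_lit 4) (nat_lit 2) (nat_lit 5) (nat_lit 2) (nat_lit 4) (nat_lit 405) (nat_lit 314) (nat_lit 301))) (XT.nd (nat_lit 78) (nat_lit 0) (nat_lit 0) (XT.lf (nat_lit 0) (nat_lit 5942776957321) (nat_lit 76) (nat_lit 535090635641) (nat_lit 76) (nat_lit 534882186969) (nat_lit 1)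 (nat_lit 4) (nat_lit 2) (nat_lit 5) (nat_lit 2) (nat_lit 4) (nat_lit 406) (nat_lit 314) (nat_lit 300)) (XT.lf (nat_lit 0) (nat_lit 6837047249369) (nat_lit 76) (nat_lit 613858177587) (nat_lit 76) (nat_lit 613645253886) (nat_lit 1) (nat_lit 4) (nat_lit 2) (nat_lit 5) (nat_lit 2) (nat_lit 4) (nat_lit 407) (nat_lit 314) (nat_lit 299))))) (XT.nd (nat_lit 312) (nat_lit 0) (nat_lit 0) (XT.nd (nat_lit 156) (nat_lit 0) (nat_lit 0) (XT.nd (nat_lit 78) (nat_lit 0) (nat_lit 0) (XT.lf (nat_lit 0) (nat_lit 7865380289411) (nat_lit 76) (nat_lit 704480641951) (nat_lit 76) (nat_lit 704263826921) (nat_lit 1) (nat_lit 4) (nat_lit 2) (nat_lit 5) (nat_lit 2) (nat_lit 4) (nat_lit 408) (nat_lit 314) (nat_lit 298)) (XT.lf (nat_lit 0) (nat_lit 9047895636925) (nat_lit 76) (nat_lit 808731076950) (nat_lit 76) (nat_lit 808510878155) (nat_lit 1) (nat_lit 4) (nat_lit 2) (nat_lit 5) (nat_lit 2) (nat_lit 4) (nat_lit 409)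 (nat_lit 314) (nat_lit 297))) (XT.nd (nat_lit 78) (nat_lit 0) (nat_lit 0) (XT.lf (nat_lit 0) (nat_lit 10407729461756) (nat_lit 76) (nat_lit 928649165007) (nat_lit 76) (nat_lit 928426023808) (nat_lit 1) (nat_lit 4) (nat_lit 2) (nat_lit 5) (nat_lit 2) (nat_lit 4) (nat_lit 410) (nat_lit 314) (nat_lit 296)) (XT.lf (nat_lit 0) (nat_lit 11971487208301) (nat_lit 76) (nat_lit 1066581129585) (nat_lit 76) (nat_lit 1066355429774) (nat_lit 1) (nat_lit 4) (nat_lit 2) (nat_lit 5) (nat_lit 2) (nat_lit 4) (nat_lit 411) (nat_lit 314) (nat_lit 295)))) (XT.nd (nat_lit 156) (nat_lit 0) (nat_lit 0) (XT.nd (nat_lit 78) (nat_lit 0) (nat_lit 0) (XT.lf (nat_lit 0) (nat_lit 13769764136819) (nat_lit 76) (nat_lit 1225225639555) (nat_lit 76) (nat_lit 1224997714864) (nat_lit 1) (nat_lit 4) (nat_lit 2) (nat_lit 5) (nat_lit 2) (nat_lit 4) (nat_lit 412) (nat_lit 314) (nat_lit 294)) (XT.lf (nat_lit 0) (nat_lit 15837743926346)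 (nat_lit 76) (nat_lit 1407686609244) (nat_lit 76) (nat_lit 1407456749874) (nat_lit 1) (nat_lit 4) (nat_lit 2) (nat_lit 5) (nat_lit 2) (nat_lit 4) (nat_lit 413) (nat_lit 314) (nat_lit 293))) (XT.nd (nat_lit 78) (nat_lit 0) (nat_lit 0) (XT.lf (nat_lit 0) (nat_lit 18215887051025) (nat_lit 76) (nat_lit 1617533927188) (nat_lit 76) (nat_lit 1617302385489) (nat_lit 1) (nat_lit 4) (nat_lit 2) (nat_lit 5) (nat_lit 2) (nat_lit 4) (nat_lit 414) (nat_lit 314) (nat_lit 292)) (XT.nd (nat_lit 78) (nat_lit 0) (nat_lit 0) (XT.lf (nat_lit 0) (nat_lit 20950722398078) (nat_lit 76) (nat_lit 1858873301782) (nat_lit 76) (nat_lit 1858640297188) (nat_lit 1) (nat_lit 4) (nat_lit 2) (nat_lit 5) (nat_lit 2) (nat_lit 4) (nat_lit 415) (nat_lit 314) (nat_lit 291)) (XT.lf (nat_lit 0) (nat_lit 24095757615600) (nat_lit 76) (nat_lit 2136426590355) (nat_lit 76) (nat_lit 2136192313679) (nat_lit 1) (nat_lit 4) (nat_lit 2) (nat_lit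 5) (nat_lit 2) (nat_lit 4) (nat_lit 416) (nat_lit 314) (nat_lit 290))))))))
noncomputable def xc6 : XT := (XT.nd (nat_lit 52104) (nat_lit 0) (nat_lit 0) (XT.nd (nat_lit 51480) (nat_lit 0) (nat_lit 0) (XT.nd (nat_lit 51168) (nat_lit 0) (nat_lit 0) (XT.nd (nat_lit 51012) (nat_lit 0) (nat_lit 0) (XT.nd (nat_lit 78) (nat_lit 0) (nat_lit 0) (XT.lf (nat_lit 0) (nat_lit 27712526001325) (nat_lit 76) (nat_lit 2455624183335) (nat_lit 76) (nat_lit 2455388800501) (nat_lit 1) (nat_lit 4) (nat_lit 2) (nat_lit 5) (nat_lit 2) (nat_lit 4) (nat_lit 417) (nat_lit 314) (nat_lit 289)) (XT.lf (nat_lit 0) (nat_lit 31871790414974) (nat_lit 76) (nat_lit 2822711251021) (nat_lit 76) (nat_lit 2822474906310) (nat_lit 1) (nat_lit 4) (nat_lit 2) (nat_lit 5) (nat_lit 2) (nat_lit 4) (nat_lit 418) (nat_lit 314) (nat_lit 288))) (XT.nd (nat_lit 78) (nat_lit 0) (nat_lit 0) (XT.lf (nat_lit 0) (nat_lit 301148404712) (nat_lit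 76) (nat_lit 37100117870) (nat_lit 76) (nat_lit 37100117870) (nat_lit 1) (nat_lit 4) (nat_lit 2) (nat_lit 5) (nat_lit 2) (nat_lit 4) (nat_lit 390) (nat_lit 315) (nat_lit 315)) (XT.lf (nat_lit 0) (nat_lit 700090466646) (nat_lit 76) (nat_lit 81478299595) (nat_lit 76) (nat_lit 81441886011) (nat_lit 1) (nat_lit 4) (nat_lit 2) (nat_lit 5) (nat_lit 2) (nat_lit 4) (nat_lit 391) (nat_lit 315) (nat_lit 314)))) (XT.nd (nat_lit 156) (nat_lit 0) (nat_lit 0) (XT.nd (nat_lit 78) (nat_lit 0) (nat_lit 0) (XT.lf (nat_lit 0) (nat_lit 811920143123) (nat_lit 76) (nat_lit 90171855880) (nat_lit 76) (nat_lit 90103778310) (nat_lit 1) (nat_lit 4) (nat_lit 2) (nat_lit 5) (nat_lit 2) (nat_lit 4) (nat_lit 392) (nat_lit 315) (nat_lit 313)) (XT.lf (nat_lit 0) (nat_lit 939973810786) (nat_lit 76) (nat_lit 100450995913) (nat_lit 76) (nat_lit 100355384443) (nat_lit 1) (nat_lit 4) (nat_lit 2) (nat_lit 5) (nat_lit 2) (nat_lit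 4) (nat_lit 393) (nat_lit 315) (nat_lit 312))) (XT.nd (nat_lit 78) (nat_lit 0) (nat_lit 0) (XT.lf (nat_lit 0) (nat_lit 1086756867482) (nat_lit 76) (nat_lit 112516833304) (nat_lit 76) (nat_lit 112397279312) (nat_lit 1) (nat_lit 4) (nat_lit 2) (nat_lit 5) (nat_lit 2) (nat_lit 4) (nat_lit 394) (nat_lit 315) (nat_lit 311)) (XT.lf (nat_lit 0) (nat_lit 1255141155624) (nat_lit 76) (nat_lit 126605438786) (nat_lit 76) (nat_lit 126465065208) (nat_lit 1) (nat_lit 4) (nat_lit 2) (nat_lit 5) (nat_lit 2) (nat_lit 4) (nat_lit 395) (nat_lit 315) (nat_lit 310))))) (XT.nd (nat_lit 312) (nat_lit 0) (nat_lit 0) (XT.nd (nat_lit 156) (nat_lit 0) (nat_lit 0) (XT.nd (nat_lit 78) (nat_lit 0) (nat_lit 0) (XT.lf (nat_lit 0) (nat_lit 1448421150414) (nat_lit 76) (nat_lit 142992458985) (nat_lit 76) (nat_lit 142833981421) (nat_lit 1) (nat_lit 4) (nat_lit 2) (nat_lit 5) (nat_lit 2) (nat_lit 4) (nat_lit 396) (nat_lit 315)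 (nat_lit 309)) (XT.lf (nat_lit 0) (nat_lit 1670378416969) (nat_lit 76) (nat_lit 161998509516) (nat_lit 76) (nat_lit 161824289355) (nat_lit 1) (nat_lit 4) (nat_lit 2) (nat_lit 5) (nat_lit 2) (nat_lit 4) (nat_lit 397) (nat_lit 315) (nat_lit 308))) (XT.nd (nat_lit 78) (nat_lit 0) (nat_lit 0) (XT.lf (nat_lit 0) (nat_lit 1925355597459) (nat_lit 76) (nat_lit 183995447889) (nat_lit 76) (nat_lit 183807538512) (nat_lit 1) (nat_lit 4) (nat_lit 2) (nat_lit 5) (nat_lit 2) (nat_lit 4) (nat_lit 398) (nat_lit 315) (nat_lit 307)) (XT.lf (nat_lit 0) (nat_lit 2218341375852) (nat_lit 76) (nat_lit 209413648984) (nat_lit 76) (nat_lit 209213835942) (nat_lit 1) (nat_lit 4) (nat_lit 2) (nat_lit 5) (nat_lit 2) (nat_lit 4) (nat_lit 399) (nat_lit 315) (nat_lit 306)))) (XT.nd (nat_lit 156) (nat_lit 0) (nat_lit 0) (XT.nd (nat_lit 78) (nat_lit 0) (nat_lit 0) (XT.lf (nat_lit 0) (nat_lit 2555068082593) (nat_lit 76) (nat_lit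 238750425432) (nat_lit 76) (nat_lit 238540261377) (nat_lit 1) (nat_lit 4) (nat_lit 2) (nat_lit 5) (nat_lit 2) (nat_lit 4) (nat_lit 400) (nat_lit 315) (nat_lit 305)) (XT.lf (nat_lit 0) (nat_lit 2942123848902) (nat_lit 76) (nat_lit 272579757642) (nat_lit 76) (nat_lit 272360592706) (nat_lit 1) (nat_lit 4) (nat_lit 2) (nat_lit 5) (nat_lit 2) (nat_lit 4) (nat_lit 401) (nat_lit 315) (nat_lit 304))) (XT.nd (nat_lit 78) (nat_lit 0) (nat_lit 0) (XT.lf (nat_lit 0) (nat_lit 3387081504990) (nat_lit 76) (nat_lit 311563523852) (nat_lit 76) (nat_lit 311336532064) (nat_lit 1) (nat_lit 4) (nat_lit 2) (nat_lit 5) (nat_lit 2) (nat_lit 4) (nat_lit 402) (nat_lit 315) (nat_lit 303)) (XT.lf (nat_lit 0) (nat_lit 3898646744126) (nat_lit 76) (nat_lit 356464449924) (nat_lit 76) (nat_lit 356230652176) (nat_lit 1) (nat_lit 4) (nat_lit 2) (nat_lit 5) (nat_lit 2) (nat_lit 4) (nat_lit 403) (nat_lit 315) (nat_lit 302))))))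 (XT.nd (nat_lit 624) (nat_lit 0) (nat_lit 0) (XT.nd (nat_lit 312) (nat_lit 0) (nat_lit 0) (XT.nd (nat_lit 156) (nat_lit 0) (nat_lit 0) (XT.nd (nat_lit 78) (nat_lit 0) (nat_lit 0) (XT.lf (nat_lit 0) (nat_lit 4486828451425) (nat_lit 76) (nat_lit 408161032236) (nat_lit 76) (nat_lit 407921316263) (nat_lit 1) (nat_lit 4) (nat_lit 2) (nat_lit 5) (nat_lit 2) (nat_lit 4) (nat_lit 404) (nat_lit 315) (nat_lit 301)) (XT.lf (nat_lit 0) (nat_lit 5163134529857) (nat_lit 76) (nat_lit 467664725661) (nat_lit 76) (nat_lit 467419863405) (nat_lit 1) (nat_lit 4) (nat_lit 2) (nat_lit 5) (nat_lit 2) (nat_lit 4) (nat_lit 405) (nat_lit 315) (nat_lit 300))) (XT.nd (nat_lit 78) (nat_lit 0) (nat_lit 0) (XT.lf (nat_lit 0) (nat_lit 5940797054867) (nat_lit 76) (nat_lit 536139732895) (nat_lit 76) (nat_lit 535890395611) (nat_lit 1) (nat_lit 4) (nat_lit 2) (nat_lit 5) (nat_lit 2) (nat_lit 4) (nat_lit 406) (nat_lit 315) (nat_lit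 299)) (XT.lf (nat_lit 0) (nat_lit 6835031162816) (nat_lit 76) (nat_lit 614925782342) (nat_lit 76) (nat_lit 614672553728) (nat_lit 1) (nat_lit 4) (nat_lit 2) (nat_lit 5) (nat_lit 2) (nat_lit 4) (nat_lit 407) (nat_lit 315) (nat_lit 298)))) (XT.nd (nat_lit 156) (nat_lit 0) (nat_lit 0) (XT.nd (nat_lit 78) (nat_lit 0) (nat_lit 0) (XT.lf (nat_lit 0) (nat_lit 7863332738424) (nat_lit 76) (nat_lit 705564340185) (nat_lit 76) (nat_lit 705307727807) (nat_lit 1) (nat_lit 4) (nat_lit 2) (nat_lit 5) (nat_lit 2) (nat_lit 4) (nat_lit 408) (nat_lit 315) (nat_lit 297)) (XT.lf (nat_lit 0) (nat_lit 9045820725561) (nat_lit 76) (nat_lit 809828769514) (nat_lit 76) (nat_lit 809569214731) (nat_lit 1) (nat_lit 4) (nat_lit 2) (nat_lit 5) (nat_lit 2) (nat_lit 4) (nat_lit 409) (nat_lit 315) (nat_lit 296))) (XT.nd (nat_lit 78) (nat_lit 0) (nat_lit 0) (XT.lf (nat_lit 0) (nat_lit 10405630758759) (nat_lit 76) (nat_lit 929759026553)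 (nat_lit 76) (nat_lit 929496913159) (nat_lit 1) (nat_lit 4) (nat_lit 2) (nat_lit 5) (nat_lit 2) (nat_lit 4) (nat_lit 410) (nat_lit 315) (nat_lit 295)) (XT.lf (nat_lit 0) (nat_lit 11969367816928) (nat_lit 76) (nat_lit 1067701572855) (nat_lit 76) (nat_lit 1067437234580) (nat_lit 1) (nat_lit 4) (nat_lit 2) (nat_lit 5) (nat_lit 2) (nat_lit 4) (nat_lit 411) (nat_lit 315) (nat_lit 294))))) (XT.nd (nat_lit 312) (nat_lit 0) (nat_lit 0) (XT.nd (nat_lit 156) (nat_lit 0) (nat_lit 0) (XT.nd (nat_lit 78) (nat_lit 0) (nat_lit 0) (XT.lf (nat_lit 0) (nat_lit 13767626755553) (nat_lit 76) (nat_lit 1226355284324) (nat_lit 76) (nat_lit 1226089011371) (nat_lit 1) (nat_lit 4) (nat_lit 2) (nat_lit 5) (nat_lit 2) (nat_lit 4) (nat_lit 412) (nat_lit 315) (nat_lit 293)) (XT.lf (nat_lit 0) (nat_lit 15835590901696) (nat_lit 76) (nat_lit 1408824255316) (nat_lit 76) (nat_lit 1408556300033) (nat_lit 1) (nat_lit 4) (nat_lit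 2) (nat_lit 5) (nat_lit 2) (nat_lit 4) (nat_lit 413) (nat_lit 315) (nat_lit 292))) (XT.nd (nat_lit 78) (nat_lit 0) (nat_lit 0) (XT.lf (nat_lit 0) (nat_lit 18213720423432) (nat_lit 76) (nat_lit 1618678530915) (nat_lit 76) (nat_lit 1618409112738) (nat_lit 1) (nat_lit 4) (nat_lit 2) (nat_lit 5) (nat_lit 2) (nat_lit 4) (nat_lit 414) (nat_lit 315) (nat_lit 291)) (XT.lf (nat_lit 0) (nat_lit 20948543941839) (nat_lit 76) (nat_lit 1860023955644) (nat_lit 76) (nat_lit 1859753265384) (nat_lit 1) (nat_lit 4) (nat_lit 2) (nat_lit 5) (nat_lit 2) (nat_lit 4) (nat_lit 415) (nat_lit 315) (nat_lit 290)))) (XT.nd (nat_lit 156) (nat_lit 0) (nat_lit 0) (XT.nd (nat_lit 78) (nat_lit 0) (nat_lit 0) (XT.lf (nat_lit 0) (nat_lit 24093568873582) (nat_lit 76) (nat_lit 2137582505203) (nat_lit 76) (nat_lit 2137310708785) (nat_lit 1) (nat_lit 4) (nat_lit 2) (nat_lit 5) (nat_lit 2) (nat_lit 4) (nat_lit 416) (nat_lit 315)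 (nat_lit 289)) (XT.lf (nat_lit 0) (nat_lit 27710328315150) (nat_lit 76) (nat_lit 2456784672955) (nat_lit 76) (nat_lit 2456511914660) (nat_lit 1) (nat_lit 4) (nat_lit 2) (nat_lit 5) (nat_lit 2) (nat_lit 4) (nat_lit 417) (nat_lit 315) (nat_lit 288))) (XT.nd (nat_lit 50778) (nat_lit 0) (nat_lit 0) (XT.lf (nat_lit 0) (nat_lit 31869584951272) (nat_lit 76) (nat_lit 2823875718703) (nat_lit 76) (nat_lit 2823602123993) (nat_lit 1) (nat_lit 4) (nat_lit 2) (nat_lit 5) (nat_lit 2) (nat_lit 4) (nat_lit 418) (nat_lit 315) (nat_lit 287)) (XT.nd (nat_lit 78) (nat_lit 0) (nat_lit 0) (XT.lf (nat_lit 0) (nat_lit 220895352660) (nat_lit 76) (nat_lit 31594308812) (nat_lit 76) (nat_lit 31594308812) (nat_lit 1) (nat_lit 4) (nat_lit 2) (nat_lit 5) (nat_lit 2) (nat_lit 4) (nat_lit 388) (nat_lit 316) (nat_lit 316)) (XT.lf (nat_lit 0) (nat_lit 516625817296) (nat_lit 76) (nat_lit 68237143036) (nat_lit 76) (nat_lit 68195267414)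 (nat_lit 1) (nat_lit 4) (nat_lit 2) (nat_lit 5) (nat_lit 2) (nat_lit 4) (nat_lit 389) (nat_lit 316) (nat_lit 315))))))))
noncomputable def xc7 : XT := (XT.nd (nat_lit 1326) (nat_lit 0) (nat_lit 0) (XT.nd (nat_lit 624) (nat_lit 0) (nat_lit 0) (XT.nd (nat_lit 312) (nat_lit 0) (nat_lit 0) (XT.nd (nat_lit 156) (nat_lit 0) (nat_lit 0) (XT.nd (nat_lit 78) (nat_lit 0) (nat_lit 0) (XT.lf (nat_lit 0) (nat_lit 601958212343) (nat_lit 76) (nat_lit 74415297538) (nat_lit 76) (nat_lit 74337008333) (nat_lit 1) (nat_lit 4) (nat_lit 2) (nat_lit 5) (nat_lit 2) (nat_lit 4) (nat_lit 390) (nat_lit 316) (nat_lit 314)) (XT.lf (nat_lit 0) (nat_lit 699457437318) (nat_lit 76) (nat_lit 81843958068) (nat_lit 76) (nat_lit 81734004877) (nat_lit 1) (nat_lit 4) (nat_lit 2) (nat_lit 5) (nat_lit 2) (nat_lit 4) (nat_lit 391) (nat_lit 316) (nat_lit 313))) (XT.nd (nat_lit 78) (nat_lit 0) (nat_lit 0) (XT.lf (nat_lit 0) (nat_lit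 811031085756) (nat_lit 76) (nat_lit 90668467984) (nat_lit 76) (nat_lit 90530980892) (nat_lit 1) (nat_lit 4) (nat_lit 2) (nat_lit 5) (nat_lit 2) (nat_lit 4) (nat_lit 392) (nat_lit 316) (nat_lit 312)) (XT.lf (nat_lit 0) (nat_lit 938862120341) (nat_lit 76) (nat_lit 101061480739) (nat_lit 76) (nat_lit 100900051125) (nat_lit 1) (nat_lit 4) (nat_lit 2) (nat_lit 5) (nat_lit 2) (nat_lit 4) (nat_lit 393) (nat_lit 316) (nat_lit 311)))) (XT.nd (nat_lit 156) (nat_lit 0) (nat_lit 0) (XT.nd (nat_lit 78) (nat_lit 0) (nat_lit 0) (XT.lf (nat_lit 0) (nat_lit 1085451583057) (nat_lit 76) (nat_lit 113226337889) (nat_lit 76) (nat_lit 113044088690) (nat_lit 1) (nat_lit 4) (nat_lit 2) (nat_lit 5) (nat_lit 2) (nat_lit 4) (nat_lit 394) (nat_lit 316) (nat_lit 310)) (XT.lf (nat_lit 0) (nat_lit 1253667528606) (nat_lit 76) (nat_lit 127401047508) (nat_lit 76) (nat_lit 127200694323) (nat_lit 1) (nat_lit 4) (nat_lit 2)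 (nat_lit 5) (nat_lit 2) (nat_lit 4) (nat_lit 395) (nat_lit 316) (nat_lit 309))) (XT.nd (nat_lit 78) (nat_lit 0) (nat_lit 0) (XT.lf (nat_lit 0) (nat_lit 1446801138534) (nat_lit 76) (nat_lit 143862940871) (nat_lit 76) (nat_lit 143646845089) (nat_lit 1) (nat_lit 4) (nat_lit 2) (nat_lit 5) (nat_lit 2) (nat_lit 4) (nat_lit 396) (nat_lit 316) (nat_lit 308)) (XT.lf (nat_lit 0) (nat_lit 1668631113904) (nat_lit 76) (nat_lit 162934098501) (nat_lit 76) (nat_lit 162704313503) (nat_lit 1) (nat_lit 4) (nat_lit 2) (nat_lit 5) (nat_lit 2) (nat_lit 4) (nat_lit 397) (nat_lit 316) (nat_lit 307))))) (XT.nd (nat_lit 312) (nat_lit 0) (nat_lit 0) (XT.nd (nat_lit 156) (nat_lit 0) (nat_lit 0) (XT.nd (nat_lit 78) (nat_lit 0) (nat_lit 0) (XT.lf (nat_lit 0) (nat_lit 1923497606408) (nat_lit 76) (nat_lit 184987651742) (nat_lit 76) (nat_lit 184745963079) (nat_lit 1) (nat_lit 4) (nat_lit 2) (nat_lit 5) (nat_lit 2) (nat_lit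 4) (nat_lit 398) (nat_lit 316) (nat_lit 306)) (XT.lf (nat_lit 0) (nat_lit 2216387134377) (nat_lit 76) (nat_lit 210455083157) (nat_lit 76) (nat_lit 210203043481) (nat_lit 1) (nat_lit 4) (nat_lit 2) (nat_lit 5) (nat_lit 2) (nat_lit 4) (nat_lit 399) (nat_lit 316) (nat_lit 305))) (XT.nd (nat_lit 78) (nat_lit 0) (nat_lit 0) (XT.lf (nat_lit 0) (nat_lit 2553030145098) (nat_lit 76) (nat_lit 239834668579) (nat_lit 76) (nat_lit 239573628022) (nat_lit 1) (nat_lit 4) (nat_lit 2) (nat_lit 5) (nat_lit 2) (nat_lit 4) (nat_lit 400) (nat_lit 316) (nat_lit 304)) (XT.lf (nat_lit 0) (nat_lit 2940013132259) (nat_lit 76) (nat_lit 273701225984) (nat_lit 76) (nat_lit 273432358574) (nat_lit 1) (nat_lit 4) (nat_lit 2) (nat_lit 5) (nat_lit 2) (nat_lit 4) (nat_lit 401) (nat_lit 316) (nat_lit 303)))) (XT.nd (nat_lit 156) (nat_lit 0) (nat_lit 0) (XT.nd (nat_lit 78) (nat_lit 0) (nat_lit 0) (XT.lf (nat_lit 0) (nat_lit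 3384907502131) (nat_lit 76) (nat_lit 312717361929) (nat_lit 76) (nat_lit 312441688560) (nat_lit 1) (nat_lit 4) (nat_lit 2) (nat_lit 5) (nat_lit 2) (nat_lit 4) (nat_lit 402) (nat_lit 316) (nat_lit 302)) (XT.lf (nat_lit 0) (nat_lit 3896417709776) (nat_lit 76) (nat_lit 357646435596) (nat_lit 76) (nat_lit 357364844002) (nat_lit 1) (nat_lit 4) (nat_lit 2) (nat_lit 5) (nat_lit 2) (nat_lit 4) (nat_lit 403) (nat_lit 316) (nat_lit 301))) (XT.nd (nat_lit 78) (nat_lit 0) (nat_lit 0) (XT.lf (nat_lit 0) (nat_lit 4484551563604) (nat_lit 76) (nat_lit 409367494079) (nat_lit 76) (nat_lit 409080756201) (nat_lit 1) (nat_lit 4) (nat_lit 2) (nat_lit 5) (nat_lit 2) (nat_lit 4) (nat_lit 404) (nat_lit 316) (nat_lit 300)) (XT.nd (nat_lit 78) (nat_lit 0) (nat_lit 0) (XT.lf (nat_lit 0) (nat_lit 5160816030321) (nat_lit 76) (nat_lit 468892471130) (nat_lit 76) (nat_lit 468601258224) (nat_lit 1) (nat_lit 4) (nat_lit 2)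 (nat_lit 5) (nat_lit 2) (nat_lit 4) (nat_lit 405) (nat_lit 316) (nat_lit 299)) (XT.lf (nat_lit 0) (nat_lit 5938442371232) (nat_lit 76) (nat_lit 537385985865) (nat_lit 76) (nat_lit 537090881630) (nat_lit 1) (nat_lit 4) (nat_lit 2) (nat_lit 5) (nat_lit 2) (nat_lit 4) (nat_lit 406) (nat_lit 316) (nat_lit 298))))))) (XT.nd (nat_lit 624) (nat_lit 0) (nat_lit 0) (XT.nd (nat_lit 312) (nat_lit 0) (nat_lit 0) (XT.nd (nat_lit 156) (nat_lit 0) (nat_lit 0) (XT.nd (nat_lit 78) (nat_lit 0) (nat_lit 0) (XT.lf (nat_lit 0) (nat_lit 6832645014747) (nat_lit 76) (nat_lit 616188128790) (nat_lit 76) (nat_lit 615889640790) (nat_lit 1) (nat_lit 4) (nat_lit 2) (nat_lit 5) (nat_lit 2) (nat_lit 4) (nat_lit 407) (nat_lit 316) (nat_lit 297)) (XT.lf (nat_lit 0) (nat_lit 7860919229977) (nat_lit 76) (nat_lit 706840680963) (nat_lit 76) (nat_lit 706539250559) (nat_lit 1) (nat_lit 4) (nat_lit 2) (nat_lit 5) (nat_lit 2) (nat_lit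 4) (nat_lit 408) (nat_lit 316) (nat_lit 296))) (XT.nd (nat_lit 78) (nat_lit 0) (nat_lit 0) (XT.lf (nat_lit 0) (nat_lit 9043383425482) (nat_lit 76) (nat_lit 811117279274) (nat_lit 76) (nat_lit 810813290258) (nat_lit 1) (nat_lit 4) (nat_lit 2) (nat_lit 5) (nat_lit 2) (nat_lit 4) (nat_lit 409) (nat_lit 316) (nat_lit 295)) (XT.lf (nat_lit 0) (nat_lit 10403172770303) (nat_lit 76) (nat_lit 931058118037) (nat_lit 76) (nat_lit 930751904141) (nat_lit 1) (nat_lit 4) (nat_lit 2) (nat_lit 5) (nat_lit 2) (nat_lit 4) (nat_lit 410) (nat_lit 316) (nat_lit 294)))) (XT.nd (nat_lit 156) (nat_lit 0) (nat_lit 0) (XT.nd (nat_lit 78) (nat_lit 0) (nat_lit 0) (XT.lf (nat_lit 0) (nat_lit 11966891838580) (nat_lit 76) (nat_lit 1069009865837) (nat_lit 76) (nat_lit 1068701717263) (nat_lit 1) (nat_lit 4) (nat_lit 2) (nat_lit 5) (nat_lit 2) (nat_lit 4) (nat_lit 411) (nat_lit 316) (nat_lit 293)) (XT.lf (nat_lit 0) (nat_lit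 13765135133821) (nat_lit 76) (nat_lit 1227671578610) (nat_lit 76) (nat_lit 1227361747707) (nat_lit 1) (nat_lit 4) (nat_lit 2) (nat_lit 5) (nat_lit 2) (nat_lit 4) (nat_lit 412) (nat_lit 316) (nat_lit 292))) (XT.nd (nat_lit 78) (nat_lit 0) (nat_lit 0) (XT.lf (nat_lit 0) (nat_lit 15833085677020) (nat_lit 76) (nat_lit 1410147507257) (nat_lit 76) (nat_lit 1409836213459) (nat_lit 1) (nat_lit 4) (nat_lit 2) (nat_lit 5) (nat_lit 2) (nat_lit 4) (nat_lit 413) (nat_lit 316) (nat_lit 291)) (XT.lf (nat_lit 0) (nat_lit 18211203370110) (nat_lit 76) (nat_lit 1620007832991) (nat_lit 76) (nat_lit 1619695267110) (nat_lit 1) (nat_lit 4) (nat_lit 2) (nat_lit 5) (nat_lit 2) (nat_lit 4) (nat_lit 414) (nat_lit 316) (nat_lit 290))))) (XT.nd (nat_lit 50856) (nat_lit 0) (nat_lit 0) (XT.nd (nat_lit 156) (nat_lit 0) (nat_lit 0) (XT.nd (nat_lit 78) (nat_lit 0) (nat_lit 0) (XT.lf (nat_lit 0) (nat_lit 20946016602738) (nat_lit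 76) (nat_lit 1861358518707) (nat_lit 76) (nat_lit 1861044846667) (nat_lit 1) (nat_lit 4) (nat_lit 2) (nat_lit 5) (nat_lit 2) (nat_lit 4) (nat_lit 415) (nat_lit 316) (nat_lit 289)) (XT.lf (nat_lit 0) (nat_lit 24091032590325) (nat_lit 76) (nat_lit 2138921643038) (nat_lit 76) (nat_lit 2138607009121) (nat_lit 1) (nat_lit 4) (nat_lit 2) (nat_lit 5) (nat_lit 2) (nat_lit 4) (nat_lit 416) (nat_lit 316) (nat_lit 288))) (XT.nd (nat_lit 78) (nat_lit 0) (nat_lit 0) (XT.lf (nat_lit 0) (nat_lit 27707784254367) (nat_lit 76) (nat_lit 2458127788851) (nat_lit 76) (nat_lit 2457812318520) (nat_lit 1) (nat_lit 4) (nat_lit 2) (nat_lit 5) (nat_lit 2) (nat_lit 4) (nat_lit 417) (nat_lit 316) (nat_lit 287)) (XT.lf (nat_lit 0) (nat_lit 31867034127421) (nat_lit 76) (nat_lit 2825222293783) (nat_lit 76) (nat_lit 2824906096135) (nat_lit 1) (nat_lit 4) (nat_lit 2) (nat_lit 5) (nat_lit 2) (nat_lit 4) (nat_lit 418) (nat_lit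 316) (nat_lit 286)))) (XT.nd (nat_lit 156) (nat_lit 0) (nat_lit 0) (XT.nd (nat_lit 78) (nat_lit 0) (nat_lit 0) (XT.lf (nat_lit 0) (nat_lit 159190099597) (nat_lit 76) (nat_lit 27962319604) (nat_lit 76) (nat_lit 27962319604) (nat_lit 1) (nat_lit 4) (nat_lit 2) (nat_lit 5) (nat_lit 2) (nat_lit 4) (nat_lit 386) (nat_lit 317) (nat_lit 317)) (XT.lf (nat_lit 0) (nat_lit 375988711179) (nat_lit 76) (nat_lit 59219102772) (nat_lit 76) (nat_lit 59170945807) (nat_lit 1) (nat_lit 4) (nat_lit 2) (nat_lit 5) (nat_lit 2) (nat_lit 4) (nat_lit 387) (nat_lit 317) (nat_lit 316))) (XT.nd (nat_lit 78) (nat_lit 0) (nat_lit 0) (XT.lf (nat_lit 0) (nat_lit 441401318675) (nat_lit 76) (nat_lit 63435938692) (nat_lit 76) (nat_lit 63345906106) (nat_lit 1) (nat_lit 4) (nat_lit 2) (nat_lit 5) (nat_lit 2) (nat_lit 4) (nat_lit 388) (nat_lit 317) (nat_lit 315)) (XT.nd (nat_lit 78) (nat_lit 0) (nat_lit 0) (XT.lf (nat_lit 0)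 (nat_lit 515897833570) (nat_lit 76) (nat_lit 68657650280) (nat_lit 76) (nat_lit 68531204110) (nat_lit 1) (nat_lit 4) (nat_lit 2) (nat_lit 5) (nat_lit 2) (nat_lit 4) (nat_lit 389) (nat_lit 317) (nat_lit 314)) (XT.lf (nat_lit 0) (nat_lit 600935796371) (nat_lit 76) (nat_lit 74986401458) (nat_lit 76) (nat_lit 74828291302) (nat_lit 1) (nat_lit 4) (nat_lit 2) (nat_lit 5) (nat_lit 2) (nat_lit 4) (nat_lit 390) (nat_lit 317) (nat_lit 313))))))))
noncomputable def xc8 : XT := (XT.nd (nat_lit 1248) (nat_lit 0) (nat_lit 0) (XT.nd (nat_lit 624) (nat_lit 0) (nat_lit 0) (XT.nd (nat_lit 312) (nat_lit 0) (nat_lit 0) (XT.nd (nat_lit 156) (nat_lit 0) (nat_lit 0) (XT.nd (nat_lit 78) (nat_lit 0) (nat_lit 0) (XT.lf (nat_lit 0) (nat_lit 698178993307) (nat_lit 76) (nat_lit 82546015618) (nat_lit 76) (nat_lit 82360371562) (nat_lit 1) (nat_lit 4) (nat_lit 2) (nat_lit 5) (nat_lit 2) (nat_lit 4) (nat_lit 391) (nat_lit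 317) (nat_lit 312)) (XT.lf (nat_lit 0) (nat_lit 809530008667) (nat_lit 76) (nat_lit 91484398256) (nat_lit 76) (nat_lit 91274811677) (nat_lit 1) (nat_lit 4) (nat_lit 2) (nat_lit 5) (nat_lit 2) (nat_lit 4) (nat_lit 392) (nat_lit 317) (nat_lit 311))) (XT.nd (nat_lit 78) (nat_lit 0) (nat_lit 0) (XT.lf (nat_lit 0) (nat_lit 937167449272) (nat_lit 76) (nat_lit 101976430770) (nat_lit 76) (nat_lit 101746024607) (nat_lit 1) (nat_lit 4) (nat_lit 2) (nat_lit 5) (nat_lit 2) (nat_lit 4) (nat_lit 393) (nat_lit 317) (nat_lit 310)) (XT.lf (nat_lit 0) (nat_lit 1083588569395) (nat_lit 76) (nat_lit 114227392058) (nat_lit 76) (nat_lit 113978881908) (nat_lit 1) (nat_lit 4) (nat_lit 2) (nat_lit 5) (nat_lit 2) (nat_lit 4) (nat_lit 394) (nat_lit 317) (nat_lit 309)))) (XT.nd (nat_lit 156) (nat_lit 0) (nat_lit 0) (XT.nd (nat_lit 78) (nat_lit 0) (nat_lit 0) (XT.lf (nat_lit 0) (nat_lit 1251658130082) (nat_lit 76) (nat_lit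 128476974841) (nat_lit 76) (nat_lit 128212722093) (nat_lit 1) (nat_lit 4) (nat_lit 2) (nat_lit 5) (nat_lit 2) (nat_lit 4) (nat_lit 395) (nat_lit 317) (nat_lit 308)) (XT.lf (nat_lit 0) (nat_lit 1444664448825) (nat_lit 76) (nat_lit 145003975302) (nat_lit 76) (nat_lit 144726033340) (nat_lit 1) (nat_lit 4) (nat_lit 2) (nat_lit 5) (nat_lit 2) (nat_lit 4) (nat_lit 396) (nat_lit 317) (nat_lit 307))) (XT.nd (nat_lit 78) (nat_lit 0) (nat_lit 0) (XT.lf (nat_lit 0) (nat_lit 1666383736208) (nat_lit 76) (nat_lit 164131747800) (nat_lit 76) (nat_lit 163841902173) (nat_lit 1) (nat_lit 4) (nat_lit 2) (nat_lit 5) (nat_lit 2) (nat_lit 4) (nat_lit 397) (nat_lit 317) (nat_lit 306)) (XT.lf (nat_lit 0) (nat_lit 1921153978289) (nat_lit 76) (nat_lit 186234531361) (nat_lit 76) (nat_lit 185934334721) (nat_lit 1) (nat_lit 4) (nat_lit 2) (nat_lit 5) (nat_lit 2) (nat_lit 4) (nat_lit 398) (nat_lit 317) (nat_lit 305)))))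 (XT.nd (nat_lit 312) (nat_lit 0) (nat_lit 0) (XT.nd (nat_lit 156) (nat_lit 0) (nat_lit 0) (XT.nd (nat_lit 78) (nat_lit 0) (nat_lit 0) (XT.lf (nat_lit 0) (nat_lit 2213959810238) (nat_lit 76) (nat_lit 211744771751) (nat_lit 76) (nat_lit 211435574229) (nat_lit 1) (nat_lit 4) (nat_lit 2) (nat_lit 5) (nat_lit 2) (nat_lit 4) (nat_lit 399) (nat_lit 317) (nat_lit 304)) (XT.lf (nat_lit 0) (nat_lit 2550530041811) (nat_lit 76) (nat_lit 241161582368) (nat_lit 76) (nat_lit 240844557994) (nat_lit 1) (nat_lit 4) (nat_lit 2) (nat_lit 5) (nat_lit 2) (nat_lit 4) (nat_lit 400) (nat_lit 317) (nat_lit 303))) (XT.nd (nat_lit 78) (nat_lit 0) (nat_lit 0) (XT.lf (nat_lit 0) (nat_lit 2937449742756) (nat_lit 76) (nat_lit 275060509508) (nat_lit 76) (nat_lit 274736679174) (nat_lit 1) (nat_lit 4) (nat_lit 2) (nat_lit 5) (nat_lit 2) (nat_lit 4) (nat_lit 401) (nat_lit 317) (nat_lit 302)) (XT.lf (nat_lit 0) (nat_lit 3382289081136)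 (nat_lit 76) (nat_lit 314104793048) (nat_lit 76) (nat_lit 313775044489) (nat_lit 1) (nat_lit 4) (nat_lit 2) (nat_lit 5) (nat_lit 2) (nat_lit 4) (nat_lit 402) (nat_lit 317) (nat_lit 301)))) (XT.nd (nat_lit 156) (nat_lit 0) (nat_lit 0) (XT.nd (nat_lit 78) (nat_lit 0) (nat_lit 0) (XT.lf (nat_lit 0) (nat_lit 3893751435309) (nat_lit 76) (nat_lit 359058342885) (nat_lit 76) (nat_lit 358723448043) (nat_lit 1) (nat_lit 4) (nat_lit 2) (nat_lit 5) (nat_lit 2) (nat_lit 4) (nat_lit 403) (nat_lit 317) (nat_lit 300)) (XT.lf (nat_lit 0) (nat_lit 4481843677423) (nat_lit 76) (nat_lit 410800684994) (nat_lit 76) (nat_lit 410461315123) (nat_lit 1) (nat_lit 4) (nat_lit 2) (nat_lit 5) (nat_lit 2) (nat_lit 4) (nat_lit 404) (nat_lit 317) (nat_lit 299))) (XT.nd (nat_lit 78) (nat_lit 0) (nat_lit 0) (XT.lf (nat_lit 0) (nat_lit 5158071960041) (nat_lit 76) (nat_lit 470344169545) (nat_lit 76) (nat_lit 470000908345) (nat_lit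 1) (nat_lit 4) (nat_lit 2) (nat_lit 5) (nat_lit 2) (nat_lit 4) (nat_lit 405) (nat_lit 317) (nat_lit 298)) (XT.lf (nat_lit 0) (nat_lit 5935666836518) (nat_lit 76) (nat_lit 538853777760) (nat_lit 76) (nat_lit 538507132795) (nat_lit 1) (nat_lit 4) (nat_lit 2) (nat_lit 5) (nat_lit 2) (nat_lit 4) (nat_lit 406) (nat_lit 317) (nat_lit 297)))))) (XT.nd (nat_lit 624) (nat_lit 0) (nat_lit 0) (XT.nd (nat_lit 312) (nat_lit 0) (nat_lit 0) (XT.nd (nat_lit 156) (nat_lit 0) (nat_lit 0) (XT.nd (nat_lit 78) (nat_lit 0) (nat_lit 0) (XT.lf (nat_lit 0) (nat_lit 6829842119656) (nat_lit 76) (nat_lit 617669915015) (nat_lit 76) (nat_lit 617320327646) (nat_lit 1) (nat_lit 4) (nat_lit 2) (nat_lit 5) (nat_lit 2) (nat_lit 4) (nat_lit 407) (nat_lit 317) (nat_lit 296)) (XT.lf (nat_lit 0) (nat_lit 7858092543253) (nat_lit 76) (nat_lit 708334636170) (nat_lit 76) (nat_lit 707982490189) (nat_lit 1) (nat_lit 4) (nat_lit 2)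 (nat_lit 5) (nat_lit 2) (nat_lit 4) (nat_lit 408) (nat_lit 317) (nat_lit 295))) (XT.nd (nat_lit 78) (nat_lit 0) (nat_lit 0) (XT.lf (nat_lit 0) (nat_lit 9040536050382) (nat_lit 76) (nat_lit 812621816204) (nat_lit 76) (nat_lit 812267445343) (nat_lit 1) (nat_lit 4) (nat_lit 2) (nat_lit 5) (nat_lit 2) (nat_lit 4) (nat_lit 409) (nat_lit 317) (nat_lit 294)) (XT.lf (nat_lit 0) (nat_lit 10400307405311) (nat_lit 76) (nat_lit 932571856466) (nat_lit 76) (nat_lit 932215550927) (nat_lit 1) (nat_lit 4) (nat_lit 2) (nat_lit 5) (nat_lit 2) (nat_lit 4) (nat_lit 410) (nat_lit 317) (nat_lit 293)))) (XT.nd (nat_lit 156) (nat_lit 0) (nat_lit 0) (XT.nd (nat_lit 78) (nat_lit 0) (nat_lit 0) (XT.lf (nat_lit 0) (nat_lit 11964010830203) (nat_lit 76) (nat_lit 1070531605570) (nat_lit 76) (nat_lit 1070173617702) (nat_lit 1) (nat_lit 4) (nat_lit 2) (nat_lit 5) (nat_lit 2) (nat_lit 4) (nat_lit 411) (nat_lit 317) (nat_lit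 292)) (XT.lf (nat_lit 0) (nat_lit 13762240522501) (nat_lit 76) (nat_lit 1229200275998) (nat_lit 76) (nat_lit 1228840825235) (nat_lit 1) (nat_lit 4) (nat_lit 2) (nat_lit 5) (nat_lit 2) (nat_lit 4) (nat_lit 412) (nat_lit 317) (nat_lit 291))) (XT.nd (nat_lit 78) (nat_lit 0) (nat_lit 0) (XT.lf (nat_lit 0) (nat_lit 15830179237054) (nat_lit 76) (nat_lit 1411682254779) (nat_lit 76) (nat_lit 1411321531934) (nat_lit 1) (nat_lit 4) (nat_lit 2) (nat_lit 5) (nat_lit 2) (nat_lit 4) (nat_lit 413) (nat_lit 317) (nat_lit 290)) (XT.lf (nat_lit 0) (nat_lit 18208286644365) (nat_lit 76) (nat_lit 1621547841500) (nat_lit 76) (nat_lit 1621186012496) (nat_lit 1) (nat_lit 4) (nat_lit 2) (nat_lit 5) (nat_lit 2) (nat_lit 4) (nat_lit 414) (nat_lit 317) (nat_lit 289))))) (XT.nd (nat_lit 50700) (nat_lit 0) (nat_lit 0) (XT.nd (nat_lit 156) (nat_lit 0) (nat_lit 0) (XT.nd (nat_lit 78) (nat_lit 0) (nat_lit 0) (XT.lf (nat_lit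 0) (nat_lit 20943090932837) (nat_lit 76) (nat_lit 1862903101987) (nat_lit 76) (nat_lit 1862540311106) (nat_lit 1) (nat_lit 4) (nat_lit 2) (nat_lit 5) (nat_lit 2) (nat_lit 4) (nat_lit 415) (nat_lit 317) (nat_lit 288)) (XT.lf (nat_lit 0) (nat_lit 24088099142896) (nat_lit 76) (nat_lit 2140470204380) (nat_lit 76) (nat_lit 2140106577084) (nat_lit 1) (nat_lit 4) (nat_lit 2) (nat_lit 5) (nat_lit 2) (nat_lit 4) (nat_lit 416) (nat_lit 317) (nat_lit 287))) (XT.nd (nat_lit 78) (nat_lit 0) (nat_lit 0) (XT.lf (nat_lit 0) (nat_lit 27704844043871) (nat_lit 76) (nat_lit 2459679809378) (nat_lit 76) (nat_lit 2459315454765) (nat_lit 1) (nat_lit 4) (nat_lit 2) (nat_lit 5) (nat_lit 2) (nat_lit 4) (nat_lit 417) (nat_lit 317) (nat_lit 286)) (XT.lf (nat_lit 0) (nat_lit 31864088035998) (nat_lit 76) (nat_lit 2826777322296) (nat_lit 76) (nat_lit 2826412335233) (nat_lit 1) (nat_lit 4) (nat_lit 2) (nat_lit 5) (nat_lit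 2) (nat_lit 4) (nat_lit 418) (nat_lit 317) (nat_lit 285)))) (XT.nd (nat_lit 156) (nat_lit 0) (nat_lit 0) (XT.nd (nat_lit 78) (nat_lit 0) (nat_lit 0) (XT.lf (nat_lit 0) (nat_lit 111356284887) (nat_lit 76) (nat_lit 25826886425) (nat_lit 76) (nat_lit 25826886425) (nat_lit 1) (nat_lit 4) (nat_lit 2) (nat_lit 5) (nat_lit 2) (nat_lit 4) (nat_lit 384) (nat_lit 318) (nat_lit 318)) (XT.lf (nat_lit 0) (nat_lit 267448659662) (nat_lit 76) (nat_lit 53543471614) (nat_lit 76) (nat_lit 53488091105) (nat_lit 1) (nat_lit 4) (nat_lit 2) (nat_lit 5) (nat_lit 2) (nat_lit 4) (nat_lit 385) (nat_lit 318) (nat_lit 317))) (XT.nd (nat_lit 78) (nat_lit 0) (nat_lit 0) (XT.lf (nat_lit 0) (nat_lit 317932404553) (nat_lit 76) (nat_lit 56209058436) (nat_lit 76) (nat_lit 56105520962) (nat_lit 1) (nat_lit 4) (nat_lit 2) (nat_lit 5) (nat_lit 2) (nat_lit 4) (nat_lit 386) (nat_lit 318) (nat_lit 316)) (XT.nd (nat_lit 78) (nat_lit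 0) (nat_lit 0) (XT.lf (nat_lit 0) (nat_lit 375151529893) (nat_lit 76) (nat_lit 59702686103) (nat_lit 76) (nat_lit 59557273008) (nat_lit 1) (nat_lit 4) (nat_lit 2) (nat_lit 5) (nat_lit 2) (nat_lit 4) (nat_lit 387) (nat_lit 318) (nat_lit 315)) (XT.lf (nat_lit 0) (nat_lit 440225540308) (nat_lit 76) (nat_lit 64092708200) (nat_lit 76) (nat_lit 63910881521) (nat_lit 1) (nat_lit 4) (nat_lit 2) (nat_lit 5) (nat_lit 2) (nat_lit 4) (nat_lit 388) (nat_lit 318) (nat_lit 314))))))))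
noncomputable def xc9 : XT := (XT.nd (nat_lit 1248) (nat_lit 0) (nat_lit 0) (XT.nd (nat_lit 624) (nat_lit 0) (nat_lit 0) (XT.nd (nat_lit 312) (nat_lit 0) (nat_lit 0) (XT.nd (nat_lit 156) (nat_lit 0) (nat_lit 0) (XT.nd (nat_lit 78) (nat_lit 0) (nat_lit 0) (XT.lf (nat_lit 0) (nat_lit 514427622957) (nat_lit 76) (nat_lit 69465016463) (nat_lit 76) (nat_lit 69251525798) (nat_lit 1) (nat_lit 4) (nat_lit 2) (nat_lit 5) (nat_lit 2) (nat_lit 4) (nat_lit 389) (nat_lit 318) (nat_lit 313)) (XT.lf (nat_lit 0) (nat_lit 599209557718) (nat_lit 76) (nat_lit 75924721271) (nat_lit 76) (nat_lit 75683696706) (nat_lit 1) (nat_lit 4) (nat_lit 2) (nat_lit 5) (nat_lit 2) (nat_lit 4) (nat_lit 390) (nat_lit 318) (nat_lit 312))) (XT.nd (nat_lit 78) (nat_lit 0) (nat_lit 0) (XT.lf (nat_lit 0) (nat_lit 696230121577) (nat_lit 76) (nat_lit 83598208154) (nat_lit 76) (nat_lit 83333241066) (nat_lit 1) (nat_lit 4) (nat_lit 2)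 (nat_lit 5) (nat_lit 2) (nat_lit 4) (nat_lit 391) (nat_lit 318) (nat_lit 311)) (XT.lf (nat_lit 0) (nat_lit 807387542956) (nat_lit 76) (nat_lit 92635610551) (nat_lit 76) (nat_lit 92349823878) (nat_lit 1) (nat_lit 4) (nat_lit 2) (nat_lit 5) (nat_lit 2) (nat_lit 4) (nat_lit 392) (nat_lit 318) (nat_lit 310)))) (XT.nd (nat_lit 156) (nat_lit 0) (nat_lit 0) (XT.nd (nat_lit 78) (nat_lit 0) (nat_lit 0) (XT.lf (nat_lit 0) (nat_lit 934856640969) (nat_lit 76) (nat_lit 103213747203) (nat_lit 76) (nat_lit 102909856543) (nat_lit 1) (nat_lit 4) (nat_lit 2) (nat_lit 5) (nat_lit 2) (nat_lit 4) (nat_lit 393) (nat_lit 318) (nat_lit 309)) (XT.lf (nat_lit 0) (nat_lit 1081131376229) (nat_lit 76) (nat_lit 115539581654) (nat_lit 76) (nat_lit 115219948397) (nat_lit 1) (nat_lit 4) (nat_lit 2) (nat_lit 5) (nat_lit 2) (nat_lit 4) (nat_lit 394) (nat_lit 318) (nat_lit 308))) (XT.nd (nat_lit 78) (nat_lit 0) (nat_lit 0)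 (XT.lf (nat_lit 0) (nat_lit 1249073645732) (nat_lit 76) (nat_lit 129854271535) (nat_lit 76) (nat_lit 129520949063) (nat_lit 1) (nat_lit 4) (nat_lit 2) (nat_lit 5) (nat_lit 2) (nat_lit 4) (nat_lit 395) (nat_lit 318) (nat_lit 307)) (XT.lf (nat_lit 0) (nat_lit 1441969276488) (nat_lit 76) (nat_lit 146437886865) (nat_lit 76) (nat_lit 146092660728) (nat_lit 1) (nat_lit 4) (nat_lit 2) (nat_lit 5) (nat_lit 2) (nat_lit 4) (nat_lit 396) (nat_lit 318) (nat_lit 306))))) (XT.nd (nat_lit 312) (nat_lit 0) (nat_lit 0) (XT.nd (nat_lit 156) (nat_lit 0) (nat_lit 0) (XT.nd (nat_lit 78) (nat_lit 0) (nat_lit 0) (XT.lf (nat_lit 0) (nat_lit 1663592313448) (nat_lit 76) (nat_lit 165614889683) (nat_lit 76) (nat_lit 165259312533) (nat_lit 1) (nat_lit 4) (nat_lit 2) (nat_lit 5) (nat_lit 2) (nat_lit 4) (nat_lit 397) (nat_lit 318) (nat_lit 305)) (XT.lf (nat_lit 0) (nat_lit 1918278859508) (nat_lit 76) (nat_lit 187760482218)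 (nat_lit 76) (nat_lit 187395904187) (nat_lit 1) (nat_lit 4) (nat_lit 2) (nat_lit 5) (nat_lit 2) (nat_lit 4) (nat_lit 398) (nat_lit 318) (nat_lit 304))) (XT.nd (nat_lit 78) (nat_lit 0) (nat_lit 0) (XT.lf (nat_lit 0) (nat_lit 2211011912309) (nat_lit 76) (nat_lit 213307947803) (nat_lit 76) (nat_lit 212935542919) (nat_lit 1) (nat_lit 4) (nat_lit 2) (nat_lit 5) (nat_lit 2) (nat_lit 4) (nat_lit 399) (nat_lit 318) (nat_lit 303)) (XT.lf (nat_lit 0) (nat_lit 2547518857667) (nat_lit 76) (nat_lit 242757128155) (nat_lit 76) (nat_lit 242377917312) (nat_lit 1) (nat_lit 4) (nat_lit 2) (nat_lit 5) (nat_lit 2) (nat_lit 4) (nat_lit 400) (nat_lit 318) (nat_lit 302)))) (XT.nd (nat_lit 156) (nat_lit 0) (nat_lit 0) (XT.nd (nat_lit 78) (nat_lit 0) (nat_lit 0) (XT.lf (nat_lit 0) (nat_lit 2934383527120) (nat_lit 76) (nat_lit 276684202890) (nat_lit 76) (nat_lit 276299073821) (nat_lit 1) (nat_lit 4) (nat_lit 2) (nat_lit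 5) (nat_lit 2) (nat_lit 4) (nat_lit 401) (nat_lit 318) (nat_lit 301)) (XT.lf (nat_lit 0) (nat_lit 3379175012029) (nat_lit 76) (nat_lit 315752962600) (nat_lit 76) (nat_lit 315362687249) (nat_lit 1) (nat_lit 4) (nat_lit 2) (nat_lit 5) (nat_lit 2) (nat_lit 4) (nat_lit 402) (nat_lit 318) (nat_lit 300))) (XT.nd (nat_lit 78) (nat_lit 0) (nat_lit 0) (XT.lf (nat_lit 0) (nat_lit 3890595754488) (nat_lit 76) (nat_lit 360727796063) (nat_lit 76) (nat_lit 360333045683) (nat_lit 1) (nat_lit 4) (nat_lit 2) (nat_lit 5) (nat_lit 2) (nat_lit 4) (nat_lit 403) (nat_lit 318) (nat_lit 299)) (XT.lf (nat_lit 0) (nat_lit 4478651812503) (nat_lit 76) (nat_lit 412488645673) (nat_lit 76) (nat_lit 412090003963) (nat_lit 1) (nat_lit 4) (nat_lit 2) (nat_lit 5) (nat_lit 2) (nat_lit 4) (nat_lit 404) (nat_lit 318) (nat_lit 298)))))) (XT.nd (nat_lit 624) (nat_lit 0) (nat_lit 0) (XT.nd (nat_lit 312) (nat_lit 0) (nat_lit 0) (XT.nd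 (nat_lit 156) (nat_lit 0) (nat_lit 0) (XT.nd (nat_lit 78) (nat_lit 0) (nat_lit 0) (XT.lf (nat_lit 0) (nat_lit 5154848630687) (nat_lit 76) (nat_lit 472048223703) (nat_lit 76) (nat_lit 471646198230) (nat_lit 1) (nat_lit 4) (nat_lit 2) (nat_lit 5) (nat_lit 2) (nat_lit 4) (nat_lit 405) (nat_lit 318) (nat_lit 297)) (XT.lf (nat_lit 0) (nat_lit 5932416146786) (nat_lit 76) (nat_lit 540571826247) (nat_lit 76) (nat_lit 540166858369) (nat_lit 1) (nat_lit 4) (nat_lit 2) (nat_lit 5) (nat_lit 2) (nat_lit 4) (nat_lit 406) (nat_lit 318) (nat_lit 296))) (XT.nd (nat_lit 78) (nat_lit 0) (nat_lit 0) (XT.lf (nat_lit 0) (nat_lit 6826567638291) (nat_lit 76) (nat_lit 619400132484) (nat_lit 76) (nat_lit 618992605995) (nat_lit 1) (nat_lit 4) (nat_lit 2) (nat_lit 5) (nat_lit 2) (nat_lit 4) (nat_lit 407) (nat_lit 318) (nat_lit 295)) (XT.lf (nat_lit 0) (nat_lit 7854797373512) (nat_lit 76) (nat_lit 710075435363) (nat_lit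 76) (nat_lit 709665683993) (nat_lit 1) (nat_lit 4) (nat_lit 2) (nat_lit 5) (nat_lit 2) (nat_lit 4) (nat_lit 408) (nat_lit 318) (nat_lit 294)))) (XT.nd (nat_lit 156) (nat_lit 0) (nat_lit 0) (XT.nd (nat_lit 78) (nat_lit 0) (nat_lit 0) (XT.lf (nat_lit 0) (nat_lit 9037222890749) (nat_lit 76) (nat_lit 814371816897) (nat_lit 76) (nat_lit 813960130848) (nat_lit 1) (nat_lit 4) (nat_lit 2) (nat_lit 5) (nat_lit 2) (nat_lit 4) (nat_lit 409) (nat_lit 318) (nat_lit 293)) (XT.lf (nat_lit 0) (nat_lit 10396978602293) (nat_lit 76) (nat_lit 934329858462) (nat_lit 76) (nat_lit 933916490085) (nat_lit 1) (nat_lit 4) (nat_lit 2) (nat_lit 5) (nat_lit 2) (nat_lit 4) (nat_lit 410) (nat_lit 318) (nat_lit 292))) (XT.nd (nat_lit 78) (nat_lit 0) (nat_lit 0) (XT.lf (nat_lit 0) (nat_lit 11960668424242) (nat_lit 76) (nat_lit 1072296565221) (nat_lit 76) (nat_lit 1071881733949) (nat_lit 1) (nat_lit 4) (nat_lit 2) (nat_lit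 5) (nat_lit 2) (nat_lit 4) (nat_lit 411) (nat_lit 318) (nat_lit 291)) (XT.lf (nat_lit 0) (nat_lit 13758886287894) (nat_lit 76) (nat_lit 1230971285783) (nat_lit 76) (nat_lit 1230555182429) (nat_lit 1) (nat_lit 4) (nat_lit 2) (nat_lit 5) (nat_lit 2) (nat_lit 4) (nat_lit 412) (nat_lit 318) (nat_lit 290))))) (XT.nd (nat_lit 312) (nat_lit 0) (nat_lit 0) (XT.nd (nat_lit 156) (nat_lit 0) (nat_lit 0) (XT.nd (nat_lit 78) (nat_lit 0) (nat_lit 0) (XT.lf (nat_lit 0) (nat_lit 15826814716667) (nat_lit 76) (nat_lit 1413458525552) (nat_lit 76) (nat_lit 1413041316039) (nat_lit 1) (nat_lit 4) (nat_lit 2) (nat_lit 5) (nat_lit 2) (nat_lit 4) (nat_lit 413) (nat_lit 318) (nat_lit 289)) (XT.lf (nat_lit 0) (nat_lit 18204913179822) (nat_lit 76) (nat_lit 1623328687044) (nat_lit 76) (nat_lit 1622910515654) (nat_lit 1) (nat_lit 4) (nat_lit 2) (nat_lit 5) (nat_lit 2) (nat_lit 4) (nat_lit 414) (nat_lit 318) (nat_lit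 288))) (XT.nd (nat_lit 78) (nat_lit 0) (nat_lit 0) (XT.lf (nat_lit 0) (nat_lit 20939709690767) (nat_lit 76) (nat_lit 1864687925593) (nat_lit 76) (nat_lit 1864268917788) (nat_lit 1) (nat_lit 4) (nat_lit 2) (nat_lit 5) (nat_lit 2) (nat_lit 4) (nat_lit 415) (nat_lit 318) (nat_lit 287)) (XT.lf (nat_lit 0) (nat_lit 24084711137760) (nat_lit 76) (nat_lit 2142258487170) (nat_lit 76) (nat_lit 2141838752047) (nat_lit 1) (nat_lit 4) (nat_lit 2) (nat_lit 5) (nat_lit 2) (nat_lit 4) (nat_lit 416) (nat_lit 318) (nat_lit 286)))) (XT.nd (nat_lit 50388) (nat_lit 0) (nat_lit 0) (XT.nd (nat_lit 78) (nat_lit 0) (nat_lit 0) (XT.lf (nat_lit 0) (nat_lit 27701450157807) (nat_lit 76) (nat_lit 2461471100154) (nat_lit 76) (nat_lit 2461050732582) (nat_lit 1) (nat_lit 4) (nat_lit 2) (nat_lit 5) (nat_lit 2) (nat_lit 4) (nat_lit 417) (nat_lit 318) (nat_lit 285)) (XT.lf (nat_lit 0) (nat_lit 31860689036084) (nat_lit 76)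 (nat_lit 2828571228713) (nat_lit 76) (nat_lit 2828150311184) (nat_lit 1) (nat_lit 4) (nat_lit 2) (nat_lit 5) (nat_lit 2) (nat_lit 4) (nat_lit 418) (nat_lit 318) (nat_lit 284))) (XT.nd (nat_lit 78) (nat_lit 0) (nat_lit 0) (XT.lf (nat_lit 0) (nat_lit 73834903688) (nat_lit 76) (nat_lit 24914695481) (nat_lit 76) (nat_lit 24914695481) (nat_lit 1) (nat_lit 4) (nat_lit 2) (nat_lit 5) (nat_lit 2) (nat_lit 4) (nat_lit 382) (nat_lit 319) (nat_lit 319)) (XT.nd (nat_lit 78) (nat_lit 0) (nat_lit 0) (XT.lf (nat_lit 0) (nat_lit 182848863568) (nat_lit 76) (nat_lit 50566677366) (nat_lit 76) (nat_lit 50502989781) (nat_lit 1) (nat_lit 4) (nat_lit 2) (nat_lit 5) (nat_lit 2) (nat_lit 4) (nat_lit 383) (nat_lit 319) (nat_lit 318)) (XT.lf (nat_lit 0) (nat_lit 222197605937) (nat_lit 76) (nat_lit 51980854963) (nat_lit 76) (nat_lit 51861786868) (nat_lit 1) (nat_lit 4) (nat_lit 2) (nat_lit 5) (nat_lit 2) (nat_lit 4)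 (nat_lit 384) (nat_lit 319) (nat_lit 317))))))))
noncomputable def xc10 : XT := (XT.nd (nat_lit 1248) (nat_lit 0) (nat_lit 0) (XT.nd (nat_lit 624) (nat_lit 0) (nat_lit 0) (XT.nd (nat_lit 312) (nat_lit 0) (nat_lit 0) (XT.nd (nat_lit 156) (nat_lit 0) (nat_lit 0) (XT.nd (nat_lit 78) (nat_lit 0) (nat_lit 0) (XT.lf (nat_lit 0) (nat_lit 266485901183) (nat_lit 76) (nat_lit 54099592444) (nat_lit 76) (nat_lit 53932367385) (nat_lit 1) (nat_lit 4) (nat_lit 2) (nat_lit 5) (nat_lit 2) (nat_lit 4) (nat_lit 385) (nat_lit 319) (nat_lit 316)) (XT.lf (nat_lit 0) (nat_lit 316580259430) (nat_lit 76) (nat_lit 56964343370) (nat_lit 76) (nat_lit 56755242689) (nat_lit 1) (nat_lit 4) (nat_lit 2) (nat_lit 5) (nat_lit 2) (nat_lit 4) (nat_lit 386) (nat_lit 319) (nat_lit 315))) (XT.nd (nat_lit 78) (nat_lit 0) (nat_lit 0) (XT.lf (nat_lit 0) (nat_lit 373460787688) (nat_lit 76) (nat_lit 60631157213) (nat_lit 76) (nat_lit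 60385642949) (nat_lit 1) (nat_lit 4) (nat_lit 2) (nat_lit 5) (nat_lit 2) (nat_lit 4) (nat_lit 387) (nat_lit 319) (nat_lit 314)) (XT.lf (nat_lit 0) (nat_lit 438240365857) (nat_lit 76) (nat_lit 65171775985) (nat_lit 76) (nat_lit 64894597735) (nat_lit 1) (nat_lit 4) (nat_lit 2) (nat_lit 5) (nat_lit 2) (nat_lit 4) (nat_lit 388) (nat_lit 319) (nat_lit 313)))) (XT.nd (nat_lit 156) (nat_lit 0) (nat_lit 0) (XT.nd (nat_lit 78) (nat_lit 0) (nat_lit 0) (XT.lf (nat_lit 0) (nat_lit 512186420467) (nat_lit 76) (nat_lit 70675037879) (nat_lit 76) (nat_lit 70370325728) (nat_lit 1) (nat_lit 4) (nat_lit 2) (nat_lit 5) (nat_lit 2) (nat_lit 4) (nat_lit 389) (nat_lit 319) (nat_lit 312)) (XT.lf (nat_lit 0) (nat_lit 596745722150) (nat_lit 76) (nat_lit 77248615410) (nat_lit 76) (nat_lit 76919960736) (nat_lit 1) (nat_lit 4) (nat_lit 2) (nat_lit 5) (nat_lit 2) (nat_lit 4) (nat_lit 390) (nat_lit 319) (nat_lit 311)))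 (XT.nd (nat_lit 78) (nat_lit 0) (nat_lit 0) (XT.lf (nat_lit 0) (nat_lit 693572692028) (nat_lit 76) (nat_lit 85021122051) (nat_lit 76) (nat_lit 84671647793) (nat_lit 1) (nat_lit 4) (nat_lit 2) (nat_lit 5) (nat_lit 2) (nat_lit 4) (nat_lit 391) (nat_lit 319) (nat_lit 310)) (XT.lf (nat_lit 0) (nat_lit 804561770815) (nat_lit 76) (nat_lit 94144628586) (nat_lit 76) (nat_lit 93777050341) (nat_lit 1) (nat_lit 4) (nat_lit 2) (nat_lit 5) (nat_lit 2) (nat_lit 4) (nat_lit 392) (nat_lit 319) (nat_lit 309))))) (XT.nd (nat_lit 312) (nat_lit 0) (nat_lit 0) (XT.nd (nat_lit 156) (nat_lit 0) (nat_lit 0) (XT.nd (nat_lit 78) (nat_lit 0) (nat_lit 0) (XT.lf (nat_lit 0) (nat_lit 931884483966) (nat_lit 76) (nat_lit 104797638401) (nat_lit 76) (nat_lit 104414317559) (nat_lit 1) (nat_lit 4) (nat_lit 2) (nat_lit 5) (nat_lit 2) (nat_lit 4) (nat_lit 393) (nat_lit 319) (nat_lit 308)) (XT.lf (nat_lit 0) (nat_lit 1078031928042)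 (nat_lit 76) (nat_lit 117188579951) (nat_lit 76) (nat_lit 116791569894) (nat_lit 1) (nat_lit 4) (nat_lit 2) (nat_lit 5) (nat_lit 2) (nat_lit 4) (nat_lit 394) (nat_lit 319) (nat_lit 307))) (XT.nd (nat_lit 78) (nat_lit 0) (nat_lit 0) (XT.lf (nat_lit 0) (nat_lit 1245863509558) (nat_lit 76) (nat_lit 131559884700) (nat_lit 76) (nat_lit 131150970978) (nat_lit 1) (nat_lit 4) (nat_lit 2) (nat_lit 5) (nat_lit 2) (nat_lit 4) (nat_lit 395) (nat_lit 319) (nat_lit 306)) (XT.lf (nat_lit 0) (nat_lit 1438662889891) (nat_lit 76) (nat_lit 148192730350) (nat_lit 76) (nat_lit 147773465615) (nat_lit 1) (nat_lit 4) (nat_lit 2) (nat_lit 5) (nat_lit 2) (nat_lit 4) (nat_lit 396) (nat_lit 319) (nat_lit 305)))) (XT.nd (nat_lit 156) (nat_lit 0) (nat_lit 0) (XT.nd (nat_lit 78) (nat_lit 0) (nat_lit 0) (XT.lf (nat_lit 0) (nat_lit 1660202230830) (nat_lit 76) (nat_lit 167412542143) (nat_lit 76) (nat_lit 166984276526) (nat_lit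 1) (nat_lit 4) (nat_lit 2) (nat_lit 5) (nat_lit 2) (nat_lit 4) (nat_lit 397) (nat_lit 319) (nat_lit 304)) (XT.lf (nat_lit 0) (nat_lit 1914815997743) (nat_lit 76) (nat_lit 189595359873) (nat_lit 76) (nat_lit 189159267403) (nat_lit 1) (nat_lit 4) (nat_lit 2) (nat_lit 5) (nat_lit 2) (nat_lit 4) (nat_lit 398) (nat_lit 319) (nat_lit 303))) (XT.nd (nat_lit 78) (nat_lit 0) (nat_lit 0) (XT.lf (nat_lit 0) (nat_lit 2207485764328) (nat_lit 76) (nat_lit 215175195192) (nat_lit 76) (nat_lit 214732296764) (nat_lit 1) (nat_lit 4) (nat_lit 2) (nat_lit 5) (nat_lit 2) (nat_lit 4) (nat_lit 399) (nat_lit 319) (nat_lit 302)) (XT.lf (nat_lit 0) (nat_lit 2543937678193) (nat_lit 76) (nat_lit 244652523140) (nat_lit 76) (nat_lit 244203706486) (nat_lit 1) (nat_lit 4) (nat_lit 2) (nat_lit 5) (nat_lit 2) (nat_lit 4) (nat_lit 400) (nat_lit 319) (nat_lit 301)))))) (XT.nd (nat_lit 624) (nat_lit 0) (nat_lit 0) (XT.nd (nat_lit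 312) (nat_lit 0) (nat_lit 0) (XT.nd (nat_lit 156) (nat_lit 0) (nat_lit 0) (XT.nd (nat_lit 78) (nat_lit 0) (nat_lit 0) (XT.lf (nat_lit 0) (nat_lit 2930754494176) (nat_lit 76) (nat_lit 278604074044) (nat_lit 76) (nat_lit 278150111108) (nat_lit 1) (nat_lit 4) (nat_lit 2) (nat_lit 5) (nat_lit 2) (nat_lit 4) (nat_lit 401) (nat_lit 319) (nat_lit 300)) (XT.lf (nat_lit 0) (nat_lit 3375504367370) (nat_lit 76) (nat_lit 317694117381) (nat_lit 76) (nat_lit 317235679415) (nat_lit 1) (nat_lit 4) (nat_lit 2) (nat_lit 5) (nat_lit 2) (nat_lit 4) (nat_lit 402) (nat_lit 319) (nat_lit 299))) (XT.nd (nat_lit 78) (nat_lit 0) (nat_lit 0) (XT.lf (nat_lit 0) (nat_lit 3886888925730) (nat_lit 76) (nat_lit 362687458345) (nat_lit 76) (nat_lit 362225129050) (nat_lit 1) (nat_lit 4) (nat_lit 2) (nat_lit 5) (nat_lit 2) (nat_lit 4) (nat_lit 403) (nat_lit 319) (nat_lit 298)) (XT.lf (nat_lit 0) (nat_lit 4474913519311) (nat_lit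 76) (nat_lit 414464401433) (nat_lit 76) (nat_lit 413998688374) (nat_lit 1) (nat_lit 4) (nat_lit 2) (nat_lit 5) (nat_lit 2) (nat_lit 4) (nat_lit 404) (nat_lit 319) (nat_lit 297)))) (XT.nd (nat_lit 156) (nat_lit 0) (nat_lit 0) (XT.nd (nat_lit 78) (nat_lit 0) (nat_lit 0) (XT.lf (nat_lit 0) (nat_lit 5151082977117) (nat_lit 76) (nat_lit 474037973793) (nat_lit 76) (nat_lit 473569318330) (nat_lit 1) (nat_lit 4) (nat_lit 2) (nat_lit 5) (nat_lit 2) (nat_lit 4) (nat_lit 405) (nat_lit 319) (nat_lit 296)) (XT.lf (nat_lit 0) (nat_lit 5928626701584) (nat_lit 76) (nat_lit 542573745320) (nat_lit 76) (nat_lit 542102531244) (nat_lit 1) (nat_lit 4) (nat_lit 2) (nat_lit 5) (nat_lit 2) (nat_lit 4) (nat_lit 406) (nat_lit 319) (nat_lit 295))) (XT.nd (nat_lit 78) (nat_lit 0) (nat_lit 0) (XT.lf (nat_lit 0) (nat_lit 6822757504713) (nat_lit 76) (nat_lit 621412633281) (nat_lit 76) (nat_lit 620939194325) (nat_lit 1)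 (nat_lit 4) (nat_lit 2) (nat_lit 5) (nat_lit 2) (nat_lit 4) (nat_lit 407) (nat_lit 319) (nat_lit 294)) (XT.lf (nat_lit 0) (nat_lit 7850969250042) (nat_lit 76) (nat_lit 712097137658) (nat_lit 76) (nat_lit 711621764024) (nat_lit 1) (nat_lit 4) (nat_lit 2) (nat_lit 5) (nat_lit 2) (nat_lit 4) (nat_lit 408) (nat_lit 319) (nat_lit 293))))) (XT.nd (nat_lit 312) (nat_lit 0) (nat_lit 0) (XT.nd (nat_lit 156) (nat_lit 0) (nat_lit 0) (XT.nd (nat_lit 78) (nat_lit 0) (nat_lit 0) (XT.lf (nat_lit 0) (nat_lit 9033379123893) (nat_lit 76) (nat_lit 816401520495) (nat_lit 76) (nat_lit 815924464532) (nat_lit 1) (nat_lit 4) (nat_lit 2) (nat_lit 5) (nat_lit 2) (nat_lit 4) (nat_lit 409) (nat_lit 319) (nat_lit 292)) (XT.lf (nat_lit 0) (nat_lit 10393121232495) (nat_lit 76) (nat_lit 936366519716) (nat_lit 76) (nat_lit 935888000858) (nat_lit 1) (nat_lit 4) (nat_lit 2) (nat_lit 5) (nat_lit 2) (nat_lit 4) (nat_lit 410)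 (nat_lit 319) (nat_lit 291))) (XT.nd (nat_lit 78) (nat_lit 0) (nat_lit 0) (XT.lf (nat_lit 0) (nat_lit 11956799225797) (nat_lit 76) (nat_lit 1074339276609) (nat_lit 76) (nat_lit 1073859485669) (nat_lit 1) (nat_lit 4) (nat_lit 2) (nat_lit 5) (nat_lit 2) (nat_lit 4) (nat_lit 411) (nat_lit 319) (nat_lit 290)) (XT.lf (nat_lit 0) (nat_lit 13755006803670) (nat_lit 76) (nat_lit 1233019258158) (nat_lit 76) (nat_lit 1232538361060) (nat_lit 1) (nat_lit 4) (nat_lit 2) (nat_lit 5) (nat_lit 2) (nat_lit 4) (nat_lit 412) (nat_lit 319) (nat_lit 289)))) (XT.nd (nat_lit 156) (nat_lit 0) (nat_lit 0) (XT.nd (nat_lit 78) (nat_lit 0) (nat_lit 0) (XT.lf (nat_lit 0) (nat_lit 15822926288288) (nat_lit 76) (nat_lit 1415511072698) (nat_lit 76) (nat_lit 1415029213722) (nat_lit 1) (nat_lit 4) (nat_lit 2) (nat_lit 5) (nat_lit 2) (nat_lit 4) (nat_lit 413) (nat_lit 319) (nat_lit 288)) (XT.lf (nat_lit 0) (nat_lit 18201016973915)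 (nat_lit 76) (nat_lit 1625385212252) (nat_lit 76) (nat_lit 1624902516861) (nat_lit 1) (nat_lit 4) (nat_lit 2) (nat_lit 5) (nat_lit 2) (nat_lit 4) (nat_lit 414) (nat_lit 319) (nat_lit 287))) (XT.nd (nat_lit 78) (nat_lit 0) (nat_lit 0) (XT.lf (nat_lit 0) (nat_lit 20935806721793) (nat_lit 76) (nat_lit 1866747909985) (nat_lit 76) (nat_lit 1866264487277) (nat_lit 1) (nat_lit 4) (nat_lit 2) (nat_lit 5) (nat_lit 2) (nat_lit 4) (nat_lit 415) (nat_lit 319) (nat_lit 286)) (XT.nd (nat_lit 78) (nat_lit 0) (nat_lit 0) (XT.lf (nat_lit 0) (nat_lit 24080802287859) (nat_lit 76) (nat_lit 2144321479549) (nat_lit 76) (nat_lit 2143837424391) (nat_lit 1) (nat_lit 4) (nat_lit 2) (nat_lit 5) (nat_lit 2) (nat_lit 4) (nat_lit 416) (nat_lit 319) (nat_lit 285)) (XT.lf (nat_lit 0) (nat_lit 27697536194056) (nat_lit 76) (nat_lit 2463536708173) (nat_lit 76) (nat_lit 2463052103059) (nat_lit 1) (nat_lit 4) (nat_lit 2) (nat_lit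 5) (nat_lit 2) (nat_lit 4) (nat_lit 417) (nat_lit 319) (nat_lit 284))))))))
noncomputable def xc11 : XT := (XT.nd (nat_lit 51402) (nat_lit 0) (nat_lit 0) (XT.nd (nat_lit 50700) (nat_lit 0) (nat_lit 0) (XT.nd (nat_lit 50388) (nat_lit 0) (nat_lit 0) (XT.nd (nat_lit 50232) (nat_lit 0) (nat_lit 0) (XT.nd (nat_lit 50154) (nat_lit 0) (nat_lit 0) (XT.lf (nat_lit 0) (nat_lit 31856770625506) (nat_lit 76) (nat_lit 2830639111202) (nat_lit 76) (nat_lit 2830154027865) (nat_lit 1) (nat_lit 4) (nat_lit 2) (nat_lit 5) (nat_lit 2) (nat_lit 4) (nat_lit 418) (nat_lit 319) (nat_lit 283)) (XT.lf (nat_lit 0) (nat_lit 43908382015) (nat_lit 76) (nat_lit 25032826904) (nat_lit 76) (nat_lit 25032826904) (nat_lit 1) (nat_lit 4) (nat_lit 2) (nat_lit 5) (nat_lit 2) (nat_lit 4) (nat_lit 380) (nat_lit 320) (nat_lit 320))) (XT.nd (nat_lit 78) (nat_lit 0) (nat_lit 0) (XT.lf (nat_lit 0) (nat_lit 115972151483) (nat_lit 76)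 (nat_lit 49827811304) (nat_lit 76) (nat_lit 49754570581) (nat_lit 1) (nat_lit 4) (nat_lit 2) (nat_lit 5) (nat_lit 2) (nat_lit 4) (nat_lit 381) (nat_lit 320) (nat_lit 319)) (XT.lf (nat_lit 0) (nat_lit 147077598964) (nat_lit 76) (nat_lit 50205535390) (nat_lit 76) (nat_lit 50068607081) (nat_lit 1) (nat_lit 4) (nat_lit 2) (nat_lit 5) (nat_lit 2) (nat_lit 4) (nat_lit 382) (nat_lit 320) (nat_lit 318)))) (XT.nd (nat_lit 156) (nat_lit 0) (nat_lit 0) (XT.nd (nat_lit 78) (nat_lit 0) (nat_lit 0) (XT.lf (nat_lit 0) (nat_lit 181741691318) (nat_lit 76) (nat_lit 51206216321) (nat_lit 76) (nat_lit 51013907503) (nat_lit 1) (nat_lit 4) (nat_lit 2) (nat_lit 5) (nat_lit 2) (nat_lit 4) (nat_lit 383) (nat_lit 320) (nat_lit 317)) (XT.lf (nat_lit 0) (nat_lit 220642639046) (nat_lit 76) (nat_lit 52849432637) (nat_lit 76) (nat_lit 52608966854) (nat_lit 1) (nat_lit 4) (nat_lit 2) (nat_lit 5) (nat_lit 2) (nat_lit 4)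 (nat_lit 384) (nat_lit 320) (nat_lit 316))) (XT.nd (nat_lit 78) (nat_lit 0) (nat_lit 0) (XT.lf (nat_lit 0) (nat_lit 264541547647) (nat_lit 76) (nat_lit 55167334221) (nat_lit 76) (nat_lit 54884992817) (nat_lit 1) (nat_lit 4) (nat_lit 2) (nat_lit 5) (nat_lit 2) (nat_lit 4) (nat_lit 385) (nat_lit 320) (nat_lit 315)) (XT.lf (nat_lit 0) (nat_lit 314297308812) (nat_lit 76) (nat_lit 58205271323) (nat_lit 76) (nat_lit 57886516335) (nat_lit 1) (nat_lit 4) (nat_lit 2) (nat_lit 5) (nat_lit 2) (nat_lit 4) (nat_lit 386) (nat_lit 320) (nat_lit 314))))) (XT.nd (nat_lit 312) (nat_lit 0) (nat_lit 0) (XT.nd (nat_lit 156) (nat_lit 0) (nat_lit 0) (XT.nd (nat_lit 78) (nat_lit 0) (nat_lit 0) (XT.lf (nat_lit 0) (nat_lit 370883404825) (nat_lit 76) (nat_lit 62022681842) (nat_lit 76) (nat_lit 61672262868) (nat_lit 1) (nat_lit 4) (nat_lit 2) (nat_lit 5) (nat_lit 2) (nat_lit 4) (nat_lit 387) (nat_lit 320) (nat_lit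 313)) (XT.lf (nat_lit 0) (nat_lit 435406954954) (nat_lit 76) (nat_lit 66694254244) (nat_lit 76) (nat_lit 66316301370) (nat_lit 1) (nat_lit 4) (nat_lit 2) (nat_lit 5) (nat_lit 2) (nat_lit 4) (nat_lit 388) (nat_lit 320) (nat_lit 312))) (XT.nd (nat_lit 78) (nat_lit 0) (nat_lit 0) (XT.lf (nat_lit 0) (nat_lit 509130376486) (nat_lit 76) (nat_lit 72311388861) (nat_lit 76) (nat_lit 71909493464) (nat_lit 1) (nat_lit 4) (nat_lit 2) (nat_lit 5) (nat_lit 2) (nat_lit 4) (nat_lit 389) (nat_lit 320) (nat_lit 311)) (XT.lf (nat_lit 0) (nat_lit 593496084189) (nat_lit 76) (nat_lit 78983986150) (nat_lit 76) (nat_lit 78561271168) (nat_lit 1) (nat_lit 4) (nat_lit 2) (nat_lit 5) (nat_lit 2) (nat_lit 4) (nat_lit 390) (nat_lit 320) (nat_lit 310)))) (XT.nd (nat_lit 156) (nat_lit 0) (nat_lit 0) (XT.nd (nat_lit 78) (nat_lit 0) (nat_lit 0) (XT.lf (nat_lit 0) (nat_lit 690154711475) (nat_lit 76) (nat_lit 86842596929)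 (nat_lit 76) (nat_lit 86401777961) (nat_lit 1) (nat_lit 4) (nat_lit 2) (nat_lit 5) (nat_lit 2) (nat_lit 4) (nat_lit 391) (nat_lit 320) (nat_lit 309)) (XT.lf (nat_lit 0) (nat_lit 800997405400) (nat_lit 76) (nat_lit 96040976627) (nat_lit 76) (nat_lit 95584415061) (nat_lit 1) (nat_lit 4) (nat_lit 2) (nat_lit 5) (nat_lit 2) (nat_lit 4) (nat_lit 392) (nat_lit 320) (nat_lit 308))) (XT.nd (nat_lit 78) (nat_lit 0) (nat_lit 0) (XT.lf (nat_lit 0) (nat_lit 928192827366) (nat_lit 76) (nat_lit 106759093541) (nat_lit 76) (nat_lit 106288842761) (nat_lit 1) (nat_lit 4) (nat_lit 2) (nat_lit 5) (nat_lit 2) (nat_lit 4) (nat_lit 393) (nat_lit 320) (nat_lit 307)) (XT.nd (nat_lit 78) (nat_lit 0) (nat_lit 0) (XT.lf (nat_lit 0) (nat_lit 1074229583455) (nat_lit 76) (nat_lit 119206649959) (nat_lit 76) (nat_lit 118724495514) (nat_lit 1) (nat_lit 4) (nat_lit 2) (nat_lit 5) (nat_lit 2) (nat_lit 4) (nat_lit 394) (nat_lit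 320) (nat_lit 306)) (XT.lf (nat_lit 0) (nat_lit 1241964914547) (nat_lit 76) (nat_lit 133627185029) (nat_lit 76) (nat_lit 133134679570) (nat_lit 1) (nat_lit 4) (nat_lit 2) (nat_lit 5) (nat_lit 2) (nat_lit 4) (nat_lit 395) (nat_lit 320) (nat_lit 305))))))) (XT.nd (nat_lit 624) (nat_lit 0) (nat_lit 0) (XT.nd (nat_lit 312) (nat_lit 0) (nat_lit 0) (XT.nd (nat_lit 156) (nat_lit 0) (nat_lit 0) (XT.nd (nat_lit 78) (nat_lit 0) (nat_lit 0) (XT.lf (nat_lit 0) (nat_lit 1434680598860) (nat_lit 76) (nat_lit 150302839653) (nat_lit 76) (nat_lit 149801333314) (nat_lit 1) (nat_lit 4) (nat_lit 2) (nat_lit 5) (nat_lit 2) (nat_lit 4) (nat_lit 396) (nat_lit 320) (nat_lit 304)) (XT.lf (nat_lit 0) (nat_lit 1656147160652) (nat_lit 76) (nat_lit 169559876640) (nat_lit 76) (nat_lit 169050543448) (nat_lit 1) (nat_lit 4) (nat_lit 2) (nat_lit 5) (nat_lit 2) (nat_lit 4) (nat_lit 397) (nat_lit 320) (nat_lit 303))) (XT.nd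 (nat_lit 78) (nat_lit 0) (nat_lit 0) (XT.lf (nat_lit 0) (nat_lit 1910697641348) (nat_lit 76) (nat_lit 191775064105) (nat_lit 76) (nat_lit 191258924953) (nat_lit 1) (nat_lit 4) (nat_lit 2) (nat_lit 5) (nat_lit 2) (nat_lit 4) (nat_lit 398) (nat_lit 320) (nat_lit 302)) (XT.lf (nat_lit 0) (nat_lit 2203312376442) (nat_lit 76) (nat_lit 217383047020) (nat_lit 76) (nat_lit 216860989643) (nat_lit 1) (nat_lit 4) (nat_lit 2) (nat_lit 5) (nat_lit 2) (nat_lit 4) (nat_lit 399) (nat_lit 320) (nat_lit 301)))) (XT.nd (nat_lit 156) (nat_lit 0) (nat_lit 0) (XT.nd (nat_lit 78) (nat_lit 0) (nat_lit 0) (XT.lf (nat_lit 0) (nat_lit 2539716436836) (nat_lit 76) (nat_lit 246884851137) (nat_lit 76) (nat_lit 246357647477) (nat_lit 1) (nat_lit 4) (nat_lit 2) (nat_lit 5) (nat_lit 2) (nat_lit 4) (nat_lit 400) (nat_lit 320) (nat_lit 300)) (XT.lf (nat_lit 0) (nat_lit 2926491641104) (nat_lit 76) (nat_lit 280857685668) (nat_lit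 76) (nat_lit 280326006979) (nat_lit 1) (nat_lit 4) (nat_lit 2) (nat_lit 5) (nat_lit 2) (nat_lit 4) (nat_lit 401) (nat_lit 320) (nat_lit 299))) (XT.nd (nat_lit 78) (nat_lit 0) (nat_lit 0) (XT.lf (nat_lit 0) (nat_lit 3371205330199) (nat_lit 76) (nat_lit 319966236506) (nat_lit 76) (nat_lit 319430666488) (nat_lit 1) (nat_lit 4) (nat_lit 2) (nat_lit 5) (nat_lit 2) (nat_lit 4) (nat_lit 402) (nat_lit 320) (nat_lit 298)) (XT.lf (nat_lit 0) (nat_lit 3882558424125) (nat_lit 76) (nat_lit 364975670949) (nat_lit 76) (nat_lit 364436717166) (nat_lit 1) (nat_lit 4) (nat_lit 2) (nat_lit 5) (nat_lit 2) (nat_lit 4) (nat_lit 403) (nat_lit 320) (nat_lit 297))))) (XT.nd (nat_lit 312) (nat_lit 0) (nat_lit 0) (XT.nd (nat_lit 156) (nat_lit 0) (nat_lit 0) (XT.nd (nat_lit 78) (nat_lit 0) (nat_lit 0) (XT.lf (nat_lit 0) (nat_lit 4470555657328) (nat_lit 76) (nat_lit 416766608367) (nat_lit 76) (nat_lit 416224712180) (nat_lit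 1) (nat_lit 4) (nat_lit 2) (nat_lit 5) (nat_lit 2) (nat_lit 4) (nat_lit 404) (nat_lit 320) (nat_lit 296)) (XT.lf (nat_lit 0) (nat_lit 5146701323502) (nat_lit 76) (nat_lit 476352349709) (nat_lit 76) (nat_lit 475807894910) (nat_lit 1) (nat_lit 4) (nat_lit 2) (nat_lit 5) (nat_lit 2) (nat_lit 4) (nat_lit 405) (nat_lit 320) (nat_lit 295))) (XT.nd (nat_lit 78) (nat_lit 0) (nat_lit 0) (XT.lf (nat_lit 0) (nat_lit 5924224359593) (nat_lit 76) (nat_lit 544898702959) (nat_lit 76) (nat_lit 544352023280) (nat_lit 1) (nat_lit 4) (nat_lit 2) (nat_lit 5) (nat_lit 2) (nat_lit 4) (nat_lit 406) (nat_lit 320) (nat_lit 294)) (XT.lf (nat_lit 0) (nat_lit 6818337172829) (nat_lit 76) (nat_lit 623746792419) (nat_lit 76) (nat_lit 623198178061) (nat_lit 1) (nat_lit 4) (nat_lit 2) (nat_lit 5) (nat_lit 2) (nat_lit 4) (nat_lit 407) (nat_lit 320) (nat_lit 293)))) (XT.nd (nat_lit 156) (nat_lit 0) (nat_lit 0) (XT.nd (nat_lit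 78) (nat_lit 0) (nat_lit 0) (XT.lf (nat_lit 0) (nat_lit 7846533274774) (nat_lit 76) (nat_lit 714439298100) (nat_lit 76) (nat_lit 713889001413) (nat_lit 1) (nat_lit 4) (nat_lit 2) (nat_lit 5) (nat_lit 2) (nat_lit 4) (nat_lit 408) (nat_lit 320) (nat_lit 292)) (XT.lf (nat_lit 0) (nat_lit 9028929545682) (nat_lit 76) (nat_lit 818750638592) (nat_lit 76) (nat_lit 818198879010) (nat_lit 1) (nat_lit 4) (nat_lit 2) (nat_lit 5) (nat_lit 2) (nat_lit 4) (nat_lit 409) (nat_lit 320) (nat_lit 291))) (XT.nd (nat_lit 78) (nat_lit 0) (nat_lit 0) (XT.lf (nat_lit 0) (nat_lit 10388659825637) (nat_lit 76) (nat_lit 938721687947) (nat_lit 76) (nat_lit 938168656283) (nat_lit 1) (nat_lit 4) (nat_lit 2) (nat_lit 5) (nat_lit 2) (nat_lit 4) (nat_lit 410) (nat_lit 320) (nat_lit 290)) (XT.nd (nat_lit 78) (nat_lit 0) (nat_lit 0) (XT.lf (nat_lit 0) (nat_lit 11952327533161) (nat_lit 76) (nat_lit 1076699705827) (nat_lit 76)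 (nat_lit 1076145568005) (nat_lit 1) (nat_lit 4) (nat_lit 2) (nat_lit 5) (nat_lit 2) (nat_lit 4) (nat_lit 411) (nat_lit 320) (nat_lit 289)) (XT.lf (nat_lit 0) (nat_lit 13750526166877) (nat_lit 76) (nat_lit 1235384262148) (nat_lit 76) (nat_lit 1234829162449) (nat_lit 1) (nat_lit 4) (nat_lit 2) (nat_lit 5) (nat_lit 2) (nat_lit 4) (nat_lit 412) (nat_lit 320) (nat_lit 288))))))))
noncomputable def xc12 : XT := (XT.nd (nat_lit 51168) (nat_lit 0) (nat_lit 0) (XT.nd (nat_lit 50544) (nat_lit 0) (nat_lit 0) (XT.nd (nat_lit 312) (nat_lit 0) (nat_lit 0) (XT.nd (nat_lit 156) (nat_lit 0) (nat_lit 0) (XT.nd (nat_lit 78) (nat_lit 0) (nat_lit 0) (XT.lf (nat_lit 0) (nat_lit 15818437873968) (nat_lit 76) (nat_lit 1417880054750) (nat_lit 76) (nat_lit 1417324118636) (nat_lit 1) (nat_lit 4) (nat_lit 2) (nat_lit 5) (nat_lit 2) (nat_lit 4) (nat_lit 413) (nat_lit 320) (nat_lit 287)) (XT.lf (nat_lit 0) (nat_lit 18196521796529)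 (nat_lit 76) (nat_lit 1627757653488) (nat_lit 76) (nat_lit 1627200990056) (nat_lit 1) (nat_lit 4) (nat_lit 2) (nat_lit 5) (nat_lit 2) (nat_lit 4) (nat_lit 414) (nat_lit 320) (nat_lit 286))) (XT.nd (nat_lit 78) (nat_lit 0) (nat_lit 0) (XT.lf (nat_lit 0) (nat_lit 20931305663479) (nat_lit 76) (nat_lit 1869123359207) (nat_lit 76) (nat_lit 1868566063326) (nat_lit 1) (nat_lit 4) (nat_lit 2) (nat_lit 5) (nat_lit 2) (nat_lit 4) (nat_lit 415) (nat_lit 320) (nat_lit 285)) (XT.lf (nat_lit 0) (nat_lit 24076296115694) (nat_lit 76) (nat_lit 2146699544411) (nat_lit 76) (nat_lit 2146141698573) (nat_lit 1) (nat_lit 4) (nat_lit 2) (nat_lit 5) (nat_lit 2) (nat_lit 4) (nat_lit 416) (nat_lit 320) (nat_lit 284)))) (XT.nd (nat_lit 50076) (nat_lit 0) (nat_lit 0) (XT.nd (nat_lit 78) (nat_lit 0) (nat_lit 0) (XT.lf (nat_lit 0) (nat_lit 27693025575065) (nat_lit 76) (nat_lit 2465917047505) (nat_lit 76) (nat_lit 2465358723445)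 (nat_lit 1) (nat_lit 4) (nat_lit 2) (nat_lit 5) (nat_lit 2) (nat_lit 4) (nat_lit 417) (nat_lit 320) (nat_lit 283)) (XT.lf (nat_lit 0) (nat_lit 31852256139710) (nat_lit 76) (nat_lit 2833021428333) (nat_lit 76) (nat_lit 2832462688427) (nat_lit 1) (nat_lit 4) (nat_lit 2) (nat_lit 5) (nat_lit 2) (nat_lit 4) (nat_lit 418) (nat_lit 320) (nat_lit 282))) (XT.nd (nat_lit 78) (nat_lit 0) (nat_lit 0) (XT.lf (nat_lit 0) (nat_lit 19491420243) (nat_lit 76) (nat_lit 26051211886) (nat_lit 76) (nat_lit 26051211886) (nat_lit 1) (nat_lit 4) (nat_lit 2) (nat_lit 5) (nat_lit 2) (nat_lit 4) (nat_lit 378) (nat_lit 321) (nat_lit 321)) (XT.lf (nat_lit 0) (nat_lit 62060570334) (nat_lit 76) (nat_lit 51007943176) (nat_lit 76) (nat_lit 50923716344) (nat_lit 1) (nat_lit 4) (nat_lit 2) (nat_lit 5) (nat_lit 2) (nat_lit 4) (nat_lit 379) (nat_lit 321) (nat_lit 320))))) (XT.nd (nat_lit 312) (nat_lit 0) (nat_lit 0) (XT.nd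 (nat_lit 156) (nat_lit 0) (nat_lit 0) (XT.nd (nat_lit 78) (nat_lit 0) (nat_lit 0) (XT.lf (nat_lit 0) (nat_lit 87135724357) (nat_lit 76) (nat_lit 50498219902) (nat_lit 76) (nat_lit 50340752346) (nat_lit 1) (nat_lit 4) (nat_lit 2) (nat_lit 5) (nat_lit 2) (nat_lit 4) (nat_lit 380) (nat_lit 321) (nat_lit 319)) (XT.lf (nat_lit 0) (nat_lit 114698903395) (nat_lit 76) (nat_lit 50563281102) (nat_lit 76) (nat_lit 50342125961) (nat_lit 1) (nat_lit 4) (nat_lit 2) (nat_lit 5) (nat_lit 2) (nat_lit 4) (nat_lit 381) (nat_lit 321) (nat_lit 318))) (XT.nd (nat_lit 78) (nat_lit 0) (nat_lit 0) (XT.lf (nat_lit 0) (nat_lit 145289387039) (nat_lit 76) (nat_lit 51204399715) (nat_lit 76) (nat_lit 50927864065) (nat_lit 1) (nat_lit 4) (nat_lit 2) (nat_lit 5) (nat_lit 2) (nat_lit 4) (nat_lit 382) (nat_lit 321) (nat_lit 317)) (XT.lf (nat_lit 0) (nat_lit 179505684752) (nat_lit 76) (nat_lit 52434119365) (nat_lit 76) (nat_lit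 52109426750) (nat_lit 1) (nat_lit 4) (nat_lit 2) (nat_lit 5) (nat_lit 2) (nat_lit 4) (nat_lit 383) (nat_lit 321) (nat_lit 316)))) (XT.nd (nat_lit 156) (nat_lit 0) (nat_lit 0) (XT.nd (nat_lit 78) (nat_lit 0) (nat_lit 0) (XT.lf (nat_lit 0) (nat_lit 218017245835) (nat_lit 76) (nat_lit 54276499783) (nat_lit 76) (nat_lit 53909931547) (nat_lit 1) (nat_lit 4) (nat_lit 2) (nat_lit 5) (nat_lit 2) (nat_lit 4) (nat_lit 384) (nat_lit 321) (nat_lit 315)) (XT.lf (nat_lit 0) (nat_lit 261577557354) (nat_lit 76) (nat_lit 56767587544) (nat_lit 76) (nat_lit 56364605724) (nat_lit 1) (nat_lit 4) (nat_lit 2) (nat_lit 5) (nat_lit 2) (nat_lit 4) (nat_lit 385) (nat_lit 321) (nat_lit 314))) (XT.nd (nat_lit 78) (nat_lit 0) (nat_lit 0) (XT.lf (nat_lit 0) (nat_lit 311038886274) (nat_lit 76) (nat_lit 59956121321) (nat_lit 76) (nat_lit 59521475515) (nat_lit 1) (nat_lit 4) (nat_lit 2) (nat_lit 5) (nat_lit 2) (nat_lit 4)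 (nat_lit 386) (nat_lit 321) (nat_lit 313)) (XT.lf (nat_lit 0) (nat_lit 367368954247) (nat_lit 76) (nat_lit 63904485471) (nat_lit 76) (nat_lit 63442305764) (nat_lit 1) (nat_lit 4) (nat_lit 2) (nat_lit 5) (nat_lit 2) (nat_lit 4) (nat_lit 387) (nat_lit 321) (nat_lit 312)))))) (XT.nd (nat_lit 624) (nat_lit 0) (nat_lit 0) (XT.nd (nat_lit 312) (nat_lit 0) (nat_lit 0) (XT.nd (nat_lit 156) (nat_lit 0) (nat_lit 0) (XT.nd (nat_lit 78) (nat_lit 0) (nat_lit 0) (XT.lf (nat_lit 0) (nat_lit 431669871299) (nat_lit 76) (nat_lit 68689930596) (nat_lit 76) (nat_lit 68203808367) (nat_lit 1) (nat_lit 4) (nat_lit 2) (nat_lit 5) (nat_lit 2) (nat_lit 4) (nat_lit 388) (nat_lit 321) (nat_lit 311)) (XT.lf (nat_lit 0) (nat_lit 505199698850) (nat_lit 76) (nat_lit 74406084970) (nat_lit 76) (nat_lit 73899143157) (nat_lit 1) (nat_lit 4) (nat_lit 2) (nat_lit 5) (nat_lit 2) (nat_lit 4) (nat_lit 389) (nat_lit 321) (nat_lit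 310))) (XT.nd (nat_lit 78) (nat_lit 0) (nat_lit 0) (XT.lf (nat_lit 0) (nat_lit 589397063961) (nat_lit 76) (nat_lit 81164786398) (nat_lit 76) (nat_lit 80639740597) (nat_lit 1) (nat_lit 4) (nat_lit 2) (nat_lit 5) (nat_lit 2) (nat_lit 4) (nat_lit 390) (nat_lit 321) (nat_lit 309)) (XT.lf (nat_lit 0) (nat_lit 685909306385) (nat_lit 76) (nat_lit 89098270341) (nat_lit 76) (nat_lit 88557481943) (nat_lit 1) (nat_lit 4) (nat_lit 2) (nat_lit 5) (nat_lit 2) (nat_lit 4) (nat_lit 391) (nat_lit 321) (nat_lit 308)))) (XT.nd (nat_lit 156) (nat_lit 0) (nat_lit 0) (XT.nd (nat_lit 78) (nat_lit 0) (nat_lit 0) (XT.lf (nat_lit 0) (nat_lit 796624709125) (nat_lit 76) (nat_lit 98361757137) (nat_lit 76) (nat_lit 97807279524) (nat_lit 1) (nat_lit 4) (nat_lit 2) (nat_lit 5) (nat_lit 2) (nat_lit 4) (nat_lit 392) (nat_lit 321) (nat_lit 307)) (XT.lf (nat_lit 0) (nat_lit 923709443104) (nat_lit 76) (nat_lit 109136488919)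 (nat_lit 76) (nat_lit 108570107642) (nat_lit 1) (nat_lit 4) (nat_lit 2) (nat_lit 5) (nat_lit 2) (nat_lit 4) (nat_lit 393) (nat_lit 321) (nat_lit 306))) (XT.nd (nat_lit 78) (nat_lit 0) (nat_lit 0) (XT.lf (nat_lit 0) (nat_lit 1069649948770) (nat_lit 76) (nat_lit 121633275658) (nat_lit 76) (nat_lit 121056543367) (nat_lit 1) (nat_lit 4) (nat_lit 2) (nat_lit 5) (nat_lit 2) (nat_lit 4) (nat_lit 394) (nat_lit 321) (nat_lit 305)) (XT.lf (nat_lit 0) (nat_lit 1237301583842) (nat_lit 76) (nat_lit 136096619701) (nat_lit 76) (nat_lit 135510886530) (nat_lit 1) (nat_lit 4) (nat_lit 2) (nat_lit 5) (nat_lit 2) (nat_lit 4) (nat_lit 395) (nat_lit 321) (nat_lit 304))))) (XT.nd (nat_lit 312) (nat_lit 0) (nat_lit 0) (XT.nd (nat_lit 156) (nat_lit 0) (nat_lit 0) (XT.nd (nat_lit 78) (nat_lit 0) (nat_lit 0) (XT.lf (nat_lit 0) (nat_lit 1429944489007) (nat_lit 76) (nat_lit 152809499521) (nat_lit 76) (nat_lit 152215939496)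 (nat_lit 1) (nat_lit 4) (nat_lit 2) (nat_lit 5) (nat_lit 2) (nat_lit 4) (nat_lit 396) (nat_lit 321) (nat_lit 303)) (XT.lf (nat_lit 0) (nat_lit 1651347764582) (nat_lit 76) (nat_lit 172098906243) (nat_lit 76) (nat_lit 171498540259) (nat_lit 1) (nat_lit 4) (nat_lit 2) (nat_lit 5) (nat_lit 2) (nat_lit 4) (nat_lit 397) (nat_lit 321) (nat_lit 302))) (XT.nd (nat_lit 78) (nat_lit 0) (nat_lit 0) (XT.lf (nat_lit 0) (nat_lit 1905843213787) (nat_lit 76) (nat_lit 194342241303) (nat_lit 76) (nat_lit 193735957094) (nat_lit 1) (nat_lit 4) (nat_lit 2) (nat_lit 5) (nat_lit 2) (nat_lit 4) (nat_lit 398) (nat_lit 321) (nat_lit 301)) (XT.lf (nat_lit 0) (nat_lit 2198410095409) (nat_lit 76) (nat_lit 219974700388) (nat_lit 76) (nat_lit 219363269895) (nat_lit 1) (nat_lit 4) (nat_lit 2) (nat_lit 5) (nat_lit 2) (nat_lit 4) (nat_lit 399) (nat_lit 321) (nat_lit 300)))) (XT.nd (nat_lit 156) (nat_lit 0) (nat_lit 0) (XT.nd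 (nat_lit 78) (nat_lit 0) (nat_lit 0) (XT.lf (nat_lit 0) (nat_lit 2534772544089) (nat_lit 76) (nat_lit 249497788131) (nat_lit 76) (nat_lit 248881882610) (nat_lit 1) (nat_lit 4) (nat_lit 2) (nat_lit 5) (nat_lit 2) (nat_lit 4) (nat_lit 400) (nat_lit 321) (nat_lit 299)) (XT.lf (nat_lit 0) (nat_lit 2921511564258) (nat_lit 76) (nat_lit 283489130163) (nat_lit 76) (nat_lit 282869333313) (nat_lit 1) (nat_lit 4) (nat_lit 2) (nat_lit 5) (nat_lit 2) (nat_lit 4) (nat_lit 401) (nat_lit 321) (nat_lit 298))) (XT.nd (nat_lit 78) (nat_lit 0) (nat_lit 0) (XT.lf (nat_lit 0) (nat_lit 3366193788919) (nat_lit 76) (nat_lit 322613774479) (nat_lit 76) (nat_lit 321990593864) (nat_lit 1) (nat_lit 4) (nat_lit 2) (nat_lit 5) (nat_lit 2) (nat_lit 4) (nat_lit 402) (nat_lit 321) (nat_lit 297)) (XT.nd (nat_lit 78) (nat_lit 0) (nat_lit 0) (XT.lf (nat_lit 0) (nat_lit 3877519522468) (nat_lit 76) (nat_lit 367637203252) (nat_lit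 76) (nat_lit 367011080233) (nat_lit 1) (nat_lit 4) (nat_lit 2) (nat_lit 5) (nat_lit 2) (nat_lit 4) (nat_lit 403) (nat_lit 321) (nat_lit 296)) (XT.lf (nat_lit 0) (nat_lit 4465492964038) (nat_lit 76) (nat_lit 419440309652) (nat_lit 76) (nat_lit 418811628021) (nat_lit 1) (nat_lit 4) (nat_lit 2) (nat_lit 5) (nat_lit 2) (nat_lit 4) (nat_lit 404) (nat_lit 321) (nat_lit 295))))))))
noncomputable def xc13 : XT := (XT.nd (nat_lit 51012) (nat_lit 0) (nat_lit 0) (XT.nd (nat_lit 624) (nat_lit 0) (nat_lit 0) (XT.nd (nat_lit 312) (nat_lit 0) (nat_lit 0) (XT.nd (nat_lit 156) (nat_lit 0) (nat_lit 0) (XT.nd (nat_lit 78) (nat_lit 0) (nat_lit 0) (XT.lf (nat_lit 0) (nat_lit 5141617941836) (nat_lit 76) (nat_lit 479036632718) (nat_lit 76) (nat_lit 478405726207) (nat_lit 1) (nat_lit 4) (nat_lit 2) (nat_lit 5) (nat_lit 2) (nat_lit 4) (nat_lit 405) (nat_lit 321) (nat_lit 294)) (XT.lf (nat_lit 0) (nat_lit 5919122988035)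 (nat_lit 76) (nat_lit 547592187467) (nat_lit 76) (nat_lit 546959346277) (nat_lit 1) (nat_lit 4) (nat_lit 2) (nat_lit 5) (nat_lit 2) (nat_lit 4) (nat_lit 406) (nat_lit 321) (nat_lit 293))) (XT.nd (nat_lit 78) (nat_lit 0) (nat_lit 0) (XT.lf (nat_lit 0) (nat_lit 6813220157886) (nat_lit 76) (nat_lit 626448278230) (nat_lit 76) (nat_lit 625813754712) (nat_lit 1) (nat_lit 4) (nat_lit 2) (nat_lit 5) (nat_lit 2) (nat_lit 4) (nat_lit 407) (nat_lit 321) (nat_lit 292)) (XT.lf (nat_lit 0) (nat_lit 7841402656887) (nat_lit 76) (nat_lit 717147741566) (nat_lit 76) (nat_lit 716511755153) (nat_lit 1) (nat_lit 4) (nat_lit 2) (nat_lit 5) (nat_lit 2) (nat_lit 4) (nat_lit 408) (nat_lit 321) (nat_lit 291)))) (XT.nd (nat_lit 156) (nat_lit 0) (nat_lit 0) (XT.nd (nat_lit 78) (nat_lit 0) (nat_lit 0) (XT.lf (nat_lit 0) (nat_lit 9023787099150) (nat_lit 76) (nat_lit 821465132193) (nat_lit 76) (nat_lit 820827873697) (nat_lit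 1) (nat_lit 4) (nat_lit 2) (nat_lit 5) (nat_lit 2) (nat_lit 4) (nat_lit 409) (nat_lit 321) (nat_lit 290)) (XT.lf (nat_lit 0) (nat_lit 10383507093326) (nat_lit 76) (nat_lit 941441442535) (nat_lit 76) (nat_lit 940803077881) (nat_lit 1) (nat_lit 4) (nat_lit 2) (nat_lit 5) (nat_lit 2) (nat_lit 4) (nat_lit 410) (nat_lit 321) (nat_lit 289))) (XT.nd (nat_lit 78) (nat_lit 0) (nat_lit 0) (XT.lf (nat_lit 0) (nat_lit 11947165856693) (nat_lit 76) (nat_lit 1079424035187) (nat_lit 76) (nat_lit 1078784708655) (nat_lit 1) (nat_lit 4) (nat_lit 2) (nat_lit 5) (nat_lit 2) (nat_lit 4) (nat_lit 411) (nat_lit 321) (nat_lit 288)) (XT.lf (nat_lit 0) (nat_lit 13745356712882) (nat_lit 76) (nat_lit 1238112569569) (nat_lit 76) (nat_lit 1237472406623) (nat_lit 1) (nat_lit 4) (nat_lit 2) (nat_lit 5) (nat_lit 2) (nat_lit 4) (nat_lit 412) (nat_lit 321) (nat_lit 287))))) (XT.nd (nat_lit 312) (nat_lit 0) (nat_lit 0) (XT.nd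 (nat_lit 156) (nat_lit 0) (nat_lit 0) (XT.nd (nat_lit 78) (nat_lit 0) (nat_lit 0) (XT.lf (nat_lit 0) (nat_lit 15813261656907) (nat_lit 76) (nat_lit 1420611821355) (nat_lit 76) (nat_lit 1419970931092) (nat_lit 1) (nat_lit 4) (nat_lit 2) (nat_lit 5) (nat_lit 2) (nat_lit 4) (nat_lit 413) (nat_lit 321) (nat_lit 286)) (XT.lf (nat_lit 0) (nat_lit 18191339698540) (nat_lit 76) (nat_lit 1630492428079) (nat_lit 76) (nat_lit 1629850905366) (nat_lit 1) (nat_lit 4) (nat_lit 2) (nat_lit 5) (nat_lit 2) (nat_lit 4) (nat_lit 414) (nat_lit 321) (nat_lit 285))) (XT.nd (nat_lit 78) (nat_lit 0) (nat_lit 0) (XT.lf (nat_lit 0) (nat_lit 20926118451640) (nat_lit 76) (nat_lit 1871860749439) (nat_lit 76) (nat_lit 1871218676769) (nat_lit 1) (nat_lit 4) (nat_lit 2) (nat_lit 5) (nat_lit 2) (nat_lit 4) (nat_lit 415) (nat_lit 321) (nat_lit 284)) (XT.lf (nat_lit 0) (nat_lit 24071104457029) (nat_lit 76) (nat_lit 2149439209113)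 (nat_lit 76) (nat_lit 2148796658220) (nat_lit 1) (nat_lit 4) (nat_lit 2) (nat_lit 5) (nat_lit 2) (nat_lit 4) (nat_lit 416) (nat_lit 321) (nat_lit 283)))) (XT.nd (nat_lit 49920) (nat_lit 0) (nat_lit 0) (XT.nd (nat_lit 78) (nat_lit 0) (nat_lit 0) (XT.lf (nat_lit 0) (nat_lit 27687830049594) (nat_lit 76) (nat_lit 2468658690007) (nat_lit 76) (nat_lit 2468015723268) (nat_lit 1) (nat_lit 4) (nat_lit 2) (nat_lit 5) (nat_lit 2) (nat_lit 4) (nat_lit 417) (nat_lit 321) (nat_lit 282)) (XT.lf (nat_lit 0) (nat_lit 31847057251800) (nat_lit 76) (nat_lit 2835764790661) (nat_lit 76) (nat_lit 2835121462317) (nat_lit 1) (nat_lit 4) (nat_lit 2) (nat_lit 5) (nat_lit 2) (nat_lit 4) (nat_lit 418) (nat_lit 321) (nat_lit 281))) (XT.nd (nat_lit 78) (nat_lit 76) (nat_lit 0) (XT.lf (nat_lit 0) (nat_lit 26886640024) (nat_lit 152) (nat_lit 976342046) (nat_lit 0) (nat_lit 26886640024) (nat_lit 2) (nat_lit 5) (nat_lit 4)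 (nat_lit 4) (nat_lit 2) (nat_lit 4) (nat_lit 376) (nat_lit 322) (nat_lit 322)) (XT.lf (nat_lit 0) (nat_lit 17451014015) (nat_lit 76) (nat_lit 53899936298) (nat_lit 76) (nat_lit 53803075441) (nat_lit 1) (nat_lit 4) (nat_lit 2) (nat_lit 5) (nat_lit 2) (nat_lit 4) (nat_lit 377) (nat_lit 322) (nat_lit 321)))))) (XT.nd (nat_lit 624) (nat_lit 0) (nat_lit 0) (XT.nd (nat_lit 312) (nat_lit 0) (nat_lit 0) (XT.nd (nat_lit 156) (nat_lit 0) (nat_lit 0) (XT.nd (nat_lit 78) (nat_lit 0) (nat_lit 0) (XT.lf (nat_lit 0) (nat_lit 38199644861) (nat_lit 76) (nat_lit 52599874779) (nat_lit 76) (nat_lit 52418787090) (nat_lit 1) (nat_lit 4) (nat_lit 2) (nat_lit 5) (nat_lit 2) (nat_lit 4) (nat_lit 378) (nat_lit 322) (nat_lit 320)) (XT.lf (nat_lit 0) (nat_lit 60596335033) (nat_lit 76) (nat_lit 51853733444) (nat_lit 76) (nat_lit 51599405032) (nat_lit 1) (nat_lit 4) (nat_lit 2) (nat_lit 5) (nat_lit 2) (nat_lit 4) (nat_lit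 379) (nat_lit 322) (nat_lit 319))) (XT.nd (nat_lit 78) (nat_lit 0) (nat_lit 0) (XT.lf (nat_lit 0) (nat_lit 85079280643) (nat_lit 76) (nat_lit 51646913875) (nat_lit 76) (nat_lit 51328897877) (nat_lit 1) (nat_lit 4) (nat_lit 2) (nat_lit 5) (nat_lit 2) (nat_lit 4) (nat_lit 380) (nat_lit 322) (nat_lit 318)) (XT.lf (nat_lit 0) (nat_lit 112127495844) (nat_lit 76) (nat_lit 51975369602) (nat_lit 76) (nat_lit 51601973095) (nat_lit 1) (nat_lit 4) (nat_lit 2) (nat_lit 5) (nat_lit 2) (nat_lit 4) (nat_lit 381) (nat_lit 322) (nat_lit 317)))) (XT.nd (nat_lit 156) (nat_lit 0) (nat_lit 0) (XT.nd (nat_lit 78) (nat_lit 0) (nat_lit 0) (XT.lf (nat_lit 0) (nat_lit 142270184847) (nat_lit 76) (nat_lit 52845526933) (nat_lit 76) (nat_lit 52423973462) (nat_lit 1) (nat_lit 4) (nat_lit 2) (nat_lit 5) (nat_lit 2) (nat_lit 4) (nat_lit 382) (nat_lit 322) (nat_lit 316)) (XT.lf (nat_lit 0) (nat_lit 176097095915) (nat_lit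 76) (nat_lit 54274410686) (nat_lit 76) (nat_lit 53810981593) (nat_lit 1) (nat_lit 4) (nat_lit 2) (nat_lit 5) (nat_lit 2) (nat_lit 4) (nat_lit 383) (nat_lit 322) (nat_lit 315))) (XT.nd (nat_lit 78) (nat_lit 0) (nat_lit 0) (XT.lf (nat_lit 0) (nat_lit 214270059916) (nat_lit 76) (nat_lit 56289977281) (nat_lit 76) (nat_lit 55790134604) (nat_lit 1) (nat_lit 4) (nat_lit 2) (nat_lit 5) (nat_lit 2) (nat_lit 4) (nat_lit 384) (nat_lit 322) (nat_lit 314)) (XT.lf (nat_lit 0) (nat_lit 257535939190) (nat_lit 76) (nat_lit 58931661717) (nat_lit 76) (nat_lit 58400155055) (nat_lit 1) (nat_lit 4) (nat_lit 2) (nat_lit 5) (nat_lit 2) (nat_lit 4) (nat_lit 385) (nat_lit 322) (nat_lit 313))))) (XT.nd (nat_lit 312) (nat_lit 0) (nat_lit 0) (XT.nd (nat_lit 156) (nat_lit 0) (nat_lit 0) (XT.nd (nat_lit 78) (nat_lit 0) (nat_lit 0) (XT.lf (nat_lit 0) (nat_lit 306741240071) (nat_lit 76) (nat_lit 62251149125) (nat_lit 76)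 (nat_lit 61692108562) (nat_lit 1) (nat_lit 4) (nat_lit 2) (nat_lit 5) (nat_lit 2) (nat_lit 4) (nat_lit 386) (nat_lit 322) (nat_lit 312)) (XT.lf (nat_lit 0) (nat_lit 362848674966) (nat_lit 76) (nat_lit 66313385997) (nat_lit 76) (nat_lit 65730402911) (nat_lit 1) (nat_lit 4) (nat_lit 2) (nat_lit 5) (nat_lit 2) (nat_lit 4) (nat_lit 387) (nat_lit 322) (nat_lit 311))) (XT.nd (nat_lit 78) (nat_lit 0) (nat_lit 0) (XT.lf (nat_lit 0) (nat_lit 426955998037) (nat_lit 76) (nat_lit 71197850881) (nat_lit 76) (nat_lit 70594048210) (nat_lit 1) (nat_lit 4) (nat_lit 2) (nat_lit 5) (nat_lit 2) (nat_lit 4) (nat_lit 388) (nat_lit 322) (nat_lit 310)) (XT.lf (nat_lit 0) (nat_lit 500317482996) (nat_lit 76) (nat_lit 77000109393) (nat_lit 76) (nat_lit 76378202736) (nat_lit 1) (nat_lit 4) (nat_lit 2) (nat_lit 5) (nat_lit 2) (nat_lit 4) (nat_lit 389) (nat_lit 322) (nat_lit 309)))) (XT.nd (nat_lit 156) (nat_lit 0) (nat_lit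 0) (XT.nd (nat_lit 78) (nat_lit 0) (nat_lit 0) (XT.lf (nat_lit 0) (nat_lit 584368463245) (nat_lit 76) (nat_lit 83833683984) (nat_lit 76) (nat_lit 83196034730) (nat_lit 1) (nat_lit 4) (nat_lit 2) (nat_lit 5) (nat_lit 2) (nat_lit 4) (nat_lit 390) (nat_lit 322) (nat_lit 308)) (XT.lf (nat_lit 0) (nat_lit 680753414483) (nat_lit 76) (nat_lit 91832275025) (nat_lit 76) (nat_lit 91180936556) (nat_lit 1) (nat_lit 4) (nat_lit 2) (nat_lit 5) (nat_lit 2) (nat_lit 4) (nat_lit 391) (nat_lit 322) (nat_lit 307))) (XT.nd (nat_lit 78) (nat_lit 0) (nat_lit 0) (XT.lf (nat_lit 0) (nat_lit 791358129236) (nat_lit 76) (nat_lit 101152376690) (nat_lit 76) (nat_lit 100489134555) (nat_lit 1) (nat_lit 4) (nat_lit 2) (nat_lit 5) (nat_lit 2) (nat_lit 4) (nat_lit 392) (nat_lit 322) (nat_lit 306)) (XT.nd (nat_lit 78) (nat_lit 0) (nat_lit 0) (XT.lf (nat_lit 0) (nat_lit 918346612792) (nat_lit 76) (nat_lit 111976338793) (nat_lit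 76) (nat_lit 111302745645) (nat_lit 1) (nat_lit 4) (nat_lit 2) (nat_lit 5) (nat_lit 2) (nat_lit 4) (nat_lit 393) (nat_lit 322) (nat_lit 305)) (XT.lf (nat_lit 0) (nat_lit 1064203422438) (nat_lit 76) (nat_lit 124515934505) (nat_lit 76) (nat_lit 123833340477) (nat_lit 1) (nat_lit 4) (nat_lit 2) (nat_lit 5) (nat_lit 2) (nat_lit 4) (nat_lit 394) (nat_lit 322) (nat_lit 304))))))))
noncomputable def xc14 : XT := (XT.nd (nat_lit 1248) (nat_lit 0) (nat_lit 0) (XT.nd (nat_lit 624) (nat_lit 0) (nat_lit 0) (XT.nd (nat_lit 312) (nat_lit 0) (nat_lit 0) (XT.nd (nat_lit 156) (nat_lit 0) (nat_lit 0) (XT.nd (nat_lit 78) (nat_lit 0) (nat_lit 0) (XT.lf (nat_lit 0) (nat_lit 1231782278362) (nat_lit 76) (nat_lit 139016503744) (nat_lit 76) (nat_lit 138326082862) (nat_lit 1) (nat_lit 4) (nat_lit 2) (nat_lit 5) (nat_lit 2) (nat_lit 4) (nat_lit 395) (nat_lit 322) (nat_lit 303)) (XT.lf (nat_lit 0) (nat_lit 1424361897311)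 (nat_lit 76) (nat_lit 155761753298) (nat_lit 76) (nat_lit 155064526457) (nat_lit 1) (nat_lit 4) (nat_lit 2) (nat_lit 5) (nat_lit 2) (nat_lit 4) (nat_lit 396) (nat_lit 322) (nat_lit 302))) (XT.nd (nat_lit 78) (nat_lit 0) (nat_lit 0) (XT.lf (nat_lit 0) (nat_lit 1645710141395) (nat_lit 76) (nat_lit 175079307615) (nat_lit 76) (nat_lit 174376162549) (nat_lit 1) (nat_lit 4) (nat_lit 2) (nat_lit 5) (nat_lit 2) (nat_lit 4) (nat_lit 397) (nat_lit 322) (nat_lit 301)) (XT.lf (nat_lit 0) (nat_lit 1900157737129) (nat_lit 76) (nat_lit 197347118845) (nat_lit 76) (nat_lit 196638827496) (nat_lit 1) (nat_lit 4) (nat_lit 2) (nat_lit 5) (nat_lit 2) (nat_lit 4) (nat_lit 398) (nat_lit 322) (nat_lit 300)))) (XT.nd (nat_lit 156) (nat_lit 0) (nat_lit 0) (XT.nd (nat_lit 78) (nat_lit 0) (nat_lit 0) (XT.lf (nat_lit 0) (nat_lit 2192683007037) (nat_lit 76) (nat_lit 223000861556) (nat_lit 76) (nat_lit 222288095178) (nat_lit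 1) (nat_lit 4) (nat_lit 2) (nat_lit 5) (nat_lit 2) (nat_lit 4) (nat_lit 399) (nat_lit 322) (nat_lit 299)) (XT.lf (nat_lit 0) (nat_lit 2529009271618) (nat_lit 76) (nat_lit 252542456800) (nat_lit 76) (nat_lit 251825799093) (nat_lit 1) (nat_lit 4) (nat_lit 2) (nat_lit 5) (nat_lit 2) (nat_lit 4) (nat_lit 400) (nat_lit 322) (nat_lit 298))) (XT.nd (nat_lit 78) (nat_lit 0) (nat_lit 0) (XT.lf (nat_lit 0) (nat_lit 2915716827352) (nat_lit 76) (nat_lit 286549892311) (nat_lit 76) (nat_lit 285829850840) (nat_lit 1) (nat_lit 4) (nat_lit 2) (nat_lit 5) (nat_lit 2) (nat_lit 4) (nat_lit 401) (nat_lit 322) (nat_lit 297)) (XT.lf (nat_lit 0) (nat_lit 3360371691636) (nat_lit 76) (nat_lit 325688530957) (nat_lit 76) (nat_lit 324965547082) (nat_lit 1) (nat_lit 4) (nat_lit 2) (nat_lit 5) (nat_lit 2) (nat_lit 4) (nat_lit 402) (nat_lit 322) (nat_lit 296))))) (XT.nd (nat_lit 312) (nat_lit 0) (nat_lit 0) (XT.nd (nat_lit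 156) (nat_lit 0) (nat_lit 0) (XT.nd (nat_lit 78) (nat_lit 0) (nat_lit 0) (XT.lf (nat_lit 0) (nat_lit 3871673633552) (nat_lit 76) (nat_lit 370724128712) (nat_lit 76) (nat_lit 369998586224) (nat_lit 1) (nat_lit 4) (nat_lit 2) (nat_lit 5) (nat_lit 2) (nat_lit 4) (nat_lit 403) (nat_lit 322) (nat_lit 295)) (XT.lf (nat_lit 0) (nat_lit 4459626386746) (nat_lit 76) (nat_lit 422537816836) (nat_lit 76) (nat_lit 421810049468) (nat_lit 1) (nat_lit 4) (nat_lit 2) (nat_lit 5) (nat_lit 2) (nat_lit 4) (nat_lit 404) (nat_lit 322) (nat_lit 294))) (XT.nd (nat_lit 78) (nat_lit 0) (nat_lit 0) (XT.lf (nat_lit 0) (nat_lit 5135733374651) (nat_lit 76) (nat_lit 482143341401) (nat_lit 76) (nat_lit 481413639355) (nat_lit 1) (nat_lit 4) (nat_lit 2) (nat_lit 5) (nat_lit 2) (nat_lit 4) (nat_lit 405) (nat_lit 322) (nat_lit 293)) (XT.lf (nat_lit 0) (nat_lit 5913222777465) (nat_lit 76) (nat_lit 550706897453) (nat_lit 76)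 (nat_lit 549975513078) (nat_lit 1) (nat_lit 4) (nat_lit 2) (nat_lit 5) (nat_lit 2) (nat_lit 4) (nat_lit 406) (nat_lit 322) (nat_lit 292)))) (XT.nd (nat_lit 156) (nat_lit 0) (nat_lit 0) (XT.nd (nat_lit 78) (nat_lit 0) (nat_lit 0) (XT.lf (nat_lit 0) (nat_lit 6807306344374) (nat_lit 76) (nat_lit 629569945871) (nat_lit 76) (nat_lit 628837098601) (nat_lit 1) (nat_lit 4) (nat_lit 2) (nat_lit 5) (nat_lit 2) (nat_lit 4) (nat_lit 407) (nat_lit 322) (nat_lit 291)) (XT.lf (nat_lit 0) (nat_lit 7835477014729) (nat_lit 76) (nat_lit 720275459342) (nat_lit 76) (nat_lit 719541339990) (nat_lit 1) (nat_lit 4) (nat_lit 2) (nat_lit 5) (nat_lit 2) (nat_lit 4) (nat_lit 408) (nat_lit 322) (nat_lit 290))) (XT.nd (nat_lit 78) (nat_lit 0) (nat_lit 0) (XT.lf (nat_lit 0) (nat_lit 9017851171212) (nat_lit 76) (nat_lit 824598110956) (nat_lit 76) (nat_lit 823862885445) (nat_lit 1) (nat_lit 4) (nat_lit 2) (nat_lit 5) (nat_lit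 2) (nat_lit 4) (nat_lit 409) (nat_lit 322) (nat_lit 289)) (XT.lf (nat_lit 0) (nat_lit 10377562221232) (nat_lit 76) (nat_lit 944578996069) (nat_lit 76) (nat_lit 943842808681) (nat_lit 1) (nat_lit 4) (nat_lit 2) (nat_lit 5) (nat_lit 2) (nat_lit 4) (nat_lit 410) (nat_lit 322) (nat_lit 288)))))) (XT.nd (nat_lit 50232) (nat_lit 0) (nat_lit 0) (XT.nd (nat_lit 312) (nat_lit 0) (nat_lit 0) (XT.nd (nat_lit 156) (nat_lit 0) (nat_lit 0) (XT.nd (nat_lit 78) (nat_lit 0) (nat_lit 0) (XT.lf (nat_lit 0) (nat_lit 11941213207072) (nat_lit 76) (nat_lit 1082565566783) (nat_lit 76) (nat_lit 1081828542980) (nat_lit 1) (nat_lit 4) (nat_lit 2) (nat_lit 5) (nat_lit 2) (nat_lit 4) (nat_lit 411) (nat_lit 322) (nat_lit 287)) (XT.lf (nat_lit 0) (nat_lit 13739397300195) (nat_lit 76) (nat_lit 1241257560349) (nat_lit 76) (nat_lit 1240519809229) (nat_lit 1) (nat_lit 4) (nat_lit 2) (nat_lit 5) (nat_lit 2) (nat_lit 4) (nat_lit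 412) (nat_lit 322) (nat_lit 286))) (XT.nd (nat_lit 78) (nat_lit 0) (nat_lit 0) (XT.lf (nat_lit 0) (nat_lit 15807296363291) (nat_lit 76) (nat_lit 1423759820122) (nat_lit 76) (nat_lit 1423021436552) (nat_lit 1) (nat_lit 4) (nat_lit 2) (nat_lit 5) (nat_lit 2) (nat_lit 4) (nat_lit 413) (nat_lit 322) (nat_lit 285)) (XT.lf (nat_lit 0) (nat_lit 18185369291074) (nat_lit 76) (nat_lit 1633643042486) (nat_lit 76) (nat_lit 1632904108960) (nat_lit 1) (nat_lit 4) (nat_lit 2) (nat_lit 5) (nat_lit 2) (nat_lit 4) (nat_lit 414) (nat_lit 322) (nat_lit 284)))) (XT.nd (nat_lit 156) (nat_lit 0) (nat_lit 0) (XT.nd (nat_lit 78) (nat_lit 0) (nat_lit 0) (XT.lf (nat_lit 0) (nat_lit 20920143597348) (nat_lit 76) (nat_lit 1875013638316) (nat_lit 76) (nat_lit 1874274226566) (nat_lit 1) (nat_lit 4) (nat_lit 2) (nat_lit 5) (nat_lit 2) (nat_lit 4) (nat_lit 415) (nat_lit 322) (nat_lit 283)) (XT.lf (nat_lit 0) (nat_lit 24065125735932)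 (nat_lit 76) (nat_lit 2152594075789) (nat_lit 76) (nat_lit 2151854248194) (nat_lit 1) (nat_lit 4) (nat_lit 2) (nat_lit 5) (nat_lit 2) (nat_lit 4) (nat_lit 416) (nat_lit 322) (nat_lit 282))) (XT.nd (nat_lit 78) (nat_lit 0) (nat_lit 0) (XT.lf (nat_lit 0) (nat_lit 27681847966058) (nat_lit 76) (nat_lit 2471815276509) (nat_lit 76) (nat_lit 2471075087309) (nat_lit 1) (nat_lit 4) (nat_lit 2) (nat_lit 5) (nat_lit 2) (nat_lit 4) (nat_lit 417) (nat_lit 322) (nat_lit 281)) (XT.lf (nat_lit 0) (nat_lit 31841072244403) (nat_lit 76) (nat_lit 2838922872664) (nat_lit 76) (nat_lit 2838182369024) (nat_lit 1) (nat_lit 4) (nat_lit 2) (nat_lit 5) (nat_lit 2) (nat_lit 4) (nat_lit 418) (nat_lit 322) (nat_lit 280))))) (XT.nd (nat_lit 312) (nat_lit 0) (nat_lit 0) (XT.nd (nat_lit 156) (nat_lit 76) (nat_lit 0) (XT.nd (nat_lit 78) (nat_lit 0) (nat_lit 0) (XT.lf (nat_lit 0) (nat_lit 12055135135) (nat_lit 152) (nat_lit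 17962248611) (nat_lit 0) (nat_lit 12055135135) (nat_lit 2) (nat_lit 5) (nat_lit 4) (nat_lit 4) (nat_lit 2) (nat_lit 4) (nat_lit 374) (nat_lit 323) (nat_lit 323)) (XT.lf (nat_lit 0) (nat_lit 38182588905) (nat_lit 152) (nat_lit 19665996933) (nat_lit 0) (nat_lit 38071198919) (nat_lit 2) (nat_lit 5) (nat_lit 4) (nat_lit 4) (nat_lit 2) (nat_lit 4) (nat_lit 375) (nat_lit 323) (nat_lit 322))) (XT.nd (nat_lit 78) (nat_lit 76) (nat_lit 0) (XT.lf (nat_lit 0) (nat_lit 53466334992) (nat_lit 152) (nat_lit 2808303654) (nat_lit 0) (nat_lit 53258084149) (nat_lit 2) (nat_lit 5) (nat_lit 4) (nat_lit 4) (nat_lit 2) (nat_lit 4) (nat_lit 376) (nat_lit 323) (nat_lit 321)) (XT.lf (nat_lit 0) (nat_lit 15767143419) (nat_lit 76) (nat_lit 54872595106) (nat_lit 76) (nat_lit 54580117432) (nat_lit 1) (nat_lit 4) (nat_lit 2) (nat_lit 5) (nat_lit 2) (nat_lit 4) (nat_lit 377) (nat_lit 323) (nat_lit 320)))) (XT.nd (nat_lit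 156) (nat_lit 0) (nat_lit 0) (XT.nd (nat_lit 78) (nat_lit 0) (nat_lit 0) (XT.lf (nat_lit 0) (nat_lit 35834734590) (nat_lit 76) (nat_lit 53920872848) (nat_lit 76) (nat_lit 53555154451) (nat_lit 1) (nat_lit 4) (nat_lit 2) (nat_lit 5) (nat_lit 2) (nat_lit 4) (nat_lit 378) (nat_lit 323) (nat_lit 319)) (XT.lf (nat_lit 0) (nat_lit 57639216349) (nat_lit 76) (nat_lit 53477635219) (nat_lit 76) (nat_lit 53048229236) (nat_lit 1) (nat_lit 4) (nat_lit 2) (nat_lit 5) (nat_lit 2) (nat_lit 4) (nat_lit 379) (nat_lit 323) (nat_lit 318))) (XT.nd (nat_lit 78) (nat_lit 0) (nat_lit 0) (XT.lf (nat_lit 0) (nat_lit 81607198122) (nat_lit 76) (nat_lit 53534210176) (nat_lit 76) (nat_lit 53049423684) (nat_lit 1) (nat_lit 4) (nat_lit 2) (nat_lit 5) (nat_lit 2) (nat_lit 4) (nat_lit 380) (nat_lit 323) (nat_lit 317)) (XT.nd (nat_lit 78) (nat_lit 0) (nat_lit 0) (XT.lf (nat_lit 0) (nat_lit 108207618682) (nat_lit 76) (nat_lit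 54091704622) (nat_lit 76) (nat_lit 53558761165) (nat_lit 1) (nat_lit 4) (nat_lit 2) (nat_lit 5) (nat_lit 2) (nat_lit 4) (nat_lit 381) (nat_lit 323) (nat_lit 316)) (XT.lf (nat_lit 0) (nat_lit 137960921040) (nat_lit 76) (nat_lit 55161026056) (nat_lit 76) (nat_lit 54586206978) (nat_lit 1) (nat_lit 4) (nat_lit 2) (nat_lit 5) (nat_lit 2) (nat_lit 4) (nat_lit 382) (nat_lit 323) (nat_lit 315))))))))
noncomputable def xc15 : XT := (XT.nd (nat_lit 1326) (nat_lit 0) (nat_lit 0) (XT.nd (nat_lit 624) (nat_lit 0) (nat_lit 0) (XT.nd (nat_lit 312) (nat_lit 0) (nat_lit 0) (XT.nd (nat_lit 156) (nat_lit 0) (nat_lit 0) (XT.nd (nat_lit 78) (nat_lit 0) (nat_lit 0) (XT.lf (nat_lit 0) (nat_lit 171449235026) (nat_lit 76) (nat_lit 56763095985) (nat_lit 76) (nat_lit 56151863323) (nat_lit 1) (nat_lit 4) (nat_lit 2) (nat_lit 5) (nat_lit 2) (nat_lit 4) (nat_lit 383) (nat_lit 323) (nat_lit 314)) (XT.lf (nat_lit 0) (nat_lit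 209327766782) (nat_lit 76) (nat_lit 58929259256) (nat_lit 76) (nat_lit 58286362608) (nat_lit 1) (nat_lit 4) (nat_lit 2) (nat_lit 5) (nat_lit 2) (nat_lit 4) (nat_lit 384) (nat_lit 323) (nat_lit 313))) (XT.nd (nat_lit 78) (nat_lit 0) (nat_lit 0) (XT.lf (nat_lit 0) (nat_lit 252337618016) (nat_lit 76) (nat_lit 61701897323) (nat_lit 76) (nat_lit 61031466774) (nat_lit 1) (nat_lit 4) (nat_lit 2) (nat_lit 5) (nat_lit 2) (nat_lit 4) (nat_lit 385) (nat_lit 323) (nat_lit 312)) (XT.lf (nat_lit 0) (nat_lit 301320285819) (nat_lit 76) (nat_lit 65135257453) (nat_lit 76) (nat_lit 64440884382) (nat_lit 1) (nat_lit 4) (nat_lit 2) (nat_lit 5) (nat_lit 2) (nat_lit 4) (nat_lit 386) (nat_lit 323) (nat_lit 311)))) (XT.nd (nat_lit 156) (nat_lit 0) (nat_lit 0) (XT.nd (nat_lit 78) (nat_lit 0) (nat_lit 0) (XT.lf (nat_lit 0) (nat_lit 357234126734) (nat_lit 76) (nat_lit 69296514083) (nat_lit 76) (nat_lit 68581321427)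 (nat_lit 1) (nat_lit 4) (nat_lit 2) (nat_lit 5) (nat_lit 2) (nat_lit 4) (nat_lit 387) (nat_lit 323) (nat_lit 310)) (XT.lf (nat_lit 0) (nat_lit 421173107213) (nat_lit 76) (nat_lit 74267083105) (nat_lit 76) (nat_lit 73533786462) (nat_lit 1) (nat_lit 4) (nat_lit 2) (nat_lit 5) (nat_lit 2) (nat_lit 4) (nat_lit 388) (nat_lit 323) (nat_lit 309))) (XT.nd (nat_lit 78) (nat_lit 0) (nat_lit 0) (XT.lf (nat_lit 0) (nat_lit 494388207310) (nat_lit 76) (nat_lit 80144214781) (nat_lit 76) (nat_lit 79395175541) (nat_lit 1) (nat_lit 4) (nat_lit 2) (nat_lit 5) (nat_lit 2) (nat_lit 4) (nat_lit 389) (nat_lit 323) (nat_lit 308)) (XT.lf (nat_lit 0) (nat_lit 578311896373) (nat_lit 76) (nat_lit 87042896470) (nat_lit 76) (nat_lit 86280168015) (nat_lit 1) (nat_lit 4) (nat_lit 2) (nat_lit 5) (nat_lit 2) (nat_lit 4) (nat_lit 390) (nat_lit 323) (nat_lit 307))))) (XT.nd (nat_lit 312) (nat_lit 0) (nat_lit 0) (XT.nd (nat_lit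 156) (nat_lit 0) (nat_lit 0) (XT.nd (nat_lit 78) (nat_lit 0) (nat_lit 0) (XT.lf (nat_lit 0) (nat_lit 674586159625) (nat_lit 76) (nat_lit 95098102380) (nat_lit 76) (nat_lit 94323470260) (nat_lit 1) (nat_lit 4) (nat_lit 2) (nat_lit 5) (nat_lit 2) (nat_lit 4) (nat_lit 391) (nat_lit 323) (nat_lit 306)) (XT.lf (nat_lit 0) (nat_lit 785094623955) (nat_lit 76) (nat_lit 104467434364) (nat_lit 76) (nat_lit 103682451232) (nat_lit 1) (nat_lit 4) (nat_lit 2) (nat_lit 5) (nat_lit 2) (nat_lit 4) (nat_lit 392) (nat_lit 323) (nat_lit 305))) (XT.nd (nat_lit 78) (nat_lit 0) (nat_lit 0) (XT.lf (nat_lit 0) (nat_lit 911999411491) (nat_lit 76) (nat_lit 115334205441) (nat_lit 76) (nat_lit 114540221428) (nat_lit 1) (nat_lit 4) (nat_lit 2) (nat_lit 5) (nat_lit 2) (nat_lit 4) (nat_lit 393) (nat_lit 323) (nat_lit 304)) (XT.lf (nat_lit 0) (nat_lit 1057783441988) (nat_lit 76) (nat_lit 127911026349) (nat_lit 76) (nat_lit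 127109215482) (nat_lit 1) (nat_lit 4) (nat_lit 2) (nat_lit 5) (nat_lit 2) (nat_lit 4) (nat_lit 394) (nat_lit 323) (nat_lit 303)))) (XT.nd (nat_lit 156) (nat_lit 0) (nat_lit 0) (XT.nd (nat_lit 78) (nat_lit 0) (nat_lit 0) (XT.lf (nat_lit 0) (nat_lit 1225299011697) (nat_lit 76) (nat_lit 142443965322) (nat_lit 76) (nat_lit 141635348496) (nat_lit 1) (nat_lit 4) (nat_lit 2) (nat_lit 5) (nat_lit 2) (nat_lit 4) (nat_lit 395) (nat_lit 323) (nat_lit 302)) (XT.lf (nat_lit 0) (nat_lit 1417823599154) (nat_lit 76) (nat_lit 159217362472) (nat_lit 76) (nat_lit 158402827420) (nat_lit 1) (nat_lit 4) (nat_lit 2) (nat_lit 5) (nat_lit 2) (nat_lit 4) (nat_lit 396) (nat_lit 323) (nat_lit 301))) (XT.nd (nat_lit 78) (nat_lit 0) (nat_lit 0) (XT.lf (nat_lit 0) (nat_lit 1639123989767) (nat_lit 76) (nat_lit 178559392959) (nat_lit 76) (nat_lit 177739711625) (nat_lit 1) (nat_lit 4) (nat_lit 2) (nat_lit 5) (nat_lit 2)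 (nat_lit 4) (nat_lit 397) (nat_lit 323) (nat_lit 300)) (XT.nd (nat_lit 78) (nat_lit 0) (nat_lit 0) (XT.lf (nat_lit 0) (nat_lit 1893529973786) (nat_lit 76) (nat_lit 200848487815) (nat_lit 76) (nat_lit 200024331452) (nat_lit 1) (nat_lit 4) (nat_lit 2) (nat_lit 5) (nat_lit 2) (nat_lit 4) (nat_lit 398) (nat_lit 323) (nat_lit 299)) (XT.lf (nat_lit 0) (nat_lit 2186019059595) (nat_lit 76) (nat_lit 226520738027) (nat_lit 76) (nat_lit 225692690335) (nat_lit 1) (nat_lit 4) (nat_lit 2) (nat_lit 5) (nat_lit 2) (nat_lit 4) (nat_lit 399) (nat_lit 323) (nat_lit 298))))))) (XT.nd (nat_lit 624) (nat_lit 0) (nat_lit 0) (XT.nd (nat_lit 312) (nat_lit 0) (nat_lit 0) (XT.nd (nat_lit 156) (nat_lit 0) (nat_lit 0) (XT.nd (nat_lit 78) (nat_lit 0) (nat_lit 0) (XT.lf (nat_lit 0) (nat_lit 2522313859742) (nat_lit 76) (nat_lit 256078426750) (nat_lit 76) (nat_lit 255246995293) (nat_lit 1) (nat_lit 4) (nat_lit 2) (nat_lit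 5) (nat_lit 2) (nat_lit 4) (nat_lit 400) (nat_lit 323) (nat_lit 297)) (XT.lf (nat_lit 0) (nat_lit 2908994055099) (nat_lit 76) (nat_lit 290099856590) (nat_lit 76) (nat_lit 289265482730) (nat_lit 1) (nat_lit 4) (nat_lit 2) (nat_lit 5) (nat_lit 2) (nat_lit 4) (nat_lit 401) (nat_lit 323) (nat_lit 296))) (XT.nd (nat_lit 78) (nat_lit 0) (nat_lit 0) (XT.lf (nat_lit 0) (nat_lit 3353625127750) (nat_lit 76) (nat_lit 329250664219) (nat_lit 76) (nat_lit 328413731746) (nat_lit 1) (nat_lit 4) (nat_lit 2) (nat_lit 5) (nat_lit 2) (nat_lit 4) (nat_lit 402) (nat_lit 323) (nat_lit 295)) (XT.lf (nat_lit 0) (nat_lit 3864906381290) (nat_lit 76) (nat_lit 374296843697) (nat_lit 76) (nat_lit 373457686344) (nat_lit 1) (nat_lit 4) (nat_lit 2) (nat_lit 5) (nat_lit 2) (nat_lit 4) (nat_lit 403) (nat_lit 323) (nat_lit 294)))) (XT.nd (nat_lit 156) (nat_lit 0) (nat_lit 0) (XT.nd (nat_lit 78) (nat_lit 0) (nat_lit 0) (XT.lf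 (nat_lit 0) (nat_lit 4452841144592) (nat_lit 76) (nat_lit 426119733320) (nat_lit 76) (nat_lit 425278641289) (nat_lit 1) (nat_lit 4) (nat_lit 2) (nat_lit 5) (nat_lit 2) (nat_lit 4) (nat_lit 404) (nat_lit 323) (nat_lit 293)) (XT.lf (nat_lit 0) (nat_lit 5128932489112) (nat_lit 76) (nat_lit 485733259188) (nat_lit 76) (nat_lit 484890484828) (nat_lit 1) (nat_lit 4) (nat_lit 2) (nat_lit 5) (nat_lit 2) (nat_lit 4) (nat_lit 405) (nat_lit 323) (nat_lit 292))) (XT.nd (nat_lit 78) (nat_lit 0) (nat_lit 0) (XT.lf (nat_lit 0) (nat_lit 5906408288983) (nat_lit 76) (nat_lit 554303772896) (nat_lit 76) (nat_lit 553459535640) (nat_lit 1) (nat_lit 4) (nat_lit 2) (nat_lit 5) (nat_lit 2) (nat_lit 4) (nat_lit 406) (nat_lit 323) (nat_lit 291)) (XT.lf (nat_lit 0) (nat_lit 6800480027245) (nat_lit 76) (nat_lit 633172871449) (nat_lit 76) (nat_lit 632327362111) (nat_lit 1) (nat_lit 4) (nat_lit 2) (nat_lit 5) (nat_lit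 2) (nat_lit 4) (nat_lit 407) (nat_lit 323) (nat_lit 290))))) (XT.nd (nat_lit 312) (nat_lit 0) (nat_lit 0) (XT.nd (nat_lit 156) (nat_lit 0) (nat_lit 0) (XT.nd (nat_lit 78) (nat_lit 0) (nat_lit 0) (XT.lf (nat_lit 0) (nat_lit 7828640411821) (nat_lit 76) (nat_lit 723883645907) (nat_lit 76) (nat_lit 723037030410) (nat_lit 1) (nat_lit 4) (nat_lit 2) (nat_lit 5) (nat_lit 2) (nat_lit 4) (nat_lit 408) (nat_lit 323) (nat_lit 289)) (XT.lf (nat_lit 0) (nat_lit 9011005624148) (nat_lit 76) (nat_lit 828210872291) (nat_lit 76) (nat_lit 827363294918) (nat_lit 1) (nat_lit 4) (nat_lit 2) (nat_lit 5) (nat_lit 2) (nat_lit 4) (nat_lit 409) (nat_lit 323) (nat_lit 288))) (XT.nd (nat_lit 78) (nat_lit 0) (nat_lit 0) (XT.lf (nat_lit 0) (nat_lit 10370708896641) (nat_lit 76) (nat_lit 948195735467) (nat_lit 76) (nat_lit 947347321678) (nat_lit 1) (nat_lit 4) (nat_lit 2) (nat_lit 5) (nat_lit 2) (nat_lit 4) (nat_lit 410)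 (nat_lit 323) (nat_lit 287)) (XT.lf (nat_lit 0) (nat_lit 11934353119415) (nat_lit 76) (nat_lit 1086185765364) (nat_lit 76) (nat_lit 1085336624259) (nat_lit 1) (nat_lit 4) (nat_lit 2) (nat_lit 5) (nat_lit 2) (nat_lit 4) (nat_lit 411) (nat_lit 323) (nat_lit 286)))) (XT.nd (nat_lit 156) (nat_lit 0) (nat_lit 0) (XT.nd (nat_lit 78) (nat_lit 0) (nat_lit 0) (XT.lf (nat_lit 0) (nat_lit 13732531331610) (nat_lit 76) (nat_lit 1244880766917) (nat_lit 76) (nat_lit 1244030993362) (nat_lit 1) (nat_lit 4) (nat_lit 2) (nat_lit 5) (nat_lit 2) (nat_lit 4) (nat_lit 412) (nat_lit 323) (nat_lit 285)) (XT.lf (nat_lit 0) (nat_lit 15800425280856) (nat_lit 76) (nat_lit 1427385642330) (nat_lit 76) (nat_lit 1426535318818) (nat_lit 1) (nat_lit 4) (nat_lit 2) (nat_lit 5) (nat_lit 2) (nat_lit 4) (nat_lit 413) (nat_lit 323) (nat_lit 284))) (XT.nd (nat_lit 78) (nat_lit 0) (nat_lit 0) (XT.lf (nat_lit 0) (nat_lit 18178493761813)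 (nat_lit 76) (nat_lit 1637271139164) (nat_lit 76) (nat_lit 1636420337430) (nat_lit 1) (nat_lit 4) (nat_lit 2) (nat_lit 5) (nat_lit 2) (nat_lit 4) (nat_lit 414) (nat_lit 323) (nat_lit 283)) (XT.nd (nat_lit 78) (nat_lit 0) (nat_lit 0) (XT.lf (nat_lit 0) (nat_lit 20913264201281) (nat_lit 76) (nat_lit 1878643712793) (nat_lit 76) (nat_lit 1877792495213) (nat_lit 1) (nat_lit 4) (nat_lit 2) (nat_lit 5) (nat_lit 2) (nat_lit 4) (nat_lit 415) (nat_lit 323) (nat_lit 282)) (XT.lf (nat_lit 0) (nat_lit 24058242977425) (nat_lit 76) (nat_lit 2156225870093) (nat_lit 76) (nat_lit 2155374290907) (nat_lit 1) (nat_lit 4) (nat_lit 2) (nat_lit 5) (nat_lit 2) (nat_lit 4) (nat_lit 416) (nat_lit 323) (nat_lit 281))))))))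
noncomputable def xc16 : XT := (XT.nd (nat_lit 50700) (nat_lit 0) (nat_lit 0) (XT.nd (nat_lit 50076) (nat_lit 0) (nat_lit 0) (XT.nd (nat_lit 49764) (nat_lit 0) (nat_lit 0) (XT.nd (nat_lit 49608) (nat_lit 0) (nat_lit 76) (XT.nd (nat_lit 78) (nat_lit 0) (nat_lit 0) (XT.lf (nat_lit 0) (nat_lit 27674962283691) (nat_lit 76) (nat_lit 2475448566314) (nat_lit 76) (nat_lit 2474596672689) (nat_lit 1) (nat_lit 4) (nat_lit 2) (nat_lit 5) (nat_lit 2) (nat_lit 4) (nat_lit 417) (nat_lit 323) (nat_lit 280)) (XT.lf (nat_lit 0) (nat_lit 31834184019548) (nat_lit 76) (nat_lit 2842557462904) (nat_lit 76) (nat_lit 2841705295854) (nat_lit 1) (nat_lit 4) (nat_lit 2) (nat_lit 5) (nat_lit 2) (nat_lit 4) (nat_lit 418) (nat_lit 323) (nat_lit 279))) (XT.nd (nat_lit 78) (nat_lit 152) (nat_lit 0) (XT.lf (nat_lit 0) (nat_lit 31803333268) (nat_lit 76) (nat_lit 390718936) (nat_lit 76) (nat_lit 390718936) (nat_lit 4) (nat_lit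 4) (nat_lit 5) (nat_lit 5) (nat_lit 5) (nat_lit 4) (nat_lit 372) (nat_lit 324) (nat_lit 324)) (XT.lf (nat_lit 0) (nat_lit 11102149601) (nat_lit 152) (nat_lit 51901905617) (nat_lit 0) (nat_lit 10974051118) (nat_lit 2) (nat_lit 5) (nat_lit 4) (nat_lit 4) (nat_lit 2) (nat_lit 4) (nat_lit 373) (nat_lit 324) (nat_lit 323)))) (XT.nd (nat_lit 156) (nat_lit 76) (nat_lit 0) (XT.nd (nat_lit 78) (nat_lit 0) (nat_lit 0) (XT.lf (nat_lit 0) (nat_lit 23757283455) (nat_lit 152) (nat_lit 36908459718) (nat_lit 0) (nat_lit 23517794987) (nat_lit 2) (nat_lit 5) (nat_lit 4) (nat_lit 4) (nat_lit 2) (nat_lit 4) (nat_lit 374) (nat_lit 324) (nat_lit 322)) (XT.lf (nat_lit 0) (nat_lit 37411267046) (nat_lit 152) (nat_lit 21505578987) (nat_lit 0) (nat_lit 37074917721) (nat_lit 2) (nat_lit 5) (nat_lit 4) (nat_lit 4) (nat_lit 2) (nat_lit 4) (nat_lit 375) (nat_lit 324) (nat_lit 321))) (XT.nd (nat_lit 78) (nat_lit 76) (nat_lit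 0) (XT.lf (nat_lit 0) (nat_lit 52331243531) (nat_lit 152) (nat_lit 5391902717) (nat_lit 0) (nat_lit 51910667374) (nat_lit 2) (nat_lit 5) (nat_lit 4) (nat_lit 4) (nat_lit 2) (nat_lit 4) (nat_lit 376) (nat_lit 324) (nat_lit 320)) (XT.lf (nat_lit 0) (nat_lit 12366456932) (nat_lit 76) (nat_lit 56740082147) (nat_lit 76) (nat_lit 56246265266) (nat_lit 1) (nat_lit 4) (nat_lit 2) (nat_lit 5) (nat_lit 2) (nat_lit 4) (nat_lit 377) (nat_lit 324) (nat_lit 319))))) (XT.nd (nat_lit 312) (nat_lit 0) (nat_lit 0) (XT.nd (nat_lit 156) (nat_lit 0) (nat_lit 0) (XT.nd (nat_lit 78) (nat_lit 0) (nat_lit 0) (XT.lf (nat_lit 0) (nat_lit 31841839691) (nat_lit 76) (nat_lit 56091263595) (nat_lit 76) (nat_lit 55533759128) (nat_lit 1) (nat_lit 4) (nat_lit 2) (nat_lit 5) (nat_lit 2) (nat_lit 4) (nat_lit 378) (nat_lit 324) (nat_lit 318)) (XT.lf (nat_lit 0) (nat_lit 53131357612) (nat_lit 76) (nat_lit 55911420491) (nat_lit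 76) (nat_lit 55298535516) (nat_lit 1) (nat_lit 4) (nat_lit 2) (nat_lit 5) (nat_lit 2) (nat_lit 4) (nat_lit 379) (nat_lit 324) (nat_lit 317))) (XT.nd (nat_lit 78) (nat_lit 0) (nat_lit 0) (XT.lf (nat_lit 0) (nat_lit 76651544744) (nat_lit 76) (nat_lit 56197034167) (nat_lit 76) (nat_lit 55535992227) (nat_lit 1) (nat_lit 4) (nat_lit 2) (nat_lit 5) (nat_lit 2) (nat_lit 4) (nat_lit 380) (nat_lit 324) (nat_lit 316)) (XT.lf (nat_lit 0) (nat_lit 102862578659) (nat_lit 76) (nat_lit 56953692716) (nat_lit 76) (nat_lit 56250775155) (nat_lit 1) (nat_lit 4) (nat_lit 2) (nat_lit 5) (nat_lit 2) (nat_lit 4) (nat_lit 381) (nat_lit 324) (nat_lit 315)))) (XT.nd (nat_lit 156) (nat_lit 0) (nat_lit 0) (XT.nd (nat_lit 78) (nat_lit 0) (nat_lit 0) (XT.lf (nat_lit 0) (nat_lit 132277283936) (nat_lit 76) (nat_lit 58196200327) (nat_lit 76) (nat_lit 57456869182) (nat_lit 1) (nat_lit 4) (nat_lit 2) (nat_lit 5) (nat_lit 2)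 (nat_lit 4) (nat_lit 382) (nat_lit 324) (nat_lit 314)) (XT.lf (nat_lit 0) (nat_lit 165471165676) (nat_lit 76) (nat_lit 59948866931) (nat_lit 76) (nat_lit 59177871800) (nat_lit 1) (nat_lit 4) (nat_lit 2) (nat_lit 5) (nat_lit 2) (nat_lit 4) (nat_lit 383) (nat_lit 324) (nat_lit 313))) (XT.nd (nat_lit 78) (nat_lit 0) (nat_lit 0) (XT.lf (nat_lit 0) (nat_lit 203093669393) (nat_lit 76) (nat_lit 62245983832) (nat_lit 76) (nat_lit 61447454801) (nat_lit 1) (nat_lit 4) (nat_lit 2) (nat_lit 5) (nat_lit 2) (nat_lit 4) (nat_lit 384) (nat_lit 324) (nat_lit 312)) (XT.lf (nat_lit 0) (nat_lit 245880887550) (nat_lit 76) (nat_lit 65132494622) (nat_lit 76) (nat_lit 64310023067) (nat_lit 1) (nat_lit 4) (nat_lit 2) (nat_lit 5) (nat_lit 2) (nat_lit 4) (nat_lit 385) (nat_lit 324) (nat_lit 311)))))) (XT.nd (nat_lit 624) (nat_lit 0) (nat_lit 0) (XT.nd (nat_lit 312) (nat_lit 0) (nat_lit 0) (XT.nd (nat_lit 156) (nat_lit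 0) (nat_lit 0) (XT.nd (nat_lit 78) (nat_lit 0) (nat_lit 0) (XT.lf (nat_lit 0) (nat_lit 294669961372) (nat_lit 76) (nat_lit 68664874510) (nat_lit 76) (nat_lit 67821583371) (nat_lit 1) (nat_lit 4) (nat_lit 2) (nat_lit 5) (nat_lit 2) (nat_lit 4) (nat_lit 386) (nat_lit 324) (nat_lit 310)) (XT.lf (nat_lit 0) (nat_lit 350415459694) (nat_lit 76) (nat_lit 72912235279) (nat_lit 76) (nat_lit 72050840153) (nat_lit 1) (nat_lit 4) (nat_lit 2) (nat_lit 5) (nat_lit 2) (nat_lit 4) (nat_lit 387) (nat_lit 324) (nat_lit 309))) (XT.nd (nat_lit 78) (nat_lit 0) (nat_lit 0) (XT.lf (nat_lit 0) (nat_lit 414208055311) (nat_lit 76) (nat_lit 77957677464) (nat_lit 76) (nat_lit 77080539741) (nat_lit 1) (nat_lit 4) (nat_lit 2) (nat_lit 5) (nat_lit 2) (nat_lit 4) (nat_lit 388) (nat_lit 324) (nat_lit 308)) (XT.lf (nat_lit 0) (nat_lit 487295864223) (nat_lit 76) (nat_lit 83899916238) (nat_lit 76) (nat_lit 83009089301) (nat_lit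 1) (nat_lit 4) (nat_lit 2) (nat_lit 5) (nat_lit 2) (nat_lit 4) (nat_lit 389) (nat_lit 324) (nat_lit 307)))) (XT.nd (nat_lit 156) (nat_lit 0) (nat_lit 0) (XT.nd (nat_lit 78) (nat_lit 0) (nat_lit 0) (XT.lf (nat_lit 0) (nat_lit 571108865300) (nat_lit 76) (nat_lit 90855212796) (nat_lit 76) (nat_lit 89952482193) (nat_lit 1) (nat_lit 4) (nat_lit 2) (nat_lit 5) (nat_lit 2) (nat_lit 4) (nat_lit 390) (nat_lit 324) (nat_lit 306)) (XT.lf (nat_lit 0) (nat_lit 667286878129) (nat_lit 76) (nat_lit 98959649026) (nat_lit 76) (nat_lit 98046567410) (nat_lit 1) (nat_lit 4) (nat_lit 2) (nat_lit 5) (nat_lit 2) (nat_lit 4) (nat_lit 391) (nat_lit 324) (nat_lit 305))) (XT.nd (nat_lit 78) (nat_lit 0) (nat_lit 0) (XT.lf (nat_lit 0) (nat_lit 777711646438) (nat_lit 76) (nat_lit 108371789985) (nat_lit 76) (nat_lit 107449707488) (nat_lit 1) (nat_lit 4) (nat_lit 2) (nat_lit 5) (nat_lit 2) (nat_lit 4) (nat_lit 392) (nat_lit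 324) (nat_lit 304)) (XT.lf (nat_lit 0) (nat_lit 904543654826) (nat_lit 76) (nat_lit 119275786257) (nat_lit 76) (nat_lit 118345876907) (nat_lit 1) (nat_lit 4) (nat_lit 2) (nat_lit 5) (nat_lit 2) (nat_lit 4) (nat_lit 393) (nat_lit 324) (nat_lit 303))))) (XT.nd (nat_lit 312) (nat_lit 0) (nat_lit 0) (XT.nd (nat_lit 156) (nat_lit 0) (nat_lit 0) (XT.nd (nat_lit 78) (nat_lit 0) (nat_lit 0) (XT.lf (nat_lit 0) (nat_lit 1050264399107) (nat_lit 76) (nat_lit 131884976899) (nat_lit 76) (nat_lit 130948261590) (nat_lit 1) (nat_lit 4) (nat_lit 2) (nat_lit 5) (nat_lit 2) (nat_lit 4) (nat_lit 394) (nat_lit 324) (nat_lit 302)) (XT.lf (nat_lit 0) (nat_lit 1217724937324) (nat_lit 76) (nat_lit 146446063468) (nat_lit 76) (nat_lit 145503429933) (nat_lit 1) (nat_lit 4) (nat_lit 2) (nat_lit 5) (nat_lit 2) (nat_lit 4) (nat_lit 395) (nat_lit 324) (nat_lit 301))) (XT.nd (nat_lit 78) (nat_lit 0) (nat_lit 0) (XT.lf (nat_lit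 0) (nat_lit 1410201671310) (nat_lit 76) (nat_lit 163243936787) (nat_lit 76) (nat_lit 162296156970) (nat_lit 1) (nat_lit 4) (nat_lit 2) (nat_lit 5) (nat_lit 2) (nat_lit 4) (nat_lit 396) (nat_lit 324) (nat_lit 300)) (XT.lf (nat_lit 0) (nat_lit 1631460450209) (nat_lit 76) (nat_lit 182607250900) (nat_lit 76) (nat_lit 181654996054) (nat_lit 1) (nat_lit 4) (nat_lit 2) (nat_lit 5) (nat_lit 2) (nat_lit 4) (nat_lit 397) (nat_lit 324) (nat_lit 299)))) (XT.nd (nat_lit 156) (nat_lit 0) (nat_lit 0) (XT.nd (nat_lit 78) (nat_lit 0) (nat_lit 0) (XT.lf (nat_lit 0) (nat_lit 1885830250129) (nat_lit 76) (nat_lit 204914853257) (nat_lit 76) (nat_lit 203958707082) (nat_lit 1) (nat_lit 4) (nat_lit 2) (nat_lit 5) (nat_lit 2) (nat_lit 4) (nat_lit 398) (nat_lit 324) (nat_lit 298)) (XT.lf (nat_lit 0) (nat_lit 2178287871504) (nat_lit 76) (nat_lit 230603196948) (nat_lit 76) (nat_lit 229643667008) (nat_lit 1) (nat_lit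 4) (nat_lit 2) (nat_lit 5) (nat_lit 2) (nat_lit 4) (nat_lit 399) (nat_lit 324) (nat_lit 297))) (XT.nd (nat_lit 78) (nat_lit 0) (nat_lit 0) (XT.lf (nat_lit 0) (nat_lit 2514555311273) (nat_lit 76) (nat_lit 260174880001) (nat_lit 76) (nat_lit 259212407657) (nat_lit 1) (nat_lit 4) (nat_lit 2) (nat_lit 5) (nat_lit 2) (nat_lit 4) (nat_lit 400) (nat_lit 324) (nat_lit 296)) (XT.nd (nat_lit 78) (nat_lit 0) (nat_lit 0) (XT.lf (nat_lit 0) (nat_lit 2901211714998) (nat_lit 76) (nat_lit 294208478823) (nat_lit 76) (nat_lit 293243447867) (nat_lit 1) (nat_lit 4) (nat_lit 2) (nat_lit 5) (nat_lit 2) (nat_lit 4) (nat_lit 401) (nat_lit 324) (nat_lit 295)) (XT.lf (nat_lit 0) (nat_lit 3345822099272) (nat_lit 76) (nat_lit 333369868175) (nat_lit 76) (nat_lit 332402612339) (nat_lit 1) (nat_lit 4) (nat_lit 2) (nat_lit 5) (nat_lit 2) (nat_lit 4) (nat_lit 402) (nat_lit 324) (nat_lit 294))))))))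
noncomputable def xc17 : XT := (XT.nd (nat_lit 50544) (nat_lit 0) (nat_lit 0) (XT.nd (nat_lit 624) (nat_lit 0) (nat_lit 0) (XT.nd (nat_lit 312) (nat_lit 0) (nat_lit 0) (XT.nd (nat_lit 156) (nat_lit 0) (nat_lit 0) (XT.nd (nat_lit 78) (nat_lit 0) (nat_lit 0) (XT.lf (nat_lit 0) (nat_lit 3857085362920) (nat_lit 76) (nat_lit 378425249153) (nat_lit 76) (nat_lit 377456058638) (nat_lit 1) (nat_lit 4) (nat_lit 2) (nat_lit 5) (nat_lit 2) (nat_lit 4) (nat_lit 403) (nat_lit 324) (nat_lit 293)) (XT.lf (nat_lit 0) (nat_lit 4445004482837) (nat_lit 76) (nat_lit 430256140079) (nat_lit 76) (nat_lit 429285267235) (nat_lit 1) (nat_lit 4) (nat_lit 2) (nat_lit 5) (nat_lit 2) (nat_lit 4) (nat_lit 404) (nat_lit 324) (nat_lit 292))) (XT.nd (nat_lit 78) (nat_lit 0) (nat_lit 0) (XT.lf (nat_lit 0) (nat_lit 5121082224415) (nat_lit 76) (nat_lit 489876623602) (nat_lit 76) (nat_lit 488904287864) (nat_lit 1) (nat_lit 4)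 (nat_lit 2) (nat_lit 5) (nat_lit 2) (nat_lit 4) (nat_lit 405) (nat_lit 324) (nat_lit 291)) (XT.lf (nat_lit 0) (nat_lit 5898546195639) (nat_lit 76) (nat_lit 558453187444) (nat_lit 76) (nat_lit 557479579624) (nat_lit 1) (nat_lit 4) (nat_lit 2) (nat_lit 5) (nat_lit 2) (nat_lit 4) (nat_lit 406) (nat_lit 324) (nat_lit 290)))) (XT.nd (nat_lit 156) (nat_lit 0) (nat_lit 0) (XT.nd (nat_lit 78) (nat_lit 0) (nat_lit 0) (XT.lf (nat_lit 0) (nat_lit 6792607648122) (nat_lit 76) (nat_lit 637327546984) (nat_lit 76) (nat_lit 636352833005) (nat_lit 1) (nat_lit 4) (nat_lit 2) (nat_lit 5) (nat_lit 2) (nat_lit 4) (nat_lit 407) (nat_lit 324) (nat_lit 289)) (XT.lf (nat_lit 0) (nat_lit 7820759088542) (nat_lit 76) (nat_lit 728042896214) (nat_lit 76) (nat_lit 727067220357) (nat_lit 1) (nat_lit 4) (nat_lit 2) (nat_lit 5) (nat_lit 2) (nat_lit 4) (nat_lit 408) (nat_lit 324) (nat_lit 288))) (XT.nd (nat_lit 78) (nat_lit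 0) (nat_lit 0) (XT.lf (nat_lit 0) (nat_lit 9003116523342) (nat_lit 76) (nat_lit 832374100660) (nat_lit 76) (nat_lit 831397588389) (nat_lit 1) (nat_lit 4) (nat_lit 2) (nat_lit 5) (nat_lit 2) (nat_lit 4) (nat_lit 409) (nat_lit 324) (nat_lit 287)) (XT.lf (nat_lit 0) (nat_lit 10362813032768) (nat_lit 76) (nat_lit 952362423020) (nat_lit 76) (nat_lit 951385183431) (nat_lit 1) (nat_lit 4) (nat_lit 2) (nat_lit 5) (nat_lit 2) (nat_lit 4) (nat_lit 410) (nat_lit 324) (nat_lit 286))))) (XT.nd (nat_lit 312) (nat_lit 0) (nat_lit 0) (XT.nd (nat_lit 156) (nat_lit 0) (nat_lit 0) (XT.nd (nat_lit 78) (nat_lit 0) (nat_lit 0) (XT.lf (nat_lit 0) (nat_lit 11926451374614) (nat_lit 76) (nat_lit 1090355460904) (nat_lit 76) (nat_lit 1089377588865) (nat_lit 1) (nat_lit 4) (nat_lit 2) (nat_lit 5) (nat_lit 2) (nat_lit 4) (nat_lit 411) (nat_lit 324) (nat_lit 285)) (XT.lf (nat_lit 0) (nat_lit 13724624472959) (nat_lit 76)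 (nat_lit 1249053078097) (nat_lit 76) (nat_lit 1248074656102) (nat_lit 1) (nat_lit 4) (nat_lit 2) (nat_lit 5) (nat_lit 2) (nat_lit 4) (nat_lit 412) (nat_lit 324) (nat_lit 284))) (XT.nd (nat_lit 78) (nat_lit 0) (nat_lit 0) (XT.lf (nat_lit 0) (nat_lit 15792513975379) (nat_lit 76) (nat_lit 1431560227979) (nat_lit 76) (nat_lit 1430581327762) (nat_lit 1) (nat_lit 4) (nat_lit 2) (nat_lit 5) (nat_lit 2) (nat_lit 4) (nat_lit 413) (nat_lit 324) (nat_lit 283)) (XT.lf (nat_lit 0) (nat_lit 18170578589530) (nat_lit 76) (nat_lit 1641447702613) (nat_lit 76) (nat_lit 1640468386550) (nat_lit 1) (nat_lit 4) (nat_lit 2) (nat_lit 5) (nat_lit 2) (nat_lit 4) (nat_lit 414) (nat_lit 324) (nat_lit 282)))) (XT.nd (nat_lit 156) (nat_lit 0) (nat_lit 0) (XT.nd (nat_lit 78) (nat_lit 0) (nat_lit 0) (XT.lf (nat_lit 0) (nat_lit 20905345666559) (nat_lit 76) (nat_lit 1882821996069) (nat_lit 76) (nat_lit 1881842318400) (nat_lit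 1) (nat_lit 4) (nat_lit 2) (nat_lit 5) (nat_lit 2) (nat_lit 4) (nat_lit 415) (nat_lit 324) (nat_lit 281)) (XT.lf (nat_lit 0) (nat_lit 24050321518843) (nat_lit 76) (nat_lit 2160405648869) (nat_lit 76) (nat_lit 2159425656761) (nat_lit 1) (nat_lit 4) (nat_lit 2) (nat_lit 5) (nat_lit 2) (nat_lit 4) (nat_lit 416) (nat_lit 324) (nat_lit 280))) (XT.nd (nat_lit 78) (nat_lit 0) (nat_lit 0) (XT.lf (nat_lit 0) (nat_lit 27667038282621) (nat_lit 76) (nat_lit 2479629645525) (nat_lit 76) (nat_lit 2478649379992) (nat_lit 1) (nat_lit 4) (nat_lit 2) (nat_lit 5) (nat_lit 2) (nat_lit 4) (nat_lit 417) (nat_lit 324) (nat_lit 279)) (XT.lf (nat_lit 0) (nat_lit 31826257807620) (nat_lit 76) (nat_lit 2846739672929) (nat_lit 76) (nat_lit 2845759169634) (nat_lit 1) (nat_lit 4) (nat_lit 2) (nat_lit 5) (nat_lit 2) (nat_lit 4) (nat_lit 418) (nat_lit 324) (nat_lit 278)))))) (XT.nd (nat_lit 624) (nat_lit 0) (nat_lit 0) (XT.nd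 (nat_lit 312) (nat_lit 76) (nat_lit 0) (XT.nd (nat_lit 156) (nat_lit 152) (nat_lit 0) (XT.nd (nat_lit 78) (nat_lit 0) (nat_lit 0) (XT.lf (nat_lit 0) (nat_lit 3520463774) (nat_lit 76) (nat_lit 10962107158) (nat_lit 76) (nat_lit 10962107158) (nat_lit 4) (nat_lit 4) (nat_lit 5) (nat_lit 5) (nat_lit 5) (nat_lit 4) (nat_lit 370) (nat_lit 325) (nat_lit 325)) (XT.lf (nat_lit 0) (nat_lit 33896005704) (nat_lit 76) (nat_lit 11886491036) (nat_lit 76) (nat_lit 11727392720) (nat_lit 4) (nat_lit 4) (nat_lit 5) (nat_lit 5) (nat_lit 5) (nat_lit 4) (nat_lit 371) (nat_lit 325) (nat_lit 324))) (XT.nd (nat_lit 78) (nat_lit 152) (nat_lit 0) (XT.lf (nat_lit 0) (nat_lit 62586945627) (nat_lit 76) (nat_lit 1460037863) (nat_lit 76) (nat_lit 1162593186) (nat_lit 4) (nat_lit 4) (nat_lit 5) (nat_lit 5) (nat_lit 5) (nat_lit 4) (nat_lit 372) (nat_lit 325) (nat_lit 323)) (XT.lf (nat_lit 0) (nat_lit 10215129464) (nat_lit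 152) (nat_lit 54017424980) (nat_lit 0) (nat_lit 9828327740) (nat_lit 2) (nat_lit 5) (nat_lit 4) (nat_lit 4) (nat_lit 2) (nat_lit 4) (nat_lit 373) (nat_lit 325) (nat_lit 322)))) (XT.nd (nat_lit 156) (nat_lit 76) (nat_lit 0) (XT.nd (nat_lit 78) (nat_lit 0) (nat_lit 0) (XT.lf (nat_lit 0) (nat_lit 22451928276) (nat_lit 152) (nat_lit 39879598640) (nat_lit 0) (nat_lit 21968265695) (nat_lit 2) (nat_lit 5) (nat_lit 4) (nat_lit 4) (nat_lit 2) (nat_lit 4) (nat_lit 374) (nat_lit 325) (nat_lit 321)) (XT.lf (nat_lit 0) (nat_lit 35742142264) (nat_lit 152) (nat_lit 25220734919) (nat_lit 0) (nat_lit 35174252852) (nat_lit 2) (nat_lit 5) (nat_lit 4) (nat_lit 4) (nat_lit 2) (nat_lit 4) (nat_lit 375) (nat_lit 325) (nat_lit 320))) (XT.nd (nat_lit 78) (nat_lit 76) (nat_lit 0) (XT.lf (nat_lit 0) (nat_lit 50345797356) (nat_lit 152) (nat_lit 9754029961) (nat_lit 0) (nat_lit 49704667220) (nat_lit 2) (nat_lit 5) (nat_lit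 4) (nat_lit 4) (nat_lit 2) (nat_lit 4) (nat_lit 376) (nat_lit 325) (nat_lit 319)) (XT.lf (nat_lit 0) (nat_lit 7182419385) (nat_lit 76) (nat_lit 59538935210) (nat_lit 76) (nat_lit 58834117489) (nat_lit 1) (nat_lit 4) (nat_lit 2) (nat_lit 5) (nat_lit 2) (nat_lit 4) (nat_lit 377) (nat_lit 325) (nat_lit 318))))) (XT.nd (nat_lit 312) (nat_lit 0) (nat_lit 0) (XT.nd (nat_lit 156) (nat_lit 0) (nat_lit 0) (XT.nd (nat_lit 78) (nat_lit 0) (nat_lit 0) (XT.lf (nat_lit 0) (nat_lit 26142838306) (nat_lit 76) (nat_lit 59153511184) (nat_lit 76) (nat_lit 58393312953) (nat_lit 1) (nat_lit 4) (nat_lit 2) (nat_lit 5) (nat_lit 2) (nat_lit 4) (nat_lit 378) (nat_lit 325) (nat_lit 317)) (XT.lf (nat_lit 0) (nat_lit 46984561587) (nat_lit 76) (nat_lit 59202706799) (nat_lit 76) (nat_lit 58394351604) (nat_lit 1) (nat_lit 4) (nat_lit 2) (nat_lit 5) (nat_lit 2) (nat_lit 4) (nat_lit 379) (nat_lit 325) (nat_lit 316))) (XT.nd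 (nat_lit 78) (nat_lit 0) (nat_lit 0) (XT.lf (nat_lit 0) (nat_lit 70115362074) (nat_lit 76) (nat_lit 59687484578) (nat_lit 76) (nat_lit 58837253761) (nat_lit 1) (nat_lit 4) (nat_lit 2) (nat_lit 5) (nat_lit 2) (nat_lit 4) (nat_lit 380) (nat_lit 325) (nat_lit 315)) (XT.lf (nat_lit 0) (nat_lit 95987798907) (nat_lit 76) (nat_lit 60617329304) (nat_lit 76) (nat_lit 59730684903) (nat_lit 1) (nat_lit 4) (nat_lit 2) (nat_lit 5) (nat_lit 2) (nat_lit 4) (nat_lit 381) (nat_lit 325) (nat_lit 314)))) (XT.nd (nat_lit 156) (nat_lit 0) (nat_lit 0) (XT.nd (nat_lit 78) (nat_lit 0) (nat_lit 0) (XT.lf (nat_lit 0) (nat_lit 125108071938) (nat_lit 76) (nat_lit 62010433590) (nat_lit 76) (nat_lit 61092125204) (nat_lit 1) (nat_lit 4) (nat_lit 2) (nat_lit 5) (nat_lit 2) (nat_lit 4) (nat_lit 382) (nat_lit 325) (nat_lit 313)) (XT.lf (nat_lit 0) (nat_lit 158045925639) (nat_lit 76) (nat_lit 63894053825) (nat_lit 76) (nat_lit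 62948211538) (nat_lit 1) (nat_lit 4) (nat_lit 2) (nat_lit 5) (nat_lit 2) (nat_lit 4) (nat_lit 383) (nat_lit 325) (nat_lit 312))) (XT.nd (nat_lit 78) (nat_lit 0) (nat_lit 0) (XT.lf (nat_lit 0) (nat_lit 195445796278) (nat_lit 76) (nat_lit 66305043449) (nat_lit 76) (nat_lit 65335258639) (nat_lit 1) (nat_lit 4) (nat_lit 2) (nat_lit 5) (nat_lit 2) (nat_lit 4) (nat_lit 384) (nat_lit 325) (nat_lit 311)) (XT.nd (nat_lit 78) (nat_lit 0) (nat_lit 0) (XT.lf (nat_lit 0) (nat_lit 238039420454) (nat_lit 76) (nat_lit 69290573997) (nat_lit 76) (nat_lit 68299969602) (nat_lit 1) (nat_lit 4) (nat_lit 2) (nat_lit 5) (nat_lit 2) (nat_lit 4) (nat_lit 385) (nat_lit 325) (nat_lit 310)) (XT.lf (nat_lit 0) (nat_lit 286660151684) (nat_lit 76) (nat_lit 72909058023) (nat_lit 76) (nat_lit 71900349642) (nat_lit 1) (nat_lit 4) (nat_lit 2) (nat_lit 5) (nat_lit 2) (nat_lit 4) (nat_lit 386) (nat_lit 325) (nat_lit 309))))))))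
noncomputable def xc18 : XT := (XT.nd (nat_lit 1248) (nat_lit 0) (nat_lit 0) (XT.nd (nat_lit 624) (nat_lit 0) (nat_lit 0) (XT.nd (nat_lit 312) (nat_lit 0) (nat_lit 0) (XT.nd (nat_lit 156) (nat_lit 0) (nat_lit 0) (XT.nd (nat_lit 78) (nat_lit 0) (nat_lit 0) (XT.lf (nat_lit 0) (nat_lit 342259265144) (nat_lit 76) (nat_lit 77231291955) (nat_lit 76) (nat_lit 76206840977) (nat_lit 1) (nat_lit 4) (nat_lit 2) (nat_lit 5) (nat_lit 2) (nat_lit 4) (nat_lit 387) (nat_lit 325) (nat_lit 308)) (XT.lf (nat_lit 0) (nat_lit 405924569576) (nat_lit 76) (nat_lit 82341841238) (nat_lit 76) (nat_lit 81303701045) (nat_lit 1) (nat_lit 4) (nat_lit 2) (nat_lit 5) (nat_lit 2) (nat_lit 4) (nat_lit 388) (nat_lit 325) (nat_lit 307))) (XT.nd (nat_lit 78) (nat_lit 0) (nat_lit 0) (XT.lf (nat_lit 0) (nat_lit 478901690501) (nat_lit 76) (nat_lit 88340694881) (nat_lit 76) (nat_lit 87290651023) (nat_lit 1) (nat_lit 4) (nat_lit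 2) (nat_lit 5) (nat_lit 2) (nat_lit 4) (nat_lit 389) (nat_lit 325) (nat_lit 306)) (XT.lf (nat_lit 0) (nat_lit 562618441155) (nat_lit 76) (nat_lit 95345221759) (nat_lit 76) (nat_lit 94284826888) (nat_lit 1) (nat_lit 4) (nat_lit 2) (nat_lit 5) (nat_lit 2) (nat_lit 4) (nat_lit 390) (nat_lit 325) (nat_lit 305)))) (XT.nd (nat_lit 156) (nat_lit 0) (nat_lit 0) (XT.nd (nat_lit 78) (nat_lit 0) (nat_lit 0) (XT.lf (nat_lit 0) (nat_lit 658712757964) (nat_lit 76) (nat_lit 103492466963) (nat_lit 76) (nat_lit 102423071211) (nat_lit 1) (nat_lit 4) (nat_lit 2) (nat_lit 5) (nat_lit 2) (nat_lit 4) (nat_lit 391) (nat_lit 325) (nat_lit 304)) (XT.lf (nat_lit 0) (nat_lit 769064747125) (nat_lit 76) (nat_lit 112941833117) (nat_lit 76) (nat_lit 111864610512) (nat_lit 1) (nat_lit 4) (nat_lit 2) (nat_lit 5) (nat_lit 2) (nat_lit 4) (nat_lit 392) (nat_lit 325) (nat_lit 303))) (XT.nd (nat_lit 78) (nat_lit 0) (nat_lit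 0) (XT.lf (nat_lit 0) (nat_lit 895833469297) (nat_lit 76) (nat_lit 123878199124) (nat_lit 76) (nat_lit 122794170559) (nat_lit 1) (nat_lit 4) (nat_lit 2) (nat_lit 5) (nat_lit 2) (nat_lit 4) (nat_lit 393) (nat_lit 325) (nat_lit 302)) (XT.lf (nat_lit 0) (nat_lit 1041499182087) (nat_lit 76) (nat_lit 136515537361) (nat_lit 76) (nat_lit 135425590571) (nat_lit 1) (nat_lit 4) (nat_lit 2) (nat_lit 5) (nat_lit 2) (nat_lit 4) (nat_lit 394) (nat_lit 325) (nat_lit 301))))) (XT.nd (nat_lit 312) (nat_lit 0) (nat_lit 0) (XT.nd (nat_lit 156) (nat_lit 0) (nat_lit 0) (XT.nd (nat_lit 78) (nat_lit 0) (nat_lit 0) (XT.lf (nat_lit 0) (nat_lit 1208911866832) (nat_lit 76) (nat_lit 151101100100) (nat_lit 76) (nat_lit 150006007027) (nat_lit 1) (nat_lit 4) (nat_lit 2) (nat_lit 5) (nat_lit 2) (nat_lit 4) (nat_lit 395) (nat_lit 325) (nat_lit 300)) (XT.lf (nat_lit 0) (nat_lit 1401346989104) (nat_lit 76) (nat_lit 167920257046)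 (nat_lit 76) (nat_lit 166820688944) (nat_lit 1) (nat_lit 4) (nat_lit 2) (nat_lit 5) (nat_lit 2) (nat_lit 4) (nat_lit 396) (nat_lit 325) (nat_lit 299))) (XT.nd (nat_lit 78) (nat_lit 0) (nat_lit 0) (XT.lf (nat_lit 0) (nat_lit 1622569583904) (nat_lit 76) (nat_lit 187302078660) (nat_lit 76) (nat_lit 186198619229) (nat_lit 1) (nat_lit 4) (nat_lit 2) (nat_lit 5) (nat_lit 2) (nat_lit 4) (nat_lit 397) (nat_lit 325) (nat_lit 298)) (XT.lf (nat_lit 0) (nat_lit 1876907919390) (nat_lit 76) (nat_lit 209625774496) (nat_lit 76) (nat_lit 208518931300) (nat_lit 1) (nat_lit 4) (nat_lit 2) (nat_lit 5) (nat_lit 2) (nat_lit 4) (nat_lit 398) (nat_lit 325) (nat_lit 297)))) (XT.nd (nat_lit 156) (nat_lit 0) (nat_lit 0) (XT.nd (nat_lit 78) (nat_lit 0) (nat_lit 0) (XT.lf (nat_lit 0) (nat_lit 2169338180387) (nat_lit 76) (nat_lit 235328112516) (nat_lit 76) (nat_lit 234218326917) (nat_lit 1) (nat_lit 4) (nat_lit 2) (nat_lit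 5) (nat_lit 2) (nat_lit 4) (nat_lit 399) (nat_lit 325) (nat_lit 296)) (XT.lf (nat_lit 0) (nat_lit 2505581828524) (nat_lit 76) (nat_lit 264911964551) (nat_lit 76) (nat_lit 263799620340) (nat_lit 1) (nat_lit 4) (nat_lit 2) (nat_lit 5) (nat_lit 2) (nat_lit 4) (nat_lit 400) (nat_lit 325) (nat_lit 295))) (XT.nd (nat_lit 78) (nat_lit 0) (nat_lit 0) (XT.lf (nat_lit 0) (nat_lit 2892217543872) (nat_lit 76) (nat_lit 298956145097) (nat_lit 76) (nat_lit 297841576006) (nat_lit 1) (nat_lit 4) (nat_lit 2) (nat_lit 5) (nat_lit 2) (nat_lit 4) (nat_lit 401) (nat_lit 325) (nat_lit 294)) (XT.lf (nat_lit 0) (nat_lit 3336809938255) (nat_lit 76) (nat_lit 338126735948) (nat_lit 76) (nat_lit 337010232178) (nat_lit 1) (nat_lit 4) (nat_lit 2) (nat_lit 5) (nat_lit 2) (nat_lit 4) (nat_lit 402) (nat_lit 325) (nat_lit 293)))))) (XT.nd (nat_lit 624) (nat_lit 0) (nat_lit 0) (XT.nd (nat_lit 312) (nat_lit 0) (nat_lit 0) (XT.nd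 (nat_lit 156) (nat_lit 0) (nat_lit 0) (XT.nd (nat_lit 78) (nat_lit 0) (nat_lit 0) (XT.lf (nat_lit 0) (nat_lit 3848057558517) (nat_lit 76) (nat_lit 383190118229) (nat_lit 76) (nat_lit 382071932130) (nat_lit 1) (nat_lit 4) (nat_lit 2) (nat_lit 5) (nat_lit 2) (nat_lit 4) (nat_lit 403) (nat_lit 325) (nat_lit 292)) (XT.lf (nat_lit 0) (nat_lit 4435963075492) (nat_lit 76) (nat_lit 435027966810) (nat_lit 76) (nat_lit 433908317816) (nat_lit 1) (nat_lit 4) (nat_lit 2) (nat_lit 5) (nat_lit 2) (nat_lit 4) (nat_lit 404) (nat_lit 325) (nat_lit 291))) (XT.nd (nat_lit 78) (nat_lit 0) (nat_lit 0) (XT.lf (nat_lit 0) (nat_lit 5112028988423) (nat_lit 76) (nat_lit 494654500469) (nat_lit 76) (nat_lit 493533579392) (nat_lit 1) (nat_lit 4) (nat_lit 2) (nat_lit 5) (nat_lit 2) (nat_lit 4) (nat_lit 405) (nat_lit 325) (nat_lit 290)) (XT.lf (nat_lit 0) (nat_lit 5889482673868) (nat_lit 76) (nat_lit 563236325297) (nat_lit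 76) (nat_lit 562114298063) (nat_lit 1) (nat_lit 4) (nat_lit 2) (nat_lit 5) (nat_lit 2) (nat_lit 4) (nat_lit 406) (nat_lit 325) (nat_lit 289)))) (XT.nd (nat_lit 156) (nat_lit 0) (nat_lit 0) (XT.nd (nat_lit 78) (nat_lit 0) (nat_lit 0) (XT.lf (nat_lit 0) (nat_lit 6783535182195) (nat_lit 76) (nat_lit 642115259609) (nat_lit 76) (nat_lit 640992270497) (nat_lit 1) (nat_lit 4) (nat_lit 2) (nat_lit 5) (nat_lit 2) (nat_lit 4) (nat_lit 407) (nat_lit 325) (nat_lit 288)) (XT.lf (nat_lit 0) (nat_lit 7811678845088) (nat_lit 76) (nat_lit 732834586900) (nat_lit 76) (nat_lit 731710761373) (nat_lit 1) (nat_lit 4) (nat_lit 2) (nat_lit 5) (nat_lit 2) (nat_lit 4) (nat_lit 408) (nat_lit 325) (nat_lit 287))) (XT.nd (nat_lit 78) (nat_lit 0) (nat_lit 0) (XT.lf (nat_lit 0) (nat_lit 8994029516821) (nat_lit 76) (nat_lit 837169250530) (nat_lit 76) (nat_lit 836044697686) (nat_lit 1) (nat_lit 4) (nat_lit 2) (nat_lit 5)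 (nat_lit 2) (nat_lit 4) (nat_lit 409) (nat_lit 325) (nat_lit 286)) (XT.lf (nat_lit 0) (nat_lit 10353720145320) (nat_lit 76) (nat_lit 957160580876) (nat_lit 76) (nat_lit 956035395582) (nat_lit 1) (nat_lit 4) (nat_lit 2) (nat_lit 5) (nat_lit 2) (nat_lit 4) (nat_lit 410) (nat_lit 325) (nat_lit 285))))) (XT.nd (nat_lit 312) (nat_lit 0) (nat_lit 0) (XT.nd (nat_lit 156) (nat_lit 0) (nat_lit 0) (XT.nd (nat_lit 78) (nat_lit 0) (nat_lit 0) (XT.lf (nat_lit 0) (nat_lit 11917353373316) (nat_lit 76) (nat_lit 1095156234401) (nat_lit 76) (nat_lit 1094030499150) (nat_lit 1) (nat_lit 4) (nat_lit 2) (nat_lit 5) (nat_lit 2) (nat_lit 4) (nat_lit 411) (nat_lit 325) (nat_lit 284)) (XT.lf (nat_lit 0) (nat_lit 13715522024834) (nat_lit 76) (nat_lit 1253856126064) (nat_lit 76) (nat_lit 1252729912590) (nat_lit 1) (nat_lit 4) (nat_lit 2) (nat_lit 5) (nat_lit 2) (nat_lit 4) (nat_lit 412) (nat_lit 325) (nat_lit 283)))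 (XT.nd (nat_lit 78) (nat_lit 0) (nat_lit 0) (XT.lf (nat_lit 0) (nat_lit 15783407660449) (nat_lit 76) (nat_lit 1436365253746) (nat_lit 76) (nat_lit 1435238624427) (nat_lit 1) (nat_lit 4) (nat_lit 2) (nat_lit 5) (nat_lit 2) (nat_lit 4) (nat_lit 413) (nat_lit 325) (nat_lit 282)) (XT.lf (nat_lit 0) (nat_lit 18161468912160) (nat_lit 76) (nat_lit 1646254448206) (nat_lit 76) (nat_lit 1645127457282) (nat_lit 1) (nat_lit 4) (nat_lit 2) (nat_lit 5) (nat_lit 2) (nat_lit 4) (nat_lit 414) (nat_lit 325) (nat_lit 281)))) (XT.nd (nat_lit 156) (nat_lit 0) (nat_lit 0) (XT.nd (nat_lit 78) (nat_lit 0) (nat_lit 0) (XT.lf (nat_lit 0) (nat_lit 20896233065329) (nat_lit 76) (nat_lit 1887630237162) (nat_lit 76) (nat_lit 1886502931798) (nat_lit 1) (nat_lit 4) (nat_lit 2) (nat_lit 5) (nat_lit 2) (nat_lit 4) (nat_lit 415) (nat_lit 325) (nat_lit 280)) (XT.lf (nat_lit 0) (nat_lit 24041206375125) (nat_lit 76) (nat_lit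 2165215190398) (nat_lit 76) (nat_lit 2164087611608) (nat_lit 1) (nat_lit 4) (nat_lit 2) (nat_lit 5) (nat_lit 2) (nat_lit 4) (nat_lit 416) (nat_lit 325) (nat_lit 279))) (XT.nd (nat_lit 78) (nat_lit 0) (nat_lit 0) (XT.lf (nat_lit 0) (nat_lit 27657920928045) (nat_lit 76) (nat_lit 2484440317867) (nat_lit 76) (nat_lit 2483312501317) (nat_lit 1) (nat_lit 4) (nat_lit 2) (nat_lit 5) (nat_lit 2) (nat_lit 4) (nat_lit 417) (nat_lit 325) (nat_lit 278)) (XT.nd (nat_lit 49218) (nat_lit 0) (nat_lit 304) (XT.lf (nat_lit 0) (nat_lit 31817138530558) (nat_lit 76) (nat_lit 2851551328587) (nat_lit 76) (nat_lit 2850423305288) (nat_lit 1) (nat_lit 4) (nat_lit 2) (nat_lit 5) (nat_lit 2) (nat_lit 4) (nat_lit 418) (nat_lit 325) (nat_lit 277)) (XT.lf (nat_lit 0) (nat_lit 114750101) (nat_lit 152) (nat_lit 19896830826) (nat_lit 0) (nat_lit 114750101) (nat_lit 5) (nat_lit 5) (nat_lit 7) (nat_lit 4) (nat_lit 5) (nat_lit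 4) (nat_lit 368) (nat_lit 326) (nat_lit 326))))))))
noncomputable def xc19 : XT := (XT.nd (nat_lit 1326) (nat_lit 0) (nat_lit 0) (XT.nd (nat_lit 624) (nat_lit 76) (nat_lit 0) (XT.nd (nat_lit 312) (nat_lit 152) (nat_lit 0) (XT.nd (nat_lit 156) (nat_lit 0) (nat_lit 0) (XT.nd (nat_lit 78) (nat_lit 76) (nat_lit 0) (XT.lf (nat_lit 0) (nat_lit 13893861498) (nat_lit 152) (nat_lit 17578083553) (nat_lit 0) (nat_lit 13710898434) (nat_lit 5) (nat_lit 5) (nat_lit 7) (nat_lit 4) (nat_lit 5) (nat_lit 4) (nat_lit 369) (nat_lit 326) (nat_lit 325)) (XT.lf (nat_lit 0) (nat_lit 5868248502) (nat_lit 76) (nat_lit 22704604305) (nat_lit 76) (nat_lit 22362542926) (nat_lit 4) (nat_lit 4) (nat_lit 5) (nat_lit 5) (nat_lit 5) (nat_lit 4) (nat_lit 370) (nat_lit 326) (nat_lit 324))) (XT.nd (nat_lit 78) (nat_lit 0) (nat_lit 0) (XT.lf (nat_lit 0) (nat_lit 31703605748) (nat_lit 76) (nat_lit 13186382699) (nat_lit 76) (nat_lit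 12705974958) (nat_lit 4) (nat_lit 4) (nat_lit 5) (nat_lit 5) (nat_lit 5) (nat_lit 4) (nat_lit 371) (nat_lit 326) (nat_lit 323)) (XT.lf (nat_lit 0) (nat_lit 59507831835) (nat_lit 76) (nat_lit 3211670113) (nat_lit 76) (nat_lit 2610961188) (nat_lit 4) (nat_lit 4) (nat_lit 5) (nat_lit 5) (nat_lit 5) (nat_lit 4) (nat_lit 372) (nat_lit 326) (nat_lit 322)))) (XT.nd (nat_lit 156) (nat_lit 0) (nat_lit 0) (XT.nd (nat_lit 78) (nat_lit 0) (nat_lit 0) (XT.lf (nat_lit 0) (nat_lit 8295635965) (nat_lit 152) (nat_lit 58289854301) (nat_lit 0) (nat_lit 7642563140) (nat_lit 2) (nat_lit 5) (nat_lit 4) (nat_lit 4) (nat_lit 2) (nat_lit 4) (nat_lit 373) (nat_lit 326) (nat_lit 321)) (XT.lf (nat_lit 0) (nat_lit 20168665174) (nat_lit 152) (nat_lit 44896044971) (nat_lit 0) (nat_lit 19431365518) (nat_lit 2) (nat_lit 5) (nat_lit 4) (nat_lit 4) (nat_lit 2) (nat_lit 4) (nat_lit 374) (nat_lit 326) (nat_lit 320))) (XT.nd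 (nat_lit 78) (nat_lit 0) (nat_lit 0) (XT.lf (nat_lit 0) (nat_lit 33142557770) (nat_lit 152) (nat_lit 30884152562) (nat_lit 0) (nat_lit 32332017390) (nat_lit 2) (nat_lit 5) (nat_lit 4) (nat_lit 4) (nat_lit 2) (nat_lit 4) (nat_lit 375) (nat_lit 326) (nat_lit 319)) (XT.lf (nat_lit 0) (nat_lit 47471150780) (nat_lit 152) (nat_lit 15980031353) (nat_lit 0) (nat_lit 46596922815) (nat_lit 2) (nat_lit 5) (nat_lit 4) (nat_lit 4) (nat_lit 2) (nat_lit 4) (nat_lit 376) (nat_lit 326) (nat_lit 318))))) (XT.nd (nat_lit 312) (nat_lit 0) (nat_lit 0) (XT.nd (nat_lit 156) (nat_lit 0) (nat_lit 0) (XT.nd (nat_lit 78) (nat_lit 0) (nat_lit 0) (XT.lf (nat_lit 0) (nat_lit 113603956) (nat_lit 76) (nat_lit 63323914465) (nat_lit 76) (nat_lit 62394305990) (nat_lit 1) (nat_lit 4) (nat_lit 2) (nat_lit 5) (nat_lit 2) (nat_lit 4) (nat_lit 377) (nat_lit 326) (nat_lit 317)) (XT.lf (nat_lit 0) (nat_lit 18626228236) (nat_lit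 76) (nat_lit 63167529157) (nat_lit 76) (nat_lit 62189763718) (nat_lit 1) (nat_lit 4) (nat_lit 2) (nat_lit 5) (nat_lit 2) (nat_lit 4) (nat_lit 378) (nat_lit 326) (nat_lit 316))) (XT.nd (nat_lit 78) (nat_lit 0) (nat_lit 0) (XT.lf (nat_lit 0) (nat_lit 39078564872) (nat_lit 76) (nat_lit 63415888876) (nat_lit 76) (nat_lit 62396247815) (nat_lit 1) (nat_lit 4) (nat_lit 2) (nat_lit 5) (nat_lit 2) (nat_lit 4) (nat_lit 379) (nat_lit 326) (nat_lit 315)) (XT.lf (nat_lit 0) (nat_lit 61870768277) (nat_lit 76) (nat_lit 64073852831) (nat_lit 76) (nat_lit 63017798187) (nat_lit 1) (nat_lit 4) (nat_lit 2) (nat_lit 5) (nat_lit 2) (nat_lit 4) (nat_lit 380) (nat_lit 326) (nat_lit 314)))) (XT.nd (nat_lit 156) (nat_lit 0) (nat_lit 0) (XT.nd (nat_lit 78) (nat_lit 0) (nat_lit 0) (XT.lf (nat_lit 0) (nat_lit 87448772865) (nat_lit 76) (nat_lit 65154294232) (nat_lit 76) (nat_lit 64066575601) (nat_lit 1) (nat_lit 4) (nat_lit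 2) (nat_lit 5) (nat_lit 2) (nat_lit 4) (nat_lit 381) (nat_lit 326) (nat_lit 313)) (XT.lf (nat_lit 0) (nat_lit 116313017856) (nat_lit 76) (nat_lit 66678352149) (nat_lit 76) (nat_lit 65563099618) (nat_lit 1) (nat_lit 4) (nat_lit 2) (nat_lit 5) (nat_lit 2) (nat_lit 4) (nat_lit 382) (nat_lit 326) (nat_lit 312))) (XT.nd (nat_lit 78) (nat_lit 0) (nat_lit 0) (XT.lf (nat_lit 0) (nat_lit 149028238479) (nat_lit 76) (nat_lit 68675845106) (nat_lit 76) (nat_lit 67536650053) (nat_lit 1) (nat_lit 4) (nat_lit 2) (nat_lit 5) (nat_lit 2) (nat_lit 4) (nat_lit 383) (nat_lit 326) (nat_lit 311)) (XT.nd (nat_lit 78) (nat_lit 0) (nat_lit 0) (XT.lf (nat_lit 0) (nat_lit 186234515138) (nat_lit 76) (nat_lit 71185854488) (nat_lit 76) (nat_lit 70025839850) (nat_lit 1) (nat_lit 4) (nat_lit 2) (nat_lit 5) (nat_lit 2) (nat_lit 4) (nat_lit 384) (nat_lit 326) (nat_lit 310)) (XT.lf (nat_lit 0) (nat_lit 228659796722) (nat_lit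 76) (nat_lit 74257489174) (nat_lit 76) (nat_lit 73079370549) (nat_lit 1) (nat_lit 4) (nat_lit 2) (nat_lit 5) (nat_lit 2) (nat_lit 4) (nat_lit 385) (nat_lit 326) (nat_lit 309))))))) (XT.nd (nat_lit 624) (nat_lit 0) (nat_lit 0) (XT.nd (nat_lit 312) (nat_lit 0) (nat_lit 0) (XT.nd (nat_lit 156) (nat_lit 0) (nat_lit 0) (XT.nd (nat_lit 78) (nat_lit 0) (nat_lit 0) (XT.lf (nat_lit 0) (nat_lit 277134143089) (nat_lit 76) (nat_lit 77950846364) (nat_lit 76) (nat_lit 76756985142) (nat_lit 1) (nat_lit 4) (nat_lit 2) (nat_lit 5) (nat_lit 2) (nat_lit 4) (nat_lit 386) (nat_lit 326) (nat_lit 308)) (XT.lf (nat_lit 0) (nat_lit 332605965365) (nat_lit 76) (nat_lit 82338187394) (nat_lit 76) (nat_lit 81130636957) (nat_lit 1) (nat_lit 4) (nat_lit 2) (nat_lit 5) (nat_lit 2) (nat_lit 4) (nat_lit 387) (nat_lit 326) (nat_lit 307))) (XT.nd (nat_lit 78) (nat_lit 0) (nat_lit 0) (XT.lf (nat_lit 0) (nat_lit 396160581810)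 (nat_lit 76) (nat_lit 87505351546) (nat_lit 76) (nat_lit 86285897444) (nat_lit 1) (nat_lit 4) (nat_lit 2) (nat_lit 5) (nat_lit 2) (nat_lit 4) (nat_lit 388) (nat_lit 326) (nat_lit 306)) (XT.lf (nat_lit 0) (nat_lit 469041452312) (nat_lit 76) (nat_lit 93553435509) (nat_lit 76) (nat_lit 92323630394) (nat_lit 1) (nat_lit 4) (nat_lit 2) (nat_lit 5) (nat_lit 2) (nat_lit 4) (nat_lit 389) (nat_lit 326) (nat_lit 305)))) (XT.nd (nat_lit 156) (nat_lit 0) (nat_lit 0) (XT.nd (nat_lit 78) (nat_lit 0) (nat_lit 0) (XT.lf (nat_lit 0) (nat_lit 552674506945) (nat_lit 76) (nat_lit 100600771361) (nat_lit 76) (nat_lit 99361965365) (nat_lit 1) (nat_lit 4) (nat_lit 2) (nat_lit 5) (nat_lit 2) (nat_lit 4) (nat_lit 390) (nat_lit 326) (nat_lit 304)) (XT.lf (nat_lit 0) (nat_lit 648696044606) (nat_lit 76) (nat_lit 108785241761) (nat_lit 76) (nat_lit 107538608911) (nat_lit 1) (nat_lit 4) (nat_lit 2) (nat_lit 5) (nat_lit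 2) (nat_lit 4) (nat_lit 391) (nat_lit 326) (nat_lit 303))) (XT.nd (nat_lit 78) (nat_lit 0) (nat_lit 0) (XT.lf (nat_lit 0) (nat_lit 758984747551) (nat_lit 76) (nat_lit 118266977649) (nat_lit 76) (nat_lit 117013538841) (nat_lit 1) (nat_lit 4) (nat_lit 2) (nat_lit 5) (nat_lit 2) (nat_lit 4) (nat_lit 392) (nat_lit 326) (nat_lit 302)) (XT.lf (nat_lit 0) (nat_lit 885698438231) (nat_lit 76) (nat_lit 129231491251) (nat_lit 76) (nat_lit 127972134217) (nat_lit 1) (nat_lit 4) (nat_lit 2) (nat_lit 5) (nat_lit 2) (nat_lit 4) (nat_lit 393) (nat_lit 326) (nat_lit 301))))) (XT.nd (nat_lit 312) (nat_lit 0) (nat_lit 0) (XT.nd (nat_lit 156) (nat_lit 0) (nat_lit 0) (XT.nd (nat_lit 78) (nat_lit 0) (nat_lit 0) (XT.lf (nat_lit 0) (nat_lit 1031316297550) (nat_lit 76) (nat_lit 141893305659) (nat_lit 76) (nat_lit 140628802342) (nat_lit 1) (nat_lit 4) (nat_lit 2) (nat_lit 5) (nat_lit 2) (nat_lit 4) (nat_lit 394) (nat_lit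 326) (nat_lit 300)) (XT.lf (nat_lit 0) (nat_lit 1198687370582) (nat_lit 76) (nat_lit 156500152023) (nat_lit 76) (nat_lit 155231173678) (nat_lit 1) (nat_lit 4) (nat_lit 2) (nat_lit 5) (nat_lit 2) (nat_lit 4) (nat_lit 395) (nat_lit 326) (nat_lit 299))) (XT.nd (nat_lit 78) (nat_lit 0) (nat_lit 0) (XT.lf (nat_lit 0) (nat_lit 1391086308754) (nat_lit 76) (nat_lit 173337816470) (nat_lit 76) (nat_lit 172064946795) (nat_lit 1) (nat_lit 4) (nat_lit 2) (nat_lit 5) (nat_lit 2) (nat_lit 4) (nat_lit 396) (nat_lit 326) (nat_lit 298)) (XT.lf (nat_lit 0) (nat_lit 1612277439119) (nat_lit 76) (nat_lit 192735731563) (nat_lit 76) (nat_lit 191459478124) (nat_lit 1) (nat_lit 4) (nat_lit 2) (nat_lit 5) (nat_lit 2) (nat_lit 4) (nat_lit 397) (nat_lit 326) (nat_lit 297)))) (XT.nd (nat_lit 156) (nat_lit 0) (nat_lit 0) (XT.nd (nat_lit 78) (nat_lit 0) (nat_lit 0) (XT.lf (nat_lit 0) (nat_lit 1866588414228) (nat_lit 76)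 (nat_lit 215073421729) (nat_lit 76) (nat_lit 213794225885) (nat_lit 1) (nat_lit 4) (nat_lit 2) (nat_lit 5) (nat_lit 2) (nat_lit 4) (nat_lit 398) (nat_lit 326) (nat_lit 296)) (XT.lf (nat_lit 0) (nat_lit 2158994883593) (nat_lit 76) (nat_lit 240787928731) (nat_lit 76) (nat_lit 239506174276) (nat_lit 1) (nat_lit 4) (nat_lit 2) (nat_lit 5) (nat_lit 2) (nat_lit 4) (nat_lit 399) (nat_lit 326) (nat_lit 295))) (XT.nd (nat_lit 78) (nat_lit 0) (nat_lit 0) (XT.lf (nat_lit 0) (nat_lit 2495217843353) (nat_lit 76) (nat_lit 270382362490) (nat_lit 76) (nat_lit 269098383154) (nat_lit 1) (nat_lit 4) (nat_lit 2) (nat_lit 5) (nat_lit 2) (nat_lit 4) (nat_lit 400) (nat_lit 326) (nat_lit 294)) (XT.nd (nat_lit 78) (nat_lit 0) (nat_lit 0) (XT.lf (nat_lit 0) (nat_lit 2881835568810) (nat_lit 76) (nat_lit 304435744535) (nat_lit 76) (nat_lit 303149830521) (nat_lit 1) (nat_lit 4) (nat_lit 2) (nat_lit 5) (nat_lit 2) (nat_lit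 4) (nat_lit 401) (nat_lit 326) (nat_lit 293)) (XT.lf (nat_lit 0) (nat_lit 3326412319807) (nat_lit 76) (nat_lit 343614336689) (nat_lit 76) (nat_lit 342326740346) (nat_lit 1) (nat_lit 4) (nat_lit 2) (nat_lit 5) (nat_lit 2) (nat_lit 4) (nat_lit 402) (nat_lit 326) (nat_lit 292))))))))
noncomputable def xc20 : XT := (XT.nd (nat_lit 50232) (nat_lit 0) (nat_lit 0) (XT.nd (nat_lit 624) (nat_lit 0) (nat_lit 0) (XT.nd (nat_lit 312) (nat_lit 0) (nat_lit 0) (XT.nd (nat_lit 156) (nat_lit 0) (nat_lit 0) (XT.nd (nat_lit 78) (nat_lit 0) (nat_lit 0) (XT.lf (nat_lit 0) (nat_lit 3837646337127) (nat_lit 76) (nat_lit 388684676625) (nat_lit 76) (nat_lit 387395617387) (nat_lit 1) (nat_lit 4) (nat_lit 2) (nat_lit 5) (nat_lit 2) (nat_lit 4) (nat_lit 403) (nat_lit 326) (nat_lit 291)) (XT.lf (nat_lit 0) (nat_lit 4425540025455) (nat_lit 76) (nat_lit 440528575341) (nat_lit 76) (nat_lit 439238244021) (nat_lit 1) (nat_lit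 4) (nat_lit 2) (nat_lit 5) (nat_lit 2) (nat_lit 4) (nat_lit 404) (nat_lit 326) (nat_lit 290))) (XT.nd (nat_lit 78) (nat_lit 0) (nat_lit 0) (XT.lf (nat_lit 0) (nat_lit 5101595652607) (nat_lit 76) (nat_lit 500160369986) (nat_lit 76) (nat_lit 498868932508) (nat_lit 1) (nat_lit 4) (nat_lit 2) (nat_lit 5) (nat_lit 2) (nat_lit 4) (nat_lit 405) (nat_lit 326) (nat_lit 289)) (XT.lf (nat_lit 0) (nat_lit 5879040393896) (nat_lit 76) (nat_lit 568746769586) (nat_lit 76) (nat_lit 567454370231) (nat_lit 1) (nat_lit 4) (nat_lit 2) (nat_lit 5) (nat_lit 2) (nat_lit 4) (nat_lit 406) (nat_lit 326) (nat_lit 288)))) (XT.nd (nat_lit 156) (nat_lit 0) (nat_lit 0) (XT.nd (nat_lit 78) (nat_lit 0) (nat_lit 0) (XT.lf (nat_lit 0) (nat_lit 6773085124696) (nat_lit 76) (nat_lit 647629681960) (nat_lit 76) (nat_lit 646336446189) (nat_lit 1) (nat_lit 4) (nat_lit 2) (nat_lit 5) (nat_lit 2) (nat_lit 4) (nat_lit 407) (nat_lit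 326) (nat_lit 287)) (XT.lf (nat_lit 0) (nat_lit 7801222024522) (nat_lit 76) (nat_lit 738352468435) (nat_lit 76) (nat_lit 737058505347) (nat_lit 1) (nat_lit 4) (nat_lit 2) (nat_lit 5) (nat_lit 2) (nat_lit 4) (nat_lit 408) (nat_lit 326) (nat_lit 286))) (XT.nd (nat_lit 78) (nat_lit 0) (nat_lit 0) (XT.lf (nat_lit 0) (nat_lit 8983566815328) (nat_lit 76) (nat_lit 842690140052) (nat_lit 76) (nat_lit 841395544514) (nat_lit 1) (nat_lit 4) (nat_lit 2) (nat_lit 5) (nat_lit 2) (nat_lit 4) (nat_lit 409) (nat_lit 326) (nat_lit 285)) (XT.lf (nat_lit 0) (nat_lit 10343252329976) (nat_lit 76) (nat_lit 962684086038) (nat_lit 76) (nat_lit 961388940544) (nat_lit 1) (nat_lit 4) (nat_lit 2) (nat_lit 5) (nat_lit 2) (nat_lit 4) (nat_lit 410) (nat_lit 326) (nat_lit 284))))) (XT.nd (nat_lit 312) (nat_lit 0) (nat_lit 0) (XT.nd (nat_lit 156) (nat_lit 0) (nat_lit 0) (XT.nd (nat_lit 78) (nat_lit 0) (nat_lit 0) (XT.lf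 (nat_lit 0) (nat_lit 11906881111146) (nat_lit 76) (nat_lit 1100682014032) (nat_lit 76) (nat_lit 1099386390315) (nat_lit 1) (nat_lit 4) (nat_lit 2) (nat_lit 5) (nat_lit 2) (nat_lit 4) (nat_lit 411) (nat_lit 326) (nat_lit 283)) (XT.lf (nat_lit 0) (nat_lit 13705045895859) (nat_lit 76) (nat_lit 1259383883495) (nat_lit 76) (nat_lit 1258087843932) (nat_lit 1) (nat_lit 4) (nat_lit 2) (nat_lit 5) (nat_lit 2) (nat_lit 4) (nat_lit 412) (nat_lit 326) (nat_lit 282))) (XT.nd (nat_lit 78) (nat_lit 0) (nat_lit 0) (XT.lf (nat_lit 0) (nat_lit 15772928169034) (nat_lit 76) (nat_lit 1441894731003) (nat_lit 76) (nat_lit 1440598329835) (nat_lit 1) (nat_lit 4) (nat_lit 2) (nat_lit 5) (nat_lit 2) (nat_lit 4) (nat_lit 413) (nat_lit 326) (nat_lit 281)) (XT.lf (nat_lit 0) (nat_lit 18150986496885) (nat_lit 76) (nat_lit 1651785420964) (nat_lit 76) (nat_lit 1650488705356) (nat_lit 1) (nat_lit 4) (nat_lit 2) (nat_lit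 5) (nat_lit 2) (nat_lit 4) (nat_lit 414) (nat_lit 326) (nat_lit 280)))) (XT.nd (nat_lit 156) (nat_lit 0) (nat_lit 0) (XT.nd (nat_lit 78) (nat_lit 0) (nat_lit 0) (XT.lf (nat_lit 0) (nat_lit 20885748107566) (nat_lit 76) (nat_lit 1893162510355) (nat_lit 76) (nat_lit 1891865521322) (nat_lit 1) (nat_lit 4) (nat_lit 2) (nat_lit 5) (nat_lit 2) (nat_lit 4) (nat_lit 415) (nat_lit 326) (nat_lit 279)) (XT.lf (nat_lit 0) (nat_lit 24030719206504) (nat_lit 76) (nat_lit 2170748594404) (nat_lit 76) (nat_lit 2169451367610) (nat_lit 1) (nat_lit 4) (nat_lit 2) (nat_lit 5) (nat_lit 2) (nat_lit 4) (nat_lit 416) (nat_lit 326) (nat_lit 278))) (XT.nd (nat_lit 78) (nat_lit 0) (nat_lit 0) (XT.lf (nat_lit 0) (nat_lit 27647431836938) (nat_lit 76) (nat_lit 2489974705190) (nat_lit 76) (nat_lit 2488677271647) (nat_lit 1) (nat_lit 4) (nat_lit 2) (nat_lit 5) (nat_lit 2) (nat_lit 4) (nat_lit 417) (nat_lit 326) (nat_lit 277))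 (XT.lf (nat_lit 0) (nat_lit 31806647767725) (nat_lit 76) (nat_lit 2857086570968) (nat_lit 76) (nat_lit 2855788957643) (nat_lit 1) (nat_lit 4) (nat_lit 2) (nat_lit 5) (nat_lit 2) (nat_lit 4) (nat_lit 418) (nat_lit 326) (nat_lit 276)))))) (XT.nd (nat_lit 624) (nat_lit 76) (nat_lit 0) (XT.nd (nat_lit 312) (nat_lit 228) (nat_lit 0) (XT.nd (nat_lit 156) (nat_lit 152) (nat_lit 0) (XT.nd (nat_lit 78) (nat_lit 76) (nat_lit 0) (XT.lf (nat_lit 0) (nat_lit 4334890220) (nat_lit 152) (nat_lit 7451145890) (nat_lit 0) (nat_lit 4334890220) (nat_lit 8) (nat_lit 5) (nat_lit 10) (nat_lit 4) (nat_lit 8) (nat_lit 4) (nat_lit 366) (nat_lit 327) (nat_lit 327)) (XT.lf (nat_lit 0) (nat_lit 11157641088) (nat_lit 76) (nat_lit 12515011044) (nat_lit 76) (nat_lit 12287770919) (nat_lit 7) (nat_lit 4) (nat_lit 8) (nat_lit 5) (nat_lit 8) (nat_lit 4) (nat_lit 367) (nat_lit 327) (nat_lit 326))) (XT.nd (nat_lit 78) (nat_lit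 152) (nat_lit 0) (XT.lf (nat_lit 0) (nat_lit 39547772733) (nat_lit 76) (nat_lit 588535002) (nat_lit 76) (nat_lit 163694769) (nat_lit 7) (nat_lit 4) (nat_lit 8) (nat_lit 5) (nat_lit 8) (nat_lit 4) (nat_lit 368) (nat_lit 327) (nat_lit 325)) (XT.lf (nat_lit 0) (nat_lit 12928113323) (nat_lit 152) (nat_lit 19973219869) (nat_lit 0) (nat_lit 12375644421) (nat_lit 5) (nat_lit 5) (nat_lit 7) (nat_lit 4) (nat_lit 5) (nat_lit 4) (nat_lit 369) (nat_lit 327) (nat_lit 324)))) (XT.nd (nat_lit 156) (nat_lit 152) (nat_lit 0) (XT.nd (nat_lit 78) (nat_lit 0) (nat_lit 0) (XT.lf (nat_lit 0) (nat_lit 2327267642) (nat_lit 76) (nat_lit 24718981393) (nat_lit 76) (nat_lit 24028166129) (nat_lit 4) (nat_lit 4) (nat_lit 5) (nat_lit 5) (nat_lit 5) (nat_lit 4) (nat_lit 370) (nat_lit 327) (nat_lit 323)) (XT.lf (nat_lit 0) (nat_lit 27275911053) (nat_lit 76) (nat_lit 15652500373) (nat_lit 76) (nat_lit 14841383925) (nat_lit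 4) (nat_lit 4) (nat_lit 5) (nat_lit 5) (nat_lit 5) (nat_lit 4) (nat_lit 371) (nat_lit 327) (nat_lit 322))) (XT.nd (nat_lit 78) (nat_lit 152) (nat_lit 0) (XT.lf (nat_lit 0) (nat_lit 54309081632) (nat_lit 76) (nat_lit 6070605689) (nat_lit 76) (nat_lit 5154879515) (nat_lit 4) (nat_lit 4) (nat_lit 5) (nat_lit 5) (nat_lit 5) (nat_lit 4) (nat_lit 372) (nat_lit 327) (nat_lit 321)) (XT.lf (nat_lit 0) (nat_lit 5306113796) (nat_lit 152) (nat_lit 64802784590) (nat_lit 0) (nat_lit 4373992359) (nat_lit 2) (nat_lit 5) (nat_lit 4) (nat_lit 4) (nat_lit 2) (nat_lit 4) (nat_lit 373) (nat_lit 327) (nat_lit 320))))) (XT.nd (nat_lit 312) (nat_lit 76) (nat_lit 0) (XT.nd (nat_lit 156) (nat_lit 0) (nat_lit 0) (XT.nd (nat_lit 78) (nat_lit 0) (nat_lit 0) (XT.lf (nat_lit 0) (nat_lit 16862821613) (nat_lit 152) (nat_lit 52055946572) (nat_lit 0) (nat_lit 15857459452) (nat_lit 2) (nat_lit 5) (nat_lit 4) (nat_lit 4) (nat_lit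 2) (nat_lit 4) (nat_lit 374) (nat_lit 327) (nat_lit 319)) (XT.lf (nat_lit 0) (nat_lit 29561652127) (nat_lit 152) (nat_lit 38606637913) (nat_lit 0) (nat_lit 28492602381) (nat_lit 2) (nat_lit 5) (nat_lit 4) (nat_lit 4) (nat_lit 2) (nat_lit 4) (nat_lit 375) (nat_lit 327) (nat_lit 318))) (XT.nd (nat_lit 78) (nat_lit 0) (nat_lit 0) (XT.lf (nat_lit 0) (nat_lit 43651060719) (nat_lit 152) (nat_lit 24191719964) (nat_lit 0) (nat_lit 42526630464) (nat_lit 2) (nat_lit 5) (nat_lit 4) (nat_lit 4) (nat_lit 2) (nat_lit 4) (nat_lit 376) (nat_lit 327) (nat_lit 317)) (XT.lf (nat_lit 0) (nat_lit 59406709731) (nat_lit 152) (nat_lit 8529161724) (nat_lit 0) (nat_lit 58234122512) (nat_lit 2) (nat_lit 5) (nat_lit 4) (nat_lit 4) (nat_lit 2) (nat_lit 4) (nat_lit 377) (nat_lit 327) (nat_lit 316)))) (XT.nd (nat_lit 156) (nat_lit 0) (nat_lit 0) (XT.nd (nat_lit 78) (nat_lit 0) (nat_lit 0) (XT.lf (nat_lit 0) (nat_lit 9144945369)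 (nat_lit 76) (nat_lit 68211852648) (nat_lit 76) (nat_lit 66997389807) (nat_lit 1) (nat_lit 4) (nat_lit 2) (nat_lit 5) (nat_lit 2) (nat_lit 4) (nat_lit 378) (nat_lit 327) (nat_lit 315)) (XT.lf (nat_lit 0) (nat_lit 29258684923) (nat_lit 76) (nat_lit 68633398543) (nat_lit 76) (nat_lit 67382522118) (nat_lit 1) (nat_lit 4) (nat_lit 2) (nat_lit 5) (nat_lit 2) (nat_lit 4) (nat_lit 379) (nat_lit 327) (nat_lit 314))) (XT.nd (nat_lit 78) (nat_lit 0) (nat_lit 0) (XT.lf (nat_lit 0) (nat_lit 51756456082) (nat_lit 76) (nat_lit 69441959174) (nat_lit 76) (nat_lit 68159418763) (nat_lit 1) (nat_lit 4) (nat_lit 2) (nat_lit 5) (nat_lit 2) (nat_lit 4) (nat_lit 380) (nat_lit 327) (nat_lit 313)) (XT.nd (nat_lit 78) (nat_lit 0) (nat_lit 0) (XT.lf (nat_lit 0) (nat_lit 77078432631) (nat_lit 76) (nat_lit 70653354205) (nat_lit 76) (nat_lit 69343279894) (nat_lit 1) (nat_lit 4) (nat_lit 2) (nat_lit 5) (nat_lit 2) (nat_lit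 4) (nat_lit 381) (nat_lit 327) (nat_lit 312)) (XT.lf (nat_lit 0) (nat_lit 105720044545) (nat_lit 76) (nat_lit 72291284844) (nat_lit 76) (nat_lit 70957268010) (nat_lit 1) (nat_lit 4) (nat_lit 2) (nat_lit 5) (nat_lit 2) (nat_lit 4) (nat_lit 382) (nat_lit 327) (nat_lit 311))))))))
noncomputable def xc21 : XT := (XT.nd (nat_lit 1248) (nat_lit 0) (nat_lit 0) (XT.nd (nat_lit 624) (nat_lit 0) (nat_lit 0) (XT.nd (nat_lit 312) (nat_lit 0) (nat_lit 0) (XT.nd (nat_lit 156) (nat_lit 0) (nat_lit 0) (XT.nd (nat_lit 78) (nat_lit 0) (nat_lit 0) (XT.lf (nat_lit 0) (nat_lit 138241671187) (nat_lit 76) (nat_lit 74387797560) (nat_lit 76) (nat_lit 73032961142) (nat_lit 1) (nat_lit 4) (nat_lit 2) (nat_lit 5) (nat_lit 2) (nat_lit 4) (nat_lit 383) (nat_lit 327) (nat_lit 310)) (XT.lf (nat_lit 0) (nat_lit 175279605254) (nat_lit 76) (nat_lit 76983911080) (nat_lit 76) (nat_lit 75610970675) (nat_lit 1) (nat_lit 4) (nat_lit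 2) (nat_lit 5) (nat_lit 2) (nat_lit 4) (nat_lit 384) (nat_lit 327) (nat_lit 309))) (XT.nd (nat_lit 78) (nat_lit 0) (nat_lit 0) (XT.lf (nat_lit 0) (nat_lit 217558501975) (nat_lit 76) (nat_lit 80130418929) (nat_lit 76) (nat_lit 78741735927) (nat_lit 1) (nat_lit 4) (nat_lit 2) (nat_lit 5) (nat_lit 2) (nat_lit 4) (nat_lit 385) (nat_lit 327) (nat_lit 308)) (XT.lf (nat_lit 0) (nat_lit 265905557158) (nat_lit 76) (nat_lit 83888883218) (nat_lit 76) (nat_lit 82486511000) (nat_lit 1) (nat_lit 4) (nat_lit 2) (nat_lit 5) (nat_lit 2) (nat_lit 4) (nat_lit 386) (nat_lit 327) (nat_lit 307)))) (XT.nd (nat_lit 156) (nat_lit 0) (nat_lit 0) (XT.nd (nat_lit 78) (nat_lit 0) (nat_lit 0) (XT.lf (nat_lit 0) (nat_lit 321266691447) (nat_lit 76) (nat_lit 88332839117) (nat_lit 76) (nat_lit 86918563234) (nat_lit 1) (nat_lit 4) (nat_lit 2) (nat_lit 5) (nat_lit 2) (nat_lit 4) (nat_lit 387) (nat_lit 327) (nat_lit 306)) (XT.lf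 (nat_lit 0) (nat_lit 384725057469) (nat_lit 76) (nat_lit 93549233589) (nat_lit 76) (nat_lit 92124606693) (nat_lit 1) (nat_lit 4) (nat_lit 2) (nat_lit 5) (nat_lit 2) (nat_lit 4) (nat_lit 388) (nat_lit 327) (nat_lit 305))) (XT.nd (nat_lit 78) (nat_lit 0) (nat_lit 0) (XT.lf (nat_lit 0) (nat_lit 457522231950) (nat_lit 76) (nat_lit 99640126526) (nat_lit 76) (nat_lit 98206498749) (nat_lit 1) (nat_lit 4) (nat_lit 2) (nat_lit 5) (nat_lit 2) (nat_lit 4) (nat_lit 389) (nat_lit 327) (nat_lit 304)) (XT.lf (nat_lit 0) (nat_lit 541082507436) (nat_lit 76) (nat_lit 106724687573) (nat_lit 76) (nat_lit 105283232943) (nat_lit 1) (nat_lit 4) (nat_lit 2) (nat_lit 5) (nat_lit 2) (nat_lit 4) (nat_lit 390) (nat_lit 327) (nat_lit 303))))) (XT.nd (nat_lit 312) (nat_lit 0) (nat_lit 0) (XT.nd (nat_lit 156) (nat_lit 0) (nat_lit 0) (XT.nd (nat_lit 78) (nat_lit 0) (nat_lit 0) (XT.lf (nat_lit 0) (nat_lit 637040758880)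 (nat_lit 76) (nat_lit 114941527707) (nat_lit 76) (nat_lit 113493267118) (nat_lit 1) (nat_lit 4) (nat_lit 2) (nat_lit 5) (nat_lit 2) (nat_lit 4) (nat_lit 391) (nat_lit 327) (nat_lit 302)) (XT.lf (nat_lit 0) (nat_lit 747274430334) (nat_lit 76) (nat_lit 124451411191) (nat_lit 76) (nat_lit 122997232377) (nat_lit 1) (nat_lit 4) (nat_lit 2) (nat_lit 5) (nat_lit 2) (nat_lit 4) (nat_lit 392) (nat_lit 327) (nat_lit 301))) (XT.nd (nat_lit 78) (nat_lit 0) (nat_lit 0) (XT.lf (nat_lit 0) (nat_lit 873940267543) (nat_lit 76) (nat_lit 135440400963) (nat_lit 76) (nat_lit 133981075866) (nat_lit 1) (nat_lit 4) (nat_lit 2) (nat_lit 5) (nat_lit 2) (nat_lit 4) (nat_lit 393) (nat_lit 327) (nat_lit 300)) (XT.lf (nat_lit 0) (nat_lit 1019516515148) (nat_lit 76) (nat_lit 148123498996) (nat_lit 76) (nat_lit 146659698871) (nat_lit 1) (nat_lit 4) (nat_lit 2) (nat_lit 5) (nat_lit 2) (nat_lit 4) (nat_lit 394) (nat_lit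 327) (nat_lit 299)))) (XT.nd (nat_lit 156) (nat_lit 0) (nat_lit 0) (XT.nd (nat_lit 78) (nat_lit 0) (nat_lit 0) (XT.lf (nat_lit 0) (nat_lit 1186851404080) (nat_lit 76) (nat_lit 162748852862) (nat_lit 76) (nat_lit 161281161407) (nat_lit 1) (nat_lit 4) (nat_lit 2) (nat_lit 5) (nat_lit 2) (nat_lit 4) (nat_lit 395) (nat_lit 327) (nat_lit 298)) (XT.lf (nat_lit 0) (nat_lit 1379218877818) (nat_lit 76) (nat_lit 179602610787) (nat_lit 76) (nat_lit 178131535568) (nat_lit 1) (nat_lit 4) (nat_lit 2) (nat_lit 5) (nat_lit 2) (nat_lit 4) (nat_lit 396) (nat_lit 327) (nat_lit 297))) (XT.nd (nat_lit 78) (nat_lit 0) (nat_lit 0) (XT.lf (nat_lit 0) (nat_lit 1600382647806) (nat_lit 76) (nat_lit 199014520210) (nat_lit 76) (nat_lit 197540502586) (nat_lit 1) (nat_lit 4) (nat_lit 2) (nat_lit 5) (nat_lit 2) (nat_lit 4) (nat_lit 397) (nat_lit 327) (nat_lit 296)) (XT.lf (nat_lit 0) (nat_lit 1854669831282) (nat_lit 76)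 (nat_lit 221364379358) (nat_lit 76) (nat_lit 219887803122) (nat_lit 1) (nat_lit 4) (nat_lit 2) (nat_lit 5) (nat_lit 2) (nat_lit 4) (nat_lit 398) (nat_lit 327) (nat_lit 295)))))) (XT.nd (nat_lit 624) (nat_lit 0) (nat_lit 0) (XT.nd (nat_lit 312) (nat_lit 0) (nat_lit 0) (XT.nd (nat_lit 156) (nat_lit 0) (nat_lit 0) (XT.nd (nat_lit 78) (nat_lit 0) (nat_lit 0) (XT.lf (nat_lit 0) (nat_lit 2147055612271) (nat_lit 76) (nat_lit 247089468084) (nat_lit 76) (nat_lit 245610666968) (nat_lit 1) (nat_lit 4) (nat_lit 2) (nat_lit 5) (nat_lit 2) (nat_lit 4) (nat_lit 399) (nat_lit 327) (nat_lit 294)) (XT.lf (nat_lit 0) (nat_lit 2483260582139) (nat_lit 76) (nat_lit 276693103342) (nat_lit 76) (nat_lit 275212367548) (nat_lit 1) (nat_lit 4) (nat_lit 2) (nat_lit 5) (nat_lit 2) (nat_lit 4) (nat_lit 400) (nat_lit 327) (nat_lit 293))) (XT.nd (nat_lit 78) (nat_lit 0) (nat_lit 0) (XT.lf (nat_lit 0) (nat_lit 2869862664210)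 (nat_lit 76) (nat_lit 310754486691) (nat_lit 76) (nat_lit 309272068567) (nat_lit 1) (nat_lit 4) (nat_lit 2) (nat_lit 5) (nat_lit 2) (nat_lit 4) (nat_lit 401) (nat_lit 327) (nat_lit 292)) (XT.lf (nat_lit 0) (nat_lit 3314425812265) (nat_lit 76) (nat_lit 349940036500) (nat_lit 76) (nat_lit 348456155482) (nat_lit 1) (nat_lit 4) (nat_lit 2) (nat_lit 5) (nat_lit 2) (nat_lit 4) (nat_lit 402) (nat_lit 327) (nat_lit 291)))) (XT.nd (nat_lit 156) (nat_lit 0) (nat_lit 0) (XT.nd (nat_lit 78) (nat_lit 0) (nat_lit 0) (XT.lf (nat_lit 0) (nat_lit 3825648000938) (nat_lit 76) (nat_lit 395016426570) (nat_lit 76) (nat_lit 393531273470) (nat_lit 1) (nat_lit 4) (nat_lit 2) (nat_lit 5) (nat_lit 2) (nat_lit 4) (nat_lit 403) (nat_lit 327) (nat_lit 290)) (XT.lf (nat_lit 0) (nat_lit 4413531403487) (nat_lit 76) (nat_lit 446865586273) (nat_lit 76) (nat_lit 445379327014) (nat_lit 1) (nat_lit 4) (nat_lit 2) (nat_lit 5)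 (nat_lit 2) (nat_lit 4) (nat_lit 404) (nat_lit 327) (nat_lit 289))) (XT.nd (nat_lit 78) (nat_lit 0) (nat_lit 0) (XT.lf (nat_lit 0) (nat_lit 5089578086483) (nat_lit 76) (nat_lit 506501955690) (nat_lit 76) (nat_lit 505014734554) (nat_lit 1) (nat_lit 4) (nat_lit 2) (nat_lit 5) (nat_lit 2) (nat_lit 4) (nat_lit 405) (nat_lit 327) (nat_lit 288)) (XT.lf (nat_lit 0) (nat_lit 5867015050246) (nat_lit 76) (nat_lit 575092333352) (nat_lit 76) (nat_lit 573604275801) (nat_lit 1) (nat_lit 4) (nat_lit 2) (nat_lit 5) (nat_lit 2) (nat_lit 4) (nat_lit 406) (nat_lit 327) (nat_lit 287))))) (XT.nd (nat_lit 312) (nat_lit 0) (nat_lit 0) (XT.nd (nat_lit 156) (nat_lit 0) (nat_lit 0) (XT.nd (nat_lit 78) (nat_lit 0) (nat_lit 0) (XT.lf (nat_lit 0) (nat_lit 6761053017979) (nat_lit 76) (nat_lit 653978704909) (nat_lit 76) (nat_lit 652489920041) (nat_lit 1) (nat_lit 4) (nat_lit 2) (nat_lit 5) (nat_lit 2) (nat_lit 4) (nat_lit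 407) (nat_lit 327) (nat_lit 286)) (XT.lf (nat_lit 0) (nat_lit 7789184036877) (nat_lit 76) (nat_lit 744704499371) (nat_lit 76) (nat_lit 743215082052) (nat_lit 1) (nat_lit 4) (nat_lit 2) (nat_lit 5) (nat_lit 2) (nat_lit 4) (nat_lit 408) (nat_lit 327) (nat_lit 285))) (XT.nd (nat_lit 78) (nat_lit 0) (nat_lit 0) (XT.lf (nat_lit 0) (nat_lit 8971523713833) (nat_lit 76) (nat_lit 849044786628) (nat_lit 76) (nat_lit 847554819353) (nat_lit 1) (nat_lit 4) (nat_lit 2) (nat_lit 5) (nat_lit 2) (nat_lit 4) (nat_lit 409) (nat_lit 327) (nat_lit 284)) (XT.lf (nat_lit 0) (nat_lit 10331204781655) (nat_lit 76) (nat_lit 969041007084) (nat_lit 76) (nat_lit 967550561586) (nat_lit 1) (nat_lit 4) (nat_lit 2) (nat_lit 5) (nat_lit 2) (nat_lit 4) (nat_lit 410) (nat_lit 327) (nat_lit 283)))) (XT.nd (nat_lit 156) (nat_lit 0) (nat_lit 0) (XT.nd (nat_lit 78) (nat_lit 0) (nat_lit 0) (XT.lf (nat_lit 0) (nat_lit 11894829696019)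 (nat_lit 76) (nat_lit 1107040912878) (nat_lit 76) (nat_lit 1105550051534) (nat_lit 1) (nat_lit 4) (nat_lit 2) (nat_lit 5) (nat_lit 2) (nat_lit 4) (nat_lit 411) (nat_lit 327) (nat_lit 282)) (XT.lf (nat_lit 0) (nat_lit 13692991118292) (nat_lit 76) (nat_lit 1265744502167) (nat_lit 76) (nat_lit 1264253279218) (nat_lit 1) (nat_lit 4) (nat_lit 2) (nat_lit 5) (nat_lit 2) (nat_lit 4) (nat_lit 412) (nat_lit 327) (nat_lit 281))) (XT.nd (nat_lit 78) (nat_lit 0) (nat_lit 0) (XT.lf (nat_lit 0) (nat_lit 15760870467607) (nat_lit 76) (nat_lit 1448256845175) (nat_lit 76) (nat_lit 1446765307787) (nat_lit 1) (nat_lit 4) (nat_lit 2) (nat_lit 5) (nat_lit 2) (nat_lit 4) (nat_lit 413) (nat_lit 327) (nat_lit 280)) (XT.nd (nat_lit 78) (nat_lit 0) (nat_lit 0) (XT.lf (nat_lit 0) (nat_lit 18138926252971) (nat_lit 76) (nat_lit 1658148835572) (nat_lit 76) (nat_lit 1656657024758) (nat_lit 1) (nat_lit 4) (nat_lit 2) (nat_lit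 5) (nat_lit 2) (nat_lit 4) (nat_lit 414) (nat_lit 327) (nat_lit 279)) (XT.lf (nat_lit 0) (nat_lit 20873685652794) (nat_lit 76) (nat_lit 1899527055777) (nat_lit 76) (nat_lit 1898035007202) (nat_lit 1) (nat_lit 4) (nat_lit 2) (nat_lit 5) (nat_lit 2) (nat_lit 4) (nat_lit 415) (nat_lit 327) (nat_lit 278))))))))
noncomputable def xc22 : XT := (XT.nd (nat_lit 50076) (nat_lit 0) (nat_lit 0) (XT.nd (nat_lit 49452) (nat_lit 0) (nat_lit 76) (XT.nd (nat_lit 49140) (nat_lit 0) (nat_lit 456) (XT.nd (nat_lit 156) (nat_lit 0) (nat_lit 0) (XT.nd (nat_lit 78) (nat_lit 0) (nat_lit 0) (XT.lf (nat_lit 0) (nat_lit 24018654829245) (nat_lit 76) (nat_lit 2177114123142) (nat_lit 76) (nat_lit 2175621867818) (nat_lit 1) (nat_lit 4) (nat_lit 2) (nat_lit 5) (nat_lit 2) (nat_lit 4) (nat_lit 416) (nat_lit 327) (nat_lit 277)) (XT.lf (nat_lit 0) (nat_lit 27635365787953) (nat_lit 76) (nat_lit 2496341088985) (nat_lit 76)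 (nat_lit 2494848653880) (nat_lit 1) (nat_lit 4) (nat_lit 2) (nat_lit 5) (nat_lit 2) (nat_lit 4) (nat_lit 417) (nat_lit 327) (nat_lit 276))) (XT.nd (nat_lit 48906) (nat_lit 0) (nat_lit 760) (XT.lf (nat_lit 0) (nat_lit 31794580265064) (nat_lit 76) (nat_lit 2863453698291) (nat_lit 76) (nat_lit 2861961106854) (nat_lit 1) (nat_lit 4) (nat_lit 2) (nat_lit 5) (nat_lit 2) (nat_lit 4) (nat_lit 418) (nat_lit 327) (nat_lit 275)) (XT.lf (nat_lit 0) (nat_lit 4540358543) (nat_lit 152) (nat_lit 4034415660) (nat_lit 0) (nat_lit 4540358543) (nat_lit 11) (nat_lit 5) (nat_lit 13) (nat_lit 4) (nat_lit 11) (nat_lit 4) (nat_lit 364) (nat_lit 328) (nat_lit 328)))) (XT.nd (nat_lit 156) (nat_lit 76) (nat_lit 0) (XT.nd (nat_lit 78) (nat_lit 152) (nat_lit 0) (XT.lf (nat_lit 0) (nat_lit 18952445127) (nat_lit 76) (nat_lit 5186106241) (nat_lit 76) (nat_lit 4903874007) (nat_lit 10) (nat_lit 4) (nat_lit 11) (nat_lit 5)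 (nat_lit 11) (nat_lit 4) (nat_lit 365) (nat_lit 328) (nat_lit 327)) (XT.lf (nat_lit 0) (nat_lit 8308588892) (nat_lit 152) (nat_lit 16163070246) (nat_lit 0) (nat_lit 7820022624) (nat_lit 8) (nat_lit 5) (nat_lit 10) (nat_lit 4) (nat_lit 8) (nat_lit 4) (nat_lit 366) (nat_lit 328) (nat_lit 326))) (XT.nd (nat_lit 78) (nat_lit 0) (nat_lit 0) (XT.lf (nat_lit 0) (nat_lit 8676412415) (nat_lit 76) (nat_lit 14034054827) (nat_lit 76) (nat_lit 13347888450) (nat_lit 7) (nat_lit 4) (nat_lit 8) (nat_lit 5) (nat_lit 8) (nat_lit 4) (nat_lit 367) (nat_lit 328) (nat_lit 325)) (XT.lf (nat_lit 0) (nat_lit 36063013757) (nat_lit 76) (nat_lit 2616261348) (nat_lit 76) (nat_lit 1758268790) (nat_lit 7) (nat_lit 4) (nat_lit 8) (nat_lit 5) (nat_lit 8) (nat_lit 4) (nat_lit 368) (nat_lit 328) (nat_lit 324))))) (XT.nd (nat_lit 312) (nat_lit 152) (nat_lit 0) (XT.nd (nat_lit 156) (nat_lit 76) (nat_lit 0) (XT.nd (nat_lit 78)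 (nat_lit 0) (nat_lit 0) (XT.lf (nat_lit 0) (nat_lit 10794758838) (nat_lit 152) (nat_lit 24810353864) (nat_lit 0) (nat_lit 9861974922) (nat_lit 5) (nat_lit 5) (nat_lit 7) (nat_lit 4) (nat_lit 5) (nat_lit 4) (nat_lit 369) (nat_lit 328) (nat_lit 323)) (XT.lf (nat_lit 0) (nat_lit 24443275948) (nat_lit 152) (nat_lit 3468642522) (nat_lit 0) (nat_lit 23390190848) (nat_lit 5) (nat_lit 5) (nat_lit 7) (nat_lit 4) (nat_lit 5) (nat_lit 4) (nat_lit 370) (nat_lit 328) (nat_lit 322))) (XT.nd (nat_lit 78) (nat_lit 0) (nat_lit 0) (XT.lf (nat_lit 0) (nat_lit 20526292811) (nat_lit 76) (nat_lit 19333094186) (nat_lit 76) (nat_lit 18175399361) (nat_lit 4) (nat_lit 4) (nat_lit 5) (nat_lit 5) (nat_lit 5) (nat_lit 4) (nat_lit 371) (nat_lit 328) (nat_lit 321)) (XT.lf (nat_lit 0) (nat_lit 46888980339) (nat_lit 76) (nat_lit 10092780285) (nat_lit 76) (nat_lit 8844120482) (nat_lit 4) (nat_lit 4) (nat_lit 5) (nat_lit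 5) (nat_lit 5) (nat_lit 4) (nat_lit 372) (nat_lit 328) (nat_lit 320)))) (XT.nd (nat_lit 156) (nat_lit 0) (nat_lit 0) (XT.nd (nat_lit 78) (nat_lit 0) (nat_lit 0) (XT.lf (nat_lit 0) (nat_lit 1145607237) (nat_lit 76) (nat_lit 43511523) (nat_lit 152) (nat_lit 73641177674) (nat_lit 2) (nat_lit 5) (nat_lit 3) (nat_lit 5) (nat_lit 4) (nat_lit 4) (nat_lit 373) (nat_lit 328) (nat_lit 319)) (XT.lf (nat_lit 0) (nat_lit 12469718042) (nat_lit 152) (nat_lit 61499388475) (nat_lit 0) (nat_lit 11176623249) (nat_lit 2) (nat_lit 5) (nat_lit 4) (nat_lit 4) (nat_lit 2) (nat_lit 4) (nat_lit 374) (nat_lit 328) (nat_lit 318))) (XT.nd (nat_lit 78) (nat_lit 0) (nat_lit 0) (XT.lf (nat_lit 0) (nat_lit 24929364138) (nat_lit 152) (nat_lit 48539283076) (nat_lit 0) (nat_lit 23580888835) (nat_lit 2) (nat_lit 5) (nat_lit 4) (nat_lit 4) (nat_lit 2) (nat_lit 4) (nat_lit 375) (nat_lit 328) (nat_lit 317)) (XT.lf (nat_lit 0)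 (nat_lit 38810786280) (nat_lit 152) (nat_lit 34549759267) (nat_lit 0) (nat_lit 37414154013) (nat_lit 2) (nat_lit 5) (nat_lit 4) (nat_lit 4) (nat_lit 2) (nat_lit 4) (nat_lit 376) (nat_lit 328) (nat_lit 316)))))) (XT.nd (nat_lit 624) (nat_lit 0) (nat_lit 0) (XT.nd (nat_lit 312) (nat_lit 0) (nat_lit 0) (XT.nd (nat_lit 156) (nat_lit 76) (nat_lit 0) (XT.nd (nat_lit 78) (nat_lit 0) (nat_lit 0) (XT.lf (nat_lit 0) (nat_lit 54385577509) (nat_lit 152) (nat_lit 19257108975) (nat_lit 0) (nat_lit 52947069620) (nat_lit 2) (nat_lit 5) (nat_lit 4) (nat_lit 4) (nat_lit 2) (nat_lit 4) (nat_lit 377) (nat_lit 328) (nat_lit 315)) (XT.lf (nat_lit 0) (nat_lit 71958462001) (nat_lit 152) (nat_lit 2362128170) (nat_lit 0) (nat_lit 70483540529) (nat_lit 2) (nat_lit 5) (nat_lit 4) (nat_lit 4) (nat_lit 2) (nat_lit 4) (nat_lit 378) (nat_lit 328) (nat_lit 314))) (XT.nd (nat_lit 78) (nat_lit 0) (nat_lit 0) (XT.lf (nat_lit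 0) (nat_lit 17332793654) (nat_lit 76) (nat_lit 74957317512) (nat_lit 76) (nat_lit 73450732054) (nat_lit 1) (nat_lit 4) (nat_lit 2) (nat_lit 5) (nat_lit 2) (nat_lit 4) (nat_lit 379) (nat_lit 328) (nat_lit 313)) (XT.lf (nat_lit 0) (nat_lit 39574536774) (nat_lit 76) (nat_lit 75896831774) (nat_lit 76) (nat_lit 74362712414) (nat_lit 1) (nat_lit 4) (nat_lit 2) (nat_lit 5) (nat_lit 2) (nat_lit 4) (nat_lit 380) (nat_lit 328) (nat_lit 312)))) (XT.nd (nat_lit 156) (nat_lit 0) (nat_lit 0) (XT.nd (nat_lit 78) (nat_lit 0) (nat_lit 0) (XT.lf (nat_lit 0) (nat_lit 64673880245) (nat_lit 76) (nat_lit 77222099527) (nat_lit 76) (nat_lit 75664037646) (nat_lit 1) (nat_lit 4) (nat_lit 2) (nat_lit 5) (nat_lit 2) (nat_lit 4) (nat_lit 381) (nat_lit 328) (nat_lit 311)) (XT.lf (nat_lit 0) (nat_lit 93121898178) (nat_lit 76) (nat_lit 78959049925) (nat_lit 76) (nat_lit 77380168459) (nat_lit 1) (nat_lit 4) (nat_lit 2)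 (nat_lit 5) (nat_lit 2) (nat_lit 4) (nat_lit 382) (nat_lit 328) (nat_lit 310))) (XT.nd (nat_lit 78) (nat_lit 0) (nat_lit 0) (XT.lf (nat_lit 0) (nat_lit 125475182229) (nat_lit 76) (nat_lit 81141666779) (nat_lit 76) (nat_lit 79544681326) (nat_lit 1) (nat_lit 4) (nat_lit 2) (nat_lit 5) (nat_lit 2) (nat_lit 4) (nat_lit 383) (nat_lit 328) (nat_lit 309)) (XT.lf (nat_lit 0) (nat_lit 162366731433) (nat_lit 76) (nat_lit 83812653462) (nat_lit 76) (nat_lit 82199925412) (nat_lit 1) (nat_lit 4) (nat_lit 2) (nat_lit 5) (nat_lit 2) (nat_lit 4) (nat_lit 384) (nat_lit 328) (nat_lit 308))))) (XT.nd (nat_lit 312) (nat_lit 0) (nat_lit 0) (XT.nd (nat_lit 156) (nat_lit 0) (nat_lit 0) (XT.nd (nat_lit 78) (nat_lit 0) (nat_lit 0) (XT.lf (nat_lit 0) (nat_lit 204518336970) (nat_lit 76) (nat_lit 87024268410) (nat_lit 76) (nat_lit 85397851145) (nat_lit 1) (nat_lit 4) (nat_lit 2) (nat_lit 5) (nat_lit 2) (nat_lit 4) (nat_lit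 385) (nat_lit 328) (nat_lit 307)) (XT.lf (nat_lit 0) (nat_lit 252754704166) (nat_lit 76) (nat_lit 90839347567) (nat_lit 76) (nat_lit 89201026637) (nat_lit 1) (nat_lit 4) (nat_lit 2) (nat_lit 5) (nat_lit 2) (nat_lit 4) (nat_lit 386) (nat_lit 328) (nat_lit 306))) (XT.nd (nat_lit 78) (nat_lit 0) (nat_lit 0) (XT.lf (nat_lit 0) (nat_lit 308019588031) (nat_lit 76) (nat_lit 95332533786) (nat_lit 76) (nat_lit 93683861843) (nat_lit 1) (nat_lit 4) (nat_lit 2) (nat_lit 5) (nat_lit 2) (nat_lit 4) (nat_lit 387) (nat_lit 328) (nat_lit 305)) (XT.lf (nat_lit 0) (nat_lit 371394258032) (nat_lit 76) (nat_lit 100591737232) (nat_lit 76) (nat_lit 98934064408) (nat_lit 1) (nat_lit 4) (nat_lit 2) (nat_lit 5) (nat_lit 2) (nat_lit 4) (nat_lit 388) (nat_lit 328) (nat_lit 304)))) (XT.nd (nat_lit 156) (nat_lit 0) (nat_lit 0) (XT.nd (nat_lit 78) (nat_lit 0) (nat_lit 0) (XT.lf (nat_lit 0) (nat_lit 444118653366) (nat_lit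 76) (nat_lit 106719855365) (nat_lit 76) (nat_lit 105054355687) (nat_lit 1) (nat_lit 4) (nat_lit 2) (nat_lit 5) (nat_lit 2) (nat_lit 4) (nat_lit 389) (nat_lit 328) (nat_lit 303)) (XT.lf (nat_lit 0) (nat_lit 527615642636) (nat_lit 76) (nat_lit 113836786146) (nat_lit 76) (nat_lit 112164480510) (nat_lit 1) (nat_lit 4) (nat_lit 2) (nat_lit 5) (nat_lit 2) (nat_lit 4) (nat_lit 390) (nat_lit 328) (nat_lit 302))) (XT.nd (nat_lit 78) (nat_lit 0) (nat_lit 0) (XT.lf (nat_lit 0) (nat_lit 623518862589) (nat_lit 76) (nat_lit 122081773876) (nat_lit 76) (nat_lit 120403550014) (nat_lit 1) (nat_lit 4) (nat_lit 2) (nat_lit 5) (nat_lit 2) (nat_lit 4) (nat_lit 391) (nat_lit 328) (nat_lit 301)) (XT.nd (nat_lit 78) (nat_lit 0) (nat_lit 0) (XT.lf (nat_lit 0) (nat_lit 733704680571) (nat_lit 76) (nat_lit 131616133529) (nat_lit 76) (nat_lit 129932763385) (nat_lit 1) (nat_lit 4) (nat_lit 2) (nat_lit 5) (nat_lit 2) (nat_lit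 4) (nat_lit 392) (nat_lit 328) (nat_lit 300)) (XT.lf (nat_lit 0) (nat_lit 860328906066) (nat_lit 76) (nat_lit 142626406927) (nat_lit 76) (nat_lit 140938561754) (nat_lit 1) (nat_lit 4) (nat_lit 2) (nat_lit 5) (nat_lit 2) (nat_lit 4) (nat_lit 393) (nat_lit 328) (nat_lit 299))))))))
noncomputable def xc23 : XT := (XT.nd (nat_lit 1326) (nat_lit 0) (nat_lit 0) (XT.nd (nat_lit 624) (nat_lit 0) (nat_lit 0) (XT.nd (nat_lit 312) (nat_lit 0) (nat_lit 0) (XT.nd (nat_lit 156) (nat_lit 0) (nat_lit 0) (XT.nd (nat_lit 78) (nat_lit 0) (nat_lit 0) (XT.lf (nat_lit 0) (nat_lit 1005868969571) (nat_lit 76) (nat_lit 155328012462) (nat_lit 76) (nat_lit 153636275959) (nat_lit 1) (nat_lit 4) (nat_lit 2) (nat_lit 5) (nat_lit 2) (nat_lit 4) (nat_lit 394) (nat_lit 328) (nat_lit 298)) (XT.lf (nat_lit 0) (nat_lit 1173172394069) (nat_lit 76) (nat_lit 169969459806) (nat_lit 76) (nat_lit 168274339539) (nat_lit 1) (nat_lit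 4) (nat_lit 2) (nat_lit 5) (nat_lit 2) (nat_lit 4) (nat_lit 395) (nat_lit 328) (nat_lit 297))) (XT.nd (nat_lit 78) (nat_lit 0) (nat_lit 0) (XT.lf (nat_lit 0) (nat_lit 1365512507430) (nat_lit 76) (nat_lit 186837212061) (nat_lit 76) (nat_lit 185139149390) (nat_lit 1) (nat_lit 4) (nat_lit 2) (nat_lit 5) (nat_lit 2) (nat_lit 4) (nat_lit 396) (nat_lit 328) (nat_lit 296)) (XT.lf (nat_lit 0) (nat_lit 1586652485786) (nat_lit 76) (nat_lit 206261290466) (nat_lit 76) (nat_lit 204560669183) (nat_lit 1) (nat_lit 4) (nat_lit 2) (nat_lit 5) (nat_lit 2) (nat_lit 4) (nat_lit 397) (nat_lit 328) (nat_lit 295)))) (XT.nd (nat_lit 156) (nat_lit 0) (nat_lit 0) (XT.nd (nat_lit 78) (nat_lit 0) (nat_lit 0) (XT.lf (nat_lit 0) (nat_lit 1840918980885) (nat_lit 76) (nat_lit 228621731338) (nat_lit 76) (nat_lit 226918885175) (nat_lit 1) (nat_lit 4) (nat_lit 2) (nat_lit 5) (nat_lit 2) (nat_lit 4) (nat_lit 398) (nat_lit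 328) (nat_lit 294)) (XT.lf (nat_lit 0) (nat_lit 2133286771982) (nat_lit 76) (nat_lit 254356021563) (nat_lit 76) (nat_lit 252651240721) (nat_lit 1) (nat_lit 4) (nat_lit 2) (nat_lit 5) (nat_lit 2) (nat_lit 4) (nat_lit 399) (nat_lit 328) (nat_lit 293))) (XT.nd (nat_lit 78) (nat_lit 0) (nat_lit 0) (XT.lf (nat_lit 0) (nat_lit 2469476098465) (nat_lit 76) (nat_lit 283967658124) (nat_lit 76) (nat_lit 282261194953) (nat_lit 1) (nat_lit 4) (nat_lit 2) (nat_lit 5) (nat_lit 2) (nat_lit 4) (nat_lit 400) (nat_lit 328) (nat_lit 292)) (XT.lf (nat_lit 0) (nat_lit 2856064577594) (nat_lit 76) (nat_lit 318035999128) (nat_lit 76) (nat_lit 316328073062) (nat_lit 1) (nat_lit 4) (nat_lit 2) (nat_lit 5) (nat_lit 2) (nat_lit 4) (nat_lit 401) (nat_lit 328) (nat_lit 291))))) (XT.nd (nat_lit 312) (nat_lit 0) (nat_lit 0) (XT.nd (nat_lit 156) (nat_lit 0) (nat_lit 0) (XT.nd (nat_lit 78) (nat_lit 0) (nat_lit 0) (XT.lf (nat_lit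 0) (nat_lit 3300615897002) (nat_lit 76) (nat_lit 357227599072) (nat_lit 76) (nat_lit 355518400924) (nat_lit 1) (nat_lit 4) (nat_lit 2) (nat_lit 5) (nat_lit 2) (nat_lit 4) (nat_lit 402) (nat_lit 328) (nat_lit 290)) (XT.lf (nat_lit 0) (nat_lit 3811827799896) (nat_lit 76) (nat_lit 402309250129) (nat_lit 76) (nat_lit 400598945823) (nat_lit 1) (nat_lit 4) (nat_lit 2) (nat_lit 5) (nat_lit 2) (nat_lit 4) (nat_lit 403) (nat_lit 328) (nat_lit 289))) (XT.nd (nat_lit 78) (nat_lit 0) (nat_lit 0) (XT.lf (nat_lit 0) (nat_lit 4399702258289) (nat_lit 76) (nat_lit 454162984604) (nat_lit 76) (nat_lit 452451718420) (nat_lit 1) (nat_lit 4) (nat_lit 2) (nat_lit 5) (nat_lit 2) (nat_lit 4) (nat_lit 404) (nat_lit 328) (nat_lit 288)) (XT.lf (nat_lit 0) (nat_lit 5075741163758) (nat_lit 76) (nat_lit 513803332082) (nat_lit 76) (nat_lit 512091229483) (nat_lit 1) (nat_lit 4) (nat_lit 2) (nat_lit 5) (nat_lit 2) (nat_lit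 4) (nat_lit 405) (nat_lit 328) (nat_lit 287)))) (XT.nd (nat_lit 156) (nat_lit 0) (nat_lit 0) (XT.nd (nat_lit 78) (nat_lit 0) (nat_lit 0) (XT.lf (nat_lit 0) (nat_lit 5853171364454) (nat_lit 76) (nat_lit 582397168928) (nat_lit 76) (nat_lit 580684339012) (nat_lit 1) (nat_lit 4) (nat_lit 2) (nat_lit 5) (nat_lit 2) (nat_lit 4) (nat_lit 406) (nat_lit 328) (nat_lit 286)) (XT.lf (nat_lit 0) (nat_lit 6747203451259) (nat_lit 76) (nat_lit 661286548472) (nat_lit 76) (nat_lit 659573086106) (nat_lit 1) (nat_lit 4) (nat_lit 2) (nat_lit 5) (nat_lit 2) (nat_lit 4) (nat_lit 407) (nat_lit 328) (nat_lit 285))) (XT.nd (nat_lit 78) (nat_lit 0) (nat_lit 0) (XT.lf (nat_lit 0) (nat_lit 7775329356307) (nat_lit 76) (nat_lit 752014958573) (nat_lit 76) (nat_lit 750300946251) (nat_lit 1) (nat_lit 4) (nat_lit 2) (nat_lit 5) (nat_lit 2) (nat_lit 4) (nat_lit 408) (nat_lit 328) (nat_lit 284)) (XT.nd (nat_lit 78) (nat_lit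 0) (nat_lit 0) (XT.lf (nat_lit 0) (nat_lit 8957664586436) (nat_lit 76) (nat_lit 856357520301) (nat_lit 76) (nat_lit 854643029756) (nat_lit 1) (nat_lit 4) (nat_lit 2) (nat_lit 5) (nat_lit 2) (nat_lit 4) (nat_lit 409) (nat_lit 328) (nat_lit 283)) (XT.lf (nat_lit 0) (nat_lit 10317341787453) (nat_lit 76) (nat_lit 976355718556) (nat_lit 76) (nat_lit 974640812165) (nat_lit 1) (nat_lit 4) (nat_lit 2) (nat_lit 5) (nat_lit 2) (nat_lit 4) (nat_lit 410) (nat_lit 328) (nat_lit 282))))))) (XT.nd (nat_lit 49296) (nat_lit 0) (nat_lit 304) (XT.nd (nat_lit 312) (nat_lit 0) (nat_lit 0) (XT.nd (nat_lit 156) (nat_lit 0) (nat_lit 0) (XT.nd (nat_lit 78) (nat_lit 0) (nat_lit 0) (XT.lf (nat_lit 0) (nat_lit 11880963339378) (nat_lit 76) (nat_lit 1114357344176) (nat_lit 76) (nat_lit 1112642076180) (nat_lit 1) (nat_lit 4) (nat_lit 2) (nat_lit 5) (nat_lit 2) (nat_lit 4) (nat_lit 411) (nat_lit 328) (nat_lit 281)) (XT.lf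 (nat_lit 0) (nat_lit 13679121837791) (nat_lit 76) (nat_lit 1273062428966) (nat_lit 76) (nat_lit 1271346846530) (nat_lit 1) (nat_lit 4) (nat_lit 2) (nat_lit 5) (nat_lit 2) (nat_lit 4) (nat_lit 412) (nat_lit 328) (nat_lit 280))) (XT.nd (nat_lit 78) (nat_lit 0) (nat_lit 0) (XT.lf (nat_lit 0) (nat_lit 15746998644618) (nat_lit 76) (nat_lit 1455576072410) (nat_lit 76) (nat_lit 1453860216549) (nat_lit 1) (nat_lit 4) (nat_lit 2) (nat_lit 5) (nat_lit 2) (nat_lit 4) (nat_lit 413) (nat_lit 328) (nat_lit 279)) (XT.lf (nat_lit 0) (nat_lit 18125052219123) (nat_lit 76) (nat_lit 1665469193620) (nat_lit 76) (nat_lit 1663753099998) (nat_lit 1) (nat_lit 4) (nat_lit 2) (nat_lit 5) (nat_lit 2) (nat_lit 4) (nat_lit 414) (nat_lit 328) (nat_lit 278)))) (XT.nd (nat_lit 156) (nat_lit 0) (nat_lit 0) (XT.nd (nat_lit 78) (nat_lit 0) (nat_lit 0) (XT.lf (nat_lit 0) (nat_lit 20859809696460) (nat_lit 76) (nat_lit 1906848397141)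 (nat_lit 76) (nat_lit 1905132096770) (nat_lit 1) (nat_lit 4) (nat_lit 2) (nat_lit 5) (nat_lit 2) (nat_lit 4) (nat_lit 415) (nat_lit 328) (nat_lit 277)) (XT.lf (nat_lit 0) (nat_lit 24004777201186) (nat_lit 76) (nat_lit 2184436319564) (nat_lit 76) (nat_lit 2182719839411) (nat_lit 1) (nat_lit 4) (nat_lit 2) (nat_lit 5) (nat_lit 2) (nat_lit 4) (nat_lit 416) (nat_lit 328) (nat_lit 276))) (XT.nd (nat_lit 78) (nat_lit 0) (nat_lit 0) (XT.lf (nat_lit 0) (nat_lit 27621486706218) (nat_lit 76) (nat_lit 2503664028935) (nat_lit 76) (nat_lit 2501947392450) (nat_lit 1) (nat_lit 4) (nat_lit 2) (nat_lit 5) (nat_lit 2) (nat_lit 4) (nat_lit 417) (nat_lit 328) (nat_lit 275)) (XT.lf (nat_lit 0) (nat_lit 31780699919263) (nat_lit 76) (nat_lit 2870777284787) (nat_lit 76) (nat_lit 2869060512361) (nat_lit 1) (nat_lit 4) (nat_lit 2) (nat_lit 5) (nat_lit 2) (nat_lit 4) (nat_lit 418) (nat_lit 328) (nat_lit 274))))) (XT.nd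 (nat_lit 312) (nat_lit 380) (nat_lit 0) (XT.nd (nat_lit 156) (nat_lit 228) (nat_lit 0) (XT.nd (nat_lit 78) (nat_lit 76) (nat_lit 0) (XT.lf (nat_lit 0) (nat_lit 2648023237) (nat_lit 152) (nat_lit 5536578894) (nat_lit 0) (nat_lit 2648023237) (nat_lit 14) (nat_lit 5) (nat_lit 16) (nat_lit 4) (nat_lit 14) (nat_lit 4) (nat_lit 362) (nat_lit 329) (nat_lit 329)) (XT.lf (nat_lit 0) (nat_lit 14828557339) (nat_lit 76) (nat_lit 4665758005) (nat_lit 76) (nat_lit 4315225569) (nat_lit 13) (nat_lit 4) (nat_lit 14) (nat_lit 5) (nat_lit 14) (nat_lit 4) (nat_lit 363) (nat_lit 329) (nat_lit 328))) (XT.nd (nat_lit 78) (nat_lit 76) (nat_lit 0) (XT.lf (nat_lit 0) (nat_lit 8788716565) (nat_lit 152) (nat_lit 9308991460) (nat_lit 0) (nat_lit 8181917260) (nat_lit 11) (nat_lit 5) (nat_lit 13) (nat_lit 4) (nat_lit 11) (nat_lit 4) (nat_lit 364) (nat_lit 329) (nat_lit 327)) (XT.lf (nat_lit 0) (nat_lit 16511793590) (nat_lit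 76) (nat_lit 6739913795) (nat_lit 76) (nat_lit 5887695156) (nat_lit 10) (nat_lit 4) (nat_lit 11) (nat_lit 5) (nat_lit 11) (nat_lit 4) (nat_lit 365) (nat_lit 329) (nat_lit 326)))) (XT.nd (nat_lit 156) (nat_lit 152) (nat_lit 0) (XT.nd (nat_lit 78) (nat_lit 76) (nat_lit 0) (XT.lf (nat_lit 0) (nat_lit 6729381186) (nat_lit 152) (nat_lit 19970073048) (nat_lit 0) (nat_lit 5742689744) (nat_lit 8) (nat_lit 5) (nat_lit 10) (nat_lit 4) (nat_lit 8) (nat_lit 4) (nat_lit 366) (nat_lit 329) (nat_lit 325)) (XT.lf (nat_lit 0) (nat_lit 3665409290) (nat_lit 76) (nat_lit 16874622689) (nat_lit 76) (nat_lit 15716105066) (nat_lit 7) (nat_lit 4) (nat_lit 8) (nat_lit 5) (nat_lit 8) (nat_lit 4) (nat_lit 367) (nat_lit 329) (nat_lit 324))) (XT.nd (nat_lit 78) (nat_lit 152) (nat_lit 0) (XT.lf (nat_lit 0) (nat_lit 30179375586) (nat_lit 76) (nat_lit 5899161874) (nat_lit 76) (nat_lit 4591230181) (nat_lit 7) (nat_lit 4)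 (nat_lit 8) (nat_lit 5) (nat_lit 8) (nat_lit 4) (nat_lit 368) (nat_lit 329) (nat_lit 323)) (XT.nd (nat_lit 78) (nat_lit 0) (nat_lit 0) (XT.lf (nat_lit 0) (nat_lit 7452058497) (nat_lit 152) (nat_lit 32184125116) (nat_lit 0) (nat_lit 6120709449) (nat_lit 5) (nat_lit 5) (nat_lit 7) (nat_lit 4) (nat_lit 5) (nat_lit 4) (nat_lit 369) (nat_lit 329) (nat_lit 322)) (XT.lf (nat_lit 0) (nat_lit 20740881904) (nat_lit 152) (nat_lit 11574897964) (nat_lit 0) (nat_lit 19304923130) (nat_lit 5) (nat_lit 5) (nat_lit 7) (nat_lit 4) (nat_lit 5) (nat_lit 4) (nat_lit 370) (nat_lit 329) (nat_lit 321))))))))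
noncomputable def xc24 : XT := (XT.nd (nat_lit 1248) (nat_lit 0) (nat_lit 0) (XT.nd (nat_lit 624) (nat_lit 76) (nat_lit 0) (XT.nd (nat_lit 312) (nat_lit 0) (nat_lit 0) (XT.nd (nat_lit 156) (nat_lit 152) (nat_lit 0) (XT.nd (nat_lit 78) (nat_lit 0) (nat_lit 0) (XT.lf (nat_lit 0) (nat_lit 11322693272) (nat_lit 76) (nat_lit 24300175756) (nat_lit 76) (nat_lit 22773252004) (nat_lit 4) (nat_lit 4) (nat_lit 5) (nat_lit 5) (nat_lit 5) (nat_lit 4) (nat_lit 371) (nat_lit 329) (nat_lit 320)) (XT.lf (nat_lit 0) (nat_lit 37102352061) (nat_lit 76) (nat_lit 15356888624) (nat_lit 76) (nat_lit 13750864890) (nat_lit 4) (nat_lit 4) (nat_lit 5) (nat_lit 5) (nat_lit 5) (nat_lit 4) (nat_lit 372) (nat_lit 329) (nat_lit 319))) (XT.nd (nat_lit 78) (nat_lit 152) (nat_lit 0) (XT.lf (nat_lit 0) (nat_lit 65658949415) (nat_lit 76) (nat_lit 5627419337) (nat_lit 76) (nat_lit 3952613011) (nat_lit 4) (nat_lit 4) (nat_lit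 5) (nat_lit 5) (nat_lit 5) (nat_lit 4) (nat_lit 373) (nat_lit 329) (nat_lit 318)) (XT.lf (nat_lit 0) (nat_lit 6903402437) (nat_lit 152) (nat_lit 73411133673) (nat_lit 0) (nat_lit 5297275329) (nat_lit 2) (nat_lit 5) (nat_lit 4) (nat_lit 4) (nat_lit 2) (nat_lit 4) (nat_lit 374) (nat_lit 329) (nat_lit 317)))) (XT.nd (nat_lit 156) (nat_lit 0) (nat_lit 0) (XT.nd (nat_lit 78) (nat_lit 0) (nat_lit 0) (XT.lf (nat_lit 0) (nat_lit 19155062082) (nat_lit 152) (nat_lit 60876422414) (nat_lit 0) (nat_lit 17500778010) (nat_lit 2) (nat_lit 5) (nat_lit 4) (nat_lit 4) (nat_lit 2) (nat_lit 4) (nat_lit 375) (nat_lit 329) (nat_lit 316)) (XT.lf (nat_lit 0) (nat_lit 32855626441) (nat_lit 152) (nat_lit 47256806553) (nat_lit 0) (nat_lit 31159466747) (nat_lit 2) (nat_lit 5) (nat_lit 4) (nat_lit 4) (nat_lit 2) (nat_lit 4) (nat_lit 376) (nat_lit 329) (nat_lit 315))) (XT.nd (nat_lit 78) (nat_lit 0) (nat_lit 0) (XT.lf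 (nat_lit 0) (nat_lit 48273150032) (nat_lit 152) (nat_lit 32285815345) (nat_lit 0) (nat_lit 46540576755) (nat_lit 2) (nat_lit 5) (nat_lit 4) (nat_lit 4) (nat_lit 2) (nat_lit 4) (nat_lit 377) (nat_lit 329) (nat_lit 314)) (XT.lf (nat_lit 0) (nat_lit 65709280057) (nat_lit 152) (nat_lit 15670538093) (nat_lit 0) (nat_lit 63945042794) (nat_lit 2) (nat_lit 5) (nat_lit 4) (nat_lit 4) (nat_lit 2) (nat_lit 4) (nat_lit 378) (nat_lit 329) (nat_lit 313))))) (XT.nd (nat_lit 312) (nat_lit 0) (nat_lit 0) (XT.nd (nat_lit 156) (nat_lit 0) (nat_lit 0) (XT.nd (nat_lit 78) (nat_lit 0) (nat_lit 0) (XT.lf (nat_lit 0) (nat_lit 3067558410) (nat_lit 76) (nat_lit 82511374633) (nat_lit 76) (nat_lit 80719603469) (nat_lit 1) (nat_lit 4) (nat_lit 2) (nat_lit 5) (nat_lit 2) (nat_lit 4) (nat_lit 379) (nat_lit 329) (nat_lit 312)) (XT.lf (nat_lit 0) (nat_lit 25086668453) (nat_lit 76) (nat_lit 83564761617) (nat_lit 76) (nat_lit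 81749047930) (nat_lit 1) (nat_lit 4) (nat_lit 2) (nat_lit 5) (nat_lit 2) (nat_lit 4) (nat_lit 380) (nat_lit 329) (nat_lit 311))) (XT.nd (nat_lit 78) (nat_lit 0) (nat_lit 0) (XT.lf (nat_lit 0) (nat_lit 49992417943) (nat_lit 76) (nat_lit 84989049129) (nat_lit 76) (nat_lit 83152515858) (nat_lit 1) (nat_lit 4) (nat_lit 2) (nat_lit 5) (nat_lit 2) (nat_lit 4) (nat_lit 381) (nat_lit 329) (nat_lit 310)) (XT.lf (nat_lit 0) (nat_lit 78272093284) (nat_lit 76) (nat_lit 86812103665) (nat_lit 76) (nat_lit 84957466407) (nat_lit 1) (nat_lit 4) (nat_lit 2) (nat_lit 5) (nat_lit 2) (nat_lit 4) (nat_lit 382) (nat_lit 329) (nat_lit 309)))) (XT.nd (nat_lit 156) (nat_lit 0) (nat_lit 0) (XT.nd (nat_lit 78) (nat_lit 0) (nat_lit 0) (XT.lf (nat_lit 0) (nat_lit 110478992472) (nat_lit 76) (nat_lit 89069593682) (nat_lit 76) (nat_lit 87199213827) (nat_lit 1) (nat_lit 4) (nat_lit 2) (nat_lit 5) (nat_lit 2) (nat_lit 4)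 (nat_lit 383) (nat_lit 329) (nat_lit 308)) (XT.lf (nat_lit 0) (nat_lit 147243250491) (nat_lit 76) (nat_lit 91805687464) (nat_lit 76) (nat_lit 89921618394) (nat_lit 1) (nat_lit 4) (nat_lit 2) (nat_lit 5) (nat_lit 2) (nat_lit 4) (nat_lit 384) (nat_lit 329) (nat_lit 307))) (XT.nd (nat_lit 78) (nat_lit 0) (nat_lit 0) (XT.lf (nat_lit 0) (nat_lit 189284168041) (nat_lit 76) (nat_lit 95073917280) (nat_lit 76) (nat_lit 93177944545) (nat_lit 1) (nat_lit 4) (nat_lit 2) (nat_lit 5) (nat_lit 2) (nat_lit 4) (nat_lit 385) (nat_lit 329) (nat_lit 306)) (XT.lf (nat_lit 0) (nat_lit 237424284814) (nat_lit 76) (nat_lit 98938226757) (nat_lit 76) (nat_lit 97031903009) (nat_lit 1) (nat_lit 4) (nat_lit 2) (nat_lit 5) (nat_lit 2) (nat_lit 4) (nat_lit 386) (nat_lit 329) (nat_lit 305)))))) (XT.nd (nat_lit 624) (nat_lit 0) (nat_lit 0) (XT.nd (nat_lit 312) (nat_lit 0) (nat_lit 0) (XT.nd (nat_lit 156) (nat_lit 0) (nat_lit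 0) (XT.nd (nat_lit 78) (nat_lit 0) (nat_lit 0) (XT.lf (nat_lit 0) (nat_lit 292605472659) (nat_lit 76) (nat_lit 103474221950) (nat_lit 76) (nat_lit 101558897321) (nat_lit 1) (nat_lit 4) (nat_lit 2) (nat_lit 5) (nat_lit 2) (nat_lit 4) (nat_lit 387) (nat_lit 329) (nat_lit 304)) (XT.lf (nat_lit 0) (nat_lit 355907363513) (nat_lit 76) (nat_lit 108770650591) (nat_lit 76) (nat_lit 106847499109) (nat_lit 1) (nat_lit 4) (nat_lit 2) (nat_lit 5) (nat_lit 2) (nat_lit 4) (nat_lit 388) (nat_lit 329) (nat_lit 303))) (XT.nd (nat_lit 78) (nat_lit 0) (nat_lit 0) (XT.lf (nat_lit 0) (nat_lit 428568472631) (nat_lit 76) (nat_lit 114931138458) (nat_lit 76) (nat_lit 113001181017) (nat_lit 1) (nat_lit 4) (nat_lit 2) (nat_lit 5) (nat_lit 2) (nat_lit 4) (nat_lit 389) (nat_lit 329) (nat_lit 302)) (XT.lf (nat_lit 0) (nat_lit 512010430409) (nat_lit 76) (nat_lit 122076216836) (nat_lit 76) (nat_lit 120140341169) (nat_lit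 1) (nat_lit 4) (nat_lit 2) (nat_lit 5) (nat_lit 2) (nat_lit 4) (nat_lit 390) (nat_lit 329) (nat_lit 301)))) (XT.nd (nat_lit 156) (nat_lit 0) (nat_lit 0) (XT.nd (nat_lit 78) (nat_lit 0) (nat_lit 0) (XT.lf (nat_lit 0) (nat_lit 607865796890) (nat_lit 76) (nat_lit 130345680735) (nat_lit 76) (nat_lit 128404658785) (nat_lit 1) (nat_lit 4) (nat_lit 2) (nat_lit 5) (nat_lit 2) (nat_lit 4) (nat_lit 391) (nat_lit 329) (nat_lit 300)) (XT.lf (nat_lit 0) (nat_lit 718010003159) (nat_lit 76) (nat_lit 139901324015) (nat_lit 76) (nat_lit 137955827037) (nat_lit 1) (nat_lit 4) (nat_lit 2) (nat_lit 5) (nat_lit 2) (nat_lit 4) (nat_lit 392) (nat_lit 329) (nat_lit 299))) (XT.nd (nat_lit 78) (nat_lit 0) (nat_lit 0) (XT.lf (nat_lit 0) (nat_lit 844598044554) (nat_lit 76) (nat_lit 150930104913) (nat_lit 76) (nat_lit 148980716606) (nat_lit 1) (nat_lit 4) (nat_lit 2) (nat_lit 5) (nat_lit 2) (nat_lit 4) (nat_lit 393)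 (nat_lit 329) (nat_lit 298)) (XT.lf (nat_lit 0) (nat_lit 990106643625) (nat_lit 76) (nat_lit 163647803927) (nat_lit 76) (nat_lit 161695031855) (nat_lit 1) (nat_lit 4) (nat_lit 2) (nat_lit 5) (nat_lit 2) (nat_lit 4) (nat_lit 394) (nat_lit 329) (nat_lit 297))))) (XT.nd (nat_lit 312) (nat_lit 0) (nat_lit 0) (XT.nd (nat_lit 156) (nat_lit 0) (nat_lit 0) (XT.nd (nat_lit 78) (nat_lit 0) (nat_lit 0) (XT.lf (nat_lit 0) (nat_lit 1157382707746) (nat_lit 76) (nat_lit 178303245601) (nat_lit 76) (nat_lit 176347531125) (nat_lit 1) (nat_lit 4) (nat_lit 2) (nat_lit 5) (nat_lit 2) (nat_lit 4) (nat_lit 395) (nat_lit 329) (nat_lit 296)) (XT.lf (nat_lit 0) (nat_lit 1349699029474) (nat_lit 76) (nat_lit 195183166838) (nat_lit 76) (nat_lit 193224893750) (nat_lit 1) (nat_lit 4) (nat_lit 2) (nat_lit 5) (nat_lit 2) (nat_lit 4) (nat_lit 396) (nat_lit 329) (nat_lit 295))) (XT.nd (nat_lit 78) (nat_lit 0) (nat_lit 0)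 (XT.lf (nat_lit 0) (nat_lit 1570818319453) (nat_lit 76) (nat_lit 214617826967) (nat_lit 76) (nat_lit 212657328999) (nat_lit 1) (nat_lit 4) (nat_lit 2) (nat_lit 5) (nat_lit 2) (nat_lit 4) (nat_lit 397) (nat_lit 329) (nat_lit 294)) (XT.lf (nat_lit 0) (nat_lit 1825066824661) (nat_lit 76) (nat_lit 236987469338) (nat_lit 76) (nat_lit 235025036691) (nat_lit 1) (nat_lit 4) (nat_lit 2) (nat_lit 5) (nat_lit 2) (nat_lit 4) (nat_lit 398) (nat_lit 329) (nat_lit 293)))) (XT.nd (nat_lit 156) (nat_lit 0) (nat_lit 0) (XT.nd (nat_lit 78) (nat_lit 0) (nat_lit 0) (XT.lf (nat_lit 0) (nat_lit 2117418972372) (nat_lit 76) (nat_lit 262729760866) (nat_lit 76) (nat_lit 260765645891) (nat_lit 1) (nat_lit 4) (nat_lit 2) (nat_lit 5) (nat_lit 2) (nat_lit 4) (nat_lit 399) (nat_lit 329) (nat_lit 292)) (XT.lf (nat_lit 0) (nat_lit 2453594695913) (nat_lit 76) (nat_lit 292348355082) (nat_lit 76) (nat_lit 290382777212) (nat_lit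 1) (nat_lit 4) (nat_lit 2) (nat_lit 5) (nat_lit 2) (nat_lit 4) (nat_lit 400) (nat_lit 329) (nat_lit 291))) (XT.nd (nat_lit 78) (nat_lit 0) (nat_lit 0) (XT.lf (nat_lit 0) (nat_lit 2840171346395) (nat_lit 76) (nat_lit 326422746221) (nat_lit 76) (nat_lit 324455896268) (nat_lit 1) (nat_lit 4) (nat_lit 2) (nat_lit 5) (nat_lit 2) (nat_lit 4) (nat_lit 401) (nat_lit 329) (nat_lit 290)) (XT.nd (nat_lit 78) (nat_lit 0) (nat_lit 0) (XT.lf (nat_lit 0) (nat_lit 3284712380024) (nat_lit 76) (nat_lit 365619607152) (nat_lit 76) (nat_lit 363651651040) (nat_lit 1) (nat_lit 4) (nat_lit 2) (nat_lit 5) (nat_lit 2) (nat_lit 4) (nat_lit 402) (nat_lit 329) (nat_lit 289)) (XT.lf (nat_lit 0) (nat_lit 3795915338762) (nat_lit 76) (nat_lit 410705832980) (nat_lit 76) (nat_lit 408736914992) (nat_lit 1) (nat_lit 4) (nat_lit 2) (nat_lit 5) (nat_lit 2) (nat_lit 4) (nat_lit 403) (nat_lit 329) (nat_lit 288))))))))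
noncomputable def xc25 : XT := (XT.nd (nat_lit 49764) (nat_lit 0) (nat_lit 76) (XT.nd (nat_lit 624) (nat_lit 0) (nat_lit 0) (XT.nd (nat_lit 312) (nat_lit 0) (nat_lit 0) (XT.nd (nat_lit 156) (nat_lit 0) (nat_lit 0) (XT.nd (nat_lit 78) (nat_lit 0) (nat_lit 0) (XT.lf (nat_lit 0) (nat_lit 4383782019628) (nat_lit 76) (nat_lit 462563545516) (nat_lit 76) (nat_lit 460593791113) (nat_lit 1) (nat_lit 4) (nat_lit 2) (nat_lit 5) (nat_lit 2) (nat_lit 4) (nat_lit 404) (nat_lit 329) (nat_lit 287)) (XT.lf (nat_lit 0) (nat_lit 5059814162030) (nat_lit 76) (nat_lit 522207352179) (nat_lit 76) (nat_lit 520236870458) (nat_lit 1) (nat_lit 4) (nat_lit 2) (nat_lit 5) (nat_lit 2) (nat_lit 4) (nat_lit 405) (nat_lit 329) (nat_lit 286))) (XT.nd (nat_lit 78) (nat_lit 0) (nat_lit 0) (XT.lf (nat_lit 0) (nat_lit 5837238481798) (nat_lit 76) (nat_lit 590804197011) (nat_lit 76) (nat_lit 588833082841) (nat_lit 1) (nat_lit 4)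 (nat_lit 2) (nat_lit 5) (nat_lit 2) (nat_lit 4) (nat_lit 406) (nat_lit 329) (nat_lit 285)) (XT.lf (nat_lit 0) (nat_lit 6731265454754) (nat_lit 76) (nat_lit 669696192195) (nat_lit 76) (nat_lit 667724528069) (nat_lit 1) (nat_lit 4) (nat_lit 2) (nat_lit 5) (nat_lit 2) (nat_lit 4) (nat_lit 407) (nat_lit 329) (nat_lit 284)))) (XT.nd (nat_lit 156) (nat_lit 0) (nat_lit 0) (XT.nd (nat_lit 78) (nat_lit 0) (nat_lit 0) (XT.lf (nat_lit 0) (nat_lit 7759386912976) (nat_lit 76) (nat_lit 760426876767) (nat_lit 76) (nat_lit 758454734417) (nat_lit 1) (nat_lit 4) (nat_lit 2) (nat_lit 5) (nat_lit 2) (nat_lit 4) (nat_lit 408) (nat_lit 329) (nat_lit 283)) (XT.lf (nat_lit 0) (nat_lit 8941718276299) (nat_lit 76) (nat_lit 864771416294) (nat_lit 76) (nat_lit 862798858098) (nat_lit 1) (nat_lit 4) (nat_lit 2) (nat_lit 5) (nat_lit 2) (nat_lit 4) (nat_lit 409) (nat_lit 329) (nat_lit 282))) (XT.nd (nat_lit 78) (nat_lit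 0) (nat_lit 0) (XT.lf (nat_lit 0) (nat_lit 10301392114877) (nat_lit 76) (nat_lit 984771334375) (nat_lit 76) (nat_lit 982798414575) (nat_lit 1) (nat_lit 4) (nat_lit 2) (nat_lit 5) (nat_lit 2) (nat_lit 4) (nat_lit 410) (nat_lit 329) (nat_lit 281)) (XT.lf (nat_lit 0) (nat_lit 11865010742940) (nat_lit 76) (nat_lit 1122774455496) (nat_lit 76) (nat_lit 1120801221256) (nat_lit 1) (nat_lit 4) (nat_lit 2) (nat_lit 5) (nat_lit 2) (nat_lit 4) (nat_lit 411) (nat_lit 329) (nat_lit 280))))) (XT.nd (nat_lit 312) (nat_lit 0) (nat_lit 0) (XT.nd (nat_lit 156) (nat_lit 0) (nat_lit 0) (XT.nd (nat_lit 78) (nat_lit 0) (nat_lit 0) (XT.lf (nat_lit 0) (nat_lit 13663166698866) (nat_lit 76) (nat_lit 1281480840721) (nat_lit 76) (nat_lit 1279507333056) (nat_lit 1) (nat_lit 4) (nat_lit 2) (nat_lit 5) (nat_lit 2) (nat_lit 4) (nat_lit 412) (nat_lit 329) (nat_lit 279)) (XT.lf (nat_lit 0) (nat_lit 15731041294835) (nat_lit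 76) (nat_lit 1463995614979) (nat_lit 76) (nat_lit 1462021869552) (nat_lit 1) (nat_lit 4) (nat_lit 2) (nat_lit 5) (nat_lit 2) (nat_lit 4) (nat_lit 413) (nat_lit 329) (nat_lit 278))) (XT.nd (nat_lit 78) (nat_lit 0) (nat_lit 0) (XT.lf (nat_lit 0) (nat_lit 18109092946855) (nat_lit 76) (nat_lit 1673889719505) (nat_lit 76) (nat_lit 1671915767329) (nat_lit 1) (nat_lit 4) (nat_lit 2) (nat_lit 5) (nat_lit 2) (nat_lit 4) (nat_lit 414) (nat_lit 329) (nat_lit 277)) (XT.lf (nat_lit 0) (nat_lit 20843848752465) (nat_lit 76) (nat_lit 1915269778083) (nat_lit 76) (nat_lit 1913295646126) (nat_lit 1) (nat_lit 4) (nat_lit 2) (nat_lit 5) (nat_lit 2) (nat_lit 4) (nat_lit 415) (nat_lit 329) (nat_lit 276)))) (XT.nd (nat_lit 156) (nat_lit 0) (nat_lit 0) (XT.nd (nat_lit 78) (nat_lit 0) (nat_lit 0) (XT.lf (nat_lit 0) (nat_lit 23988814803515) (nat_lit 76) (nat_lit 2192858444034) (nat_lit 76) (nat_lit 2190884155745)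 (nat_lit 1) (nat_lit 4) (nat_lit 2) (nat_lit 5) (nat_lit 2) (nat_lit 4) (nat_lit 416) (nat_lit 329) (nat_lit 275)) (XT.lf (nat_lit 0) (nat_lit 27605523044481) (nat_lit 76) (nat_lit 2512086799952) (nat_lit 76) (nat_lit 2510112375722) (nat_lit 1) (nat_lit 4) (nat_lit 2) (nat_lit 5) (nat_lit 2) (nat_lit 4) (nat_lit 417) (nat_lit 329) (nat_lit 274))) (XT.nd (nat_lit 48594) (nat_lit 0) (nat_lit 1368) (XT.lf (nat_lit 0) (nat_lit 31764735158339) (nat_lit 76) (nat_lit 2879200618018) (nat_lit 76) (nat_lit 2877226075578) (nat_lit 1) (nat_lit 4) (nat_lit 2) (nat_lit 5) (nat_lit 2) (nat_lit 4) (nat_lit 418) (nat_lit 329) (nat_lit 273)) (XT.lf (nat_lit 0) (nat_lit 8711782331) (nat_lit 76) (nat_lit 183896818) (nat_lit 76) (nat_lit 183896818) (nat_lit 19) (nat_lit 4) (nat_lit 20) (nat_lit 5) (nat_lit 20) (nat_lit 4) (nat_lit 360) (nat_lit 330) (nat_lit 330)))))) (XT.nd (nat_lit 624) (nat_lit 380) (nat_lit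 0) (XT.nd (nat_lit 312) (nat_lit 304) (nat_lit 0) (XT.nd (nat_lit 156) (nat_lit 228) (nat_lit 0) (XT.nd (nat_lit 78) (nat_lit 152) (nat_lit 0) (XT.lf (nat_lit 0) (nat_lit 4833137033) (nat_lit 76) (nat_lit 7704830457) (nat_lit 76) (nat_lit 7269469172) (nat_lit 16) (nat_lit 4) (nat_lit 17) (nat_lit 5) (nat_lit 17) (nat_lit 4) (nat_lit 361) (nat_lit 330) (nat_lit 329)) (XT.lf (nat_lit 0) (nat_lit 5087779364) (nat_lit 152) (nat_lit 12292289802) (nat_lit 0) (nat_lit 4334134627) (nat_lit 14) (nat_lit 5) (nat_lit 16) (nat_lit 4) (nat_lit 14) (nat_lit 4) (nat_lit 362) (nat_lit 330) (nat_lit 328))) (XT.nd (nat_lit 78) (nat_lit 152) (nat_lit 0) (XT.lf (nat_lit 0) (nat_lit 12429289433) (nat_lit 76) (nat_lit 6267422080) (nat_lit 76) (nat_lit 5208966529) (nat_lit 13) (nat_lit 4) (nat_lit 14) (nat_lit 5) (nat_lit 14) (nat_lit 4) (nat_lit 363) (nat_lit 330) (nat_lit 327)) (XT.lf (nat_lit 0) (nat_lit 7300202640)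 (nat_lit 152) (nat_lit 13053735883) (nat_lit 0) (nat_lit 6074731869) (nat_lit 11) (nat_lit 5) (nat_lit 13) (nat_lit 4) (nat_lit 11) (nat_lit 4) (nat_lit 364) (nat_lit 330) (nat_lit 326)))) (XT.nd (nat_lit 156) (nat_lit 76) (nat_lit 0) (XT.nd (nat_lit 78) (nat_lit 152) (nat_lit 0) (XT.lf (nat_lit 0) (nat_lit 11582738639) (nat_lit 76) (nat_lit 9595697251) (nat_lit 76) (nat_lit 8156818364) (nat_lit 10) (nat_lit 4) (nat_lit 11) (nat_lit 5) (nat_lit 11) (nat_lit 4) (nat_lit 365) (nat_lit 330) (nat_lit 325)) (XT.lf (nat_lit 0) (nat_lit 3901259781) (nat_lit 152) (nat_lit 26397785022) (nat_lit 0) (nat_lit 2397138333) (nat_lit 8) (nat_lit 5) (nat_lit 10) (nat_lit 4) (nat_lit 8) (nat_lit 4) (nat_lit 366) (nat_lit 330) (nat_lit 324))) (XT.nd (nat_lit 78) (nat_lit 76) (nat_lit 0) (XT.lf (nat_lit 0) (nat_lit 17214441905) (nat_lit 152) (nat_lit 3774643608) (nat_lit 0) (nat_lit 15560906386) (nat_lit 8)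 (nat_lit 5) (nat_lit 10) (nat_lit 4) (nat_lit 8) (nat_lit 4) (nat_lit 367) (nat_lit 330) (nat_lit 323)) (XT.lf (nat_lit 0) (nat_lit 21781743561) (nat_lit 76) (nat_lit 10501467243) (nat_lit 76) (nat_lit 8718006446) (nat_lit 7) (nat_lit 4) (nat_lit 8) (nat_lit 5) (nat_lit 8) (nat_lit 4) (nat_lit 368) (nat_lit 330) (nat_lit 322))))) (XT.nd (nat_lit 312) (nat_lit 152) (nat_lit 0) (XT.nd (nat_lit 156) (nat_lit 76) (nat_lit 0) (XT.nd (nat_lit 78) (nat_lit 0) (nat_lit 0) (XT.lf (nat_lit 0) (nat_lit 2834611643) (nat_lit 152) (nat_lit 42238803062) (nat_lit 0) (nat_lit 1078649327) (nat_lit 5) (nat_lit 5) (nat_lit 7) (nat_lit 4) (nat_lit 5) (nat_lit 4) (nat_lit 369) (nat_lit 330) (nat_lit 321)) (XT.lf (nat_lit 0) (nat_lit 15810657915) (nat_lit 152) (nat_lit 22266518683) (nat_lit 0) (nat_lit 13963730622) (nat_lit 5) (nat_lit 5) (nat_lit 7) (nat_lit 4) (nat_lit 5) (nat_lit 4) (nat_lit 370) (nat_lit 330)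 (nat_lit 320))) (XT.nd (nat_lit 78) (nat_lit 76) (nat_lit 0) (XT.lf (nat_lit 0) (nat_lit 30148353879) (nat_lit 152) (nat_lit 489197702) (nat_lit 0) (nat_lit 28222326604) (nat_lit 5) (nat_lit 5) (nat_lit 7) (nat_lit 4) (nat_lit 5) (nat_lit 4) (nat_lit 371) (nat_lit 330) (nat_lit 319)) (XT.lf (nat_lit 0) (nat_lit 24757719288) (nat_lit 76) (nat_lit 21965924128) (nat_lit 76) (nat_lit 19971114261) (nat_lit 4) (nat_lit 4) (nat_lit 5) (nat_lit 5) (nat_lit 5) (nat_lit 4) (nat_lit 372) (nat_lit 330) (nat_lit 318)))) (XT.nd (nat_lit 156) (nat_lit 76) (nat_lit 0) (XT.nd (nat_lit 78) (nat_lit 76) (nat_lit 0) (XT.lf (nat_lit 0) (nat_lit 52873463153) (nat_lit 76) (nat_lit 12461049751) (nat_lit 76) (nat_lit 10406428934) (nat_lit 4) (nat_lit 4) (nat_lit 5) (nat_lit 5) (nat_lit 5) (nat_lit 4) (nat_lit 373) (nat_lit 330) (nat_lit 317)) (XT.lf (nat_lit 0) (nat_lit 148472966) (nat_lit 152) (nat_lit 1797806569)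 (nat_lit 76) (nat_lit 84229831766) (nat_lit 3) (nat_lit 5) (nat_lit 5) (nat_lit 5) (nat_lit 4) (nat_lit 4) (nat_lit 374) (nat_lit 330) (nat_lit 316))) (XT.nd (nat_lit 78) (nat_lit 0) (nat_lit 0) (XT.lf (nat_lit 0) (nat_lit 12125770484) (nat_lit 152) (nat_lit 75859434740) (nat_lit 0) (nat_lit 10133311215) (nat_lit 2) (nat_lit 5) (nat_lit 4) (nat_lit 4) (nat_lit 2) (nat_lit 4) (nat_lit 375) (nat_lit 330) (nat_lit 315)) (XT.nd (nat_lit 78) (nat_lit 0) (nat_lit 0) (XT.lf (nat_lit 0) (nat_lit 25669067205) (nat_lit 152) (nat_lit 62561477964) (nat_lit 0) (nat_lit 23640194352) (nat_lit 2) (nat_lit 5) (nat_lit 4) (nat_lit 4) (nat_lit 2) (nat_lit 4) (nat_lit 376) (nat_lit 330) (nat_lit 314)) (XT.lf (nat_lit 0) (nat_lit 40949836329) (nat_lit 152) (nat_lit 47870190308) (nat_lit 0) (nat_lit 38889299490) (nat_lit 2) (nat_lit 5) (nat_lit 4) (nat_lit 4) (nat_lit 2) (nat_lit 4) (nat_lit 377) (nat_lit 330)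 (nat_lit 313))))))))
noncomputable def xc26 : XT := (XT.nd (nat_lit 1248) (nat_lit 0) (nat_lit 0) (XT.nd (nat_lit 624) (nat_lit 0) (nat_lit 0) (XT.nd (nat_lit 312) (nat_lit 0) (nat_lit 0) (XT.nd (nat_lit 156) (nat_lit 76) (nat_lit 0) (XT.nd (nat_lit 78) (nat_lit 0) (nat_lit 0) (XT.lf (nat_lit 0) (nat_lit 58267049425) (nat_lit 152) (nat_lit 31498133535) (nat_lit 0) (nat_lit 56178978686) (nat_lit 2) (nat_lit 5) (nat_lit 4) (nat_lit 4) (nat_lit 2) (nat_lit 4) (nat_lit 378) (nat_lit 330) (nat_lit 312)) (XT.lf (nat_lit 0) (nat_lit 77959521534) (nat_lit 152) (nat_lit 13124984796) (nat_lit 0) (nat_lit 75847508272) (nat_lit 2) (nat_lit 5) (nat_lit 4) (nat_lit 4) (nat_lit 2) (nat_lit 4) (nat_lit 379) (nat_lit 330) (nat_lit 311))) (XT.nd (nat_lit 78) (nat_lit 0) (nat_lit 0) (XT.lf (nat_lit 0) (nat_lit 8009392824) (nat_lit 76) (nat_lit 92595773417) (nat_lit 76) (nat_lit 90462940571) (nat_lit 1) (nat_lit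 4) (nat_lit 2) (nat_lit 5) (nat_lit 2) (nat_lit 4) (nat_lit 380) (nat_lit 330) (nat_lit 310)) (XT.lf (nat_lit 0) (nat_lit 32746799723) (nat_lit 76) (nat_lit 94106165067) (nat_lit 76) (nat_lit 91955228234) (nat_lit 1) (nat_lit 4) (nat_lit 2) (nat_lit 5) (nat_lit 2) (nat_lit 4) (nat_lit 381) (nat_lit 330) (nat_lit 309)))) (XT.nd (nat_lit 156) (nat_lit 0) (nat_lit 0) (XT.nd (nat_lit 78) (nat_lit 0) (nat_lit 0) (XT.lf (nat_lit 0) (nat_lit 60880090201) (nat_lit 76) (nat_lit 96004092766) (nat_lit 76) (nat_lit 93837413336) (nat_lit 1) (nat_lit 4) (nat_lit 2) (nat_lit 5) (nat_lit 2) (nat_lit 4) (nat_lit 382) (nat_lit 330) (nat_lit 308)) (XT.lf (nat_lit 0) (nat_lit 92959698205) (nat_lit 76) (nat_lit 98326689882) (nat_lit 76) (nat_lit 96146321237) (nat_lit 1) (nat_lit 4) (nat_lit 2) (nat_lit 5) (nat_lit 2) (nat_lit 4) (nat_lit 383) (nat_lit 330) (nat_lit 307))) (XT.nd (nat_lit 78) (nat_lit 0) (nat_lit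 0) (XT.lf (nat_lit 0) (nat_lit 129613268237) (nat_lit 76) (nat_lit 101119398532) (nat_lit 76) (nat_lit 98927126222) (nat_lit 1) (nat_lit 4) (nat_lit 2) (nat_lit 5) (nat_lit 2) (nat_lit 4) (nat_lit 384) (nat_lit 330) (nat_lit 306)) (XT.lf (nat_lit 0) (nat_lit 171557935364) (nat_lit 76) (nat_lit 104436858669) (nat_lit 76) (nat_lit 102234235345) (nat_lit 1) (nat_lit 4) (nat_lit 2) (nat_lit 5) (nat_lit 2) (nat_lit 4) (nat_lit 385) (nat_lit 330) (nat_lit 305))))) (XT.nd (nat_lit 312) (nat_lit 0) (nat_lit 0) (XT.nd (nat_lit 156) (nat_lit 0) (nat_lit 0) (XT.nd (nat_lit 78) (nat_lit 0) (nat_lit 0) (XT.lf (nat_lit 0) (nat_lit 219614356116) (nat_lit 76) (nat_lit 108343977120) (nat_lit 76) (nat_lit 106132352916) (nat_lit 1) (nat_lit 4) (nat_lit 2) (nat_lit 5) (nat_lit 2) (nat_lit 4) (nat_lit 386) (nat_lit 330) (nat_lit 304)) (XT.lf (nat_lit 0) (nat_lit 274722764813) (nat_lit 76) (nat_lit 112917197508)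 (nat_lit 76) (nat_lit 110697746451) (nat_lit 1) (nat_lit 4) (nat_lit 2) (nat_lit 5) (nat_lit 2) (nat_lit 4) (nat_lit 387) (nat_lit 330) (nat_lit 303))) (XT.nd (nat_lit 78) (nat_lit 0) (nat_lit 0) (XT.lf (nat_lit 0) (nat_lit 337961369451) (nat_lit 76) (nat_lit 118245995884) (nat_lit 76) (nat_lit 116019738867) (nat_lit 1) (nat_lit 4) (nat_lit 2) (nat_lit 5) (nat_lit 2) (nat_lit 4) (nat_lit 388) (nat_lit 330) (nat_lit 302)) (XT.lf (nat_lit 0) (nat_lit 410567447077) (nat_lit 76) (nat_lit 124434631346) (nat_lit 76) (nat_lit 122202456105) (nat_lit 1) (nat_lit 4) (nat_lit 2) (nat_lit 5) (nat_lit 2) (nat_lit 4) (nat_lit 389) (nat_lit 330) (nat_lit 301)))) (XT.nd (nat_lit 156) (nat_lit 0) (nat_lit 0) (XT.nd (nat_lit 78) (nat_lit 0) (nat_lit 0) (XT.lf (nat_lit 0) (nat_lit 493961551384) (nat_lit 76) (nat_lit 131604185894) (nat_lit 76) (nat_lit 129366864369) (nat_lit 1) (nat_lit 4) (nat_lit 2) (nat_lit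 5) (nat_lit 2) (nat_lit 4) (nat_lit 390) (nat_lit 330) (nat_lit 300)) (XT.lf (nat_lit 0) (nat_lit 589775306151) (nat_lit 76) (nat_lit 139894933419) (nat_lit 76) (nat_lit 137653136865) (nat_lit 1) (nat_lit 4) (nat_lit 2) (nat_lit 5) (nat_lit 2) (nat_lit 4) (nat_lit 391) (nat_lit 330) (nat_lit 299))) (XT.nd (nat_lit 78) (nat_lit 0) (nat_lit 0) (XT.lf (nat_lit 0) (nat_lit 699883328321) (nat_lit 76) (nat_lit 149469084199) (nat_lit 76) (nat_lit 147223396317) (nat_lit 1) (nat_lit 4) (nat_lit 2) (nat_lit 5) (nat_lit 2) (nat_lit 4) (nat_lit 392) (nat_lit 330) (nat_lit 298)) (XT.lf (nat_lit 0) (nat_lit 826439905282) (nat_lit 76) (nat_lit 160513958577) (nat_lit 76) (nat_lit 158264886930) (nat_lit 1) (nat_lit 4) (nat_lit 2) (nat_lit 5) (nat_lit 2) (nat_lit 4) (nat_lit 393) (nat_lit 330) (nat_lit 297)))))) (XT.nd (nat_lit 624) (nat_lit 0) (nat_lit 0) (XT.nd (nat_lit 312) (nat_lit 0) (nat_lit 0) (XT.nd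 (nat_lit 156) (nat_lit 0) (nat_lit 0) (XT.nd (nat_lit 78) (nat_lit 0) (nat_lit 0) (XT.lf (nat_lit 0) (nat_lit 971921143976) (nat_lit 76) (nat_lit 173245651920) (nat_lit 76) (nat_lit 170993637869) (nat_lit 1) (nat_lit 4) (nat_lit 2) (nat_lit 5) (nat_lit 2) (nat_lit 4) (nat_lit 394) (nat_lit 330) (nat_lit 296)) (XT.lf (nat_lit 0) (nat_lit 1139173416464) (nat_lit 76) (nat_lit 187913262577) (nat_lit 76) (nat_lit 185658689914) (nat_lit 1) (nat_lit 4) (nat_lit 2) (nat_lit 5) (nat_lit 2) (nat_lit 4) (nat_lit 395) (nat_lit 330) (nat_lit 295))) (XT.nd (nat_lit 78) (nat_lit 0) (nat_lit 0) (XT.lf (nat_lit 0) (nat_lit 1331469049816) (nat_lit 76) (nat_lit 204803765538) (nat_lit 76) (nat_lit 202546967994) (nat_lit 1) (nat_lit 4) (nat_lit 2) (nat_lit 5) (nat_lit 2) (nat_lit 4) (nat_lit 396) (nat_lit 330) (nat_lit 294)) (XT.lf (nat_lit 0) (nat_lit 1552570349903) (nat_lit 76) (nat_lit 224247627165) (nat_lit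 76) (nat_lit 221988894944) (nat_lit 1) (nat_lit 4) (nat_lit 2) (nat_lit 5) (nat_lit 2) (nat_lit 4) (nat_lit 397) (nat_lit 330) (nat_lit 293)))) (XT.nd (nat_lit 156) (nat_lit 0) (nat_lit 0) (XT.nd (nat_lit 78) (nat_lit 0) (nat_lit 0) (XT.lf (nat_lit 0) (nat_lit 1806803211726) (nat_lit 76) (nat_lit 246625270839) (nat_lit 76) (nat_lit 244364856288) (nat_lit 1) (nat_lit 4) (nat_lit 2) (nat_lit 5) (nat_lit 2) (nat_lit 4) (nat_lit 398) (nat_lit 330) (nat_lit 292)) (XT.lf (nat_lit 0) (nat_lit 2099141756494) (nat_lit 76) (nat_lit 272374520023) (nat_lit 76) (nat_lit 270112642577) (nat_lit 1) (nat_lit 4) (nat_lit 2) (nat_lit 5) (nat_lit 2) (nat_lit 4) (nat_lit 399) (nat_lit 330) (nat_lit 291))) (XT.nd (nat_lit 78) (nat_lit 0) (nat_lit 0) (XT.lf (nat_lit 0) (nat_lit 2435305651388) (nat_lit 76) (nat_lit 301999164374) (nat_lit 76) (nat_lit 299736014846) (nat_lit 1) (nat_lit 4) (nat_lit 2) (nat_lit 5)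 (nat_lit 2) (nat_lit 4) (nat_lit 400) (nat_lit 330) (nat_lit 290)) (XT.lf (nat_lit 0) (nat_lit 2821872016091) (nat_lit 76) (nat_lit 336078816499) (nat_lit 76) (nat_lit 333814560812) (nat_lit 1) (nat_lit 4) (nat_lit 2) (nat_lit 5) (nat_lit 2) (nat_lit 4) (nat_lit 401) (nat_lit 330) (nat_lit 289))))) (XT.nd (nat_lit 312) (nat_lit 0) (nat_lit 0) (XT.nd (nat_lit 156) (nat_lit 0) (nat_lit 0) (XT.nd (nat_lit 78) (nat_lit 0) (nat_lit 0) (XT.lf (nat_lit 0) (nat_lit 3266404105564) (nat_lit 76) (nat_lit 375280252201) (nat_lit 76) (nat_lit 373015034638) (nat_lit 1) (nat_lit 4) (nat_lit 2) (nat_lit 5) (nat_lit 2) (nat_lit 4) (nat_lit 402) (nat_lit 330) (nat_lit 288)) (XT.lf (nat_lit 0) (nat_lit 3777599286776) (nat_lit 76) (nat_lit 420370456092) (nat_lit 76) (nat_lit 418104402113) (nat_lit 1) (nat_lit 4) (nat_lit 2) (nat_lit 5) (nat_lit 2) (nat_lit 4) (nat_lit 403) (nat_lit 330) (nat_lit 287))) (XT.nd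 (nat_lit 78) (nat_lit 0) (nat_lit 0) (XT.lf (nat_lit 0) (nat_lit 4365459204575) (nat_lit 76) (nat_lit 472231627812) (nat_lit 76) (nat_lit 469964846516) (nat_lit 1) (nat_lit 4) (nat_lit 2) (nat_lit 5) (nat_lit 2) (nat_lit 4) (nat_lit 404) (nat_lit 330) (nat_lit 286)) (XT.lf (nat_lit 0) (nat_lit 5041485466049) (nat_lit 76) (nat_lit 531878442461) (nat_lit 76) (nat_lit 529611028715) (nat_lit 1) (nat_lit 4) (nat_lit 2) (nat_lit 5) (nat_lit 2) (nat_lit 4) (nat_lit 405) (nat_lit 330) (nat_lit 285)))) (XT.nd (nat_lit 156) (nat_lit 0) (nat_lit 0) (XT.nd (nat_lit 78) (nat_lit 0) (nat_lit 0) (XT.lf (nat_lit 0) (nat_lit 5818904671967) (nat_lit 76) (nat_lit 600477902934) (nat_lit 76) (nat_lit 598209939232) (nat_lit 1) (nat_lit 4) (nat_lit 2) (nat_lit 5) (nat_lit 2) (nat_lit 4) (nat_lit 406) (nat_lit 330) (nat_lit 284)) (XT.lf (nat_lit 0) (nat_lit 6712927198096) (nat_lit 76) (nat_lit 679372172587) (nat_lit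 76) (nat_lit 677103730662) (nat_lit 1) (nat_lit 4) (nat_lit 2) (nat_lit 5) (nat_lit 2) (nat_lit 4) (nat_lit 407) (nat_lit 330) (nat_lit 283))) (XT.nd (nat_lit 78) (nat_lit 0) (nat_lit 0) (XT.lf (nat_lit 0) (nat_lit 7741044789512) (nat_lit 76) (nat_lit 770104834959) (nat_lit 76) (nat_lit 767835977188) (nat_lit 1) (nat_lit 4) (nat_lit 2) (nat_lit 5) (nat_lit 2) (nat_lit 4) (nat_lit 408) (nat_lit 330) (nat_lit 282)) (XT.nd (nat_lit 78) (nat_lit 0) (nat_lit 0) (XT.lf (nat_lit 0) (nat_lit 8923372790397) (nat_lit 76) (nat_lit 874451094312) (nat_lit 76) (nat_lit 872181874935) (nat_lit 1) (nat_lit 4) (nat_lit 2) (nat_lit 5) (nat_lit 2) (nat_lit 4) (nat_lit 409) (nat_lit 330) (nat_lit 281)) (XT.lf (nat_lit 0) (nat_lit 10283043705113) (nat_lit 76) (nat_lit 994452507894) (nat_lit 76) (nat_lit 992182974079) (nat_lit 1) (nat_lit 4) (nat_lit 2) (nat_lit 5) (nat_lit 2) (nat_lit 4) (nat_lit 410) (nat_lit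 330) (nat_lit 280))))))))
noncomputable def xc27 : XT := (XT.nd (nat_lit 49686) (nat_lit 0) (nat_lit 0) (XT.nd (nat_lit 48984) (nat_lit 0) (nat_lit 684) (XT.nd (nat_lit 312) (nat_lit 0) (nat_lit 0) (XT.nd (nat_lit 156) (nat_lit 0) (nat_lit 0) (XT.nd (nat_lit 78) (nat_lit 0) (nat_lit 0) (XT.lf (nat_lit 0) (nat_lit 11846659790690) (nat_lit 76) (nat_lit 1132456929450) (nat_lit 76) (nat_lit 1130187122209) (nat_lit 1) (nat_lit 4) (nat_lit 2) (nat_lit 5) (nat_lit 2) (nat_lit 4) (nat_lit 411) (nat_lit 330) (nat_lit 279)) (XT.lf (nat_lit 0) (nat_lit 13644813535757) (nat_lit 76) (nat_lit 1291164445489) (nat_lit 76) (nat_lit 1288894400487) (nat_lit 1) (nat_lit 4) (nat_lit 2) (nat_lit 5) (nat_lit 2) (nat_lit 4) (nat_lit 412) (nat_lit 330) (nat_lit 278))) (XT.nd (nat_lit 78) (nat_lit 0) (nat_lit 0) (XT.lf (nat_lit 0) (nat_lit 15712686209240) (nat_lit 76) (nat_lit 1473680203063) (nat_lit 76) (nat_lit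 1471409951311) (nat_lit 1) (nat_lit 4) (nat_lit 2) (nat_lit 5) (nat_lit 2) (nat_lit 4) (nat_lit 413) (nat_lit 330) (nat_lit 277)) (XT.lf (nat_lit 0) (nat_lit 18090736189533) (nat_lit 76) (nat_lit 1683575162646) (nat_lit 76) (nat_lit 1681304731113) (nat_lit 1) (nat_lit 4) (nat_lit 2) (nat_lit 5) (nat_lit 2) (nat_lit 4) (nat_lit 414) (nat_lit 330) (nat_lit 276)))) (XT.nd (nat_lit 156) (nat_lit 0) (nat_lit 0) (XT.nd (nat_lit 78) (nat_lit 0) (nat_lit 0) (XT.lf (nat_lit 0) (nat_lit 20825490541468) (nat_lit 76) (nat_lit 1924955964753) (nat_lit 76) (nat_lit 1922685376888) (nat_lit 1) (nat_lit 4) (nat_lit 2) (nat_lit 5) (nat_lit 2) (nat_lit 4) (nat_lit 415) (nat_lit 330) (nat_lit 275)) (XT.lf (nat_lit 0) (nat_lit 23970455328453) (nat_lit 76) (nat_lit 2202545277250) (nat_lit 76) (nat_lit 2200274553444) (nat_lit 1) (nat_lit 4) (nat_lit 2) (nat_lit 5) (nat_lit 2) (nat_lit 4) (nat_lit 416) (nat_lit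 330) (nat_lit 274))) (XT.nd (nat_lit 78) (nat_lit 0) (nat_lit 0) (XT.lf (nat_lit 0) (nat_lit 27587162470231) (nat_lit 76) (nat_lit 2521774195382) (nat_lit 76) (nat_lit 2519503353367) (nat_lit 1) (nat_lit 4) (nat_lit 2) (nat_lit 5) (nat_lit 2) (nat_lit 4) (nat_lit 417) (nat_lit 330) (nat_lit 273)) (XT.lf (nat_lit 0) (nat_lit 31746373628274) (nat_lit 76) (nat_lit 2888888502330) (nat_lit 76) (nat_lit 2886617557524) (nat_lit 1) (nat_lit 4) (nat_lit 2) (nat_lit 5) (nat_lit 2) (nat_lit 4) (nat_lit 418) (nat_lit 330) (nat_lit 272))))) (XT.nd (nat_lit 312) (nat_lit 456) (nat_lit 0) (XT.nd (nat_lit 156) (nat_lit 304) (nat_lit 0) (XT.nd (nat_lit 78) (nat_lit 152) (nat_lit 0) (XT.lf (nat_lit 0) (nat_lit 1278250044) (nat_lit 76) (nat_lit 3210544376) (nat_lit 76) (nat_lit 3210544376) (nat_lit 22) (nat_lit 4) (nat_lit 23) (nat_lit 5) (nat_lit 23) (nat_lit 4) (nat_lit 358) (nat_lit 331) (nat_lit 331))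 (XT.lf (nat_lit 0) (nat_lit 5088804240) (nat_lit 152) (nat_lit 7066308139) (nat_lit 0) (nat_lit 4548085524) (nat_lit 20) (nat_lit 5) (nat_lit 22) (nat_lit 4) (nat_lit 20) (nat_lit 4) (nat_lit 359) (nat_lit 331) (nat_lit 330))) (XT.nd (nat_lit 78) (nat_lit 228) (nat_lit 0) (XT.lf (nat_lit 0) (nat_lit 16347882129) (nat_lit 76) (nat_lit 1433159415) (nat_lit 76) (nat_lit 422250510) (nat_lit 19) (nat_lit 4) (nat_lit 20) (nat_lit 5) (nat_lit 20) (nat_lit 4) (nat_lit 360) (nat_lit 331) (nat_lit 329)) (XT.lf (nat_lit 0) (nat_lit 2476381151) (nat_lit 76) (nat_lit 9370546447) (nat_lit 76) (nat_lit 8055944653) (nat_lit 16) (nat_lit 4) (nat_lit 17) (nat_lit 5) (nat_lit 17) (nat_lit 4) (nat_lit 361) (nat_lit 331) (nat_lit 328)))) (XT.nd (nat_lit 156) (nat_lit 228) (nat_lit 0) (XT.nd (nat_lit 78) (nat_lit 76) (nat_lit 0) (XT.lf (nat_lit 0) (nat_lit 3705258507) (nat_lit 152) (nat_lit 15973538426) (nat_lit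 0) (nat_lit 2183223810) (nat_lit 14) (nat_lit 5) (nat_lit 16) (nat_lit 4) (nat_lit 14) (nat_lit 4) (nat_lit 362) (nat_lit 331) (nat_lit 327)) (XT.lf (nat_lit 0) (nat_lit 7583811423) (nat_lit 76) (nat_lit 9151554700) (nat_lit 76) (nat_lit 7364467122) (nat_lit 13) (nat_lit 4) (nat_lit 14) (nat_lit 5) (nat_lit 14) (nat_lit 4) (nat_lit 363) (nat_lit 331) (nat_lit 326))) (XT.nd (nat_lit 78) (nat_lit 76) (nat_lit 0) (XT.lf (nat_lit 0) (nat_lit 4586052214) (nat_lit 152) (nat_lit 19376331328) (nat_lit 0) (nat_lit 2717933376) (nat_lit 11) (nat_lit 5) (nat_lit 13) (nat_lit 4) (nat_lit 11) (nat_lit 4) (nat_lit 364) (nat_lit 331) (nat_lit 325)) (XT.nd (nat_lit 78) (nat_lit 0) (nat_lit 0) (XT.lf (nat_lit 0) (nat_lit 4068842242) (nat_lit 76) (nat_lit 13809330633) (nat_lit 76) (nat_lit 11755639519) (nat_lit 10) (nat_lit 4) (nat_lit 11) (nat_lit 5) (nat_lit 11) (nat_lit 4) (nat_lit 365) (nat_lit 331) (nat_lit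 324)) (XT.lf (nat_lit 0) (nat_lit 30599395607) (nat_lit 76) (nat_lit 2332314637) (nat_lit 76) (nat_lit 117256327) (nat_lit 10) (nat_lit 4) (nat_lit 11) (nat_lit 5) (nat_lit 11) (nat_lit 4) (nat_lit 366) (nat_lit 331) (nat_lit 323))))))) (XT.nd (nat_lit 624) (nat_lit 228) (nat_lit 0) (XT.nd (nat_lit 312) (nat_lit 76) (nat_lit 0) (XT.nd (nat_lit 156) (nat_lit 152) (nat_lit 0) (XT.nd (nat_lit 78) (nat_lit 76) (nat_lit 0) (XT.lf (nat_lit 0) (nat_lit 12726147479) (nat_lit 152) (nat_lit 13669678517) (nat_lit 0) (nat_lit 10545242283) (nat_lit 8) (nat_lit 5) (nat_lit 10) (nat_lit 4) (nat_lit 8) (nat_lit 4) (nat_lit 367) (nat_lit 331) (nat_lit 322)) (XT.lf (nat_lit 0) (nat_lit 10705816185) (nat_lit 76) (nat_lit 16513222560) (nat_lit 76) (nat_lit 14219338861) (nat_lit 7) (nat_lit 4) (nat_lit 8) (nat_lit 5) (nat_lit 8) (nat_lit 4) (nat_lit 368) (nat_lit 331) (nat_lit 321))) (XT.nd (nat_lit 78) (nat_lit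 152) (nat_lit 0) (XT.lf (nat_lit 0) (nat_lit 38331820126) (nat_lit 76) (nat_lit 5343720336) (nat_lit 76) (nat_lit 2951594461) (nat_lit 7) (nat_lit 4) (nat_lit 8) (nat_lit 5) (nat_lit 8) (nat_lit 4) (nat_lit 369) (nat_lit 331) (nat_lit 320)) (XT.lf (nat_lit 0) (nat_lit 9556143079) (nat_lit 152) (nat_lit 35752688565) (nat_lit 0) (nat_lit 7262111732) (nat_lit 5) (nat_lit 5) (nat_lit 7) (nat_lit 4) (nat_lit 5) (nat_lit 4) (nat_lit 370) (nat_lit 331) (nat_lit 319)))) (XT.nd (nat_lit 156) (nat_lit 0) (nat_lit 0) (XT.nd (nat_lit 78) (nat_lit 76) (nat_lit 0) (XT.lf (nat_lit 0) (nat_lit 23657334594) (nat_lit 152) (nat_lit 14456987828) (nat_lit 0) (nat_lit 21294520654) (nat_lit 5) (nat_lit 5) (nat_lit 7) (nat_lit 4) (nat_lit 5) (nat_lit 4) (nat_lit 371) (nat_lit 331) (nat_lit 318)) (XT.lf (nat_lit 0) (nat_lit 9613556597) (nat_lit 76) (nat_lit 30049194014) (nat_lit 76) (nat_lit 27626569124) (nat_lit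 4) (nat_lit 4) (nat_lit 5) (nat_lit 5) (nat_lit 5) (nat_lit 4) (nat_lit 372) (nat_lit 331) (nat_lit 317))) (XT.nd (nat_lit 78) (nat_lit 0) (nat_lit 0) (XT.lf (nat_lit 0) (nat_lit 37345949601) (nat_lit 76) (nat_lit 20739619559) (nat_lit 76) (nat_lit 18264985147) (nat_lit 4) (nat_lit 4) (nat_lit 5) (nat_lit 5) (nat_lit 5) (nat_lit 4) (nat_lit 373) (nat_lit 331) (nat_lit 316)) (XT.lf (nat_lit 0) (nat_lit 68521502121) (nat_lit 76) (nat_lit 10398734876) (nat_lit 76) (nat_lit 7878874793) (nat_lit 4) (nat_lit 4) (nat_lit 5) (nat_lit 5) (nat_lit 5) (nat_lit 4) (nat_lit 374) (nat_lit 331) (nat_lit 315))))) (XT.nd (nat_lit 312) (nat_lit 76) (nat_lit 0) (XT.nd (nat_lit 156) (nat_lit 0) (nat_lit 0) (XT.nd (nat_lit 78) (nat_lit 0) (nat_lit 0) (XT.lf (nat_lit 0) (nat_lit 3703959725) (nat_lit 152) (nat_lit 93781465947) (nat_lit 0) (nat_lit 1334342361) (nat_lit 2) (nat_lit 5) (nat_lit 4) (nat_lit 4) (nat_lit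 2) (nat_lit 4) (nat_lit 375) (nat_lit 331) (nat_lit 314)) (XT.lf (nat_lit 0) (nat_lit 17110501978) (nat_lit 152) (nat_lit 80763212723) (nat_lit 0) (nat_lit 14709220628) (nat_lit 2) (nat_lit 5) (nat_lit 4) (nat_lit 4) (nat_lit 2) (nat_lit 4) (nat_lit 376) (nat_lit 331) (nat_lit 313))) (XT.nd (nat_lit 78) (nat_lit 0) (nat_lit 0) (XT.lf (nat_lit 0) (nat_lit 32272354174) (nat_lit 152) (nat_lit 66315145547) (nat_lit 0) (nat_lit 29843538923) (nat_lit 2) (nat_lit 5) (nat_lit 4) (nat_lit 4) (nat_lit 2) (nat_lit 4) (nat_lit 377) (nat_lit 331) (nat_lit 312)) (XT.lf (nat_lit 0) (nat_lit 49486161246) (nat_lit 152) (nat_lit 50154584844) (nat_lit 0) (nat_lit 47033403473) (nat_lit 2) (nat_lit 5) (nat_lit 4) (nat_lit 4) (nat_lit 2) (nat_lit 4) (nat_lit 378) (nat_lit 331) (nat_lit 311)))) (XT.nd (nat_lit 156) (nat_lit 76) (nat_lit 0) (XT.nd (nat_lit 78) (nat_lit 0) (nat_lit 0) (XT.lf (nat_lit 0) (nat_lit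 69088715072) (nat_lit 152) (nat_lit 31965345731) (nat_lit 0) (nat_lit 66615137714) (nat_lit 2) (nat_lit 5) (nat_lit 4) (nat_lit 4) (nat_lit 2) (nat_lit 4) (nat_lit 379) (nat_lit 331) (nat_lit 310)) (XT.lf (nat_lit 0) (nat_lit 91463543880) (nat_lit 152) (nat_lit 11391551790) (nat_lit 0) (nat_lit 88971862535) (nat_lit 2) (nat_lit 5) (nat_lit 4) (nat_lit 4) (nat_lit 2) (nat_lit 4) (nat_lit 380) (nat_lit 331) (nat_lit 309))) (XT.nd (nat_lit 78) (nat_lit 0) (nat_lit 0) (XT.lf (nat_lit 0) (nat_lit 12599611315) (nat_lit 76) (nat_lit 104751825697) (nat_lit 76) (nat_lit 102244401756) (nat_lit 1) (nat_lit 4) (nat_lit 2) (nat_lit 5) (nat_lit 2) (nat_lit 4) (nat_lit 381) (nat_lit 331) (nat_lit 308)) (XT.nd (nat_lit 78) (nat_lit 0) (nat_lit 0) (XT.lf (nat_lit 0) (nat_lit 40605610609) (nat_lit 76) (nat_lit 106714860495) (nat_lit 76) (nat_lit 104193747338) (nat_lit 1) (nat_lit 4) (nat_lit 2) (nat_lit 5)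 (nat_lit 2) (nat_lit 4) (nat_lit 382) (nat_lit 331) (nat_lit 307)) (XT.lf (nat_lit 0) (nat_lit 72574530625) (nat_lit 76) (nat_lit 109094072479) (nat_lit 76) (nat_lit 106561055658) (nat_lit 1) (nat_lit 4) (nat_lit 2) (nat_lit 5) (nat_lit 2) (nat_lit 4) (nat_lit 383) (nat_lit 331) (nat_lit 306))))))))
noncomputable def xc28 : XT := (XT.nd (nat_lit 1248) (nat_lit 0) (nat_lit 0) (XT.nd (nat_lit 624) (nat_lit 0) (nat_lit 0) (XT.nd (nat_lit 312) (nat_lit 0) (nat_lit 0) (XT.nd (nat_lit 156) (nat_lit 0) (nat_lit 0) (XT.nd (nat_lit 78) (nat_lit 0) (nat_lit 0) (XT.lf (nat_lit 0) (nat_lit 109131850234) (nat_lit 76) (nat_lit 111936011450) (nat_lit 76) (nat_lit 109392643615) (nat_lit 1) (nat_lit 4) (nat_lit 2) (nat_lit 5) (nat_lit 2) (nat_lit 4) (nat_lit 384) (nat_lit 331) (nat_lit 305)) (XT.lf (nat_lit 0) (nat_lit 150992821341) (nat_lit 76) (nat_lit 115296280560) (nat_lit 76) (nat_lit 112743911844)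 (nat_lit 1) (nat_lit 4) (nat_lit 2) (nat_lit 5) (nat_lit 2) (nat_lit 4) (nat_lit 385) (nat_lit 331) (nat_lit 304))) (XT.nd (nat_lit 78) (nat_lit 0) (nat_lit 0) (XT.lf (nat_lit 0) (nat_lit 198976462946) (nat_lit 76) (nat_lit 119240624207) (nat_lit 76) (nat_lit 116680428638) (nat_lit 1) (nat_lit 4) (nat_lit 2) (nat_lit 5) (nat_lit 2) (nat_lit 4) (nat_lit 386) (nat_lit 331) (nat_lit 303)) (XT.lf (nat_lit 0) (nat_lit 254021585427) (nat_lit 76) (nat_lit 123846214329) (nat_lit 76) (nat_lit 121279212801) (nat_lit 1) (nat_lit 4) (nat_lit 2) (nat_lit 5) (nat_lit 2) (nat_lit 4) (nat_lit 387) (nat_lit 331) (nat_lit 302)))) (XT.nd (nat_lit 156) (nat_lit 0) (nat_lit 0) (XT.nd (nat_lit 78) (nat_lit 0) (nat_lit 0) (XT.lf (nat_lit 0) (nat_lit 317205158573) (nat_lit 76) (nat_lit 129203160301) (nat_lit 76) (nat_lit 126630240547) (nat_lit 1) (nat_lit 4) (nat_lit 2) (nat_lit 5) (nat_lit 2) (nat_lit 4) (nat_lit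 388) (nat_lit 331) (nat_lit 301)) (XT.lf (nat_lit 0) (nat_lit 389763382728) (nat_lit 76) (nat_lit 135416271933) (nat_lit 76) (nat_lit 132838205897) (nat_lit 1) (nat_lit 4) (nat_lit 2) (nat_lit 5) (nat_lit 2) (nat_lit 4) (nat_lit 389) (nat_lit 331) (nat_lit 300))) (XT.nd (nat_lit 78) (nat_lit 0) (nat_lit 0) (XT.lf (nat_lit 0) (nat_lit 473115875320) (nat_lit 76) (nat_lit 142607110106) (nat_lit 76) (nat_lit 140024569041) (nat_lit 1) (nat_lit 4) (nat_lit 2) (nat_lit 5) (nat_lit 2) (nat_lit 4) (nat_lit 390) (nat_lit 331) (nat_lit 299)) (XT.lf (nat_lit 0) (nat_lit 568893445988) (nat_lit 76) (nat_lit 150916365132) (nat_lit 76) (nat_lit 148329932738) (nat_lit 1) (nat_lit 4) (nat_lit 2) (nat_lit 5) (nat_lit 2) (nat_lit 4) (nat_lit 391) (nat_lit 331) (nat_lit 298))))) (XT.nd (nat_lit 312) (nat_lit 0) (nat_lit 0) (XT.nd (nat_lit 156) (nat_lit 0) (nat_lit 0) (XT.nd (nat_lit 78) (nat_lit 0) (nat_lit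 0) (XT.lf (nat_lit 0) (nat_lit 678970003724) (nat_lit 76) (nat_lit 160506609392) (nat_lit 76) (nat_lit 157916793233) (nat_lit 1) (nat_lit 4) (nat_lit 2) (nat_lit 5) (nat_lit 2) (nat_lit 4) (nat_lit 392) (nat_lit 331) (nat_lit 297)) (XT.lf (nat_lit 0) (nat_lit 805499220307) (nat_lit 76) (nat_lit 171565478099) (nat_lit 76) (nat_lit 168972719537) (nat_lit 1) (nat_lit 4) (nat_lit 2) (nat_lit 5) (nat_lit 2) (nat_lit 4) (nat_lit 393) (nat_lit 331) (nat_lit 296))) (XT.nd (nat_lit 78) (nat_lit 0) (nat_lit 0) (XT.lf (nat_lit 0) (nat_lit 950956667369) (nat_lit 76) (nat_lit 184309340425) (nat_lit 76) (nat_lit 181714023250) (nat_lit 1) (nat_lit 4) (nat_lit 2) (nat_lit 5) (nat_lit 2) (nat_lit 4) (nat_lit 394) (nat_lit 331) (nat_lit 295)) (XT.lf (nat_lit 0) (nat_lit 1118188251481) (nat_lit 76) (nat_lit 198987532805) (nat_lit 76) (nat_lit 196389990750) (nat_lit 1) (nat_lit 4) (nat_lit 2) (nat_lit 5) (nat_lit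 2) (nat_lit 4) (nat_lit 395) (nat_lit 331) (nat_lit 294)))) (XT.nd (nat_lit 156) (nat_lit 0) (nat_lit 0) (XT.nd (nat_lit 78) (nat_lit 0) (nat_lit 0) (XT.lf (nat_lit 0) (nat_lit 1310465894941) (nat_lit 76) (nat_lit 215887237265) (nat_lit 76) (nat_lit 213287760531) (nat_lit 1) (nat_lit 4) (nat_lit 2) (nat_lit 5) (nat_lit 2) (nat_lit 4) (nat_lit 396) (nat_lit 331) (nat_lit 293)) (XT.lf (nat_lit 0) (nat_lit 1531551551643) (nat_lit 76) (nat_lit 235339100196) (nat_lit 76) (nat_lit 232737941133) (nat_lit 1) (nat_lit 4) (nat_lit 2) (nat_lit 5) (nat_lit 2) (nat_lit 4) (nat_lit 397) (nat_lit 331) (nat_lit 292))) (XT.nd (nat_lit 78) (nat_lit 0) (nat_lit 0) (XT.lf (nat_lit 0) (nat_lit 1785770810522) (nat_lit 76) (nat_lit 257723701525) (nat_lit 76) (nat_lit 255121079567) (nat_lit 1) (nat_lit 4) (nat_lit 2) (nat_lit 5) (nat_lit 2) (nat_lit 4) (nat_lit 398) (nat_lit 331) (nat_lit 291)) (XT.lf (nat_lit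 0) (nat_lit 2078097526644) (nat_lit 76) (nat_lit 283479000843) (nat_lit 76) (nat_lit 280875106803) (nat_lit 1) (nat_lit 4) (nat_lit 2) (nat_lit 5) (nat_lit 2) (nat_lit 4) (nat_lit 399) (nat_lit 331) (nat_lit 290)))))) (XT.nd (nat_lit 624) (nat_lit 0) (nat_lit 0) (XT.nd (nat_lit 312) (nat_lit 0) (nat_lit 0) (XT.nd (nat_lit 156) (nat_lit 0) (nat_lit 0) (XT.nd (nat_lit 78) (nat_lit 0) (nat_lit 0) (XT.lf (nat_lit 0) (nat_lit 2414251135759) (nat_lit 76) (nat_lit 313108906181) (nat_lit 76) (nat_lit 310503905983) (nat_lit 1) (nat_lit 4) (nat_lit 2) (nat_lit 5) (nat_lit 2) (nat_lit 4) (nat_lit 400) (nat_lit 331) (nat_lit 289)) (XT.lf (nat_lit 0) (nat_lit 2800808556306) (nat_lit 76) (nat_lit 347193133077) (nat_lit 76) (nat_lit 344587171002) (nat_lit 1) (nat_lit 4) (nat_lit 2) (nat_lit 5) (nat_lit 2) (nat_lit 4) (nat_lit 401) (nat_lit 331) (nat_lit 288))) (XT.nd (nat_lit 78) (nat_lit 0) (nat_lit 0)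 (XT.lf (nat_lit 0) (nat_lit 3245332868253) (nat_lit 76) (nat_lit 386398546841) (nat_lit 76) (nat_lit 383791748351) (nat_lit 1) (nat_lit 4) (nat_lit 2) (nat_lit 5) (nat_lit 2) (nat_lit 4) (nat_lit 402) (nat_lit 331) (nat_lit 287)) (XT.lf (nat_lit 0) (nat_lit 3756521286397) (nat_lit 76) (nat_lit 431492209916) (nat_lit 76) (nat_lit 428884684109) (nat_lit 1) (nat_lit 4) (nat_lit 2) (nat_lit 5) (nat_lit 2) (nat_lit 4) (nat_lit 403) (nat_lit 331) (nat_lit 286)))) (XT.nd (nat_lit 156) (nat_lit 0) (nat_lit 0) (XT.nd (nat_lit 78) (nat_lit 0) (nat_lit 0) (XT.lf (nat_lit 0) (nat_lit 4344375323268) (nat_lit 76) (nat_lit 483356389623) (nat_lit 76) (nat_lit 480748231365) (nat_lit 1) (nat_lit 4) (nat_lit 2) (nat_lit 5) (nat_lit 2) (nat_lit 4) (nat_lit 404) (nat_lit 331) (nat_lit 285)) (XT.lf (nat_lit 0) (nat_lit 5020396470893) (nat_lit 76) (nat_lit 543005819912) (nat_lit 76) (nat_lit 540397111698) (nat_lit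 1) (nat_lit 4) (nat_lit 2) (nat_lit 5) (nat_lit 2) (nat_lit 4) (nat_lit 405) (nat_lit 331) (nat_lit 284))) (XT.nd (nat_lit 78) (nat_lit 0) (nat_lit 0) (XT.lf (nat_lit 0) (nat_lit 5797811229984) (nat_lit 76) (nat_lit 611607554854) (nat_lit 76) (nat_lit 608998368418) (nat_lit 1) (nat_lit 4) (nat_lit 2) (nat_lit 5) (nat_lit 2) (nat_lit 4) (nat_lit 406) (nat_lit 331) (nat_lit 283)) (XT.lf (nat_lit 0) (nat_lit 6691829889308) (nat_lit 76) (nat_lit 690503802308) (nat_lit 76) (nat_lit 687894200025) (nat_lit 1) (nat_lit 4) (nat_lit 2) (nat_lit 5) (nat_lit 2) (nat_lit 4) (nat_lit 407) (nat_lit 331) (nat_lit 282))))) (XT.nd (nat_lit 312) (nat_lit 0) (nat_lit 0) (XT.nd (nat_lit 156) (nat_lit 0) (nat_lit 0) (XT.nd (nat_lit 78) (nat_lit 0) (nat_lit 0) (XT.lf (nat_lit 0) (nat_lit 7719944118285) (nat_lit 76) (nat_lit 781238184505) (nat_lit 76) (nat_lit 778628220617) (nat_lit 1) (nat_lit 4) (nat_lit 2) (nat_lit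 5) (nat_lit 2) (nat_lit 4) (nat_lit 408) (nat_lit 331) (nat_lit 281)) (XT.lf (nat_lit 0) (nat_lit 8902269195309) (nat_lit 76) (nat_lit 885585939359) (nat_lit 76) (nat_lit 882975661032) (nat_lit 1) (nat_lit 4) (nat_lit 2) (nat_lit 5) (nat_lit 2) (nat_lit 4) (nat_lit 409) (nat_lit 331) (nat_lit 280))) (XT.nd (nat_lit 78) (nat_lit 0) (nat_lit 0) (XT.lf (nat_lit 0) (nat_lit 10261937567538) (nat_lit 76) (nat_lit 1005588653377) (nat_lit 76) (nat_lit 1002978101624) (nat_lit 1) (nat_lit 4) (nat_lit 2) (nat_lit 5) (nat_lit 2) (nat_lit 4) (nat_lit 410) (nat_lit 331) (nat_lit 279)) (XT.lf (nat_lit 0) (nat_lit 11825551442256) (nat_lit 76) (nat_lit 1143594205747) (nat_lit 76) (nat_lit 1140983416233) (nat_lit 1) (nat_lit 4) (nat_lit 2) (nat_lit 5) (nat_lit 2) (nat_lit 4) (nat_lit 411) (nat_lit 331) (nat_lit 278)))) (XT.nd (nat_lit 156) (nat_lit 0) (nat_lit 0) (XT.nd (nat_lit 78) (nat_lit 0) (nat_lit 0)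 (XT.lf (nat_lit 0) (nat_lit 13623703264838) (nat_lit 76) (nat_lit 1302302705101) (nat_lit 76) (nat_lit 1299691708838) (nat_lit 1) (nat_lit 4) (nat_lit 2) (nat_lit 5) (nat_lit 2) (nat_lit 4) (nat_lit 412) (nat_lit 331) (nat_lit 277)) (XT.lf (nat_lit 0) (nat_lit 15691574266594) (nat_lit 76) (nat_lit 1484819317733) (nat_lit 76) (nat_lit 1482208141688) (nat_lit 1) (nat_lit 4) (nat_lit 2) (nat_lit 5) (nat_lit 2) (nat_lit 4) (nat_lit 413) (nat_lit 331) (nat_lit 276))) (XT.nd (nat_lit 78) (nat_lit 0) (nat_lit 0) (XT.lf (nat_lit 0) (nat_lit 18069622793212) (nat_lit 76) (nat_lit 1694715020844) (nat_lit 76) (nat_lit 1692103688468) (nat_lit 1) (nat_lit 4) (nat_lit 2) (nat_lit 5) (nat_lit 2) (nat_lit 4) (nat_lit 414) (nat_lit 331) (nat_lit 275)) (XT.nd (nat_lit 78) (nat_lit 0) (nat_lit 0) (XT.lf (nat_lit 0) (nat_lit 20804375881081) (nat_lit 76) (nat_lit 1936096469497) (nat_lit 76) (nat_lit 1933485001180)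 (nat_lit 1) (nat_lit 4) (nat_lit 2) (nat_lit 5) (nat_lit 2) (nat_lit 4) (nat_lit 415) (nat_lit 331) (nat_lit 274)) (XT.lf (nat_lit 0) (nat_lit 23949339568878) (nat_lit 76) (nat_lit 2213686344208) (nat_lit 76) (nat_lit 2211074757682) (nat_lit 1) (nat_lit 4) (nat_lit 2) (nat_lit 5) (nat_lit 2) (nat_lit 4) (nat_lit 416) (nat_lit 331) (nat_lit 273))))))))
noncomputable def xc29 : XT := (XT.nd (nat_lit 49452) (nat_lit 0) (nat_lit 0) (XT.nd (nat_lit 48828) (nat_lit 0) (nat_lit 456) (XT.nd (nat_lit 48516) (nat_lit 0) (nat_lit 1216) (XT.nd (nat_lit 48360) (nat_lit 0) (nat_lit 1824) (XT.nd (nat_lit 78) (nat_lit 0) (nat_lit 0) (XT.lf (nat_lit 0) (nat_lit 27566045754841) (nat_lit 76) (nat_lit 2532915751222) (nat_lit 76) (nat_lit 2530304061905) (nat_lit 1) (nat_lit 4) (nat_lit 2) (nat_lit 5) (nat_lit 2) (nat_lit 4) (nat_lit 417) (nat_lit 331) (nat_lit 272)) (XT.lf (nat_lit 0) (nat_lit 31725256081741)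 (nat_lit 76) (nat_lit 2900030483285) (nat_lit 76) (nat_lit 2897418704584) (nat_lit 1) (nat_lit 4) (nat_lit 2) (nat_lit 5) (nat_lit 2) (nat_lit 4) (nat_lit 418) (nat_lit 331) (nat_lit 271))) (XT.nd (nat_lit 78) (nat_lit 76) (nat_lit 0) (XT.lf (nat_lit 0) (nat_lit 626686693) (nat_lit 152) (nat_lit 5355022685) (nat_lit 0) (nat_lit 626686693) (nat_lit 26) (nat_lit 5) (nat_lit 28) (nat_lit 4) (nat_lit 26) (nat_lit 4) (nat_lit 356) (nat_lit 332) (nat_lit 332)) (XT.lf (nat_lit 0) (nat_lit 9730423239) (nat_lit 76) (nat_lit 2626149650) (nat_lit 76) (nat_lit 1900851192) (nat_lit 25) (nat_lit 4) (nat_lit 26) (nat_lit 5) (nat_lit 26) (nat_lit 4) (nat_lit 357) (nat_lit 332) (nat_lit 331)))) (XT.nd (nat_lit 156) (nat_lit 228) (nat_lit 0) (XT.nd (nat_lit 78) (nat_lit 152) (nat_lit 0) (XT.lf (nat_lit 0) (nat_lit 1502239616) (nat_lit 76) (nat_lit 7597986410) (nat_lit 76) (nat_lit 6342437551) (nat_lit 22)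 (nat_lit 4) (nat_lit 23) (nat_lit 5) (nat_lit 23) (nat_lit 4) (nat_lit 358) (nat_lit 332) (nat_lit 330)) (XT.lf (nat_lit 0) (nat_lit 4581525411) (nat_lit 152) (nat_lit 9263334093) (nat_lit 0) (nat_lit 2948789983) (nat_lit 20) (nat_lit 5) (nat_lit 22) (nat_lit 4) (nat_lit 20) (nat_lit 4) (nat_lit 359) (nat_lit 332) (nat_lit 329))) (XT.nd (nat_lit 78) (nat_lit 152) (nat_lit 0) (XT.lf (nat_lit 0) (nat_lit 13099788566) (nat_lit 76) (nat_lit 3639191959) (nat_lit 76) (nat_lit 1597595498) (nat_lit 19) (nat_lit 4) (nat_lit 20) (nat_lit 5) (nat_lit 20) (nat_lit 4) (nat_lit 360) (nat_lit 332) (nat_lit 328)) (XT.lf (nat_lit 0) (nat_lit 10070878185) (nat_lit 152) (nat_lit 2169024089) (nat_lit 0) (nat_lit 7851315413) (nat_lit 17) (nat_lit 5) (nat_lit 19) (nat_lit 4) (nat_lit 17) (nat_lit 4) (nat_lit 361) (nat_lit 332) (nat_lit 327))))) (XT.nd (nat_lit 312) (nat_lit 304) (nat_lit 0) (XT.nd (nat_lit 156)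 (nat_lit 152) (nat_lit 0) (XT.nd (nat_lit 78) (nat_lit 152) (nat_lit 0) (XT.lf (nat_lit 0) (nat_lit 1154431333) (nat_lit 152) (nat_lit 104602710) (nat_lit 76) (nat_lit 20849919871) (nat_lit 15) (nat_lit 5) (nat_lit 17) (nat_lit 5) (nat_lit 16) (nat_lit 4) (nat_lit 362) (nat_lit 332) (nat_lit 326)) (XT.lf (nat_lit 0) (nat_lit 197320477) (nat_lit 76) (nat_lit 13374584547) (nat_lit 76) (nat_lit 10823900184) (nat_lit 13) (nat_lit 4) (nat_lit 14) (nat_lit 5) (nat_lit 14) (nat_lit 4) (nat_lit 363) (nat_lit 332) (nat_lit 325))) (XT.nd (nat_lit 78) (nat_lit 76) (nat_lit 0) (XT.lf (nat_lit 0) (nat_lit 676651507) (nat_lit 152) (nat_lit 1343667284) (nat_lit 76) (nat_lit 25012490454) (nat_lit 12) (nat_lit 5) (nat_lit 14) (nat_lit 5) (nat_lit 13) (nat_lit 4) (nat_lit 364) (nat_lit 332) (nat_lit 324)) (XT.lf (nat_lit 0) (nat_lit 13434902729) (nat_lit 152) (nat_lit 5867912731) (nat_lit 0) (nat_lit 10726218476)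 (nat_lit 11) (nat_lit 5) (nat_lit 13) (nat_lit 4) (nat_lit 11) (nat_lit 4) (nat_lit 365) (nat_lit 332) (nat_lit 323)))) (XT.nd (nat_lit 156) (nat_lit 76) (nat_lit 0) (XT.nd (nat_lit 78) (nat_lit 152) (nat_lit 0) (XT.lf (nat_lit 0) (nat_lit 19704600032) (nat_lit 76) (nat_lit 8313132660) (nat_lit 76) (nat_lit 5464129107) (nat_lit 10) (nat_lit 4) (nat_lit 11) (nat_lit 5) (nat_lit 11) (nat_lit 4) (nat_lit 366) (nat_lit 332) (nat_lit 322)) (XT.lf (nat_lit 0) (nat_lit 6899181064) (nat_lit 152) (nat_lit 26396652564) (nat_lit 0) (nat_lit 4148236307) (nat_lit 8) (nat_lit 5) (nat_lit 10) (nat_lit 4) (nat_lit 8) (nat_lit 4) (nat_lit 367) (nat_lit 332) (nat_lit 321))) (XT.nd (nat_lit 78) (nat_lit 76) (nat_lit 0) (XT.lf (nat_lit 0) (nat_lit 20865465616) (nat_lit 152) (nat_lit 3101775468) (nat_lit 0) (nat_lit 18016278683) (nat_lit 8) (nat_lit 5) (nat_lit 10) (nat_lit 4) (nat_lit 8) (nat_lit 4) (nat_lit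 368) (nat_lit 332) (nat_lit 320)) (XT.lf (nat_lit 0) (nat_lit 23861962552) (nat_lit 76) (nat_lit 13135452036) (nat_lit 76) (nat_lit 10200837123) (nat_lit 7) (nat_lit 4) (nat_lit 8) (nat_lit 5) (nat_lit 8) (nat_lit 4) (nat_lit 369) (nat_lit 332) (nat_lit 319)))))) (XT.nd (nat_lit 624) (nat_lit 76) (nat_lit 0) (XT.nd (nat_lit 312) (nat_lit 152) (nat_lit 0) (XT.nd (nat_lit 156) (nat_lit 76) (nat_lit 0) (XT.nd (nat_lit 78) (nat_lit 0) (nat_lit 0) (XT.lf (nat_lit 0) (nat_lit 898457666) (nat_lit 76) (nat_lit 980079727) (nat_lit 152) (nat_lit 51340758668) (nat_lit 5) (nat_lit 5) (nat_lit 6) (nat_lit 5) (nat_lit 7) (nat_lit 4) (nat_lit 370) (nat_lit 332) (nat_lit 318)) (XT.lf (nat_lit 0) (nat_lit 15750501925) (nat_lit 152) (nat_lit 31420366931) (nat_lit 0) (nat_lit 12904672351) (nat_lit 5) (nat_lit 5) (nat_lit 7) (nat_lit 4) (nat_lit 5) (nat_lit 4) (nat_lit 371) (nat_lit 332) (nat_lit 317))) (XT.nd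 (nat_lit 78) (nat_lit 76) (nat_lit 0) (XT.lf (nat_lit 0) (nat_lit 31345880334) (nat_lit 152) (nat_lit 8194905638) (nat_lit 0) (nat_lit 28448041239) (nat_lit 5) (nat_lit 5) (nat_lit 7) (nat_lit 4) (nat_lit 5) (nat_lit 4) (nat_lit 372) (nat_lit 332) (nat_lit 316)) (XT.lf (nat_lit 0) (nat_lit 18772609582) (nat_lit 76) (nat_lit 30625100779) (nat_lit 76) (nat_lit 27682036013) (nat_lit 4) (nat_lit 4) (nat_lit 5) (nat_lit 5) (nat_lit 5) (nat_lit 4) (nat_lit 373) (nat_lit 332) (nat_lit 315)))) (XT.nd (nat_lit 156) (nat_lit 152) (nat_lit 0) (XT.nd (nat_lit 78) (nat_lit 0) (nat_lit 0) (XT.lf (nat_lit 0) (nat_lit 49658293777) (nat_lit 76) (nat_lit 20431890895) (nat_lit 76) (nat_lit 17449499458) (nat_lit 4) (nat_lit 4) (nat_lit 5) (nat_lit 5) (nat_lit 5) (nat_lit 4) (nat_lit 374) (nat_lit 332) (nat_lit 314)) (XT.lf (nat_lit 0) (nat_lit 84634902861) (nat_lit 76) (nat_lit 8985787196) (nat_lit 76) (nat_lit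 5969198655) (nat_lit 4) (nat_lit 4) (nat_lit 5) (nat_lit 5) (nat_lit 5) (nat_lit 4) (nat_lit 375) (nat_lit 332) (nat_lit 313))) (XT.nd (nat_lit 78) (nat_lit 0) (nat_lit 0) (XT.lf (nat_lit 0) (nat_lit 7012480572) (nat_lit 152) (nat_lit 102218131728) (nat_lit 0) (nat_lit 4191809133) (nat_lit 2) (nat_lit 5) (nat_lit 4) (nat_lit 4) (nat_lit 2) (nat_lit 4) (nat_lit 376) (nat_lit 332) (nat_lit 312)) (XT.lf (nat_lit 0) (nat_lit 22070926743) (nat_lit 152) (nat_lit 87981560621) (nat_lit 0) (nat_lit 19226312782) (nat_lit 2) (nat_lit 5) (nat_lit 4) (nat_lit 4) (nat_lit 2) (nat_lit 4) (nat_lit 377) (nat_lit 332) (nat_lit 311))))) (XT.nd (nat_lit 312) (nat_lit 76) (nat_lit 0) (XT.nd (nat_lit 156) (nat_lit 0) (nat_lit 0) (XT.nd (nat_lit 78) (nat_lit 0) (nat_lit 0) (XT.lf (nat_lit 0) (nat_lit 39194815533) (nat_lit 152) (nat_lit 72004909544) (nat_lit 0) (nat_lit 36329381987) (nat_lit 2) (nat_lit 5) (nat_lit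 4) (nat_lit 4) (nat_lit 2) (nat_lit 4) (nat_lit 378) (nat_lit 332) (nat_lit 310)) (XT.lf (nat_lit 0) (nat_lit 58719179549) (nat_lit 152) (nat_lit 53975591845) (nat_lit 0) (nat_lit 55835642016) (nat_lit 2) (nat_lit 5) (nat_lit 4) (nat_lit 4) (nat_lit 2) (nat_lit 4) (nat_lit 379) (nat_lit 332) (nat_lit 309))) (XT.nd (nat_lit 78) (nat_lit 0) (nat_lit 0) (XT.lf (nat_lit 0) (nat_lit 81026017217) (nat_lit 152) (nat_lit 33540860003) (nat_lit 0) (nat_lit 78126737086) (nat_lit 2) (nat_lit 5) (nat_lit 4) (nat_lit 4) (nat_lit 2) (nat_lit 4) (nat_lit 380) (nat_lit 332) (nat_lit 308)) (XT.lf (nat_lit 0) (nat_lit 106551766665) (nat_lit 152) (nat_lit 10300904048) (nat_lit 0) (nat_lit 103638797320) (nat_lit 2) (nat_lit 5) (nat_lit 4) (nat_lit 4) (nat_lit 2) (nat_lit 4) (nat_lit 381) (nat_lit 332) (nat_lit 307)))) (XT.nd (nat_lit 156) (nat_lit 0) (nat_lit 0) (XT.nd (nat_lit 78) (nat_lit 0) (nat_lit 0) (XT.lf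 (nat_lit 0) (nat_lit 17051979906) (nat_lit 76) (nat_lit 119153965350) (nat_lit 76) (nat_lit 116229092340) (nat_lit 1) (nat_lit 4) (nat_lit 2) (nat_lit 5) (nat_lit 2) (nat_lit 4) (nat_lit 382) (nat_lit 332) (nat_lit 306)) (XT.lf (nat_lit 0) (nat_lit 48924649499) (nat_lit 76) (nat_lit 121582407655) (nat_lit 76) (nat_lit 118647183631) (nat_lit 1) (nat_lit 4) (nat_lit 2) (nat_lit 5) (nat_lit 2) (nat_lit 4) (nat_lit 383) (nat_lit 332) (nat_lit 305))) (XT.nd (nat_lit 78) (nat_lit 0) (nat_lit 0) (XT.lf (nat_lit 0) (nat_lit 85398273088) (nat_lit 76) (nat_lit 124467155599) (nat_lit 76) (nat_lit 121522930695) (nat_lit 1) (nat_lit 4) (nat_lit 2) (nat_lit 5) (nat_lit 2) (nat_lit 4) (nat_lit 384) (nat_lit 332) (nat_lit 304)) (XT.nd (nat_lit 78) (nat_lit 0) (nat_lit 0) (XT.lf (nat_lit 0) (nat_lit 127186465047) (nat_lit 76) (nat_lit 127864649905) (nat_lit 76) (nat_lit 124912598147) (nat_lit 1) (nat_lit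 4) (nat_lit 2) (nat_lit 5) (nat_lit 2) (nat_lit 4) (nat_lit 385) (nat_lit 332) (nat_lit 303)) (XT.lf (nat_lit 0) (nat_lit 175106820435) (nat_lit 76) (nat_lit 131841363286) (nat_lit 76) (nat_lit 128882505569) (nat_lit 1) (nat_lit 4) (nat_lit 2) (nat_lit 5) (nat_lit 2) (nat_lit 4) (nat_lit 386) (nat_lit 332) (nat_lit 302))))))))
noncomputable def xc30 : XT := (XT.nd (nat_lit 1248) (nat_lit 0) (nat_lit 0) (XT.nd (nat_lit 624) (nat_lit 0) (nat_lit 0) (XT.nd (nat_lit 312) (nat_lit 0) (nat_lit 0) (XT.nd (nat_lit 156) (nat_lit 0) (nat_lit 0) (XT.nd (nat_lit 78) (nat_lit 0) (nat_lit 0) (XT.lf (nat_lit 0) (nat_lit 230096911425) (nat_lit 76) (nat_lit 136475101004) (nat_lit 76) (nat_lit 133510325062) (nat_lit 1) (nat_lit 4) (nat_lit 2) (nat_lit 5) (nat_lit 2) (nat_lit 4) (nat_lit 387) (nat_lit 332) (nat_lit 301)) (XT.lf (nat_lit 0) (nat_lit 293232631100) (nat_lit 76) (nat_lit 141856523145) (nat_lit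 76) (nat_lit 138886600920) (nat_lit 1) (nat_lit 4) (nat_lit 2) (nat_lit 5) (nat_lit 2) (nat_lit 4) (nat_lit 388) (nat_lit 332) (nat_lit 300))) (XT.nd (nat_lit 78) (nat_lit 0) (nat_lit 0) (XT.lf (nat_lit 0) (nat_lit 365749243540) (nat_lit 76) (nat_lit 148090918403) (nat_lit 76) (nat_lit 145116521150) (nat_lit 1) (nat_lit 4) (nat_lit 2) (nat_lit 5) (nat_lit 2) (nat_lit 4) (nat_lit 389) (nat_lit 332) (nat_lit 299)) (XT.lf (nat_lit 0) (nat_lit 449065552034) (nat_lit 76) (nat_lit 155300264078) (nat_lit 76) (nat_lit 152321975495) (nat_lit 1) (nat_lit 4) (nat_lit 2) (nat_lit 5) (nat_lit 2) (nat_lit 4) (nat_lit 390) (nat_lit 332) (nat_lit 298)))) (XT.nd (nat_lit 156) (nat_lit 0) (nat_lit 0) (XT.nd (nat_lit 78) (nat_lit 0) (nat_lit 0) (XT.lf (nat_lit 0) (nat_lit 544811658268) (nat_lit 76) (nat_lit 163625612583) (nat_lit 76) (nat_lit 160643940235) (nat_lit 1) (nat_lit 4) (nat_lit 2) (nat_lit 5) (nat_lit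 2) (nat_lit 4) (nat_lit 391) (nat_lit 332) (nat_lit 297)) (XT.lf (nat_lit 0) (nat_lit 654860855626) (nat_lit 76) (nat_lit 173229851172) (nat_lit 76) (nat_lit 170245236421) (nat_lit 1) (nat_lit 4) (nat_lit 2) (nat_lit 5) (nat_lit 2) (nat_lit 4) (nat_lit 392) (nat_lit 332) (nat_lit 296))) (XT.nd (nat_lit 78) (nat_lit 0) (nat_lit 0) (XT.lf (nat_lit 0) (nat_lit 781366280577) (nat_lit 76) (nat_lit 184300888862) (nat_lit 76) (nat_lit 181313715498) (nat_lit 1) (nat_lit 4) (nat_lit 2) (nat_lit 5) (nat_lit 2) (nat_lit 4) (nat_lit 393) (nat_lit 332) (nat_lit 295)) (XT.lf (nat_lit 0) (nat_lit 926803039262) (nat_lit 76) (nat_lit 197055332911) (nat_lit 76) (nat_lit 194065934667) (nat_lit 1) (nat_lit 4) (nat_lit 2) (nat_lit 5) (nat_lit 2) (nat_lit 4) (nat_lit 394) (nat_lit 332) (nat_lit 294))))) (XT.nd (nat_lit 312) (nat_lit 0) (nat_lit 0) (XT.nd (nat_lit 156) (nat_lit 0) (nat_lit 0) (XT.nd (nat_lit 78)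 (nat_lit 0) (nat_lit 0) (XT.lf (nat_lit 0) (nat_lit 1094016633481) (nat_lit 76) (nat_lit 211742726790) (nat_lit 76) (nat_lit 208751393868) (nat_lit 1) (nat_lit 4) (nat_lit 2) (nat_lit 5) (nat_lit 2) (nat_lit 4) (nat_lit 395) (nat_lit 332) (nat_lit 293)) (XT.lf (nat_lit 0) (nat_lit 1286278633557) (nat_lit 76) (nat_lit 228650432553) (nat_lit 76) (nat_lit 225657417302) (nat_lit 1) (nat_lit 4) (nat_lit 2) (nat_lit 5) (nat_lit 2) (nat_lit 4) (nat_lit 396) (nat_lit 332) (nat_lit 292))) (XT.nd (nat_lit 78) (nat_lit 0) (nat_lit 0) (XT.lf (nat_lit 0) (nat_lit 1507350687316) (nat_lit 76) (nat_lit 248109253139) (nat_lit 76) (nat_lit 245114774993) (nat_lit 1) (nat_lit 4) (nat_lit 2) (nat_lit 5) (nat_lit 2) (nat_lit 4) (nat_lit 397) (nat_lit 332) (nat_lit 291)) (XT.lf (nat_lit 0) (nat_lit 1761558117549) (nat_lit 76) (nat_lit 270499904603) (nat_lit 76) (nat_lit 267504154375) (nat_lit 1) (nat_lit 4) (nat_lit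 2) (nat_lit 5) (nat_lit 2) (nat_lit 4) (nat_lit 398) (nat_lit 332) (nat_lit 290)))) (XT.nd (nat_lit 156) (nat_lit 0) (nat_lit 0) (XT.nd (nat_lit 78) (nat_lit 0) (nat_lit 0) (XT.lf (nat_lit 0) (nat_lit 2053874547892) (nat_lit 76) (nat_lit 296260464908) (nat_lit 76) (nat_lit 293263608521) (nat_lit 1) (nat_lit 4) (nat_lit 2) (nat_lit 5) (nat_lit 2) (nat_lit 4) (nat_lit 399) (nat_lit 332) (nat_lit 289)) (XT.lf (nat_lit 0) (nat_lit 2390019212851) (nat_lit 76) (nat_lit 325894945017) (nat_lit 76) (nat_lit 322897126753) (nat_lit 1) (nat_lit 4) (nat_lit 2) (nat_lit 5) (nat_lit 2) (nat_lit 4) (nat_lit 400) (nat_lit 332) (nat_lit 288))) (XT.nd (nat_lit 78) (nat_lit 0) (nat_lit 0) (XT.lf (nat_lit 0) (nat_lit 2776568855871) (nat_lit 76) (nat_lit 359983149975) (nat_lit 76) (nat_lit 356984495297) (nat_lit 1) (nat_lit 4) (nat_lit 2) (nat_lit 5) (nat_lit 2) (nat_lit 4) (nat_lit 401) (nat_lit 332) (nat_lit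 287)) (XT.lf (nat_lit 0) (nat_lit 3221086404750) (nat_lit 76) (nat_lit 399192022924) (nat_lit 76) (nat_lit 396192640928) (nat_lit 1) (nat_lit 4) (nat_lit 2) (nat_lit 5) (nat_lit 2) (nat_lit 4) (nat_lit 402) (nat_lit 332) (nat_lit 286)))))) (XT.nd (nat_lit 624) (nat_lit 0) (nat_lit 0) (XT.nd (nat_lit 312) (nat_lit 0) (nat_lit 0) (XT.nd (nat_lit 156) (nat_lit 0) (nat_lit 0) (XT.nd (nat_lit 78) (nat_lit 0) (nat_lit 0) (XT.lf (nat_lit 0) (nat_lit 3732268941967) (nat_lit 76) (nat_lit 444288693985) (nat_lit 76) (nat_lit 441288679539) (nat_lit 1) (nat_lit 4) (nat_lit 2) (nat_lit 5) (nat_lit 2) (nat_lit 4) (nat_lit 403) (nat_lit 332) (nat_lit 285)) (XT.lf (nat_lit 0) (nat_lit 4320117864988) (nat_lit 76) (nat_lit 496155489332) (nat_lit 76) (nat_lit 493154924930) (nat_lit 1) (nat_lit 4) (nat_lit 2) (nat_lit 5) (nat_lit 2) (nat_lit 4) (nat_lit 404) (nat_lit 332) (nat_lit 284))) (XT.nd (nat_lit 78)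 (nat_lit 0) (nat_lit 0) (XT.lf (nat_lit 0) (nat_lit 4996134565786) (nat_lit 76) (nat_lit 555807194091) (nat_lit 76) (nat_lit 552806151466) (nat_lit 1) (nat_lit 4) (nat_lit 2) (nat_lit 5) (nat_lit 2) (nat_lit 4) (nat_lit 405) (nat_lit 332) (nat_lit 283)) (XT.lf (nat_lit 0) (nat_lit 5773545458072) (nat_lit 76) (nat_lit 624410906833) (nat_lit 76) (nat_lit 621409448362) (nat_lit 1) (nat_lit 4) (nat_lit 2) (nat_lit 5) (nat_lit 2) (nat_lit 4) (nat_lit 406) (nat_lit 332) (nat_lit 282)))) (XT.nd (nat_lit 156) (nat_lit 0) (nat_lit 0) (XT.nd (nat_lit 78) (nat_lit 0) (nat_lit 0) (XT.lf (nat_lit 0) (nat_lit 6667560754956) (nat_lit 76) (nat_lit 703308874112) (nat_lit 76) (nat_lit 700307054036) (nat_lit 1) (nat_lit 4) (nat_lit 2) (nat_lit 5) (nat_lit 2) (nat_lit 4) (nat_lit 407) (nat_lit 332) (nat_lit 281)) (XT.lf (nat_lit 0) (nat_lit 7695672060073) (nat_lit 76) (nat_lit 794044751811) (nat_lit 76) (nat_lit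 791042617295) (nat_lit 1) (nat_lit 4) (nat_lit 2) (nat_lit 5) (nat_lit 2) (nat_lit 4) (nat_lit 408) (nat_lit 332) (nat_lit 280))) (XT.nd (nat_lit 78) (nat_lit 0) (nat_lit 0) (XT.lf (nat_lit 0) (nat_lit 8877994594609) (nat_lit 76) (nat_lit 898393807100) (nat_lit 76) (nat_lit 895391399159) (nat_lit 1) (nat_lit 4) (nat_lit 2) (nat_lit 5) (nat_lit 2) (nat_lit 4) (nat_lit 409) (nat_lit 332) (nat_lit 279)) (XT.lf (nat_lit 0) (nat_lit 10237660755980) (nat_lit 76) (nat_lit 1018397651931) (nat_lit 76) (nat_lit 1015395006229) (nat_lit 1) (nat_lit 4) (nat_lit 2) (nat_lit 5) (nat_lit 2) (nat_lit 4) (nat_lit 410) (nat_lit 332) (nat_lit 278))))) (XT.nd (nat_lit 312) (nat_lit 0) (nat_lit 0) (XT.nd (nat_lit 156) (nat_lit 0) (nat_lit 0) (XT.nd (nat_lit 78) (nat_lit 0) (nat_lit 0) (XT.lf (nat_lit 0) (nat_lit 11801272708213) (nat_lit 76) (nat_lit 1156404187617) (nat_lit 76) (nat_lit 1153401335166) (nat_lit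 1) (nat_lit 4) (nat_lit 2) (nat_lit 5) (nat_lit 2) (nat_lit 4) (nat_lit 411) (nat_lit 332) (nat_lit 277)) (XT.lf (nat_lit 0) (nat_lit 13599422859068) (nat_lit 76) (nat_lit 1315113542029) (nat_lit 76) (nat_lit 1312110509796) (nat_lit 1) (nat_lit 4) (nat_lit 2) (nat_lit 5) (nat_lit 2) (nat_lit 4) (nat_lit 412) (nat_lit 332) (nat_lit 276))) (XT.nd (nat_lit 78) (nat_lit 0) (nat_lit 0) (XT.lf (nat_lit 0) (nat_lit 15667292407149) (nat_lit 76) (nat_lit 1497630898188) (nat_lit 76) (nat_lit 1494627709623) (nat_lit 1) (nat_lit 4) (nat_lit 2) (nat_lit 5) (nat_lit 2) (nat_lit 4) (nat_lit 413) (nat_lit 332) (nat_lit 275)) (XT.lf (nat_lit 0) (nat_lit 18045339669701) (nat_lit 76) (nat_lit 1707527247846) (nat_lit 76) (nat_lit 1704523923341) (nat_lit 1) (nat_lit 4) (nat_lit 2) (nat_lit 5) (nat_lit 2) (nat_lit 4) (nat_lit 414) (nat_lit 332) (nat_lit 274)))) (XT.nd (nat_lit 156) (nat_lit 0) (nat_lit 0) (XT.nd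 (nat_lit 78) (nat_lit 0) (nat_lit 0) (XT.lf (nat_lit 0) (nat_lit 20780091658383) (nat_lit 76) (nat_lit 1948909258713) (nat_lit 76) (nat_lit 1945905815998) (nat_lit 1) (nat_lit 4) (nat_lit 2) (nat_lit 5) (nat_lit 2) (nat_lit 4) (nat_lit 415) (nat_lit 332) (nat_lit 273)) (XT.lf (nat_lit 0) (nat_lit 23925054390364) (nat_lit 76) (nat_lit 2226499622306) (nat_lit 76) (nat_lit 2223496076801) (nat_lit 1) (nat_lit 4) (nat_lit 2) (nat_lit 5) (nat_lit 2) (nat_lit 4) (nat_lit 416) (nat_lit 332) (nat_lit 272))) (XT.nd (nat_lit 78) (nat_lit 0) (nat_lit 0) (XT.lf (nat_lit 0) (nat_lit 27541759745184) (nat_lit 76) (nat_lit 2545729454435) (nat_lit 76) (nat_lit 2542725819546) (nat_lit 1) (nat_lit 4) (nat_lit 2) (nat_lit 5) (nat_lit 2) (nat_lit 4) (nat_lit 417) (nat_lit 332) (nat_lit 271)) (XT.nd (nat_lit 48126) (nat_lit 0) (nat_lit 2280) (XT.lf (nat_lit 0) (nat_lit 31700969349350) (nat_lit 76) (nat_lit 2912844556162)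 (nat_lit 76) (nat_lit 2909840843549) (nat_lit 1) (nat_lit 4) (nat_lit 2) (nat_lit 5) (nat_lit 2) (nat_lit 4) (nat_lit 418) (nat_lit 332) (nat_lit 270)) (XT.lf (nat_lit 0) (nat_lit 489263138) (nat_lit 152) (nat_lit 2619446624) (nat_lit 152) (nat_lit 2619446624) (nat_lit 31) (nat_lit 4) (nat_lit 33) (nat_lit 5) (nat_lit 33) (nat_lit 4) (nat_lit 354) (nat_lit 333) (nat_lit 333))))))))
noncomputable def xc31 : XT := (XT.nd (nat_lit 1326) (nat_lit 304) (nat_lit 0) (XT.nd (nat_lit 624) (nat_lit 836) (nat_lit 0) (XT.nd (nat_lit 312) (nat_lit 532) (nat_lit 0) (XT.nd (nat_lit 156) (nat_lit 228) (nat_lit 0) (XT.nd (nat_lit 78) (nat_lit 228) (nat_lit 0) (XT.lf (nat_lit 0) (nat_lit 4333007696) (nat_lit 152) (nat_lit 4531358390) (nat_lit 0) (nat_lit 3432187012) (nat_lit 29) (nat_lit 5) (nat_lit 31) (nat_lit 4) (nat_lit 29) (nat_lit 4) (nat_lit 355) (nat_lit 333) (nat_lit 332)) (XT.lf (nat_lit 0) (nat_lit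 1564045257) (nat_lit 152) (nat_lit 11690055382) (nat_lit 0) (nat_lit 4653575) (nat_lit 26) (nat_lit 5) (nat_lit 28) (nat_lit 4) (nat_lit 26) (nat_lit 4) (nat_lit 356) (nat_lit 333) (nat_lit 331))) (XT.nd (nat_lit 78) (nat_lit 152) (nat_lit 0) (XT.lf (nat_lit 0) (nat_lit 7801750593) (nat_lit 76) (nat_lit 4363960539) (nat_lit 76) (nat_lit 2173874545) (nat_lit 25) (nat_lit 4) (nat_lit 26) (nat_lit 5) (nat_lit 26) (nat_lit 4) (nat_lit 357) (nat_lit 333) (nat_lit 330)) (XT.lf (nat_lit 0) (nat_lit 8255420287) (nat_lit 152) (nat_lit 1597069775) (nat_lit 0) (nat_lit 5719757482) (nat_lit 23) (nat_lit 5) (nat_lit 25) (nat_lit 4) (nat_lit 23) (nat_lit 4) (nat_lit 358) (nat_lit 333) (nat_lit 329)))) (XT.nd (nat_lit 156) (nat_lit 228) (nat_lit 0) (XT.nd (nat_lit 78) (nat_lit 76) (nat_lit 0) (XT.lf (nat_lit 0) (nat_lit 3016324018) (nat_lit 152) (nat_lit 13700371289) (nat_lit 0) (nat_lit 259627055) (nat_lit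 20) (nat_lit 5) (nat_lit 22) (nat_lit 4) (nat_lit 20) (nat_lit 4) (nat_lit 359) (nat_lit 333) (nat_lit 328)) (XT.lf (nat_lit 0) (nat_lit 7615734318) (nat_lit 76) (nat_lit 7029052776) (nat_lit 76) (nat_lit 3916824480) (nat_lit 19) (nat_lit 4) (nat_lit 20) (nat_lit 5) (nat_lit 20) (nat_lit 4) (nat_lit 360) (nat_lit 333) (nat_lit 327))) (XT.nd (nat_lit 78) (nat_lit 76) (nat_lit 0) (XT.lf (nat_lit 0) (nat_lit 7238669722) (nat_lit 152) (nat_lit 9061680584) (nat_lit 0) (nat_lit 4070719743) (nat_lit 17) (nat_lit 5) (nat_lit 19) (nat_lit 4) (nat_lit 17) (nat_lit 4) (nat_lit 361) (nat_lit 333) (nat_lit 326)) (XT.lf (nat_lit 0) (nat_lit 14059557205) (nat_lit 76) (nat_lit 5895801217) (nat_lit 76) (nat_lit 2478932010) (nat_lit 16) (nat_lit 4) (nat_lit 17) (nat_lit 5) (nat_lit 17) (nat_lit 4) (nat_lit 362) (nat_lit 333) (nat_lit 325))))) (XT.nd (nat_lit 312) (nat_lit 380) (nat_lit 0) (XT.nd (nat_lit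 156) (nat_lit 228) (nat_lit 0) (XT.nd (nat_lit 78) (nat_lit 76) (nat_lit 0) (XT.lf (nat_lit 0) (nat_lit 9381921229) (nat_lit 152) (nat_lit 9380729131) (nat_lit 0) (nat_lit 6017735387) (nat_lit 14) (nat_lit 5) (nat_lit 16) (nat_lit 4) (nat_lit 14) (nat_lit 4) (nat_lit 363) (nat_lit 333) (nat_lit 324)) (XT.lf (nat_lit 0) (nat_lit 14997579138) (nat_lit 76) (nat_lit 8002104176) (nat_lit 76) (nat_lit 4463641762) (nat_lit 13) (nat_lit 4) (nat_lit 14) (nat_lit 5) (nat_lit 14) (nat_lit 4) (nat_lit 364) (nat_lit 333) (nat_lit 323))) (XT.nd (nat_lit 78) (nat_lit 76) (nat_lit 0) (XT.lf (nat_lit 0) (nat_lit 7778608593) (nat_lit 152) (nat_lit 18386754342) (nat_lit 0) (nat_lit 4361935205) (nat_lit 11) (nat_lit 5) (nat_lit 13) (nat_lit 4) (nat_lit 11) (nat_lit 4) (nat_lit 365) (nat_lit 333) (nat_lit 322)) (XT.lf (nat_lit 0) (nat_lit 5962149959) (nat_lit 76) (nat_lit 15802223158) (nat_lit 76) (nat_lit 12263532987)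 (nat_lit 10) (nat_lit 4) (nat_lit 11) (nat_lit 5) (nat_lit 11) (nat_lit 4) (nat_lit 366) (nat_lit 333) (nat_lit 321)))) (XT.nd (nat_lit 156) (nat_lit 228) (nat_lit 0) (XT.nd (nat_lit 78) (nat_lit 152) (nat_lit 0) (XT.lf (nat_lit 0) (nat_lit 34021674879) (nat_lit 76) (nat_lit 3837911582) (nat_lit 76) (nat_lit 193119860) (nat_lit 10) (nat_lit 4) (nat_lit 11) (nat_lit 5) (nat_lit 11) (nat_lit 4) (nat_lit 367) (nat_lit 333) (nat_lit 320)) (XT.lf (nat_lit 0) (nat_lit 13351793889) (nat_lit 152) (nat_lit 19383667991) (nat_lit 0) (nat_lit 9891558759) (nat_lit 8) (nat_lit 5) (nat_lit 10) (nat_lit 4) (nat_lit 8) (nat_lit 4) (nat_lit 368) (nat_lit 333) (nat_lit 319))) (XT.nd (nat_lit 78) (nat_lit 152) (nat_lit 0) (XT.lf (nat_lit 0) (nat_lit 6288840580) (nat_lit 76) (nat_lit 22568766137) (nat_lit 76) (nat_lit 19034245807) (nat_lit 7) (nat_lit 4) (nat_lit 8) (nat_lit 5) (nat_lit 8) (nat_lit 4) (nat_lit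 369) (nat_lit 333) (nat_lit 318)) (XT.nd (nat_lit 78) (nat_lit 152) (nat_lit 0) (XT.lf (nat_lit 0) (nat_lit 36174923430) (nat_lit 76) (nat_lit 10678734751) (nat_lit 76) (nat_lit 7079618595) (nat_lit 7) (nat_lit 4) (nat_lit 8) (nat_lit 5) (nat_lit 8) (nat_lit 4) (nat_lit 370) (nat_lit 333) (nat_lit 317)) (XT.lf (nat_lit 0) (nat_lit 6273156972) (nat_lit 152) (nat_lit 51711227208) (nat_lit 0) (nat_lit 2888632490) (nat_lit 5) (nat_lit 5) (nat_lit 7) (nat_lit 4) (nat_lit 5) (nat_lit 4) (nat_lit 371) (nat_lit 333) (nat_lit 316))))))) (XT.nd (nat_lit 624) (nat_lit 76) (nat_lit 0) (XT.nd (nat_lit 312) (nat_lit 152) (nat_lit 0) (XT.nd (nat_lit 156) (nat_lit 76) (nat_lit 0) (XT.nd (nat_lit 78) (nat_lit 0) (nat_lit 0) (XT.lf (nat_lit 0) (nat_lit 21713029867) (nat_lit 152) (nat_lit 28802439044) (nat_lit 0) (nat_lit 18283279715) (nat_lit 5) (nat_lit 5) (nat_lit 7) (nat_lit 4) (nat_lit 5) (nat_lit 4)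 (nat_lit 372) (nat_lit 333) (nat_lit 315)) (XT.lf (nat_lit 0) (nat_lit 39178155996) (nat_lit 152) (nat_lit 3049373722) (nat_lit 0) (nat_lit 35709079173) (nat_lit 5) (nat_lit 5) (nat_lit 7) (nat_lit 4) (nat_lit 5) (nat_lit 4) (nat_lit 373) (nat_lit 333) (nat_lit 314))) (XT.nd (nat_lit 78) (nat_lit 0) (nat_lit 0) (XT.lf (nat_lit 0) (nat_lit 27423676442) (nat_lit 76) (nat_lit 32246107985) (nat_lit 76) (nat_lit 28742834057) (nat_lit 4) (nat_lit 4) (nat_lit 5) (nat_lit 5) (nat_lit 5) (nat_lit 4) (nat_lit 374) (nat_lit 333) (nat_lit 313)) (XT.lf (nat_lit 0) (nat_lit 62181103427) (nat_lit 76) (nat_lit 20911667650) (nat_lit 76) (nat_lit 17378657110) (nat_lit 4) (nat_lit 4) (nat_lit 5) (nat_lit 5) (nat_lit 5) (nat_lit 4) (nat_lit 375) (nat_lit 333) (nat_lit 312)))) (XT.nd (nat_lit 156) (nat_lit 0) (nat_lit 0) (XT.nd (nat_lit 78) (nat_lit 152) (nat_lit 0) (XT.lf (nat_lit 0) (nat_lit 101742369233)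 (nat_lit 76) (nat_lit 8085823207) (nat_lit 76) (nat_lit 4526954742) (nat_lit 4) (nat_lit 4) (nat_lit 5) (nat_lit 5) (nat_lit 5) (nat_lit 4) (nat_lit 376) (nat_lit 333) (nat_lit 311)) (XT.lf (nat_lit 0) (nat_lit 10145960892) (nat_lit 152) (nat_lit 113293343652) (nat_lit 0) (nat_lit 6829892729) (nat_lit 2) (nat_lit 5) (nat_lit 4) (nat_lit 4) (nat_lit 2) (nat_lit 4) (nat_lit 377) (nat_lit 333) (nat_lit 310))) (XT.nd (nat_lit 78) (nat_lit 0) (nat_lit 0) (XT.lf (nat_lit 0) (nat_lit 27191659871) (nat_lit 152) (nat_lit 97476613989) (nat_lit 0) (nat_lit 23857487721) (nat_lit 2) (nat_lit 5) (nat_lit 4) (nat_lit 4) (nat_lit 2) (nat_lit 4) (nat_lit 378) (nat_lit 333) (nat_lit 309)) (XT.lf (nat_lit 0) (nat_lit 46648032747) (nat_lit 152) (nat_lit 79586358388) (nat_lit 0) (nat_lit 43298118000) (nat_lit 2) (nat_lit 5) (nat_lit 4) (nat_lit 4) (nat_lit 2) (nat_lit 4) (nat_lit 379) (nat_lit 333) (nat_lit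 308))))) (XT.nd (nat_lit 312) (nat_lit 0) (nat_lit 0) (XT.nd (nat_lit 156) (nat_lit 76) (nat_lit 0) (XT.nd (nat_lit 78) (nat_lit 0) (nat_lit 0) (XT.lf (nat_lit 0) (nat_lit 68895747684) (nat_lit 152) (nat_lit 59272550110) (nat_lit 0) (nat_lit 65532143723) (nat_lit 2) (nat_lit 5) (nat_lit 4) (nat_lit 4) (nat_lit 2) (nat_lit 4) (nat_lit 380) (nat_lit 333) (nat_lit 307)) (XT.lf (nat_lit 0) (nat_lit 94370086063) (nat_lit 152) (nat_lit 36137745081) (nat_lit 0) (nat_lit 90994578436) (nat_lit 2) (nat_lit 5) (nat_lit 4) (nat_lit 4) (nat_lit 2) (nat_lit 4) (nat_lit 381) (nat_lit 333) (nat_lit 306))) (XT.nd (nat_lit 78) (nat_lit 76) (nat_lit 0) (XT.lf (nat_lit 0) (nat_lit 123569458850) (nat_lit 152) (nat_lit 9729305809) (nat_lit 0) (nat_lit 120183600210) (nat_lit 2) (nat_lit 5) (nat_lit 4) (nat_lit 4) (nat_lit 2) (nat_lit 4) (nat_lit 382) (nat_lit 333) (nat_lit 305)) (XT.lf (nat_lit 0) (nat_lit 21547339761)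 (nat_lit 76) (nat_lit 136036032401) (nat_lit 76) (nat_lit 132641172880) (nat_lit 1) (nat_lit 4) (nat_lit 2) (nat_lit 5) (nat_lit 2) (nat_lit 4) (nat_lit 383) (nat_lit 333) (nat_lit 304)))) (XT.nd (nat_lit 156) (nat_lit 0) (nat_lit 0) (XT.nd (nat_lit 78) (nat_lit 0) (nat_lit 0) (XT.lf (nat_lit 0) (nat_lit 57948184201) (nat_lit 76) (nat_lit 138958005540) (nat_lit 76) (nat_lit 135555319166) (nat_lit 1) (nat_lit 4) (nat_lit 2) (nat_lit 5) (nat_lit 2) (nat_lit 4) (nat_lit 384) (nat_lit 333) (nat_lit 303)) (XT.lf (nat_lit 0) (nat_lit 99673089944) (nat_lit 76) (nat_lit 142387869581) (nat_lit 76) (nat_lit 138978377247) (nat_lit 1) (nat_lit 4) (nat_lit 2) (nat_lit 5) (nat_lit 2) (nat_lit 4) (nat_lit 385) (nat_lit 333) (nat_lit 302))) (XT.nd (nat_lit 78) (nat_lit 0) (nat_lit 0) (XT.lf (nat_lit 0) (nat_lit 147538413841) (nat_lit 76) (nat_lit 146392730557) (nat_lit 76) (nat_lit 142977319998) (nat_lit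 1) (nat_lit 4) (nat_lit 2) (nat_lit 5) (nat_lit 2) (nat_lit 4) (nat_lit 386) (nat_lit 333) (nat_lit 301)) (XT.nd (nat_lit 78) (nat_lit 0) (nat_lit 0) (XT.lf (nat_lit 0) (nat_lit 202480651360) (nat_lit 76) (nat_lit 151050944445) (nat_lit 76) (nat_lit 147630387603) (nat_lit 1) (nat_lit 4) (nat_lit 2) (nat_lit 5) (nat_lit 2) (nat_lit 4) (nat_lit 387) (nat_lit 333) (nat_lit 300)) (XT.lf (nat_lit 0) (nat_lit 265574759320) (nat_lit 76) (nat_lit 156453650212) (nat_lit 76) (nat_lit 153028618342) (nat_lit 1) (nat_lit 4) (nat_lit 2) (nat_lit 5) (nat_lit 2) (nat_lit 4) (nat_lit 388) (nat_lit 333) (nat_lit 299))))))))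
noncomputable def xc32 : XT := (XT.nd (nat_lit 1248) (nat_lit 0) (nat_lit 0) (XT.nd (nat_lit 624) (nat_lit 0) (nat_lit 0) (XT.nd (nat_lit 312) (nat_lit 0) (nat_lit 0) (XT.nd (nat_lit 156) (nat_lit 0) (nat_lit 0) (XT.nd (nat_lit 78) (nat_lit 0) (nat_lit 0) (XT.lf (nat_lit 0) (nat_lit 338055187662) (nat_lit 76) (nat_lit 162706552971) (nat_lit 76) (nat_lit 159277629772) (nat_lit 1) (nat_lit 4) (nat_lit 2) (nat_lit 5) (nat_lit 2) (nat_lit 4) (nat_lit 389) (nat_lit 333) (nat_lit 298)) (XT.lf (nat_lit 0) (nat_lit 421340031721) (nat_lit 76) (nat_lit 169931992125) (nat_lit 76) (nat_lit 166499685161) (nat_lit 1) (nat_lit 4) (nat_lit 2) (nat_lit 5) (nat_lit 2) (nat_lit 4) (nat_lit 390) (nat_lit 333) (nat_lit 297))) (XT.nd (nat_lit 78) (nat_lit 0) (nat_lit 0) (XT.lf (nat_lit 0) (nat_lit 517058777578) (nat_lit 76) (nat_lit 178271334959) (nat_lit 76) (nat_lit 174836085591) (nat_lit 1) (nat_lit 4) (nat_lit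 2) (nat_lit 5) (nat_lit 2) (nat_lit 4) (nat_lit 391) (nat_lit 333) (nat_lit 296)) (XT.lf (nat_lit 0) (nat_lit 627084183303) (nat_lit 76) (nat_lit 187887742531) (nat_lit 76) (nat_lit 184449934551) (nat_lit 1) (nat_lit 4) (nat_lit 2) (nat_lit 5) (nat_lit 2) (nat_lit 4) (nat_lit 392) (nat_lit 333) (nat_lit 295)))) (XT.nd (nat_lit 156) (nat_lit 0) (nat_lit 0) (XT.nd (nat_lit 78) (nat_lit 0) (nat_lit 0) (XT.lf (nat_lit 0) (nat_lit 753568919878) (nat_lit 76) (nat_lit 198969361944) (nat_lit 76) (nat_lit 195529329084) (nat_lit 1) (nat_lit 4) (nat_lit 2) (nat_lit 5) (nat_lit 2) (nat_lit 4) (nat_lit 393) (nat_lit 333) (nat_lit 294)) (XT.lf (nat_lit 0) (nat_lit 898987688671) (nat_lit 76) (nat_lit 211733007492) (nat_lit 76) (nat_lit 208291039954) (nat_lit 1) (nat_lit 4) (nat_lit 2) (nat_lit 5) (nat_lit 2) (nat_lit 4) (nat_lit 394) (nat_lit 333) (nat_lit 293))) (XT.nd (nat_lit 78) (nat_lit 0) (nat_lit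 0) (XT.lf (nat_lit 0) (nat_lit 1066185639505) (nat_lit 76) (nat_lit 226428402675) (nat_lit 76) (nat_lit 222984752807) (nat_lit 1) (nat_lit 4) (nat_lit 2) (nat_lit 5) (nat_lit 2) (nat_lit 4) (nat_lit 395) (nat_lit 333) (nat_lit 292)) (XT.lf (nat_lit 0) (nat_lit 1258434036638) (nat_lit 76) (nat_lit 243343066093) (nat_lit 76) (nat_lit 239897953330) (nat_lit 1) (nat_lit 4) (nat_lit 2) (nat_lit 5) (nat_lit 2) (nat_lit 4) (nat_lit 396) (nat_lit 333) (nat_lit 291))))) (XT.nd (nat_lit 312) (nat_lit 0) (nat_lit 0) (XT.nd (nat_lit 156) (nat_lit 0) (nat_lit 0) (XT.nd (nat_lit 78) (nat_lit 0) (nat_lit 0) (XT.lf (nat_lit 0) (nat_lit 1479494261750) (nat_lit 76) (nat_lit 262807936814) (nat_lit 76) (nat_lit 259361551969) (nat_lit 1) (nat_lit 4) (nat_lit 2) (nat_lit 5) (nat_lit 2) (nat_lit 4) (nat_lit 397) (nat_lit 333) (nat_lit 290)) (XT.lf (nat_lit 0) (nat_lit 1733691406204) (nat_lit 76) (nat_lit 285203849264)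 (nat_lit 76) (nat_lit 281756358261) (nat_lit 1) (nat_lit 4) (nat_lit 2) (nat_lit 5) (nat_lit 2) (nat_lit 4) (nat_lit 398) (nat_lit 333) (nat_lit 289))) (XT.nd (nat_lit 78) (nat_lit 0) (nat_lit 0) (XT.lf (nat_lit 0) (nat_lit 2025998892391) (nat_lit 76) (nat_lit 310968984341) (nat_lit 76) (nat_lit 307520531460) (nat_lit 1) (nat_lit 4) (nat_lit 2) (nat_lit 5) (nat_lit 2) (nat_lit 4) (nat_lit 399) (nat_lit 333) (nat_lit 288)) (XT.lf (nat_lit 0) (nat_lit 2362135779824) (nat_lit 76) (nat_lit 340607442512) (nat_lit 76) (nat_lit 337158153216) (nat_lit 1) (nat_lit 4) (nat_lit 2) (nat_lit 5) (nat_lit 2) (nat_lit 4) (nat_lit 400) (nat_lit 333) (nat_lit 287)))) (XT.nd (nat_lit 156) (nat_lit 0) (nat_lit 0) (XT.nd (nat_lit 78) (nat_lit 0) (nat_lit 0) (XT.lf (nat_lit 0) (nat_lit 2748678659777) (nat_lit 76) (nat_lit 374699106654) (nat_lit 76) (nat_lit 371249090042) (nat_lit 1) (nat_lit 4) (nat_lit 2) (nat_lit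 5) (nat_lit 2) (nat_lit 4) (nat_lit 401) (nat_lit 333) (nat_lit 286)) (XT.lf (nat_lit 0) (nat_lit 3193190327728) (nat_lit 76) (nat_lit 413910987589) (nat_lit 76) (nat_lit 410460338527) (nat_lit 1) (nat_lit 4) (nat_lit 2) (nat_lit 5) (nat_lit 2) (nat_lit 4) (nat_lit 402) (nat_lit 333) (nat_lit 285))) (XT.nd (nat_lit 78) (nat_lit 0) (nat_lit 0) (XT.lf (nat_lit 0) (nat_lit 3704367751095) (nat_lit 76) (nat_lit 459010274290) (nat_lit 76) (nat_lit 455559075272) (nat_lit 1) (nat_lit 4) (nat_lit 2) (nat_lit 5) (nat_lit 2) (nat_lit 4) (nat_lit 403) (nat_lit 333) (nat_lit 284)) (XT.lf (nat_lit 0) (nat_lit 4292212227290) (nat_lit 76) (nat_lit 510879344107) (nat_lit 76) (nat_lit 507427666865) (nat_lit 1) (nat_lit 4) (nat_lit 2) (nat_lit 5) (nat_lit 2) (nat_lit 4) (nat_lit 404) (nat_lit 333) (nat_lit 283)))))) (XT.nd (nat_lit 624) (nat_lit 0) (nat_lit 0) (XT.nd (nat_lit 312) (nat_lit 0) (nat_lit 0) (XT.nd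 (nat_lit 156) (nat_lit 0) (nat_lit 0) (XT.nd (nat_lit 78) (nat_lit 0) (nat_lit 0) (XT.lf (nat_lit 0) (nat_lit 4968225061282) (nat_lit 76) (nat_lit 570533026666) (nat_lit 76) (nat_lit 567080933578) (nat_lit 1) (nat_lit 4) (nat_lit 2) (nat_lit 5) (nat_lit 2) (nat_lit 4) (nat_lit 405) (nat_lit 333) (nat_lit 282)) (XT.lf (nat_lit 0) (nat_lit 5745632591129) (nat_lit 76) (nat_lit 639138459234) (nat_lit 76) (nat_lit 635686004541) (nat_lit 1) (nat_lit 4) (nat_lit 2) (nat_lit 5) (nat_lit 2) (nat_lit 4) (nat_lit 406) (nat_lit 333) (nat_lit 281))) (XT.nd (nat_lit 78) (nat_lit 0) (nat_lit 0) (XT.lf (nat_lit 0) (nat_lit 6639644964153) (nat_lit 76) (nat_lit 718037922014) (nat_lit 76) (nat_lit 714585152882) (nat_lit 1) (nat_lit 4) (nat_lit 2) (nat_lit 5) (nat_lit 2) (nat_lit 4) (nat_lit 407) (nat_lit 333) (nat_lit 280)) (XT.lf (nat_lit 0) (nat_lit 7667753726782) (nat_lit 76) (nat_lit 808775100148) (nat_lit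 76) (nat_lit 805322057590) (nat_lit 1) (nat_lit 4) (nat_lit 2) (nat_lit 5) (nat_lit 2) (nat_lit 4) (nat_lit 408) (nat_lit 333) (nat_lit 279)))) (XT.nd (nat_lit 156) (nat_lit 0) (nat_lit 0) (XT.nd (nat_lit 78) (nat_lit 0) (nat_lit 0) (XT.lf (nat_lit 0) (nat_lit 8850074050460) (nat_lit 76) (nat_lit 913125286250) (nat_lit 76) (nat_lit 909672005931) (nat_lit 1) (nat_lit 4) (nat_lit 2) (nat_lit 5) (nat_lit 2) (nat_lit 4) (nat_lit 409) (nat_lit 333) (nat_lit 278)) (XT.lf (nat_lit 0) (nat_lit 10209738289345) (nat_lit 76) (nat_lit 1033130114398) (nat_lit 76) (nat_lit 1029676627330) (nat_lit 1) (nat_lit 4) (nat_lit 2) (nat_lit 5) (nat_lit 2) (nat_lit 4) (nat_lit 410) (nat_lit 333) (nat_lit 277))) (XT.nd (nat_lit 78) (nat_lit 0) (nat_lit 0) (XT.lf (nat_lit 0) (nat_lit 11773348569851) (nat_lit 76) (nat_lit 1171137505141) (nat_lit 76) (nat_lit 1167683838291) (nat_lit 1) (nat_lit 4) (nat_lit 2) (nat_lit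 5) (nat_lit 2) (nat_lit 4) (nat_lit 411) (nat_lit 333) (nat_lit 276)) (XT.lf (nat_lit 0) (nat_lit 13571497267030) (nat_lit 76) (nat_lit 1329847603081) (nat_lit 76) (nat_lit 1326393779900) (nat_lit 1) (nat_lit 4) (nat_lit 2) (nat_lit 5) (nat_lit 2) (nat_lit 4) (nat_lit 412) (nat_lit 333) (nat_lit 275))))) (XT.nd (nat_lit 312) (nat_lit 0) (nat_lit 0) (XT.nd (nat_lit 156) (nat_lit 0) (nat_lit 0) (XT.nd (nat_lit 78) (nat_lit 0) (nat_lit 0) (XT.lf (nat_lit 0) (nat_lit 15639365551045) (nat_lit 76) (nat_lit 1512365605787) (nat_lit 76) (nat_lit 1508911646665) (nat_lit 1) (nat_lit 4) (nat_lit 2) (nat_lit 5) (nat_lit 2) (nat_lit 4) (nat_lit 413) (nat_lit 333) (nat_lit 274)) (XT.lf (nat_lit 0) (nat_lit 18017411714410) (nat_lit 76) (nat_lit 1722262517659) (nat_lit 76) (nat_lit 1718808440327) (nat_lit 1) (nat_lit 4) (nat_lit 2) (nat_lit 5) (nat_lit 2) (nat_lit 4) (nat_lit 414) (nat_lit 333) (nat_lit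 273))) (XT.nd (nat_lit 78) (nat_lit 0) (nat_lit 0) (XT.lf (nat_lit 0) (nat_lit 20752162747277) (nat_lit 76) (nat_lit 1963645017408) (nat_lit 76) (nat_lit 1960190837286) (nat_lit 1) (nat_lit 4) (nat_lit 2) (nat_lit 5) (nat_lit 2) (nat_lit 4) (nat_lit 415) (nat_lit 333) (nat_lit 272)) (XT.lf (nat_lit 0) (nat_lit 23897124648115) (nat_lit 76) (nat_lit 2241235806116) (nat_lit 76) (nat_lit 2237781536610) (nat_lit 1) (nat_lit 4) (nat_lit 2) (nat_lit 5) (nat_lit 2) (nat_lit 4) (nat_lit 416) (nat_lit 333) (nat_lit 271)))) (XT.nd (nat_lit 48048) (nat_lit 0) (nat_lit 2280) (XT.nd (nat_lit 78) (nat_lit 0) (nat_lit 0) (XT.lf (nat_lit 0) (nat_lit 27513829280201) (nat_lit 76) (nat_lit 2560466007909) (nat_lit 76) (nat_lit 2557011660679) (nat_lit 1) (nat_lit 4) (nat_lit 2) (nat_lit 5) (nat_lit 2) (nat_lit 4) (nat_lit 417) (nat_lit 333) (nat_lit 270)) (XT.lf (nat_lit 0) (nat_lit 31673038255903) (nat_lit 76)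 (nat_lit 2927581431085) (nat_lit 76) (nat_lit 2924127016268) (nat_lit 1) (nat_lit 4) (nat_lit 2) (nat_lit 5) (nat_lit 2) (nat_lit 4) (nat_lit 418) (nat_lit 333) (nat_lit 269))) (XT.nd (nat_lit 78) (nat_lit 608) (nat_lit 0) (XT.lf (nat_lit 0) (nat_lit 4746913245) (nat_lit 152) (nat_lit 136807126) (nat_lit 152) (nat_lit 136807126) (nat_lit 39) (nat_lit 4) (nat_lit 41) (nat_lit 5) (nat_lit 41) (nat_lit 4) (nat_lit 352) (nat_lit 334) (nat_lit 334)) (XT.nd (nat_lit 78) (nat_lit 304) (nat_lit 0) (XT.lf (nat_lit 0) (nat_lit 5381979782) (nat_lit 152) (nat_lit 3271772881) (nat_lit 152) (nat_lit 2063448049) (nat_lit 35) (nat_lit 4) (nat_lit 37) (nat_lit 5) (nat_lit 37) (nat_lit 4) (nat_lit 353) (nat_lit 334) (nat_lit 333)) (XT.lf (nat_lit 0) (nat_lit 125337897) (nat_lit 152) (nat_lit 6730611107) (nat_lit 152) (nat_lit 4638905480) (nat_lit 31) (nat_lit 4) (nat_lit 33) (nat_lit 5) (nat_lit 33) (nat_lit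 4) (nat_lit 354) (nat_lit 334) (nat_lit 332))))))))
noncomputable def xc33 : XT := (XT.nd (nat_lit 1248) (nat_lit 456) (nat_lit 0) (XT.nd (nat_lit 624) (nat_lit 684) (nat_lit 0) (XT.nd (nat_lit 312) (nat_lit 532) (nat_lit 0) (XT.nd (nat_lit 156) (nat_lit 304) (nat_lit 0) (XT.nd (nat_lit 78) (nat_lit 152) (nat_lit 0) (XT.lf (nat_lit 0) (nat_lit 4387415710) (nat_lit 152) (nat_lit 6320536520) (nat_lit 0) (nat_lit 1667328906) (nat_lit 29) (nat_lit 5) (nat_lit 31) (nat_lit 4) (nat_lit 29) (nat_lit 4) (nat_lit 355) (nat_lit 334) (nat_lit 331)) (XT.lf (nat_lit 0) (nat_lit 1030454799) (nat_lit 152) (nat_lit 1257890677) (nat_lit 76) (nat_lit 11090099364) (nat_lit 27) (nat_lit 5) (nat_lit 29) (nat_lit 5) (nat_lit 28) (nat_lit 4) (nat_lit 356) (nat_lit 334) (nat_lit 330))) (XT.nd (nat_lit 78) (nat_lit 152) (nat_lit 0) (XT.lf (nat_lit 0) (nat_lit 3906670402) (nat_lit 76) (nat_lit 7148284507) (nat_lit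 76) (nat_lit 3450561469) (nat_lit 25) (nat_lit 4) (nat_lit 26) (nat_lit 5) (nat_lit 26) (nat_lit 4) (nat_lit 357) (nat_lit 334) (nat_lit 329)) (XT.lf (nat_lit 0) (nat_lit 6474252494) (nat_lit 152) (nat_lit 6703038617) (nat_lit 0) (nat_lit 2608864950) (nat_lit 23) (nat_lit 5) (nat_lit 25) (nat_lit 4) (nat_lit 23) (nat_lit 4) (nat_lit 358) (nat_lit 334) (nat_lit 328)))) (XT.nd (nat_lit 156) (nat_lit 304) (nat_lit 0) (XT.nd (nat_lit 78) (nat_lit 76) (nat_lit 0) (XT.lf (nat_lit 0) (nat_lit 532543351) (nat_lit 152) (nat_lit 3141671211) (nat_lit 76) (nat_lit 13566978653) (nat_lit 21) (nat_lit 5) (nat_lit 23) (nat_lit 5) (nat_lit 22) (nat_lit 4) (nat_lit 359) (nat_lit 334) (nat_lit 327)) (XT.lf (nat_lit 0) (nat_lit 11462576341) (nat_lit 152) (nat_lit 200993373) (nat_lit 0) (nat_lit 7218824786) (nat_lit 20) (nat_lit 5) (nat_lit 22) (nat_lit 4) (nat_lit 20) (nat_lit 4) (nat_lit 360) (nat_lit 334)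 (nat_lit 326))) (XT.nd (nat_lit 78) (nat_lit 76) (nat_lit 0) (XT.lf (nat_lit 0) (nat_lit 2266563081) (nat_lit 76) (nat_lit 992642400) (nat_lit 152) (nat_lit 17491553945) (nat_lit 17) (nat_lit 5) (nat_lit 18) (nat_lit 5) (nat_lit 19) (nat_lit 4) (nat_lit 361) (nat_lit 334) (nat_lit 325)) (XT.lf (nat_lit 0) (nat_lit 3539262452) (nat_lit 76) (nat_lit 11857906049) (nat_lit 76) (nat_lit 7463135731) (nat_lit 16) (nat_lit 4) (nat_lit 17) (nat_lit 5) (nat_lit 17) (nat_lit 4) (nat_lit 362) (nat_lit 334) (nat_lit 324))))) (XT.nd (nat_lit 312) (nat_lit 304) (nat_lit 0) (XT.nd (nat_lit 156) (nat_lit 152) (nat_lit 0) (XT.nd (nat_lit 78) (nat_lit 76) (nat_lit 0) (XT.lf (nat_lit 0) (nat_lit 3578270873) (nat_lit 76) (nat_lit 345411765) (nat_lit 152) (nat_lit 21350196952) (nat_lit 14) (nat_lit 5) (nat_lit 15) (nat_lit 5) (nat_lit 16) (nat_lit 4) (nat_lit 363) (nat_lit 334) (nat_lit 323)) (XT.lf (nat_lit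 0) (nat_lit 1488145727) (nat_lit 76) (nat_lit 15455773446) (nat_lit 76) (nat_lit 11060720253) (nat_lit 13) (nat_lit 4) (nat_lit 14) (nat_lit 5) (nat_lit 14) (nat_lit 4) (nat_lit 364) (nat_lit 334) (nat_lit 322))) (XT.nd (nat_lit 78) (nat_lit 76) (nat_lit 0) (XT.lf (nat_lit 0) (nat_lit 858535672) (nat_lit 152) (nat_lit 2741077121) (nat_lit 76) (nat_lit 27533947916) (nat_lit 12) (nat_lit 5) (nat_lit 14) (nat_lit 5) (nat_lit 13) (nat_lit 4) (nat_lit 365) (nat_lit 334) (nat_lit 321)) (XT.lf (nat_lit 0) (nat_lit 14311352168) (nat_lit 152) (nat_lit 10351725136) (nat_lit 0) (nat_lit 10013740136) (nat_lit 11) (nat_lit 5) (nat_lit 13) (nat_lit 4) (nat_lit 11) (nat_lit 4) (nat_lit 366) (nat_lit 334) (nat_lit 320)))) (XT.nd (nat_lit 156) (nat_lit 76) (nat_lit 0) (XT.nd (nat_lit 78) (nat_lit 152) (nat_lit 0) (XT.lf (nat_lit 0) (nat_lit 16735937532) (nat_lit 76) (nat_lit 13196738391) (nat_lit 76) (nat_lit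 8806864141) (nat_lit 10) (nat_lit 4) (nat_lit 11) (nat_lit 5) (nat_lit 11) (nat_lit 4) (nat_lit 367) (nat_lit 334) (nat_lit 319)) (XT.lf (nat_lit 0) (nat_lit 4273541807) (nat_lit 152) (nat_lit 38993968433) (nat_lit 0) (nat_lit 134558227) (nat_lit 8) (nat_lit 5) (nat_lit 10) (nat_lit 4) (nat_lit 8) (nat_lit 4) (nat_lit 368) (nat_lit 334) (nat_lit 318))) (XT.nd (nat_lit 78) (nat_lit 76) (nat_lit 0) (XT.lf (nat_lit 0) (nat_lit 19451149488) (nat_lit 152) (nat_lit 13994445064) (nat_lit 0) (nat_lit 15247570082) (nat_lit 8) (nat_lit 5) (nat_lit 10) (nat_lit 4) (nat_lit 8) (nat_lit 4) (nat_lit 369) (nat_lit 334) (nat_lit 317)) (XT.lf (nat_lit 0) (nat_lit 14826659272) (nat_lit 76) (nat_lit 22104485327) (nat_lit 76) (nat_lit 17844735638) (nat_lit 7) (nat_lit 4) (nat_lit 8) (nat_lit 5) (nat_lit 8) (nat_lit 4) (nat_lit 370) (nat_lit 334) (nat_lit 316)))))) (XT.nd (nat_lit 624) (nat_lit 76) (nat_lit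 0) (XT.nd (nat_lit 312) (nat_lit 152) (nat_lit 0) (XT.nd (nat_lit 156) (nat_lit 76) (nat_lit 0) (XT.nd (nat_lit 78) (nat_lit 152) (nat_lit 0) (XT.lf (nat_lit 0) (nat_lit 48205068557) (nat_lit 76) (nat_lit 8933070415) (nat_lit 76) (nat_lit 4624477001) (nat_lit 7) (nat_lit 4) (nat_lit 8) (nat_lit 5) (nat_lit 8) (nat_lit 4) (nat_lit 371) (nat_lit 334) (nat_lit 315)) (XT.lf (nat_lit 0) (nat_lit 10344524129) (nat_lit 152) (nat_lit 53093143528) (nat_lit 0) (nat_lit 6315759112) (nat_lit 5) (nat_lit 5) (nat_lit 7) (nat_lit 4) (nat_lit 5) (nat_lit 4) (nat_lit 372) (nat_lit 334) (nat_lit 314))) (XT.nd (nat_lit 78) (nat_lit 76) (nat_lit 0) (XT.lf (nat_lit 0) (nat_lit 27692065748) (nat_lit 152) (nat_lit 27579528586) (nat_lit 0) (nat_lit 23629103627) (nat_lit 5) (nat_lit 5) (nat_lit 7) (nat_lit 4) (nat_lit 5) (nat_lit 4) (nat_lit 373) (nat_lit 334) (nat_lit 313)) (XT.lf (nat_lit 0) (nat_lit 1382624994)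 (nat_lit 76) (nat_lit 46072533871) (nat_lit 76) (nat_lit 41979835136) (nat_lit 4) (nat_lit 4) (nat_lit 5) (nat_lit 5) (nat_lit 5) (nat_lit 4) (nat_lit 374) (nat_lit 334) (nat_lit 312)))) (XT.nd (nat_lit 156) (nat_lit 152) (nat_lit 0) (XT.nd (nat_lit 78) (nat_lit 0) (nat_lit 0) (XT.lf (nat_lit 0) (nat_lit 35949458851) (nat_lit 76) (nat_lit 34835192113) (nat_lit 76) (nat_lit 30716635455) (nat_lit 4) (nat_lit 4) (nat_lit 5) (nat_lit 5) (nat_lit 5) (nat_lit 4) (nat_lit 375) (nat_lit 334) (nat_lit 311)) (XT.lf (nat_lit 0) (nat_lit 75344991500) (nat_lit 76) (nat_lit 22093781216) (nat_lit 76) (nat_lit 17952739406) (nat_lit 4) (nat_lit 4) (nat_lit 5) (nat_lit 5) (nat_lit 5) (nat_lit 4) (nat_lit 376) (nat_lit 334) (nat_lit 310))) (XT.nd (nat_lit 78) (nat_lit 152) (nat_lit 0) (XT.lf (nat_lit 0) (nat_lit 120340005104) (nat_lit 76) (nat_lit 7599012704) (nat_lit 76) (nat_lit 3438418588) (nat_lit 4) (nat_lit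 4) (nat_lit 5) (nat_lit 5) (nat_lit 5) (nat_lit 4) (nat_lit 377) (nat_lit 334) (nat_lit 309)) (XT.lf (nat_lit 0) (nat_lit 13241849909) (nat_lit 152) (nat_lit 127068057613) (nat_lit 0) (nat_lit 9373705353) (nat_lit 2) (nat_lit 5) (nat_lit 4) (nat_lit 4) (nat_lit 2) (nat_lit 4) (nat_lit 378) (nat_lit 334) (nat_lit 308))))) (XT.nd (nat_lit 312) (nat_lit 76) (nat_lit 0) (XT.nd (nat_lit 156) (nat_lit 0) (nat_lit 0) (XT.nd (nat_lit 78) (nat_lit 0) (nat_lit 0) (XT.lf (nat_lit 0) (nat_lit 32639100055) (nat_lit 152) (nat_lit 109298725576) (nat_lit 0) (nat_lit 28757266284) (nat_lit 2) (nat_lit 5) (nat_lit 4) (nat_lit 4) (nat_lit 2) (nat_lit 4) (nat_lit 379) (nat_lit 334) (nat_lit 307)) (XT.lf (nat_lit 0) (nat_lit 54835403922) (nat_lit 152) (nat_lit 89090068224) (nat_lit 0) (nat_lit 50941666486) (nat_lit 2) (nat_lit 5) (nat_lit 4) (nat_lit 4) (nat_lit 2) (nat_lit 4) (nat_lit 380) (nat_lit 334) (nat_lit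 306))) (XT.nd (nat_lit 78) (nat_lit 0) (nat_lit 0) (XT.lf (nat_lit 0) (nat_lit 80265037023) (nat_lit 152) (nat_lit 66046698781) (nat_lit 0) (nat_lit 76360948573) (nat_lit 2) (nat_lit 5) (nat_lit 4) (nat_lit 4) (nat_lit 2) (nat_lit 4) (nat_lit 381) (nat_lit 334) (nat_lit 305)) (XT.lf (nat_lit 0) (nat_lit 109425535655) (nat_lit 152) (nat_lit 39717768716) (nat_lit 0) (nat_lit 105512446325) (nat_lit 2) (nat_lit 5) (nat_lit 4) (nat_lit 4) (nat_lit 2) (nat_lit 4) (nat_lit 382) (nat_lit 334) (nat_lit 304)))) (XT.nd (nat_lit 156) (nat_lit 0) (nat_lit 0) (XT.nd (nat_lit 78) (nat_lit 76) (nat_lit 0) (XT.lf (nat_lit 0) (nat_lit 142887431315) (nat_lit 152) (nat_lit 9588146787) (nat_lit 0) (nat_lit 138966515132) (nat_lit 2) (nat_lit 5) (nat_lit 4) (nat_lit 4) (nat_lit 2) (nat_lit 4) (nat_lit 383) (nat_lit 334) (nat_lit 303)) (XT.lf (nat_lit 0) (nat_lit 26244516618) (nat_lit 76) (nat_lit 155692077902)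 (nat_lit 76) (nat_lit 151764355760) (nat_lit 1) (nat_lit 4) (nat_lit 2) (nat_lit 5) (nat_lit 2) (nat_lit 4) (nat_lit 384) (nat_lit 334) (nat_lit 302))) (XT.nd (nat_lit 78) (nat_lit 0) (nat_lit 0) (XT.lf (nat_lit 0) (nat_lit 67914390869) (nat_lit 76) (nat_lit 159150089538) (nat_lit 76) (nat_lit 155216449170) (nat_lit 1) (nat_lit 4) (nat_lit 2) (nat_lit 5) (nat_lit 2) (nat_lit 4) (nat_lit 385) (nat_lit 334) (nat_lit 301)) (XT.nd (nat_lit 78) (nat_lit 0) (nat_lit 0) (XT.lf (nat_lit 0) (nat_lit 115731861295) (nat_lit 76) (nat_lit 163179426684) (nat_lit 76) (nat_lit 159240640033) (nat_lit 1) (nat_lit 4) (nat_lit 2) (nat_lit 5) (nat_lit 2) (nat_lit 4) (nat_lit 386) (nat_lit 334) (nat_lit 300)) (XT.lf (nat_lit 0) (nat_lit 170632487099) (nat_lit 76) (nat_lit 167858924198) (nat_lit 76) (nat_lit 163915662519) (nat_lit 1) (nat_lit 4) (nat_lit 2) (nat_lit 5) (nat_lit 2) (nat_lit 4) (nat_lit 387) (nat_lit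 334) (nat_lit 299))))))))
noncomputable def xc34 : XT := (XT.nd (nat_lit 1248) (nat_lit 0) (nat_lit 0) (XT.nd (nat_lit 624) (nat_lit 0) (nat_lit 0) (XT.nd (nat_lit 312) (nat_lit 0) (nat_lit 0) (XT.nd (nat_lit 156) (nat_lit 0) (nat_lit 0) (XT.nd (nat_lit 78) (nat_lit 0) (nat_lit 0) (XT.lf (nat_lit 0) (nat_lit 233690410961) (nat_lit 76) (nat_lit 173280137466) (nat_lit 76) (nat_lit 169332984458) (nat_lit 1) (nat_lit 4) (nat_lit 2) (nat_lit 5) (nat_lit 2) (nat_lit 4) (nat_lit 388) (nat_lit 334) (nat_lit 298)) (XT.lf (nat_lit 0) (nat_lit 306139374868) (nat_lit 76) (nat_lit 179549133705) (nat_lit 76) (nat_lit 175598596931) (nat_lit 1) (nat_lit 4) (nat_lit 2) (nat_lit 5) (nat_lit 2) (nat_lit 4) (nat_lit 389) (nat_lit 334) (nat_lit 297))) (XT.nd (nat_lit 78) (nat_lit 0) (nat_lit 0) (XT.lf (nat_lit 0) (nat_lit 389396858550) (nat_lit 76) (nat_lit 186788567187) (nat_lit 76) (nat_lit 182835088010) (nat_lit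 1) (nat_lit 4) (nat_lit 2) (nat_lit 5) (nat_lit 2) (nat_lit 4) (nat_lit 390) (nat_lit 334) (nat_lit 296)) (XT.lf (nat_lit 0) (nat_lit 485091812774) (nat_lit 76) (nat_lit 195140079004) (nat_lit 76) (nat_lit 191184041215) (nat_lit 1) (nat_lit 4) (nat_lit 2) (nat_lit 5) (nat_lit 2) (nat_lit 4) (nat_lit 391) (nat_lit 334) (nat_lit 295)))) (XT.nd (nat_lit 156) (nat_lit 0) (nat_lit 0) (XT.nd (nat_lit 78) (nat_lit 0) (nat_lit 0) (XT.lf (nat_lit 0) (nat_lit 595096530123) (nat_lit 76) (nat_lit 204767068299) (nat_lit 76) (nat_lit 200808805630) (nat_lit 1) (nat_lit 4) (nat_lit 2) (nat_lit 5) (nat_lit 2) (nat_lit 4) (nat_lit 392) (nat_lit 334) (nat_lit 294)) (XT.lf (nat_lit 0) (nat_lit 721563276805) (nat_lit 76) (nat_lit 215857889212) (nat_lit 76) (nat_lit 211897691864) (nat_lit 1) (nat_lit 4) (nat_lit 2) (nat_lit 5) (nat_lit 2) (nat_lit 4) (nat_lit 393) (nat_lit 334) (nat_lit 293))) (XT.nd (nat_lit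 78) (nat_lit 0) (nat_lit 0) (XT.lf (nat_lit 0) (nat_lit 866966402214) (nat_lit 76) (nat_lit 228629536063) (nat_lit 76) (nat_lit 224667656386) (nat_lit 1) (nat_lit 4) (nat_lit 2) (nat_lit 5) (nat_lit 2) (nat_lit 4) (nat_lit 394) (nat_lit 334) (nat_lit 292)) (XT.lf (nat_lit 0) (nat_lit 1034150750105) (nat_lit 76) (nat_lit 243331888901) (nat_lit 76) (nat_lit 239368546329) (nat_lit 1) (nat_lit 4) (nat_lit 2) (nat_lit 5) (nat_lit 2) (nat_lit 4) (nat_lit 395) (nat_lit 334) (nat_lit 291))))) (XT.nd (nat_lit 312) (nat_lit 0) (nat_lit 0) (XT.nd (nat_lit 156) (nat_lit 0) (nat_lit 0) (XT.nd (nat_lit 78) (nat_lit 0) (nat_lit 0) (XT.lf (nat_lit 0) (nat_lit 1226387318591) (nat_lit 76) (nat_lit 260252602454) (nat_lit 76) (nat_lit 256287987800) (nat_lit 1) (nat_lit 4) (nat_lit 2) (nat_lit 5) (nat_lit 2) (nat_lit 4) (nat_lit 396) (nat_lit 334) (nat_lit 290)) (XT.lf (nat_lit 0) (nat_lit 1447437257925) (nat_lit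 76) (nat_lit 279722734161) (nat_lit 76) (nat_lit 275757013349) (nat_lit 1) (nat_lit 4) (nat_lit 2) (nat_lit 5) (nat_lit 2) (nat_lit 4) (nat_lit 397) (nat_lit 334) (nat_lit 289))) (XT.nd (nat_lit 78) (nat_lit 0) (nat_lit 0) (XT.lf (nat_lit 0) (nat_lit 1701625458223) (nat_lit 76) (nat_lit 302123221383) (nat_lit 76) (nat_lit 298156538694) (nat_lit 1) (nat_lit 4) (nat_lit 2) (nat_lit 5) (nat_lit 2) (nat_lit 4) (nat_lit 398) (nat_lit 334) (nat_lit 288)) (XT.lf (nat_lit 0) (nat_lit 1993925166883) (nat_lit 76) (nat_lit 327892334522) (nat_lit 76) (nat_lit 323924815417) (nat_lit 1) (nat_lit 4) (nat_lit 2) (nat_lit 5) (nat_lit 2) (nat_lit 4) (nat_lit 399) (nat_lit 334) (nat_lit 287)))) (XT.nd (nat_lit 156) (nat_lit 0) (nat_lit 0) (XT.nd (nat_lit 78) (nat_lit 0) (nat_lit 0) (XT.lf (nat_lit 0) (nat_lit 2330055291248) (nat_lit 76) (nat_lit 357534251877) (nat_lit 76) (nat_lit 353566005455) (nat_lit 1)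 (nat_lit 4) (nat_lit 2) (nat_lit 5) (nat_lit 2) (nat_lit 4) (nat_lit 400) (nat_lit 334) (nat_lit 286)) (XT.lf (nat_lit 0) (nat_lit 2716592290274) (nat_lit 76) (nat_lit 391628924006) (nat_lit 76) (nat_lit 387660045134) (nat_lit 1) (nat_lit 4) (nat_lit 2) (nat_lit 5) (nat_lit 2) (nat_lit 4) (nat_lit 401) (nat_lit 334) (nat_lit 285))) (XT.nd (nat_lit 78) (nat_lit 0) (nat_lit 0) (XT.lf (nat_lit 0) (nat_lit 3161098844375) (nat_lit 76) (nat_lit 430843420581) (nat_lit 76) (nat_lit 426873991753) (nat_lit 1) (nat_lit 4) (nat_lit 2) (nat_lit 5) (nat_lit 2) (nat_lit 4) (nat_lit 402) (nat_lit 334) (nat_lit 284)) (XT.lf (nat_lit 0) (nat_lit 3672271820915) (nat_lit 76) (nat_lit 475944981752) (nat_lit 76) (nat_lit 471975074701) (nat_lit 1) (nat_lit 4) (nat_lit 2) (nat_lit 5) (nat_lit 2) (nat_lit 4) (nat_lit 403) (nat_lit 334) (nat_lit 283)))))) (XT.nd (nat_lit 624) (nat_lit 0) (nat_lit 0) (XT.nd (nat_lit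 312) (nat_lit 0) (nat_lit 0) (XT.nd (nat_lit 156) (nat_lit 0) (nat_lit 0) (XT.nd (nat_lit 78) (nat_lit 0) (nat_lit 0) (XT.lf (nat_lit 0) (nat_lit 4260112430305) (nat_lit 76) (nat_lit 527816029368) (nat_lit 76) (nat_lit 523845706471) (nat_lit 1) (nat_lit 4) (nat_lit 2) (nat_lit 5) (nat_lit 2) (nat_lit 4) (nat_lit 404) (nat_lit 334) (nat_lit 282)) (XT.lf (nat_lit 0) (nat_lit 4936121901858) (nat_lit 76) (nat_lit 587471431753) (nat_lit 76) (nat_lit 583500747251) (nat_lit 1) (nat_lit 4) (nat_lit 2) (nat_lit 5) (nat_lit 2) (nat_lit 4) (nat_lit 405) (nat_lit 334) (nat_lit 281))) (XT.nd (nat_lit 78) (nat_lit 0) (nat_lit 0) (XT.lf (nat_lit 0) (nat_lit 5713526507844) (nat_lit 76) (nat_lit 656078359822) (nat_lit 76) (nat_lit 652107360881) (nat_lit 1) (nat_lit 4) (nat_lit 2) (nat_lit 5) (nat_lit 2) (nat_lit 4) (nat_lit 406) (nat_lit 334) (nat_lit 280)) (XT.lf (nat_lit 0) (nat_lit 6607536338380) (nat_lit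 76) (nat_lit 734979123038) (nat_lit 76) (nat_lit 731007850671) (nat_lit 1) (nat_lit 4) (nat_lit 2) (nat_lit 5) (nat_lit 2) (nat_lit 4) (nat_lit 407) (nat_lit 334) (nat_lit 279)))) (XT.nd (nat_lit 156) (nat_lit 0) (nat_lit 0) (XT.nd (nat_lit 78) (nat_lit 0) (nat_lit 0) (XT.lf (nat_lit 0) (nat_lit 7635642890151) (nat_lit 76) (nat_lit 825717431985) (nat_lit 76) (nat_lit 821745921857) (nat_lit 1) (nat_lit 4) (nat_lit 2) (nat_lit 5) (nat_lit 2) (nat_lit 4) (nat_lit 408) (nat_lit 334) (nat_lit 278)) (XT.lf (nat_lit 0) (nat_lit 8817961291343) (nat_lit 76) (nat_lit 930068601403) (nat_lit 76) (nat_lit 926096884526) (nat_lit 1) (nat_lit 4) (nat_lit 2) (nat_lit 5) (nat_lit 2) (nat_lit 4) (nat_lit 409) (nat_lit 334) (nat_lit 277))) (XT.nd (nat_lit 78) (nat_lit 0) (nat_lit 0) (XT.lf (nat_lit 0) (nat_lit 10177623858502) (nat_lit 76) (nat_lit 1050074284608) (nat_lit 76) (nat_lit 1046102387950) (nat_lit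 1) (nat_lit 4) (nat_lit 2) (nat_lit 5) (nat_lit 2) (nat_lit 4) (nat_lit 410) (nat_lit 334) (nat_lit 276)) (XT.lf (nat_lit 0) (nat_lit 11741232685332) (nat_lit 76) (nat_lit 1188082418880) (nat_lit 76) (nat_lit 1184110365889) (nat_lit 1) (nat_lit 4) (nat_lit 2) (nat_lit 5) (nat_lit 2) (nat_lit 4) (nat_lit 411) (nat_lit 334) (nat_lit 275))))) (XT.nd (nat_lit 312) (nat_lit 0) (nat_lit 0) (XT.nd (nat_lit 156) (nat_lit 0) (nat_lit 0) (XT.nd (nat_lit 78) (nat_lit 0) (nat_lit 0) (XT.lf (nat_lit 0) (nat_lit 13539380118446) (nat_lit 76) (nat_lit 1346793163366) (nat_lit 76) (nat_lit 1342820974435) (nat_lit 1) (nat_lit 4) (nat_lit 2) (nat_lit 5) (nat_lit 2) (nat_lit 4) (nat_lit 412) (nat_lit 334) (nat_lit 274)) (XT.lf (nat_lit 0) (nat_lit 15607247303274) (nat_lit 76) (nat_lit 1529311728286) (nat_lit 76) (nat_lit 1525339421145) (nat_lit 1) (nat_lit 4) (nat_lit 2) (nat_lit 5) (nat_lit 2) (nat_lit 4) (nat_lit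 413) (nat_lit 334) (nat_lit 273))) (XT.nd (nat_lit 78) (nat_lit 0) (nat_lit 0) (XT.lf (nat_lit 0) (nat_lit 17985292510823) (nat_lit 76) (nat_lit 1739209129040) (nat_lit 76) (nat_lit 1735236719108) (nat_lit 1) (nat_lit 4) (nat_lit 2) (nat_lit 5) (nat_lit 2) (nat_lit 4) (nat_lit 414) (nat_lit 334) (nat_lit 272)) (XT.lf (nat_lit 0) (nat_lit 20720042712546) (nat_lit 76) (nat_lit 1980592053904) (nat_lit 76) (nat_lit 1976619554589) (nat_lit 1) (nat_lit 4) (nat_lit 2) (nat_lit 5) (nat_lit 2) (nat_lit 4) (nat_lit 415) (nat_lit 334) (nat_lit 271)))) (XT.nd (nat_lit 156) (nat_lit 0) (nat_lit 0) (XT.nd (nat_lit 78) (nat_lit 0) (nat_lit 0) (XT.lf (nat_lit 0) (nat_lit 23865003890651) (nat_lit 76) (nat_lit 2258183212276) (nat_lit 76) (nat_lit 2254210635237) (nat_lit 1) (nat_lit 4) (nat_lit 2) (nat_lit 5) (nat_lit 2) (nat_lit 4) (nat_lit 416) (nat_lit 334) (nat_lit 270)) (XT.lf (nat_lit 0) (nat_lit 27481707894273)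 (nat_lit 76) (nat_lit 2577413735518) (nat_lit 76) (nat_lit 2573441090891) (nat_lit 1) (nat_lit 4) (nat_lit 2) (nat_lit 5) (nat_lit 2) (nat_lit 4) (nat_lit 417) (nat_lit 334) (nat_lit 269))) (XT.nd (nat_lit 47814) (nat_lit 0) (nat_lit 3040) (XT.lf (nat_lit 0) (nat_lit 31640916323485) (nat_lit 76) (nat_lit 2944529438213) (nat_lit 76) (nat_lit 2940556734815) (nat_lit 1) (nat_lit 4) (nat_lit 2) (nat_lit 5) (nat_lit 2) (nat_lit 4) (nat_lit 418) (nat_lit 334) (nat_lit 268)) (XT.nd (nat_lit 78) (nat_lit 380) (nat_lit 0) (XT.lf (nat_lit 0) (nat_lit 1822816224) (nat_lit 228) (nat_lit 801225210) (nat_lit 0) (nat_lit 1822816224) (nat_lit 46) (nat_lit 5) (nat_lit 49) (nat_lit 4) (nat_lit 46) (nat_lit 4) (nat_lit 350) (nat_lit 335) (nat_lit 335)) (XT.lf (nat_lit 0) (nat_lit 2451055247) (nat_lit 228) (nat_lit 6041167914) (nat_lit 0) (nat_lit 950315806) (nat_lit 41) (nat_lit 5) (nat_lit 44) (nat_lit 4)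 (nat_lit 41) (nat_lit 4) (nat_lit 351) (nat_lit 335) (nat_lit 334))))))))
noncomputable def xc35 : XT := (XT.nd (nat_lit 1248) (nat_lit 684) (nat_lit 0) (XT.nd (nat_lit 624) (nat_lit 836) (nat_lit 0) (XT.nd (nat_lit 312) (nat_lit 532) (nat_lit 0) (XT.nd (nat_lit 156) (nat_lit 456) (nat_lit 0) (XT.nd (nat_lit 78) (nat_lit 228) (nat_lit 0) (XT.lf (nat_lit 0) (nat_lit 725834289) (nat_lit 228) (nat_lit 1295994938) (nat_lit 76) (nat_lit 8052204395) (nat_lit 38) (nat_lit 5) (nat_lit 41) (nat_lit 5) (nat_lit 39) (nat_lit 4) (nat_lit 352) (nat_lit 335) (nat_lit 333)) (XT.lf (nat_lit 0) (nat_lit 3833677448) (nat_lit 152) (nat_lit 5302493276) (nat_lit 152) (nat_lit 1653877641) (nat_lit 35) (nat_lit 4) (nat_lit 37) (nat_lit 5) (nat_lit 37) (nat_lit 4) (nat_lit 353) (nat_lit 335) (nat_lit 332))) (XT.nd (nat_lit 78) (nat_lit 304) (nat_lit 0) (XT.lf (nat_lit 0) (nat_lit 6751269466) (nat_lit 152) (nat_lit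 2328315113) (nat_lit 0) (nat_lit 2526933535) (nat_lit 33) (nat_lit 5) (nat_lit 35) (nat_lit 4) (nat_lit 33) (nat_lit 4) (nat_lit 354) (nat_lit 335) (nat_lit 331)) (XT.lf (nat_lit 0) (nat_lit 2573144059) (nat_lit 76) (nat_lit 1048549129) (nat_lit 152) (nat_lit 8910566940) (nat_lit 29) (nat_lit 5) (nat_lit 30) (nat_lit 5) (nat_lit 31) (nat_lit 4) (nat_lit 355) (nat_lit 335) (nat_lit 330)))) (XT.nd (nat_lit 156) (nat_lit 304) (nat_lit 0) (XT.nd (nat_lit 78) (nat_lit 152) (nat_lit 0) (XT.lf (nat_lit 0) (nat_lit 7682714052) (nat_lit 76) (nat_lit 5538985641) (nat_lit 76) (nat_lit 354109405) (nat_lit 28) (nat_lit 4) (nat_lit 29) (nat_lit 5) (nat_lit 29) (nat_lit 4) (nat_lit 356) (nat_lit 335) (nat_lit 329)) (XT.lf (nat_lit 0) (nat_lit 9051418244) (nat_lit 152) (nat_lit 1929425307) (nat_lit 0) (nat_lit 3773711406) (nat_lit 26) (nat_lit 5) (nat_lit 28) (nat_lit 4) (nat_lit 26) (nat_lit 4) (nat_lit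 357) (nat_lit 335) (nat_lit 328))) (XT.nd (nat_lit 78) (nat_lit 76) (nat_lit 0) (XT.lf (nat_lit 0) (nat_lit 2057413638) (nat_lit 76) (nat_lit 1668457622) (nat_lit 152) (nat_lit 12362383232) (nat_lit 23) (nat_lit 5) (nat_lit 24) (nat_lit 5) (nat_lit 25) (nat_lit 4) (nat_lit 358) (nat_lit 335) (nat_lit 327)) (XT.lf (nat_lit 0) (nat_lit 5839873952) (nat_lit 76) (nat_lit 8676122541) (nat_lit 76) (nat_lit 3071492815) (nat_lit 22) (nat_lit 4) (nat_lit 23) (nat_lit 5) (nat_lit 23) (nat_lit 4) (nat_lit 359) (nat_lit 335) (nat_lit 326))))) (XT.nd (nat_lit 312) (nat_lit 380) (nat_lit 0) (XT.nd (nat_lit 156) (nat_lit 228) (nat_lit 0) (XT.nd (nat_lit 78) (nat_lit 76) (nat_lit 0) (XT.lf (nat_lit 0) (nat_lit 7368096706) (nat_lit 152) (nat_lit 10008271583) (nat_lit 0) (nat_lit 1909791971) (nat_lit 20) (nat_lit 5) (nat_lit 22) (nat_lit 4) (nat_lit 20) (nat_lit 4) (nat_lit 360) (nat_lit 335) (nat_lit 325))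 (XT.lf (nat_lit 0) (nat_lit 12137406313) (nat_lit 76) (nat_lit 7380925452) (nat_lit 76) (nat_lit 1688853095) (nat_lit 19) (nat_lit 4) (nat_lit 20) (nat_lit 5) (nat_lit 20) (nat_lit 4) (nat_lit 361) (nat_lit 335) (nat_lit 324))) (XT.nd (nat_lit 78) (nat_lit 76) (nat_lit 0) (XT.lf (nat_lit 0) (nat_lit 9796787898) (nat_lit 152) (nat_lit 9244026647) (nat_lit 0) (nat_lit 4338131833) (nat_lit 17) (nat_lit 5) (nat_lit 19) (nat_lit 4) (nat_lit 17) (nat_lit 4) (nat_lit 362) (nat_lit 335) (nat_lit 323)) (XT.lf (nat_lit 0) (nat_lit 15040997167) (nat_lit 76) (nat_lit 8213209294) (nat_lit 76) (nat_lit 2590884796) (nat_lit 16) (nat_lit 4) (nat_lit 17) (nat_lit 5) (nat_lit 17) (nat_lit 4) (nat_lit 363) (nat_lit 335) (nat_lit 322)))) (XT.nd (nat_lit 156) (nat_lit 152) (nat_lit 0) (XT.nd (nat_lit 78) (nat_lit 76) (nat_lit 0) (XT.lf (nat_lit 0) (nat_lit 9823481642) (nat_lit 152) (nat_lit 14330361006) (nat_lit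 0) (nat_lit 4485847498) (nat_lit 14) (nat_lit 5) (nat_lit 16) (nat_lit 4) (nat_lit 14) (nat_lit 4) (nat_lit 364) (nat_lit 335) (nat_lit 321)) (XT.lf (nat_lit 0) (nat_lit 11423316686) (nat_lit 76) (nat_lit 12922545443) (nat_lit 76) (nat_lit 7470321625) (nat_lit 13) (nat_lit 4) (nat_lit 14) (nat_lit 5) (nat_lit 14) (nat_lit 4) (nat_lit 365) (nat_lit 335) (nat_lit 320))) (XT.nd (nat_lit 78) (nat_lit 0) (nat_lit 0) (XT.lf (nat_lit 0) (nat_lit 5471928769) (nat_lit 152) (nat_lit 29641325656) (nat_lit 0) (nat_lit 331311163) (nat_lit 11) (nat_lit 5) (nat_lit 13) (nat_lit 4) (nat_lit 11) (nat_lit 4) (nat_lit 366) (nat_lit 335) (nat_lit 319)) (XT.lf (nat_lit 0) (nat_lit 20515485834) (nat_lit 152) (nat_lit 3743393276) (nat_lit 0) (nat_lit 15294640212) (nat_lit 11) (nat_lit 5) (nat_lit 13) (nat_lit 4) (nat_lit 11) (nat_lit 4) (nat_lit 367) (nat_lit 335) (nat_lit 318)))))) (XT.nd (nat_lit 624) (nat_lit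 152) (nat_lit 0) (XT.nd (nat_lit 312) (nat_lit 228) (nat_lit 0) (XT.nd (nat_lit 156) (nat_lit 76) (nat_lit 0) (XT.nd (nat_lit 78) (nat_lit 152) (nat_lit 0) (XT.lf (nat_lit 0) (nat_lit 26716623119) (nat_lit 76) (nat_lit 11413815698) (nat_lit 76) (nat_lit 6123206584) (nat_lit 10) (nat_lit 4) (nat_lit 11) (nat_lit 5) (nat_lit 11) (nat_lit 4) (nat_lit 368) (nat_lit 335) (nat_lit 317)) (XT.lf (nat_lit 0) (nat_lit 8476822221) (nat_lit 152) (nat_lit 37628478372) (nat_lit 0) (nat_lit 3521939796) (nat_lit 8) (nat_lit 5) (nat_lit 10) (nat_lit 4) (nat_lit 8) (nat_lit 4) (nat_lit 369) (nat_lit 335) (nat_lit 316))) (XT.nd (nat_lit 78) (nat_lit 76) (nat_lit 0) (XT.lf (nat_lit 0) (nat_lit 25466429862) (nat_lit 152) (nat_lit 9820059366) (nat_lit 0) (nat_lit 20462703711) (nat_lit 8) (nat_lit 5) (nat_lit 10) (nat_lit 4) (nat_lit 8) (nat_lit 4) (nat_lit 370) (nat_lit 335) (nat_lit 315)) (XT.lf (nat_lit 0)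 (nat_lit 22793185652) (nat_lit 76) (nat_lit 22509310692) (nat_lit 76) (nat_lit 17463111738) (nat_lit 7) (nat_lit 4) (nat_lit 8) (nat_lit 5) (nat_lit 8) (nat_lit 4) (nat_lit 371) (nat_lit 335) (nat_lit 314)))) (XT.nd (nat_lit 156) (nat_lit 76) (nat_lit 0) (XT.nd (nat_lit 78) (nat_lit 152) (nat_lit 0) (XT.lf (nat_lit 0) (nat_lit 60429331005) (nat_lit 76) (nat_lit 7741859296) (nat_lit 76) (nat_lit 2658727468) (nat_lit 7) (nat_lit 4) (nat_lit 8) (nat_lit 5) (nat_lit 8) (nat_lit 4) (nat_lit 372) (nat_lit 335) (nat_lit 313)) (XT.lf (nat_lit 0) (nat_lit 14263230054) (nat_lit 152) (nat_lit 56236874784) (nat_lit 0) (nat_lit 9526889896) (nat_lit 5) (nat_lit 5) (nat_lit 7) (nat_lit 4) (nat_lit 5) (nat_lit 4) (nat_lit 373) (nat_lit 335) (nat_lit 312))) (XT.nd (nat_lit 78) (nat_lit 76) (nat_lit 0) (XT.lf (nat_lit 0) (nat_lit 33904160224) (nat_lit 152) (nat_lit 27524944593) (nat_lit 0) (nat_lit 29141962143)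 (nat_lit 5) (nat_lit 5) (nat_lit 7) (nat_lit 4) (nat_lit 5) (nat_lit 4) (nat_lit 374) (nat_lit 335) (nat_lit 311)) (XT.lf (nat_lit 0) (nat_lit 5426741303) (nat_lit 76) (nat_lit 51028777370) (nat_lit 76) (nat_lit 46244094137) (nat_lit 4) (nat_lit 4) (nat_lit 5) (nat_lit 5) (nat_lit 5) (nat_lit 4) (nat_lit 375) (nat_lit 335) (nat_lit 310))))) (XT.nd (nat_lit 312) (nat_lit 0) (nat_lit 0) (XT.nd (nat_lit 156) (nat_lit 152) (nat_lit 0) (XT.nd (nat_lit 78) (nat_lit 0) (nat_lit 0) (XT.lf (nat_lit 0) (nat_lit 44678158164) (nat_lit 76) (nat_lit 38360786946) (nat_lit 76) (nat_lit 33556551408) (nat_lit 4) (nat_lit 4) (nat_lit 5) (nat_lit 5) (nat_lit 5) (nat_lit 4) (nat_lit 376) (nat_lit 335) (nat_lit 309)) (XT.lf (nat_lit 0) (nat_lit 89547853692) (nat_lit 76) (nat_lit 23929862325) (nat_lit 76) (nat_lit 19108624782) (nat_lit 4) (nat_lit 4) (nat_lit 5) (nat_lit 5) (nat_lit 5) (nat_lit 4) (nat_lit 377)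 (nat_lit 335) (nat_lit 308))) (XT.nd (nat_lit 78) (nat_lit 152) (nat_lit 0) (XT.lf (nat_lit 0) (nat_lit 140913713231) (nat_lit 76) (nat_lit 7453659328) (nat_lit 76) (nat_lit 2617637433) (nat_lit 4) (nat_lit 4) (nat_lit 5) (nat_lit 5) (nat_lit 5) (nat_lit 4) (nat_lit 378) (nat_lit 335) (nat_lit 307)) (XT.lf (nat_lit 0) (nat_lit 16418293659) (nat_lit 152) (nat_lit 143694022332) (nat_lit 0) (nat_lit 11928591942) (nat_lit 2) (nat_lit 5) (nat_lit 4) (nat_lit 4) (nat_lit 2) (nat_lit 4) (nat_lit 379) (nat_lit 335) (nat_lit 306)))) (XT.nd (nat_lit 156) (nat_lit 0) (nat_lit 0) (XT.nd (nat_lit 78) (nat_lit 0) (nat_lit 0) (XT.lf (nat_lit 0) (nat_lit 38569892248) (nat_lit 152) (nat_lit 123576800567) (nat_lit 0) (nat_lit 34069839519) (nat_lit 2) (nat_lit 5) (nat_lit 4) (nat_lit 4) (nat_lit 2) (nat_lit 4) (nat_lit 380) (nat_lit 335) (nat_lit 305)) (XT.lf (nat_lit 0) (nat_lit 63960651194) (nat_lit 152)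 (nat_lit 100612940331) (nat_lit 0) (nat_lit 59451597583) (nat_lit 2) (nat_lit 5) (nat_lit 4) (nat_lit 4) (nat_lit 2) (nat_lit 4) (nat_lit 381) (nat_lit 335) (nat_lit 304))) (XT.nd (nat_lit 78) (nat_lit 0) (nat_lit 0) (XT.lf (nat_lit 0) (nat_lit 93087346214) (nat_lit 152) (nat_lit 74353148706) (nat_lit 0) (nat_lit 88570465750) (nat_lit 2) (nat_lit 5) (nat_lit 4) (nat_lit 4) (nat_lit 2) (nat_lit 4) (nat_lit 382) (nat_lit 335) (nat_lit 303)) (XT.nd (nat_lit 78) (nat_lit 0) (nat_lit 0) (XT.lf (nat_lit 0) (nat_lit 126519847427) (nat_lit 152) (nat_lit 44283647160) (nat_lit 0) (nat_lit 121996161005) (nat_lit 2) (nat_lit 5) (nat_lit 4) (nat_lit 4) (nat_lit 2) (nat_lit 4) (nat_lit 383) (nat_lit 335) (nat_lit 302)) (XT.lf (nat_lit 0) (nat_lit 164912268990) (nat_lit 152) (nat_lit 9816119359) (nat_lit 0) (nat_lit 160382664341) (nat_lit 2) (nat_lit 5) (nat_lit 4) (nat_lit 4) (nat_lit 2) (nat_lit 4) (nat_lit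 384) (nat_lit 335) (nat_lit 301))))))))
noncomputable def xc36 : XT := (XT.nd (nat_lit 1248) (nat_lit 0) (nat_lit 0) (XT.nd (nat_lit 624) (nat_lit 0) (nat_lit 0) (XT.nd (nat_lit 312) (nat_lit 0) (nat_lit 0) (XT.nd (nat_lit 156) (nat_lit 0) (nat_lit 0) (XT.nd (nat_lit 78) (nat_lit 0) (nat_lit 0) (XT.lf (nat_lit 0) (nat_lit 31289001970) (nat_lit 76) (nat_lit 178479266254) (nat_lit 76) (nat_lit 173944515323) (nat_lit 1) (nat_lit 4) (nat_lit 2) (nat_lit 5) (nat_lit 2) (nat_lit 4) (nat_lit 385) (nat_lit 335) (nat_lit 300)) (XT.lf (nat_lit 0) (nat_lit 79064860681) (nat_lit 76) (nat_lit 182529887026) (nat_lit 76) (nat_lit 177990661066) (nat_lit 1) (nat_lit 4) (nat_lit 2) (nat_lit 5) (nat_lit 2) (nat_lit 4) (nat_lit 386) (nat_lit 335) (nat_lit 299))) (XT.nd (nat_lit 78) (nat_lit 0) (nat_lit 0) (XT.lf (nat_lit 0) (nat_lit 133929302386) (nat_lit 76) (nat_lit 187227892041) (nat_lit 76) (nat_lit 182684774752)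 (nat_lit 1) (nat_lit 4) (nat_lit 2) (nat_lit 5) (nat_lit 2) (nat_lit 4) (nat_lit 387) (nat_lit 335) (nat_lit 298)) (XT.lf (nat_lit 0) (nat_lit 196955761814) (nat_lit 76) (nat_lit 192665198788) (nat_lit 76) (nat_lit 188118697735) (nat_lit 1) (nat_lit 4) (nat_lit 2) (nat_lit 5) (nat_lit 2) (nat_lit 4) (nat_lit 388) (nat_lit 335) (nat_lit 297)))) (XT.nd (nat_lit 156) (nat_lit 0) (nat_lit 0) (XT.nd (nat_lit 78) (nat_lit 0) (nat_lit 0) (XT.lf (nat_lit 0) (nat_lit 269377365343) (nat_lit 76) (nat_lit 198948189356) (nat_lit 76) (nat_lit 194398745899) (nat_lit 1) (nat_lit 4) (nat_lit 2) (nat_lit 5) (nat_lit 2) (nat_lit 4) (nat_lit 389) (nat_lit 335) (nat_lit 296)) (XT.lf (nat_lit 0) (nat_lit 352611057393) (nat_lit 76) (nat_lit 206199791821) (nat_lit 76) (nat_lit 201647789751) (nat_lit 1) (nat_lit 4) (nat_lit 2) (nat_lit 5) (nat_lit 2) (nat_lit 4) (nat_lit 390) (nat_lit 335) (nat_lit 295))) (XT.nd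 (nat_lit 78) (nat_lit 0) (nat_lit 0) (XT.lf (nat_lit 0) (nat_lit 448285323240) (nat_lit 76) (nat_lit 214561885362) (nat_lit 76) (nat_lit 210007658412) (nat_lit 1) (nat_lit 4) (nat_lit 2) (nat_lit 5) (nat_lit 2) (nat_lit 4) (nat_lit 391) (nat_lit 335) (nat_lit 294)) (XT.lf (nat_lit 0) (nat_lit 558272050697) (nat_lit 76) (nat_lit 224198076156) (nat_lit 76) (nat_lit 219641914528) (nat_lit 1) (nat_lit 4) (nat_lit 2) (nat_lit 5) (nat_lit 2) (nat_lit 4) (nat_lit 392) (nat_lit 335) (nat_lit 293))))) (XT.nd (nat_lit 312) (nat_lit 0) (nat_lit 0) (XT.nd (nat_lit 156) (nat_lit 0) (nat_lit 0) (XT.nd (nat_lit 78) (nat_lit 0) (nat_lit 0) (XT.lf (nat_lit 0) (nat_lit 684723153995) (nat_lit 76) (nat_lit 235296898372) (nat_lit 76) (nat_lit 230739054414) (nat_lit 1) (nat_lit 4) (nat_lit 2) (nat_lit 5) (nat_lit 2) (nat_lit 4) (nat_lit 393) (nat_lit 335) (nat_lit 292)) (XT.lf (nat_lit 0) (nat_lit 830112676460)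 (nat_lit 76) (nat_lit 248075502878) (nat_lit 76) (nat_lit 243516196026) (nat_lit 1) (nat_lit 4) (nat_lit 2) (nat_lit 5) (nat_lit 2) (nat_lit 4) (nat_lit 394) (nat_lit 335) (nat_lit 291))) (XT.nd (nat_lit 78) (nat_lit 0) (nat_lit 0) (XT.lf (nat_lit 0) (nat_lit 997285195706) (nat_lit 76) (nat_lit 262783905850) (nat_lit 76) (nat_lit 258223326916) (nat_lit 1) (nat_lit 4) (nat_lit 2) (nat_lit 5) (nat_lit 2) (nat_lit 4) (nat_lit 395) (nat_lit 335) (nat_lit 290)) (XT.lf (nat_lit 0) (nat_lit 1189511478412) (nat_lit 76) (nat_lit 279709880390) (nat_lit 76) (nat_lit 275148195297) (nat_lit 1) (nat_lit 4) (nat_lit 2) (nat_lit 5) (nat_lit 2) (nat_lit 4) (nat_lit 396) (nat_lit 335) (nat_lit 289)))) (XT.nd (nat_lit 156) (nat_lit 0) (nat_lit 0) (XT.nd (nat_lit 78) (nat_lit 0) (nat_lit 0) (XT.lf (nat_lit 0) (nat_lit 1410552473590) (nat_lit 76) (nat_lit 299184586869) (nat_lit 76) (nat_lit 294621939899) (nat_lit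 1) (nat_lit 4) (nat_lit 2) (nat_lit 5) (nat_lit 2) (nat_lit 4) (nat_lit 397) (nat_lit 335) (nat_lit 288)) (XT.lf (nat_lit 0) (nat_lit 1664732896361) (nat_lit 76) (nat_lit 321589052153) (nat_lit 76) (nat_lit 317025568768) (nat_lit 1) (nat_lit 4) (nat_lit 2) (nat_lit 5) (nat_lit 2) (nat_lit 4) (nat_lit 398) (nat_lit 335) (nat_lit 287))) (XT.nd (nat_lit 78) (nat_lit 0) (nat_lit 0) (XT.lf (nat_lit 0) (nat_lit 1957025841954) (nat_lit 76) (nat_lit 347361624476) (nat_lit 76) (nat_lit 342797413773) (nat_lit 1) (nat_lit 4) (nat_lit 2) (nat_lit 5) (nat_lit 2) (nat_lit 4) (nat_lit 399) (nat_lit 335) (nat_lit 286)) (XT.lf (nat_lit 0) (nat_lit 2293150085392) (nat_lit 76) (nat_lit 377006549817) (nat_lit 76) (nat_lit 372441706665) (nat_lit 1) (nat_lit 4) (nat_lit 2) (nat_lit 5) (nat_lit 2) (nat_lit 4) (nat_lit 400) (nat_lit 335) (nat_lit 285)))))) (XT.nd (nat_lit 624) (nat_lit 0) (nat_lit 0) (XT.nd (nat_lit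 312) (nat_lit 0) (nat_lit 0) (XT.nd (nat_lit 156) (nat_lit 0) (nat_lit 0) (XT.nd (nat_lit 78) (nat_lit 0) (nat_lit 0) (XT.lf (nat_lit 0) (nat_lit 2679681970567) (nat_lit 76) (nat_lit 411103837586) (nat_lit 76) (nat_lit 406538444478) (nat_lit 1) (nat_lit 4) (nat_lit 2) (nat_lit 5) (nat_lit 2) (nat_lit 4) (nat_lit 401) (nat_lit 335) (nat_lit 284)) (XT.lf (nat_lit 0) (nat_lit 3124184077842) (nat_lit 76) (nat_lit 450320608631) (nat_lit 76) (nat_lit 445754737300) (nat_lit 1) (nat_lit 4) (nat_lit 2) (nat_lit 5) (nat_lit 2) (nat_lit 4) (nat_lit 402) (nat_lit 335) (nat_lit 283))) (XT.nd (nat_lit 78) (nat_lit 0) (nat_lit 0) (XT.lf (nat_lit 0) (nat_lit 3635353187577) (nat_lit 76) (nat_lit 495424147602) (nat_lit 76) (nat_lit 490857860425) (nat_lit 1) (nat_lit 4) (nat_lit 2) (nat_lit 5) (nat_lit 2) (nat_lit 4) (nat_lit 403) (nat_lit 335) (nat_lit 282)) (XT.lf (nat_lit 0) (nat_lit 4223190434527) (nat_lit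 76) (nat_lit 547296915044) (nat_lit 76) (nat_lit 542730266262) (nat_lit 1) (nat_lit 4) (nat_lit 2) (nat_lit 5) (nat_lit 2) (nat_lit 4) (nat_lit 404) (nat_lit 335) (nat_lit 281)))) (XT.nd (nat_lit 156) (nat_lit 0) (nat_lit 0) (XT.nd (nat_lit 78) (nat_lit 0) (nat_lit 0) (XT.lf (nat_lit 0) (nat_lit 4899196982220) (nat_lit 76) (nat_lit 606953812930) (nat_lit 76) (nat_lit 602386849708) (nat_lit 1) (nat_lit 4) (nat_lit 2) (nat_lit 5) (nat_lit 2) (nat_lit 4) (nat_lit 405) (nat_lit 335) (nat_lit 280)) (XT.lf (nat_lit 0) (nat_lit 5676599045719) (nat_lit 76) (nat_lit 675562041434) (nat_lit 76) (nat_lit 670994804787) (nat_lit 1) (nat_lit 4) (nat_lit 2) (nat_lit 5) (nat_lit 2) (nat_lit 4) (nat_lit 406) (nat_lit 335) (nat_lit 279))) (XT.nd (nat_lit 78) (nat_lit 0) (nat_lit 0) (XT.lf (nat_lit 0) (nat_lit 6570606665396) (nat_lit 76) (nat_lit 754463935463) (nat_lit 76) (nat_lit 749896461055) (nat_lit 1)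 (nat_lit 4) (nat_lit 2) (nat_lit 5) (nat_lit 2) (nat_lit 4) (nat_lit 407) (nat_lit 335) (nat_lit 278)) (XT.lf (nat_lit 0) (nat_lit 7598711294681) (nat_lit 76) (nat_lit 845203227727) (nat_lit 76) (nat_lit 840635546569) (nat_lit 1) (nat_lit 4) (nat_lit 2) (nat_lit 5) (nat_lit 2) (nat_lit 4) (nat_lit 408) (nat_lit 335) (nat_lit 277))))) (XT.nd (nat_lit 312) (nat_lit 0) (nat_lit 0) (XT.nd (nat_lit 156) (nat_lit 0) (nat_lit 0) (XT.nd (nat_lit 78) (nat_lit 0) (nat_lit 0) (XT.lf (nat_lit 0) (nat_lit 8781028024147) (nat_lit 76) (nat_lit 949555252203) (nat_lit 76) (nat_lit 944987391263) (nat_lit 1) (nat_lit 4) (nat_lit 2) (nat_lit 5) (nat_lit 2) (nat_lit 4) (nat_lit 409) (nat_lit 335) (nat_lit 276)) (XT.lf (nat_lit 0) (nat_lit 10140689137630) (nat_lit 76) (nat_lit 1069561678936) (nat_lit 76) (nat_lit 1064993661665) (nat_lit 1) (nat_lit 4) (nat_lit 2) (nat_lit 5) (nat_lit 2) (nat_lit 4) (nat_lit 410)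 (nat_lit 335) (nat_lit 275))) (XT.nd (nat_lit 78) (nat_lit 0) (nat_lit 0) (XT.lf (nat_lit 0) (nat_lit 11704296700395) (nat_lit 76) (nat_lit 1207570459754) (nat_lit 76) (nat_lit 1203002306541) (nat_lit 1) (nat_lit 4) (nat_lit 2) (nat_lit 5) (nat_lit 2) (nat_lit 4) (nat_lit 411) (nat_lit 335) (nat_lit 274)) (XT.lf (nat_lit 0) (nat_lit 13502443034321) (nat_lit 76) (nat_lit 1366281766454) (nat_lit 76) (nat_lit 1361713495033) (nat_lit 1) (nat_lit 4) (nat_lit 2) (nat_lit 5) (nat_lit 2) (nat_lit 4) (nat_lit 412) (nat_lit 335) (nat_lit 273)))) (XT.nd (nat_lit 156) (nat_lit 0) (nat_lit 0) (XT.nd (nat_lit 78) (nat_lit 0) (nat_lit 0) (XT.lf (nat_lit 0) (nat_lit 15570309263334) (nat_lit 76) (nat_lit 1548800820256) (nat_lit 76) (nat_lit 1544232446044) (nat_lit 1) (nat_lit 4) (nat_lit 2) (nat_lit 5) (nat_lit 2) (nat_lit 4) (nat_lit 413) (nat_lit 335) (nat_lit 272)) (XT.lf (nat_lit 0) (nat_lit 17948353639740)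 (nat_lit 76) (nat_lit 1758698646125) (nat_lit 76) (nat_lit 1754130182529) (nat_lit 1) (nat_lit 4) (nat_lit 2) (nat_lit 5) (nat_lit 2) (nat_lit 4) (nat_lit 414) (nat_lit 335) (nat_lit 271))) (XT.nd (nat_lit 78) (nat_lit 0) (nat_lit 0) (XT.lf (nat_lit 0) (nat_lit 20683103118729) (nat_lit 76) (nat_lit 2000081940653) (nat_lit 76) (nat_lit 1995513399333) (nat_lit 1) (nat_lit 4) (nat_lit 2) (nat_lit 5) (nat_lit 2) (nat_lit 4) (nat_lit 415) (nat_lit 335) (nat_lit 270)) (XT.nd (nat_lit 78) (nat_lit 0) (nat_lit 0) (XT.lf (nat_lit 0) (nat_lit 23828063668370) (nat_lit 76) (nat_lit 2277673420473) (nat_lit 76) (nat_lit 2273104811567) (nat_lit 1) (nat_lit 4) (nat_lit 2) (nat_lit 5) (nat_lit 2) (nat_lit 4) (nat_lit 416) (nat_lit 335) (nat_lit 269)) (XT.lf (nat_lit 0) (nat_lit 27444767125502) (nat_lit 76) (nat_lit 2596904223235) (nat_lit 76) (nat_lit 2592335555557) (nat_lit 1) (nat_lit 4) (nat_lit 2) (nat_lit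 5) (nat_lit 2) (nat_lit 4) (nat_lit 417) (nat_lit 335) (nat_lit 268))))))))
noncomputable def xc37 : XT := (XT.nd (nat_lit 1248) (nat_lit 1140) (nat_lit 0) (XT.nd (nat_lit 624) (nat_lit 988) (nat_lit 0) (XT.nd (nat_lit 312) (nat_lit 836) (nat_lit 0) (XT.nd (nat_lit 156) (nat_lit 608) (nat_lit 0) (XT.nd (nat_lit 78) (nat_lit 456) (nat_lit 0) (XT.lf (nat_lit 0) (nat_lit 3172983610) (nat_lit 228) (nat_lit 411895956) (nat_lit 228) (nat_lit 411895956) (nat_lit 55) (nat_lit 4) (nat_lit 58) (nat_lit 5) (nat_lit 58) (nat_lit 4) (nat_lit 348) (nat_lit 336) (nat_lit 336)) (XT.lf (nat_lit 0) (nat_lit 2295567378) (nat_lit 228) (nat_lit 4070016183) (nat_lit 228) (nat_lit 2056984325) (nat_lit 49) (nat_lit 4) (nat_lit 52) (nat_lit 5) (nat_lit 52) (nat_lit 4) (nat_lit 349) (nat_lit 336) (nat_lit 335))) (XT.nd (nat_lit 78) (nat_lit 380) (nat_lit 0) (XT.lf (nat_lit 0) (nat_lit 5087362994) (nat_lit 228) (nat_lit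 2237678797) (nat_lit 0) (nat_lit 1602646010) (nat_lit 46) (nat_lit 5) (nat_lit 49) (nat_lit 4) (nat_lit 46) (nat_lit 4) (nat_lit 350) (nat_lit 336) (nat_lit 334)) (XT.lf (nat_lit 0) (nat_lit 2017220933) (nat_lit 152) (nat_lit 1305532913) (nat_lit 228) (nat_lit 6188459077) (nat_lit 41) (nat_lit 5) (nat_lit 43) (nat_lit 5) (nat_lit 44) (nat_lit 4) (nat_lit 351) (nat_lit 336) (nat_lit 333)))) (XT.nd (nat_lit 156) (nat_lit 380) (nat_lit 0) (XT.nd (nat_lit 78) (nat_lit 228) (nat_lit 0) (XT.lf (nat_lit 0) (nat_lit 1037028402) (nat_lit 228) (nat_lit 3509336166) (nat_lit 76) (nat_lit 5631058794) (nat_lit 38) (nat_lit 5) (nat_lit 41) (nat_lit 5) (nat_lit 39) (nat_lit 4) (nat_lit 352) (nat_lit 336) (nat_lit 332)) (XT.lf (nat_lit 0) (nat_lit 706779907) (nat_lit 152) (nat_lit 8195340720) (nat_lit 152) (nat_lit 2035048324) (nat_lit 35) (nat_lit 4) (nat_lit 37) (nat_lit 5) (nat_lit 37) (nat_lit 4) (nat_lit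 353) (nat_lit 336) (nat_lit 331))) (XT.nd (nat_lit 78) (nat_lit 228) (nat_lit 0) (XT.lf (nat_lit 0) (nat_lit 5319074243) (nat_lit 76) (nat_lit 581819905) (nat_lit 152) (nat_lit 5892629332) (nat_lit 33) (nat_lit 5) (nat_lit 34) (nat_lit 5) (nat_lit 35) (nat_lit 4) (nat_lit 354) (nat_lit 336) (nat_lit 330)) (XT.lf (nat_lit 0) (nat_lit 2128562799) (nat_lit 228) (nat_lit 2651894221) (nat_lit 76) (nat_lit 7981488053) (nat_lit 30) (nat_lit 5) (nat_lit 33) (nat_lit 5) (nat_lit 31) (nat_lit 4) (nat_lit 355) (nat_lit 336) (nat_lit 329))))) (XT.nd (nat_lit 312) (nat_lit 456) (nat_lit 0) (XT.nd (nat_lit 156) (nat_lit 228) (nat_lit 0) (XT.nd (nat_lit 78) (nat_lit 152) (nat_lit 0) (XT.lf (nat_lit 0) (nat_lit 1308435772) (nat_lit 76) (nat_lit 9808024395) (nat_lit 76) (nat_lit 2738065352) (nat_lit 28) (nat_lit 4) (nat_lit 29) (nat_lit 5) (nat_lit 29) (nat_lit 4) (nat_lit 356) (nat_lit 336) (nat_lit 328))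 (XT.lf (nat_lit 0) (nat_lit 5442519604) (nat_lit 76) (nat_lit 788415844) (nat_lit 152) (nat_lit 8851435746) (nat_lit 26) (nat_lit 5) (nat_lit 27) (nat_lit 5) (nat_lit 28) (nat_lit 4) (nat_lit 357) (nat_lit 336) (nat_lit 327))) (XT.nd (nat_lit 78) (nat_lit 76) (nat_lit 0) (XT.lf (nat_lit 0) (nat_lit 186660329) (nat_lit 152) (nat_lit 6933298153) (nat_lit 76) (nat_lit 9346082463) (nat_lit 24) (nat_lit 5) (nat_lit 26) (nat_lit 5) (nat_lit 25) (nat_lit 4) (nat_lit 358) (nat_lit 336) (nat_lit 326)) (XT.lf (nat_lit 0) (nat_lit 10264830030) (nat_lit 152) (nat_lit 4562161383) (nat_lit 0) (nat_lit 3195276162) (nat_lit 23) (nat_lit 5) (nat_lit 25) (nat_lit 4) (nat_lit 23) (nat_lit 4) (nat_lit 359) (nat_lit 336) (nat_lit 325)))) (XT.nd (nat_lit 156) (nat_lit 228) (nat_lit 0) (XT.nd (nat_lit 78) (nat_lit 76) (nat_lit 0) (XT.lf (nat_lit 0) (nat_lit 2281812457) (nat_lit 152) (nat_lit 2575852989) (nat_lit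 76) (nat_lit 14923097283) (nat_lit 21) (nat_lit 5) (nat_lit 23) (nat_lit 5) (nat_lit 22) (nat_lit 4) (nat_lit 360) (nat_lit 336) (nat_lit 324)) (XT.lf (nat_lit 0) (nat_lit 13729366917) (nat_lit 152) (nat_lit 1282219735) (nat_lit 0) (nat_lit 6746439890) (nat_lit 20) (nat_lit 5) (nat_lit 22) (nat_lit 4) (nat_lit 20) (nat_lit 4) (nat_lit 361) (nat_lit 336) (nat_lit 323))) (XT.nd (nat_lit 78) (nat_lit 76) (nat_lit 0) (XT.lf (nat_lit 0) (nat_lit 3075640109) (nat_lit 152) (nat_lit 762357507) (nat_lit 76) (nat_lit 20159886907) (nat_lit 18) (nat_lit 5) (nat_lit 20) (nat_lit 5) (nat_lit 19) (nat_lit 4) (nat_lit 362) (nat_lit 336) (nat_lit 322)) (XT.lf (nat_lit 0) (nat_lit 15860752684) (nat_lit 152) (nat_lit 1567987834) (nat_lit 0) (nat_lit 9089090701) (nat_lit 17) (nat_lit 5) (nat_lit 19) (nat_lit 4) (nat_lit 17) (nat_lit 4) (nat_lit 363) (nat_lit 336) (nat_lit 321)))))) (XT.nd (nat_lit 624) (nat_lit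 456) (nat_lit 0) (XT.nd (nat_lit 312) (nat_lit 228) (nat_lit 0) (XT.nd (nat_lit 156) (nat_lit 228) (nat_lit 0) (XT.nd (nat_lit 78) (nat_lit 76) (nat_lit 0) (XT.lf (nat_lit 0) (nat_lit 1473493064) (nat_lit 152) (nat_lit 3830553258) (nat_lit 76) (nat_lit 24078901000) (nat_lit 15) (nat_lit 5) (nat_lit 17) (nat_lit 5) (nat_lit 16) (nat_lit 4) (nat_lit 364) (nat_lit 336) (nat_lit 320)) (XT.lf (nat_lit 0) (nat_lit 15320292994) (nat_lit 152) (nat_lit 8457203789) (nat_lit 0) (nat_lit 8836002732) (nat_lit 14) (nat_lit 5) (nat_lit 16) (nat_lit 4) (nat_lit 14) (nat_lit 4) (nat_lit 365) (nat_lit 336) (nat_lit 319))) (XT.nd (nat_lit 78) (nat_lit 152) (nat_lit 0) (XT.lf (nat_lit 0) (nat_lit 20480442999) (nat_lit 76) (nat_lit 11192425166) (nat_lit 76) (nat_lit 4621488647) (nat_lit 13) (nat_lit 4) (nat_lit 14) (nat_lit 5) (nat_lit 14) (nat_lit 4) (nat_lit 366) (nat_lit 336) (nat_lit 318)) (XT.lf (nat_lit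 0) (nat_lit 9820918815) (nat_lit 152) (nat_lit 26990923956) (nat_lit 0) (nat_lit 3666954842) (nat_lit 11) (nat_lit 5) (nat_lit 13) (nat_lit 4) (nat_lit 11) (nat_lit 4) (nat_lit 367) (nat_lit 336) (nat_lit 317)))) (XT.nd (nat_lit 156) (nat_lit 152) (nat_lit 0) (XT.nd (nat_lit 78) (nat_lit 0) (nat_lit 0) (XT.lf (nat_lit 0) (nat_lit 1964317865) (nat_lit 76) (nat_lit 24743733370) (nat_lit 76) (nat_lit 18529105491) (nat_lit 10) (nat_lit 4) (nat_lit 11) (nat_lit 5) (nat_lit 11) (nat_lit 4) (nat_lit 368) (nat_lit 336) (nat_lit 316)) (XT.lf (nat_lit 0) (nat_lit 36372732811) (nat_lit 76) (nat_lit 10280947823) (nat_lit 76) (nat_lit 4013568722) (nat_lit 10) (nat_lit 4) (nat_lit 11) (nat_lit 5) (nat_lit 11) (nat_lit 4) (nat_lit 369) (nat_lit 336) (nat_lit 315))) (XT.nd (nat_lit 78) (nat_lit 0) (nat_lit 0) (XT.lf (nat_lit 0) (nat_lit 12441917686) (nat_lit 152) (nat_lit 37817487121) (nat_lit 0) (nat_lit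 6596316084) (nat_lit 8) (nat_lit 5) (nat_lit 10) (nat_lit 4) (nat_lit 8) (nat_lit 4) (nat_lit 370) (nat_lit 336) (nat_lit 314)) (XT.lf (nat_lit 0) (nat_lit 31628630977) (nat_lit 152) (nat_lit 6549361309) (nat_lit 0) (nat_lit 25746096502) (nat_lit 8) (nat_lit 5) (nat_lit 10) (nat_lit 4) (nat_lit 8) (nat_lit 4) (nat_lit 371) (nat_lit 336) (nat_lit 313))))) (XT.nd (nat_lit 312) (nat_lit 228) (nat_lit 0) (XT.nd (nat_lit 156) (nat_lit 152) (nat_lit 0) (XT.nd (nat_lit 78) (nat_lit 0) (nat_lit 0) (XT.lf (nat_lit 0) (nat_lit 30554339294) (nat_lit 76) (nat_lit 23684688443) (nat_lit 76) (nat_lit 17770038426) (nat_lit 7) (nat_lit 4) (nat_lit 8) (nat_lit 5) (nat_lit 8) (nat_lit 4) (nat_lit 372) (nat_lit 336) (nat_lit 312)) (XT.lf (nat_lit 0) (nat_lit 73269535695) (nat_lit 76) (nat_lit 6989208752) (nat_lit 76) (nat_lit 1046632177) (nat_lit 7) (nat_lit 4) (nat_lit 8) (nat_lit 5) (nat_lit 8) (nat_lit 4)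 (nat_lit 373) (nat_lit 336) (nat_lit 311))) (XT.nd (nat_lit 78) (nat_lit 0) (nat_lit 0) (XT.lf (nat_lit 0) (nat_lit 18192527269) (nat_lit 152) (nat_lit 61027611844) (nat_lit 0) (nat_lit 12667656400) (nat_lit 5) (nat_lit 5) (nat_lit 7) (nat_lit 4) (nat_lit 5) (nat_lit 4) (nat_lit 374) (nat_lit 336) (nat_lit 310)) (XT.lf (nat_lit 0) (nat_lit 40546143134) (nat_lit 152) (nat_lit 28484300058) (nat_lit 0) (nat_lit 35001719959) (nat_lit 5) (nat_lit 5) (nat_lit 7) (nat_lit 4) (nat_lit 5) (nat_lit 4) (nat_lit 375) (nat_lit 336) (nat_lit 309)))) (XT.nd (nat_lit 156) (nat_lit 152) (nat_lit 0) (XT.nd (nat_lit 78) (nat_lit 0) (nat_lit 0) (XT.lf (nat_lit 0) (nat_lit 9141865964) (nat_lit 76) (nat_lit 57205107902) (nat_lit 76) (nat_lit 51643682722) (nat_lit 4) (nat_lit 4) (nat_lit 5) (nat_lit 5) (nat_lit 5) (nat_lit 4) (nat_lit 376) (nat_lit 336) (nat_lit 308)) (XT.lf (nat_lit 0) (nat_lit 53902589251) (nat_lit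 76) (nat_lit 42829699707) (nat_lit 76) (nat_lit 37253490175) (nat_lit 4) (nat_lit 4) (nat_lit 5) (nat_lit 5) (nat_lit 5) (nat_lit 4) (nat_lit 377) (nat_lit 336) (nat_lit 307))) (XT.nd (nat_lit 78) (nat_lit 152) (nat_lit 0) (XT.lf (nat_lit 0) (nat_lit 105173690321) (nat_lit 76) (nat_lit 26401771864) (nat_lit 76) (nat_lit 20812706374) (nat_lit 4) (nat_lit 4) (nat_lit 5) (nat_lit 5) (nat_lit 5) (nat_lit 4) (nat_lit 378) (nat_lit 336) (nat_lit 306)) (XT.nd (nat_lit 78) (nat_lit 152) (nat_lit 0) (XT.lf (nat_lit 0) (nat_lit 163958299412) (nat_lit 76) (nat_lit 7599908393) (nat_lit 76) (nat_lit 1999663809) (nat_lit 4) (nat_lit 4) (nat_lit 5) (nat_lit 5) (nat_lit 5) (nat_lit 4) (nat_lit 379) (nat_lit 336) (nat_lit 305)) (XT.lf (nat_lit 0) (nat_lit 19780974390) (nat_lit 152) (nat_lit 163407487555) (nat_lit 0) (nat_lit 14586561857) (nat_lit 2) (nat_lit 5) (nat_lit 4) (nat_lit 4) (nat_lit 2) (nat_lit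 4) (nat_lit 380) (nat_lit 336) (nat_lit 304))))))))
noncomputable def xc38 : XT := (XT.nd (nat_lit 1248) (nat_lit 0) (nat_lit 0) (XT.nd (nat_lit 624) (nat_lit 0) (nat_lit 0) (XT.nd (nat_lit 312) (nat_lit 76) (nat_lit 0) (XT.nd (nat_lit 156) (nat_lit 0) (nat_lit 0) (XT.nd (nat_lit 78) (nat_lit 0) (nat_lit 0) (XT.lf (nat_lit 0) (nat_lit 45137929723) (nat_lit 152) (nat_lit 140512765759) (nat_lit 0) (nat_lit 39935690337) (nat_lit 2) (nat_lit 5) (nat_lit 4) (nat_lit 4) (nat_lit 2) (nat_lit 4) (nat_lit 381) (nat_lit 336) (nat_lit 303)) (XT.lf (nat_lit 0) (nat_lit 74235230297) (nat_lit 152) (nat_lit 114313094517) (nat_lit 0) (nat_lit 69026184951) (nat_lit 2) (nat_lit 5) (nat_lit 4) (nat_lit 4) (nat_lit 2) (nat_lit 4) (nat_lit 382) (nat_lit 336) (nat_lit 302))) (XT.nd (nat_lit 78) (nat_lit 0) (nat_lit 0) (XT.lf (nat_lit 0) (nat_lit 107642171123) (nat_lit 152) (nat_lit 84295871565) (nat_lit 0) (nat_lit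 102427207552) (nat_lit 2) (nat_lit 5) (nat_lit 4) (nat_lit 4) (nat_lit 2) (nat_lit 4) (nat_lit 383) (nat_lit 336) (nat_lit 301)) (XT.lf (nat_lit 0) (nat_lit 146012366261) (nat_lit 152) (nat_lit 49873803411) (nat_lit 0) (nat_lit 140792256407) (nat_lit 2) (nat_lit 5) (nat_lit 4) (nat_lit 4) (nat_lit 2) (nat_lit 4) (nat_lit 384) (nat_lit 336) (nat_lit 300)))) (XT.nd (nat_lit 156) (nat_lit 0) (nat_lit 0) (XT.nd (nat_lit 78) (nat_lit 76) (nat_lit 0) (XT.lf (nat_lit 0) (nat_lit 190096536920) (nat_lit 152) (nat_lit 10373414809) (nat_lit 0) (nat_lit 184871952038) (nat_lit 2) (nat_lit 5) (nat_lit 4) (nat_lit 4) (nat_lit 2) (nat_lit 4) (nat_lit 385) (nat_lit 336) (nat_lit 299)) (XT.lf (nat_lit 0) (nat_lit 36820014162) (nat_lit 76) (nat_lit 204822707547) (nat_lit 76) (nat_lit 199594231335) (nat_lit 1) (nat_lit 4) (nat_lit 2) (nat_lit 5) (nat_lit 2) (nat_lit 4) (nat_lit 386) (nat_lit 336) (nat_lit 298)))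 (XT.nd (nat_lit 78) (nat_lit 0) (nat_lit 0) (XT.lf (nat_lit 0) (nat_lit 91652991433) (nat_lit 76) (nat_lit 209536806041) (nat_lit 76) (nat_lit 204304946064) (nat_lit 1) (nat_lit 4) (nat_lit 2) (nat_lit 5) (nat_lit 2) (nat_lit 4) (nat_lit 387) (nat_lit 336) (nat_lit 297)) (XT.lf (nat_lit 0) (nat_lit 154652090483) (nat_lit 76) (nat_lit 214988107117) (nat_lit 76) (nat_lit 209753304737) (nat_lit 1) (nat_lit 4) (nat_lit 2) (nat_lit 5) (nat_lit 2) (nat_lit 4) (nat_lit 388) (nat_lit 336) (nat_lit 296))))) (XT.nd (nat_lit 312) (nat_lit 0) (nat_lit 0) (XT.nd (nat_lit 156) (nat_lit 0) (nat_lit 0) (XT.nd (nat_lit 78) (nat_lit 0) (nat_lit 0) (XT.lf (nat_lit 0) (nat_lit 227049902380) (nat_lit 76) (nat_lit 221283266668) (nat_lit 76) (nat_lit 216045905675) (nat_lit 1) (nat_lit 4) (nat_lit 2) (nat_lit 5) (nat_lit 2) (nat_lit 4) (nat_lit 389) (nat_lit 336) (nat_lit 295)) (XT.lf (nat_lit 0) (nat_lit 310262906053)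 (nat_lit 76) (nat_lit 228545450856) (nat_lit 76) (nat_lit 223305864984) (nat_lit 1) (nat_lit 4) (nat_lit 2) (nat_lit 5) (nat_lit 2) (nat_lit 4) (nat_lit 390) (nat_lit 336) (nat_lit 294))) (XT.nd (nat_lit 78) (nat_lit 0) (nat_lit 0) (XT.lf (nat_lit 0) (nat_lit 405919182009) (nat_lit 76) (nat_lit 236916745896) (nat_lit 76) (nat_lit 231675225345) (nat_lit 1) (nat_lit 4) (nat_lit 2) (nat_lit 5) (nat_lit 2) (nat_lit 4) (nat_lit 391) (nat_lit 336) (nat_lit 293)) (XT.lf (nat_lit 0) (nat_lit 515890266081) (nat_lit 76) (nat_lit 246560937993) (nat_lit 76) (nat_lit 241317735113) (nat_lit 1) (nat_lit 4) (nat_lit 2) (nat_lit 5) (nat_lit 2) (nat_lit 4) (nat_lit 392) (nat_lit 336) (nat_lit 292)))) (XT.nd (nat_lit 156) (nat_lit 0) (nat_lit 0) (XT.nd (nat_lit 78) (nat_lit 0) (nat_lit 0) (XT.lf (nat_lit 0) (nat_lit 642327766436) (nat_lit 76) (nat_lit 257666717864) (nat_lit 76) (nat_lit 252422052089) (nat_lit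 1) (nat_lit 4) (nat_lit 2) (nat_lit 5) (nat_lit 2) (nat_lit 4) (nat_lit 393) (nat_lit 336) (nat_lit 291)) (XT.lf (nat_lit 0) (nat_lit 787705460255) (nat_lit 76) (nat_lit 270451372505) (nat_lit 76) (nat_lit 265205434648) (nat_lit 1) (nat_lit 4) (nat_lit 2) (nat_lit 5) (nat_lit 2) (nat_lit 4) (nat_lit 394) (nat_lit 336) (nat_lit 290))) (XT.nd (nat_lit 78) (nat_lit 0) (nat_lit 0) (XT.lf (nat_lit 0) (nat_lit 954867693721) (nat_lit 76) (nat_lit 285165036464) (nat_lit 76) (nat_lit 279917992449) (nat_lit 1) (nat_lit 4) (nat_lit 2) (nat_lit 5) (nat_lit 2) (nat_lit 4) (nat_lit 395) (nat_lit 336) (nat_lit 289)) (XT.lf (nat_lit 0) (nat_lit 1147085032271) (nat_lit 76) (nat_lit 302095585776) (nat_lit 76) (nat_lit 296847579883) (nat_lit 1) (nat_lit 4) (nat_lit 2) (nat_lit 5) (nat_lit 2) (nat_lit 4) (nat_lit 396) (nat_lit 336) (nat_lit 288)))))) (XT.nd (nat_lit 624) (nat_lit 0) (nat_lit 0) (XT.nd (nat_lit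 312) (nat_lit 0) (nat_lit 0) (XT.nd (nat_lit 156) (nat_lit 0) (nat_lit 0) (XT.nd (nat_lit 78) (nat_lit 0) (nat_lit 0) (XT.lf (nat_lit 0) (nat_lit 1368118249922) (nat_lit 76) (nat_lit 321574270316) (nat_lit 76) (nat_lit 316325428009) (nat_lit 1) (nat_lit 4) (nat_lit 2) (nat_lit 5) (nat_lit 2) (nat_lit 4) (nat_lit 397) (nat_lit 336) (nat_lit 287)) (XT.lf (nat_lit 0) (nat_lit 1622291909626) (nat_lit 76) (nat_lit 343982194784) (nat_lit 76) (nat_lit 338732625159) (nat_lit 1) (nat_lit 4) (nat_lit 2) (nat_lit 5) (nat_lit 2) (nat_lit 4) (nat_lit 398) (nat_lit 336) (nat_lit 286))) (XT.nd (nat_lit 78) (nat_lit 0) (nat_lit 0) (XT.lf (nat_lit 0) (nat_lit 1914578974292) (nat_lit 76) (nat_lit 369757775093) (nat_lit 76) (nat_lit 364507573018) (nat_lit 1) (nat_lit 4) (nat_lit 2) (nat_lit 5) (nat_lit 2) (nat_lit 4) (nat_lit 399) (nat_lit 336) (nat_lit 285)) (XT.lf (nat_lit 0) (nat_lit 2250698103879) (nat_lit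 76) (nat_lit 399405316075) (nat_lit 76) (nat_lit 394154564044) (nat_lit 1) (nat_lit 4) (nat_lit 2) (nat_lit 5) (nat_lit 2) (nat_lit 4) (nat_lit 400) (nat_lit 336) (nat_lit 284)))) (XT.nd (nat_lit 156) (nat_lit 0) (nat_lit 0) (XT.nd (nat_lit 78) (nat_lit 0) (nat_lit 0) (XT.lf (nat_lit 0) (nat_lit 2637225542228) (nat_lit 76) (nat_lit 433504878314) (nat_lit 76) (nat_lit 428253648060) (nat_lit 1) (nat_lit 4) (nat_lit 2) (nat_lit 5) (nat_lit 2) (nat_lit 4) (nat_lit 401) (nat_lit 336) (nat_lit 283)) (XT.lf (nat_lit 0) (nat_lit 3081723782698) (nat_lit 76) (nat_lit 472723627158) (nat_lit 76) (nat_lit 467471981058) (nat_lit 1) (nat_lit 4) (nat_lit 2) (nat_lit 5) (nat_lit 2) (nat_lit 4) (nat_lit 402) (nat_lit 336) (nat_lit 282))) (XT.nd (nat_lit 78) (nat_lit 0) (nat_lit 0) (XT.lf (nat_lit 0) (nat_lit 3592889529993) (nat_lit 76) (nat_lit 517828885955) (nat_lit 76) (nat_lit 512576878250) (nat_lit 1)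 (nat_lit 4) (nat_lit 2) (nat_lit 5) (nat_lit 2) (nat_lit 4) (nat_lit 403) (nat_lit 336) (nat_lit 281)) (XT.lf (nat_lit 0) (nat_lit 4180723853083) (nat_lit 76) (nat_lit 569703148898) (nat_lit 76) (nat_lit 564450826754) (nat_lit 1) (nat_lit 4) (nat_lit 2) (nat_lit 5) (nat_lit 2) (nat_lit 4) (nat_lit 404) (nat_lit 336) (nat_lit 280))))) (XT.nd (nat_lit 312) (nat_lit 0) (nat_lit 0) (XT.nd (nat_lit 156) (nat_lit 0) (nat_lit 0) (XT.nd (nat_lit 78) (nat_lit 0) (nat_lit 0) (XT.lf (nat_lit 0) (nat_lit 4856727858288) (nat_lit 76) (nat_lit 629361347219) (nat_lit 76) (nat_lit 624108751649) (nat_lit 1) (nat_lit 4) (nat_lit 2) (nat_lit 5) (nat_lit 2) (nat_lit 4) (nat_lit 405) (nat_lit 336) (nat_lit 279)) (XT.lf (nat_lit 0) (nat_lit 5634127710929) (nat_lit 76) (nat_lit 697970706537) (nat_lit 76) (nat_lit 692717873206) (nat_lit 1) (nat_lit 4) (nat_lit 2) (nat_lit 5) (nat_lit 2) (nat_lit 4) (nat_lit 406)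 (nat_lit 336) (nat_lit 278))) (XT.nd (nat_lit 78) (nat_lit 0) (nat_lit 0) (XT.lf (nat_lit 0) (nat_lit 6528133408120) (nat_lit 76) (nat_lit 776873583883) (nat_lit 76) (nat_lit 771620543802) (nat_lit 1) (nat_lit 4) (nat_lit 2) (nat_lit 5) (nat_lit 2) (nat_lit 4) (nat_lit 407) (nat_lit 336) (nat_lit 277)) (XT.lf (nat_lit 0) (nat_lit 7556236365679) (nat_lit 76) (nat_lit 867613731203) (nat_lit 76) (nat_lit 862360511341) (nat_lit 1) (nat_lit 4) (nat_lit 2) (nat_lit 5) (nat_lit 2) (nat_lit 4) (nat_lit 408) (nat_lit 336) (nat_lit 276)))) (XT.nd (nat_lit 156) (nat_lit 0) (nat_lit 0) (XT.nd (nat_lit 78) (nat_lit 0) (nat_lit 0) (XT.lf (nat_lit 0) (nat_lit 8738551641469) (nat_lit 76) (nat_lit 971966499208) (nat_lit 76) (nat_lit 966713123014) (nat_lit 1) (nat_lit 4) (nat_lit 2) (nat_lit 5) (nat_lit 2) (nat_lit 4) (nat_lit 409) (nat_lit 336) (nat_lit 275)) (XT.lf (nat_lit 0) (nat_lit 10098211490887) (nat_lit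 76) (nat_lit 1091973572487) (nat_lit 76) (nat_lit 1086720060352) (nat_lit 1) (nat_lit 4) (nat_lit 2) (nat_lit 5) (nat_lit 2) (nat_lit 4) (nat_lit 410) (nat_lit 336) (nat_lit 274))) (XT.nd (nat_lit 78) (nat_lit 0) (nat_lit 0) (XT.lf (nat_lit 0) (nat_lit 11661817954464) (nat_lit 76) (nat_lit 1229982915519) (nat_lit 76) (nat_lit 1224729285175) (nat_lit 1) (nat_lit 4) (nat_lit 2) (nat_lit 5) (nat_lit 2) (nat_lit 4) (nat_lit 411) (nat_lit 336) (nat_lit 273)) (XT.nd (nat_lit 78) (nat_lit 0) (nat_lit 0) (XT.lf (nat_lit 0) (nat_lit 13459963332575) (nat_lit 76) (nat_lit 1388694711101) (nat_lit 76) (nat_lit 1383440977967) (nat_lit 1) (nat_lit 4) (nat_lit 2) (nat_lit 5) (nat_lit 2) (nat_lit 4) (nat_lit 412) (nat_lit 336) (nat_lit 272)) (XT.lf (nat_lit 0) (nat_lit 15527828730444) (nat_lit 76) (nat_lit 1571214190018) (nat_lit 76) (nat_lit 1565960367500) (nat_lit 1) (nat_lit 4) (nat_lit 2) (nat_lit 5)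 (nat_lit 2) (nat_lit 4) (nat_lit 413) (nat_lit 336) (nat_lit 271))))))))
noncomputable def xc39 : XT := (XT.nd (nat_lit 48828) (nat_lit 0) (nat_lit 304) (XT.nd (nat_lit 48126) (nat_lit 0) (nat_lit 1900) (XT.nd (nat_lit 47814) (nat_lit 0) (nat_lit 3648) (XT.nd (nat_lit 156) (nat_lit 0) (nat_lit 0) (XT.nd (nat_lit 78) (nat_lit 0) (nat_lit 0) (XT.lf (nat_lit 0) (nat_lit 17905872384116) (nat_lit 76) (nat_lit 1781112385551) (nat_lit 76) (nat_lit 1775858485309) (nat_lit 1) (nat_lit 4) (nat_lit 2) (nat_lit 5) (nat_lit 2) (nat_lit 4) (nat_lit 414) (nat_lit 336) (nat_lit 270)) (XT.lf (nat_lit 0) (nat_lit 20640621234642) (nat_lit 76) (nat_lit 2022496001528) (nat_lit 76) (nat_lit 2017242033698) (nat_lit 1) (nat_lit 4) (nat_lit 2) (nat_lit 5) (nat_lit 2) (nat_lit 4) (nat_lit 415) (nat_lit 336) (nat_lit 269))) (XT.nd (nat_lit 78) (nat_lit 0) (nat_lit 0) (XT.lf (nat_lit 0) (nat_lit 23785581237792) (nat_lit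 76) (nat_lit 2300087760868) (nat_lit 76) (nat_lit 2294833734267) (nat_lit 1) (nat_lit 4) (nat_lit 2) (nat_lit 5) (nat_lit 2) (nat_lit 4) (nat_lit 416) (nat_lit 336) (nat_lit 268)) (XT.lf (nat_lit 0) (nat_lit 27402284219715) (nat_lit 76) (nat_lit 2619318806690) (nat_lit 76) (nat_lit 2614064728984) (nat_lit 1) (nat_lit 4) (nat_lit 2) (nat_lit 5) (nat_lit 2) (nat_lit 4) (nat_lit 417) (nat_lit 336) (nat_lit 267)))) (XT.nd (nat_lit 156) (nat_lit 684) (nat_lit 0) (XT.nd (nat_lit 78) (nat_lit 760) (nat_lit 0) (XT.lf (nat_lit 0) (nat_lit 1683734094) (nat_lit 532) (nat_lit 285299537) (nat_lit 0) (nat_lit 1683734094) (nat_lit 68) (nat_lit 5) (nat_lit 75) (nat_lit 4) (nat_lit 68) (nat_lit 4) (nat_lit 346) (nat_lit 337) (nat_lit 337)) (XT.lf (nat_lit 0) (nat_lit 2436108821) (nat_lit 228) (nat_lit 33270618) (nat_lit 304) (nat_lit 5162252908) (nat_lit 58) (nat_lit 5) (nat_lit 61) (nat_lit 5) (nat_lit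 62) (nat_lit 4) (nat_lit 347) (nat_lit 337) (nat_lit 336))) (XT.nd (nat_lit 78) (nat_lit 380) (nat_lit 0) (XT.lf (nat_lit 0) (nat_lit 1173500655) (nat_lit 304) (nat_lit 2233378609) (nat_lit 76) (nat_lit 4617214278) (nat_lit 54) (nat_lit 5) (nat_lit 58) (nat_lit 5) (nat_lit 55) (nat_lit 4) (nat_lit 348) (nat_lit 337) (nat_lit 335)) (XT.lf (nat_lit 0) (nat_lit 1103592321) (nat_lit 228) (nat_lit 6732727534) (nat_lit 228) (nat_lit 654246554) (nat_lit 49) (nat_lit 4) (nat_lit 52) (nat_lit 5) (nat_lit 52) (nat_lit 4) (nat_lit 349) (nat_lit 337) (nat_lit 334))))) (XT.nd (nat_lit 312) (nat_lit 836) (nat_lit 0) (XT.nd (nat_lit 156) (nat_lit 456) (nat_lit 0) (XT.nd (nat_lit 78) (nat_lit 228) (nat_lit 0) (XT.lf (nat_lit 0) (nat_lit 4844905647) (nat_lit 152) (nat_lit 1138521236) (nat_lit 228) (nat_lit 3044652535) (nat_lit 46) (nat_lit 5) (nat_lit 48) (nat_lit 5) (nat_lit 49) (nat_lit 4) (nat_lit 350)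 (nat_lit 337) (nat_lit 333)) (XT.lf (nat_lit 0) (nat_lit 3612051103) (nat_lit 228) (nat_lit 750103514) (nat_lit 76) (nat_lit 5285383076) (nat_lit 43) (nat_lit 5) (nat_lit 46) (nat_lit 5) (nat_lit 44) (nat_lit 4) (nat_lit 351) (nat_lit 337) (nat_lit 332))) (XT.nd (nat_lit 78) (nat_lit 76) (nat_lit 0) (XT.lf (nat_lit 0) (nat_lit 679743959) (nat_lit 228) (nat_lit 7223976265) (nat_lit 76) (nat_lit 2450053269) (nat_lit 38) (nat_lit 5) (nat_lit 41) (nat_lit 5) (nat_lit 39) (nat_lit 4) (nat_lit 352) (nat_lit 337) (nat_lit 331)) (XT.lf (nat_lit 0) (nat_lit 7276383534) (nat_lit 76) (nat_lit 787212562) (nat_lit 152) (nat_lit 3088518983) (nat_lit 37) (nat_lit 5) (nat_lit 38) (nat_lit 5) (nat_lit 39) (nat_lit 4) (nat_lit 353) (nat_lit 337) (nat_lit 330)))) (XT.nd (nat_lit 156) (nat_lit 380) (nat_lit 0) (XT.nd (nat_lit 78) (nat_lit 228) (nat_lit 0) (XT.lf (nat_lit 0) (nat_lit 4367884135) (nat_lit 228)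 (nat_lit 398161259) (nat_lit 76) (nat_lit 7287108084) (nat_lit 34) (nat_lit 5) (nat_lit 37) (nat_lit 5) (nat_lit 35) (nat_lit 4) (nat_lit 354) (nat_lit 337) (nat_lit 329)) (XT.lf (nat_lit 0) (nat_lit 3472125635) (nat_lit 152) (nat_lit 9466879728) (nat_lit 152) (nat_lit 129739675) (nat_lit 31) (nat_lit 4) (nat_lit 33) (nat_lit 5) (nat_lit 33) (nat_lit 4) (nat_lit 355) (nat_lit 337) (nat_lit 328))) (XT.nd (nat_lit 78) (nat_lit 228) (nat_lit 0) (XT.lf (nat_lit 0) (nat_lit 7442503095) (nat_lit 76) (nat_lit 857179405) (nat_lit 152) (nat_lit 5907144390) (nat_lit 29) (nat_lit 5) (nat_lit 30) (nat_lit 5) (nat_lit 31) (nat_lit 4) (nat_lit 356) (nat_lit 337) (nat_lit 327)) (XT.nd (nat_lit 78) (nat_lit 76) (nat_lit 0) (XT.lf (nat_lit 0) (nat_lit 2649519724) (nat_lit 152) (nat_lit 3971815749) (nat_lit 76) (nat_lit 8865147686) (nat_lit 27) (nat_lit 5) (nat_lit 29) (nat_lit 5) (nat_lit 28) (nat_lit 4)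 (nat_lit 357) (nat_lit 337) (nat_lit 326)) (XT.lf (nat_lit 0) (nat_lit 12382371965) (nat_lit 152) (nat_lit 1255707336) (nat_lit 0) (nat_lit 3288419523) (nat_lit 26) (nat_lit 5) (nat_lit 28) (nat_lit 4) (nat_lit 26) (nat_lit 4) (nat_lit 358) (nat_lit 337) (nat_lit 325))))))) (XT.nd (nat_lit 624) (nat_lit 684) (nat_lit 0) (XT.nd (nat_lit 312) (nat_lit 380) (nat_lit 0) (XT.nd (nat_lit 156) (nat_lit 228) (nat_lit 0) (XT.nd (nat_lit 78) (nat_lit 76) (nat_lit 0) (XT.lf (nat_lit 0) (nat_lit 1329843320) (nat_lit 76) (nat_lit 3812686639) (nat_lit 152) (nat_lit 13398475441) (nat_lit 23) (nat_lit 5) (nat_lit 24) (nat_lit 5) (nat_lit 25) (nat_lit 4) (nat_lit 359) (nat_lit 337) (nat_lit 324)) (XT.lf (nat_lit 0) (nat_lit 3652412028) (nat_lit 76) (nat_lit 12796673835) (nat_lit 76) (nat_lit 3904340177) (nat_lit 22) (nat_lit 4) (nat_lit 23) (nat_lit 5) (nat_lit 23) (nat_lit 4) (nat_lit 360) (nat_lit 337)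 (nat_lit 323))) (XT.nd (nat_lit 78) (nat_lit 76) (nat_lit 0) (XT.lf (nat_lit 0) (nat_lit 5517126524) (nat_lit 76) (nat_lit 1502278783) (nat_lit 152) (nat_lit 15376347629) (nat_lit 20) (nat_lit 5) (nat_lit 21) (nat_lit 5) (nat_lit 22) (nat_lit 4) (nat_lit 361) (nat_lit 337) (nat_lit 322)) (XT.lf (nat_lit 0) (nat_lit 6588324500) (nat_lit 76) (nat_lit 13333230054) (nat_lit 76) (nat_lit 4769119864) (nat_lit 19) (nat_lit 4) (nat_lit 20) (nat_lit 5) (nat_lit 20) (nat_lit 4) (nat_lit 362) (nat_lit 337) (nat_lit 321)))) (XT.nd (nat_lit 156) (nat_lit 152) (nat_lit 0) (XT.nd (nat_lit 78) (nat_lit 76) (nat_lit 0) (XT.lf (nat_lit 0) (nat_lit 6735204114) (nat_lit 76) (nat_lit 684493818) (nat_lit 152) (nat_lit 19866903293) (nat_lit 17) (nat_lit 5) (nat_lit 18) (nat_lit 5) (nat_lit 19) (nat_lit 4) (nat_lit 363) (nat_lit 337) (nat_lit 320)) (XT.lf (nat_lit 0) (nat_lit 5315370309) (nat_lit 76) (nat_lit 16526391763)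 (nat_lit 76) (nat_lit 8365288606) (nat_lit 16) (nat_lit 4) (nat_lit 17) (nat_lit 5) (nat_lit 17) (nat_lit 4) (nat_lit 364) (nat_lit 337) (nat_lit 319))) (XT.nd (nat_lit 78) (nat_lit 0) (nat_lit 0) (XT.lf (nat_lit 0) (nat_lit 2146471446) (nat_lit 76) (nat_lit 2854082669) (nat_lit 152) (nat_lit 28525107969) (nat_lit 14) (nat_lit 5) (nat_lit 15) (nat_lit 5) (nat_lit 16) (nat_lit 4) (nat_lit 365) (nat_lit 337) (nat_lit 318)) (XT.lf (nat_lit 0) (nat_lit 20660521523) (nat_lit 152) (nat_lit 3659461962) (nat_lit 0) (nat_lit 12941953697) (nat_lit 14) (nat_lit 5) (nat_lit 16) (nat_lit 4) (nat_lit 14) (nat_lit 4) (nat_lit 366) (nat_lit 337) (nat_lit 317))))) (XT.nd (nat_lit 312) (nat_lit 380) (nat_lit 0) (XT.nd (nat_lit 156) (nat_lit 76) (nat_lit 0) (XT.nd (nat_lit 78) (nat_lit 152) (nat_lit 0) (XT.lf (nat_lit 0) (nat_lit 29105347869) (nat_lit 76) (nat_lit 10097374314) (nat_lit 76) (nat_lit 2313289470)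 (nat_lit 13) (nat_lit 4) (nat_lit 14) (nat_lit 5) (nat_lit 14) (nat_lit 4) (nat_lit 367) (nat_lit 337) (nat_lit 316)) (XT.lf (nat_lit 0) (nat_lit 13961883276) (nat_lit 152) (nat_lit 25673512986) (nat_lit 0) (nat_lit 6701646087) (nat_lit 11) (nat_lit 5) (nat_lit 13) (nat_lit 4) (nat_lit 11) (nat_lit 4) (nat_lit 368) (nat_lit 337) (nat_lit 315))) (XT.nd (nat_lit 78) (nat_lit 0) (nat_lit 0) (XT.lf (nat_lit 0) (nat_lit 7170805740) (nat_lit 76) (nat_lit 25981432308) (nat_lit 76) (nat_lit 18675324489) (nat_lit 10) (nat_lit 4) (nat_lit 11) (nat_lit 5) (nat_lit 11) (nat_lit 4) (nat_lit 369) (nat_lit 337) (nat_lit 314)) (XT.lf (nat_lit 0) (nat_lit 46099808119) (nat_lit 76) (nat_lit 9671906459) (nat_lit 76) (nat_lit 2325911138) (nat_lit 10) (nat_lit 4) (nat_lit 11) (nat_lit 5) (nat_lit 11) (nat_lit 4) (nat_lit 370) (nat_lit 337) (nat_lit 313)))) (XT.nd (nat_lit 156) (nat_lit 228) (nat_lit 0) (XT.nd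 (nat_lit 78) (nat_lit 0) (nat_lit 0) (XT.lf (nat_lit 0) (nat_lit 16344932848) (nat_lit 152) (nat_lit 39365147613) (nat_lit 0) (nat_lit 9510969787) (nat_lit 8) (nat_lit 5) (nat_lit 10) (nat_lit 4) (nat_lit 8) (nat_lit 4) (nat_lit 371) (nat_lit 337) (nat_lit 312)) (XT.lf (nat_lit 0) (nat_lit 38143993023) (nat_lit 152) (nat_lit 3944841526) (nat_lit 0) (nat_lit 31282103403) (nat_lit 8) (nat_lit 5) (nat_lit 10) (nat_lit 4) (nat_lit 8) (nat_lit 4) (nat_lit 372) (nat_lit 337) (nat_lit 311))) (XT.nd (nat_lit 78) (nat_lit 152) (nat_lit 0) (XT.lf (nat_lit 0) (nat_lit 38420798918) (nat_lit 76) (nat_lit 25573105242) (nat_lit 76) (nat_lit 18686931658) (nat_lit 7) (nat_lit 4) (nat_lit 8) (nat_lit 5) (nat_lit 8) (nat_lit 4) (nat_lit 373) (nat_lit 337) (nat_lit 310)) (XT.nd (nat_lit 78) (nat_lit 76) (nat_lit 0) (XT.lf (nat_lit 0) (nat_lit 301052728) (nat_lit 152) (nat_lit 6281100398) (nat_lit 76) (nat_lit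 86805733075) (nat_lit 6) (nat_lit 5) (nat_lit 8) (nat_lit 5) (nat_lit 7) (nat_lit 4) (nat_lit 374) (nat_lit 337) (nat_lit 309)) (XT.lf (nat_lit 0) (nat_lit 22274761904) (nat_lit 152) (nat_lit 67425765599) (nat_lit 0) (nat_lit 15862120942) (nat_lit 5) (nat_lit 5) (nat_lit 7) (nat_lit 4) (nat_lit 5) (nat_lit 4) (nat_lit 375) (nat_lit 337) (nat_lit 308))))))))
noncomputable def xc40 : XT := (XT.nd (nat_lit 1248) (nat_lit 0) (nat_lit 0) (XT.nd (nat_lit 624) (nat_lit 76) (nat_lit 0) (XT.nd (nat_lit 312) (nat_lit 152) (nat_lit 0) (XT.nd (nat_lit 156) (nat_lit 0) (nat_lit 0) (XT.nd (nat_lit 78) (nat_lit 76) (nat_lit 0) (XT.lf (nat_lit 0) (nat_lit 47804895512) (nat_lit 152) (nat_lit 30360433744) (nat_lit 0) (nat_lit 41377470198) (nat_lit 5) (nat_lit 5) (nat_lit 7) (nat_lit 4) (nat_lit 5) (nat_lit 4) (nat_lit 376) (nat_lit 337) (nat_lit 307)) (XT.lf (nat_lit 0) (nat_lit 12706804434) (nat_lit 76)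 (nat_lit 64668304278) (nat_lit 76) (nat_lit 58228023006) (nat_lit 4) (nat_lit 4) (nat_lit 5) (nat_lit 5) (nat_lit 5) (nat_lit 4) (nat_lit 377) (nat_lit 337) (nat_lit 306))) (XT.nd (nat_lit 78) (nat_lit 0) (nat_lit 0) (XT.lf (nat_lit 0) (nat_lit 63895506835) (nat_lit 76) (nat_lit 48282354829) (nat_lit 76) (nat_lit 41830894463) (nat_lit 4) (nat_lit 4) (nat_lit 5) (nat_lit 5) (nat_lit 5) (nat_lit 4) (nat_lit 378) (nat_lit 337) (nat_lit 305)) (XT.lf (nat_lit 0) (nat_lit 122608464909) (nat_lit 76) (nat_lit 29516994310) (nat_lit 76) (nat_lit 23055812992) (nat_lit 4) (nat_lit 4) (nat_lit 5) (nat_lit 5) (nat_lit 5) (nat_lit 4) (nat_lit 379) (nat_lit 337) (nat_lit 304)))) (XT.nd (nat_lit 156) (nat_lit 0) (nat_lit 0) (XT.nd (nat_lit 78) (nat_lit 152) (nat_lit 0) (XT.lf (nat_lit 0) (nat_lit 189994410446) (nat_lit 76) (nat_lit 8005074361) (nat_lit 76) (nat_lit 1535440042) (nat_lit 4) (nat_lit 4) (nat_lit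 5) (nat_lit 5) (nat_lit 5) (nat_lit 4) (nat_lit 380) (nat_lit 337) (nat_lit 303)) (XT.lf (nat_lit 0) (nat_lit 23428601973) (nat_lit 152) (nat_lit 186526823825) (nat_lit 0) (nat_lit 17431393867) (nat_lit 2) (nat_lit 5) (nat_lit 4) (nat_lit 4) (nat_lit 2) (nat_lit 4) (nat_lit 381) (nat_lit 337) (nat_lit 302))) (XT.nd (nat_lit 78) (nat_lit 0) (nat_lit 0) (XT.lf (nat_lit 0) (nat_lit 52500342159) (nat_lit 152) (nat_lit 160379431176) (nat_lit 0) (nat_lit 46497215827) (nat_lit 2) (nat_lit 5) (nat_lit 4) (nat_lit 4) (nat_lit 2) (nat_lit 4) (nat_lit 382) (nat_lit 337) (nat_lit 301)) (XT.lf (nat_lit 0) (nat_lit 85885056561) (nat_lit 152) (nat_lit 130407667871) (nat_lit 0) (nat_lit 79876783946) (nat_lit 2) (nat_lit 5) (nat_lit 4) (nat_lit 4) (nat_lit 2) (nat_lit 4) (nat_lit 383) (nat_lit 337) (nat_lit 300))))) (XT.nd (nat_lit 312) (nat_lit 0) (nat_lit 0) (XT.nd (nat_lit 156) (nat_lit 76) (nat_lit 0)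 (XT.nd (nat_lit 78) (nat_lit 0) (nat_lit 0) (XT.lf (nat_lit 0) (nat_lit 124235924374) (nat_lit 152) (nat_lit 96025129845) (nat_lit 0) (nat_lit 118223176730) (nat_lit 2) (nat_lit 5) (nat_lit 4) (nat_lit 4) (nat_lit 2) (nat_lit 4) (nat_lit 384) (nat_lit 337) (nat_lit 299)) (XT.lf (nat_lit 0) (nat_lit 168303288663) (nat_lit 152) (nat_lit 56559115267) (nat_lit 0) (nat_lit 162286649690) (nat_lit 2) (nat_lit 5) (nat_lit 4) (nat_lit 4) (nat_lit 2) (nat_lit 4) (nat_lit 385) (nat_lit 337) (nat_lit 298))) (XT.nd (nat_lit 78) (nat_lit 76) (nat_lit 0) (XT.lf (nat_lit 0) (nat_lit 218949336991) (nat_lit 152) (nat_lit 11237462981) (nat_lit 0) (nat_lit 212929314254) (nat_lit 2) (nat_lit 5) (nat_lit 4) (nat_lit 4) (nat_lit 2) (nat_lit 4) (nat_lit 386) (nat_lit 337) (nat_lit 297)) (XT.lf (nat_lit 0) (nat_lit 42976409025) (nat_lit 76) (nat_lit 235222144949) (nat_lit 76) (nat_lit 229199179807) (nat_lit 1) (nat_lit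 4) (nat_lit 2) (nat_lit 5) (nat_lit 2) (nat_lit 4) (nat_lit 387) (nat_lit 337) (nat_lit 296)))) (XT.nd (nat_lit 156) (nat_lit 0) (nat_lit 0) (XT.nd (nat_lit 78) (nat_lit 0) (nat_lit 0) (XT.lf (nat_lit 0) (nat_lit 105951716443) (nat_lit 76) (nat_lit 240685615008) (nat_lit 76) (nat_lit 234660091254) (nat_lit 1) (nat_lit 4) (nat_lit 2) (nat_lit 5) (nat_lit 2) (nat_lit 4) (nat_lit 388) (nat_lit 337) (nat_lit 295)) (XT.lf (nat_lit 0) (nat_lit 178328839964) (nat_lit 76) (nat_lit 246991356281) (nat_lit 76) (nat_lit 240963607648) (nat_lit 1) (nat_lit 4) (nat_lit 2) (nat_lit 5) (nat_lit 2) (nat_lit 4) (nat_lit 389) (nat_lit 337) (nat_lit 294))) (XT.nd (nat_lit 78) (nat_lit 0) (nat_lit 0) (XT.lf (nat_lit 0) (nat_lit 261523853744) (nat_lit 76) (nat_lit 254262741969) (nat_lit 76) (nat_lit 248233058657) (nat_lit 1) (nat_lit 4) (nat_lit 2) (nat_lit 5) (nat_lit 2) (nat_lit 4) (nat_lit 390) (nat_lit 337)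 (nat_lit 293)) (XT.lf (nat_lit 0) (nat_lit 357164486315) (nat_lit 76) (nat_lit 262642038312) (nat_lit 76) (nat_lit 256610672671) (nat_lit 1) (nat_lit 4) (nat_lit 2) (nat_lit 5) (nat_lit 2) (nat_lit 4) (nat_lit 391) (nat_lit 337) (nat_lit 292)))))) (XT.nd (nat_lit 624) (nat_lit 0) (nat_lit 0) (XT.nd (nat_lit 312) (nat_lit 0) (nat_lit 0) (XT.nd (nat_lit 156) (nat_lit 0) (nat_lit 0) (XT.nd (nat_lit 78) (nat_lit 0) (nat_lit 0) (XT.lf (nat_lit 0) (nat_lit 467121967444) (nat_lit 76) (nat_lit 272293188064) (nat_lit 76) (nat_lit 266260359529) (nat_lit 1) (nat_lit 4) (nat_lit 2) (nat_lit 5) (nat_lit 2) (nat_lit 4) (nat_lit 392) (nat_lit 337) (nat_lit 291)) (XT.lf (nat_lit 0) (nat_lit 593547639153) (nat_lit 76) (nat_lit 283405018070) (nat_lit 76) (nat_lit 277370917452) (nat_lit 1) (nat_lit 4) (nat_lit 2) (nat_lit 5) (nat_lit 2) (nat_lit 4) (nat_lit 393) (nat_lit 337) (nat_lit 290))) (XT.nd (nat_lit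 78) (nat_lit 0) (nat_lit 0) (XT.lf (nat_lit 0) (nat_lit 738915047192) (nat_lit 76) (nat_lit 296194933698) (nat_lit 76) (nat_lit 290159726921) (nat_lit 1) (nat_lit 4) (nat_lit 2) (nat_lit 5) (nat_lit 2) (nat_lit 4) (nat_lit 394) (nat_lit 337) (nat_lit 289)) (XT.lf (nat_lit 0) (nat_lit 906068336503) (nat_lit 76) (nat_lit 310913172429) (nat_lit 76) (nat_lit 304877003775) (nat_lit 1) (nat_lit 4) (nat_lit 2) (nat_lit 5) (nat_lit 2) (nat_lit 4) (nat_lit 395) (nat_lit 337) (nat_lit 288)))) (XT.nd (nat_lit 156) (nat_lit 0) (nat_lit 0) (XT.nd (nat_lit 78) (nat_lit 0) (nat_lit 0) (XT.lf (nat_lit 0) (nat_lit 1098277897526) (nat_lit 76) (nat_lit 327847699802) (nat_lit 76) (nat_lit 321810694733) (nat_lit 1) (nat_lit 4) (nat_lit 2) (nat_lit 5) (nat_lit 2) (nat_lit 4) (nat_lit 396) (nat_lit 337) (nat_lit 287)) (XT.lf (nat_lit 0) (nat_lit 1319304352110) (nat_lit 76) (nat_lit 347329843527) (nat_lit 76) (nat_lit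 341292111141) (nat_lit 1) (nat_lit 4) (nat_lit 2) (nat_lit 5) (nat_lit 2) (nat_lit 4) (nat_lit 397) (nat_lit 337) (nat_lit 286))) (XT.nd (nat_lit 78) (nat_lit 0) (nat_lit 0) (XT.lf (nat_lit 0) (nat_lit 1573472130887) (nat_lit 76) (nat_lit 369740775981) (nat_lit 76) (nat_lit 363702411145) (nat_lit 1) (nat_lit 4) (nat_lit 2) (nat_lit 5) (nat_lit 2) (nat_lit 4) (nat_lit 398) (nat_lit 337) (nat_lit 285)) (XT.lf (nat_lit 0) (nat_lit 1865754081702) (nat_lit 76) (nat_lit 395518971930) (nat_lit 76) (nat_lit 389480057138) (nat_lit 1) (nat_lit 4) (nat_lit 2) (nat_lit 5) (nat_lit 2) (nat_lit 4) (nat_lit 399) (nat_lit 337) (nat_lit 284))))) (XT.nd (nat_lit 312) (nat_lit 0) (nat_lit 0) (XT.nd (nat_lit 156) (nat_lit 0) (nat_lit 0) (XT.nd (nat_lit 78) (nat_lit 0) (nat_lit 0) (XT.lf (nat_lit 0) (nat_lit 2201868764463) (nat_lit 76) (nat_lit 425168787382) (nat_lit 76) (nat_lit 419129394367) (nat_lit 1) (nat_lit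 4) (nat_lit 2) (nat_lit 5) (nat_lit 2) (nat_lit 4) (nat_lit 400) (nat_lit 337) (nat_lit 283)) (XT.lf (nat_lit 0) (nat_lit 2588392336007) (nat_lit 76) (nat_lit 459270327420) (nat_lit 76) (nat_lit 453230518559) (nat_lit 1) (nat_lit 4) (nat_lit 2) (nat_lit 5) (nat_lit 2) (nat_lit 4) (nat_lit 401) (nat_lit 337) (nat_lit 282))) (XT.nd (nat_lit 78) (nat_lit 0) (nat_lit 0) (XT.lf (nat_lit 0) (nat_lit 3032887214037) (nat_lit 76) (nat_lit 498490796091) (nat_lit 76) (nat_lit 492450625625) (nat_lit 1) (nat_lit 4) (nat_lit 2) (nat_lit 5) (nat_lit 2) (nat_lit 4) (nat_lit 402) (nat_lit 337) (nat_lit 281)) (XT.lf (nat_lit 0) (nat_lit 3544050037472) (nat_lit 76) (nat_lit 543597550388) (nat_lit 76) (nat_lit 537557065483) (nat_lit 1) (nat_lit 4) (nat_lit 2) (nat_lit 5) (nat_lit 2) (nat_lit 4) (nat_lit 403) (nat_lit 337) (nat_lit 280)))) (XT.nd (nat_lit 156) (nat_lit 0) (nat_lit 0) (XT.nd (nat_lit 78) (nat_lit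 0) (nat_lit 0) (XT.lf (nat_lit 0) (nat_lit 4131881818074) (nat_lit 76) (nat_lit 595473113767) (nat_lit 76) (nat_lit 589432355436) (nat_lit 1) (nat_lit 4) (nat_lit 2) (nat_lit 5) (nat_lit 2) (nat_lit 4) (nat_lit 404) (nat_lit 337) (nat_lit 279)) (XT.lf (nat_lit 0) (nat_lit 4807883612421) (nat_lit 76) (nat_lit 655132442902) (nat_lit 76) (nat_lit 649091446809) (nat_lit 1) (nat_lit 4) (nat_lit 2) (nat_lit 5) (nat_lit 2) (nat_lit 4) (nat_lit 405) (nat_lit 337) (nat_lit 278))) (XT.nd (nat_lit 78) (nat_lit 0) (nat_lit 0) (XT.lf (nat_lit 0) (nat_lit 5585281542576) (nat_lit 76) (nat_lit 723742785536) (nat_lit 76) (nat_lit 717701582694) (nat_lit 1) (nat_lit 4) (nat_lit 2) (nat_lit 5) (nat_lit 2) (nat_lit 4) (nat_lit 406) (nat_lit 337) (nat_lit 277)) (XT.nd (nat_lit 78) (nat_lit 0) (nat_lit 0) (XT.lf (nat_lit 0) (nat_lit 6479285568041) (nat_lit 76) (nat_lit 802646517938) (nat_lit 76) (nat_lit 796605135315)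 (nat_lit 1) (nat_lit 4) (nat_lit 2) (nat_lit 5) (nat_lit 2) (nat_lit 4) (nat_lit 407) (nat_lit 337) (nat_lit 276)) (XT.lf (nat_lit 0) (nat_lit 7507387071924) (nat_lit 76) (nat_lit 893387408787) (nat_lit 76) (nat_lit 887345869832) (nat_lit 1) (nat_lit 4) (nat_lit 2) (nat_lit 5) (nat_lit 2) (nat_lit 4) (nat_lit 408) (nat_lit 337) (nat_lit 275))))))))
noncomputable def xc41 : XT := (XT.nd (nat_lit 48594) (nat_lit 0) (nat_lit 912) (XT.nd (nat_lit 624) (nat_lit 0) (nat_lit 0) (XT.nd (nat_lit 312) (nat_lit 0) (nat_lit 0) (XT.nd (nat_lit 156) (nat_lit 0) (nat_lit 0) (XT.nd (nat_lit 78) (nat_lit 0) (nat_lit 0) (XT.lf (nat_lit 0) (nat_lit 8689701083648) (nat_lit 76) (nat_lit 997740823338) (nat_lit 76) (nat_lit 991699148442) (nat_lit 1) (nat_lit 4) (nat_lit 2) (nat_lit 5) (nat_lit 2) (nat_lit 4) (nat_lit 409) (nat_lit 337) (nat_lit 274)) (XT.lf (nat_lit 0) (nat_lit 10049359833879) (nat_lit 76) (nat_lit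 1117748458831) (nat_lit 76) (nat_lit 1111706665726) (nat_lit 1) (nat_lit 4) (nat_lit 2) (nat_lit 5) (nat_lit 2) (nat_lit 4) (nat_lit 410) (nat_lit 337) (nat_lit 273))) (XT.nd (nat_lit 78) (nat_lit 0) (nat_lit 0) (XT.lf (nat_lit 0) (nat_lit 11612965341641) (nat_lit 76) (nat_lit 1255758290745) (nat_lit 76) (nat_lit 1249716394849) (nat_lit 1) (nat_lit 4) (nat_lit 2) (nat_lit 5) (nat_lit 2) (nat_lit 4) (nat_lit 411) (nat_lit 337) (nat_lit 272)) (XT.lf (nat_lit 0) (nat_lit 13411109888608) (nat_lit 76) (nat_lit 1414470511442) (nat_lit 76) (nat_lit 1408428526163) (nat_lit 1) (nat_lit 4) (nat_lit 2) (nat_lit 5) (nat_lit 2) (nat_lit 4) (nat_lit 412) (nat_lit 337) (nat_lit 271)))) (XT.nd (nat_lit 156) (nat_lit 0) (nat_lit 0) (XT.nd (nat_lit 78) (nat_lit 0) (nat_lit 0) (XT.lf (nat_lit 0) (nat_lit 15478974563744) (nat_lit 76) (nat_lit 1596990360024) (nat_lit 76) (nat_lit 1590948297020) (nat_lit 1) (nat_lit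 4) (nat_lit 2) (nat_lit 5) (nat_lit 2) (nat_lit 4) (nat_lit 413) (nat_lit 337) (nat_lit 270)) (XT.lf (nat_lit 0) (nat_lit 17857017588952) (nat_lit 76) (nat_lit 1806888877005) (nat_lit 76) (nat_lit 1800846746415) (nat_lit 1) (nat_lit 4) (nat_lit 2) (nat_lit 5) (nat_lit 2) (nat_lit 4) (nat_lit 414) (nat_lit 337) (nat_lit 269))) (XT.nd (nat_lit 78) (nat_lit 0) (nat_lit 0) (XT.lf (nat_lit 0) (nat_lit 20591765892987) (nat_lit 76) (nat_lit 2048272772501) (nat_lit 76) (nat_lit 2042230583140) (nat_lit 1) (nat_lit 4) (nat_lit 2) (nat_lit 5) (nat_lit 2) (nat_lit 4) (nat_lit 415) (nat_lit 337) (nat_lit 268)) (XT.lf (nat_lit 0) (nat_lit 23736725420928) (nat_lit 76) (nat_lit 2325864774902) (nat_lit 76) (nat_lit 2319822534435) (nat_lit 1) (nat_lit 4) (nat_lit 2) (nat_lit 5) (nat_lit 2) (nat_lit 4) (nat_lit 416) (nat_lit 337) (nat_lit 267))))) (XT.nd (nat_lit 47658) (nat_lit 0) (nat_lit 3420) (XT.nd (nat_lit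 47502) (nat_lit 0) (nat_lit 5092) (XT.nd (nat_lit 47424) (nat_lit 0) (nat_lit 6004) (XT.lf (nat_lit 0) (nat_lit 27353427989626) (nat_lit 76) (nat_lit 2645096032081) (nat_lit 76) (nat_lit 2639053747175) (nat_lit 1) (nat_lit 4) (nat_lit 2) (nat_lit 5) (nat_lit 2) (nat_lit 4) (nat_lit 417) (nat_lit 337) (nat_lit 266)) (XT.lf (nat_lit 0) (nat_lit 512154071) (nat_lit 380) (nat_lit 2387077879) (nat_lit 0) (nat_lit 512154071) (nat_lit 80) (nat_lit 5) (nat_lit 85) (nat_lit 4) (nat_lit 80) (nat_lit 4) (nat_lit 344) (nat_lit 338) (nat_lit 338))) (XT.nd (nat_lit 78) (nat_lit 456) (nat_lit 0) (XT.lf (nat_lit 0) (nat_lit 136657511) (nat_lit 456) (nat_lit 3069401289) (nat_lit 76) (nat_lit 3841249376) (nat_lit 74) (nat_lit 5) (nat_lit 80) (nat_lit 5) (nat_lit 75) (nat_lit 4) (nat_lit 345) (nat_lit 338) (nat_lit 337)) (XT.lf (nat_lit 0) (nat_lit 6055849278) (nat_lit 532) (nat_lit 1032944691) (nat_lit 0)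 (nat_lit 250418390) (nat_lit 68) (nat_lit 5) (nat_lit 75) (nat_lit 4) (nat_lit 68) (nat_lit 4) (nat_lit 346) (nat_lit 338) (nat_lit 336)))) (XT.nd (nat_lit 156) (nat_lit 608) (nat_lit 0) (XT.nd (nat_lit 78) (nat_lit 304) (nat_lit 0) (XT.lf (nat_lit 0) (nat_lit 1353481904) (nat_lit 228) (nat_lit 3217149417) (nat_lit 304) (nat_lit 3123487399) (nat_lit 58) (nat_lit 5) (nat_lit 61) (nat_lit 5) (nat_lit 62) (nat_lit 4) (nat_lit 347) (nat_lit 338) (nat_lit 335)) (XT.lf (nat_lit 0) (nat_lit 2639586772) (nat_lit 304) (nat_lit 3949632373) (nat_lit 76) (nat_lit 1531306804) (nat_lit 54) (nat_lit 5) (nat_lit 58) (nat_lit 5) (nat_lit 55) (nat_lit 4) (nat_lit 348) (nat_lit 338) (nat_lit 334))) (XT.nd (nat_lit 78) (nat_lit 380) (nat_lit 0) (XT.lf (nat_lit 0) (nat_lit 226873609) (nat_lit 228) (nat_lit 1280611613) (nat_lit 76) (nat_lit 7114528530) (nat_lit 51) (nat_lit 5) (nat_lit 54) (nat_lit 5) (nat_lit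 52) (nat_lit 5) (nat_lit 349) (nat_lit 338) (nat_lit 333)) (XT.lf (nat_lit 0) (nat_lit 1687218150) (nat_lit 152) (nat_lit 4694356934) (nat_lit 228) (nat_lit 2812861724) (nat_lit 46) (nat_lit 5) (nat_lit 48) (nat_lit 5) (nat_lit 49) (nat_lit 4) (nat_lit 350) (nat_lit 338) (nat_lit 332)))))) (XT.nd (nat_lit 624) (nat_lit 988) (nat_lit 0) (XT.nd (nat_lit 312) (nat_lit 608) (nat_lit 0) (XT.nd (nat_lit 156) (nat_lit 532) (nat_lit 0) (XT.nd (nat_lit 78) (nat_lit 152) (nat_lit 0) (XT.lf (nat_lit 0) (nat_lit 3364612423) (nat_lit 228) (nat_lit 4795509420) (nat_lit 76) (nat_lit 1690858237) (nat_lit 43) (nat_lit 5) (nat_lit 46) (nat_lit 5) (nat_lit 44) (nat_lit 4) (nat_lit 351) (nat_lit 338) (nat_lit 331)) (XT.lf (nat_lit 0) (nat_lit 8741295571) (nat_lit 152) (nat_lit 1576923511) (nat_lit 228) (nat_lit 280880470) (nat_lit 41) (nat_lit 5) (nat_lit 43) (nat_lit 5) (nat_lit 44) (nat_lit 4) (nat_lit 352)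 (nat_lit 338) (nat_lit 330))) (XT.nd (nat_lit 78) (nat_lit 228) (nat_lit 0) (XT.lf (nat_lit 0) (nat_lit 1276386859) (nat_lit 76) (nat_lit 5358638641) (nat_lit 152) (nat_lit 4801599975) (nat_lit 37) (nat_lit 5) (nat_lit 38) (nat_lit 5) (nat_lit 39) (nat_lit 4) (nat_lit 353) (nat_lit 338) (nat_lit 329)) (XT.lf (nat_lit 0) (nat_lit 2219744556) (nat_lit 228) (nat_lit 7580410264) (nat_lit 76) (nat_lit 2582533099) (nat_lit 34) (nat_lit 5) (nat_lit 37) (nat_lit 5) (nat_lit 35) (nat_lit 4) (nat_lit 354) (nat_lit 338) (nat_lit 328)))) (XT.nd (nat_lit 156) (nat_lit 304) (nat_lit 0) (XT.nd (nat_lit 78) (nat_lit 228) (nat_lit 0) (XT.lf (nat_lit 0) (nat_lit 8520719723) (nat_lit 76) (nat_lit 1691102793) (nat_lit 152) (nat_lit 3232839352) (nat_lit 33) (nat_lit 5) (nat_lit 34) (nat_lit 5) (nat_lit 35) (nat_lit 4) (nat_lit 355) (nat_lit 338) (nat_lit 327)) (XT.lf (nat_lit 0) (nat_lit 4791169864) (nat_lit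 228) (nat_lit 2232630729) (nat_lit 76) (nat_lit 7609812347) (nat_lit 30) (nat_lit 5) (nat_lit 33) (nat_lit 5) (nat_lit 31) (nat_lit 4) (nat_lit 356) (nat_lit 338) (nat_lit 326))) (XT.nd (nat_lit 78) (nat_lit 152) (nat_lit 0) (XT.lf (nat_lit 0) (nat_lit 603668623) (nat_lit 76) (nat_lit 13500887161) (nat_lit 76) (nat_lit 1867546366) (nat_lit 28) (nat_lit 4) (nat_lit 29) (nat_lit 5) (nat_lit 29) (nat_lit 4) (nat_lit 357) (nat_lit 338) (nat_lit 325)) (XT.lf (nat_lit 0) (nat_lit 3454330063) (nat_lit 76) (nat_lit 3940934714) (nat_lit 152) (nat_lit 10065556485) (nat_lit 26) (nat_lit 5) (nat_lit 27) (nat_lit 5) (nat_lit 28) (nat_lit 4) (nat_lit 358) (nat_lit 338) (nat_lit 324))))) (XT.nd (nat_lit 312) (nat_lit 532) (nat_lit 0) (XT.nd (nat_lit 156) (nat_lit 228) (nat_lit 0) (XT.nd (nat_lit 78) (nat_lit 152) (nat_lit 0) (XT.lf (nat_lit 0) (nat_lit 6286930596) (nat_lit 76) (nat_lit 12065133597) (nat_lit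 76) (nat_lit 783753842) (nat_lit 25) (nat_lit 4) (nat_lit 26) (nat_lit 5) (nat_lit 26) (nat_lit 4) (nat_lit 359) (nat_lit 338) (nat_lit 323)) (XT.lf (nat_lit 0) (nat_lit 8881301422) (nat_lit 76) (nat_lit 911417936) (nat_lit 152) (nat_lit 11218593657) (nat_lit 23) (nat_lit 5) (nat_lit 24) (nat_lit 5) (nat_lit 25) (nat_lit 4) (nat_lit 360) (nat_lit 338) (nat_lit 322))) (XT.nd (nat_lit 78) (nat_lit 152) (nat_lit 0) (XT.lf (nat_lit 0) (nat_lit 11138019204) (nat_lit 76) (nat_lit 11390795322) (nat_lit 76) (nat_lit 588167980) (nat_lit 22) (nat_lit 4) (nat_lit 23) (nat_lit 5) (nat_lit 23) (nat_lit 4) (nat_lit 361) (nat_lit 338) (nat_lit 321)) (XT.lf (nat_lit 0) (nat_lit 11486708732) (nat_lit 152) (nat_lit 12644260169) (nat_lit 0) (nat_lit 1350618611) (nat_lit 20) (nat_lit 5) (nat_lit 22) (nat_lit 4) (nat_lit 20) (nat_lit 4) (nat_lit 362) (nat_lit 338) (nat_lit 320)))) (XT.nd (nat_lit 156) (nat_lit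 304) (nat_lit 0) (XT.nd (nat_lit 78) (nat_lit 152) (nat_lit 0) (XT.lf (nat_lit 0) (nat_lit 13731979245) (nat_lit 76) (nat_lit 12331013064) (nat_lit 76) (nat_lit 2078699119) (nat_lit 19) (nat_lit 4) (nat_lit 20) (nat_lit 5) (nat_lit 20) (nat_lit 4) (nat_lit 363) (nat_lit 338) (nat_lit 319)) (XT.lf (nat_lit 0) (nat_lit 11534644435) (nat_lit 152) (nat_lit 17656340516) (nat_lit 0) (nat_lit 1948183195) (nat_lit 17) (nat_lit 5) (nat_lit 19) (nat_lit 4) (nat_lit 17) (nat_lit 4) (nat_lit 364) (nat_lit 338) (nat_lit 318))) (XT.nd (nat_lit 78) (nat_lit 228) (nat_lit 0) (XT.lf (nat_lit 0) (nat_lit 11567124929) (nat_lit 76) (nat_lit 16308970841) (nat_lit 76) (nat_lit 6641137465) (nat_lit 16) (nat_lit 4) (nat_lit 17) (nat_lit 5) (nat_lit 17) (nat_lit 4) (nat_lit 365) (nat_lit 338) (nat_lit 317)) (XT.nd (nat_lit 78) (nat_lit 76) (nat_lit 0) (XT.lf (nat_lit 0) (nat_lit 7597798958) (nat_lit 76) (nat_lit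 737004270) (nat_lit 152) (nat_lit 30012790112) (nat_lit 14) (nat_lit 5) (nat_lit 15) (nat_lit 5) (nat_lit 16) (nat_lit 4) (nat_lit 366) (nat_lit 338) (nat_lit 316)) (XT.lf (nat_lit 0) (nat_lit 398567991) (nat_lit 76) (nat_lit 25670945934) (nat_lit 76) (nat_lit 16596760024) (nat_lit 13) (nat_lit 4) (nat_lit 14) (nat_lit 5) (nat_lit 14) (nat_lit 4) (nat_lit 367) (nat_lit 338) (nat_lit 315))))))))
noncomputable def xc42 : XT := (XT.nd (nat_lit 1248) (nat_lit 76) (nat_lit 0) (XT.nd (nat_lit 624) (nat_lit 304) (nat_lit 0) (XT.nd (nat_lit 312) (nat_lit 304) (nat_lit 0) (XT.nd (nat_lit 156) (nat_lit 76) (nat_lit 0) (XT.nd (nat_lit 78) (nat_lit 152) (nat_lit 0) (XT.lf (nat_lit 0) (nat_lit 37669893655) (nat_lit 76) (nat_lit 9514502483) (nat_lit 76) (nat_lit 390776294) (nat_lit 13) (nat_lit 4) (nat_lit 14) (nat_lit 5) (nat_lit 14) (nat_lit 4) (nat_lit 368) (nat_lit 338) (nat_lit 314)) (XT.lf (nat_lit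 0) (nat_lit 18073425987) (nat_lit 152) (nat_lit 25467035538) (nat_lit 0) (nat_lit 9585643864) (nat_lit 11) (nat_lit 5) (nat_lit 13) (nat_lit 4) (nat_lit 11) (nat_lit 4) (nat_lit 369) (nat_lit 338) (nat_lit 313))) (XT.nd (nat_lit 78) (nat_lit 0) (nat_lit 0) (XT.lf (nat_lit 0) (nat_lit 11960483459) (nat_lit 76) (nat_lit 28008052773) (nat_lit 76) (nat_lit 19485585866) (nat_lit 10) (nat_lit 4) (nat_lit 11) (nat_lit 5) (nat_lit 11) (nat_lit 4) (nat_lit 370) (nat_lit 338) (nat_lit 312)) (XT.lf (nat_lit 0) (nat_lit 56244393997) (nat_lit 76) (nat_lit 9496088619) (nat_lit 76) (nat_lit 943461029) (nat_lit 10) (nat_lit 4) (nat_lit 11) (nat_lit 5) (nat_lit 11) (nat_lit 4) (nat_lit 371) (nat_lit 338) (nat_lit 311)))) (XT.nd (nat_lit 156) (nat_lit 152) (nat_lit 0) (XT.nd (nat_lit 78) (nat_lit 0) (nat_lit 0) (XT.lf (nat_lit 0) (nat_lit 20336731384) (nat_lit 152) (nat_lit 42150855426) (nat_lit 0) (nat_lit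 12393347799) (nat_lit 8) (nat_lit 5) (nat_lit 10) (nat_lit 4) (nat_lit 8) (nat_lit 4) (nat_lit 372) (nat_lit 338) (nat_lit 310)) (XT.lf (nat_lit 0) (nat_lit 45204773375) (nat_lit 152) (nat_lit 1824337904) (nat_lit 0) (nat_lit 37240273300) (nat_lit 8) (nat_lit 5) (nat_lit 10) (nat_lit 4) (nat_lit 8) (nat_lit 4) (nat_lit 373) (nat_lit 338) (nat_lit 309))) (XT.nd (nat_lit 78) (nat_lit 76) (nat_lit 0) (XT.lf (nat_lit 0) (nat_lit 46666571860) (nat_lit 76) (nat_lit 28150631355) (nat_lit 76) (nat_lit 20167769115) (nat_lit 7) (nat_lit 4) (nat_lit 8) (nat_lit 5) (nat_lit 8) (nat_lit 4) (nat_lit 374) (nat_lit 338) (nat_lit 308)) (XT.lf (nat_lit 0) (nat_lit 1438437053) (nat_lit 152) (nat_lit 5006880268) (nat_lit 76) (nat_lit 100863332001) (nat_lit 6) (nat_lit 5) (nat_lit 8) (nat_lit 5) (nat_lit 7) (nat_lit 4) (nat_lit 375) (nat_lit 338) (nat_lit 307))))) (XT.nd (nat_lit 312) (nat_lit 152) (nat_lit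 0) (XT.nd (nat_lit 156) (nat_lit 76) (nat_lit 0) (XT.nd (nat_lit 78) (nat_lit 0) (nat_lit 0) (XT.lf (nat_lit 0) (nat_lit 26639307414) (nat_lit 152) (nat_lit 75455707550) (nat_lit 0) (nat_lit 19220127993) (nat_lit 5) (nat_lit 5) (nat_lit 7) (nat_lit 4) (nat_lit 5) (nat_lit 4) (nat_lit 376) (nat_lit 338) (nat_lit 306)) (XT.lf (nat_lit 0) (nat_lit 55865483077) (nat_lit 152) (nat_lit 33102391946) (nat_lit 0) (nat_lit 48435124562) (nat_lit 5) (nat_lit 5) (nat_lit 7) (nat_lit 4) (nat_lit 5) (nat_lit 4) (nat_lit 377) (nat_lit 338) (nat_lit 305))) (XT.nd (nat_lit 78) (nat_lit 0) (nat_lit 0) (XT.lf (nat_lit 0) (nat_lit 16271546139) (nat_lit 76) (nat_lit 73523506585) (nat_lit 76) (nat_lit 66083427118) (nat_lit 4) (nat_lit 4) (nat_lit 5) (nat_lit 5) (nat_lit 5) (nat_lit 4) (nat_lit 378) (nat_lit 338) (nat_lit 304)) (XT.lf (nat_lit 0) (nat_lit 74922198982) (nat_lit 76) (nat_lit 54789887763) (nat_lit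 76) (nat_lit 47341355295) (nat_lit 4) (nat_lit 4) (nat_lit 5) (nat_lit 5) (nat_lit 5) (nat_lit 4) (nat_lit 379) (nat_lit 338) (nat_lit 303)))) (XT.nd (nat_lit 156) (nat_lit 152) (nat_lit 0) (XT.nd (nat_lit 78) (nat_lit 0) (nat_lit 0) (XT.lf (nat_lit 0) (nat_lit 142253966056) (nat_lit 76) (nat_lit 33305569290) (nat_lit 76) (nat_lit 25849686386) (nat_lit 4) (nat_lit 4) (nat_lit 5) (nat_lit 5) (nat_lit 5) (nat_lit 4) (nat_lit 380) (nat_lit 338) (nat_lit 302)) (XT.lf (nat_lit 0) (nat_lit 219584208022) (nat_lit 76) (nat_lit 8650205806) (nat_lit 76) (nat_lit 1187931219) (nat_lit 4) (nat_lit 4) (nat_lit 5) (nat_lit 5) (nat_lit 5) (nat_lit 4) (nat_lit 381) (nat_lit 338) (nat_lit 301))) (XT.nd (nat_lit 78) (nat_lit 0) (nat_lit 0) (XT.lf (nat_lit 0) (nat_lit 27457433988) (nat_lit 152) (nat_lit 213453456576) (nat_lit 0) (nat_lit 20542774199) (nat_lit 2) (nat_lit 5) (nat_lit 4) (nat_lit 4) (nat_lit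 2) (nat_lit 4) (nat_lit 382) (nat_lit 338) (nat_lit 300)) (XT.lf (nat_lit 0) (nat_lit 60822821065) (nat_lit 152) (nat_lit 183521223398) (nat_lit 0) (nat_lit 53903686246) (nat_lit 2) (nat_lit 5) (nat_lit 4) (nat_lit 4) (nat_lit 2) (nat_lit 4) (nat_lit 383) (nat_lit 338) (nat_lit 299)))))) (XT.nd (nat_lit 624) (nat_lit 0) (nat_lit 0) (XT.nd (nat_lit 312) (nat_lit 76) (nat_lit 0) (XT.nd (nat_lit 156) (nat_lit 0) (nat_lit 0) (XT.nd (nat_lit 78) (nat_lit 0) (nat_lit 0) (XT.lf (nat_lit 0) (nat_lit 99156882508) (nat_lit 152) (nat_lit 149173059396) (nat_lit 0) (nat_lit 92233856360) (nat_lit 2) (nat_lit 5) (nat_lit 4) (nat_lit 4) (nat_lit 2) (nat_lit 4) (nat_lit 384) (nat_lit 338) (nat_lit 298)) (XT.lf (nat_lit 0) (nat_lit 143209632562) (nat_lit 152) (nat_lit 109736935273) (nat_lit 0) (nat_lit 136283222650) (nat_lit 2) (nat_lit 5) (nat_lit 4) (nat_lit 4) (nat_lit 2) (nat_lit 4) (nat_lit 385) (nat_lit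 338) (nat_lit 297))) (XT.nd (nat_lit 78) (nat_lit 0) (nat_lit 0) (XT.lf (nat_lit 0) (nat_lit 193842972861) (nat_lit 152) (nat_lit 64441274688) (nat_lit 0) (nat_lit 186913620544) (nat_lit 2) (nat_lit 5) (nat_lit 4) (nat_lit 4) (nat_lit 2) (nat_lit 4) (nat_lit 386) (nat_lit 338) (nat_lit 296)) (XT.lf (nat_lit 0) (nat_lit 252047555712) (nat_lit 152) (nat_lit 12399858194) (nat_lit 0) (nat_lit 245115644784) (nat_lit 2) (nat_lit 5) (nat_lit 4) (nat_lit 4) (nat_lit 2) (nat_lit 4) (nat_lit 387) (nat_lit 338) (nat_lit 295)))) (XT.nd (nat_lit 156) (nat_lit 0) (nat_lit 0) (XT.nd (nat_lit 78) (nat_lit 0) (nat_lit 0) (XT.lf (nat_lit 0) (nat_lit 49901806287) (nat_lit 76) (nat_lit 270260499787) (nat_lit 76) (nat_lit 263326363979) (nat_lit 1) (nat_lit 4) (nat_lit 2) (nat_lit 5) (nat_lit 2) (nat_lit 4) (nat_lit 388) (nat_lit 338) (nat_lit 294)) (XT.lf (nat_lit 0) (nat_lit 122260939916) (nat_lit 76) (nat_lit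 276575442560) (nat_lit 76) (nat_lit 269639372073) (nat_lit 1) (nat_lit 4) (nat_lit 2) (nat_lit 5) (nat_lit 2) (nat_lit 4) (nat_lit 389) (nat_lit 338) (nat_lit 293))) (XT.nd (nat_lit 78) (nat_lit 0) (nat_lit 0) (XT.lf (nat_lit 0) (nat_lit 205440310312) (nat_lit 76) (nat_lit 283854829551) (nat_lit 76) (nat_lit 276917076735) (nat_lit 1) (nat_lit 4) (nat_lit 2) (nat_lit 5) (nat_lit 2) (nat_lit 4) (nat_lit 390) (nat_lit 338) (nat_lit 292)) (XT.lf (nat_lit 0) (nat_lit 301067339940) (nat_lit 76) (nat_lit 292241083549) (nat_lit 76) (nat_lit 285301867838) (nat_lit 1) (nat_lit 4) (nat_lit 2) (nat_lit 5) (nat_lit 2) (nat_lit 4) (nat_lit 391) (nat_lit 338) (nat_lit 291))))) (XT.nd (nat_lit 312) (nat_lit 0) (nat_lit 0) (XT.nd (nat_lit 156) (nat_lit 0) (nat_lit 0) (XT.nd (nat_lit 78) (nat_lit 0) (nat_lit 0) (XT.lf (nat_lit 0) (nat_lit 411012992423) (nat_lit 76) (nat_lit 301898283436) (nat_lit 76) (nat_lit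 294957795643) (nat_lit 1) (nat_lit 4) (nat_lit 2) (nat_lit 5) (nat_lit 2) (nat_lit 4) (nat_lit 392) (nat_lit 338) (nat_lit 290)) (XT.lf (nat_lit 0) (nat_lit 537428378352) (nat_lit 76) (nat_lit 313015374429) (nat_lit 76) (nat_lit 306073780477) (nat_lit 1) (nat_lit 4) (nat_lit 2) (nat_lit 5) (nat_lit 2) (nat_lit 4) (nat_lit 393) (nat_lit 338) (nat_lit 289))) (XT.nd (nat_lit 78) (nat_lit 0) (nat_lit 0) (XT.lf (nat_lit 0) (nat_lit 682786842236) (nat_lit 76) (nat_lit 325809864828) (nat_lit 76) (nat_lit 318867308999) (nat_lit 1) (nat_lit 4) (nat_lit 2) (nat_lit 5) (nat_lit 2) (nat_lit 4) (nat_lit 394) (nat_lit 338) (nat_lit 288)) (XT.lf (nat_lit 0) (nat_lit 849932354019) (nat_lit 76) (nat_lit 340532081620) (nat_lit 76) (nat_lit 333588689377) (nat_lit 1) (nat_lit 4) (nat_lit 2) (nat_lit 5) (nat_lit 2) (nat_lit 4) (nat_lit 395) (nat_lit 338) (nat_lit 287)))) (XT.nd (nat_lit 156) (nat_lit 0) (nat_lit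 0) (XT.nd (nat_lit 78) (nat_lit 0) (nat_lit 0) (XT.lf (nat_lit 0) (nat_lit 1042135151976) (nat_lit 76) (nat_lit 357470068178) (nat_lit 76) (nat_lit 350525948617) (nat_lit 1) (nat_lit 4) (nat_lit 2) (nat_lit 5) (nat_lit 2) (nat_lit 4) (nat_lit 396) (nat_lit 338) (nat_lit 286)) (XT.lf (nat_lit 0) (nat_lit 1263155725632) (nat_lit 76) (nat_lit 376955219889) (nat_lit 76) (nat_lit 370010467878) (nat_lit 1) (nat_lit 4) (nat_lit 2) (nat_lit 5) (nat_lit 2) (nat_lit 4) (nat_lit 397) (nat_lit 338) (nat_lit 285))) (XT.nd (nat_lit 78) (nat_lit 0) (nat_lit 0) (XT.lf (nat_lit 0) (nat_lit 1517318390559) (nat_lit 76) (nat_lit 399368767984) (nat_lit 76) (nat_lit 392423466016) (nat_lit 1) (nat_lit 4) (nat_lit 2) (nat_lit 5) (nat_lit 2) (nat_lit 4) (nat_lit 398) (nat_lit 338) (nat_lit 284)) (XT.nd (nat_lit 78) (nat_lit 0) (nat_lit 0) (XT.lf (nat_lit 0) (nat_lit 1809595894548) (nat_lit 76) (nat_lit 425149238402)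 (nat_lit 76) (nat_lit 418203458212) (nat_lit 1) (nat_lit 4) (nat_lit 2) (nat_lit 5) (nat_lit 2) (nat_lit 4) (nat_lit 399) (nat_lit 338) (nat_lit 283)) (XT.lf (nat_lit 0) (nat_lit 2145706710503) (nat_lit 76) (nat_lit 454801031654) (nat_lit 76) (nat_lit 447854835618) (nat_lit 1) (nat_lit 4) (nat_lit 2) (nat_lit 5) (nat_lit 2) (nat_lit 4) (nat_lit 400) (nat_lit 338) (nat_lit 282))))))))
noncomputable def xc43 : XT := (XT.nd (nat_lit 48516) (nat_lit 0) (nat_lit 1976) (XT.nd (nat_lit 624) (nat_lit 0) (nat_lit 0) (XT.nd (nat_lit 312) (nat_lit 0) (nat_lit 0) (XT.nd (nat_lit 156) (nat_lit 0) (nat_lit 0) (XT.nd (nat_lit 78) (nat_lit 0) (nat_lit 0) (XT.lf (nat_lit 0) (nat_lit 2532226919607) (nat_lit 76) (nat_lit 488904291519) (nat_lit 76) (nat_lit 481957733877) (nat_lit 1) (nat_lit 4) (nat_lit 2) (nat_lit 5) (nat_lit 2) (nat_lit 4) (nat_lit 401) (nat_lit 338) (nat_lit 281)) (XT.lf (nat_lit 0) (nat_lit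 2976718873777) (nat_lit 76) (nat_lit 528126255690) (nat_lit 76) (nat_lit 521179383609) (nat_lit 1) (nat_lit 4) (nat_lit 2) (nat_lit 5) (nat_lit 2) (nat_lit 4) (nat_lit 402) (nat_lit 338) (nat_lit 280))) (XT.nd (nat_lit 78) (nat_lit 0) (nat_lit 0) (XT.lf (nat_lit 0) (nat_lit 3487879154725) (nat_lit 76) (nat_lit 573234310423) (nat_lit 76) (nat_lit 566287164917) (nat_lit 1) (nat_lit 4) (nat_lit 2) (nat_lit 5) (nat_lit 2) (nat_lit 4) (nat_lit 403) (nat_lit 338) (nat_lit 279)) (XT.lf (nat_lit 0) (nat_lit 4075708724468) (nat_lit 76) (nat_lit 625111004615) (nat_lit 76) (nat_lit 618163621348) (nat_lit 1) (nat_lit 4) (nat_lit 2) (nat_lit 5) (nat_lit 2) (nat_lit 4) (nat_lit 404) (nat_lit 338) (nat_lit 278)))) (XT.nd (nat_lit 156) (nat_lit 0) (nat_lit 0) (XT.nd (nat_lit 78) (nat_lit 0) (nat_lit 0) (XT.lf (nat_lit 0) (nat_lit 4751708596330) (nat_lit 76) (nat_lit 684771317066) (nat_lit 76) (nat_lit 677823727049)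 (nat_lit 1) (nat_lit 4) (nat_lit 2) (nat_lit 5) (nat_lit 2) (nat_lit 4) (nat_lit 405) (nat_lit 338) (nat_lit 277)) (XT.lf (nat_lit 0) (nat_lit 5529104854757) (nat_lit 76) (nat_lit 753382514757) (nat_lit 76) (nat_lit 746434744959) (nat_lit 1) (nat_lit 4) (nat_lit 2) (nat_lit 5) (nat_lit 2) (nat_lit 4) (nat_lit 406) (nat_lit 338) (nat_lit 276))) (XT.nd (nat_lit 78) (nat_lit 0) (nat_lit 0) (XT.lf (nat_lit 0) (nat_lit 6423107426547) (nat_lit 76) (nat_lit 832286990688) (nat_lit 76) (nat_lit 825339064558) (nat_lit 1) (nat_lit 4) (nat_lit 2) (nat_lit 5) (nat_lit 2) (nat_lit 4) (nat_lit 407) (nat_lit 338) (nat_lit 275)) (XT.lf (nat_lit 0) (nat_lit 7451207666365) (nat_lit 76) (nat_lit 923028528083) (nat_lit 76) (nat_lit 916080466012) (nat_lit 1) (nat_lit 4) (nat_lit 2) (nat_lit 5) (nat_lit 2) (nat_lit 4) (nat_lit 408) (nat_lit 338) (nat_lit 274))))) (XT.nd (nat_lit 312) (nat_lit 0) (nat_lit 0) (XT.nd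 (nat_lit 156) (nat_lit 0) (nat_lit 0) (XT.nd (nat_lit 78) (nat_lit 0) (nat_lit 0) (XT.lf (nat_lit 0) (nat_lit 8633520578902) (nat_lit 76) (nat_lit 1027382504848) (nat_lit 76) (nat_lit 1020434324568) (nat_lit 1) (nat_lit 4) (nat_lit 2) (nat_lit 5) (nat_lit 2) (nat_lit 4) (nat_lit 409) (nat_lit 338) (nat_lit 273)) (XT.lf (nat_lit 0) (nat_lit 9993178373317) (nat_lit 76) (nat_lit 1147390629223) (nat_lit 76) (nat_lit 1140442346152) (nat_lit 1) (nat_lit 4) (nat_lit 2) (nat_lit 5) (nat_lit 2) (nat_lit 4) (nat_lit 410) (nat_lit 338) (nat_lit 272))) (XT.nd (nat_lit 78) (nat_lit 0) (nat_lit 0) (XT.lf (nat_lit 0) (nat_lit 11556783049935) (nat_lit 76) (nat_lit 1285400886252) (nat_lit 76) (nat_lit 1278452513797) (nat_lit 1) (nat_lit 4) (nat_lit 2) (nat_lit 5) (nat_lit 2) (nat_lit 4) (nat_lit 411) (nat_lit 338) (nat_lit 271)) (XT.lf (nat_lit 0) (nat_lit 13354926874169) (nat_lit 76) (nat_lit 1444113476614)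 (nat_lit 76) (nat_lit 1437165026435) (nat_lit 1) (nat_lit 4) (nat_lit 2) (nat_lit 5) (nat_lit 2) (nat_lit 4) (nat_lit 412) (nat_lit 338) (nat_lit 270)))) (XT.nd (nat_lit 156) (nat_lit 0) (nat_lit 0) (XT.nd (nat_lit 78) (nat_lit 0) (nat_lit 0) (XT.lf (nat_lit 0) (nat_lit 15422790920841) (nat_lit 76) (nat_lit 1626633646643) (nat_lit 76) (nat_lit 1619685128877) (nat_lit 1) (nat_lit 4) (nat_lit 2) (nat_lit 5) (nat_lit 2) (nat_lit 4) (nat_lit 413) (nat_lit 338) (nat_lit 269)) (XT.lf (nat_lit 0) (nat_lit 17800833399559) (nat_lit 76) (nat_lit 1836532443144) (nat_lit 76) (nat_lit 1829583866608) (nat_lit 1) (nat_lit 4) (nat_lit 2) (nat_lit 5) (nat_lit 2) (nat_lit 4) (nat_lit 414) (nat_lit 338) (nat_lit 268))) (XT.nd (nat_lit 78) (nat_lit 0) (nat_lit 0) (XT.lf (nat_lit 0) (nat_lit 20535581228385) (nat_lit 76) (nat_lit 2077916581701) (nat_lit 76) (nat_lit 2070967954059) (nat_lit 1) (nat_lit 4) (nat_lit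 2) (nat_lit 5) (nat_lit 2) (nat_lit 4) (nat_lit 415) (nat_lit 338) (nat_lit 267)) (XT.nd (nat_lit 78) (nat_lit 0) (nat_lit 0) (XT.lf (nat_lit 0) (nat_lit 23680540343101) (nat_lit 76) (nat_lit 2355508795459) (nat_lit 76) (nat_lit 2348560123378) (nat_lit 1) (nat_lit 4) (nat_lit 2) (nat_lit 5) (nat_lit 2) (nat_lit 4) (nat_lit 416) (nat_lit 338) (nat_lit 266)) (XT.lf (nat_lit 0) (nat_lit 27297242552472) (nat_lit 76) (nat_lit 2674740236426) (nat_lit 76) (nat_lit 2667791525703) (nat_lit 1) (nat_lit 4) (nat_lit 2) (nat_lit 5) (nat_lit 2) (nat_lit 4) (nat_lit 417) (nat_lit 338) (nat_lit 265))))))) (XT.nd (nat_lit 624) (nat_lit 1824) (nat_lit 0) (XT.nd (nat_lit 312) (nat_lit 1748) (nat_lit 0) (XT.nd (nat_lit 156) (nat_lit 836) (nat_lit 0) (XT.nd (nat_lit 78) (nat_lit 456) (nat_lit 0) (XT.lf (nat_lit 0) (nat_lit 3183350915) (nat_lit 76) (nat_lit 42741180) (nat_lit 76) (nat_lit 42741180) (nat_lit 91)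 (nat_lit 4) (nat_lit 92) (nat_lit 5) (nat_lit 92) (nat_lit 4) (nat_lit 342) (nat_lit 339) (nat_lit 339)) (XT.lf (nat_lit 0) (nat_lit 508213226) (nat_lit 228) (nat_lit 5160111232) (nat_lit 228) (nat_lit 994879283) (nat_lit 85) (nat_lit 4) (nat_lit 88) (nat_lit 5) (nat_lit 88) (nat_lit 4) (nat_lit 343) (nat_lit 339) (nat_lit 338))) (XT.nd (nat_lit 78) (nat_lit 456) (nat_lit 0) (XT.lf (nat_lit 0) (nat_lit 1587243782) (nat_lit 304) (nat_lit 2919687255) (nat_lit 380) (nat_lit 2346175441) (nat_lit 80) (nat_lit 5) (nat_lit 84) (nat_lit 5) (nat_lit 85) (nat_lit 4) (nat_lit 344) (nat_lit 339) (nat_lit 337)) (XT.lf (nat_lit 0) (nat_lit 2927025466) (nat_lit 456) (nat_lit 4038348637) (nat_lit 76) (nat_lit 145093100) (nat_lit 74) (nat_lit 5) (nat_lit 80) (nat_lit 5) (nat_lit 75) (nat_lit 4) (nat_lit 345) (nat_lit 339) (nat_lit 336)))) (XT.nd (nat_lit 156) (nat_lit 760) (nat_lit 0) (XT.nd (nat_lit 78)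 (nat_lit 456) (nat_lit 0) (XT.lf (nat_lit 0) (nat_lit 968049470) (nat_lit 532) (nat_lit 2538504279) (nat_lit 76) (nat_lit 3925590086) (nat_lit 67) (nat_lit 5) (nat_lit 74) (nat_lit 5) (nat_lit 68) (nat_lit 5) (nat_lit 346) (nat_lit 339) (nat_lit 335)) (XT.lf (nat_lit 0) (nat_lit 6269153644) (nat_lit 532) (nat_lit 726346153) (nat_lit 76) (nat_lit 828406818) (nat_lit 61) (nat_lit 5) (nat_lit 68) (nat_lit 5) (nat_lit 62) (nat_lit 4) (nat_lit 347) (nat_lit 339) (nat_lit 334))) (XT.nd (nat_lit 78) (nat_lit 228) (nat_lit 0) (XT.lf (nat_lit 0) (nat_lit 1416927068) (nat_lit 228) (nat_lit 2282322993) (nat_lit 304) (nat_lit 4582678709) (nat_lit 54) (nat_lit 5) (nat_lit 57) (nat_lit 5) (nat_lit 58) (nat_lit 5) (nat_lit 348) (nat_lit 339) (nat_lit 333)) (XT.lf (nat_lit 0) (nat_lit 657439225) (nat_lit 228) (nat_lit 4874682623) (nat_lit 76) (nat_lit 3283536594) (nat_lit 51) (nat_lit 5) (nat_lit 54) (nat_lit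 5) (nat_lit 52) (nat_lit 5) (nat_lit 349) (nat_lit 339) (nat_lit 332))))) (XT.nd (nat_lit 312) (nat_lit 836) (nat_lit 0) (XT.nd (nat_lit 156) (nat_lit 532) (nat_lit 0) (XT.nd (nat_lit 78) (nat_lit 228) (nat_lit 0) (XT.lf (nat_lit 0) (nat_lit 6316388617) (nat_lit 304) (nat_lit 2660897025) (nat_lit 76) (nat_lit 450585853) (nat_lit 48) (nat_lit 5) (nat_lit 52) (nat_lit 5) (nat_lit 49) (nat_lit 4) (nat_lit 350) (nat_lit 339) (nat_lit 331)) (XT.lf (nat_lit 0) (nat_lit 2601207688) (nat_lit 228) (nat_lit 231212295) (nat_lit 76) (nat_lit 7291051614) (nat_lit 45) (nat_lit 5) (nat_lit 48) (nat_lit 5) (nat_lit 46) (nat_lit 5) (nat_lit 351) (nat_lit 339) (nat_lit 330))) (XT.nd (nat_lit 78) (nat_lit 228) (nat_lit 0) (XT.lf (nat_lit 0) (nat_lit 2585491903) (nat_lit 152) (nat_lit 6523499565) (nat_lit 228) (nat_lit 1798356329) (nat_lit 41) (nat_lit 5) (nat_lit 43) (nat_lit 5) (nat_lit 44) (nat_lit 4) (nat_lit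 352) (nat_lit 339) (nat_lit 329)) (XT.lf (nat_lit 0) (nat_lit 4657189475) (nat_lit 228) (nat_lit 6111125812) (nat_lit 76) (nat_lit 1022452885) (nat_lit 38) (nat_lit 5) (nat_lit 41) (nat_lit 5) (nat_lit 39) (nat_lit 4) (nat_lit 353) (nat_lit 339) (nat_lit 328)))) (XT.nd (nat_lit 156) (nat_lit 532) (nat_lit 0) (XT.nd (nat_lit 78) (nat_lit 228) (nat_lit 0) (XT.lf (nat_lit 0) (nat_lit 9045479384) (nat_lit 76) (nat_lit 3169781600) (nat_lit 152) (nat_lit 568586475) (nat_lit 37) (nat_lit 5) (nat_lit 38) (nat_lit 5) (nat_lit 39) (nat_lit 4) (nat_lit 354) (nat_lit 339) (nat_lit 327)) (XT.lf (nat_lit 0) (nat_lit 6886473410) (nat_lit 228) (nat_lit 1280633315) (nat_lit 76) (nat_lit 5725096772) (nat_lit 34) (nat_lit 5) (nat_lit 37) (nat_lit 5) (nat_lit 35) (nat_lit 4) (nat_lit 355) (nat_lit 339) (nat_lit 326))) (XT.nd (nat_lit 78) (nat_lit 228) (nat_lit 0) (XT.lf (nat_lit 0) (nat_lit 563846142) (nat_lit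 228) (nat_lit 13641553300) (nat_lit 76) (nat_lit 934508894) (nat_lit 30) (nat_lit 5) (nat_lit 33) (nat_lit 5) (nat_lit 31) (nat_lit 4) (nat_lit 356) (nat_lit 339) (nat_lit 325)) (XT.nd (nat_lit 78) (nat_lit 152) (nat_lit 0) (XT.lf (nat_lit 0) (nat_lit 4301643907) (nat_lit 76) (nat_lit 5041642368) (nat_lit 152) (nat_lit 7177862809) (nat_lit 29) (nat_lit 5) (nat_lit 30) (nat_lit 5) (nat_lit 31) (nat_lit 4) (nat_lit 357) (nat_lit 339) (nat_lit 324)) (XT.lf (nat_lit 0) (nat_lit 1668661919) (nat_lit 152) (nat_lit 10796726323) (nat_lit 76) (nat_lit 5609280296) (nat_lit 27) (nat_lit 5) (nat_lit 29) (nat_lit 5) (nat_lit 28) (nat_lit 4) (nat_lit 358) (nat_lit 339) (nat_lit 323))))))))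
noncomputable def xc44 : XT := (XT.nd (nat_lit 1248) (nat_lit 532) (nat_lit 0) (XT.nd (nat_lit 624) (nat_lit 608) (nat_lit 0) (XT.nd (nat_lit 312) (nat_lit 380) (nat_lit 0) (XT.nd (nat_lit 156) (nat_lit 228) (nat_lit 0) (XT.nd (nat_lit 78) (nat_lit 152) (nat_lit 0) (XT.lf (nat_lit 0) (nat_lit 10220070704) (nat_lit 76) (nat_lit 1659873005) (nat_lit 152) (nat_lit 7929388129) (nat_lit 26) (nat_lit 5) (nat_lit 27) (nat_lit 5) (nat_lit 28) (nat_lit 4) (nat_lit 359) (nat_lit 339) (nat_lit 322)) (XT.lf (nat_lit 0) (nat_lit 2362896315) (nat_lit 152) (nat_lit 8681321507) (nat_lit 76) (nat_lit 10705708819) (nat_lit 24) (nat_lit 5) (nat_lit 26) (nat_lit 5) (nat_lit 25) (nat_lit 4) (nat_lit 360) (nat_lit 339) (nat_lit 321))) (XT.nd (nat_lit 78) (nat_lit 152) (nat_lit 0) (XT.lf (nat_lit 0) (nat_lit 14232517817) (nat_lit 152) (nat_lit 8193269896) (nat_lit 0) (nat_lit 1499143898) (nat_lit 23) (nat_lit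 5) (nat_lit 25) (nat_lit 4) (nat_lit 23) (nat_lit 4) (nat_lit 361) (nat_lit 339) (nat_lit 320)) (XT.lf (nat_lit 0) (nat_lit 2160193768) (nat_lit 152) (nat_lit 8365692610) (nat_lit 76) (nat_lit 15835397018) (nat_lit 21) (nat_lit 5) (nat_lit 23) (nat_lit 5) (nat_lit 22) (nat_lit 4) (nat_lit 362) (nat_lit 339) (nat_lit 319)))) (XT.nd (nat_lit 156) (nat_lit 152) (nat_lit 0) (XT.nd (nat_lit 78) (nat_lit 152) (nat_lit 0) (XT.lf (nat_lit 0) (nat_lit 15822903658) (nat_lit 152) (nat_lit 9456127257) (nat_lit 0) (nat_lit 3815454604) (nat_lit 20) (nat_lit 5) (nat_lit 22) (nat_lit 4) (nat_lit 20) (nat_lit 4) (nat_lit 363) (nat_lit 339) (nat_lit 318)) (XT.lf (nat_lit 0) (nat_lit 175519065) (nat_lit 152) (nat_lit 11730251305) (nat_lit 76) (nat_lit 20265829383) (nat_lit 18) (nat_lit 5) (nat_lit 20) (nat_lit 5) (nat_lit 19) (nat_lit 4) (nat_lit 364) (nat_lit 339) (nat_lit 317))) (XT.nd (nat_lit 78) (nat_lit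 76) (nat_lit 0) (XT.lf (nat_lit 0) (nat_lit 15549093061) (nat_lit 152) (nat_lit 15799056428) (nat_lit 0) (nat_lit 4278954161) (nat_lit 17) (nat_lit 5) (nat_lit 19) (nat_lit 4) (nat_lit 17) (nat_lit 4) (nat_lit 365) (nat_lit 339) (nat_lit 316)) (XT.lf (nat_lit 0) (nat_lit 17426540793) (nat_lit 76) (nat_lit 16716466044) (nat_lit 76) (nat_lit 5384798117) (nat_lit 16) (nat_lit 4) (nat_lit 17) (nat_lit 5) (nat_lit 17) (nat_lit 4) (nat_lit 366) (nat_lit 339) (nat_lit 315))))) (XT.nd (nat_lit 312) (nat_lit 228) (nat_lit 0) (XT.nd (nat_lit 156) (nat_lit 152) (nat_lit 0) (XT.nd (nat_lit 78) (nat_lit 76) (nat_lit 0) (XT.lf (nat_lit 0) (nat_lit 11564925739) (nat_lit 152) (nat_lit 31353174378) (nat_lit 0) (nat_lit 1023100343) (nat_lit 14) (nat_lit 5) (nat_lit 16) (nat_lit 4) (nat_lit 14) (nat_lit 4) (nat_lit 367) (nat_lit 339) (nat_lit 314)) (XT.lf (nat_lit 0) (nat_lit 4109434586) (nat_lit 76) (nat_lit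 27697693930) (nat_lit 76) (nat_lit 17112790030) (nat_lit 13) (nat_lit 4) (nat_lit 14) (nat_lit 5) (nat_lit 14) (nat_lit 4) (nat_lit 368) (nat_lit 339) (nat_lit 313))) (XT.nd (nat_lit 78) (nat_lit 76) (nat_lit 0) (XT.lf (nat_lit 0) (nat_lit 1203315823) (nat_lit 152) (nat_lit 8119466554) (nat_lit 76) (nat_lit 45259014482) (nat_lit 12) (nat_lit 5) (nat_lit 14) (nat_lit 5) (nat_lit 13) (nat_lit 4) (nat_lit 369) (nat_lit 339) (nat_lit 312)) (XT.lf (nat_lit 0) (nat_lit 22309778425) (nat_lit 152) (nat_lit 26219034615) (nat_lit 0) (nat_lit 12444096013) (nat_lit 11) (nat_lit 5) (nat_lit 13) (nat_lit 4) (nat_lit 11) (nat_lit 4) (nat_lit 370) (nat_lit 339) (nat_lit 311)))) (XT.nd (nat_lit 156) (nat_lit 76) (nat_lit 0) (XT.nd (nat_lit 78) (nat_lit 76) (nat_lit 0) (XT.lf (nat_lit 0) (nat_lit 16562916551) (nat_lit 76) (nat_lit 30794822594) (nat_lit 76) (nat_lit 20902913502) (nat_lit 10) (nat_lit 4) (nat_lit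 11) (nat_lit 5) (nat_lit 11) (nat_lit 4) (nat_lit 371) (nat_lit 339) (nat_lit 310)) (XT.lf (nat_lit 0) (nat_lit 212945809) (nat_lit 152) (nat_lit 9471787617) (nat_lit 76) (nat_lit 66904337643) (nat_lit 9) (nat_lit 5) (nat_lit 11) (nat_lit 5) (nat_lit 10) (nat_lit 4) (nat_lit 372) (nat_lit 339) (nat_lit 309))) (XT.nd (nat_lit 78) (nat_lit 0) (nat_lit 0) (XT.lf (nat_lit 0) (nat_lit 24551746655) (nat_lit 152) (nat_lit 46115022999) (nat_lit 0) (nat_lit 15353092914) (nat_lit 8) (nat_lit 5) (nat_lit 10) (nat_lit 4) (nat_lit 8) (nat_lit 4) (nat_lit 373) (nat_lit 339) (nat_lit 308)) (XT.lf (nat_lit 0) (nat_lit 52998102915) (nat_lit 152) (nat_lit 47153163) (nat_lit 0) (nat_lit 43783482074) (nat_lit 8) (nat_lit 5) (nat_lit 10) (nat_lit 4) (nat_lit 8) (nat_lit 4) (nat_lit 374) (nat_lit 339) (nat_lit 307)))))) (XT.nd (nat_lit 624) (nat_lit 228) (nat_lit 0) (XT.nd (nat_lit 312) (nat_lit 76) (nat_lit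 0) (XT.nd (nat_lit 156) (nat_lit 76) (nat_lit 0) (XT.nd (nat_lit 78) (nat_lit 76) (nat_lit 0) (XT.lf (nat_lit 0) (nat_lit 55543800062) (nat_lit 76) (nat_lit 31421664869) (nat_lit 76) (nat_lit 22193159593) (nat_lit 7) (nat_lit 4) (nat_lit 8) (nat_lit 5) (nat_lit 8) (nat_lit 4) (nat_lit 375) (nat_lit 339) (nat_lit 306)) (XT.lf (nat_lit 0) (nat_lit 2480082699) (nat_lit 152) (nat_lit 4082006683) (nat_lit 76) (nat_lit 116776755403) (nat_lit 6) (nat_lit 5) (nat_lit 8) (nat_lit 5) (nat_lit 7) (nat_lit 4) (nat_lit 376) (nat_lit 339) (nat_lit 305))) (XT.nd (nat_lit 78) (nat_lit 0) (nat_lit 0) (XT.lf (nat_lit 0) (nat_lit 31408988951) (nat_lit 152) (nat_lit 85198318587) (nat_lit 0) (nat_lit 22843176612) (nat_lit 5) (nat_lit 5) (nat_lit 7) (nat_lit 4) (nat_lit 5) (nat_lit 4) (nat_lit 377) (nat_lit 339) (nat_lit 304)) (XT.lf (nat_lit 0) (nat_lit 64918162430) (nat_lit 152) (nat_lit 36697537611) (nat_lit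 0) (nat_lit 56343897090) (nat_lit 5) (nat_lit 5) (nat_lit 7) (nat_lit 4) (nat_lit 5) (nat_lit 4) (nat_lit 378) (nat_lit 339) (nat_lit 303)))) (XT.nd (nat_lit 156) (nat_lit 0) (nat_lit 0) (XT.nd (nat_lit 78) (nat_lit 0) (nat_lit 0) (XT.lf (nat_lit 0) (nat_lit 19966509471) (nat_lit 76) (nat_lit 83913058407) (nat_lit 76) (nat_lit 75331442631) (nat_lit 4) (nat_lit 4) (nat_lit 5) (nat_lit 5) (nat_lit 5) (nat_lit 4) (nat_lit 379) (nat_lit 339) (nat_lit 302)) (XT.lf (nat_lit 0) (nat_lit 87251164838) (nat_lit 76) (nat_lit 62452741218) (nat_lit 76) (nat_lit 53864733759) (nat_lit 4) (nat_lit 4) (nat_lit 5) (nat_lit 5) (nat_lit 5) (nat_lit 4) (nat_lit 380) (nat_lit 339) (nat_lit 301))) (XT.nd (nat_lit 78) (nat_lit 0) (nat_lit 0) (XT.lf (nat_lit 0) (nat_lit 164540440102) (nat_lit 76) (nat_lit 37818248415) (nat_lit 76) (nat_lit 29224682970) (nat_lit 4) (nat_lit 4) (nat_lit 5) (nat_lit 5) (nat_lit 5)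 (nat_lit 4) (nat_lit 381) (nat_lit 339) (nat_lit 300)) (XT.lf (nat_lit 0) (nat_lit 253346516736) (nat_lit 76) (nat_lit 9527600791) (nat_lit 76) (nat_lit 929202316) (nat_lit 4) (nat_lit 4) (nat_lit 5) (nat_lit 5) (nat_lit 5) (nat_lit 4) (nat_lit 382) (nat_lit 339) (nat_lit 299))))) (XT.nd (nat_lit 312) (nat_lit 76) (nat_lit 0) (XT.nd (nat_lit 156) (nat_lit 0) (nat_lit 0) (XT.nd (nat_lit 78) (nat_lit 0) (nat_lit 0) (XT.lf (nat_lit 0) (nat_lit 31965116549) (nat_lit 152) (nat_lit 244675716406) (nat_lit 0) (nat_lit 23999745150) (nat_lit 2) (nat_lit 5) (nat_lit 4) (nat_lit 4) (nat_lit 2) (nat_lit 4) (nat_lit 383) (nat_lit 339) (nat_lit 298)) (XT.lf (nat_lit 0) (nat_lit 70284563758) (nat_lit 152) (nat_lit 210357442859) (nat_lit 0) (nat_lit 62315808594) (nat_lit 2) (nat_lit 5) (nat_lit 4) (nat_lit 4) (nat_lit 2) (nat_lit 4) (nat_lit 384) (nat_lit 339) (nat_lit 297))) (XT.nd (nat_lit 78) (nat_lit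 0) (nat_lit 0) (XT.lf (nat_lit 0) (nat_lit 114324605782) (nat_lit 152) (nat_lit 170947310437) (nat_lit 0) (nat_lit 106352908214) (nat_lit 2) (nat_lit 5) (nat_lit 4) (nat_lit 4) (nat_lit 2) (nat_lit 4) (nat_lit 385) (nat_lit 339) (nat_lit 296)) (XT.lf (nat_lit 0) (nat_lit 164946895619) (nat_lit 152) (nat_lit 125674251330) (nat_lit 0) (nat_lit 156972639439) (nat_lit 2) (nat_lit 5) (nat_lit 4) (nat_lit 4) (nat_lit 2) (nat_lit 4) (nat_lit 386) (nat_lit 339) (nat_lit 295)))) (XT.nd (nat_lit 156) (nat_lit 76) (nat_lit 0) (XT.nd (nat_lit 78) (nat_lit 0) (nat_lit 0) (XT.lf (nat_lit 0) (nat_lit 223141869374) (nat_lit 152) (nat_lit 73652488297) (nat_lit 0) (nat_lit 215165388314) (nat_lit 2) (nat_lit 5) (nat_lit 4) (nat_lit 4) (nat_lit 2) (nat_lit 4) (nat_lit 387) (nat_lit 339) (nat_lit 294)) (XT.lf (nat_lit 0) (nat_lit 290048124360) (nat_lit 152) (nat_lit 13864204233) (nat_lit 0) (nat_lit 282069708622)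 (nat_lit 2) (nat_lit 5) (nat_lit 4) (nat_lit 4) (nat_lit 2) (nat_lit 4) (nat_lit 388) (nat_lit 339) (nat_lit 293))) (XT.nd (nat_lit 78) (nat_lit 0) (nat_lit 0) (XT.lf (nat_lit 0) (nat_lit 57749221585) (nat_lit 76) (nat_lit 310614344583) (nat_lit 76) (nat_lit 302634246515) (nat_lit 1) (nat_lit 4) (nat_lit 2) (nat_lit 5) (nat_lit 2) (nat_lit 4) (nat_lit 389) (nat_lit 339) (nat_lit 292)) (XT.nd (nat_lit 78) (nat_lit 0) (nat_lit 0) (XT.lf (nat_lit 0) (nat_lit 140914989038) (nat_lit 76) (nat_lit 317900689229) (nat_lit 76) (nat_lit 309919128266) (nat_lit 1) (nat_lit 4) (nat_lit 2) (nat_lit 5) (nat_lit 2) (nat_lit 4) (nat_lit 390) (nat_lit 339) (nat_lit 291)) (XT.lf (nat_lit 0) (nat_lit 236530190019) (nat_lit 76) (nat_lit 326292993361) (nat_lit 76) (nat_lit 318310160317) (nat_lit 1) (nat_lit 4) (nat_lit 2) (nat_lit 5) (nat_lit 2) (nat_lit 4) (nat_lit 391) (nat_lit 339) (nat_lit 290))))))))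
noncomputable def xc45 : XT := (XT.nd (nat_lit 1248) (nat_lit 0) (nat_lit 0) (XT.nd (nat_lit 624) (nat_lit 0) (nat_lit 0) (XT.nd (nat_lit 312) (nat_lit 0) (nat_lit 0) (XT.nd (nat_lit 156) (nat_lit 0) (nat_lit 0) (XT.nd (nat_lit 78) (nat_lit 0) (nat_lit 0) (XT.lf (nat_lit 0) (nat_lit 346465556723) (nat_lit 76) (nat_lit 335955454236) (nat_lit 76) (nat_lit 327971515033) (nat_lit 1) (nat_lit 4) (nat_lit 2) (nat_lit 5) (nat_lit 2) (nat_lit 4) (nat_lit 392) (nat_lit 339) (nat_lit 289)) (XT.lf (nat_lit 0) (nat_lit 472871998496) (nat_lit 76) (nat_lit 347077119999) (nat_lit 76) (nat_lit 339092218919) (nat_lit 1) (nat_lit 4) (nat_lit 2) (nat_lit 5) (nat_lit 2) (nat_lit 4) (nat_lit 393) (nat_lit 339) (nat_lit 288))) (XT.nd (nat_lit 78) (nat_lit 0) (nat_lit 0) (XT.lf (nat_lit 0) (nat_lit 618222684853) (nat_lit 76) (nat_lit 359875588461) (nat_lit 76) (nat_lit 351889850965) (nat_lit 1) (nat_lit 4) (nat_lit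 2) (nat_lit 5) (nat_lit 2) (nat_lit 4) (nat_lit 394) (nat_lit 339) (nat_lit 287)) (XT.lf (nat_lit 0) (nat_lit 785361433569) (nat_lit 76) (nat_lit 374601264437) (nat_lit 76) (nat_lit 366614799625) (nat_lit 1) (nat_lit 4) (nat_lit 2) (nat_lit 5) (nat_lit 2) (nat_lit 4) (nat_lit 395) (nat_lit 339) (nat_lit 286)))) (XT.nd (nat_lit 156) (nat_lit 0) (nat_lit 0) (XT.nd (nat_lit 78) (nat_lit 0) (nat_lit 0) (XT.lf (nat_lit 0) (nat_lit 977558350598) (nat_lit 76) (nat_lit 391542258981) (nat_lit 76) (nat_lit 383555161718) (nat_lit 1) (nat_lit 4) (nat_lit 2) (nat_lit 5) (nat_lit 2) (nat_lit 4) (nat_lit 396) (nat_lit 339) (nat_lit 285)) (XT.lf (nat_lit 0) (nat_lit 1198573810404) (nat_lit 76) (nat_lit 411030026332) (nat_lit 76) (nat_lit 403042379114) (nat_lit 1) (nat_lit 4) (nat_lit 2) (nat_lit 5) (nat_lit 2) (nat_lit 4) (nat_lit 397) (nat_lit 339) (nat_lit 284))) (XT.nd (nat_lit 78) (nat_lit 0) (nat_lit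 0) (XT.lf (nat_lit 0) (nat_lit 1452732028505) (nat_lit 76) (nat_lit 433445848897) (nat_lit 76) (nat_lit 425457723455) (nat_lit 1) (nat_lit 4) (nat_lit 2) (nat_lit 5) (nat_lit 2) (nat_lit 4) (nat_lit 398) (nat_lit 339) (nat_lit 283)) (XT.lf (nat_lit 0) (nat_lit 1745005665688) (nat_lit 76) (nat_lit 459228297115) (nat_lit 76) (nat_lit 451239755828) (nat_lit 1) (nat_lit 4) (nat_lit 2) (nat_lit 5) (nat_lit 2) (nat_lit 4) (nat_lit 399) (nat_lit 339) (nat_lit 282))))) (XT.nd (nat_lit 312) (nat_lit 0) (nat_lit 0) (XT.nd (nat_lit 156) (nat_lit 0) (nat_lit 0) (XT.nd (nat_lit 78) (nat_lit 0) (nat_lit 0) (XT.lf (nat_lit 0) (nat_lit 2081113119204) (nat_lit 76) (nat_lit 488881810193) (nat_lit 76) (nat_lit 480892907300) (nat_lit 1) (nat_lit 4) (nat_lit 2) (nat_lit 5) (nat_lit 2) (nat_lit 4) (nat_lit 400) (nat_lit 339) (nat_lit 281)) (XT.lf (nat_lit 0) (nat_lit 2467630404448) (nat_lit 76) (nat_lit 522986565558)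 (nat_lit 76) (nat_lit 514997348226) (nat_lit 1) (nat_lit 4) (nat_lit 2) (nat_lit 5) (nat_lit 2) (nat_lit 4) (nat_lit 401) (nat_lit 339) (nat_lit 280))) (XT.nd (nat_lit 78) (nat_lit 0) (nat_lit 0) (XT.lf (nat_lit 0) (nat_lit 2912119816131) (nat_lit 76) (nat_lit 562209830165) (nat_lit 76) (nat_lit 554220339407) (nat_lit 1) (nat_lit 4) (nat_lit 2) (nat_lit 5) (nat_lit 2) (nat_lit 4) (nat_lit 402) (nat_lit 339) (nat_lit 279)) (XT.lf (nat_lit 0) (nat_lit 3423277886219) (nat_lit 76) (nat_lit 607319015712) (nat_lit 76) (nat_lit 599329287193) (nat_lit 1) (nat_lit 4) (nat_lit 2) (nat_lit 5) (nat_lit 2) (nat_lit 4) (nat_lit 403) (nat_lit 339) (nat_lit 278)))) (XT.nd (nat_lit 156) (nat_lit 0) (nat_lit 0) (XT.nd (nat_lit 78) (nat_lit 0) (nat_lit 0) (XT.lf (nat_lit 0) (nat_lit 4011105533478) (nat_lit 76) (nat_lit 659196693220) (nat_lit 76) (nat_lit 651206757952) (nat_lit 1) (nat_lit 4) (nat_lit 2) (nat_lit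 5) (nat_lit 2) (nat_lit 4) (nat_lit 404) (nat_lit 339) (nat_lit 277)) (XT.lf (nat_lit 0) (nat_lit 4687103733612) (nat_lit 76) (nat_lit 718857860728) (nat_lit 76) (nat_lit 710867745678) (nat_lit 1) (nat_lit 4) (nat_lit 2) (nat_lit 5) (nat_lit 2) (nat_lit 4) (nat_lit 405) (nat_lit 339) (nat_lit 276))) (XT.nd (nat_lit 78) (nat_lit 0) (nat_lit 0) (XT.lf (nat_lit 0) (nat_lit 5464498538364) (nat_lit 76) (nat_lit 787469801947) (nat_lit 76) (nat_lit 779479530566) (nat_lit 1) (nat_lit 4) (nat_lit 2) (nat_lit 5) (nat_lit 2) (nat_lit 4) (nat_lit 406) (nat_lit 339) (nat_lit 275)) (XT.lf (nat_lit 0) (nat_lit 6358499846089) (nat_lit 76) (nat_lit 866374924425) (nat_lit 76) (nat_lit 858384517102) (nat_lit 1) (nat_lit 4) (nat_lit 2) (nat_lit 5) (nat_lit 2) (nat_lit 4) (nat_lit 407) (nat_lit 339) (nat_lit 274)))))) (XT.nd (nat_lit 624) (nat_lit 0) (nat_lit 0) (XT.nd (nat_lit 312) (nat_lit 0) (nat_lit 0) (XT.nd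 (nat_lit 156) (nat_lit 0) (nat_lit 0) (XT.nd (nat_lit 78) (nat_lit 0) (nat_lit 0) (XT.lf (nat_lit 0) (nat_lit 7386598986719) (nat_lit 76) (nat_lit 957117024034) (nat_lit 76) (nat_lit 949126498502) (nat_lit 1) (nat_lit 4) (nat_lit 2) (nat_lit 5) (nat_lit 2) (nat_lit 4) (nat_lit 408) (nat_lit 339) (nat_lit 273)) (XT.lf (nat_lit 0) (nat_lit 8568910943440) (nat_lit 76) (nat_lit 1061471489680) (nat_lit 76) (nat_lit 1053480861358) (nat_lit 1) (nat_lit 4) (nat_lit 2) (nat_lit 5) (nat_lit 2) (nat_lit 4) (nat_lit 409) (nat_lit 339) (nat_lit 272))) (XT.nd (nat_lit 78) (nat_lit 0) (nat_lit 0) (XT.lf (nat_lit 0) (nat_lit 9928567906712) (nat_lit 76) (nat_lit 1181480039171) (nat_lit 76) (nat_lit 1173489321465) (nat_lit 1) (nat_lit 4) (nat_lit 2) (nat_lit 5) (nat_lit 2) (nat_lit 4) (nat_lit 410) (nat_lit 339) (nat_lit 271)) (XT.lf (nat_lit 0) (nat_lit 11492171860597) (nat_lit 76) (nat_lit 1319490665864)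 (nat_lit 76) (nat_lit 1311499870433) (nat_lit 1) (nat_lit 4) (nat_lit 2) (nat_lit 5) (nat_lit 2) (nat_lit 4) (nat_lit 411) (nat_lit 339) (nat_lit 270)))) (XT.nd (nat_lit 156) (nat_lit 0) (nat_lit 0) (XT.nd (nat_lit 78) (nat_lit 0) (nat_lit 0) (XT.lf (nat_lit 0) (nat_lit 13290315056367) (nat_lit 76) (nat_lit 1478203577674) (nat_lit 76) (nat_lit 1470212714657) (nat_lit 1) (nat_lit 4) (nat_lit 2) (nat_lit 5) (nat_lit 2) (nat_lit 4) (nat_lit 412) (nat_lit 339) (nat_lit 269)) (XT.lf (nat_lit 0) (nat_lit 15358178556548) (nat_lit 76) (nat_lit 1660724027223) (nat_lit 76) (nat_lit 1652733105435) (nat_lit 1) (nat_lit 4) (nat_lit 2) (nat_lit 5) (nat_lit 2) (nat_lit 4) (nat_lit 413) (nat_lit 339) (nat_lit 268))) (XT.nd (nat_lit 78) (nat_lit 0) (nat_lit 0) (XT.lf (nat_lit 0) (nat_lit 17736220560057) (nat_lit 76) (nat_lit 1870623066784) (nat_lit 76) (nat_lit 1862632093891) (nat_lit 1) (nat_lit 4) (nat_lit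 2) (nat_lit 5) (nat_lit 2) (nat_lit 4) (nat_lit 414) (nat_lit 339) (nat_lit 267)) (XT.lf (nat_lit 0) (nat_lit 20470967975658) (nat_lit 76) (nat_lit 2112007416698) (nat_lit 76) (nat_lit 2104016399366) (nat_lit 1) (nat_lit 4) (nat_lit 2) (nat_lit 5) (nat_lit 2) (nat_lit 4) (nat_lit 415) (nat_lit 339) (nat_lit 266))))) (XT.nd (nat_lit 47346) (nat_lit 0) (nat_lit 5016) (XT.nd (nat_lit 47190) (nat_lit 0) (nat_lit 6916) (XT.nd (nat_lit 78) (nat_lit 0) (nat_lit 0) (XT.lf (nat_lit 0) (nat_lit 23615926731047) (nat_lit 76) (nat_lit 2389599814245) (nat_lit 76) (nat_lit 2381608758270) (nat_lit 1) (nat_lit 4) (nat_lit 2) (nat_lit 5) (nat_lit 2) (nat_lit 4) (nat_lit 416) (nat_lit 339) (nat_lit 265)) (XT.lf (nat_lit 0) (nat_lit 27232628627961) (nat_lit 76) (nat_lit 2708831415029) (nat_lit 76) (nat_lit 2700840325451) (nat_lit 1) (nat_lit 4) (nat_lit 2) (nat_lit 5) (nat_lit 2) (nat_lit 4) (nat_lit 417) (nat_lit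 339) (nat_lit 264))) (XT.nd (nat_lit 78) (nat_lit 76) (nat_lit 0) (XT.lf (nat_lit 0) (nat_lit 1073741823) (nat_lit 0) (nat_lit 0) (nat_lit 0) (nat_lit 0) (nat_lit 93) (nat_lit 0) (nat_lit 1) (nat_lit 0) (nat_lit 1) (nat_lit 0) (nat_lit 340) (nat_lit 340) (nat_lit 340)) (XT.lf (nat_lit 0) (nat_lit 5579685216) (nat_lit 76) (nat_lit 486490078) (nat_lit 0) (nat_lit 406467134) (nat_lit 92) (nat_lit 5) (nat_lit 93) (nat_lit 0) (nat_lit 92) (nat_lit 4) (nat_lit 341) (nat_lit 340) (nat_lit 339)))) (XT.nd (nat_lit 156) (nat_lit 1520) (nat_lit 0) (XT.nd (nat_lit 78) (nat_lit 228) (nat_lit 0) (XT.lf (nat_lit 0) (nat_lit 4358075980) (nat_lit 152) (nat_lit 606870546) (nat_lit 76) (nat_lit 1601450699) (nat_lit 90) (nat_lit 5) (nat_lit 92) (nat_lit 5) (nat_lit 91) (nat_lit 4) (nat_lit 342) (nat_lit 340) (nat_lit 338)) (XT.lf (nat_lit 0) (nat_lit 2750915974) (nat_lit 228) (nat_lit 360639721) (nat_lit 76)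 (nat_lit 3613574479) (nat_lit 87) (nat_lit 5) (nat_lit 90) (nat_lit 5) (nat_lit 88) (nat_lit 5) (nat_lit 343) (nat_lit 340) (nat_lit 337))) (XT.nd (nat_lit 78) (nat_lit 912) (nat_lit 0) (XT.lf (nat_lit 0) (nat_lit 275287499) (nat_lit 304) (nat_lit 453139791) (nat_lit 380) (nat_lit 6222289923) (nat_lit 79) (nat_lit 5) (nat_lit 83) (nat_lit 5) (nat_lit 84) (nat_lit 5) (nat_lit 344) (nat_lit 340) (nat_lit 336)) (XT.nd (nat_lit 78) (nat_lit 532) (nat_lit 0) (XT.lf (nat_lit 0) (nat_lit 1219288116) (nat_lit 380) (nat_lit 4259625705) (nat_lit 456) (nat_lit 1757364057) (nat_lit 74) (nat_lit 5) (nat_lit 79) (nat_lit 5) (nat_lit 80) (nat_lit 5) (nat_lit 345) (nat_lit 340) (nat_lit 335)) (XT.lf (nat_lit 0) (nat_lit 2537429721) (nat_lit 456) (nat_lit 264469162) (nat_lit 532) (nat_lit 4789287446) (nat_lit 67) (nat_lit 5) (nat_lit 73) (nat_lit 5) (nat_lit 74) (nat_lit 5) (nat_lit 346) (nat_lit 340) (nat_lit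 334))))))))
noncomputable def xc46 : XT := (XT.nd (nat_lit 1248) (nat_lit 1368) (nat_lit 0) (XT.nd (nat_lit 624) (nat_lit 1140) (nat_lit 0) (XT.nd (nat_lit 312) (nat_lit 760) (nat_lit 0) (XT.nd (nat_lit 156) (nat_lit 684) (nat_lit 0) (XT.nd (nat_lit 78) (nat_lit 304) (nat_lit 0) (XT.lf (nat_lit 0) (nat_lit 4166484068) (nat_lit 456) (nat_lit 3556941027) (nat_lit 532) (nat_lit 290090525) (nat_lit 61) (nat_lit 5) (nat_lit 67) (nat_lit 5) (nat_lit 68) (nat_lit 5) (nat_lit 347) (nat_lit 340) (nat_lit 333)) (XT.lf (nat_lit 0) (nat_lit 4434124130) (nat_lit 304) (nat_lit 2398925647) (nat_lit 76) (nat_lit 1673538022) (nat_lit 57) (nat_lit 5) (nat_lit 61) (nat_lit 5) (nat_lit 58) (nat_lit 5) (nat_lit 348) (nat_lit 340) (nat_lit 332))) (XT.nd (nat_lit 78) (nat_lit 380) (nat_lit 0) (XT.lf (nat_lit 0) (nat_lit 655190944) (nat_lit 304) (nat_lit 660296323) (nat_lit 76) (nat_lit 7762933605) (nat_lit 53)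 (nat_lit 5) (nat_lit 57) (nat_lit 5) (nat_lit 54) (nat_lit 5) (nat_lit 349) (nat_lit 340) (nat_lit 331)) (XT.lf (nat_lit 0) (nat_lit 1342003874) (nat_lit 228) (nat_lit 4560269538) (nat_lit 304) (nat_lit 3821422766) (nat_lit 48) (nat_lit 5) (nat_lit 51) (nat_lit 5) (nat_lit 52) (nat_lit 5) (nat_lit 350) (nat_lit 340) (nat_lit 330)))) (XT.nd (nat_lit 156) (nat_lit 380) (nat_lit 0) (XT.nd (nat_lit 78) (nat_lit 152) (nat_lit 0) (XT.lf (nat_lit 0) (nat_lit 1455380388) (nat_lit 228) (nat_lit 6742833966) (nat_lit 76) (nat_lit 2260250868) (nat_lit 45) (nat_lit 5) (nat_lit 48) (nat_lit 5) (nat_lit 46) (nat_lit 5) (nat_lit 351) (nat_lit 340) (nat_lit 329)) (XT.lf (nat_lit 0) (nat_lit 6345915193) (nat_lit 152) (nat_lit 1088589337) (nat_lit 228) (nat_lit 3850208706) (nat_lit 43) (nat_lit 5) (nat_lit 45) (nat_lit 5) (nat_lit 46) (nat_lit 5) (nat_lit 352) (nat_lit 340) (nat_lit 328))) (XT.nd (nat_lit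 78) (nat_lit 152) (nat_lit 0) (XT.lf (nat_lit 0) (nat_lit 2210033159) (nat_lit 228) (nat_lit 2954494463) (nat_lit 76) (nat_lit 7047453070) (nat_lit 40) (nat_lit 5) (nat_lit 43) (nat_lit 5) (nat_lit 41) (nat_lit 5) (nat_lit 353) (nat_lit 340) (nat_lit 327)) (XT.lf (nat_lit 0) (nat_lit 9184236911) (nat_lit 228) (nat_lit 768168137) (nat_lit 76) (nat_lit 3299419693) (nat_lit 38) (nat_lit 5) (nat_lit 41) (nat_lit 5) (nat_lit 39) (nat_lit 4) (nat_lit 354) (nat_lit 340) (nat_lit 326))))) (XT.nd (nat_lit 312) (nat_lit 456) (nat_lit 0) (XT.nd (nat_lit 156) (nat_lit 304) (nat_lit 0) (XT.nd (nat_lit 78) (nat_lit 76) (nat_lit 0) (XT.lf (nat_lit 0) (nat_lit 1720857138) (nat_lit 152) (nat_lit 1257377142) (nat_lit 228) (nat_lit 11435464901) (nat_lit 34) (nat_lit 5) (nat_lit 36) (nat_lit 5) (nat_lit 37) (nat_lit 5) (nat_lit 355) (nat_lit 340) (nat_lit 325)) (XT.lf (nat_lit 0) (nat_lit 4369152729) (nat_lit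 76) (nat_lit 6932320521) (nat_lit 152) (nat_lit 4403101500) (nat_lit 33) (nat_lit 5) (nat_lit 34) (nat_lit 5) (nat_lit 35) (nat_lit 4) (nat_lit 356) (nat_lit 340) (nat_lit 324))) (XT.nd (nat_lit 78) (nat_lit 76) (nat_lit 0) (XT.lf (nat_lit 0) (nat_lit 3891889405) (nat_lit 228) (nat_lit 9901713603) (nat_lit 76) (nat_lit 3357092078) (nat_lit 30) (nat_lit 5) (nat_lit 33) (nat_lit 5) (nat_lit 31) (nat_lit 4) (nat_lit 357) (nat_lit 340) (nat_lit 323)) (XT.lf (nat_lit 0) (nat_lit 10243200951) (nat_lit 76) (nat_lit 3449360174) (nat_lit 152) (nat_lit 5070309774) (nat_lit 29) (nat_lit 5) (nat_lit 30) (nat_lit 5) (nat_lit 31) (nat_lit 4) (nat_lit 358) (nat_lit 340) (nat_lit 322)))) (XT.nd (nat_lit 156) (nat_lit 228) (nat_lit 0) (XT.nd (nat_lit 78) (nat_lit 76) (nat_lit 0) (XT.lf (nat_lit 0) (nat_lit 4723425988) (nat_lit 152) (nat_lit 7255312384) (nat_lit 76) (nat_lit 8582267632) (nat_lit 27) (nat_lit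 5) (nat_lit 29) (nat_lit 5) (nat_lit 28) (nat_lit 4) (nat_lit 359) (nat_lit 340) (nat_lit 321)) (XT.lf (nat_lit 0) (nat_lit 16220538239) (nat_lit 152) (nat_lit 6105275615) (nat_lit 0) (nat_lit 249789843) (nat_lit 26) (nat_lit 5) (nat_lit 28) (nat_lit 4) (nat_lit 26) (nat_lit 4) (nat_lit 360) (nat_lit 340) (nat_lit 320))) (XT.nd (nat_lit 78) (nat_lit 76) (nat_lit 0) (XT.lf (nat_lit 0) (nat_lit 5151452284) (nat_lit 152) (nat_lit 5391291110) (nat_lit 76) (nat_lit 14274588512) (nat_lit 24) (nat_lit 5) (nat_lit 26) (nat_lit 5) (nat_lit 25) (nat_lit 4) (nat_lit 361) (nat_lit 340) (nat_lit 319)) (XT.lf (nat_lit 0) (nat_lit 18632876112) (nat_lit 152) (nat_lit 5088773901) (nat_lit 0) (nat_lit 3610475057) (nat_lit 23) (nat_lit 5) (nat_lit 25) (nat_lit 4) (nat_lit 23) (nat_lit 4) (nat_lit 362) (nat_lit 340) (nat_lit 318)))))) (XT.nd (nat_lit 624) (nat_lit 532) (nat_lit 0) (XT.nd (nat_lit 312) (nat_lit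 380) (nat_lit 0) (XT.nd (nat_lit 156) (nat_lit 228) (nat_lit 0) (XT.nd (nat_lit 78) (nat_lit 76) (nat_lit 0) (XT.lf (nat_lit 0) (nat_lit 4603505267) (nat_lit 152) (nat_lit 5542022558) (nat_lit 76) (nat_lit 20000157632) (nat_lit 21) (nat_lit 5) (nat_lit 23) (nat_lit 5) (nat_lit 22) (nat_lit 4) (nat_lit 363) (nat_lit 340) (nat_lit 317)) (XT.lf (nat_lit 0) (nat_lit 20172285230) (nat_lit 152) (nat_lit 7029728244) (nat_lit 0) (nat_lit 6098353665) (nat_lit 20) (nat_lit 5) (nat_lit 22) (nat_lit 4) (nat_lit 20) (nat_lit 4) (nat_lit 364) (nat_lit 340) (nat_lit 316))) (XT.nd (nat_lit 78) (nat_lit 76) (nat_lit 0) (XT.lf (nat_lit 0) (nat_lit 2051707312) (nat_lit 152) (nat_lit 9872831702) (nat_lit 76) (nat_lit 24924638341) (nat_lit 18) (nat_lit 5) (nat_lit 20) (nat_lit 5) (nat_lit 19) (nat_lit 4) (nat_lit 365) (nat_lit 340) (nat_lit 315)) (XT.lf (nat_lit 0) (nat_lit 19608679676) (nat_lit 152) (nat_lit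 14761931781) (nat_lit 0) (nat_lit 6462229033) (nat_lit 17) (nat_lit 5) (nat_lit 19) (nat_lit 4) (nat_lit 17) (nat_lit 4) (nat_lit 366) (nat_lit 340) (nat_lit 314)))) (XT.nd (nat_lit 156) (nat_lit 152) (nat_lit 0) (XT.nd (nat_lit 78) (nat_lit 152) (nat_lit 0) (XT.lf (nat_lit 0) (nat_lit 23159120873) (nat_lit 76) (nat_lit 17682272113) (nat_lit 76) (nat_lit 4489296687) (nat_lit 16) (nat_lit 4) (nat_lit 17) (nat_lit 5) (nat_lit 17) (nat_lit 4) (nat_lit 367) (nat_lit 340) (nat_lit 313)) (XT.lf (nat_lit 0) (nat_lit 14812167997) (nat_lit 152) (nat_lit 33040116171) (nat_lit 0) (nat_lit 2558990442) (nat_lit 14) (nat_lit 5) (nat_lit 16) (nat_lit 4) (nat_lit 14) (nat_lit 4) (nat_lit 368) (nat_lit 340) (nat_lit 312))) (XT.nd (nat_lit 78) (nat_lit 76) (nat_lit 0) (XT.lf (nat_lit 0) (nat_lit 7486591851) (nat_lit 76) (nat_lit 30473222201) (nat_lit 76) (nat_lit 18187471108) (nat_lit 13) (nat_lit 4) (nat_lit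 14) (nat_lit 5) (nat_lit 14) (nat_lit 4) (nat_lit 369) (nat_lit 340) (nat_lit 311)) (XT.lf (nat_lit 0) (nat_lit 2616499864) (nat_lit 152) (nat_lit 6871756190) (nat_lit 76) (nat_lit 53182121433) (nat_lit 12) (nat_lit 5) (nat_lit 14) (nat_lit 5) (nat_lit 13) (nat_lit 4) (nat_lit 370) (nat_lit 340) (nat_lit 310))))) (XT.nd (nat_lit 312) (nat_lit 228) (nat_lit 0) (XT.nd (nat_lit 156) (nat_lit 152) (nat_lit 0) (XT.nd (nat_lit 78) (nat_lit 76) (nat_lit 0) (XT.lf (nat_lit 0) (nat_lit 26809620266) (nat_lit 152) (nat_lit 27831998500) (nat_lit 0) (nat_lit 15384892320) (nat_lit 11) (nat_lit 5) (nat_lit 13) (nat_lit 4) (nat_lit 11) (nat_lit 4) (nat_lit 371) (nat_lit 340) (nat_lit 309)) (XT.lf (nat_lit 0) (nat_lit 21170878097) (nat_lit 76) (nat_lit 34344527575) (nat_lit 76) (nat_lit 22899968490) (nat_lit 10) (nat_lit 4) (nat_lit 11) (nat_lit 5) (nat_lit 11) (nat_lit 4) (nat_lit 372) (nat_lit 340) (nat_lit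 308))) (XT.nd (nat_lit 78) (nat_lit 76) (nat_lit 0) (XT.lf (nat_lit 0) (nat_lit 1185266426) (nat_lit 152) (nat_lit 8996449385) (nat_lit 76) (nat_lit 77820440586) (nat_lit 9) (nat_lit 5) (nat_lit 11) (nat_lit 5) (nat_lit 10) (nat_lit 4) (nat_lit 373) (nat_lit 340) (nat_lit 307)) (XT.lf (nat_lit 0) (nat_lit 29115042161) (nat_lit 152) (nat_lit 51248941295) (nat_lit 0) (nat_lit 18488376658) (nat_lit 8) (nat_lit 5) (nat_lit 10) (nat_lit 4) (nat_lit 8) (nat_lit 4) (nat_lit 374) (nat_lit 340) (nat_lit 306)))) (XT.nd (nat_lit 156) (nat_lit 152) (nat_lit 0) (XT.nd (nat_lit 78) (nat_lit 0) (nat_lit 0) (XT.lf (nat_lit 0) (nat_lit 1575303125) (nat_lit 76) (nat_lit 60176082616) (nat_lit 76) (nat_lit 49537343691) (nat_lit 7) (nat_lit 4) (nat_lit 8) (nat_lit 5) (nat_lit 8) (nat_lit 4) (nat_lit 375) (nat_lit 340) (nat_lit 305)) (XT.lf (nat_lit 0) (nat_lit 65294835041) (nat_lit 76) (nat_lit 35415397632)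 (nat_lit 76) (nat_lit 24766160080) (nat_lit 7) (nat_lit 4) (nat_lit 8) (nat_lit 5) (nat_lit 8) (nat_lit 4) (nat_lit 376) (nat_lit 340) (nat_lit 304))) (XT.nd (nat_lit 78) (nat_lit 76) (nat_lit 0) (XT.lf (nat_lit 0) (nat_lit 3476579102) (nat_lit 152) (nat_lit 3427082260) (nat_lit 76) (nat_lit 134886027581) (nat_lit 6) (nat_lit 5) (nat_lit 8) (nat_lit 5) (nat_lit 7) (nat_lit 4) (nat_lit 377) (nat_lit 340) (nat_lit 303)) (XT.nd (nat_lit 78) (nat_lit 0) (nat_lit 0) (XT.lf (nat_lit 0) (nat_lit 36705430242) (nat_lit 152) (nat_lit 96786576700) (nat_lit 0) (nat_lit 26829221665) (nat_lit 5) (nat_lit 5) (nat_lit 7) (nat_lit 4) (nat_lit 5) (nat_lit 4) (nat_lit 378) (nat_lit 340) (nat_lit 302)) (XT.lf (nat_lit 0) (nat_lit 75164663272) (nat_lit 152) (nat_lit 41166090274) (nat_lit 0) (nat_lit 65282063011) (nat_lit 5) (nat_lit 5) (nat_lit 7) (nat_lit 4) (nat_lit 5) (nat_lit 4) (nat_lit 379) (nat_lit 340)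 (nat_lit 301))))))))
noncomputable def xc47 : XT := (XT.nd (nat_lit 1326) (nat_lit 0) (nat_lit 0) (XT.nd (nat_lit 624) (nat_lit 76) (nat_lit 0) (XT.nd (nat_lit 312) (nat_lit 152) (nat_lit 0) (XT.nd (nat_lit 156) (nat_lit 0) (nat_lit 0) (XT.nd (nat_lit 78) (nat_lit 0) (nat_lit 0) (XT.lf (nat_lit 0) (nat_lit 23909865030) (nat_lit 76) (nat_lit 96016860899) (nat_lit 76) (nat_lit 86128702652) (nat_lit 4) (nat_lit 4) (nat_lit 5) (nat_lit 5) (nat_lit 5) (nat_lit 4) (nat_lit 380) (nat_lit 340) (nat_lit 300)) (XT.lf (nat_lit 0) (nat_lit 101163517075) (nat_lit 76) (nat_lit 71400516515) (nat_lit 76) (nat_lit 61507525237) (nat_lit 4) (nat_lit 4) (nat_lit 5) (nat_lit 5) (nat_lit 5) (nat_lit 4) (nat_lit 381) (nat_lit 340) (nat_lit 299))) (XT.nd (nat_lit 78) (nat_lit 0) (nat_lit 0) (XT.lf (nat_lit 0) (nat_lit 189938616997) (nat_lit 76) (nat_lit 43125650124) (nat_lit 76) (nat_lit 33228456211) (nat_lit 4)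 (nat_lit 4) (nat_lit 5) (nat_lit 5) (nat_lit 5) (nat_lit 4) (nat_lit 382) (nat_lit 340) (nat_lit 298)) (XT.lf (nat_lit 0) (nat_lit 291972068925) (nat_lit 76) (nat_lit 10639057820) (nat_lit 76) (nat_lit 738209441) (nat_lit 4) (nat_lit 4) (nat_lit 5) (nat_lit 5) (nat_lit 5) (nat_lit 4) (nat_lit 383) (nat_lit 340) (nat_lit 297)))) (XT.nd (nat_lit 156) (nat_lit 0) (nat_lit 0) (XT.nd (nat_lit 78) (nat_lit 0) (nat_lit 0) (XT.lf (nat_lit 0) (nat_lit 37054074930) (nat_lit 152) (nat_lit 280775365998) (nat_lit 0) (nat_lit 27883680323) (nat_lit 2) (nat_lit 5) (nat_lit 4) (nat_lit 4) (nat_lit 2) (nat_lit 4) (nat_lit 384) (nat_lit 340) (nat_lit 296)) (XT.lf (nat_lit 0) (nat_lit 81083066494) (nat_lit 152) (nat_lit 241387835054) (nat_lit 0) (nat_lit 71910113274) (nat_lit 2) (nat_lit 5) (nat_lit 4) (nat_lit 4) (nat_lit 2) (nat_lit 4) (nat_lit 385) (nat_lit 340) (nat_lit 295))) (XT.nd (nat_lit 78) (nat_lit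 0) (nat_lit 0) (XT.lf (nat_lit 0) (nat_lit 131695747234) (nat_lit 152) (nat_lit 196134429408) (nat_lit 0) (nat_lit 122520569135) (nat_lit 2) (nat_lit 5) (nat_lit 4) (nat_lit 4) (nat_lit 2) (nat_lit 4) (nat_lit 386) (nat_lit 340) (nat_lit 294)) (XT.lf (nat_lit 0) (nat_lit 189882365253) (nat_lit 152) (nat_lit 144129756339) (nat_lit 0) (nat_lit 180705252475) (nat_lit 2) (nat_lit 5) (nat_lit 4) (nat_lit 4) (nat_lit 2) (nat_lit 4) (nat_lit 387) (nat_lit 340) (nat_lit 293))))) (XT.nd (nat_lit 312) (nat_lit 0) (nat_lit 0) (XT.nd (nat_lit 156) (nat_lit 76) (nat_lit 0) (XT.nd (nat_lit 78) (nat_lit 0) (nat_lit 0) (XT.lf (nat_lit 0) (nat_lit 256781354381) (nat_lit 152) (nat_lit 84356333115) (nat_lit 0) (nat_lit 247602559275) (nat_lit 2) (nat_lit 5) (nat_lit 4) (nat_lit 4) (nat_lit 2) (nat_lit 4) (nat_lit 388) (nat_lit 340) (nat_lit 292)) (XT.lf (nat_lit 0) (nat_lit 333701607884) (nat_lit 152) (nat_lit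 15644679714) (nat_lit 0) (nat_lit 324521349883) (nat_lit 2) (nat_lit 5) (nat_lit 4) (nat_lit 4) (nat_lit 2) (nat_lit 4) (nat_lit 389) (nat_lit 340) (nat_lit 291))) (XT.nd (nat_lit 78) (nat_lit 0) (nat_lit 0) (XT.lf (nat_lit 0) (nat_lit 66685437983) (nat_lit 76) (nat_lit 357066435648) (nat_lit 76) (nat_lit 347884905564) (nat_lit 1) (nat_lit 4) (nat_lit 2) (nat_lit 5) (nat_lit 2) (nat_lit 4) (nat_lit 390) (nat_lit 340) (nat_lit 290)) (XT.lf (nat_lit 0) (nat_lit 162290353185) (nat_lit 76) (nat_lit 365464000768) (nat_lit 76) (nat_lit 356281364525) (nat_lit 1) (nat_lit 4) (nat_lit 2) (nat_lit 5) (nat_lit 2) (nat_lit 4) (nat_lit 391) (nat_lit 340) (nat_lit 289)))) (XT.nd (nat_lit 156) (nat_lit 0) (nat_lit 0) (XT.nd (nat_lit 78) (nat_lit 0) (nat_lit 0) (XT.lf (nat_lit 0) (nat_lit 272216775732) (nat_lit 76) (nat_lit 375131036413) (nat_lit 76) (nat_lit 365947438294) (nat_lit 1) (nat_lit 4) (nat_lit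 2) (nat_lit 5) (nat_lit 2) (nat_lit 4) (nat_lit 392) (nat_lit 340) (nat_lit 288)) (XT.lf (nat_lit 0) (nat_lit 398615439979) (nat_lit 76) (nat_lit 386256680239) (nat_lit 76) (nat_lit 377072245704) (nat_lit 1) (nat_lit 4) (nat_lit 2) (nat_lit 5) (nat_lit 2) (nat_lit 4) (nat_lit 393) (nat_lit 340) (nat_lit 287))) (XT.nd (nat_lit 78) (nat_lit 0) (nat_lit 0) (XT.lf (nat_lit 0) (nat_lit 543959363269) (nat_lit 76) (nat_lit 399058607884) (nat_lit 76) (nat_lit 389873446032) (nat_lit 1) (nat_lit 4) (nat_lit 2) (nat_lit 5) (nat_lit 2) (nat_lit 4) (nat_lit 394) (nat_lit 340) (nat_lit 286)) (XT.nd (nat_lit 78) (nat_lit 0) (nat_lit 0) (XT.lf (nat_lit 0) (nat_lit 711092231057) (nat_lit 76) (nat_lit 413787291847) (nat_lit 76) (nat_lit 404601497545) (nat_lit 1) (nat_lit 4) (nat_lit 2) (nat_lit 5) (nat_lit 2) (nat_lit 4) (nat_lit 395) (nat_lit 340) (nat_lit 285)) (XT.lf (nat_lit 0) (nat_lit 903284034236)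 (nat_lit 76) (nat_lit 430730902031) (nat_lit 76) (nat_lit 421544557773) (nat_lit 1) (nat_lit 4) (nat_lit 2) (nat_lit 5) (nat_lit 2) (nat_lit 4) (nat_lit 396) (nat_lit 340) (nat_lit 284))))))) (XT.nd (nat_lit 624) (nat_lit 0) (nat_lit 0) (XT.nd (nat_lit 312) (nat_lit 0) (nat_lit 0) (XT.nd (nat_lit 156) (nat_lit 0) (nat_lit 0) (XT.nd (nat_lit 78) (nat_lit 0) (nat_lit 0) (XT.lf (nat_lit 0) (nat_lit 1124295047216) (nat_lit 76) (nat_lit 450220943852) (nat_lit 76) (nat_lit 441034121371) (nat_lit 1) (nat_lit 4) (nat_lit 2) (nat_lit 5) (nat_lit 2) (nat_lit 4) (nat_lit 397) (nat_lit 340) (nat_lit 283)) (XT.lf (nat_lit 0) (nat_lit 1378449398511) (nat_lit 76) (nat_lit 472638744216) (nat_lit 76) (nat_lit 463451505890) (nat_lit 1) (nat_lit 4) (nat_lit 2) (nat_lit 5) (nat_lit 2) (nat_lit 4) (nat_lit 398) (nat_lit 340) (nat_lit 282))) (XT.nd (nat_lit 78) (nat_lit 0) (nat_lit 0) (XT.lf (nat_lit 0) (nat_lit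 1670719673255) (nat_lit 76) (nat_lit 498422912261) (nat_lit 76) (nat_lit 489235312329) (nat_lit 1) (nat_lit 4) (nat_lit 2) (nat_lit 5) (nat_lit 2) (nat_lit 4) (nat_lit 399) (nat_lit 340) (nat_lit 281)) (XT.lf (nat_lit 0) (nat_lit 2006824202911) (nat_lit 76) (nat_lit 528077920839) (nat_lit 76) (nat_lit 518890006468) (nat_lit 1) (nat_lit 4) (nat_lit 2) (nat_lit 5) (nat_lit 2) (nat_lit 4) (nat_lit 400) (nat_lit 340) (nat_lit 280)))) (XT.nd (nat_lit 156) (nat_lit 0) (nat_lit 0) (XT.nd (nat_lit 78) (nat_lit 0) (nat_lit 0) (XT.lf (nat_lit 0) (nat_lit 2393338945667) (nat_lit 76) (nat_lit 562183976640) (nat_lit 76) (nat_lit 552995788843) (nat_lit 1) (nat_lit 4) (nat_lit 2) (nat_lit 5) (nat_lit 2) (nat_lit 4) (nat_lit 401) (nat_lit 340) (nat_lit 279)) (XT.lf (nat_lit 0) (nat_lit 2837826146491) (nat_lit 76) (nat_lit 601408372060) (nat_lit 76) (nat_lit 592219946502) (nat_lit 1) (nat_lit 4) (nat_lit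 2) (nat_lit 5) (nat_lit 2) (nat_lit 4) (nat_lit 402) (nat_lit 340) (nat_lit 278))) (XT.nd (nat_lit 78) (nat_lit 0) (nat_lit 0) (XT.lf (nat_lit 0) (nat_lit 3348982294094) (nat_lit 76) (nat_lit 646518540923) (nat_lit 76) (nat_lit 637329908616) (nat_lit 1) (nat_lit 4) (nat_lit 2) (nat_lit 5) (nat_lit 2) (nat_lit 4) (nat_lit 403) (nat_lit 340) (nat_lit 277)) (XT.lf (nat_lit 0) (nat_lit 3936808269625) (nat_lit 76) (nat_lit 698397073489) (nat_lit 76) (nat_lit 689208261400) (nat_lit 1) (nat_lit 4) (nat_lit 2) (nat_lit 5) (nat_lit 2) (nat_lit 4) (nat_lit 404) (nat_lit 340) (nat_lit 276))))) (XT.nd (nat_lit 312) (nat_lit 0) (nat_lit 0) (XT.nd (nat_lit 156) (nat_lit 0) (nat_lit 0) (XT.nd (nat_lit 78) (nat_lit 0) (nat_lit 0) (XT.lf (nat_lit 0) (nat_lit 4612805016084) (nat_lit 76) (nat_lit 758058984525) (nat_lit 76) (nat_lit 748870016104) (nat_lit 1) (nat_lit 4) (nat_lit 2) (nat_lit 5) (nat_lit 2) (nat_lit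 4) (nat_lit 405) (nat_lit 340) (nat_lit 275)) (XT.lf (nat_lit 0) (nat_lit 5390198556771) (nat_lit 76) (nat_lit 826671572291) (nat_lit 76) (nat_lit 817482467929) (nat_lit 1) (nat_lit 4) (nat_lit 2) (nat_lit 5) (nat_lit 2) (nat_lit 4) (nat_lit 406) (nat_lit 340) (nat_lit 274))) (XT.nd (nat_lit 78) (nat_lit 0) (nat_lit 0) (XT.lf (nat_lit 0) (nat_lit 6284198765308) (nat_lit 76) (nat_lit 905577256982) (nat_lit 76) (nat_lit 896388034411) (nat_lit 1) (nat_lit 4) (nat_lit 2) (nat_lit 5) (nat_lit 2) (nat_lit 4) (nat_lit 407) (nat_lit 340) (nat_lit 273)) (XT.lf (nat_lit 0) (nat_lit 7312296950123) (nat_lit 76) (nat_lit 996319845473) (nat_lit 76) (nat_lit 987130520112) (nat_lit 1) (nat_lit 4) (nat_lit 2) (nat_lit 5) (nat_lit 2) (nat_lit 4) (nat_lit 408) (nat_lit 340) (nat_lit 272)))) (XT.nd (nat_lit 156) (nat_lit 0) (nat_lit 0) (XT.nd (nat_lit 78) (nat_lit 0) (nat_lit 0) (XT.lf (nat_lit 0) (nat_lit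 8494608075701) (nat_lit 76) (nat_lit 1100674736234) (nat_lit 76) (nat_lit 1091485321490) (nat_lit 1) (nat_lit 4) (nat_lit 2) (nat_lit 5) (nat_lit 2) (nat_lit 4) (nat_lit 409) (nat_lit 340) (nat_lit 271)) (XT.lf (nat_lit 0) (nat_lit 9854264316239) (nat_lit 76) (nat_lit 1220683655389) (nat_lit 76) (nat_lit 1211494162920) (nat_lit 1) (nat_lit 4) (nat_lit 2) (nat_lit 5) (nat_lit 2) (nat_lit 4) (nat_lit 410) (nat_lit 340) (nat_lit 270))) (XT.nd (nat_lit 78) (nat_lit 0) (nat_lit 0) (XT.lf (nat_lit 0) (nat_lit 11417867641660) (nat_lit 76) (nat_lit 1358694603530) (nat_lit 76) (nat_lit 1349505043474) (nat_lit 1) (nat_lit 4) (nat_lit 2) (nat_lit 5) (nat_lit 2) (nat_lit 4) (nat_lit 411) (nat_lit 340) (nat_lit 269)) (XT.nd (nat_lit 78) (nat_lit 0) (nat_lit 0) (XT.lf (nat_lit 0) (nat_lit 13216010290940) (nat_lit 76) (nat_lit 1517407794860) (nat_lit 76) (nat_lit 1508218176033) (nat_lit 1) (nat_lit 4)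 (nat_lit 2) (nat_lit 5) (nat_lit 2) (nat_lit 4) (nat_lit 412) (nat_lit 340) (nat_lit 268)) (XT.lf (nat_lit 0) (nat_lit 15283873315912) (nat_lit 76) (nat_lit 1699928487470) (nat_lit 76) (nat_lit 1690738817538) (nat_lit 1) (nat_lit 4) (nat_lit 2) (nat_lit 5) (nat_lit 2) (nat_lit 4) (nat_lit 413) (nat_lit 340) (nat_lit 267))))))))
noncomputable def xc48 : XT := (XT.nd (nat_lit 48360) (nat_lit 0) (nat_lit 988) (XT.nd (nat_lit 47736) (nat_lit 0) (nat_lit 3344) (XT.nd (nat_lit 47424) (nat_lit 0) (nat_lit 6232) (XT.nd (nat_lit 156) (nat_lit 0) (nat_lit 0) (XT.nd (nat_lit 78) (nat_lit 0) (nat_lit 0) (XT.lf (nat_lit 0) (nat_lit 17661914906195) (nat_lit 76) (nat_lit 1909827738389) (nat_lit 76) (nat_lit 1900638024017) (nat_lit 1) (nat_lit 4) (nat_lit 2) (nat_lit 5) (nat_lit 2) (nat_lit 4) (nat_lit 414) (nat_lit 340) (nat_lit 266)) (XT.lf (nat_lit 0) (nat_lit 20396661962470) (nat_lit 76) (nat_lit 2151212272091)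 (nat_lit 76) (nat_lit 2142022519077) (nat_lit 1) (nat_lit 4) (nat_lit 2) (nat_lit 5) (nat_lit 2) (nat_lit 4) (nat_lit 415) (nat_lit 340) (nat_lit 265))) (XT.nd (nat_lit 78) (nat_lit 0) (nat_lit 0) (XT.lf (nat_lit 0) (nat_lit 23541620405401) (nat_lit 76) (nat_lit 2428804829455) (nat_lit 76) (nat_lit 2419615042838) (nat_lit 1) (nat_lit 4) (nat_lit 2) (nat_lit 5) (nat_lit 2) (nat_lit 4) (nat_lit 416) (nat_lit 340) (nat_lit 264)) (XT.lf (nat_lit 0) (nat_lit 27158322030613) (nat_lit 76) (nat_lit 2748036569209) (nat_lit 76) (nat_lit 2738846753373) (nat_lit 1) (nat_lit 4) (nat_lit 2) (nat_lit 5) (nat_lit 2) (nat_lit 4) (nat_lit 417) (nat_lit 340) (nat_lit 263)))) (XT.nd (nat_lit 156) (nat_lit 228) (nat_lit 0) (XT.nd (nat_lit 78) (nat_lit 228) (nat_lit 0) (XT.lf (nat_lit 0) (nat_lit 1964374140) (nat_lit 228) (nat_lit 651305460) (nat_lit 228) (nat_lit 651305460) (nat_lit 89) (nat_lit 3) (nat_lit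 92) (nat_lit 3) (nat_lit 92) (nat_lit 5) (nat_lit 341) (nat_lit 341) (nat_lit 338)) (XT.lf (nat_lit 0) (nat_lit 1901949931) (nat_lit 228) (nat_lit 1836020099) (nat_lit 304) (nat_lit 2922149059) (nat_lit 86) (nat_lit 5) (nat_lit 89) (nat_lit 3) (nat_lit 90) (nat_lit 5) (nat_lit 342) (nat_lit 341) (nat_lit 337))) (XT.nd (nat_lit 78) (nat_lit 228) (nat_lit 0) (XT.lf (nat_lit 76) (nat_lit 4834124715) (nat_lit 0) (nat_lit 1454615896) (nat_lit 304) (nat_lit 563176077) (nat_lit 87) (nat_lit 5) (nat_lit 86) (nat_lit 5) (nat_lit 90) (nat_lit 5) (nat_lit 343) (nat_lit 341) (nat_lit 336)) (XT.lf (nat_lit 0) (nat_lit 3543121158) (nat_lit 304) (nat_lit 1924101724) (nat_lit 76) (nat_lit 1638060877) (nat_lit 83) (nat_lit 5) (nat_lit 87) (nat_lit 5) (nat_lit 84) (nat_lit 5) (nat_lit 344) (nat_lit 341) (nat_lit 335))))) (XT.nd (nat_lit 312) (nat_lit 912) (nat_lit 0) (XT.nd (nat_lit 156) (nat_lit 1216) (nat_lit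 0) (XT.nd (nat_lit 78) (nat_lit 380) (nat_lit 0) (XT.lf (nat_lit 0) (nat_lit 390483369) (nat_lit 380) (nat_lit 1503248538) (nat_lit 76) (nat_lit 5532975514) (nat_lit 78) (nat_lit 5) (nat_lit 83) (nat_lit 5) (nat_lit 79) (nat_lit 5) (nat_lit 345) (nat_lit 341) (nat_lit 334)) (XT.lf (nat_lit 0) (nat_lit 4441434443) (nat_lit 456) (nat_lit 840881240) (nat_lit 76) (nat_lit 2529751404) (nat_lit 73) (nat_lit 5) (nat_lit 79) (nat_lit 5) (nat_lit 74) (nat_lit 5) (nat_lit 346) (nat_lit 341) (nat_lit 333))) (XT.nd (nat_lit 78) (nat_lit 228) (nat_lit 0) (XT.lf (nat_lit 0) (nat_lit 158144422) (nat_lit 456) (nat_lit 428767879) (nat_lit 532) (nat_lit 7684289697) (nat_lit 60) (nat_lit 5) (nat_lit 66) (nat_lit 5) (nat_lit 67) (nat_lit 5) (nat_lit 347) (nat_lit 341) (nat_lit 332)) (XT.lf (nat_lit 0) (nat_lit 1404777847) (nat_lit 228) (nat_lit 3500817678) (nat_lit 304) (nat_lit 3889542331) (nat_lit 57) (nat_lit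 5) (nat_lit 60) (nat_lit 5) (nat_lit 61) (nat_lit 5) (nat_lit 348) (nat_lit 341) (nat_lit 331)))) (XT.nd (nat_lit 156) (nat_lit 456) (nat_lit 0) (XT.nd (nat_lit 78) (nat_lit 152) (nat_lit 0) (XT.lf (nat_lit 0) (nat_lit 402455671) (nat_lit 304) (nat_lit 6397133674) (nat_lit 76) (nat_lit 2601263032) (nat_lit 53) (nat_lit 5) (nat_lit 57) (nat_lit 5) (nat_lit 54) (nat_lit 5) (nat_lit 349) (nat_lit 341) (nat_lit 330)) (XT.lf (nat_lit 0) (nat_lit 4858132658) (nat_lit 152) (nat_lit 293188889) (nat_lit 228) (nat_lit 4934761632) (nat_lit 51) (nat_lit 5) (nat_lit 53) (nat_lit 5) (nat_lit 54) (nat_lit 5) (nat_lit 350) (nat_lit 341) (nat_lit 329))) (XT.nd (nat_lit 78) (nat_lit 228) (nat_lit 0) (XT.lf (nat_lit 0) (nat_lit 7020117205) (nat_lit 228) (nat_lit 3766090370) (nat_lit 304) (nat_lit 74179345) (nat_lit 48) (nat_lit 5) (nat_lit 51) (nat_lit 5) (nat_lit 52) (nat_lit 5) (nat_lit 351) (nat_lit 341)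 (nat_lit 328)) (XT.lf (nat_lit 0) (nat_lit 5404553773) (nat_lit 228) (nat_lit 2280901710) (nat_lit 76) (nat_lit 4041719046) (nat_lit 45) (nat_lit 5) (nat_lit 48) (nat_lit 5) (nat_lit 46) (nat_lit 5) (nat_lit 352) (nat_lit 341) (nat_lit 327)))))) (XT.nd (nat_lit 624) (nat_lit 988) (nat_lit 0) (XT.nd (nat_lit 312) (nat_lit 532) (nat_lit 0) (XT.nd (nat_lit 156) (nat_lit 304) (nat_lit 0) (XT.nd (nat_lit 78) (nat_lit 380) (nat_lit 0) (XT.lf (nat_lit 0) (nat_lit 11923866785) (nat_lit 228) (nat_lit 408454115) (nat_lit 76) (nat_lit 373780770) (nat_lit 43) (nat_lit 5) (nat_lit 46) (nat_lit 5) (nat_lit 44) (nat_lit 4) (nat_lit 353) (nat_lit 341) (nat_lit 326)) (XT.lf (nat_lit 0) (nat_lit 1649616894) (nat_lit 152) (nat_lit 4088258239) (nat_lit 228) (nat_lit 8049081673) (nat_lit 38) (nat_lit 5) (nat_lit 40) (nat_lit 5) (nat_lit 41) (nat_lit 5) (nat_lit 354) (nat_lit 341) (nat_lit 325))) (XT.nd (nat_lit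 78) (nat_lit 228) (nat_lit 0) (XT.lf (nat_lit 0) (nat_lit 4052506397) (nat_lit 76) (nat_lit 9501701527) (nat_lit 152) (nat_lit 1445034968) (nat_lit 37) (nat_lit 5) (nat_lit 38) (nat_lit 5) (nat_lit 39) (nat_lit 4) (nat_lit 355) (nat_lit 341) (nat_lit 324)) (XT.lf (nat_lit 0) (nat_lit 6239715742) (nat_lit 228) (nat_lit 9672150383) (nat_lit 76) (nat_lit 437928259) (nat_lit 34) (nat_lit 5) (nat_lit 37) (nat_lit 5) (nat_lit 35) (nat_lit 4) (nat_lit 356) (nat_lit 341) (nat_lit 323)))) (XT.nd (nat_lit 156) (nat_lit 228) (nat_lit 0) (XT.nd (nat_lit 78) (nat_lit 228) (nat_lit 0) (XT.lf (nat_lit 0) (nat_lit 9500466891) (nat_lit 76) (nat_lit 6081719288) (nat_lit 152) (nat_lit 2270557195) (nat_lit 33) (nat_lit 5) (nat_lit 34) (nat_lit 5) (nat_lit 35) (nat_lit 4) (nat_lit 357) (nat_lit 341) (nat_lit 322)) (XT.lf (nat_lit 0) (nat_lit 6928199350) (nat_lit 228) (nat_lit 7011868418) (nat_lit 76) (nat_lit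 5586483376) (nat_lit 30) (nat_lit 5) (nat_lit 33) (nat_lit 5) (nat_lit 31) (nat_lit 4) (nat_lit 358) (nat_lit 341) (nat_lit 321))) (XT.nd (nat_lit 78) (nat_lit 152) (nat_lit 0) (XT.lf (nat_lit 0) (nat_lit 15784452707) (nat_lit 76) (nat_lit 2190939209) (nat_lit 152) (nat_lit 3423119034) (nat_lit 29) (nat_lit 5) (nat_lit 30) (nat_lit 5) (nat_lit 31) (nat_lit 4) (nat_lit 359) (nat_lit 341) (nat_lit 320)) (XT.lf (nat_lit 0) (nat_lit 7552518170) (nat_lit 152) (nat_lit 4441210084) (nat_lit 76) (nat_lit 11481400058) (nat_lit 27) (nat_lit 5) (nat_lit 29) (nat_lit 5) (nat_lit 28) (nat_lit 4) (nat_lit 360) (nat_lit 341) (nat_lit 319))))) (XT.nd (nat_lit 312) (nat_lit 532) (nat_lit 0) (XT.nd (nat_lit 156) (nat_lit 228) (nat_lit 0) (XT.nd (nat_lit 78) (nat_lit 152) (nat_lit 0) (XT.lf (nat_lit 0) (nat_lit 20623003441) (nat_lit 152) (nat_lit 3333757538) (nat_lit 0) (nat_lit 1847300054) (nat_lit 26) (nat_lit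 5) (nat_lit 28) (nat_lit 4) (nat_lit 26) (nat_lit 4) (nat_lit 361) (nat_lit 341) (nat_lit 318)) (XT.lf (nat_lit 0) (nat_lit 7764715701) (nat_lit 152) (nat_lit 2727600184) (nat_lit 76) (nat_lit 17900104480) (nat_lit 24) (nat_lit 5) (nat_lit 26) (nat_lit 5) (nat_lit 25) (nat_lit 4) (nat_lit 362) (nat_lit 341) (nat_lit 317))) (XT.nd (nat_lit 78) (nat_lit 152) (nat_lit 0) (XT.lf (nat_lit 0) (nat_lit 23140836354) (nat_lit 152) (nat_lit 2575351627) (nat_lit 0) (nat_lit 5578480776) (nat_lit 23) (nat_lit 5) (nat_lit 25) (nat_lit 4) (nat_lit 23) (nat_lit 4) (nat_lit 363) (nat_lit 341) (nat_lit 316)) (XT.lf (nat_lit 0) (nat_lit 6896513050) (nat_lit 152) (nat_lit 3289375889) (nat_lit 76) (nat_lit 24353263364) (nat_lit 21) (nat_lit 5) (nat_lit 23) (nat_lit 5) (nat_lit 22) (nat_lit 4) (nat_lit 364) (nat_lit 341) (nat_lit 315)))) (XT.nd (nat_lit 156) (nat_lit 304) (nat_lit 0) (XT.nd (nat_lit 78) (nat_lit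 152) (nat_lit 0) (XT.lf (nat_lit 0) (nat_lit 24692227087) (nat_lit 152) (nat_lit 5176952622) (nat_lit 0) (nat_lit 8306551608) (nat_lit 20) (nat_lit 5) (nat_lit 22) (nat_lit 4) (nat_lit 20) (nat_lit 4) (nat_lit 365) (nat_lit 341) (nat_lit 314)) (XT.lf (nat_lit 0) (nat_lit 3758223626) (nat_lit 152) (nat_lit 8618817101) (nat_lit 76) (nat_lit 29887481200) (nat_lit 18) (nat_lit 5) (nat_lit 20) (nat_lit 5) (nat_lit 19) (nat_lit 4) (nat_lit 366) (nat_lit 341) (nat_lit 313))) (XT.nd (nat_lit 78) (nat_lit 228) (nat_lit 0) (XT.lf (nat_lit 0) (nat_lit 23856010100) (nat_lit 152) (nat_lit 14400052844) (nat_lit 0) (nat_lit 8597107243) (nat_lit 17) (nat_lit 5) (nat_lit 19) (nat_lit 4) (nat_lit 17) (nat_lit 4) (nat_lit 367) (nat_lit 341) (nat_lit 312)) (XT.nd (nat_lit 78) (nat_lit 152) (nat_lit 0) (XT.lf (nat_lit 0) (nat_lit 28991097859) (nat_lit 76) (nat_lit 19168893583) (nat_lit 76) (nat_lit 3874811305)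 (nat_lit 16) (nat_lit 4) (nat_lit 17) (nat_lit 5) (nat_lit 17) (nat_lit 4) (nat_lit 368) (nat_lit 341) (nat_lit 311)) (XT.lf (nat_lit 0) (nat_lit 18177663063) (nat_lit 152) (nat_lit 35715578312) (nat_lit 0) (nat_lit 3988150953) (nat_lit 14) (nat_lit 5) (nat_lit 16) (nat_lit 4) (nat_lit 14) (nat_lit 4) (nat_lit 369) (nat_lit 341) (nat_lit 310))))))))
noncomputable def xc49 : XT := (XT.nd (nat_lit 1248) (nat_lit 76) (nat_lit 0) (XT.nd (nat_lit 624) (nat_lit 380) (nat_lit 0) (XT.nd (nat_lit 312) (nat_lit 228) (nat_lit 0) (XT.nd (nat_lit 156) (nat_lit 152) (nat_lit 0) (XT.nd (nat_lit 78) (nat_lit 76) (nat_lit 0) (XT.lf (nat_lit 0) (nat_lit 10697098268) (nat_lit 76) (nat_lit 34001388277) (nat_lit 76) (nat_lit 19787245894) (nat_lit 13) (nat_lit 4) (nat_lit 14) (nat_lit 5) (nat_lit 14) (nat_lit 4) (nat_lit 370) (nat_lit 341) (nat_lit 309)) (XT.lf (nat_lit 0) (nat_lit 3941063060) (nat_lit 152) (nat_lit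 6038148846) (nat_lit 76) (nat_lit 62017099217) (nat_lit 12) (nat_lit 5) (nat_lit 14) (nat_lit 5) (nat_lit 13) (nat_lit 4) (nat_lit 371) (nat_lit 341) (nat_lit 308))) (XT.nd (nat_lit 78) (nat_lit 76) (nat_lit 0) (XT.lf (nat_lit 0) (nat_lit 31703180566) (nat_lit 152) (nat_lit 30252627154) (nat_lit 0) (nat_lit 18504862012) (nat_lit 11) (nat_lit 5) (nat_lit 13) (nat_lit 4) (nat_lit 11) (nat_lit 4) (nat_lit 372) (nat_lit 341) (nat_lit 307)) (XT.lf (nat_lit 0) (nat_lit 25952199084) (nat_lit 76) (nat_lit 38687497140) (nat_lit 76) (nat_lit 25474183396) (nat_lit 10) (nat_lit 4) (nat_lit 11) (nat_lit 5) (nat_lit 11) (nat_lit 4) (nat_lit 373) (nat_lit 341) (nat_lit 306)))) (XT.nd (nat_lit 156) (nat_lit 76) (nat_lit 0) (XT.nd (nat_lit 78) (nat_lit 76) (nat_lit 0) (XT.lf (nat_lit 0) (nat_lit 2074117823) (nat_lit 152) (nat_lit 8912187966) (nat_lit 76) (nat_lit 90159255103) (nat_lit 9) (nat_lit 5) (nat_lit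 11) (nat_lit 5) (nat_lit 10) (nat_lit 4) (nat_lit 374) (nat_lit 341) (nat_lit 305)) (XT.lf (nat_lit 0) (nat_lit 34148108321) (nat_lit 152) (nat_lit 57587824906) (nat_lit 0) (nat_lit 21890986508) (nat_lit 8) (nat_lit 5) (nat_lit 10) (nat_lit 4) (nat_lit 8) (nat_lit 4) (nat_lit 375) (nat_lit 341) (nat_lit 304))) (XT.nd (nat_lit 78) (nat_lit 0) (nat_lit 0) (XT.lf (nat_lit 0) (nat_lit 3045915959) (nat_lit 76) (nat_lit 68576828080) (nat_lit 76) (nat_lit 56310577026) (nat_lit 7) (nat_lit 4) (nat_lit 8) (nat_lit 5) (nat_lit 8) (nat_lit 4) (nat_lit 376) (nat_lit 341) (nat_lit 303)) (XT.lf (nat_lit 0) (nat_lit 76162379745) (nat_lit 76) (nat_lit 40183649078) (nat_lit 76) (nat_lit 27909459554) (nat_lit 7) (nat_lit 4) (nat_lit 8) (nat_lit 5) (nat_lit 8) (nat_lit 4) (nat_lit 377) (nat_lit 341) (nat_lit 302))))) (XT.nd (nat_lit 312) (nat_lit 152) (nat_lit 0) (XT.nd (nat_lit 156) (nat_lit 76) (nat_lit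 0) (XT.nd (nat_lit 78) (nat_lit 76) (nat_lit 0) (XT.lf (nat_lit 0) (nat_lit 4470265588) (nat_lit 152) (nat_lit 2982940118) (nat_lit 76) (nat_lit 155567142583) (nat_lit 6) (nat_lit 5) (nat_lit 8) (nat_lit 5) (nat_lit 7) (nat_lit 4) (nat_lit 378) (nat_lit 341) (nat_lit 301)) (XT.lf (nat_lit 0) (nat_lit 42653659107) (nat_lit 152) (nat_lit 110403625832) (nat_lit 0) (nat_lit 31276719137) (nat_lit 5) (nat_lit 5) (nat_lit 7) (nat_lit 4) (nat_lit 5) (nat_lit 4) (nat_lit 379) (nat_lit 341) (nat_lit 300))) (XT.nd (nat_lit 78) (nat_lit 76) (nat_lit 0) (XT.lf (nat_lit 0) (nat_lit 86824070874) (nat_lit 152) (nat_lit 46557580013) (nat_lit 0) (nat_lit 75442297874) (nat_lit 5) (nat_lit 5) (nat_lit 7) (nat_lit 4) (nat_lit 5) (nat_lit 4) (nat_lit 380) (nat_lit 341) (nat_lit 299)) (XT.lf (nat_lit 0) (nat_lit 28213455664) (nat_lit 76) (nat_lit 110054054481) (nat_lit 76) (nat_lit 98668078845) (nat_lit 4) (nat_lit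 4) (nat_lit 5) (nat_lit 5) (nat_lit 5) (nat_lit 4) (nat_lit 381) (nat_lit 341) (nat_lit 298)))) (XT.nd (nat_lit 156) (nat_lit 152) (nat_lit 0) (XT.nd (nat_lit 78) (nat_lit 0) (nat_lit 0) (XT.lf (nat_lit 0) (nat_lit 116961619315) (nat_lit 76) (nat_lit 81792910902) (nat_lit 76) (nat_lit 70403280801) (nat_lit 4) (nat_lit 4) (nat_lit 5) (nat_lit 5) (nat_lit 5) (nat_lit 4) (nat_lit 382) (nat_lit 341) (nat_lit 297)) (XT.lf (nat_lit 0) (nat_lit 218971648397) (nat_lit 76) (nat_lit 49318251478) (nat_lit 76) (nat_lit 37925443580) (nat_lit 4) (nat_lit 4) (nat_lit 5) (nat_lit 5) (nat_lit 5) (nat_lit 4) (nat_lit 383) (nat_lit 341) (nat_lit 296))) (XT.nd (nat_lit 78) (nat_lit 152) (nat_lit 0) (XT.lf (nat_lit 0) (nat_lit 336239391307) (nat_lit 76) (nat_lit 11994702437) (nat_lit 76) (nat_lit 599131238) (nat_lit 4) (nat_lit 4) (nat_lit 5) (nat_lit 5) (nat_lit 5) (nat_lit 4) (nat_lit 384) (nat_lit 341) (nat_lit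 295)) (XT.lf (nat_lit 0) (nat_lit 42834636754) (nat_lit 152) (nat_lit 322436693303) (nat_lit 0) (nat_lit 32280957060) (nat_lit 2) (nat_lit 5) (nat_lit 4) (nat_lit 4) (nat_lit 2) (nat_lit 4) (nat_lit 385) (nat_lit 341) (nat_lit 294)))))) (XT.nd (nat_lit 624) (nat_lit 0) (nat_lit 0) (XT.nd (nat_lit 312) (nat_lit 76) (nat_lit 0) (XT.nd (nat_lit 156) (nat_lit 0) (nat_lit 0) (XT.nd (nat_lit 78) (nat_lit 0) (nat_lit 0) (XT.lf (nat_lit 0) (nat_lit 93438961759) (nat_lit 152) (nat_lit 277200377622) (nat_lit 0) (nat_lit 82883347386) (nat_lit 2) (nat_lit 5) (nat_lit 4) (nat_lit 4) (nat_lit 2) (nat_lit 4) (nat_lit 386) (nat_lit 341) (nat_lit 293)) (XT.lf (nat_lit 0) (nat_lit 151618313920) (nat_lit 152) (nat_lit 225210565392) (nat_lit 0) (nat_lit 141061017218) (nat_lit 2) (nat_lit 5) (nat_lit 4) (nat_lit 4) (nat_lit 2) (nat_lit 4) (nat_lit 387) (nat_lit 341) (nat_lit 292))) (XT.nd (nat_lit 78) (nat_lit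 0) (nat_lit 0) (XT.lf (nat_lit 0) (nat_lit 218510984911) (nat_lit 152) (nat_lit 165450064637) (nat_lit 0) (nat_lit 207952225315) (nat_lit 2) (nat_lit 5) (nat_lit 4) (nat_lit 4) (nat_lit 2) (nat_lit 4) (nat_lit 388) (nat_lit 341) (nat_lit 291)) (XT.lf (nat_lit 0) (nat_lit 295425744382) (nat_lit 152) (nat_lit 96749648166) (nat_lit 0) (nat_lit 284865712703) (nat_lit 2) (nat_lit 5) (nat_lit 4) (nat_lit 4) (nat_lit 2) (nat_lit 4) (nat_lit 389) (nat_lit 341) (nat_lit 290)))) (XT.nd (nat_lit 156) (nat_lit 0) (nat_lit 0) (XT.nd (nat_lit 78) (nat_lit 76) (nat_lit 0) (XT.lf (nat_lit 0) (nat_lit 383867446322) (nat_lit 152) (nat_lit 17765177396) (nat_lit 0) (nat_lit 373306308485) (nat_lit 2) (nat_lit 5) (nat_lit 4) (nat_lit 4) (nat_lit 2) (nat_lit 4) (nat_lit 390) (nat_lit 341) (nat_lit 289)) (XT.lf (nat_lit 0) (nat_lit 76895310890) (nat_lit 76) (nat_lit 410520495043) (nat_lit 76) (nat_lit 399958395328)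 (nat_lit 1) (nat_lit 4) (nat_lit 2) (nat_lit 5) (nat_lit 2) (nat_lit 4) (nat_lit 391) (nat_lit 341) (nat_lit 288))) (XT.nd (nat_lit 78) (nat_lit 0) (nat_lit 0) (XT.lf (nat_lit 0) (nat_lit 186813955910) (nat_lit 76) (nat_lit 420191508750) (nat_lit 76) (nat_lit 409628572621) (nat_lit 1) (nat_lit 4) (nat_lit 2) (nat_lit 5) (nat_lit 2) (nat_lit 4) (nat_lit 392) (nat_lit 341) (nat_lit 287)) (XT.lf (nat_lit 0) (nat_lit 313205857090) (nat_lit 76) (nat_lit 431320611760) (nat_lit 76) (nat_lit 420756948313) (nat_lit 1) (nat_lit 4) (nat_lit 2) (nat_lit 5) (nat_lit 2) (nat_lit 4) (nat_lit 393) (nat_lit 341) (nat_lit 286))))) (XT.nd (nat_lit 312) (nat_lit 0) (nat_lit 0) (XT.nd (nat_lit 156) (nat_lit 0) (nat_lit 0) (XT.nd (nat_lit 78) (nat_lit 0) (nat_lit 0) (XT.lf (nat_lit 0) (nat_lit 458543899452) (nat_lit 76) (nat_lit 444125547392) (nat_lit 76) (nat_lit 433561251495) (nat_lit 1) (nat_lit 4) (nat_lit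 2) (nat_lit 5) (nat_lit 2) (nat_lit 4) (nat_lit 394) (nat_lit 341) (nat_lit 285)) (XT.lf (nat_lit 0) (nat_lit 625671653391) (nat_lit 76) (nat_lit 458856846995) (nat_lit 76) (nat_lit 448292001142) (nat_lit 1) (nat_lit 4) (nat_lit 2) (nat_lit 5) (nat_lit 2) (nat_lit 4) (nat_lit 395) (nat_lit 341) (nat_lit 284))) (XT.nd (nat_lit 78) (nat_lit 0) (nat_lit 0) (XT.lf (nat_lit 0) (nat_lit 817859009744) (nat_lit 76) (nat_lit 475802731648) (nat_lit 76) (nat_lit 465237407573) (nat_lit 1) (nat_lit 4) (nat_lit 2) (nat_lit 5) (nat_lit 2) (nat_lit 4) (nat_lit 396) (nat_lit 341) (nat_lit 283)) (XT.lf (nat_lit 0) (nat_lit 1038866155918) (nat_lit 76) (nat_lit 495294751269) (nat_lit 76) (nat_lit 484729011348) (nat_lit 1) (nat_lit 4) (nat_lit 2) (nat_lit 5) (nat_lit 2) (nat_lit 4) (nat_lit 397) (nat_lit 341) (nat_lit 282)))) (XT.nd (nat_lit 156) (nat_lit 0) (nat_lit 0) (XT.nd (nat_lit 78) (nat_lit 0) (nat_lit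 0) (XT.lf (nat_lit 0) (nat_lit 1293017144773) (nat_lit 76) (nat_lit 517714271460) (nat_lit 76) (nat_lit 507148169933) (nat_lit 1) (nat_lit 4) (nat_lit 2) (nat_lit 5) (nat_lit 2) (nat_lit 4) (nat_lit 398) (nat_lit 341) (nat_lit 281)) (XT.lf (nat_lit 0) (nat_lit 1585284495657) (nat_lit 76) (nat_lit 543499935005) (nat_lit 76) (nat_lit 532933519039) (nat_lit 1) (nat_lit 4) (nat_lit 2) (nat_lit 5) (nat_lit 2) (nat_lit 4) (nat_lit 399) (nat_lit 341) (nat_lit 280))) (XT.nd (nat_lit 78) (nat_lit 0) (nat_lit 0) (XT.lf (nat_lit 0) (nat_lit 1921386482825) (nat_lit 76) (nat_lit 573156244019) (nat_lit 76) (nat_lit 562589554627) (nat_lit 1) (nat_lit 4) (nat_lit 2) (nat_lit 5) (nat_lit 2) (nat_lit 4) (nat_lit 400) (nat_lit 341) (nat_lit 279)) (XT.nd (nat_lit 78) (nat_lit 0) (nat_lit 0) (XT.lf (nat_lit 0) (nat_lit 2307899014723) (nat_lit 76) (nat_lit 607263430633) (nat_lit 76) (nat_lit 596696503480) (nat_lit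 1) (nat_lit 4) (nat_lit 2) (nat_lit 5) (nat_lit 2) (nat_lit 4) (nat_lit 401) (nat_lit 341) (nat_lit 278)) (XT.lf (nat_lit 0) (nat_lit 2752384293061) (nat_lit 76) (nat_lit 646488809369) (nat_lit 76) (nat_lit 635921675467) (nat_lit 1) (nat_lit 4) (nat_lit 2) (nat_lit 5) (nat_lit 2) (nat_lit 4) (nat_lit 402) (nat_lit 341) (nat_lit 277))))))))
noncomputable def xc50 : XT := (XT.nd (nat_lit 48438) (nat_lit 0) (nat_lit 2204) (XT.nd (nat_lit 624) (nat_lit 0) (nat_lit 0) (XT.nd (nat_lit 312) (nat_lit 0) (nat_lit 0) (XT.nd (nat_lit 156) (nat_lit 0) (nat_lit 0) (XT.nd (nat_lit 78) (nat_lit 0) (nat_lit 0) (XT.lf (nat_lit 0) (nat_lit 3263538768938) (nat_lit 76) (nat_lit 691599833290) (nat_lit 76) (nat_lit 681032519606) (nat_lit 1) (nat_lit 4) (nat_lit 2) (nat_lit 5) (nat_lit 2) (nat_lit 4) (nat_lit 403) (nat_lit 341) (nat_lit 276)) (XT.lf (nat_lit 0) (nat_lit 3851363290794) (nat_lit 76) (nat_lit 743479109383)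 (nat_lit 76) (nat_lit 732911639368) (nat_lit 1) (nat_lit 4) (nat_lit 2) (nat_lit 5) (nat_lit 2) (nat_lit 4) (nat_lit 404) (nat_lit 341) (nat_lit 275))) (XT.nd (nat_lit 78) (nat_lit 0) (nat_lit 0) (XT.lf (nat_lit 0) (nat_lit 4527358773187) (nat_lit 76) (nat_lit 803141666966) (nat_lit 76) (nat_lit 792574061009) (nat_lit 1) (nat_lit 4) (nat_lit 2) (nat_lit 5) (nat_lit 2) (nat_lit 4) (nat_lit 405) (nat_lit 341) (nat_lit 274)) (XT.lf (nat_lit 0) (nat_lit 5304751214686) (nat_lit 76) (nat_lit 871754816946) (nat_lit 76) (nat_lit 861187092780) (nat_lit 1) (nat_lit 4) (nat_lit 2) (nat_lit 5) (nat_lit 2) (nat_lit 4) (nat_lit 406) (nat_lit 341) (nat_lit 273)))) (XT.nd (nat_lit 156) (nat_lit 0) (nat_lit 0) (XT.nd (nat_lit 78) (nat_lit 0) (nat_lit 0) (XT.lf (nat_lit 0) (nat_lit 6198750467408) (nat_lit 76) (nat_lit 950660990519) (nat_lit 76) (nat_lit 940093163563) (nat_lit 1) (nat_lit 4) (nat_lit 2) (nat_lit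 5) (nat_lit 2) (nat_lit 4) (nat_lit 407) (nat_lit 341) (nat_lit 272)) (XT.lf (nat_lit 0) (nat_lit 7226847821079) (nat_lit 76) (nat_lit 1041404004125) (nat_lit 76) (nat_lit 1030836087785) (nat_lit 1) (nat_lit 4) (nat_lit 2) (nat_lit 5) (nat_lit 2) (nat_lit 4) (nat_lit 408) (nat_lit 341) (nat_lit 271))) (XT.nd (nat_lit 78) (nat_lit 0) (nat_lit 0) (XT.lf (nat_lit 0) (nat_lit 8409158223924) (nat_lit 76) (nat_lit 1145759264551) (nat_lit 76) (nat_lit 1135191270487) (nat_lit 1) (nat_lit 4) (nat_lit 2) (nat_lit 5) (nat_lit 2) (nat_lit 4) (nat_lit 409) (nat_lit 341) (nat_lit 270)) (XT.lf (nat_lit 0) (nat_lit 9768813835998) (nat_lit 76) (nat_lit 1265768505154) (nat_lit 76) (nat_lit 1255200443503) (nat_lit 1) (nat_lit 4) (nat_lit 2) (nat_lit 5) (nat_lit 2) (nat_lit 4) (nat_lit 410) (nat_lit 341) (nat_lit 269))))) (XT.nd (nat_lit 312) (nat_lit 0) (nat_lit 0) (XT.nd (nat_lit 156) (nat_lit 0) (nat_lit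 0) (XT.nd (nat_lit 78) (nat_lit 0) (nat_lit 0) (XT.lf (nat_lit 0) (nat_lit 11332416614928) (nat_lit 76) (nat_lit 1403779732815) (nat_lit 76) (nat_lit 1393211612393) (nat_lit 1) (nat_lit 4) (nat_lit 2) (nat_lit 5) (nat_lit 2) (nat_lit 4) (nat_lit 411) (nat_lit 341) (nat_lit 268)) (XT.lf (nat_lit 0) (nat_lit 13130558788999) (nat_lit 76) (nat_lit 1562493167205) (nat_lit 76) (nat_lit 1551924995678) (nat_lit 1) (nat_lit 4) (nat_lit 2) (nat_lit 5) (nat_lit 2) (nat_lit 4) (nat_lit 412) (nat_lit 341) (nat_lit 267))) (XT.nd (nat_lit 78) (nat_lit 0) (nat_lit 0) (XT.lf (nat_lit 0) (nat_lit 15198421400746) (nat_lit 76) (nat_lit 1745014071172) (nat_lit 76) (nat_lit 1734445855205) (nat_lit 1) (nat_lit 4) (nat_lit 2) (nat_lit 5) (nat_lit 2) (nat_lit 4) (nat_lit 413) (nat_lit 341) (nat_lit 266)) (XT.lf (nat_lit 0) (nat_lit 17576462631703) (nat_lit 76) (nat_lit 1954913505880) (nat_lit 76) (nat_lit 1944345251270)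 (nat_lit 1) (nat_lit 4) (nat_lit 2) (nat_lit 5) (nat_lit 2) (nat_lit 4) (nat_lit 414) (nat_lit 341) (nat_lit 265)))) (XT.nd (nat_lit 156) (nat_lit 0) (nat_lit 0) (XT.nd (nat_lit 78) (nat_lit 0) (nat_lit 0) (XT.lf (nat_lit 0) (nat_lit 20311209375520) (nat_lit 76) (nat_lit 2196298199399) (nat_lit 76) (nat_lit 2185729911187) (nat_lit 1) (nat_lit 4) (nat_lit 2) (nat_lit 5) (nat_lit 2) (nat_lit 4) (nat_lit 415) (nat_lit 341) (nat_lit 264)) (XT.lf (nat_lit 0) (nat_lit 23456167546749) (nat_lit 76) (nat_lit 2473890895732) (nat_lit 76) (nat_lit 2463322578301) (nat_lit 1) (nat_lit 4) (nat_lit 2) (nat_lit 5) (nat_lit 2) (nat_lit 4) (nat_lit 416) (nat_lit 341) (nat_lit 263))) (XT.nd (nat_lit 47268) (nat_lit 0) (nat_lit 6460) (XT.lf (nat_lit 0) (nat_lit 27072868935698) (nat_lit 76) (nat_lit 2793122756331) (nat_lit 76) (nat_lit 2782554413492) (nat_lit 1) (nat_lit 4) (nat_lit 2) (nat_lit 5) (nat_lit 2)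 (nat_lit 4) (nat_lit 417) (nat_lit 341) (nat_lit 262)) (XT.lf (nat_lit 0) (nat_lit 1454440478) (nat_lit 0) (nat_lit 1454440478) (nat_lit 228) (nat_lit 500365926) (nat_lit 86) (nat_lit 5) (nat_lit 86) (nat_lit 3) (nat_lit 89) (nat_lit 3) (nat_lit 342) (nat_lit 342) (nat_lit 336)))))) (XT.nd (nat_lit 624) (nat_lit 1748) (nat_lit 0) (XT.nd (nat_lit 312) (nat_lit 1520) (nat_lit 0) (XT.nd (nat_lit 156) (nat_lit 608) (nat_lit 0) (XT.nd (nat_lit 78) (nat_lit 0) (nat_lit 76) (XT.lf (nat_lit 76) (nat_lit 2446415252) (nat_lit 0) (nat_lit 129307844) (nat_lit 380) (nat_lit 4465408413) (nat_lit 82) (nat_lit 5) (nat_lit 81) (nat_lit 3) (nat_lit 86) (nat_lit 5) (nat_lit 343) (nat_lit 342) (nat_lit 335)) (XT.lf (nat_lit 76) (nat_lit 2298281289) (nat_lit 0) (nat_lit 3946628234) (nat_lit 380) (nat_lit 1081469322) (nat_lit 83) (nat_lit 5) (nat_lit 82) (nat_lit 5) (nat_lit 87) (nat_lit 5) (nat_lit 344) (nat_lit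 342) (nat_lit 334))) (XT.nd (nat_lit 78) (nat_lit 380) (nat_lit 0) (XT.lf (nat_lit 0) (nat_lit 2301539246) (nat_lit 380) (nat_lit 5186206036) (nat_lit 76) (nat_lit 191128085) (nat_lit 78) (nat_lit 5) (nat_lit 83) (nat_lit 5) (nat_lit 79) (nat_lit 5) (nat_lit 345) (nat_lit 342) (nat_lit 333)) (XT.lf (nat_lit 0) (nat_lit 2957113450) (nat_lit 380) (nat_lit 2998345020) (nat_lit 456) (nat_lit 2140711263) (nat_lit 73) (nat_lit 5) (nat_lit 78) (nat_lit 5) (nat_lit 79) (nat_lit 5) (nat_lit 346) (nat_lit 342) (nat_lit 332)))) (XT.nd (nat_lit 156) (nat_lit 532) (nat_lit 0) (XT.nd (nat_lit 78) (nat_lit 456) (nat_lit 0) (XT.lf (nat_lit 0) (nat_lit 1349318958) (nat_lit 532) (nat_lit 4840699186) (nat_lit 76) (nat_lit 2395539473) (nat_lit 66) (nat_lit 5) (nat_lit 73) (nat_lit 5) (nat_lit 67) (nat_lit 5) (nat_lit 347) (nat_lit 342) (nat_lit 331)) (XT.lf (nat_lit 0) (nat_lit 4821994418) (nat_lit 456) (nat_lit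 361731780) (nat_lit 532) (nat_lit 3964631284) (nat_lit 60) (nat_lit 5) (nat_lit 66) (nat_lit 5) (nat_lit 67) (nat_lit 5) (nat_lit 348) (nat_lit 342) (nat_lit 330))) (XT.nd (nat_lit 78) (nat_lit 304) (nat_lit 0) (XT.lf (nat_lit 0) (nat_lit 6192721748) (nat_lit 228) (nat_lit 3482218185) (nat_lit 304) (nat_lit 114333714) (nat_lit 57) (nat_lit 5) (nat_lit 60) (nat_lit 5) (nat_lit 61) (nat_lit 5) (nat_lit 349) (nat_lit 342) (nat_lit 329)) (XT.lf (nat_lit 0) (nat_lit 4185444678) (nat_lit 304) (nat_lit 2683268977) (nat_lit 76) (nat_lit 3642480693) (nat_lit 53) (nat_lit 5) (nat_lit 57) (nat_lit 5) (nat_lit 54) (nat_lit 5) (nat_lit 350) (nat_lit 342) (nat_lit 328))))) (XT.nd (nat_lit 312) (nat_lit 760) (nat_lit 0) (XT.nd (nat_lit 156) (nat_lit 532) (nat_lit 0) (XT.nd (nat_lit 78) (nat_lit 304) (nat_lit 0) (XT.lf (nat_lit 0) (nat_lit 9278411485) (nat_lit 228) (nat_lit 1479825181) (nat_lit 76) (nat_lit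 570689191) (nat_lit 51) (nat_lit 5) (nat_lit 54) (nat_lit 5) (nat_lit 52) (nat_lit 5) (nat_lit 351) (nat_lit 342) (nat_lit 327)) (XT.lf (nat_lit 0) (nat_lit 3022424320) (nat_lit 304) (nat_lit 108194779) (nat_lit 76) (nat_lit 9109329305) (nat_lit 47) (nat_lit 5) (nat_lit 51) (nat_lit 5) (nat_lit 48) (nat_lit 5) (nat_lit 352) (nat_lit 342) (nat_lit 326))) (XT.nd (nat_lit 78) (nat_lit 228) (nat_lit 0) (XT.lf (nat_lit 0) (nat_lit 1595416739) (nat_lit 152) (nat_lit 7479260858) (nat_lit 228) (nat_lit 4181614699) (nat_lit 43) (nat_lit 5) (nat_lit 45) (nat_lit 5) (nat_lit 46) (nat_lit 5) (nat_lit 353) (nat_lit 342) (nat_lit 325)) (XT.lf (nat_lit 0) (nat_lit 1878154378) (nat_lit 228) (nat_lit 10768294709) (nat_lit 76) (nat_lit 1747711939) (nat_lit 40) (nat_lit 5) (nat_lit 43) (nat_lit 5) (nat_lit 41) (nat_lit 5) (nat_lit 354) (nat_lit 342) (nat_lit 324)))) (XT.nd (nat_lit 156) (nat_lit 456) (nat_lit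 0) (XT.nd (nat_lit 78) (nat_lit 152) (nat_lit 0) (XT.lf (nat_lit 0) (nat_lit 5848818019) (nat_lit 152) (nat_lit 3231669521) (nat_lit 228) (nat_lit 6575115929) (nat_lit 38) (nat_lit 5) (nat_lit 40) (nat_lit 5) (nat_lit 41) (nat_lit 5) (nat_lit 355) (nat_lit 342) (nat_lit 323)) (XT.lf (nat_lit 0) (nat_lit 760790318) (nat_lit 152) (nat_lit 8657487715) (nat_lit 76) (nat_lit 7646214262) (nat_lit 36) (nat_lit 5) (nat_lit 38) (nat_lit 5) (nat_lit 37) (nat_lit 5) (nat_lit 356) (nat_lit 342) (nat_lit 322))) (XT.nd (nat_lit 78) (nat_lit 304) (nat_lit 0) (XT.lf (nat_lit 0) (nat_lit 9330321317) (nat_lit 228) (nat_lit 7425549860) (nat_lit 76) (nat_lit 1873430739) (nat_lit 34) (nat_lit 5) (nat_lit 37) (nat_lit 5) (nat_lit 35) (nat_lit 4) (nat_lit 357) (nat_lit 342) (nat_lit 321)) (XT.nd (nat_lit 78) (nat_lit 228) (nat_lit 0) (XT.lf (nat_lit 0) (nat_lit 14309991558) (nat_lit 76) (nat_lit 5564525905) (nat_lit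 152) (nat_lit 499224306) (nat_lit 33) (nat_lit 5) (nat_lit 34) (nat_lit 5) (nat_lit 35) (nat_lit 4) (nat_lit 358) (nat_lit 342) (nat_lit 320)) (XT.lf (nat_lit 0) (nat_lit 9821891660) (nat_lit 228) (nat_lit 4755442840) (nat_lit 76) (nat_lit 7729429406) (nat_lit 30) (nat_lit 5) (nat_lit 33) (nat_lit 5) (nat_lit 31) (nat_lit 4) (nat_lit 359) (nat_lit 342) (nat_lit 319))))))))
noncomputable def xc51 : XT := (XT.nd (nat_lit 1326) (nat_lit 532) (nat_lit 0) (XT.nd (nat_lit 624) (nat_lit 760) (nat_lit 0) (XT.nd (nat_lit 312) (nat_lit 456) (nat_lit 0) (XT.nd (nat_lit 156) (nat_lit 228) (nat_lit 0) (XT.nd (nat_lit 78) (nat_lit 152) (nat_lit 0) (XT.lf (nat_lit 0) (nat_lit 21180303307) (nat_lit 76) (nat_lit 1176801270) (nat_lit 152) (nat_lit 2115991648) (nat_lit 29) (nat_lit 5) (nat_lit 30) (nat_lit 5) (nat_lit 31) (nat_lit 4) (nat_lit 360) (nat_lit 342) (nat_lit 318)) (XT.lf (nat_lit 0) (nat_lit 10288857736)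 (nat_lit 152) (nat_lit 2156617186) (nat_lit 76) (nat_lit 14422356593) (nat_lit 27) (nat_lit 5) (nat_lit 29) (nat_lit 5) (nat_lit 28) (nat_lit 4) (nat_lit 361) (nat_lit 342) (nat_lit 317))) (XT.nd (nat_lit 78) (nat_lit 152) (nat_lit 0) (XT.lf (nat_lit 0) (nat_lit 25205591549) (nat_lit 152) (nat_lit 1045685502) (nat_lit 0) (nat_lit 3304010741) (nat_lit 26) (nat_lit 5) (nat_lit 28) (nat_lit 4) (nat_lit 26) (nat_lit 4) (nat_lit 362) (nat_lit 342) (nat_lit 316)) (XT.lf (nat_lit 0) (nat_lit 10321139937) (nat_lit 152) (nat_lit 511118591) (nat_lit 76) (nat_lit 21707485135) (nat_lit 24) (nat_lit 5) (nat_lit 26) (nat_lit 5) (nat_lit 25) (nat_lit 4) (nat_lit 363) (nat_lit 342) (nat_lit 315)))) (XT.nd (nat_lit 156) (nat_lit 228) (nat_lit 0) (XT.nd (nat_lit 78) (nat_lit 152) (nat_lit 0) (XT.lf (nat_lit 0) (nat_lit 27907257706) (nat_lit 152) (nat_lit 483969412) (nat_lit 0) (nat_lit 7493842276) (nat_lit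 23) (nat_lit 5) (nat_lit 25) (nat_lit 4) (nat_lit 23) (nat_lit 4) (nat_lit 364) (nat_lit 342) (nat_lit 314)) (XT.lf (nat_lit 0) (nat_lit 9142696618) (nat_lit 152) (nat_lit 1450872970) (nat_lit 76) (nat_lit 29029377321) (nat_lit 21) (nat_lit 5) (nat_lit 23) (nat_lit 5) (nat_lit 22) (nat_lit 4) (nat_lit 365) (nat_lit 342) (nat_lit 313))) (XT.nd (nat_lit 78) (nat_lit 152) (nat_lit 0) (XT.lf (nat_lit 0) (nat_lit 29525814703) (nat_lit 152) (nat_lit 3755208288) (nat_lit 0) (nat_lit 10530564514) (nat_lit 20) (nat_lit 5) (nat_lit 22) (nat_lit 4) (nat_lit 20) (nat_lit 4) (nat_lit 366) (nat_lit 342) (nat_lit 312)) (XT.lf (nat_lit 0) (nat_lit 5379620851) (nat_lit 152) (nat_lit 7843632592) (nat_lit 76) (nat_lit 35296234463) (nat_lit 18) (nat_lit 5) (nat_lit 20) (nat_lit 5) (nat_lit 19) (nat_lit 4) (nat_lit 367) (nat_lit 342) (nat_lit 311))))) (XT.nd (nat_lit 312) (nat_lit 380) (nat_lit 0) (XT.nd (nat_lit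 156) (nat_lit 228) (nat_lit 0) (XT.nd (nat_lit 78) (nat_lit 76) (nat_lit 0) (XT.lf (nat_lit 0) (nat_lit 28421956774) (nat_lit 152) (nat_lit 14612107119) (nat_lit 0) (nat_lit 10767991934) (nat_lit 17) (nat_lit 5) (nat_lit 19) (nat_lit 4) (nat_lit 17) (nat_lit 4) (nat_lit 368) (nat_lit 342) (nat_lit 310)) (XT.lf (nat_lit 0) (nat_lit 35122831615) (nat_lit 76) (nat_lit 21162776318) (nat_lit 76) (nat_lit 3482210782) (nat_lit 16) (nat_lit 4) (nat_lit 17) (nat_lit 5) (nat_lit 17) (nat_lit 4) (nat_lit 369) (nat_lit 342) (nat_lit 309))) (XT.nd (nat_lit 78) (nat_lit 76) (nat_lit 0) (XT.lf (nat_lit 0) (nat_lit 21769091249) (nat_lit 152) (nat_lit 39348487622) (nat_lit 0) (nat_lit 5376779604) (nat_lit 14) (nat_lit 5) (nat_lit 16) (nat_lit 4) (nat_lit 14) (nat_lit 4) (nat_lit 370) (nat_lit 342) (nat_lit 308)) (XT.lf (nat_lit 0) (nat_lit 13880126251) (nat_lit 76) (nat_lit 38313076856) (nat_lit 76) (nat_lit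 21902141186) (nat_lit 13) (nat_lit 4) (nat_lit 14) (nat_lit 5) (nat_lit 14) (nat_lit 4) (nat_lit 371) (nat_lit 342) (nat_lit 307)))) (XT.nd (nat_lit 156) (nat_lit 228) (nat_lit 0) (XT.nd (nat_lit 78) (nat_lit 76) (nat_lit 0) (XT.lf (nat_lit 0) (nat_lit 5237015122) (nat_lit 152) (nat_lit 5534139019) (nat_lit 76) (nat_lit 71968177951) (nat_lit 12) (nat_lit 5) (nat_lit 14) (nat_lit 5) (nat_lit 13) (nat_lit 4) (nat_lit 372) (nat_lit 342) (nat_lit 306)) (XT.lf (nat_lit 0) (nat_lit 37118103595) (nat_lit 152) (nat_lit 33464115843) (nat_lit 0) (nat_lit 21894758304) (nat_lit 11) (nat_lit 5) (nat_lit 13) (nat_lit 4) (nat_lit 11) (nat_lit 4) (nat_lit 373) (nat_lit 342) (nat_lit 305))) (XT.nd (nat_lit 78) (nat_lit 152) (nat_lit 0) (XT.lf (nat_lit 0) (nat_lit 31059160722) (nat_lit 76) (nat_lit 43879121090) (nat_lit 76) (nat_lit 28644437281) (nat_lit 10) (nat_lit 4) (nat_lit 11) (nat_lit 5) (nat_lit 11)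 (nat_lit 4) (nat_lit 374) (nat_lit 342) (nat_lit 304)) (XT.nd (nat_lit 78) (nat_lit 76) (nat_lit 0) (XT.lf (nat_lit 0) (nat_lit 2922900096) (nat_lit 152) (nat_lit 9164911188) (nat_lit 76) (nat_lit 104186544827) (nat_lit 9) (nat_lit 5) (nat_lit 11) (nat_lit 5) (nat_lit 10) (nat_lit 4) (nat_lit 375) (nat_lit 342) (nat_lit 303)) (XT.lf (nat_lit 0) (nat_lit 39773772460) (nat_lit 152) (nat_lit 65206370980) (nat_lit 0) (nat_lit 25650516036) (nat_lit 8) (nat_lit 5) (nat_lit 10) (nat_lit 4) (nat_lit 8) (nat_lit 4) (nat_lit 376) (nat_lit 342) (nat_lit 302))))))) (XT.nd (nat_lit 624) (nat_lit 228) (nat_lit 0) (XT.nd (nat_lit 312) (nat_lit 76) (nat_lit 0) (XT.nd (nat_lit 156) (nat_lit 152) (nat_lit 0) (XT.nd (nat_lit 78) (nat_lit 0) (nat_lit 0) (XT.lf (nat_lit 0) (nat_lit 4436124611) (nat_lit 76) (nat_lit 78390258207) (nat_lit 76) (nat_lit 64260098764) (nat_lit 7) (nat_lit 4) (nat_lit 8) (nat_lit 5)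 (nat_lit 8) (nat_lit 4) (nat_lit 377) (nat_lit 342) (nat_lit 301)) (XT.lf (nat_lit 0) (nat_lit 88398320410) (nat_lit 76) (nat_lit 45799810279) (nat_lit 76) (nat_lit 31663648212) (nat_lit 7) (nat_lit 4) (nat_lit 8) (nat_lit 5) (nat_lit 8) (nat_lit 4) (nat_lit 378) (nat_lit 342) (nat_lit 300))) (XT.nd (nat_lit 78) (nat_lit 76) (nat_lit 0) (XT.lf (nat_lit 0) (nat_lit 5497856179) (nat_lit 152) (nat_lit 2705840886) (nat_lit 76) (nat_lit 179241125776) (nat_lit 6) (nat_lit 5) (nat_lit 8) (nat_lit 5) (nat_lit 7) (nat_lit 4) (nat_lit 379) (nat_lit 342) (nat_lit 299)) (XT.lf (nat_lit 0) (nat_lit 49386236766) (nat_lit 152) (nat_lit 126282931618) (nat_lit 0) (nat_lit 36288162149) (nat_lit 5) (nat_lit 5) (nat_lit 7) (nat_lit 4) (nat_lit 5) (nat_lit 4) (nat_lit 380) (nat_lit 342) (nat_lit 298)))) (XT.nd (nat_lit 156) (nat_lit 0) (nat_lit 0) (XT.nd (nat_lit 78) (nat_lit 76) (nat_lit 0) (XT.lf (nat_lit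 0) (nat_lit 100138576108) (nat_lit 152) (nat_lit 52948836068) (nat_lit 0) (nat_lit 87036847025) (nat_lit 5) (nat_lit 5) (nat_lit 7) (nat_lit 4) (nat_lit 5) (nat_lit 4) (nat_lit 381) (nat_lit 342) (nat_lit 297)) (XT.lf (nat_lit 0) (nat_lit 32987712864) (nat_lit 76) (nat_lit 126285916488) (nat_lit 76) (nat_lit 113181009609) (nat_lit 4) (nat_lit 4) (nat_lit 5) (nat_lit 5) (nat_lit 5) (nat_lit 4) (nat_lit 382) (nat_lit 342) (nat_lit 296))) (XT.nd (nat_lit 78) (nat_lit 0) (nat_lit 0) (XT.lf (nat_lit 0) (nat_lit 134977374256) (nat_lit 76) (nat_lit 93821633481) (nat_lit 76) (nat_lit 80713963301) (nat_lit 4) (nat_lit 4) (nat_lit 5) (nat_lit 5) (nat_lit 5) (nat_lit 4) (nat_lit 383) (nat_lit 342) (nat_lit 295)) (XT.lf (nat_lit 0) (nat_lit 252227406130) (nat_lit 76) (nat_lit 56507107412) (nat_lit 76) (nat_lit 43397034361) (nat_lit 4) (nat_lit 4) (nat_lit 5) (nat_lit 5) (nat_lit 5) (nat_lit 4) (nat_lit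 384) (nat_lit 342) (nat_lit 294))))) (XT.nd (nat_lit 312) (nat_lit 76) (nat_lit 0) (XT.nd (nat_lit 156) (nat_lit 0) (nat_lit 0) (XT.nd (nat_lit 78) (nat_lit 152) (nat_lit 0) (XT.lf (nat_lit 0) (nat_lit 387031830849) (nat_lit 76) (nat_lit 13612271465) (nat_lit 76) (nat_lit 500108962) (nat_lit 4) (nat_lit 4) (nat_lit 5) (nat_lit 5) (nat_lit 5) (nat_lit 4) (nat_lit 385) (nat_lit 342) (nat_lit 293)) (XT.lf (nat_lit 0) (nat_lit 49428036868) (nat_lit 152) (nat_lit 370458168872) (nat_lit 0) (nat_lit 37285463332) (nat_lit 2) (nat_lit 5) (nat_lit 4) (nat_lit 4) (nat_lit 2) (nat_lit 4) (nat_lit 386) (nat_lit 342) (nat_lit 292))) (XT.nd (nat_lit 78) (nat_lit 0) (nat_lit 0) (XT.lf (nat_lit 0) (nat_lit 107601070893) (nat_lit 152) (nat_lit 318481279111) (nat_lit 0) (nat_lit 95457034462) (nat_lit 2) (nat_lit 5) (nat_lit 4) (nat_lit 4) (nat_lit 2) (nat_lit 4) (nat_lit 387) (nat_lit 342) (nat_lit 291)) (XT.lf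 (nat_lit 0) (nat_lit 174488247852) (nat_lit 152) (nat_lit 258732015285) (nat_lit 0) (nat_lit 162342939339) (nat_lit 2) (nat_lit 5) (nat_lit 4) (nat_lit 4) (nat_lit 2) (nat_lit 4) (nat_lit 388) (nat_lit 342) (nat_lit 290)))) (XT.nd (nat_lit 156) (nat_lit 76) (nat_lit 0) (XT.nd (nat_lit 78) (nat_lit 0) (nat_lit 0) (XT.lf (nat_lit 0) (nat_lit 251398229903) (nat_lit 152) (nat_lit 190041370057) (nat_lit 0) (nat_lit 239251815232) (nat_lit 2) (nat_lit 5) (nat_lit 4) (nat_lit 4) (nat_lit 2) (nat_lit 4) (nat_lit 389) (nat_lit 342) (nat_lit 289)) (XT.lf (nat_lit 0) (nat_lit 339835777566) (nat_lit 152) (nat_lit 111065396021) (nat_lit 0) (nat_lit 327688401017) (nat_lit 2) (nat_lit 5) (nat_lit 4) (nat_lit 4) (nat_lit 2) (nat_lit 4) (nat_lit 390) (nat_lit 342) (nat_lit 288))) (XT.nd (nat_lit 78) (nat_lit 76) (nat_lit 0) (XT.lf (nat_lit 0) (nat_lit 441531190685) (nat_lit 152) (nat_lit 20258911076) (nat_lit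 0) (nat_lit 429382977722) (nat_lit 2) (nat_lit 5) (nat_lit 4) (nat_lit 4) (nat_lit 2) (nat_lit 4) (nat_lit 391) (nat_lit 342) (nat_lit 287)) (XT.nd (nat_lit 78) (nat_lit 0) (nat_lit 0) (XT.lf (nat_lit 0) (nat_lit 88586172521) (nat_lit 76) (nat_lit 472018489184) (nat_lit 76) (nat_lit 459869548903) (nat_lit 1) (nat_lit 4) (nat_lit 2) (nat_lit 5) (nat_lit 2) (nat_lit 4) (nat_lit 392) (nat_lit 342) (nat_lit 286)) (XT.lf (nat_lit 0) (nat_lit 214972192773) (nat_lit 76) (nat_lit 483150600180) (nat_lit 76) (nat_lit 471001027449) (nat_lit 1) (nat_lit 4) (nat_lit 2) (nat_lit 5) (nat_lit 2) (nat_lit 4) (nat_lit 393) (nat_lit 342) (nat_lit 285))))))))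
noncomputable def xc52 : XT := (XT.nd (nat_lit 1248) (nat_lit 0) (nat_lit 0) (XT.nd (nat_lit 624) (nat_lit 0) (nat_lit 0) (XT.nd (nat_lit 312) (nat_lit 0) (nat_lit 0) (XT.nd (nat_lit 156) (nat_lit 0) (nat_lit 0) (XT.nd (nat_lit 78) (nat_lit 0) (nat_lit 0) (XT.lf (nat_lit 0) (nat_lit 360305121285) (nat_lit 76) (nat_lit 495958151452) (nat_lit 76) (nat_lit 483808028765) (nat_lit 1) (nat_lit 4) (nat_lit 2) (nat_lit 5) (nat_lit 2) (nat_lit 4) (nat_lit 394) (nat_lit 342) (nat_lit 284)) (XT.lf (nat_lit 0) (nat_lit 527428428398) (nat_lit 76) (nat_lit 510691725525) (nat_lit 76) (nat_lit 498541124615) (nat_lit 1) (nat_lit 4) (nat_lit 2) (nat_lit 5) (nat_lit 2) (nat_lit 4) (nat_lit 395) (nat_lit 342) (nat_lit 283))) (XT.nd (nat_lit 78) (nat_lit 0) (nat_lit 0) (XT.lf (nat_lit 0) (nat_lit 719611917945) (nat_lit 76) (nat_lit 527639587978) (nat_lit 76) (nat_lit 515488571222) (nat_lit 1) (nat_lit 4) (nat_lit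 2) (nat_lit 5) (nat_lit 2) (nat_lit 4) (nat_lit 396) (nat_lit 342) (nat_lit 282)) (XT.lf (nat_lit 0) (nat_lit 940615701680) (nat_lit 76) (nat_lit 547133327425) (nat_lit 76) (nat_lit 534981949064) (nat_lit 1) (nat_lit 4) (nat_lit 2) (nat_lit 5) (nat_lit 2) (nat_lit 4) (nat_lit 397) (nat_lit 342) (nat_lit 281)))) (XT.nd (nat_lit 156) (nat_lit 0) (nat_lit 0) (XT.nd (nat_lit 78) (nat_lit 0) (nat_lit 0) (XT.lf (nat_lit 0) (nat_lit 1194763766675) (nat_lit 76) (nat_lit 569554343116) (nat_lit 76) (nat_lit 557402650316) (nat_lit 1) (nat_lit 4) (nat_lit 2) (nat_lit 5) (nat_lit 2) (nat_lit 4) (nat_lit 398) (nat_lit 342) (nat_lit 280)) (XT.lf (nat_lit 0) (nat_lit 1487028575071) (nat_lit 76) (nat_lit 595341307097) (nat_lit 76) (nat_lit 583189340871) (nat_lit 1) (nat_lit 4) (nat_lit 2) (nat_lit 5) (nat_lit 2) (nat_lit 4) (nat_lit 399) (nat_lit 342) (nat_lit 279))) (XT.nd (nat_lit 78) (nat_lit 0) (nat_lit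 0) (XT.lf (nat_lit 0) (nat_lit 1823128351381) (nat_lit 76) (nat_lit 624998746924) (nat_lit 76) (nat_lit 612846542937) (nat_lit 1) (nat_lit 4) (nat_lit 2) (nat_lit 5) (nat_lit 2) (nat_lit 4) (nat_lit 400) (nat_lit 342) (nat_lit 278)) (XT.lf (nat_lit 0) (nat_lit 2209638960793) (nat_lit 76) (nat_lit 659106916855) (nat_lit 76) (nat_lit 646954506119) (nat_lit 1) (nat_lit 4) (nat_lit 2) (nat_lit 5) (nat_lit 2) (nat_lit 4) (nat_lit 401) (nat_lit 342) (nat_lit 277))))) (XT.nd (nat_lit 312) (nat_lit 0) (nat_lit 0) (XT.nd (nat_lit 156) (nat_lit 0) (nat_lit 0) (XT.nd (nat_lit 78) (nat_lit 0) (nat_lit 0) (XT.lf (nat_lit 0) (nat_lit 2654122567404) (nat_lit 76) (nat_lit 698333150648) (nat_lit 76) (nat_lit 686180560131) (nat_lit 1) (nat_lit 4) (nat_lit 2) (nat_lit 5) (nat_lit 2) (nat_lit 4) (nat_lit 402) (nat_lit 342) (nat_lit 276)) (XT.lf (nat_lit 0) (nat_lit 3165275589606) (nat_lit 76) (nat_lit 743444918097)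 (nat_lit 76) (nat_lit 731292171247) (nat_lit 1) (nat_lit 4) (nat_lit 2) (nat_lit 5) (nat_lit 2) (nat_lit 4) (nat_lit 403) (nat_lit 342) (nat_lit 275))) (XT.nd (nat_lit 78) (nat_lit 0) (nat_lit 0) (XT.lf (nat_lit 0) (nat_lit 3753098847396) (nat_lit 76) (nat_lit 795324840737) (nat_lit 76) (nat_lit 783171957946) (nat_lit 1) (nat_lit 4) (nat_lit 2) (nat_lit 5) (nat_lit 2) (nat_lit 4) (nat_lit 404) (nat_lit 342) (nat_lit 274)) (XT.lf (nat_lit 0) (nat_lit 4429093230602) (nat_lit 76) (nat_lit 854987960533) (nat_lit 76) (nat_lit 842834959533) (nat_lit 1) (nat_lit 4) (nat_lit 2) (nat_lit 5) (nat_lit 2) (nat_lit 4) (nat_lit 405) (nat_lit 342) (nat_lit 273)))) (XT.nd (nat_lit 156) (nat_lit 0) (nat_lit 0) (XT.nd (nat_lit 78) (nat_lit 0) (nat_lit 0) (XT.lf (nat_lit 0) (nat_lit 5206484716286) (nat_lit 76) (nat_lit 923601599395) (nat_lit 76) (nat_lit 911448495605) (nat_lit 1) (nat_lit 4) (nat_lit 2) (nat_lit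 5) (nat_lit 2) (nat_lit 4) (nat_lit 406) (nat_lit 342) (nat_lit 272)) (XT.lf (nat_lit 0) (nat_lit 6100483137864) (nat_lit 76) (nat_lit 1002508198083) (nat_lit 76) (nat_lit 990355004909) (nat_lit 1) (nat_lit 4) (nat_lit 2) (nat_lit 5) (nat_lit 2) (nat_lit 4) (nat_lit 407) (nat_lit 342) (nat_lit 271))) (XT.nd (nat_lit 78) (nat_lit 0) (nat_lit 0) (XT.lf (nat_lit 0) (nat_lit 7128579768802) (nat_lit 76) (nat_lit 1093251581354) (nat_lit 76) (nat_lit 1081098310455) (nat_lit 1) (nat_lit 4) (nat_lit 2) (nat_lit 5) (nat_lit 2) (nat_lit 4) (nat_lit 408) (nat_lit 342) (nat_lit 270)) (XT.lf (nat_lit 0) (nat_lit 8310889543183) (nat_lit 76) (nat_lit 1197607163228) (nat_lit 76) (nat_lit 1185453824743) (nat_lit 1) (nat_lit 4) (nat_lit 2) (nat_lit 5) (nat_lit 2) (nat_lit 4) (nat_lit 409) (nat_lit 342) (nat_lit 269)))))) (XT.nd (nat_lit 47892) (nat_lit 0) (nat_lit 3800) (XT.nd (nat_lit 312) (nat_lit 0) (nat_lit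 0) (XT.nd (nat_lit 156) (nat_lit 0) (nat_lit 0) (XT.nd (nat_lit 78) (nat_lit 0) (nat_lit 0) (XT.lf (nat_lit 0) (nat_lit 9670544608766) (nat_lit 76) (nat_lit 1317616683351) (nat_lit 76) (nat_lit 1305463286094) (nat_lit 1) (nat_lit 4) (nat_lit 2) (nat_lit 5) (nat_lit 2) (nat_lit 4) (nat_lit 410) (nat_lit 342) (nat_lit 268)) (XT.lf (nat_lit 0) (nat_lit 11234146912487) (nat_lit 76) (nat_lit 1455628154072) (nat_lit 76) (nat_lit 1443474705711) (nat_lit 1) (nat_lit 4) (nat_lit 2) (nat_lit 5) (nat_lit 2) (nat_lit 4) (nat_lit 411) (nat_lit 342) (nat_lit 267))) (XT.nd (nat_lit 78) (nat_lit 0) (nat_lit 0) (XT.lf (nat_lit 0) (nat_lit 13032288673333) (nat_lit 76) (nat_lit 1614341799820) (nat_lit 76) (nat_lit 1602188307019) (nat_lit 1) (nat_lit 4) (nat_lit 2) (nat_lit 5) (nat_lit 2) (nat_lit 4) (nat_lit 412) (nat_lit 342) (nat_lit 266)) (XT.lf (nat_lit 0) (nat_lit 15100150925753) (nat_lit 76) (nat_lit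 1796862887575) (nat_lit 76) (nat_lit 1784709356132) (nat_lit 1) (nat_lit 4) (nat_lit 2) (nat_lit 5) (nat_lit 2) (nat_lit 4) (nat_lit 413) (nat_lit 342) (nat_lit 265)))) (XT.nd (nat_lit 156) (nat_lit 0) (nat_lit 0) (XT.nd (nat_lit 78) (nat_lit 0) (nat_lit 0) (XT.lf (nat_lit 0) (nat_lit 17478191844253) (nat_lit 76) (nat_lit 2006762482099) (nat_lit 76) (nat_lit 1994608917053) (nat_lit 1) (nat_lit 4) (nat_lit 2) (nat_lit 5) (nat_lit 2) (nat_lit 4) (nat_lit 414) (nat_lit 342) (nat_lit 264)) (XT.lf (nat_lit 0) (nat_lit 20212938316367) (nat_lit 76) (nat_lit 2248147314589) (nat_lit 76) (nat_lit 2235993720323) (nat_lit 1) (nat_lit 4) (nat_lit 2) (nat_lit 5) (nat_lit 2) (nat_lit 4) (nat_lit 415) (nat_lit 342) (nat_lit 263))) (XT.nd (nat_lit 78) (nat_lit 0) (nat_lit 0) (XT.lf (nat_lit 0) (nat_lit 23357896251334) (nat_lit 76) (nat_lit 2525740131767) (nat_lit 76) (nat_lit 2513586512093) (nat_lit 1) (nat_lit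 4) (nat_lit 2) (nat_lit 5) (nat_lit 2) (nat_lit 4) (nat_lit 416) (nat_lit 342) (nat_lit 262)) (XT.lf (nat_lit 0) (nat_lit 26974597434836) (nat_lit 76) (nat_lit 2844972097448) (nat_lit 76) (nat_lit 2832818455680) (nat_lit 1) (nat_lit 4) (nat_lit 2) (nat_lit 5) (nat_lit 2) (nat_lit 4) (nat_lit 417) (nat_lit 342) (nat_lit 261))))) (XT.nd (nat_lit 312) (nat_lit 1900) (nat_lit 0) (XT.nd (nat_lit 156) (nat_lit 0) (nat_lit 76) (XT.nd (nat_lit 78) (nat_lit 380) (nat_lit 0) (XT.lf (nat_lit 0) (nat_lit 2845685772) (nat_lit 380) (nat_lit 400895176) (nat_lit 380) (nat_lit 400895176) (nat_lit 81) (nat_lit 3) (nat_lit 86) (nat_lit 3) (nat_lit 86) (nat_lit 5) (nat_lit 343) (nat_lit 343) (nat_lit 334)) (XT.lf (nat_lit 0) (nat_lit 1262164123) (nat_lit 380) (nat_lit 1476209078) (nat_lit 456) (nat_lit 4872931927) (nat_lit 76) (nat_lit 5) (nat_lit 81) (nat_lit 3) (nat_lit 82) (nat_lit 5) (nat_lit 344) (nat_lit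 343) (nat_lit 333))) (XT.nd (nat_lit 78) (nat_lit 0) (nat_lit 0) (XT.lf (nat_lit 0) (nat_lit 4189932837) (nat_lit 380) (nat_lit 1893092148) (nat_lit 456) (nat_lit 1910959300) (nat_lit 77) (nat_lit 5) (nat_lit 82) (nat_lit 5) (nat_lit 83) (nat_lit 5) (nat_lit 345) (nat_lit 343) (nat_lit 332)) (XT.lf (nat_lit 76) (nat_lit 6405215046) (nat_lit 0) (nat_lit 991740332) (nat_lit 456) (nat_lit 1050228441) (nat_lit 78) (nat_lit 5) (nat_lit 77) (nat_lit 5) (nat_lit 83) (nat_lit 5) (nat_lit 346) (nat_lit 343) (nat_lit 331)))) (XT.nd (nat_lit 156) (nat_lit 1140) (nat_lit 0) (XT.nd (nat_lit 78) (nat_lit 456) (nat_lit 0) (XT.lf (nat_lit 0) (nat_lit 1969958380) (nat_lit 456) (nat_lit 2008992024) (nat_lit 76) (nat_lit 4988868581) (nat_lit 72) (nat_lit 5) (nat_lit 78) (nat_lit 5) (nat_lit 73) (nat_lit 5) (nat_lit 347) (nat_lit 343) (nat_lit 330)) (XT.lf (nat_lit 0) (nat_lit 5375353196) (nat_lit 532) (nat_lit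 1733751612) (nat_lit 76) (nat_lit 2455941060) (nat_lit 66) (nat_lit 5) (nat_lit 73) (nat_lit 5) (nat_lit 67) (nat_lit 5) (nat_lit 348) (nat_lit 343) (nat_lit 329))) (XT.nd (nat_lit 78) (nat_lit 684) (nat_lit 0) (XT.lf (nat_lit 0) (nat_lit 9053897235) (nat_lit 456) (nat_lit 316671108) (nat_lit 532) (nat_lit 875165773) (nat_lit 60) (nat_lit 5) (nat_lit 66) (nat_lit 5) (nat_lit 67) (nat_lit 5) (nat_lit 349) (nat_lit 343) (nat_lit 328)) (XT.nd (nat_lit 78) (nat_lit 380) (nat_lit 0) (XT.lf (nat_lit 0) (nat_lit 3005984423) (nat_lit 304) (nat_lit 505245491) (nat_lit 76) (nat_lit 7494498025) (nat_lit 56) (nat_lit 5) (nat_lit 60) (nat_lit 5) (nat_lit 57) (nat_lit 5) (nat_lit 350) (nat_lit 343) (nat_lit 327)) (XT.lf (nat_lit 0) (nat_lit 471621165) (nat_lit 152) (nat_lit 7167818749) (nat_lit 228) (nat_lit 4220844989) (nat_lit 51) (nat_lit 5) (nat_lit 53) (nat_lit 5) (nat_lit 54) (nat_lit 5) (nat_lit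 351) (nat_lit 343) (nat_lit 326))))))))
noncomputable def xc53 : XT := (XT.nd (nat_lit 1248) (nat_lit 1216) (nat_lit 0) (XT.nd (nat_lit 624) (nat_lit 912) (nat_lit 0) (XT.nd (nat_lit 312) (nat_lit 608) (nat_lit 0) (XT.nd (nat_lit 156) (nat_lit 380) (nat_lit 0) (XT.nd (nat_lit 78) (nat_lit 152) (nat_lit 0) (XT.lf (nat_lit 0) (nat_lit 414330844) (nat_lit 304) (nat_lit 11020889601) (nat_lit 76) (nat_lit 1384021224) (nat_lit 47) (nat_lit 5) (nat_lit 51) (nat_lit 5) (nat_lit 48) (nat_lit 5) (nat_lit 352) (nat_lit 343) (nat_lit 325)) (XT.lf (nat_lit 0) (nat_lit 3296482251) (nat_lit 152) (nat_lit 2605250243) (nat_lit 228) (nat_lit 7979086390) (nat_lit 45) (nat_lit 5) (nat_lit 47) (nat_lit 5) (nat_lit 48) (nat_lit 5) (nat_lit 353) (nat_lit 343) (nat_lit 324))) (XT.nd (nat_lit 78) (nat_lit 228) (nat_lit 0) (XT.lf (nat_lit 0) (nat_lit 5128928255) (nat_lit 152) (nat_lit 7519311478) (nat_lit 228) (nat_lit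 2418597812) (nat_lit 43) (nat_lit 5) (nat_lit 45) (nat_lit 5) (nat_lit 46) (nat_lit 5) (nat_lit 354) (nat_lit 343) (nat_lit 323)) (XT.lf (nat_lit 0) (nat_lit 4235435142) (nat_lit 228) (nat_lit 9119125331) (nat_lit 76) (nat_lit 3031947605) (nat_lit 40) (nat_lit 5) (nat_lit 43) (nat_lit 5) (nat_lit 41) (nat_lit 5) (nat_lit 355) (nat_lit 343) (nat_lit 322)))) (XT.nd (nat_lit 156) (nat_lit 304) (nat_lit 0) (XT.nd (nat_lit 78) (nat_lit 152) (nat_lit 0) (XT.lf (nat_lit 0) (nat_lit 9714237955) (nat_lit 152) (nat_lit 2605019228) (nat_lit 228) (nat_lit 5533914135) (nat_lit 38) (nat_lit 5) (nat_lit 40) (nat_lit 5) (nat_lit 41) (nat_lit 5) (nat_lit 356) (nat_lit 343) (nat_lit 321)) (XT.lf (nat_lit 0) (nat_lit 2643869967) (nat_lit 152) (nat_lit 7013734191) (nat_lit 76) (nat_lit 9824532252) (nat_lit 36) (nat_lit 5) (nat_lit 38) (nat_lit 5) (nat_lit 37) (nat_lit 5) (nat_lit 357) (nat_lit 343) (nat_lit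 320))) (XT.nd (nat_lit 78) (nat_lit 152) (nat_lit 0) (XT.lf (nat_lit 0) (nat_lit 12359093116) (nat_lit 228) (nat_lit 5743599291) (nat_lit 76) (nat_lit 3190220958) (nat_lit 34) (nat_lit 5) (nat_lit 37) (nat_lit 5) (nat_lit 35) (nat_lit 4) (nat_lit 358) (nat_lit 343) (nat_lit 319)) (XT.lf (nat_lit 0) (nat_lit 971639497) (nat_lit 152) (nat_lit 4320128418) (nat_lit 76) (nat_lit 18017418386) (nat_lit 32) (nat_lit 5) (nat_lit 34) (nat_lit 5) (nat_lit 33) (nat_lit 5) (nat_lit 359) (nat_lit 343) (nat_lit 318))))) (XT.nd (nat_lit 312) (nat_lit 380) (nat_lit 0) (XT.nd (nat_lit 156) (nat_lit 304) (nat_lit 0) (XT.nd (nat_lit 78) (nat_lit 76) (nat_lit 0) (XT.lf (nat_lit 0) (nat_lit 12697415415) (nat_lit 228) (nat_lit 2967280369) (nat_lit 76) (nat_lit 9875591284) (nat_lit 30) (nat_lit 5) (nat_lit 33) (nat_lit 5) (nat_lit 31) (nat_lit 4) (nat_lit 360) (nat_lit 343) (nat_lit 317)) (XT.lf (nat_lit 0) (nat_lit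 26647089971) (nat_lit 76) (nat_lit 337987758) (nat_lit 152) (nat_lit 1056758834) (nat_lit 29) (nat_lit 5) (nat_lit 30) (nat_lit 5) (nat_lit 31) (nat_lit 4) (nat_lit 361) (nat_lit 343) (nat_lit 316))) (XT.nd (nat_lit 78) (nat_lit 152) (nat_lit 0) (XT.lf (nat_lit 0) (nat_lit 13044633913) (nat_lit 152) (nat_lit 248900379) (nat_lit 76) (nat_lit 17507257550) (nat_lit 27) (nat_lit 5) (nat_lit 29) (nat_lit 5) (nat_lit 28) (nat_lit 4) (nat_lit 362) (nat_lit 343) (nat_lit 315)) (XT.lf (nat_lit 0) (nat_lit 953384978) (nat_lit 76) (nat_lit 29181976196) (nat_lit 76) (nat_lit 3761115230) (nat_lit 25) (nat_lit 4) (nat_lit 26) (nat_lit 5) (nat_lit 26) (nat_lit 4) (nat_lit 363) (nat_lit 343) (nat_lit 314)))) (XT.nd (nat_lit 156) (nat_lit 152) (nat_lit 0) (XT.nd (nat_lit 78) (nat_lit 76) (nat_lit 0) (XT.lf (nat_lit 0) (nat_lit 1471153854) (nat_lit 76) (nat_lit 11485876264) (nat_lit 152) (nat_lit 24376504512)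 (nat_lit 23) (nat_lit 5) (nat_lit 24) (nat_lit 5) (nat_lit 25) (nat_lit 4) (nat_lit 364) (nat_lit 343) (nat_lit 313)) (XT.lf (nat_lit 0) (nat_lit 1386267691) (nat_lit 76) (nat_lit 31719848232) (nat_lit 76) (nat_lit 8080559230) (nat_lit 22) (nat_lit 4) (nat_lit 23) (nat_lit 5) (nat_lit 23) (nat_lit 4) (nat_lit 365) (nat_lit 343) (nat_lit 312))) (XT.nd (nat_lit 78) (nat_lit 0) (nat_lit 0) (XT.lf (nat_lit 0) (nat_lit 99744141) (nat_lit 76) (nat_lit 11332980098) (nat_lit 152) (nat_lit 34060067702) (nat_lit 20) (nat_lit 5) (nat_lit 21) (nat_lit 5) (nat_lit 22) (nat_lit 4) (nat_lit 366) (nat_lit 343) (nat_lit 311)) (XT.lf (nat_lit 0) (nat_lit 34808942902) (nat_lit 152) (nat_lit 2656268565) (nat_lit 0) (nat_lit 12849680506) (nat_lit 20) (nat_lit 5) (nat_lit 22) (nat_lit 4) (nat_lit 20) (nat_lit 4) (nat_lit 367) (nat_lit 343) (nat_lit 310)))))) (XT.nd (nat_lit 624) (nat_lit 456) (nat_lit 0) (XT.nd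 (nat_lit 312) (nat_lit 304) (nat_lit 0) (XT.nd (nat_lit 156) (nat_lit 228) (nat_lit 0) (XT.nd (nat_lit 78) (nat_lit 76) (nat_lit 0) (XT.lf (nat_lit 0) (nat_lit 6986309673) (nat_lit 152) (nat_lit 7456467027) (nat_lit 76) (nat_lit 41290579715) (nat_lit 18) (nat_lit 5) (nat_lit 20) (nat_lit 5) (nat_lit 19) (nat_lit 4) (nat_lit 368) (nat_lit 343) (nat_lit 309)) (XT.lf (nat_lit 0) (nat_lit 33431976308) (nat_lit 152) (nat_lit 15330990368) (nat_lit 0) (nat_lit 13049594206) (nat_lit 17) (nat_lit 5) (nat_lit 19) (nat_lit 4) (nat_lit 17) (nat_lit 4) (nat_lit 369) (nat_lit 343) (nat_lit 308))) (XT.nd (nat_lit 78) (nat_lit 152) (nat_lit 0) (XT.lf (nat_lit 0) (nat_lit 41739512748) (nat_lit 76) (nat_lit 23670688946) (nat_lit 76) (nat_lit 3268192895) (nat_lit 16) (nat_lit 4) (nat_lit 17) (nat_lit 5) (nat_lit 17) (nat_lit 4) (nat_lit 370) (nat_lit 343) (nat_lit 307)) (XT.lf (nat_lit 0) (nat_lit 25688351893)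 (nat_lit 152) (nat_lit 43946845880) (nat_lit 0) (nat_lit 6780957042) (nat_lit 14) (nat_lit 5) (nat_lit 16) (nat_lit 4) (nat_lit 14) (nat_lit 4) (nat_lit 371) (nat_lit 343) (nat_lit 306)))) (XT.nd (nat_lit 156) (nat_lit 152) (nat_lit 0) (XT.nd (nat_lit 78) (nat_lit 76) (nat_lit 0) (XT.lf (nat_lit 0) (nat_lit 17155690174) (nat_lit 76) (nat_lit 43463804235) (nat_lit 76) (nat_lit 24542326945) (nat_lit 13) (nat_lit 4) (nat_lit 14) (nat_lit 5) (nat_lit 14) (nat_lit 4) (nat_lit 372) (nat_lit 343) (nat_lit 305)) (XT.lf (nat_lit 0) (nat_lit 6555491854) (nat_lit 152) (nat_lit 5298299832) (nat_lit 76) (nat_lit 83253774285) (nat_lit 12) (nat_lit 5) (nat_lit 14) (nat_lit 5) (nat_lit 13) (nat_lit 4) (nat_lit 373) (nat_lit 343) (nat_lit 304))) (XT.nd (nat_lit 78) (nat_lit 76) (nat_lit 0) (XT.lf (nat_lit 0) (nat_lit 43184455009) (nat_lit 152) (nat_lit 37480780188) (nat_lit 0) (nat_lit 25643370530) (nat_lit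 11) (nat_lit 5) (nat_lit 13) (nat_lit 4) (nat_lit 11) (nat_lit 4) (nat_lit 374) (nat_lit 343) (nat_lit 303)) (XT.lf (nat_lit 0) (nat_lit 36636092883) (nat_lit 76) (nat_lit 49998606931) (nat_lit 76) (nat_lit 32448948904) (nat_lit 10) (nat_lit 4) (nat_lit 11) (nat_lit 5) (nat_lit 11) (nat_lit 4) (nat_lit 375) (nat_lit 343) (nat_lit 302))))) (XT.nd (nat_lit 312) (nat_lit 228) (nat_lit 0) (XT.nd (nat_lit 156) (nat_lit 76) (nat_lit 0) (XT.nd (nat_lit 78) (nat_lit 76) (nat_lit 0) (XT.lf (nat_lit 0) (nat_lit 3767886793) (nat_lit 152) (nat_lit 9719908756) (nat_lit 76) (nat_lit 120195170376) (nat_lit 9) (nat_lit 5) (nat_lit 11) (nat_lit 5) (nat_lit 10) (nat_lit 4) (nat_lit 376) (nat_lit 343) (nat_lit 301)) (XT.lf (nat_lit 0) (nat_lit 46120517263) (nat_lit 152) (nat_lit 74216341628) (nat_lit 0) (nat_lit 29857928262) (nat_lit 8) (nat_lit 5) (nat_lit 10) (nat_lit 4) (nat_lit 8) (nat_lit 4) (nat_lit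 377) (nat_lit 343) (nat_lit 300))) (XT.nd (nat_lit 78) (nat_lit 0) (nat_lit 0) (XT.lf (nat_lit 0) (nat_lit 5807268263) (nat_lit 76) (nat_lit 89791069841) (nat_lit 76) (nat_lit 73523261166) (nat_lit 7) (nat_lit 4) (nat_lit 8) (nat_lit 5) (nat_lit 8) (nat_lit 4) (nat_lit 378) (nat_lit 343) (nat_lit 299)) (XT.lf (nat_lit 0) (nat_lit 102271742349) (nat_lit 76) (nat_lit 52358714780) (nat_lit 76) (nat_lit 36086367259) (nat_lit 7) (nat_lit 4) (nat_lit 8) (nat_lit 5) (nat_lit 8) (nat_lit 4) (nat_lit 379) (nat_lit 343) (nat_lit 298)))) (XT.nd (nat_lit 156) (nat_lit 76) (nat_lit 0) (XT.nd (nat_lit 78) (nat_lit 76) (nat_lit 0) (XT.lf (nat_lit 0) (nat_lit 6592516272) (nat_lit 152) (nat_lit 2563860497) (nat_lit 76) (nat_lit 206383560659) (nat_lit 6) (nat_lit 5) (nat_lit 8) (nat_lit 5) (nat_lit 7) (nat_lit 4) (nat_lit 380) (nat_lit 343) (nat_lit 297)) (XT.lf (nat_lit 0) (nat_lit 57047124109) (nat_lit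 152) (nat_lit 144710257494) (nat_lit 0) (nat_lit 41973303401) (nat_lit 5) (nat_lit 5) (nat_lit 7) (nat_lit 4) (nat_lit 5) (nat_lit 4) (nat_lit 381) (nat_lit 343) (nat_lit 296))) (XT.nd (nat_lit 78) (nat_lit 76) (nat_lit 0) (XT.lf (nat_lit 0) (nat_lit 115379320635) (nat_lit 152) (nat_lit 60443236376) (nat_lit 0) (nat_lit 100302736627) (nat_lit 5) (nat_lit 5) (nat_lit 7) (nat_lit 4) (nat_lit 5) (nat_lit 4) (nat_lit 382) (nat_lit 343) (nat_lit 295)) (XT.nd (nat_lit 78) (nat_lit 0) (nat_lit 0) (XT.lf (nat_lit 0) (nat_lit 38345880266) (nat_lit 76) (nat_lit 145019922174) (nat_lit 76) (nat_lit 129940935295) (nat_lit 4) (nat_lit 4) (nat_lit 5) (nat_lit 5) (nat_lit 5) (nat_lit 4) (nat_lit 383) (nat_lit 343) (nat_lit 294)) (XT.lf (nat_lit 0) (nat_lit 155580511240) (nat_lit 76) (nat_lit 107713242166) (nat_lit 76) (nat_lit 92632165834) (nat_lit 4) (nat_lit 4) (nat_lit 5) (nat_lit 5) (nat_lit 5) (nat_lit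 4) (nat_lit 384) (nat_lit 343) (nat_lit 293))))))))
noncomputable def xc54 : XT := (XT.nd (nat_lit 1248) (nat_lit 0) (nat_lit 0) (XT.nd (nat_lit 624) (nat_lit 76) (nat_lit 0) (XT.nd (nat_lit 312) (nat_lit 0) (nat_lit 0) (XT.nd (nat_lit 156) (nat_lit 152) (nat_lit 0) (XT.nd (nat_lit 78) (nat_lit 0) (nat_lit 0) (XT.lf (nat_lit 0) (nat_lit 290371543872) (nat_lit 76) (nat_lit 64825228882) (nat_lit 76) (nat_lit 49742335635) (nat_lit 4) (nat_lit 4) (nat_lit 5) (nat_lit 5) (nat_lit 5) (nat_lit 4) (nat_lit 385) (nat_lit 343) (nat_lit 292)) (XT.lf (nat_lit 0) (nat_lit 445356194018) (nat_lit 76) (nat_lit 15516769018) (nat_lit 76) (nat_lit 432295845) (nat_lit 4) (nat_lit 4) (nat_lit 5) (nat_lit 5) (nat_lit 5) (nat_lit 4) (nat_lit 386) (nat_lit 343) (nat_lit 291))) (XT.nd (nat_lit 78) (nat_lit 0) (nat_lit 0) (XT.lf (nat_lit 0) (nat_lit 56969429242) (nat_lit 152) (nat_lit 425766759287) (nat_lit 0) (nat_lit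 43001052370) (nat_lit 2) (nat_lit 5) (nat_lit 4) (nat_lit 4) (nat_lit 2) (nat_lit 4) (nat_lit 387) (nat_lit 343) (nat_lit 290)) (XT.lf (nat_lit 0) (nat_lit 123851828782) (nat_lit 152) (nat_lit 366027266703) (nat_lit 0) (nat_lit 109882345751) (nat_lit 2) (nat_lit 5) (nat_lit 4) (nat_lit 4) (nat_lit 2) (nat_lit 4) (nat_lit 388) (nat_lit 343) (nat_lit 289)))) (XT.nd (nat_lit 156) (nat_lit 0) (nat_lit 0) (XT.nd (nat_lit 78) (nat_lit 0) (nat_lit 0) (XT.lf (nat_lit 0) (nat_lit 200757656556) (nat_lit 152) (nat_lit 297345118208) (nat_lit 0) (nat_lit 186787211648) (nat_lit 2) (nat_lit 5) (nat_lit 4) (nat_lit 4) (nat_lit 2) (nat_lit 4) (nat_lit 389) (nat_lit 343) (nat_lit 288)) (XT.lf (nat_lit 0) (nat_lit 289191591803) (nat_lit 152) (nat_lit 218376532636) (nat_lit 0) (nat_lit 275220310480) (nat_lit 2) (nat_lit 5) (nat_lit 4) (nat_lit 4) (nat_lit 2) (nat_lit 4) (nat_lit 390) (nat_lit 343) (nat_lit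 287))) (XT.nd (nat_lit 78) (nat_lit 0) (nat_lit 0) (XT.lf (nat_lit 0) (nat_lit 390883863692) (nat_lit 152) (nat_lit 127576472441) (nat_lit 0) (nat_lit 376911855051) (nat_lit 2) (nat_lit 5) (nat_lit 4) (nat_lit 4) (nat_lit 2) (nat_lit 4) (nat_lit 391) (nat_lit 343) (nat_lit 286)) (XT.lf (nat_lit 0) (nat_lit 507824103628) (nat_lit 152) (nat_lit 23168414709) (nat_lit 0) (nat_lit 493851462538) (nat_lit 2) (nat_lit 5) (nat_lit 4) (nat_lit 4) (nat_lit 2) (nat_lit 4) (nat_lit 392) (nat_lit 343) (nat_lit 285))))) (XT.nd (nat_lit 312) (nat_lit 0) (nat_lit 0) (XT.nd (nat_lit 156) (nat_lit 0) (nat_lit 0) (XT.nd (nat_lit 78) (nat_lit 0) (nat_lit 0) (XT.lf (nat_lit 0) (nat_lit 101992484031) (nat_lit 76) (nat_lit 542760710489) (nat_lit 76) (nat_lit 528787519443) (nat_lit 1) (nat_lit 4) (nat_lit 2) (nat_lit 5) (nat_lit 2) (nat_lit 4) (nat_lit 393) (nat_lit 343) (nat_lit 284)) (XT.lf (nat_lit 0) (nat_lit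 247320965717) (nat_lit 76) (nat_lit 555570536231) (nat_lit 76) (nat_lit 541596866962) (nat_lit 1) (nat_lit 4) (nat_lit 2) (nat_lit 5) (nat_lit 2) (nat_lit 4) (nat_lit 394) (nat_lit 343) (nat_lit 283))) (XT.nd (nat_lit 78) (nat_lit 0) (nat_lit 0) (XT.lf (nat_lit 0) (nat_lit 414440406024) (nat_lit 76) (nat_lit 570306088104) (nat_lit 76) (nat_lit 556332002989) (nat_lit 1) (nat_lit 4) (nat_lit 2) (nat_lit 5) (nat_lit 2) (nat_lit 4) (nat_lit 395) (nat_lit 343) (nat_lit 282)) (XT.lf (nat_lit 0) (nat_lit 606620533132) (nat_lit 76) (nat_lit 587255670383) (nat_lit 76) (nat_lit 573281223663) (nat_lit 1) (nat_lit 4) (nat_lit 2) (nat_lit 5) (nat_lit 2) (nat_lit 4) (nat_lit 396) (nat_lit 343) (nat_lit 281)))) (XT.nd (nat_lit 156) (nat_lit 0) (nat_lit 0) (XT.nd (nat_lit 78) (nat_lit 0) (nat_lit 0) (XT.lf (nat_lit 0) (nat_lit 827621393006) (nat_lit 76) (nat_lit 606750905331) (nat_lit 76) (nat_lit 592776144171)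 (nat_lit 1) (nat_lit 4) (nat_lit 2) (nat_lit 5) (nat_lit 2) (nat_lit 4) (nat_lit 397) (nat_lit 343) (nat_lit 280)) (XT.lf (nat_lit 0) (nat_lit 1081766915514) (nat_lit 76) (nat_lit 629173221458) (nat_lit 76) (nat_lit 615198186872) (nat_lit 1) (nat_lit 4) (nat_lit 2) (nat_lit 5) (nat_lit 2) (nat_lit 4) (nat_lit 398) (nat_lit 343) (nat_lit 279))) (XT.nd (nat_lit 78) (nat_lit 0) (nat_lit 0) (XT.lf (nat_lit 0) (nat_lit 1374029513051) (nat_lit 76) (nat_lit 654961316252) (nat_lit 76) (nat_lit 640986043905) (nat_lit 1) (nat_lit 4) (nat_lit 2) (nat_lit 5) (nat_lit 2) (nat_lit 4) (nat_lit 399) (nat_lit 343) (nat_lit 278)) (XT.lf (nat_lit 0) (nat_lit 1710127366876) (nat_lit 76) (nat_lit 684619739395) (nat_lit 76) (nat_lit 670644260299) (nat_lit 1) (nat_lit 4) (nat_lit 2) (nat_lit 5) (nat_lit 2) (nat_lit 4) (nat_lit 400) (nat_lit 343) (nat_lit 277)))))) (XT.nd (nat_lit 624) (nat_lit 0) (nat_lit 0) (XT.nd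 (nat_lit 312) (nat_lit 0) (nat_lit 0) (XT.nd (nat_lit 156) (nat_lit 0) (nat_lit 0) (XT.nd (nat_lit 78) (nat_lit 0) (nat_lit 0) (XT.lf (nat_lit 0) (nat_lit 2096636304561) (nat_lit 76) (nat_lit 718728764383) (nat_lit 76) (nat_lit 704753105506) (nat_lit 1) (nat_lit 4) (nat_lit 2) (nat_lit 5) (nat_lit 2) (nat_lit 4) (nat_lit 401) (nat_lit 343) (nat_lit 276)) (XT.lf (nat_lit 0) (nat_lit 2541118457497) (nat_lit 76) (nat_lit 757955741705) (nat_lit 76) (nat_lit 743979926496) (nat_lit 1) (nat_lit 4) (nat_lit 2) (nat_lit 5) (nat_lit 2) (nat_lit 4) (nat_lit 402) (nat_lit 343) (nat_lit 275))) (XT.nd (nat_lit 78) (nat_lit 0) (nat_lit 0) (XT.lf (nat_lit 0) (nat_lit 3052270215633) (nat_lit 76) (nat_lit 803068155700) (nat_lit 76) (nat_lit 789092204550) (nat_lit 1) (nat_lit 4) (nat_lit 2) (nat_lit 5) (nat_lit 2) (nat_lit 4) (nat_lit 403) (nat_lit 343) (nat_lit 274)) (XT.lf (nat_lit 0) (nat_lit 3640092374236)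 (nat_lit 76) (nat_lit 854948640554) (nat_lit 76) (nat_lit 840972571194) (nat_lit 1) (nat_lit 4) (nat_lit 2) (nat_lit 5) (nat_lit 2) (nat_lit 4) (nat_lit 404) (nat_lit 343) (nat_lit 273)))) (XT.nd (nat_lit 156) (nat_lit 0) (nat_lit 0) (XT.nd (nat_lit 78) (nat_lit 0) (nat_lit 0) (XT.lf (nat_lit 0) (nat_lit 4316085801626) (nat_lit 76) (nat_lit 914612249232) (nat_lit 76) (nat_lit 900636077082) (nat_lit 1) (nat_lit 4) (nat_lit 2) (nat_lit 5) (nat_lit 2) (nat_lit 4) (nat_lit 405) (nat_lit 343) (nat_lit 272)) (XT.lf (nat_lit 0) (nat_lit 5093476456167) (nat_lit 76) (nat_lit 983226313209) (nat_lit 76) (nat_lit 969250051676) (nat_lit 1) (nat_lit 4) (nat_lit 2) (nat_lit 5) (nat_lit 2) (nat_lit 4) (nat_lit 406) (nat_lit 343) (nat_lit 271))) (XT.nd (nat_lit 78) (nat_lit 0) (nat_lit 0) (XT.lf (nat_lit 0) (nat_lit 5987474155012) (nat_lit 76) (nat_lit 1062133281562) (nat_lit 76) (nat_lit 1048156942304)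 (nat_lit 1) (nat_lit 4) (nat_lit 2) (nat_lit 5) (nat_lit 2) (nat_lit 4) (nat_lit 407) (nat_lit 343) (nat_lit 270)) (XT.lf (nat_lit 0) (nat_lit 7015570157485) (nat_lit 76) (nat_lit 1152876986280) (nat_lit 76) (nat_lit 1138900579436) (nat_lit 1) (nat_lit 4) (nat_lit 2) (nat_lit 5) (nat_lit 2) (nat_lit 4) (nat_lit 408) (nat_lit 343) (nat_lit 269))))) (XT.nd (nat_lit 312) (nat_lit 0) (nat_lit 0) (XT.nd (nat_lit 156) (nat_lit 0) (nat_lit 0) (XT.nd (nat_lit 78) (nat_lit 0) (nat_lit 0) (XT.lf (nat_lit 0) (nat_lit 8197879385376) (nat_lit 76) (nat_lit 1257232847674) (nat_lit 76) (nat_lit 1243256382058) (nat_lit 1) (nat_lit 4) (nat_lit 2) (nat_lit 5) (nat_lit 2) (nat_lit 4) (nat_lit 409) (nat_lit 343) (nat_lit 268)) (XT.lf (nat_lit 0) (nat_lit 9557533975750) (nat_lit 76) (nat_lit 1377242610857) (nat_lit 76) (nat_lit 1363266094137) (nat_lit 1) (nat_lit 4) (nat_lit 2) (nat_lit 5) (nat_lit 2) (nat_lit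 4) (nat_lit 410) (nat_lit 343) (nat_lit 267))) (XT.nd (nat_lit 78) (nat_lit 0) (nat_lit 0) (XT.lf (nat_lit 0) (nat_lit 11121135866246) (nat_lit 76) (nat_lit 1515254292936) (nat_lit 76) (nat_lit 1501277731776) (nat_lit 1) (nat_lit 4) (nat_lit 2) (nat_lit 5) (nat_lit 2) (nat_lit 4) (nat_lit 411) (nat_lit 343) (nat_lit 266)) (XT.lf (nat_lit 0) (nat_lit 12919277267765) (nat_lit 76) (nat_lit 1673968122472) (nat_lit 76) (nat_lit 1659991522669) (nat_lit 1) (nat_lit 4) (nat_lit 2) (nat_lit 5) (nat_lit 2) (nat_lit 4) (nat_lit 412) (nat_lit 343) (nat_lit 265)))) (XT.nd (nat_lit 156) (nat_lit 0) (nat_lit 0) (XT.nd (nat_lit 78) (nat_lit 0) (nat_lit 0) (XT.lf (nat_lit 0) (nat_lit 14987139207728) (nat_lit 76) (nat_lit 1856489370044) (nat_lit 76) (nat_lit 1842512736639) (nat_lit 1) (nat_lit 4) (nat_lit 2) (nat_lit 5) (nat_lit 2) (nat_lit 4) (nat_lit 413) (nat_lit 343) (nat_lit 264)) (XT.lf (nat_lit 0)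 (nat_lit 17365179854525) (nat_lit 76) (nat_lit 2066389103539) (nat_lit 76) (nat_lit 2052412440914) (nat_lit 1) (nat_lit 4) (nat_lit 2) (nat_lit 5) (nat_lit 2) (nat_lit 4) (nat_lit 414) (nat_lit 343) (nat_lit 263))) (XT.nd (nat_lit 78) (nat_lit 0) (nat_lit 0) (XT.lf (nat_lit 0) (nat_lit 20099926090377) (nat_lit 76) (nat_lit 2307774056873) (nat_lit 76) (nat_lit 2293797368839) (nat_lit 1) (nat_lit 4) (nat_lit 2) (nat_lit 5) (nat_lit 2) (nat_lit 4) (nat_lit 415) (nat_lit 343) (nat_lit 262)) (XT.nd (nat_lit 78) (nat_lit 0) (nat_lit 0) (XT.lf (nat_lit 0) (nat_lit 23244883819897) (nat_lit 76) (nat_lit 2585366979133) (nat_lit 76) (nat_lit 2571390269005) (nat_lit 1) (nat_lit 4) (nat_lit 2) (nat_lit 5) (nat_lit 2) (nat_lit 4) (nat_lit 416) (nat_lit 343) (nat_lit 261)) (XT.lf (nat_lit 0) (nat_lit 26861584824751) (nat_lit 76) (nat_lit 2904599036189) (nat_lit 76) (nat_lit 2890622306849) (nat_lit 1) (nat_lit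 4) (nat_lit 2) (nat_lit 5) (nat_lit 2) (nat_lit 4) (nat_lit 417) (nat_lit 343) (nat_lit 260))))))))
noncomputable def xc55 : XT := (XT.nd (nat_lit 1326) (nat_lit 1748) (nat_lit 0) (XT.nd (nat_lit 624) (nat_lit 1596) (nat_lit 0) (XT.nd (nat_lit 312) (nat_lit 1368) (nat_lit 0) (XT.nd (nat_lit 156) (nat_lit 380) (nat_lit 0) (XT.nd (nat_lit 78) (nat_lit 0) (nat_lit 0) (XT.lf (nat_lit 0) (nat_lit 901780791) (nat_lit 0) (nat_lit 901780791) (nat_lit 380) (nat_lit 2176434576) (nat_lit 76) (nat_lit 5) (nat_lit 76) (nat_lit 3) (nat_lit 81) (nat_lit 3) (nat_lit 344) (nat_lit 344) (nat_lit 332)) (XT.lf (nat_lit 76) (nat_lit 1145453714) (nat_lit 0) (nat_lit 4976682886) (nat_lit 456) (nat_lit 2253706734) (nat_lit 77) (nat_lit 5) (nat_lit 76) (nat_lit 5) (nat_lit 82) (nat_lit 5) (nat_lit 345) (nat_lit 344) (nat_lit 331))) (XT.nd (nat_lit 78) (nat_lit 0) (nat_lit 0) (XT.lf (nat_lit 0) (nat_lit 33376498)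 (nat_lit 456) (nat_lit 8084289680) (nat_lit 532) (nat_lit 745874149) (nat_lit 71) (nat_lit 5) (nat_lit 77) (nat_lit 5) (nat_lit 78) (nat_lit 5) (nat_lit 346) (nat_lit 344) (nat_lit 330)) (XT.lf (nat_lit 76) (nat_lit 577731015) (nat_lit 0) (nat_lit 1980769558) (nat_lit 532) (nat_lit 6859162388) (nat_lit 72) (nat_lit 5) (nat_lit 71) (nat_lit 5) (nat_lit 78) (nat_lit 5) (nat_lit 347) (nat_lit 344) (nat_lit 329)))) (XT.nd (nat_lit 156) (nat_lit 532) (nat_lit 0) (XT.nd (nat_lit 78) (nat_lit 456) (nat_lit 0) (XT.lf (nat_lit 0) (nat_lit 625856199) (nat_lit 456) (nat_lit 4912588232) (nat_lit 532) (nat_lit 4510573687) (nat_lit 66) (nat_lit 5) (nat_lit 72) (nat_lit 5) (nat_lit 73) (nat_lit 5) (nat_lit 348) (nat_lit 344) (nat_lit 328)) (XT.lf (nat_lit 0) (nat_lit 952154614) (nat_lit 456) (nat_lit 8143619348) (nat_lit 532) (nat_lit 1669043423) (nat_lit 60) (nat_lit 5) (nat_lit 66) (nat_lit 5) (nat_lit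 67) (nat_lit 5) (nat_lit 349) (nat_lit 344) (nat_lit 327))) (XT.nd (nat_lit 78) (nat_lit 228) (nat_lit 0) (XT.lf (nat_lit 0) (nat_lit 1523670125) (nat_lit 228) (nat_lit 203279463) (nat_lit 304) (nat_lit 9841443204) (nat_lit 56) (nat_lit 5) (nat_lit 59) (nat_lit 5) (nat_lit 60) (nat_lit 5) (nat_lit 350) (nat_lit 344) (nat_lit 326)) (XT.lf (nat_lit 0) (nat_lit 2275820638) (nat_lit 228) (nat_lit 3603198275) (nat_lit 304) (nat_lit 6582497866) (nat_lit 53) (nat_lit 5) (nat_lit 56) (nat_lit 5) (nat_lit 57) (nat_lit 5) (nat_lit 351) (nat_lit 344) (nat_lit 325))))) (XT.nd (nat_lit 312) (nat_lit 836) (nat_lit 0) (XT.nd (nat_lit 156) (nat_lit 304) (nat_lit 0) (XT.nd (nat_lit 78) (nat_lit 304) (nat_lit 0) (XT.lf (nat_lit 0) (nat_lit 3355121320) (nat_lit 152) (nat_lit 7626301896) (nat_lit 228) (nat_lit 2481089119) (nat_lit 51) (nat_lit 5) (nat_lit 53) (nat_lit 5) (nat_lit 54) (nat_lit 5) (nat_lit 352)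 (nat_lit 344) (nat_lit 324)) (XT.lf (nat_lit 0) (nat_lit 2517057904) (nat_lit 304) (nat_lit 9842716211) (nat_lit 76) (nat_lit 2218197854) (nat_lit 47) (nat_lit 5) (nat_lit 51) (nat_lit 5) (nat_lit 48) (nat_lit 5) (nat_lit 353) (nat_lit 344) (nat_lit 323))) (XT.nd (nat_lit 78) (nat_lit 152) (nat_lit 0) (XT.lf (nat_lit 0) (nat_lit 6382605398) (nat_lit 152) (nat_lit 2241131393) (nat_lit 228) (nat_lit 7191474279) (nat_lit 45) (nat_lit 5) (nat_lit 47) (nat_lit 5) (nat_lit 48) (nat_lit 5) (nat_lit 354) (nat_lit 344) (nat_lit 322)) (XT.lf (nat_lit 0) (nat_lit 8389155210) (nat_lit 152) (nat_lit 7829182863) (nat_lit 228) (nat_lit 974008207) (nat_lit 43) (nat_lit 5) (nat_lit 45) (nat_lit 5) (nat_lit 46) (nat_lit 5) (nat_lit 355) (nat_lit 344) (nat_lit 321)))) (XT.nd (nat_lit 156) (nat_lit 456) (nat_lit 0) (XT.nd (nat_lit 78) (nat_lit 152) (nat_lit 0) (XT.lf (nat_lit 0) (nat_lit 6440170154) (nat_lit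 228) (nat_lit 8018628472) (nat_lit 76) (nat_lit 4259578216) (nat_lit 40) (nat_lit 5) (nat_lit 43) (nat_lit 5) (nat_lit 41) (nat_lit 5) (nat_lit 356) (nat_lit 344) (nat_lit 320)) (XT.lf (nat_lit 0) (nat_lit 13430804449) (nat_lit 152) (nat_lit 2155393495) (nat_lit 228) (nat_lit 4830943272) (nat_lit 38) (nat_lit 5) (nat_lit 40) (nat_lit 5) (nat_lit 41) (nat_lit 5) (nat_lit 357) (nat_lit 344) (nat_lit 319))) (XT.nd (nat_lit 78) (nat_lit 304) (nat_lit 0) (XT.lf (nat_lit 0) (nat_lit 4378039196) (nat_lit 152) (nat_lit 5840934825) (nat_lit 76) (nat_lit 12078087968) (nat_lit 36) (nat_lit 5) (nat_lit 38) (nat_lit 5) (nat_lit 37) (nat_lit 5) (nat_lit 358) (nat_lit 344) (nat_lit 318)) (XT.nd (nat_lit 78) (nat_lit 152) (nat_lit 0) (XT.lf (nat_lit 0) (nat_lit 15444884193) (nat_lit 228) (nat_lit 4491125538) (nat_lit 76) (nat_lit 4451949268) (nat_lit 34) (nat_lit 5) (nat_lit 37) (nat_lit 5) (nat_lit 35)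 (nat_lit 4) (nat_lit 359) (nat_lit 344) (nat_lit 317)) (XT.lf (nat_lit 0) (nat_lit 2264476722) (nat_lit 152) (nat_lit 2972399466) (nat_lit 76) (nat_lit 21476649256) (nat_lit 32) (nat_lit 5) (nat_lit 34) (nat_lit 5) (nat_lit 33) (nat_lit 5) (nat_lit 360) (nat_lit 344) (nat_lit 316))))))) (XT.nd (nat_lit 624) (nat_lit 836) (nat_lit 0) (XT.nd (nat_lit 312) (nat_lit 380) (nat_lit 0) (XT.nd (nat_lit 156) (nat_lit 228) (nat_lit 0) (XT.nd (nat_lit 78) (nat_lit 152) (nat_lit 0) (XT.lf (nat_lit 0) (nat_lit 15662322627) (nat_lit 228) (nat_lit 1520894998) (nat_lit 76) (nat_lit 12103052824) (nat_lit 30) (nat_lit 5) (nat_lit 33) (nat_lit 5) (nat_lit 31) (nat_lit 4) (nat_lit 361) (nat_lit 344) (nat_lit 315)) (XT.lf (nat_lit 0) (nat_lit 205894254) (nat_lit 76) (nat_lit 31804648247) (nat_lit 76) (nat_lit 159148006) (nat_lit 28) (nat_lit 4) (nat_lit 29) (nat_lit 5) (nat_lit 29) (nat_lit 4) (nat_lit 362)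 (nat_lit 344) (nat_lit 314))) (XT.nd (nat_lit 78) (nat_lit 76) (nat_lit 0) (XT.lf (nat_lit 0) (nat_lit 1474647236) (nat_lit 76) (nat_lit 14478931576) (nat_lit 152) (nat_lit 19390986529) (nat_lit 26) (nat_lit 5) (nat_lit 27) (nat_lit 5) (nat_lit 28) (nat_lit 4) (nat_lit 363) (nat_lit 344) (nat_lit 313)) (XT.lf (nat_lit 0) (nat_lit 2774462171) (nat_lit 76) (nat_lit 32772980041) (nat_lit 76) (nat_lit 3362019772) (nat_lit 25) (nat_lit 4) (nat_lit 26) (nat_lit 5) (nat_lit 26) (nat_lit 4) (nat_lit 364) (nat_lit 344) (nat_lit 312)))) (XT.nd (nat_lit 156) (nat_lit 152) (nat_lit 0) (XT.nd (nat_lit 78) (nat_lit 76) (nat_lit 0) (XT.lf (nat_lit 0) (nat_lit 3272085551) (nat_lit 76) (nat_lit 12462222986) (nat_lit 152) (nat_lit 27132442649) (nat_lit 23) (nat_lit 5) (nat_lit 24) (nat_lit 5) (nat_lit 25) (nat_lit 4) (nat_lit 365) (nat_lit 344) (nat_lit 311)) (XT.lf (nat_lit 0) (nat_lit 3085429193) (nat_lit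 76) (nat_lit 35763057662) (nat_lit 76) (nat_lit 8453972657) (nat_lit 22) (nat_lit 4) (nat_lit 23) (nat_lit 5) (nat_lit 23) (nat_lit 4) (nat_lit 366) (nat_lit 344) (nat_lit 310))) (XT.nd (nat_lit 78) (nat_lit 0) (nat_lit 0) (XT.lf (nat_lit 0) (nat_lit 1518190463) (nat_lit 76) (nat_lit 12355993440) (nat_lit 152) (nat_lit 38384321724) (nat_lit 20) (nat_lit 5) (nat_lit 21) (nat_lit 5) (nat_lit 22) (nat_lit 4) (nat_lit 367) (nat_lit 344) (nat_lit 309)) (XT.lf (nat_lit 0) (nat_lit 40676224597) (nat_lit 152) (nat_lit 1797830992) (nat_lit 0) (nat_lit 15336324503) (nat_lit 20) (nat_lit 5) (nat_lit 22) (nat_lit 4) (nat_lit 20) (nat_lit 4) (nat_lit 368) (nat_lit 344) (nat_lit 308))))) (XT.nd (nat_lit 312) (nat_lit 380) (nat_lit 0) (XT.nd (nat_lit 156) (nat_lit 228) (nat_lit 0) (XT.nd (nat_lit 78) (nat_lit 76) (nat_lit 0) (XT.lf (nat_lit 0) (nat_lit 8638978766) (nat_lit 152) (nat_lit 7392547324) (nat_lit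 76) (nat_lit 48013399248) (nat_lit 18) (nat_lit 5) (nat_lit 20) (nat_lit 5) (nat_lit 19) (nat_lit 4) (nat_lit 369) (nat_lit 344) (nat_lit 307)) (XT.lf (nat_lit 0) (nat_lit 39011404904) (nat_lit 152) (nat_lit 16516890101) (nat_lit 0) (nat_lit 15510930109) (nat_lit 17) (nat_lit 5) (nat_lit 19) (nat_lit 4) (nat_lit 17) (nat_lit 4) (nat_lit 370) (nat_lit 344) (nat_lit 306))) (XT.nd (nat_lit 78) (nat_lit 152) (nat_lit 0) (XT.lf (nat_lit 0) (nat_lit 49019915193) (nat_lit 76) (nat_lit 26717319645) (nat_lit 76) (nat_lit 3201635815) (nat_lit 16) (nat_lit 4) (nat_lit 17) (nat_lit 5) (nat_lit 17) (nat_lit 4) (nat_lit 371) (nat_lit 344) (nat_lit 305)) (XT.lf (nat_lit 0) (nat_lit 30036044721) (nat_lit 152) (nat_lit 49552925778) (nat_lit 0) (nat_lit 8250017799) (nat_lit 14) (nat_lit 5) (nat_lit 16) (nat_lit 4) (nat_lit 14) (nat_lit 4) (nat_lit 372) (nat_lit 344) (nat_lit 304)))) (XT.nd (nat_lit 156) (nat_lit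 228) (nat_lit 0) (XT.nd (nat_lit 78) (nat_lit 76) (nat_lit 0) (XT.lf (nat_lit 0) (nat_lit 20631535182) (nat_lit 76) (nat_lit 49532536195) (nat_lit 76) (nat_lit 27735860925) (nat_lit 13) (nat_lit 4) (nat_lit 14) (nat_lit 5) (nat_lit 14) (nat_lit 4) (nat_lit 373) (nat_lit 344) (nat_lit 303)) (XT.lf (nat_lit 0) (nat_lit 7941783090) (nat_lit 152) (nat_lit 5287025873) (nat_lit 76) (nat_lit 96112630327) (nat_lit 12) (nat_lit 5) (nat_lit 14) (nat_lit 5) (nat_lit 13) (nat_lit 4) (nat_lit 374) (nat_lit 344) (nat_lit 302))) (XT.nd (nat_lit 78) (nat_lit 152) (nat_lit 0) (XT.lf (nat_lit 0) (nat_lit 50039163619) (nat_lit 152) (nat_lit 42344520632) (nat_lit 0) (nat_lit 29841028080) (nat_lit 11) (nat_lit 5) (nat_lit 13) (nat_lit 4) (nat_lit 11) (nat_lit 4) (nat_lit 375) (nat_lit 344) (nat_lit 301)) (XT.nd (nat_lit 78) (nat_lit 76) (nat_lit 0) (XT.lf (nat_lit 0) (nat_lit 42825690599) (nat_lit 76) (nat_lit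 57148770506) (nat_lit 76) (nat_lit 36944152132) (nat_lit 10) (nat_lit 4) (nat_lit 11) (nat_lit 5) (nat_lit 11) (nat_lit 4) (nat_lit 376) (nat_lit 344) (nat_lit 300)) (XT.lf (nat_lit 0) (nat_lit 4640481292) (nat_lit 152) (nat_lit 10558054533) (nat_lit 76) (nat_lit 138512267350) (nat_lit 9) (nat_lit 5) (nat_lit 11) (nat_lit 5) (nat_lit 10) (nat_lit 4) (nat_lit 377) (nat_lit 344) (nat_lit 299))))))))
noncomputable def xc56 : XT := (XT.nd (nat_lit 1248) (nat_lit 76) (nat_lit 0) (XT.nd (nat_lit 624) (nat_lit 152) (nat_lit 0) (XT.nd (nat_lit 312) (nat_lit 152) (nat_lit 0) (XT.nd (nat_lit 156) (nat_lit 76) (nat_lit 0) (XT.nd (nat_lit 78) (nat_lit 76) (nat_lit 0) (XT.lf (nat_lit 0) (nat_lit 53326442819) (nat_lit 152) (nat_lit 84765817447) (nat_lit 0) (nat_lit 34608704323) (nat_lit 8) (nat_lit 5) (nat_lit 10) (nat_lit 4) (nat_lit 8) (nat_lit 4) (nat_lit 378) (nat_lit 344) (nat_lit 298)) (XT.lf (nat_lit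 0) (nat_lit 7211987961) (nat_lit 76) (nat_lit 102989237238) (nat_lit 76) (nat_lit 84267551920) (nat_lit 7) (nat_lit 4) (nat_lit 8) (nat_lit 5) (nat_lit 8) (nat_lit 4) (nat_lit 379) (nat_lit 344) (nat_lit 297))) (XT.nd (nat_lit 78) (nat_lit 76) (nat_lit 0) (XT.lf (nat_lit 0) (nat_lit 118076529318) (nat_lit 76) (nat_lit 59977310624) (nat_lit 76) (nat_lit 41252193285) (nat_lit 7) (nat_lit 4) (nat_lit 8) (nat_lit 5) (nat_lit 8) (nat_lit 4) (nat_lit 380) (nat_lit 344) (nat_lit 296)) (XT.lf (nat_lit 0) (nat_lit 7785538640) (nat_lit 152) (nat_lit 2534181332) (nat_lit 76) (nat_lit 237534868683) (nat_lit 6) (nat_lit 5) (nat_lit 8) (nat_lit 5) (nat_lit 7) (nat_lit 4) (nat_lit 381) (nat_lit 344) (nat_lit 295)))) (XT.nd (nat_lit 156) (nat_lit 76) (nat_lit 0) (XT.nd (nat_lit 78) (nat_lit 0) (nat_lit 0) (XT.lf (nat_lit 0) (nat_lit 65795460648) (nat_lit 152) (nat_lit 166027296029) (nat_lit 0) (nat_lit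 48452222867) (nat_lit 5) (nat_lit 5) (nat_lit 7) (nat_lit 4) (nat_lit 5) (nat_lit 4) (nat_lit 382) (nat_lit 344) (nat_lit 294)) (XT.lf (nat_lit 0) (nat_lit 132852538664) (nat_lit 152) (nat_lit 69171026104) (nat_lit 0) (nat_lit 115507211430) (nat_lit 5) (nat_lit 5) (nat_lit 7) (nat_lit 4) (nat_lit 5) (nat_lit 4) (nat_lit 383) (nat_lit 344) (nat_lit 293))) (XT.nd (nat_lit 78) (nat_lit 0) (nat_lit 0) (XT.lf (nat_lit 0) (nat_lit 44407789129) (nat_lit 76) (nat_lit 166614965858) (nat_lit 76) (nat_lit 149267821709) (nat_lit 4) (nat_lit 4) (nat_lit 5) (nat_lit 5) (nat_lit 5) (nat_lit 4) (nat_lit 384) (nat_lit 344) (nat_lit 292)) (XT.lf (nat_lit 0) (nat_lit 179187176467) (nat_lit 76) (nat_lit 123732885324) (nat_lit 76) (nat_lit 106384161249) (nat_lit 4) (nat_lit 4) (nat_lit 5) (nat_lit 5) (nat_lit 5) (nat_lit 4) (nat_lit 385) (nat_lit 344) (nat_lit 291))))) (XT.nd (nat_lit 312) (nat_lit 0) (nat_lit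 0) (XT.nd (nat_lit 156) (nat_lit 152) (nat_lit 0) (XT.nd (nat_lit 78) (nat_lit 0) (nat_lit 0) (XT.lf (nat_lit 0) (nat_lit 334161700271) (nat_lit 76) (nat_lit 74429584374) (nat_lit 76) (nat_lit 57079486449) (nat_lit 4) (nat_lit 4) (nat_lit 5) (nat_lit 5) (nat_lit 5) (nat_lit 4) (nat_lit 386) (nat_lit 344) (nat_lit 290)) (XT.lf (nat_lit 0) (nat_lit 512363470789) (nat_lit 76) (nat_lit 17740433206) (nat_lit 76) (nat_lit 389140630) (nat_lit 4) (nat_lit 4) (nat_lit 5) (nat_lit 5) (nat_lit 5) (nat_lit 4) (nat_lit 387) (nat_lit 344) (nat_lit 289))) (XT.nd (nat_lit 78) (nat_lit 0) (nat_lit 0) (XT.lf (nat_lit 0) (nat_lit 65611015155) (nat_lit 152) (nat_lit 489435073810) (nat_lit 0) (nat_lit 49544041633) (nat_lit 2) (nat_lit 5) (nat_lit 4) (nat_lit 4) (nat_lit 2) (nat_lit 4) (nat_lit 388) (nat_lit 344) (nat_lit 288)) (XT.lf (nat_lit 0) (nat_lit 142513230514) (nat_lit 152) (nat_lit 420760313779) (nat_lit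 0) (nat_lit 126445420577) (nat_lit 2) (nat_lit 5) (nat_lit 4) (nat_lit 4) (nat_lit 2) (nat_lit 4) (nat_lit 389) (nat_lit 344) (nat_lit 287)))) (XT.nd (nat_lit 156) (nat_lit 0) (nat_lit 0) (XT.nd (nat_lit 78) (nat_lit 0) (nat_lit 0) (XT.lf (nat_lit 0) (nat_lit 230944024530) (nat_lit 152) (nat_lit 341798152957) (nat_lit 0) (nat_lit 214875487277) (nat_lit 2) (nat_lit 5) (nat_lit 4) (nat_lit 4) (nat_lit 2) (nat_lit 4) (nat_lit 390) (nat_lit 344) (nat_lit 286)) (XT.lf (nat_lit 0) (nat_lit 332633564914) (nat_lit 152) (nat_lit 251003679503) (nat_lit 0) (nat_lit 316564395210) (nat_lit 2) (nat_lit 5) (nat_lit 4) (nat_lit 4) (nat_lit 2) (nat_lit 4) (nat_lit 391) (nat_lit 344) (nat_lit 285))) (XT.nd (nat_lit 78) (nat_lit 0) (nat_lit 0) (XT.lf (nat_lit 0) (nat_lit 449571429628) (nat_lit 152) (nat_lit 146600479805) (nat_lit 0) (nat_lit 433501709968) (nat_lit 2) (nat_lit 5) (nat_lit 4) (nat_lit 4) (nat_lit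 2) (nat_lit 4) (nat_lit 392) (nat_lit 344) (nat_lit 284)) (XT.lf (nat_lit 0) (nat_lit 584045533417) (nat_lit 152) (nat_lit 26545882565) (nat_lit 0) (nat_lit 567975335535) (nat_lit 2) (nat_lit 5) (nat_lit 4) (nat_lit 4) (nat_lit 2) (nat_lit 4) (nat_lit 393) (nat_lit 344) (nat_lit 283)))))) (XT.nd (nat_lit 624) (nat_lit 0) (nat_lit 0) (XT.nd (nat_lit 312) (nat_lit 0) (nat_lit 0) (XT.nd (nat_lit 156) (nat_lit 0) (nat_lit 0) (XT.nd (nat_lit 78) (nat_lit 0) (nat_lit 0) (XT.lf (nat_lit 0) (nat_lit 117380873182) (nat_lit 76) (nat_lit 624129030997) (nat_lit 76) (nat_lit 608058417268) (nat_lit 1) (nat_lit 4) (nat_lit 2) (nat_lit 5) (nat_lit 2) (nat_lit 4) (nat_lit 394) (nat_lit 344) (nat_lit 282)) (XT.lf (nat_lit 0) (nat_lit 284496951049) (nat_lit 76) (nat_lit 638866302696) (nat_lit 76) (nat_lit 622795327362) (nat_lit 1) (nat_lit 4) (nat_lit 2) (nat_lit 5) (nat_lit 2) (nat_lit 4) (nat_lit 395) (nat_lit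 344) (nat_lit 281))) (XT.nd (nat_lit 78) (nat_lit 0) (nat_lit 0) (XT.lf (nat_lit 0) (nat_lit 476674154297) (nat_lit 76) (nat_lit 655817380476) (nat_lit 76) (nat_lit 639746090703) (nat_lit 1) (nat_lit 4) (nat_lit 2) (nat_lit 5) (nat_lit 2) (nat_lit 4) (nat_lit 396) (nat_lit 344) (nat_lit 280)) (XT.lf (nat_lit 0) (nat_lit 697672471684) (nat_lit 76) (nat_lit 675313915859) (nat_lit 76) (nat_lit 659242352661) (nat_lit 1) (nat_lit 4) (nat_lit 2) (nat_lit 5) (nat_lit 2) (nat_lit 4) (nat_lit 397) (nat_lit 344) (nat_lit 279)))) (XT.nd (nat_lit 156) (nat_lit 0) (nat_lit 0) (XT.nd (nat_lit 78) (nat_lit 0) (nat_lit 0) (XT.lf (nat_lit 0) (nat_lit 951815783333) (nat_lit 76) (nat_lit 697737362799) (nat_lit 76) (nat_lit 681665561839) (nat_lit 1) (nat_lit 4) (nat_lit 2) (nat_lit 5) (nat_lit 2) (nat_lit 4) (nat_lit 398) (nat_lit 344) (nat_lit 278)) (XT.lf (nat_lit 0) (nat_lit 1244076458385) (nat_lit 76) (nat_lit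 723526440910) (nat_lit 76) (nat_lit 707454433201) (nat_lit 1) (nat_lit 4) (nat_lit 2) (nat_lit 5) (nat_lit 2) (nat_lit 4) (nat_lit 399) (nat_lit 344) (nat_lit 277))) (XT.nd (nat_lit 78) (nat_lit 0) (nat_lit 0) (XT.lf (nat_lit 0) (nat_lit 1580172640482) (nat_lit 76) (nat_lit 753185719110) (nat_lit 76) (nat_lit 737113531619) (nat_lit 1) (nat_lit 4) (nat_lit 2) (nat_lit 5) (nat_lit 2) (nat_lit 4) (nat_lit 400) (nat_lit 344) (nat_lit 276)) (XT.lf (nat_lit 0) (nat_lit 1966680124492) (nat_lit 76) (nat_lit 787295487626) (nat_lit 76) (nat_lit 771223143804) (nat_lit 1) (nat_lit 4) (nat_lit 2) (nat_lit 5) (nat_lit 2) (nat_lit 4) (nat_lit 401) (nat_lit 344) (nat_lit 275))))) (XT.nd (nat_lit 312) (nat_lit 0) (nat_lit 0) (XT.nd (nat_lit 156) (nat_lit 0) (nat_lit 0) (XT.nd (nat_lit 78) (nat_lit 0) (nat_lit 0) (XT.lf (nat_lit 0) (nat_lit 2411161013363) (nat_lit 76) (nat_lit 826523111494) (nat_lit 76) (nat_lit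 810450631731) (nat_lit 1) (nat_lit 4) (nat_lit 2) (nat_lit 5) (nat_lit 2) (nat_lit 4) (nat_lit 402) (nat_lit 344) (nat_lit 274)) (XT.lf (nat_lit 0) (nat_lit 2922311672311) (nat_lit 76) (nat_lit 871636087703) (nat_lit 76) (nat_lit 855563489731) (nat_lit 1) (nat_lit 4) (nat_lit 2) (nat_lit 5) (nat_lit 2) (nat_lit 4) (nat_lit 403) (nat_lit 344) (nat_lit 273))) (XT.nd (nat_lit 78) (nat_lit 0) (nat_lit 0) (XT.lf (nat_lit 0) (nat_lit 3510132875099) (nat_lit 76) (nat_lit 923517061439) (nat_lit 76) (nat_lit 907444360676) (nat_lit 1) (nat_lit 4) (nat_lit 2) (nat_lit 5) (nat_lit 2) (nat_lit 4) (nat_lit 404) (nat_lit 344) (nat_lit 272)) (XT.lf (nat_lit 0) (nat_lit 4186125471346) (nat_lit 76) (nat_lit 983181095232) (nat_lit 76) (nat_lit 967108305086) (nat_lit 1) (nat_lit 4) (nat_lit 2) (nat_lit 5) (nat_lit 2) (nat_lit 4) (nat_lit 405) (nat_lit 344) (nat_lit 271)))) (XT.nd (nat_lit 156) (nat_lit 0) (nat_lit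 0) (XT.nd (nat_lit 78) (nat_lit 0) (nat_lit 0) (XT.lf (nat_lit 0) (nat_lit 4963515403153) (nat_lit 76) (nat_lit 1051795528874) (nat_lit 76) (nat_lit 1035722661003) (nat_lit 1) (nat_lit 4) (nat_lit 2) (nat_lit 5) (nat_lit 2) (nat_lit 4) (nat_lit 406) (nat_lit 344) (nat_lit 270)) (XT.lf (nat_lit 0) (nat_lit 5857512473533) (nat_lit 76) (nat_lit 1130702818675) (nat_lit 76) (nat_lit 1114629883217) (nat_lit 1) (nat_lit 4) (nat_lit 2) (nat_lit 5) (nat_lit 2) (nat_lit 4) (nat_lit 407) (nat_lit 344) (nat_lit 269))) (XT.nd (nat_lit 78) (nat_lit 0) (nat_lit 0) (XT.lf (nat_lit 0) (nat_lit 6885607929517) (nat_lit 76) (nat_lit 1221446802913) (nat_lit 76) (nat_lit 1205373808684) (nat_lit 1) (nat_lit 4) (nat_lit 2) (nat_lit 5) (nat_lit 2) (nat_lit 4) (nat_lit 408) (nat_lit 344) (nat_lit 268)) (XT.nd (nat_lit 78) (nat_lit 0) (nat_lit 0) (XT.lf (nat_lit 0) (nat_lit 8067916682198) (nat_lit 76) (nat_lit 1325802907367)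 (nat_lit 76) (nat_lit 1309729862033) (nat_lit 1) (nat_lit 4) (nat_lit 2) (nat_lit 5) (nat_lit 2) (nat_lit 4) (nat_lit 409) (nat_lit 344) (nat_lit 267)) (XT.lf (nat_lit 0) (nat_lit 9427570859347) (nat_lit 76) (nat_lit 1445812881908) (nat_lit 76) (nat_lit 1429739792134) (nat_lit 1) (nat_lit 4) (nat_lit 2) (nat_lit 5) (nat_lit 2) (nat_lit 4) (nat_lit 410) (nat_lit 344) (nat_lit 266))))))))
noncomputable def xc57 : XT := (XT.nd (nat_lit 48672) (nat_lit 0) (nat_lit 1292) (XT.nd (nat_lit 48048) (nat_lit 0) (nat_lit 3800) (XT.nd (nat_lit 312) (nat_lit 0) (nat_lit 0) (XT.nd (nat_lit 156) (nat_lit 0) (nat_lit 0) (XT.nd (nat_lit 78) (nat_lit 0) (nat_lit 0) (XT.lf (nat_lit 0) (nat_lit 10991172390517) (nat_lit 76) (nat_lit 1583824747775) (nat_lit 76) (nat_lit 1567751619359) (nat_lit 1) (nat_lit 4) (nat_lit 2) (nat_lit 5) (nat_lit 2) (nat_lit 4) (nat_lit 411) (nat_lit 344) (nat_lit 265)) (XT.lf (nat_lit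 0) (nat_lit 12789313479578) (nat_lit 76) (nat_lit 1742538737128) (nat_lit 76) (nat_lit 1726465575109) (nat_lit 1) (nat_lit 4) (nat_lit 2) (nat_lit 5) (nat_lit 2) (nat_lit 4) (nat_lit 412) (nat_lit 344) (nat_lit 264))) (XT.nd (nat_lit 78) (nat_lit 0) (nat_lit 0) (XT.lf (nat_lit 0) (nat_lit 14857175147839) (nat_lit 76) (nat_lit 1925060123670) (nat_lit 76) (nat_lit 1908986932432) (nat_lit 1) (nat_lit 4) (nat_lit 2) (nat_lit 5) (nat_lit 2) (nat_lit 4) (nat_lit 413) (nat_lit 344) (nat_lit 263)) (XT.lf (nat_lit 0) (nat_lit 17235215558373) (nat_lit 76) (nat_lit 2134959978009) (nat_lit 76) (nat_lit 2118886761363) (nat_lit 1) (nat_lit 4) (nat_lit 2) (nat_lit 5) (nat_lit 2) (nat_lit 4) (nat_lit 414) (nat_lit 344) (nat_lit 262)))) (XT.nd (nat_lit 156) (nat_lit 0) (nat_lit 0) (XT.nd (nat_lit 78) (nat_lit 0) (nat_lit 0) (XT.lf (nat_lit 0) (nat_lit 19969961588779) (nat_lit 76) (nat_lit 2376345036425)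 (nat_lit 76) (nat_lit 2360271797684) (nat_lit 1) (nat_lit 4) (nat_lit 2) (nat_lit 5) (nat_lit 2) (nat_lit 4) (nat_lit 415) (nat_lit 344) (nat_lit 261)) (XT.lf (nat_lit 0) (nat_lit 23114919139650) (nat_lit 76) (nat_lit 2653938050060) (nat_lit 76) (nat_lit 2637864792107) (nat_lit 1) (nat_lit 4) (nat_lit 2) (nat_lit 5) (nat_lit 2) (nat_lit 4) (nat_lit 416) (nat_lit 344) (nat_lit 260))) (XT.nd (nat_lit 47502) (nat_lit 0) (nat_lit 5700) (XT.lf (nat_lit 0) (nat_lit 26731619989158) (nat_lit 76) (nat_lit 2973170186574) (nat_lit 76) (nat_lit 2957096911914) (nat_lit 1) (nat_lit 4) (nat_lit 2) (nat_lit 5) (nat_lit 2) (nat_lit 4) (nat_lit 417) (nat_lit 344) (nat_lit 259)) (XT.lf (nat_lit 0) (nat_lit 2058702816) (nat_lit 0) (nat_lit 2058702816) (nat_lit 380) (nat_lit 294600934) (nat_lit 76) (nat_lit 5) (nat_lit 76) (nat_lit 3) (nat_lit 81) (nat_lit 3) (nat_lit 345) (nat_lit 345) (nat_lit 330))))) (XT.nd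 (nat_lit 312) (nat_lit 1140) (nat_lit 0) (XT.nd (nat_lit 156) (nat_lit 304) (nat_lit 0) (XT.nd (nat_lit 78) (nat_lit 0) (nat_lit 0) (XT.lf (nat_lit 0) (nat_lit 1197160548) (nat_lit 456) (nat_lit 5840087899) (nat_lit 532) (nat_lit 2304761638) (nat_lit 70) (nat_lit 5) (nat_lit 76) (nat_lit 5) (nat_lit 77) (nat_lit 5) (nat_lit 346) (nat_lit 345) (nat_lit 329)) (XT.lf (nat_lit 76) (nat_lit 3127910506) (nat_lit 0) (nat_lit 123843653) (nat_lit 532) (nat_lit 6682113192) (nat_lit 71) (nat_lit 5) (nat_lit 70) (nat_lit 5) (nat_lit 77) (nat_lit 5) (nat_lit 347) (nat_lit 345) (nat_lit 328))) (XT.nd (nat_lit 78) (nat_lit 380) (nat_lit 0) (XT.lf (nat_lit 76) (nat_lit 2947244551) (nat_lit 0) (nat_lit 2841579663) (nat_lit 532) (nat_lit 4811908367) (nat_lit 72) (nat_lit 5) (nat_lit 71) (nat_lit 5) (nat_lit 78) (nat_lit 5) (nat_lit 348) (nat_lit 345) (nat_lit 327)) (XT.lf (nat_lit 0) (nat_lit 3031912686)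 (nat_lit 456) (nat_lit 5856377377) (nat_lit 532) (nat_lit 2464940594) (nat_lit 66) (nat_lit 5) (nat_lit 72) (nat_lit 5) (nat_lit 73) (nat_lit 5) (nat_lit 349) (nat_lit 345) (nat_lit 326)))) (XT.nd (nat_lit 156) (nat_lit 380) (nat_lit 0) (XT.nd (nat_lit 78) (nat_lit 228) (nat_lit 0) (XT.lf (nat_lit 0) (nat_lit 477833341) (nat_lit 532) (nat_lit 8808959297) (nat_lit 76) (nat_lit 2911043509) (nat_lit 59) (nat_lit 5) (nat_lit 66) (nat_lit 5) (nat_lit 60) (nat_lit 5) (nat_lit 350) (nat_lit 345) (nat_lit 325)) (XT.lf (nat_lit 0) (nat_lit 3976021816) (nat_lit 228) (nat_lit 64511048) (nat_lit 304) (nat_lit 9097625663) (nat_lit 56) (nat_lit 5) (nat_lit 59) (nat_lit 5) (nat_lit 60) (nat_lit 5) (nat_lit 351) (nat_lit 345) (nat_lit 324))) (XT.nd (nat_lit 78) (nat_lit 152) (nat_lit 0) (XT.lf (nat_lit 0) (nat_lit 4800520074) (nat_lit 228) (nat_lit 3802957729) (nat_lit 304) (nat_lit 5578875472) (nat_lit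 53) (nat_lit 5) (nat_lit 56) (nat_lit 5) (nat_lit 57) (nat_lit 5) (nat_lit 352) (nat_lit 345) (nat_lit 323)) (XT.lf (nat_lit 0) (nat_lit 5985237897) (nat_lit 152) (nat_lit 8303941195) (nat_lit 228) (nat_lit 1059012323) (nat_lit 51) (nat_lit 5) (nat_lit 53) (nat_lit 5) (nat_lit 54) (nat_lit 5) (nat_lit 353) (nat_lit 345) (nat_lit 322)))))) (XT.nd (nat_lit 624) (nat_lit 1064) (nat_lit 0) (XT.nd (nat_lit 312) (nat_lit 608) (nat_lit 0) (XT.nd (nat_lit 156) (nat_lit 380) (nat_lit 0) (XT.nd (nat_lit 78) (nat_lit 152) (nat_lit 0) (XT.lf (nat_lit 0) (nat_lit 4437586294) (nat_lit 304) (nat_lit 9178248912) (nat_lit 76) (nat_lit 3024707076) (nat_lit 47) (nat_lit 5) (nat_lit 51) (nat_lit 5) (nat_lit 48) (nat_lit 5) (nat_lit 354) (nat_lit 345) (nat_lit 321)) (XT.lf (nat_lit 0) (nat_lit 9299656556) (nat_lit 152) (nat_lit 2006483419) (nat_lit 228) (nat_lit 6769647164) (nat_lit 45) (nat_lit 5) (nat_lit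 47) (nat_lit 5) (nat_lit 48) (nat_lit 5) (nat_lit 355) (nat_lit 345) (nat_lit 320))) (XT.nd (nat_lit 78) (nat_lit 152) (nat_lit 0) (XT.lf (nat_lit 0) (nat_lit 234196578) (nat_lit 228) (nat_lit 8144415685) (nat_lit 76) (nat_lit 11290397537) (nat_lit 42) (nat_lit 5) (nat_lit 45) (nat_lit 5) (nat_lit 43) (nat_lit 5) (nat_lit 356) (nat_lit 345) (nat_lit 319)) (XT.lf (nat_lit 0) (nat_lit 8592902475) (nat_lit 228) (nat_lit 7354983681) (nat_lit 76) (nat_lit 5482891862) (nat_lit 40) (nat_lit 5) (nat_lit 43) (nat_lit 5) (nat_lit 41) (nat_lit 5) (nat_lit 357) (nat_lit 345) (nat_lit 318)))) (XT.nd (nat_lit 156) (nat_lit 304) (nat_lit 0) (XT.nd (nat_lit 78) (nat_lit 152) (nat_lit 0) (XT.lf (nat_lit 0) (nat_lit 17153879408) (nat_lit 152) (nat_lit 1843255549) (nat_lit 228) (nat_lit 4396372677) (nat_lit 38) (nat_lit 5) (nat_lit 40) (nat_lit 5) (nat_lit 41) (nat_lit 5) (nat_lit 358) (nat_lit 345) (nat_lit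 317)) (XT.lf (nat_lit 0) (nat_lit 6046154326) (nat_lit 152) (nat_lit 5034761632) (nat_lit 76) (nat_lit 14479499371) (nat_lit 36) (nat_lit 5) (nat_lit 38) (nat_lit 5) (nat_lit 37) (nat_lit 5) (nat_lit 359) (nat_lit 345) (nat_lit 316))) (XT.nd (nat_lit 78) (nat_lit 152) (nat_lit 0) (XT.lf (nat_lit 0) (nat_lit 18693130704) (nat_lit 228) (nat_lit 3566296338) (nat_lit 76) (nat_lit 5711949724) (nat_lit 34) (nat_lit 5) (nat_lit 37) (nat_lit 5) (nat_lit 35) (nat_lit 4) (nat_lit 360) (nat_lit 345) (nat_lit 315)) (XT.lf (nat_lit 0) (nat_lit 3471514053) (nat_lit 152) (nat_lit 1909187011) (nat_lit 76) (nat_lit 25270258638) (nat_lit 32) (nat_lit 5) (nat_lit 34) (nat_lit 5) (nat_lit 33) (nat_lit 5) (nat_lit 361) (nat_lit 345) (nat_lit 314))))) (XT.nd (nat_lit 312) (nat_lit 532) (nat_lit 0) (XT.nd (nat_lit 156) (nat_lit 152) (nat_lit 0) (XT.nd (nat_lit 78) (nat_lit 228) (nat_lit 0) (XT.lf (nat_lit 0) (nat_lit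 18813406296) (nat_lit 228) (nat_lit 318800569) (nat_lit 76) (nat_lit 14482686815) (nat_lit 30) (nat_lit 5) (nat_lit 33) (nat_lit 5) (nat_lit 31) (nat_lit 4) (nat_lit 362) (nat_lit 345) (nat_lit 313)) (XT.lf (nat_lit 0) (nat_lit 623339128) (nat_lit 152) (nat_lit 35286907662) (nat_lit 76) (nat_lit 1021329378) (nat_lit 27) (nat_lit 5) (nat_lit 29) (nat_lit 5) (nat_lit 28) (nat_lit 4) (nat_lit 363) (nat_lit 345) (nat_lit 312))) (XT.nd (nat_lit 78) (nat_lit 76) (nat_lit 0) (XT.lf (nat_lit 0) (nat_lit 3038721694) (nat_lit 76) (nat_lit 16033410977) (nat_lit 152) (nat_lit 21515951126) (nat_lit 26) (nat_lit 5) (nat_lit 27) (nat_lit 5) (nat_lit 28) (nat_lit 4) (nat_lit 364) (nat_lit 345) (nat_lit 311)) (XT.lf (nat_lit 0) (nat_lit 4459493082) (nat_lit 76) (nat_lit 37094376889) (nat_lit 76) (nat_lit 3137957714) (nat_lit 25) (nat_lit 4) (nat_lit 26) (nat_lit 5) (nat_lit 26) (nat_lit 4) (nat_lit 365)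 (nat_lit 345) (nat_lit 310)))) (XT.nd (nat_lit 156) (nat_lit 304) (nat_lit 0) (XT.nd (nat_lit 78) (nat_lit 76) (nat_lit 0) (XT.lf (nat_lit 0) (nat_lit 4957800931) (nat_lit 76) (nat_lit 13767068934) (nat_lit 152) (nat_lit 30521373289) (nat_lit 23) (nat_lit 5) (nat_lit 24) (nat_lit 5) (nat_lit 25) (nat_lit 4) (nat_lit 366) (nat_lit 345) (nat_lit 309)) (XT.lf (nat_lit 0) (nat_lit 4675821151) (nat_lit 76) (nat_lit 40587049161) (nat_lit 76) (nat_lit 9087913199) (nat_lit 22) (nat_lit 4) (nat_lit 23) (nat_lit 5) (nat_lit 23) (nat_lit 4) (nat_lit 367) (nat_lit 345) (nat_lit 308))) (XT.nd (nat_lit 78) (nat_lit 152) (nat_lit 0) (XT.lf (nat_lit 0) (nat_lit 2807155101) (nat_lit 76) (nat_lit 13697533346) (nat_lit 152) (nat_lit 43548581601) (nat_lit 20) (nat_lit 5) (nat_lit 21) (nat_lit 5) (nat_lit 22) (nat_lit 4) (nat_lit 368) (nat_lit 345) (nat_lit 307)) (XT.nd (nat_lit 78) (nat_lit 152) (nat_lit 0)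 (XT.lf (nat_lit 0) (nat_lit 47266081924) (nat_lit 152) (nat_lit 1117125409) (nat_lit 0) (nat_lit 18059602608) (nat_lit 20) (nat_lit 5) (nat_lit 22) (nat_lit 4) (nat_lit 20) (nat_lit 4) (nat_lit 369) (nat_lit 345) (nat_lit 306)) (XT.lf (nat_lit 0) (nat_lit 10392082777) (nat_lit 152) (nat_lit 7607372896) (nat_lit 76) (nat_lit 55615584996) (nat_lit 18) (nat_lit 5) (nat_lit 20) (nat_lit 5) (nat_lit 19) (nat_lit 4) (nat_lit 370) (nat_lit 345) (nat_lit 305))))))))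
noncomputable def xc58 : XT := (XT.nd (nat_lit 1248) (nat_lit 228) (nat_lit 0) (XT.nd (nat_lit 624) (nat_lit 380) (nat_lit 0) (XT.nd (nat_lit 312) (nat_lit 304) (nat_lit 0) (XT.nd (nat_lit 156) (nat_lit 228) (nat_lit 0) (XT.nd (nat_lit 78) (nat_lit 76) (nat_lit 0) (XT.lf (nat_lit 0) (nat_lit 45290058665) (nat_lit 152) (nat_lit 18152269497) (nat_lit 0) (nat_lit 18218587980) (nat_lit 17) (nat_lit 5) (nat_lit 19) (nat_lit 4) (nat_lit 17) (nat_lit 4) (nat_lit 371) (nat_lit 345) (nat_lit 304)) (XT.lf (nat_lit 0) (nat_lit 57143772439) (nat_lit 76) (nat_lit 30343841869) (nat_lit 76) (nat_lit 3260870969) (nat_lit 16) (nat_lit 4) (nat_lit 17) (nat_lit 5) (nat_lit 17) (nat_lit 4) (nat_lit 372) (nat_lit 345) (nat_lit 303))) (XT.nd (nat_lit 78) (nat_lit 76) (nat_lit 0) (XT.lf (nat_lit 0) (nat_lit 34915319137) (nat_lit 152) (nat_lit 56240347077) (nat_lit 0) (nat_lit 9829234798) (nat_lit 14) (nat_lit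 5) (nat_lit 16) (nat_lit 4) (nat_lit 14) (nat_lit 4) (nat_lit 373) (nat_lit 345) (nat_lit 302)) (XT.lf (nat_lit 0) (nat_lit 24408678678) (nat_lit 76) (nat_lit 56621517814) (nat_lit 76) (nat_lit 31527381794) (nat_lit 13) (nat_lit 4) (nat_lit 14) (nat_lit 5) (nat_lit 14) (nat_lit 4) (nat_lit 374) (nat_lit 345) (nat_lit 301)))) (XT.nd (nat_lit 156) (nat_lit 152) (nat_lit 0) (XT.nd (nat_lit 78) (nat_lit 76) (nat_lit 0) (XT.lf (nat_lit 0) (nat_lit 9437751845) (nat_lit 152) (nat_lit 5470613641) (nat_lit 76) (nat_lit 110809895311) (nat_lit 12) (nat_lit 5) (nat_lit 14) (nat_lit 5) (nat_lit 13) (nat_lit 4) (nat_lit 375) (nat_lit 345) (nat_lit 300)) (XT.lf (nat_lit 0) (nat_lit 57830134842) (nat_lit 152) (nat_lit 48122757076) (nat_lit 0) (nat_lit 34582703631) (nat_lit 11) (nat_lit 5) (nat_lit 13) (nat_lit 4) (nat_lit 11) (nat_lit 4) (nat_lit 376) (nat_lit 345) (nat_lit 299))) (XT.nd (nat_lit 78) (nat_lit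 76) (nat_lit 0) (XT.lf (nat_lit 0) (nat_lit 49774446860) (nat_lit 76) (nat_lit 65456717488) (nat_lit 76) (nat_lit 42204384323) (nat_lit 10) (nat_lit 4) (nat_lit 11) (nat_lit 5) (nat_lit 11) (nat_lit 4) (nat_lit 377) (nat_lit 345) (nat_lit 298)) (XT.lf (nat_lit 0) (nat_lit 5569000729) (nat_lit 152) (nat_lit 11673074216) (nat_lit 76) (nat_lit 159506741795) (nat_lit 9) (nat_lit 5) (nat_lit 11) (nat_lit 5) (nat_lit 10) (nat_lit 4) (nat_lit 378) (nat_lit 345) (nat_lit 297))))) (XT.nd (nat_lit 312) (nat_lit 152) (nat_lit 0) (XT.nd (nat_lit 156) (nat_lit 76) (nat_lit 0) (XT.nd (nat_lit 78) (nat_lit 76) (nat_lit 0) (XT.lf (nat_lit 0) (nat_lit 61543063658) (nat_lit 152) (nat_lit 97039876888) (nat_lit 0) (nat_lit 40005746699) (nat_lit 8) (nat_lit 5) (nat_lit 10) (nat_lit 4) (nat_lit 8) (nat_lit 4) (nat_lit 379) (nat_lit 345) (nat_lit 296)) (XT.lf (nat_lit 0) (nat_lit 8697286692) (nat_lit 76) (nat_lit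 118233091195) (nat_lit 76) (nat_lit 96692789871) (nat_lit 7) (nat_lit 4) (nat_lit 8) (nat_lit 5) (nat_lit 8) (nat_lit 4) (nat_lit 380) (nat_lit 345) (nat_lit 295))) (XT.nd (nat_lit 78) (nat_lit 76) (nat_lit 0) (XT.lf (nat_lit 0) (nat_lit 136138878747) (nat_lit 76) (nat_lit 68796053627) (nat_lit 76) (nat_lit 47253157203) (nat_lit 7) (nat_lit 4) (nat_lit 8) (nat_lit 5) (nat_lit 8) (nat_lit 4) (nat_lit 381) (nat_lit 345) (nat_lit 294)) (XT.lf (nat_lit 0) (nat_lit 9107732329) (nat_lit 152) (nat_lit 2601069787) (nat_lit 76) (nat_lit 273311619912) (nat_lit 6) (nat_lit 5) (nat_lit 8) (nat_lit 5) (nat_lit 7) (nat_lit 4) (nat_lit 382) (nat_lit 345) (nat_lit 293)))) (XT.nd (nat_lit 156) (nat_lit 76) (nat_lit 0) (XT.nd (nat_lit 78) (nat_lit 0) (nat_lit 0) (XT.lf (nat_lit 0) (nat_lit 75809405774) (nat_lit 152) (nat_lit 190636872409) (nat_lit 0) (nat_lit 55858373087) (nat_lit 5) (nat_lit 5) (nat_lit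 7) (nat_lit 4) (nat_lit 5) (nat_lit 4) (nat_lit 383) (nat_lit 345) (nat_lit 292)) (XT.lf (nat_lit 0) (nat_lit 152906181227) (nat_lit 152) (nat_lit 79290577389) (nat_lit 0) (nat_lit 132953568614) (nat_lit 5) (nat_lit 5) (nat_lit 7) (nat_lit 4) (nat_lit 5) (nat_lit 4) (nat_lit 384) (nat_lit 345) (nat_lit 291))) (XT.nd (nat_lit 78) (nat_lit 0) (nat_lit 0) (XT.lf (nat_lit 0) (nat_lit 51303382317) (nat_lit 76) (nat_lit 191487781897) (nat_lit 76) (nat_lit 171533795434) (nat_lit 4) (nat_lit 4) (nat_lit 5) (nat_lit 5) (nat_lit 5) (nat_lit 4) (nat_lit 385) (nat_lit 345) (nat_lit 290)) (XT.lf (nat_lit 0) (nat_lit 206269100606) (nat_lit 76) (nat_lit 142188966958) (nat_lit 76) (nat_lit 122233785844) (nat_lit 4) (nat_lit 4) (nat_lit 5) (nat_lit 5) (nat_lit 5) (nat_lit 4) (nat_lit 386) (nat_lit 345) (nat_lit 289)))))) (XT.nd (nat_lit 624) (nat_lit 76) (nat_lit 0) (XT.nd (nat_lit 312) (nat_lit 0) (nat_lit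 0) (XT.nd (nat_lit 156) (nat_lit 152) (nat_lit 0) (XT.nd (nat_lit 78) (nat_lit 0) (nat_lit 0) (XT.lf (nat_lit 0) (nat_lit 384463214154) (nat_lit 76) (nat_lit 85503716669) (nat_lit 76) (nat_lit 65547496728) (nat_lit 4) (nat_lit 4) (nat_lit 5) (nat_lit 5) (nat_lit 5) (nat_lit 4) (nat_lit 387) (nat_lit 345) (nat_lit 288)) (XT.lf (nat_lit 0) (nat_lit 589372129531) (nat_lit 76) (nat_lit 20322971785) (nat_lit 76) (nat_lit 365848517) (nat_lit 4) (nat_lit 4) (nat_lit 5) (nat_lit 5) (nat_lit 5) (nat_lit 4) (nat_lit 388) (nat_lit 345) (nat_lit 287))) (XT.nd (nat_lit 78) (nat_lit 0) (nat_lit 0) (XT.lf (nat_lit 0) (nat_lit 75525386919) (nat_lit 152) (nat_lit 562701601899) (nat_lit 0) (nat_lit 57045841760) (nat_lit 2) (nat_lit 5) (nat_lit 4) (nat_lit 4) (nat_lit 2) (nat_lit 4) (nat_lit 389) (nat_lit 345) (nat_lit 286)) (XT.lf (nat_lit 0) (nat_lit 163953449431) (nat_lit 152) (nat_lit 483745027817) (nat_lit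 0) (nat_lit 145473271822) (nat_lit 2) (nat_lit 5) (nat_lit 4) (nat_lit 4) (nat_lit 2) (nat_lit 4) (nat_lit 390) (nat_lit 345) (nat_lit 285)))) (XT.nd (nat_lit 156) (nat_lit 0) (nat_lit 0) (XT.nd (nat_lit 78) (nat_lit 0) (nat_lit 0) (XT.lf (nat_lit 0) (nat_lit 265640614592) (nat_lit 152) (nat_lit 392955412398) (nat_lit 0) (nat_lit 247159887027) (nat_lit 2) (nat_lit 5) (nat_lit 4) (nat_lit 4) (nat_lit 2) (nat_lit 4) (nat_lit 391) (nat_lit 345) (nat_lit 284)) (XT.lf (nat_lit 0) (nat_lit 382576413896) (nat_lit 152) (nat_lit 288556437078) (nat_lit 0) (nat_lit 364095208108) (nat_lit 2) (nat_lit 5) (nat_lit 4) (nat_lit 4) (nat_lit 2) (nat_lit 4) (nat_lit 392) (nat_lit 345) (nat_lit 283))) (XT.nd (nat_lit 78) (nat_lit 0) (nat_lit 0) (XT.lf (nat_lit 0) (nat_lit 517048721677) (nat_lit 152) (nat_lit 168505513210) (nat_lit 0) (nat_lit 498567100043) (nat_lit 2) (nat_lit 5) (nat_lit 4) (nat_lit 4) (nat_lit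 2) (nat_lit 4) (nat_lit 393) (nat_lit 345) (nat_lit 282)) (XT.lf (nat_lit 0) (nat_lit 671688517869) (nat_lit 152) (nat_lit 30453818371) (nat_lit 0) (nat_lit 653206534630) (nat_lit 2) (nat_lit 5) (nat_lit 4) (nat_lit 4) (nat_lit 2) (nat_lit 4) (nat_lit 394) (nat_lit 345) (nat_lit 281))))) (XT.nd (nat_lit 312) (nat_lit 0) (nat_lit 0) (XT.nd (nat_lit 156) (nat_lit 0) (nat_lit 0) (XT.nd (nat_lit 78) (nat_lit 0) (nat_lit 0) (XT.lf (nat_lit 0) (nat_lit 135055691528) (nat_lit 76) (nat_lit 717713764803) (nat_lit 76) (nat_lit 699231467124) (nat_lit 1) (nat_lit 4) (nat_lit 2) (nat_lit 5) (nat_lit 2) (nat_lit 4) (nat_lit 395) (nat_lit 345) (nat_lit 280)) (XT.lf (nat_lit 0) (nat_lit 327230352289) (nat_lit 76) (nat_lit 734666143018) (nat_lit 76) (nat_lit 716183571915) (nat_lit 1) (nat_lit 4) (nat_lit 2) (nat_lit 5) (nat_lit 2) (nat_lit 4) (nat_lit 396) (nat_lit 345) (nat_lit 279))) (XT.nd (nat_lit 78)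 (nat_lit 0) (nat_lit 0) (XT.lf (nat_lit 0) (nat_lit 548226458817) (nat_lit 76) (nat_lit 754163809215) (nat_lit 76) (nat_lit 735681000350) (nat_lit 1) (nat_lit 4) (nat_lit 2) (nat_lit 5) (nat_lit 2) (nat_lit 4) (nat_lit 397) (nat_lit 345) (nat_lit 278)) (XT.lf (nat_lit 0) (nat_lit 802367847980) (nat_lit 76) (nat_lit 776588239471) (nat_lit 76) (nat_lit 758105223857) (nat_lit 1) (nat_lit 4) (nat_lit 2) (nat_lit 5) (nat_lit 2) (nat_lit 4) (nat_lit 398) (nat_lit 345) (nat_lit 277)))) (XT.nd (nat_lit 156) (nat_lit 0) (nat_lit 0) (XT.nd (nat_lit 78) (nat_lit 0) (nat_lit 0) (XT.lf (nat_lit 0) (nat_lit 1094626851306) (nat_lit 76) (nat_lit 802378172639) (nat_lit 76) (nat_lit 783894977243) (nat_lit 1) (nat_lit 4) (nat_lit 2) (nat_lit 5) (nat_lit 2) (nat_lit 4) (nat_lit 399) (nat_lit 345) (nat_lit 276)) (XT.lf (nat_lit 0) (nat_lit 1430721579728) (nat_lit 76) (nat_lit 832038194368) (nat_lit 76) (nat_lit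 813554842640) (nat_lit 1) (nat_lit 4) (nat_lit 2) (nat_lit 5) (nat_lit 2) (nat_lit 4) (nat_lit 400) (nat_lit 345) (nat_lit 275))) (XT.nd (nat_lit 78) (nat_lit 0) (nat_lit 0) (XT.lf (nat_lit 0) (nat_lit 1817227799672) (nat_lit 76) (nat_lit 866148609431) (nat_lit 76) (nat_lit 847665121762) (nat_lit 1) (nat_lit 4) (nat_lit 2) (nat_lit 5) (nat_lit 2) (nat_lit 4) (nat_lit 401) (nat_lit 345) (nat_lit 274)) (XT.nd (nat_lit 78) (nat_lit 0) (nat_lit 0) (XT.lf (nat_lit 0) (nat_lit 2261707589355) (nat_lit 76) (nat_lit 905376795513) (nat_lit 76) (nat_lit 886893189635) (nat_lit 1) (nat_lit 4) (nat_lit 2) (nat_lit 5) (nat_lit 2) (nat_lit 4) (nat_lit 402) (nat_lit 345) (nat_lit 273)) (XT.lf (nat_lit 0) (nat_lit 2772857292488) (nat_lit 76) (nat_lit 950490260603) (nat_lit 76) (nat_lit 932006551935) (nat_lit 1) (nat_lit 4) (nat_lit 2) (nat_lit 5) (nat_lit 2) (nat_lit 4) (nat_lit 403) (nat_lit 345) (nat_lit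 272))))))))
noncomputable def xc59 : XT := (XT.nd (nat_lit 48828) (nat_lit 0) (nat_lit 1900) (XT.nd (nat_lit 624) (nat_lit 0) (nat_lit 0) (XT.nd (nat_lit 312) (nat_lit 0) (nat_lit 0) (XT.nd (nat_lit 156) (nat_lit 0) (nat_lit 0) (XT.nd (nat_lit 78) (nat_lit 0) (nat_lit 0) (XT.lf (nat_lit 0) (nat_lit 3360677664132) (nat_lit 76) (nat_lit 1002371659454) (nat_lit 76) (nat_lit 983887861402) (nat_lit 1) (nat_lit 4) (nat_lit 2) (nat_lit 5) (nat_lit 2) (nat_lit 4) (nat_lit 404) (nat_lit 345) (nat_lit 271)) (XT.lf (nat_lit 0) (nat_lit 4036669537646) (nat_lit 76) (nat_lit 1062036062912) (nat_lit 76) (nat_lit 1043552187136) (nat_lit 1) (nat_lit 4) (nat_lit 2) (nat_lit 5) (nat_lit 2) (nat_lit 4) (nat_lit 405) (nat_lit 345) (nat_lit 270))) (XT.nd (nat_lit 78) (nat_lit 0) (nat_lit 0) (XT.lf (nat_lit 0) (nat_lit 4814058840989) (nat_lit 76) (nat_lit 1130650818002) (nat_lit 76) (nat_lit 1112166874638) (nat_lit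 1) (nat_lit 4) (nat_lit 2) (nat_lit 5) (nat_lit 2) (nat_lit 4) (nat_lit 406) (nat_lit 345) (nat_lit 269)) (XT.lf (nat_lit 0) (nat_lit 5708055364879) (nat_lit 76) (nat_lit 1209558387322) (nat_lit 76) (nat_lit 1191074385188) (nat_lit 1) (nat_lit 4) (nat_lit 2) (nat_lit 5) (nat_lit 2) (nat_lit 4) (nat_lit 407) (nat_lit 345) (nat_lit 268)))) (XT.nd (nat_lit 156) (nat_lit 0) (nat_lit 0) (XT.nd (nat_lit 78) (nat_lit 0) (nat_lit 0) (XT.lf (nat_lit 0) (nat_lit 6736150345653) (nat_lit 76) (nat_lit 1300302614621) (nat_lit 76) (nat_lit 1281818561382) (nat_lit 1) (nat_lit 4) (nat_lit 2) (nat_lit 5) (nat_lit 2) (nat_lit 4) (nat_lit 408) (nat_lit 345) (nat_lit 267)) (XT.lf (nat_lit 0) (nat_lit 7918458685109) (nat_lit 76) (nat_lit 1404658930433) (nat_lit 76) (nat_lit 1386174832754) (nat_lit 1) (nat_lit 4) (nat_lit 2) (nat_lit 5) (nat_lit 2) (nat_lit 4) (nat_lit 409) (nat_lit 345) (nat_lit 266))) (XT.nd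 (nat_lit 78) (nat_lit 0) (nat_lit 0) (XT.lf (nat_lit 0) (nat_lit 9278112502932) (nat_lit 76) (nat_lit 1524669088762) (nat_lit 76) (nat_lit 1506184952440) (nat_lit 1) (nat_lit 4) (nat_lit 2) (nat_lit 5) (nat_lit 2) (nat_lit 4) (nat_lit 410) (nat_lit 345) (nat_lit 265)) (XT.lf (nat_lit 0) (nat_lit 10841713721644) (nat_lit 76) (nat_lit 1662681114445) (nat_lit 76) (nat_lit 1644196944522) (nat_lit 1) (nat_lit 4) (nat_lit 2) (nat_lit 5) (nat_lit 2) (nat_lit 4) (nat_lit 411) (nat_lit 345) (nat_lit 264))))) (XT.nd (nat_lit 312) (nat_lit 0) (nat_lit 0) (XT.nd (nat_lit 156) (nat_lit 0) (nat_lit 0) (XT.nd (nat_lit 78) (nat_lit 0) (nat_lit 0) (XT.lf (nat_lit 0) (nat_lit 12639854539003) (nat_lit 76) (nat_lit 1821395242769) (nat_lit 76) (nat_lit 1802911043625) (nat_lit 1) (nat_lit 4) (nat_lit 2) (nat_lit 5) (nat_lit 2) (nat_lit 4) (nat_lit 412) (nat_lit 345) (nat_lit 263)) (XT.lf (nat_lit 0) (nat_lit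 14707715971001) (nat_lit 76) (nat_lit 2003916750156) (nat_lit 76) (nat_lit 1985432525604) (nat_lit 1) (nat_lit 4) (nat_lit 2) (nat_lit 5) (nat_lit 2) (nat_lit 4) (nat_lit 413) (nat_lit 345) (nat_lit 262))) (XT.nd (nat_lit 78) (nat_lit 0) (nat_lit 0) (XT.lf (nat_lit 0) (nat_lit 17085756176089) (nat_lit 76) (nat_lit 2213816709576) (nat_lit 76) (nat_lit 2195332462930) (nat_lit 1) (nat_lit 4) (nat_lit 2) (nat_lit 5) (nat_lit 2) (nat_lit 4) (nat_lit 414) (nat_lit 345) (nat_lit 261)) (XT.lf (nat_lit 0) (nat_lit 19820502027846) (nat_lit 76) (nat_lit 2455201859368) (nat_lit 76) (nat_lit 2436717593509) (nat_lit 1) (nat_lit 4) (nat_lit 2) (nat_lit 5) (nat_lit 2) (nat_lit 4) (nat_lit 415) (nat_lit 345) (nat_lit 260)))) (XT.nd (nat_lit 47658) (nat_lit 0) (nat_lit 5168) (XT.nd (nat_lit 78) (nat_lit 0) (nat_lit 0) (XT.lf (nat_lit 0) (nat_lit 22965459423371) (nat_lit 76) (nat_lit 2732794952460) (nat_lit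 76) (nat_lit 2714310669895) (nat_lit 1) (nat_lit 4) (nat_lit 2) (nat_lit 5) (nat_lit 2) (nat_lit 4) (nat_lit 416) (nat_lit 345) (nat_lit 259)) (XT.lf (nat_lit 0) (nat_lit 26582160137794) (nat_lit 76) (nat_lit 3052027158066) (nat_lit 76) (nat_lit 3033542860974) (nat_lit 1) (nat_lit 4) (nat_lit 2) (nat_lit 5) (nat_lit 2) (nat_lit 4) (nat_lit 417) (nat_lit 345) (nat_lit 258))) (XT.nd (nat_lit 78) (nat_lit 0) (nat_lit 76) (XT.lf (nat_lit 0) (nat_lit 1264418085) (nat_lit 532) (nat_lit 1841036609) (nat_lit 532) (nat_lit 1841036609) (nat_lit 69) (nat_lit 3) (nat_lit 76) (nat_lit 3) (nat_lit 76) (nat_lit 5) (nat_lit 346) (nat_lit 346) (nat_lit 328)) (XT.nd (nat_lit 78) (nat_lit 0) (nat_lit 0) (XT.lf (nat_lit 0) (nat_lit 4143670602) (nat_lit 456) (nat_lit 4891883157) (nat_lit 532) (nat_lit 1484547021) (nat_lit 70) (nat_lit 5) (nat_lit 76) (nat_lit 5) (nat_lit 77) (nat_lit 5) (nat_lit 347) (nat_lit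 346) (nat_lit 327)) (XT.lf (nat_lit 76) (nat_lit 5266904048) (nat_lit 0) (nat_lit 918803413) (nat_lit 532) (nat_lit 5040930918) (nat_lit 71) (nat_lit 5) (nat_lit 70) (nat_lit 5) (nat_lit 77) (nat_lit 5) (nat_lit 348) (nat_lit 346) (nat_lit 326))))))) (XT.nd (nat_lit 624) (nat_lit 1444) (nat_lit 0) (XT.nd (nat_lit 312) (nat_lit 836) (nat_lit 0) (XT.nd (nat_lit 156) (nat_lit 760) (nat_lit 0) (XT.nd (nat_lit 78) (nat_lit 380) (nat_lit 0) (XT.lf (nat_lit 76) (nat_lit 5115496741) (nat_lit 0) (nat_lit 3694050769) (nat_lit 532) (nat_lit 3207699628) (nat_lit 72) (nat_lit 5) (nat_lit 71) (nat_lit 5) (nat_lit 78) (nat_lit 5) (nat_lit 349) (nat_lit 346) (nat_lit 325)) (XT.lf (nat_lit 0) (nat_lit 5235038384) (nat_lit 456) (nat_lit 6891280797) (nat_lit 532) (nat_lit 776292915) (nat_lit 66) (nat_lit 5) (nat_lit 72) (nat_lit 5) (nat_lit 73) (nat_lit 5) (nat_lit 350) (nat_lit 346) (nat_lit 324))) (XT.nd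 (nat_lit 78) (nat_lit 228) (nat_lit 0) (XT.lf (nat_lit 0) (nat_lit 2289559096) (nat_lit 532) (nat_lit 8293296556) (nat_lit 76) (nat_lit 3304469322) (nat_lit 59) (nat_lit 5) (nat_lit 66) (nat_lit 5) (nat_lit 60) (nat_lit 5) (nat_lit 351) (nat_lit 346) (nat_lit 323)) (XT.lf (nat_lit 0) (nat_lit 6201434667) (nat_lit 304) (nat_lit 8731101251) (nat_lit 76) (nat_lit 51106259) (nat_lit 56) (nat_lit 5) (nat_lit 60) (nat_lit 5) (nat_lit 57) (nat_lit 5) (nat_lit 352) (nat_lit 346) (nat_lit 322)))) (XT.nd (nat_lit 156) (nat_lit 380) (nat_lit 0) (XT.nd (nat_lit 78) (nat_lit 228) (nat_lit 0) (XT.lf (nat_lit 0) (nat_lit 7171506471) (nat_lit 228) (nat_lit 4115767902) (nat_lit 304) (nat_lit 4910226963) (nat_lit 53) (nat_lit 5) (nat_lit 56) (nat_lit 5) (nat_lit 57) (nat_lit 5) (nat_lit 353) (nat_lit 346) (nat_lit 321)) (XT.lf (nat_lit 0) (nat_lit 131893869) (nat_lit 228) (nat_lit 9061437975) (nat_lit 76)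 (nat_lit 8355726434) (nat_lit 50) (nat_lit 5) (nat_lit 53) (nat_lit 5) (nat_lit 51) (nat_lit 5) (nat_lit 354) (nat_lit 346) (nat_lit 320))) (XT.nd (nat_lit 78) (nat_lit 152) (nat_lit 0) (XT.lf (nat_lit 0) (nat_lit 6269931008) (nat_lit 304) (nat_lit 8936177379) (nat_lit 76) (nat_lit 3836658539) (nat_lit 47) (nat_lit 5) (nat_lit 51) (nat_lit 5) (nat_lit 48) (nat_lit 5) (nat_lit 355) (nat_lit 346) (nat_lit 319)) (XT.lf (nat_lit 0) (nat_lit 12176389801) (nat_lit 152) (nat_lit 1875835756) (nat_lit 228) (nat_lit 6650464176) (nat_lit 45) (nat_lit 5) (nat_lit 47) (nat_lit 5) (nat_lit 48) (nat_lit 5) (nat_lit 356) (nat_lit 346) (nat_lit 318))))) (XT.nd (nat_lit 312) (nat_lit 760) (nat_lit 0) (XT.nd (nat_lit 156) (nat_lit 304) (nat_lit 0) (XT.nd (nat_lit 78) (nat_lit 152) (nat_lit 0) (XT.lf (nat_lit 0) (nat_lit 1251007431) (nat_lit 228) (nat_lit 7889847122) (nat_lit 76) (nat_lit 13399608030) (nat_lit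 42) (nat_lit 5) (nat_lit 45) (nat_lit 5) (nat_lit 43) (nat_lit 5) (nat_lit 357) (nat_lit 346) (nat_lit 317)) (XT.lf (nat_lit 0) (nat_lit 10779158677) (nat_lit 228) (nat_lit 7046935156) (nat_lit 76) (nat_lit 6747198545) (nat_lit 40) (nat_lit 5) (nat_lit 43) (nat_lit 5) (nat_lit 41) (nat_lit 5) (nat_lit 358) (nat_lit 346) (nat_lit 316))) (XT.nd (nat_lit 78) (nat_lit 152) (nat_lit 0) (XT.lf (nat_lit 0) (nat_lit 21018798212) (nat_lit 152) (nat_lit 1639254680) (nat_lit 228) (nat_lit 4179297701) (nat_lit 38) (nat_lit 5) (nat_lit 40) (nat_lit 5) (nat_lit 41) (nat_lit 5) (nat_lit 359) (nat_lit 346) (nat_lit 315)) (XT.lf (nat_lit 0) (nat_lit 7717848175) (nat_lit 152) (nat_lit 4517905240) (nat_lit 76) (nat_lit 17097320841) (nat_lit 36) (nat_lit 5) (nat_lit 38) (nat_lit 5) (nat_lit 37) (nat_lit 5) (nat_lit 360) (nat_lit 346) (nat_lit 314)))) (XT.nd (nat_lit 156) (nat_lit 456) (nat_lit 0) (XT.nd (nat_lit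 78) (nat_lit 152) (nat_lit 0) (XT.lf (nat_lit 0) (nat_lit 22201458633) (nat_lit 228) (nat_lit 2892546625) (nat_lit 76) (nat_lit 7016536561) (nat_lit 34) (nat_lit 5) (nat_lit 37) (nat_lit 5) (nat_lit 35) (nat_lit 4) (nat_lit 361) (nat_lit 346) (nat_lit 313)) (XT.lf (nat_lit 0) (nat_lit 4648094334) (nat_lit 152) (nat_lit 1054489544) (nat_lit 76) (nat_lit 29493396295) (nat_lit 32) (nat_lit 5) (nat_lit 34) (nat_lit 5) (nat_lit 33) (nat_lit 5) (nat_lit 362) (nat_lit 346) (nat_lit 312))) (XT.nd (nat_lit 78) (nat_lit 228) (nat_lit 0) (XT.lf (nat_lit 0) (nat_lit 752479789) (nat_lit 76) (nat_lit 21507261659) (nat_lit 152) (nat_lit 16347305365) (nat_lit 29) (nat_lit 5) (nat_lit 30) (nat_lit 5) (nat_lit 31) (nat_lit 4) (nat_lit 363) (nat_lit 346) (nat_lit 311)) (XT.nd (nat_lit 78) (nat_lit 76) (nat_lit 0) (XT.lf (nat_lit 0) (nat_lit 1319640695) (nat_lit 152) (nat_lit 39470638414) (nat_lit 76) (nat_lit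 1632700746) (nat_lit 27) (nat_lit 5) (nat_lit 29) (nat_lit 5) (nat_lit 28) (nat_lit 4) (nat_lit 364) (nat_lit 346) (nat_lit 310)) (XT.lf (nat_lit 0) (nat_lit 4509938169) (nat_lit 76) (nat_lit 17971609515) (nat_lit 152) (nat_lit 24150766568) (nat_lit 26) (nat_lit 5) (nat_lit 27) (nat_lit 5) (nat_lit 28) (nat_lit 4) (nat_lit 365) (nat_lit 346) (nat_lit 309))))))))
noncomputable def xc60 : XT := (XT.nd (nat_lit 1248) (nat_lit 456) (nat_lit 0) (XT.nd (nat_lit 624) (nat_lit 684) (nat_lit 0) (XT.nd (nat_lit 312) (nat_lit 304) (nat_lit 0) (XT.nd (nat_lit 156) (nat_lit 228) (nat_lit 0) (XT.nd (nat_lit 78) (nat_lit 152) (nat_lit 0) (XT.lf (nat_lit 0) (nat_lit 6087858696) (nat_lit 76) (nat_lit 42208968085) (nat_lit 76) (nat_lit 3057902772) (nat_lit 25) (nat_lit 4) (nat_lit 26) (nat_lit 5) (nat_lit 26) (nat_lit 4) (nat_lit 366) (nat_lit 346) (nat_lit 308)) (XT.lf (nat_lit 0) (nat_lit 6604989066) (nat_lit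 76) (nat_lit 15405295626) (nat_lit 152) (nat_lit 34584694021) (nat_lit 23) (nat_lit 5) (nat_lit 24) (nat_lit 5) (nat_lit 25) (nat_lit 4) (nat_lit 367) (nat_lit 346) (nat_lit 307))) (XT.nd (nat_lit 78) (nat_lit 152) (nat_lit 0) (XT.lf (nat_lit 0) (nat_lit 6229804970) (nat_lit 76) (nat_lit 46266435723) (nat_lit 76) (nat_lit 9971587623) (nat_lit 22) (nat_lit 4) (nat_lit 23) (nat_lit 5) (nat_lit 23) (nat_lit 4) (nat_lit 368) (nat_lit 346) (nat_lit 306)) (XT.lf (nat_lit 0) (nat_lit 4030675299) (nat_lit 76) (nat_lit 15365124324) (nat_lit 152) (nat_lit 49632181975) (nat_lit 20) (nat_lit 5) (nat_lit 21) (nat_lit 5) (nat_lit 22) (nat_lit 4) (nat_lit 369) (nat_lit 346) (nat_lit 305)))) (XT.nd (nat_lit 156) (nat_lit 152) (nat_lit 0) (XT.nd (nat_lit 78) (nat_lit 152) (nat_lit 0) (XT.lf (nat_lit 0) (nat_lit 54725312653) (nat_lit 152) (nat_lit 566070226) (nat_lit 0) (nat_lit 21088262795) (nat_lit 20)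 (nat_lit 5) (nat_lit 22) (nat_lit 4) (nat_lit 20) (nat_lit 4) (nat_lit 370) (nat_lit 346) (nat_lit 304)) (XT.lf (nat_lit 0) (nat_lit 12296647327) (nat_lit 152) (nat_lit 8072443649) (nat_lit 76) (nat_lit 64260513189) (nat_lit 18) (nat_lit 5) (nat_lit 20) (nat_lit 5) (nat_lit 19) (nat_lit 4) (nat_lit 371) (nat_lit 346) (nat_lit 303))) (XT.nd (nat_lit 78) (nat_lit 76) (nat_lit 0) (XT.lf (nat_lit 0) (nat_lit 52406397728) (nat_lit 152) (nat_lit 20238320418) (nat_lit 0) (nat_lit 21239480792) (nat_lit 17) (nat_lit 5) (nat_lit 19) (nat_lit 4) (nat_lit 17) (nat_lit 4) (nat_lit 372) (nat_lit 346) (nat_lit 302)) (XT.lf (nat_lit 0) (nat_lit 66298226750) (nat_lit 76) (nat_lit 34607270155) (nat_lit 76) (nat_lit 3431657403) (nat_lit 16) (nat_lit 4) (nat_lit 17) (nat_lit 5) (nat_lit 17) (nat_lit 4) (nat_lit 373) (nat_lit 346) (nat_lit 301))))) (XT.nd (nat_lit 312) (nat_lit 304) (nat_lit 0) (XT.nd (nat_lit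 156) (nat_lit 152) (nat_lit 0) (XT.nd (nat_lit 78) (nat_lit 76) (nat_lit 0) (XT.lf (nat_lit 0) (nat_lit 40435314707) (nat_lit 152) (nat_lit 64112680751) (nat_lit 0) (nat_lit 11562005143) (nat_lit 14) (nat_lit 5) (nat_lit 16) (nat_lit 4) (nat_lit 14) (nat_lit 4) (nat_lit 374) (nat_lit 346) (nat_lit 300)) (XT.lf (nat_lit 0) (nat_lit 28585982914) (nat_lit 76) (nat_lit 64856977009) (nat_lit 76) (nat_lit 35977579218) (nat_lit 13) (nat_lit 4) (nat_lit 14) (nat_lit 5) (nat_lit 14) (nat_lit 4) (nat_lit 375) (nat_lit 346) (nat_lit 299))) (XT.nd (nat_lit 78) (nat_lit 76) (nat_lit 0) (XT.lf (nat_lit 0) (nat_lit 11083812574) (nat_lit 152) (nat_lit 5830361746) (nat_lit 76) (nat_lit 127643379936) (nat_lit 12) (nat_lit 5) (nat_lit 14) (nat_lit 5) (nat_lit 13) (nat_lit 4) (nat_lit 376) (nat_lit 346) (nat_lit 298)) (XT.lf (nat_lit 0) (nat_lit 66720229117) (nat_lit 152) (nat_lit 54907566365) (nat_lit 0) (nat_lit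 39970881454) (nat_lit 11) (nat_lit 5) (nat_lit 13) (nat_lit 4) (nat_lit 11) (nat_lit 4) (nat_lit 377) (nat_lit 346) (nat_lit 297)))) (XT.nd (nat_lit 156) (nat_lit 152) (nat_lit 0) (XT.nd (nat_lit 78) (nat_lit 76) (nat_lit 0) (XT.lf (nat_lit 0) (nat_lit 57637515720) (nat_lit 76) (nat_lit 75075324474) (nat_lit 76) (nat_lit 48322270229) (nat_lit 10) (nat_lit 4) (nat_lit 11) (nat_lit 5) (nat_lit 11) (nat_lit 4) (nat_lit 378) (nat_lit 346) (nat_lit 296)) (XT.lf (nat_lit 0) (nat_lit 6580114350) (nat_lit 152) (nat_lit 13069639510) (nat_lit 76) (nat_lit 183597315894) (nat_lit 9) (nat_lit 5) (nat_lit 11) (nat_lit 5) (nat_lit 10) (nat_lit 4) (nat_lit 379) (nat_lit 346) (nat_lit 295))) (XT.nd (nat_lit 78) (nat_lit 76) (nat_lit 0) (XT.lf (nat_lit 0) (nat_lit 70939101215) (nat_lit 152) (nat_lit 111262540330) (nat_lit 0) (nat_lit 46162175227) (nat_lit 8) (nat_lit 5) (nat_lit 10) (nat_lit 4) (nat_lit 8)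 (nat_lit 4) (nat_lit 380) (nat_lit 346) (nat_lit 294)) (XT.lf (nat_lit 0) (nat_lit 10306984071) (nat_lit 76) (nat_lit 135813399579) (nat_lit 76) (nat_lit 111034216982) (nat_lit 7) (nat_lit 4) (nat_lit 8) (nat_lit 5) (nat_lit 8) (nat_lit 4) (nat_lit 381) (nat_lit 346) (nat_lit 293)))))) (XT.nd (nat_lit 624) (nat_lit 228) (nat_lit 0) (XT.nd (nat_lit 312) (nat_lit 76) (nat_lit 0) (XT.nd (nat_lit 156) (nat_lit 76) (nat_lit 0) (XT.nd (nat_lit 78) (nat_lit 76) (nat_lit 0) (XT.lf (nat_lit 0) (nat_lit 156825018712) (nat_lit 76) (nat_lit 78980978805) (nat_lit 76) (nat_lit 54199833940) (nat_lit 7) (nat_lit 4) (nat_lit 8) (nat_lit 5) (nat_lit 8) (nat_lit 4) (nat_lit 382) (nat_lit 346) (nat_lit 292)) (XT.lf (nat_lit 0) (nat_lit 10590612703) (nat_lit 152) (nat_lit 2754376762) (nat_lit 76) (nat_lit 314419153770) (nat_lit 6) (nat_lit 5) (nat_lit 8) (nat_lit 5) (nat_lit 7) (nat_lit 4) (nat_lit 383) (nat_lit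 346) (nat_lit 291))) (XT.nd (nat_lit 78) (nat_lit 0) (nat_lit 0) (XT.lf (nat_lit 0) (nat_lit 87290174695) (nat_lit 152) (nat_lit 219009705330) (nat_lit 0) (nat_lit 64341716415) (nat_lit 5) (nat_lit 5) (nat_lit 7) (nat_lit 4) (nat_lit 5) (nat_lit 4) (nat_lit 384) (nat_lit 346) (nat_lit 290)) (XT.lf (nat_lit 0) (nat_lit 175937202373) (nat_lit 152) (nat_lit 90990513615) (nat_lit 0) (nat_lit 152987549441) (nat_lit 5) (nat_lit 5) (nat_lit 7) (nat_lit 4) (nat_lit 5) (nat_lit 4) (nat_lit 385) (nat_lit 346) (nat_lit 289)))) (XT.nd (nat_lit 156) (nat_lit 0) (nat_lit 0) (XT.nd (nat_lit 78) (nat_lit 0) (nat_lit 0) (XT.lf (nat_lit 0) (nat_lit 59176148506) (nat_lit 76) (nat_lit 220120643820) (nat_lit 76) (nat_lit 197169952061) (nat_lit 4) (nat_lit 4) (nat_lit 5) (nat_lit 5) (nat_lit 5) (nat_lit 4) (nat_lit 386) (nat_lit 346) (nat_lit 288)) (XT.lf (nat_lit 0) (nat_lit 237363603820) (nat_lit 76) (nat_lit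 163438785600) (nat_lit 76) (nat_lit 140487190513) (nat_lit 4) (nat_lit 4) (nat_lit 5) (nat_lit 5) (nat_lit 5) (nat_lit 4) (nat_lit 387) (nat_lit 346) (nat_lit 287))) (XT.nd (nat_lit 78) (nat_lit 0) (nat_lit 0) (XT.lf (nat_lit 0) (nat_lit 442266729428) (nat_lit 76) (nat_lit 98260990342) (nat_lit 76) (nat_lit 75308609752) (nat_lit 4) (nat_lit 4) (nat_lit 5) (nat_lit 5) (nat_lit 5) (nat_lit 4) (nat_lit 388) (nat_lit 346) (nat_lit 286)) (XT.lf (nat_lit 0) (nat_lit 677894499527) (nat_lit 76) (nat_lit 23312040312) (nat_lit 76) (nat_lit 358976677) (nat_lit 4) (nat_lit 4) (nat_lit 5) (nat_lit 5) (nat_lit 5) (nat_lit 4) (nat_lit 389) (nat_lit 346) (nat_lit 285))))) (XT.nd (nat_lit 312) (nat_lit 76) (nat_lit 0) (XT.nd (nat_lit 156) (nat_lit 0) (nat_lit 0) (XT.nd (nat_lit 78) (nat_lit 0) (nat_lit 0) (XT.lf (nat_lit 0) (nat_lit 86909181339) (nat_lit 152) (nat_lit 646994378681) (nat_lit 0) (nat_lit 65655794683)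 (nat_lit 2) (nat_lit 5) (nat_lit 4) (nat_lit 4) (nat_lit 2) (nat_lit 4) (nat_lit 390) (nat_lit 346) (nat_lit 284)) (XT.lf (nat_lit 0) (nat_lit 188594281091) (nat_lit 152) (nat_lit 556208987639) (nat_lit 0) (nat_lit 167340416212) (nat_lit 2) (nat_lit 5) (nat_lit 4) (nat_lit 4) (nat_lit 2) (nat_lit 4) (nat_lit 391) (nat_lit 346) (nat_lit 283))) (XT.nd (nat_lit 78) (nat_lit 0) (nat_lit 0) (XT.lf (nat_lit 0) (nat_lit 305528284386) (nat_lit 152) (nat_lit 451813685692) (nat_lit 0) (nat_lit 284274003661) (nat_lit 2) (nat_lit 5) (nat_lit 4) (nat_lit 4) (nat_lit 2) (nat_lit 4) (nat_lit 392) (nat_lit 346) (nat_lit 282)) (XT.lf (nat_lit 0) (nat_lit 439999030420) (nat_lit 152) (nat_lit 331765956061) (nat_lit 0) (nat_lit 418744388090) (nat_lit 2) (nat_lit 5) (nat_lit 4) (nat_lit 4) (nat_lit 2) (nat_lit 4) (nat_lit 393) (nat_lit 346) (nat_lit 281)))) (XT.nd (nat_lit 156) (nat_lit 76) (nat_lit 0) (XT.nd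 (nat_lit 78) (nat_lit 0) (nat_lit 0) (XT.lf (nat_lit 0) (nat_lit 594637468571) (nat_lit 152) (nat_lit 193717038819) (nat_lit 0) (nat_lit 573382511802) (nat_lit 2) (nat_lit 5) (nat_lit 4) (nat_lit 4) (nat_lit 2) (nat_lit 4) (nat_lit 394) (nat_lit 346) (nat_lit 280)) (XT.lf (nat_lit 0) (nat_lit 772469133500) (nat_lit 152) (nat_lit 34965976889) (nat_lit 0) (nat_lit 751213903305) (nat_lit 2) (nat_lit 5) (nat_lit 4) (nat_lit 4) (nat_lit 2) (nat_lit 4) (nat_lit 395) (nat_lit 346) (nat_lit 279))) (XT.nd (nat_lit 78) (nat_lit 0) (nat_lit 0) (XT.lf (nat_lit 0) (nat_lit 155365226633) (nat_lit 76) (nat_lit 825344651192) (nat_lit 76) (nat_lit 804089183235) (nat_lit 1) (nat_lit 4) (nat_lit 2) (nat_lit 5) (nat_lit 2) (nat_lit 4) (nat_lit 396) (nat_lit 346) (nat_lit 278)) (XT.nd (nat_lit 78) (nat_lit 0) (nat_lit 0) (XT.lf (nat_lit 0) (nat_lit 376359410676) (nat_lit 76) (nat_lit 844843300705) (nat_lit 76)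 (nat_lit 823587625999) (nat_lit 1) (nat_lit 4) (nat_lit 2) (nat_lit 5) (nat_lit 2) (nat_lit 4) (nat_lit 397) (nat_lit 346) (nat_lit 277)) (XT.lf (nat_lit 0) (nat_lit 630499128113) (nat_lit 76) (nat_lit 867268586018) (nat_lit 76) (nat_lit 846012731531) (nat_lit 1) (nat_lit 4) (nat_lit 2) (nat_lit 5) (nat_lit 2) (nat_lit 4) (nat_lit 398) (nat_lit 346) (nat_lit 276))))))))
noncomputable def xc61 : XT := (XT.nd (nat_lit 1248) (nat_lit 0) (nat_lit 0) (XT.nd (nat_lit 624) (nat_lit 0) (nat_lit 0) (XT.nd (nat_lit 312) (nat_lit 0) (nat_lit 0) (XT.nd (nat_lit 156) (nat_lit 0) (nat_lit 0) (XT.nd (nat_lit 78) (nat_lit 0) (nat_lit 0) (XT.lf (nat_lit 0) (nat_lit 922756677763) (nat_lit 76) (nat_lit 893059262714) (nat_lit 76) (nat_lit 871803251895) (nat_lit 1) (nat_lit 4) (nat_lit 2) (nat_lit 5) (nat_lit 2) (nat_lit 4) (nat_lit 399) (nat_lit 346) (nat_lit 275)) (XT.lf (nat_lit 0) (nat_lit 1258850142119)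 (nat_lit 76) (nat_lit 922719930989) (nat_lit 76) (nat_lit 901463784229) (nat_lit 1) (nat_lit 4) (nat_lit 2) (nat_lit 5) (nat_lit 2) (nat_lit 4) (nat_lit 400) (nat_lit 346) (nat_lit 274))) (XT.nd (nat_lit 78) (nat_lit 0) (nat_lit 0) (XT.lf (nat_lit 0) (nat_lit 1645355262876) (nat_lit 76) (nat_lit 956830908266) (nat_lit 76) (nat_lit 935574643297) (nat_lit 1) (nat_lit 4) (nat_lit 2) (nat_lit 5) (nat_lit 2) (nat_lit 4) (nat_lit 401) (nat_lit 346) (nat_lit 273)) (XT.lf (nat_lit 0) (nat_lit 2089834096744) (nat_lit 76) (nat_lit 996059583230) (nat_lit 76) (nat_lit 974803215470) (nat_lit 1) (nat_lit 4) (nat_lit 2) (nat_lit 5) (nat_lit 2) (nat_lit 4) (nat_lit 402) (nat_lit 346) (nat_lit 272)))) (XT.nd (nat_lit 156) (nat_lit 0) (nat_lit 0) (XT.nd (nat_lit 78) (nat_lit 0) (nat_lit 0) (XT.lf (nat_lit 0) (nat_lit 2600982968733) (nat_lit 76) (nat_lit 1041173473435) (nat_lit 76) (nat_lit 1019917016292)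 (nat_lit 1) (nat_lit 4) (nat_lit 2) (nat_lit 5) (nat_lit 2) (nat_lit 4) (nat_lit 403) (nat_lit 346) (nat_lit 271)) (XT.lf (nat_lit 0) (nat_lit 3188802617644) (nat_lit 76) (nat_lit 1093055241951) (nat_lit 76) (nat_lit 1071798707083) (nat_lit 1) (nat_lit 4) (nat_lit 2) (nat_lit 5) (nat_lit 2) (nat_lit 4) (nat_lit 404) (nat_lit 346) (nat_lit 270))) (XT.nd (nat_lit 78) (nat_lit 0) (nat_lit 0) (XT.lf (nat_lit 0) (nat_lit 3864793862694) (nat_lit 76) (nat_lit 1152719966857) (nat_lit 76) (nat_lit 1131463364402) (nat_lit 1) (nat_lit 4) (nat_lit 2) (nat_lit 5) (nat_lit 2) (nat_lit 4) (nat_lit 405) (nat_lit 346) (nat_lit 269)) (XT.lf (nat_lit 0) (nat_lit 4642182619546) (nat_lit 76) (nat_lit 1221335001466) (nat_lit 76) (nat_lit 1200078340241) (nat_lit 1) (nat_lit 4) (nat_lit 2) (nat_lit 5) (nat_lit 2) (nat_lit 4) (nat_lit 406) (nat_lit 346) (nat_lit 268))))) (XT.nd (nat_lit 312) (nat_lit 0) (nat_lit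 0) (XT.nd (nat_lit 156) (nat_lit 0) (nat_lit 0) (XT.nd (nat_lit 78) (nat_lit 0) (nat_lit 0) (XT.lf (nat_lit 0) (nat_lit 5536178668227) (nat_lit 76) (nat_lit 1300242813847) (nat_lit 76) (nat_lit 1278986101517) (nat_lit 1) (nat_lit 4) (nat_lit 2) (nat_lit 5) (nat_lit 2) (nat_lit 4) (nat_lit 407) (nat_lit 346) (nat_lit 267)) (XT.lf (nat_lit 0) (nat_lit 6564273235776) (nat_lit 76) (nat_lit 1390987252503) (nat_lit 76) (nat_lit 1369730495733) (nat_lit 1) (nat_lit 4) (nat_lit 2) (nat_lit 5) (nat_lit 2) (nat_lit 4) (nat_lit 408) (nat_lit 346) (nat_lit 266))) (XT.nd (nat_lit 78) (nat_lit 0) (nat_lit 0) (XT.lf (nat_lit 0) (nat_lit 7746581215906) (nat_lit 76) (nat_lit 1495343752103) (nat_lit 76) (nat_lit 1474086956691) (nat_lit 1) (nat_lit 4) (nat_lit 2) (nat_lit 5) (nat_lit 2) (nat_lit 4) (nat_lit 409) (nat_lit 346) (nat_lit 265)) (XT.lf (nat_lit 0) (nat_lit 9106234721271) (nat_lit 76) (nat_lit 1615354070249)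 (nat_lit 76) (nat_lit 1594097241234) (nat_lit 1) (nat_lit 4) (nat_lit 2) (nat_lit 5) (nat_lit 2) (nat_lit 4) (nat_lit 410) (nat_lit 346) (nat_lit 264)))) (XT.nd (nat_lit 156) (nat_lit 0) (nat_lit 0) (XT.nd (nat_lit 78) (nat_lit 0) (nat_lit 0) (XT.lf (nat_lit 0) (nat_lit 10669835668281) (nat_lit 76) (nat_lit 1753366234903) (nat_lit 76) (nat_lit 1732109376669) (nat_lit 1) (nat_lit 4) (nat_lit 2) (nat_lit 5) (nat_lit 2) (nat_lit 4) (nat_lit 411) (nat_lit 346) (nat_lit 263)) (XT.lf (nat_lit 0) (nat_lit 12467976249377) (nat_lit 76) (nat_lit 1912080484071) (nat_lit 76) (nat_lit 1890823600428) (nat_lit 1) (nat_lit 4) (nat_lit 2) (nat_lit 5) (nat_lit 2) (nat_lit 4) (nat_lit 412) (nat_lit 346) (nat_lit 262))) (XT.nd (nat_lit 78) (nat_lit 0) (nat_lit 0) (XT.lf (nat_lit 0) (nat_lit 14535837475928) (nat_lit 76) (nat_lit 2094602096540) (nat_lit 76) (nat_lit 2073345190802) (nat_lit 1) (nat_lit 4) (nat_lit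 2) (nat_lit 5) (nat_lit 2) (nat_lit 4) (nat_lit 413) (nat_lit 346) (nat_lit 261)) (XT.lf (nat_lit 0) (nat_lit 16913877502368) (nat_lit 76) (nat_lit 2304502147336) (nat_lit 76) (nat_lit 2283245222386) (nat_lit 1) (nat_lit 4) (nat_lit 2) (nat_lit 5) (nat_lit 2) (nat_lit 4) (nat_lit 414) (nat_lit 346) (nat_lit 260)))))) (XT.nd (nat_lit 48204) (nat_lit 0) (nat_lit 2812) (XT.nd (nat_lit 47892) (nat_lit 0) (nat_lit 4864) (XT.nd (nat_lit 156) (nat_lit 0) (nat_lit 0) (XT.nd (nat_lit 78) (nat_lit 0) (nat_lit 0) (XT.lf (nat_lit 0) (nat_lit 19648623198778) (nat_lit 76) (nat_lit 2545887376584) (nat_lit 76) (nat_lit 2524630434928) (nat_lit 1) (nat_lit 4) (nat_lit 2) (nat_lit 5) (nat_lit 2) (nat_lit 4) (nat_lit 415) (nat_lit 346) (nat_lit 259)) (XT.lf (nat_lit 0) (nat_lit 22793580459219) (nat_lit 76) (nat_lit 2823480538769) (nat_lit 76) (nat_lit 2802223582586) (nat_lit 1) (nat_lit 4) (nat_lit 2) (nat_lit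 5) (nat_lit 2) (nat_lit 4) (nat_lit 416) (nat_lit 346) (nat_lit 258))) (XT.nd (nat_lit 47658) (nat_lit 0) (nat_lit 5168) (XT.lf (nat_lit 0) (nat_lit 26410281056178) (nat_lit 76) (nat_lit 3142712804457) (nat_lit 76) (nat_lit 3121455835641) (nat_lit 1) (nat_lit 4) (nat_lit 2) (nat_lit 5) (nat_lit 2) (nat_lit 4) (nat_lit 417) (nat_lit 346) (nat_lit 257)) (XT.lf (nat_lit 0) (nat_lit 2653522354) (nat_lit 532) (nat_lit 1469090195) (nat_lit 532) (nat_lit 1469090195) (nat_lit 69) (nat_lit 3) (nat_lit 76) (nat_lit 3) (nat_lit 76) (nat_lit 5) (nat_lit 347) (nat_lit 347) (nat_lit 326)))) (XT.nd (nat_lit 156) (nat_lit 380) (nat_lit 0) (XT.nd (nat_lit 78) (nat_lit 0) (nat_lit 0) (XT.lf (nat_lit 0) (nat_lit 6857422305) (nat_lit 456) (nat_lit 4246294797) (nat_lit 532) (nat_lit 825619348) (nat_lit 70) (nat_lit 5) (nat_lit 76) (nat_lit 5) (nat_lit 77) (nat_lit 5) (nat_lit 348) (nat_lit 347) (nat_lit 325))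 (XT.lf (nat_lit 76) (nat_lit 7319553617) (nat_lit 0) (nat_lit 1643681175) (nat_lit 532) (nat_lit 3798205336) (nat_lit 71) (nat_lit 5) (nat_lit 70) (nat_lit 5) (nat_lit 77) (nat_lit 5) (nat_lit 349) (nat_lit 347) (nat_lit 324))) (XT.nd (nat_lit 78) (nat_lit 456) (nat_lit 0) (XT.lf (nat_lit 76) (nat_lit 7188050369) (nat_lit 0) (nat_lit 4570452643) (nat_lit 532) (nat_lit 1930068188) (nat_lit 72) (nat_lit 5) (nat_lit 71) (nat_lit 5) (nat_lit 78) (nat_lit 5) (nat_lit 350) (nat_lit 347) (nat_lit 323)) (XT.lf (nat_lit 0) (nat_lit 630499778) (nat_lit 532) (nat_lit 7395530425) (nat_lit 76) (nat_lit 6694550690) (nat_lit 65) (nat_lit 5) (nat_lit 72) (nat_lit 5) (nat_lit 66) (nat_lit 5) (nat_lit 351) (nat_lit 347) (nat_lit 322))))) (XT.nd (nat_lit 312) (nat_lit 912) (nat_lit 0) (XT.nd (nat_lit 156) (nat_lit 456) (nat_lit 0) (XT.nd (nat_lit 78) (nat_lit 228) (nat_lit 0) (XT.lf (nat_lit 0) (nat_lit 3948721318)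 (nat_lit 532) (nat_lit 8148250105) (nat_lit 76) (nat_lit 3767451090) (nat_lit 59) (nat_lit 5) (nat_lit 66) (nat_lit 5) (nat_lit 60) (nat_lit 5) (nat_lit 352) (nat_lit 347) (nat_lit 321)) (XT.lf (nat_lit 0) (nat_lit 8308667704) (nat_lit 304) (nat_lit 8677007080) (nat_lit 76) (nat_lit 150706259) (nat_lit 56) (nat_lit 5) (nat_lit 60) (nat_lit 5) (nat_lit 57) (nat_lit 5) (nat_lit 353) (nat_lit 347) (nat_lit 320))) (XT.nd (nat_lit 78) (nat_lit 228) (nat_lit 0) (XT.lf (nat_lit 0) (nat_lit 9495556363) (nat_lit 228) (nat_lit 4538325157) (nat_lit 304) (nat_lit 4508401968) (nat_lit 53) (nat_lit 5) (nat_lit 56) (nat_lit 5) (nat_lit 57) (nat_lit 5) (nat_lit 354) (nat_lit 347) (nat_lit 319)) (XT.lf (nat_lit 0) (nat_lit 1126222782) (nat_lit 228) (nat_lit 9152851094) (nat_lit 76) (nat_lit 9823927246) (nat_lit 50) (nat_lit 5) (nat_lit 53) (nat_lit 5) (nat_lit 51) (nat_lit 5) (nat_lit 355) (nat_lit 347)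 (nat_lit 318)))) (XT.nd (nat_lit 156) (nat_lit 532) (nat_lit 0) (XT.nd (nat_lit 78) (nat_lit 152) (nat_lit 0) (XT.lf (nat_lit 0) (nat_lit 8092618596) (nat_lit 304) (nat_lit 9052551911) (nat_lit 76) (nat_lit 4683042311) (nat_lit 47) (nat_lit 5) (nat_lit 51) (nat_lit 5) (nat_lit 48) (nat_lit 5) (nat_lit 356) (nat_lit 347) (nat_lit 317)) (XT.lf (nat_lit 0) (nat_lit 15123290435) (nat_lit 152) (nat_lit 1830844257) (nat_lit 228) (nat_lit 6790090466) (nat_lit 45) (nat_lit 5) (nat_lit 47) (nat_lit 5) (nat_lit 48) (nat_lit 5) (nat_lit 357) (nat_lit 347) (nat_lit 316))) (XT.nd (nat_lit 78) (nat_lit 304) (nat_lit 0) (XT.lf (nat_lit 0) (nat_lit 2180950694) (nat_lit 228) (nat_lit 7957081532) (nat_lit 76) (nat_lit 15723841002) (nat_lit 42) (nat_lit 5) (nat_lit 45) (nat_lit 5) (nat_lit 43) (nat_lit 5) (nat_lit 358) (nat_lit 347) (nat_lit 315)) (XT.nd (nat_lit 78) (nat_lit 152) (nat_lit 0) (XT.lf (nat_lit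 0) (nat_lit 13074535941) (nat_lit 228) (nat_lit 7036832838) (nat_lit 76) (nat_lit 8093397724) (nat_lit 40) (nat_lit 5) (nat_lit 43) (nat_lit 5) (nat_lit 41) (nat_lit 5) (nat_lit 359) (nat_lit 347) (nat_lit 314)) (XT.lf (nat_lit 0) (nat_lit 25148432230) (nat_lit 152) (nat_lit 1521824015) (nat_lit 228) (nat_lit 4143409084) (nat_lit 38) (nat_lit 5) (nat_lit 40) (nat_lit 5) (nat_lit 41) (nat_lit 5) (nat_lit 360) (nat_lit 347) (nat_lit 313))))))))
noncomputable def xc62 : XT := (XT.nd (nat_lit 1248) (nat_lit 836) (nat_lit 0) (XT.nd (nat_lit 624) (nat_lit 760) (nat_lit 0) (XT.nd (nat_lit 312) (nat_lit 456) (nat_lit 0) (XT.nd (nat_lit 156) (nat_lit 380) (nat_lit 0) (XT.nd (nat_lit 78) (nat_lit 152) (nat_lit 0) (XT.lf (nat_lit 0) (nat_lit 9453801923) (nat_lit 152) (nat_lit 4233722869) (nat_lit 76) (nat_lit 19999080831) (nat_lit 36) (nat_lit 5) (nat_lit 38) (nat_lit 5) (nat_lit 37) (nat_lit 5) (nat_lit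 361) (nat_lit 347) (nat_lit 312)) (XT.lf (nat_lit 0) (nat_lit 26064273513) (nat_lit 228) (nat_lit 2412482181) (nat_lit 76) (nat_lit 8407613928) (nat_lit 34) (nat_lit 5) (nat_lit 37) (nat_lit 5) (nat_lit 35) (nat_lit 4) (nat_lit 362) (nat_lit 347) (nat_lit 311))) (XT.nd (nat_lit 78) (nat_lit 228) (nat_lit 0) (XT.lf (nat_lit 0) (nat_lit 5841227709) (nat_lit 152) (nat_lit 349845947) (nat_lit 76) (nat_lit 34244512628) (nat_lit 32) (nat_lit 5) (nat_lit 34) (nat_lit 5) (nat_lit 33) (nat_lit 5) (nat_lit 363) (nat_lit 347) (nat_lit 310)) (XT.lf (nat_lit 0) (nat_lit 1726150274) (nat_lit 76) (nat_lit 24351649362) (nat_lit 152) (nat_lit 18281874375) (nat_lit 29) (nat_lit 5) (nat_lit 30) (nat_lit 5) (nat_lit 31) (nat_lit 4) (nat_lit 364) (nat_lit 347) (nat_lit 309)))) (XT.nd (nat_lit 156) (nat_lit 228) (nat_lit 0) (XT.nd (nat_lit 78) (nat_lit 76) (nat_lit 0) (XT.lf (nat_lit 0) (nat_lit 1973390730) (nat_lit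 152) (nat_lit 44552439925) (nat_lit 76) (nat_lit 2224049685) (nat_lit 27) (nat_lit 5) (nat_lit 29) (nat_lit 5) (nat_lit 28) (nat_lit 4) (nat_lit 365) (nat_lit 347) (nat_lit 308)) (XT.lf (nat_lit 0) (nat_lit 5954223390) (nat_lit 76) (nat_lit 20314373166) (nat_lit 152) (nat_lit 27325308035) (nat_lit 26) (nat_lit 5) (nat_lit 27) (nat_lit 5) (nat_lit 28) (nat_lit 4) (nat_lit 366) (nat_lit 347) (nat_lit 307))) (XT.nd (nat_lit 78) (nat_lit 152) (nat_lit 0) (XT.lf (nat_lit 0) (nat_lit 7726513231) (nat_lit 76) (nat_lit 48200377316) (nat_lit 76) (nat_lit 3100143121) (nat_lit 25) (nat_lit 4) (nat_lit 26) (nat_lit 5) (nat_lit 26) (nat_lit 4) (nat_lit 367) (nat_lit 347) (nat_lit 306)) (XT.lf (nat_lit 0) (nat_lit 8278926835) (nat_lit 76) (nat_lit 17393342410) (nat_lit 152) (nat_lit 39383070895) (nat_lit 23) (nat_lit 5) (nat_lit 24) (nat_lit 5) (nat_lit 25) (nat_lit 4) (nat_lit 368) (nat_lit 347) (nat_lit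 305))))) (XT.nd (nat_lit 312) (nat_lit 380) (nat_lit 0) (XT.nd (nat_lit 156) (nat_lit 152) (nat_lit 0) (XT.nd (nat_lit 78) (nat_lit 152) (nat_lit 0) (XT.lf (nat_lit 0) (nat_lit 7808971856) (nat_lit 76) (nat_lit 52897387235) (nat_lit 76) (nat_lit 11104745383) (nat_lit 22) (nat_lit 4) (nat_lit 23) (nat_lit 5) (nat_lit 23) (nat_lit 4) (nat_lit 369) (nat_lit 347) (nat_lit 304)) (XT.lf (nat_lit 0) (nat_lit 5242041761) (nat_lit 76) (nat_lit 17377235865) (nat_lit 152) (nat_lit 56737737538) (nat_lit 20) (nat_lit 5) (nat_lit 21) (nat_lit 5) (nat_lit 22) (nat_lit 4) (nat_lit 370) (nat_lit 347) (nat_lit 303))) (XT.nd (nat_lit 78) (nat_lit 152) (nat_lit 0) (XT.lf (nat_lit 0) (nat_lit 63213367351) (nat_lit 152) (nat_lit 107597778) (nat_lit 0) (nat_lit 24493256313) (nat_lit 20) (nat_lit 5) (nat_lit 22) (nat_lit 4) (nat_lit 20) (nat_lit 4) (nat_lit 371) (nat_lit 347) (nat_lit 302)) (XT.lf (nat_lit 0) (nat_lit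 14402582712) (nat_lit 152) (nat_lit 8772130476) (nat_lit 76) (nat_lit 74128392015) (nat_lit 18) (nat_lit 5) (nat_lit 20) (nat_lit 5) (nat_lit 19) (nat_lit 4) (nat_lit 372) (nat_lit 347) (nat_lit 301)))) (XT.nd (nat_lit 156) (nat_lit 228) (nat_lit 0) (XT.nd (nat_lit 78) (nat_lit 76) (nat_lit 0) (XT.lf (nat_lit 0) (nat_lit 60511463448) (nat_lit 152) (nat_lit 22792564130) (nat_lit 0) (nat_lit 24643251391) (nat_lit 17) (nat_lit 5) (nat_lit 19) (nat_lit 4) (nat_lit 17) (nat_lit 4) (nat_lit 373) (nat_lit 347) (nat_lit 300)) (XT.lf (nat_lit 0) (nat_lit 76683708168) (nat_lit 76) (nat_lit 39580479397) (nat_lit 76) (nat_lit 3705692055) (nat_lit 16) (nat_lit 4) (nat_lit 17) (nat_lit 5) (nat_lit 17) (nat_lit 4) (nat_lit 374) (nat_lit 347) (nat_lit 299))) (XT.nd (nat_lit 78) (nat_lit 76) (nat_lit 0) (XT.lf (nat_lit 0) (nat_lit 46714371989) (nat_lit 152) (nat_lit 73303330775) (nat_lit 0) (nat_lit 13491682191)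 (nat_lit 14) (nat_lit 5) (nat_lit 16) (nat_lit 4) (nat_lit 14) (nat_lit 4) (nat_lit 375) (nat_lit 347) (nat_lit 298)) (XT.lf (nat_lit 0) (nat_lit 33264052324) (nat_lit 76) (nat_lit 74390613560) (nat_lit 76) (nat_lit 41163320188) (nat_lit 13) (nat_lit 4) (nat_lit 14) (nat_lit 5) (nat_lit 14) (nat_lit 4) (nat_lit 376) (nat_lit 347) (nat_lit 297)))))) (XT.nd (nat_lit 624) (nat_lit 304) (nat_lit 0) (XT.nd (nat_lit 312) (nat_lit 228) (nat_lit 0) (XT.nd (nat_lit 156) (nat_lit 152) (nat_lit 0) (XT.nd (nat_lit 78) (nat_lit 76) (nat_lit 0) (XT.lf (nat_lit 0) (nat_lit 12920598413) (nat_lit 152) (nat_lit 6356451780) (nat_lit 76) (nat_lit 146950189632) (nat_lit 12) (nat_lit 5) (nat_lit 14) (nat_lit 5) (nat_lit 13) (nat_lit 4) (nat_lit 377) (nat_lit 347) (nat_lit 296)) (XT.lf (nat_lit 0) (nat_lit 76891268436) (nat_lit 152) (nat_lit 62815834194) (nat_lit 0) (nat_lit 46118326359) (nat_lit 11) (nat_lit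 5) (nat_lit 13) (nat_lit 4) (nat_lit 11) (nat_lit 4) (nat_lit 378) (nat_lit 347) (nat_lit 295))) (XT.nd (nat_lit 78) (nat_lit 76) (nat_lit 0) (XT.lf (nat_lit 0) (nat_lit 66583257884) (nat_lit 76) (nat_lit 86185469544) (nat_lit 76) (nat_lit 55409724758) (nat_lit 10) (nat_lit 4) (nat_lit 11) (nat_lit 5) (nat_lit 11) (nat_lit 4) (nat_lit 379) (nat_lit 347) (nat_lit 294)) (XT.lf (nat_lit 0) (nat_lit 7700033969) (nat_lit 152) (nat_lit 14762111267) (nat_lit 76) (nat_lit 211261346420) (nat_lit 9) (nat_lit 5) (nat_lit 11) (nat_lit 5) (nat_lit 10) (nat_lit 4) (nat_lit 380) (nat_lit 347) (nat_lit 293)))) (XT.nd (nat_lit 156) (nat_lit 76) (nat_lit 0) (XT.nd (nat_lit 78) (nat_lit 76) (nat_lit 0) (XT.lf (nat_lit 0) (nat_lit 81704411016) (nat_lit 152) (nat_lit 127699885015) (nat_lit 0) (nat_lit 53204132152) (nat_lit 8) (nat_lit 5) (nat_lit 10) (nat_lit 4) (nat_lit 8) (nat_lit 4) (nat_lit 381) (nat_lit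 347) (nat_lit 292)) (XT.lf (nat_lit 0) (nat_lit 12083734422) (nat_lit 76) (nat_lit 156068467893) (nat_lit 76) (nat_lit 127566482708) (nat_lit 7) (nat_lit 4) (nat_lit 8) (nat_lit 5) (nat_lit 8) (nat_lit 4) (nat_lit 382) (nat_lit 347) (nat_lit 291))) (XT.nd (nat_lit 78) (nat_lit 76) (nat_lit 0) (XT.lf (nat_lit 0) (nat_lit 180549382598) (nat_lit 76) (nat_lit 90726437259) (nat_lit 76) (nat_lit 62222968317) (nat_lit 7) (nat_lit 4) (nat_lit 8) (nat_lit 5) (nat_lit 8) (nat_lit 4) (nat_lit 383) (nat_lit 347) (nat_lit 290)) (XT.lf (nat_lit 0) (nat_lit 12267462094) (nat_lit 152) (nat_lit 2988438008) (nat_lit 76) (nat_lit 361665800651) (nat_lit 6) (nat_lit 5) (nat_lit 8) (nat_lit 5) (nat_lit 7) (nat_lit 4) (nat_lit 384) (nat_lit 347) (nat_lit 289))))) (XT.nd (nat_lit 312) (nat_lit 152) (nat_lit 0) (XT.nd (nat_lit 156) (nat_lit 76) (nat_lit 0) (XT.nd (nat_lit 78) (nat_lit 0) (nat_lit 0) (XT.lf (nat_lit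 0) (nat_lit 100466391301) (nat_lit 152) (nat_lit 251692769493) (nat_lit 0) (nat_lit 74072056951) (nat_lit 5) (nat_lit 5) (nat_lit 7) (nat_lit 4) (nat_lit 5) (nat_lit 4) (nat_lit 385) (nat_lit 347) (nat_lit 288)) (XT.lf (nat_lit 0) (nat_lit 202399687426) (nat_lit 152) (nat_lit 104492663147) (nat_lit 0) (nat_lit 176004449747) (nat_lit 5) (nat_lit 5) (nat_lit 7) (nat_lit 4) (nat_lit 5) (nat_lit 4) (nat_lit 386) (nat_lit 347) (nat_lit 287))) (XT.nd (nat_lit 78) (nat_lit 0) (nat_lit 0) (XT.lf (nat_lit 0) (nat_lit 68186603933) (nat_lit 76) (nat_lit 253070456566) (nat_lit 76) (nat_lit 226674433385) (nat_lit 4) (nat_lit 4) (nat_lit 5) (nat_lit 5) (nat_lit 5) (nat_lit 4) (nat_lit 387) (nat_lit 347) (nat_lit 286)) (XT.lf (nat_lit 0) (nat_lit 273084694959) (nat_lit 76) (nat_lit 187895226199) (nat_lit 76) (nat_lit 161498519973) (nat_lit 4) (nat_lit 4) (nat_lit 5) (nat_lit 5) (nat_lit 5) (nat_lit 4)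 (nat_lit 388) (nat_lit 347) (nat_lit 285)))) (XT.nd (nat_lit 156) (nat_lit 152) (nat_lit 0) (XT.nd (nat_lit 78) (nat_lit 0) (nat_lit 0) (XT.lf (nat_lit 0) (nat_lit 508708087161) (nat_lit 76) (nat_lit 112948506510) (nat_lit 76) (nat_lit 86551206330) (nat_lit 4) (nat_lit 4) (nat_lit 5) (nat_lit 5) (nat_lit 5) (nat_lit 4) (nat_lit 389) (nat_lit 347) (nat_lit 284)) (XT.lf (nat_lit 0) (nat_lit 779666803429) (nat_lit 76) (nat_lit 26763948635) (nat_lit 76) (nat_lit 366131974) (nat_lit 4) (nat_lit 4) (nat_lit 5) (nat_lit 5) (nat_lit 5) (nat_lit 4) (nat_lit 390) (nat_lit 347) (nat_lit 283))) (XT.nd (nat_lit 78) (nat_lit 0) (nat_lit 0) (XT.lf (nat_lit 0) (nat_lit 99987136145) (nat_lit 152) (nat_lit 743958496918) (nat_lit 0) (nat_lit 75544297465) (nat_lit 2) (nat_lit 5) (nat_lit 4) (nat_lit 4) (nat_lit 2) (nat_lit 4) (nat_lit 391) (nat_lit 347) (nat_lit 282)) (XT.nd (nat_lit 78) (nat_lit 0) (nat_lit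 0) (XT.lf (nat_lit 0) (nat_lit 216919577693) (nat_lit 152) (nat_lit 639566389207) (nat_lit 0) (nat_lit 192476377408) (nat_lit 2) (nat_lit 5) (nat_lit 4) (nat_lit 4) (nat_lit 2) (nat_lit 4) (nat_lit 392) (nat_lit 347) (nat_lit 281)) (XT.lf (nat_lit 0) (nat_lit 351388965686) (nat_lit 152) (nat_lit 519521437173) (nat_lit 0) (nat_lit 326945450962) (nat_lit 2) (nat_lit 5) (nat_lit 4) (nat_lit 4) (nat_lit 2) (nat_lit 4) (nat_lit 393) (nat_lit 347) (nat_lit 280))))))))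
noncomputable def xc63 : XT := (XT.nd (nat_lit 1326) (nat_lit 0) (nat_lit 0) (XT.nd (nat_lit 624) (nat_lit 0) (nat_lit 0) (XT.nd (nat_lit 312) (nat_lit 0) (nat_lit 0) (XT.nd (nat_lit 156) (nat_lit 76) (nat_lit 0) (XT.nd (nat_lit 78) (nat_lit 0) (nat_lit 0) (XT.lf (nat_lit 0) (nat_lit 506026222933) (nat_lit 152) (nat_lit 381474935233) (nat_lit 0) (nat_lit 481582434783) (nat_lit 2) (nat_lit 5) (nat_lit 4) (nat_lit 4) (nat_lit 2) (nat_lit 4) (nat_lit 394) (nat_lit 347) (nat_lit 279)) (XT.lf (nat_lit 0) (nat_lit 683856860987) (nat_lit 152) (nat_lit 222725973566) (nat_lit 0) (nat_lit 659412835076) (nat_lit 2) (nat_lit 5) (nat_lit 4) (nat_lit 4) (nat_lit 2) (nat_lit 4) (nat_lit 395) (nat_lit 347) (nat_lit 278))) (XT.nd (nat_lit 78) (nat_lit 76) (nat_lit 0) (XT.lf (nat_lit 0) (nat_lit 888360174942) (nat_lit 152) (nat_lit 40168594226) (nat_lit 0) (nat_lit 863915942282) (nat_lit 2) (nat_lit 5) (nat_lit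 4) (nat_lit 4) (nat_lit 2) (nat_lit 4) (nat_lit 396) (nat_lit 347) (nat_lit 277)) (XT.lf (nat_lit 0) (nat_lit 178708711101) (nat_lit 76) (nat_lit 949126554291) (nat_lit 76) (nat_lit 924682141849) (nat_lit 1) (nat_lit 4) (nat_lit 2) (nat_lit 5) (nat_lit 2) (nat_lit 4) (nat_lit 397) (nat_lit 347) (nat_lit 276)))) (XT.nd (nat_lit 156) (nat_lit 0) (nat_lit 0) (XT.nd (nat_lit 78) (nat_lit 0) (nat_lit 0) (XT.lf (nat_lit 0) (nat_lit 432846974863) (nat_lit 76) (nat_lit 971552583132) (nat_lit 76) (nat_lit 947108014359) (nat_lit 1) (nat_lit 4) (nat_lit 2) (nat_lit 5) (nat_lit 2) (nat_lit 4) (nat_lit 398) (nat_lit 347) (nat_lit 275)) (XT.lf (nat_lit 0) (nat_lit 725103260447) (nat_lit 76) (nat_lit 997343906375) (nat_lit 76) (nat_lit 972899201660) (nat_lit 1) (nat_lit 4) (nat_lit 2) (nat_lit 5) (nat_lit 2) (nat_lit 4) (nat_lit 399) (nat_lit 347) (nat_lit 274))) (XT.nd (nat_lit 78) (nat_lit 0) (nat_lit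 0) (XT.lf (nat_lit 0) (nat_lit 1061195625616) (nat_lit 76) (nat_lit 1027005136864) (nat_lit 76) (nat_lit 1002560313940) (nat_lit 1) (nat_lit 4) (nat_lit 2) (nat_lit 5) (nat_lit 2) (nat_lit 4) (nat_lit 400) (nat_lit 347) (nat_lit 273)) (XT.lf (nat_lit 0) (nat_lit 1447699790558) (nat_lit 76) (nat_lit 1061116603022) (nat_lit 76) (nat_lit 1036671677308) (nat_lit 1) (nat_lit 4) (nat_lit 2) (nat_lit 5) (nat_lit 2) (nat_lit 4) (nat_lit 401) (nat_lit 347) (nat_lit 272))))) (XT.nd (nat_lit 312) (nat_lit 0) (nat_lit 0) (XT.nd (nat_lit 156) (nat_lit 0) (nat_lit 0) (XT.nd (nat_lit 78) (nat_lit 0) (nat_lit 0) (XT.lf (nat_lit 0) (nat_lit 1892177793282) (nat_lit 76) (nat_lit 1100345703101) (nat_lit 76) (nat_lit 1075900688003) (nat_lit 1) (nat_lit 4) (nat_lit 2) (nat_lit 5) (nat_lit 2) (nat_lit 4) (nat_lit 402) (nat_lit 347) (nat_lit 271)) (XT.lf (nat_lit 0) (nat_lit 2403325942538) (nat_lit 76) (nat_lit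 1145459962971) (nat_lit 76) (nat_lit 1121014870149) (nat_lit 1) (nat_lit 4) (nat_lit 2) (nat_lit 5) (nat_lit 2) (nat_lit 4) (nat_lit 403) (nat_lit 347) (nat_lit 270))) (XT.nd (nat_lit 78) (nat_lit 0) (nat_lit 0) (XT.lf (nat_lit 0) (nat_lit 2991144962985) (nat_lit 76) (nat_lit 1197342052935) (nat_lit 76) (nat_lit 1172896892526) (nat_lit 1) (nat_lit 4) (nat_lit 2) (nat_lit 5) (nat_lit 2) (nat_lit 4) (nat_lit 404) (nat_lit 347) (nat_lit 269)) (XT.lf (nat_lit 0) (nat_lit 3667135661544) (nat_lit 76) (nat_lit 1257007057360) (nat_lit 76) (nat_lit 1232561838180) (nat_lit 1) (nat_lit 4) (nat_lit 2) (nat_lit 5) (nat_lit 2) (nat_lit 4) (nat_lit 405) (nat_lit 347) (nat_lit 268)))) (XT.nd (nat_lit 156) (nat_lit 0) (nat_lit 0) (XT.nd (nat_lit 78) (nat_lit 0) (nat_lit 0) (XT.lf (nat_lit 0) (nat_lit 4444523943188) (nat_lit 76) (nat_lit 1325622335030) (nat_lit 76) (nat_lit 1301177064745) (nat_lit 1) (nat_lit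 4) (nat_lit 2) (nat_lit 5) (nat_lit 2) (nat_lit 4) (nat_lit 406) (nat_lit 347) (nat_lit 267)) (XT.lf (nat_lit 0) (nat_lit 5338519578643) (nat_lit 76) (nat_lit 1404530358769) (nat_lit 76) (nat_lit 1380085044044) (nat_lit 1) (nat_lit 4) (nat_lit 2) (nat_lit 5) (nat_lit 2) (nat_lit 4) (nat_lit 407) (nat_lit 347) (nat_lit 266))) (XT.nd (nat_lit 78) (nat_lit 0) (nat_lit 0) (XT.lf (nat_lit 0) (nat_lit 6366613786866) (nat_lit 76) (nat_lit 1495274981213) (nat_lit 76) (nat_lit 1470829627846) (nat_lit 1) (nat_lit 4) (nat_lit 2) (nat_lit 5) (nat_lit 2) (nat_lit 4) (nat_lit 408) (nat_lit 347) (nat_lit 265)) (XT.nd (nat_lit 78) (nat_lit 0) (nat_lit 0) (XT.lf (nat_lit 0) (nat_lit 7548921454538) (nat_lit 76) (nat_lit 1599631640630) (nat_lit 76) (nat_lit 1575186253660) (nat_lit 1) (nat_lit 4) (nat_lit 2) (nat_lit 5) (nat_lit 2) (nat_lit 4) (nat_lit 409) (nat_lit 347) (nat_lit 264)) (XT.lf (nat_lit 0) (nat_lit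 8908574688201) (nat_lit 76) (nat_lit 1719642097746) (nat_lit 76) (nat_lit 1695196681557) (nat_lit 1) (nat_lit 4) (nat_lit 2) (nat_lit 5) (nat_lit 2) (nat_lit 4) (nat_lit 410) (nat_lit 347) (nat_lit 263))))))) (XT.nd (nat_lit 48282) (nat_lit 0) (nat_lit 3496) (XT.nd (nat_lit 312) (nat_lit 0) (nat_lit 0) (XT.nd (nat_lit 156) (nat_lit 0) (nat_lit 0) (XT.nd (nat_lit 78) (nat_lit 0) (nat_lit 0) (XT.lf (nat_lit 0) (nat_lit 10472175398948) (nat_lit 76) (nat_lit 1857654383245) (nat_lit 76) (nat_lit 1833208941647) (nat_lit 1) (nat_lit 4) (nat_lit 2) (nat_lit 5) (nat_lit 2) (nat_lit 4) (nat_lit 411) (nat_lit 347) (nat_lit 262)) (XT.lf (nat_lit 0) (nat_lit 12270315774598) (nat_lit 76) (nat_lit 2016368737494) (nat_lit 76) (nat_lit 1991923273802) (nat_lit 1) (nat_lit 4) (nat_lit 2) (nat_lit 5) (nat_lit 2) (nat_lit 4) (nat_lit 412) (nat_lit 347) (nat_lit 261))) (XT.nd (nat_lit 78) (nat_lit 0) (nat_lit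 0) (XT.lf (nat_lit 0) (nat_lit 14338176822501) (nat_lit 76) (nat_lit 2198890441338) (nat_lit 76) (nat_lit 2174444958434) (nat_lit 1) (nat_lit 4) (nat_lit 2) (nat_lit 5) (nat_lit 2) (nat_lit 4) (nat_lit 413) (nat_lit 347) (nat_lit 260)) (XT.lf (nat_lit 0) (nat_lit 16716216693594) (nat_lit 76) (nat_lit 2408790571592) (nat_lit 76) (nat_lit 2384345071981) (nat_lit 1) (nat_lit 4) (nat_lit 2) (nat_lit 5) (nat_lit 2) (nat_lit 4) (nat_lit 414) (nat_lit 347) (nat_lit 259)))) (XT.nd (nat_lit 156) (nat_lit 0) (nat_lit 0) (XT.nd (nat_lit 78) (nat_lit 0) (nat_lit 0) (XT.lf (nat_lit 0) (nat_lit 19450962254920) (nat_lit 76) (nat_lit 2650175869933) (nat_lit 76) (nat_lit 2625730355795) (nat_lit 1) (nat_lit 4) (nat_lit 2) (nat_lit 5) (nat_lit 2) (nat_lit 4) (nat_lit 415) (nat_lit 347) (nat_lit 258)) (XT.lf (nat_lit 0) (nat_lit 22595919397896) (nat_lit 76) (nat_lit 2927769092199) (nat_lit 76) (nat_lit 2903323565429)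 (nat_lit 1) (nat_lit 4) (nat_lit 2) (nat_lit 5) (nat_lit 2) (nat_lit 4) (nat_lit 416) (nat_lit 347) (nat_lit 257))) (XT.nd (nat_lit 47736) (nat_lit 0) (nat_lit 5168) (XT.lf (nat_lit 0) (nat_lit 26212619892712) (nat_lit 76) (nat_lit 3247001410131) (nat_lit 76) (nat_lit 3222555872376) (nat_lit 1) (nat_lit 4) (nat_lit 2) (nat_lit 5) (nat_lit 2) (nat_lit 4) (nat_lit 417) (nat_lit 347) (nat_lit 256)) (XT.lf (nat_lit 0) (nat_lit 3958500844) (nat_lit 532) (nat_lit 1199395573) (nat_lit 532) (nat_lit 1199395573) (nat_lit 69) (nat_lit 3) (nat_lit 76) (nat_lit 3) (nat_lit 76) (nat_lit 5) (nat_lit 348) (nat_lit 348) (nat_lit 324))))) (XT.nd (nat_lit 312) (nat_lit 1368) (nat_lit 0) (XT.nd (nat_lit 156) (nat_lit 380) (nat_lit 0) (XT.nd (nat_lit 78) (nat_lit 0) (nat_lit 0) (XT.lf (nat_lit 0) (nat_lit 9468040274) (nat_lit 456) (nat_lit 3840236497) (nat_lit 532) (nat_lit 282838639) (nat_lit 70) (nat_lit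 5) (nat_lit 76) (nat_lit 5) (nat_lit 77) (nat_lit 5) (nat_lit 349) (nat_lit 348) (nat_lit 323)) (XT.lf (nat_lit 76) (nat_lit 9372204212) (nat_lit 0) (nat_lit 2334132973) (nat_lit 532) (nat_lit 2856506859) (nat_lit 71) (nat_lit 5) (nat_lit 70) (nat_lit 5) (nat_lit 77) (nat_lit 5) (nat_lit 350) (nat_lit 348) (nat_lit 322))) (XT.nd (nat_lit 78) (nat_lit 456) (nat_lit 0) (XT.lf (nat_lit 76) (nat_lit 9253198656) (nat_lit 0) (nat_lit 5499721301) (nat_lit 532) (nat_lit 889683229) (nat_lit 72) (nat_lit 5) (nat_lit 71) (nat_lit 5) (nat_lit 78) (nat_lit 5) (nat_lit 351) (nat_lit 348) (nat_lit 321)) (XT.lf (nat_lit 0) (nat_lit 1843092377) (nat_lit 532) (nat_lit 7445722747) (nat_lit 76) (nat_lit 7549765460) (nat_lit 65) (nat_lit 5) (nat_lit 72) (nat_lit 5) (nat_lit 66) (nat_lit 5) (nat_lit 352) (nat_lit 348) (nat_lit 320)))) (XT.nd (nat_lit 156) (nat_lit 684) (nat_lit 0) (XT.nd (nat_lit 78) (nat_lit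 228) (nat_lit 0) (XT.lf (nat_lit 0) (nat_lit 5535909181) (nat_lit 532) (nat_lit 8320173114) (nat_lit 76) (nat_lit 4307851452) (nat_lit 59) (nat_lit 5) (nat_lit 66) (nat_lit 5) (nat_lit 60) (nat_lit 5) (nat_lit 353) (nat_lit 348) (nat_lit 319)) (XT.lf (nat_lit 0) (nat_lit 10444962443) (nat_lit 304) (nat_lit 8947360139) (nat_lit 76) (nat_lit 242827556) (nat_lit 56) (nat_lit 5) (nat_lit 60) (nat_lit 5) (nat_lit 57) (nat_lit 5) (nat_lit 354) (nat_lit 348) (nat_lit 318))) (XT.nd (nat_lit 78) (nat_lit 456) (nat_lit 0) (XT.lf (nat_lit 0) (nat_lit 11863802045) (nat_lit 228) (nat_lit 5071771148) (nat_lit 304) (nat_lit 4323899285) (nat_lit 53) (nat_lit 5) (nat_lit 56) (nat_lit 5) (nat_lit 57) (nat_lit 5) (nat_lit 355) (nat_lit 348) (nat_lit 317)) (XT.nd (nat_lit 78) (nat_lit 228) (nat_lit 0) (XT.lf (nat_lit 0) (nat_lit 2032052104) (nat_lit 228) (nat_lit 9567137868) (nat_lit 76) (nat_lit 11459967635)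 (nat_lit 50) (nat_lit 5) (nat_lit 53) (nat_lit 5) (nat_lit 51) (nat_lit 5) (nat_lit 356) (nat_lit 348) (nat_lit 316)) (XT.lf (nat_lit 0) (nat_lit 9973579768) (nat_lit 304) (nat_lit 9484875473) (nat_lit 76) (nat_lit 5590326629) (nat_lit 47) (nat_lit 5) (nat_lit 51) (nat_lit 5) (nat_lit 48) (nat_lit 5) (nat_lit 357) (nat_lit 348) (nat_lit 315))))))))
noncomputable def xc64 : XT := (XT.nd (nat_lit 1248) (nat_lit 1064) (nat_lit 0) (XT.nd (nat_lit 624) (nat_lit 836) (nat_lit 0) (XT.nd (nat_lit 312) (nat_lit 684) (nat_lit 0) (XT.nd (nat_lit 156) (nat_lit 304) (nat_lit 0) (XT.nd (nat_lit 78) (nat_lit 228) (nat_lit 0) (XT.lf (nat_lit 0) (nat_lit 18238999247) (nat_lit 152) (nat_lit 1858690659) (nat_lit 228) (nat_lit 7159875616) (nat_lit 45) (nat_lit 5) (nat_lit 47) (nat_lit 5) (nat_lit 48) (nat_lit 5) (nat_lit 358) (nat_lit 348) (nat_lit 314)) (XT.lf (nat_lit 0) (nat_lit 3069372805) (nat_lit 228)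 (nat_lit 8306603944) (nat_lit 76) (nat_lit 18320066882) (nat_lit 42) (nat_lit 5) (nat_lit 45) (nat_lit 5) (nat_lit 43) (nat_lit 5) (nat_lit 359) (nat_lit 348) (nat_lit 313))) (XT.nd (nat_lit 78) (nat_lit 152) (nat_lit 0) (XT.lf (nat_lit 0) (nat_lit 15548762430) (nat_lit 228) (nat_lit 7285444652) (nat_lit 76) (nat_lit 9560049650) (nat_lit 40) (nat_lit 5) (nat_lit 43) (nat_lit 5) (nat_lit 41) (nat_lit 5) (nat_lit 360) (nat_lit 348) (nat_lit 312)) (XT.lf (nat_lit 0) (nat_lit 29659309001) (nat_lit 152) (nat_lit 1475376356) (nat_lit 228) (nat_lit 4263761072) (nat_lit 38) (nat_lit 5) (nat_lit 40) (nat_lit 5) (nat_lit 41) (nat_lit 5) (nat_lit 361) (nat_lit 348) (nat_lit 311)))) (XT.nd (nat_lit 156) (nat_lit 380) (nat_lit 0) (XT.nd (nat_lit 78) (nat_lit 152) (nat_lit 0) (XT.lf (nat_lit 0) (nat_lit 11309132342) (nat_lit 152) (nat_lit 4141470784) (nat_lit 76) (nat_lit 23253885764) (nat_lit 36) (nat_lit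 5) (nat_lit 38) (nat_lit 5) (nat_lit 37) (nat_lit 5) (nat_lit 362) (nat_lit 348) (nat_lit 310)) (XT.lf (nat_lit 0) (nat_lit 30376633697) (nat_lit 228) (nat_lit 2083279697) (nat_lit 76) (nat_lit 9924783907) (nat_lit 34) (nat_lit 5) (nat_lit 37) (nat_lit 5) (nat_lit 35) (nat_lit 4) (nat_lit 363) (nat_lit 348) (nat_lit 309))) (XT.nd (nat_lit 78) (nat_lit 76) (nat_lit 0) (XT.lf (nat_lit 0) (nat_lit 263260129) (nat_lit 152) (nat_lit 6835469329) (nat_lit 228) (nat_lit 39371600608) (nat_lit 30) (nat_lit 5) (nat_lit 32) (nat_lit 5) (nat_lit 33) (nat_lit 5) (nat_lit 364) (nat_lit 348) (nat_lit 308)) (XT.lf (nat_lit 0) (nat_lit 2635960162) (nat_lit 76) (nat_lit 27715775559) (nat_lit 152) (nat_lit 20632830923) (nat_lit 29) (nat_lit 5) (nat_lit 30) (nat_lit 5) (nat_lit 31) (nat_lit 4) (nat_lit 365) (nat_lit 348) (nat_lit 307))))) (XT.nd (nat_lit 312) (nat_lit 380) (nat_lit 0) (XT.nd (nat_lit 156) (nat_lit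 228) (nat_lit 0) (XT.nd (nat_lit 78) (nat_lit 76) (nat_lit 0) (XT.lf (nat_lit 0) (nat_lit 2614052595) (nat_lit 152) (nat_lit 50601056953) (nat_lit 76) (nat_lit 2819618444) (nat_lit 27) (nat_lit 5) (nat_lit 29) (nat_lit 5) (nat_lit 28) (nat_lit 4) (nat_lit 366) (nat_lit 348) (nat_lit 306)) (XT.lf (nat_lit 0) (nat_lit 7427919844) (nat_lit 76) (nat_lit 23094627231) (nat_lit 152) (nat_lit 31085296287) (nat_lit 26) (nat_lit 5) (nat_lit 27) (nat_lit 5) (nat_lit 28) (nat_lit 4) (nat_lit 367) (nat_lit 348) (nat_lit 305))) (XT.nd (nat_lit 78) (nat_lit 152) (nat_lit 0) (XT.lf (nat_lit 0) (nat_lit 9434054094) (nat_lit 76) (nat_lit 55173393472) (nat_lit 76) (nat_lit 3250272290) (nat_lit 25) (nat_lit 4) (nat_lit 26) (nat_lit 5) (nat_lit 26) (nat_lit 4) (nat_lit 368) (nat_lit 348) (nat_lit 304)) (XT.lf (nat_lit 0) (nat_lit 10037355206) (nat_lit 76) (nat_lit 19758300248) (nat_lit 152) (nat_lit 44996144210)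 (nat_lit 23) (nat_lit 5) (nat_lit 24) (nat_lit 5) (nat_lit 25) (nat_lit 4) (nat_lit 369) (nat_lit 348) (nat_lit 303)))) (XT.nd (nat_lit 156) (nat_lit 152) (nat_lit 0) (XT.nd (nat_lit 78) (nat_lit 152) (nat_lit 0) (XT.lf (nat_lit 0) (nat_lit 9467800539) (nat_lit 76) (nat_lit 60598336457) (nat_lit 76) (nat_lit 12496294330) (nat_lit 22) (nat_lit 4) (nat_lit 23) (nat_lit 5) (nat_lit 23) (nat_lit 4) (nat_lit 370) (nat_lit 348) (nat_lit 302)) (XT.lf (nat_lit 0) (nat_lit 6487149663) (nat_lit 76) (nat_lit 19762530426) (nat_lit 152) (nat_lit 64991859997) (nat_lit 20) (nat_lit 5) (nat_lit 21) (nat_lit 5) (nat_lit 22) (nat_lit 4) (nat_lit 371) (nat_lit 348) (nat_lit 301))) (XT.nd (nat_lit 78) (nat_lit 76) (nat_lit 0) (XT.lf (nat_lit 0) (nat_lit 302258342) (nat_lit 76) (nat_lit 72611542448) (nat_lit 76) (nat_lit 28055056569) (nat_lit 19) (nat_lit 4) (nat_lit 20) (nat_lit 5) (nat_lit 20) (nat_lit 4)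 (nat_lit 372) (nat_lit 348) (nat_lit 300)) (XT.lf (nat_lit 0) (nat_lit 16760655023) (nat_lit 152) (nat_lit 9701424738) (nat_lit 76) (nat_lit 85420657885) (nat_lit 18) (nat_lit 5) (nat_lit 20) (nat_lit 5) (nat_lit 19) (nat_lit 4) (nat_lit 373) (nat_lit 348) (nat_lit 299)))))) (XT.nd (nat_lit 624) (nat_lit 380) (nat_lit 0) (XT.nd (nat_lit 312) (nat_lit 304) (nat_lit 0) (XT.nd (nat_lit 156) (nat_lit 228) (nat_lit 0) (XT.nd (nat_lit 78) (nat_lit 76) (nat_lit 0) (XT.lf (nat_lit 0) (nat_lit 69772762216) (nat_lit 152) (nat_lit 25847362283) (nat_lit 0) (nat_lit 28504463848) (nat_lit 17) (nat_lit 5) (nat_lit 19) (nat_lit 4) (nat_lit 17) (nat_lit 4) (nat_lit 374) (nat_lit 348) (nat_lit 298)) (XT.lf (nat_lit 0) (nat_lit 88519532753) (nat_lit 76) (nat_lit 45352801756) (nat_lit 76) (nat_lit 4079531528) (nat_lit 16) (nat_lit 4) (nat_lit 17) (nat_lit 5) (nat_lit 17) (nat_lit 4) (nat_lit 375) (nat_lit 348)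 (nat_lit 297))) (XT.nd (nat_lit 78) (nat_lit 76) (nat_lit 0) (XT.lf (nat_lit 0) (nat_lit 53883161115) (nat_lit 152) (nat_lit 83976522573) (nat_lit 0) (nat_lit 15663167055) (nat_lit 14) (nat_lit 5) (nat_lit 16) (nat_lit 4) (nat_lit 14) (nat_lit 4) (nat_lit 376) (nat_lit 348) (nat_lit 296)) (XT.lf (nat_lit 0) (nat_lit 38548686239) (nat_lit 76) (nat_lit 85401825631) (nat_lit 76) (nat_lit 47178350607) (nat_lit 13) (nat_lit 4) (nat_lit 14) (nat_lit 5) (nat_lit 14) (nat_lit 4) (nat_lit 377) (nat_lit 348) (nat_lit 295)))) (XT.nd (nat_lit 156) (nat_lit 152) (nat_lit 0) (XT.nd (nat_lit 78) (nat_lit 76) (nat_lit 0) (XT.lf (nat_lit 0) (nat_lit 14990418952) (nat_lit 152) (nat_lit 7046430527) (nat_lit 76) (nat_lit 169113929953) (nat_lit 12) (nat_lit 5) (nat_lit 14) (nat_lit 5) (nat_lit 13) (nat_lit 4) (nat_lit 378) (nat_lit 348) (nat_lit 294)) (XT.lf (nat_lit 0) (nat_lit 88548213864) (nat_lit 152) (nat_lit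 71990294673) (nat_lit 0) (nat_lit 53150867515) (nat_lit 11) (nat_lit 5) (nat_lit 13) (nat_lit 4) (nat_lit 11) (nat_lit 4) (nat_lit 379) (nat_lit 348) (nat_lit 293))) (XT.nd (nat_lit 78) (nat_lit 76) (nat_lit 0) (XT.lf (nat_lit 0) (nat_lit 76797676477) (nat_lit 76) (nat_lit 98998996137) (nat_lit 76) (nat_lit 63599530538) (nat_lit 10) (nat_lit 4) (nat_lit 11) (nat_lit 5) (nat_lit 11) (nat_lit 4) (nat_lit 380) (nat_lit 348) (nat_lit 292)) (XT.lf (nat_lit 0) (nat_lit 8955532422) (nat_lit 152) (nat_lit 16773800986) (nat_lit 76) (nat_lit 243044637715) (nat_lit 9) (nat_lit 5) (nat_lit 11) (nat_lit 5) (nat_lit 10) (nat_lit 4) (nat_lit 381) (nat_lit 348) (nat_lit 291))))) (XT.nd (nat_lit 312) (nat_lit 152) (nat_lit 0) (XT.nd (nat_lit 156) (nat_lit 76) (nat_lit 0) (XT.nd (nat_lit 78) (nat_lit 76) (nat_lit 0) (XT.lf (nat_lit 0) (nat_lit 94054170679) (nat_lit 152) (nat_lit 146664292067) (nat_lit 0)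 (nat_lit 61273697640) (nat_lit 8) (nat_lit 5) (nat_lit 10) (nat_lit 4) (nat_lit 8) (nat_lit 4) (nat_lit 382) (nat_lit 348) (nat_lit 290)) (XT.lf (nat_lit 0) (nat_lit 14070739003) (nat_lit 76) (nat_lit 179390313410) (nat_lit 76) (nat_lit 146608550147) (nat_lit 7) (nat_lit 4) (nat_lit 8) (nat_lit 5) (nat_lit 8) (nat_lit 4) (nat_lit 383) (nat_lit 348) (nat_lit 289))) (XT.nd (nat_lit 78) (nat_lit 76) (nat_lit 0) (XT.lf (nat_lit 0) (nat_lit 207783480785) (nat_lit 76) (nat_lit 104258511833) (nat_lit 76) (nat_lit 71475626636) (nat_lit 7) (nat_lit 4) (nat_lit 8) (nat_lit 5) (nat_lit 8) (nat_lit 4) (nat_lit 384) (nat_lit 348) (nat_lit 288)) (XT.lf (nat_lit 0) (nat_lit 14174316747) (nat_lit 152) (nat_lit 3301281956) (nat_lit 76) (nat_lit 415979015788) (nat_lit 6) (nat_lit 5) (nat_lit 8) (nat_lit 5) (nat_lit 7) (nat_lit 4) (nat_lit 385) (nat_lit 348) (nat_lit 287)))) (XT.nd (nat_lit 156) (nat_lit 76)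 (nat_lit 0) (XT.nd (nat_lit 78) (nat_lit 0) (nat_lit 0) (XT.lf (nat_lit 0) (nat_lit 115598875819) (nat_lit 152) (nat_lit 289319356647) (nat_lit 0) (nat_lit 85242663659) (nat_lit 5) (nat_lit 5) (nat_lit 7) (nat_lit 4) (nat_lit 5) (nat_lit 4) (nat_lit 386) (nat_lit 348) (nat_lit 286)) (XT.lf (nat_lit 0) (nat_lit 232814010821) (nat_lit 152) (nat_lit 120055842384) (nat_lit 0) (nat_lit 202457115614) (nat_lit 5) (nat_lit 5) (nat_lit 7) (nat_lit 4) (nat_lit 5) (nat_lit 4) (nat_lit 387) (nat_lit 348) (nat_lit 285))) (XT.nd (nat_lit 78) (nat_lit 0) (nat_lit 0) (XT.lf (nat_lit 0) (nat_lit 78515942841) (nat_lit 76) (nat_lit 290979392667) (nat_lit 76) (nat_lit 260621903508) (nat_lit 4) (nat_lit 4) (nat_lit 5) (nat_lit 5) (nat_lit 5) (nat_lit 4) (nat_lit 388) (nat_lit 348) (nat_lit 284)) (XT.nd (nat_lit 78) (nat_lit 0) (nat_lit 0) (XT.lf (nat_lit 0) (nat_lit 314135528176) (nat_lit 76) (nat_lit 216034612405)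 (nat_lit 76) (nat_lit 185676606764) (nat_lit 4) (nat_lit 4) (nat_lit 5) (nat_lit 5) (nat_lit 5) (nat_lit 4) (nat_lit 389) (nat_lit 348) (nat_lit 283)) (XT.lf (nat_lit 0) (nat_lit 585090934124) (nat_lit 76) (nat_lit 129851740987) (nat_lit 76) (nat_lit 99493286233) (nat_lit 4) (nat_lit 4) (nat_lit 5) (nat_lit 5) (nat_lit 5) (nat_lit 4) (nat_lit 390) (nat_lit 348) (nat_lit 282))))))))
noncomputable def xc65 : XT := (XT.nd (nat_lit 1248) (nat_lit 0) (nat_lit 0) (XT.nd (nat_lit 624) (nat_lit 0) (nat_lit 0) (XT.nd (nat_lit 312) (nat_lit 76) (nat_lit 0) (XT.nd (nat_lit 156) (nat_lit 0) (nat_lit 0) (XT.nd (nat_lit 78) (nat_lit 152) (nat_lit 0) (XT.lf (nat_lit 0) (nat_lit 896683462107) (nat_lit 76) (nat_lit 30744591800) (nat_lit 76) (nat_lit 385746512) (nat_lit 4) (nat_lit 4) (nat_lit 5) (nat_lit 5) (nat_lit 5) (nat_lit 4) (nat_lit 391) (nat_lit 348) (nat_lit 281)) (XT.lf (nat_lit 0) (nat_lit 115016645209)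 (nat_lit 152) (nat_lit 855487970083) (nat_lit 0) (nat_lit 86906288837) (nat_lit 2) (nat_lit 5) (nat_lit 4) (nat_lit 4) (nat_lit 2) (nat_lit 4) (nat_lit 392) (nat_lit 348) (nat_lit 280))) (XT.nd (nat_lit 78) (nat_lit 0) (nat_lit 0) (XT.lf (nat_lit 0) (nat_lit 249484852298) (nat_lit 152) (nat_lit 735445433350) (nat_lit 0) (nat_lit 221374222500) (nat_lit 2) (nat_lit 5) (nat_lit 4) (nat_lit 4) (nat_lit 2) (nat_lit 4) (nat_lit 393) (nat_lit 348) (nat_lit 279)) (XT.lf (nat_lit 0) (nat_lit 404121082670) (nat_lit 152) (nat_lit 597401031673) (nat_lit 0) (nat_lit 376010215111) (nat_lit 2) (nat_lit 5) (nat_lit 4) (nat_lit 4) (nat_lit 2) (nat_lit 4) (nat_lit 394) (nat_lit 348) (nat_lit 278)))) (XT.nd (nat_lit 156) (nat_lit 76) (nat_lit 0) (XT.nd (nat_lit 78) (nat_lit 0) (nat_lit 0) (XT.lf (nat_lit 0) (nat_lit 581950827791) (nat_lit 152) (nat_lit 438653896321) (nat_lit 0) (nat_lit 553839753483) (nat_lit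 2) (nat_lit 5) (nat_lit 4) (nat_lit 4) (nat_lit 2) (nat_lit 4) (nat_lit 395) (nat_lit 348) (nat_lit 277)) (XT.lf (nat_lit 0) (nat_lit 786453365282) (nat_lit 152) (nat_lit 256098105082) (nat_lit 0) (nat_lit 758342111192) (nat_lit 2) (nat_lit 5) (nat_lit 4) (nat_lit 4) (nat_lit 2) (nat_lit 4) (nat_lit 396) (nat_lit 348) (nat_lit 276))) (XT.nd (nat_lit 78) (nat_lit 76) (nat_lit 0) (XT.lf (nat_lit 0) (nat_lit 1021629831746) (nat_lit 152) (nat_lit 46161914214) (nat_lit 0) (nat_lit 993518421324) (nat_lit 2) (nat_lit 5) (nat_lit 4) (nat_lit 4) (nat_lit 2) (nat_lit 4) (nat_lit 397) (nat_lit 348) (nat_lit 275)) (XT.lf (nat_lit 0) (nat_lit 205544280884) (nat_lit 76) (nat_lit 1091480569888) (nat_lit 76) (nat_lit 1063369023526) (nat_lit 1) (nat_lit 4) (nat_lit 2) (nat_lit 5) (nat_lit 2) (nat_lit 4) (nat_lit 398) (nat_lit 348) (nat_lit 274))))) (XT.nd (nat_lit 312) (nat_lit 0) (nat_lit 0) (XT.nd (nat_lit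 156) (nat_lit 0) (nat_lit 0) (XT.nd (nat_lit 78) (nat_lit 0) (nat_lit 0) (XT.lf (nat_lit 0) (nat_lit 497799467281) (nat_lit 76) (nat_lit 1117272455345) (nat_lit 76) (nat_lit 1089160790773) (nat_lit 1) (nat_lit 4) (nat_lit 2) (nat_lit 5) (nat_lit 2) (nat_lit 4) (nat_lit 399) (nat_lit 348) (nat_lit 273)) (XT.lf (nat_lit 0) (nat_lit 833890876635) (nat_lit 76) (nat_lit 1146934174716) (nat_lit 76) (nat_lit 1118822407353) (nat_lit 1) (nat_lit 4) (nat_lit 2) (nat_lit 5) (nat_lit 2) (nat_lit 4) (nat_lit 400) (nat_lit 348) (nat_lit 272))) (XT.nd (nat_lit 78) (nat_lit 0) (nat_lit 0) (XT.lf (nat_lit 0) (nat_lit 1220394210434) (nat_lit 76) (nat_lit 1181046065989) (nat_lit 76) (nat_lit 1152934209243) (nat_lit 1) (nat_lit 4) (nat_lit 2) (nat_lit 5) (nat_lit 2) (nat_lit 4) (nat_lit 401) (nat_lit 348) (nat_lit 271)) (XT.lf (nat_lit 0) (nat_lit 1664871490424) (nat_lit 76) (nat_lit 1220275535733) (nat_lit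 76) (nat_lit 1192163601262) (nat_lit 1) (nat_lit 4) (nat_lit 2) (nat_lit 5) (nat_lit 2) (nat_lit 4) (nat_lit 402) (nat_lit 348) (nat_lit 270)))) (XT.nd (nat_lit 156) (nat_lit 0) (nat_lit 0) (XT.nd (nat_lit 78) (nat_lit 0) (nat_lit 0) (XT.lf (nat_lit 0) (nat_lit 2176019011216) (nat_lit 76) (nat_lit 1265390117051) (nat_lit 76) (nat_lit 1237278114994) (nat_lit 1) (nat_lit 4) (nat_lit 2) (nat_lit 5) (nat_lit 2) (nat_lit 4) (nat_lit 403) (nat_lit 348) (nat_lit 269)) (XT.lf (nat_lit 0) (nat_lit 2763837485172) (nat_lit 76) (nat_lit 1317272486534) (nat_lit 76) (nat_lit 1289160425706) (nat_lit 1) (nat_lit 4) (nat_lit 2) (nat_lit 5) (nat_lit 2) (nat_lit 4) (nat_lit 404) (nat_lit 348) (nat_lit 268))) (XT.nd (nat_lit 78) (nat_lit 0) (nat_lit 0) (XT.lf (nat_lit 0) (nat_lit 3439827708522) (nat_lit 76) (nat_lit 1376937734020) (nat_lit 76) (nat_lit 1348825622087) (nat_lit 1) (nat_lit 4) (nat_lit 2) (nat_lit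 5) (nat_lit 2) (nat_lit 4) (nat_lit 405) (nat_lit 348) (nat_lit 267)) (XT.lf (nat_lit 0) (nat_lit 4217215576941) (nat_lit 76) (nat_lit 1445553223047) (nat_lit 76) (nat_lit 1417441066675) (nat_lit 1) (nat_lit 4) (nat_lit 2) (nat_lit 5) (nat_lit 2) (nat_lit 4) (nat_lit 406) (nat_lit 348) (nat_lit 266)))))) (XT.nd (nat_lit 624) (nat_lit 0) (nat_lit 0) (XT.nd (nat_lit 312) (nat_lit 0) (nat_lit 0) (XT.nd (nat_lit 156) (nat_lit 0) (nat_lit 0) (XT.nd (nat_lit 78) (nat_lit 0) (nat_lit 0) (XT.lf (nat_lit 0) (nat_lit 5111210853070) (nat_lit 76) (nat_lit 1524461430574) (nat_lit 76) (nat_lit 1496349235559) (nat_lit 1) (nat_lit 4) (nat_lit 2) (nat_lit 5) (nat_lit 2) (nat_lit 4) (nat_lit 407) (nat_lit 348) (nat_lit 265)) (XT.lf (nat_lit 0) (nat_lit 6139304748835) (nat_lit 76) (nat_lit 1615206212835) (nat_lit 76) (nat_lit 1587093984218) (nat_lit 1) (nat_lit 4) (nat_lit 2) (nat_lit 5) (nat_lit 2) (nat_lit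 4) (nat_lit 408) (nat_lit 348) (nat_lit 264))) (XT.nd (nat_lit 78) (nat_lit 0) (nat_lit 0) (XT.lf (nat_lit 0) (nat_lit 7321612144805) (nat_lit 76) (nat_lit 1719563011223) (nat_lit 76) (nat_lit 1691450753385) (nat_lit 1) (nat_lit 4) (nat_lit 2) (nat_lit 5) (nat_lit 2) (nat_lit 4) (nat_lit 409) (nat_lit 348) (nat_lit 263)) (XT.lf (nat_lit 0) (nat_lit 8681265142205) (nat_lit 76) (nat_lit 1839573589183) (nat_lit 76) (nat_lit 1811461305938) (nat_lit 1) (nat_lit 4) (nat_lit 2) (nat_lit 5) (nat_lit 2) (nat_lit 4) (nat_lit 410) (nat_lit 348) (nat_lit 262)))) (XT.nd (nat_lit 156) (nat_lit 0) (nat_lit 0) (XT.nd (nat_lit 78) (nat_lit 0) (nat_lit 0) (XT.lf (nat_lit 0) (nat_lit 10244865647505) (nat_lit 76) (nat_lit 1977585979764) (nat_lit 76) (nat_lit 1949473674424) (nat_lit 1) (nat_lit 4) (nat_lit 2) (nat_lit 5) (nat_lit 2) (nat_lit 4) (nat_lit 411) (nat_lit 348) (nat_lit 261)) (XT.lf (nat_lit 0) (nat_lit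 12043005844507) (nat_lit 76) (nat_lit 2136300425389) (nat_lit 76) (nat_lit 2108188100836) (nat_lit 1) (nat_lit 4) (nat_lit 2) (nat_lit 5) (nat_lit 2) (nat_lit 4) (nat_lit 412) (nat_lit 348) (nat_lit 260))) (XT.nd (nat_lit 78) (nat_lit 0) (nat_lit 0) (XT.lf (nat_lit 0) (nat_lit 14110866737063) (nat_lit 76) (nat_lit 2318822208690) (nat_lit 76) (nat_lit 2290709867431) (nat_lit 1) (nat_lit 4) (nat_lit 2) (nat_lit 5) (nat_lit 2) (nat_lit 4) (nat_lit 413) (nat_lit 348) (nat_lit 259)) (XT.lf (nat_lit 0) (nat_lit 16488906473072) (nat_lit 76) (nat_lit 2528722408036) (nat_lit 76) (nat_lit 2500610052250) (nat_lit 1) (nat_lit 4) (nat_lit 2) (nat_lit 5) (nat_lit 2) (nat_lit 4) (nat_lit 414) (nat_lit 348) (nat_lit 258))))) (XT.nd (nat_lit 48126) (nat_lit 0) (nat_lit 4180) (XT.nd (nat_lit 47970) (nat_lit 0) (nat_lit 5168) (XT.nd (nat_lit 78) (nat_lit 0) (nat_lit 0) (XT.lf (nat_lit 0) (nat_lit 19223651916934)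 (nat_lit 76) (nat_lit 2770107766458) (nat_lit 76) (nat_lit 2741995398040) (nat_lit 1) (nat_lit 4) (nat_lit 2) (nat_lit 5) (nat_lit 2) (nat_lit 4) (nat_lit 415) (nat_lit 348) (nat_lit 257)) (XT.lf (nat_lit 0) (nat_lit 22368608957767) (nat_lit 76) (nat_lit 3047701040969) (nat_lit 76) (nat_lit 3019588661566) (nat_lit 1) (nat_lit 4) (nat_lit 2) (nat_lit 5) (nat_lit 2) (nat_lit 4) (nat_lit 416) (nat_lit 348) (nat_lit 256))) (XT.nd (nat_lit 78) (nat_lit 0) (nat_lit 0) (XT.lf (nat_lit 0) (nat_lit 5238060573) (nat_lit 532) (nat_lit 1008750541) (nat_lit 532) (nat_lit 1008750541) (nat_lit 69) (nat_lit 3) (nat_lit 76) (nat_lit 3) (nat_lit 76) (nat_lit 5) (nat_lit 349) (nat_lit 349) (nat_lit 322)) (XT.lf (nat_lit 76) (nat_lit 11900781628) (nat_lit 0) (nat_lit 188214014) (nat_lit 532) (nat_lit 3443924757) (nat_lit 70) (nat_lit 5) (nat_lit 69) (nat_lit 3) (nat_lit 76) (nat_lit 5) (nat_lit 350) (nat_lit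 349) (nat_lit 321)))) (XT.nd (nat_lit 156) (nat_lit 1064) (nat_lit 0) (XT.nd (nat_lit 78) (nat_lit 0) (nat_lit 76) (XT.lf (nat_lit 76) (nat_lit 11499938474) (nat_lit 0) (nat_lit 3019904807) (nat_lit 532) (nat_lit 2142125211) (nat_lit 71) (nat_lit 5) (nat_lit 70) (nat_lit 5) (nat_lit 77) (nat_lit 5) (nat_lit 351) (nat_lit 349) (nat_lit 320)) (XT.lf (nat_lit 76) (nat_lit 11387447439) (nat_lit 0) (nat_lit 6508952285) (nat_lit 532) (nat_lit 17543889) (nat_lit 72) (nat_lit 5) (nat_lit 71) (nat_lit 5) (nat_lit 78) (nat_lit 5) (nat_lit 352) (nat_lit 349) (nat_lit 319))) (XT.nd (nat_lit 78) (nat_lit 684) (nat_lit 0) (XT.lf (nat_lit 0) (nat_lit 2964938186) (nat_lit 532) (nat_lit 7761721240) (nat_lit 76) (nat_lit 8569589194) (nat_lit 65) (nat_lit 5) (nat_lit 72) (nat_lit 5) (nat_lit 66) (nat_lit 5) (nat_lit 353) (nat_lit 349) (nat_lit 318)) (XT.nd (nat_lit 78) (nat_lit 228) (nat_lit 0) (XT.lf (nat_lit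 0) (nat_lit 7118567517) (nat_lit 532) (nat_lit 8774010419) (nat_lit 76) (nat_lit 4935339339) (nat_lit 59) (nat_lit 5) (nat_lit 66) (nat_lit 5) (nat_lit 60) (nat_lit 5) (nat_lit 354) (nat_lit 349) (nat_lit 317)) (XT.lf (nat_lit 0) (nat_lit 12684670578) (nat_lit 304) (nat_lit 9509730321) (nat_lit 76) (nat_lit 331815287) (nat_lit 56) (nat_lit 5) (nat_lit 60) (nat_lit 5) (nat_lit 57) (nat_lit 5) (nat_lit 355) (nat_lit 349) (nat_lit 316))))))))
noncomputable def xc66 : XT := (XT.nd (nat_lit 1248) (nat_lit 1292) (nat_lit 0) (XT.nd (nat_lit 624) (nat_lit 1064) (nat_lit 0) (XT.nd (nat_lit 312) (nat_lit 684) (nat_lit 0) (XT.nd (nat_lit 156) (nat_lit 380) (nat_lit 0) (XT.nd (nat_lit 78) (nat_lit 228) (nat_lit 0) (XT.lf (nat_lit 0) (nat_lit 14357105606) (nat_lit 228) (nat_lit 5721154754) (nat_lit 304) (nat_lit 4321623702) (nat_lit 53) (nat_lit 5) (nat_lit 56) (nat_lit 5) (nat_lit 57) (nat_lit 5) (nat_lit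 356) (nat_lit 349) (nat_lit 315)) (XT.lf (nat_lit 0) (nat_lit 2894059092) (nat_lit 228) (nat_lit 10277338311) (nat_lit 76) (nat_lit 13301799304) (nat_lit 50) (nat_lit 5) (nat_lit 53) (nat_lit 5) (nat_lit 51) (nat_lit 5) (nat_lit 357) (nat_lit 349) (nat_lit 314))) (XT.nd (nat_lit 78) (nat_lit 152) (nat_lit 0) (XT.lf (nat_lit 0) (nat_lit 11974016266) (nat_lit 304) (nat_lit 10207751047) (nat_lit 76) (nat_lit 6583754997) (nat_lit 47) (nat_lit 5) (nat_lit 51) (nat_lit 5) (nat_lit 48) (nat_lit 5) (nat_lit 358) (nat_lit 349) (nat_lit 313)) (XT.lf (nat_lit 0) (nat_lit 21615465578) (nat_lit 152) (nat_lit 1950892945) (nat_lit 228) (nat_lit 7743325071) (nat_lit 45) (nat_lit 5) (nat_lit 47) (nat_lit 5) (nat_lit 48) (nat_lit 5) (nat_lit 359) (nat_lit 349) (nat_lit 312)))) (XT.nd (nat_lit 156) (nat_lit 304) (nat_lit 0) (XT.nd (nat_lit 78) (nat_lit 152) (nat_lit 0) (XT.lf (nat_lit 0) (nat_lit 3954186671)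 (nat_lit 228) (nat_lit 8914379173) (nat_lit 76) (nat_lit 21247774252) (nat_lit 42) (nat_lit 5) (nat_lit 45) (nat_lit 5) (nat_lit 43) (nat_lit 5) (nat_lit 360) (nat_lit 349) (nat_lit 311)) (XT.lf (nat_lit 0) (nat_lit 18269013352) (nat_lit 228) (nat_lit 7768119110) (nat_lit 76) (nat_lit 11185090947) (nat_lit 40) (nat_lit 5) (nat_lit 43) (nat_lit 5) (nat_lit 41) (nat_lit 5) (nat_lit 361) (nat_lit 349) (nat_lit 310))) (XT.nd (nat_lit 78) (nat_lit 152) (nat_lit 0) (XT.lf (nat_lit 0) (nat_lit 34666702090) (nat_lit 152) (nat_lit 1488954068) (nat_lit 228) (nat_lit 4524376746) (nat_lit 38) (nat_lit 5) (nat_lit 40) (nat_lit 5) (nat_lit 41) (nat_lit 5) (nat_lit 362) (nat_lit 349) (nat_lit 309)) (XT.lf (nat_lit 0) (nat_lit 13336133671) (nat_lit 152) (nat_lit 4212740162) (nat_lit 76) (nat_lit 26934742019) (nat_lit 36) (nat_lit 5) (nat_lit 38) (nat_lit 5) (nat_lit 37) (nat_lit 5) (nat_lit 363) (nat_lit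 349) (nat_lit 308))))) (XT.nd (nat_lit 312) (nat_lit 380) (nat_lit 0) (XT.nd (nat_lit 156) (nat_lit 228) (nat_lit 0) (XT.nd (nat_lit 78) (nat_lit 304) (nat_lit 0) (XT.lf (nat_lit 0) (nat_lit 35237642293) (nat_lit 228) (nat_lit 1873219809) (nat_lit 76) (nat_lit 11607095360) (nat_lit 34) (nat_lit 5) (nat_lit 37) (nat_lit 5) (nat_lit 35) (nat_lit 4) (nat_lit 364) (nat_lit 349) (nat_lit 307)) (XT.lf (nat_lit 0) (nat_lit 822044860) (nat_lit 152) (nat_lit 7637526517) (nat_lit 228) (nat_lit 44957558488) (nat_lit 30) (nat_lit 5) (nat_lit 32) (nat_lit 5) (nat_lit 33) (nat_lit 5) (nat_lit 365) (nat_lit 349) (nat_lit 306))) (XT.nd (nat_lit 78) (nat_lit 152) (nat_lit 0) (XT.lf (nat_lit 0) (nat_lit 3523518532) (nat_lit 76) (nat_lit 31654902795) (nat_lit 152) (nat_lit 23431857937) (nat_lit 29) (nat_lit 5) (nat_lit 30) (nat_lit 5) (nat_lit 31) (nat_lit 4) (nat_lit 366) (nat_lit 349) (nat_lit 305)) (XT.lf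 (nat_lit 0) (nat_lit 3266767860) (nat_lit 152) (nat_lit 57711632160) (nat_lit 76) (nat_lit 3440641594) (nat_lit 27) (nat_lit 5) (nat_lit 29) (nat_lit 5) (nat_lit 28) (nat_lit 4) (nat_lit 367) (nat_lit 349) (nat_lit 304)))) (XT.nd (nat_lit 156) (nat_lit 228) (nat_lit 0) (XT.nd (nat_lit 78) (nat_lit 76) (nat_lit 0) (XT.lf (nat_lit 0) (nat_lit 8981096816) (nat_lit 76) (nat_lit 26357005127) (nat_lit 152) (nat_lit 35491903242) (nat_lit 26) (nat_lit 5) (nat_lit 27) (nat_lit 5) (nat_lit 28) (nat_lit 4) (nat_lit 368) (nat_lit 349) (nat_lit 303)) (XT.lf (nat_lit 0) (nat_lit 11263955311) (nat_lit 76) (nat_lit 63255042992) (nat_lit 76) (nat_lit 3499709316) (nat_lit 25) (nat_lit 4) (nat_lit 26) (nat_lit 5) (nat_lit 26) (nat_lit 4) (nat_lit 369) (nat_lit 349) (nat_lit 302))) (XT.nd (nat_lit 78) (nat_lit 76) (nat_lit 0) (XT.lf (nat_lit 0) (nat_lit 11933574250) (nat_lit 76) (nat_lit 22537513321) (nat_lit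 152) (nat_lit 51522966735) (nat_lit 23) (nat_lit 5) (nat_lit 24) (nat_lit 5) (nat_lit 25) (nat_lit 4) (nat_lit 370) (nat_lit 349) (nat_lit 301)) (XT.lf (nat_lit 0) (nat_lit 11256577730) (nat_lit 76) (nat_lit 69511407255) (nat_lit 76) (nat_lit 14163431969) (nat_lit 22) (nat_lit 4) (nat_lit 23) (nat_lit 5) (nat_lit 23) (nat_lit 4) (nat_lit 371) (nat_lit 349) (nat_lit 300)))))) (XT.nd (nat_lit 624) (nat_lit 532) (nat_lit 0) (XT.nd (nat_lit 312) (nat_lit 380) (nat_lit 0) (XT.nd (nat_lit 156) (nat_lit 152) (nat_lit 0) (XT.nd (nat_lit 78) (nat_lit 76) (nat_lit 0) (XT.lf (nat_lit 0) (nat_lit 7807142066) (nat_lit 76) (nat_lit 22559582339) (nat_lit 152) (nat_lit 74546659282) (nat_lit 20) (nat_lit 5) (nat_lit 21) (nat_lit 5) (nat_lit 22) (nat_lit 4) (nat_lit 372) (nat_lit 349) (nat_lit 299)) (XT.lf (nat_lit 0) (nat_lit 674637987) (nat_lit 76) (nat_lit 83343764816) (nat_lit 76) (nat_lit 32082363193)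 (nat_lit 19) (nat_lit 4) (nat_lit 20) (nat_lit 5) (nat_lit 20) (nat_lit 4) (nat_lit 373) (nat_lit 349) (nat_lit 298))) (XT.nd (nat_lit 78) (nat_lit 76) (nat_lit 0) (XT.lf (nat_lit 0) (nat_lit 19424231465) (nat_lit 152) (nat_lit 10864369784) (nat_lit 76) (nat_lit 98364574766) (nat_lit 18) (nat_lit 5) (nat_lit 20) (nat_lit 5) (nat_lit 19) (nat_lit 4) (nat_lit 374) (nat_lit 349) (nat_lit 297)) (XT.lf (nat_lit 0) (nat_lit 80378244981) (nat_lit 152) (nat_lit 29449164950) (nat_lit 0) (nat_lit 32904689001) (nat_lit 17) (nat_lit 5) (nat_lit 19) (nat_lit 4) (nat_lit 17) (nat_lit 4) (nat_lit 375) (nat_lit 349) (nat_lit 296)))) (XT.nd (nat_lit 156) (nat_lit 152) (nat_lit 0) (XT.nd (nat_lit 78) (nat_lit 152) (nat_lit 0) (XT.lf (nat_lit 0) (nat_lit 102049461426) (nat_lit 76) (nat_lit 52031147690) (nat_lit 76) (nat_lit 4553832269) (nat_lit 16) (nat_lit 4) (nat_lit 17) (nat_lit 5) (nat_lit 17) (nat_lit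 4) (nat_lit 376) (nat_lit 349) (nat_lit 295)) (XT.lf (nat_lit 0) (nat_lit 62087853299) (nat_lit 152) (nat_lit 96329289944) (nat_lit 0) (nat_lit 18124349133) (nat_lit 14) (nat_lit 5) (nat_lit 16) (nat_lit 4) (nat_lit 14) (nat_lit 4) (nat_lit 377) (nat_lit 349) (nat_lit 294))) (XT.nd (nat_lit 78) (nat_lit 76) (nat_lit 0) (XT.lf (nat_lit 0) (nat_lit 44554071267) (nat_lit 76) (nat_lit 98100659050) (nat_lit 76) (nat_lit 54134522776) (nat_lit 13) (nat_lit 4) (nat_lit 14) (nat_lit 5) (nat_lit 14) (nat_lit 4) (nat_lit 378) (nat_lit 349) (nat_lit 293)) (XT.lf (nat_lit 0) (nat_lit 17338589187) (nat_lit 152) (nat_lit 7904159553) (nat_lit 76) (nat_lit 194572673038) (nat_lit 12) (nat_lit 5) (nat_lit 14) (nat_lit 5) (nat_lit 13) (nat_lit 4) (nat_lit 379) (nat_lit 349) (nat_lit 292))))) (XT.nd (nat_lit 312) (nat_lit 228) (nat_lit 0) (XT.nd (nat_lit 156) (nat_lit 152) (nat_lit 0) (XT.nd (nat_lit 78) (nat_lit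 76) (nat_lit 0) (XT.lf (nat_lit 0) (nat_lit 101923644554) (nat_lit 152) (nat_lit 82601379781) (nat_lit 0) (nat_lit 61210297039) (nat_lit 11) (nat_lit 5) (nat_lit 13) (nat_lit 4) (nat_lit 11) (nat_lit 4) (nat_lit 380) (nat_lit 349) (nat_lit 291)) (XT.lf (nat_lit 0) (nat_lit 88488919563) (nat_lit 76) (nat_lit 113762422995) (nat_lit 76) (nat_lit 73047473023) (nat_lit 10) (nat_lit 4) (nat_lit 11) (nat_lit 5) (nat_lit 11) (nat_lit 4) (nat_lit 381) (nat_lit 349) (nat_lit 290))) (XT.nd (nat_lit 78) (nat_lit 76) (nat_lit 0) (XT.lf (nat_lit 0) (nat_lit 10374849702) (nat_lit 152) (nat_lit 19136656033) (nat_lit 76) (nat_lit 279572478424) (nat_lit 9) (nat_lit 5) (nat_lit 11) (nat_lit 5) (nat_lit 10) (nat_lit 4) (nat_lit 382) (nat_lit 349) (nat_lit 289)) (XT.lf (nat_lit 0) (nat_lit 108233447896) (nat_lit 152) (nat_lit 168519833268) (nat_lit 0) (nat_lit 70532007987) (nat_lit 8) (nat_lit 5) (nat_lit 10)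 (nat_lit 4) (nat_lit 8) (nat_lit 4) (nat_lit 383) (nat_lit 349) (nat_lit 288)))) (XT.nd (nat_lit 156) (nat_lit 152) (nat_lit 0) (XT.nd (nat_lit 78) (nat_lit 0) (nat_lit 0) (XT.lf (nat_lit 0) (nat_lit 16313254894) (nat_lit 76) (nat_lit 206231998669) (nat_lit 76) (nat_lit 168529583165) (nat_lit 7) (nat_lit 4) (nat_lit 8) (nat_lit 5) (nat_lit 8) (nat_lit 4) (nat_lit 384) (nat_lit 349) (nat_lit 287)) (XT.lf (nat_lit 0) (nat_lit 239065702938) (nat_lit 76) (nat_lit 119839147954) (nat_lit 76) (nat_lit 82135884107) (nat_lit 7) (nat_lit 4) (nat_lit 8) (nat_lit 5) (nat_lit 8) (nat_lit 4) (nat_lit 385) (nat_lit 349) (nat_lit 286))) (XT.nd (nat_lit 78) (nat_lit 76) (nat_lit 0) (XT.lf (nat_lit 0) (nat_lit 16350925763) (nat_lit 152) (nat_lit 3694075948) (nat_lit 76) (nat_lit 478423766107) (nat_lit 6) (nat_lit 5) (nat_lit 8) (nat_lit 5) (nat_lit 7) (nat_lit 4) (nat_lit 386) (nat_lit 349) (nat_lit 285))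 (XT.nd (nat_lit 78) (nat_lit 0) (nat_lit 0) (XT.lf (nat_lit 0) (nat_lit 132985985698) (nat_lit 152) (nat_lit 332620981680) (nat_lit 0) (nat_lit 98074279212) (nat_lit 5) (nat_lit 5) (nat_lit 7) (nat_lit 4) (nat_lit 5) (nat_lit 4) (nat_lit 387) (nat_lit 349) (nat_lit 284)) (XT.lf (nat_lit 0) (nat_lit 267777224187) (nat_lit 152) (nat_lit 137980498338) (nat_lit 0) (nat_lit 232865001220) (nat_lit 5) (nat_lit 5) (nat_lit 7) (nat_lit 4) (nat_lit 5) (nat_lit 4) (nat_lit 388) (nat_lit 349) (nat_lit 283))))))))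
noncomputable def xc67 : XT := (XT.nd (nat_lit 1248) (nat_lit 0) (nat_lit 0) (XT.nd (nat_lit 624) (nat_lit 76) (nat_lit 0) (XT.nd (nat_lit 312) (nat_lit 152) (nat_lit 0) (XT.nd (nat_lit 156) (nat_lit 0) (nat_lit 0) (XT.nd (nat_lit 78) (nat_lit 0) (nat_lit 0) (XT.lf (nat_lit 0) (nat_lit 90369968157) (nat_lit 76) (nat_lit 334587260068) (nat_lit 76) (nat_lit 299674587987) (nat_lit 4) (nat_lit 4) (nat_lit 5) (nat_lit 5) (nat_lit 5) (nat_lit 4) (nat_lit 389) (nat_lit 349) (nat_lit 282)) (XT.lf (nat_lit 0) (nat_lit 361322495567) (nat_lit 76) (nat_lit 248405855135) (nat_lit 76) (nat_lit 213492792521) (nat_lit 4) (nat_lit 4) (nat_lit 5) (nat_lit 5) (nat_lit 5) (nat_lit 4) (nat_lit 390) (nat_lit 349) (nat_lit 281))) (XT.nd (nat_lit 78) (nat_lit 0) (nat_lit 0) (XT.lf (nat_lit 0) (nat_lit 672912520473) (nat_lit 76) (nat_lit 149299981152) (nat_lit 76) (nat_lit 114386578944) (nat_lit 4) (nat_lit 4) (nat_lit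 5) (nat_lit 5) (nat_lit 5) (nat_lit 4) (nat_lit 391) (nat_lit 349) (nat_lit 280)) (XT.lf (nat_lit 0) (nat_lit 1031236369449) (nat_lit 76) (nat_lit 35330610150) (nat_lit 76) (nat_lit 416912641) (nat_lit 4) (nat_lit 4) (nat_lit 5) (nat_lit 5) (nat_lit 5) (nat_lit 4) (nat_lit 392) (nat_lit 349) (nat_lit 279)))) (XT.nd (nat_lit 156) (nat_lit 0) (nat_lit 0) (XT.nd (nat_lit 78) (nat_lit 0) (nat_lit 0) (XT.lf (nat_lit 0) (nat_lit 132292914121) (nat_lit 152) (nat_lit 983762544519) (nat_lit 0) (nat_lit 99965178667) (nat_lit 2) (nat_lit 5) (nat_lit 4) (nat_lit 4) (nat_lit 2) (nat_lit 4) (nat_lit 393) (nat_lit 349) (nat_lit 278)) (XT.lf (nat_lit 0) (nat_lit 286928251560) (nat_lit 152) (nat_lit 845719969157) (nat_lit 0) (nat_lit 254600309357) (nat_lit 2) (nat_lit 5) (nat_lit 4) (nat_lit 4) (nat_lit 2) (nat_lit 4) (nat_lit 394) (nat_lit 349) (nat_lit 277))) (XT.nd (nat_lit 78) (nat_lit 0) (nat_lit 0)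 (XT.lf (nat_lit 0) (nat_lit 464757220217) (nat_lit 152) (nat_lit 686974421905) (nat_lit 0) (nat_lit 432429098232) (nat_lit 2) (nat_lit 5) (nat_lit 4) (nat_lit 4) (nat_lit 2) (nat_lit 4) (nat_lit 395) (nat_lit 349) (nat_lit 276)) (XT.lf (nat_lit 0) (nat_lit 669259082521) (nat_lit 152) (nat_lit 504420011623) (nat_lit 0) (nat_lit 636930804204) (nat_lit 2) (nat_lit 5) (nat_lit 4) (nat_lit 4) (nat_lit 2) (nat_lit 4) (nat_lit 396) (nat_lit 349) (nat_lit 275))))) (XT.nd (nat_lit 312) (nat_lit 0) (nat_lit 0) (XT.nd (nat_lit 156) (nat_lit 76) (nat_lit 0) (XT.nd (nat_lit 78) (nat_lit 0) (nat_lit 0) (XT.lf (nat_lit 0) (nat_lit 904434961867) (nat_lit 152) (nat_lit 294485021586) (nat_lit 0) (nat_lit 872106547609) (nat_lit 2) (nat_lit 5) (nat_lit 4) (nat_lit 4) (nat_lit 2) (nat_lit 4) (nat_lit 397) (nat_lit 349) (nat_lit 274)) (XT.lf (nat_lit 0) (nat_lit 1174886125458) (nat_lit 152) (nat_lit 53062028078)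 (nat_lit 0) (nat_lit 1142557592991) (nat_lit 2) (nat_lit 5) (nat_lit 4) (nat_lit 4) (nat_lit 2) (nat_lit 4) (nat_lit 398) (nat_lit 349) (nat_lit 273))) (XT.nd (nat_lit 78) (nat_lit 0) (nat_lit 0) (XT.lf (nat_lit 0) (nat_lit 236398050138) (nat_lit 76) (nat_lit 1255191337756) (nat_lit 76) (nat_lit 1222862702499) (nat_lit 1) (nat_lit 4) (nat_lit 2) (nat_lit 5) (nat_lit 2) (nat_lit 4) (nat_lit 399) (nat_lit 349) (nat_lit 272)) (XT.lf (nat_lit 0) (nat_lit 572488628348) (nat_lit 76) (nat_lit 1284853482242) (nat_lit 76) (nat_lit 1252524757601) (nat_lit 1) (nat_lit 4) (nat_lit 2) (nat_lit 5) (nat_lit 2) (nat_lit 4) (nat_lit 400) (nat_lit 349) (nat_lit 271)))) (XT.nd (nat_lit 156) (nat_lit 0) (nat_lit 0) (XT.nd (nat_lit 78) (nat_lit 0) (nat_lit 0) (XT.lf (nat_lit 0) (nat_lit 958991239413) (nat_lit 76) (nat_lit 1318965743180) (nat_lit 76) (nat_lit 1286636940814) (nat_lit 1) (nat_lit 4) (nat_lit 2)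 (nat_lit 5) (nat_lit 2) (nat_lit 4) (nat_lit 401) (nat_lit 349) (nat_lit 270)) (XT.lf (nat_lit 0) (nat_lit 1403467890940) (nat_lit 76) (nat_lit 1358195534372) (nat_lit 76) (nat_lit 1325866664419) (nat_lit 1) (nat_lit 4) (nat_lit 2) (nat_lit 5) (nat_lit 2) (nat_lit 4) (nat_lit 402) (nat_lit 349) (nat_lit 269))) (XT.nd (nat_lit 78) (nat_lit 0) (nat_lit 0) (XT.lf (nat_lit 0) (nat_lit 1914614865241) (nat_lit 76) (nat_lit 1403310395209) (nat_lit 76) (nat_lit 1370981466486) (nat_lit 1) (nat_lit 4) (nat_lit 2) (nat_lit 5) (nat_lit 2) (nat_lit 4) (nat_lit 403) (nat_lit 349) (nat_lit 268)) (XT.lf (nat_lit 0) (nat_lit 2502432863988) (nat_lit 76) (nat_lit 1455193007753) (nat_lit 76) (nat_lit 1422864027925) (nat_lit 1) (nat_lit 4) (nat_lit 2) (nat_lit 5) (nat_lit 2) (nat_lit 4) (nat_lit 404) (nat_lit 349) (nat_lit 267)))))) (XT.nd (nat_lit 624) (nat_lit 0) (nat_lit 0) (XT.nd (nat_lit 312) (nat_lit 0)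 (nat_lit 0) (XT.nd (nat_lit 156) (nat_lit 0) (nat_lit 0) (XT.nd (nat_lit 78) (nat_lit 0) (nat_lit 0) (XT.lf (nat_lit 0) (nat_lit 3178422674113) (nat_lit 76) (nat_lit 1514858466597) (nat_lit 76) (nat_lit 1482529442329) (nat_lit 1) (nat_lit 4) (nat_lit 2) (nat_lit 5) (nat_lit 2) (nat_lit 4) (nat_lit 405) (nat_lit 349) (nat_lit 266)) (XT.lf (nat_lit 0) (nat_lit 3955810183205) (nat_lit 76) (nat_lit 1583474139413) (nat_lit 76) (nat_lit 1551145076502) (nat_lit 1) (nat_lit 4) (nat_lit 2) (nat_lit 5) (nat_lit 2) (nat_lit 4) (nat_lit 406) (nat_lit 349) (nat_lit 265))) (XT.nd (nat_lit 78) (nat_lit 0) (nat_lit 0) (XT.lf (nat_lit 0) (nat_lit 4849805146877) (nat_lit 76) (nat_lit 1662382506756) (nat_lit 76) (nat_lit 1630053410243) (nat_lit 1) (nat_lit 4) (nat_lit 2) (nat_lit 5) (nat_lit 2) (nat_lit 4) (nat_lit 407) (nat_lit 349) (nat_lit 264)) (XT.lf (nat_lit 0) (nat_lit 5877898770940) (nat_lit 76) (nat_lit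 1753127427988) (nat_lit 76) (nat_lit 1720798302255) (nat_lit 1) (nat_lit 4) (nat_lit 2) (nat_lit 5) (nat_lit 2) (nat_lit 4) (nat_lit 408) (nat_lit 349) (nat_lit 263)))) (XT.nd (nat_lit 156) (nat_lit 0) (nat_lit 0) (XT.nd (nat_lit 78) (nat_lit 0) (nat_lit 0) (XT.lf (nat_lit 0) (nat_lit 7060205930646) (nat_lit 76) (nat_lit 1857484347219) (nat_lit 76) (nat_lit 1825155196079) (nat_lit 1) (nat_lit 4) (nat_lit 2) (nat_lit 5) (nat_lit 2) (nat_lit 4) (nat_lit 409) (nat_lit 349) (nat_lit 262)) (XT.lf (nat_lit 0) (nat_lit 8419858722600) (nat_lit 76) (nat_lit 1977495030262) (nat_lit 76) (nat_lit 1945165857027) (nat_lit 1) (nat_lit 4) (nat_lit 2) (nat_lit 5) (nat_lit 2) (nat_lit 4) (nat_lit 410) (nat_lit 349) (nat_lit 261))) (XT.nd (nat_lit 78) (nat_lit 0) (nat_lit 0) (XT.lf (nat_lit 0) (nat_lit 9983459049252) (nat_lit 76) (nat_lit 2115507512218) (nat_lit 76) (nat_lit 2083178319770) (nat_lit 1) (nat_lit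 4) (nat_lit 2) (nat_lit 5) (nat_lit 2) (nat_lit 4) (nat_lit 411) (nat_lit 349) (nat_lit 260)) (XT.lf (nat_lit 0) (nat_lit 11781599090907) (nat_lit 76) (nat_lit 2274222037299) (nat_lit 76) (nat_lit 2241892828146) (nat_lit 1) (nat_lit 4) (nat_lit 2) (nat_lit 5) (nat_lit 2) (nat_lit 4) (nat_lit 412) (nat_lit 349) (nat_lit 259))))) (XT.nd (nat_lit 48204) (nat_lit 0) (nat_lit 4788) (XT.nd (nat_lit 156) (nat_lit 0) (nat_lit 0) (XT.nd (nat_lit 78) (nat_lit 0) (nat_lit 0) (XT.lf (nat_lit 0) (nat_lit 13849459848379) (nat_lit 76) (nat_lit 2456743889694) (nat_lit 76) (nat_lit 2424414666013) (nat_lit 1) (nat_lit 4) (nat_lit 2) (nat_lit 5) (nat_lit 2) (nat_lit 4) (nat_lit 413) (nat_lit 349) (nat_lit 258)) (XT.lf (nat_lit 0) (nat_lit 16227499466924) (nat_lit 76) (nat_lit 2666644149121) (nat_lit 76) (nat_lit 2634314912807) (nat_lit 1) (nat_lit 4) (nat_lit 2) (nat_lit 5) (nat_lit 2) (nat_lit 4) (nat_lit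 414) (nat_lit 349) (nat_lit 257))) (XT.nd (nat_lit 78) (nat_lit 0) (nat_lit 0) (XT.lf (nat_lit 0) (nat_lit 18962244808643) (nat_lit 76) (nat_lit 2908029559787) (nat_lit 76) (nat_lit 2875700312489) (nat_lit 1) (nat_lit 4) (nat_lit 2) (nat_lit 5) (nat_lit 2) (nat_lit 4) (nat_lit 415) (nat_lit 349) (nat_lit 256)) (XT.lf (nat_lit 0) (nat_lit 22107201760656) (nat_lit 76) (nat_lit 3185622879727) (nat_lit 76) (nat_lit 3153293622877) (nat_lit 1) (nat_lit 4) (nat_lit 2) (nat_lit 5) (nat_lit 2) (nat_lit 4) (nat_lit 416) (nat_lit 349) (nat_lit 255)))) (XT.nd (nat_lit 156) (nat_lit 380) (nat_lit 0) (XT.nd (nat_lit 78) (nat_lit 0) (nat_lit 0) (XT.lf (nat_lit 0) (nat_lit 6542321344) (nat_lit 532) (nat_lit 879870783) (nat_lit 532) (nat_lit 879870783) (nat_lit 69) (nat_lit 3) (nat_lit 76) (nat_lit 3) (nat_lit 76) (nat_lit 5) (nat_lit 350) (nat_lit 350) (nat_lit 320)) (XT.lf (nat_lit 76) (nat_lit 14198849778)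 (nat_lit 0) (nat_lit 617660709) (nat_lit 532) (nat_lit 2972608023) (nat_lit 70) (nat_lit 5) (nat_lit 69) (nat_lit 3) (nat_lit 76) (nat_lit 5) (nat_lit 351) (nat_lit 350) (nat_lit 319))) (XT.nd (nat_lit 78) (nat_lit 456) (nat_lit 0) (XT.lf (nat_lit 76) (nat_lit 13770792105) (nat_lit 0) (nat_lit 3726691577) (nat_lit 532) (nat_lit 1599279398) (nat_lit 71) (nat_lit 5) (nat_lit 70) (nat_lit 5) (nat_lit 77) (nat_lit 5) (nat_lit 352) (nat_lit 350) (nat_lit 318)) (XT.nd (nat_lit 78) (nat_lit 0) (nat_lit 76) (XT.lf (nat_lit 0) (nat_lit 703168793) (nat_lit 532) (nat_lit 6902237155) (nat_lit 608) (nat_lit 12937456446) (nat_lit 64) (nat_lit 5) (nat_lit 71) (nat_lit 5) (nat_lit 72) (nat_lit 5) (nat_lit 353) (nat_lit 350) (nat_lit 317)) (XT.lf (nat_lit 0) (nat_lit 4048909123) (nat_lit 532) (nat_lit 8320414271) (nat_lit 76) (nat_lit 9769854730) (nat_lit 65) (nat_lit 5) (nat_lit 72) (nat_lit 5) (nat_lit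 66) (nat_lit 5) (nat_lit 354) (nat_lit 350) (nat_lit 316))))))))
noncomputable def xc68 : XT := (XT.nd (nat_lit 1248) (nat_lit 1444) (nat_lit 0) (XT.nd (nat_lit 624) (nat_lit 1140) (nat_lit 0) (XT.nd (nat_lit 312) (nat_lit 760) (nat_lit 0) (XT.nd (nat_lit 156) (nat_lit 456) (nat_lit 0) (XT.nd (nat_lit 78) (nat_lit 228) (nat_lit 0) (XT.lf (nat_lit 0) (nat_lit 8755178322) (nat_lit 532) (nat_lit 9489591254) (nat_lit 76) (nat_lit 5661508043) (nat_lit 59) (nat_lit 5) (nat_lit 66) (nat_lit 5) (nat_lit 60) (nat_lit 5) (nat_lit 355) (nat_lit 350) (nat_lit 315)) (XT.lf (nat_lit 0) (nat_lit 15096228456) (nat_lit 304) (nat_lit 10346599064) (nat_lit 76) (nat_lit 421333212) (nat_lit 56) (nat_lit 5) (nat_lit 60) (nat_lit 5) (nat_lit 57) (nat_lit 5) (nat_lit 356) (nat_lit 350) (nat_lit 314))) (XT.nd (nat_lit 78) (nat_lit 228) (nat_lit 0) (XT.lf (nat_lit 0) (nat_lit 17050356327) (nat_lit 228) (nat_lit 6495107123)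 (nat_lit 304) (nat_lit 4477723231) (nat_lit 53) (nat_lit 5) (nat_lit 56) (nat_lit 5) (nat_lit 57) (nat_lit 5) (nat_lit 357) (nat_lit 350) (nat_lit 313)) (XT.lf (nat_lit 0) (nat_lit 3749490580) (nat_lit 228) (nat_lit 11270833017) (nat_lit 76) (nat_lit 15389951259) (nat_lit 50) (nat_lit 5) (nat_lit 53) (nat_lit 5) (nat_lit 51) (nat_lit 5) (nat_lit 358) (nat_lit 350) (nat_lit 312)))) (XT.nd (nat_lit 156) (nat_lit 380) (nat_lit 0) (XT.nd (nat_lit 78) (nat_lit 152) (nat_lit 0) (XT.lf (nat_lit 0) (nat_lit 14151517219) (nat_lit 304) (nat_lit 11209722213) (nat_lit 76) (nat_lit 7688429303) (nat_lit 47) (nat_lit 5) (nat_lit 51) (nat_lit 5) (nat_lit 48) (nat_lit 5) (nat_lit 359) (nat_lit 350) (nat_lit 311)) (XT.lf (nat_lit 0) (nat_lit 25342183481) (nat_lit 152) (nat_lit 2102429486) (nat_lit 228) (nat_lit 8533911252) (nat_lit 45) (nat_lit 5) (nat_lit 47) (nat_lit 5) (nat_lit 48) (nat_lit 5) (nat_lit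 360) (nat_lit 350) (nat_lit 310))) (XT.nd (nat_lit 78) (nat_lit 152) (nat_lit 0) (XT.lf (nat_lit 0) (nat_lit 4868228052) (nat_lit 228) (nat_lit 9768953544) (nat_lit 76) (nat_lit 24570817394) (nat_lit 42) (nat_lit 5) (nat_lit 45) (nat_lit 5) (nat_lit 43) (nat_lit 5) (nat_lit 361) (nat_lit 350) (nat_lit 309)) (XT.lf (nat_lit 0) (nat_lit 21302701126) (nat_lit 228) (nat_lit 8471981785) (nat_lit 76) (nat_lit 13007303625) (nat_lit 40) (nat_lit 5) (nat_lit 43) (nat_lit 5) (nat_lit 41) (nat_lit 5) (nat_lit 362) (nat_lit 350) (nat_lit 308))))) (XT.nd (nat_lit 312) (nat_lit 380) (nat_lit 0) (XT.nd (nat_lit 156) (nat_lit 456) (nat_lit 0) (XT.nd (nat_lit 78) (nat_lit 152) (nat_lit 0) (XT.lf (nat_lit 0) (nat_lit 40289011176) (nat_lit 152) (nat_lit 1555224406) (nat_lit 228) (nat_lit 4916493759) (nat_lit 38) (nat_lit 5) (nat_lit 40) (nat_lit 5) (nat_lit 41) (nat_lit 5) (nat_lit 363) (nat_lit 350) (nat_lit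 307)) (XT.lf (nat_lit 0) (nat_lit 15586558620) (nat_lit 152) (nat_lit 4428809039) (nat_lit 76) (nat_lit 31120717700) (nat_lit 36) (nat_lit 5) (nat_lit 38) (nat_lit 5) (nat_lit 37) (nat_lit 5) (nat_lit 364) (nat_lit 350) (nat_lit 306))) (XT.nd (nat_lit 78) (nat_lit 304) (nat_lit 0) (XT.lf (nat_lit 0) (nat_lit 40753544622) (nat_lit 228) (nat_lit 1759078515) (nat_lit 76) (nat_lit 13494544441) (nat_lit 34) (nat_lit 5) (nat_lit 37) (nat_lit 5) (nat_lit 35) (nat_lit 4) (nat_lit 365) (nat_lit 350) (nat_lit 305)) (XT.lf (nat_lit 0) (nat_lit 1338013752) (nat_lit 152) (nat_lit 8614336432) (nat_lit 228) (nat_lit 51459390968) (nat_lit 30) (nat_lit 5) (nat_lit 32) (nat_lit 5) (nat_lit 33) (nat_lit 5) (nat_lit 366) (nat_lit 350) (nat_lit 304)))) (XT.nd (nat_lit 156) (nat_lit 152) (nat_lit 0) (XT.nd (nat_lit 78) (nat_lit 152) (nat_lit 0) (XT.lf (nat_lit 0) (nat_lit 4424193265) (nat_lit 76) (nat_lit 36238118102)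 (nat_lit 152) (nat_lit 26722895513) (nat_lit 29) (nat_lit 5) (nat_lit 30) (nat_lit 5) (nat_lit 31) (nat_lit 4) (nat_lit 367) (nat_lit 350) (nat_lit 303)) (XT.lf (nat_lit 0) (nat_lit 3953839657) (nat_lit 152) (nat_lit 66005743082) (nat_lit 76) (nat_lit 4106515060) (nat_lit 27) (nat_lit 5) (nat_lit 29) (nat_lit 5) (nat_lit 28) (nat_lit 4) (nat_lit 368) (nat_lit 350) (nat_lit 302))) (XT.nd (nat_lit 78) (nat_lit 76) (nat_lit 0) (XT.lf (nat_lit 0) (nat_lit 10660200087) (nat_lit 76) (nat_lit 30157953863) (nat_lit 152) (nat_lit 40621974182) (nat_lit 26) (nat_lit 5) (nat_lit 27) (nat_lit 5) (nat_lit 28) (nat_lit 4) (nat_lit 369) (nat_lit 350) (nat_lit 301)) (XT.lf (nat_lit 0) (nat_lit 13267191786) (nat_lit 76) (nat_lit 72596335735) (nat_lit 76) (nat_lit 3844625019) (nat_lit 25) (nat_lit 4) (nat_lit 26) (nat_lit 5) (nat_lit 26) (nat_lit 4) (nat_lit 370) (nat_lit 350) (nat_lit 300)))))) (XT.nd (nat_lit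 624) (nat_lit 608) (nat_lit 0) (XT.nd (nat_lit 312) (nat_lit 380) (nat_lit 0) (XT.nd (nat_lit 156) (nat_lit 228) (nat_lit 0) (XT.nd (nat_lit 78) (nat_lit 76) (nat_lit 0) (XT.lf (nat_lit 0) (nat_lit 14018972022) (nat_lit 76) (nat_lit 25778607642) (nat_lit 152) (nat_lit 59083094840) (nat_lit 23) (nat_lit 5) (nat_lit 24) (nat_lit 5) (nat_lit 25) (nat_lit 4) (nat_lit 371) (nat_lit 350) (nat_lit 299)) (XT.lf (nat_lit 0) (nat_lit 13223784323) (nat_lit 76) (nat_lit 79804523130) (nat_lit 76) (nat_lit 16131193259) (nat_lit 22) (nat_lit 4) (nat_lit 23) (nat_lit 5) (nat_lit 23) (nat_lit 4) (nat_lit 372) (nat_lit 350) (nat_lit 298))) (XT.nd (nat_lit 78) (nat_lit 76) (nat_lit 0) (XT.lf (nat_lit 0) (nat_lit 9240534702) (nat_lit 76) (nat_lit 25816995947) (nat_lit 152) (nat_lit 85581981642) (nat_lit 20) (nat_lit 5) (nat_lit 21) (nat_lit 5) (nat_lit 22) (nat_lit 4) (nat_lit 373) (nat_lit 350) (nat_lit 297))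 (XT.lf (nat_lit 0) (nat_lit 1023123586) (nat_lit 76) (nat_lit 95724717819) (nat_lit 76) (nat_lit 36757892068) (nat_lit 19) (nat_lit 4) (nat_lit 20) (nat_lit 5) (nat_lit 20) (nat_lit 4) (nat_lit 374) (nat_lit 350) (nat_lit 296)))) (XT.nd (nat_lit 156) (nat_lit 228) (nat_lit 0) (XT.nd (nat_lit 78) (nat_lit 76) (nat_lit 0) (XT.lf (nat_lit 0) (nat_lit 22450893170) (nat_lit 152) (nat_lit 12273028152) (nat_lit 76) (nat_lit 113218178334) (nat_lit 18) (nat_lit 5) (nat_lit 20) (nat_lit 5) (nat_lit 19) (nat_lit 4) (nat_lit 375) (nat_lit 350) (nat_lit 295)) (XT.lf (nat_lit 0) (nat_lit 92540515514) (nat_lit 152) (nat_lit 33658372075) (nat_lit 0) (nat_lit 37934574261) (nat_lit 17) (nat_lit 5) (nat_lit 19) (nat_lit 4) (nat_lit 17) (nat_lit 4) (nat_lit 376) (nat_lit 350) (nat_lit 294))) (XT.nd (nat_lit 78) (nat_lit 152) (nat_lit 0) (XT.lf (nat_lit 0) (nat_lit 117547427906) (nat_lit 76) (nat_lit 59741623753)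 (nat_lit 76) (nat_lit 5132839823) (nat_lit 16) (nat_lit 4) (nat_lit 17) (nat_lit 5) (nat_lit 17) (nat_lit 4) (nat_lit 377) (nat_lit 350) (nat_lit 293)) (XT.lf (nat_lit 0) (nat_lit 71493445673) (nat_lit 152) (nat_lit 110594402895) (nat_lit 0) (nat_lit 20927468059) (nat_lit 14) (nat_lit 5) (nat_lit 16) (nat_lit 4) (nat_lit 14) (nat_lit 4) (nat_lit 378) (nat_lit 350) (nat_lit 292))))) (XT.nd (nat_lit 312) (nat_lit 304) (nat_lit 0) (XT.nd (nat_lit 156) (nat_lit 152) (nat_lit 0) (XT.nd (nat_lit 78) (nat_lit 76) (nat_lit 0) (XT.lf (nat_lit 0) (nat_lit 51405864068) (nat_lit 76) (nat_lit 112731492935) (nat_lit 76) (nat_lit 62163525069) (nat_lit 13) (nat_lit 4) (nat_lit 14) (nat_lit 5) (nat_lit 14) (nat_lit 4) (nat_lit 379) (nat_lit 350) (nat_lit 291)) (XT.lf (nat_lit 0) (nat_lit 20014695065) (nat_lit 152) (nat_lit 8939132784) (nat_lit 76) (nat_lit 223827877277) (nat_lit 12) (nat_lit 5) (nat_lit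 14) (nat_lit 5) (nat_lit 13) (nat_lit 4) (nat_lit 380) (nat_lit 350) (nat_lit 290))) (XT.nd (nat_lit 78) (nat_lit 76) (nat_lit 0) (XT.lf (nat_lit 0) (nat_lit 117282662776) (nat_lit 152) (nat_lit 94849840742) (nat_lit 0) (nat_lit 70457474408) (nat_lit 11) (nat_lit 5) (nat_lit 13) (nat_lit 4) (nat_lit 11) (nat_lit 4) (nat_lit 381) (nat_lit 350) (nat_lit 289)) (XT.lf (nat_lit 0) (nat_lit 101892005410) (nat_lit 76) (nat_lit 130761438572) (nat_lit 76) (nat_lit 83935038516) (nat_lit 10) (nat_lit 4) (nat_lit 11) (nat_lit 5) (nat_lit 11) (nat_lit 4) (nat_lit 382) (nat_lit 350) (nat_lit 288)))) (XT.nd (nat_lit 156) (nat_lit 152) (nat_lit 0) (XT.nd (nat_lit 78) (nat_lit 76) (nat_lit 0) (XT.lf (nat_lit 0) (nat_lit 11988534561) (nat_lit 152) (nat_lit 21891301810) (nat_lit 76) (nat_lit 321562146069) (nat_lit 9) (nat_lit 5) (nat_lit 11) (nat_lit 5) (nat_lit 10) (nat_lit 4) (nat_lit 383) (nat_lit 350)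 (nat_lit 287)) (XT.lf (nat_lit 0) (nat_lit 124522265924) (nat_lit 152) (nat_lit 193688845983) (nat_lit 0) (nat_lit 81162664157) (nat_lit 8) (nat_lit 5) (nat_lit 10) (nat_lit 4) (nat_lit 8) (nat_lit 4) (nat_lit 384) (nat_lit 350) (nat_lit 286))) (XT.nd (nat_lit 78) (nat_lit 76) (nat_lit 0) (XT.lf (nat_lit 0) (nat_lit 18859982290) (nat_lit 76) (nat_lit 237116241379) (nat_lit 76) (nat_lit 193755901923) (nat_lit 7) (nat_lit 4) (nat_lit 8) (nat_lit 5) (nat_lit 8) (nat_lit 4) (nat_lit 385) (nat_lit 350) (nat_lit 285)) (XT.nd (nat_lit 78) (nat_lit 76) (nat_lit 0) (XT.lf (nat_lit 0) (nat_lit 275012288085) (nat_lit 76) (nat_lit 137771057459) (nat_lit 76) (nat_lit 94410076534) (nat_lit 7) (nat_lit 4) (nat_lit 8) (nat_lit 5) (nat_lit 8) (nat_lit 4) (nat_lit 386) (nat_lit 350) (nat_lit 284)) (XT.lf (nat_lit 0) (nat_lit 18841720774) (nat_lit 152) (nat_lit 4170759513) (nat_lit 76) (nat_lit 550223548756)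 (nat_lit 6) (nat_lit 5) (nat_lit 8) (nat_lit 5) (nat_lit 7) (nat_lit 4) (nat_lit 387) (nat_lit 350) (nat_lit 283))))))))
noncomputable def xc69 : XT := (XT.nd (nat_lit 1248) (nat_lit 0) (nat_lit 0) (XT.nd (nat_lit 624) (nat_lit 76) (nat_lit 0) (XT.nd (nat_lit 312) (nat_lit 152) (nat_lit 0) (XT.nd (nat_lit 156) (nat_lit 76) (nat_lit 0) (XT.nd (nat_lit 78) (nat_lit 0) (nat_lit 0) (XT.lf (nat_lit 0) (nat_lit 152969632895) (nat_lit 152) (nat_lit 382441328580) (nat_lit 0) (nat_lit 112819610889) (nat_lit 5) (nat_lit 5) (nat_lit 7) (nat_lit 4) (nat_lit 5) (nat_lit 4) (nat_lit 388) (nat_lit 350) (nat_lit 282)) (XT.lf (nat_lit 0) (nat_lit 307974894200) (nat_lit 152) (nat_lit 158614268435) (nat_lit 0) (nat_lit 267824481660) (nat_lit 5) (nat_lit 5) (nat_lit 7) (nat_lit 4) (nat_lit 5) (nat_lit 4) (nat_lit 389) (nat_lit 350) (nat_lit 281))) (XT.nd (nat_lit 78) (nat_lit 0) (nat_lit 0) (XT.lf (nat_lit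 0) (nat_lit 103983409610) (nat_lit 76) (nat_lit 384745828095) (nat_lit 76) (nat_lit 344595075961) (nat_lit 4) (nat_lit 4) (nat_lit 5) (nat_lit 5) (nat_lit 5) (nat_lit 4) (nat_lit 390) (nat_lit 350) (nat_lit 280)) (XT.lf (nat_lit 0) (nat_lit 415571257928) (nat_lit 76) (nat_lit 285641062986) (nat_lit 76) (nat_lit 245490015552) (nat_lit 4) (nat_lit 4) (nat_lit 5) (nat_lit 5) (nat_lit 5) (nat_lit 4) (nat_lit 391) (nat_lit 350) (nat_lit 279)))) (XT.nd (nat_lit 156) (nat_lit 152) (nat_lit 0) (XT.nd (nat_lit 78) (nat_lit 0) (nat_lit 0) (XT.lf (nat_lit 0) (nat_lit 773893214219) (nat_lit 76) (nat_lit 171672656221) (nat_lit 76) (nat_lit 131521352005) (nat_lit 4) (nat_lit 4) (nat_lit 5) (nat_lit 5) (nat_lit 5) (nat_lit 4) (nat_lit 392) (nat_lit 350) (nat_lit 278)) (XT.lf (nat_lit 0) (nat_lit 1185959925454) (nat_lit 76) (nat_lit 40610791147) (nat_lit 76) (nat_lit 459263642) (nat_lit 4) (nat_lit 4) (nat_lit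 5) (nat_lit 5) (nat_lit 5) (nat_lit 4) (nat_lit 393) (nat_lit 350) (nat_lit 277))) (XT.nd (nat_lit 78) (nat_lit 0) (nat_lit 0) (XT.lf (nat_lit 0) (nat_lit 152154826386) (nat_lit 152) (nat_lit 1131290161679) (nat_lit 0) (nat_lit 114977306321) (nat_lit 2) (nat_lit 5) (nat_lit 4) (nat_lit 4) (nat_lit 2) (nat_lit 4) (nat_lit 394) (nat_lit 350) (nat_lit 276)) (XT.lf (nat_lit 0) (nat_lit 329983119856) (nat_lit 152) (nat_lit 972545995384) (nat_lit 0) (nat_lit 292805443460) (nat_lit 2) (nat_lit 5) (nat_lit 4) (nat_lit 4) (nat_lit 2) (nat_lit 4) (nat_lit 395) (nat_lit 350) (nat_lit 275))))) (XT.nd (nat_lit 312) (nat_lit 76) (nat_lit 0) (XT.nd (nat_lit 156) (nat_lit 0) (nat_lit 0) (XT.nd (nat_lit 78) (nat_lit 0) (nat_lit 0) (XT.lf (nat_lit 0) (nat_lit 534484395042) (nat_lit 152) (nat_lit 789992785933) (nat_lit 0) (nat_lit 497306582705) (nat_lit 2) (nat_lit 5) (nat_lit 4) (nat_lit 4) (nat_lit 2) (nat_lit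 4) (nat_lit 396) (nat_lit 350) (nat_lit 274)) (XT.lf (nat_lit 0) (nat_lit 769659763850) (nat_lit 152) (nat_lit 580058840098) (nat_lit 0) (nat_lit 732481833303) (nat_lit 2) (nat_lit 5) (nat_lit 4) (nat_lit 4) (nat_lit 2) (nat_lit 4) (nat_lit 397) (nat_lit 350) (nat_lit 273))) (XT.nd (nat_lit 78) (nat_lit 0) (nat_lit 0) (XT.lf (nat_lit 0) (nat_lit 1040110483495) (nat_lit 152) (nat_lit 338636754592) (nat_lit 0) (nat_lit 1002932450158) (nat_lit 2) (nat_lit 5) (nat_lit 4) (nat_lit 4) (nat_lit 2) (nat_lit 4) (nat_lit 398) (nat_lit 350) (nat_lit 272)) (XT.lf (nat_lit 0) (nat_lit 1351127981101) (nat_lit 152) (nat_lit 61003053827) (nat_lit 0) (nat_lit 1313949858380) (nat_lit 2) (nat_lit 5) (nat_lit 4) (nat_lit 4) (nat_lit 2) (nat_lit 4) (nat_lit 399) (nat_lit 350) (nat_lit 271)))) (XT.nd (nat_lit 156) (nat_lit 0) (nat_lit 0) (XT.nd (nat_lit 78) (nat_lit 0) (nat_lit 0) (XT.lf (nat_lit 0) (nat_lit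 271874488941) (nat_lit 76) (nat_lit 1443461480677) (nat_lit 76) (nat_lit 1406283280232) (nat_lit 1) (nat_lit 4) (nat_lit 2) (nat_lit 5) (nat_lit 2) (nat_lit 4) (nat_lit 400) (nat_lit 350) (nat_lit 270)) (XT.lf (nat_lit 0) (nat_lit 658376471542) (nat_lit 76) (nat_lit 1477574063063) (nat_lit 76) (nat_lit 1440395795031) (nat_lit 1) (nat_lit 4) (nat_lit 2) (nat_lit 5) (nat_lit 2) (nat_lit 4) (nat_lit 401) (nat_lit 350) (nat_lit 269))) (XT.nd (nat_lit 78) (nat_lit 0) (nat_lit 0) (XT.lf (nat_lit 0) (nat_lit 1102852576578) (nat_lit 76) (nat_lit 1516804133774) (nat_lit 76) (nat_lit 1479625806971) (nat_lit 1) (nat_lit 4) (nat_lit 2) (nat_lit 5) (nat_lit 2) (nat_lit 4) (nat_lit 402) (nat_lit 350) (nat_lit 268)) (XT.lf (nat_lit 0) (nat_lit 1613999075671) (nat_lit 76) (nat_lit 1561919237672) (nat_lit 76) (nat_lit 1524740859765) (nat_lit 1) (nat_lit 4) (nat_lit 2) (nat_lit 5) (nat_lit 2) (nat_lit 4)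 (nat_lit 403) (nat_lit 350) (nat_lit 267)))))) (XT.nd (nat_lit 624) (nat_lit 0) (nat_lit 0) (XT.nd (nat_lit 312) (nat_lit 0) (nat_lit 0) (XT.nd (nat_lit 156) (nat_lit 0) (nat_lit 0) (XT.nd (nat_lit 78) (nat_lit 0) (nat_lit 0) (XT.lf (nat_lit 0) (nat_lit 2201816661193) (nat_lit 76) (nat_lit 1613802061573) (nat_lit 76) (nat_lit 1576623639226) (nat_lit 1) (nat_lit 4) (nat_lit 2) (nat_lit 5) (nat_lit 2) (nat_lit 4) (nat_lit 404) (nat_lit 350) (nat_lit 266)) (XT.lf (nat_lit 0) (nat_lit 2877806111991) (nat_lit 76) (nat_lit 1673467704206) (nat_lit 76) (nat_lit 1636289243216) (nat_lit 1) (nat_lit 4) (nat_lit 2) (nat_lit 5) (nat_lit 2) (nat_lit 4) (nat_lit 405) (nat_lit 350) (nat_lit 265))) (XT.nd (nat_lit 78) (nat_lit 0) (nat_lit 0) (XT.lf (nat_lit 0) (nat_lit 3655193308625) (nat_lit 76) (nat_lit 1742083536838) (nat_lit 76) (nat_lit 1704905042245) (nat_lit 1) (nat_lit 4) (nat_lit 2) (nat_lit 5)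 (nat_lit 2) (nat_lit 4) (nat_lit 406) (nat_lit 350) (nat_lit 264)) (XT.lf (nat_lit 0) (nat_lit 4549188000595) (nat_lit 76) (nat_lit 1820992043152) (nat_lit 76) (nat_lit 1783813519340) (nat_lit 1) (nat_lit 4) (nat_lit 2) (nat_lit 5) (nat_lit 2) (nat_lit 4) (nat_lit 407) (nat_lit 350) (nat_lit 263)))) (XT.nd (nat_lit 156) (nat_lit 0) (nat_lit 0) (XT.nd (nat_lit 78) (nat_lit 0) (nat_lit 0) (XT.lf (nat_lit 0) (nat_lit 5577281388395) (nat_lit 76) (nat_lit 1911737085228) (nat_lit 76) (nat_lit 1874558536008) (nat_lit 1) (nat_lit 4) (nat_lit 2) (nat_lit 5) (nat_lit 2) (nat_lit 4) (nat_lit 408) (nat_lit 350) (nat_lit 262)) (XT.lf (nat_lit 0) (nat_lit 6759588342655) (nat_lit 76) (nat_lit 2016094109541) (nat_lit 76) (nat_lit 1978915538227) (nat_lit 1) (nat_lit 4) (nat_lit 2) (nat_lit 5) (nat_lit 2) (nat_lit 4) (nat_lit 409) (nat_lit 350) (nat_lit 261))) (XT.nd (nat_lit 78) (nat_lit 0) (nat_lit 0) (XT.lf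 (nat_lit 0) (nat_lit 8119240955960) (nat_lit 76) (nat_lit 2136104883959) (nat_lit 76) (nat_lit 2098926293432) (nat_lit 1) (nat_lit 4) (nat_lit 2) (nat_lit 5) (nat_lit 2) (nat_lit 4) (nat_lit 410) (nat_lit 350) (nat_lit 260)) (XT.lf (nat_lit 0) (nat_lit 9682841127266) (nat_lit 76) (nat_lit 2274117445372) (nat_lit 76) (nat_lit 2236938838139) (nat_lit 1) (nat_lit 4) (nat_lit 2) (nat_lit 5) (nat_lit 2) (nat_lit 4) (nat_lit 411) (nat_lit 350) (nat_lit 259))))) (XT.nd (nat_lit 312) (nat_lit 0) (nat_lit 0) (XT.nd (nat_lit 156) (nat_lit 0) (nat_lit 0) (XT.nd (nat_lit 78) (nat_lit 0) (nat_lit 0) (XT.lf (nat_lit 0) (nat_lit 11480981033837) (nat_lit 76) (nat_lit 2432832039547) (nat_lit 76) (nat_lit 2395653417787) (nat_lit 1) (nat_lit 4) (nat_lit 2) (nat_lit 5) (nat_lit 2) (nat_lit 4) (nat_lit 412) (nat_lit 350) (nat_lit 258)) (XT.lf (nat_lit 0) (nat_lit 13548841673844) (nat_lit 76) (nat_lit 2615353952022)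 (nat_lit 76) (nat_lit 2578175317629) (nat_lit 1) (nat_lit 4) (nat_lit 2) (nat_lit 5) (nat_lit 2) (nat_lit 4) (nat_lit 413) (nat_lit 350) (nat_lit 257))) (XT.nd (nat_lit 78) (nat_lit 0) (nat_lit 0) (XT.lf (nat_lit 0) (nat_lit 15926881190246) (nat_lit 76) (nat_lit 2825254263693) (nat_lit 76) (nat_lit 2788075618316) (nat_lit 1) (nat_lit 4) (nat_lit 2) (nat_lit 5) (nat_lit 2) (nat_lit 4) (nat_lit 414) (nat_lit 350) (nat_lit 256)) (XT.lf (nat_lit 0) (nat_lit 18661626443145) (nat_lit 76) (nat_lit 3066639719790) (nat_lit 76) (nat_lit 3029461064860) (nat_lit 1) (nat_lit 4) (nat_lit 2) (nat_lit 5) (nat_lit 2) (nat_lit 4) (nat_lit 415) (nat_lit 350) (nat_lit 255)))) (XT.nd (nat_lit 48126) (nat_lit 0) (nat_lit 4788) (XT.nd (nat_lit 48048) (nat_lit 0) (nat_lit 5168) (XT.lf (nat_lit 0) (nat_lit 21806583317924) (nat_lit 76) (nat_lit 3344233079234) (nat_lit 76) (nat_lit 3307054415999) (nat_lit 1) (nat_lit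 4) (nat_lit 2) (nat_lit 5) (nat_lit 2) (nat_lit 4) (nat_lit 416) (nat_lit 350) (nat_lit 254)) (XT.lf (nat_lit 0) (nat_lit 7915769118) (nat_lit 532) (nat_lit 799985738) (nat_lit 532) (nat_lit 799985738) (nat_lit 69) (nat_lit 3) (nat_lit 76) (nat_lit 3) (nat_lit 76) (nat_lit 5) (nat_lit 351) (nat_lit 351) (nat_lit 318))) (XT.nd (nat_lit 78) (nat_lit 380) (nat_lit 0) (XT.lf (nat_lit 76) (nat_lit 16716541824) (nat_lit 0) (nat_lit 1013685688) (nat_lit 532) (nat_lit 2671500778) (nat_lit 70) (nat_lit 5) (nat_lit 69) (nat_lit 3) (nat_lit 76) (nat_lit 5) (nat_lit 352) (nat_lit 351) (nat_lit 317)) (XT.nd (nat_lit 78) (nat_lit 456) (nat_lit 0) (XT.lf (nat_lit 76) (nat_lit 16249161664) (nat_lit 0) (nat_lit 4477605370) (nat_lit 532) (nat_lit 1185738722) (nat_lit 71) (nat_lit 5) (nat_lit 70) (nat_lit 5) (nat_lit 77) (nat_lit 5) (nat_lit 353) (nat_lit 351) (nat_lit 316)) (XT.lf (nat_lit 0) (nat_lit 1354833154)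 (nat_lit 532) (nat_lit 7481808474) (nat_lit 608) (nat_lit 14743633809) (nat_lit 64) (nat_lit 5) (nat_lit 71) (nat_lit 5) (nat_lit 72) (nat_lit 5) (nat_lit 354) (nat_lit 351) (nat_lit 315))))))))
noncomputable def xc70 : XT := (XT.nd (nat_lit 1248) (nat_lit 1444) (nat_lit 0) (XT.nd (nat_lit 624) (nat_lit 1216) (nat_lit 0) (XT.nd (nat_lit 312) (nat_lit 836) (nat_lit 0) (XT.nd (nat_lit 156) (nat_lit 456) (nat_lit 0) (XT.nd (nat_lit 78) (nat_lit 456) (nat_lit 0) (XT.lf (nat_lit 0) (nat_lit 5139595367) (nat_lit 532) (nat_lit 9110582154) (nat_lit 76) (nat_lit 11170930034) (nat_lit 65) (nat_lit 5) (nat_lit 72) (nat_lit 5) (nat_lit 66) (nat_lit 5) (nat_lit 355) (nat_lit 351) (nat_lit 314)) (XT.lf (nat_lit 0) (nat_lit 10498569004) (nat_lit 532) (nat_lit 10458949996) (nat_lit 76) (nat_lit 6500048278) (nat_lit 59) (nat_lit 5) (nat_lit 66) (nat_lit 5) (nat_lit 60) (nat_lit 5) (nat_lit 356) (nat_lit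 351) (nat_lit 313))) (XT.nd (nat_lit 78) (nat_lit 228) (nat_lit 0) (XT.lf (nat_lit 0) (nat_lit 17745431943) (nat_lit 304) (nat_lit 11452773570) (nat_lit 76) (nat_lit 514586601) (nat_lit 56) (nat_lit 5) (nat_lit 60) (nat_lit 5) (nat_lit 57) (nat_lit 5) (nat_lit 357) (nat_lit 351) (nat_lit 312)) (XT.lf (nat_lit 0) (nat_lit 20015989080) (nat_lit 228) (nat_lit 7405690133) (nat_lit 304) (nat_lit 4777250127) (nat_lit 53) (nat_lit 5) (nat_lit 56) (nat_lit 5) (nat_lit 57) (nat_lit 5) (nat_lit 358) (nat_lit 351) (nat_lit 311)))) (XT.nd (nat_lit 156) (nat_lit 380) (nat_lit 0) (XT.nd (nat_lit 78) (nat_lit 228) (nat_lit 0) (XT.lf (nat_lit 0) (nat_lit 4630494602) (nat_lit 228) (nat_lit 12547011058) (nat_lit 76) (nat_lit 17768676129) (nat_lit 50) (nat_lit 5) (nat_lit 53) (nat_lit 5) (nat_lit 51) (nat_lit 5) (nat_lit 359) (nat_lit 351) (nat_lit 310)) (XT.lf (nat_lit 0) (nat_lit 16562636872) (nat_lit 304)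 (nat_lit 12491035750) (nat_lit 76) (nat_lit 8930246483) (nat_lit 47) (nat_lit 5) (nat_lit 51) (nat_lit 5) (nat_lit 48) (nat_lit 5) (nat_lit 360) (nat_lit 351) (nat_lit 309))) (XT.nd (nat_lit 78) (nat_lit 228) (nat_lit 0) (XT.lf (nat_lit 0) (nat_lit 29509785534) (nat_lit 152) (nat_lit 2311104002) (nat_lit 228) (nat_lit 9533534742) (nat_lit 45) (nat_lit 5) (nat_lit 47) (nat_lit 5) (nat_lit 48) (nat_lit 5) (nat_lit 361) (nat_lit 351) (nat_lit 308)) (XT.lf (nat_lit 0) (nat_lit 5841118880) (nat_lit 228) (nat_lit 10869394871) (nat_lit 76) (nat_lit 28359182539) (nat_lit 42) (nat_lit 5) (nat_lit 45) (nat_lit 5) (nat_lit 43) (nat_lit 5) (nat_lit 362) (nat_lit 351) (nat_lit 307))))) (XT.nd (nat_lit 312) (nat_lit 608) (nat_lit 0) (XT.nd (nat_lit 156) (nat_lit 304) (nat_lit 0) (XT.nd (nat_lit 78) (nat_lit 152) (nat_lit 0) (XT.lf (nat_lit 0) (nat_lit 24719910280) (nat_lit 228) (nat_lit 9393928247) (nat_lit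 76) (nat_lit 15067623393) (nat_lit 40) (nat_lit 5) (nat_lit 43) (nat_lit 5) (nat_lit 41) (nat_lit 5) (nat_lit 363) (nat_lit 351) (nat_lit 306)) (XT.lf (nat_lit 0) (nat_lit 46651685175) (nat_lit 152) (nat_lit 1669738485) (nat_lit 228) (nat_lit 5437302795) (nat_lit 38) (nat_lit 5) (nat_lit 40) (nat_lit 5) (nat_lit 41) (nat_lit 5) (nat_lit 364) (nat_lit 351) (nat_lit 305))) (XT.nd (nat_lit 78) (nat_lit 152) (nat_lit 0) (XT.lf (nat_lit 0) (nat_lit 18113582034) (nat_lit 152) (nat_lit 4778693988) (nat_lit 76) (nat_lit 35899044166) (nat_lit 36) (nat_lit 5) (nat_lit 38) (nat_lit 5) (nat_lit 37) (nat_lit 5) (nat_lit 365) (nat_lit 351) (nat_lit 304)) (XT.lf (nat_lit 0) (nat_lit 47040682920) (nat_lit 228) (nat_lit 1724169580) (nat_lit 76) (nat_lit 15629414029) (nat_lit 34) (nat_lit 5) (nat_lit 37) (nat_lit 5) (nat_lit 35) (nat_lit 4) (nat_lit 366) (nat_lit 351) (nat_lit 303)))) (XT.nd (nat_lit 156)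 (nat_lit 228) (nat_lit 0) (XT.nd (nat_lit 78) (nat_lit 76) (nat_lit 0) (XT.lf (nat_lit 0) (nat_lit 1835624823) (nat_lit 152) (nat_lit 9778835432) (nat_lit 228) (nat_lit 58995463096) (nat_lit 30) (nat_lit 5) (nat_lit 32) (nat_lit 5) (nat_lit 33) (nat_lit 5) (nat_lit 367) (nat_lit 351) (nat_lit 302)) (XT.lf (nat_lit 0) (nat_lit 5369218817) (nat_lit 76) (nat_lit 41549056905) (nat_lit 152) (nat_lit 30562149412) (nat_lit 29) (nat_lit 5) (nat_lit 30) (nat_lit 5) (nat_lit 31) (nat_lit 4) (nat_lit 368) (nat_lit 351) (nat_lit 301))) (XT.nd (nat_lit 78) (nat_lit 76) (nat_lit 0) (XT.lf (nat_lit 0) (nat_lit 4695918719) (nat_lit 152) (nat_lit 75632401215) (nat_lit 76) (nat_lit 4835745420) (nat_lit 27) (nat_lit 5) (nat_lit 29) (nat_lit 5) (nat_lit 28) (nat_lit 4) (nat_lit 369) (nat_lit 351) (nat_lit 300)) (XT.lf (nat_lit 0) (nat_lit 12510223483) (nat_lit 76) (nat_lit 34566257881) (nat_lit 152) (nat_lit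 46568794282) (nat_lit 26) (nat_lit 5) (nat_lit 27) (nat_lit 5) (nat_lit 28) (nat_lit 4) (nat_lit 370) (nat_lit 351) (nat_lit 299)))))) (XT.nd (nat_lit 624) (nat_lit 684) (nat_lit 0) (XT.nd (nat_lit 312) (nat_lit 304) (nat_lit 0) (XT.nd (nat_lit 156) (nat_lit 228) (nat_lit 0) (XT.nd (nat_lit 78) (nat_lit 152) (nat_lit 0) (XT.lf (nat_lit 0) (nat_lit 15494429857) (nat_lit 76) (nat_lit 83374660419) (nat_lit 76) (nat_lit 4285182141) (nat_lit 25) (nat_lit 4) (nat_lit 26) (nat_lit 5) (nat_lit 26) (nat_lit 4) (nat_lit 371) (nat_lit 351) (nat_lit 298)) (XT.lf (nat_lit 0) (nat_lit 16345153656) (nat_lit 76) (nat_lit 29539892039) (nat_lit 152) (nat_lit 67818287304) (nat_lit 23) (nat_lit 5) (nat_lit 24) (nat_lit 5) (nat_lit 25) (nat_lit 4) (nat_lit 372) (nat_lit 351) (nat_lit 297))) (XT.nd (nat_lit 78) (nat_lit 152) (nat_lit 0) (XT.lf (nat_lit 0) (nat_lit 15418104283) (nat_lit 76) (nat_lit 91674184425)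 (nat_lit 76) (nat_lit 18432344078) (nat_lit 22) (nat_lit 4) (nat_lit 23) (nat_lit 5) (nat_lit 23) (nat_lit 4) (nat_lit 373) (nat_lit 351) (nat_lit 296)) (XT.lf (nat_lit 0) (nat_lit 10824967516) (nat_lit 76) (nat_lit 29593875211) (nat_lit 152) (nat_lit 98308370357) (nat_lit 20) (nat_lit 5) (nat_lit 21) (nat_lit 5) (nat_lit 22) (nat_lit 4) (nat_lit 374) (nat_lit 351) (nat_lit 295)))) (XT.nd (nat_lit 156) (nat_lit 152) (nat_lit 0) (XT.nd (nat_lit 78) (nat_lit 76) (nat_lit 0) (XT.lf (nat_lit 0) (nat_lit 1363578817) (nat_lit 76) (nat_lit 109992225704) (nat_lit 76) (nat_lit 42168116064) (nat_lit 19) (nat_lit 4) (nat_lit 20) (nat_lit 5) (nat_lit 20) (nat_lit 4) (nat_lit 375) (nat_lit 351) (nat_lit 294)) (XT.lf (nat_lit 0) (nat_lit 25903991785) (nat_lit 152) (nat_lit 13946876817) (nat_lit 76) (nat_lit 130275700814) (nat_lit 18) (nat_lit 5) (nat_lit 20) (nat_lit 5) (nat_lit 19) (nat_lit 4) (nat_lit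 376) (nat_lit 351) (nat_lit 293))) (XT.nd (nat_lit 78) (nat_lit 76) (nat_lit 0) (XT.lf (nat_lit 0) (nat_lit 106501391545) (nat_lit 152) (nat_lit 38549723259) (nat_lit 0) (nat_lit 43695975455) (nat_lit 17) (nat_lit 5) (nat_lit 19) (nat_lit 4) (nat_lit 17) (nat_lit 4) (nat_lit 377) (nat_lit 351) (nat_lit 292)) (XT.lf (nat_lit 0) (nat_lit 135323623201) (nat_lit 76) (nat_lit 68631641538) (nat_lit 76) (nat_lit 5824075976) (nat_lit 16) (nat_lit 4) (nat_lit 17) (nat_lit 5) (nat_lit 17) (nat_lit 4) (nat_lit 378) (nat_lit 351) (nat_lit 291))))) (XT.nd (nat_lit 312) (nat_lit 304) (nat_lit 0) (XT.nd (nat_lit 156) (nat_lit 152) (nat_lit 0) (XT.nd (nat_lit 78) (nat_lit 76) (nat_lit 0) (XT.lf (nat_lit 0) (nat_lit 82287341072) (nat_lit 152) (nat_lit 127044220765) (nat_lit 0) (nat_lit 24130457120) (nat_lit 14) (nat_lit 5) (nat_lit 16) (nat_lit 4) (nat_lit 14) (nat_lit 4) (nat_lit 379) (nat_lit 351) (nat_lit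 290)) (XT.lf (nat_lit 0) (nat_lit 59244291588) (nat_lit 76) (nat_lit 129577500451) (nat_lit 76) (nat_lit 71419111581) (nat_lit 13) (nat_lit 4) (nat_lit 14) (nat_lit 5) (nat_lit 14) (nat_lit 4) (nat_lit 380) (nat_lit 351) (nat_lit 289))) (XT.nd (nat_lit 78) (nat_lit 76) (nat_lit 0) (XT.lf (nat_lit 0) (nat_lit 23073850175) (nat_lit 152) (nat_lit 10166089128) (nat_lit 76) (nat_lit 257454462107) (nat_lit 12) (nat_lit 5) (nat_lit 14) (nat_lit 5) (nat_lit 13) (nat_lit 4) (nat_lit 381) (nat_lit 351) (nat_lit 288)) (XT.lf (nat_lit 0) (nat_lit 134928348800) (nat_lit 152) (nat_lit 108970136509) (nat_lit 0) (nat_lit 81075723406) (nat_lit 11) (nat_lit 5) (nat_lit 13) (nat_lit 4) (nat_lit 11) (nat_lit 4) (nat_lit 382) (nat_lit 351) (nat_lit 287)))) (XT.nd (nat_lit 156) (nat_lit 152) (nat_lit 0) (XT.nd (nat_lit 78) (nat_lit 76) (nat_lit 0) (XT.lf (nat_lit 0) (nat_lit 117273914284) (nat_lit 76) (nat_lit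 150326241977) (nat_lit 76) (nat_lit 96472700373) (nat_lit 10) (nat_lit 4) (nat_lit 11) (nat_lit 5) (nat_lit 11) (nat_lit 4) (nat_lit 383) (nat_lit 351) (nat_lit 286)) (XT.lf (nat_lit 0) (nat_lit 13830260797) (nat_lit 152) (nat_lit 25087395850) (nat_lit 76) (nat_lit 369837145394) (nat_lit 9) (nat_lit 5) (nat_lit 11) (nat_lit 5) (nat_lit 10) (nat_lit 4) (nat_lit 384) (nat_lit 351) (nat_lit 285))) (XT.nd (nat_lit 78) (nat_lit 76) (nat_lit 0) (XT.lf (nat_lit 0) (nat_lit 143241286979) (nat_lit 152) (nat_lit 222659781746) (nat_lit 0) (nat_lit 93375517446) (nat_lit 8) (nat_lit 5) (nat_lit 10) (nat_lit 4) (nat_lit 8) (nat_lit 4) (nat_lit 385) (nat_lit 351) (nat_lit 284)) (XT.nd (nat_lit 78) (nat_lit 0) (nat_lit 0) (XT.lf (nat_lit 0) (nat_lit 21764396769) (nat_lit 76) (nat_lit 272645449162) (nat_lit 76) (nat_lit 222779121830) (nat_lit 7) (nat_lit 4) (nat_lit 8) (nat_lit 5) (nat_lit 8) (nat_lit 4)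 (nat_lit 386) (nat_lit 351) (nat_lit 283)) (XT.lf (nat_lit 0) (nat_lit 316329711415) (nat_lit 76) (nat_lit 158403473971) (nat_lit 76) (nat_lit 108536661596) (nat_lit 7) (nat_lit 4) (nat_lit 8) (nat_lit 5) (nat_lit 8) (nat_lit 4) (nat_lit 387) (nat_lit 351) (nat_lit 282))))))))
noncomputable def xc71 : XT := (XT.nd (nat_lit 1326) (nat_lit 0) (nat_lit 0) (XT.nd (nat_lit 624) (nat_lit 76) (nat_lit 0) (XT.nd (nat_lit 312) (nat_lit 152) (nat_lit 0) (XT.nd (nat_lit 156) (nat_lit 76) (nat_lit 0) (XT.nd (nat_lit 78) (nat_lit 76) (nat_lit 0) (XT.lf (nat_lit 0) (nat_lit 21696830418) (nat_lit 152) (nat_lit 4737826879) (nat_lit 76) (nat_lit 632784466878) (nat_lit 6) (nat_lit 5) (nat_lit 8) (nat_lit 5) (nat_lit 7) (nat_lit 4) (nat_lit 388) (nat_lit 351) (nat_lit 281)) (XT.lf (nat_lit 0) (nat_lit 175942109468) (nat_lit 152) (nat_lit 439752480342) (nat_lit 0) (nat_lit 129768404919) (nat_lit 5) (nat_lit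 5) (nat_lit 7) (nat_lit 4) (nat_lit 5) (nat_lit 4) (nat_lit 389) (nat_lit 351) (nat_lit 280))) (XT.nd (nat_lit 78) (nat_lit 76) (nat_lit 0) (XT.lf (nat_lit 0) (nat_lit 354194634103) (nat_lit 152) (nat_lit 182358541287) (nat_lit 0) (nat_lit 308020634255) (nat_lit 5) (nat_lit 5) (nat_lit 7) (nat_lit 4) (nat_lit 5) (nat_lit 4) (nat_lit 390) (nat_lit 351) (nat_lit 279)) (XT.lf (nat_lit 0) (nat_lit 119624736726) (nat_lit 76) (nat_lit 442435380205) (nat_lit 76) (nat_lit 396261123574) (nat_lit 4) (nat_lit 4) (nat_lit 5) (nat_lit 5) (nat_lit 5) (nat_lit 4) (nat_lit 391) (nat_lit 351) (nat_lit 278)))) (XT.nd (nat_lit 156) (nat_lit 152) (nat_lit 0) (XT.nd (nat_lit 78) (nat_lit 0) (nat_lit 0) (XT.lf (nat_lit 0) (nat_lit 477945047204) (nat_lit 76) (nat_lit 328467811908) (nat_lit 76) (nat_lit 282293331988) (nat_lit 4) (nat_lit 4) (nat_lit 5) (nat_lit 5) (nat_lit 5) (nat_lit 4) (nat_lit 392) (nat_lit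 351) (nat_lit 277)) (XT.lf (nat_lit 0) (nat_lit 890010327296) (nat_lit 76) (nat_lit 197406675936) (nat_lit 76) (nat_lit 151232001852) (nat_lit 4) (nat_lit 4) (nat_lit 5) (nat_lit 5) (nat_lit 5) (nat_lit 4) (nat_lit 393) (nat_lit 351) (nat_lit 276))) (XT.nd (nat_lit 78) (nat_lit 152) (nat_lit 0) (XT.lf (nat_lit 0) (nat_lit 1363882723789) (nat_lit 76) (nat_lit 46687732673) (nat_lit 76) (nat_lit 512889751) (nat_lit 4) (nat_lit 4) (nat_lit 5) (nat_lit 5) (nat_lit 5) (nat_lit 4) (nat_lit 394) (nat_lit 351) (nat_lit 275)) (XT.lf (nat_lit 0) (nat_lit 174991642136) (nat_lit 152) (nat_lit 1300955886673) (nat_lit 0) (nat_lit 132237022008) (nat_lit 2) (nat_lit 5) (nat_lit 4) (nat_lit 4) (nat_lit 2) (nat_lit 4) (nat_lit 395) (nat_lit 351) (nat_lit 274))))) (XT.nd (nat_lit 312) (nat_lit 76) (nat_lit 0) (XT.nd (nat_lit 156) (nat_lit 0) (nat_lit 0) (XT.nd (nat_lit 78) (nat_lit 0) (nat_lit 0) (XT.lf (nat_lit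 0) (nat_lit 379492406784) (nat_lit 152) (nat_lit 1118403721424) (nat_lit 0) (nat_lit 336737668447) (nat_lit 2) (nat_lit 5) (nat_lit 4) (nat_lit 4) (nat_lit 2) (nat_lit 4) (nat_lit 396) (nat_lit 351) (nat_lit 273)) (XT.lf (nat_lit 0) (nat_lit 614667331646) (nat_lit 152) (nat_lit 908470683590) (nat_lit 0) (nat_lit 571912490518) (nat_lit 2) (nat_lit 5) (nat_lit 4) (nat_lit 4) (nat_lit 2) (nat_lit 4) (nat_lit 397) (nat_lit 351) (nat_lit 272))) (XT.nd (nat_lit 78) (nat_lit 0) (nat_lit 0) (XT.lf (nat_lit 0) (nat_lit 885117665251) (nat_lit 152) (nat_lit 667049387650) (nat_lit 0) (nat_lit 842362734740) (nat_lit 2) (nat_lit 5) (nat_lit 4) (nat_lit 4) (nat_lit 2) (nat_lit 4) (nat_lit 398) (nat_lit 351) (nat_lit 271)) (XT.lf (nat_lit 0) (nat_lit 1196134827171) (nat_lit 152) (nat_lit 389416373464) (nat_lit 0) (nat_lit 1153379818934) (nat_lit 2) (nat_lit 5) (nat_lit 4) (nat_lit 4) (nat_lit 2) (nat_lit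 4) (nat_lit 399) (nat_lit 351) (nat_lit 270)))) (XT.nd (nat_lit 156) (nat_lit 0) (nat_lit 0) (XT.nd (nat_lit 78) (nat_lit 76) (nat_lit 0) (XT.lf (nat_lit 0) (nat_lit 1553803935789) (nat_lit 152) (nat_lit 70139690756) (nat_lit 0) (nat_lit 1511048859966) (nat_lit 2) (nat_lit 5) (nat_lit 4) (nat_lit 4) (nat_lit 2) (nat_lit 4) (nat_lit 400) (nat_lit 351) (nat_lit 269)) (XT.lf (nat_lit 0) (nat_lit 312668313536) (nat_lit 76) (nat_lit 1659974231895) (nat_lit 76) (nat_lit 1617219097301) (nat_lit 1) (nat_lit 4) (nat_lit 2) (nat_lit 5) (nat_lit 2) (nat_lit 4) (nat_lit 401) (nat_lit 351) (nat_lit 268))) (XT.nd (nat_lit 78) (nat_lit 0) (nat_lit 0) (XT.lf (nat_lit 0) (nat_lit 757143943363) (nat_lit 76) (nat_lit 1699204545667) (nat_lit 76) (nat_lit 1656449359968) (nat_lit 1) (nat_lit 4) (nat_lit 2) (nat_lit 5) (nat_lit 2) (nat_lit 4) (nat_lit 402) (nat_lit 351) (nat_lit 267)) (XT.nd (nat_lit 78) (nat_lit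 0) (nat_lit 0) (XT.lf (nat_lit 0) (nat_lit 1268290029230) (nat_lit 76) (nat_lit 1744319860923) (nat_lit 76) (nat_lit 1701564630784) (nat_lit 1) (nat_lit 4) (nat_lit 2) (nat_lit 5) (nat_lit 2) (nat_lit 4) (nat_lit 403) (nat_lit 351) (nat_lit 266)) (XT.lf (nat_lit 0) (nat_lit 1856107255426) (nat_lit 76) (nat_lit 1796202868613) (nat_lit 76) (nat_lit 1753447599831) (nat_lit 1) (nat_lit 4) (nat_lit 2) (nat_lit 5) (nat_lit 2) (nat_lit 4) (nat_lit 404) (nat_lit 351) (nat_lit 265))))))) (XT.nd (nat_lit 624) (nat_lit 0) (nat_lit 0) (XT.nd (nat_lit 312) (nat_lit 0) (nat_lit 0) (XT.nd (nat_lit 156) (nat_lit 0) (nat_lit 0) (XT.nd (nat_lit 78) (nat_lit 0) (nat_lit 0) (XT.lf (nat_lit 0) (nat_lit 2532096393767) (nat_lit 76) (nat_lit 1855868671061) (nat_lit 76) (nat_lit 1813113368677) (nat_lit 1) (nat_lit 4) (nat_lit 2) (nat_lit 5) (nat_lit 2) (nat_lit 4) (nat_lit 405) (nat_lit 351) (nat_lit 264)) (XT.lf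 (nat_lit 0) (nat_lit 3309483318699) (nat_lit 76) (nat_lit 1924484642664) (nat_lit 76) (nat_lit 1881729311061) (nat_lit 1) (nat_lit 4) (nat_lit 2) (nat_lit 5) (nat_lit 2) (nat_lit 4) (nat_lit 406) (nat_lit 351) (nat_lit 263))) (XT.nd (nat_lit 78) (nat_lit 0) (nat_lit 0) (XT.lf (nat_lit 0) (nat_lit 4203477774405) (nat_lit 76) (nat_lit 2003393269822) (nat_lit 76) (nat_lit 1960637912811) (nat_lit 1) (nat_lit 4) (nat_lit 2) (nat_lit 5) (nat_lit 2) (nat_lit 4) (nat_lit 407) (nat_lit 351) (nat_lit 262)) (XT.lf (nat_lit 0) (nat_lit 5231570956759) (nat_lit 76) (nat_lit 2094138416980) (nat_lit 76) (nat_lit 2051383037874) (nat_lit 1) (nat_lit 4) (nat_lit 2) (nat_lit 5) (nat_lit 2) (nat_lit 4) (nat_lit 408) (nat_lit 351) (nat_lit 261)))) (XT.nd (nat_lit 156) (nat_lit 0) (nat_lit 0) (XT.nd (nat_lit 78) (nat_lit 0) (nat_lit 0) (XT.lf (nat_lit 0) (nat_lit 6413877732371) (nat_lit 76) (nat_lit 2198495532669)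 (nat_lit 76) (nat_lit 2155740134351) (nat_lit 1) (nat_lit 4) (nat_lit 2) (nat_lit 5) (nat_lit 2) (nat_lit 4) (nat_lit 409) (nat_lit 351) (nat_lit 260)) (XT.lf (nat_lit 0) (nat_lit 7773530190329) (nat_lit 76) (nat_lit 2318506386544) (nat_lit 76) (nat_lit 2275750971519) (nat_lit 1) (nat_lit 4) (nat_lit 2) (nat_lit 5) (nat_lit 2) (nat_lit 4) (nat_lit 410) (nat_lit 351) (nat_lit 259))) (XT.nd (nat_lit 78) (nat_lit 0) (nat_lit 0) (XT.lf (nat_lit 0) (nat_lit 9337130226551) (nat_lit 76) (nat_lit 2456519017050) (nat_lit 76) (nat_lit 2413763587498) (nat_lit 1) (nat_lit 4) (nat_lit 2) (nat_lit 5) (nat_lit 2) (nat_lit 4) (nat_lit 411) (nat_lit 351) (nat_lit 258)) (XT.lf (nat_lit 0) (nat_lit 11135270015657) (nat_lit 76) (nat_lit 2615233671305) (nat_lit 76) (nat_lit 2572478229121) (nat_lit 1) (nat_lit 4) (nat_lit 2) (nat_lit 5) (nat_lit 2) (nat_lit 4) (nat_lit 412) (nat_lit 351) (nat_lit 257))))) (XT.nd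 (nat_lit 48360) (nat_lit 0) (nat_lit 4788) (XT.nd (nat_lit 156) (nat_lit 0) (nat_lit 0) (XT.nd (nat_lit 78) (nat_lit 0) (nat_lit 0) (XT.lf (nat_lit 0) (nat_lit 13203130553522) (nat_lit 76) (nat_lit 2797755636025) (nat_lit 76) (nat_lit 2755000182856) (nat_lit 1) (nat_lit 4) (nat_lit 2) (nat_lit 5) (nat_lit 2) (nat_lit 4) (nat_lit 413) (nat_lit 351) (nat_lit 256)) (XT.lf (nat_lit 0) (nat_lit 15581169981104) (nat_lit 76) (nat_lit 3007655993126) (nat_lit 76) (nat_lit 2964900530405) (nat_lit 1) (nat_lit 4) (nat_lit 2) (nat_lit 5) (nat_lit 2) (nat_lit 4) (nat_lit 414) (nat_lit 351) (nat_lit 255))) (XT.nd (nat_lit 78) (nat_lit 0) (nat_lit 0) (XT.lf (nat_lit 0) (nat_lit 18315915156768) (nat_lit 76) (nat_lit 3249041488726) (nat_lit 76) (nat_lit 3206286017699) (nat_lit 1) (nat_lit 4) (nat_lit 2) (nat_lit 5) (nat_lit 2) (nat_lit 4) (nat_lit 415) (nat_lit 351) (nat_lit 254)) (XT.lf (nat_lit 0) (nat_lit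 21460871964386) (nat_lit 76) (nat_lit 3526634882522) (nat_lit 76) (nat_lit 3483879404273) (nat_lit 1) (nat_lit 4) (nat_lit 2) (nat_lit 5) (nat_lit 2) (nat_lit 4) (nat_lit 416) (nat_lit 351) (nat_lit 253)))) (XT.nd (nat_lit 156) (nat_lit 380) (nat_lit 0) (XT.nd (nat_lit 78) (nat_lit 0) (nat_lit 0) (XT.lf (nat_lit 0) (nat_lit 9399618094) (nat_lit 532) (nat_lit 759782720) (nat_lit 532) (nat_lit 759782720) (nat_lit 69) (nat_lit 3) (nat_lit 76) (nat_lit 3) (nat_lit 76) (nat_lit 5) (nat_lit 352) (nat_lit 352) (nat_lit 316)) (XT.lf (nat_lit 76) (nat_lit 19517304443) (nat_lit 0) (nat_lit 1395134287) (nat_lit 532) (nat_lit 2507387749) (nat_lit 70) (nat_lit 5) (nat_lit 69) (nat_lit 3) (nat_lit 76) (nat_lit 5) (nat_lit 353) (nat_lit 352) (nat_lit 315))) (XT.nd (nat_lit 78) (nat_lit 456) (nat_lit 0) (XT.lf (nat_lit 76) (nat_lit 18998634775) (nat_lit 0) (nat_lit 5294357749) (nat_lit 532) (nat_lit 869510618)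 (nat_lit 71) (nat_lit 5) (nat_lit 70) (nat_lit 5) (nat_lit 77) (nat_lit 5) (nat_lit 354) (nat_lit 352) (nat_lit 314)) (XT.nd (nat_lit 78) (nat_lit 0) (nat_lit 76) (XT.lf (nat_lit 0) (nat_lit 1971055513) (nat_lit 532) (nat_lit 8259456491) (nat_lit 608) (nat_lit 16853522090) (nat_lit 64) (nat_lit 5) (nat_lit 71) (nat_lit 5) (nat_lit 72) (nat_lit 5) (nat_lit 355) (nat_lit 352) (nat_lit 313)) (XT.lf (nat_lit 0) (nat_lit 6276016619) (nat_lit 532) (nat_lit 10130935634) (nat_lit 76) (nat_lit 12797871690) (nat_lit 65) (nat_lit 5) (nat_lit 72) (nat_lit 5) (nat_lit 66) (nat_lit 5) (nat_lit 356) (nat_lit 352) (nat_lit 312))))))))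
noncomputable def xc72 : XT := (XT.nd (nat_lit 1248) (nat_lit 1444) (nat_lit 0) (XT.nd (nat_lit 624) (nat_lit 1140) (nat_lit 0) (XT.nd (nat_lit 312) (nat_lit 760) (nat_lit 0) (XT.nd (nat_lit 156) (nat_lit 456) (nat_lit 0) (XT.nd (nat_lit 78) (nat_lit 228) (nat_lit 0) (XT.lf (nat_lit 0) (nat_lit 12398582282) (nat_lit 532) (nat_lit 11684442821) (nat_lit 76) (nat_lit 7466975391) (nat_lit 59) (nat_lit 5) (nat_lit 66) (nat_lit 5) (nat_lit 60) (nat_lit 5) (nat_lit 357) (nat_lit 352) (nat_lit 311)) (XT.lf (nat_lit 0) (nat_lit 20698187543) (nat_lit 304) (nat_lit 12833589150) (nat_lit 76) (nat_lit 614499286) (nat_lit 56) (nat_lit 5) (nat_lit 60) (nat_lit 5) (nat_lit 57) (nat_lit 5) (nat_lit 358) (nat_lit 352) (nat_lit 310))) (XT.nd (nat_lit 78) (nat_lit 228) (nat_lit 0) (XT.lf (nat_lit 0) (nat_lit 23326954024) (nat_lit 228) (nat_lit 8468390113) (nat_lit 304) (nat_lit 5212452701) (nat_lit 53) (nat_lit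 5) (nat_lit 56) (nat_lit 5) (nat_lit 57) (nat_lit 5) (nat_lit 359) (nat_lit 352) (nat_lit 309)) (XT.lf (nat_lit 0) (nat_lit 5565961371) (nat_lit 228) (nat_lit 14115681310) (nat_lit 76) (nat_lit 20487083167) (nat_lit 50) (nat_lit 5) (nat_lit 53) (nat_lit 5) (nat_lit 51) (nat_lit 5) (nat_lit 360) (nat_lit 352) (nat_lit 308)))) (XT.nd (nat_lit 156) (nat_lit 380) (nat_lit 0) (XT.nd (nat_lit 78) (nat_lit 152) (nat_lit 0) (XT.lf (nat_lit 0) (nat_lit 19265098241) (nat_lit 304) (nat_lit 14062124160) (nat_lit 76) (nat_lit 10336742083) (nat_lit 47) (nat_lit 5) (nat_lit 51) (nat_lit 5) (nat_lit 48) (nat_lit 5) (nat_lit 361) (nat_lit 352) (nat_lit 307)) (XT.lf (nat_lit 0) (nat_lit 34213209532) (nat_lit 152) (nat_lit 2577096705) (nat_lit 228) (nat_lit 10751494482) (nat_lit 45) (nat_lit 5) (nat_lit 47) (nat_lit 5) (nat_lit 48) (nat_lit 5) (nat_lit 362) (nat_lit 352) (nat_lit 306))) (XT.nd (nat_lit 78)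 (nat_lit 152) (nat_lit 0) (XT.lf (nat_lit 0) (nat_lit 6900769978) (nat_lit 228) (nat_lit 12223885988) (nat_lit 76) (nat_lit 32690748038) (nat_lit 42) (nat_lit 5) (nat_lit 45) (nat_lit 5) (nat_lit 43) (nat_lit 5) (nat_lit 363) (nat_lit 352) (nat_lit 305)) (XT.lf (nat_lit 0) (nat_lit 28595612502) (nat_lit 228) (nat_lit 10539236156) (nat_lit 76) (nat_lit 17410356107) (nat_lit 40) (nat_lit 5) (nat_lit 43) (nat_lit 5) (nat_lit 41) (nat_lit 5) (nat_lit 364) (nat_lit 352) (nat_lit 304))))) (XT.nd (nat_lit 312) (nat_lit 380) (nat_lit 0) (XT.nd (nat_lit 156) (nat_lit 456) (nat_lit 0) (XT.nd (nat_lit 78) (nat_lit 152) (nat_lit 0) (XT.lf (nat_lit 0) (nat_lit 53890891503) (nat_lit 152) (nat_lit 1830392390) (nat_lit 228) (nat_lit 6089068326) (nat_lit 38) (nat_lit 5) (nat_lit 40) (nat_lit 5) (nat_lit 41) (nat_lit 5) (nat_lit 365) (nat_lit 352) (nat_lit 303)) (XT.lf (nat_lit 0) (nat_lit 20973560451) (nat_lit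 152) (nat_lit 5257738989) (nat_lit 76) (nat_lit 41367242048) (nat_lit 36) (nat_lit 5) (nat_lit 38) (nat_lit 5) (nat_lit 37) (nat_lit 5) (nat_lit 366) (nat_lit 352) (nat_lit 302))) (XT.nd (nat_lit 78) (nat_lit 304) (nat_lit 0) (XT.lf (nat_lit 0) (nat_lit 54228434965) (nat_lit 228) (nat_lit 1756881436) (nat_lit 76) (nat_lit 18057522104) (nat_lit 34) (nat_lit 5) (nat_lit 37) (nat_lit 5) (nat_lit 35) (nat_lit 4) (nat_lit 367) (nat_lit 352) (nat_lit 301)) (XT.lf (nat_lit 0) (nat_lit 2335474412) (nat_lit 152) (nat_lit 11149137900) (nat_lit 228) (nat_lit 67706531886) (nat_lit 30) (nat_lit 5) (nat_lit 32) (nat_lit 5) (nat_lit 33) (nat_lit 5) (nat_lit 368) (nat_lit 352) (nat_lit 300)))) (XT.nd (nat_lit 156) (nat_lit 152) (nat_lit 0) (XT.nd (nat_lit 78) (nat_lit 152) (nat_lit 0) (XT.lf (nat_lit 0) (nat_lit 6387377868) (nat_lit 76) (nat_lit 47687064656) (nat_lit 152) (nat_lit 35018547116) (nat_lit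 29) (nat_lit 5) (nat_lit 30) (nat_lit 5) (nat_lit 31) (nat_lit 4) (nat_lit 369) (nat_lit 352) (nat_lit 299)) (XT.lf (nat_lit 0) (nat_lit 5512974288) (nat_lit 152) (nat_lit 86769924287) (nat_lit 76) (nat_lit 5646742849) (nat_lit 27) (nat_lit 5) (nat_lit 29) (nat_lit 5) (nat_lit 28) (nat_lit 4) (nat_lit 370) (nat_lit 352) (nat_lit 298))) (XT.nd (nat_lit 78) (nat_lit 76) (nat_lit 0) (XT.lf (nat_lit 0) (nat_lit 14576544062) (nat_lit 76) (nat_lit 39663945855) (nat_lit 152) (nat_lit 53443356503) (nat_lit 26) (nat_lit 5) (nat_lit 27) (nat_lit 5) (nat_lit 28) (nat_lit 4) (nat_lit 371) (nat_lit 352) (nat_lit 297)) (XT.lf (nat_lit 0) (nat_lit 17997920840) (nat_lit 76) (nat_lit 95796832506) (nat_lit 76) (nat_lit 4825020611) (nat_lit 25) (nat_lit 4) (nat_lit 26) (nat_lit 5) (nat_lit 26) (nat_lit 4) (nat_lit 372) (nat_lit 352) (nat_lit 296)))))) (XT.nd (nat_lit 624) (nat_lit 608) (nat_lit 0) (XT.nd (nat_lit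 312) (nat_lit 380) (nat_lit 0) (XT.nd (nat_lit 156) (nat_lit 228) (nat_lit 0) (XT.nd (nat_lit 78) (nat_lit 76) (nat_lit 0) (XT.lf (nat_lit 0) (nat_lit 18965800678) (nat_lit 76) (nat_lit 33891097584) (nat_lit 152) (nat_lit 77894794663) (nat_lit 23) (nat_lit 5) (nat_lit 24) (nat_lit 5) (nat_lit 25) (nat_lit 4) (nat_lit 373) (nat_lit 352) (nat_lit 295)) (XT.lf (nat_lit 0) (nat_lit 17890178951) (nat_lit 76) (nat_lit 105348928592) (nat_lit 76) (nat_lit 21107571364) (nat_lit 22) (nat_lit 4) (nat_lit 23) (nat_lit 5) (nat_lit 23) (nat_lit 4) (nat_lit 374) (nat_lit 352) (nat_lit 294))) (XT.nd (nat_lit 78) (nat_lit 76) (nat_lit 0) (XT.lf (nat_lit 0) (nat_lit 12598695713) (nat_lit 76) (nat_lit 33960616132) (nat_lit 152) (nat_lit 112970763127) (nat_lit 20) (nat_lit 5) (nat_lit 21) (nat_lit 5) (nat_lit 22) (nat_lit 4) (nat_lit 375) (nat_lit 352) (nat_lit 293)) (XT.lf (nat_lit 0) (nat_lit 1709504443)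 (nat_lit 76) (nat_lit 126422099418) (nat_lit 76) (nat_lit 48415102990) (nat_lit 19) (nat_lit 4) (nat_lit 20) (nat_lit 5) (nat_lit 20) (nat_lit 4) (nat_lit 376) (nat_lit 352) (nat_lit 292)))) (XT.nd (nat_lit 156) (nat_lit 228) (nat_lit 0) (XT.nd (nat_lit 78) (nat_lit 76) (nat_lit 0) (XT.lf (nat_lit 0) (nat_lit 29854214099) (nat_lit 152) (nat_lit 15912552531) (nat_lit 76) (nat_lit 149873612253) (nat_lit 18) (nat_lit 5) (nat_lit 20) (nat_lit 5) (nat_lit 19) (nat_lit 4) (nat_lit 377) (nat_lit 352) (nat_lit 291)) (XT.lf (nat_lit 0) (nat_lit 122536939562) (nat_lit 152) (nat_lit 44213161237) (nat_lit 0) (nat_lit 50304220586) (nat_lit 17) (nat_lit 5) (nat_lit 19) (nat_lit 4) (nat_lit 17) (nat_lit 4) (nat_lit 378) (nat_lit 352) (nat_lit 290))) (XT.nd (nat_lit 78) (nat_lit 152) (nat_lit 0) (XT.lf (nat_lit 0) (nat_lit 155731112699) (nat_lit 76) (nat_lit 78872530849) (nat_lit 76) (nat_lit 6638186563)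 (nat_lit 16) (nat_lit 4) (nat_lit 17) (nat_lit 5) (nat_lit 17) (nat_lit 4) (nat_lit 379) (nat_lit 352) (nat_lit 289)) (XT.lf (nat_lit 0) (nat_lit 94683280454) (nat_lit 152) (nat_lit 145995490882) (nat_lit 0) (nat_lit 27798319715) (nat_lit 14) (nat_lit 5) (nat_lit 16) (nat_lit 4) (nat_lit 14) (nat_lit 4) (nat_lit 380) (nat_lit 352) (nat_lit 288))))) (XT.nd (nat_lit 312) (nat_lit 304) (nat_lit 0) (XT.nd (nat_lit 156) (nat_lit 152) (nat_lit 0) (XT.nd (nat_lit 78) (nat_lit 76) (nat_lit 0) (XT.lf (nat_lit 0) (nat_lit 68227379871) (nat_lit 76) (nat_lit 148965946747) (nat_lit 76) (nat_lit 82079848075) (nat_lit 13) (nat_lit 4) (nat_lit 14) (nat_lit 5) (nat_lit 14) (nat_lit 4) (nat_lit 381) (nat_lit 352) (nat_lit 287)) (XT.lf (nat_lit 0) (nat_lit 26577990725) (nat_lit 152) (nat_lit 11604867469) (nat_lit 76) (nat_lit 296112255801) (nat_lit 12) (nat_lit 5) (nat_lit 14) (nat_lit 5) (nat_lit 13) (nat_lit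 4) (nat_lit 382) (nat_lit 352) (nat_lit 286))) (XT.nd (nat_lit 78) (nat_lit 76) (nat_lit 0) (XT.lf (nat_lit 0) (nat_lit 155207893452) (nat_lit 152) (nat_lit 125234613247) (nat_lit 0) (nat_lit 93274607692) (nat_lit 11) (nat_lit 5) (nat_lit 13) (nat_lit 4) (nat_lit 11) (nat_lit 4) (nat_lit 383) (nat_lit 352) (nat_lit 285)) (XT.lf (nat_lit 0) (nat_lit 134939185217) (nat_lit 76) (nat_lit 172837815415) (nat_lit 76) (nat_lit 110903836869) (nat_lit 10) (nat_lit 4) (nat_lit 11) (nat_lit 5) (nat_lit 11) (nat_lit 4) (nat_lit 384) (nat_lit 352) (nat_lit 284)))) (XT.nd (nat_lit 156) (nat_lit 152) (nat_lit 0) (XT.nd (nat_lit 78) (nat_lit 76) (nat_lit 0) (XT.lf (nat_lit 0) (nat_lit 15937651373) (nat_lit 152) (nat_lit 28784266111) (nat_lit 76) (nat_lit 425343475173) (nat_lit 9) (nat_lit 5) (nat_lit 11) (nat_lit 5) (nat_lit 10) (nat_lit 4) (nat_lit 385) (nat_lit 352) (nat_lit 283)) (XT.lf (nat_lit 0) (nat_lit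 164758240832) (nat_lit 152) (nat_lit 255996449474) (nat_lit 0) (nat_lit 107410921559) (nat_lit 8) (nat_lit 5) (nat_lit 10) (nat_lit 4) (nat_lit 8) (nat_lit 4) (nat_lit 386) (nat_lit 352) (nat_lit 282))) (XT.nd (nat_lit 78) (nat_lit 76) (nat_lit 0) (XT.lf (nat_lit 0) (nat_lit 25086082473) (nat_lit 76) (nat_lit 313513360356) (nat_lit 76) (nat_lit 256165619306) (nat_lit 7) (nat_lit 4) (nat_lit 8) (nat_lit 5) (nat_lit 8) (nat_lit 4) (nat_lit 387) (nat_lit 352) (nat_lit 281)) (XT.nd (nat_lit 78) (nat_lit 76) (nat_lit 0) (XT.lf (nat_lit 0) (nat_lit 363828756118) (nat_lit 76) (nat_lit 182138859257) (nat_lit 76) (nat_lit 124790751445) (nat_lit 7) (nat_lit 4) (nat_lit 8) (nat_lit 5) (nat_lit 8) (nat_lit 4) (nat_lit 388) (nat_lit 352) (nat_lit 280)) (XT.lf (nat_lit 0) (nat_lit 24973170882) (nat_lit 152) (nat_lit 5404231300) (nat_lit 76) (nat_lit 727722844516) (nat_lit 6) (nat_lit 5) (nat_lit 8) (nat_lit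 5) (nat_lit 7) (nat_lit 4) (nat_lit 389) (nat_lit 352) (nat_lit 279))))))))
noncomputable def xc73 : XT := (XT.nd (nat_lit 1248) (nat_lit 0) (nat_lit 0) (XT.nd (nat_lit 624) (nat_lit 76) (nat_lit 0) (XT.nd (nat_lit 312) (nat_lit 152) (nat_lit 0) (XT.nd (nat_lit 156) (nat_lit 76) (nat_lit 0) (XT.nd (nat_lit 78) (nat_lit 0) (nat_lit 0) (XT.lf (nat_lit 0) (nat_lit 202353865691) (nat_lit 152) (nat_lit 505673728557) (nat_lit 0) (nat_lit 149253213783) (nat_lit 5) (nat_lit 5) (nat_lit 7) (nat_lit 4) (nat_lit 5) (nat_lit 4) (nat_lit 390) (nat_lit 352) (nat_lit 278)) (XT.lf (nat_lit 0) (nat_lit 407341602960) (nat_lit 152) (nat_lit 209676127839) (nat_lit 0) (nat_lit 354240727764) (nat_lit 5) (nat_lit 5) (nat_lit 7) (nat_lit 4) (nat_lit 5) (nat_lit 4) (nat_lit 391) (nat_lit 352) (nat_lit 277))) (XT.nd (nat_lit 78) (nat_lit 0) (nat_lit 0) (XT.lf (nat_lit 0) (nat_lit 137601578180) (nat_lit 76) (nat_lit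 508783808518) (nat_lit 76) (nat_lit 455682739158) (nat_lit 4) (nat_lit 4) (nat_lit 5) (nat_lit 5) (nat_lit 5) (nat_lit 4) (nat_lit 392) (nat_lit 352) (nat_lit 276)) (XT.lf (nat_lit 0) (nat_lit 549665613802) (nat_lit 76) (nat_lit 377723306549) (nat_lit 76) (nat_lit 324622068349) (nat_lit 4) (nat_lit 4) (nat_lit 5) (nat_lit 5) (nat_lit 5) (nat_lit 4) (nat_lit 393) (nat_lit 352) (nat_lit 275)))) (XT.nd (nat_lit 156) (nat_lit 152) (nat_lit 0) (XT.nd (nat_lit 78) (nat_lit 0) (nat_lit 0) (XT.lf (nat_lit 0) (nat_lit 1023536928145) (nat_lit 76) (nat_lit 227004914591) (nat_lit 76) (nat_lit 173903529576) (nat_lit 4) (nat_lit 4) (nat_lit 5) (nat_lit 5) (nat_lit 5) (nat_lit 4) (nat_lit 394) (nat_lit 352) (nat_lit 274)) (XT.lf (nat_lit 0) (nat_lit 1568486916492) (nat_lit 76) (nat_lit 53679794543) (nat_lit 76) (nat_lit 578281862) (nat_lit 4) (nat_lit 4) (nat_lit 5) (nat_lit 5) (nat_lit 5) (nat_lit 4)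 (nat_lit 395) (nat_lit 352) (nat_lit 273))) (XT.nd (nat_lit 78) (nat_lit 0) (nat_lit 0) (XT.lf (nat_lit 0) (nat_lit 201250665805) (nat_lit 152) (nat_lit 1496078249441) (nat_lit 0) (nat_lit 152082495716) (nat_lit 2) (nat_lit 5) (nat_lit 4) (nat_lit 4) (nat_lit 2) (nat_lit 4) (nat_lit 396) (nat_lit 352) (nat_lit 272)) (XT.lf (nat_lit 0) (nat_lit 436425204627) (nat_lit 152) (nat_lit 1286146001174) (nat_lit 0) (nat_lit 387256945155) (nat_lit 2) (nat_lit 5) (nat_lit 4) (nat_lit 4) (nat_lit 2) (nat_lit 4) (nat_lit 397) (nat_lit 352) (nat_lit 271))))) (XT.nd (nat_lit 312) (nat_lit 76) (nat_lit 0) (XT.nd (nat_lit 156) (nat_lit 0) (nat_lit 0) (XT.nd (nat_lit 78) (nat_lit 0) (nat_lit 0) (XT.lf (nat_lit 0) (nat_lit 706875202545) (nat_lit 152) (nat_lit 1044725391813) (nat_lit 0) (nat_lit 657706865349) (nat_lit 2) (nat_lit 5) (nat_lit 4) (nat_lit 4) (nat_lit 2) (nat_lit 4) (nat_lit 398) (nat_lit 352)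 (nat_lit 270)) (XT.lf (nat_lit 0) (nat_lit 1017892072562) (nat_lit 152) (nat_lit 767092974653) (nat_lit 0) (nat_lit 968723667779) (nat_lit 2) (nat_lit 5) (nat_lit 4) (nat_lit 4) (nat_lit 2) (nat_lit 4) (nat_lit 399) (nat_lit 352) (nat_lit 269))) (XT.nd (nat_lit 78) (nat_lit 0) (nat_lit 0) (XT.lf (nat_lit 0) (nat_lit 1375560927353) (nat_lit 152) (nat_lit 447816811098) (nat_lit 0) (nat_lit 1326392463799) (nat_lit 2) (nat_lit 5) (nat_lit 4) (nat_lit 4) (nat_lit 2) (nat_lit 4) (nat_lit 400) (nat_lit 352) (nat_lit 268)) (XT.lf (nat_lit 0) (nat_lit 1786879635816) (nat_lit 152) (nat_lit 80650193599) (nat_lit 0) (nat_lit 1737711121157) (nat_lit 2) (nat_lit 5) (nat_lit 4) (nat_lit 4) (nat_lit 2) (nat_lit 4) (nat_lit 401) (nat_lit 352) (nat_lit 267)))) (XT.nd (nat_lit 156) (nat_lit 0) (nat_lit 0) (XT.nd (nat_lit 78) (nat_lit 0) (nat_lit 0) (XT.lf (nat_lit 0) (nat_lit 359578126731) (nat_lit 76) (nat_lit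 1908965473762) (nat_lit 76) (nat_lit 1859796914664) (nat_lit 1) (nat_lit 4) (nat_lit 2) (nat_lit 5) (nat_lit 2) (nat_lit 4) (nat_lit 402) (nat_lit 352) (nat_lit 266)) (XT.lf (nat_lit 0) (nat_lit 870723853272) (nat_lit 76) (nat_lit 1954080972806) (nat_lit 76) (nat_lit 1904912375065) (nat_lit 1) (nat_lit 4) (nat_lit 2) (nat_lit 5) (nat_lit 2) (nat_lit 4) (nat_lit 403) (nat_lit 352) (nat_lit 265))) (XT.nd (nat_lit 78) (nat_lit 0) (nat_lit 0) (XT.lf (nat_lit 0) (nat_lit 1458540767010) (nat_lit 76) (nat_lit 2005964140313) (nat_lit 76) (nat_lit 1956795508969) (nat_lit 1) (nat_lit 4) (nat_lit 2) (nat_lit 5) (nat_lit 2) (nat_lit 4) (nat_lit 404) (nat_lit 352) (nat_lit 264)) (XT.lf (nat_lit 0) (nat_lit 2134529633649) (nat_lit 76) (nat_lit 2065630081732) (nat_lit 76) (nat_lit 2016461421169) (nat_lit 1) (nat_lit 4) (nat_lit 2) (nat_lit 5) (nat_lit 2) (nat_lit 4) (nat_lit 405) (nat_lit 352) (nat_lit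 263)))))) (XT.nd (nat_lit 624) (nat_lit 0) (nat_lit 0) (XT.nd (nat_lit 312) (nat_lit 0) (nat_lit 0) (XT.nd (nat_lit 156) (nat_lit 0) (nat_lit 0) (XT.nd (nat_lit 78) (nat_lit 0) (nat_lit 0) (XT.lf (nat_lit 0) (nat_lit 2911916322318) (nat_lit 76) (nat_lit 2134246174179) (nat_lit 76) (nat_lit 2085077488207) (nat_lit 1) (nat_lit 4) (nat_lit 2) (nat_lit 5) (nat_lit 2) (nat_lit 4) (nat_lit 406) (nat_lit 352) (nat_lit 262)) (XT.lf (nat_lit 0) (nat_lit 3805910572578) (nat_lit 76) (nat_lit 2213154906419) (nat_lit 76) (nat_lit 2163986198353) (nat_lit 1) (nat_lit 4) (nat_lit 2) (nat_lit 5) (nat_lit 2) (nat_lit 4) (nat_lit 407) (nat_lit 352) (nat_lit 261))) (XT.nd (nat_lit 78) (nat_lit 0) (nat_lit 0) (XT.lf (nat_lit 0) (nat_lit 4834003576283) (nat_lit 76) (nat_lit 2303900144952) (nat_lit 76) (nat_lit 2254731417674) (nat_lit 1) (nat_lit 4) (nat_lit 2) (nat_lit 5) (nat_lit 2) (nat_lit 4) (nat_lit 408)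 (nat_lit 352) (nat_lit 260)) (XT.lf (nat_lit 0) (nat_lit 6016310196549) (nat_lit 76) (nat_lit 2408257340098) (nat_lit 76) (nat_lit 2359088596114) (nat_lit 1) (nat_lit 4) (nat_lit 2) (nat_lit 5) (nat_lit 2) (nat_lit 4) (nat_lit 409) (nat_lit 352) (nat_lit 259)))) (XT.nd (nat_lit 156) (nat_lit 0) (nat_lit 0) (XT.nd (nat_lit 78) (nat_lit 0) (nat_lit 0) (XT.lf (nat_lit 0) (nat_lit 7375962519423) (nat_lit 76) (nat_lit 2528268263066) (nat_lit 76) (nat_lit 2479099504554) (nat_lit 1) (nat_lit 4) (nat_lit 2) (nat_lit 5) (nat_lit 2) (nat_lit 4) (nat_lit 410) (nat_lit 352) (nat_lit 258)) (XT.lf (nat_lit 0) (nat_lit 8939562438180) (nat_lit 76) (nat_lit 2666280953653) (nat_lit 76) (nat_lit 2617112182509) (nat_lit 1) (nat_lit 4) (nat_lit 2) (nat_lit 5) (nat_lit 2) (nat_lit 4) (nat_lit 411) (nat_lit 352) (nat_lit 257))) (XT.nd (nat_lit 78) (nat_lit 0) (nat_lit 0) (XT.lf (nat_lit 0) (nat_lit 10737702125143)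 (nat_lit 76) (nat_lit 2824995660153) (nat_lit 76) (nat_lit 2775826878024) (nat_lit 1) (nat_lit 4) (nat_lit 2) (nat_lit 5) (nat_lit 2) (nat_lit 4) (nat_lit 412) (nat_lit 352) (nat_lit 256)) (XT.lf (nat_lit 0) (nat_lit 12805562574188) (nat_lit 76) (nat_lit 3007517670302) (nat_lit 76) (nat_lit 2958348878621) (nat_lit 1) (nat_lit 4) (nat_lit 2) (nat_lit 5) (nat_lit 2) (nat_lit 4) (nat_lit 413) (nat_lit 352) (nat_lit 255))))) (XT.nd (nat_lit 48438) (nat_lit 0) (nat_lit 4408) (XT.nd (nat_lit 156) (nat_lit 0) (nat_lit 0) (XT.nd (nat_lit 78) (nat_lit 0) (nat_lit 0) (XT.lf (nat_lit 0) (nat_lit 15183601924535) (nat_lit 76) (nat_lit 3217418066907) (nat_lit 76) (nat_lit 3168249266920) (nat_lit 1) (nat_lit 4) (nat_lit 2) (nat_lit 5) (nat_lit 2) (nat_lit 4) (nat_lit 414) (nat_lit 352) (nat_lit 254)) (XT.lf (nat_lit 0) (nat_lit 17918347033038) (nat_lit 76) (nat_lit 3458803596859) (nat_lit 76) (nat_lit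 3409634789650) (nat_lit 1) (nat_lit 4) (nat_lit 2) (nat_lit 5) (nat_lit 2) (nat_lit 4) (nat_lit 415) (nat_lit 352) (nat_lit 253))) (XT.nd (nat_lit 48204) (nat_lit 0) (nat_lit 5168) (XT.lf (nat_lit 0) (nat_lit 21063303782256) (nat_lit 76) (nat_lit 3736397020526) (nat_lit 76) (nat_lit 3687228207036) (nat_lit 1) (nat_lit 4) (nat_lit 2) (nat_lit 5) (nat_lit 2) (nat_lit 4) (nat_lit 416) (nat_lit 352) (nat_lit 252)) (XT.lf (nat_lit 0) (nat_lit 11033745012) (nat_lit 532) (nat_lit 752615248) (nat_lit 532) (nat_lit 752615248) (nat_lit 69) (nat_lit 3) (nat_lit 76) (nat_lit 3) (nat_lit 76) (nat_lit 5) (nat_lit 353) (nat_lit 353) (nat_lit 314)))) (XT.nd (nat_lit 156) (nat_lit 760) (nat_lit 0) (XT.nd (nat_lit 78) (nat_lit 0) (nat_lit 76) (XT.lf (nat_lit 76) (nat_lit 22666662941) (nat_lit 0) (nat_lit 1777860570) (nat_lit 532) (nat_lit 2456397124) (nat_lit 70) (nat_lit 5) (nat_lit 69) (nat_lit 3) (nat_lit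 76) (nat_lit 5) (nat_lit 354) (nat_lit 353) (nat_lit 313)) (XT.lf (nat_lit 76) (nat_lit 22084421569) (nat_lit 0) (nat_lit 6198236609) (nat_lit 532) (nat_lit 626335009) (nat_lit 71) (nat_lit 5) (nat_lit 70) (nat_lit 5) (nat_lit 77) (nat_lit 5) (nat_lit 355) (nat_lit 353) (nat_lit 312))) (XT.nd (nat_lit 78) (nat_lit 380) (nat_lit 0) (XT.lf (nat_lit 0) (nat_lit 2578999197) (nat_lit 532) (nat_lit 9237790274) (nat_lit 608) (nat_lit 19304683266) (nat_lit 64) (nat_lit 5) (nat_lit 71) (nat_lit 5) (nat_lit 72) (nat_lit 5) (nat_lit 356) (nat_lit 353) (nat_lit 311)) (XT.nd (nat_lit 78) (nat_lit 456) (nat_lit 0) (XT.lf (nat_lit 0) (nat_lit 7493775971) (nat_lit 532) (nat_lit 11388773452) (nat_lit 76) (nat_lit 14680729873) (nat_lit 65) (nat_lit 5) (nat_lit 72) (nat_lit 5) (nat_lit 66) (nat_lit 5) (nat_lit 357) (nat_lit 353) (nat_lit 310)) (XT.lf (nat_lit 0) (nat_lit 14504288663) (nat_lit 532) (nat_lit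 13177487561) (nat_lit 76) (nat_lit 8580911961) (nat_lit 59) (nat_lit 5) (nat_lit 66) (nat_lit 5) (nat_lit 60) (nat_lit 5) (nat_lit 358) (nat_lit 353) (nat_lit 309))))))))
noncomputable def xc74 : XT := (XT.nd (nat_lit 1248) (nat_lit 1368) (nat_lit 0) (XT.nd (nat_lit 624) (nat_lit 1140) (nat_lit 0) (XT.nd (nat_lit 312) (nat_lit 684) (nat_lit 0) (XT.nd (nat_lit 156) (nat_lit 456) (nat_lit 0) (XT.nd (nat_lit 78) (nat_lit 228) (nat_lit 0) (XT.lf (nat_lit 0) (nat_lit 24022908724) (nat_lit 304) (nat_lit 14503731147) (nat_lit 76) (nat_lit 723857312) (nat_lit 56) (nat_lit 5) (nat_lit 60) (nat_lit 5) (nat_lit 57) (nat_lit 5) (nat_lit 359) (nat_lit 353) (nat_lit 308)) (XT.lf (nat_lit 0) (nat_lit 27059317794) (nat_lit 228) (nat_lit 9702237634) (nat_lit 304) (nat_lit 5781553163) (nat_lit 53) (nat_lit 5) (nat_lit 56) (nat_lit 5) (nat_lit 57) (nat_lit 5) (nat_lit 360) (nat_lit 353) (nat_lit 307))) (XT.nd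 (nat_lit 78) (nat_lit 228) (nat_lit 0) (XT.lf (nat_lit 0) (nat_lit 6583004974) (nat_lit 228) (nat_lit 15996072140) (nat_lit 76) (nat_lit 23600301119) (nat_lit 50) (nat_lit 5) (nat_lit 53) (nat_lit 5) (nat_lit 51) (nat_lit 5) (nat_lit 361) (nat_lit 353) (nat_lit 306)) (XT.lf (nat_lit 0) (nat_lit 22319752079) (nat_lit 304) (nat_lit 15942658699) (nat_lit 76) (nat_lit 11937883737) (nat_lit 47) (nat_lit 5) (nat_lit 51) (nat_lit 5) (nat_lit 48) (nat_lit 5) (nat_lit 362) (nat_lit 353) (nat_lit 305)))) (XT.nd (nat_lit 156) (nat_lit 304) (nat_lit 0) (XT.nd (nat_lit 78) (nat_lit 228) (nat_lit 0) (XT.lf (nat_lit 0) (nat_lit 39554609613) (nat_lit 152) (nat_lit 2902660911) (nat_lit 228) (nat_lit 12203862910) (nat_lit 45) (nat_lit 5) (nat_lit 47) (nat_lit 5) (nat_lit 48) (nat_lit 5) (nat_lit 363) (nat_lit 353) (nat_lit 304)) (XT.lf (nat_lit 0) (nat_lit 8074625185) (nat_lit 228) (nat_lit 13848835152) (nat_lit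 76) (nat_lit 37653103623) (nat_lit 42) (nat_lit 5) (nat_lit 45) (nat_lit 5) (nat_lit 43) (nat_lit 5) (nat_lit 364) (nat_lit 353) (nat_lit 303))) (XT.nd (nat_lit 78) (nat_lit 152) (nat_lit 0) (XT.lf (nat_lit 0) (nat_lit 33011771526) (nat_lit 228) (nat_lit 11920664999) (nat_lit 76) (nat_lit 20084358827) (nat_lit 40) (nat_lit 5) (nat_lit 43) (nat_lit 5) (nat_lit 41) (nat_lit 5) (nat_lit 365) (nat_lit 353) (nat_lit 302)) (XT.lf (nat_lit 0) (nat_lit 62157098803) (nat_lit 152) (nat_lit 2037044355) (nat_lit 228) (nat_lit 6878549643) (nat_lit 38) (nat_lit 5) (nat_lit 40) (nat_lit 5) (nat_lit 41) (nat_lit 5) (nat_lit 366) (nat_lit 353) (nat_lit 301))))) (XT.nd (nat_lit 312) (nat_lit 456) (nat_lit 0) (XT.nd (nat_lit 156) (nat_lit 380) (nat_lit 0) (XT.nd (nat_lit 78) (nat_lit 152) (nat_lit 0) (XT.lf (nat_lit 0) (nat_lit 24227678536) (nat_lit 152) (nat_lit 5866619801) (nat_lit 76) (nat_lit 47635346318)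 (nat_lit 36) (nat_lit 5) (nat_lit 38) (nat_lit 5) (nat_lit 37) (nat_lit 5) (nat_lit 367) (nat_lit 353) (nat_lit 300)) (XT.lf (nat_lit 0) (nat_lit 62462246226) (nat_lit 228) (nat_lit 1849590527) (nat_lit 76) (nat_lit 20829436599) (nat_lit 34) (nat_lit 5) (nat_lit 37) (nat_lit 5) (nat_lit 35) (nat_lit 4) (nat_lit 368) (nat_lit 353) (nat_lit 299))) (XT.nd (nat_lit 78) (nat_lit 76) (nat_lit 0) (XT.lf (nat_lit 0) (nat_lit 2855554263) (nat_lit 152) (nat_lit 12748523446) (nat_lit 228) (nat_lit 77757974297) (nat_lit 30) (nat_lit 5) (nat_lit 32) (nat_lit 5) (nat_lit 33) (nat_lit 5) (nat_lit 369) (nat_lit 353) (nat_lit 298)) (XT.lf (nat_lit 0) (nat_lit 7506373946) (nat_lit 76) (nat_lit 54768781606) (nat_lit 152) (nat_lit 40174599725) (nat_lit 29) (nat_lit 5) (nat_lit 30) (nat_lit 5) (nat_lit 31) (nat_lit 4) (nat_lit 370) (nat_lit 353) (nat_lit 297)))) (XT.nd (nat_lit 156) (nat_lit 228) (nat_lit 0)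 (XT.nd (nat_lit 78) (nat_lit 76) (nat_lit 0) (XT.lf (nat_lit 0) (nat_lit 6425113444) (nat_lit 152) (nat_lit 99628636287) (nat_lit 76) (nat_lit 6558507105) (nat_lit 27) (nat_lit 5) (nat_lit 29) (nat_lit 5) (nat_lit 28) (nat_lit 4) (nat_lit 371) (nat_lit 353) (nat_lit 296)) (XT.lf (nat_lit 0) (nat_lit 16906531953) (nat_lit 76) (nat_lit 45547563664) (nat_lit 152) (nat_lit 61376111835) (nat_lit 26) (nat_lit 5) (nat_lit 27) (nat_lit 5) (nat_lit 28) (nat_lit 4) (nat_lit 372) (nat_lit 353) (nat_lit 295))) (XT.nd (nat_lit 78) (nat_lit 152) (nat_lit 0) (XT.lf (nat_lit 0) (nat_lit 20833205568) (nat_lit 76) (nat_lit 110102820917) (nat_lit 76) (nat_lit 5470937142) (nat_lit 25) (nat_lit 4) (nat_lit 26) (nat_lit 5) (nat_lit 26) (nat_lit 4) (nat_lit 373) (nat_lit 353) (nat_lit 294)) (XT.lf (nat_lit 0) (nat_lit 21938363765) (nat_lit 76) (nat_lit 38914438395) (nat_lit 152) (nat_lit 89506245820) (nat_lit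 23) (nat_lit 5) (nat_lit 24) (nat_lit 5) (nat_lit 25) (nat_lit 4) (nat_lit 374) (nat_lit 353) (nat_lit 293)))))) (XT.nd (nat_lit 624) (nat_lit 608) (nat_lit 0) (XT.nd (nat_lit 312) (nat_lit 380) (nat_lit 0) (XT.nd (nat_lit 156) (nat_lit 152) (nat_lit 0) (XT.nd (nat_lit 78) (nat_lit 152) (nat_lit 0) (XT.lf (nat_lit 0) (nat_lit 20694204113) (nat_lit 76) (nat_lit 121093510983) (nat_lit 76) (nat_lit 24205938203) (nat_lit 22) (nat_lit 4) (nat_lit 23) (nat_lit 5) (nat_lit 23) (nat_lit 4) (nat_lit 375) (nat_lit 353) (nat_lit 292)) (XT.lf (nat_lit 0) (nat_lit 14601908818) (nat_lit 76) (nat_lit 39000008846) (nat_lit 152) (nat_lit 129852965284) (nat_lit 20) (nat_lit 5) (nat_lit 21) (nat_lit 5) (nat_lit 22) (nat_lit 4) (nat_lit 376) (nat_lit 353) (nat_lit 291))) (XT.nd (nat_lit 78) (nat_lit 76) (nat_lit 0) (XT.lf (nat_lit 0) (nat_lit 2072840357) (nat_lit 76) (nat_lit 145333270556) (nat_lit 76) (nat_lit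 55618214954) (nat_lit 19) (nat_lit 4) (nat_lit 20) (nat_lit 5) (nat_lit 20) (nat_lit 4) (nat_lit 377) (nat_lit 353) (nat_lit 290)) (XT.lf (nat_lit 0) (nat_lit 34381210899) (nat_lit 152) (nat_lit 18203892266) (nat_lit 76) (nat_lit 172397418793) (nat_lit 18) (nat_lit 5) (nat_lit 20) (nat_lit 5) (nat_lit 19) (nat_lit 4) (nat_lit 378) (nat_lit 353) (nat_lit 289)))) (XT.nd (nat_lit 156) (nat_lit 228) (nat_lit 0) (XT.nd (nat_lit 78) (nat_lit 76) (nat_lit 0) (XT.lf (nat_lit 0) (nat_lit 140963105664) (nat_lit 152) (nat_lit 50755138817) (nat_lit 0) (nat_lit 57890571113) (nat_lit 17) (nat_lit 5) (nat_lit 19) (nat_lit 4) (nat_lit 17) (nat_lit 4) (nat_lit 379) (nat_lit 353) (nat_lit 288)) (XT.lf (nat_lit 0) (nat_lit 179173158446) (nat_lit 76) (nat_lit 90662686907) (nat_lit 76) (nat_lit 7588923388) (nat_lit 16) (nat_lit 4) (nat_lit 17) (nat_lit 5) (nat_lit 17) (nat_lit 4) (nat_lit 380) (nat_lit 353)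 (nat_lit 287))) (XT.nd (nat_lit 78) (nat_lit 76) (nat_lit 0) (XT.lf (nat_lit 0) (nat_lit 108925725809) (nat_lit 152) (nat_lit 167815144952) (nat_lit 0) (nat_lit 32004584896) (nat_lit 14) (nat_lit 5) (nat_lit 16) (nat_lit 4) (nat_lit 14) (nat_lit 4) (nat_lit 381) (nat_lit 353) (nat_lit 286)) (XT.lf (nat_lit 0) (nat_lit 78534412783) (nat_lit 76) (nat_lit 171274408686) (nat_lit 76) (nat_lit 94352407332) (nat_lit 13) (nat_lit 4) (nat_lit 14) (nat_lit 5) (nat_lit 14) (nat_lit 4) (nat_lit 382) (nat_lit 353) (nat_lit 285))))) (XT.nd (nat_lit 312) (nat_lit 304) (nat_lit 0) (XT.nd (nat_lit 156) (nat_lit 152) (nat_lit 0) (XT.nd (nat_lit 78) (nat_lit 76) (nat_lit 0) (XT.lf (nat_lit 0) (nat_lit 30597251168) (nat_lit 152) (nat_lit 13280467134) (nat_lit 76) (nat_lit 340559055893) (nat_lit 12) (nat_lit 5) (nat_lit 14) (nat_lit 5) (nat_lit 13) (nat_lit 4) (nat_lit 383) (nat_lit 353) (nat_lit 284)) (XT.lf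 (nat_lit 0) (nat_lit 178519544260) (nat_lit 152) (nat_lit 143958524524) (nat_lit 0) (nat_lit 107294173722) (nat_lit 11) (nat_lit 5) (nat_lit 13) (nat_lit 4) (nat_lit 11) (nat_lit 4) (nat_lit 384) (nat_lit 353) (nat_lit 283))) (XT.nd (nat_lit 78) (nat_lit 76) (nat_lit 0) (XT.lf (nat_lit 0) (nat_lit 155236156603) (nat_lit 76) (nat_lit 198735236039) (nat_lit 76) (nat_lit 127509341655) (nat_lit 10) (nat_lit 4) (nat_lit 11) (nat_lit 5) (nat_lit 11) (nat_lit 4) (nat_lit 385) (nat_lit 353) (nat_lit 282)) (XT.lf (nat_lit 0) (nat_lit 18353139501) (nat_lit 152) (nat_lit 33051819739) (nat_lit 76) (nat_lit 489168253893) (nat_lit 9) (nat_lit 5) (nat_lit 11) (nat_lit 5) (nat_lit 10) (nat_lit 4) (nat_lit 386) (nat_lit 353) (nat_lit 281)))) (XT.nd (nat_lit 156) (nat_lit 152) (nat_lit 0) (XT.nd (nat_lit 78) (nat_lit 76) (nat_lit 0) (XT.lf (nat_lit 0) (nat_lit 189495236546) (nat_lit 152) (nat_lit 294348809496)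 (nat_lit 0) (nat_lit 123544545801) (nat_lit 8) (nat_lit 5) (nat_lit 10) (nat_lit 4) (nat_lit 8) (nat_lit 4) (nat_lit 387) (nat_lit 353) (nat_lit 280)) (XT.lf (nat_lit 0) (nat_lit 28892114836) (nat_lit 76) (nat_lit 360518507184) (nat_lit 76) (nat_lit 294567497514) (nat_lit 7) (nat_lit 4) (nat_lit 8) (nat_lit 5) (nat_lit 8) (nat_lit 4) (nat_lit 388) (nat_lit 353) (nat_lit 279))) (XT.nd (nat_lit 78) (nat_lit 152) (nat_lit 0) (XT.lf (nat_lit 0) (nat_lit 418440565181) (nat_lit 76) (nat_lit 209440681863) (nat_lit 76) (nat_lit 143489394869) (nat_lit 7) (nat_lit 4) (nat_lit 8) (nat_lit 5) (nat_lit 8) (nat_lit 4) (nat_lit 389) (nat_lit 353) (nat_lit 278)) (XT.nd (nat_lit 78) (nat_lit 76) (nat_lit 0) (XT.lf (nat_lit 0) (nat_lit 28735642469) (nat_lit 152) (nat_lit 6181391809) (nat_lit 76) (nat_lit 836896929118) (nat_lit 6) (nat_lit 5) (nat_lit 8) (nat_lit 5) (nat_lit 7) (nat_lit 4) (nat_lit 390) (nat_lit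 353) (nat_lit 277)) (XT.lf (nat_lit 0) (nat_lit 232722400972) (nat_lit 152) (nat_lit 581493314239) (nat_lit 0) (nat_lit 171655977043) (nat_lit 5) (nat_lit 5) (nat_lit 7) (nat_lit 4) (nat_lit 5) (nat_lit 4) (nat_lit 391) (nat_lit 353) (nat_lit 276))))))))
noncomputable def xc75 : XT := (XT.nd (nat_lit 1326) (nat_lit 0) (nat_lit 0) (XT.nd (nat_lit 624) (nat_lit 76) (nat_lit 0) (XT.nd (nat_lit 312) (nat_lit 152) (nat_lit 0) (XT.nd (nat_lit 156) (nat_lit 0) (nat_lit 0) (XT.nd (nat_lit 78) (nat_lit 76) (nat_lit 0) (XT.lf (nat_lit 0) (nat_lit 468456282906) (nat_lit 152) (nat_lit 241100178667) (nat_lit 0) (nat_lit 407389690139) (nat_lit 5) (nat_lit 5) (nat_lit 7) (nat_lit 4) (nat_lit 5) (nat_lit 4) (nat_lit 392) (nat_lit 353) (nat_lit 275)) (XT.lf (nat_lit 0) (nat_lit 158266866662) (nat_lit 76) (nat_lit 585088617061) (nat_lit 76) (nat_lit 524021877477) (nat_lit 4) (nat_lit 4) (nat_lit 5) (nat_lit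 5) (nat_lit 5) (nat_lit 4) (nat_lit 393) (nat_lit 353) (nat_lit 274))) (XT.nd (nat_lit 78) (nat_lit 0) (nat_lit 0) (XT.lf (nat_lit 0) (nat_lit 632137240006) (nat_lit 76) (nat_lit 434370704500) (nat_lit 76) (nat_lit 373303837250) (nat_lit 4) (nat_lit 4) (nat_lit 5) (nat_lit 5) (nat_lit 5) (nat_lit 4) (nat_lit 394) (nat_lit 353) (nat_lit 273)) (XT.lf (nat_lit 0) (nat_lit 1177086410092) (nat_lit 76) (nat_lit 261046001319) (nat_lit 76) (nat_lit 199979023055) (nat_lit 4) (nat_lit 4) (nat_lit 5) (nat_lit 5) (nat_lit 5) (nat_lit 4) (nat_lit 395) (nat_lit 353) (nat_lit 272)))) (XT.nd (nat_lit 156) (nat_lit 0) (nat_lit 0) (XT.nd (nat_lit 78) (nat_lit 152) (nat_lit 0) (XT.lf (nat_lit 0) (nat_lit 1803776425901) (nat_lit 76) (nat_lit 61723372019) (nat_lit 76) (nat_lit 656297221) (nat_lit 4) (nat_lit 4) (nat_lit 5) (nat_lit 5) (nat_lit 5) (nat_lit 4) (nat_lit 396) (nat_lit 353) (nat_lit 271)) (XT.lf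 (nat_lit 0) (nat_lit 231446036827) (nat_lit 152) (nat_lit 1720474092541) (nat_lit 0) (nat_lit 174902371327) (nat_lit 2) (nat_lit 5) (nat_lit 4) (nat_lit 4) (nat_lit 2) (nat_lit 4) (nat_lit 397) (nat_lit 353) (nat_lit 270))) (XT.nd (nat_lit 78) (nat_lit 0) (nat_lit 0) (XT.lf (nat_lit 0) (nat_lit 501895742844) (nat_lit 152) (nat_lit 1479054080206) (nat_lit 0) (nat_lit 445352009757) (nat_lit 2) (nat_lit 5) (nat_lit 4) (nat_lit 4) (nat_lit 2) (nat_lit 4) (nat_lit 398) (nat_lit 353) (nat_lit 269)) (XT.lf (nat_lit 0) (nat_lit 812912359034) (nat_lit 152) (nat_lit 1201422182199) (nat_lit 0) (nat_lit 756368567176) (nat_lit 2) (nat_lit 5) (nat_lit 4) (nat_lit 4) (nat_lit 2) (nat_lit 4) (nat_lit 399) (nat_lit 353) (nat_lit 268))))) (XT.nd (nat_lit 312) (nat_lit 0) (nat_lit 0) (XT.nd (nat_lit 156) (nat_lit 76) (nat_lit 0) (XT.nd (nat_lit 78) (nat_lit 0) (nat_lit 0) (XT.lf (nat_lit 0) (nat_lit 1170580993105)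 (nat_lit 152) (nat_lit 882146470080) (nat_lit 0) (nat_lit 1114037150142) (nat_lit 2) (nat_lit 5) (nat_lit 4) (nat_lit 4) (nat_lit 2) (nat_lit 4) (nat_lit 400) (nat_lit 353) (nat_lit 267)) (XT.lf (nat_lit 0) (nat_lit 1581899509638) (nat_lit 152) (nat_lit 514980245136) (nat_lit 0) (nat_lit 1525355622235) (nat_lit 2) (nat_lit 5) (nat_lit 4) (nat_lit 4) (nat_lit 2) (nat_lit 4) (nat_lit 401) (nat_lit 353) (nat_lit 266))) (XT.nd (nat_lit 78) (nat_lit 76) (nat_lit 0) (XT.lf (nat_lit 0) (nat_lit 2054915444824) (nat_lit 152) (nat_lit 92739820355) (nat_lit 0) (nat_lit 1998371518779) (nat_lit 2) (nat_lit 5) (nat_lit 4) (nat_lit 4) (nat_lit 2) (nat_lit 4) (nat_lit 402) (nat_lit 353) (nat_lit 265)) (XT.lf (nat_lit 0) (nat_lit 413522079136) (nat_lit 76) (nat_lit 2195306595078) (nat_lit 76) (nat_lit 2138762635430) (nat_lit 1) (nat_lit 4) (nat_lit 2) (nat_lit 5) (nat_lit 2) (nat_lit 4) (nat_lit 403) (nat_lit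 353) (nat_lit 264)))) (XT.nd (nat_lit 156) (nat_lit 0) (nat_lit 0) (XT.nd (nat_lit 78) (nat_lit 0) (nat_lit 0) (XT.lf (nat_lit 0) (nat_lit 1001338721172) (nat_lit 76) (nat_lit 2247189901555) (nat_lit 76) (nat_lit 2190645912688) (nat_lit 1) (nat_lit 4) (nat_lit 2) (nat_lit 5) (nat_lit 2) (nat_lit 4) (nat_lit 404) (nat_lit 353) (nat_lit 263)) (XT.lf (nat_lit 0) (nat_lit 1677327351548) (nat_lit 76) (nat_lit 2306855963818) (nat_lit 76) (nat_lit 2250311949543) (nat_lit 1) (nat_lit 4) (nat_lit 2) (nat_lit 5) (nat_lit 2) (nat_lit 4) (nat_lit 405) (nat_lit 353) (nat_lit 262))) (XT.nd (nat_lit 78) (nat_lit 0) (nat_lit 0) (XT.lf (nat_lit 0) (nat_lit 2454713834771) (nat_lit 76) (nat_lit 2375472161347) (nat_lit 76) (nat_lit 2318928124977) (nat_lit 1) (nat_lit 4) (nat_lit 2) (nat_lit 5) (nat_lit 2) (nat_lit 4) (nat_lit 406) (nat_lit 353) (nat_lit 261)) (XT.nd (nat_lit 78) (nat_lit 0) (nat_lit 0) (XT.lf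 (nat_lit 0) (nat_lit 3348707906383) (nat_lit 76) (nat_lit 2454380984963) (nat_lit 76) (nat_lit 2397836929380) (nat_lit 1) (nat_lit 4) (nat_lit 2) (nat_lit 5) (nat_lit 2) (nat_lit 4) (nat_lit 407) (nat_lit 353) (nat_lit 260)) (XT.lf (nat_lit 0) (nat_lit 4376800754741) (nat_lit 76) (nat_lit 2545126302953) (nat_lit 76) (nat_lit 2488582230665) (nat_lit 1) (nat_lit 4) (nat_lit 2) (nat_lit 5) (nat_lit 2) (nat_lit 4) (nat_lit 408) (nat_lit 353) (nat_lit 259))))))) (XT.nd (nat_lit 48828) (nat_lit 0) (nat_lit 3724) (XT.nd (nat_lit 312) (nat_lit 0) (nat_lit 0) (XT.nd (nat_lit 156) (nat_lit 0) (nat_lit 0) (XT.nd (nat_lit 78) (nat_lit 0) (nat_lit 0) (XT.lf (nat_lit 0) (nat_lit 5559107239922) (nat_lit 76) (nat_lit 2649483567192) (nat_lit 76) (nat_lit 2592939480376) (nat_lit 1) (nat_lit 4) (nat_lit 2) (nat_lit 5) (nat_lit 2) (nat_lit 4) (nat_lit 409) (nat_lit 353) (nat_lit 258)) (XT.lf (nat_lit 0) (nat_lit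 6918759445332) (nat_lit 76) (nat_lit 2769494550241) (nat_lit 76) (nat_lit 2712950450792) (nat_lit 1) (nat_lit 4) (nat_lit 2) (nat_lit 5) (nat_lit 2) (nat_lit 4) (nat_lit 410) (nat_lit 353) (nat_lit 257))) (XT.nd (nat_lit 78) (nat_lit 0) (nat_lit 0) (XT.lf (nat_lit 0) (nat_lit 8482359261946) (nat_lit 76) (nat_lit 2907507293072) (nat_lit 76) (nat_lit 2850963182639) (nat_lit 1) (nat_lit 4) (nat_lit 2) (nat_lit 5) (nat_lit 2) (nat_lit 4) (nat_lit 411) (nat_lit 353) (nat_lit 256)) (XT.lf (nat_lit 0) (nat_lit 10280498860090) (nat_lit 76) (nat_lit 3066222045001) (nat_lit 76) (nat_lit 3009677925017) (nat_lit 1) (nat_lit 4) (nat_lit 2) (nat_lit 5) (nat_lit 2) (nat_lit 4) (nat_lit 412) (nat_lit 353) (nat_lit 255)))) (XT.nd (nat_lit 156) (nat_lit 0) (nat_lit 0) (XT.nd (nat_lit 78) (nat_lit 0) (nat_lit 0) (XT.lf (nat_lit 0) (nat_lit 12348359231900) (nat_lit 76) (nat_lit 3248744094655) (nat_lit 76) (nat_lit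 3192199966364) (nat_lit 1) (nat_lit 4) (nat_lit 2) (nat_lit 5) (nat_lit 2) (nat_lit 4) (nat_lit 413) (nat_lit 353) (nat_lit 254)) (XT.lf (nat_lit 0) (nat_lit 14726398515086) (nat_lit 76) (nat_lit 3458644525611) (nat_lit 76) (nat_lit 3402100390098) (nat_lit 1) (nat_lit 4) (nat_lit 2) (nat_lit 5) (nat_lit 2) (nat_lit 4) (nat_lit 414) (nat_lit 353) (nat_lit 253))) (XT.nd (nat_lit 78) (nat_lit 0) (nat_lit 0) (XT.lf (nat_lit 0) (nat_lit 17461143565189) (nat_lit 76) (nat_lit 3700030085434) (nat_lit 76) (nat_lit 3643485943640) (nat_lit 1) (nat_lit 4) (nat_lit 2) (nat_lit 5) (nat_lit 2) (nat_lit 4) (nat_lit 415) (nat_lit 353) (nat_lit 252)) (XT.lf (nat_lit 0) (nat_lit 20606100263623) (nat_lit 76) (nat_lit 3977623535075) (nat_lit 76) (nat_lit 3921079387820) (nat_lit 1) (nat_lit 4) (nat_lit 2) (nat_lit 5) (nat_lit 2) (nat_lit 4) (nat_lit 416) (nat_lit 353) (nat_lit 251))))) (XT.nd (nat_lit 312) (nat_lit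 1064) (nat_lit 0) (XT.nd (nat_lit 156) (nat_lit 380) (nat_lit 0) (XT.nd (nat_lit 78) (nat_lit 0) (nat_lit 0) (XT.lf (nat_lit 0) (nat_lit 12858322229) (nat_lit 532) (nat_lit 773912163) (nat_lit 532) (nat_lit 773912163) (nat_lit 69) (nat_lit 3) (nat_lit 76) (nat_lit 3) (nat_lit 76) (nat_lit 5) (nat_lit 354) (nat_lit 354) (nat_lit 312)) (XT.lf (nat_lit 76) (nat_lit 26234346943) (nat_lit 0) (nat_lit 2175697418) (nat_lit 532) (nat_lit 2501908649) (nat_lit 70) (nat_lit 5) (nat_lit 69) (nat_lit 3) (nat_lit 76) (nat_lit 5) (nat_lit 355) (nat_lit 354) (nat_lit 311))) (XT.nd (nat_lit 78) (nat_lit 456) (nat_lit 0) (XT.lf (nat_lit 76) (nat_lit 25575528341) (nat_lit 0) (nat_lit 7210940114) (nat_lit 532) (nat_lit 437788322) (nat_lit 71) (nat_lit 5) (nat_lit 70) (nat_lit 5) (nat_lit 77) (nat_lit 5) (nat_lit 356) (nat_lit 354) (nat_lit 310)) (XT.lf (nat_lit 0) (nat_lit 3201981672) (nat_lit 532) (nat_lit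 10426419351) (nat_lit 608) (nat_lit 22142263156) (nat_lit 64) (nat_lit 5) (nat_lit 71) (nat_lit 5) (nat_lit 72) (nat_lit 5) (nat_lit 357) (nat_lit 354) (nat_lit 309)))) (XT.nd (nat_lit 156) (nat_lit 684) (nat_lit 0) (XT.nd (nat_lit 78) (nat_lit 456) (nat_lit 0) (XT.lf (nat_lit 0) (nat_lit 8826807857) (nat_lit 532) (nat_lit 12899129146) (nat_lit 76) (nat_lit 16854996201) (nat_lit 65) (nat_lit 5) (nat_lit 72) (nat_lit 5) (nat_lit 66) (nat_lit 5) (nat_lit 358) (nat_lit 354) (nat_lit 308)) (XT.lf (nat_lit 0) (nat_lit 16865882085) (nat_lit 532) (nat_lit 14957799404) (nat_lit 76) (nat_lit 9863428914) (nat_lit 59) (nat_lit 5) (nat_lit 66) (nat_lit 5) (nat_lit 60) (nat_lit 5) (nat_lit 359) (nat_lit 354) (nat_lit 307))) (XT.nd (nat_lit 78) (nat_lit 456) (nat_lit 0) (XT.lf (nat_lit 0) (nat_lit 27792691384) (nat_lit 304) (nat_lit 16486552539) (nat_lit 76) (nat_lit 845428826) (nat_lit 56) (nat_lit 5)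 (nat_lit 60) (nat_lit 5) (nat_lit 57) (nat_lit 5) (nat_lit 360) (nat_lit 354) (nat_lit 306)) (XT.nd (nat_lit 78) (nat_lit 228) (nat_lit 0) (XT.lf (nat_lit 0) (nat_lit 31294639408) (nat_lit 228) (nat_lit 11130041336) (nat_lit 304) (nat_lit 6487903382) (nat_lit 53) (nat_lit 5) (nat_lit 56) (nat_lit 5) (nat_lit 57) (nat_lit 5) (nat_lit 361) (nat_lit 354) (nat_lit 305)) (XT.lf (nat_lit 0) (nat_lit 7708186834) (nat_lit 228) (nat_lit 18216306124) (nat_lit 76) (nat_lit 27170709597) (nat_lit 50) (nat_lit 5) (nat_lit 53) (nat_lit 5) (nat_lit 51) (nat_lit 5) (nat_lit 362) (nat_lit 354) (nat_lit 304))))))))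
noncomputable def xc76 : XT := (XT.nd (nat_lit 1248) (nat_lit 1140) (nat_lit 0) (XT.nd (nat_lit 624) (nat_lit 836) (nat_lit 0) (XT.nd (nat_lit 312) (nat_lit 760) (nat_lit 0) (XT.nd (nat_lit 156) (nat_lit 380) (nat_lit 0) (XT.nd (nat_lit 78) (nat_lit 152) (nat_lit 0) (XT.lf (nat_lit 0) (nat_lit 25792394741) (nat_lit 304) (nat_lit 18161063867) (nat_lit 76) (nat_lit 13766850110) (nat_lit 47) (nat_lit 5) (nat_lit 51) (nat_lit 5) (nat_lit 48) (nat_lit 5) (nat_lit 363) (nat_lit 354) (nat_lit 303)) (XT.lf (nat_lit 0) (nat_lit 45646151643) (nat_lit 152) (nat_lit 3291935057) (nat_lit 228) (nat_lit 13913190366) (nat_lit 45) (nat_lit 5) (nat_lit 47) (nat_lit 5) (nat_lit 48) (nat_lit 5) (nat_lit 364) (nat_lit 354) (nat_lit 302))) (XT.nd (nat_lit 78) (nat_lit 152) (nat_lit 0) (XT.lf (nat_lit 0) (nat_lit 9390726116) (nat_lit 228) (nat_lit 15768403348) (nat_lit 76) (nat_lit 43345487600) (nat_lit 42) (nat_lit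 5) (nat_lit 45) (nat_lit 5) (nat_lit 43) (nat_lit 5) (nat_lit 365) (nat_lit 354) (nat_lit 301)) (XT.lf (nat_lit 0) (nat_lit 38059429239) (nat_lit 228) (nat_lit 13557946919) (nat_lit 76) (nat_lit 23144233297) (nat_lit 40) (nat_lit 5) (nat_lit 43) (nat_lit 5) (nat_lit 41) (nat_lit 5) (nat_lit 366) (nat_lit 354) (nat_lit 300)))) (XT.nd (nat_lit 156) (nat_lit 456) (nat_lit 0) (XT.nd (nat_lit 78) (nat_lit 152) (nat_lit 0) (XT.lf (nat_lit 0) (nat_lit 71618715476) (nat_lit 152) (nat_lit 2291253640) (nat_lit 228) (nat_lit 7816661819) (nat_lit 38) (nat_lit 5) (nat_lit 40) (nat_lit 5) (nat_lit 41) (nat_lit 5) (nat_lit 367) (nat_lit 354) (nat_lit 299)) (XT.lf (nat_lit 0) (nat_lit 27943557361) (nat_lit 152) (nat_lit 6610673236) (nat_lit 76) (nat_lit 54828298899) (nat_lit 36) (nat_lit 5) (nat_lit 38) (nat_lit 5) (nat_lit 37) (nat_lit 5) (nat_lit 368) (nat_lit 354) (nat_lit 298))) (XT.nd (nat_lit 78)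 (nat_lit 304) (nat_lit 0) (XT.lf (nat_lit 0) (nat_lit 71906854251) (nat_lit 228) (nat_lit 1997862283) (nat_lit 76) (nat_lit 24001705532) (nat_lit 34) (nat_lit 5) (nat_lit 37) (nat_lit 5) (nat_lit 35) (nat_lit 4) (nat_lit 369) (nat_lit 354) (nat_lit 297)) (XT.lf (nat_lit 0) (nat_lit 3412249360) (nat_lit 152) (nat_lit 14605614711) (nat_lit 228) (nat_lit 89342625170) (nat_lit 30) (nat_lit 5) (nat_lit 32) (nat_lit 5) (nat_lit 33) (nat_lit 5) (nat_lit 370) (nat_lit 354) (nat_lit 296))))) (XT.nd (nat_lit 312) (nat_lit 456) (nat_lit 0) (XT.nd (nat_lit 156) (nat_lit 152) (nat_lit 0) (XT.nd (nat_lit 78) (nat_lit 152) (nat_lit 0) (XT.lf (nat_lit 0) (nat_lit 8753985538) (nat_lit 76) (nat_lit 62930153480) (nat_lit 152) (nat_lit 46127648316) (nat_lit 29) (nat_lit 5) (nat_lit 30) (nat_lit 5) (nat_lit 31) (nat_lit 4) (nat_lit 371) (nat_lit 354) (nat_lit 295)) (XT.lf (nat_lit 0) (nat_lit 7453298619) (nat_lit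 152) (nat_lit 114454386065) (nat_lit 76) (nat_lit 7591245612) (nat_lit 27) (nat_lit 5) (nat_lit 29) (nat_lit 5) (nat_lit 28) (nat_lit 4) (nat_lit 372) (nat_lit 354) (nat_lit 294))) (XT.nd (nat_lit 78) (nat_lit 76) (nat_lit 0) (XT.lf (nat_lit 0) (nat_lit 19551023111) (nat_lit 76) (nat_lit 52329812338) (nat_lit 152) (nat_lit 70519202981) (nat_lit 26) (nat_lit 5) (nat_lit 27) (nat_lit 5) (nat_lit 28) (nat_lit 4) (nat_lit 373) (nat_lit 354) (nat_lit 293)) (XT.lf (nat_lit 0) (nat_lit 24060716914) (nat_lit 76) (nat_lit 126570201358) (nat_lit 76) (nat_lit 6232722091) (nat_lit 25) (nat_lit 4) (nat_lit 26) (nat_lit 5) (nat_lit 26) (nat_lit 4) (nat_lit 374) (nat_lit 354) (nat_lit 292)))) (XT.nd (nat_lit 156) (nat_lit 228) (nat_lit 0) (XT.nd (nat_lit 78) (nat_lit 76) (nat_lit 0) (XT.lf (nat_lit 0) (nat_lit 25325672572) (nat_lit 76) (nat_lit 44705990675) (nat_lit 152) (nat_lit 102877159598) (nat_lit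 23) (nat_lit 5) (nat_lit 24) (nat_lit 5) (nat_lit 25) (nat_lit 4) (nat_lit 375) (nat_lit 354) (nat_lit 291)) (XT.lf (nat_lit 0) (nat_lit 23889448770) (nat_lit 76) (nat_lit 139213865119) (nat_lit 76) (nat_lit 27785585935) (nat_lit 22) (nat_lit 4) (nat_lit 23) (nat_lit 5) (nat_lit 23) (nat_lit 4) (nat_lit 376) (nat_lit 354) (nat_lit 290))) (XT.nd (nat_lit 78) (nat_lit 76) (nat_lit 0) (XT.lf (nat_lit 0) (nat_lit 16877948448) (nat_lit 76) (nat_lit 44808649337) (nat_lit 152) (nat_lit 149282961258) (nat_lit 20) (nat_lit 5) (nat_lit 21) (nat_lit 5) (nat_lit 22) (nat_lit 4) (nat_lit 377) (nat_lit 354) (nat_lit 289)) (XT.lf (nat_lit 0) (nat_lit 2464605918) (nat_lit 76) (nat_lit 167093832955) (nat_lit 76) (nat_lit 63916218664) (nat_lit 19) (nat_lit 4) (nat_lit 20) (nat_lit 5) (nat_lit 20) (nat_lit 4) (nat_lit 378) (nat_lit 354) (nat_lit 288)))))) (XT.nd (nat_lit 624) (nat_lit 456) (nat_lit 0) (XT.nd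 (nat_lit 312) (nat_lit 304) (nat_lit 0) (XT.nd (nat_lit 156) (nat_lit 228) (nat_lit 0) (XT.nd (nat_lit 78) (nat_lit 76) (nat_lit 0) (XT.lf (nat_lit 0) (nat_lit 39575341256) (nat_lit 152) (nat_lit 20862231762) (nat_lit 76) (nat_lit 198289367870) (nat_lit 18) (nat_lit 5) (nat_lit 20) (nat_lit 5) (nat_lit 19) (nat_lit 4) (nat_lit 379) (nat_lit 354) (nat_lit 287)) (XT.lf (nat_lit 0) (nat_lit 162142070696) (nat_lit 152) (nat_lit 58300359275) (nat_lit 0) (nat_lit 66604945013) (nat_lit 17) (nat_lit 5) (nat_lit 19) (nat_lit 4) (nat_lit 17) (nat_lit 4) (nat_lit 380) (nat_lit 354) (nat_lit 286))) (XT.nd (nat_lit 78) (nat_lit 152) (nat_lit 0) (XT.lf (nat_lit 0) (nat_lit 206111422452) (nat_lit 76) (nat_lit 104231297074) (nat_lit 76) (nat_lit 8693242115) (nat_lit 16) (nat_lit 4) (nat_lit 17) (nat_lit 5) (nat_lit 17) (nat_lit 4) (nat_lit 381) (nat_lit 354) (nat_lit 285)) (XT.lf (nat_lit 0) (nat_lit 125294795105)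 (nat_lit 152) (nat_lit 192927175059) (nat_lit 0) (nat_lit 36832884897) (nat_lit 14) (nat_lit 5) (nat_lit 16) (nat_lit 4) (nat_lit 14) (nat_lit 4) (nat_lit 382) (nat_lit 354) (nat_lit 284)))) (XT.nd (nat_lit 156) (nat_lit 152) (nat_lit 0) (XT.nd (nat_lit 78) (nat_lit 76) (nat_lit 0) (XT.lf (nat_lit 0) (nat_lit 90369717182) (nat_lit 76) (nat_lit 196938023620) (nat_lit 76) (nat_lit 108475462795) (nat_lit 13) (nat_lit 4) (nat_lit 14) (nat_lit 5) (nat_lit 14) (nat_lit 4) (nat_lit 383) (nat_lit 354) (nat_lit 283)) (XT.lf (nat_lit 0) (nat_lit 35211460267) (nat_lit 152) (nat_lit 15223289222) (nat_lit 76) (nat_lit 391665569643) (nat_lit 12) (nat_lit 5) (nat_lit 14) (nat_lit 5) (nat_lit 13) (nat_lit 4) (nat_lit 384) (nat_lit 354) (nat_lit 282))) (XT.nd (nat_lit 78) (nat_lit 76) (nat_lit 0) (XT.lf (nat_lit 0) (nat_lit 205320513171) (nat_lit 152) (nat_lit 165505966181) (nat_lit 0) (nat_lit 123409755264)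 (nat_lit 11) (nat_lit 5) (nat_lit 13) (nat_lit 4) (nat_lit 11) (nat_lit 4) (nat_lit 385) (nat_lit 354) (nat_lit 281)) (XT.lf (nat_lit 0) (nat_lit 178563994916) (nat_lit 76) (nat_lit 228524159109) (nat_lit 76) (nat_lit 146613005100) (nat_lit 10) (nat_lit 4) (nat_lit 11) (nat_lit 5) (nat_lit 11) (nat_lit 4) (nat_lit 386) (nat_lit 354) (nat_lit 280))))) (XT.nd (nat_lit 312) (nat_lit 228) (nat_lit 0) (XT.nd (nat_lit 156) (nat_lit 76) (nat_lit 0) (XT.nd (nat_lit 78) (nat_lit 76) (nat_lit 0) (XT.lf (nat_lit 0) (nat_lit 21124893353) (nat_lit 152) (nat_lit 37971720271) (nat_lit 76) (nat_lit 562561077946) (nat_lit 9) (nat_lit 5) (nat_lit 11) (nat_lit 5) (nat_lit 10) (nat_lit 4) (nat_lit 387) (nat_lit 354) (nat_lit 279)) (XT.lf (nat_lit 0) (nat_lit 217937109620) (nat_lit 152) (nat_lit 338465510960) (nat_lit 0) (nat_lit 142092852251) (nat_lit 8) (nat_lit 5) (nat_lit 10) (nat_lit 4) (nat_lit 8) (nat_lit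 4) (nat_lit 388) (nat_lit 354) (nat_lit 278))) (XT.nd (nat_lit 78) (nat_lit 0) (nat_lit 0) (XT.lf (nat_lit 0) (nat_lit 33258536970) (nat_lit 76) (nat_lit 414579756059) (nat_lit 76) (nat_lit 338735257539) (nat_lit 7) (nat_lit 4) (nat_lit 8) (nat_lit 5) (nat_lit 8) (nat_lit 4) (nat_lit 389) (nat_lit 354) (nat_lit 277)) (XT.lf (nat_lit 0) (nat_lit 481235002053) (nat_lit 76) (nat_lit 240842412662) (nat_lit 76) (nat_lit 164997704444) (nat_lit 7) (nat_lit 4) (nat_lit 8) (nat_lit 5) (nat_lit 8) (nat_lit 4) (nat_lit 390) (nat_lit 354) (nat_lit 276)))) (XT.nd (nat_lit 156) (nat_lit 76) (nat_lit 0) (XT.nd (nat_lit 78) (nat_lit 76) (nat_lit 0) (XT.lf (nat_lit 0) (nat_lit 33058462152) (nat_lit 152) (nat_lit 7083289286) (nat_lit 76) (nat_lit 962443308127) (nat_lit 6) (nat_lit 5) (nat_lit 8) (nat_lit 5) (nat_lit 7) (nat_lit 4) (nat_lit 391) (nat_lit 354) (nat_lit 275)) (XT.lf (nat_lit 0) (nat_lit 267642447641)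 (nat_lit 152) (nat_lit 668693512811) (nat_lit 0) (nat_lit 197415550304) (nat_lit 5) (nat_lit 5) (nat_lit 7) (nat_lit 4) (nat_lit 5) (nat_lit 4) (nat_lit 392) (nat_lit 354) (nat_lit 274))) (XT.nd (nat_lit 78) (nat_lit 76) (nat_lit 0) (XT.lf (nat_lit 0) (nat_lit 538734887537) (nat_lit 152) (nat_lit 277244511063) (nat_lit 0) (nat_lit 468507862533) (nat_lit 5) (nat_lit 5) (nat_lit 7) (nat_lit 4) (nat_lit 5) (nat_lit 4) (nat_lit 393) (nat_lit 354) (nat_lit 273)) (XT.nd (nat_lit 78) (nat_lit 0) (nat_lit 0) (XT.lf (nat_lit 0) (nat_lit 182025839386) (nat_lit 76) (nat_lit 672842259158) (nat_lit 76) (nat_lit 602615123141) (nat_lit 4) (nat_lit 4) (nat_lit 5) (nat_lit 5) (nat_lit 5) (nat_lit 4) (nat_lit 394) (nat_lit 354) (nat_lit 272)) (XT.lf (nat_lit 0) (nat_lit 726974297942) (nat_lit 76) (nat_lit 499517918469) (nat_lit 76) (nat_lit 429290685918) (nat_lit 4) (nat_lit 4) (nat_lit 5) (nat_lit 5) (nat_lit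 5) (nat_lit 4) (nat_lit 395) (nat_lit 354) (nat_lit 271))))))))
noncomputable def xc77 : XT := (XT.nd (nat_lit 1248) (nat_lit 0) (nat_lit 0) (XT.nd (nat_lit 624) (nat_lit 76) (nat_lit 0) (XT.nd (nat_lit 312) (nat_lit 0) (nat_lit 0) (XT.nd (nat_lit 156) (nat_lit 152) (nat_lit 0) (XT.nd (nat_lit 78) (nat_lit 0) (nat_lit 0) (XT.lf (nat_lit 0) (nat_lit 1353663695028) (nat_lit 76) (nat_lit 300195604381) (nat_lit 76) (nat_lit 229968287887) (nat_lit 4) (nat_lit 4) (nat_lit 5) (nat_lit 5) (nat_lit 5) (nat_lit 4) (nat_lit 396) (nat_lit 354) (nat_lit 270)) (XT.lf (nat_lit 0) (nat_lit 2074355344935) (nat_lit 76) (nat_lit 70975532487) (nat_lit 76) (nat_lit 748142999) (nat_lit 4) (nat_lit 4) (nat_lit 5) (nat_lit 5) (nat_lit 5) (nat_lit 4) (nat_lit 397) (nat_lit 354) (nat_lit 269))) (XT.nd (nat_lit 78) (nat_lit 0) (nat_lit 0) (XT.lf (nat_lit 0) (nat_lit 266168818458) (nat_lit 152) (nat_lit 1978533188036)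 (nat_lit 0) (nat_lit 201143399051) (nat_lit 2) (nat_lit 5) (nat_lit 4) (nat_lit 4) (nat_lit 2) (nat_lit 4) (nat_lit 398) (nat_lit 354) (nat_lit 268)) (XT.lf (nat_lit 0) (nat_lit 577185213929) (nat_lit 152) (nat_lit 1700901741466) (nat_lit 0) (nat_lit 512159743416) (nat_lit 2) (nat_lit 5) (nat_lit 4) (nat_lit 4) (nat_lit 2) (nat_lit 4) (nat_lit 399) (nat_lit 354) (nat_lit 267)))) (XT.nd (nat_lit 156) (nat_lit 0) (nat_lit 0) (XT.nd (nat_lit 78) (nat_lit 0) (nat_lit 0) (XT.lf (nat_lit 0) (nat_lit 934853656070) (nat_lit 152) (nat_lit 1381626421902) (nat_lit 0) (nat_lit 869828141118) (nat_lit 2) (nat_lit 5) (nat_lit 4) (nat_lit 4) (nat_lit 2) (nat_lit 4) (nat_lit 400) (nat_lit 354) (nat_lit 266)) (XT.lf (nat_lit 0) (nat_lit 1346172005707) (nat_lit 152) (nat_lit 1014460538308) (nat_lit 0) (nat_lit 1281146452112) (nat_lit 2) (nat_lit 5) (nat_lit 4) (nat_lit 4) (nat_lit 2) (nat_lit 4) (nat_lit 401)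 (nat_lit 354) (nat_lit 265))) (XT.nd (nat_lit 78) (nat_lit 0) (nat_lit 0) (XT.lf (nat_lit 0) (nat_lit 1819187795767) (nat_lit 152) (nat_lit 592220410355) (nat_lit 0) (nat_lit 1754162208569) (nat_lit 2) (nat_lit 5) (nat_lit 4) (nat_lit 4) (nat_lit 2) (nat_lit 4) (nat_lit 402) (nat_lit 354) (nat_lit 264)) (XT.lf (nat_lit 0) (nat_lit 2363155683012) (nat_lit 152) (nat_lit 106644818146) (nat_lit 0) (nat_lit 2298130066595) (nat_lit 2) (nat_lit 5) (nat_lit 4) (nat_lit 4) (nat_lit 2) (nat_lit 4) (nat_lit 403) (nat_lit 354) (nat_lit 263))))) (XT.nd (nat_lit 312) (nat_lit 0) (nat_lit 0) (XT.nd (nat_lit 156) (nat_lit 0) (nat_lit 0) (XT.nd (nat_lit 78) (nat_lit 0) (nat_lit 0) (XT.lf (nat_lit 0) (nat_lit 475555860493) (nat_lit 76) (nat_lit 2524599786798) (nat_lit 76) (nat_lit 2459574144973) (nat_lit 1) (nat_lit 4) (nat_lit 2) (nat_lit 5) (nat_lit 2) (nat_lit 4) (nat_lit 404) (nat_lit 354) (nat_lit 262))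 (XT.lf (nat_lit 0) (nat_lit 1151544285422) (nat_lit 76) (nat_lit 2584265954143) (nat_lit 76) (nat_lit 2519240290224) (nat_lit 1) (nat_lit 4) (nat_lit 2) (nat_lit 5) (nat_lit 2) (nat_lit 4) (nat_lit 405) (nat_lit 354) (nat_lit 261))) (XT.nd (nat_lit 78) (nat_lit 0) (nat_lit 0) (XT.lf (nat_lit 0) (nat_lit 1928930589997) (nat_lit 76) (nat_lit 2652882243048) (nat_lit 76) (nat_lit 2587856559916) (nat_lit 1) (nat_lit 4) (nat_lit 2) (nat_lit 5) (nat_lit 2) (nat_lit 4) (nat_lit 406) (nat_lit 354) (nat_lit 260)) (XT.lf (nat_lit 0) (nat_lit 2822924506262) (nat_lit 76) (nat_lit 2731791146120) (nat_lit 76) (nat_lit 2666765446282) (nat_lit 1) (nat_lit 4) (nat_lit 2) (nat_lit 5) (nat_lit 2) (nat_lit 4) (nat_lit 407) (nat_lit 354) (nat_lit 259)))) (XT.nd (nat_lit 156) (nat_lit 0) (nat_lit 0) (XT.nd (nat_lit 78) (nat_lit 0) (nat_lit 0) (XT.lf (nat_lit 0) (nat_lit 3851017219536) (nat_lit 76) (nat_lit 2822536533204)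 (nat_lit 76) (nat_lit 2757510818838) (nat_lit 1) (nat_lit 4) (nat_lit 2) (nat_lit 5) (nat_lit 2) (nat_lit 4) (nat_lit 408) (nat_lit 354) (nat_lit 258)) (XT.lf (nat_lit 0) (nat_lit 5033323587253) (nat_lit 76) (nat_lit 2926893857524) (nat_lit 76) (nat_lit 2861868130526) (nat_lit 1) (nat_lit 4) (nat_lit 2) (nat_lit 5) (nat_lit 2) (nat_lit 4) (nat_lit 409) (nat_lit 354) (nat_lit 257))) (XT.nd (nat_lit 78) (nat_lit 0) (nat_lit 0) (XT.lf (nat_lit 0) (nat_lit 6392975690520) (nat_lit 76) (nat_lit 3046904892816) (nat_lit 76) (nat_lit 2981879154834) (nat_lit 1) (nat_lit 4) (nat_lit 2) (nat_lit 5) (nat_lit 2) (nat_lit 4) (nat_lit 410) (nat_lit 354) (nat_lit 256)) (XT.lf (nat_lit 0) (nat_lit 7956575418314) (nat_lit 76) (nat_lit 3184917681077) (nat_lit 76) (nat_lit 3119891933543) (nat_lit 1) (nat_lit 4) (nat_lit 2) (nat_lit 5) (nat_lit 2) (nat_lit 4) (nat_lit 411) (nat_lit 354) (nat_lit 255)))))) (XT.nd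 (nat_lit 48906) (nat_lit 0) (nat_lit 3116) (XT.nd (nat_lit 312) (nat_lit 0) (nat_lit 0) (XT.nd (nat_lit 156) (nat_lit 0) (nat_lit 0) (XT.nd (nat_lit 78) (nat_lit 0) (nat_lit 0) (XT.lf (nat_lit 0) (nat_lit 9754714939223) (nat_lit 76) (nat_lit 3343632472511) (nat_lit 76) (nat_lit 3278606716671) (nat_lit 1) (nat_lit 4) (nat_lit 2) (nat_lit 5) (nat_lit 2) (nat_lit 4) (nat_lit 412) (nat_lit 354) (nat_lit 254)) (XT.lf (nat_lit 0) (nat_lit 11822575243872) (nat_lit 76) (nat_lit 3526154556516) (nat_lit 76) (nat_lit 3461128793453) (nat_lit 1) (nat_lit 4) (nat_lit 2) (nat_lit 5) (nat_lit 2) (nat_lit 4) (nat_lit 413) (nat_lit 354) (nat_lit 253))) (XT.nd (nat_lit 78) (nat_lit 0) (nat_lit 0) (XT.lf (nat_lit 0) (nat_lit 14200614468658) (nat_lit 76) (nat_lit 3736055017344) (nat_lit 76) (nat_lit 3671029248000) (nat_lit 1) (nat_lit 4) (nat_lit 2) (nat_lit 5) (nat_lit 2) (nat_lit 4) (nat_lit 414) (nat_lit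 354) (nat_lit 252)) (XT.lf (nat_lit 0) (nat_lit 16935359467978) (nat_lit 76) (nat_lit 3977440603141) (nat_lit 76) (nat_lit 3912414828336) (nat_lit 1) (nat_lit 4) (nat_lit 2) (nat_lit 5) (nat_lit 2) (nat_lit 4) (nat_lit 415) (nat_lit 354) (nat_lit 251)))) (XT.nd (nat_lit 48438) (nat_lit 0) (nat_lit 5168) (XT.nd (nat_lit 48360) (nat_lit 0) (nat_lit 5168) (XT.lf (nat_lit 0) (nat_lit 20080316122253) (nat_lit 76) (nat_lit 4255034075369) (nat_lit 76) (nat_lit 4190008295815) (nat_lit 1) (nat_lit 4) (nat_lit 2) (nat_lit 5) (nat_lit 2) (nat_lit 4) (nat_lit 416) (nat_lit 354) (nat_lit 250)) (XT.lf (nat_lit 0) (nat_lit 14915248609) (nat_lit 532) (nat_lit 820739726) (nat_lit 532) (nat_lit 820739726) (nat_lit 69) (nat_lit 3) (nat_lit 76) (nat_lit 3) (nat_lit 76) (nat_lit 5) (nat_lit 355) (nat_lit 355) (nat_lit 310))) (XT.nd (nat_lit 78) (nat_lit 0) (nat_lit 76) (XT.lf (nat_lit 76) (nat_lit 30296292604)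 (nat_lit 0) (nat_lit 2601226142) (nat_lit 532) (nat_lit 2632999829) (nat_lit 70) (nat_lit 5) (nat_lit 69) (nat_lit 3) (nat_lit 76) (nat_lit 5) (nat_lit 356) (nat_lit 355) (nat_lit 309)) (XT.lf (nat_lit 76) (nat_lit 29546786543) (nat_lit 0) (nat_lit 8355316869) (nat_lit 532) (nat_lit 289848299) (nat_lit 71) (nat_lit 5) (nat_lit 70) (nat_lit 5) (nat_lit 77) (nat_lit 5) (nat_lit 357) (nat_lit 355) (nat_lit 308))))) (XT.nd (nat_lit 312) (nat_lit 1064) (nat_lit 0) (XT.nd (nat_lit 156) (nat_lit 608) (nat_lit 0) (XT.nd (nat_lit 78) (nat_lit 0) (nat_lit 76) (XT.lf (nat_lit 0) (nat_lit 3860829090) (nat_lit 532) (nat_lit 11841392111) (nat_lit 608) (nat_lit 25419653594) (nat_lit 64) (nat_lit 5) (nat_lit 71) (nat_lit 5) (nat_lit 72) (nat_lit 5) (nat_lit 358) (nat_lit 355) (nat_lit 307)) (XT.lf (nat_lit 0) (nat_lit 10308836967) (nat_lit 532) (nat_lit 14684312073) (nat_lit 76) (nat_lit 19362192207) (nat_lit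 65) (nat_lit 5) (nat_lit 72) (nat_lit 5) (nat_lit 66) (nat_lit 5) (nat_lit 359) (nat_lit 355) (nat_lit 306))) (XT.nd (nat_lit 78) (nat_lit 228) (nat_lit 0) (XT.lf (nat_lit 0) (nat_lit 19536369406) (nat_lit 532) (nat_lit 17053029775) (nat_lit 76) (nat_lit 11339449989) (nat_lit 59) (nat_lit 5) (nat_lit 66) (nat_lit 5) (nat_lit 60) (nat_lit 5) (nat_lit 360) (nat_lit 355) (nat_lit 305)) (XT.lf (nat_lit 0) (nat_lit 32087376831) (nat_lit 304) (nat_lit 18813797590) (nat_lit 76) (nat_lit 982067662) (nat_lit 56) (nat_lit 5) (nat_lit 60) (nat_lit 5) (nat_lit 57) (nat_lit 5) (nat_lit 361) (nat_lit 355) (nat_lit 304)))) (XT.nd (nat_lit 156) (nat_lit 608) (nat_lit 0) (XT.nd (nat_lit 78) (nat_lit 228) (nat_lit 0) (XT.lf (nat_lit 0) (nat_lit 36122237168) (nat_lit 228) (nat_lit 12778729432) (nat_lit 304) (nat_lit 7339438412) (nat_lit 53) (nat_lit 5) (nat_lit 56) (nat_lit 5) (nat_lit 57) (nat_lit 5) (nat_lit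 362) (nat_lit 355) (nat_lit 303)) (XT.lf (nat_lit 0) (nat_lit 8968559368) (nat_lit 228) (nat_lit 20813268612) (nat_lit 76) (nat_lit 31269275061) (nat_lit 50) (nat_lit 5) (nat_lit 53) (nat_lit 5) (nat_lit 51) (nat_lit 5) (nat_lit 363) (nat_lit 355) (nat_lit 302))) (XT.nd (nat_lit 78) (nat_lit 380) (nat_lit 0) (XT.lf (nat_lit 0) (nat_lit 29755529832) (nat_lit 304) (nat_lit 20754415404) (nat_lit 76) (nat_lit 15860825689) (nat_lit 47) (nat_lit 5) (nat_lit 51) (nat_lit 5) (nat_lit 48) (nat_lit 5) (nat_lit 364) (nat_lit 355) (nat_lit 301)) (XT.nd (nat_lit 78) (nat_lit 228) (nat_lit 0) (XT.lf (nat_lit 0) (nat_lit 52612810183) (nat_lit 152) (nat_lit 3750848196) (nat_lit 228) (nat_lit 15908485004) (nat_lit 45) (nat_lit 5) (nat_lit 47) (nat_lit 5) (nat_lit 48) (nat_lit 5) (nat_lit 365) (nat_lit 355) (nat_lit 300)) (XT.lf (nat_lit 0) (nat_lit 10878659913) (nat_lit 228) (nat_lit 18014376835) (nat_lit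 76) (nat_lit 49880897457) (nat_lit 42) (nat_lit 5) (nat_lit 45) (nat_lit 5) (nat_lit 43) (nat_lit 5) (nat_lit 366) (nat_lit 355) (nat_lit 299))))))))
noncomputable def xc78 : XT := (XT.nd (nat_lit 1248) (nat_lit 1064) (nat_lit 0) (XT.nd (nat_lit 624) (nat_lit 760) (nat_lit 0) (XT.nd (nat_lit 312) (nat_lit 608) (nat_lit 0) (XT.nd (nat_lit 156) (nat_lit 304) (nat_lit 0) (XT.nd (nat_lit 78) (nat_lit 152) (nat_lit 0) (XT.lf (nat_lit 0) (nat_lit 43840851741) (nat_lit 228) (nat_lit 15477599010) (nat_lit 76) (nat_lit 26651573884) (nat_lit 40) (nat_lit 5) (nat_lit 43) (nat_lit 5) (nat_lit 41) (nat_lit 5) (nat_lit 367) (nat_lit 355) (nat_lit 298)) (XT.lf (nat_lit 0) (nat_lit 82465909831) (nat_lit 152) (nat_lit 2596115699) (nat_lit 228) (nat_lit 8918332910) (nat_lit 38) (nat_lit 5) (nat_lit 40) (nat_lit 5) (nat_lit 41) (nat_lit 5) (nat_lit 368) (nat_lit 355) (nat_lit 297))) (XT.nd (nat_lit 78) (nat_lit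 152) (nat_lit 0) (XT.lf (nat_lit 0) (nat_lit 32196888352) (nat_lit 152) (nat_lit 7499484402) (nat_lit 76) (nat_lit 63088574459) (nat_lit 36) (nat_lit 5) (nat_lit 38) (nat_lit 5) (nat_lit 37) (nat_lit 5) (nat_lit 369) (nat_lit 355) (nat_lit 296)) (XT.lf (nat_lit 0) (nat_lit 82749798146) (nat_lit 228) (nat_lit 2199872950) (nat_lit 76) (nat_lit 27638145439) (nat_lit 34) (nat_lit 5) (nat_lit 37) (nat_lit 5) (nat_lit 35) (nat_lit 4) (nat_lit 370) (nat_lit 355) (nat_lit 295)))) (XT.nd (nat_lit 156) (nat_lit 228) (nat_lit 0) (XT.nd (nat_lit 78) (nat_lit 76) (nat_lit 0) (XT.lf (nat_lit 0) (nat_lit 4021146846) (nat_lit 152) (nat_lit 16754727428) (nat_lit 228) (nat_lit 102684249364) (nat_lit 30) (nat_lit 5) (nat_lit 32) (nat_lit 5) (nat_lit 33) (nat_lit 5) (nat_lit 371) (nat_lit 355) (nat_lit 294)) (XT.lf (nat_lit 0) (nat_lit 10159072404) (nat_lit 76) (nat_lit 72328886054) (nat_lit 152) (nat_lit 52991490182)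 (nat_lit 29) (nat_lit 5) (nat_lit 30) (nat_lit 5) (nat_lit 31) (nat_lit 4) (nat_lit 372) (nat_lit 355) (nat_lit 293))) (XT.nd (nat_lit 78) (nat_lit 76) (nat_lit 0) (XT.lf (nat_lit 0) (nat_lit 8620002794) (nat_lit 152) (nat_lit 131532906420) (nat_lit 76) (nat_lit 8766955094) (nat_lit 27) (nat_lit 5) (nat_lit 29) (nat_lit 5) (nat_lit 28) (nat_lit 4) (nat_lit 373) (nat_lit 355) (nat_lit 292)) (XT.lf (nat_lit 0) (nat_lit 22565726760) (nat_lit 76) (nat_lit 60141563300) (nat_lit 152) (nat_lit 81049200155) (nat_lit 26) (nat_lit 5) (nat_lit 27) (nat_lit 5) (nat_lit 28) (nat_lit 4) (nat_lit 374) (nat_lit 355) (nat_lit 291))))) (XT.nd (nat_lit 312) (nat_lit 304) (nat_lit 0) (XT.nd (nat_lit 156) (nat_lit 228) (nat_lit 0) (XT.nd (nat_lit 78) (nat_lit 152) (nat_lit 0) (XT.lf (nat_lit 0) (nat_lit 27747352248) (nat_lit 76) (nat_lit 145519404381) (nat_lit 76) (nat_lit 7123127099) (nat_lit 25) (nat_lit 4)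 (nat_lit 26) (nat_lit 5) (nat_lit 26) (nat_lit 4) (nat_lit 375) (nat_lit 355) (nat_lit 290)) (XT.lf (nat_lit 0) (nat_lit 29197532337) (nat_lit 76) (nat_lit 51377398932) (nat_lit 152) (nat_lit 118267128173) (nat_lit 23) (nat_lit 5) (nat_lit 24) (nat_lit 5) (nat_lit 25) (nat_lit 4) (nat_lit 376) (nat_lit 355) (nat_lit 289))) (XT.nd (nat_lit 78) (nat_lit 152) (nat_lit 0) (XT.lf (nat_lit 0) (nat_lit 27541761390) (nat_lit 76) (nat_lit 160062922193) (nat_lit 76) (nat_lit 31914676756) (nat_lit 22) (nat_lit 4) (nat_lit 23) (nat_lit 5) (nat_lit 23) (nat_lit 4) (nat_lit 377) (nat_lit 355) (nat_lit 288)) (XT.lf (nat_lit 0) (nat_lit 19474482535) (nat_lit 76) (nat_lit 51498672003) (nat_lit 152) (nat_lit 171639149251) (nat_lit 20) (nat_lit 5) (nat_lit 21) (nat_lit 5) (nat_lit 22) (nat_lit 4) (nat_lit 378) (nat_lit 355) (nat_lit 287)))) (XT.nd (nat_lit 156) (nat_lit 152) (nat_lit 0) (XT.nd (nat_lit 78)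 (nat_lit 76) (nat_lit 0) (XT.lf (nat_lit 0) (nat_lit 2895423088) (nat_lit 76) (nat_lit 192128094525) (nat_lit 76) (nat_lit 73469830267) (nat_lit 19) (nat_lit 4) (nat_lit 20) (nat_lit 5) (nat_lit 20) (nat_lit 4) (nat_lit 379) (nat_lit 355) (nat_lit 286)) (XT.lf (nat_lit 0) (nat_lit 45539580987) (nat_lit 152) (nat_lit 23936939423) (nat_lit 76) (nat_lit 228057223907) (nat_lit 18) (nat_lit 5) (nat_lit 20) (nat_lit 5) (nat_lit 19) (nat_lit 4) (nat_lit 380) (nat_lit 355) (nat_lit 285))) (XT.nd (nat_lit 78) (nat_lit 76) (nat_lit 0) (XT.lf (nat_lit 0) (nat_lit 186489467638) (nat_lit 152) (nat_lit 66993957315) (nat_lit 0) (nat_lit 76618967093) (nat_lit 17) (nat_lit 5) (nat_lit 19) (nat_lit 4) (nat_lit 17) (nat_lit 4) (nat_lit 381) (nat_lit 355) (nat_lit 284)) (XT.lf (nat_lit 0) (nat_lit 237075236190) (nat_lit 76) (nat_lit 119842707802) (nat_lit 76) (nat_lit 9971504591) (nat_lit 16) (nat_lit 4) (nat_lit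 17) (nat_lit 5) (nat_lit 17) (nat_lit 4) (nat_lit 382) (nat_lit 355) (nat_lit 283)))))) (XT.nd (nat_lit 624) (nat_lit 380) (nat_lit 0) (XT.nd (nat_lit 312) (nat_lit 304) (nat_lit 0) (XT.nd (nat_lit 156) (nat_lit 152) (nat_lit 0) (XT.nd (nat_lit 78) (nat_lit 76) (nat_lit 0) (XT.lf (nat_lit 0) (nat_lit 144111857792) (nat_lit 152) (nat_lit 221820699986) (nat_lit 0) (nat_lit 42378696472) (nat_lit 14) (nat_lit 5) (nat_lit 16) (nat_lit 4) (nat_lit 14) (nat_lit 4) (nat_lit 383) (nat_lit 355) (nat_lit 282)) (XT.lf (nat_lit 0) (nat_lit 103966870397) (nat_lit 76) (nat_lit 226457898151) (nat_lit 76) (nat_lit 124724244871) (nat_lit 13) (nat_lit 4) (nat_lit 14) (nat_lit 5) (nat_lit 14) (nat_lit 4) (nat_lit 384) (nat_lit 355) (nat_lit 281))) (XT.nd (nat_lit 78) (nat_lit 76) (nat_lit 0) (XT.lf (nat_lit 0) (nat_lit 40511796641) (nat_lit 152) (nat_lit 17469544056) (nat_lit 76) (nat_lit 450432535802) (nat_lit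 12) (nat_lit 5) (nat_lit 14) (nat_lit 5) (nat_lit 13) (nat_lit 4) (nat_lit 385) (nat_lit 355) (nat_lit 280)) (XT.lf (nat_lit 0) (nat_lit 236136009633) (nat_lit 152) (nat_lit 190296823664) (nat_lit 0) (nat_lit 141937441982) (nat_lit 11) (nat_lit 5) (nat_lit 13) (nat_lit 4) (nat_lit 11) (nat_lit 4) (nat_lit 386) (nat_lit 355) (nat_lit 279)))) (XT.nd (nat_lit 156) (nat_lit 152) (nat_lit 0) (XT.nd (nat_lit 78) (nat_lit 76) (nat_lit 0) (XT.lf (nat_lit 0) (nat_lit 205380665853) (nat_lit 76) (nat_lit 262786629981) (nat_lit 76) (nat_lit 168587762819) (nat_lit 10) (nat_lit 4) (nat_lit 11) (nat_lit 5) (nat_lit 11) (nat_lit 4) (nat_lit 387) (nat_lit 355) (nat_lit 278)) (XT.lf (nat_lit 0) (nat_lit 24307829948) (nat_lit 152) (nat_lit 43638841314) (nat_lit 76) (nat_lit 646958537156) (nat_lit 9) (nat_lit 5) (nat_lit 11) (nat_lit 5) (nat_lit 10) (nat_lit 4) (nat_lit 388) (nat_lit 355) (nat_lit 277))) (XT.nd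 (nat_lit 78) (nat_lit 76) (nat_lit 0) (XT.lf (nat_lit 0) (nat_lit 250640974808) (nat_lit 152) (nat_lit 389208403796) (nat_lit 0) (nat_lit 163419350661) (nat_lit 8) (nat_lit 5) (nat_lit 10) (nat_lit 4) (nat_lit 8) (nat_lit 4) (nat_lit 389) (nat_lit 355) (nat_lit 276)) (XT.lf (nat_lit 0) (nat_lit 38271971511) (nat_lit 76) (nat_lit 476754222528) (nat_lit 76) (nat_lit 389532416035) (nat_lit 7) (nat_lit 4) (nat_lit 8) (nat_lit 5) (nat_lit 8) (nat_lit 4) (nat_lit 390) (nat_lit 355) (nat_lit 275))))) (XT.nd (nat_lit 312) (nat_lit 228) (nat_lit 0) (XT.nd (nat_lit 156) (nat_lit 76) (nat_lit 0) (XT.nd (nat_lit 78) (nat_lit 76) (nat_lit 0) (XT.lf (nat_lit 0) (nat_lit 553441690618) (nat_lit 76) (nat_lit 276957907657) (nat_lit 76) (nat_lit 189735942603) (nat_lit 7) (nat_lit 4) (nat_lit 8) (nat_lit 5) (nat_lit 8) (nat_lit 4) (nat_lit 391) (nat_lit 355) (nat_lit 274)) (XT.lf (nat_lit 0) (nat_lit 38026663090)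 (nat_lit 152) (nat_lit 8126643705) (nat_lit 76) (nat_lit 1106818756815) (nat_lit 6) (nat_lit 5) (nat_lit 8) (nat_lit 5) (nat_lit 7) (nat_lit 4) (nat_lit 392) (nat_lit 355) (nat_lit 273))) (XT.nd (nat_lit 78) (nat_lit 0) (nat_lit 0) (XT.lf (nat_lit 0) (nat_lit 307797651478) (nat_lit 152) (nat_lit 768979544599) (nat_lit 0) (nat_lit 227036334044) (nat_lit 5) (nat_lit 5) (nat_lit 7) (nat_lit 4) (nat_lit 5) (nat_lit 4) (nat_lit 393) (nat_lit 355) (nat_lit 272)) (XT.lf (nat_lit 0) (nat_lit 619552804746) (nat_lit 152) (nat_lit 318815539781) (nat_lit 0) (nat_lit 538791390778) (nat_lit 5) (nat_lit 5) (nat_lit 7) (nat_lit 4) (nat_lit 5) (nat_lit 4) (nat_lit 394) (nat_lit 355) (nat_lit 271)))) (XT.nd (nat_lit 156) (nat_lit 152) (nat_lit 0) (XT.nd (nat_lit 78) (nat_lit 0) (nat_lit 0) (XT.lf (nat_lit 0) (nat_lit 209344038716) (nat_lit 76) (nat_lit 773761300897) (nat_lit 76) (nat_lit 692999802986) (nat_lit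 4) (nat_lit 4) (nat_lit 5) (nat_lit 5) (nat_lit 5) (nat_lit 4) (nat_lit 395) (nat_lit 355) (nat_lit 270)) (XT.lf (nat_lit 0) (nat_lit 836032897783) (nat_lit 76) (nat_lit 574439260905) (nat_lit 76) (nat_lit 493677690001) (nat_lit 4) (nat_lit 4) (nat_lit 5) (nat_lit 5) (nat_lit 5) (nat_lit 4) (nat_lit 396) (nat_lit 355) (nat_lit 269))) (XT.nd (nat_lit 78) (nat_lit 152) (nat_lit 0) (XT.lf (nat_lit 0) (nat_lit 1556724079847) (nat_lit 76) (nat_lit 345219427355) (nat_lit 76) (nat_lit 264457792979) (nat_lit 4) (nat_lit 4) (nat_lit 5) (nat_lit 5) (nat_lit 5) (nat_lit 4) (nat_lit 397) (nat_lit 355) (nat_lit 268)) (XT.nd (nat_lit 78) (nat_lit 152) (nat_lit 0) (XT.lf (nat_lit 0) (nat_lit 2385518064558) (nat_lit 76) (nat_lit 81617064375) (nat_lit 76) (nat_lit 855374804) (nat_lit 4) (nat_lit 4) (nat_lit 5) (nat_lit 5) (nat_lit 5) (nat_lit 4) (nat_lit 398) (nat_lit 355) (nat_lit 267)) (XT.lf (nat_lit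 0) (nat_lit 306098584408) (nat_lit 152) (nat_lit 2275304078614) (nat_lit 0) (nat_lit 231319197774) (nat_lit 2) (nat_lit 5) (nat_lit 4) (nat_lit 4) (nat_lit 2) (nat_lit 4) (nat_lit 399) (nat_lit 355) (nat_lit 266))))))))
noncomputable def xc79 : XT := (XT.nd (nat_lit 49686) (nat_lit 0) (nat_lit 2204) (XT.nd (nat_lit 624) (nat_lit 0) (nat_lit 0) (XT.nd (nat_lit 312) (nat_lit 76) (nat_lit 0) (XT.nd (nat_lit 156) (nat_lit 0) (nat_lit 0) (XT.nd (nat_lit 78) (nat_lit 0) (nat_lit 0) (XT.lf (nat_lit 0) (nat_lit 663766859654) (nat_lit 152) (nat_lit 1956029100402) (nat_lit 0) (nat_lit 588987434377) (nat_lit 2) (nat_lit 5) (nat_lit 4) (nat_lit 4) (nat_lit 2) (nat_lit 4) (nat_lit 400) (nat_lit 355) (nat_lit 265)) (XT.lf (nat_lit 0) (nat_lit 1075085064164) (nat_lit 152) (nat_lit 1588863513636) (nat_lit 0) (nat_lit 1000305605284) (nat_lit 2) (nat_lit 5) (nat_lit 4) (nat_lit 4) (nat_lit 2) (nat_lit 4)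 (nat_lit 401) (nat_lit 355) (nat_lit 264))) (XT.nd (nat_lit 78) (nat_lit 0) (nat_lit 0) (XT.lf (nat_lit 0) (nat_lit 1548100728027) (nat_lit 152) (nat_lit 1166623643793) (nat_lit 0) (nat_lit 1473321239928) (nat_lit 2) (nat_lit 5) (nat_lit 4) (nat_lit 4) (nat_lit 2) (nat_lit 4) (nat_lit 402) (nat_lit 355) (nat_lit 263)) (XT.lf (nat_lit 0) (nat_lit 2092068505535) (nat_lit 152) (nat_lit 681048276028) (nat_lit 0) (nat_lit 2017288992028) (nat_lit 2) (nat_lit 5) (nat_lit 4) (nat_lit 4) (nat_lit 2) (nat_lit 4) (nat_lit 403) (nat_lit 355) (nat_lit 262)))) (XT.nd (nat_lit 156) (nat_lit 0) (nat_lit 0) (XT.nd (nat_lit 78) (nat_lit 76) (nat_lit 0) (XT.lf (nat_lit 0) (nat_lit 2717631244510) (nat_lit 152) (nat_lit 122637022711) (nat_lit 0) (nat_lit 2642851708908) (nat_lit 2) (nat_lit 5) (nat_lit 4) (nat_lit 4) (nat_lit 2) (nat_lit 4) (nat_lit 404) (nat_lit 355) (nat_lit 261)) (XT.lf (nat_lit 0) (nat_lit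 546893375284) (nat_lit 76) (nat_lit 2903287639475) (nat_lit 76) (nat_lit 2828508084661) (nat_lit 1) (nat_lit 4) (nat_lit 2) (nat_lit 5) (nat_lit 2) (nat_lit 4) (nat_lit 405) (nat_lit 355) (nat_lit 260))) (XT.nd (nat_lit 78) (nat_lit 0) (nat_lit 0) (XT.lf (nat_lit 0) (nat_lit 1324279524512) (nat_lit 76) (nat_lit 2971904007836) (nat_lit 76) (nat_lit 2897124436316) (nat_lit 1) (nat_lit 4) (nat_lit 2) (nat_lit 5) (nat_lit 2) (nat_lit 4) (nat_lit 406) (nat_lit 355) (nat_lit 259)) (XT.lf (nat_lit 0) (nat_lit 2218273305693) (nat_lit 76) (nat_lit 3050812980002) (nat_lit 76) (nat_lit 2976033393954) (nat_lit 1) (nat_lit 4) (nat_lit 2) (nat_lit 5) (nat_lit 2) (nat_lit 4) (nat_lit 407) (nat_lit 355) (nat_lit 258))))) (XT.nd (nat_lit 312) (nat_lit 0) (nat_lit 0) (XT.nd (nat_lit 156) (nat_lit 0) (nat_lit 0) (XT.nd (nat_lit 78) (nat_lit 0) (nat_lit 0) (XT.lf (nat_lit 0) (nat_lit 3246365901503) (nat_lit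 76) (nat_lit 3141558427166) (nat_lit 76) (nat_lit 3066778828486) (nat_lit 1) (nat_lit 4) (nat_lit 2) (nat_lit 5) (nat_lit 2) (nat_lit 4) (nat_lit 408) (nat_lit 355) (nat_lit 257)) (XT.lf (nat_lit 0) (nat_lit 4428672167077) (nat_lit 76) (nat_lit 3245915803730) (nat_lit 76) (nat_lit 3171136194065) (nat_lit 1) (nat_lit 4) (nat_lit 2) (nat_lit 5) (nat_lit 2) (nat_lit 4) (nat_lit 409) (nat_lit 355) (nat_lit 256))) (XT.nd (nat_lit 78) (nat_lit 0) (nat_lit 0) (XT.lf (nat_lit 0) (nat_lit 5788324181524) (nat_lit 76) (nat_lit 3365926884453) (nat_lit 76) (nat_lit 3291147265236) (nat_lit 1) (nat_lit 4) (nat_lit 2) (nat_lit 5) (nat_lit 2) (nat_lit 4) (nat_lit 410) (nat_lit 355) (nat_lit 255)) (XT.lf (nat_lit 0) (nat_lit 7351923832083) (nat_lit 76) (nat_lit 3503939712218) (nat_lit 76) (nat_lit 3429160084695) (nat_lit 1) (nat_lit 4) (nat_lit 2) (nat_lit 5) (nat_lit 2) (nat_lit 4) (nat_lit 411) (nat_lit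 355) (nat_lit 254)))) (XT.nd (nat_lit 156) (nat_lit 0) (nat_lit 0) (XT.nd (nat_lit 78) (nat_lit 0) (nat_lit 0) (XT.lf (nat_lit 0) (nat_lit 9150063285831) (nat_lit 76) (nat_lit 3662654538003) (nat_lit 76) (nat_lit 3587874903258) (nat_lit 1) (nat_lit 4) (nat_lit 2) (nat_lit 5) (nat_lit 2) (nat_lit 4) (nat_lit 412) (nat_lit 355) (nat_lit 253)) (XT.lf (nat_lit 0) (nat_lit 11217923532080) (nat_lit 76) (nat_lit 3845176651879) (nat_lit 76) (nat_lit 3770397010853) (nat_lit 1) (nat_lit 4) (nat_lit 2) (nat_lit 5) (nat_lit 2) (nat_lit 4) (nat_lit 413) (nat_lit 355) (nat_lit 252))) (XT.nd (nat_lit 78) (nat_lit 0) (nat_lit 0) (XT.lf (nat_lit 0) (nat_lit 13595962706082) (nat_lit 76) (nat_lit 4055077138681) (nat_lit 76) (nat_lit 3980297492194) (nat_lit 1) (nat_lit 4) (nat_lit 2) (nat_lit 5) (nat_lit 2) (nat_lit 4) (nat_lit 414) (nat_lit 355) (nat_lit 251)) (XT.nd (nat_lit 78) (nat_lit 0) (nat_lit 0) (XT.lf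 (nat_lit 0) (nat_lit 16330707661243) (nat_lit 76) (nat_lit 4296462747065) (nat_lit 76) (nat_lit 4221683095828) (nat_lit 1) (nat_lit 4) (nat_lit 2) (nat_lit 5) (nat_lit 2) (nat_lit 4) (nat_lit 415) (nat_lit 355) (nat_lit 250)) (XT.lf (nat_lit 0) (nat_lit 19475664277119) (nat_lit 76) (nat_lit 4574056238933) (nat_lit 76) (nat_lit 4499276583567) (nat_lit 1) (nat_lit 4) (nat_lit 2) (nat_lit 5) (nat_lit 2) (nat_lit 4) (nat_lit 416) (nat_lit 355) (nat_lit 249))))))) (XT.nd (nat_lit 624) (nat_lit 1748) (nat_lit 0) (XT.nd (nat_lit 312) (nat_lit 836) (nat_lit 0) (XT.nd (nat_lit 156) (nat_lit 380) (nat_lit 0) (XT.nd (nat_lit 78) (nat_lit 0) (nat_lit 0) (XT.lf (nat_lit 0) (nat_lit 17249456918) (nat_lit 532) (nat_lit 891480734) (nat_lit 532) (nat_lit 891480734) (nat_lit 69) (nat_lit 3) (nat_lit 76) (nat_lit 3) (nat_lit 76) (nat_lit 5) (nat_lit 356) (nat_lit 356) (nat_lit 308)) (XT.lf (nat_lit 76) (nat_lit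 34936610686) (nat_lit 0) (nat_lit 3066399939) (nat_lit 532) (nat_lit 2843303212) (nat_lit 70) (nat_lit 5) (nat_lit 69) (nat_lit 3) (nat_lit 76) (nat_lit 5) (nat_lit 357) (nat_lit 356) (nat_lit 307))) (XT.nd (nat_lit 78) (nat_lit 456) (nat_lit 0) (XT.lf (nat_lit 76) (nat_lit 34080830196) (nat_lit 0) (nat_lit 9656051630) (nat_lit 532) (nat_lit 171807002) (nat_lit 71) (nat_lit 5) (nat_lit 70) (nat_lit 5) (nat_lit 77) (nat_lit 5) (nat_lit 358) (nat_lit 356) (nat_lit 306)) (XT.lf (nat_lit 0) (nat_lit 4574963031) (nat_lit 532) (nat_lit 13504942974) (nat_lit 608) (nat_lit 29199369848) (nat_lit 64) (nat_lit 5) (nat_lit 71) (nat_lit 5) (nat_lit 72) (nat_lit 5) (nat_lit 359) (nat_lit 356) (nat_lit 305)))) (XT.nd (nat_lit 156) (nat_lit 456) (nat_lit 0) (XT.nd (nat_lit 78) (nat_lit 456) (nat_lit 0) (XT.lf (nat_lit 0) (nat_lit 11974639208) (nat_lit 532) (nat_lit 16773774427) (nat_lit 76) (nat_lit 22250601625)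 (nat_lit 65) (nat_lit 5) (nat_lit 72) (nat_lit 5) (nat_lit 66) (nat_lit 5) (nat_lit 360) (nat_lit 356) (nat_lit 304)) (XT.lf (nat_lit 0) (nat_lit 22573142403) (nat_lit 532) (nat_lit 19498742624) (nat_lit 76) (nat_lit 13037726078) (nat_lit 59) (nat_lit 5) (nat_lit 66) (nat_lit 5) (nat_lit 60) (nat_lit 5) (nat_lit 361) (nat_lit 356) (nat_lit 303))) (XT.nd (nat_lit 78) (nat_lit 228) (nat_lit 0) (XT.lf (nat_lit 0) (nat_lit 36995592422) (nat_lit 304) (nat_lit 21525668492) (nat_lit 76) (nat_lit 1136806555) (nat_lit 56) (nat_lit 5) (nat_lit 60) (nat_lit 5) (nat_lit 57) (nat_lit 5) (nat_lit 362) (nat_lit 356) (nat_lit 302)) (XT.lf (nat_lit 0) (nat_lit 41641443706) (nat_lit 228) (nat_lit 14679797369) (nat_lit 304) (nat_lit 8348368937) (nat_lit 53) (nat_lit 5) (nat_lit 56) (nat_lit 5) (nat_lit 57) (nat_lit 5) (nat_lit 363) (nat_lit 356) (nat_lit 301))))) (XT.nd (nat_lit 312) (nat_lit 912) (nat_lit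 0) (XT.nd (nat_lit 156) (nat_lit 380) (nat_lit 0) (XT.nd (nat_lit 78) (nat_lit 228) (nat_lit 0) (XT.lf (nat_lit 0) (nat_lit 10392591485) (nat_lit 228) (nat_lit 23832813966) (nat_lit 76) (nat_lit 35977026642) (nat_lit 50) (nat_lit 5) (nat_lit 53) (nat_lit 5) (nat_lit 51) (nat_lit 5) (nat_lit 364) (nat_lit 356) (nat_lit 300)) (XT.lf (nat_lit 0) (nat_lit 34290145416) (nat_lit 304) (nat_lit 23768668041) (nat_lit 76) (nat_lit 18261838437) (nat_lit 47) (nat_lit 5) (nat_lit 51) (nat_lit 5) (nat_lit 48) (nat_lit 5) (nat_lit 365) (nat_lit 356) (nat_lit 299))) (XT.nd (nat_lit 78) (nat_lit 228) (nat_lit 0) (XT.lf (nat_lit 0) (nat_lit 60595269173) (nat_lit 152) (nat_lit 4287103312) (nat_lit 228) (nat_lit 18225431542) (nat_lit 45) (nat_lit 5) (nat_lit 47) (nat_lit 5) (nat_lit 48) (nat_lit 5) (nat_lit 366) (nat_lit 356) (nat_lit 298)) (XT.lf (nat_lit 0) (nat_lit 12570439905) (nat_lit 228) (nat_lit 20626335240)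 (nat_lit 76) (nat_lit 57388428460) (nat_lit 42) (nat_lit 5) (nat_lit 45) (nat_lit 5) (nat_lit 43) (nat_lit 5) (nat_lit 367) (nat_lit 356) (nat_lit 297)))) (XT.nd (nat_lit 156) (nat_lit 608) (nat_lit 0) (XT.nd (nat_lit 78) (nat_lit 152) (nat_lit 0) (XT.lf (nat_lit 0) (nat_lit 50471806055) (nat_lit 228) (nat_lit 17713008277) (nat_lit 76) (nat_lit 30676308525) (nat_lit 40) (nat_lit 5) (nat_lit 43) (nat_lit 5) (nat_lit 41) (nat_lit 5) (nat_lit 368) (nat_lit 356) (nat_lit 296)) (XT.lf (nat_lit 0) (nat_lit 94914727901) (nat_lit 152) (nat_lit 2956175030) (nat_lit 228) (nat_lit 10202526565) (nat_lit 38) (nat_lit 5) (nat_lit 40) (nat_lit 5) (nat_lit 41) (nat_lit 5) (nat_lit 369) (nat_lit 356) (nat_lit 295))) (XT.nd (nat_lit 78) (nat_lit 456) (nat_lit 0) (XT.lf (nat_lit 0) (nat_lit 37073149308) (nat_lit 152) (nat_lit 8546683192) (nat_lit 76) (nat_lit 72579105033) (nat_lit 36) (nat_lit 5) (nat_lit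 38) (nat_lit 5) (nat_lit 37) (nat_lit 5) (nat_lit 370) (nat_lit 356) (nat_lit 294)) (XT.nd (nat_lit 78) (nat_lit 304) (nat_lit 0) (XT.lf (nat_lit 0) (nat_lit 95205304358) (nat_lit 228) (nat_lit 2456002342) (nat_lit 76) (nat_lit 31811227617) (nat_lit 34) (nat_lit 5) (nat_lit 37) (nat_lit 5) (nat_lit 35) (nat_lit 4) (nat_lit 371) (nat_lit 356) (nat_lit 293)) (XT.lf (nat_lit 0) (nat_lit 4697710239) (nat_lit 152) (nat_lit 19236383052) (nat_lit 228) (nat_lit 118041692378) (nat_lit 30) (nat_lit 5) (nat_lit 32) (nat_lit 5) (nat_lit 33) (nat_lit 5) (nat_lit 372) (nat_lit 356) (nat_lit 292))))))))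
noncomputable def xc80 : XT := (XT.nd (nat_lit 1248) (nat_lit 608) (nat_lit 0) (XT.nd (nat_lit 624) (nat_lit 684) (nat_lit 0) (XT.nd (nat_lit 312) (nat_lit 456) (nat_lit 0) (XT.nd (nat_lit 156) (nat_lit 152) (nat_lit 0) (XT.nd (nat_lit 78) (nat_lit 152) (nat_lit 0) (XT.lf (nat_lit 0) (nat_lit 11752490191) (nat_lit 76) (nat_lit 83147375523) (nat_lit 152) (nat_lit 60898394895) (nat_lit 29) (nat_lit 5) (nat_lit 30) (nat_lit 5) (nat_lit 31) (nat_lit 4) (nat_lit 373) (nat_lit 356) (nat_lit 291)) (XT.lf (nat_lit 0) (nat_lit 9949834504) (nat_lit 152) (nat_lit 151195063514) (nat_lit 76) (nat_lit 10109992792) (nat_lit 27) (nat_lit 5) (nat_lit 29) (nat_lit 5) (nat_lit 28) (nat_lit 4) (nat_lit 374) (nat_lit 356) (nat_lit 290))) (XT.nd (nat_lit 78) (nat_lit 76) (nat_lit 0) (XT.lf (nat_lit 0) (nat_lit 26012627500) (nat_lit 76) (nat_lit 69134275384) (nat_lit 152) (nat_lit 93170373544) (nat_lit 26) (nat_lit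 5) (nat_lit 27) (nat_lit 5) (nat_lit 28) (nat_lit 4) (nat_lit 375) (nat_lit 356) (nat_lit 289)) (XT.lf (nat_lit 0) (nat_lit 31968077238) (nat_lit 76) (nat_lit 167319846471) (nat_lit 76) (nat_lit 8157945271) (nat_lit 25) (nat_lit 4) (nat_lit 26) (nat_lit 5) (nat_lit 26) (nat_lit 4) (nat_lit 376) (nat_lit 356) (nat_lit 288)))) (XT.nd (nat_lit 156) (nat_lit 228) (nat_lit 0) (XT.nd (nat_lit 78) (nat_lit 76) (nat_lit 0) (XT.lf (nat_lit 0) (nat_lit 33632367389) (nat_lit 76) (nat_lit 59057929117) (nat_lit 152) (nat_lit 135975737766) (nat_lit 23) (nat_lit 5) (nat_lit 24) (nat_lit 5) (nat_lit 25) (nat_lit 4) (nat_lit 377) (nat_lit 356) (nat_lit 287)) (XT.lf (nat_lit 0) (nat_lit 31725120347) (nat_lit 76) (nat_lit 184047390621) (nat_lit 76) (nat_lit 36672579918) (nat_lit 22) (nat_lit 4) (nat_lit 23) (nat_lit 5) (nat_lit 23) (nat_lit 4) (nat_lit 378) (nat_lit 356) (nat_lit 286))) (XT.nd (nat_lit 78)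 (nat_lit 76) (nat_lit 0) (XT.lf (nat_lit 0) (nat_lit 22444684647) (nat_lit 76) (nat_lit 59199824611) (nat_lit 152) (nat_lit 197357606746) (nat_lit 20) (nat_lit 5) (nat_lit 21) (nat_lit 5) (nat_lit 22) (nat_lit 4) (nat_lit 379) (nat_lit 356) (nat_lit 285)) (XT.lf (nat_lit 0) (nat_lit 3375956801) (nat_lit 76) (nat_lit 220924765511) (nat_lit 76) (nat_lit 84464731123) (nat_lit 19) (nat_lit 4) (nat_lit 20) (nat_lit 5) (nat_lit 20) (nat_lit 4) (nat_lit 380) (nat_lit 356) (nat_lit 284))))) (XT.nd (nat_lit 312) (nat_lit 304) (nat_lit 0) (XT.nd (nat_lit 156) (nat_lit 228) (nat_lit 0) (XT.nd (nat_lit 78) (nat_lit 76) (nat_lit 0) (XT.lf (nat_lit 0) (nat_lit 52391643687) (nat_lit 152) (nat_lit 27486174398) (nat_lit 76) (nat_lit 262284295854) (nat_lit 18) (nat_lit 5) (nat_lit 20) (nat_lit 5) (nat_lit 19) (nat_lit 4) (nat_lit 381) (nat_lit 356) (nat_lit 283)) (XT.lf (nat_lit 0) (nat_lit 214482612803)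 (nat_lit 152) (nat_lit 77004142896) (nat_lit 0) (nat_lit 88129415430) (nat_lit 17) (nat_lit 5) (nat_lit 19) (nat_lit 4) (nat_lit 17) (nat_lit 4) (nat_lit 382) (nat_lit 356) (nat_lit 282))) (XT.nd (nat_lit 78) (nat_lit 152) (nat_lit 0) (XT.lf (nat_lit 0) (nat_lit 272672136265) (nat_lit 76) (nat_lit 137801508049) (nat_lit 76) (nat_lit 11447779359) (nat_lit 16) (nat_lit 4) (nat_lit 17) (nat_lit 5) (nat_lit 17) (nat_lit 4) (nat_lit 383) (nat_lit 356) (nat_lit 281)) (XT.lf (nat_lit 0) (nat_lit 165745909369) (nat_lit 152) (nat_lit 255059361634) (nat_lit 0) (nat_lit 48751288347) (nat_lit 14) (nat_lit 5) (nat_lit 16) (nat_lit 4) (nat_lit 14) (nat_lit 4) (nat_lit 384) (nat_lit 356) (nat_lit 280)))) (XT.nd (nat_lit 156) (nat_lit 152) (nat_lit 0) (XT.nd (nat_lit 78) (nat_lit 76) (nat_lit 0) (XT.lf (nat_lit 0) (nat_lit 119593428849) (nat_lit 76) (nat_lit 260410833148) (nat_lit 76) (nat_lit 143415840133)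 (nat_lit 13) (nat_lit 4) (nat_lit 14) (nat_lit 5) (nat_lit 14) (nat_lit 4) (nat_lit 385) (nat_lit 356) (nat_lit 279)) (XT.lf (nat_lit 0) (nat_lit 46602643516) (nat_lit 152) (nat_lit 20061817971) (nat_lit 76) (nat_lit 518010369451) (nat_lit 12) (nat_lit 5) (nat_lit 14) (nat_lit 5) (nat_lit 13) (nat_lit 4) (nat_lit 386) (nat_lit 356) (nat_lit 278))) (XT.nd (nat_lit 78) (nat_lit 76) (nat_lit 0) (XT.lf (nat_lit 0) (nat_lit 271569582712) (nat_lit 152) (nat_lit 218814853872) (nat_lit 0) (nat_lit 163240325521) (nat_lit 11) (nat_lit 5) (nat_lit 13) (nat_lit 4) (nat_lit 11) (nat_lit 4) (nat_lit 387) (nat_lit 356) (nat_lit 277)) (XT.lf (nat_lit 0) (nat_lit 236212016544) (nat_lit 76) (nat_lit 302192410493) (nat_lit 76) (nat_lit 193862926829) (nat_lit 10) (nat_lit 4) (nat_lit 11) (nat_lit 5) (nat_lit 11) (nat_lit 4) (nat_lit 388) (nat_lit 356) (nat_lit 276)))))) (XT.nd (nat_lit 624) (nat_lit 152) (nat_lit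 0) (XT.nd (nat_lit 312) (nat_lit 228) (nat_lit 0) (XT.nd (nat_lit 156) (nat_lit 76) (nat_lit 0) (XT.nd (nat_lit 78) (nat_lit 76) (nat_lit 0) (XT.lf (nat_lit 0) (nat_lit 27964743639) (nat_lit 152) (nat_lit 50163013826) (nat_lit 76) (nat_lit 744012372565) (nat_lit 9) (nat_lit 5) (nat_lit 11) (nat_lit 5) (nat_lit 10) (nat_lit 4) (nat_lit 389) (nat_lit 356) (nat_lit 275)) (XT.lf (nat_lit 0) (nat_lit 288247176792) (nat_lit 152) (nat_lit 447569298537) (nat_lit 0) (nat_lit 187941758418) (nat_lit 8) (nat_lit 5) (nat_lit 10) (nat_lit 4) (nat_lit 8) (nat_lit 4) (nat_lit 390) (nat_lit 356) (nat_lit 274))) (XT.nd (nat_lit 78) (nat_lit 0) (nat_lit 0) (XT.lf (nat_lit 0) (nat_lit 44031409200) (nat_lit 76) (nat_lit 548257906426) (nat_lit 76) (nat_lit 447952350172) (nat_lit 7) (nat_lit 4) (nat_lit 8) (nat_lit 5) (nat_lit 8) (nat_lit 4) (nat_lit 391) (nat_lit 356) (nat_lit 273)) (XT.lf (nat_lit 0) (nat_lit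 636474154613) (nat_lit 76) (nat_lit 318493376865) (nat_lit 76) (nat_lit 218187700717) (nat_lit 7) (nat_lit 4) (nat_lit 8) (nat_lit 5) (nat_lit 8) (nat_lit 4) (nat_lit 392) (nat_lit 356) (nat_lit 272)))) (XT.nd (nat_lit 156) (nat_lit 76) (nat_lit 0) (XT.nd (nat_lit 78) (nat_lit 76) (nat_lit 0) (XT.lf (nat_lit 0) (nat_lit 43737794210) (nat_lit 152) (nat_lit 9331168446) (nat_lit 76) (nat_lit 1272848339691) (nat_lit 6) (nat_lit 5) (nat_lit 8) (nat_lit 5) (nat_lit 7) (nat_lit 4) (nat_lit 393) (nat_lit 356) (nat_lit 271)) (XT.lf (nat_lit 0) (nat_lit 353973981008) (nat_lit 152) (nat_lit 884312869383) (nat_lit 0) (nat_lit 261098174468) (nat_lit 5) (nat_lit 5) (nat_lit 7) (nat_lit 4) (nat_lit 5) (nat_lit 4) (nat_lit 394) (nat_lit 356) (nat_lit 270))) (XT.nd (nat_lit 78) (nat_lit 76) (nat_lit 0) (XT.lf (nat_lit 0) (nat_lit 712491535726) (nat_lit 152) (nat_lit 366626038656) (nat_lit 0) (nat_lit 619615656192)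 (nat_lit 5) (nat_lit 5) (nat_lit 7) (nat_lit 4) (nat_lit 5) (nat_lit 4) (nat_lit 395) (nat_lit 356) (nat_lit 269)) (XT.lf (nat_lit 0) (nat_lit 240756475089) (nat_lit 76) (nat_lit 889819978348) (nat_lit 76) (nat_lit 796944035342) (nat_lit 4) (nat_lit 4) (nat_lit 5) (nat_lit 5) (nat_lit 5) (nat_lit 4) (nat_lit 396) (nat_lit 356) (nat_lit 268))))) (XT.nd (nat_lit 312) (nat_lit 0) (nat_lit 0) (XT.nd (nat_lit 156) (nat_lit 152) (nat_lit 0) (XT.nd (nat_lit 78) (nat_lit 0) (nat_lit 0) (XT.lf (nat_lit 0) (nat_lit 961447250333) (nat_lit 76) (nat_lit 660600352056) (nat_lit 76) (nat_lit 567724353856) (nat_lit 4) (nat_lit 4) (nat_lit 5) (nat_lit 5) (nat_lit 5) (nat_lit 4) (nat_lit 397) (nat_lit 356) (nat_lit 267)) (XT.lf (nat_lit 0) (nat_lit 1790240881287) (nat_lit 76) (nat_lit 396998169298) (nat_lit 76) (nat_lit 304122123104) (nat_lit 4) (nat_lit 4) (nat_lit 5) (nat_lit 5) (nat_lit 5) (nat_lit 4) (nat_lit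 398) (nat_lit 356) (nat_lit 266))) (XT.nd (nat_lit 78) (nat_lit 152) (nat_lit 0) (XT.lf (nat_lit 0) (nat_lit 2743352895514) (nat_lit 76) (nat_lit 93855996065) (nat_lit 76) (nat_lit 979908137) (nat_lit 4) (nat_lit 4) (nat_lit 5) (nat_lit 5) (nat_lit 5) (nat_lit 4) (nat_lit 399) (nat_lit 356) (nat_lit 265)) (XT.lf (nat_lit 0) (nat_lit 352016731753) (nat_lit 152) (nat_lit 2616592818855) (nat_lit 0) (nat_lit 266020320439) (nat_lit 2) (nat_lit 5) (nat_lit 4) (nat_lit 4) (nat_lit 2) (nat_lit 4) (nat_lit 400) (nat_lit 356) (nat_lit 264)))) (XT.nd (nat_lit 156) (nat_lit 0) (nat_lit 0) (XT.nd (nat_lit 78) (nat_lit 0) (nat_lit 0) (XT.lf (nat_lit 0) (nat_lit 763334810066) (nat_lit 152) (nat_lit 2249427490200) (nat_lit 0) (nat_lit 677338369532) (nat_lit 2) (nat_lit 5) (nat_lit 4) (nat_lit 4) (nat_lit 2) (nat_lit 4) (nat_lit 401) (nat_lit 356) (nat_lit 263)) (XT.lf (nat_lit 0) (nat_lit 1236350364192)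 (nat_lit 152) (nat_lit 1827187844801) (nat_lit 0) (nat_lit 1150353898250) (nat_lit 2) (nat_lit 5) (nat_lit 4) (nat_lit 4) (nat_lit 2) (nat_lit 4) (nat_lit 402) (nat_lit 356) (nat_lit 262))) (XT.nd (nat_lit 78) (nat_lit 0) (nat_lit 0) (XT.lf (nat_lit 0) (nat_lit 1780318046277) (nat_lit 152) (nat_lit 1341612672205) (nat_lit 0) (nat_lit 1694321558241) (nat_lit 2) (nat_lit 5) (nat_lit 4) (nat_lit 4) (nat_lit 2) (nat_lit 4) (nat_lit 403) (nat_lit 356) (nat_lit 261)) (XT.nd (nat_lit 78) (nat_lit 0) (nat_lit 0) (XT.lf (nat_lit 0) (nat_lit 2405880702275) (nat_lit 152) (nat_lit 783201588600) (nat_lit 0) (nat_lit 2319884195027) (nat_lit 2) (nat_lit 5) (nat_lit 4) (nat_lit 4) (nat_lit 2) (nat_lit 4) (nat_lit 404) (nat_lit 356) (nat_lit 260)) (XT.lf (nat_lit 0) (nat_lit 3125277601543) (nat_lit 152) (nat_lit 141029159743) (nat_lit 0) (nat_lit 3039281077588) (nat_lit 2) (nat_lit 5) (nat_lit 4) (nat_lit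 4) (nat_lit 2) (nat_lit 4) (nat_lit 405) (nat_lit 356) (nat_lit 259))))))))
noncomputable def xc81 : XT := (XT.nd (nat_lit 49686) (nat_lit 0) (nat_lit 1672) (XT.nd (nat_lit 624) (nat_lit 0) (nat_lit 0) (XT.nd (nat_lit 312) (nat_lit 0) (nat_lit 0) (XT.nd (nat_lit 156) (nat_lit 0) (nat_lit 0) (XT.nd (nat_lit 78) (nat_lit 0) (nat_lit 0) (XT.lf (nat_lit 0) (nat_lit 628930508773) (nat_lit 76) (nat_lit 3338779185893) (nat_lit 76) (nat_lit 3252782647411) (nat_lit 1) (nat_lit 4) (nat_lit 2) (nat_lit 5) (nat_lit 2) (nat_lit 4) (nat_lit 406) (nat_lit 356) (nat_lit 258)) (XT.lf (nat_lit 0) (nat_lit 1522924172490) (nat_lit 76) (nat_lit 3417688218139) (nat_lit 76) (nat_lit 3331691667025) (nat_lit 1) (nat_lit 4) (nat_lit 2) (nat_lit 5) (nat_lit 2) (nat_lit 4) (nat_lit 407) (nat_lit 356) (nat_lit 257))) (XT.nd (nat_lit 78) (nat_lit 0) (nat_lit 0) (XT.lf (nat_lit 0) (nat_lit 2551016666157) (nat_lit 76)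 (nat_lit 3508433717548) (nat_lit 76) (nat_lit 3422437155449) (nat_lit 1) (nat_lit 4) (nat_lit 2) (nat_lit 5) (nat_lit 2) (nat_lit 4) (nat_lit 408) (nat_lit 356) (nat_lit 256)) (XT.lf (nat_lit 0) (nat_lit 3733322842910) (nat_lit 76) (nat_lit 3612791139542) (nat_lit 76) (nat_lit 3526794567890) (nat_lit 1) (nat_lit 4) (nat_lit 2) (nat_lit 5) (nat_lit 2) (nat_lit 4) (nat_lit 409) (nat_lit 356) (nat_lit 255)))) (XT.nd (nat_lit 156) (nat_lit 0) (nat_lit 0) (XT.nd (nat_lit 78) (nat_lit 0) (nat_lit 0) (XT.lf (nat_lit 0) (nat_lit 5092974780123) (nat_lit 76) (nat_lit 3732802259768) (nat_lit 76) (nat_lit 3646805679811) (nat_lit 1) (nat_lit 4) (nat_lit 2) (nat_lit 5) (nat_lit 2) (nat_lit 4) (nat_lit 410) (nat_lit 356) (nat_lit 254)) (XT.lf (nat_lit 0) (nat_lit 6656574363521) (nat_lit 76) (nat_lit 3870815121885) (nat_lit 76) (nat_lit 3784818534705) (nat_lit 1) (nat_lit 4) (nat_lit 2) (nat_lit 5) (nat_lit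 2) (nat_lit 4) (nat_lit 411) (nat_lit 356) (nat_lit 253))) (XT.nd (nat_lit 78) (nat_lit 0) (nat_lit 0) (XT.lf (nat_lit 0) (nat_lit 8454713758869) (nat_lit 76) (nat_lit 4029529977541) (nat_lit 76) (nat_lit 3943533384081) (nat_lit 1) (nat_lit 4) (nat_lit 2) (nat_lit 5) (nat_lit 2) (nat_lit 4) (nat_lit 412) (nat_lit 356) (nat_lit 252)) (XT.lf (nat_lit 0) (nat_lit 10522573954334) (nat_lit 76) (nat_lit 4212052117391) (nat_lit 76) (nat_lit 4126055518470) (nat_lit 1) (nat_lit 4) (nat_lit 2) (nat_lit 5) (nat_lit 2) (nat_lit 4) (nat_lit 413) (nat_lit 356) (nat_lit 251))))) (XT.nd (nat_lit 48750) (nat_lit 0) (nat_lit 4788) (XT.nd (nat_lit 156) (nat_lit 0) (nat_lit 0) (XT.nd (nat_lit 78) (nat_lit 0) (nat_lit 0) (XT.lf (nat_lit 0) (nat_lit 12900613084178) (nat_lit 76) (nat_lit 4421952626780) (nat_lit 76) (nat_lit 4335956023109) (nat_lit 1) (nat_lit 4) (nat_lit 2) (nat_lit 5) (nat_lit 2) (nat_lit 4)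 (nat_lit 414) (nat_lit 356) (nat_lit 250)) (XT.lf (nat_lit 0) (nat_lit 15635358000939) (nat_lit 76) (nat_lit 4663338254804) (nat_lit 76) (nat_lit 4577341647004) (nat_lit 1) (nat_lit 4) (nat_lit 2) (nat_lit 5) (nat_lit 2) (nat_lit 4) (nat_lit 415) (nat_lit 356) (nat_lit 249))) (XT.nd (nat_lit 48516) (nat_lit 0) (nat_lit 5168) (XT.lf (nat_lit 0) (nat_lit 18780314583424) (nat_lit 76) (nat_lit 4940931763752) (nat_lit 76) (nat_lit 4854935152361) (nat_lit 1) (nat_lit 4) (nat_lit 2) (nat_lit 5) (nat_lit 2) (nat_lit 4) (nat_lit 416) (nat_lit 356) (nat_lit 248)) (XT.lf (nat_lit 0) (nat_lit 19910161669) (nat_lit 532) (nat_lit 985603637) (nat_lit 532) (nat_lit 985603637) (nat_lit 69) (nat_lit 3) (nat_lit 76) (nat_lit 3) (nat_lit 76) (nat_lit 5) (nat_lit 357) (nat_lit 357) (nat_lit 306)))) (XT.nd (nat_lit 156) (nat_lit 380) (nat_lit 0) (XT.nd (nat_lit 78) (nat_lit 0) (nat_lit 76) (XT.lf (nat_lit 76)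 (nat_lit 40249596953) (nat_lit 0) (nat_lit 3583063050) (nat_lit 532) (nat_lit 3130179342) (nat_lit 70) (nat_lit 5) (nat_lit 69) (nat_lit 3) (nat_lit 76) (nat_lit 5) (nat_lit 358) (nat_lit 357) (nat_lit 305)) (XT.lf (nat_lit 76) (nat_lit 39270100791) (nat_lit 0) (nat_lit 11140328736) (nat_lit 532) (nat_lit 75446830) (nat_lit 71) (nat_lit 5) (nat_lit 70) (nat_lit 5) (nat_lit 77) (nat_lit 5) (nat_lit 359) (nat_lit 357) (nat_lit 304))) (XT.nd (nat_lit 78) (nat_lit 0) (nat_lit 76) (XT.lf (nat_lit 0) (nat_lit 5363294123) (nat_lit 532) (nat_lit 15445498822) (nat_lit 608) (nat_lit 33554147322) (nat_lit 64) (nat_lit 5) (nat_lit 71) (nat_lit 5) (nat_lit 72) (nat_lit 5) (nat_lit 360) (nat_lit 357) (nat_lit 303)) (XT.lf (nat_lit 0) (nat_lit 13861176637) (nat_lit 532) (nat_lit 19204256880) (nat_lit 76) (nat_lit 25576154505) (nat_lit 65) (nat_lit 5) (nat_lit 72) (nat_lit 5) (nat_lit 66) (nat_lit 5) (nat_lit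 361) (nat_lit 357) (nat_lit 302)))))) (XT.nd (nat_lit 624) (nat_lit 1292) (nat_lit 0) (XT.nd (nat_lit 312) (nat_lit 760) (nat_lit 0) (XT.nd (nat_lit 156) (nat_lit 456) (nat_lit 0) (XT.nd (nat_lit 78) (nat_lit 228) (nat_lit 0) (XT.lf (nat_lit 0) (nat_lit 26039505133) (nat_lit 532) (nat_lit 22338683229) (nat_lit 76) (nat_lit 14991387706) (nat_lit 59) (nat_lit 5) (nat_lit 66) (nat_lit 5) (nat_lit 60) (nat_lit 5) (nat_lit 362) (nat_lit 357) (nat_lit 301)) (XT.lf (nat_lit 0) (nat_lit 42616847404) (nat_lit 304) (nat_lit 24671192688) (nat_lit 76) (nat_lit 1312944735) (nat_lit 56) (nat_lit 5) (nat_lit 60) (nat_lit 5) (nat_lit 57) (nat_lit 5) (nat_lit 363) (nat_lit 357) (nat_lit 300))) (XT.nd (nat_lit 78) (nat_lit 228) (nat_lit 0) (XT.lf (nat_lit 0) (nat_lit 47963933201) (nat_lit 228) (nat_lit 16869864156) (nat_lit 304) (nat_lit 9531070223) (nat_lit 53) (nat_lit 5) (nat_lit 56) (nat_lit 5) (nat_lit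 57) (nat_lit 5) (nat_lit 364) (nat_lit 357) (nat_lit 299)) (XT.lf (nat_lit 0) (nat_lit 12011025169) (nat_lit 228) (nat_lit 27330272970) (nat_lit 76) (nat_lit 41386707535) (nat_lit 50) (nat_lit 5) (nat_lit 53) (nat_lit 5) (nat_lit 51) (nat_lit 5) (nat_lit 365) (nat_lit 357) (nat_lit 298)))) (XT.nd (nat_lit 156) (nat_lit 380) (nat_lit 0) (XT.nd (nat_lit 78) (nat_lit 152) (nat_lit 0) (XT.lf (nat_lit 0) (nat_lit 39487569768) (nat_lit 304) (nat_lit 27259178324) (nat_lit 76) (nat_lit 21017665351) (nat_lit 47) (nat_lit 5) (nat_lit 51) (nat_lit 5) (nat_lit 48) (nat_lit 5) (nat_lit 366) (nat_lit 357) (nat_lit 297)) (XT.lf (nat_lit 0) (nat_lit 69753018878) (nat_lit 152) (nat_lit 4910227703) (nat_lit 228) (nat_lit 20906825696) (nat_lit 45) (nat_lit 5) (nat_lit 47) (nat_lit 5) (nat_lit 48) (nat_lit 5) (nat_lit 367) (nat_lit 357) (nat_lit 296))) (XT.nd (nat_lit 78) (nat_lit 152) (nat_lit 0) (XT.lf (nat_lit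 0) (nat_lit 14501360149) (nat_lit 228) (nat_lit 23652082788) (nat_lit 76) (nat_lit 66015896043) (nat_lit 42) (nat_lit 5) (nat_lit 45) (nat_lit 5) (nat_lit 43) (nat_lit 5) (nat_lit 368) (nat_lit 357) (nat_lit 295)) (XT.lf (nat_lit 0) (nat_lit 58084033714) (nat_lit 228) (nat_lit 20304756809) (nat_lit 76) (nat_lit 35298169592) (nat_lit 40) (nat_lit 5) (nat_lit 43) (nat_lit 5) (nat_lit 41) (nat_lit 5) (nat_lit 369) (nat_lit 357) (nat_lit 294))))) (XT.nd (nat_lit 312) (nat_lit 532) (nat_lit 0) (XT.nd (nat_lit 156) (nat_lit 456) (nat_lit 0) (XT.nd (nat_lit 78) (nat_lit 152) (nat_lit 0) (XT.lf (nat_lit 0) (nat_lit 109211620711) (nat_lit 152) (nat_lit 3377402400) (nat_lit 228) (nat_lit 11692409307) (nat_lit 38) (nat_lit 5) (nat_lit 40) (nat_lit 5) (nat_lit 41) (nat_lit 5) (nat_lit 370) (nat_lit 357) (nat_lit 293)) (XT.lf (nat_lit 0) (nat_lit 42669454561) (nat_lit 152) (nat_lit 9769915258) (nat_lit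 76) (nat_lit 83486571472) (nat_lit 36) (nat_lit 5) (nat_lit 38) (nat_lit 5) (nat_lit 37) (nat_lit 5) (nat_lit 371) (nat_lit 357) (nat_lit 292))) (XT.nd (nat_lit 78) (nat_lit 304) (nat_lit 0) (XT.lf (nat_lit 0) (nat_lit 109518641781) (nat_lit 228) (nat_lit 2768560311) (nat_lit 76) (nat_lit 36603600123) (nat_lit 34) (nat_lit 5) (nat_lit 37) (nat_lit 5) (nat_lit 35) (nat_lit 4) (nat_lit 372) (nat_lit 357) (nat_lit 291)) (XT.lf (nat_lit 0) (nat_lit 5457861191) (nat_lit 152) (nat_lit 22097981539) (nat_lit 228) (nat_lit 135713772783) (nat_lit 30) (nat_lit 5) (nat_lit 32) (nat_lit 5) (nat_lit 33) (nat_lit 5) (nat_lit 373) (nat_lit 357) (nat_lit 290)))) (XT.nd (nat_lit 156) (nat_lit 304) (nat_lit 0) (XT.nd (nat_lit 78) (nat_lit 152) (nat_lit 0) (XT.lf (nat_lit 0) (nat_lit 13567958749) (nat_lit 76) (nat_lit 95596159781) (nat_lit 152) (nat_lit 70001533098) (nat_lit 29) (nat_lit 5) (nat_lit 30) (nat_lit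 5) (nat_lit 31) (nat_lit 4) (nat_lit 374) (nat_lit 357) (nat_lit 289)) (XT.lf (nat_lit 0) (nat_lit 11470159427) (nat_lit 152) (nat_lit 173823072478) (nat_lit 76) (nat_lit 11647659526) (nat_lit 27) (nat_lit 5) (nat_lit 29) (nat_lit 5) (nat_lit 28) (nat_lit 4) (nat_lit 375) (nat_lit 357) (nat_lit 288))) (XT.nd (nat_lit 78) (nat_lit 228) (nat_lit 0) (XT.lf (nat_lit 0) (nat_lit 29961434083) (nat_lit 76) (nat_lit 79482849651) (nat_lit 152) (nat_lit 107118552159) (nat_lit 26) (nat_lit 5) (nat_lit 27) (nat_lit 5) (nat_lit 28) (nat_lit 4) (nat_lit 376) (nat_lit 357) (nat_lit 287)) (XT.nd (nat_lit 78) (nat_lit 152) (nat_lit 0) (XT.lf (nat_lit 0) (nat_lit 36807615593) (nat_lit 76) (nat_lit 192397053259) (nat_lit 76) (nat_lit 9356192152) (nat_lit 25) (nat_lit 4) (nat_lit 26) (nat_lit 5) (nat_lit 26) (nat_lit 4) (nat_lit 377) (nat_lit 357) (nat_lit 286)) (XT.lf (nat_lit 0) (nat_lit 38718965561) (nat_lit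 76) (nat_lit 67896898519) (nat_lit 152) (nat_lit 156348310429) (nat_lit 23) (nat_lit 5) (nat_lit 24) (nat_lit 5) (nat_lit 25) (nat_lit 4) (nat_lit 378) (nat_lit 357) (nat_lit 285))))))))
noncomputable def xc82 : XT := (XT.nd (nat_lit 1248) (nat_lit 380) (nat_lit 0) (XT.nd (nat_lit 624) (nat_lit 532) (nat_lit 0) (XT.nd (nat_lit 312) (nat_lit 380) (nat_lit 0) (XT.nd (nat_lit 156) (nat_lit 152) (nat_lit 0) (XT.nd (nat_lit 78) (nat_lit 152) (nat_lit 0) (XT.lf (nat_lit 0) (nat_lit 36523279513) (nat_lit 76) (nat_lit 211635618382) (nat_lit 76) (nat_lit 42151313143) (nat_lit 22) (nat_lit 4) (nat_lit 23) (nat_lit 5) (nat_lit 23) (nat_lit 4) (nat_lit 379) (nat_lit 357) (nat_lit 284)) (XT.lf (nat_lit 0) (nat_lit 25848460865) (nat_lit 76) (nat_lit 68061916872) (nat_lit 152) (nat_lit 226940518160) (nat_lit 20) (nat_lit 5) (nat_lit 21) (nat_lit 5) (nat_lit 22) (nat_lit 4) (nat_lit 380) (nat_lit 357) (nat_lit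 283))) (XT.nd (nat_lit 78) (nat_lit 76) (nat_lit 0) (XT.lf (nat_lit 0) (nat_lit 3917299471) (nat_lit 76) (nat_lit 254046434446) (nat_lit 76) (nat_lit 97115103413) (nat_lit 19) (nat_lit 4) (nat_lit 20) (nat_lit 5) (nat_lit 20) (nat_lit 4) (nat_lit 381) (nat_lit 357) (nat_lit 282)) (XT.lf (nat_lit 0) (nat_lit 60266364192) (nat_lit 152) (nat_lit 31577867334) (nat_lit 76) (nat_lit 301640920089) (nat_lit 18) (nat_lit 5) (nat_lit 20) (nat_lit 5) (nat_lit 19) (nat_lit 4) (nat_lit 382) (nat_lit 357) (nat_lit 281)))) (XT.nd (nat_lit 156) (nat_lit 228) (nat_lit 0) (XT.nd (nat_lit 78) (nat_lit 76) (nat_lit 0) (XT.lf (nat_lit 0) (nat_lit 246669919672) (nat_lit 152) (nat_lit 88525344281) (nat_lit 0) (nat_lit 101362138347) (nat_lit 17) (nat_lit 5) (nat_lit 19) (nat_lit 4) (nat_lit 17) (nat_lit 4) (nat_lit 383) (nat_lit 357) (nat_lit 280)) (XT.lf (nat_lit 0) (nat_lit 313599886495) (nat_lit 76) (nat_lit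 158458421650) (nat_lit 76) (nat_lit 13150238573) (nat_lit 16) (nat_lit 4) (nat_lit 17) (nat_lit 5) (nat_lit 17) (nat_lit 4) (nat_lit 384) (nat_lit 357) (nat_lit 279))) (XT.nd (nat_lit 78) (nat_lit 76) (nat_lit 0) (XT.lf (nat_lit 0) (nat_lit 190620856575) (nat_lit 152) (nat_lit 293292221757) (nat_lit 0) (nat_lit 56075919144) (nat_lit 14) (nat_lit 5) (nat_lit 16) (nat_lit 4) (nat_lit 14) (nat_lit 4) (nat_lit 385) (nat_lit 357) (nat_lit 278)) (XT.lf (nat_lit 0) (nat_lit 137556282793) (nat_lit 76) (nat_lit 299460549065) (nat_lit 76) (nat_lit 164915330354) (nat_lit 13) (nat_lit 4) (nat_lit 14) (nat_lit 5) (nat_lit 14) (nat_lit 4) (nat_lit 386) (nat_lit 357) (nat_lit 277))))) (XT.nd (nat_lit 312) (nat_lit 228) (nat_lit 0) (XT.nd (nat_lit 156) (nat_lit 152) (nat_lit 0) (XT.nd (nat_lit 78) (nat_lit 76) (nat_lit 0) (XT.lf (nat_lit 0) (nat_lit 53603684565) (nat_lit 152) (nat_lit 23049799406) (nat_lit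 76) (nat_lit 595721719409) (nat_lit 12) (nat_lit 5) (nat_lit 14) (nat_lit 5) (nat_lit 13) (nat_lit 4) (nat_lit 387) (nat_lit 357) (nat_lit 276)) (XT.lf (nat_lit 0) (nat_lit 312314979767) (nat_lit 152) (nat_lit 251617049180) (nat_lit 0) (nat_lit 187735650147) (nat_lit 11) (nat_lit 5) (nat_lit 13) (nat_lit 4) (nat_lit 11) (nat_lit 4) (nat_lit 388) (nat_lit 357) (nat_lit 275))) (XT.nd (nat_lit 78) (nat_lit 76) (nat_lit 0) (XT.lf (nat_lit 0) (nat_lit 271662156124) (nat_lit 76) (nat_lit 347512036540) (nat_lit 76) (nat_lit 222932535673) (nat_lit 10) (nat_lit 4) (nat_lit 11) (nat_lit 5) (nat_lit 11) (nat_lit 4) (nat_lit 389) (nat_lit 357) (nat_lit 274)) (XT.lf (nat_lit 0) (nat_lit 32167575563) (nat_lit 152) (nat_lit 57671092604) (nat_lit 76) (nat_lit 855621831349) (nat_lit 9) (nat_lit 5) (nat_lit 11) (nat_lit 5) (nat_lit 10) (nat_lit 4) (nat_lit 390) (nat_lit 357) (nat_lit 273)))) (XT.nd (nat_lit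 156) (nat_lit 76) (nat_lit 0) (XT.nd (nat_lit 78) (nat_lit 76) (nat_lit 0) (XT.lf (nat_lit 0) (nat_lit 331491856911) (nat_lit 152) (nat_lit 514689293825) (nat_lit 0) (nat_lit 216140209445) (nat_lit 8) (nat_lit 5) (nat_lit 10) (nat_lit 4) (nat_lit 8) (nat_lit 4) (nat_lit 391) (nat_lit 357) (nat_lit 272)) (XT.lf (nat_lit 0) (nat_lit 50650216582) (nat_lit 76) (nat_lit 630489447224) (nat_lit 76) (nat_lit 515137695501) (nat_lit 7) (nat_lit 4) (nat_lit 8) (nat_lit 5) (nat_lit 8) (nat_lit 4) (nat_lit 392) (nat_lit 357) (nat_lit 271))) (XT.nd (nat_lit 78) (nat_lit 76) (nat_lit 0) (XT.lf (nat_lit 0) (nat_lit 731957535198) (nat_lit 76) (nat_lit 366261170207) (nat_lit 76) (nat_lit 250909327827) (nat_lit 7) (nat_lit 4) (nat_lit 8) (nat_lit 5) (nat_lit 8) (nat_lit 4) (nat_lit 393) (nat_lit 357) (nat_lit 270)) (XT.lf (nat_lit 0) (nat_lit 50303855899) (nat_lit 152) (nat_lit 10719900942) (nat_lit 76) (nat_lit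 1463780709248) (nat_lit 6) (nat_lit 5) (nat_lit 8) (nat_lit 5) (nat_lit 7) (nat_lit 4) (nat_lit 394) (nat_lit 357) (nat_lit 269)))))) (XT.nd (nat_lit 624) (nat_lit 76) (nat_lit 0) (XT.nd (nat_lit 312) (nat_lit 152) (nat_lit 0) (XT.nd (nat_lit 156) (nat_lit 76) (nat_lit 0) (XT.nd (nat_lit 78) (nat_lit 0) (nat_lit 0) (XT.lf (nat_lit 0) (nat_lit 407075130565) (nat_lit 152) (nat_lit 1016949511015) (nat_lit 0) (nat_lit 300267732636) (nat_lit 5) (nat_lit 5) (nat_lit 7) (nat_lit 4) (nat_lit 5) (nat_lit 4) (nat_lit 395) (nat_lit 357) (nat_lit 268)) (XT.lf (nat_lit 0) (nat_lit 819369659482) (nat_lit 152) (nat_lit 421610997692) (nat_lit 0) (nat_lit 712562206358) (nat_lit 5) (nat_lit 5) (nat_lit 7) (nat_lit 4) (nat_lit 5) (nat_lit 4) (nat_lit 396) (nat_lit 357) (nat_lit 267))) (XT.nd (nat_lit 78) (nat_lit 0) (nat_lit 0) (XT.lf (nat_lit 0) (nat_lit 276878135815) (nat_lit 76) (nat_lit 1023288802940)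 (nat_lit 76) (nat_lit 916481301822) (nat_lit 4) (nat_lit 4) (nat_lit 5) (nat_lit 5) (nat_lit 5) (nat_lit 4) (nat_lit 397) (nat_lit 357) (nat_lit 266)) (XT.lf (nat_lit 0) (nat_lit 1105671459155) (nat_lit 76) (nat_lit 759686776898) (nat_lit 76) (nat_lit 652879234046) (nat_lit 4) (nat_lit 4) (nat_lit 5) (nat_lit 5) (nat_lit 5) (nat_lit 4) (nat_lit 398) (nat_lit 357) (nat_lit 265)))) (XT.nd (nat_lit 156) (nat_lit 152) (nat_lit 0) (XT.nd (nat_lit 78) (nat_lit 0) (nat_lit 0) (XT.lf (nat_lit 0) (nat_lit 2058783205891) (nat_lit 76) (nat_lit 456544739940) (nat_lit 76) (nat_lit 349737160797) (nat_lit 4) (nat_lit 4) (nat_lit 5) (nat_lit 5) (nat_lit 5) (nat_lit 4) (nat_lit 399) (nat_lit 357) (nat_lit 264)) (XT.lf (nat_lit 0) (nat_lit 3154861214546) (nat_lit 76) (nat_lit 107931652212) (nat_lit 76) (nat_lit 1124041512) (nat_lit 4) (nat_lit 4) (nat_lit 5) (nat_lit 5) (nat_lit 5) (nat_lit 4) (nat_lit 400)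 (nat_lit 357) (nat_lit 263))) (XT.nd (nat_lit 78) (nat_lit 0) (nat_lit 0) (XT.lf (nat_lit 0) (nat_lit 404821781919) (nat_lit 152) (nat_lit 3009076545804) (nat_lit 0) (nat_lit 305925820678) (nat_lit 2) (nat_lit 5) (nat_lit 4) (nat_lit 4) (nat_lit 2) (nat_lit 4) (nat_lit 401) (nat_lit 357) (nat_lit 262)) (XT.lf (nat_lit 0) (nat_lit 877837240622) (nat_lit 152) (nat_lit 2586837095573) (nat_lit 0) (nat_lit 778941257287) (nat_lit 2) (nat_lit 5) (nat_lit 4) (nat_lit 4) (nat_lit 2) (nat_lit 4) (nat_lit 402) (nat_lit 357) (nat_lit 261))))) (XT.nd (nat_lit 312) (nat_lit 76) (nat_lit 0) (XT.nd (nat_lit 156) (nat_lit 0) (nat_lit 0) (XT.nd (nat_lit 78) (nat_lit 0) (nat_lit 0) (XT.lf (nat_lit 0) (nat_lit 1421804839731) (nat_lit 152) (nat_lit 2101262092689) (nat_lit 0) (nat_lit 1322908837183) (nat_lit 2) (nat_lit 5) (nat_lit 4) (nat_lit 4) (nat_lit 2) (nat_lit 4) (nat_lit 403) (nat_lit 357) (nat_lit 260))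 (XT.lf (nat_lit 0) (nat_lit 2047367423575) (nat_lit 152) (nat_lit 1542851156660) (nat_lit 0) (nat_lit 1948471404321) (nat_lit 2) (nat_lit 5) (nat_lit 4) (nat_lit 4) (nat_lit 2) (nat_lit 4) (nat_lit 404) (nat_lit 357) (nat_lit 259))) (XT.nd (nat_lit 78) (nat_lit 0) (nat_lit 0) (XT.lf (nat_lit 0) (nat_lit 2766764260100) (nat_lit 152) (nat_lit 900678856129) (nat_lit 0) (nat_lit 2667868226319) (nat_lit 2) (nat_lit 5) (nat_lit 4) (nat_lit 4) (nat_lit 2) (nat_lit 4) (nat_lit 405) (nat_lit 357) (nat_lit 258)) (XT.lf (nat_lit 0) (nat_lit 3594070504804) (nat_lit 152) (nat_lit 162180950434) (nat_lit 0) (nat_lit 3495174458390) (nat_lit 2) (nat_lit 5) (nat_lit 4) (nat_lit 4) (nat_lit 2) (nat_lit 4) (nat_lit 406) (nat_lit 357) (nat_lit 257)))) (XT.nd (nat_lit 156) (nat_lit 0) (nat_lit 0) (XT.nd (nat_lit 78) (nat_lit 0) (nat_lit 0) (XT.lf (nat_lit 0) (nat_lit 723272449699) (nat_lit 76) (nat_lit 3839594854322)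 (nat_lit 76) (nat_lit 3740698796924) (nat_lit 1) (nat_lit 4) (nat_lit 2) (nat_lit 5) (nat_lit 2) (nat_lit 4) (nat_lit 407) (nat_lit 357) (nat_lit 256)) (XT.lf (nat_lit 0) (nat_lit 1751364854546) (nat_lit 76) (nat_lit 3930340399161) (nat_lit 76) (nat_lit 3831444332210) (nat_lit 1) (nat_lit 4) (nat_lit 2) (nat_lit 5) (nat_lit 2) (nat_lit 4) (nat_lit 408) (nat_lit 357) (nat_lit 255))) (XT.nd (nat_lit 78) (nat_lit 0) (nat_lit 0) (XT.lf (nat_lit 0) (nat_lit 2933670954065) (nat_lit 76) (nat_lit 4034697860659) (nat_lit 76) (nat_lit 3935801785402) (nat_lit 1) (nat_lit 4) (nat_lit 2) (nat_lit 5) (nat_lit 2) (nat_lit 4) (nat_lit 409) (nat_lit 357) (nat_lit 254)) (XT.nd (nat_lit 78) (nat_lit 0) (nat_lit 0) (XT.lf (nat_lit 0) (nat_lit 4293322824116) (nat_lit 76) (nat_lit 4154709015237) (nat_lit 76) (nat_lit 4055812932758) (nat_lit 1) (nat_lit 4) (nat_lit 2) (nat_lit 5) (nat_lit 2) (nat_lit 4) (nat_lit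 410) (nat_lit 357) (nat_lit 253)) (XT.lf (nat_lit 0) (nat_lit 5856922349114) (nat_lit 76) (nat_lit 4292721907224) (nat_lit 76) (nat_lit 4193825818464) (nat_lit 1) (nat_lit 4) (nat_lit 2) (nat_lit 5) (nat_lit 2) (nat_lit 4) (nat_lit 411) (nat_lit 357) (nat_lit 252))))))))
noncomputable def xc83 : XT := (XT.nd (nat_lit 49842) (nat_lit 0) (nat_lit 988) (XT.nd (nat_lit 49140) (nat_lit 0) (nat_lit 3116) (XT.nd (nat_lit 312) (nat_lit 0) (nat_lit 0) (XT.nd (nat_lit 156) (nat_lit 0) (nat_lit 0) (XT.nd (nat_lit 78) (nat_lit 0) (nat_lit 0) (XT.lf (nat_lit 0) (nat_lit 7655061693679) (nat_lit 76) (nat_lit 4451436788855) (nat_lit 76) (nat_lit 4352540694634) (nat_lit 1) (nat_lit 4) (nat_lit 2) (nat_lit 5) (nat_lit 2) (nat_lit 4) (nat_lit 412) (nat_lit 357) (nat_lit 251)) (XT.lf (nat_lit 0) (nat_lit 9722921844985) (nat_lit 76) (nat_lit 4633958951292) (nat_lit 76) (nat_lit 4535062852322) (nat_lit 1) (nat_lit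 4) (nat_lit 2) (nat_lit 5) (nat_lit 2) (nat_lit 4) (nat_lit 413) (nat_lit 357) (nat_lit 250))) (XT.nd (nat_lit 78) (nat_lit 0) (nat_lit 0) (XT.lf (nat_lit 0) (nat_lit 12100960936429) (nat_lit 76) (nat_lit 4843859480321) (nat_lit 76) (nat_lit 4744963377222) (nat_lit 1) (nat_lit 4) (nat_lit 2) (nat_lit 5) (nat_lit 2) (nat_lit 4) (nat_lit 414) (nat_lit 357) (nat_lit 249)) (XT.lf (nat_lit 0) (nat_lit 14835705819800) (nat_lit 76) (nat_lit 5085245125424) (nat_lit 76) (nat_lit 4986349018734) (nat_lit 1) (nat_lit 4) (nat_lit 2) (nat_lit 5) (nat_lit 2) (nat_lit 4) (nat_lit 415) (nat_lit 357) (nat_lit 248)))) (XT.nd (nat_lit 48672) (nat_lit 0) (nat_lit 4712) (XT.nd (nat_lit 48594) (nat_lit 0) (nat_lit 5168) (XT.lf (nat_lit 0) (nat_lit 17980662373250) (nat_lit 76) (nat_lit 5362838649223) (nat_lit 76) (nat_lit 5263942539410) (nat_lit 1) (nat_lit 4) (nat_lit 2) (nat_lit 5) (nat_lit 2) (nat_lit 4) (nat_lit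 416) (nat_lit 357) (nat_lit 247)) (XT.lf (nat_lit 0) (nat_lit 22952100826) (nat_lit 532) (nat_lit 1103501493) (nat_lit 532) (nat_lit 1103501493) (nat_lit 69) (nat_lit 3) (nat_lit 76) (nat_lit 3) (nat_lit 76) (nat_lit 5) (nat_lit 358) (nat_lit 358) (nat_lit 304))) (XT.nd (nat_lit 78) (nat_lit 456) (nat_lit 0) (XT.lf (nat_lit 76) (nat_lit 46341852876) (nat_lit 0) (nat_lit 4163398213) (nat_lit 532) (nat_lit 3494133956) (nat_lit 70) (nat_lit 5) (nat_lit 69) (nat_lit 3) (nat_lit 76) (nat_lit 5) (nat_lit 359) (nat_lit 358) (nat_lit 303)) (XT.lf (nat_lit 0) (nat_lit 5305516) (nat_lit 532) (nat_lit 12833049859) (nat_lit 608) (nat_lit 45213498840) (nat_lit 63) (nat_lit 5) (nat_lit 70) (nat_lit 5) (nat_lit 71) (nat_lit 5) (nat_lit 360) (nat_lit 358) (nat_lit 302))))) (XT.nd (nat_lit 312) (nat_lit 1064) (nat_lit 0) (XT.nd (nat_lit 156) (nat_lit 608) (nat_lit 0) (XT.nd (nat_lit 78) (nat_lit 0) (nat_lit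 76) (XT.lf (nat_lit 0) (nat_lit 6244980406) (nat_lit 532) (nat_lit 17697911096) (nat_lit 608) (nat_lit 38568269039) (nat_lit 64) (nat_lit 5) (nat_lit 71) (nat_lit 5) (nat_lit 72) (nat_lit 5) (nat_lit 361) (nat_lit 358) (nat_lit 301)) (XT.lf (nat_lit 0) (nat_lit 16008664322) (nat_lit 532) (nat_lit 22020181831) (nat_lit 76) (nat_lit 29403475704) (nat_lit 65) (nat_lit 5) (nat_lit 72) (nat_lit 5) (nat_lit 66) (nat_lit 5) (nat_lit 362) (nat_lit 358) (nat_lit 300))) (XT.nd (nat_lit 78) (nat_lit 228) (nat_lit 0) (XT.lf (nat_lit 0) (nat_lit 30006218329) (nat_lit 532) (nat_lit 25625311204) (nat_lit 76) (nat_lit 17238585628) (nat_lit 59) (nat_lit 5) (nat_lit 66) (nat_lit 5) (nat_lit 60) (nat_lit 5) (nat_lit 363) (nat_lit 358) (nat_lit 299)) (XT.lf (nat_lit 0) (nat_lit 49063753432) (nat_lit 304) (nat_lit 28308865106) (nat_lit 76) (nat_lit 1514133853) (nat_lit 56) (nat_lit 5) (nat_lit 60) (nat_lit 5)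 (nat_lit 57) (nat_lit 5) (nat_lit 364) (nat_lit 358) (nat_lit 298)))) (XT.nd (nat_lit 156) (nat_lit 608) (nat_lit 0) (XT.nd (nat_lit 78) (nat_lit 228) (nat_lit 0) (XT.lf (nat_lit 0) (nat_lit 55216196482) (nat_lit 228) (nat_lit 19391343538) (nat_lit 304) (nat_lit 10908137898) (nat_lit 53) (nat_lit 5) (nat_lit 56) (nat_lit 5) (nat_lit 57) (nat_lit 5) (nat_lit 365) (nat_lit 358) (nat_lit 297)) (XT.lf (nat_lit 0) (nat_lit 13857703489) (nat_lit 228) (nat_lit 31371240690) (nat_lit 76) (nat_lit 47604639485) (nat_lit 50) (nat_lit 5) (nat_lit 53) (nat_lit 5) (nat_lit 51) (nat_lit 5) (nat_lit 366) (nat_lit 358) (nat_lit 296))) (XT.nd (nat_lit 78) (nat_lit 380) (nat_lit 0) (XT.lf (nat_lit 0) (nat_lit 45451463297) (nat_lit 304) (nat_lit 31291503146) (nat_lit 76) (nat_lit 24182830200) (nat_lit 47) (nat_lit 5) (nat_lit 51) (nat_lit 5) (nat_lit 48) (nat_lit 5) (nat_lit 367) (nat_lit 358) (nat_lit 295))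 (XT.nd (nat_lit 78) (nat_lit 228) (nat_lit 0) (XT.lf (nat_lit 0) (nat_lit 80267736797) (nat_lit 152) (nat_lit 5631683517) (nat_lit 228) (nat_lit 24003212063) (nat_lit 45) (nat_lit 5) (nat_lit 47) (nat_lit 5) (nat_lit 48) (nat_lit 5) (nat_lit 368) (nat_lit 358) (nat_lit 294)) (XT.lf (nat_lit 0) (nat_lit 16710858505) (nat_lit 228) (nat_lit 27148324138) (nat_lit 76) (nat_lit 75932800915) (nat_lit 42) (nat_lit 5) (nat_lit 45) (nat_lit 5) (nat_lit 43) (nat_lit 5) (nat_lit 369) (nat_lit 358) (nat_lit 293))))))) (XT.nd (nat_lit 624) (nat_lit 912) (nat_lit 0) (XT.nd (nat_lit 312) (nat_lit 608) (nat_lit 0) (XT.nd (nat_lit 156) (nat_lit 304) (nat_lit 0) (XT.nd (nat_lit 78) (nat_lit 152) (nat_lit 0) (XT.lf (nat_lit 0) (nat_lit 66827986031) (nat_lit 228) (nat_lit 23301167714) (nat_lit 76) (nat_lit 40608331544) (nat_lit 40) (nat_lit 5) (nat_lit 43) (nat_lit 5) (nat_lit 41) (nat_lit 5) (nat_lit 370) (nat_lit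 358) (nat_lit 292)) (XT.lf (nat_lit 0) (nat_lit 125638493213) (nat_lit 152) (nat_lit 3867227215) (nat_lit 228) (nat_lit 13415649726) (nat_lit 38) (nat_lit 5) (nat_lit 40) (nat_lit 5) (nat_lit 41) (nat_lit 5) (nat_lit 371) (nat_lit 358) (nat_lit 291))) (XT.nd (nat_lit 78) (nat_lit 152) (nat_lit 0) (XT.lf (nat_lit 0) (nat_lit 49096589462) (nat_lit 152) (nat_lit 11190963671) (nat_lit 76) (nat_lit 96025134269) (nat_lit 36) (nat_lit 5) (nat_lit 38) (nat_lit 5) (nat_lit 37) (nat_lit 5) (nat_lit 372) (nat_lit 358) (nat_lit 290)) (XT.lf (nat_lit 0) (nat_lit 125971044302) (nat_lit 228) (nat_lit 3141619494) (nat_lit 76) (nat_lit 42109783517) (nat_lit 34) (nat_lit 5) (nat_lit 37) (nat_lit 5) (nat_lit 35) (nat_lit 4) (nat_lit 373) (nat_lit 358) (nat_lit 289)))) (XT.nd (nat_lit 156) (nat_lit 228) (nat_lit 0) (XT.nd (nat_lit 78) (nat_lit 76) (nat_lit 0) (XT.lf (nat_lit 0) (nat_lit 6318502121) (nat_lit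 152) (nat_lit 25394637959) (nat_lit 228) (nat_lit 156044998661) (nat_lit 30) (nat_lit 5) (nat_lit 32) (nat_lit 5) (nat_lit 33) (nat_lit 5) (nat_lit 374) (nat_lit 358) (nat_lit 288)) (XT.lf (nat_lit 0) (nat_lit 15642921960) (nat_lit 76) (nat_lit 109917948912) (nat_lit 152) (nat_lit 80477853020) (nat_lit 29) (nat_lit 5) (nat_lit 30) (nat_lit 5) (nat_lit 31) (nat_lit 4) (nat_lit 375) (nat_lit 358) (nat_lit 287))) (XT.nd (nat_lit 78) (nat_lit 76) (nat_lit 0) (XT.lf (nat_lit 0) (nat_lit 13211741751) (nat_lit 152) (nat_lit 199857780561) (nat_lit 76) (nat_lit 13410814363) (nat_lit 27) (nat_lit 5) (nat_lit 29) (nat_lit 5) (nat_lit 28) (nat_lit 4) (nat_lit 376) (nat_lit 358) (nat_lit 286)) (XT.lf (nat_lit 0) (nat_lit 34491121753) (nat_lit 76) (nat_lit 91388969317) (nat_lit 152) (nat_lit 123165633723) (nat_lit 26) (nat_lit 5) (nat_lit 27) (nat_lit 5) (nat_lit 28) (nat_lit 4) (nat_lit 377) (nat_lit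 358) (nat_lit 285))))) (XT.nd (nat_lit 312) (nat_lit 456) (nat_lit 0) (XT.nd (nat_lit 156) (nat_lit 228) (nat_lit 0) (XT.nd (nat_lit 78) (nat_lit 152) (nat_lit 0) (XT.lf (nat_lit 0) (nat_lit 42362275338) (nat_lit 76) (nat_lit 221240906005) (nat_lit 76) (nat_lit 10740380967) (nat_lit 25) (nat_lit 4) (nat_lit 26) (nat_lit 5) (nat_lit 26) (nat_lit 4) (nat_lit 378) (nat_lit 358) (nat_lit 284)) (XT.lf (nat_lit 0) (nat_lit 44558374149) (nat_lit 76) (nat_lit 78066522169) (nat_lit 152) (nat_lit 179782569846) (nat_lit 23) (nat_lit 5) (nat_lit 24) (nat_lit 5) (nat_lit 25) (nat_lit 4) (nat_lit 379) (nat_lit 358) (nat_lit 283))) (XT.nd (nat_lit 78) (nat_lit 152) (nat_lit 0) (XT.lf (nat_lit 0) (nat_lit 42031556782) (nat_lit 76) (nat_lit 243366684518) (nat_lit 76) (nat_lit 48457258688) (nat_lit 22) (nat_lit 4) (nat_lit 23) (nat_lit 5) (nat_lit 23) (nat_lit 4) (nat_lit 380) (nat_lit 358) (nat_lit 282))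 (XT.lf (nat_lit 0) (nat_lit 29753762903) (nat_lit 76) (nat_lit 78257683472) (nat_lit 152) (nat_lit 260965921330) (nat_lit 20) (nat_lit 5) (nat_lit 21) (nat_lit 5) (nat_lit 22) (nat_lit 4) (nat_lit 381) (nat_lit 358) (nat_lit 281)))) (XT.nd (nat_lit 156) (nat_lit 304) (nat_lit 0) (XT.nd (nat_lit 78) (nat_lit 76) (nat_lit 0) (XT.lf (nat_lit 0) (nat_lit 4531320971) (nat_lit 76) (nat_lit 292140510469) (nat_lit 76) (nat_lit 111667747088) (nat_lit 19) (nat_lit 4) (nat_lit 20) (nat_lit 5) (nat_lit 20) (nat_lit 4) (nat_lit 382) (nat_lit 358) (nat_lit 280)) (XT.lf (nat_lit 0) (nat_lit 69318397424) (nat_lit 152) (nat_lit 36290930630) (nat_lit 76) (nat_lit 346897628882) (nat_lit 18) (nat_lit 5) (nat_lit 20) (nat_lit 5) (nat_lit 19) (nat_lit 4) (nat_lit 383) (nat_lit 358) (nat_lit 279))) (XT.nd (nat_lit 78) (nat_lit 228) (nat_lit 0) (XT.lf (nat_lit 0) (nat_lit 283681685466) (nat_lit 152) (nat_lit 101781900138)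 (nat_lit 0) (nat_lit 116576523827) (nat_lit 17) (nat_lit 5) (nat_lit 19) (nat_lit 4) (nat_lit 17) (nat_lit 4) (nat_lit 384) (nat_lit 358) (nat_lit 278)) (XT.nd (nat_lit 78) (nat_lit 152) (nat_lit 0) (XT.lf (nat_lit 0) (nat_lit 360660232259) (nat_lit 76) (nat_lit 182217118654) (nat_lit 76) (nat_lit 15111653233) (nat_lit 16) (nat_lit 4) (nat_lit 17) (nat_lit 5) (nat_lit 17) (nat_lit 4) (nat_lit 385) (nat_lit 358) (nat_lit 277)) (XT.lf (nat_lit 0) (nat_lit 219223860903) (nat_lit 152) (nat_lit 337266361923) (nat_lit 0) (nat_lit 64496333514) (nat_lit 14) (nat_lit 5) (nat_lit 16) (nat_lit 4) (nat_lit 14) (nat_lit 4) (nat_lit 386) (nat_lit 358) (nat_lit 276))))))))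
noncomputable def xc84 : XT := (XT.nd (nat_lit 1248) (nat_lit 76) (nat_lit 0) (XT.nd (nat_lit 624) (nat_lit 380) (nat_lit 0) (XT.nd (nat_lit 312) (nat_lit 228) (nat_lit 0) (XT.nd (nat_lit 156) (nat_lit 152) (nat_lit 0) (XT.nd (nat_lit 78) (nat_lit 76) (nat_lit 0) (XT.lf (nat_lit 0) (nat_lit 158207751387) (nat_lit 76) (nat_lit 344370626468) (nat_lit 76) (nat_lit 189642886391) (nat_lit 13) (nat_lit 4) (nat_lit 14) (nat_lit 5) (nat_lit 14) (nat_lit 4) (nat_lit 387) (nat_lit 358) (nat_lit 275)) (XT.lf (nat_lit 0) (nat_lit 61652286037) (nat_lit 152) (nat_lit 26491170064) (nat_lit 76) (nat_lit 685087383400) (nat_lit 12) (nat_lit 5) (nat_lit 14) (nat_lit 5) (nat_lit 13) (nat_lit 4) (nat_lit 388) (nat_lit 358) (nat_lit 274))) (XT.nd (nat_lit 78) (nat_lit 76) (nat_lit 0) (XT.lf (nat_lit 0) (nat_lit 359169757657) (nat_lit 152) (nat_lit 289344458902) (nat_lit 0) (nat_lit 215903011505) (nat_lit 11)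 (nat_lit 5) (nat_lit 13) (nat_lit 4) (nat_lit 11) (nat_lit 4) (nat_lit 389) (nat_lit 358) (nat_lit 273)) (XT.lf (nat_lit 0) (nat_lit 312425345023) (nat_lit 76) (nat_lit 399631858636) (nat_lit 76) (nat_lit 256364982996) (nat_lit 10) (nat_lit 4) (nat_lit 11) (nat_lit 5) (nat_lit 11) (nat_lit 4) (nat_lit 390) (nat_lit 358) (nat_lit 272)))) (XT.nd (nat_lit 156) (nat_lit 76) (nat_lit 0) (XT.nd (nat_lit 78) (nat_lit 76) (nat_lit 0) (XT.lf (nat_lit 0) (nat_lit 36998852070) (nat_lit 152) (nat_lit 66309375930) (nat_lit 76) (nat_lit 983970854936) (nat_lit 9) (nat_lit 5) (nat_lit 11) (nat_lit 5) (nat_lit 10) (nat_lit 4) (nat_lit 391) (nat_lit 358) (nat_lit 271)) (XT.lf (nat_lit 0) (nat_lit 381221384863) (nat_lit 152) (nat_lit 591881043671) (nat_lit 0) (nat_lit 248566675467) (nat_lit 8) (nat_lit 5) (nat_lit 10) (nat_lit 4) (nat_lit 8) (nat_lit 4) (nat_lit 392) (nat_lit 358) (nat_lit 270))) (XT.nd (nat_lit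 78) (nat_lit 0) (nat_lit 0) (XT.lf (nat_lit 0) (nat_lit 58258407672) (nat_lit 76) (nat_lit 725057461536) (nat_lit 76) (nat_lit 592402673307) (nat_lit 7) (nat_lit 4) (nat_lit 8) (nat_lit 5) (nat_lit 8) (nat_lit 4) (nat_lit 393) (nat_lit 358) (nat_lit 269)) (XT.lf (nat_lit 0) (nat_lit 841760433828) (nat_lit 76) (nat_lit 421195647676) (nat_lit 76) (nat_lit 288540790897) (nat_lit 7) (nat_lit 4) (nat_lit 8) (nat_lit 5) (nat_lit 8) (nat_lit 4) (nat_lit 394) (nat_lit 358) (nat_lit 268))))) (XT.nd (nat_lit 312) (nat_lit 152) (nat_lit 0) (XT.nd (nat_lit 156) (nat_lit 76) (nat_lit 0) (XT.nd (nat_lit 78) (nat_lit 76) (nat_lit 0) (XT.lf (nat_lit 0) (nat_lit 57853511832) (nat_lit 152) (nat_lit 12319611776) (nat_lit 76) (nat_lit 1683351686035) (nat_lit 6) (nat_lit 5) (nat_lit 8) (nat_lit 5) (nat_lit 7) (nat_lit 4) (nat_lit 395) (nat_lit 358) (nat_lit 267)) (XT.lf (nat_lit 0) (nat_lit 468140220496) (nat_lit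 152) (nat_lit 1169484157874) (nat_lit 0) (nat_lit 345311546216) (nat_lit 5) (nat_lit 5) (nat_lit 7) (nat_lit 4) (nat_lit 5) (nat_lit 4) (nat_lit 396) (nat_lit 358) (nat_lit 266))) (XT.nd (nat_lit 78) (nat_lit 76) (nat_lit 0) (XT.lf (nat_lit 0) (nat_lit 942278430443) (nat_lit 152) (nat_lit 484845882309) (nat_lit 0) (nat_lit 819449714429) (nat_lit 5) (nat_lit 5) (nat_lit 7) (nat_lit 4) (nat_lit 5) (nat_lit 4) (nat_lit 397) (nat_lit 358) (nat_lit 265)) (XT.lf (nat_lit 0) (nat_lit 318416048598) (nat_lit 76) (nat_lit 1176778968628) (nat_lit 76) (nat_lit 1053950216323) (nat_lit 4) (nat_lit 4) (nat_lit 5) (nat_lit 5) (nat_lit 5) (nat_lit 4) (nat_lit 398) (nat_lit 358) (nat_lit 264)))) (XT.nd (nat_lit 156) (nat_lit 152) (nat_lit 0) (XT.nd (nat_lit 78) (nat_lit 0) (nat_lit 0) (XT.lf (nat_lit 0) (nat_lit 1271527562733) (nat_lit 76) (nat_lit 873637050169) (nat_lit 76) (nat_lit 750808266307) (nat_lit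 4) (nat_lit 4) (nat_lit 5) (nat_lit 5) (nat_lit 5) (nat_lit 4) (nat_lit 399) (nat_lit 358) (nat_lit 263)) (XT.lf (nat_lit 0) (nat_lit 2367605369127) (nat_lit 76) (nat_lit 525024065484) (nat_lit 76) (nat_lit 402195254181) (nat_lit 4) (nat_lit 4) (nat_lit 5) (nat_lit 5) (nat_lit 5) (nat_lit 4) (nat_lit 400) (nat_lit 358) (nat_lit 262))) (XT.nd (nat_lit 78) (nat_lit 152) (nat_lit 0) (XT.lf (nat_lit 0) (nat_lit 3628094468338) (nat_lit 76) (nat_lit 124119325742) (nat_lit 76) (nat_lit 1290490578) (nat_lit 4) (nat_lit 4) (nat_lit 5) (nat_lit 5) (nat_lit 5) (nat_lit 4) (nat_lit 401) (nat_lit 358) (nat_lit 261)) (XT.lf (nat_lit 0) (nat_lit 465546970117) (nat_lit 152) (nat_lit 3460434098842) (nat_lit 0) (nat_lit 351816547975) (nat_lit 2) (nat_lit 5) (nat_lit 4) (nat_lit 4) (nat_lit 2) (nat_lit 4) (nat_lit 402) (nat_lit 358) (nat_lit 260)))))) (XT.nd (nat_lit 624) (nat_lit 0) (nat_lit 0) (XT.nd (nat_lit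 312) (nat_lit 76) (nat_lit 0) (XT.nd (nat_lit 156) (nat_lit 0) (nat_lit 0) (XT.nd (nat_lit 78) (nat_lit 0) (nat_lit 0) (XT.lf (nat_lit 0) (nat_lit 1009514497072) (nat_lit 152) (nat_lit 2974859243534) (nat_lit 0) (nat_lit 895784058223) (nat_lit 2) (nat_lit 5) (nat_lit 4) (nat_lit 4) (nat_lit 2) (nat_lit 4) (nat_lit 403) (nat_lit 358) (nat_lit 259)) (XT.lf (nat_lit 0) (nat_lit 1635077018174) (nat_lit 152) (nat_lit 2416448435832) (nat_lit 0) (nat_lit 1521346564798) (nat_lit 2) (nat_lit 5) (nat_lit 4) (nat_lit 4) (nat_lit 2) (nat_lit 4) (nat_lit 404) (nat_lit 358) (nat_lit 258))) (XT.nd (nat_lit 78) (nat_lit 0) (nat_lit 0) (XT.lf (nat_lit 0) (nat_lit 2354473800141) (nat_lit 152) (nat_lit 1774276246889) (nat_lit 0) (nat_lit 2240743334132) (nat_lit 2) (nat_lit 5) (nat_lit 4) (nat_lit 4) (nat_lit 2) (nat_lit 4) (nat_lit 405) (nat_lit 358) (nat_lit 257)) (XT.lf (nat_lit 0) (nat_lit 3181779997402)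 (nat_lit 152) (nat_lit 1035778438226) (nat_lit 0) (nat_lit 3068049520409) (nat_lit 2) (nat_lit 5) (nat_lit 4) (nat_lit 4) (nat_lit 2) (nat_lit 4) (nat_lit 406) (nat_lit 358) (nat_lit 256)))) (XT.nd (nat_lit 156) (nat_lit 0) (nat_lit 0) (XT.nd (nat_lit 78) (nat_lit 76) (nat_lit 0) (XT.lf (nat_lit 0) (nat_lit 4133182035556) (nat_lit 152) (nat_lit 186506139675) (nat_lit 0) (nat_lit 4019451549011) (nat_lit 2) (nat_lit 5) (nat_lit 4) (nat_lit 4) (nat_lit 2) (nat_lit 4) (nat_lit 407) (nat_lit 358) (nat_lit 255)) (XT.lf (nat_lit 0) (nat_lit 831765105138) (nat_lit 76) (nat_lit 4415533167950) (nat_lit 76) (nat_lit 4301802673098) (nat_lit 1) (nat_lit 4) (nat_lit 2) (nat_lit 5) (nat_lit 2) (nat_lit 4) (nat_lit 408) (nat_lit 358) (nat_lit 254))) (XT.nd (nat_lit 78) (nat_lit 0) (nat_lit 0) (XT.lf (nat_lit 0) (nat_lit 2014071137497) (nat_lit 76) (nat_lit 4519890663799) (nat_lit 76) (nat_lit 4406160161725)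 (nat_lit 1) (nat_lit 4) (nat_lit 2) (nat_lit 5) (nat_lit 2) (nat_lit 4) (nat_lit 409) (nat_lit 358) (nat_lit 253)) (XT.lf (nat_lit 0) (nat_lit 3373722949148) (nat_lit 76) (nat_lit 4639901848248) (nat_lit 76) (nat_lit 4526171339894) (nat_lit 1) (nat_lit 4) (nat_lit 2) (nat_lit 5) (nat_lit 2) (nat_lit 4) (nat_lit 410) (nat_lit 358) (nat_lit 252))))) (XT.nd (nat_lit 312) (nat_lit 0) (nat_lit 0) (XT.nd (nat_lit 156) (nat_lit 0) (nat_lit 0) (XT.nd (nat_lit 78) (nat_lit 0) (nat_lit 0) (XT.lf (nat_lit 0) (nat_lit 4937322423363) (nat_lit 76) (nat_lit 4777914766210) (nat_lit 76) (nat_lit 4664184252394) (nat_lit 1) (nat_lit 4) (nat_lit 2) (nat_lit 5) (nat_lit 2) (nat_lit 4) (nat_lit 411) (nat_lit 358) (nat_lit 251)) (XT.lf (nat_lit 0) (nat_lit 6735461723768) (nat_lit 76) (nat_lit 4936629670427) (nat_lit 76) (nat_lit 4822899151863) (nat_lit 1) (nat_lit 4) (nat_lit 2) (nat_lit 5) (nat_lit 2) (nat_lit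 4) (nat_lit 412) (nat_lit 358) (nat_lit 250))) (XT.nd (nat_lit 78) (nat_lit 0) (nat_lit 0) (XT.lf (nat_lit 0) (nat_lit 8803321836675) (nat_lit 76) (nat_lit 5119151852505) (nat_lit 76) (nat_lit 5005421329811) (nat_lit 1) (nat_lit 4) (nat_lit 2) (nat_lit 5) (nat_lit 2) (nat_lit 4) (nat_lit 413) (nat_lit 358) (nat_lit 249)) (XT.lf (nat_lit 0) (nat_lit 11181360894728) (nat_lit 76) (nat_lit 5329052398613) (nat_lit 76) (nat_lit 5215321872328) (nat_lit 1) (nat_lit 4) (nat_lit 2) (nat_lit 5) (nat_lit 2) (nat_lit 4) (nat_lit 414) (nat_lit 358) (nat_lit 248)))) (XT.nd (nat_lit 48750) (nat_lit 0) (nat_lit 4712) (XT.nd (nat_lit 78) (nat_lit 0) (nat_lit 0) (XT.lf (nat_lit 0) (nat_lit 13916105749063) (nat_lit 76) (nat_lit 5570438058567) (nat_lit 76) (nat_lit 5456707529159) (nat_lit 1) (nat_lit 4) (nat_lit 2) (nat_lit 5) (nat_lit 2) (nat_lit 4) (nat_lit 415) (nat_lit 358) (nat_lit 247)) (XT.lf (nat_lit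 0) (nat_lit 17061062277265) (nat_lit 76) (nat_lit 5848031595279) (nat_lit 76) (nat_lit 5734301063156) (nat_lit 1) (nat_lit 4) (nat_lit 2) (nat_lit 5) (nat_lit 2) (nat_lit 4) (nat_lit 416) (nat_lit 358) (nat_lit 246))) (XT.nd (nat_lit 78) (nat_lit 456) (nat_lit 0) (XT.lf (nat_lit 0) (nat_lit 26436817581) (nat_lit 532) (nat_lit 1246385741) (nat_lit 532) (nat_lit 1246385741) (nat_lit 69) (nat_lit 3) (nat_lit 76) (nat_lit 3) (nat_lit 76) (nat_lit 5) (nat_lit 359) (nat_lit 359) (nat_lit 302)) (XT.nd (nat_lit 78) (nat_lit 456) (nat_lit 0) (XT.lf (nat_lit 76) (nat_lit 53334579866) (nat_lit 0) (nat_lit 4820328138) (nat_lit 532) (nat_lit 3938426232) (nat_lit 70) (nat_lit 5) (nat_lit 69) (nat_lit 3) (nat_lit 76) (nat_lit 5) (nat_lit 360) (nat_lit 359) (nat_lit 301)) (XT.lf (nat_lit 0) (nat_lit 72437141) (nat_lit 532) (nat_lit 14710366226) (nat_lit 608) (nat_lit 51971482643) (nat_lit 63) (nat_lit 5)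 (nat_lit 70) (nat_lit 5) (nat_lit 71) (nat_lit 5) (nat_lit 361) (nat_lit 359) (nat_lit 300))))))))
noncomputable def xc85 : XT := (XT.nd (nat_lit 1248) (nat_lit 1520) (nat_lit 0) (XT.nd (nat_lit 624) (nat_lit 1368) (nat_lit 0) (XT.nd (nat_lit 312) (nat_lit 836) (nat_lit 0) (XT.nd (nat_lit 156) (nat_lit 608) (nat_lit 0) (XT.nd (nat_lit 78) (nat_lit 0) (nat_lit 76) (XT.lf (nat_lit 0) (nat_lit 7240095833) (nat_lit 532) (nat_lit 20303892618) (nat_lit 608) (nat_lit 44339142377) (nat_lit 64) (nat_lit 5) (nat_lit 71) (nat_lit 5) (nat_lit 72) (nat_lit 5) (nat_lit 362) (nat_lit 359) (nat_lit 299)) (XT.lf (nat_lit 0) (nat_lit 18461617044) (nat_lit 532) (nat_lit 25274276341) (nat_lit 76) (nat_lit 33807114659) (nat_lit 65) (nat_lit 5) (nat_lit 72) (nat_lit 5) (nat_lit 66) (nat_lit 5) (nat_lit 363) (nat_lit 359) (nat_lit 298))) (XT.nd (nat_lit 78) (nat_lit 228) (nat_lit 0) (XT.lf (nat_lit 0) (nat_lit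 34553115105) (nat_lit 532) (nat_lit 29420582736) (nat_lit 76) (nat_lit 19823231518) (nat_lit 59) (nat_lit 5) (nat_lit 66) (nat_lit 5) (nat_lit 60) (nat_lit 5) (nat_lit 364) (nat_lit 359) (nat_lit 297)) (XT.lf (nat_lit 0) (nat_lit 56464434721) (nat_lit 304) (nat_lit 32507552917) (nat_lit 76) (nat_lit 1744465581) (nat_lit 56) (nat_lit 5) (nat_lit 60) (nat_lit 5) (nat_lit 57) (nat_lit 5) (nat_lit 365) (nat_lit 359) (nat_lit 296)))) (XT.nd (nat_lit 156) (nat_lit 380) (nat_lit 0) (XT.nd (nat_lit 78) (nat_lit 228) (nat_lit 0) (XT.lf (nat_lit 0) (nat_lit 63542235255) (nat_lit 228) (nat_lit 22293239594) (nat_lit 304) (nat_lit 12504590826) (nat_lit 53) (nat_lit 5) (nat_lit 56) (nat_lit 5) (nat_lit 57) (nat_lit 5) (nat_lit 366) (nat_lit 359) (nat_lit 295)) (XT.lf (nat_lit 0) (nat_lit 15970404038) (nat_lit 228) (nat_lit 36032637020) (nat_lit 76) (nat_lit 54752840754) (nat_lit 50) (nat_lit 5) (nat_lit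 53) (nat_lit 5) (nat_lit 51) (nat_lit 5) (nat_lit 367) (nat_lit 359) (nat_lit 294))) (XT.nd (nat_lit 78) (nat_lit 152) (nat_lit 0) (XT.lf (nat_lit 0) (nat_lit 52300001744) (nat_lit 304) (nat_lit 35942467237) (nat_lit 76) (nat_lit 27819717903) (nat_lit 47) (nat_lit 5) (nat_lit 51) (nat_lit 5) (nat_lit 48) (nat_lit 5) (nat_lit 368) (nat_lit 359) (nat_lit 293)) (XT.lf (nat_lit 0) (nat_lit 92347039160) (nat_lit 152) (nat_lit 6465034652) (nat_lit 228) (nat_lit 27573722237) (nat_lit 45) (nat_lit 5) (nat_lit 47) (nat_lit 5) (nat_lit 48) (nat_lit 5) (nat_lit 369) (nat_lit 359) (nat_lit 292))))) (XT.nd (nat_lit 312) (nat_lit 684) (nat_lit 0) (XT.nd (nat_lit 156) (nat_lit 304) (nat_lit 0) (XT.nd (nat_lit 78) (nat_lit 152) (nat_lit 0) (XT.lf (nat_lit 0) (nat_lit 19243418725) (nat_lit 228) (nat_lit 31181577622) (nat_lit 76) (nat_lit 87333700609) (nat_lit 42) (nat_lit 5) (nat_lit 45) (nat_lit 5) (nat_lit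 43) (nat_lit 5) (nat_lit 370) (nat_lit 359) (nat_lit 291)) (XT.lf (nat_lit 0) (nat_lit 76875886968) (nat_lit 228) (nat_lit 26759063010) (nat_lit 76) (nat_lit 46711253497) (nat_lit 40) (nat_lit 5) (nat_lit 43) (nat_lit 5) (nat_lit 41) (nat_lit 5) (nat_lit 371) (nat_lit 359) (nat_lit 290))) (XT.nd (nat_lit 78) (nat_lit 152) (nat_lit 0) (XT.lf (nat_lit 0) (nat_lit 144518391502) (nat_lit 152) (nat_lit 4434619013) (nat_lit 228) (nat_lit 15404843327) (nat_lit 38) (nat_lit 5) (nat_lit 40) (nat_lit 5) (nat_lit 41) (nat_lit 5) (nat_lit 372) (nat_lit 359) (nat_lit 289)) (XT.lf (nat_lit 0) (nat_lit 56481279557) (nat_lit 152) (nat_lit 12836006048) (nat_lit 76) (nat_lit 110440682918) (nat_lit 36) (nat_lit 5) (nat_lit 38) (nat_lit 5) (nat_lit 37) (nat_lit 5) (nat_lit 373) (nat_lit 359) (nat_lit 288)))) (XT.nd (nat_lit 156) (nat_lit 228) (nat_lit 0) (XT.nd (nat_lit 78) (nat_lit 304) (nat_lit 0) (XT.lf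 (nat_lit 0) (nat_lit 144885306809) (nat_lit 228) (nat_lit 3580934355) (nat_lit 76) (nat_lit 48438079684) (nat_lit 34) (nat_lit 5) (nat_lit 37) (nat_lit 5) (nat_lit 35) (nat_lit 4) (nat_lit 374) (nat_lit 359) (nat_lit 287)) (XT.lf (nat_lit 0) (nat_lit 7298006553) (nat_lit 152) (nat_lit 29190192209) (nat_lit 228) (nat_lit 179432209677) (nat_lit 30) (nat_lit 5) (nat_lit 32) (nat_lit 5) (nat_lit 33) (nat_lit 5) (nat_lit 375) (nat_lit 359) (nat_lit 286))) (XT.nd (nat_lit 78) (nat_lit 152) (nat_lit 0) (XT.lf (nat_lit 0) (nat_lit 18019431633) (nat_lit 76) (nat_lit 126392306779) (nat_lit 152) (nat_lit 92531451546) (nat_lit 29) (nat_lit 5) (nat_lit 30) (nat_lit 5) (nat_lit 31) (nat_lit 4) (nat_lit 376) (nat_lit 359) (nat_lit 285)) (XT.lf (nat_lit 0) (nat_lit 15209426197) (nat_lit 152) (nat_lit 229807144970) (nat_lit 76) (nat_lit 15434539285) (nat_lit 27) (nat_lit 5) (nat_lit 29) (nat_lit 5) (nat_lit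 28) (nat_lit 4) (nat_lit 377) (nat_lit 359) (nat_lit 284)))))) (XT.nd (nat_lit 624) (nat_lit 760) (nat_lit 0) (XT.nd (nat_lit 312) (nat_lit 380) (nat_lit 0) (XT.nd (nat_lit 156) (nat_lit 228) (nat_lit 0) (XT.nd (nat_lit 78) (nat_lit 76) (nat_lit 0) (XT.lf (nat_lit 0) (nat_lit 39691612366) (nat_lit 76) (nat_lit 105084983690) (nat_lit 152) (nat_lit 141624825654) (nat_lit 26) (nat_lit 5) (nat_lit 27) (nat_lit 5) (nat_lit 28) (nat_lit 4) (nat_lit 378) (nat_lit 359) (nat_lit 283)) (XT.lf (nat_lit 0) (nat_lit 48741960613) (nat_lit 76) (nat_lit 254415166486) (nat_lit 76) (nat_lit 12336889903) (nat_lit 25) (nat_lit 4) (nat_lit 26) (nat_lit 5) (nat_lit 26) (nat_lit 4) (nat_lit 379) (nat_lit 359) (nat_lit 282))) (XT.nd (nat_lit 78) (nat_lit 76) (nat_lit 0) (XT.lf (nat_lit 0) (nat_lit 51265997003) (nat_lit 76) (nat_lit 89765225540) (nat_lit 152) (nat_lit 206736354455) (nat_lit 23) (nat_lit 5) (nat_lit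 24) (nat_lit 5) (nat_lit 25) (nat_lit 4) (nat_lit 380) (nat_lit 359) (nat_lit 281)) (XT.lf (nat_lit 0) (nat_lit 48358812296) (nat_lit 76) (nat_lit 279860892018) (nat_lit 76) (nat_lit 55713181005) (nat_lit 22) (nat_lit 4) (nat_lit 23) (nat_lit 5) (nat_lit 23) (nat_lit 4) (nat_lit 381) (nat_lit 359) (nat_lit 280)))) (XT.nd (nat_lit 156) (nat_lit 152) (nat_lit 0) (XT.nd (nat_lit 78) (nat_lit 76) (nat_lit 0) (XT.lf (nat_lit 0) (nat_lit 34238024244) (nat_lit 76) (nat_lit 89986112226) (nat_lit 152) (nat_lit 300098957315) (nat_lit 20) (nat_lit 5) (nat_lit 21) (nat_lit 5) (nat_lit 22) (nat_lit 4) (nat_lit 382) (nat_lit 359) (nat_lit 279)) (XT.lf (nat_lit 0) (nat_lit 5231001406) (nat_lit 76) (nat_lit 335951840995) (nat_lit 76) (nat_lit 128406852942) (nat_lit 19) (nat_lit 4) (nat_lit 20) (nat_lit 5) (nat_lit 20) (nat_lit 4) (nat_lit 383) (nat_lit 359) (nat_lit 278))) (XT.nd (nat_lit 78) (nat_lit 76)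 (nat_lit 0) (XT.lf (nat_lit 0) (nat_lit 79725290196) (nat_lit 152) (nat_lit 41716712528) (nat_lit 76) (nat_lit 398940266243) (nat_lit 18) (nat_lit 5) (nat_lit 20) (nat_lit 5) (nat_lit 19) (nat_lit 4) (nat_lit 384) (nat_lit 359) (nat_lit 277)) (XT.lf (nat_lit 0) (nat_lit 326242465957) (nat_lit 152) (nat_lit 117032364150) (nat_lit 0) (nat_lit 134070612782) (nat_lit 17) (nat_lit 5) (nat_lit 19) (nat_lit 4) (nat_lit 17) (nat_lit 4) (nat_lit 385) (nat_lit 359) (nat_lit 276))))) (XT.nd (nat_lit 312) (nat_lit 380) (nat_lit 0) (XT.nd (nat_lit 156) (nat_lit 152) (nat_lit 0) (XT.nd (nat_lit 78) (nat_lit 152) (nat_lit 0) (XT.lf (nat_lit 0) (nat_lit 414774664292) (nat_lit 76) (nat_lit 209542074926) (nat_lit 76) (nat_lit 17369992048) (nat_lit 16) (nat_lit 4) (nat_lit 17) (nat_lit 5) (nat_lit 17) (nat_lit 4) (nat_lit 386) (nat_lit 359) (nat_lit 275)) (XT.lf (nat_lit 0) (nat_lit 252114907593) (nat_lit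 152) (nat_lit 387841425401) (nat_lit 0) (nat_lit 74177608872) (nat_lit 14) (nat_lit 5) (nat_lit 16) (nat_lit 4) (nat_lit 14) (nat_lit 4) (nat_lit 387) (nat_lit 359) (nat_lit 274))) (XT.nd (nat_lit 78) (nat_lit 76) (nat_lit 0) (XT.lf (nat_lit 0) (nat_lit 181952544473) (nat_lit 76) (nat_lit 396019411397) (nat_lit 76) (nat_lit 218081951853) (nat_lit 13) (nat_lit 4) (nat_lit 14) (nat_lit 5) (nat_lit 14) (nat_lit 4) (nat_lit 388) (nat_lit 359) (nat_lit 273)) (XT.lf (nat_lit 0) (nat_lit 70906214982) (nat_lit 152) (nat_lit 30452672226) (nat_lit 76) (nat_lit 787856090970) (nat_lit 12) (nat_lit 5) (nat_lit 14) (nat_lit 5) (nat_lit 13) (nat_lit 4) (nat_lit 389) (nat_lit 359) (nat_lit 272)))) (XT.nd (nat_lit 156) (nat_lit 228) (nat_lit 0) (XT.nd (nat_lit 78) (nat_lit 76) (nat_lit 0) (XT.lf (nat_lit 0) (nat_lit 413050915767) (nat_lit 152) (nat_lit 332734673935) (nat_lit 0) (nat_lit 248293766698) (nat_lit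 11) (nat_lit 5) (nat_lit 13) (nat_lit 4) (nat_lit 11) (nat_lit 4) (nat_lit 390) (nat_lit 359) (nat_lit 271)) (XT.lf (nat_lit 0) (nat_lit 359299631072) (nat_lit 76) (nat_lit 459571356989) (nat_lit 76) (nat_lit 294814110009) (nat_lit 10) (nat_lit 4) (nat_lit 11) (nat_lit 5) (nat_lit 11) (nat_lit 4) (nat_lit 391) (nat_lit 359) (nat_lit 270))) (XT.nd (nat_lit 78) (nat_lit 152) (nat_lit 0) (XT.lf (nat_lit 0) (nat_lit 42553322733) (nat_lit 152) (nat_lit 76246420834) (nat_lit 76) (nat_lit 1131570830159) (nat_lit 9) (nat_lit 5) (nat_lit 11) (nat_lit 5) (nat_lit 10) (nat_lit 4) (nat_lit 392) (nat_lit 359) (nat_lit 269)) (XT.nd (nat_lit 78) (nat_lit 76) (nat_lit 0) (XT.lf (nat_lit 0) (nat_lit 438408939976) (nat_lit 152) (nat_lit 680654395512) (nat_lit 0) (nat_lit 285855786129) (nat_lit 8) (nat_lit 5) (nat_lit 10) (nat_lit 4) (nat_lit 8) (nat_lit 4) (nat_lit 393) (nat_lit 359) (nat_lit 268)) (XT.lf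 (nat_lit 0) (nat_lit 67005228258) (nat_lit 76) (nat_lit 833811995494) (nat_lit 76) (nat_lit 681258782039) (nat_lit 7) (nat_lit 4) (nat_lit 8) (nat_lit 5) (nat_lit 8) (nat_lit 4) (nat_lit 394) (nat_lit 359) (nat_lit 267))))))))
noncomputable def xc86 : XT := (XT.nd (nat_lit 1248) (nat_lit 0) (nat_lit 0) (XT.nd (nat_lit 624) (nat_lit 228) (nat_lit 0) (XT.nd (nat_lit 312) (nat_lit 76) (nat_lit 0) (XT.nd (nat_lit 156) (nat_lit 76) (nat_lit 0) (XT.nd (nat_lit 78) (nat_lit 76) (nat_lit 0) (XT.lf (nat_lit 0) (nat_lit 968031507106) (nat_lit 76) (nat_lit 484371442417) (nat_lit 76) (nat_lit 331818177128) (nat_lit 7) (nat_lit 4) (nat_lit 8) (nat_lit 5) (nat_lit 8) (nat_lit 4) (nat_lit 395) (nat_lit 359) (nat_lit 266)) (XT.lf (nat_lit 0) (nat_lit 66534621819) (nat_lit 152) (nat_lit 14161296978) (nat_lit 76) (nat_lit 1935857365518) (nat_lit 6) (nat_lit 5) (nat_lit 8) (nat_lit 5) (nat_lit 7) (nat_lit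 4) (nat_lit 396) (nat_lit 359) (nat_lit 265))) (XT.nd (nat_lit 78) (nat_lit 0) (nat_lit 0) (XT.lf (nat_lit 0) (nat_lit 538364142300) (nat_lit 152) (nat_lit 1344900898914) (nat_lit 0) (nat_lit 397111040859) (nat_lit 5) (nat_lit 5) (nat_lit 7) (nat_lit 4) (nat_lit 5) (nat_lit 4) (nat_lit 397) (nat_lit 359) (nat_lit 264)) (XT.lf (nat_lit 0) (nat_lit 1083622706949) (nat_lit 152) (nat_lit 557567649315) (nat_lit 0) (nat_lit 942369573951) (nat_lit 5) (nat_lit 5) (nat_lit 7) (nat_lit 4) (nat_lit 5) (nat_lit 4) (nat_lit 398) (nat_lit 359) (nat_lit 263)))) (XT.nd (nat_lit 156) (nat_lit 0) (nat_lit 0) (XT.nd (nat_lit 78) (nat_lit 0) (nat_lit 0) (XT.lf (nat_lit 0) (nat_lit 366183138239) (nat_lit 76) (nat_lit 1353293428476) (nat_lit 76) (nat_lit 1212040268037) (nat_lit 4) (nat_lit 4) (nat_lit 5) (nat_lit 5) (nat_lit 5) (nat_lit 4) (nat_lit 399) (nat_lit 359) (nat_lit 262)) (XT.lf (nat_lit 0) (nat_lit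 1462260768753) (nat_lit 76) (nat_lit 1004680533393) (nat_lit 76) (nat_lit 863427349093) (nat_lit 4) (nat_lit 4) (nat_lit 5) (nat_lit 5) (nat_lit 5) (nat_lit 4) (nat_lit 400) (nat_lit 359) (nat_lit 261))) (XT.nd (nat_lit 78) (nat_lit 0) (nat_lit 0) (XT.lf (nat_lit 0) (nat_lit 2722749715026) (nat_lit 76) (nat_lit 603775871567) (nat_lit 76) (nat_lit 462522666516) (nat_lit 4) (nat_lit 4) (nat_lit 5) (nat_lit 5) (nat_lit 5) (nat_lit 4) (nat_lit 401) (nat_lit 359) (nat_lit 260)) (XT.lf (nat_lit 0) (nat_lit 4172311717312) (nat_lit 76) (nat_lit 142735656134) (nat_lit 76) (nat_lit 1482433041) (nat_lit 4) (nat_lit 4) (nat_lit 5) (nat_lit 5) (nat_lit 5) (nat_lit 4) (nat_lit 402) (nat_lit 359) (nat_lit 259))))) (XT.nd (nat_lit 312) (nat_lit 76) (nat_lit 0) (XT.nd (nat_lit 156) (nat_lit 0) (nat_lit 0) (XT.nd (nat_lit 78) (nat_lit 0) (nat_lit 0) (XT.lf (nat_lit 0) (nat_lit 535380468118) (nat_lit 152)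 (nat_lit 3979496242907) (nat_lit 0) (nat_lit 404590432209) (nat_lit 2) (nat_lit 5) (nat_lit 4) (nat_lit 4) (nat_lit 2) (nat_lit 4) (nat_lit 403) (nat_lit 359) (nat_lit 258)) (XT.lf (nat_lit 0) (nat_lit 1160942934662) (nat_lit 152) (nat_lit 3421085546793) (nat_lit 0) (nat_lit 1030152886120) (nat_lit 2) (nat_lit 5) (nat_lit 4) (nat_lit 4) (nat_lit 2) (nat_lit 4) (nat_lit 404) (nat_lit 359) (nat_lit 257))) (XT.nd (nat_lit 78) (nat_lit 0) (nat_lit 0) (XT.lf (nat_lit 0) (nat_lit 1880339669187) (nat_lit 152) (nat_lit 2778913454884) (nat_lit 0) (nat_lit 1749549609660) (nat_lit 2) (nat_lit 5) (nat_lit 4) (nat_lit 4) (nat_lit 2) (nat_lit 4) (nat_lit 405) (nat_lit 359) (nat_lit 256)) (XT.lf (nat_lit 0) (nat_lit 2707645825194) (nat_lit 152) (nat_lit 2040415730598) (nat_lit 0) (nat_lit 2576855756115) (nat_lit 2) (nat_lit 5) (nat_lit 4) (nat_lit 4) (nat_lit 2) (nat_lit 4) (nat_lit 406) (nat_lit 359)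 (nat_lit 255)))) (XT.nd (nat_lit 156) (nat_lit 76) (nat_lit 0) (XT.nd (nat_lit 78) (nat_lit 0) (nat_lit 0) (XT.lf (nat_lit 0) (nat_lit 3659047827475) (nat_lit 152) (nat_lit 1191143505418) (nat_lit 0) (nat_lit 3528257750090) (nat_lit 2) (nat_lit 5) (nat_lit 4) (nat_lit 4) (nat_lit 2) (nat_lit 4) (nat_lit 407) (nat_lit 359) (nat_lit 254)) (XT.lf (nat_lit 0) (nat_lit 4753160063030) (nat_lit 152) (nat_lit 214480583633) (nat_lit 0) (nat_lit 4622369978423) (nat_lit 2) (nat_lit 5) (nat_lit 4) (nat_lit 4) (nat_lit 2) (nat_lit 4) (nat_lit 408) (nat_lit 359) (nat_lit 253))) (XT.nd (nat_lit 78) (nat_lit 0) (nat_lit 0) (XT.lf (nat_lit 0) (nat_lit 956531222882) (nat_lit 76) (nat_lit 5077862451633) (nat_lit 76) (nat_lit 4947072360745) (nat_lit 1) (nat_lit 4) (nat_lit 2) (nat_lit 5) (nat_lit 2) (nat_lit 4) (nat_lit 409) (nat_lit 359) (nat_lit 252)) (XT.lf (nat_lit 0) (nat_lit 2316182983750) (nat_lit 76)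 (nat_lit 5197873662056) (nat_lit 76) (nat_lit 5067083565707) (nat_lit 1) (nat_lit 4) (nat_lit 2) (nat_lit 5) (nat_lit 2) (nat_lit 4) (nat_lit 410) (nat_lit 359) (nat_lit 251)))))) (XT.nd (nat_lit 49374) (nat_lit 0) (nat_lit 3116) (XT.nd (nat_lit 312) (nat_lit 0) (nat_lit 0) (XT.nd (nat_lit 156) (nat_lit 0) (nat_lit 0) (XT.nd (nat_lit 78) (nat_lit 0) (nat_lit 0) (XT.lf (nat_lit 0) (nat_lit 3879782413806) (nat_lit 76) (nat_lit 5335886602605) (nat_lit 76) (nat_lit 5205096501507) (nat_lit 1) (nat_lit 4) (nat_lit 2) (nat_lit 5) (nat_lit 2) (nat_lit 4) (nat_lit 411) (nat_lit 359) (nat_lit 250)) (XT.lf (nat_lit 0) (nat_lit 5677921675812) (nat_lit 76) (nat_lit 5494601526463) (nat_lit 76) (nat_lit 5363811421235) (nat_lit 1) (nat_lit 4) (nat_lit 2) (nat_lit 5) (nat_lit 2) (nat_lit 4) (nat_lit 412) (nat_lit 359) (nat_lit 249))) (XT.nd (nat_lit 78) (nat_lit 0) (nat_lit 0) (XT.lf (nat_lit 0) (nat_lit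 7745781755328) (nat_lit 76) (nat_lit 5677123725619) (nat_lit 76) (nat_lit 5546333616800) (nat_lit 1) (nat_lit 4) (nat_lit 2) (nat_lit 5) (nat_lit 2) (nat_lit 4) (nat_lit 413) (nat_lit 359) (nat_lit 248)) (XT.lf (nat_lit 0) (nat_lit 10123820784346) (nat_lit 76) (nat_lit 5887024286578) (nat_lit 76) (nat_lit 5756234174637) (nat_lit 1) (nat_lit 4) (nat_lit 2) (nat_lit 5) (nat_lit 2) (nat_lit 4) (nat_lit 414) (nat_lit 359) (nat_lit 247)))) (XT.nd (nat_lit 48906) (nat_lit 0) (nat_lit 4712) (XT.nd (nat_lit 48828) (nat_lit 0) (nat_lit 5168) (XT.lf (nat_lit 0) (nat_lit 12858565613433) (nat_lit 76) (nat_lit 6128409959446) (nat_lit 76) (nat_lit 5997619844790) (nat_lit 1) (nat_lit 4) (nat_lit 2) (nat_lit 5) (nat_lit 2) (nat_lit 4) (nat_lit 415) (nat_lit 359) (nat_lit 246)) (XT.lf (nat_lit 0) (nat_lit 30434023870) (nat_lit 532) (nat_lit 1416223773) (nat_lit 532) (nat_lit 1416223773) (nat_lit 69) (nat_lit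 3) (nat_lit 76) (nat_lit 3) (nat_lit 76) (nat_lit 5) (nat_lit 360) (nat_lit 360) (nat_lit 300))) (XT.nd (nat_lit 78) (nat_lit 456) (nat_lit 0) (XT.lf (nat_lit 76) (nat_lit 61366108290) (nat_lit 0) (nat_lit 5567891682) (nat_lit 532) (nat_lit 4468828868) (nat_lit 70) (nat_lit 5) (nat_lit 69) (nat_lit 3) (nat_lit 76) (nat_lit 5) (nat_lit 361) (nat_lit 360) (nat_lit 299)) (XT.lf (nat_lit 0) (nat_lit 133462105) (nat_lit 532) (nat_lit 16880897635) (nat_lit 608) (nat_lit 59749026573) (nat_lit 63) (nat_lit 5) (nat_lit 70) (nat_lit 5) (nat_lit 71) (nat_lit 5) (nat_lit 362) (nat_lit 360) (nat_lit 298))))) (XT.nd (nat_lit 312) (nat_lit 1064) (nat_lit 0) (XT.nd (nat_lit 156) (nat_lit 608) (nat_lit 0) (XT.nd (nat_lit 78) (nat_lit 0) (nat_lit 76) (XT.lf (nat_lit 0) (nat_lit 8370245079) (nat_lit 532) (nat_lit 23312648426) (nat_lit 608) (nat_lit 50979150205) (nat_lit 64) (nat_lit 5) (nat_lit 71) (nat_lit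 5) (nat_lit 72) (nat_lit 5) (nat_lit 363) (nat_lit 360) (nat_lit 297)) (XT.lf (nat_lit 0) (nat_lit 21269916745) (nat_lit 532) (nat_lit 29028417593) (nat_lit 76) (nat_lit 38872977773) (nat_lit 65) (nat_lit 5) (nat_lit 72) (nat_lit 5) (nat_lit 66) (nat_lit 5) (nat_lit 364) (nat_lit 360) (nat_lit 296))) (XT.nd (nat_lit 78) (nat_lit 228) (nat_lit 0) (XT.lf (nat_lit 0) (nat_lit 39770837778) (nat_lit 532) (nat_lit 33796978163) (nat_lit 76) (nat_lit 22795852765) (nat_lit 59) (nat_lit 5) (nat_lit 66) (nat_lit 5) (nat_lit 60) (nat_lit 5) (nat_lit 365) (nat_lit 360) (nat_lit 295)) (XT.lf (nat_lit 0) (nat_lit 64965191252) (nat_lit 304) (nat_lit 37347661692) (nat_lit 76) (nat_lit 2008563888) (nat_lit 56) (nat_lit 5) (nat_lit 60) (nat_lit 5) (nat_lit 57) (nat_lit 5) (nat_lit 366) (nat_lit 360) (nat_lit 294)))) (XT.nd (nat_lit 156) (nat_lit 608) (nat_lit 0) (XT.nd (nat_lit 78) (nat_lit 228) (nat_lit 0)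 (XT.lf (nat_lit 0) (nat_lit 73106545440) (nat_lit 228) (nat_lit 25632079616) (nat_lit 304) (nat_lit 14350209313) (nat_lit 53) (nat_lit 5) (nat_lit 56) (nat_lit 5) (nat_lit 57) (nat_lit 5) (nat_lit 367) (nat_lit 360) (nat_lit 293)) (XT.lf (nat_lit 0) (nat_lit 18391707573) (nat_lit 228) (nat_lit 41404043141) (nat_lit 76) (nat_lit 62971441986) (nat_lit 50) (nat_lit 5) (nat_lit 53) (nat_lit 5) (nat_lit 51) (nat_lit 5) (nat_lit 368) (nat_lit 360) (nat_lit 292))) (XT.nd (nat_lit 78) (nat_lit 380) (nat_lit 0) (XT.lf (nat_lit 0) (nat_lit 60168305562) (nat_lit 304) (nat_lit 41301503574) (nat_lit 76) (nat_lit 31999831106) (nat_lit 47) (nat_lit 5) (nat_lit 51) (nat_lit 5) (nat_lit 48) (nat_lit 5) (nat_lit 369) (nat_lit 360) (nat_lit 291)) (XT.nd (nat_lit 78) (nat_lit 228) (nat_lit 0) (XT.lf (nat_lit 0) (nat_lit 106228691891) (nat_lit 152) (nat_lit 7426168760) (nat_lit 228) (nat_lit 31687117711) (nat_lit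 45) (nat_lit 5) (nat_lit 47) (nat_lit 5) (nat_lit 48) (nat_lit 5) (nat_lit 370) (nat_lit 360) (nat_lit 290)) (XT.lf (nat_lit 0) (nat_lit 22149539431) (nat_lit 228) (nat_lit 35829328340) (nat_lit 76) (nat_lit 100442057824) (nat_lit 42) (nat_lit 5) (nat_lit 45) (nat_lit 5) (nat_lit 43) (nat_lit 5) (nat_lit 371) (nat_lit 360) (nat_lit 289))))))))
noncomputable def xc87 : XT := (XT.nd (nat_lit 1326) (nat_lit 912) (nat_lit 0) (XT.nd (nat_lit 624) (nat_lit 912) (nat_lit 0) (XT.nd (nat_lit 312) (nat_lit 608) (nat_lit 0) (XT.nd (nat_lit 156) (nat_lit 304) (nat_lit 0) (XT.nd (nat_lit 78) (nat_lit 152) (nat_lit 0) (XT.lf (nat_lit 0) (nat_lit 88425192911) (nat_lit 228) (nat_lit 30744733531) (nat_lit 76) (nat_lit 53726767398) (nat_lit 40) (nat_lit 5) (nat_lit 43) (nat_lit 5) (nat_lit 41) (nat_lit 5) (nat_lit 372) (nat_lit 360) (nat_lit 288)) (XT.lf (nat_lit 0) (nat_lit 166221953106) (nat_lit 152) (nat_lit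 5090214675) (nat_lit 228) (nat_lit 17698062182) (nat_lit 38) (nat_lit 5) (nat_lit 40) (nat_lit 5) (nat_lit 41) (nat_lit 5) (nat_lit 373) (nat_lit 360) (nat_lit 287))) (XT.nd (nat_lit 78) (nat_lit 152) (nat_lit 0) (XT.lf (nat_lit 0) (nat_lit 64968746859) (nat_lit 152) (nat_lit 14735998884) (nat_lit 76) (nat_lit 127015691600) (nat_lit 36) (nat_lit 5) (nat_lit 38) (nat_lit 5) (nat_lit 37) (nat_lit 5) (nat_lit 374) (nat_lit 360) (nat_lit 286)) (XT.lf (nat_lit 0) (nat_lit 166632171536) (nat_lit 228) (nat_lit 4093932305) (nat_lit 76) (nat_lit 55712735788) (nat_lit 34) (nat_lit 5) (nat_lit 37) (nat_lit 5) (nat_lit 35) (nat_lit 4) (nat_lit 375) (nat_lit 360) (nat_lit 285)))) (XT.nd (nat_lit 156) (nat_lit 228) (nat_lit 0) (XT.nd (nat_lit 78) (nat_lit 76) (nat_lit 0) (XT.lf (nat_lit 0) (nat_lit 8416699303) (nat_lit 152) (nat_lit 33558406148) (nat_lit 228) (nat_lit 206332267003) (nat_lit 30) (nat_lit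 5) (nat_lit 32) (nat_lit 5) (nat_lit 33) (nat_lit 5) (nat_lit 376) (nat_lit 360) (nat_lit 284)) (XT.lf (nat_lit 0) (nat_lit 20745084660) (nat_lit 76) (nat_lit 145341070021) (nat_lit 152) (nat_lit 106397498633) (nat_lit 29) (nat_lit 5) (nat_lit 30) (nat_lit 5) (nat_lit 31) (nat_lit 4) (nat_lit 377) (nat_lit 360) (nat_lit 283))) (XT.nd (nat_lit 78) (nat_lit 76) (nat_lit 0) (XT.lf (nat_lit 0) (nat_lit 17502880341) (nat_lit 152) (nat_lit 264256059683) (nat_lit 76) (nat_lit 17758871608) (nat_lit 27) (nat_lit 5) (nat_lit 29) (nat_lit 5) (nat_lit 28) (nat_lit 4) (nat_lit 378) (nat_lit 360) (nat_lit 282)) (XT.lf (nat_lit 0) (nat_lit 45665635771) (nat_lit 76) (nat_lit 120838407216) (nat_lit 152) (nat_lit 162856713489) (nat_lit 26) (nat_lit 5) (nat_lit 27) (nat_lit 5) (nat_lit 28) (nat_lit 4) (nat_lit 379) (nat_lit 360) (nat_lit 281))))) (XT.nd (nat_lit 312) (nat_lit 456) (nat_lit 0) (XT.nd (nat_lit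 156) (nat_lit 228) (nat_lit 0) (XT.nd (nat_lit 78) (nat_lit 152) (nat_lit 0) (XT.lf (nat_lit 0) (nat_lit 56072418391) (nat_lit 76) (nat_lit 292568461935) (nat_lit 76) (nat_lit 14176422852) (nat_lit 25) (nat_lit 4) (nat_lit 26) (nat_lit 5) (nat_lit 26) (nat_lit 4) (nat_lit 380) (nat_lit 360) (nat_lit 280)) (XT.lf (nat_lit 0) (nat_lit 58973943232) (nat_lit 76) (nat_lit 103221483886) (nat_lit 152) (nat_lit 237736523414) (nat_lit 23) (nat_lit 5) (nat_lit 24) (nat_lit 5) (nat_lit 25) (nat_lit 4) (nat_lit 381) (nat_lit 360) (nat_lit 279))) (XT.nd (nat_lit 78) (nat_lit 152) (nat_lit 0) (XT.lf (nat_lit 0) (nat_lit 55629664006) (nat_lit 76) (nat_lit 321831863116) (nat_lit 76) (nat_lit 64060580473) (nat_lit 22) (nat_lit 4) (nat_lit 23) (nat_lit 5) (nat_lit 23) (nat_lit 4) (nat_lit 382) (nat_lit 360) (nat_lit 278)) (XT.lf (nat_lit 0) (nat_lit 39389755787) (nat_lit 76) (nat_lit 103476298424) (nat_lit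 152) (nat_lit 345104838936) (nat_lit 20) (nat_lit 5) (nat_lit 21) (nat_lit 5) (nat_lit 22) (nat_lit 4) (nat_lit 383) (nat_lit 360) (nat_lit 277)))) (XT.nd (nat_lit 156) (nat_lit 304) (nat_lit 0) (XT.nd (nat_lit 78) (nat_lit 76) (nat_lit 0) (XT.lf (nat_lit 0) (nat_lit 6030761099) (nat_lit 76) (nat_lit 386337247735) (nat_lit 76) (nat_lit 147659520801) (nat_lit 19) (nat_lit 4) (nat_lit 20) (nat_lit 5) (nat_lit 20) (nat_lit 4) (nat_lit 384) (nat_lit 360) (nat_lit 276)) (XT.lf (nat_lit 0) (nat_lit 91690989706) (nat_lit 152) (nat_lit 47960716423) (nat_lit 76) (nat_lit 458787350057) (nat_lit 18) (nat_lit 5) (nat_lit 20) (nat_lit 5) (nat_lit 19) (nat_lit 4) (nat_lit 385) (nat_lit 360) (nat_lit 275))) (XT.nd (nat_lit 78) (nat_lit 228) (nat_lit 0) (XT.lf (nat_lit 0) (nat_lit 375185283994) (nat_lit 152) (nat_lit 134574499673) (nat_lit 0) (nat_lit 154186959240) (nat_lit 17) (nat_lit 5) (nat_lit 19)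 (nat_lit 4) (nat_lit 17) (nat_lit 4) (nat_lit 386) (nat_lit 360) (nat_lit 274)) (XT.nd (nat_lit 78) (nat_lit 152) (nat_lit 0) (XT.lf (nat_lit 0) (nat_lit 477002506427) (nat_lit 76) (nat_lit 240967630757) (nat_lit 76) (nat_lit 19969132315) (nat_lit 16) (nat_lit 4) (nat_lit 17) (nat_lit 5) (nat_lit 17) (nat_lit 4) (nat_lit 387) (nat_lit 360) (nat_lit 273)) (XT.lf (nat_lit 0) (nat_lit 289937790277) (nat_lit 152) (nat_lit 446006379618) (nat_lit 0) (nat_lit 85309411133) (nat_lit 14) (nat_lit 5) (nat_lit 16) (nat_lit 4) (nat_lit 14) (nat_lit 4) (nat_lit 388) (nat_lit 360) (nat_lit 272))))))) (XT.nd (nat_lit 624) (nat_lit 380) (nat_lit 0) (XT.nd (nat_lit 312) (nat_lit 228) (nat_lit 0) (XT.nd (nat_lit 156) (nat_lit 152) (nat_lit 0) (XT.nd (nat_lit 78) (nat_lit 76) (nat_lit 0) (XT.lf (nat_lit 0) (nat_lit 209255732668) (nat_lit 76) (nat_lit 455417174493) (nat_lit 76) (nat_lit 250788673744) (nat_lit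 13) (nat_lit 4) (nat_lit 14) (nat_lit 5) (nat_lit 14) (nat_lit 4) (nat_lit 389) (nat_lit 360) (nat_lit 271)) (XT.lf (nat_lit 0) (nat_lit 81546749150) (nat_lit 152) (nat_lit 35011368260) (nat_lit 76) (nat_lit 906038739065) (nat_lit 12) (nat_lit 5) (nat_lit 14) (nat_lit 5) (nat_lit 13) (nat_lit 4) (nat_lit 390) (nat_lit 360) (nat_lit 270))) (XT.nd (nat_lit 78) (nat_lit 76) (nat_lit 0) (XT.lf (nat_lit 0) (nat_lit 475012858963) (nat_lit 152) (nat_lit 382636214305) (nat_lit 0) (nat_lit 285541841886) (nat_lit 11) (nat_lit 5) (nat_lit 13) (nat_lit 4) (nat_lit 11) (nat_lit 4) (nat_lit 391) (nat_lit 360) (nat_lit 269)) (XT.lf (nat_lit 0) (nat_lit 413202503367) (nat_lit 76) (nat_lit 528503067764) (nat_lit 76) (nat_lit 339031976652) (nat_lit 10) (nat_lit 4) (nat_lit 11) (nat_lit 5) (nat_lit 11) (nat_lit 4) (nat_lit 392) (nat_lit 360) (nat_lit 268)))) (XT.nd (nat_lit 156) (nat_lit 76) (nat_lit 0) (XT.nd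 (nat_lit 78) (nat_lit 76) (nat_lit 0) (XT.lf (nat_lit 0) (nat_lit 48939831806) (nat_lit 152) (nat_lit 87676305331) (nat_lit 76) (nat_lit 1301309741626) (nat_lit 9) (nat_lit 5) (nat_lit 11) (nat_lit 5) (nat_lit 10) (nat_lit 4) (nat_lit 393) (nat_lit 360) (nat_lit 267)) (XT.lf (nat_lit 0) (nat_lit 504173568219) (nat_lit 152) (nat_lit 782745897213) (nat_lit 0) (nat_lit 328737261302) (nat_lit 8) (nat_lit 5) (nat_lit 10) (nat_lit 4) (nat_lit 8) (nat_lit 4) (nat_lit 394) (nat_lit 360) (nat_lit 266))) (XT.nd (nat_lit 78) (nat_lit 0) (nat_lit 0) (XT.lf (nat_lit 0) (nat_lit 77062106588) (nat_lit 76) (nat_lit 958880705766) (nat_lit 76) (nat_lit 783444353776) (nat_lit 7) (nat_lit 4) (nat_lit 8) (nat_lit 5) (nat_lit 8) (nat_lit 4) (nat_lit 395) (nat_lit 360) (nat_lit 265)) (XT.lf (nat_lit 0) (nat_lit 1113241532381) (nat_lit 76) (nat_lit 557024472648) (nat_lit 76) (nat_lit 381588081464) (nat_lit 7) (nat_lit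 4) (nat_lit 8) (nat_lit 5) (nat_lit 8) (nat_lit 4) (nat_lit 396) (nat_lit 360) (nat_lit 264))))) (XT.nd (nat_lit 312) (nat_lit 152) (nat_lit 0) (XT.nd (nat_lit 156) (nat_lit 76) (nat_lit 0) (XT.nd (nat_lit 78) (nat_lit 76) (nat_lit 0) (XT.lf (nat_lit 0) (nat_lit 76517146443) (nat_lit 152) (nat_lit 16280760663) (nat_lit 76) (nat_lit 2226238183260) (nat_lit 6) (nat_lit 5) (nat_lit 8) (nat_lit 5) (nat_lit 7) (nat_lit 4) (nat_lit 397) (nat_lit 360) (nat_lit 263)) (XT.lf (nat_lit 0) (nat_lit 619120947940) (nat_lit 152) (nat_lit 1546631585630) (nat_lit 0) (nat_lit 456679785994) (nat_lit 5) (nat_lit 5) (nat_lit 7) (nat_lit 4) (nat_lit 5) (nat_lit 4) (nat_lit 398) (nat_lit 360) (nat_lit 262))) (XT.nd (nat_lit 78) (nat_lit 76) (nat_lit 0) (XT.lf (nat_lit 0) (nat_lit 1246168012378) (nat_lit 152) (nat_lit 641198928781) (nat_lit 0) (nat_lit 1083726826570) (nat_lit 5) (nat_lit 5) (nat_lit 7) (nat_lit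 4) (nat_lit 5) (nat_lit 4) (nat_lit 399) (nat_lit 360) (nat_lit 261)) (XT.lf (nat_lit 0) (nat_lit 421114149506) (nat_lit 76) (nat_lit 1556285639007) (nat_lit 76) (nat_lit 1393844432450) (nat_lit 4) (nat_lit 4) (nat_lit 5) (nat_lit 5) (nat_lit 5) (nat_lit 4) (nat_lit 400) (nat_lit 360) (nat_lit 260)))) (XT.nd (nat_lit 156) (nat_lit 152) (nat_lit 0) (XT.nd (nat_lit 78) (nat_lit 0) (nat_lit 0) (XT.lf (nat_lit 0) (nat_lit 1681602962789) (nat_lit 76) (nat_lit 1155381044933) (nat_lit 76) (nat_lit 992939820333) (nat_lit 4) (nat_lit 4) (nat_lit 5) (nat_lit 5) (nat_lit 5) (nat_lit 4) (nat_lit 401) (nat_lit 360) (nat_lit 259)) (XT.lf (nat_lit 0) (nat_lit 3131164849430) (nat_lit 76) (nat_lit 694340888415) (nat_lit 76) (nat_lit 531899648126) (nat_lit 4) (nat_lit 4) (nat_lit 5) (nat_lit 5) (nat_lit 5) (nat_lit 4) (nat_lit 402) (nat_lit 360) (nat_lit 258))) (XT.nd (nat_lit 78) (nat_lit 152) (nat_lit 0)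 (XT.lf (nat_lit 0) (nat_lit 4798160802865) (nat_lit 76) (nat_lit 164144818565) (nat_lit 76) (nat_lit 1703564633) (nat_lit 4) (nat_lit 4) (nat_lit 5) (nat_lit 5) (nat_lit 5) (nat_lit 4) (nat_lit 403) (nat_lit 360) (nat_lit 257)) (XT.nd (nat_lit 78) (nat_lit 0) (nat_lit 0) (XT.lf (nat_lit 0) (nat_lit 615688636623) (nat_lit 152) (nat_lit 4576418433021) (nat_lit 0) (nat_lit 465280057182) (nat_lit 2) (nat_lit 5) (nat_lit 4) (nat_lit 4) (nat_lit 2) (nat_lit 4) (nat_lit 404) (nat_lit 360) (nat_lit 256)) (XT.lf (nat_lit 0) (nat_lit 1335085329893) (nat_lit 152) (nat_lit 3934246425489) (nat_lit 0) (nat_lit 1184676740901) (nat_lit 2) (nat_lit 5) (nat_lit 4) (nat_lit 4) (nat_lit 2) (nat_lit 4) (nat_lit 405) (nat_lit 360) (nat_lit 255))))))))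
noncomputable def xc88 : XT := (XT.nd (nat_lit 50076) (nat_lit 0) (nat_lit 1596) (XT.nd (nat_lit 624) (nat_lit 0) (nat_lit 0) (XT.nd (nat_lit 312) (nat_lit 76) (nat_lit 0) (XT.nd (nat_lit 156) (nat_lit 0) (nat_lit 0) (XT.nd (nat_lit 78) (nat_lit 0) (nat_lit 0) (XT.lf (nat_lit 0) (nat_lit 2162391450027) (nat_lit 152) (nat_lit 3195748774574) (nat_lit 0) (nat_lit 2011982852729) (nat_lit 2) (nat_lit 5) (nat_lit 4) (nat_lit 4) (nat_lit 2) (nat_lit 4) (nat_lit 406) (nat_lit 360) (nat_lit 254)) (XT.lf (nat_lit 0) (nat_lit 3113793421114) (nat_lit 152) (nat_lit 2346476613195) (nat_lit 0) (nat_lit 2963384816593) (nat_lit 2) (nat_lit 5) (nat_lit 4) (nat_lit 4) (nat_lit 2) (nat_lit 4) (nat_lit 407) (nat_lit 360) (nat_lit 253))) (XT.nd (nat_lit 78) (nat_lit 0) (nat_lit 0) (XT.lf (nat_lit 0) (nat_lit 4207905629545) (nat_lit 152) (nat_lit 1369813746889) (nat_lit 0) (nat_lit 4057497018743) (nat_lit 2) (nat_lit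 5) (nat_lit 4) (nat_lit 4) (nat_lit 2) (nat_lit 4) (nat_lit 408) (nat_lit 360) (nat_lit 252)) (XT.lf (nat_lit 0) (nat_lit 5466134618527) (nat_lit 152) (nat_lit 246651554359) (nat_lit 0) (nat_lit 5315726002264) (nat_lit 2) (nat_lit 5) (nat_lit 4) (nat_lit 4) (nat_lit 2) (nat_lit 4) (nat_lit 409) (nat_lit 360) (nat_lit 251)))) (XT.nd (nat_lit 156) (nat_lit 0) (nat_lit 0) (XT.nd (nat_lit 78) (nat_lit 0) (nat_lit 0) (XT.lf (nat_lit 0) (nat_lit 1100011928601) (nat_lit 76) (nat_lit 5839541296497) (nat_lit 76) (nat_lit 5689132675485) (nat_lit 1) (nat_lit 4) (nat_lit 2) (nat_lit 5) (nat_lit 2) (nat_lit 4) (nat_lit 410) (nat_lit 360) (nat_lit 250)) (XT.lf (nat_lit 0) (nat_lit 2663611320257) (nat_lit 76) (nat_lit 5977554256686) (nat_lit 76) (nat_lit 5827145631545) (nat_lit 1) (nat_lit 4) (nat_lit 2) (nat_lit 5) (nat_lit 2) (nat_lit 4) (nat_lit 411) (nat_lit 360) (nat_lit 249))) (XT.nd (nat_lit 78)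 (nat_lit 0) (nat_lit 0) (XT.lf (nat_lit 0) (nat_lit 4461750548872) (nat_lit 76) (nat_lit 6136269197623) (nat_lit 76) (nat_lit 5985860568890) (nat_lit 1) (nat_lit 4) (nat_lit 2) (nat_lit 5) (nat_lit 2) (nat_lit 4) (nat_lit 412) (nat_lit 360) (nat_lit 248)) (XT.lf (nat_lit 0) (nat_lit 6529610599353) (nat_lit 76) (nat_lit 6318791411630) (nat_lit 76) (nat_lit 6168382779775) (nat_lit 1) (nat_lit 4) (nat_lit 2) (nat_lit 5) (nat_lit 2) (nat_lit 4) (nat_lit 413) (nat_lit 360) (nat_lit 247))))) (XT.nd (nat_lit 49140) (nat_lit 0) (nat_lit 4408) (XT.nd (nat_lit 48984) (nat_lit 0) (nat_lit 5168) (XT.nd (nat_lit 78) (nat_lit 0) (nat_lit 0) (XT.lf (nat_lit 0) (nat_lit 8907649603123) (nat_lit 76) (nat_lit 6528691985503) (nat_lit 76) (nat_lit 6378283350933) (nat_lit 1) (nat_lit 4) (nat_lit 2) (nat_lit 5) (nat_lit 2) (nat_lit 4) (nat_lit 414) (nat_lit 360) (nat_lit 246)) (XT.lf (nat_lit 0) (nat_lit 11642394410255)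 (nat_lit 76) (nat_lit 6770077669601) (nat_lit 76) (nat_lit 6619669032669) (nat_lit 1) (nat_lit 4) (nat_lit 2) (nat_lit 5) (nat_lit 2) (nat_lit 4) (nat_lit 415) (nat_lit 360) (nat_lit 245))) (XT.nd (nat_lit 78) (nat_lit 0) (nat_lit 0) (XT.lf (nat_lit 0) (nat_lit 35023084844) (nat_lit 532) (nat_lit 1615712288) (nat_lit 532) (nat_lit 1615712288) (nat_lit 69) (nat_lit 3) (nat_lit 76) (nat_lit 3) (nat_lit 76) (nat_lit 5) (nat_lit 361) (nat_lit 361) (nat_lit 298)) (XT.lf (nat_lit 76) (nat_lit 70594723167) (nat_lit 0) (nat_lit 6421611785) (nat_lit 532) (nat_lit 5093511385) (nat_lit 70) (nat_lit 5) (nat_lit 69) (nat_lit 3) (nat_lit 76) (nat_lit 5) (nat_lit 362) (nat_lit 361) (nat_lit 297)))) (XT.nd (nat_lit 156) (nat_lit 304) (nat_lit 0) (XT.nd (nat_lit 78) (nat_lit 0) (nat_lit 76) (XT.lf (nat_lit 0) (nat_lit 191409128) (nat_lit 532) (nat_lit 19385793321) (nat_lit 608) (nat_lit 68697635026) (nat_lit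 63) (nat_lit 5) (nat_lit 70) (nat_lit 5) (nat_lit 71) (nat_lit 5) (nat_lit 363) (nat_lit 361) (nat_lit 296)) (XT.lf (nat_lit 0) (nat_lit 9659154143) (nat_lit 532) (nat_lit 26781698367) (nat_lit 608) (nat_lit 58617808346) (nat_lit 64) (nat_lit 5) (nat_lit 71) (nat_lit 5) (nat_lit 72) (nat_lit 5) (nat_lit 364) (nat_lit 361) (nat_lit 295))) (XT.nd (nat_lit 78) (nat_lit 456) (nat_lit 0) (XT.lf (nat_lit 0) (nat_lit 24489937069) (nat_lit 532) (nat_lit 33354702765) (nat_lit 76) (nat_lit 44699989403) (nat_lit 65) (nat_lit 5) (nat_lit 72) (nat_lit 5) (nat_lit 66) (nat_lit 5) (nat_lit 365) (nat_lit 361) (nat_lit 294)) (XT.lf (nat_lit 0) (nat_lit 45762743526) (nat_lit 532) (nat_lit 38838780476) (nat_lit 76) (nat_lit 26214577763) (nat_lit 59) (nat_lit 5) (nat_lit 66) (nat_lit 5) (nat_lit 60) (nat_lit 5) (nat_lit 366) (nat_lit 361) (nat_lit 293)))))) (XT.nd (nat_lit 624) (nat_lit 1216) (nat_lit 0) (XT.nd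 (nat_lit 312) (nat_lit 684) (nat_lit 0) (XT.nd (nat_lit 156) (nat_lit 456) (nat_lit 0) (XT.nd (nat_lit 78) (nat_lit 228) (nat_lit 0) (XT.lf (nat_lit 0) (nat_lit 74733479446) (nat_lit 304) (nat_lit 42922571503) (nat_lit 76) (nat_lit 2311684742) (nat_lit 56) (nat_lit 5) (nat_lit 60) (nat_lit 5) (nat_lit 57) (nat_lit 5) (nat_lit 367) (nat_lit 361) (nat_lit 292)) (XT.lf (nat_lit 0) (nat_lit 84097461016) (nat_lit 228) (nat_lit 29473000506) (nat_lit 304) (nat_lit 16480003366) (nat_lit 53) (nat_lit 5) (nat_lit 56) (nat_lit 5) (nat_lit 57) (nat_lit 5) (nat_lit 368) (nat_lit 361) (nat_lit 291))) (XT.nd (nat_lit 78) (nat_lit 228) (nat_lit 0) (XT.lf (nat_lit 0) (nat_lit 21169929063) (nat_lit 228) (nat_lit 47589326790) (nat_lit 76) (nat_lit 72421449490) (nat_lit 50) (nat_lit 5) (nat_lit 53) (nat_lit 5) (nat_lit 51) (nat_lit 5) (nat_lit 369) (nat_lit 361) (nat_lit 290)) (XT.lf (nat_lit 0) (nat_lit 69211172232)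 (nat_lit 304) (nat_lit 47472280152) (nat_lit 76) (nat_lit 36805216372) (nat_lit 47) (nat_lit 5) (nat_lit 51) (nat_lit 5) (nat_lit 48) (nat_lit 5) (nat_lit 370) (nat_lit 361) (nat_lit 289)))) (XT.nd (nat_lit 156) (nat_lit 304) (nat_lit 0) (XT.nd (nat_lit 78) (nat_lit 228) (nat_lit 0) (XT.lf (nat_lit 0) (nat_lit 122185375151) (nat_lit 152) (nat_lit 8533575291) (nat_lit 228) (nat_lit 36423048988) (nat_lit 45) (nat_lit 5) (nat_lit 47) (nat_lit 5) (nat_lit 48) (nat_lit 5) (nat_lit 371) (nat_lit 361) (nat_lit 288)) (XT.lf (nat_lit 0) (nat_lit 25486796733) (nat_lit 228) (nat_lit 41181431995) (nat_lit 76) (nat_lit 115514644095) (nat_lit 42) (nat_lit 5) (nat_lit 45) (nat_lit 5) (nat_lit 43) (nat_lit 5) (nat_lit 372) (nat_lit 361) (nat_lit 287))) (XT.nd (nat_lit 78) (nat_lit 152) (nat_lit 0) (XT.lf (nat_lit 0) (nat_lit 101702524133) (nat_lit 228) (nat_lit 35335128679) (nat_lit 76) (nat_lit 61792456138)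 (nat_lit 40) (nat_lit 5) (nat_lit 43) (nat_lit 5) (nat_lit 41) (nat_lit 5) (nat_lit 373) (nat_lit 361) (nat_lit 286)) (XT.lf (nat_lit 0) (nat_lit 191174756754) (nat_lit 152) (nat_lit 5846490021) (nat_lit 228) (nat_lit 20339533216) (nat_lit 38) (nat_lit 5) (nat_lit 40) (nat_lit 5) (nat_lit 41) (nat_lit 5) (nat_lit 374) (nat_lit 361) (nat_lit 285))))) (XT.nd (nat_lit 312) (nat_lit 532) (nat_lit 0) (XT.nd (nat_lit 156) (nat_lit 380) (nat_lit 0) (XT.nd (nat_lit 78) (nat_lit 152) (nat_lit 0) (XT.lf (nat_lit 0) (nat_lit 74725609262) (nat_lit 152) (nat_lit 16927186564) (nat_lit 76) (nat_lit 146074779740) (nat_lit 36) (nat_lit 5) (nat_lit 38) (nat_lit 5) (nat_lit 37) (nat_lit 5) (nat_lit 375) (nat_lit 361) (nat_lit 284)) (XT.lf (nat_lit 0) (nat_lit 191637635228) (nat_lit 228) (nat_lit 4689767177) (nat_lit 76) (nat_lit 64076409219) (nat_lit 34) (nat_lit 5) (nat_lit 37) (nat_lit 5) (nat_lit 35) (nat_lit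 4) (nat_lit 376) (nat_lit 361) (nat_lit 283))) (XT.nd (nat_lit 78) (nat_lit 76) (nat_lit 0) (XT.lf (nat_lit 0) (nat_lit 9697345422) (nat_lit 152) (nat_lit 38584367530) (nat_lit 228) (nat_lit 237270935691) (nat_lit 30) (nat_lit 5) (nat_lit 32) (nat_lit 5) (nat_lit 33) (nat_lit 5) (nat_lit 377) (nat_lit 361) (nat_lit 282)) (XT.lf (nat_lit 0) (nat_lit 23874040768) (nat_lit 76) (nat_lit 167134606497) (nat_lit 152) (nat_lit 122346786457) (nat_lit 29) (nat_lit 5) (nat_lit 30) (nat_lit 5) (nat_lit 31) (nat_lit 4) (nat_lit 378) (nat_lit 361) (nat_lit 281)))) (XT.nd (nat_lit 156) (nat_lit 304) (nat_lit 0) (XT.nd (nat_lit 78) (nat_lit 76) (nat_lit 0) (XT.lf (nat_lit 0) (nat_lit 20137416524) (nat_lit 152) (nat_lit 303877714736) (nat_lit 76) (nat_lit 20429622145) (nat_lit 27) (nat_lit 5) (nat_lit 29) (nat_lit 5) (nat_lit 28) (nat_lit 4) (nat_lit 379) (nat_lit 361) (nat_lit 280)) (XT.lf (nat_lit 0) (nat_lit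 52530816903) (nat_lit 76) (nat_lit 138957117995) (nat_lit 152) (nat_lit 187276270787) (nat_lit 26) (nat_lit 5) (nat_lit 27) (nat_lit 5) (nat_lit 28) (nat_lit 4) (nat_lit 380) (nat_lit 361) (nat_lit 279))) (XT.nd (nat_lit 78) (nat_lit 228) (nat_lit 0) (XT.lf (nat_lit 0) (nat_lit 64497771649) (nat_lit 76) (nat_lit 336446941416) (nat_lit 76) (nat_lit 16294568293) (nat_lit 25) (nat_lit 4) (nat_lit 26) (nat_lit 5) (nat_lit 26) (nat_lit 4) (nat_lit 381) (nat_lit 361) (nat_lit 278)) (XT.nd (nat_lit 78) (nat_lit 76) (nat_lit 0) (XT.lf (nat_lit 0) (nat_lit 67833680598) (nat_lit 76) (nat_lit 118698259977) (nat_lit 152) (nat_lit 273389225586) (nat_lit 23) (nat_lit 5) (nat_lit 24) (nat_lit 5) (nat_lit 25) (nat_lit 4) (nat_lit 382) (nat_lit 361) (nat_lit 277)) (XT.lf (nat_lit 0) (nat_lit 63986990633) (nat_lit 76) (nat_lit 370100470406) (nat_lit 76) (nat_lit 73662425440) (nat_lit 22) (nat_lit 4) (nat_lit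 23) (nat_lit 5) (nat_lit 23) (nat_lit 4) (nat_lit 383) (nat_lit 361) (nat_lit 276))))))))
noncomputable def xc89 : XT := (XT.nd (nat_lit 1248) (nat_lit 304) (nat_lit 0) (XT.nd (nat_lit 624) (nat_lit 532) (nat_lit 0) (XT.nd (nat_lit 312) (nat_lit 380) (nat_lit 0) (XT.nd (nat_lit 156) (nat_lit 152) (nat_lit 0) (XT.nd (nat_lit 78) (nat_lit 76) (nat_lit 0) (XT.lf (nat_lit 0) (nat_lit 45310338555) (nat_lit 76) (nat_lit 118991897717) (nat_lit 152) (nat_lit 396863788234) (nat_lit 20) (nat_lit 5) (nat_lit 21) (nat_lit 5) (nat_lit 22) (nat_lit 4) (nat_lit 384) (nat_lit 361) (nat_lit 275)) (XT.lf (nat_lit 0) (nat_lit 6946800203) (nat_lit 76) (nat_lit 444282262563) (nat_lit 76) (nat_lit 169802127497) (nat_lit 19) (nat_lit 4) (nat_lit 20) (nat_lit 5) (nat_lit 20) (nat_lit 4) (nat_lit 385) (nat_lit 361) (nat_lit 274))) (XT.nd (nat_lit 78) (nat_lit 76) (nat_lit 0) (XT.lf (nat_lit 0) (nat_lit 105449860075)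 (nat_lit 152) (nat_lit 55144613690) (nat_lit 76) (nat_lit 527610022606) (nat_lit 18) (nat_lit 5) (nat_lit 20) (nat_lit 5) (nat_lit 19) (nat_lit 4) (nat_lit 386) (nat_lit 361) (nat_lit 273)) (XT.lf (nat_lit 0) (nat_lit 431467952316) (nat_lit 152) (nat_lit 154751057157) (nat_lit 0) (nat_lit 177319354386) (nat_lit 17) (nat_lit 5) (nat_lit 19) (nat_lit 4) (nat_lit 17) (nat_lit 4) (nat_lit 387) (nat_lit 361) (nat_lit 272)))) (XT.nd (nat_lit 156) (nat_lit 152) (nat_lit 0) (XT.nd (nat_lit 78) (nat_lit 152) (nat_lit 0) (XT.lf (nat_lit 0) (nat_lit 548561685787) (nat_lit 76) (nat_lit 277108423456) (nat_lit 76) (nat_lit 22959694192) (nat_lit 16) (nat_lit 4) (nat_lit 17) (nat_lit 5) (nat_lit 17) (nat_lit 4) (nat_lit 388) (nat_lit 361) (nat_lit 271)) (XT.lf (nat_lit 0) (nat_lit 333432728417) (nat_lit 152) (nat_lit 512898822692) (nat_lit 0) (nat_lit 98109725207) (nat_lit 14) (nat_lit 5) (nat_lit 16) (nat_lit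 4) (nat_lit 14) (nat_lit 4) (nat_lit 389) (nat_lit 361) (nat_lit 270))) (XT.nd (nat_lit 78) (nat_lit 76) (nat_lit 0) (XT.lf (nat_lit 0) (nat_lit 240651885781) (nat_lit 76) (nat_lit 523725857576) (nat_lit 76) (nat_lit 288402762415) (nat_lit 13) (nat_lit 4) (nat_lit 14) (nat_lit 5) (nat_lit 14) (nat_lit 4) (nat_lit 390) (nat_lit 361) (nat_lit 269)) (XT.lf (nat_lit 0) (nat_lit 93782241235) (nat_lit 152) (nat_lit 40256113348) (nat_lit 76) (nat_lit 1041947751778) (nat_lit 12) (nat_lit 5) (nat_lit 14) (nat_lit 5) (nat_lit 13) (nat_lit 4) (nat_lit 391) (nat_lit 361) (nat_lit 268))))) (XT.nd (nat_lit 312) (nat_lit 228) (nat_lit 0) (XT.nd (nat_lit 156) (nat_lit 152) (nat_lit 0) (XT.nd (nat_lit 78) (nat_lit 76) (nat_lit 0) (XT.lf (nat_lit 0) (nat_lit 546268043634) (nat_lit 152) (nat_lit 440025097701) (nat_lit 0) (nat_lit 328376150443) (nat_lit 11) (nat_lit 5) (nat_lit 13) (nat_lit 4) (nat_lit 11)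 (nat_lit 4) (nat_lit 392) (nat_lit 361) (nat_lit 267)) (XT.lf (nat_lit 0) (nat_lit 475188873302) (nat_lit 76) (nat_lit 607775508818) (nat_lit 76) (nat_lit 389883559647) (nat_lit 10) (nat_lit 4) (nat_lit 11) (nat_lit 5) (nat_lit 11) (nat_lit 4) (nat_lit 393) (nat_lit 361) (nat_lit 266))) (XT.nd (nat_lit 78) (nat_lit 76) (nat_lit 0) (XT.lf (nat_lit 0) (nat_lit 56283461143) (nat_lit 152) (nat_lit 100822398671) (nat_lit 76) (nat_lit 1496508688272) (nat_lit 9) (nat_lit 5) (nat_lit 11) (nat_lit 5) (nat_lit 10) (nat_lit 4) (nat_lit 394) (nat_lit 361) (nat_lit 265)) (XT.lf (nat_lit 0) (nat_lit 579802089082) (nat_lit 152) (nat_lit 900152747674) (nat_lit 0) (nat_lit 378050200027) (nat_lit 8) (nat_lit 5) (nat_lit 10) (nat_lit 4) (nat_lit 8) (nat_lit 4) (nat_lit 395) (nat_lit 361) (nat_lit 264)))) (XT.nd (nat_lit 156) (nat_lit 152) (nat_lit 0) (XT.nd (nat_lit 78) (nat_lit 0) (nat_lit 0) (XT.lf (nat_lit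 0) (nat_lit 88626030584) (nat_lit 76) (nat_lit 1102710475864) (nat_lit 76) (nat_lit 900958552727) (nat_lit 7) (nat_lit 4) (nat_lit 8) (nat_lit 5) (nat_lit 8) (nat_lit 4) (nat_lit 396) (nat_lit 361) (nat_lit 263)) (XT.lf (nat_lit 0) (nat_lit 1280231769202) (nat_lit 76) (nat_lit 640576112443) (nat_lit 76) (nat_lit 438824159670) (nat_lit 7) (nat_lit 4) (nat_lit 8) (nat_lit 5) (nat_lit 8) (nat_lit 4) (nat_lit 397) (nat_lit 361) (nat_lit 262))) (XT.nd (nat_lit 78) (nat_lit 76) (nat_lit 0) (XT.lf (nat_lit 0) (nat_lit 87996481246) (nat_lit 152) (nat_lit 18719297552) (nat_lit 76) (nat_lit 2560175584029) (nat_lit 6) (nat_lit 5) (nat_lit 8) (nat_lit 5) (nat_lit 7) (nat_lit 4) (nat_lit 398) (nat_lit 361) (nat_lit 261)) (XT.lf (nat_lit 0) (nat_lit 711990741771) (nat_lit 152) (nat_lit 1778622960055) (nat_lit 0) (nat_lit 525183333481) (nat_lit 5) (nat_lit 5) (nat_lit 7) (nat_lit 4) (nat_lit 5) (nat_lit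 4) (nat_lit 399) (nat_lit 361) (nat_lit 260)))))) (XT.nd (nat_lit 624) (nat_lit 76) (nat_lit 0) (XT.nd (nat_lit 312) (nat_lit 152) (nat_lit 0) (XT.nd (nat_lit 156) (nat_lit 0) (nat_lit 0) (XT.nd (nat_lit 78) (nat_lit 76) (nat_lit 0) (XT.lf (nat_lit 0) (nat_lit 1433094650444) (nat_lit 152) (nat_lit 737375843386) (nat_lit 0) (nat_lit 1246287224111) (nat_lit 5) (nat_lit 5) (nat_lit 7) (nat_lit 4) (nat_lit 5) (nat_lit 4) (nat_lit 400) (nat_lit 361) (nat_lit 259)) (XT.lf (nat_lit 0) (nat_lit 484283949082) (nat_lit 76) (nat_lit 1789727120971) (nat_lit 76) (nat_lit 1602919678949) (nat_lit 4) (nat_lit 4) (nat_lit 5) (nat_lit 5) (nat_lit 5) (nat_lit 4) (nat_lit 401) (nat_lit 361) (nat_lit 258))) (XT.nd (nat_lit 78) (nat_lit 0) (nat_lit 0) (XT.lf (nat_lit 0) (nat_lit 1933845735164) (nat_lit 76) (nat_lit 1328687015684) (nat_lit 76) (nat_lit 1141879560019) (nat_lit 4) (nat_lit 4) (nat_lit 5) (nat_lit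 5) (nat_lit 5) (nat_lit 4) (nat_lit 402) (nat_lit 361) (nat_lit 257)) (XT.lf (nat_lit 0) (nat_lit 3600841601155) (nat_lit 76) (nat_lit 798490990383) (nat_lit 76) (nat_lit 611683522854) (nat_lit 4) (nat_lit 4) (nat_lit 5) (nat_lit 5) (nat_lit 5) (nat_lit 4) (nat_lit 403) (nat_lit 361) (nat_lit 256)))) (XT.nd (nat_lit 156) (nat_lit 0) (nat_lit 0) (XT.nd (nat_lit 78) (nat_lit 152) (nat_lit 0) (XT.lf (nat_lit 0) (nat_lit 5517886683564) (nat_lit 76) (nat_lit 188765644573) (nat_lit 76) (nat_lit 1958166728) (nat_lit 4) (nat_lit 4) (nat_lit 5) (nat_lit 5) (nat_lit 5) (nat_lit 4) (nat_lit 404) (nat_lit 361) (nat_lit 255)) (XT.lf (nat_lit 0) (nat_lit 708042762579) (nat_lit 152) (nat_lit 5262879499432) (nat_lit 0) (nat_lit 535072867379) (nat_lit 2) (nat_lit 5) (nat_lit 4) (nat_lit 4) (nat_lit 2) (nat_lit 4) (nat_lit 405) (nat_lit 361) (nat_lit 254))) (XT.nd (nat_lit 78) (nat_lit 0) (nat_lit 0) (XT.lf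 (nat_lit 0) (nat_lit 1535348851518) (nat_lit 152) (nat_lit 4524381912319) (nat_lit 0) (nat_lit 1362378949096) (nat_lit 2) (nat_lit 5) (nat_lit 4) (nat_lit 4) (nat_lit 2) (nat_lit 4) (nat_lit 406) (nat_lit 361) (nat_lit 253)) (XT.lf (nat_lit 0) (nat_lit 2486750795480) (nat_lit 152) (nat_lit 3675109806418) (nat_lit 0) (nat_lit 2313780886778) (nat_lit 2) (nat_lit 5) (nat_lit 4) (nat_lit 4) (nat_lit 2) (nat_lit 4) (nat_lit 407) (nat_lit 361) (nat_lit 252))))) (XT.nd (nat_lit 312) (nat_lit 0) (nat_lit 0) (XT.nd (nat_lit 156) (nat_lit 76) (nat_lit 0) (XT.nd (nat_lit 78) (nat_lit 0) (nat_lit 0) (XT.lf (nat_lit 0) (nat_lit 3580862980324) (nat_lit 152) (nat_lit 2698446988355) (nat_lit 0) (nat_lit 3407893066160) (nat_lit 2) (nat_lit 5) (nat_lit 4) (nat_lit 4) (nat_lit 2) (nat_lit 4) (nat_lit 408) (nat_lit 361) (nat_lit 251)) (XT.lf (nat_lit 0) (nat_lit 4839091948796) (nat_lit 152) (nat_lit 1575284837775)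 (nat_lit 0) (nat_lit 4666122029883) (nat_lit 2) (nat_lit 5) (nat_lit 4) (nat_lit 4) (nat_lit 2) (nat_lit 4) (nat_lit 409) (nat_lit 361) (nat_lit 250))) (XT.nd (nat_lit 78) (nat_lit 76) (nat_lit 0) (XT.lf (nat_lit 0) (nat_lit 6286055224193) (nat_lit 152) (nat_lit 283648443037) (nat_lit 0) (nat_lit 6113085301151) (nat_lit 2) (nat_lit 5) (nat_lit 4) (nat_lit 4) (nat_lit 2) (nat_lit 4) (nat_lit 410) (nat_lit 361) (nat_lit 249)) (XT.lf (nat_lit 0) (nat_lit 1265014490886) (nat_lit 76) (nat_lit 6715472095599) (nat_lit 76) (nat_lit 6542502168966) (nat_lit 1) (nat_lit 4) (nat_lit 2) (nat_lit 5) (nat_lit 2) (nat_lit 4) (nat_lit 411) (nat_lit 361) (nat_lit 248)))) (XT.nd (nat_lit 156) (nat_lit 0) (nat_lit 0) (XT.nd (nat_lit 78) (nat_lit 0) (nat_lit 0) (XT.lf (nat_lit 0) (nat_lit 3063153690465) (nat_lit 76) (nat_lit 6874187051387) (nat_lit 76) (nat_lit 6701217121631) (nat_lit 1) (nat_lit 4) (nat_lit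 2) (nat_lit 5) (nat_lit 2) (nat_lit 4) (nat_lit 412) (nat_lit 361) (nat_lit 247)) (XT.lf (nat_lit 0) (nat_lit 5131013715698) (nat_lit 76) (nat_lit 7056709278308) (nat_lit 76) (nat_lit 6883739345837) (nat_lit 1) (nat_lit 4) (nat_lit 2) (nat_lit 5) (nat_lit 2) (nat_lit 4) (nat_lit 413) (nat_lit 361) (nat_lit 246))) (XT.nd (nat_lit 78) (nat_lit 0) (nat_lit 0) (XT.lf (nat_lit 0) (nat_lit 7509052697513) (nat_lit 76) (nat_lit 7266609863411) (nat_lit 76) (nat_lit 7093639928578) (nat_lit 1) (nat_lit 4) (nat_lit 2) (nat_lit 5) (nat_lit 2) (nat_lit 4) (nat_lit 414) (nat_lit 361) (nat_lit 245)) (XT.nd (nat_lit 48984) (nat_lit 0) (nat_lit 5168) (XT.lf (nat_lit 0) (nat_lit 10243797485554) (nat_lit 76) (nat_lit 7507995557273) (nat_lit 76) (nat_lit 7335025620388) (nat_lit 1) (nat_lit 4) (nat_lit 2) (nat_lit 5) (nat_lit 2) (nat_lit 4) (nat_lit 415) (nat_lit 361) (nat_lit 244)) (XT.lf (nat_lit 0) (nat_lit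 40294662802) (nat_lit 532) (nat_lit 1848280812) (nat_lit 532) (nat_lit 1848280812) (nat_lit 69) (nat_lit 3) (nat_lit 76) (nat_lit 3) (nat_lit 76) (nat_lit 5) (nat_lit 362) (nat_lit 362) (nat_lit 296))))))))
noncomputable def xc90 : XT := (XT.nd (nat_lit 1248) (nat_lit 1596) (nat_lit 0) (XT.nd (nat_lit 624) (nat_lit 1520) (nat_lit 0) (XT.nd (nat_lit 312) (nat_lit 988) (nat_lit 0) (XT.nd (nat_lit 156) (nat_lit 0) (nat_lit 76) (XT.nd (nat_lit 78) (nat_lit 456) (nat_lit 0) (XT.lf (nat_lit 76) (nat_lit 81201851214) (nat_lit 0) (nat_lit 7398869697) (nat_lit 532) (nat_lit 5823026325) (nat_lit 70) (nat_lit 5) (nat_lit 69) (nat_lit 3) (nat_lit 76) (nat_lit 5) (nat_lit 363) (nat_lit 362) (nat_lit 295)) (XT.lf (nat_lit 0) (nat_lit 248799293) (nat_lit 532) (nat_lit 22273065752) (nat_lit 608) (nat_lit 78991886683) (nat_lit 63) (nat_lit 5) (nat_lit 70) (nat_lit 5) (nat_lit 71) (nat_lit 5) (nat_lit 364)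 (nat_lit 362) (nat_lit 294))) (XT.nd (nat_lit 78) (nat_lit 0) (nat_lit 76) (XT.lf (nat_lit 0) (nat_lit 11133261520) (nat_lit 532) (nat_lit 30777896545) (nat_lit 608) (nat_lit 67404268340) (nat_lit 64) (nat_lit 5) (nat_lit 71) (nat_lit 5) (nat_lit 72) (nat_lit 5) (nat_lit 365) (nat_lit 362) (nat_lit 293)) (XT.lf (nat_lit 0) (nat_lit 28185758678) (nat_lit 532) (nat_lit 38336753195) (nat_lit 76) (nat_lit 51402012362) (nat_lit 65) (nat_lit 5) (nat_lit 72) (nat_lit 5) (nat_lit 66) (nat_lit 5) (nat_lit 366) (nat_lit 362) (nat_lit 292)))) (XT.nd (nat_lit 156) (nat_lit 456) (nat_lit 0) (XT.nd (nat_lit 78) (nat_lit 228) (nat_lit 0) (XT.lf (nat_lit 0) (nat_lit 52647026572) (nat_lit 532) (nat_lit 44643618786) (nat_lit 76) (nat_lit 30146270730) (nat_lit 59) (nat_lit 5) (nat_lit 66) (nat_lit 5) (nat_lit 60) (nat_lit 5) (nat_lit 367) (nat_lit 362) (nat_lit 291)) (XT.lf (nat_lit 0) (nat_lit 85961277927)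 (nat_lit 304) (nat_lit 49340360297) (nat_lit 76) (nat_lit 2659825939) (nat_lit 56) (nat_lit 5) (nat_lit 60) (nat_lit 5) (nat_lit 57) (nat_lit 5) (nat_lit 368) (nat_lit 362) (nat_lit 290))) (XT.nd (nat_lit 78) (nat_lit 228) (nat_lit 0) (XT.lf (nat_lit 0) (nat_lit 96730933673) (nat_lit 228) (nat_lit 33891008387) (nat_lit 304) (nat_lit 18934811172) (nat_lit 53) (nat_lit 5) (nat_lit 56) (nat_lit 5) (nat_lit 57) (nat_lit 5) (nat_lit 369) (nat_lit 362) (nat_lit 289)) (XT.lf (nat_lit 0) (nat_lit 24360137026) (nat_lit 228) (nat_lit 54708578117) (nat_lit 76) (nat_lit 83287911682) (nat_lit 50) (nat_lit 5) (nat_lit 53) (nat_lit 5) (nat_lit 51) (nat_lit 5) (nat_lit 370) (nat_lit 362) (nat_lit 288))))) (XT.nd (nat_lit 312) (nat_lit 760) (nat_lit 0) (XT.nd (nat_lit 156) (nat_lit 380) (nat_lit 0) (XT.nd (nat_lit 78) (nat_lit 152) (nat_lit 0) (XT.lf (nat_lit 0) (nat_lit 79606171950) (nat_lit 304) (nat_lit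 54574635250) (nat_lit 76) (nat_lit 42330090019) (nat_lit 47) (nat_lit 5) (nat_lit 51) (nat_lit 5) (nat_lit 48) (nat_lit 5) (nat_lit 371) (nat_lit 362) (nat_lit 287)) (XT.lf (nat_lit 0) (nat_lit 140530103523) (nat_lit 152) (nat_lit 9808682448) (nat_lit 228) (nat_lit 41873548771) (nat_lit 45) (nat_lit 5) (nat_lit 47) (nat_lit 5) (nat_lit 48) (nat_lit 5) (nat_lit 372) (nat_lit 362) (nat_lit 286))) (XT.nd (nat_lit 78) (nat_lit 152) (nat_lit 0) (XT.lf (nat_lit 0) (nat_lit 29321027122) (nat_lit 228) (nat_lit 47341788121) (nat_lit 76) (nat_lit 132846587475) (nat_lit 42) (nat_lit 5) (nat_lit 45) (nat_lit 5) (nat_lit 43) (nat_lit 5) (nat_lit 373) (nat_lit 362) (nat_lit 285)) (XT.lf (nat_lit 0) (nat_lit 116968150227) (nat_lit 228) (nat_lit 40619280869) (nat_lit 76) (nat_lit 71066370783) (nat_lit 40) (nat_lit 5) (nat_lit 43) (nat_lit 5) (nat_lit 41) (nat_lit 5) (nat_lit 374) (nat_lit 362) (nat_lit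 284)))) (XT.nd (nat_lit 156) (nat_lit 456) (nat_lit 0) (XT.nd (nat_lit 78) (nat_lit 152) (nat_lit 0) (XT.lf (nat_lit 0) (nat_lit 219865723147) (nat_lit 152) (nat_lit 6717976300) (nat_lit 228) (nat_lit 23380453147) (nat_lit 38) (nat_lit 5) (nat_lit 40) (nat_lit 5) (nat_lit 41) (nat_lit 5) (nat_lit 375) (nat_lit 362) (nat_lit 283)) (XT.lf (nat_lit 0) (nat_lit 85943184393) (nat_lit 152) (nat_lit 19451737402) (nat_lit 76) (nat_lit 167991088875) (nat_lit 36) (nat_lit 5) (nat_lit 38) (nat_lit 5) (nat_lit 37) (nat_lit 5) (nat_lit 376) (nat_lit 362) (nat_lit 282))) (XT.nd (nat_lit 78) (nat_lit 304) (nat_lit 0) (XT.lf (nat_lit 0) (nat_lit 220391324340) (nat_lit 228) (nat_lit 5379428871) (nat_lit 76) (nat_lit 73692984449) (nat_lit 34) (nat_lit 5) (nat_lit 37) (nat_lit 5) (nat_lit 35) (nat_lit 4) (nat_lit 377) (nat_lit 362) (nat_lit 281)) (XT.lf (nat_lit 0) (nat_lit 11165664606) (nat_lit 152) (nat_lit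 44366125087) (nat_lit 228) (nat_lit 272853128890) (nat_lit 30) (nat_lit 5) (nat_lit 32) (nat_lit 5) (nat_lit 33) (nat_lit 5) (nat_lit 378) (nat_lit 362) (nat_lit 280)))))) (XT.nd (nat_lit 624) (nat_lit 760) (nat_lit 0) (XT.nd (nat_lit 312) (nat_lit 456) (nat_lit 0) (XT.nd (nat_lit 156) (nat_lit 152) (nat_lit 0) (XT.nd (nat_lit 78) (nat_lit 152) (nat_lit 0) (XT.lf (nat_lit 0) (nat_lit 27468147570) (nat_lit 76) (nat_lit 192199032613) (nat_lit 152) (nat_lit 140690988190) (nat_lit 29) (nat_lit 5) (nat_lit 30) (nat_lit 5) (nat_lit 31) (nat_lit 4) (nat_lit 379) (nat_lit 362) (nat_lit 279)) (XT.lf (nat_lit 0) (nat_lit 23164913034) (nat_lit 152) (nat_lit 349446703591) (nat_lit 76) (nat_lit 23499297827) (nat_lit 27) (nat_lit 5) (nat_lit 29) (nat_lit 5) (nat_lit 28) (nat_lit 4) (nat_lit 380) (nat_lit 362) (nat_lit 278))) (XT.nd (nat_lit 78) (nat_lit 76) (nat_lit 0) (XT.lf (nat_lit 0) (nat_lit 60422035481)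 (nat_lit 76) (nat_lit 159795354652) (nat_lit 152) (nat_lit 215360944126) (nat_lit 26) (nat_lit 5) (nat_lit 27) (nat_lit 5) (nat_lit 28) (nat_lit 4) (nat_lit 381) (nat_lit 362) (nat_lit 277)) (XT.lf (nat_lit 0) (nat_lit 74183394296) (nat_lit 76) (nat_lit 386908848557) (nat_lit 76) (nat_lit 18732463945) (nat_lit 25) (nat_lit 4) (nat_lit 26) (nat_lit 5) (nat_lit 26) (nat_lit 4) (nat_lit 382) (nat_lit 362) (nat_lit 276)))) (XT.nd (nat_lit 156) (nat_lit 228) (nat_lit 0) (XT.nd (nat_lit 78) (nat_lit 76) (nat_lit 0) (XT.lf (nat_lit 0) (nat_lit 78019050935) (nat_lit 76) (nat_lit 136498124500) (nat_lit 152) (nat_lit 314391729394) (nat_lit 23) (nat_lit 5) (nat_lit 24) (nat_lit 5) (nat_lit 25) (nat_lit 4) (nat_lit 383) (nat_lit 362) (nat_lit 275)) (XT.lf (nat_lit 0) (nat_lit 73594776108) (nat_lit 76) (nat_lit 425610873914) (nat_lit 76) (nat_lit 84706313185) (nat_lit 22) (nat_lit 4) (nat_lit 23) (nat_lit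 5) (nat_lit 23) (nat_lit 4) (nat_lit 384) (nat_lit 362) (nat_lit 274))) (XT.nd (nat_lit 78) (nat_lit 76) (nat_lit 0) (XT.lf (nat_lit 0) (nat_lit 52116053346) (nat_lit 76) (nat_lit 136836262358) (nat_lit 152) (nat_lit 456388232430) (nat_lit 20) (nat_lit 5) (nat_lit 21) (nat_lit 5) (nat_lit 22) (nat_lit 4) (nat_lit 385) (nat_lit 362) (nat_lit 273)) (XT.lf (nat_lit 0) (nat_lit 7997459129) (nat_lit 76) (nat_lit 510920388463) (nat_lit 76) (nat_lit 195267666718) (nat_lit 19) (nat_lit 4) (nat_lit 20) (nat_lit 5) (nat_lit 20) (nat_lit 4) (nat_lit 386) (nat_lit 362) (nat_lit 272))))) (XT.nd (nat_lit 312) (nat_lit 380) (nat_lit 0) (XT.nd (nat_lit 156) (nat_lit 228) (nat_lit 0) (XT.nd (nat_lit 78) (nat_lit 76) (nat_lit 0) (XT.lf (nat_lit 0) (nat_lit 121271287604) (nat_lit 152) (nat_lit 63408585369) (nat_lit 76) (nat_lit 606754981603) (nat_lit 18) (nat_lit 5) (nat_lit 20) (nat_lit 5) (nat_lit 19) (nat_lit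 4) (nat_lit 387) (nat_lit 362) (nat_lit 271)) (XT.lf (nat_lit 0) (nat_lit 496191831911) (nat_lit 152) (nat_lit 177956443544) (nat_lit 0) (nat_lit 203920547721) (nat_lit 17) (nat_lit 5) (nat_lit 19) (nat_lit 4) (nat_lit 17) (nat_lit 4) (nat_lit 388) (nat_lit 362) (nat_lit 270))) (XT.nd (nat_lit 78) (nat_lit 152) (nat_lit 0) (XT.lf (nat_lit 0) (nat_lit 630852595288) (nat_lit 76) (nat_lit 318671396302) (nat_lit 76) (nat_lit 26400012805) (nat_lit 16) (nat_lit 4) (nat_lit 17) (nat_lit 5) (nat_lit 17) (nat_lit 4) (nat_lit 389) (nat_lit 362) (nat_lit 269)) (XT.lf (nat_lit 0) (nat_lit 383450866110) (nat_lit 152) (nat_lit 589827208387) (nat_lit 0) (nat_lit 112829134767) (nat_lit 14) (nat_lit 5) (nat_lit 16) (nat_lit 4) (nat_lit 14) (nat_lit 4) (nat_lit 390) (nat_lit 362) (nat_lit 268)))) (XT.nd (nat_lit 156) (nat_lit 228) (nat_lit 0) (XT.nd (nat_lit 78) (nat_lit 76) (nat_lit 0) (XT.lf (nat_lit 0)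 (nat_lit 276755561437) (nat_lit 76) (nat_lit 602281792476) (nat_lit 76) (nat_lit 331659991605) (nat_lit 13) (nat_lit 4) (nat_lit 14) (nat_lit 5) (nat_lit 14) (nat_lit 4) (nat_lit 391) (nat_lit 362) (nat_lit 267)) (XT.lf (nat_lit 0) (nat_lit 107852208583) (nat_lit 152) (nat_lit 46289267476) (nat_lit 76) (nat_lit 1198242335605) (nat_lit 12) (nat_lit 5) (nat_lit 14) (nat_lit 5) (nat_lit 13) (nat_lit 4) (nat_lit 392) (nat_lit 362) (nat_lit 266))) (XT.nd (nat_lit 78) (nat_lit 152) (nat_lit 0) (XT.lf (nat_lit 0) (nat_lit 628210712052) (nat_lit 152) (nat_lit 506023910562) (nat_lit 0) (nat_lit 377634865845) (nat_lit 11) (nat_lit 5) (nat_lit 13) (nat_lit 4) (nat_lit 11) (nat_lit 4) (nat_lit 393) (nat_lit 362) (nat_lit 265)) (XT.nd (nat_lit 78) (nat_lit 76) (nat_lit 0) (XT.lf (nat_lit 0) (nat_lit 546471736948) (nat_lit 76) (nat_lit 698939552260) (nat_lit 76) (nat_lit 448363663724) (nat_lit 10) (nat_lit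 4) (nat_lit 11) (nat_lit 5) (nat_lit 11) (nat_lit 4) (nat_lit 394) (nat_lit 362) (nat_lit 264)) (XT.lf (nat_lit 0) (nat_lit 64727987548) (nat_lit 152) (nat_lit 115941711244) (nat_lit 76) (nat_lit 1720986870833) (nat_lit 9) (nat_lit 5) (nat_lit 11) (nat_lit 5) (nat_lit 10) (nat_lit 4) (nat_lit 395) (nat_lit 362) (nat_lit 263))))))))
noncomputable def xc91 : XT := (XT.nd (nat_lit 1326) (nat_lit 0) (nat_lit 0) (XT.nd (nat_lit 624) (nat_lit 228) (nat_lit 0) (XT.nd (nat_lit 312) (nat_lit 152) (nat_lit 0) (XT.nd (nat_lit 156) (nat_lit 76) (nat_lit 0) (XT.nd (nat_lit 78) (nat_lit 76) (nat_lit 0) (XT.lf (nat_lit 0) (nat_lit 666774281939) (nat_lit 152) (nat_lit 1035171853306) (nat_lit 0) (nat_lit 434759506613) (nat_lit 8) (nat_lit 5) (nat_lit 10) (nat_lit 4) (nat_lit 8) (nat_lit 4) (nat_lit 396) (nat_lit 362) (nat_lit 262)) (XT.lf (nat_lit 0) (nat_lit 101923419487) (nat_lit 76) (nat_lit 1268115281068)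 (nat_lit 76) (nat_lit 1036100479972) (nat_lit 7) (nat_lit 4) (nat_lit 8) (nat_lit 5) (nat_lit 8) (nat_lit 4) (nat_lit 397) (nat_lit 362) (nat_lit 261))) (XT.nd (nat_lit 78) (nat_lit 76) (nat_lit 0) (XT.lf (nat_lit 0) (nat_lit 1472269564422) (nat_lit 76) (nat_lit 736660993504) (nat_lit 76) (nat_lit 504646169999) (nat_lit 7) (nat_lit 4) (nat_lit 8) (nat_lit 5) (nat_lit 8) (nat_lit 4) (nat_lit 398) (nat_lit 362) (nat_lit 260)) (XT.lf (nat_lit 0) (nat_lit 101197286390) (nat_lit 152) (nat_lit 21524487299) (nat_lit 76) (nat_lit 2944203186874) (nat_lit 6) (nat_lit 5) (nat_lit 8) (nat_lit 5) (nat_lit 7) (nat_lit 4) (nat_lit 399) (nat_lit 362) (nat_lit 259)))) (XT.nd (nat_lit 156) (nat_lit 76) (nat_lit 0) (XT.nd (nat_lit 78) (nat_lit 0) (nat_lit 0) (XT.lf (nat_lit 0) (nat_lit 818790601915) (nat_lit 152) (nat_lit 2045413860835) (nat_lit 0) (nat_lit 603962027900) (nat_lit 5) (nat_lit 5) (nat_lit 7)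 (nat_lit 4) (nat_lit 5) (nat_lit 4) (nat_lit 400) (nat_lit 362) (nat_lit 258)) (XT.lf (nat_lit 0) (nat_lit 1648059933991) (nat_lit 152) (nat_lit 847980008391) (nat_lit 0) (nat_lit 1433231346333) (nat_lit 5) (nat_lit 5) (nat_lit 7) (nat_lit 4) (nat_lit 5) (nat_lit 4) (nat_lit 401) (nat_lit 362) (nat_lit 257))) (XT.nd (nat_lit 78) (nat_lit 0) (nat_lit 0) (XT.lf (nat_lit 0) (nat_lit 556928565754) (nat_lit 76) (nat_lit 2058185157823) (nat_lit 76) (nat_lit 1843356558301) (nat_lit 4) (nat_lit 4) (nat_lit 5) (nat_lit 5) (nat_lit 5) (nat_lit 4) (nat_lit 402) (nat_lit 362) (nat_lit 256)) (XT.lf (nat_lit 0) (nat_lit 2223924355708) (nat_lit 76) (nat_lit 1527989171259) (nat_lit 76) (nat_lit 1313160561421) (nat_lit 4) (nat_lit 4) (nat_lit 5) (nat_lit 5) (nat_lit 5) (nat_lit 4) (nat_lit 403) (nat_lit 362) (nat_lit 255))))) (XT.nd (nat_lit 312) (nat_lit 76) (nat_lit 0) (XT.nd (nat_lit 156) (nat_lit 152)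 (nat_lit 0) (XT.nd (nat_lit 78) (nat_lit 0) (nat_lit 0) (XT.lf (nat_lit 0) (nat_lit 4140969371998) (nat_lit 76) (nat_lit 918263859134) (nat_lit 76) (nat_lit 703435240326) (nat_lit 4) (nat_lit 4) (nat_lit 5) (nat_lit 5) (nat_lit 5) (nat_lit 4) (nat_lit 404) (nat_lit 362) (nat_lit 254)) (XT.lf (nat_lit 0) (nat_lit 6345571017116) (nat_lit 76) (nat_lit 217079813166) (nat_lit 76) (nat_lit 2251186557) (nat_lit 4) (nat_lit 4) (nat_lit 5) (nat_lit 5) (nat_lit 5) (nat_lit 4) (nat_lit 405) (nat_lit 362) (nat_lit 253))) (XT.nd (nat_lit 78) (nat_lit 0) (nat_lit 0) (XT.lf (nat_lit 0) (nat_lit 814249804914) (nat_lit 152) (nat_lit 6052310140005) (nat_lit 0) (nat_lit 615334403626) (nat_lit 2) (nat_lit 5) (nat_lit 4) (nat_lit 4) (nat_lit 2) (nat_lit 4) (nat_lit 406) (nat_lit 362) (nat_lit 252)) (XT.lf (nat_lit 0) (nat_lit 1765651725289) (nat_lit 152) (nat_lit 5203038082347) (nat_lit 0) (nat_lit 1566736318539)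 (nat_lit 2) (nat_lit 5) (nat_lit 4) (nat_lit 4) (nat_lit 2) (nat_lit 4) (nat_lit 407) (nat_lit 362) (nat_lit 251)))) (XT.nd (nat_lit 156) (nat_lit 76) (nat_lit 0) (XT.nd (nat_lit 78) (nat_lit 0) (nat_lit 0) (XT.lf (nat_lit 0) (nat_lit 2859763889622) (nat_lit 152) (nat_lit 4226375306234) (nat_lit 0) (nat_lit 2660848478123) (nat_lit 2) (nat_lit 5) (nat_lit 4) (nat_lit 4) (nat_lit 2) (nat_lit 4) (nat_lit 408) (nat_lit 362) (nat_lit 250)) (XT.lf (nat_lit 0) (nat_lit 4117992840259) (nat_lit 152) (nat_lit 3103213192133) (nat_lit 0) (nat_lit 3919077424630) (nat_lit 2) (nat_lit 5) (nat_lit 4) (nat_lit 4) (nat_lit 2) (nat_lit 4) (nat_lit 409) (nat_lit 362) (nat_lit 249))) (XT.nd (nat_lit 78) (nat_lit 76) (nat_lit 0) (XT.lf (nat_lit 0) (nat_lit 5564956100147) (nat_lit 152) (nat_lit 1811576829115) (nat_lit 0) (nat_lit 5366040680928) (nat_lit 2) (nat_lit 5) (nat_lit 4) (nat_lit 4) (nat_lit 2) (nat_lit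 4) (nat_lit 410) (nat_lit 362) (nat_lit 248)) (XT.nd (nat_lit 78) (nat_lit 76) (nat_lit 0) (XT.lf (nat_lit 0) (nat_lit 7228963820024) (nat_lit 152) (nat_lit 326195070947) (nat_lit 0) (nat_lit 7030048397682) (nat_lit 2) (nat_lit 5) (nat_lit 4) (nat_lit 4) (nat_lit 2) (nat_lit 4) (nat_lit 411) (nat_lit 362) (nat_lit 247)) (XT.lf (nat_lit 0) (nat_lit 1454767249014) (nat_lit 76) (nat_lit 7722792610980) (nat_lit 76) (nat_lit 7523877185923) (nat_lit 1) (nat_lit 4) (nat_lit 2) (nat_lit 5) (nat_lit 2) (nat_lit 4) (nat_lit 412) (nat_lit 362) (nat_lit 246))))))) (XT.nd (nat_lit 49608) (nat_lit 0) (nat_lit 2812) (XT.nd (nat_lit 49296) (nat_lit 0) (nat_lit 4712) (XT.nd (nat_lit 156) (nat_lit 0) (nat_lit 0) (XT.nd (nat_lit 78) (nat_lit 0) (nat_lit 0) (XT.lf (nat_lit 0) (nat_lit 3522627252292) (nat_lit 76) (nat_lit 7905314849131) (nat_lit 76) (nat_lit 7706399421713) (nat_lit 1) (nat_lit 4) (nat_lit 2)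 (nat_lit 5) (nat_lit 2) (nat_lit 4) (nat_lit 413) (nat_lit 362) (nat_lit 245)) (XT.lf (nat_lit 0) (nat_lit 5900666215016) (nat_lit 76) (nat_lit 8115215443998) (nat_lit 76) (nat_lit 7916300014527) (nat_lit 1) (nat_lit 4) (nat_lit 2) (nat_lit 5) (nat_lit 2) (nat_lit 4) (nat_lit 414) (nat_lit 362) (nat_lit 244))) (XT.nd (nat_lit 49062) (nat_lit 0) (nat_lit 5168) (XT.lf (nat_lit 0) (nat_lit 8635410986455) (nat_lit 76) (nat_lit 8356601146352) (nat_lit 76) (nat_lit 8157685715095) (nat_lit 1) (nat_lit 4) (nat_lit 2) (nat_lit 5) (nat_lit 2) (nat_lit 4) (nat_lit 415) (nat_lit 362) (nat_lit 243)) (XT.lf (nat_lit 0) (nat_lit 46352559940) (nat_lit 532) (nat_lit 2118121559) (nat_lit 532) (nat_lit 2118121559) (nat_lit 69) (nat_lit 3) (nat_lit 76) (nat_lit 3) (nat_lit 76) (nat_lit 5) (nat_lit 363) (nat_lit 363) (nat_lit 294)))) (XT.nd (nat_lit 156) (nat_lit 0) (nat_lit 76) (XT.nd (nat_lit 78) (nat_lit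 456) (nat_lit 0) (XT.lf (nat_lit 76) (nat_lit 93395678668) (nat_lit 0) (nat_lit 8519298370) (nat_lit 532) (nat_lit 6670384418) (nat_lit 70) (nat_lit 5) (nat_lit 69) (nat_lit 3) (nat_lit 76) (nat_lit 5) (nat_lit 364) (nat_lit 363) (nat_lit 293)) (XT.lf (nat_lit 0) (nat_lit 307804477) (nat_lit 532) (nat_lit 25598451651) (nat_lit 608) (nat_lit 90832810633) (nat_lit 63) (nat_lit 5) (nat_lit 70) (nat_lit 5) (nat_lit 71) (nat_lit 5) (nat_lit 365) (nat_lit 363) (nat_lit 292))) (XT.nd (nat_lit 78) (nat_lit 0) (nat_lit 76) (XT.lf (nat_lit 0) (nat_lit 12822331471) (nat_lit 532) (nat_lit 35378659230) (nat_lit 608) (nat_lit 77510211988) (nat_lit 64) (nat_lit 5) (nat_lit 71) (nat_lit 5) (nat_lit 72) (nat_lit 5) (nat_lit 366) (nat_lit 363) (nat_lit 291)) (XT.lf (nat_lit 0) (nat_lit 32430507961) (nat_lit 532) (nat_lit 44071269967) (nat_lit 76) (nat_lit 59110064347) (nat_lit 65) (nat_lit 5) (nat_lit 72)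 (nat_lit 5) (nat_lit 66) (nat_lit 5) (nat_lit 367) (nat_lit 363) (nat_lit 290))))) (XT.nd (nat_lit 312) (nat_lit 912) (nat_lit 0) (XT.nd (nat_lit 156) (nat_lit 456) (nat_lit 0) (XT.nd (nat_lit 78) (nat_lit 228) (nat_lit 0) (XT.lf (nat_lit 0) (nat_lit 60559106280) (nat_lit 532) (nat_lit 51324298647) (nat_lit 76) (nat_lit 34667838033) (nat_lit 59) (nat_lit 5) (nat_lit 66) (nat_lit 5) (nat_lit 60) (nat_lit 5) (nat_lit 368) (nat_lit 363) (nat_lit 289)) (XT.lf (nat_lit 0) (nat_lit 98868911253) (nat_lit 304) (nat_lit 56725840102) (nat_lit 76) (nat_lit 3059849724) (nat_lit 56) (nat_lit 5) (nat_lit 60) (nat_lit 5) (nat_lit 57) (nat_lit 5) (nat_lit 369) (nat_lit 363) (nat_lit 288))) (XT.nd (nat_lit 78) (nat_lit 228) (nat_lit 0) (XT.lf (nat_lit 0) (nat_lit 111254829681) (nat_lit 228) (nat_lit 38972434923) (nat_lit 304) (nat_lit 21762032698) (nat_lit 53) (nat_lit 5) (nat_lit 56) (nat_lit 5) (nat_lit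 57) (nat_lit 5) (nat_lit 370) (nat_lit 363) (nat_lit 287)) (XT.lf (nat_lit 0) (nat_lit 28025286959) (nat_lit 228) (nat_lit 62900386429) (nat_lit 76) (nat_lit 95783551945) (nat_lit 50) (nat_lit 5) (nat_lit 53) (nat_lit 5) (nat_lit 51) (nat_lit 5) (nat_lit 371) (nat_lit 363) (nat_lit 286)))) (XT.nd (nat_lit 156) (nat_lit 532) (nat_lit 0) (XT.nd (nat_lit 78) (nat_lit 152) (nat_lit 0) (XT.lf (nat_lit 0) (nat_lit 91557172513) (nat_lit 304) (nat_lit 62746851766) (nat_lit 76) (nat_lit 48682697050) (nat_lit 47) (nat_lit 5) (nat_lit 51) (nat_lit 5) (nat_lit 48) (nat_lit 5) (nat_lit 372) (nat_lit 363) (nat_lit 285)) (XT.lf (nat_lit 0) (nat_lit 161622414589) (nat_lit 152) (nat_lit 11276257680) (nat_lit 228) (nat_lit 48144783306) (nat_lit 45) (nat_lit 5) (nat_lit 47) (nat_lit 5) (nat_lit 48) (nat_lit 5) (nat_lit 373) (nat_lit 363) (nat_lit 284))) (XT.nd (nat_lit 78) (nat_lit 304) (nat_lit 0) (XT.lf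 (nat_lit 0) (nat_lit 33727658225) (nat_lit 228) (nat_lit 54430308759) (nat_lit 76) (nat_lit 152777164833) (nat_lit 42) (nat_lit 5) (nat_lit 45) (nat_lit 5) (nat_lit 43) (nat_lit 5) (nat_lit 374) (nat_lit 363) (nat_lit 283)) (XT.nd (nat_lit 78) (nat_lit 152) (nat_lit 0) (XT.lf (nat_lit 0) (nat_lit 134521121325) (nat_lit 228) (nat_lit 46699986146) (nat_lit 76) (nat_lit 81730142070) (nat_lit 40) (nat_lit 5) (nat_lit 43) (nat_lit 5) (nat_lit 41) (nat_lit 5) (nat_lit 375) (nat_lit 363) (nat_lit 282)) (XT.lf (nat_lit 0) (nat_lit 252856736916) (nat_lit 152) (nat_lit 7721523615) (nat_lit 228) (nat_lit 26879952082) (nat_lit 38) (nat_lit 5) (nat_lit 40) (nat_lit 5) (nat_lit 41) (nat_lit 5) (nat_lit 376) (nat_lit 363) (nat_lit 281))))))))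
noncomputable def xc92 : XT := (XT.nd (nat_lit 1248) (nat_lit 836) (nat_lit 0) (XT.nd (nat_lit 624) (nat_lit 760) (nat_lit 0) (XT.nd (nat_lit 312) (nat_lit 456) (nat_lit 0) (XT.nd (nat_lit 156) (nat_lit 380) (nat_lit 0) (XT.nd (nat_lit 78) (nat_lit 152) (nat_lit 0) (XT.lf (nat_lit 0) (nat_lit 98841266015) (nat_lit 152) (nat_lit 22358513402) (nat_lit 76) (nat_lit 193193602621) (nat_lit 36) (nat_lit 5) (nat_lit 38) (nat_lit 5) (nat_lit 37) (nat_lit 5) (nat_lit 377) (nat_lit 363) (nat_lit 280)) (XT.lf (nat_lit 0) (nat_lit 253456105281) (nat_lit 228) (nat_lit 6175905861) (nat_lit 76) (nat_lit 84750798920) (nat_lit 34) (nat_lit 5) (nat_lit 37) (nat_lit 5) (nat_lit 35) (nat_lit 4) (nat_lit 378) (nat_lit 363) (nat_lit 279))) (XT.nd (nat_lit 78) (nat_lit 76) (nat_lit 0) (XT.lf (nat_lit 0) (nat_lit 12850886601) (nat_lit 152) (nat_lit 51016584438) (nat_lit 228) (nat_lit 313774710961) (nat_lit 30)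 (nat_lit 5) (nat_lit 32) (nat_lit 5) (nat_lit 33) (nat_lit 5) (nat_lit 379) (nat_lit 363) (nat_lit 278)) (XT.lf (nat_lit 0) (nat_lit 31598200092) (nat_lit 76) (nat_lit 221024528443) (nat_lit 152) (nat_lit 161788726222) (nat_lit 29) (nat_lit 5) (nat_lit 30) (nat_lit 5) (nat_lit 31) (nat_lit 4) (nat_lit 380) (nat_lit 363) (nat_lit 277)))) (XT.nd (nat_lit 156) (nat_lit 228) (nat_lit 0) (XT.nd (nat_lit 78) (nat_lit 76) (nat_lit 0) (XT.lf (nat_lit 0) (nat_lit 26644855306) (nat_lit 152) (nat_lit 401854130033) (nat_lit 76) (nat_lit 27028148917) (nat_lit 27) (nat_lit 5) (nat_lit 29) (nat_lit 5) (nat_lit 28) (nat_lit 4) (nat_lit 381) (nat_lit 363) (nat_lit 276)) (XT.lf (nat_lit 0) (nat_lit 69494109077) (nat_lit 76) (nat_lit 183760626815) (nat_lit 152) (nat_lit 247659968710) (nat_lit 26) (nat_lit 5) (nat_lit 27) (nat_lit 5) (nat_lit 28) (nat_lit 4) (nat_lit 382) (nat_lit 363) (nat_lit 275))) (XT.nd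 (nat_lit 78) (nat_lit 152) (nat_lit 0) (XT.lf (nat_lit 0) (nat_lit 85319188431) (nat_lit 76) (nat_lit 444941293744) (nat_lit 76) (nat_lit 21537577701) (nat_lit 25) (nat_lit 4) (nat_lit 26) (nat_lit 5) (nat_lit 26) (nat_lit 4) (nat_lit 383) (nat_lit 363) (nat_lit 274)) (XT.lf (nat_lit 0) (nat_lit 89729710652) (nat_lit 76) (nat_lit 156969157372) (nat_lit 152) (nat_lit 361546042655) (nat_lit 23) (nat_lit 5) (nat_lit 24) (nat_lit 5) (nat_lit 25) (nat_lit 4) (nat_lit 384) (nat_lit 363) (nat_lit 273))))) (XT.nd (nat_lit 312) (nat_lit 380) (nat_lit 0) (XT.nd (nat_lit 156) (nat_lit 152) (nat_lit 0) (XT.nd (nat_lit 78) (nat_lit 152) (nat_lit 0) (XT.lf (nat_lit 0) (nat_lit 84641355006) (nat_lit 76) (nat_lit 489448976039) (nat_lit 76) (nat_lit 97408119466) (nat_lit 22) (nat_lit 4) (nat_lit 23) (nat_lit 5) (nat_lit 23) (nat_lit 4) (nat_lit 385) (nat_lit 363) (nat_lit 272)) (XT.lf (nat_lit 0) (nat_lit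 59940390654) (nat_lit 76) (nat_lit 157358359544) (nat_lit 152) (nat_lit 524842592784) (nat_lit 20) (nat_lit 5) (nat_lit 21) (nat_lit 5) (nat_lit 22) (nat_lit 4) (nat_lit 386) (nat_lit 363) (nat_lit 271))) (XT.nd (nat_lit 78) (nat_lit 76) (nat_lit 0) (XT.lf (nat_lit 0) (nat_lit 9203610244) (nat_lit 76) (nat_lit 587555260734) (nat_lit 76) (nat_lit 224554202431) (nat_lit 19) (nat_lit 4) (nat_lit 20) (nat_lit 5) (nat_lit 20) (nat_lit 4) (nat_lit 387) (nat_lit 363) (nat_lit 270)) (XT.lf (nat_lit 0) (nat_lit 139464966390) (nat_lit 152) (nat_lit 72914035461) (nat_lit 76) (nat_lit 697770841779) (nat_lit 18) (nat_lit 5) (nat_lit 20) (nat_lit 5) (nat_lit 19) (nat_lit 4) (nat_lit 388) (nat_lit 363) (nat_lit 269)))) (XT.nd (nat_lit 156) (nat_lit 228) (nat_lit 0) (XT.nd (nat_lit 78) (nat_lit 76) (nat_lit 0) (XT.lf (nat_lit 0) (nat_lit 570623394408) (nat_lit 152) (nat_lit 204644411258) (nat_lit 0) (nat_lit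 234511117726) (nat_lit 17) (nat_lit 5) (nat_lit 19) (nat_lit 4) (nat_lit 17) (nat_lit 4) (nat_lit 389) (nat_lit 363) (nat_lit 268)) (XT.lf (nat_lit 0) (nat_lit 725485517951) (nat_lit 76) (nat_lit 366469617526) (nat_lit 76) (nat_lit 30357265754) (nat_lit 16) (nat_lit 4) (nat_lit 17) (nat_lit 5) (nat_lit 17) (nat_lit 4) (nat_lit 390) (nat_lit 363) (nat_lit 267))) (XT.nd (nat_lit 78) (nat_lit 76) (nat_lit 0) (XT.lf (nat_lit 0) (nat_lit 440970937183) (nat_lit 152) (nat_lit 678296421813) (nat_lit 0) (nat_lit 129755736194) (nat_lit 14) (nat_lit 5) (nat_lit 16) (nat_lit 4) (nat_lit 14) (nat_lit 4) (nat_lit 391) (nat_lit 363) (nat_lit 266)) (XT.lf (nat_lit 0) (nat_lit 318273351447) (nat_lit 76) (nat_lit 692621835460) (nat_lit 76) (nat_lit 381406581898) (nat_lit 13) (nat_lit 4) (nat_lit 14) (nat_lit 5) (nat_lit 14) (nat_lit 4) (nat_lit 392) (nat_lit 363) (nat_lit 265)))))) (XT.nd (nat_lit 624) (nat_lit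 304) (nat_lit 0) (XT.nd (nat_lit 312) (nat_lit 228) (nat_lit 0) (XT.nd (nat_lit 156) (nat_lit 152) (nat_lit 0) (XT.nd (nat_lit 78) (nat_lit 76) (nat_lit 0) (XT.lf (nat_lit 0) (nat_lit 124032029408) (nat_lit 152) (nat_lit 53228678108) (nat_lit 76) (nat_lit 1377980516615) (nat_lit 12) (nat_lit 5) (nat_lit 14) (nat_lit 5) (nat_lit 13) (nat_lit 4) (nat_lit 393) (nat_lit 363) (nat_lit 264)) (XT.lf (nat_lit 0) (nat_lit 722444180389) (nat_lit 152) (nat_lit 581923752877) (nat_lit 0) (nat_lit 434281829435) (nat_lit 11) (nat_lit 5) (nat_lit 13) (nat_lit 4) (nat_lit 11) (nat_lit 4) (nat_lit 394) (nat_lit 363) (nat_lit 263))) (XT.nd (nat_lit 78) (nat_lit 76) (nat_lit 0) (XT.lf (nat_lit 0) (nat_lit 628445924825) (nat_lit 76) (nat_lit 803778758913) (nat_lit 76) (nat_lit 515616375951) (nat_lit 10) (nat_lit 4) (nat_lit 11) (nat_lit 5) (nat_lit 11) (nat_lit 4) (nat_lit 395) (nat_lit 363) (nat_lit 262)) (XT.lf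 (nat_lit 0) (nat_lit 74438703437) (nat_lit 152) (nat_lit 133329907644) (nat_lit 76) (nat_lit 1979136322495) (nat_lit 9) (nat_lit 5) (nat_lit 11) (nat_lit 5) (nat_lit 10) (nat_lit 4) (nat_lit 396) (nat_lit 363) (nat_lit 261)))) (XT.nd (nat_lit 156) (nat_lit 76) (nat_lit 0) (XT.nd (nat_lit 78) (nat_lit 76) (nat_lit 0) (XT.lf (nat_lit 0) (nat_lit 766791845397) (nat_lit 152) (nat_lit 1190444753027) (nat_lit 0) (nat_lit 499974775956) (nat_lit 8) (nat_lit 5) (nat_lit 10) (nat_lit 4) (nat_lit 8) (nat_lit 4) (nat_lit 397) (nat_lit 363) (nat_lit 260)) (XT.lf (nat_lit 0) (nat_lit 117214567054) (nat_lit 76) (nat_lit 1458331237746) (nat_lit 76) (nat_lit 1191514148819) (nat_lit 7) (nat_lit 4) (nat_lit 8) (nat_lit 5) (nat_lit 8) (nat_lit 4) (nat_lit 398) (nat_lit 363) (nat_lit 259))) (XT.nd (nat_lit 78) (nat_lit 76) (nat_lit 0) (XT.lf (nat_lit 0) (nat_lit 1693112290080) (nat_lit 76) (nat_lit 847158981241)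 (nat_lit 76) (nat_lit 580341875370) (nat_lit 7) (nat_lit 4) (nat_lit 8) (nat_lit 5) (nat_lit 8) (nat_lit 4) (nat_lit 399) (nat_lit 363) (nat_lit 258)) (XT.lf (nat_lit 0) (nat_lit 116377887256) (nat_lit 152) (nat_lit 24751115111) (nat_lit 76) (nat_lit 3385834621609) (nat_lit 6) (nat_lit 5) (nat_lit 8) (nat_lit 5) (nat_lit 7) (nat_lit 4) (nat_lit 400) (nat_lit 363) (nat_lit 257))))) (XT.nd (nat_lit 312) (nat_lit 152) (nat_lit 0) (XT.nd (nat_lit 156) (nat_lit 76) (nat_lit 0) (XT.nd (nat_lit 78) (nat_lit 0) (nat_lit 0) (XT.lf (nat_lit 0) (nat_lit 941610136533) (nat_lit 152) (nat_lit 2352224016915) (nat_lit 0) (nat_lit 694557235220) (nat_lit 5) (nat_lit 5) (nat_lit 7) (nat_lit 4) (nat_lit 5) (nat_lit 4) (nat_lit 401) (nat_lit 363) (nat_lit 256)) (XT.lf (nat_lit 0) (nat_lit 1895269745247) (nat_lit 152) (nat_lit 975175337436) (nat_lit 0) (nat_lit 1648216833618) (nat_lit 5) (nat_lit 5) (nat_lit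 7) (nat_lit 4) (nat_lit 5) (nat_lit 4) (nat_lit 402) (nat_lit 363) (nat_lit 255))) (XT.nd (nat_lit 78) (nat_lit 0) (nat_lit 0) (XT.lf (nat_lit 0) (nat_lit 640469381287) (nat_lit 76) (nat_lit 2366912151689) (nat_lit 76) (nat_lit 2119859231090) (nat_lit 4) (nat_lit 4) (nat_lit 5) (nat_lit 5) (nat_lit 5) (nat_lit 4) (nat_lit 403) (nat_lit 363) (nat_lit 254)) (XT.lf (nat_lit 0) (nat_lit 2557514340081) (nat_lit 76) (nat_lit 1757186868855) (nat_lit 76) (nat_lit 1510133940455) (nat_lit 4) (nat_lit 4) (nat_lit 5) (nat_lit 5) (nat_lit 5) (nat_lit 4) (nat_lit 404) (nat_lit 363) (nat_lit 253)))) (XT.nd (nat_lit 156) (nat_lit 152) (nat_lit 0) (XT.nd (nat_lit 78) (nat_lit 0) (nat_lit 0) (XT.lf (nat_lit 0) (nat_lit 4762115935203) (nat_lit 76) (nat_lit 1056002848358) (nat_lit 76) (nat_lit 808949913175) (nat_lit 4) (nat_lit 4) (nat_lit 5) (nat_lit 5) (nat_lit 5) (nat_lit 4) (nat_lit 405) (nat_lit 363) (nat_lit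 252)) (XT.lf (nat_lit 0) (nat_lit 7297407676123) (nat_lit 76) (nat_lit 249641272405) (nat_lit 76) (nat_lit 2588331324) (nat_lit 4) (nat_lit 4) (nat_lit 5) (nat_lit 5) (nat_lit 5) (nat_lit 4) (nat_lit 406) (nat_lit 363) (nat_lit 251))) (XT.nd (nat_lit 78) (nat_lit 0) (nat_lit 0) (XT.lf (nat_lit 0) (nat_lit 936387750471) (nat_lit 152) (nat_lit 6960155689859) (nat_lit 0) (nat_lit 707635022498) (nat_lit 2) (nat_lit 5) (nat_lit 4) (nat_lit 4) (nat_lit 2) (nat_lit 4) (nat_lit 407) (nat_lit 363) (nat_lit 250)) (XT.nd (nat_lit 78) (nat_lit 0) (nat_lit 0) (XT.lf (nat_lit 0) (nat_lit 2030499896969) (nat_lit 152) (nat_lit 5983492950224) (nat_lit 0) (nat_lit 1801747164867) (nat_lit 2) (nat_lit 5) (nat_lit 4) (nat_lit 4) (nat_lit 2) (nat_lit 4) (nat_lit 408) (nat_lit 363) (nat_lit 249)) (XT.lf (nat_lit 0) (nat_lit 3288728832097) (nat_lit 152) (nat_lit 4860330867843) (nat_lit 0) (nat_lit 3059976096404)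 (nat_lit 2) (nat_lit 5) (nat_lit 4) (nat_lit 4) (nat_lit 2) (nat_lit 4) (nat_lit 409) (nat_lit 363) (nat_lit 248))))))))
noncomputable def xc93 : XT := (XT.nd (nat_lit 50310) (nat_lit 0) (nat_lit 1216) (XT.nd (nat_lit 49686) (nat_lit 0) (nat_lit 3496) (XT.nd (nat_lit 312) (nat_lit 0) (nat_lit 0) (XT.nd (nat_lit 156) (nat_lit 76) (nat_lit 0) (XT.nd (nat_lit 78) (nat_lit 0) (nat_lit 0) (XT.lf (nat_lit 0) (nat_lit 4735692078499) (nat_lit 152) (nat_lit 3568694532408) (nat_lit 0) (nat_lit 4506939339684) (nat_lit 2) (nat_lit 5) (nat_lit 4) (nat_lit 4) (nat_lit 2) (nat_lit 4) (nat_lit 410) (nat_lit 363) (nat_lit 247)) (XT.lf (nat_lit 0) (nat_lit 6399699786649) (nat_lit 152) (nat_lit 2083312798225) (nat_lit 0) (nat_lit 6170947045118) (nat_lit 2) (nat_lit 5) (nat_lit 4) (nat_lit 4) (nat_lit 2) (nat_lit 4) (nat_lit 411) (nat_lit 363) (nat_lit 246))) (XT.nd (nat_lit 78) (nat_lit 76) (nat_lit 0) (XT.lf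 (nat_lit 0) (nat_lit 8313308629097) (nat_lit 152) (nat_lit 375123848758) (nat_lit 0) (nat_lit 8084555885205) (nat_lit 2) (nat_lit 5) (nat_lit 4) (nat_lit 4) (nat_lit 2) (nat_lit 4) (nat_lit 412) (nat_lit 363) (nat_lit 245)) (XT.lf (nat_lit 0) (nat_lit 1672982778329) (nat_lit 76) (nat_lit 8881211276572) (nat_lit 76) (nat_lit 8652458530627) (nat_lit 1) (nat_lit 4) (nat_lit 2) (nat_lit 5) (nat_lit 2) (nat_lit 4) (nat_lit 413) (nat_lit 363) (nat_lit 244)))) (XT.nd (nat_lit 49218) (nat_lit 0) (nat_lit 5168) (XT.nd (nat_lit 78) (nat_lit 0) (nat_lit 0) (XT.lf (nat_lit 0) (nat_lit 4051021724451) (nat_lit 76) (nat_lit 9091111879930) (nat_lit 76) (nat_lit 8862359132200) (nat_lit 1) (nat_lit 4) (nat_lit 2) (nat_lit 5) (nat_lit 2) (nat_lit 4) (nat_lit 414) (nat_lit 363) (nat_lit 243)) (XT.lf (nat_lit 0) (nat_lit 6785766481455) (nat_lit 76) (nat_lit 9332497589668) (nat_lit 76) (nat_lit 9103744840385)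 (nat_lit 1) (nat_lit 4) (nat_lit 2) (nat_lit 5) (nat_lit 2) (nat_lit 4) (nat_lit 415) (nat_lit 363) (nat_lit 242))) (XT.nd (nat_lit 78) (nat_lit 0) (nat_lit 0) (XT.lf (nat_lit 0) (nat_lit 53315801373) (nat_lit 532) (nat_lit 2430243290) (nat_lit 532) (nat_lit 2430243290) (nat_lit 69) (nat_lit 3) (nat_lit 76) (nat_lit 3) (nat_lit 76) (nat_lit 5) (nat_lit 364) (nat_lit 364) (nat_lit 292)) (XT.lf (nat_lit 76) (nat_lit 107415276041) (nat_lit 0) (nat_lit 9805206901) (nat_lit 532) (nat_lit 7651209866) (nat_lit 70) (nat_lit 5) (nat_lit 69) (nat_lit 3) (nat_lit 76) (nat_lit 5) (nat_lit 365) (nat_lit 364) (nat_lit 291))))) (XT.nd (nat_lit 312) (nat_lit 912) (nat_lit 0) (XT.nd (nat_lit 156) (nat_lit 304) (nat_lit 0) (XT.nd (nat_lit 78) (nat_lit 0) (nat_lit 76) (XT.lf (nat_lit 0) (nat_lit 370372343) (nat_lit 532) (nat_lit 29426443244) (nat_lit 608) (nat_lit 104451789655) (nat_lit 63) (nat_lit 5) (nat_lit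 70) (nat_lit 5) (nat_lit 71) (nat_lit 5) (nat_lit 366) (nat_lit 364) (nat_lit 290)) (XT.lf (nat_lit 0) (nat_lit 14760108959) (nat_lit 532) (nat_lit 40673418948) (nat_lit 608) (nat_lit 89133192479) (nat_lit 64) (nat_lit 5) (nat_lit 71) (nat_lit 5) (nat_lit 72) (nat_lit 5) (nat_lit 367) (nat_lit 364) (nat_lit 289))) (XT.nd (nat_lit 78) (nat_lit 456) (nat_lit 0) (XT.lf (nat_lit 0) (nat_lit 37307852005) (nat_lit 532) (nat_lit 50669865031) (nat_lit 76) (nat_lit 67974872775) (nat_lit 65) (nat_lit 5) (nat_lit 72) (nat_lit 5) (nat_lit 66) (nat_lit 5) (nat_lit 368) (nat_lit 364) (nat_lit 288)) (XT.lf (nat_lit 0) (nat_lit 69654333826) (nat_lit 532) (nat_lit 59010948770) (nat_lit 76) (nat_lit 39867731464) (nat_lit 59) (nat_lit 5) (nat_lit 66) (nat_lit 5) (nat_lit 60) (nat_lit 5) (nat_lit 369) (nat_lit 364) (nat_lit 287)))) (XT.nd (nat_lit 156) (nat_lit 456) (nat_lit 0) (XT.nd (nat_lit 78) (nat_lit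 228) (nat_lit 0) (XT.lf (nat_lit 0) (nat_lit 113709411750) (nat_lit 304) (nat_lit 65222939755) (nat_lit 76) (nat_lit 3519621054) (nat_lit 56) (nat_lit 5) (nat_lit 60) (nat_lit 5) (nat_lit 57) (nat_lit 5) (nat_lit 370) (nat_lit 364) (nat_lit 286)) (XT.lf (nat_lit 0) (nat_lit 127953833686) (nat_lit 228) (nat_lit 44816617952) (nat_lit 304) (nat_lit 25016507622) (nat_lit 53) (nat_lit 5) (nat_lit 56) (nat_lit 5) (nat_lit 57) (nat_lit 5) (nat_lit 371) (nat_lit 364) (nat_lit 285))) (XT.nd (nat_lit 78) (nat_lit 228) (nat_lit 0) (XT.lf (nat_lit 0) (nat_lit 32237495413) (nat_lit 228) (nat_lit 72324496639) (nat_lit 76) (nat_lit 110152939944) (nat_lit 50) (nat_lit 5) (nat_lit 53) (nat_lit 5) (nat_lit 51) (nat_lit 5) (nat_lit 372) (nat_lit 364) (nat_lit 284)) (XT.lf (nat_lit 0) (nat_lit 105298366364) (nat_lit 304) (nat_lit 72148309571) (nat_lit 76) (nat_lit 55987440759) (nat_lit 47) (nat_lit 5) (nat_lit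 51) (nat_lit 5) (nat_lit 48) (nat_lit 5) (nat_lit 373) (nat_lit 364) (nat_lit 283)))))) (XT.nd (nat_lit 624) (nat_lit 912) (nat_lit 0) (XT.nd (nat_lit 312) (nat_lit 684) (nat_lit 0) (XT.nd (nat_lit 156) (nat_lit 304) (nat_lit 0) (XT.nd (nat_lit 78) (nat_lit 228) (nat_lit 0) (XT.lf (nat_lit 0) (nat_lit 185875452043) (nat_lit 152) (nat_lit 12964878082) (nat_lit 228) (nat_lit 55359092272) (nat_lit 45) (nat_lit 5) (nat_lit 47) (nat_lit 5) (nat_lit 48) (nat_lit 5) (nat_lit 374) (nat_lit 364) (nat_lit 282)) (XT.lf (nat_lit 0) (nat_lit 38793216815) (nat_lit 228) (nat_lit 62585216072) (nat_lit 76) (nat_lit 175696453537) (nat_lit 42) (nat_lit 5) (nat_lit 45) (nat_lit 5) (nat_lit 43) (nat_lit 5) (nat_lit 375) (nat_lit 364) (nat_lit 281))) (XT.nd (nat_lit 78) (nat_lit 152) (nat_lit 0) (XT.lf (nat_lit 0) (nat_lit 154705148551) (nat_lit 228) (nat_lit 53695769057) (nat_lit 76) (nat_lit 93992548575) (nat_lit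 40) (nat_lit 5) (nat_lit 43) (nat_lit 5) (nat_lit 41) (nat_lit 5) (nat_lit 376) (nat_lit 364) (nat_lit 280)) (XT.lf (nat_lit 0) (nat_lit 290793682460) (nat_lit 152) (nat_lit 8876614819) (nat_lit 228) (nat_lit 30906221614) (nat_lit 38) (nat_lit 5) (nat_lit 40) (nat_lit 5) (nat_lit 41) (nat_lit 5) (nat_lit 377) (nat_lit 364) (nat_lit 279)))) (XT.nd (nat_lit 156) (nat_lit 380) (nat_lit 0) (XT.nd (nat_lit 78) (nat_lit 152) (nat_lit 0) (XT.lf (nat_lit 0) (nat_lit 113672449463) (nat_lit 152) (nat_lit 25703984468) (nat_lit 76) (nat_lit 222175554482) (nat_lit 36) (nat_lit 5) (nat_lit 38) (nat_lit 5) (nat_lit 37) (nat_lit 5) (nat_lit 378) (nat_lit 364) (nat_lit 278)) (XT.lf (nat_lit 0) (nat_lit 291479120157) (nat_lit 228) (nat_lit 7094399611) (nat_lit 76) (nat_lit 97466342616) (nat_lit 34) (nat_lit 5) (nat_lit 37) (nat_lit 5) (nat_lit 35) (nat_lit 4) (nat_lit 379) (nat_lit 364) (nat_lit 277))) (XT.nd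 (nat_lit 78) (nat_lit 76) (nat_lit 0) (XT.lf (nat_lit 0) (nat_lit 14786362542) (nat_lit 152) (nat_lit 58665700147) (nat_lit 228) (nat_lit 360836087917) (nat_lit 30) (nat_lit 5) (nat_lit 32) (nat_lit 5) (nat_lit 33) (nat_lit 5) (nat_lit 380) (nat_lit 364) (nat_lit 276)) (XT.lf (nat_lit 0) (nat_lit 36345363291) (nat_lit 76) (nat_lit 254174911632) (nat_lit 152) (nat_lit 186052566197) (nat_lit 29) (nat_lit 5) (nat_lit 30) (nat_lit 5) (nat_lit 31) (nat_lit 4) (nat_lit 381) (nat_lit 364) (nat_lit 275))))) (XT.nd (nat_lit 312) (nat_lit 456) (nat_lit 0) (XT.nd (nat_lit 156) (nat_lit 228) (nat_lit 0) (XT.nd (nat_lit 78) (nat_lit 76) (nat_lit 0) (XT.lf (nat_lit 0) (nat_lit 30645519570) (nat_lit 152) (nat_lit 462125006365) (nat_lit 76) (nat_lit 31085362873) (nat_lit 27) (nat_lit 5) (nat_lit 29) (nat_lit 5) (nat_lit 28) (nat_lit 4) (nat_lit 382) (nat_lit 364) (nat_lit 274)) (XT.lf (nat_lit 0) (nat_lit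 79924855513) (nat_lit 76) (nat_lit 211321672797) (nat_lit 152) (nat_lit 284805094803) (nat_lit 26) (nat_lit 5) (nat_lit 27) (nat_lit 5) (nat_lit 28) (nat_lit 4) (nat_lit 383) (nat_lit 364) (nat_lit 273))) (XT.nd (nat_lit 78) (nat_lit 152) (nat_lit 0) (XT.lf (nat_lit 0) (nat_lit 98123331338) (nat_lit 76) (nat_lit 511679552384) (nat_lit 76) (nat_lit 24764618262) (nat_lit 25) (nat_lit 4) (nat_lit 26) (nat_lit 5) (nat_lit 26) (nat_lit 4) (nat_lit 384) (nat_lit 364) (nat_lit 272)) (XT.lf (nat_lit 0) (nat_lit 103195066741) (nat_lit 76) (nat_lit 180511743982) (nat_lit 152) (nat_lit 415774587127) (nat_lit 23) (nat_lit 5) (nat_lit 24) (nat_lit 5) (nat_lit 25) (nat_lit 4) (nat_lit 385) (nat_lit 364) (nat_lit 271)))) (XT.nd (nat_lit 156) (nat_lit 228) (nat_lit 0) (XT.nd (nat_lit 78) (nat_lit 152) (nat_lit 0) (XT.lf (nat_lit 0) (nat_lit 97343125350) (nat_lit 76) (nat_lit 562863654042) (nat_lit 76) (nat_lit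 112016206424) (nat_lit 22) (nat_lit 4) (nat_lit 23) (nat_lit 5) (nat_lit 23) (nat_lit 4) (nat_lit 386) (nat_lit 364) (nat_lit 270)) (XT.lf (nat_lit 0) (nat_lit 68936688803) (nat_lit 76) (nat_lit 180959586318) (nat_lit 152) (nat_lit 603566052016) (nat_lit 20) (nat_lit 5) (nat_lit 21) (nat_lit 5) (nat_lit 22) (nat_lit 4) (nat_lit 387) (nat_lit 364) (nat_lit 269))) (XT.nd (nat_lit 78) (nat_lit 152) (nat_lit 0) (XT.lf (nat_lit 0) (nat_lit 10589091097) (nat_lit 76) (nat_lit 675686140771) (nat_lit 76) (nat_lit 258234599870) (nat_lit 19) (nat_lit 4) (nat_lit 20) (nat_lit 5) (nat_lit 20) (nat_lit 4) (nat_lit 388) (nat_lit 364) (nat_lit 268)) (XT.nd (nat_lit 78) (nat_lit 76) (nat_lit 0) (XT.lf (nat_lit 0) (nat_lit 160386968926) (nat_lit 152) (nat_lit 83846726631) (nat_lit 76) (nat_lit 802438443800) (nat_lit 18) (nat_lit 5) (nat_lit 20) (nat_lit 5) (nat_lit 19) (nat_lit 4) (nat_lit 389) (nat_lit 364)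 (nat_lit 267)) (XT.lf (nat_lit 0) (nat_lit 656219011479) (nat_lit 152) (nat_lit 235336915051) (nat_lit 0) (nat_lit 269689666555) (nat_lit 17) (nat_lit 5) (nat_lit 19) (nat_lit 4) (nat_lit 17) (nat_lit 4) (nat_lit 390) (nat_lit 364) (nat_lit 266))))))))
noncomputable def xc94 : XT := (XT.nd (nat_lit 1248) (nat_lit 228) (nat_lit 0) (XT.nd (nat_lit 624) (nat_lit 304) (nat_lit 0) (XT.nd (nat_lit 312) (nat_lit 304) (nat_lit 0) (XT.nd (nat_lit 156) (nat_lit 152) (nat_lit 0) (XT.nd (nat_lit 78) (nat_lit 152) (nat_lit 0) (XT.lf (nat_lit 0) (nat_lit 834312151595) (nat_lit 76) (nat_lit 421438178702) (nat_lit 76) (nat_lit 34908776999) (nat_lit 16) (nat_lit 4) (nat_lit 17) (nat_lit 5) (nat_lit 17) (nat_lit 4) (nat_lit 391) (nat_lit 364) (nat_lit 265)) (XT.lf (nat_lit 0) (nat_lit 507118423626) (nat_lit 152) (nat_lit 780037204304) (nat_lit 0) (nat_lit 149220783741) (nat_lit 14) (nat_lit 5) (nat_lit 16)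 (nat_lit 4) (nat_lit 14) (nat_lit 4) (nat_lit 392) (nat_lit 364) (nat_lit 264))) (XT.nd (nat_lit 78) (nat_lit 76) (nat_lit 0) (XT.lf (nat_lit 0) (nat_lit 366017723386) (nat_lit 76) (nat_lit 796513427688) (nat_lit 76) (nat_lit 438615748050) (nat_lit 13) (nat_lit 4) (nat_lit 14) (nat_lit 5) (nat_lit 14) (nat_lit 4) (nat_lit 393) (nat_lit 364) (nat_lit 263)) (XT.lf (nat_lit 0) (nat_lit 142638338195) (nat_lit 152) (nat_lit 61209970759) (nat_lit 76) (nat_lit 1584678978357) (nat_lit 12) (nat_lit 5) (nat_lit 14) (nat_lit 5) (nat_lit 13) (nat_lit 4) (nat_lit 394) (nat_lit 364) (nat_lit 262)))) (XT.nd (nat_lit 156) (nat_lit 152) (nat_lit 0) (XT.nd (nat_lit 78) (nat_lit 76) (nat_lit 0) (XT.lf (nat_lit 0) (nat_lit 830812215031) (nat_lit 152) (nat_lit 669209484604) (nat_lit 0) (nat_lit 499425414786) (nat_lit 11) (nat_lit 5) (nat_lit 13) (nat_lit 4) (nat_lit 11) (nat_lit 4) (nat_lit 395) (nat_lit 364)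 (nat_lit 261)) (XT.lf (nat_lit 0) (nat_lit 722715405106) (nat_lit 76) (nat_lit 924344267505) (nat_lit 76) (nat_lit 592957443058) (nat_lit 10) (nat_lit 4) (nat_lit 11) (nat_lit 5) (nat_lit 11) (nat_lit 4) (nat_lit 396) (nat_lit 364) (nat_lit 260))) (XT.nd (nat_lit 78) (nat_lit 76) (nat_lit 0) (XT.lf (nat_lit 0) (nat_lit 85605656594) (nat_lit 152) (nat_lit 153327079775) (nat_lit 76) (nat_lit 2276007845377) (nat_lit 9) (nat_lit 5) (nat_lit 11) (nat_lit 5) (nat_lit 10) (nat_lit 4) (nat_lit 397) (nat_lit 364) (nat_lit 259)) (XT.lf (nat_lit 0) (nat_lit 881811696813) (nat_lit 152) (nat_lit 1369009289591) (nat_lit 0) (nat_lit 574972008116) (nat_lit 8) (nat_lit 5) (nat_lit 10) (nat_lit 4) (nat_lit 8) (nat_lit 4) (nat_lit 398) (nat_lit 364) (nat_lit 258))))) (XT.nd (nat_lit 312) (nat_lit 76) (nat_lit 0) (XT.nd (nat_lit 156) (nat_lit 152) (nat_lit 0) (XT.nd (nat_lit 78) (nat_lit 0) (nat_lit 0) (XT.lf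 (nat_lit 0) (nat_lit 134798744281) (nat_lit 76) (nat_lit 1677079913591) (nat_lit 76) (nat_lit 1370240210160) (nat_lit 7) (nat_lit 4) (nat_lit 8) (nat_lit 5) (nat_lit 8) (nat_lit 4) (nat_lit 399) (nat_lit 364) (nat_lit 257)) (XT.lf (nat_lit 0) (nat_lit 1947080865913) (nat_lit 76) (nat_lit 974231950326) (nat_lit 76) (nat_lit 667392234082) (nat_lit 7) (nat_lit 4) (nat_lit 8) (nat_lit 5) (nat_lit 8) (nat_lit 4) (nat_lit 400) (nat_lit 364) (nat_lit 256))) (XT.nd (nat_lit 78) (nat_lit 76) (nat_lit 0) (XT.lf (nat_lit 0) (nat_lit 133835332467) (nat_lit 152) (nat_lit 28462235851) (nat_lit 76) (nat_lit 3893710538256) (nat_lit 6) (nat_lit 5) (nat_lit 8) (nat_lit 5) (nat_lit 7) (nat_lit 4) (nat_lit 401) (nat_lit 364) (nat_lit 255)) (XT.lf (nat_lit 0) (nat_lit 1082852371063) (nat_lit 152) (nat_lit 2705056165353) (nat_lit 0) (nat_lit 798741503402) (nat_lit 5) (nat_lit 5) (nat_lit 7) (nat_lit 4) (nat_lit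 5) (nat_lit 4) (nat_lit 402) (nat_lit 364) (nat_lit 254)))) (XT.nd (nat_lit 156) (nat_lit 0) (nat_lit 0) (XT.nd (nat_lit 78) (nat_lit 76) (nat_lit 0) (XT.lf (nat_lit 0) (nat_lit 2179560827947) (nat_lit 152) (nat_lit 1121450373617) (nat_lit 0) (nat_lit 1895449952487) (nat_lit 5) (nat_lit 5) (nat_lit 7) (nat_lit 4) (nat_lit 5) (nat_lit 4) (nat_lit 403) (nat_lit 364) (nat_lit 253)) (XT.lf (nat_lit 0) (nat_lit 736540945886) (nat_lit 76) (nat_lit 2721948384797) (nat_lit 76) (nat_lit 2437837502553) (nat_lit 4) (nat_lit 4) (nat_lit 5) (nat_lit 5) (nat_lit 5) (nat_lit 4) (nat_lit 404) (nat_lit 364) (nat_lit 252))) (XT.nd (nat_lit 78) (nat_lit 0) (nat_lit 0) (XT.lf (nat_lit 0) (nat_lit 2941142497533) (nat_lit 76) (nat_lit 2020764386448) (nat_lit 76) (nat_lit 1736653498306) (nat_lit 4) (nat_lit 4) (nat_lit 5) (nat_lit 5) (nat_lit 5) (nat_lit 4) (nat_lit 405) (nat_lit 364) (nat_lit 251)) (XT.lf (nat_lit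 0) (nat_lit 5476434200649) (nat_lit 76) (nat_lit 1214402829755) (nat_lit 76) (nat_lit 930291936484) (nat_lit 4) (nat_lit 4) (nat_lit 5) (nat_lit 5) (nat_lit 5) (nat_lit 4) (nat_lit 406) (nat_lit 364) (nat_lit 250)))))) (XT.nd (nat_lit 49842) (nat_lit 0) (nat_lit 3724) (XT.nd (nat_lit 312) (nat_lit 76) (nat_lit 0) (XT.nd (nat_lit 156) (nat_lit 0) (nat_lit 0) (XT.nd (nat_lit 78) (nat_lit 152) (nat_lit 0) (XT.lf (nat_lit 0) (nat_lit 8392019588554) (nat_lit 76) (nat_lit 287087075564) (nat_lit 76) (nat_lit 2976177833) (nat_lit 4) (nat_lit 4) (nat_lit 5) (nat_lit 5) (nat_lit 5) (nat_lit 4) (nat_lit 407) (nat_lit 364) (nat_lit 249)) (XT.lf (nat_lit 0) (nat_lit 1076846272074) (nat_lit 152) (nat_lit 8004178309011) (nat_lit 0) (nat_lit 813780622436) (nat_lit 2) (nat_lit 5) (nat_lit 4) (nat_lit 4) (nat_lit 2) (nat_lit 4) (nat_lit 408) (nat_lit 364) (nat_lit 248))) (XT.nd (nat_lit 78) (nat_lit 0) (nat_lit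 0) (XT.lf (nat_lit 0) (nat_lit 2335075193716) (nat_lit 152) (nat_lit 6881016254212) (nat_lit 0) (nat_lit 2072009540955) (nat_lit 2) (nat_lit 5) (nat_lit 4) (nat_lit 4) (nat_lit 2) (nat_lit 4) (nat_lit 409) (nat_lit 364) (nat_lit 247)) (XT.lf (nat_lit 0) (nat_lit 3782038428391) (nat_lit 152) (nat_lit 5589379942763) (nat_lit 0) (nat_lit 3518972772915) (nat_lit 2) (nat_lit 5) (nat_lit 4) (nat_lit 4) (nat_lit 2) (nat_lit 4) (nat_lit 410) (nat_lit 364) (nat_lit 246)))) (XT.nd (nat_lit 156) (nat_lit 76) (nat_lit 0) (XT.nd (nat_lit 78) (nat_lit 0) (nat_lit 0) (XT.lf (nat_lit 0) (nat_lit 5446046126343) (nat_lit 152) (nat_lit 4103998229437) (nat_lit 0) (nat_lit 5182980468506) (nat_lit 2) (nat_lit 5) (nat_lit 4) (nat_lit 4) (nat_lit 2) (nat_lit 4) (nat_lit 411) (nat_lit 364) (nat_lit 245)) (XT.lf (nat_lit 0) (nat_lit 7359654959924) (nat_lit 152) (nat_lit 2395809298105) (nat_lit 0) (nat_lit 7096589300034)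 (nat_lit 2) (nat_lit 5) (nat_lit 4) (nat_lit 4) (nat_lit 2) (nat_lit 4) (nat_lit 412) (nat_lit 364) (nat_lit 244))) (XT.nd (nat_lit 78) (nat_lit 76) (nat_lit 0) (XT.lf (nat_lit 0) (nat_lit 9560305101964) (nat_lit 152) (nat_lit 431392060981) (nat_lit 0) (nat_lit 9297239440288) (nat_lit 2) (nat_lit 5) (nat_lit 4) (nat_lit 4) (nat_lit 2) (nat_lit 4) (nat_lit 413) (nat_lit 364) (nat_lit 243)) (XT.lf (nat_lit 0) (nat_lit 1923930529265) (nat_lit 76) (nat_lit 10213392797127) (nat_lit 76) (nat_lit 9950327133899) (nat_lit 1) (nat_lit 4) (nat_lit 2) (nat_lit 5) (nat_lit 2) (nat_lit 4) (nat_lit 414) (nat_lit 364) (nat_lit 242))))) (XT.nd (nat_lit 312) (nat_lit 988) (nat_lit 0) (XT.nd (nat_lit 156) (nat_lit 456) (nat_lit 0) (XT.nd (nat_lit 78) (nat_lit 0) (nat_lit 0) (XT.lf (nat_lit 0) (nat_lit 61321003294) (nat_lit 532) (nat_lit 2790548024) (nat_lit 532) (nat_lit 2790548024) (nat_lit 69) (nat_lit 3)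 (nat_lit 76) (nat_lit 3) (nat_lit 76) (nat_lit 5) (nat_lit 365) (nat_lit 365) (nat_lit 290)) (XT.lf (nat_lit 76) (nat_lit 123535314573) (nat_lit 0) (nat_lit 11282047502) (nat_lit 532) (nat_lit 8783970956) (nat_lit 70) (nat_lit 5) (nat_lit 69) (nat_lit 3) (nat_lit 76) (nat_lit 5) (nat_lit 366) (nat_lit 365) (nat_lit 289))) (XT.nd (nat_lit 78) (nat_lit 0) (nat_lit 76) (XT.lf (nat_lit 0) (nat_lit 438326830) (nat_lit 532) (nat_lit 33831505266) (nat_lit 608) (nat_lit 120115064664) (nat_lit 63) (nat_lit 5) (nat_lit 70) (nat_lit 5) (nat_lit 71) (nat_lit 5) (nat_lit 367) (nat_lit 365) (nat_lit 288)) (XT.lf (nat_lit 0) (nat_lit 16985034768) (nat_lit 532) (nat_lit 46765328451) (nat_lit 608) (nat_lit 102500486052) (nat_lit 64) (nat_lit 5) (nat_lit 71) (nat_lit 5) (nat_lit 72) (nat_lit 5) (nat_lit 368) (nat_lit 365) (nat_lit 287)))) (XT.nd (nat_lit 156) (nat_lit 684) (nat_lit 0) (XT.nd (nat_lit 78)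 (nat_lit 456) (nat_lit 0) (XT.lf (nat_lit 0) (nat_lit 42913684134) (nat_lit 532) (nat_lit 58261198903) (nat_lit 76) (nat_lit 78169817321) (nat_lit 65) (nat_lit 5) (nat_lit 72) (nat_lit 5) (nat_lit 66) (nat_lit 5) (nat_lit 369) (nat_lit 365) (nat_lit 286)) (XT.lf (nat_lit 0) (nat_lit 80111074905) (nat_lit 532) (nat_lit 67853521388) (nat_lit 76) (nat_lit 45847677745) (nat_lit 59) (nat_lit 5) (nat_lit 66) (nat_lit 5) (nat_lit 60) (nat_lit 5) (nat_lit 370) (nat_lit 365) (nat_lit 285))) (XT.nd (nat_lit 78) (nat_lit 456) (nat_lit 0) (XT.lf (nat_lit 0) (nat_lit 130773508812) (nat_lit 304) (nat_lit 74997476096) (nat_lit 76) (nat_lit 4048164492) (nat_lit 56) (nat_lit 5) (nat_lit 60) (nat_lit 5) (nat_lit 57) (nat_lit 5) (nat_lit 371) (nat_lit 365) (nat_lit 284)) (XT.nd (nat_lit 78) (nat_lit 228) (nat_lit 0) (XT.lf (nat_lit 0) (nat_lit 147155059629) (nat_lit 228) (nat_lit 51537838653) (nat_lit 304)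 (nat_lit 28761550887) (nat_lit 53) (nat_lit 5) (nat_lit 56) (nat_lit 5) (nat_lit 57) (nat_lit 5) (nat_lit 372) (nat_lit 365) (nat_lit 283)) (XT.lf (nat_lit 0) (nat_lit 37079482983) (nat_lit 228) (nat_lit 83164893060) (nat_lit 76) (nat_lit 126677283738) (nat_lit 50) (nat_lit 5) (nat_lit 53) (nat_lit 5) (nat_lit 51) (nat_lit 5) (nat_lit 373) (nat_lit 365) (nat_lit 282))))))))
noncomputable def xc95 : XT := (XT.nd (nat_lit 1326) (nat_lit 1064) (nat_lit 0) (XT.nd (nat_lit 624) (nat_lit 912) (nat_lit 0) (XT.nd (nat_lit 312) (nat_lit 760) (nat_lit 0) (XT.nd (nat_lit 156) (nat_lit 380) (nat_lit 0) (XT.nd (nat_lit 78) (nat_lit 152) (nat_lit 0) (XT.lf (nat_lit 0) (nat_lit 121098881601) (nat_lit 304) (nat_lit 82962563599) (nat_lit 76) (nat_lit 64387325607) (nat_lit 47) (nat_lit 5) (nat_lit 51) (nat_lit 5) (nat_lit 48) (nat_lit 5) (nat_lit 374) (nat_lit 365) (nat_lit 281)) (XT.lf (nat_lit 0) (nat_lit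 213764085740) (nat_lit 152) (nat_lit 14907478793) (nat_lit 228) (nat_lit 63657354200) (nat_lit 45) (nat_lit 5) (nat_lit 47) (nat_lit 5) (nat_lit 48) (nat_lit 5) (nat_lit 375) (nat_lit 365) (nat_lit 280))) (XT.nd (nat_lit 78) (nat_lit 152) (nat_lit 0) (XT.lf (nat_lit 0) (nat_lit 44617046110) (nat_lit 228) (nat_lit 71965710013) (nat_lit 76) (nat_lit 202052973725) (nat_lit 42) (nat_lit 5) (nat_lit 45) (nat_lit 5) (nat_lit 43) (nat_lit 5) (nat_lit 376) (nat_lit 365) (nat_lit 279)) (XT.lf (nat_lit 0) (nat_lit 177915351099) (nat_lit 228) (nat_lit 61743166543) (nat_lit 76) (nat_lit 108093612483) (nat_lit 40) (nat_lit 5) (nat_lit 43) (nat_lit 5) (nat_lit 41) (nat_lit 5) (nat_lit 377) (nat_lit 365) (nat_lit 278)))) (XT.nd (nat_lit 156) (nat_lit 456) (nat_lit 0) (XT.nd (nat_lit 78) (nat_lit 152) (nat_lit 0) (XT.lf (nat_lit 0) (nat_lit 334419112906) (nat_lit 152) (nat_lit 10205734763) (nat_lit 228)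 (nat_lit 35537827235) (nat_lit 38) (nat_lit 5) (nat_lit 40) (nat_lit 5) (nat_lit 41) (nat_lit 5) (nat_lit 378) (nat_lit 365) (nat_lit 277)) (XT.lf (nat_lit 0) (nat_lit 130727092720) (nat_lit 152) (nat_lit 29553301652) (nat_lit 76) (nat_lit 255504089141) (nat_lit 36) (nat_lit 5) (nat_lit 38) (nat_lit 5) (nat_lit 37) (nat_lit 5) (nat_lit 379) (nat_lit 365) (nat_lit 276))) (XT.nd (nat_lit 78) (nat_lit 304) (nat_lit 0) (XT.lf (nat_lit 0) (nat_lit 335204465750) (nat_lit 228) (nat_lit 8152591970) (nat_lit 76) (nat_lit 112088504866) (nat_lit 34) (nat_lit 5) (nat_lit 37) (nat_lit 5) (nat_lit 35) (nat_lit 4) (nat_lit 380) (nat_lit 365) (nat_lit 275)) (XT.lf (nat_lit 0) (nat_lit 17010247322) (nat_lit 152) (nat_lit 67463005486) (nat_lit 228) (nat_lit 414957849166) (nat_lit 30) (nat_lit 5) (nat_lit 32) (nat_lit 5) (nat_lit 33) (nat_lit 5) (nat_lit 381) (nat_lit 365) (nat_lit 274))))) (XT.nd (nat_lit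 312) (nat_lit 532) (nat_lit 0) (XT.nd (nat_lit 156) (nat_lit 152) (nat_lit 0) (XT.nd (nat_lit 78) (nat_lit 152) (nat_lit 0) (XT.lf (nat_lit 0) (nat_lit 41802788341) (nat_lit 76) (nat_lit 292298656070) (nat_lit 152) (nat_lit 213957071953) (nat_lit 29) (nat_lit 5) (nat_lit 30) (nat_lit 5) (nat_lit 31) (nat_lit 4) (nat_lit 382) (nat_lit 365) (nat_lit 273)) (XT.lf (nat_lit 0) (nat_lit 35245323662) (nat_lit 152) (nat_lit 531438280440) (nat_lit 76) (nat_lit 35750429398) (nat_lit 27) (nat_lit 5) (nat_lit 29) (nat_lit 5) (nat_lit 28) (nat_lit 4) (nat_lit 383) (nat_lit 365) (nat_lit 272))) (XT.nd (nat_lit 78) (nat_lit 76) (nat_lit 0) (XT.lf (nat_lit 0) (nat_lit 91918597129) (nat_lit 76) (nat_lit 243017618960) (nat_lit 152) (nat_lit 327522933342) (nat_lit 26) (nat_lit 5) (nat_lit 27) (nat_lit 5) (nat_lit 28) (nat_lit 4) (nat_lit 384) (nat_lit 365) (nat_lit 271)) (XT.lf (nat_lit 0) (nat_lit 112846568009)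 (nat_lit 76) (nat_lit 588429265641) (nat_lit 76) (nat_lit 28476591837) (nat_lit 25) (nat_lit 4) (nat_lit 26) (nat_lit 5) (nat_lit 26) (nat_lit 4) (nat_lit 385) (nat_lit 365) (nat_lit 270)))) (XT.nd (nat_lit 156) (nat_lit 304) (nat_lit 0) (XT.nd (nat_lit 78) (nat_lit 76) (nat_lit 0) (XT.lf (nat_lit 0) (nat_lit 118678787615) (nat_lit 76) (nat_lit 207586398210) (nat_lit 152) (nat_lit 478138233096) (nat_lit 23) (nat_lit 5) (nat_lit 24) (nat_lit 5) (nat_lit 25) (nat_lit 4) (nat_lit 386) (nat_lit 365) (nat_lit 269)) (XT.lf (nat_lit 0) (nat_lit 111948803675) (nat_lit 76) (nat_lit 647291184453) (nat_lit 76) (nat_lit 128816269931) (nat_lit 22) (nat_lit 4) (nat_lit 23) (nat_lit 5) (nat_lit 23) (nat_lit 4) (nat_lit 387) (nat_lit 365) (nat_lit 268))) (XT.nd (nat_lit 78) (nat_lit 152) (nat_lit 0) (XT.lf (nat_lit 0) (nat_lit 79281153977) (nat_lit 76) (nat_lit 208101613370) (nat_lit 152) (nat_lit 694098744554)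 (nat_lit 20) (nat_lit 5) (nat_lit 21) (nat_lit 5) (nat_lit 22) (nat_lit 4) (nat_lit 388) (nat_lit 365) (nat_lit 267)) (XT.nd (nat_lit 78) (nat_lit 76) (nat_lit 0) (XT.lf (nat_lit 0) (nat_lit 12181189595) (nat_lit 76) (nat_lit 777037240281) (nat_lit 76) (nat_lit 296967723366) (nat_lit 19) (nat_lit 4) (nat_lit 20) (nat_lit 5) (nat_lit 20) (nat_lit 4) (nat_lit 389) (nat_lit 365) (nat_lit 266)) (XT.lf (nat_lit 0) (nat_lit 184446721317) (nat_lit 152) (nat_lit 96420397894) (nat_lit 76) (nat_lit 922805704325) (nat_lit 18) (nat_lit 5) (nat_lit 20) (nat_lit 5) (nat_lit 19) (nat_lit 4) (nat_lit 390) (nat_lit 365) (nat_lit 265))))))) (XT.nd (nat_lit 624) (nat_lit 380) (nat_lit 0) (XT.nd (nat_lit 312) (nat_lit 304) (nat_lit 0) (XT.nd (nat_lit 156) (nat_lit 228) (nat_lit 0) (XT.nd (nat_lit 78) (nat_lit 76) (nat_lit 0) (XT.lf (nat_lit 0) (nat_lit 754653457083) (nat_lit 152) (nat_lit 270634308342) (nat_lit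 0) (nat_lit 310144538973) (nat_lit 17) (nat_lit 5) (nat_lit 19) (nat_lit 4) (nat_lit 17) (nat_lit 4) (nat_lit 391) (nat_lit 365) (nat_lit 264)) (XT.lf (nat_lit 0) (nat_lit 959461852180) (nat_lit 76) (nat_lit 484652482858) (nat_lit 76) (nat_lit 40143521815) (nat_lit 16) (nat_lit 4) (nat_lit 17) (nat_lit 5) (nat_lit 17) (nat_lit 4) (nat_lit 392) (nat_lit 365) (nat_lit 263))) (XT.nd (nat_lit 78) (nat_lit 76) (nat_lit 0) (XT.lf (nat_lit 0) (nat_lit 583187582909) (nat_lit 152) (nat_lit 897040001750) (nat_lit 0) (nat_lit 171605177005) (nat_lit 14) (nat_lit 5) (nat_lit 16) (nat_lit 4) (nat_lit 14) (nat_lit 4) (nat_lit 393) (nat_lit 365) (nat_lit 262)) (XT.lf (nat_lit 0) (nat_lit 420922929509) (nat_lit 76) (nat_lit 915989169183) (nat_lit 76) (nat_lit 504406733220) (nat_lit 13) (nat_lit 4) (nat_lit 14) (nat_lit 5) (nat_lit 14) (nat_lit 4) (nat_lit 394) (nat_lit 365) (nat_lit 261)))) (XT.nd (nat_lit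 156) (nat_lit 152) (nat_lit 0) (XT.nd (nat_lit 78) (nat_lit 76) (nat_lit 0) (XT.lf (nat_lit 0) (nat_lit 164035226448) (nat_lit 152) (nat_lit 70389191087) (nat_lit 76) (nat_lit 1822381871801) (nat_lit 12) (nat_lit 5) (nat_lit 14) (nat_lit 5) (nat_lit 13) (nat_lit 4) (nat_lit 395) (nat_lit 365) (nat_lit 260)) (XT.lf (nat_lit 0) (nat_lit 955435111622) (nat_lit 152) (nat_lit 769588766497) (nat_lit 0) (nat_lit 574340218260) (nat_lit 11) (nat_lit 5) (nat_lit 13) (nat_lit 4) (nat_lit 11) (nat_lit 4) (nat_lit 396) (nat_lit 365) (nat_lit 259))) (XT.nd (nat_lit 78) (nat_lit 76) (nat_lit 0) (XT.lf (nat_lit 0) (nat_lit 831124675462) (nat_lit 76) (nat_lit 1062994920678) (nat_lit 76) (nat_lit 681900009017) (nat_lit 10) (nat_lit 4) (nat_lit 11) (nat_lit 5) (nat_lit 11) (nat_lit 4) (nat_lit 397) (nat_lit 365) (nat_lit 258)) (XT.lf (nat_lit 0) (nat_lit 98447372866) (nat_lit 152) (nat_lit 176324392012) (nat_lit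 76) (nat_lit 2617409834665) (nat_lit 9) (nat_lit 5) (nat_lit 11) (nat_lit 5) (nat_lit 10) (nat_lit 4) (nat_lit 398) (nat_lit 365) (nat_lit 257))))) (XT.nd (nat_lit 312) (nat_lit 152) (nat_lit 0) (XT.nd (nat_lit 156) (nat_lit 76) (nat_lit 0) (XT.nd (nat_lit 78) (nat_lit 76) (nat_lit 0) (XT.lf (nat_lit 0) (nat_lit 1014084263892) (nat_lit 152) (nat_lit 1574359037367) (nat_lit 0) (nat_lit 661218577399) (nat_lit 8) (nat_lit 5) (nat_lit 10) (nat_lit 4) (nat_lit 8) (nat_lit 4) (nat_lit 399) (nat_lit 365) (nat_lit 256)) (XT.lf (nat_lit 0) (nat_lit 155020062290) (nat_lit 76) (nat_lit 1928641137063) (nat_lit 76) (nat_lit 1575775439429) (nat_lit 7) (nat_lit 4) (nat_lit 8) (nat_lit 5) (nat_lit 8) (nat_lit 4) (nat_lit 400) (nat_lit 365) (nat_lit 255))) (XT.nd (nat_lit 78) (nat_lit 76) (nat_lit 0) (XT.lf (nat_lit 0) (nat_lit 2239144305684) (nat_lit 76) (nat_lit 1120366078904) (nat_lit 76) (nat_lit 767500371582)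 (nat_lit 7) (nat_lit 4) (nat_lit 8) (nat_lit 5) (nat_lit 8) (nat_lit 4) (nat_lit 401) (nat_lit 365) (nat_lit 254)) (XT.lf (nat_lit 0) (nat_lit 153911208612) (nat_lit 152) (nat_lit 32730401832) (nat_lit 76) (nat_lit 4477767665992) (nat_lit 6) (nat_lit 5) (nat_lit 8) (nat_lit 5) (nat_lit 7) (nat_lit 4) (nat_lit 402) (nat_lit 365) (nat_lit 253)))) (XT.nd (nat_lit 156) (nat_lit 76) (nat_lit 0) (XT.nd (nat_lit 78) (nat_lit 0) (nat_lit 0) (XT.lf (nat_lit 0) (nat_lit 1245280766647) (nat_lit 152) (nat_lit 3110813490649) (nat_lit 0) (nat_lit 918553245283) (nat_lit 5) (nat_lit 5) (nat_lit 7) (nat_lit 4) (nat_lit 5) (nat_lit 4) (nat_lit 403) (nat_lit 365) (nat_lit 252)) (XT.lf (nat_lit 0) (nat_lit 2506495421639) (nat_lit 152) (nat_lit 1289666973566) (nat_lit 0) (nat_lit 2179767894377) (nat_lit 5) (nat_lit 5) (nat_lit 7) (nat_lit 4) (nat_lit 5) (nat_lit 4) (nat_lit 404) (nat_lit 365) (nat_lit 251)))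 (XT.nd (nat_lit 78) (nat_lit 0) (nat_lit 0) (XT.lf (nat_lit 0) (nat_lit 847022962934) (nat_lit 76) (nat_lit 3130240196660) (nat_lit 76) (nat_lit 2803512664269) (nat_lit 4) (nat_lit 4) (nat_lit 5) (nat_lit 5) (nat_lit 5) (nat_lit 4) (nat_lit 405) (nat_lit 365) (nat_lit 250)) (XT.nd (nat_lit 78) (nat_lit 0) (nat_lit 0) (XT.lf (nat_lit 0) (nat_lit 3382314633176) (nat_lit 76) (nat_lit 2323878656714) (nat_lit 76) (nat_lit 1997151119863) (nat_lit 4) (nat_lit 4) (nat_lit 5) (nat_lit 5) (nat_lit 5) (nat_lit 4) (nat_lit 406) (nat_lit 365) (nat_lit 249)) (XT.lf (nat_lit 0) (nat_lit 6297899992497) (nat_lit 76) (nat_lit 1396562917086) (nat_lit 76) (nat_lit 1069835376357) (nat_lit 4) (nat_lit 4) (nat_lit 5) (nat_lit 5) (nat_lit 5) (nat_lit 4) (nat_lit 407) (nat_lit 365) (nat_lit 248))))))))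
noncomputable def xc96 : XT := (XT.nd (nat_lit 50544) (nat_lit 0) (nat_lit 1216) (XT.nd (nat_lit 49920) (nat_lit 0) (nat_lit 3648) (XT.nd (nat_lit 312) (nat_lit 0) (nat_lit 0) (XT.nd (nat_lit 156) (nat_lit 0) (nat_lit 0) (XT.nd (nat_lit 78) (nat_lit 152) (nat_lit 0) (XT.lf (nat_lit 0) (nat_lit 9650823102273) (nat_lit 76) (nat_lit 330149843741) (nat_lit 76) (nat_lit 3422299640) (nat_lit 4) (nat_lit 4) (nat_lit 5) (nat_lit 5) (nat_lit 5) (nat_lit 4) (nat_lit 408) (nat_lit 365) (nat_lit 247)) (XT.lf (nat_lit 0) (nat_lit 1238373484364) (nat_lit 152) (nat_lit 9204804500106) (nat_lit 0) (nat_lit 935847977852) (nat_lit 2) (nat_lit 5) (nat_lit 4) (nat_lit 4) (nat_lit 2) (nat_lit 4) (nat_lit 409) (nat_lit 365) (nat_lit 246))) (XT.nd (nat_lit 78) (nat_lit 0) (nat_lit 0) (XT.lf (nat_lit 0) (nat_lit 2685336708842) (nat_lit 152) (nat_lit 7913168209513) (nat_lit 0) (nat_lit 2382811199969) (nat_lit 2)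 (nat_lit 5) (nat_lit 4) (nat_lit 4) (nat_lit 2) (nat_lit 4) (nat_lit 410) (nat_lit 365) (nat_lit 245)) (XT.lf (nat_lit 0) (nat_lit 4349344397927) (nat_lit 152) (nat_lit 6427786514323) (nat_lit 0) (nat_lit 4046818887001) (nat_lit 2) (nat_lit 5) (nat_lit 4) (nat_lit 4) (nat_lit 2) (nat_lit 4) (nat_lit 411) (nat_lit 365) (nat_lit 244)))) (XT.nd (nat_lit 156) (nat_lit 0) (nat_lit 0) (XT.nd (nat_lit 78) (nat_lit 0) (nat_lit 0) (XT.lf (nat_lit 0) (nat_lit 6262953223797) (nat_lit 152) (nat_lit 4719597598762) (nat_lit 0) (nat_lit 5960427711085) (nat_lit 2) (nat_lit 5) (nat_lit 4) (nat_lit 4) (nat_lit 2) (nat_lit 4) (nat_lit 412) (nat_lit 365) (nat_lit 243)) (XT.lf (nat_lit 0) (nat_lit 8463603359132) (nat_lit 152) (nat_lit 2755180375352) (nat_lit 0) (nat_lit 8161077844868) (nat_lit 2) (nat_lit 5) (nat_lit 4) (nat_lit 4) (nat_lit 2) (nat_lit 4) (nat_lit 413) (nat_lit 365) (nat_lit 242))) (XT.nd (nat_lit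 49374) (nat_lit 0) (nat_lit 5092) (XT.lf (nat_lit 0) (nat_lit 10994351002232) (nat_lit 152) (nat_lit 496100594068) (nat_lit 0) (nat_lit 10691825486617) (nat_lit 2) (nat_lit 5) (nat_lit 4) (nat_lit 4) (nat_lit 2) (nat_lit 4) (nat_lit 414) (nat_lit 365) (nat_lit 241)) (XT.lf (nat_lit 0) (nat_lit 70525075689) (nat_lit 532) (nat_lit 3205930409) (nat_lit 532) (nat_lit 3205930409) (nat_lit 69) (nat_lit 3) (nat_lit 76) (nat_lit 3) (nat_lit 76) (nat_lit 5) (nat_lit 366) (nat_lit 366) (nat_lit 288))))) (XT.nd (nat_lit 312) (nat_lit 988) (nat_lit 0) (XT.nd (nat_lit 156) (nat_lit 0) (nat_lit 76) (XT.nd (nat_lit 78) (nat_lit 456) (nat_lit 0) (XT.lf (nat_lit 76) (nat_lit 142071469699) (nat_lit 0) (nat_lit 12978936530) (nat_lit 532) (nat_lit 10090284641) (nat_lit 70) (nat_lit 5) (nat_lit 69) (nat_lit 3) (nat_lit 76) (nat_lit 5) (nat_lit 367) (nat_lit 366) (nat_lit 287)) (XT.lf (nat_lit 0) (nat_lit 513451004)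 (nat_lit 532) (nat_lit 38899498002) (nat_lit 608) (nat_lit 138128926678) (nat_lit 63) (nat_lit 5) (nat_lit 70) (nat_lit 5) (nat_lit 71) (nat_lit 5) (nat_lit 368) (nat_lit 366) (nat_lit 286))) (XT.nd (nat_lit 78) (nat_lit 0) (nat_lit 76) (XT.lf (nat_lit 0) (nat_lit 19541039106) (nat_lit 532) (nat_lit 53773244286) (nat_lit 608) (nat_lit 117873528489) (nat_lit 64) (nat_lit 5) (nat_lit 71) (nat_lit 5) (nat_lit 72) (nat_lit 5) (nat_lit 369) (nat_lit 366) (nat_lit 285)) (XT.lf (nat_lit 0) (nat_lit 49358036814) (nat_lit 532) (nat_lit 66993463136) (nat_lit 76) (nat_lit 89894317238) (nat_lit 65) (nat_lit 5) (nat_lit 72) (nat_lit 5) (nat_lit 66) (nat_lit 5) (nat_lit 370) (nat_lit 366) (nat_lit 284)))) (XT.nd (nat_lit 156) (nat_lit 456) (nat_lit 0) (XT.nd (nat_lit 78) (nat_lit 228) (nat_lit 0) (XT.lf (nat_lit 0) (nat_lit 92134232175) (nat_lit 532) (nat_lit 78024691602) (nat_lit 76) (nat_lit 52724668015)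 (nat_lit 59) (nat_lit 5) (nat_lit 66) (nat_lit 5) (nat_lit 60) (nat_lit 5) (nat_lit 371) (nat_lit 366) (nat_lit 283)) (XT.lf (nat_lit 0) (nat_lit 150395346324) (nat_lit 304) (nat_lit 86240364337) (nat_lit 76) (nat_lit 4655843064) (nat_lit 56) (nat_lit 5) (nat_lit 60) (nat_lit 5) (nat_lit 57) (nat_lit 5) (nat_lit 372) (nat_lit 366) (nat_lit 282))) (XT.nd (nat_lit 78) (nat_lit 228) (nat_lit 0) (XT.lf (nat_lit 0) (nat_lit 169234481817) (nat_lit 228) (nat_lit 59267552642) (nat_lit 304) (nat_lit 33070163196) (nat_lit 53) (nat_lit 5) (nat_lit 56) (nat_lit 5) (nat_lit 57) (nat_lit 5) (nat_lit 373) (nat_lit 366) (nat_lit 281)) (XT.lf (nat_lit 0) (nat_lit 42646216968) (nat_lit 228) (nat_lit 95633367604) (nat_lit 76) (nat_lit 145679937020) (nat_lit 50) (nat_lit 5) (nat_lit 53) (nat_lit 5) (nat_lit 51) (nat_lit 5) (nat_lit 374) (nat_lit 366) (nat_lit 280)))))) (XT.nd (nat_lit 624) (nat_lit 912) (nat_lit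 0) (XT.nd (nat_lit 312) (nat_lit 760) (nat_lit 0) (XT.nd (nat_lit 156) (nat_lit 380) (nat_lit 0) (XT.nd (nat_lit 78) (nat_lit 152) (nat_lit 0) (XT.lf (nat_lit 0) (nat_lit 139268069442) (nat_lit 304) (nat_lit 95400904730) (nat_lit 76) (nat_lit 74046761866) (nat_lit 47) (nat_lit 5) (nat_lit 51) (nat_lit 5) (nat_lit 48) (nat_lit 5) (nat_lit 375) (nat_lit 366) (nat_lit 279)) (XT.lf (nat_lit 0) (nat_lit 245834230465) (nat_lit 152) (nat_lit 17141989268) (nat_lit 228) (nat_lit 73201721479) (nat_lit 45) (nat_lit 5) (nat_lit 47) (nat_lit 5) (nat_lit 48) (nat_lit 5) (nat_lit 376) (nat_lit 366) (nat_lit 278))) (XT.nd (nat_lit 78) (nat_lit 152) (nat_lit 0) (XT.lf (nat_lit 0) (nat_lit 51313267882) (nat_lit 228) (nat_lit 82755055385) (nat_lit 76) (nat_lit 232362471510) (nat_lit 42) (nat_lit 5) (nat_lit 45) (nat_lit 5) (nat_lit 43) (nat_lit 5) (nat_lit 377) (nat_lit 366) (nat_lit 277)) (XT.lf (nat_lit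 0) (nat_lit 204606003682) (nat_lit 228) (nat_lit 70999372811) (nat_lit 76) (nat_lit 124309303975) (nat_lit 40) (nat_lit 5) (nat_lit 43) (nat_lit 5) (nat_lit 41) (nat_lit 5) (nat_lit 378) (nat_lit 366) (nat_lit 276)))) (XT.nd (nat_lit 156) (nat_lit 456) (nat_lit 0) (XT.nd (nat_lit 78) (nat_lit 152) (nat_lit 0) (XT.lf (nat_lit 0) (nat_lit 384586802584) (nat_lit 152) (nat_lit 11734801194) (nat_lit 228) (nat_lit 40865229016) (nat_lit 38) (nat_lit 5) (nat_lit 40) (nat_lit 5) (nat_lit 41) (nat_lit 5) (nat_lit 379) (nat_lit 366) (nat_lit 275)) (XT.lf (nat_lit 0) (nat_lit 150339011704) (nat_lit 152) (nat_lit 33981547950) (nat_lit 76) (nat_lit 293831367153) (nat_lit 36) (nat_lit 5) (nat_lit 38) (nat_lit 5) (nat_lit 37) (nat_lit 5) (nat_lit 380) (nat_lit 366) (nat_lit 274))) (XT.nd (nat_lit 78) (nat_lit 304) (nat_lit 0) (XT.lf (nat_lit 0) (nat_lit 385487765154) (nat_lit 228) (nat_lit 9370968415) (nat_lit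 76) (nat_lit 128903452322) (nat_lit 34) (nat_lit 5) (nat_lit 37) (nat_lit 5) (nat_lit 35) (nat_lit 4) (nat_lit 381) (nat_lit 366) (nat_lit 273)) (XT.lf (nat_lit 0) (nat_lit 19566268653) (nat_lit 152) (nat_lit 77580528382) (nat_lit 228) (nat_lit 477198765152) (nat_lit 30) (nat_lit 5) (nat_lit 32) (nat_lit 5) (nat_lit 33) (nat_lit 5) (nat_lit 382) (nat_lit 366) (nat_lit 272))))) (XT.nd (nat_lit 312) (nat_lit 532) (nat_lit 0) (XT.nd (nat_lit 156) (nat_lit 152) (nat_lit 0) (XT.nd (nat_lit 78) (nat_lit 152) (nat_lit 0) (XT.lf (nat_lit 0) (nat_lit 48077456540) (nat_lit 76) (nat_lit 336141569937) (nat_lit 152) (nat_lit 246048077605) (nat_lit 29) (nat_lit 5) (nat_lit 30) (nat_lit 5) (nat_lit 31) (nat_lit 4) (nat_lit 383) (nat_lit 366) (nat_lit 271)) (XT.lf (nat_lit 0) (nat_lit 40534372614) (nat_lit 152) (nat_lit 611149881198) (nat_lit 76) (nat_lit 41114704276) (nat_lit 27) (nat_lit 5) (nat_lit 29)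 (nat_lit 5) (nat_lit 28) (nat_lit 4) (nat_lit 384) (nat_lit 366) (nat_lit 270))) (XT.nd (nat_lit 78) (nat_lit 76) (nat_lit 0) (XT.lf (nat_lit 0) (nat_lit 105710177465) (nat_lit 76) (nat_lit 279468519076) (nat_lit 152) (nat_lit 376649161108) (nat_lit 26) (nat_lit 5) (nat_lit 27) (nat_lit 5) (nat_lit 28) (nat_lit 4) (nat_lit 385) (nat_lit 366) (nat_lit 269)) (XT.lf (nat_lit 0) (nat_lit 129777135040) (nat_lit 76) (nat_lit 676691977150) (nat_lit 76) (nat_lit 32746024533) (nat_lit 25) (nat_lit 4) (nat_lit 26) (nat_lit 5) (nat_lit 26) (nat_lit 4) (nat_lit 386) (nat_lit 366) (nat_lit 268)))) (XT.nd (nat_lit 156) (nat_lit 304) (nat_lit 0) (XT.nd (nat_lit 78) (nat_lit 76) (nat_lit 0) (XT.lf (nat_lit 0) (nat_lit 136483978811) (nat_lit 76) (nat_lit 238722764467) (nat_lit 152) (nat_lit 549857045869) (nat_lit 23) (nat_lit 5) (nat_lit 24) (nat_lit 5) (nat_lit 25) (nat_lit 4) (nat_lit 387) (nat_lit 366)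 (nat_lit 267)) (XT.lf (nat_lit 0) (nat_lit 128744307230) (nat_lit 76) (nat_lit 744383336453) (nat_lit 76) (nat_lit 148136920284) (nat_lit 22) (nat_lit 4) (nat_lit 23) (nat_lit 5) (nat_lit 23) (nat_lit 4) (nat_lit 388) (nat_lit 366) (nat_lit 266))) (XT.nd (nat_lit 78) (nat_lit 152) (nat_lit 0) (XT.lf (nat_lit 0) (nat_lit 91176322804) (nat_lit 76) (nat_lit 239315410465) (nat_lit 152) (nat_lit 798211881180) (nat_lit 20) (nat_lit 5) (nat_lit 21) (nat_lit 5) (nat_lit 22) (nat_lit 4) (nat_lit 389) (nat_lit 366) (nat_lit 265)) (XT.nd (nat_lit 78) (nat_lit 76) (nat_lit 0) (XT.lf (nat_lit 0) (nat_lit 14011192104) (nat_lit 76) (nat_lit 893591448928) (nat_lit 76) (nat_lit 341511319312) (nat_lit 19) (nat_lit 4) (nat_lit 20) (nat_lit 5) (nat_lit 20) (nat_lit 4) (nat_lit 390) (nat_lit 366) (nat_lit 264)) (XT.lf (nat_lit 0) (nat_lit 212115020292) (nat_lit 152) (nat_lit 110880933774) (nat_lit 76) (nat_lit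 1061227689618) (nat_lit 18) (nat_lit 5) (nat_lit 20) (nat_lit 5) (nat_lit 19) (nat_lit 4) (nat_lit 391) (nat_lit 366) (nat_lit 263))))))))
noncomputable def xc97 : XT := (XT.nd (nat_lit 1248) (nat_lit 152) (nat_lit 0) (XT.nd (nat_lit 624) (nat_lit 380) (nat_lit 0) (XT.nd (nat_lit 312) (nat_lit 304) (nat_lit 0) (XT.nd (nat_lit 156) (nat_lit 228) (nat_lit 0) (XT.nd (nat_lit 78) (nat_lit 76) (nat_lit 0) (XT.lf (nat_lit 0) (nat_lit 867852680850) (nat_lit 152) (nat_lit 311227077302) (nat_lit 0) (nat_lit 356667295384) (nat_lit 17) (nat_lit 5) (nat_lit 19) (nat_lit 4) (nat_lit 17) (nat_lit 4) (nat_lit 392) (nat_lit 366) (nat_lit 262)) (XT.lf (nat_lit 0) (nat_lit 1103383306072) (nat_lit 76) (nat_lit 557349279560) (nat_lit 76) (nat_lit 46163861631) (nat_lit 16) (nat_lit 4) (nat_lit 17) (nat_lit 5) (nat_lit 17) (nat_lit 4) (nat_lit 393) (nat_lit 366) (nat_lit 261))) (XT.nd (nat_lit 78) (nat_lit 76)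 (nat_lit 0) (XT.lf (nat_lit 0) (nat_lit 670666775725) (nat_lit 152) (nat_lit 1031593897515) (nat_lit 0) (nat_lit 197346918171) (nat_lit 14) (nat_lit 5) (nat_lit 16) (nat_lit 4) (nat_lit 14) (nat_lit 4) (nat_lit 394) (nat_lit 366) (nat_lit 260)) (XT.lf (nat_lit 0) (nat_lit 484063295298) (nat_lit 76) (nat_lit 1053386582248) (nat_lit 76) (nat_lit 580066701964) (nat_lit 13) (nat_lit 4) (nat_lit 14) (nat_lit 5) (nat_lit 14) (nat_lit 4) (nat_lit 395) (nat_lit 366) (nat_lit 259)))) (XT.nd (nat_lit 156) (nat_lit 152) (nat_lit 0) (XT.nd (nat_lit 78) (nat_lit 76) (nat_lit 0) (XT.lf (nat_lit 0) (nat_lit 188641370548) (nat_lit 152) (nat_lit 80945849307) (nat_lit 76) (nat_lit 2095739944021) (nat_lit 12) (nat_lit 5) (nat_lit 14) (nat_lit 5) (nat_lit 13) (nat_lit 4) (nat_lit 396) (nat_lit 366) (nat_lit 258)) (XT.lf (nat_lit 0) (nat_lit 1098751183155) (nat_lit 152) (nat_lit 885025462721) (nat_lit 0) (nat_lit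 660492000531) (nat_lit 11) (nat_lit 5) (nat_lit 13) (nat_lit 4) (nat_lit 11) (nat_lit 4) (nat_lit 397) (nat_lit 366) (nat_lit 257))) (XT.nd (nat_lit 78) (nat_lit 76) (nat_lit 0) (XT.lf (nat_lit 0) (nat_lit 955794858512) (nat_lit 76) (nat_lit 1222443412502) (nat_lit 76) (nat_lit 784184216041) (nat_lit 10) (nat_lit 4) (nat_lit 11) (nat_lit 5) (nat_lit 11) (nat_lit 4) (nat_lit 398) (nat_lit 366) (nat_lit 256)) (XT.lf (nat_lit 0) (nat_lit 113215134964) (nat_lit 152) (nat_lit 202771727768) (nat_lit 76) (nat_lit 3010021924218) (nat_lit 9) (nat_lit 5) (nat_lit 11) (nat_lit 5) (nat_lit 10) (nat_lit 4) (nat_lit 399) (nat_lit 366) (nat_lit 255))))) (XT.nd (nat_lit 312) (nat_lit 152) (nat_lit 0) (XT.nd (nat_lit 156) (nat_lit 76) (nat_lit 0) (XT.nd (nat_lit 78) (nat_lit 76) (nat_lit 0) (XT.lf (nat_lit 0) (nat_lit 1166197517886) (nat_lit 152) (nat_lit 1810511648614) (nat_lit 0) (nat_lit 760401944777)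 (nat_lit 8) (nat_lit 5) (nat_lit 10) (nat_lit 4) (nat_lit 8) (nat_lit 4) (nat_lit 400) (nat_lit 366) (nat_lit 254)) (XT.lf (nat_lit 0) (nat_lit 178274210662) (nat_lit 76) (nat_lit 2217936730257) (nat_lit 76) (nat_lit 1812141148723) (nat_lit 7) (nat_lit 4) (nat_lit 8) (nat_lit 5) (nat_lit 8) (nat_lit 4) (nat_lit 401) (nat_lit 366) (nat_lit 253))) (XT.nd (nat_lit 78) (nat_lit 76) (nat_lit 0) (XT.lf (nat_lit 0) (nat_lit 2575016941996) (nat_lit 76) (nat_lit 1288420488682) (nat_lit 76) (nat_lit 882624899823) (nat_lit 7) (nat_lit 4) (nat_lit 8) (nat_lit 5) (nat_lit 8) (nat_lit 4) (nat_lit 402) (nat_lit 366) (nat_lit 252)) (XT.lf (nat_lit 0) (nat_lit 176998325650) (nat_lit 152) (nat_lit 37639077875) (nat_lit 76) (nat_lit 5149433229501) (nat_lit 6) (nat_lit 5) (nat_lit 8) (nat_lit 5) (nat_lit 7) (nat_lit 4) (nat_lit 403) (nat_lit 366) (nat_lit 251)))) (XT.nd (nat_lit 156) (nat_lit 76) (nat_lit 0)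 (XT.nd (nat_lit 78) (nat_lit 0) (nat_lit 0) (XT.lf (nat_lit 0) (nat_lit 1432073289904) (nat_lit 152) (nat_lit 3577434682860) (nat_lit 0) (nat_lit 1056336622526) (nat_lit 5) (nat_lit 5) (nat_lit 7) (nat_lit 4) (nat_lit 5) (nat_lit 4) (nat_lit 404) (nat_lit 366) (nat_lit 250)) (XT.lf (nat_lit 0) (nat_lit 2882470089894) (nat_lit 152) (nat_lit 1483116296657) (nat_lit 0) (nat_lit 2506733418056) (nat_lit 5) (nat_lit 5) (nat_lit 7) (nat_lit 4) (nat_lit 5) (nat_lit 4) (nat_lit 405) (nat_lit 366) (nat_lit 249))) (XT.nd (nat_lit 78) (nat_lit 0) (nat_lit 0) (XT.lf (nat_lit 0) (nat_lit 974077069124) (nat_lit 76) (nat_lit 3599775889027) (nat_lit 76) (nat_lit 3224039213311) (nat_lit 4) (nat_lit 4) (nat_lit 5) (nat_lit 5) (nat_lit 5) (nat_lit 4) (nat_lit 406) (nat_lit 366) (nat_lit 248)) (XT.lf (nat_lit 0) (nat_lit 3889662403588) (nat_lit 76) (nat_lit 2672460162062) (nat_lit 76) (nat_lit 2296723482974)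 (nat_lit 4) (nat_lit 4) (nat_lit 5) (nat_lit 5) (nat_lit 5) (nat_lit 4) (nat_lit 407) (nat_lit 366) (nat_lit 247)))))) (XT.nd (nat_lit 49998) (nat_lit 0) (nat_lit 3420) (XT.nd (nat_lit 312) (nat_lit 0) (nat_lit 0) (XT.nd (nat_lit 156) (nat_lit 152) (nat_lit 0) (XT.nd (nat_lit 78) (nat_lit 0) (nat_lit 0) (XT.lf (nat_lit 0) (nat_lit 7242585491750) (nat_lit 76) (nat_lit 1606047099729) (nat_lit 76) (nat_lit 1230310417708) (nat_lit 4) (nat_lit 4) (nat_lit 5) (nat_lit 5) (nat_lit 5) (nat_lit 4) (nat_lit 408) (nat_lit 366) (nat_lit 246)) (XT.lf (nat_lit 0) (nat_lit 11098447002725) (nat_lit 76) (nat_lit 379672098632) (nat_lit 76) (nat_lit 3935414061) (nat_lit 4) (nat_lit 4) (nat_lit 5) (nat_lit 5) (nat_lit 5) (nat_lit 4) (nat_lit 409) (nat_lit 366) (nat_lit 245))) (XT.nd (nat_lit 78) (nat_lit 0) (nat_lit 0) (XT.lf (nat_lit 0) (nat_lit 1424129712297) (nat_lit 152) (nat_lit 10585524755268) (nat_lit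 0) (nat_lit 1076225372678) (nat_lit 2) (nat_lit 5) (nat_lit 4) (nat_lit 4) (nat_lit 2) (nat_lit 4) (nat_lit 410) (nat_lit 366) (nat_lit 244)) (XT.lf (nat_lit 0) (nat_lit 3088137393671) (nat_lit 152) (nat_lit 9100143075849) (nat_lit 0) (nat_lit 2740233052267) (nat_lit 2) (nat_lit 5) (nat_lit 4) (nat_lit 4) (nat_lit 2) (nat_lit 4) (nat_lit 411) (nat_lit 366) (nat_lit 243)))) (XT.nd (nat_lit 156) (nat_lit 0) (nat_lit 0) (XT.nd (nat_lit 78) (nat_lit 0) (nat_lit 0) (XT.lf (nat_lit 0) (nat_lit 5001746212836) (nat_lit 152) (nat_lit 7391954174002) (nat_lit 0) (nat_lit 4653841869879) (nat_lit 2) (nat_lit 5) (nat_lit 4) (nat_lit 4) (nat_lit 2) (nat_lit 4) (nat_lit 412) (nat_lit 366) (nat_lit 242)) (XT.lf (nat_lit 0) (nat_lit 7202396342340) (nat_lit 152) (nat_lit 5427536962516) (nat_lit 0) (nat_lit 6854491998034) (nat_lit 2) (nat_lit 5) (nat_lit 4) (nat_lit 4) (nat_lit 2) (nat_lit 4) (nat_lit 413)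 (nat_lit 366) (nat_lit 241))) (XT.nd (nat_lit 49452) (nat_lit 0) (nat_lit 5092) (XT.lf (nat_lit 0) (nat_lit 9733143980370) (nat_lit 152) (nat_lit 3168457191602) (nat_lit 0) (nat_lit 9385239634890) (nat_lit 2) (nat_lit 5) (nat_lit 4) (nat_lit 4) (nat_lit 2) (nat_lit 4) (nat_lit 414) (nat_lit 366) (nat_lit 240)) (XT.lf (nat_lit 0) (nat_lit 81108314851) (nat_lit 532) (nat_lit 3684400448) (nat_lit 532) (nat_lit 3684400448) (nat_lit 69) (nat_lit 3) (nat_lit 76) (nat_lit 3) (nat_lit 76) (nat_lit 5) (nat_lit 367) (nat_lit 367) (nat_lit 286))))) (XT.nd (nat_lit 312) (nat_lit 1216) (nat_lit 0) (XT.nd (nat_lit 156) (nat_lit 0) (nat_lit 76) (XT.nd (nat_lit 78) (nat_lit 456) (nat_lit 0) (XT.lf (nat_lit 76) (nat_lit 163386619598) (nat_lit 0) (nat_lit 14929241586) (nat_lit 532) (nat_lit 11595296556) (nat_lit 70) (nat_lit 5) (nat_lit 69) (nat_lit 3) (nat_lit 76) (nat_lit 5) (nat_lit 368) (nat_lit 367)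 (nat_lit 285)) (XT.lf (nat_lit 0) (nat_lit 597557614) (nat_lit 532) (nat_lit 44729331546) (nat_lit 608) (nat_lit 158845696542) (nat_lit 63) (nat_lit 5) (nat_lit 70) (nat_lit 5) (nat_lit 71) (nat_lit 5) (nat_lit 369) (nat_lit 367) (nat_lit 284))) (XT.nd (nat_lit 78) (nat_lit 0) (nat_lit 76) (XT.lf (nat_lit 0) (nat_lit 22478432494) (nat_lit 532) (nat_lit 61834026065) (nat_lit 608) (nat_lit 135553022434) (nat_lit 64) (nat_lit 5) (nat_lit 71) (nat_lit 5) (nat_lit 72) (nat_lit 5) (nat_lit 370) (nat_lit 367) (nat_lit 283)) (XT.lf (nat_lit 0) (nat_lit 56767262230) (nat_lit 532) (nat_lit 77037253418) (nat_lit 76) (nat_lit 103377729338) (nat_lit 65) (nat_lit 5) (nat_lit 72) (nat_lit 5) (nat_lit 66) (nat_lit 5) (nat_lit 371) (nat_lit 367) (nat_lit 282)))) (XT.nd (nat_lit 156) (nat_lit 684) (nat_lit 0) (XT.nd (nat_lit 78) (nat_lit 228) (nat_lit 0) (XT.lf (nat_lit 0) (nat_lit 105959278937) (nat_lit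 532) (nat_lit 89723209713) (nat_lit 76) (nat_lit 60633246183) (nat_lit 59) (nat_lit 5) (nat_lit 66) (nat_lit 5) (nat_lit 60) (nat_lit 5) (nat_lit 372) (nat_lit 367) (nat_lit 281)) (XT.lf (nat_lit 0) (nat_lit 172959042368) (nat_lit 304) (nat_lit 99171327741) (nat_lit 76) (nat_lit 5354562736) (nat_lit 56) (nat_lit 5) (nat_lit 60) (nat_lit 5) (nat_lit 57) (nat_lit 5) (nat_lit 373) (nat_lit 367) (nat_lit 280))) (XT.nd (nat_lit 78) (nat_lit 456) (nat_lit 0) (XT.lf (nat_lit 0) (nat_lit 194624314388) (nat_lit 228) (nat_lit 68156958273) (nat_lit 304) (nat_lit 38026437904) (nat_lit 53) (nat_lit 5) (nat_lit 56) (nat_lit 5) (nat_lit 57) (nat_lit 5) (nat_lit 374) (nat_lit 367) (nat_lit 279)) (XT.nd (nat_lit 78) (nat_lit 228) (nat_lit 0) (XT.lf (nat_lit 0) (nat_lit 49046787727) (nat_lit 228) (nat_lit 109973639728) (nat_lit 76) (nat_lit 167532729630) (nat_lit 50) (nat_lit 5) (nat_lit 53) (nat_lit 5) (nat_lit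 51) (nat_lit 5) (nat_lit 375) (nat_lit 367) (nat_lit 278)) (XT.lf (nat_lit 0) (nat_lit 160161573319) (nat_lit 304) (nat_lit 109706470755) (nat_lit 76) (nat_lit 85154787426) (nat_lit 47) (nat_lit 5) (nat_lit 51) (nat_lit 5) (nat_lit 48) (nat_lit 5) (nat_lit 376) (nat_lit 367) (nat_lit 277))))))))
noncomputable def xc98 : XT := (XT.nd (nat_lit 1248) (nat_lit 1064) (nat_lit 0) (XT.nd (nat_lit 624) (nat_lit 836) (nat_lit 0) (XT.nd (nat_lit 312) (nat_lit 684) (nat_lit 0) (XT.nd (nat_lit 156) (nat_lit 304) (nat_lit 0) (XT.nd (nat_lit 78) (nat_lit 228) (nat_lit 0) (XT.lf (nat_lit 0) (nat_lit 282713547919) (nat_lit 152) (nat_lit 19712069251) (nat_lit 228) (nat_lit 84178776789) (nat_lit 45) (nat_lit 5) (nat_lit 47) (nat_lit 5) (nat_lit 48) (nat_lit 5) (nat_lit 377) (nat_lit 367) (nat_lit 276)) (XT.lf (nat_lit 0) (nat_lit 59013029223) (nat_lit 228) (nat_lit 95164146486) (nat_lit 76) (nat_lit 267218015565)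 (nat_lit 42) (nat_lit 5) (nat_lit 45) (nat_lit 5) (nat_lit 43) (nat_lit 5) (nat_lit 378) (nat_lit 367) (nat_lit 275))) (XT.nd (nat_lit 78) (nat_lit 152) (nat_lit 0) (XT.lf (nat_lit 0) (nat_lit 235299437253) (nat_lit 228) (nat_lit 81645294829) (nat_lit 76) (nat_lit 142956946921) (nat_lit 40) (nat_lit 5) (nat_lit 43) (nat_lit 5) (nat_lit 41) (nat_lit 5) (nat_lit 379) (nat_lit 367) (nat_lit 274)) (XT.lf (nat_lit 0) (nat_lit 442278469658) (nat_lit 152) (nat_lit 13493665015) (nat_lit 228) (nat_lit 46992539037) (nat_lit 38) (nat_lit 5) (nat_lit 40) (nat_lit 5) (nat_lit 41) (nat_lit 5) (nat_lit 380) (nat_lit 367) (nat_lit 273)))) (XT.nd (nat_lit 156) (nat_lit 380) (nat_lit 0) (XT.nd (nat_lit 78) (nat_lit 152) (nat_lit 0) (XT.lf (nat_lit 0) (nat_lit 172892022307) (nat_lit 152) (nat_lit 39075189254) (nat_lit 76) (nat_lit 337907330934) (nat_lit 36) (nat_lit 5) (nat_lit 38) (nat_lit 5) (nat_lit 37)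 (nat_lit 5) (nat_lit 381) (nat_lit 367) (nat_lit 272)) (XT.lf (nat_lit 0) (nat_lit 443312918238) (nat_lit 228) (nat_lit 10773201692) (nat_lit 76) (nat_lit 148240234235) (nat_lit 34) (nat_lit 5) (nat_lit 37) (nat_lit 5) (nat_lit 35) (nat_lit 4) (nat_lit 382) (nat_lit 367) (nat_lit 271))) (XT.nd (nat_lit 78) (nat_lit 76) (nat_lit 0) (XT.lf (nat_lit 0) (nat_lit 22504599675) (nat_lit 152) (nat_lit 89216149849) (nat_lit 228) (nat_lit 548776491917) (nat_lit 30) (nat_lit 5) (nat_lit 32) (nat_lit 5) (nat_lit 33) (nat_lit 5) (nat_lit 383) (nat_lit 367) (nat_lit 270)) (XT.lf (nat_lit 0) (nat_lit 55292288592) (nat_lit 76) (nat_lit 386561380443) (nat_lit 152) (nat_lit 282953357192) (nat_lit 29) (nat_lit 5) (nat_lit 30) (nat_lit 5) (nat_lit 31) (nat_lit 4) (nat_lit 384) (nat_lit 367) (nat_lit 269))))) (XT.nd (nat_lit 312) (nat_lit 380) (nat_lit 0) (XT.nd (nat_lit 156) (nat_lit 228) (nat_lit 0) (XT.nd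 (nat_lit 78) (nat_lit 76) (nat_lit 0) (XT.lf (nat_lit 0) (nat_lit 46616230133) (nat_lit 152) (nat_lit 702819231954) (nat_lit 76) (nat_lit 47283203277) (nat_lit 27) (nat_lit 5) (nat_lit 29) (nat_lit 5) (nat_lit 28) (nat_lit 4) (nat_lit 385) (nat_lit 367) (nat_lit 268)) (XT.lf (nat_lit 0) (nat_lit 121569570449) (nat_lit 76) (nat_lit 321387479186) (nat_lit 152) (nat_lit 433144862507) (nat_lit 26) (nat_lit 5) (nat_lit 27) (nat_lit 5) (nat_lit 28) (nat_lit 4) (nat_lit 386) (nat_lit 367) (nat_lit 267))) (XT.nd (nat_lit 78) (nat_lit 152) (nat_lit 0) (XT.lf (nat_lit 0) (nat_lit 149246413674) (nat_lit 76) (nat_lit 778194504659) (nat_lit 76) (nat_lit 37656373522) (nat_lit 25) (nat_lit 4) (nat_lit 26) (nat_lit 5) (nat_lit 26) (nat_lit 4) (nat_lit 387) (nat_lit 367) (nat_lit 266)) (XT.lf (nat_lit 0) (nat_lit 156959126146) (nat_lit 76) (nat_lit 274529974242) (nat_lit 152) (nat_lit 632334149295) (nat_lit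 23) (nat_lit 5) (nat_lit 24) (nat_lit 5) (nat_lit 25) (nat_lit 4) (nat_lit 388) (nat_lit 367) (nat_lit 265)))) (XT.nd (nat_lit 156) (nat_lit 152) (nat_lit 0) (XT.nd (nat_lit 78) (nat_lit 152) (nat_lit 0) (XT.lf (nat_lit 0) (nat_lit 148058360122) (nat_lit 76) (nat_lit 856039683297) (nat_lit 76) (nat_lit 170356104725) (nat_lit 22) (nat_lit 4) (nat_lit 23) (nat_lit 5) (nat_lit 23) (nat_lit 4) (nat_lit 389) (nat_lit 367) (nat_lit 264)) (XT.lf (nat_lit 0) (nat_lit 104855036427) (nat_lit 76) (nat_lit 275211629474) (nat_lit 152) (nat_lit 917942396773) (nat_lit 20) (nat_lit 5) (nat_lit 21) (nat_lit 5) (nat_lit 22) (nat_lit 4) (nat_lit 390) (nat_lit 367) (nat_lit 263))) (XT.nd (nat_lit 78) (nat_lit 76) (nat_lit 0) (XT.lf (nat_lit 0) (nat_lit 16115006323) (nat_lit 76) (nat_lit 1027629124758) (nat_lit 76) (nat_lit 392736835689) (nat_lit 19) (nat_lit 4) (nat_lit 20) (nat_lit 5) (nat_lit 20) (nat_lit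 4) (nat_lit 391) (nat_lit 367) (nat_lit 262)) (XT.lf (nat_lit 0) (nat_lit 243933249349) (nat_lit 152) (nat_lit 127511165482) (nat_lit 76) (nat_lit 1220412697233) (nat_lit 18) (nat_lit 5) (nat_lit 20) (nat_lit 5) (nat_lit 19) (nat_lit 4) (nat_lit 392) (nat_lit 367) (nat_lit 261)))))) (XT.nd (nat_lit 624) (nat_lit 380) (nat_lit 0) (XT.nd (nat_lit 312) (nat_lit 304) (nat_lit 0) (XT.nd (nat_lit 156) (nat_lit 228) (nat_lit 0) (XT.nd (nat_lit 78) (nat_lit 76) (nat_lit 0) (XT.lf (nat_lit 0) (nat_lit 998031494285) (nat_lit 152) (nat_lit 357909341324) (nat_lit 0) (nat_lit 410168202973) (nat_lit 17) (nat_lit 5) (nat_lit 19) (nat_lit 4) (nat_lit 17) (nat_lit 4) (nat_lit 393) (nat_lit 367) (nat_lit 260)) (XT.lf (nat_lit 0) (nat_lit 1268892447400) (nat_lit 76) (nat_lit 640950858090) (nat_lit 76) (nat_lit 53087542231) (nat_lit 16) (nat_lit 4) (nat_lit 17) (nat_lit 5) (nat_lit 17) (nat_lit 4) (nat_lit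 394) (nat_lit 367) (nat_lit 259))) (XT.nd (nat_lit 78) (nat_lit 76) (nat_lit 0) (XT.lf (nat_lit 0) (nat_lit 771267590103) (nat_lit 152) (nat_lit 1186331390839) (nat_lit 0) (nat_lit 226949685284) (nat_lit 14) (nat_lit 5) (nat_lit 16) (nat_lit 4) (nat_lit 14) (nat_lit 4) (nat_lit 395) (nat_lit 367) (nat_lit 258)) (XT.lf (nat_lit 0) (nat_lit 556674246200) (nat_lit 76) (nat_lit 1211393841938) (nat_lit 76) (nat_lit 667075919933) (nat_lit 13) (nat_lit 4) (nat_lit 14) (nat_lit 5) (nat_lit 14) (nat_lit 4) (nat_lit 396) (nat_lit 367) (nat_lit 257)))) (XT.nd (nat_lit 156) (nat_lit 152) (nat_lit 0) (XT.nd (nat_lit 78) (nat_lit 76) (nat_lit 0) (XT.lf (nat_lit 0) (nat_lit 216938226513) (nat_lit 152) (nat_lit 93086425801) (nat_lit 76) (nat_lit 2410101534073) (nat_lit 12) (nat_lit 5) (nat_lit 14) (nat_lit 5) (nat_lit 13) (nat_lit 4) (nat_lit 397) (nat_lit 367) (nat_lit 256)) (XT.lf (nat_lit 0) (nat_lit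 1263564469166) (nat_lit 152) (nat_lit 1017778058122) (nat_lit 0) (nat_lit 759566367365) (nat_lit 11) (nat_lit 5) (nat_lit 13) (nat_lit 4) (nat_lit 11) (nat_lit 4) (nat_lit 398) (nat_lit 367) (nat_lit 255))) (XT.nd (nat_lit 78) (nat_lit 76) (nat_lit 0) (XT.lf (nat_lit 0) (nat_lit 1099165207691) (nat_lit 76) (nat_lit 1405809360084) (nat_lit 76) (nat_lit 901811247820) (nat_lit 10) (nat_lit 4) (nat_lit 11) (nat_lit 5) (nat_lit 11) (nat_lit 4) (nat_lit 399) (nat_lit 367) (nat_lit 254)) (XT.lf (nat_lit 0) (nat_lit 130197901366) (nat_lit 152) (nat_lit 233186486520) (nat_lit 76) (nat_lit 3461525677390) (nat_lit 9) (nat_lit 5) (nat_lit 11) (nat_lit 5) (nat_lit 10) (nat_lit 4) (nat_lit 400) (nat_lit 367) (nat_lit 253))))) (XT.nd (nat_lit 312) (nat_lit 152) (nat_lit 0) (XT.nd (nat_lit 156) (nat_lit 76) (nat_lit 0) (XT.nd (nat_lit 78) (nat_lit 76) (nat_lit 0) (XT.lf (nat_lit 0) (nat_lit 1341127610151)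 (nat_lit 152) (nat_lit 2082087454993) (nat_lit 0) (nat_lit 874462675638) (nat_lit 8) (nat_lit 5) (nat_lit 10) (nat_lit 4) (nat_lit 8) (nat_lit 4) (nat_lit 401) (nat_lit 367) (nat_lit 252)) (XT.lf (nat_lit 0) (nat_lit 205016203531) (nat_lit 76) (nat_lit 2550626803223) (nat_lit 76) (nat_lit 2083961862340) (nat_lit 7) (nat_lit 4) (nat_lit 8) (nat_lit 5) (nat_lit 8) (nat_lit 4) (nat_lit 402) (nat_lit 367) (nat_lit 251))) (XT.nd (nat_lit 78) (nat_lit 76) (nat_lit 0) (XT.lf (nat_lit 0) (nat_lit 2961270232226) (nat_lit 76) (nat_lit 1481683182357) (nat_lit 76) (nat_lit 1015018235934) (nat_lit 7) (nat_lit 4) (nat_lit 8) (nat_lit 5) (nat_lit 8) (nat_lit 4) (nat_lit 403) (nat_lit 367) (nat_lit 250)) (XT.lf (nat_lit 0) (nat_lit 203548403984) (nat_lit 152) (nat_lit 43284270950) (nat_lit 76) (nat_lit 5921848526674) (nat_lit 6) (nat_lit 5) (nat_lit 8) (nat_lit 5) (nat_lit 7) (nat_lit 4) (nat_lit 404) (nat_lit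 367) (nat_lit 249)))) (XT.nd (nat_lit 156) (nat_lit 76) (nat_lit 0) (XT.nd (nat_lit 78) (nat_lit 0) (nat_lit 0) (XT.lf (nat_lit 0) (nat_lit 1646884592093) (nat_lit 152) (nat_lit 4114049256642) (nat_lit 0) (nat_lit 1214787411141) (nat_lit 5) (nat_lit 5) (nat_lit 7) (nat_lit 4) (nat_lit 5) (nat_lit 4) (nat_lit 405) (nat_lit 367) (nat_lit 248)) (XT.lf (nat_lit 0) (nat_lit 3314840871816) (nat_lit 152) (nat_lit 1705583194506) (nat_lit 0) (nat_lit 2882743687492) (nat_lit 5) (nat_lit 5) (nat_lit 7) (nat_lit 4) (nat_lit 5) (nat_lit 4) (nat_lit 406) (nat_lit 367) (nat_lit 247))) (XT.nd (nat_lit 78) (nat_lit 0) (nat_lit 0) (XT.lf (nat_lit 0) (nat_lit 1120189129871) (nat_lit 76) (nat_lit 4139742017460) (nat_lit 76) (nat_lit 3707644830204) (nat_lit 4) (nat_lit 4) (nat_lit 5) (nat_lit 5) (nat_lit 5) (nat_lit 4) (nat_lit 407) (nat_lit 367) (nat_lit 246)) (XT.nd (nat_lit 78) (nat_lit 0) (nat_lit 0) (XT.lf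 (nat_lit 0) (nat_lit 4473112199238) (nat_lit 76) (nat_lit 3073328964702) (nat_lit 76) (nat_lit 2641231774896) (nat_lit 4) (nat_lit 4) (nat_lit 5) (nat_lit 5) (nat_lit 5) (nat_lit 4) (nat_lit 408) (nat_lit 367) (nat_lit 245)) (XT.lf (nat_lit 0) (nat_lit 8328973693870) (nat_lit 76) (nat_lit 1846953971932) (nat_lit 76) (nat_lit 1414856779908) (nat_lit 4) (nat_lit 4) (nat_lit 5) (nat_lit 5) (nat_lit 5) (nat_lit 4) (nat_lit 409) (nat_lit 367) (nat_lit 244))))))))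
noncomputable def xc99 : XT := (XT.nd (nat_lit 50778) (nat_lit 0) (nat_lit 912) (XT.nd (nat_lit 50076) (nat_lit 0) (nat_lit 3040) (XT.nd (nat_lit 312) (nat_lit 0) (nat_lit 0) (XT.nd (nat_lit 156) (nat_lit 0) (nat_lit 0) (XT.nd (nat_lit 78) (nat_lit 152) (nat_lit 0) (XT.lf (nat_lit 0) (nat_lit 12763214382141) (nat_lit 76) (nat_lit 436622745813) (nat_lit 76) (nat_lit 4525551861) (nat_lit 4) (nat_lit 4) (nat_lit 5) (nat_lit 5) (nat_lit 5) (nat_lit 4) (nat_lit 410) (nat_lit 367) (nat_lit 243)) (XT.lf (nat_lit 0) (nat_lit 1637749324360) (nat_lit 152) (nat_lit 12173353151089) (nat_lit 0) (nat_lit 1237659328408) (nat_lit 2) (nat_lit 5) (nat_lit 4) (nat_lit 4) (nat_lit 2) (nat_lit 4) (nat_lit 411) (nat_lit 367) (nat_lit 242))) (XT.nd (nat_lit 78) (nat_lit 0) (nat_lit 0) (XT.lf (nat_lit 0) (nat_lit 3551358137695) (nat_lit 152) (nat_lit 10465164261166) (nat_lit 0) (nat_lit 3151268140393) (nat_lit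 2) (nat_lit 5) (nat_lit 4) (nat_lit 4) (nat_lit 2) (nat_lit 4) (nat_lit 412) (nat_lit 367) (nat_lit 241)) (XT.lf (nat_lit 0) (nat_lit 5752008262130) (nat_lit 152) (nat_lit 8500747060050) (nat_lit 0) (nat_lit 5351918263653) (nat_lit 2) (nat_lit 5) (nat_lit 4) (nat_lit 4) (nat_lit 2) (nat_lit 4) (nat_lit 413) (nat_lit 367) (nat_lit 240)))) (XT.nd (nat_lit 49608) (nat_lit 0) (nat_lit 4636) (XT.nd (nat_lit 49530) (nat_lit 0) (nat_lit 5092) (XT.lf (nat_lit 0) (nat_lit 8282755895751) (nat_lit 152) (nat_lit 6241667298152) (nat_lit 0) (nat_lit 7882665896253) (nat_lit 2) (nat_lit 5) (nat_lit 4) (nat_lit 4) (nat_lit 2) (nat_lit 4) (nat_lit 414) (nat_lit 367) (nat_lit 239)) (XT.lf (nat_lit 0) (nat_lit 93277947944) (nat_lit 532) (nat_lit 4235231008) (nat_lit 532) (nat_lit 4235231008) (nat_lit 69) (nat_lit 3) (nat_lit 76) (nat_lit 3) (nat_lit 76) (nat_lit 5) (nat_lit 368) (nat_lit 368) (nat_lit 284)))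 (XT.nd (nat_lit 78) (nat_lit 456) (nat_lit 0) (XT.lf (nat_lit 76) (nat_lit 187897961834) (nat_lit 0) (nat_lit 17171247541) (nat_lit 532) (nat_lit 13328140543) (nat_lit 70) (nat_lit 5) (nat_lit 69) (nat_lit 3) (nat_lit 76) (nat_lit 5) (nat_lit 369) (nat_lit 368) (nat_lit 283)) (XT.lf (nat_lit 0) (nat_lit 692551528) (nat_lit 532) (nat_lit 51434881632) (nat_lit 608) (nat_lit 182670608385) (nat_lit 63) (nat_lit 5) (nat_lit 70) (nat_lit 5) (nat_lit 71) (nat_lit 5) (nat_lit 370) (nat_lit 368) (nat_lit 282))))) (XT.nd (nat_lit 312) (nat_lit 1064) (nat_lit 0) (XT.nd (nat_lit 156) (nat_lit 608) (nat_lit 0) (XT.nd (nat_lit 78) (nat_lit 0) (nat_lit 76) (XT.lf (nat_lit 0) (nat_lit 25854913831) (nat_lit 532) (nat_lit 71105194350) (nat_lit 608) (nat_lit 155884814871) (nat_lit 64) (nat_lit 5) (nat_lit 71) (nat_lit 5) (nat_lit 72) (nat_lit 5) (nat_lit 371) (nat_lit 368) (nat_lit 281)) (XT.lf (nat_lit 0)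 (nat_lit 65286525397) (nat_lit 532) (nat_lit 88588887413) (nat_lit 76) (nat_lit 118883832605) (nat_lit 65) (nat_lit 5) (nat_lit 72) (nat_lit 5) (nat_lit 66) (nat_lit 5) (nat_lit 372) (nat_lit 368) (nat_lit 280))) (XT.nd (nat_lit 78) (nat_lit 228) (nat_lit 0) (XT.lf (nat_lit 0) (nat_lit 121856884906) (nat_lit 532) (nat_lit 103177770090) (nat_lit 76) (nat_lit 69728140835) (nat_lit 59) (nat_lit 5) (nat_lit 66) (nat_lit 5) (nat_lit 60) (nat_lit 5) (nat_lit 373) (nat_lit 368) (nat_lit 279)) (XT.lf (nat_lit 0) (nat_lit 198906221290) (nat_lit 304) (nat_lit 114043177188) (nat_lit 76) (nat_lit 6158006665) (nat_lit 56) (nat_lit 5) (nat_lit 60) (nat_lit 5) (nat_lit 57) (nat_lit 5) (nat_lit 374) (nat_lit 368) (nat_lit 278)))) (XT.nd (nat_lit 156) (nat_lit 608) (nat_lit 0) (XT.nd (nat_lit 78) (nat_lit 228) (nat_lit 0) (XT.lf (nat_lit 0) (nat_lit 223821485401) (nat_lit 228) (nat_lit 78379952097) (nat_lit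 304) (nat_lit 43727190151) (nat_lit 53) (nat_lit 5) (nat_lit 56) (nat_lit 5) (nat_lit 57) (nat_lit 5) (nat_lit 375) (nat_lit 368) (nat_lit 277)) (XT.lf (nat_lit 0) (nat_lit 56406556899) (nat_lit 228) (nat_lit 126466106847) (nat_lit 76) (nat_lit 192663245545) (nat_lit 50) (nat_lit 5) (nat_lit 53) (nat_lit 5) (nat_lit 51) (nat_lit 5) (nat_lit 376) (nat_lit 368) (nat_lit 276))) (XT.nd (nat_lit 78) (nat_lit 380) (nat_lit 0) (XT.lf (nat_lit 0) (nat_lit 184188299646) (nat_lit 304) (nat_lit 126158986030) (nat_lit 76) (nat_lit 97928770213) (nat_lit 47) (nat_lit 5) (nat_lit 51) (nat_lit 5) (nat_lit 48) (nat_lit 5) (nat_lit 377) (nat_lit 368) (nat_lit 275)) (XT.nd (nat_lit 78) (nat_lit 228) (nat_lit 0) (XT.lf (nat_lit 0) (nat_lit 325123742968) (nat_lit 152) (nat_lit 22667958348) (nat_lit 228) (nat_lit 96803171446) (nat_lit 45) (nat_lit 5) (nat_lit 47) (nat_lit 5) (nat_lit 48) (nat_lit 5) (nat_lit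 378) (nat_lit 368) (nat_lit 274)) (XT.lf (nat_lit 0) (nat_lit 67867079000) (nat_lit 228) (nat_lit 109435617452) (nat_lit 76) (nat_lit 307301605104) (nat_lit 42) (nat_lit 5) (nat_lit 45) (nat_lit 5) (nat_lit 43) (nat_lit 5) (nat_lit 379) (nat_lit 368) (nat_lit 273))))))) (XT.nd (nat_lit 624) (nat_lit 912) (nat_lit 0) (XT.nd (nat_lit 312) (nat_lit 608) (nat_lit 0) (XT.nd (nat_lit 156) (nat_lit 304) (nat_lit 0) (XT.nd (nat_lit 78) (nat_lit 152) (nat_lit 0) (XT.lf (nat_lit 0) (nat_lit 270596268168) (nat_lit 228) (nat_lit 93889076650) (nat_lit 76) (nat_lit 164401432134) (nat_lit 40) (nat_lit 5) (nat_lit 43) (nat_lit 5) (nat_lit 41) (nat_lit 5) (nat_lit 380) (nat_lit 368) (nat_lit 272)) (XT.lf (nat_lit 0) (nat_lit 508622997525) (nat_lit 152) (nat_lit 15516689166) (nat_lit 228) (nat_lit 54039548943) (nat_lit 38) (nat_lit 5) (nat_lit 40) (nat_lit 5) (nat_lit 41) (nat_lit 5) (nat_lit 381) (nat_lit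 368) (nat_lit 271))) (XT.nd (nat_lit 78) (nat_lit 152) (nat_lit 0) (XT.lf (nat_lit 0) (nat_lit 198827458052) (nat_lit 152) (nat_lit 44933752414) (nat_lit 76) (nat_lit 388594382338) (nat_lit 36) (nat_lit 5) (nat_lit 38) (nat_lit 5) (nat_lit 37) (nat_lit 5) (nat_lit 382) (nat_lit 368) (nat_lit 270)) (XT.lf (nat_lit 0) (nat_lit 509811359423) (nat_lit 228) (nat_lit 12386601995) (nat_lit 76) (nat_lit 170477225185) (nat_lit 34) (nat_lit 5) (nat_lit 37) (nat_lit 5) (nat_lit 35) (nat_lit 4) (nat_lit 383) (nat_lit 368) (nat_lit 269)))) (XT.nd (nat_lit 156) (nat_lit 228) (nat_lit 0) (XT.nd (nat_lit 78) (nat_lit 76) (nat_lit 0) (XT.lf (nat_lit 0) (nat_lit 25882853501) (nat_lit 152) (nat_lit 102597470028) (nat_lit 228) (nat_lit 631091386871) (nat_lit 30) (nat_lit 5) (nat_lit 32) (nat_lit 5) (nat_lit 33) (nat_lit 5) (nat_lit 384) (nat_lit 368) (nat_lit 268)) (XT.lf (nat_lit 0) (nat_lit 63588561802) (nat_lit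 76) (nat_lit 444544510016) (nat_lit 152) (nat_lit 325394899860) (nat_lit 29) (nat_lit 5) (nat_lit 30) (nat_lit 5) (nat_lit 31) (nat_lit 4) (nat_lit 385) (nat_lit 368) (nat_lit 267))) (XT.nd (nat_lit 78) (nat_lit 76) (nat_lit 0) (XT.lf (nat_lit 0) (nat_lit 53609951328) (nat_lit 152) (nat_lit 808239748942) (nat_lit 76) (nat_lit 54376661734) (nat_lit 27) (nat_lit 5) (nat_lit 29) (nat_lit 5) (nat_lit 28) (nat_lit 4) (nat_lit 386) (nat_lit 368) (nat_lit 266)) (XT.lf (nat_lit 0) (nat_lit 139807173400) (nat_lit 76) (nat_lit 369594604654) (nat_lit 152) (nat_lit 498115327030) (nat_lit 26) (nat_lit 5) (nat_lit 27) (nat_lit 5) (nat_lit 28) (nat_lit 4) (nat_lit 387) (nat_lit 368) (nat_lit 265))))) (XT.nd (nat_lit 312) (nat_lit 456) (nat_lit 0) (XT.nd (nat_lit 156) (nat_lit 228) (nat_lit 0) (XT.nd (nat_lit 78) (nat_lit 152) (nat_lit 0) (XT.lf (nat_lit 0) (nat_lit 171635423648) (nat_lit 76) (nat_lit 894922720763)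 (nat_lit 76) (nat_lit 43303653981) (nat_lit 25) (nat_lit 4) (nat_lit 26) (nat_lit 5) (nat_lit 26) (nat_lit 4) (nat_lit 388) (nat_lit 368) (nat_lit 264)) (XT.lf (nat_lit 0) (nat_lit 180504923622) (nat_lit 76) (nat_lit 315708559304) (nat_lit 152) (nat_lit 727183172670) (nat_lit 23) (nat_lit 5) (nat_lit 24) (nat_lit 5) (nat_lit 25) (nat_lit 4) (nat_lit 389) (nat_lit 368) (nat_lit 263))) (XT.nd (nat_lit 78) (nat_lit 152) (nat_lit 0) (XT.lf (nat_lit 0) (nat_lit 170268934033) (nat_lit 76) (nat_lit 984444763486) (nat_lit 76) (nat_lit 195908496917) (nat_lit 22) (nat_lit 4) (nat_lit 23) (nat_lit 5) (nat_lit 23) (nat_lit 4) (nat_lit 390) (nat_lit 368) (nat_lit 262)) (XT.lf (nat_lit 0) (nat_lit 120585004710) (nat_lit 76) (nat_lit 316492547763) (nat_lit 152) (nat_lit 1055632798569) (nat_lit 20) (nat_lit 5) (nat_lit 21) (nat_lit 5) (nat_lit 22) (nat_lit 4) (nat_lit 391) (nat_lit 368) (nat_lit 261))))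 (XT.nd (nat_lit 156) (nat_lit 304) (nat_lit 0) (XT.nd (nat_lit 78) (nat_lit 76) (nat_lit 0) (XT.lf (nat_lit 0) (nat_lit 18533871943) (nat_lit 76) (nat_lit 1181772705942) (nat_lit 76) (nat_lit 451646467645) (nat_lit 19) (nat_lit 4) (nat_lit 20) (nat_lit 5) (nat_lit 20) (nat_lit 4) (nat_lit 392) (nat_lit 368) (nat_lit 260)) (XT.lf (nat_lit 0) (nat_lit 280523974758) (nat_lit 152) (nat_lit 146636397311) (nat_lit 76) (nat_lit 1403475247696) (nat_lit 18) (nat_lit 5) (nat_lit 20) (nat_lit 5) (nat_lit 19) (nat_lit 4) (nat_lit 393) (nat_lit 368) (nat_lit 259))) (XT.nd (nat_lit 78) (nat_lit 228) (nat_lit 0) (XT.lf (nat_lit 0) (nat_lit 1147736907507) (nat_lit 152) (nat_lit 411594383300) (nat_lit 0) (nat_lit 471694048377) (nat_lit 17) (nat_lit 5) (nat_lit 19) (nat_lit 4) (nat_lit 17) (nat_lit 4) (nat_lit 394) (nat_lit 368) (nat_lit 258)) (XT.nd (nat_lit 78) (nat_lit 152) (nat_lit 0) (XT.lf (nat_lit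 0) (nat_lit 1459227558683) (nat_lit 76) (nat_lit 737092871754) (nat_lit 76) (nat_lit 61049994062) (nat_lit 16) (nat_lit 4) (nat_lit 17) (nat_lit 5) (nat_lit 17) (nat_lit 4) (nat_lit 395) (nat_lit 368) (nat_lit 257)) (XT.lf (nat_lit 0) (nat_lit 886958332035) (nat_lit 152) (nat_lit 1364279896211) (nat_lit 0) (nat_lit 260992689598) (nat_lit 14) (nat_lit 5) (nat_lit 16) (nat_lit 4) (nat_lit 14) (nat_lit 4) (nat_lit 396) (nat_lit 368) (nat_lit 256))))))))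
noncomputable def xc100 : XT := (XT.nd (nat_lit 1248) (nat_lit 0) (nat_lit 0) (XT.nd (nat_lit 624) (nat_lit 380) (nat_lit 0) (XT.nd (nat_lit 312) (nat_lit 228) (nat_lit 0) (XT.nd (nat_lit 156) (nat_lit 152) (nat_lit 0) (XT.nd (nat_lit 78) (nat_lit 76) (nat_lit 0) (XT.lf (nat_lit 0) (nat_lit 640176484534) (nat_lit 76) (nat_lit 1393102368024) (nat_lit 76) (nat_lit 767136712592) (nat_lit 13) (nat_lit 4) (nat_lit 14) (nat_lit 5) (nat_lit 14) (nat_lit 4) (nat_lit 397) (nat_lit 368) (nat_lit 255)) (XT.lf (nat_lit 0) (nat_lit 249479452273) (nat_lit 152) (nat_lit 107048406003) (nat_lit 76) (nat_lit 2771617216698) (nat_lit 12) (nat_lit 5) (nat_lit 14) (nat_lit 5) (nat_lit 13) (nat_lit 4) (nat_lit 398) (nat_lit 368) (nat_lit 254))) (XT.nd (nat_lit 78) (nat_lit 76) (nat_lit 0) (XT.lf (nat_lit 0) (nat_lit 1453099599683) (nat_lit 152) (nat_lit 1170443841314) (nat_lit 0) (nat_lit 873501751017) (nat_lit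 11) (nat_lit 5) (nat_lit 13) (nat_lit 4) (nat_lit 11) (nat_lit 4) (nat_lit 399) (nat_lit 368) (nat_lit 253)) (XT.lf (nat_lit 0) (nat_lit 1264040836030) (nat_lit 76) (nat_lit 1616680337410) (nat_lit 76) (nat_lit 1037082480833) (nat_lit 10) (nat_lit 4) (nat_lit 11) (nat_lit 5) (nat_lit 11) (nat_lit 4) (nat_lit 400) (nat_lit 368) (nat_lit 252)))) (XT.nd (nat_lit 156) (nat_lit 76) (nat_lit 0) (XT.nd (nat_lit 78) (nat_lit 76) (nat_lit 0) (XT.lf (nat_lit 0) (nat_lit 149727961737) (nat_lit 152) (nat_lit 268163703043) (nat_lit 76) (nat_lit 3980754880258) (nat_lit 9) (nat_lit 5) (nat_lit 11) (nat_lit 5) (nat_lit 10) (nat_lit 4) (nat_lit 401) (nat_lit 368) (nat_lit 251)) (XT.lf (nat_lit 0) (nat_lit 1542297102965) (nat_lit 152) (nat_lit 2394399861777) (nat_lit 0) (nat_lit 1005632409039) (nat_lit 8) (nat_lit 5) (nat_lit 10) (nat_lit 4) (nat_lit 8) (nat_lit 4) (nat_lit 402) (nat_lit 368) (nat_lit 250)))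 (XT.nd (nat_lit 78) (nat_lit 0) (nat_lit 0) (XT.lf (nat_lit 0) (nat_lit 235769285305) (nat_lit 76) (nat_lit 2933220493596) (nat_lit 76) (nat_lit 2396555794854) (nat_lit 7) (nat_lit 4) (nat_lit 8) (nat_lit 5) (nat_lit 8) (nat_lit 4) (nat_lit 403) (nat_lit 368) (nat_lit 249)) (XT.lf (nat_lit 0) (nat_lit 3405461333359) (nat_lit 76) (nat_lit 1703935372658) (nat_lit 76) (nat_lit 1167270669727) (nat_lit 7) (nat_lit 4) (nat_lit 8) (nat_lit 5) (nat_lit 8) (nat_lit 4) (nat_lit 404) (nat_lit 368) (nat_lit 248))))) (XT.nd (nat_lit 312) (nat_lit 152) (nat_lit 0) (XT.nd (nat_lit 156) (nat_lit 76) (nat_lit 0) (XT.nd (nat_lit 78) (nat_lit 76) (nat_lit 0) (XT.lf (nat_lit 0) (nat_lit 234080913721) (nat_lit 152) (nat_lit 49776406030) (nat_lit 76) (nat_lit 6810126042158) (nat_lit 6) (nat_lit 5) (nat_lit 8) (nat_lit 5) (nat_lit 7) (nat_lit 4) (nat_lit 405) (nat_lit 368) (nat_lit 247)) (XT.lf (nat_lit 0) (nat_lit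 1893917514331) (nat_lit 152) (nat_lit 4731156169791) (nat_lit 0) (nat_lit 1397005746054) (nat_lit 5) (nat_lit 5) (nat_lit 7) (nat_lit 4) (nat_lit 5) (nat_lit 4) (nat_lit 406) (nat_lit 368) (nat_lit 246))) (XT.nd (nat_lit 78) (nat_lit 76) (nat_lit 0) (XT.lf (nat_lit 0) (nat_lit 3812067205566) (nat_lit 152) (nat_lit 1961420260337) (nat_lit 0) (nat_lit 3315155434738) (nat_lit 5) (nat_lit 5) (nat_lit 7) (nat_lit 4) (nat_lit 5) (nat_lit 4) (nat_lit 407) (nat_lit 368) (nat_lit 245)) (XT.lf (nat_lit 0) (nat_lit 1288217877710) (nat_lit 76) (nat_lit 4760703127323) (nat_lit 76) (nat_lit 4263791354279) (nat_lit 4) (nat_lit 4) (nat_lit 5) (nat_lit 5) (nat_lit 5) (nat_lit 4) (nat_lit 408) (nat_lit 368) (nat_lit 244)))) (XT.nd (nat_lit 156) (nat_lit 152) (nat_lit 0) (XT.nd (nat_lit 78) (nat_lit 0) (nat_lit 0) (XT.lf (nat_lit 0) (nat_lit 5144079358131) (nat_lit 76) (nat_lit 3534328141793) (nat_lit 76)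 (nat_lit 3037416366820) (nat_lit 4) (nat_lit 4) (nat_lit 5) (nat_lit 5) (nat_lit 5) (nat_lit 4) (nat_lit 409) (nat_lit 368) (nat_lit 243)) (XT.lf (nat_lit 0) (nat_lit 9578320034044) (nat_lit 76) (nat_lit 2123996921970) (nat_lit 76) (nat_lit 1627085145321) (nat_lit 4) (nat_lit 4) (nat_lit 5) (nat_lit 5) (nat_lit 5) (nat_lit 4) (nat_lit 410) (nat_lit 368) (nat_lit 242))) (XT.nd (nat_lit 78) (nat_lit 152) (nat_lit 0) (XT.lf (nat_lit 0) (nat_lit 14677696788239) (nat_lit 76) (nat_lit 502116030944) (nat_lit 76) (nat_lit 5204252837) (nat_lit 4) (nat_lit 4) (nat_lit 5) (nat_lit 5) (nat_lit 5) (nat_lit 4) (nat_lit 411) (nat_lit 368) (nat_lit 241)) (XT.lf (nat_lit 0) (nat_lit 1883411840383) (nat_lit 152) (nat_lit 13999355883699) (nat_lit 0) (nat_lit 1423308340961) (nat_lit 2) (nat_lit 5) (nat_lit 4) (nat_lit 4) (nat_lit 2) (nat_lit 4) (nat_lit 412) (nat_lit 368) (nat_lit 240)))))) (XT.nd (nat_lit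 50154) (nat_lit 0) (nat_lit 2584) (XT.nd (nat_lit 49842) (nat_lit 0) (nat_lit 4332) (XT.nd (nat_lit 49686) (nat_lit 0) (nat_lit 5092) (XT.nd (nat_lit 78) (nat_lit 0) (nat_lit 0) (XT.lf (nat_lit 0) (nat_lit 4084061960409) (nat_lit 152) (nat_lit 12034938691600) (nat_lit 0) (nat_lit 3623958459966) (nat_lit 2) (nat_lit 5) (nat_lit 4) (nat_lit 4) (nat_lit 2) (nat_lit 4) (nat_lit 413) (nat_lit 368) (nat_lit 239)) (XT.lf (nat_lit 0) (nat_lit 6614809590196) (nat_lit 152) (nat_lit 9775858937543) (nat_lit 0) (nat_lit 6154706088866) (nat_lit 2) (nat_lit 5) (nat_lit 4) (nat_lit 4) (nat_lit 2) (nat_lit 4) (nat_lit 414) (nat_lit 368) (nat_lit 238))) (XT.nd (nat_lit 78) (nat_lit 0) (nat_lit 0) (XT.lf (nat_lit 0) (nat_lit 107272200338) (nat_lit 532) (nat_lit 4869132290) (nat_lit 532) (nat_lit 4869132290) (nat_lit 69) (nat_lit 3) (nat_lit 76) (nat_lit 3) (nat_lit 76) (nat_lit 5) (nat_lit 369) (nat_lit 369)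 (nat_lit 282)) (XT.lf (nat_lit 76) (nat_lit 216085188658) (nat_lit 0) (nat_lit 19748915555) (nat_lit 532) (nat_lit 15322484122) (nat_lit 70) (nat_lit 5) (nat_lit 69) (nat_lit 3) (nat_lit 76) (nat_lit 5) (nat_lit 370) (nat_lit 369) (nat_lit 281)))) (XT.nd (nat_lit 156) (nat_lit 304) (nat_lit 0) (XT.nd (nat_lit 78) (nat_lit 0) (nat_lit 76) (XT.lf (nat_lit 0) (nat_lit 800487393) (nat_lit 532) (nat_lit 59147202992) (nat_lit 608) (nat_lit 210069730730) (nat_lit 63) (nat_lit 5) (nat_lit 70) (nat_lit 5) (nat_lit 71) (nat_lit 5) (nat_lit 371) (nat_lit 369) (nat_lit 280)) (XT.lf (nat_lit 0) (nat_lit 29736717229) (nat_lit 532) (nat_lit 81767997605) (nat_lit 608) (nat_lit 179266659273) (nat_lit 64) (nat_lit 5) (nat_lit 71) (nat_lit 5) (nat_lit 72) (nat_lit 5) (nat_lit 372) (nat_lit 369) (nat_lit 279))) (XT.nd (nat_lit 78) (nat_lit 456) (nat_lit 0) (XT.lf (nat_lit 0) (nat_lit 75082660224) (nat_lit 532)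 (nat_lit 101874230720) (nat_lit 76) (nat_lit 136715986980) (nat_lit 65) (nat_lit 5) (nat_lit 72) (nat_lit 5) (nat_lit 66) (nat_lit 5) (nat_lit 373) (nat_lit 369) (nat_lit 278)) (XT.lf (nat_lit 0) (nat_lit 140138226057) (nat_lit 532) (nat_lit 118651470704) (nat_lit 76) (nat_lit 80187292187) (nat_lit 59) (nat_lit 5) (nat_lit 66) (nat_lit 5) (nat_lit 60) (nat_lit 5) (nat_lit 374) (nat_lit 369) (nat_lit 277))))) (XT.nd (nat_lit 312) (nat_lit 836) (nat_lit 0) (XT.nd (nat_lit 156) (nat_lit 456) (nat_lit 0) (XT.nd (nat_lit 78) (nat_lit 228) (nat_lit 0) (XT.lf (nat_lit 0) (nat_lit 228744666821) (nat_lit 304) (nat_lit 131146742830) (nat_lit 76) (nat_lit 7081903897) (nat_lit 56) (nat_lit 5) (nat_lit 60) (nat_lit 5) (nat_lit 57) (nat_lit 5) (nat_lit 375) (nat_lit 369) (nat_lit 276)) (XT.lf (nat_lit 0) (nat_lit 257397372751) (nat_lit 228) (nat_lit 90136529095) (nat_lit 304) (nat_lit 50283838853) (nat_lit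 53) (nat_lit 5) (nat_lit 56) (nat_lit 5) (nat_lit 57) (nat_lit 5) (nat_lit 376) (nat_lit 369) (nat_lit 275))) (XT.nd (nat_lit 78) (nat_lit 228) (nat_lit 0) (XT.lf (nat_lit 0) (nat_lit 64869620594) (nat_lit 228) (nat_lit 145433316757) (nat_lit 76) (nat_lit 221563190955) (nat_lit 50) (nat_lit 5) (nat_lit 53) (nat_lit 5) (nat_lit 51) (nat_lit 5) (nat_lit 377) (nat_lit 369) (nat_lit 274)) (XT.lf (nat_lit 0) (nat_lit 211818427639) (nat_lit 304) (nat_lit 145080221202) (nat_lit 76) (nat_lit 112618663947) (nat_lit 47) (nat_lit 5) (nat_lit 51) (nat_lit 5) (nat_lit 48) (nat_lit 5) (nat_lit 378) (nat_lit 369) (nat_lit 273)))) (XT.nd (nat_lit 156) (nat_lit 456) (nat_lit 0) (XT.nd (nat_lit 78) (nat_lit 228) (nat_lit 0) (XT.lf (nat_lit 0) (nat_lit 373894695991) (nat_lit 152) (nat_lit 26067455472) (nat_lit 228) (nat_lit 111321815888) (nat_lit 45) (nat_lit 5) (nat_lit 47) (nat_lit 5) (nat_lit 48) (nat_lit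 5) (nat_lit 379) (nat_lit 369) (nat_lit 272)) (XT.lf (nat_lit 0) (nat_lit 78048725268) (nat_lit 228) (nat_lit 125848577457) (nat_lit 76) (nat_lit 353397516724) (nat_lit 42) (nat_lit 5) (nat_lit 45) (nat_lit 5) (nat_lit 43) (nat_lit 5) (nat_lit 380) (nat_lit 369) (nat_lit 271))) (XT.nd (nat_lit 78) (nat_lit 304) (nat_lit 0) (XT.lf (nat_lit 0) (nat_lit 311187156655) (nat_lit 228) (nat_lit 107970160338) (nat_lit 76) (nat_lit 189062360130) (nat_lit 40) (nat_lit 5) (nat_lit 43) (nat_lit 5) (nat_lit 41) (nat_lit 5) (nat_lit 381) (nat_lit 369) (nat_lit 270)) (XT.nd (nat_lit 78) (nat_lit 152) (nat_lit 0) (XT.lf (nat_lit 0) (nat_lit 584918532159) (nat_lit 152) (nat_lit 17843417038) (nat_lit 228) (nat_lit 62144066577) (nat_lit 38) (nat_lit 5) (nat_lit 40) (nat_lit 5) (nat_lit 41) (nat_lit 5) (nat_lit 382) (nat_lit 369) (nat_lit 269)) (XT.lf (nat_lit 0) (nat_lit 228652811088) (nat_lit 152) (nat_lit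 51671762174) (nat_lit 76) (nat_lit 446884259358) (nat_lit 36) (nat_lit 5) (nat_lit 38) (nat_lit 5) (nat_lit 37) (nat_lit 5) (nat_lit 383) (nat_lit 369) (nat_lit 268))))))))
noncomputable def xc101 : XT := (XT.nd (nat_lit 1248) (nat_lit 760) (nat_lit 0) (XT.nd (nat_lit 624) (nat_lit 760) (nat_lit 0) (XT.nd (nat_lit 312) (nat_lit 380) (nat_lit 0) (XT.nd (nat_lit 156) (nat_lit 228) (nat_lit 0) (XT.nd (nat_lit 78) (nat_lit 304) (nat_lit 0) (XT.lf (nat_lit 0) (nat_lit 586284200160) (nat_lit 228) (nat_lit 14242641481) (nat_lit 76) (nat_lit 196049531696) (nat_lit 34) (nat_lit 5) (nat_lit 37) (nat_lit 5) (nat_lit 35) (nat_lit 4) (nat_lit 384) (nat_lit 369) (nat_lit 267)) (XT.lf (nat_lit 0) (nat_lit 29767220184) (nat_lit 152) (nat_lit 117986257036) (nat_lit 228) (nat_lit 725753901077) (nat_lit 30) (nat_lit 5) (nat_lit 32) (nat_lit 5) (nat_lit 33) (nat_lit 5) (nat_lit 385) (nat_lit 369) (nat_lit 266)))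 (XT.nd (nat_lit 78) (nat_lit 152) (nat_lit 0) (XT.lf (nat_lit 0) (nat_lit 73128683442) (nat_lit 76) (nat_lit 511225371779) (nat_lit 152) (nat_lit 374203030181) (nat_lit 29) (nat_lit 5) (nat_lit 30) (nat_lit 5) (nat_lit 31) (nat_lit 4) (nat_lit 386) (nat_lit 369) (nat_lit 265)) (XT.lf (nat_lit 0) (nat_lit 61652416938) (nat_lit 152) (nat_lit 929473920881) (nat_lit 76) (nat_lit 62533900476) (nat_lit 27) (nat_lit 5) (nat_lit 29) (nat_lit 5) (nat_lit 28) (nat_lit 4) (nat_lit 387) (nat_lit 369) (nat_lit 264)))) (XT.nd (nat_lit 156) (nat_lit 228) (nat_lit 0) (XT.nd (nat_lit 78) (nat_lit 76) (nat_lit 0) (XT.lf (nat_lit 0) (nat_lit 160779888263) (nat_lit 76) (nat_lit 425033041923) (nat_lit 152) (nat_lit 572831669674) (nat_lit 26) (nat_lit 5) (nat_lit 27) (nat_lit 5) (nat_lit 28) (nat_lit 4) (nat_lit 388) (nat_lit 369) (nat_lit 263)) (XT.lf (nat_lit 0) (nat_lit 197382285719) (nat_lit 76) (nat_lit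 1029160403286) (nat_lit 76) (nat_lit 49798313178) (nat_lit 25) (nat_lit 4) (nat_lit 26) (nat_lit 5) (nat_lit 26) (nat_lit 4) (nat_lit 389) (nat_lit 369) (nat_lit 262))) (XT.nd (nat_lit 78) (nat_lit 76) (nat_lit 0) (XT.lf (nat_lit 0) (nat_lit 207582120429) (nat_lit 76) (nat_lit 363064154297) (nat_lit 152) (nat_lit 836259817554) (nat_lit 23) (nat_lit 5) (nat_lit 24) (nat_lit 5) (nat_lit 25) (nat_lit 4) (nat_lit 390) (nat_lit 369) (nat_lit 261)) (XT.lf (nat_lit 0) (nat_lit 195810650239) (nat_lit 76) (nat_lit 1132110818421) (nat_lit 76) (nat_lit 225293997529) (nat_lit 22) (nat_lit 4) (nat_lit 23) (nat_lit 5) (nat_lit 23) (nat_lit 4) (nat_lit 391) (nat_lit 369) (nat_lit 260))))) (XT.nd (nat_lit 312) (nat_lit 380) (nat_lit 0) (XT.nd (nat_lit 156) (nat_lit 152) (nat_lit 0) (XT.nd (nat_lit 78) (nat_lit 76) (nat_lit 0) (XT.lf (nat_lit 0) (nat_lit 138674050553) (nat_lit 76) (nat_lit 363965805252)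 (nat_lit 152) (nat_lit 1213976994181) (nat_lit 20) (nat_lit 5) (nat_lit 21) (nat_lit 5) (nat_lit 22) (nat_lit 4) (nat_lit 392) (nat_lit 369) (nat_lit 259)) (XT.lf (nat_lit 0) (nat_lit 21315173658) (nat_lit 76) (nat_lit 1359038016347) (nat_lit 76) (nat_lit 519392762254) (nat_lit 19) (nat_lit 4) (nat_lit 20) (nat_lit 5) (nat_lit 20) (nat_lit 4) (nat_lit 393) (nat_lit 369) (nat_lit 258))) (XT.nd (nat_lit 78) (nat_lit 76) (nat_lit 0) (XT.lf (nat_lit 0) (nat_lit 322603129010) (nat_lit 152) (nat_lit 168630765797) (nat_lit 76) (nat_lit 1613997023227) (nat_lit 18) (nat_lit 5) (nat_lit 20) (nat_lit 5) (nat_lit 19) (nat_lit 4) (nat_lit 394) (nat_lit 369) (nat_lit 257)) (XT.lf (nat_lit 0) (nat_lit 1319897964676) (nat_lit 152) (nat_lit 473332513026) (nat_lit 0) (nat_lit 542448620630) (nat_lit 17) (nat_lit 5) (nat_lit 19) (nat_lit 4) (nat_lit 17) (nat_lit 4) (nat_lit 395) (nat_lit 369) (nat_lit 256))))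 (XT.nd (nat_lit 156) (nat_lit 152) (nat_lit 0) (XT.nd (nat_lit 78) (nat_lit 152) (nat_lit 0) (XT.lf (nat_lit 0) (nat_lit 1678112633258) (nat_lit 76) (nat_lit 847656337451) (nat_lit 76) (nat_lit 70206979369) (nat_lit 16) (nat_lit 4) (nat_lit 17) (nat_lit 5) (nat_lit 17) (nat_lit 4) (nat_lit 396) (nat_lit 369) (nat_lit 255)) (XT.lf (nat_lit 0) (nat_lit 1020002538110) (nat_lit 152) (nat_lit 1568920970810) (nat_lit 0) (nat_lit 300142010067) (nat_lit 14) (nat_lit 5) (nat_lit 16) (nat_lit 4) (nat_lit 14) (nat_lit 4) (nat_lit 397) (nat_lit 369) (nat_lit 254))) (XT.nd (nat_lit 78) (nat_lit 76) (nat_lit 0) (XT.lf (nat_lit 0) (nat_lit 736203790035) (nat_lit 76) (nat_lit 1602067307193) (nat_lit 76) (nat_lit 882206769324) (nat_lit 13) (nat_lit 4) (nat_lit 14) (nat_lit 5) (nat_lit 14) (nat_lit 4) (nat_lit 398) (nat_lit 369) (nat_lit 253)) (XT.lf (nat_lit 0) (nat_lit 286901741973) (nat_lit 152) (nat_lit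 123104923108) (nat_lit 76) (nat_lit 3187360141368) (nat_lit 12) (nat_lit 5) (nat_lit 14) (nat_lit 5) (nat_lit 13) (nat_lit 4) (nat_lit 399) (nat_lit 369) (nat_lit 252)))))) (XT.nd (nat_lit 624) (nat_lit 228) (nat_lit 0) (XT.nd (nat_lit 312) (nat_lit 228) (nat_lit 0) (XT.nd (nat_lit 156) (nat_lit 152) (nat_lit 0) (XT.nd (nat_lit 78) (nat_lit 76) (nat_lit 0) (XT.lf (nat_lit 0) (nat_lit 1671064887568) (nat_lit 152) (nat_lit 1346009717681) (nat_lit 0) (nat_lit 1004527337713) (nat_lit 11) (nat_lit 5) (nat_lit 13) (nat_lit 4) (nat_lit 11) (nat_lit 4) (nat_lit 400) (nat_lit 369) (nat_lit 251)) (XT.lf (nat_lit 0) (nat_lit 1453647602027) (nat_lit 76) (nat_lit 1859182065385) (nat_lit 76) (nat_lit 1192644509548) (nat_lit 10) (nat_lit 4) (nat_lit 11) (nat_lit 5) (nat_lit 11) (nat_lit 4) (nat_lit 401) (nat_lit 369) (nat_lit 250))) (XT.nd (nat_lit 78) (nat_lit 76) (nat_lit 0) (XT.lf (nat_lit 0) (nat_lit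 172187439677) (nat_lit 152) (nat_lit 308387686510) (nat_lit 76) (nat_lit 4577868377898) (nat_lit 9) (nat_lit 5) (nat_lit 11) (nat_lit 5) (nat_lit 10) (nat_lit 4) (nat_lit 402) (nat_lit 369) (nat_lit 249)) (XT.lf (nat_lit 0) (nat_lit 1773641934036) (nat_lit 152) (nat_lit 2753559303073) (nat_lit 0) (nat_lit 1156477521477) (nat_lit 8) (nat_lit 5) (nat_lit 10) (nat_lit 4) (nat_lit 8) (nat_lit 4) (nat_lit 403) (nat_lit 369) (nat_lit 248)))) (XT.nd (nat_lit 156) (nat_lit 152) (nat_lit 0) (XT.nd (nat_lit 78) (nat_lit 0) (nat_lit 0) (XT.lf (nat_lit 0) (nat_lit 271135170534) (nat_lit 76) (nat_lit 3373203318024) (nat_lit 76) (nat_lit 2756038901824) (nat_lit 7) (nat_lit 4) (nat_lit 8) (nat_lit 5) (nat_lit 8) (nat_lit 4) (nat_lit 404) (nat_lit 369) (nat_lit 247)) (XT.lf (nat_lit 0) (nat_lit 3916280961566) (nat_lit 76) (nat_lit 1959525461503) (nat_lit 76) (nat_lit 1342361042135) (nat_lit 7) (nat_lit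 4) (nat_lit 8) (nat_lit 5) (nat_lit 8) (nat_lit 4) (nat_lit 405) (nat_lit 369) (nat_lit 246))) (XT.nd (nat_lit 78) (nat_lit 76) (nat_lit 0) (XT.lf (nat_lit 0) (nat_lit 269193239165) (nat_lit 152) (nat_lit 57242484657) (nat_lit 76) (nat_lit 7831645127296) (nat_lit 6) (nat_lit 5) (nat_lit 8) (nat_lit 5) (nat_lit 7) (nat_lit 4) (nat_lit 406) (nat_lit 369) (nat_lit 245)) (XT.lf (nat_lit 0) (nat_lit 2178005317983) (nat_lit 152) (nat_lit 5440829235829) (nat_lit 0) (nat_lit 1606556776764) (nat_lit 5) (nat_lit 5) (nat_lit 7) (nat_lit 4) (nat_lit 5) (nat_lit 4) (nat_lit 407) (nat_lit 369) (nat_lit 244))))) (XT.nd (nat_lit 312) (nat_lit 152) (nat_lit 0) (XT.nd (nat_lit 156) (nat_lit 0) (nat_lit 0) (XT.nd (nat_lit 78) (nat_lit 76) (nat_lit 0) (XT.lf (nat_lit 0) (nat_lit 4383877439881) (nat_lit 152) (nat_lit 2255632986838) (nat_lit 0) (nat_lit 3812428896734) (nat_lit 5) (nat_lit 5) (nat_lit 7) (nat_lit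 4) (nat_lit 5) (nat_lit 4) (nat_lit 408) (nat_lit 369) (nat_lit 243)) (XT.lf (nat_lit 0) (nat_lit 1481450845460) (nat_lit 76) (nat_lit 5474808450670) (nat_lit 76) (nat_lit 4903359905847) (nat_lit 4) (nat_lit 4) (nat_lit 5) (nat_lit 5) (nat_lit 5) (nat_lit 4) (nat_lit 409) (nat_lit 369) (nat_lit 242))) (XT.nd (nat_lit 78) (nat_lit 0) (nat_lit 0) (XT.lf (nat_lit 0) (nat_lit 5915691510627) (nat_lit 76) (nat_lit 4064477236322) (nat_lit 76) (nat_lit 3493028690040) (nat_lit 4) (nat_lit 4) (nat_lit 5) (nat_lit 5) (nat_lit 5) (nat_lit 4) (nat_lit 410) (nat_lit 369) (nat_lit 241)) (XT.lf (nat_lit 0) (nat_lit 11015068255478) (nat_lit 76) (nat_lit 2442596350057) (nat_lit 76) (nat_lit 1871147802507) (nat_lit 4) (nat_lit 4) (nat_lit 5) (nat_lit 5) (nat_lit 5) (nat_lit 4) (nat_lit 411) (nat_lit 369) (nat_lit 240)))) (XT.nd (nat_lit 156) (nat_lit 0) (nat_lit 0) (XT.nd (nat_lit 78) (nat_lit 152) (nat_lit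 0) (XT.lf (nat_lit 0) (nat_lit 16879351494586) (nat_lit 76) (nat_lit 577433339752) (nat_lit 76) (nat_lit 5984791100) (nat_lit 4) (nat_lit 4) (nat_lit 5) (nat_lit 5) (nat_lit 5) (nat_lit 4) (nat_lit 412) (nat_lit 369) (nat_lit 239)) (XT.lf (nat_lit 0) (nat_lit 2165923705187) (nat_lit 152) (nat_lit 16099259084740) (nat_lit 0) (nat_lit 1636804677770) (nat_lit 2) (nat_lit 5) (nat_lit 4) (nat_lit 4) (nat_lit 2) (nat_lit 4) (nat_lit 413) (nat_lit 369) (nat_lit 238))) (XT.nd (nat_lit 49686) (nat_lit 0) (nat_lit 5092) (XT.lf (nat_lit 0) (nat_lit 4696671331641) (nat_lit 152) (nat_lit 13840179337501) (nat_lit 0) (nat_lit 4167552303452) (nat_lit 2) (nat_lit 5) (nat_lit 4) (nat_lit 4) (nat_lit 2) (nat_lit 4) (nat_lit 414) (nat_lit 369) (nat_lit 237)) (XT.nd (nat_lit 78) (nat_lit 0) (nat_lit 0) (XT.lf (nat_lit 0) (nat_lit 123364966268) (nat_lit 532) (nat_lit 5598456107) (nat_lit 532) (nat_lit 5598456107)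 (nat_lit 69) (nat_lit 3) (nat_lit 76) (nat_lit 3) (nat_lit 76) (nat_lit 5) (nat_lit 370) (nat_lit 370) (nat_lit 280)) (XT.lf (nat_lit 76) (nat_lit 248499881928) (nat_lit 0) (nat_lit 22712750721) (nat_lit 532) (nat_lit 17617168649) (nat_lit 70) (nat_lit 5) (nat_lit 69) (nat_lit 3) (nat_lit 76) (nat_lit 5) (nat_lit 371) (nat_lit 370) (nat_lit 279))))))))
noncomputable def xc102 : XT := (XT.nd (nat_lit 1248) (nat_lit 1596) (nat_lit 0) (XT.nd (nat_lit 624) (nat_lit 1368) (nat_lit 0) (XT.nd (nat_lit 312) (nat_lit 912) (nat_lit 0) (XT.nd (nat_lit 156) (nat_lit 304) (nat_lit 0) (XT.nd (nat_lit 78) (nat_lit 0) (nat_lit 76) (XT.lf (nat_lit 0) (nat_lit 923625255) (nat_lit 532) (nat_lit 68017082393) (nat_lit 608) (nat_lit 241579079630) (nat_lit 63) (nat_lit 5) (nat_lit 70) (nat_lit 5) (nat_lit 71) (nat_lit 5) (nat_lit 372) (nat_lit 370) (nat_lit 278)) (XT.lf (nat_lit 0) (nat_lit 34199921466) (nat_lit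 532) (nat_lit 94030947040) (nat_lit 608) (nat_lit 206155994399) (nat_lit 64) (nat_lit 5) (nat_lit 71) (nat_lit 5) (nat_lit 72) (nat_lit 5) (nat_lit 373) (nat_lit 370) (nat_lit 277))) (XT.nd (nat_lit 78) (nat_lit 456) (nat_lit 0) (XT.lf (nat_lit 0) (nat_lit 86347445660) (nat_lit 532) (nat_lit 117153104605) (nat_lit 76) (nat_lit 157223067056) (nat_lit 65) (nat_lit 5) (nat_lit 72) (nat_lit 5) (nat_lit 66) (nat_lit 5) (nat_lit 374) (nat_lit 370) (nat_lit 276)) (XT.lf (nat_lit 0) (nat_lit 161161083531) (nat_lit 532) (nat_lit 136446949419) (nat_lit 76) (nat_lit 92215333256) (nat_lit 59) (nat_lit 5) (nat_lit 66) (nat_lit 5) (nat_lit 60) (nat_lit 5) (nat_lit 375) (nat_lit 370) (nat_lit 275)))) (XT.nd (nat_lit 156) (nat_lit 456) (nat_lit 0) (XT.nd (nat_lit 78) (nat_lit 228) (nat_lit 0) (XT.lf (nat_lit 0) (nat_lit 263058266533) (nat_lit 304) (nat_lit 150816553168) (nat_lit 76) (nat_lit 8144337862)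 (nat_lit 56) (nat_lit 5) (nat_lit 60) (nat_lit 5) (nat_lit 57) (nat_lit 5) (nat_lit 376) (nat_lit 370) (nat_lit 274)) (XT.lf (nat_lit 0) (nat_lit 296008993440) (nat_lit 228) (nat_lit 103656694043) (nat_lit 304) (nat_lit 57824577387) (nat_lit 53) (nat_lit 5) (nat_lit 56) (nat_lit 5) (nat_lit 57) (nat_lit 5) (nat_lit 377) (nat_lit 370) (nat_lit 273))) (XT.nd (nat_lit 78) (nat_lit 228) (nat_lit 0) (XT.lf (nat_lit 0) (nat_lit 74601636584) (nat_lit 228) (nat_lit 167246268057) (nat_lit 76) (nat_lit 254798016350) (nat_lit 50) (nat_lit 5) (nat_lit 53) (nat_lit 5) (nat_lit 51) (nat_lit 5) (nat_lit 378) (nat_lit 370) (nat_lit 272)) (XT.lf (nat_lit 0) (nat_lit 243592615639) (nat_lit 304) (nat_lit 166840278781) (nat_lit 76) (nat_lit 129511900743) (nat_lit 47) (nat_lit 5) (nat_lit 51) (nat_lit 5) (nat_lit 48) (nat_lit 5) (nat_lit 379) (nat_lit 370) (nat_lit 271))))) (XT.nd (nat_lit 312) (nat_lit 684)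 (nat_lit 0) (XT.nd (nat_lit 156) (nat_lit 304) (nat_lit 0) (XT.nd (nat_lit 78) (nat_lit 228) (nat_lit 0) (XT.lf (nat_lit 0) (nat_lit 429980708766) (nat_lit 152) (nat_lit 29977047042) (nat_lit 228) (nat_lit 128018703564) (nat_lit 45) (nat_lit 5) (nat_lit 47) (nat_lit 5) (nat_lit 48) (nat_lit 5) (nat_lit 380) (nat_lit 370) (nat_lit 270)) (XT.lf (nat_lit 0) (nat_lit 89757232106) (nat_lit 228) (nat_lit 144724062477) (nat_lit 76) (nat_lit 406407651495) (nat_lit 42) (nat_lit 5) (nat_lit 45) (nat_lit 5) (nat_lit 43) (nat_lit 5) (nat_lit 381) (nat_lit 370) (nat_lit 269))) (XT.nd (nat_lit 78) (nat_lit 152) (nat_lit 0) (XT.lf (nat_lit 0) (nat_lit 357866325247) (nat_lit 228) (nat_lit 124163962037) (nat_lit 76) (nat_lit 217422253413) (nat_lit 40) (nat_lit 5) (nat_lit 43) (nat_lit 5) (nat_lit 41) (nat_lit 5) (nat_lit 382) (nat_lit 370) (nat_lit 268)) (XT.lf (nat_lit 0) (nat_lit 672657888546) (nat_lit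 152) (nat_lit 20519343203) (nat_lit 228) (nat_lit 71464606842) (nat_lit 38) (nat_lit 5) (nat_lit 40) (nat_lit 5) (nat_lit 41) (nat_lit 5) (nat_lit 383) (nat_lit 370) (nat_lit 267)))) (XT.nd (nat_lit 156) (nat_lit 380) (nat_lit 0) (XT.nd (nat_lit 78) (nat_lit 152) (nat_lit 0) (XT.lf (nat_lit 0) (nat_lit 262951666080) (nat_lit 152) (nat_lit 59420974060) (nat_lit 76) (nat_lit 513917442436) (nat_lit 36) (nat_lit 5) (nat_lit 38) (nat_lit 5) (nat_lit 37) (nat_lit 5) (nat_lit 384) (nat_lit 370) (nat_lit 266)) (XT.lf (nat_lit 0) (nat_lit 674227689785) (nat_lit 228) (nat_lit 16377562608) (nat_lit 76) (nat_lit 225457507941) (nat_lit 34) (nat_lit 5) (nat_lit 37) (nat_lit 5) (nat_lit 35) (nat_lit 4) (nat_lit 385) (nat_lit 370) (nat_lit 265))) (XT.nd (nat_lit 78) (nat_lit 76) (nat_lit 0) (XT.lf (nat_lit 0) (nat_lit 34233769116) (nat_lit 152) (nat_lit 135683565349) (nat_lit 228) (nat_lit 834616083535)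 (nat_lit 30) (nat_lit 5) (nat_lit 32) (nat_lit 5) (nat_lit 33) (nat_lit 5) (nat_lit 386) (nat_lit 370) (nat_lit 264)) (XT.lf (nat_lit 0) (nat_lit 84099375273) (nat_lit 76) (nat_lit 587908561485) (nat_lit 152) (nat_lit 430332649428) (nat_lit 29) (nat_lit 5) (nat_lit 30) (nat_lit 5) (nat_lit 31) (nat_lit 4) (nat_lit 387) (nat_lit 370) (nat_lit 263)))))) (XT.nd (nat_lit 624) (nat_lit 760) (nat_lit 0) (XT.nd (nat_lit 312) (nat_lit 380) (nat_lit 0) (XT.nd (nat_lit 156) (nat_lit 228) (nat_lit 0) (XT.nd (nat_lit 78) (nat_lit 76) (nat_lit 0) (XT.lf (nat_lit 0) (nat_lit 70901015140) (nat_lit 152) (nat_lit 1068893655213) (nat_lit 76) (nat_lit 71914544703) (nat_lit 27) (nat_lit 5) (nat_lit 29) (nat_lit 5) (nat_lit 28) (nat_lit 4) (nat_lit 388) (nat_lit 370) (nat_lit 262)) (XT.lf (nat_lit 0) (nat_lit 184898110711) (nat_lit 76) (nat_lit 488787428511) (nat_lit 152) (nat_lit 658755696942) (nat_lit 26)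 (nat_lit 5) (nat_lit 27) (nat_lit 5) (nat_lit 28) (nat_lit 4) (nat_lit 389) (nat_lit 370) (nat_lit 261))) (XT.nd (nat_lit 78) (nat_lit 152) (nat_lit 0) (XT.lf (nat_lit 0) (nat_lit 226990799484) (nat_lit 76) (nat_lit 1183533915127) (nat_lit 76) (nat_lit 57267388019) (nat_lit 25) (nat_lit 4) (nat_lit 26) (nat_lit 5) (nat_lit 26) (nat_lit 4) (nat_lit 390) (nat_lit 370) (nat_lit 260)) (XT.lf (nat_lit 0) (nat_lit 238720541150) (nat_lit 76) (nat_lit 417523256532) (nat_lit 152) (nat_lit 961698161819) (nat_lit 23) (nat_lit 5) (nat_lit 24) (nat_lit 5) (nat_lit 25) (nat_lit 4) (nat_lit 391) (nat_lit 370) (nat_lit 259)))) (XT.nd (nat_lit 156) (nat_lit 152) (nat_lit 0) (XT.nd (nat_lit 78) (nat_lit 152) (nat_lit 0) (XT.lf (nat_lit 0) (nat_lit 225183288304) (nat_lit 76) (nat_lit 1301926942441) (nat_lit 76) (nat_lit 259087511960) (nat_lit 22) (nat_lit 4) (nat_lit 23) (nat_lit 5) (nat_lit 23) (nat_lit 4)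 (nat_lit 392) (nat_lit 370) (nat_lit 258)) (XT.lf (nat_lit 0) (nat_lit 159476137445) (nat_lit 76) (nat_lit 418560203696) (nat_lit 152) (nat_lit 1396072995729) (nat_lit 20) (nat_lit 5) (nat_lit 21) (nat_lit 5) (nat_lit 22) (nat_lit 4) (nat_lit 393) (nat_lit 370) (nat_lit 257))) (XT.nd (nat_lit 78) (nat_lit 76) (nat_lit 0) (XT.lf (nat_lit 0) (nat_lit 24513372900) (nat_lit 76) (nat_lit 1562893268526) (nat_lit 76) (nat_lit 597301165789) (nat_lit 19) (nat_lit 4) (nat_lit 20) (nat_lit 5) (nat_lit 20) (nat_lit 4) (nat_lit 394) (nat_lit 370) (nat_lit 256)) (XT.lf (nat_lit 0) (nat_lit 370994020319) (nat_lit 152) (nat_lit 193924555631) (nat_lit 76) (nat_lit 1856096945994) (nat_lit 18) (nat_lit 5) (nat_lit 20) (nat_lit 5) (nat_lit 19) (nat_lit 4) (nat_lit 395) (nat_lit 370) (nat_lit 255))))) (XT.nd (nat_lit 312) (nat_lit 380) (nat_lit 0) (XT.nd (nat_lit 156) (nat_lit 228) (nat_lit 0) (XT.nd (nat_lit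 78) (nat_lit 76) (nat_lit 0) (XT.lf (nat_lit 0) (nat_lit 1517883053361) (nat_lit 152) (nat_lit 544331612840) (nat_lit 0) (nat_lit 623816265328) (nat_lit 17) (nat_lit 5) (nat_lit 19) (nat_lit 4) (nat_lit 17) (nat_lit 4) (nat_lit 396) (nat_lit 370) (nat_lit 254)) (XT.lf (nat_lit 0) (nat_lit 1929830239606) (nat_lit 76) (nat_lit 974804436411) (nat_lit 76) (nat_lit 80737637766) (nat_lit 16) (nat_lit 4) (nat_lit 17) (nat_lit 5) (nat_lit 17) (nat_lit 4) (nat_lit 397) (nat_lit 370) (nat_lit 253))) (XT.nd (nat_lit 78) (nat_lit 76) (nat_lit 0) (XT.lf (nat_lit 0) (nat_lit 1173003263832) (nat_lit 152) (nat_lit 1804258428467) (nat_lit 0) (nat_lit 345163626912) (nat_lit 14) (nat_lit 5) (nat_lit 16) (nat_lit 4) (nat_lit 14) (nat_lit 4) (nat_lit 398) (nat_lit 370) (nat_lit 252)) (XT.lf (nat_lit 0) (nat_lit 846634988271) (nat_lit 76) (nat_lit 1842377088691) (nat_lit 76) (nat_lit 1014537444340) (nat_lit 13)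 (nat_lit 4) (nat_lit 14) (nat_lit 5) (nat_lit 14) (nat_lit 4) (nat_lit 399) (nat_lit 370) (nat_lit 251)))) (XT.nd (nat_lit 156) (nat_lit 228) (nat_lit 0) (XT.nd (nat_lit 78) (nat_lit 76) (nat_lit 0) (XT.lf (nat_lit 0) (nat_lit 329937284447) (nat_lit 152) (nat_lit 141570099159) (nat_lit 76) (nat_lit 3665464421299) (nat_lit 12) (nat_lit 5) (nat_lit 14) (nat_lit 5) (nat_lit 13) (nat_lit 4) (nat_lit 400) (nat_lit 370) (nat_lit 250)) (XT.lf (nat_lit 0) (nat_lit 1921724883791) (nat_lit 152) (nat_lit 1547910646160) (nat_lit 0) (nat_lit 1155206683393) (nat_lit 11) (nat_lit 5) (nat_lit 13) (nat_lit 4) (nat_lit 11) (nat_lit 4) (nat_lit 401) (nat_lit 370) (nat_lit 249))) (XT.nd (nat_lit 78) (nat_lit 152) (nat_lit 0) (XT.lf (nat_lit 0) (nat_lit 1671695226712) (nat_lit 76) (nat_lit 2138059131234) (nat_lit 76) (nat_lit 1371540926313) (nat_lit 10) (nat_lit 4) (nat_lit 11) (nat_lit 5) (nat_lit 11) (nat_lit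 4) (nat_lit 402) (nat_lit 370) (nat_lit 248)) (XT.nd (nat_lit 78) (nat_lit 76) (nat_lit 0) (XT.lf (nat_lit 0) (nat_lit 198015770131) (nat_lit 152) (nat_lit 354645406980) (nat_lit 76) (nat_lit 5264548835416) (nat_lit 9) (nat_lit 5) (nat_lit 11) (nat_lit 5) (nat_lit 10) (nat_lit 4) (nat_lit 403) (nat_lit 370) (nat_lit 247)) (XT.lf (nat_lit 0) (nat_lit 2039688424993) (nat_lit 152) (nat_lit 3166592791751) (nat_lit 0) (nat_lit 1329949339553) (nat_lit 8) (nat_lit 5) (nat_lit 10) (nat_lit 4) (nat_lit 8) (nat_lit 4) (nat_lit 404) (nat_lit 370) (nat_lit 246))))))))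
noncomputable def xc103 : XT := (XT.nd (nat_lit 51012) (nat_lit 0) (nat_lit 1368) (XT.nd (nat_lit 624) (nat_lit 152) (nat_lit 0) (XT.nd (nat_lit 312) (nat_lit 76) (nat_lit 0) (XT.nd (nat_lit 156) (nat_lit 152) (nat_lit 0) (XT.nd (nat_lit 78) (nat_lit 0) (nat_lit 0) (XT.lf (nat_lit 0) (nat_lit 311805818465) (nat_lit 76) (nat_lit 3879183626986) (nat_lit 76) (nat_lit 3169444538792) (nat_lit 7) (nat_lit 4) (nat_lit 8) (nat_lit 5) (nat_lit 8) (nat_lit 4) (nat_lit 405) (nat_lit 370) (nat_lit 245)) (XT.lf (nat_lit 0) (nat_lit 4503723429584) (nat_lit 76) (nat_lit 2253454116605) (nat_lit 76) (nat_lit 1543715026017) (nat_lit 7) (nat_lit 4) (nat_lit 8) (nat_lit 5) (nat_lit 8) (nat_lit 4) (nat_lit 406) (nat_lit 370) (nat_lit 244))) (XT.nd (nat_lit 78) (nat_lit 76) (nat_lit 0) (XT.lf (nat_lit 0) (nat_lit 309572367486) (nat_lit 152) (nat_lit 65828568299) (nat_lit 76) (nat_lit 9006392031600) (nat_lit 6)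 (nat_lit 5) (nat_lit 8) (nat_lit 5) (nat_lit 7) (nat_lit 4) (nat_lit 407) (nat_lit 370) (nat_lit 243)) (XT.lf (nat_lit 0) (nat_lit 2504706249142) (nat_lit 152) (nat_lit 6256953349422) (nat_lit 0) (nat_lit 1847540420918) (nat_lit 5) (nat_lit 5) (nat_lit 7) (nat_lit 4) (nat_lit 5) (nat_lit 4) (nat_lit 408) (nat_lit 370) (nat_lit 242)))) (XT.nd (nat_lit 156) (nat_lit 0) (nat_lit 0) (XT.nd (nat_lit 78) (nat_lit 76) (nat_lit 0) (XT.lf (nat_lit 0) (nat_lit 5041459171916) (nat_lit 152) (nat_lit 2593977698533) (nat_lit 0) (nat_lit 4384293342234) (nat_lit 5) (nat_lit 5) (nat_lit 7) (nat_lit 4) (nat_lit 5) (nat_lit 4) (nat_lit 409) (nat_lit 370) (nat_lit 241)) (XT.lf (nat_lit 0) (nat_lit 1703668688606) (nat_lit 76) (nat_lit 6296029608062) (nat_lit 76) (nat_lit 5638863777112) (nat_lit 4) (nat_lit 4) (nat_lit 5) (nat_lit 5) (nat_lit 5) (nat_lit 4) (nat_lit 410) (nat_lit 370) (nat_lit 240))) (XT.nd (nat_lit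 78) (nat_lit 0) (nat_lit 0) (XT.lf (nat_lit 0) (nat_lit 6803045425332) (nat_lit 76) (nat_lit 4674148725937) (nat_lit 76) (nat_lit 4016982893885) (nat_lit 4) (nat_lit 4) (nat_lit 5) (nat_lit 5) (nat_lit 5) (nat_lit 4) (nat_lit 411) (nat_lit 370) (nat_lit 239)) (XT.lf (nat_lit 0) (nat_lit 12667328657374) (nat_lit 76) (nat_lit 2808985719232) (nat_lit 76) (nat_lit 2151819886221) (nat_lit 4) (nat_lit 4) (nat_lit 5) (nat_lit 5) (nat_lit 5) (nat_lit 4) (nat_lit 412) (nat_lit 370) (nat_lit 238))))) (XT.nd (nat_lit 49998) (nat_lit 0) (nat_lit 4104) (XT.nd (nat_lit 49842) (nat_lit 0) (nat_lit 5092) (XT.nd (nat_lit 78) (nat_lit 152) (nat_lit 0) (XT.lf (nat_lit 0) (nat_lit 19411254361013) (nat_lit 76) (nat_lit 664048268251) (nat_lit 76) (nat_lit 6882434407) (nat_lit 4) (nat_lit 4) (nat_lit 5) (nat_lit 5) (nat_lit 5) (nat_lit 4) (nat_lit 413) (nat_lit 370) (nat_lit 237)) (XT.lf (nat_lit 0) (nat_lit 2490812328071)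 (nat_lit 152) (nat_lit 18514147810200) (nat_lit 0) (nat_lit 1882325444211) (nat_lit 2) (nat_lit 5) (nat_lit 4) (nat_lit 4) (nat_lit 2) (nat_lit 4) (nat_lit 414) (nat_lit 370) (nat_lit 236))) (XT.nd (nat_lit 78) (nat_lit 0) (nat_lit 0) (XT.lf (nat_lit 0) (nat_lit 141871175012) (nat_lit 532) (nat_lit 6437433577) (nat_lit 532) (nat_lit 6437433577) (nat_lit 69) (nat_lit 3) (nat_lit 76) (nat_lit 3) (nat_lit 76) (nat_lit 5) (nat_lit 371) (nat_lit 371) (nat_lit 278)) (XT.lf (nat_lit 76) (nat_lit 285776312210) (nat_lit 0) (nat_lit 26120795905) (nat_lit 532) (nat_lit 20256955218) (nat_lit 70) (nat_lit 5) (nat_lit 69) (nat_lit 3) (nat_lit 76) (nat_lit 5) (nat_lit 372) (nat_lit 371) (nat_lit 277)))) (XT.nd (nat_lit 156) (nat_lit 532) (nat_lit 0) (XT.nd (nat_lit 78) (nat_lit 0) (nat_lit 76) (XT.lf (nat_lit 0) (nat_lit 1064486437) (nat_lit 532) (nat_lit 78217980444) (nat_lit 608) (nat_lit 277815101719)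 (nat_lit 63) (nat_lit 5) (nat_lit 70) (nat_lit 5) (nat_lit 71) (nat_lit 5) (nat_lit 373) (nat_lit 371) (nat_lit 276)) (XT.lf (nat_lit 0) (nat_lit 39331948743) (nat_lit 532) (nat_lit 108133887617) (nat_lit 608) (nat_lit 237078891658) (nat_lit 64) (nat_lit 5) (nat_lit 71) (nat_lit 5) (nat_lit 72) (nat_lit 5) (nat_lit 374) (nat_lit 371) (nat_lit 275))) (XT.nd (nat_lit 78) (nat_lit 684) (nat_lit 0) (XT.lf (nat_lit 0) (nat_lit 99301366972) (nat_lit 532) (nat_lit 134724360865) (nat_lit 76) (nat_lit 180806286682) (nat_lit 65) (nat_lit 5) (nat_lit 72) (nat_lit 5) (nat_lit 66) (nat_lit 5) (nat_lit 375) (nat_lit 371) (nat_lit 274)) (XT.nd (nat_lit 78) (nat_lit 228) (nat_lit 0) (XT.lf (nat_lit 0) (nat_lit 185336851781) (nat_lit 532) (nat_lit 156912296640) (nat_lit 76) (nat_lit 106047593351) (nat_lit 59) (nat_lit 5) (nat_lit 66) (nat_lit 5) (nat_lit 60) (nat_lit 5) (nat_lit 376) (nat_lit 371) (nat_lit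 273)) (XT.lf (nat_lit 0) (nat_lit 302518442951) (nat_lit 304) (nat_lit 173437371806) (nat_lit 76) (nat_lit 9366100738) (nat_lit 56) (nat_lit 5) (nat_lit 60) (nat_lit 5) (nat_lit 57) (nat_lit 5) (nat_lit 377) (nat_lit 371) (nat_lit 272))))))) (XT.nd (nat_lit 624) (nat_lit 1216) (nat_lit 0) (XT.nd (nat_lit 312) (nat_lit 684) (nat_lit 0) (XT.nd (nat_lit 156) (nat_lit 380) (nat_lit 0) (XT.nd (nat_lit 78) (nat_lit 228) (nat_lit 0) (XT.lf (nat_lit 0) (nat_lit 340411865915) (nat_lit 228) (nat_lit 119204960405) (nat_lit 304) (nat_lit 66496874737) (nat_lit 53) (nat_lit 5) (nat_lit 56) (nat_lit 5) (nat_lit 57) (nat_lit 5) (nat_lit 378) (nat_lit 371) (nat_lit 271)) (XT.lf (nat_lit 0) (nat_lit 85793071410) (nat_lit 228) (nat_lit 192331661034) (nat_lit 76) (nat_lit 293017980996) (nat_lit 50) (nat_lit 5) (nat_lit 53) (nat_lit 5) (nat_lit 51) (nat_lit 5) (nat_lit 379) (nat_lit 371) (nat_lit 270))) (XT.nd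 (nat_lit 78) (nat_lit 152) (nat_lit 0) (XT.lf (nat_lit 0) (nat_lit 280132584623) (nat_lit 304) (nat_lit 191864826760) (nat_lit 76) (nat_lit 148939016444) (nat_lit 47) (nat_lit 5) (nat_lit 51) (nat_lit 5) (nat_lit 48) (nat_lit 5) (nat_lit 380) (nat_lit 371) (nat_lit 269)) (XT.lf (nat_lit 0) (nat_lit 494479182473) (nat_lit 152) (nat_lit 34473205799) (nat_lit 228) (nat_lit 147220462061) (nat_lit 45) (nat_lit 5) (nat_lit 47) (nat_lit 5) (nat_lit 48) (nat_lit 5) (nat_lit 381) (nat_lit 371) (nat_lit 268)))) (XT.nd (nat_lit 156) (nat_lit 304) (nat_lit 0) (XT.nd (nat_lit 78) (nat_lit 152) (nat_lit 0) (XT.lf (nat_lit 0) (nat_lit 103221722819) (nat_lit 228) (nat_lit 166431309581) (nat_lit 76) (nat_lit 467369182782) (nat_lit 42) (nat_lit 5) (nat_lit 45) (nat_lit 5) (nat_lit 43) (nat_lit 5) (nat_lit 382) (nat_lit 371) (nat_lit 267)) (XT.lf (nat_lit 0) (nat_lit 411547102083) (nat_lit 228) (nat_lit 142787253998)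 (nat_lit 76) (nat_lit 250035999186) (nat_lit 40) (nat_lit 5) (nat_lit 43) (nat_lit 5) (nat_lit 41) (nat_lit 5) (nat_lit 383) (nat_lit 371) (nat_lit 266))) (XT.nd (nat_lit 78) (nat_lit 152) (nat_lit 0) (XT.lf (nat_lit 0) (nat_lit 773557763936) (nat_lit 152) (nat_lit 23596801288) (nat_lit 228) (nat_lit 82183489005) (nat_lit 38) (nat_lit 5) (nat_lit 40) (nat_lit 5) (nat_lit 41) (nat_lit 5) (nat_lit 384) (nat_lit 371) (nat_lit 265)) (XT.lf (nat_lit 0) (nat_lit 302395121723) (nat_lit 152) (nat_lit 68332946302) (nat_lit 76) (nat_lit 591005470276) (nat_lit 36) (nat_lit 5) (nat_lit 38) (nat_lit 5) (nat_lit 37) (nat_lit 5) (nat_lit 385) (nat_lit 371) (nat_lit 264))))) (XT.nd (nat_lit 312) (nat_lit 532) (nat_lit 0) (XT.nd (nat_lit 156) (nat_lit 228) (nat_lit 0) (XT.nd (nat_lit 78) (nat_lit 304) (nat_lit 0) (XT.lf (nat_lit 0) (nat_lit 775362493236) (nat_lit 228) (nat_lit 18833081615) (nat_lit 76) (nat_lit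 259276547357) (nat_lit 34) (nat_lit 5) (nat_lit 37) (nat_lit 5) (nat_lit 35) (nat_lit 4) (nat_lit 386) (nat_lit 371) (nat_lit 263)) (XT.lf (nat_lit 0) (nat_lit 39369942917) (nat_lit 152) (nat_lit 156035623597) (nat_lit 228) (nat_lit 959807813492) (nat_lit 30) (nat_lit 5) (nat_lit 32) (nat_lit 5) (nat_lit 33) (nat_lit 5) (nat_lit 387) (nat_lit 371) (nat_lit 262))) (XT.nd (nat_lit 78) (nat_lit 152) (nat_lit 0) (XT.lf (nat_lit 0) (nat_lit 96715332087) (nat_lit 76) (nat_lit 676094379878) (nat_lit 152) (nat_lit 494881915251) (nat_lit 29) (nat_lit 5) (nat_lit 30) (nat_lit 5) (nat_lit 31) (nat_lit 4) (nat_lit 388) (nat_lit 371) (nat_lit 261)) (XT.lf (nat_lit 0) (nat_lit 81536723676) (nat_lit 152) (nat_lit 1229226679827) (nat_lit 76) (nat_lit 82702149210) (nat_lit 27) (nat_lit 5) (nat_lit 29) (nat_lit 5) (nat_lit 28) (nat_lit 4) (nat_lit 389) (nat_lit 371) (nat_lit 260)))) (XT.nd (nat_lit 156) (nat_lit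 380) (nat_lit 0) (XT.nd (nat_lit 78) (nat_lit 76) (nat_lit 0) (XT.lf (nat_lit 0) (nat_lit 212633764337) (nat_lit 76) (nat_lit 562105112012) (nat_lit 152) (nat_lit 757568504652) (nat_lit 26) (nat_lit 5) (nat_lit 27) (nat_lit 5) (nat_lit 28) (nat_lit 4) (nat_lit 390) (nat_lit 371) (nat_lit 259)) (XT.lf (nat_lit 0) (nat_lit 261040304780) (nat_lit 76) (nat_lit 1361063587537) (nat_lit 76) (nat_lit 65856987991) (nat_lit 25) (nat_lit 4) (nat_lit 26) (nat_lit 5) (nat_lit 26) (nat_lit 4) (nat_lit 391) (nat_lit 371) (nat_lit 258))) (XT.nd (nat_lit 78) (nat_lit 228) (nat_lit 0) (XT.lf (nat_lit 0) (nat_lit 274529456090) (nat_lit 76) (nat_lit 480151351129) (nat_lit 152) (nat_lit 1105952410955) (nat_lit 23) (nat_lit 5) (nat_lit 24) (nat_lit 5) (nat_lit 25) (nat_lit 4) (nat_lit 392) (nat_lit 371) (nat_lit 257)) (XT.nd (nat_lit 78) (nat_lit 152) (nat_lit 0) (XT.lf (nat_lit 0) (nat_lit 258961568340) (nat_lit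 76) (nat_lit 1497215606685) (nat_lit 76) (nat_lit 297950196259) (nat_lit 22) (nat_lit 4) (nat_lit 23) (nat_lit 5) (nat_lit 23) (nat_lit 4) (nat_lit 393) (nat_lit 371) (nat_lit 256)) (XT.lf (nat_lit 0) (nat_lit 183398298561) (nat_lit 76) (nat_lit 481343877091) (nat_lit 152) (nat_lit 1605483531040) (nat_lit 20) (nat_lit 5) (nat_lit 21) (nat_lit 5) (nat_lit 22) (nat_lit 4) (nat_lit 394) (nat_lit 371) (nat_lit 255))))))))
noncomputable def xc104 : XT := (XT.nd (nat_lit 1248) (nat_lit 76) (nat_lit 0) (XT.nd (nat_lit 624) (nat_lit 456) (nat_lit 0) (XT.nd (nat_lit 312) (nat_lit 380) (nat_lit 0) (XT.nd (nat_lit 156) (nat_lit 152) (nat_lit 0) (XT.nd (nat_lit 78) (nat_lit 76) (nat_lit 0) (XT.lf (nat_lit 0) (nat_lit 28191076902) (nat_lit 76) (nat_lit 1797326918334) (nat_lit 76) (nat_lit 686895954416) (nat_lit 19) (nat_lit 4) (nat_lit 20) (nat_lit 5) (nat_lit 20) (nat_lit 4) (nat_lit 395) (nat_lit 371)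 (nat_lit 254)) (XT.lf (nat_lit 0) (nat_lit 426643442427) (nat_lit 152) (nat_lit 223012615130) (nat_lit 76) (nat_lit 2134511767123) (nat_lit 18) (nat_lit 5) (nat_lit 20) (nat_lit 5) (nat_lit 19) (nat_lit 4) (nat_lit 396) (nat_lit 371) (nat_lit 253))) (XT.nd (nat_lit 78) (nat_lit 76) (nat_lit 0) (XT.lf (nat_lit 0) (nat_lit 1745565809274) (nat_lit 152) (nat_lit 625980767136) (nat_lit 0) (nat_lit 717388970991) (nat_lit 17) (nat_lit 5) (nat_lit 19) (nat_lit 4) (nat_lit 17) (nat_lit 4) (nat_lit 397) (nat_lit 371) (nat_lit 252)) (XT.lf (nat_lit 0) (nat_lit 2219305313437) (nat_lit 76) (nat_lit 1121024835970) (nat_lit 76) (nat_lit 92847989662) (nat_lit 16) (nat_lit 4) (nat_lit 17) (nat_lit 5) (nat_lit 17) (nat_lit 4) (nat_lit 398) (nat_lit 371) (nat_lit 251)))) (XT.nd (nat_lit 156) (nat_lit 152) (nat_lit 0) (XT.nd (nat_lit 78) (nat_lit 76) (nat_lit 0) (XT.lf (nat_lit 0) (nat_lit 1348954014281) (nat_lit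 152) (nat_lit 2074896672538) (nat_lit 0) (nat_lit 396938409387) (nat_lit 14) (nat_lit 5) (nat_lit 16) (nat_lit 4) (nat_lit 14) (nat_lit 4) (nat_lit 399) (nat_lit 371) (nat_lit 250)) (XT.lf (nat_lit 0) (nat_lit 973630712680) (nat_lit 76) (nat_lit 2118733414125) (nat_lit 76) (nat_lit 1166717803613) (nat_lit 13) (nat_lit 4) (nat_lit 14) (nat_lit 5) (nat_lit 14) (nat_lit 4) (nat_lit 400) (nat_lit 371) (nat_lit 249))) (XT.nd (nat_lit 78) (nat_lit 76) (nat_lit 0) (XT.lf (nat_lit 0) (nat_lit 379428089726) (nat_lit 152) (nat_lit 162805188766) (nat_lit 76) (nat_lit 4215284280128) (nat_lit 12) (nat_lit 5) (nat_lit 14) (nat_lit 5) (nat_lit 13) (nat_lit 4) (nat_lit 401) (nat_lit 371) (nat_lit 248)) (XT.lf (nat_lit 0) (nat_lit 2209983815292) (nat_lit 152) (nat_lit 1780096842954) (nat_lit 0) (nat_lit 1328487871175) (nat_lit 11) (nat_lit 5) (nat_lit 13) (nat_lit 4) (nat_lit 11) (nat_lit 4) (nat_lit 402)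 (nat_lit 371) (nat_lit 247))))) (XT.nd (nat_lit 312) (nat_lit 152) (nat_lit 0) (XT.nd (nat_lit 156) (nat_lit 152) (nat_lit 0) (XT.nd (nat_lit 78) (nat_lit 76) (nat_lit 0) (XT.lf (nat_lit 0) (nat_lit 1922449876980) (nat_lit 76) (nat_lit 2458767816451) (nat_lit 76) (nat_lit 1577271868914) (nat_lit 10) (nat_lit 4) (nat_lit 11) (nat_lit 5) (nat_lit 11) (nat_lit 4) (nat_lit 403) (nat_lit 371) (nat_lit 246)) (XT.lf (nat_lit 0) (nat_lit 227718297846) (nat_lit 152) (nat_lit 407841890990) (nat_lit 76) (nat_lit 6054231312587) (nat_lit 9) (nat_lit 5) (nat_lit 11) (nat_lit 5) (nat_lit 10) (nat_lit 4) (nat_lit 404) (nat_lit 371) (nat_lit 245))) (XT.nd (nat_lit 78) (nat_lit 76) (nat_lit 0) (XT.lf (nat_lit 0) (nat_lit 2345641840615) (nat_lit 152) (nat_lit 3641581402928) (nat_lit 0) (nat_lit 1529441884043) (nat_lit 8) (nat_lit 5) (nat_lit 10) (nat_lit 4) (nat_lit 8) (nat_lit 4) (nat_lit 405) (nat_lit 371)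 (nat_lit 244)) (XT.lf (nat_lit 0) (nat_lit 358576972786) (nat_lit 76) (nat_lit 4461061028318) (nat_lit 76) (nat_lit 3644861069664) (nat_lit 7) (nat_lit 4) (nat_lit 8) (nat_lit 5) (nat_lit 8) (nat_lit 4) (nat_lit 406) (nat_lit 371) (nat_lit 243)))) (XT.nd (nat_lit 156) (nat_lit 76) (nat_lit 0) (XT.nd (nat_lit 78) (nat_lit 76) (nat_lit 0) (XT.lf (nat_lit 0) (nat_lit 5179282188849) (nat_lit 76) (nat_lit 2591472109995) (nat_lit 76) (nat_lit 1775272149530) (nat_lit 7) (nat_lit 4) (nat_lit 8) (nat_lit 5) (nat_lit 8) (nat_lit 4) (nat_lit 407) (nat_lit 371) (nat_lit 242)) (XT.lf (nat_lit 0) (nat_lit 356008330319) (nat_lit 152) (nat_lit 75702634975) (nat_lit 76) (nat_lit 10357350938578) (nat_lit 6) (nat_lit 5) (nat_lit 8) (nat_lit 5) (nat_lit 7) (nat_lit 4) (nat_lit 408) (nat_lit 371) (nat_lit 241))) (XT.nd (nat_lit 78) (nat_lit 0) (nat_lit 0) (XT.lf (nat_lit 0) (nat_lit 2880412287429) (nat_lit 152)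 (nat_lit 7195496146329) (nat_lit 0) (nat_lit 2124671580569) (nat_lit 5) (nat_lit 5) (nat_lit 7) (nat_lit 4) (nat_lit 5) (nat_lit 4) (nat_lit 409) (nat_lit 371) (nat_lit 240)) (XT.lf (nat_lit 0) (nat_lit 5797678135457) (nat_lit 152) (nat_lit 2983074174612) (nat_lit 0) (nat_lit 5041937427494) (nat_lit 5) (nat_lit 5) (nat_lit 7) (nat_lit 4) (nat_lit 5) (nat_lit 4) (nat_lit 410) (nat_lit 371) (nat_lit 239)))))) (XT.nd (nat_lit 50388) (nat_lit 0) (nat_lit 2736) (XT.nd (nat_lit 50076) (nat_lit 0) (nat_lit 4484) (XT.nd (nat_lit 156) (nat_lit 0) (nat_lit 0) (XT.nd (nat_lit 78) (nat_lit 0) (nat_lit 0) (XT.lf (nat_lit 0) (nat_lit 1959219155472) (nat_lit 76) (nat_lit 7240433965938) (nat_lit 76) (nat_lit 6484693257017) (nat_lit 4) (nat_lit 4) (nat_lit 5) (nat_lit 5) (nat_lit 5) (nat_lit 4) (nat_lit 411) (nat_lit 371) (nat_lit 238)) (XT.lf (nat_lit 0) (nat_lit 7823502381370) (nat_lit 76) (nat_lit 5375270962363)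 (nat_lit 76) (nat_lit 4619530252608) (nat_lit 4) (nat_lit 4) (nat_lit 5) (nat_lit 5) (nat_lit 5) (nat_lit 4) (nat_lit 412) (nat_lit 371) (nat_lit 237))) (XT.nd (nat_lit 78) (nat_lit 0) (nat_lit 0) (XT.lf (nat_lit 0) (nat_lit 14567428079666) (nat_lit 76) (nat_lit 3230333514104) (nat_lit 76) (nat_lit 2474592803625) (nat_lit 4) (nat_lit 4) (nat_lit 5) (nat_lit 5) (nat_lit 5) (nat_lit 4) (nat_lit 413) (nat_lit 371) (nat_lit 236)) (XT.lf (nat_lit 0) (nat_lit 22322942622718) (nat_lit 76) (nat_lit 763655453695) (nat_lit 76) (nat_lit 7914742586) (nat_lit 4) (nat_lit 4) (nat_lit 5) (nat_lit 5) (nat_lit 5) (nat_lit 4) (nat_lit 414) (nat_lit 371) (nat_lit 235)))) (XT.nd (nat_lit 156) (nat_lit 456) (nat_lit 0) (XT.nd (nat_lit 78) (nat_lit 0) (nat_lit 0) (XT.lf (nat_lit 0) (nat_lit 163152958110) (nat_lit 532) (nat_lit 7402450544) (nat_lit 532) (nat_lit 7402450544) (nat_lit 69) (nat_lit 3) (nat_lit 76)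 (nat_lit 3) (nat_lit 76) (nat_lit 5) (nat_lit 372) (nat_lit 372) (nat_lit 276)) (XT.lf (nat_lit 76) (nat_lit 328643853932) (nat_lit 0) (nat_lit 30039771681) (nat_lit 532) (nat_lit 23293389823) (nat_lit 70) (nat_lit 5) (nat_lit 69) (nat_lit 3) (nat_lit 76) (nat_lit 5) (nat_lit 373) (nat_lit 372) (nat_lit 275))) (XT.nd (nat_lit 78) (nat_lit 0) (nat_lit 76) (XT.lf (nat_lit 0) (nat_lit 1225911685) (nat_lit 532) (nat_lit 89949419055) (nat_lit 608) (nat_lit 319486731925) (nat_lit 63) (nat_lit 5) (nat_lit 70) (nat_lit 5) (nat_lit 71) (nat_lit 5) (nat_lit 374) (nat_lit 372) (nat_lit 274)) (XT.lf (nat_lit 0) (nat_lit 45233282875) (nat_lit 532) (nat_lit 124352684197) (nat_lit 608) (nat_lit 272640345897) (nat_lit 64) (nat_lit 5) (nat_lit 71) (nat_lit 5) (nat_lit 72) (nat_lit 5) (nat_lit 375) (nat_lit 372) (nat_lit 273))))) (XT.nd (nat_lit 312) (nat_lit 988) (nat_lit 0) (XT.nd (nat_lit 156) (nat_lit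 456) (nat_lit 0) (XT.nd (nat_lit 78) (nat_lit 456) (nat_lit 0) (XT.lf (nat_lit 0) (nat_lit 114197936451) (nat_lit 532) (nat_lit 154931722419) (nat_lit 76) (nat_lit 207927047884) (nat_lit 65) (nat_lit 5) (nat_lit 72) (nat_lit 5) (nat_lit 66) (nat_lit 5) (nat_lit 376) (nat_lit 372) (nat_lit 272)) (XT.lf (nat_lit 0) (nat_lit 213138593703) (nat_lit 532) (nat_lit 180447859328) (nat_lit 76) (nat_lit 121954702189) (nat_lit 59) (nat_lit 5) (nat_lit 66) (nat_lit 5) (nat_lit 60) (nat_lit 5) (nat_lit 377) (nat_lit 372) (nat_lit 271))) (XT.nd (nat_lit 78) (nat_lit 228) (nat_lit 0) (XT.lf (nat_lit 0) (nat_lit 347897295546) (nat_lit 304) (nat_lit 199451719099) (nat_lit 76) (nat_lit 10771100685) (nat_lit 56) (nat_lit 5) (nat_lit 60) (nat_lit 5) (nat_lit 57) (nat_lit 5) (nat_lit 378) (nat_lit 372) (nat_lit 270)) (XT.lf (nat_lit 0) (nat_lit 391474797757) (nat_lit 228) (nat_lit 137085524697) (nat_lit 304)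 (nat_lit 76470355469) (nat_lit 53) (nat_lit 5) (nat_lit 56) (nat_lit 5) (nat_lit 57) (nat_lit 5) (nat_lit 379) (nat_lit 372) (nat_lit 269)))) (XT.nd (nat_lit 156) (nat_lit 532) (nat_lit 0) (XT.nd (nat_lit 78) (nat_lit 228) (nat_lit 0) (XT.lf (nat_lit 0) (nat_lit 98662931432) (nat_lit 228) (nat_lit 221180240260) (nat_lit 76) (nat_lit 336970876402) (nat_lit 50) (nat_lit 5) (nat_lit 53) (nat_lit 5) (nat_lit 51) (nat_lit 5) (nat_lit 380) (nat_lit 372) (nat_lit 268)) (XT.lf (nat_lit 0) (nat_lit 322153286409) (nat_lit 304) (nat_lit 220643421218) (nat_lit 76) (nat_lit 171280118884) (nat_lit 47) (nat_lit 5) (nat_lit 51) (nat_lit 5) (nat_lit 48) (nat_lit 5) (nat_lit 381) (nat_lit 372) (nat_lit 267))) (XT.nd (nat_lit 78) (nat_lit 380) (nat_lit 0) (XT.lf (nat_lit 0) (nat_lit 568652093789) (nat_lit 152) (nat_lit 39643885497) (nat_lit 228) (nat_lit 169302739660) (nat_lit 45) (nat_lit 5) (nat_lit 47)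 (nat_lit 5) (nat_lit 48) (nat_lit 5) (nat_lit 382) (nat_lit 372) (nat_lit 266)) (XT.nd (nat_lit 78) (nat_lit 152) (nat_lit 0) (XT.lf (nat_lit 0) (nat_lit 118705666229) (nat_lit 228) (nat_lit 191394975949) (nat_lit 76) (nat_lit 537474850228) (nat_lit 42) (nat_lit 5) (nat_lit 45) (nat_lit 5) (nat_lit 43) (nat_lit 5) (nat_lit 383) (nat_lit 372) (nat_lit 265)) (XT.lf (nat_lit 0) (nat_lit 473279793519) (nat_lit 228) (nat_lit 164204357337) (nat_lit 76) (nat_lit 287541707390) (nat_lit 40) (nat_lit 5) (nat_lit 43) (nat_lit 5) (nat_lit 41) (nat_lit 5) (nat_lit 384) (nat_lit 372) (nat_lit 264))))))))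
noncomputable def xc105 : XT := (XT.nd (nat_lit 1248) (nat_lit 760) (nat_lit 0) (XT.nd (nat_lit 624) (nat_lit 836) (nat_lit 0) (XT.nd (nat_lit 312) (nat_lit 380) (nat_lit 0) (XT.nd (nat_lit 156) (nat_lit 456) (nat_lit 0) (XT.nd (nat_lit 78) (nat_lit 152) (nat_lit 0) (XT.lf (nat_lit 0) (nat_lit 889592329931) (nat_lit 152) (nat_lit 27135986210) (nat_lit 228) (nat_lit 94510400738) (nat_lit 38) (nat_lit 5) (nat_lit 40) (nat_lit 5) (nat_lit 41) (nat_lit 5) (nat_lit 385) (nat_lit 372) (nat_lit 263)) (XT.lf (nat_lit 0) (nat_lit 347754923616) (nat_lit 152) (nat_lit 78582000634) (nat_lit 76) (nat_lit 679656601950) (nat_lit 36) (nat_lit 5) (nat_lit 38) (nat_lit 5) (nat_lit 37) (nat_lit 5) (nat_lit 386) (nat_lit 372) (nat_lit 262))) (XT.nd (nat_lit 78) (nat_lit 304) (nat_lit 0) (XT.lf (nat_lit 0) (nat_lit 891667358701) (nat_lit 228) (nat_lit 21657200467) (nat_lit 76) (nat_lit 298168341918) (nat_lit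 34) (nat_lit 5) (nat_lit 37) (nat_lit 5) (nat_lit 35) (nat_lit 4) (nat_lit 387) (nat_lit 372) (nat_lit 261)) (XT.lf (nat_lit 0) (nat_lit 45276272490) (nat_lit 152) (nat_lit 179440606794) (nat_lit 228) (nat_lit 1103778469392) (nat_lit 30) (nat_lit 5) (nat_lit 32) (nat_lit 5) (nat_lit 33) (nat_lit 5) (nat_lit 388) (nat_lit 372) (nat_lit 260)))) (XT.nd (nat_lit 156) (nat_lit 152) (nat_lit 0) (XT.nd (nat_lit 78) (nat_lit 152) (nat_lit 0) (XT.lf (nat_lit 0) (nat_lit 111223426245) (nat_lit 76) (nat_lit 777508184625) (nat_lit 152) (nat_lit 569113724964) (nat_lit 29) (nat_lit 5) (nat_lit 30) (nat_lit 5) (nat_lit 31) (nat_lit 4) (nat_lit 389) (nat_lit 372) (nat_lit 259)) (XT.lf (nat_lit 0) (nat_lit 93767652843) (nat_lit 152) (nat_lit 1413609907761) (nat_lit 76) (nat_lit 95107791290) (nat_lit 27) (nat_lit 5) (nat_lit 29) (nat_lit 5) (nat_lit 28) (nat_lit 4) (nat_lit 390) (nat_lit 372) (nat_lit 258)))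 (XT.nd (nat_lit 78) (nat_lit 76) (nat_lit 0) (XT.lf (nat_lit 0) (nat_lit 244529537509) (nat_lit 76) (nat_lit 646420553085) (nat_lit 152) (nat_lit 871203366867) (nat_lit 26) (nat_lit 5) (nat_lit 27) (nat_lit 5) (nat_lit 28) (nat_lit 4) (nat_lit 391) (nat_lit 372) (nat_lit 257)) (XT.lf (nat_lit 0) (nat_lit 300197019967) (nat_lit 76) (nat_lit 1565222811975) (nat_lit 76) (nat_lit 75735151894) (nat_lit 25) (nat_lit 4) (nat_lit 26) (nat_lit 5) (nat_lit 26) (nat_lit 4) (nat_lit 392) (nat_lit 372) (nat_lit 256))))) (XT.nd (nat_lit 312) (nat_lit 380) (nat_lit 0) (XT.nd (nat_lit 156) (nat_lit 228) (nat_lit 0) (XT.nd (nat_lit 78) (nat_lit 76) (nat_lit 0) (XT.lf (nat_lit 0) (nat_lit 315709504952) (nat_lit 76) (nat_lit 552173755967) (nat_lit 152) (nat_lit 1271844913327) (nat_lit 23) (nat_lit 5) (nat_lit 24) (nat_lit 5) (nat_lit 25) (nat_lit 4) (nat_lit 393) (nat_lit 372) (nat_lit 255)) (XT.lf (nat_lit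 0) (nat_lit 297806398517) (nat_lit 76) (nat_lit 1721797662530) (nat_lit 76) (nat_lit 342642391109) (nat_lit 22) (nat_lit 4) (nat_lit 23) (nat_lit 5) (nat_lit 23) (nat_lit 4) (nat_lit 394) (nat_lit 372) (nat_lit 254))) (XT.nd (nat_lit 78) (nat_lit 76) (nat_lit 0) (XT.lf (nat_lit 0) (nat_lit 210908603269) (nat_lit 76) (nat_lit 553545188590) (nat_lit 152) (nat_lit 1846305747616) (nat_lit 20) (nat_lit 5) (nat_lit 21) (nat_lit 5) (nat_lit 22) (nat_lit 4) (nat_lit 395) (nat_lit 372) (nat_lit 253)) (XT.lf (nat_lit 0) (nat_lit 32420266276) (nat_lit 76) (nat_lit 2066925698639) (nat_lit 76) (nat_lit 789930055525) (nat_lit 19) (nat_lit 4) (nat_lit 20) (nat_lit 5) (nat_lit 20) (nat_lit 4) (nat_lit 396) (nat_lit 372) (nat_lit 252)))) (XT.nd (nat_lit 156) (nat_lit 228) (nat_lit 0) (XT.nd (nat_lit 78) (nat_lit 76) (nat_lit 0) (XT.lf (nat_lit 0) (nat_lit 490640200046) (nat_lit 152) (nat_lit 256464035682)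 (nat_lit 76) (nat_lit 2454688743331) (nat_lit 18) (nat_lit 5) (nat_lit 20) (nat_lit 5) (nat_lit 19) (nat_lit 4) (nat_lit 397) (nat_lit 372) (nat_lit 251)) (XT.lf (nat_lit 0) (nat_lit 2007400905926) (nat_lit 152) (nat_lit 719877437874) (nat_lit 0) (nat_lit 824997517670) (nat_lit 17) (nat_lit 5) (nat_lit 19) (nat_lit 4) (nat_lit 17) (nat_lit 4) (nat_lit 398) (nat_lit 372) (nat_lit 250))) (XT.nd (nat_lit 78) (nat_lit 152) (nat_lit 0) (XT.lf (nat_lit 0) (nat_lit 2552201517175) (nat_lit 76) (nat_lit 1289178360304) (nat_lit 76) (nat_lit 106774965981) (nat_lit 16) (nat_lit 4) (nat_lit 17) (nat_lit 5) (nat_lit 17) (nat_lit 4) (nat_lit 399) (nat_lit 372) (nat_lit 249)) (XT.lf (nat_lit 0) (nat_lit 1551297313681) (nat_lit 152) (nat_lit 2386130780073) (nat_lit 0) (nat_lit 456479351088) (nat_lit 14) (nat_lit 5) (nat_lit 16) (nat_lit 4) (nat_lit 14) (nat_lit 4) (nat_lit 400) (nat_lit 372) (nat_lit 248))))))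 (XT.nd (nat_lit 624) (nat_lit 228) (nat_lit 0) (XT.nd (nat_lit 312) (nat_lit 228) (nat_lit 0) (XT.nd (nat_lit 156) (nat_lit 152) (nat_lit 0) (XT.nd (nat_lit 78) (nat_lit 76) (nat_lit 0) (XT.lf (nat_lit 0) (nat_lit 1119675679633) (nat_lit 76) (nat_lit 2436543246381) (nat_lit 76) (nat_lit 1341725279540) (nat_lit 13) (nat_lit 4) (nat_lit 14) (nat_lit 5) (nat_lit 14) (nat_lit 4) (nat_lit 401) (nat_lit 372) (nat_lit 247)) (XT.lf (nat_lit 0) (nat_lit 436342463950) (nat_lit 152) (nat_lit 187225645517) (nat_lit 76) (nat_lit 4847577070074) (nat_lit 12) (nat_lit 5) (nat_lit 14) (nat_lit 5) (nat_lit 13) (nat_lit 4) (nat_lit 402) (nat_lit 372) (nat_lit 246))) (XT.nd (nat_lit 78) (nat_lit 76) (nat_lit 0) (XT.lf (nat_lit 0) (nat_lit 2541481538007) (nat_lit 152) (nat_lit 2047111066841) (nat_lit 0) (nat_lit 1527761191945) (nat_lit 11) (nat_lit 5) (nat_lit 13) (nat_lit 4) (nat_lit 11) (nat_lit 4) (nat_lit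 403) (nat_lit 372) (nat_lit 245)) (XT.lf (nat_lit 0) (nat_lit 2210817635474) (nat_lit 76) (nat_lit 2827582849434) (nat_lit 76) (nat_lit 1813862500785) (nat_lit 10) (nat_lit 4) (nat_lit 11) (nat_lit 5) (nat_lit 11) (nat_lit 4) (nat_lit 404) (nat_lit 372) (nat_lit 244)))) (XT.nd (nat_lit 156) (nat_lit 76) (nat_lit 0) (XT.nd (nat_lit 78) (nat_lit 76) (nat_lit 0) (XT.lf (nat_lit 0) (nat_lit 261876165165) (nat_lit 152) (nat_lit 469017927352) (nat_lit 76) (nat_lit 6962366124302) (nat_lit 9) (nat_lit 5) (nat_lit 11) (nat_lit 5) (nat_lit 10) (nat_lit 4) (nat_lit 405) (nat_lit 372) (nat_lit 243)) (XT.lf (nat_lit 0) (nat_lit 2697488231545) (nat_lit 152) (nat_lit 4187818380788) (nat_lit 0) (nat_lit 1758858275199) (nat_lit 8) (nat_lit 5) (nat_lit 10) (nat_lit 4) (nat_lit 8) (nat_lit 4) (nat_lit 406) (nat_lit 372) (nat_lit 242))) (XT.nd (nat_lit 78) (nat_lit 0) (nat_lit 0) (XT.lf (nat_lit 0) (nat_lit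 412363731596) (nat_lit 76) (nat_lit 5130220074652) (nat_lit 76) (nat_lit 4191590116732) (nat_lit 7) (nat_lit 4) (nat_lit 8) (nat_lit 5) (nat_lit 8) (nat_lit 4) (nat_lit 407) (nat_lit 372) (nat_lit 241)) (XT.lf (nat_lit 0) (nat_lit 5956174702300) (nat_lit 76) (nat_lit 2980192832656) (nat_lit 76) (nat_lit 2041562873367) (nat_lit 7) (nat_lit 4) (nat_lit 8) (nat_lit 5) (nat_lit 8) (nat_lit 4) (nat_lit 408) (nat_lit 372) (nat_lit 240))))) (XT.nd (nat_lit 312) (nat_lit 0) (nat_lit 0) (XT.nd (nat_lit 156) (nat_lit 76) (nat_lit 0) (XT.nd (nat_lit 78) (nat_lit 76) (nat_lit 0) (XT.lf (nat_lit 0) (nat_lit 409409661311) (nat_lit 152) (nat_lit 87057864952) (nat_lit 76) (nat_lit 11910953656671) (nat_lit 6) (nat_lit 5) (nat_lit 8) (nat_lit 5) (nat_lit 7) (nat_lit 4) (nat_lit 409) (nat_lit 372) (nat_lit 239)) (XT.lf (nat_lit 0) (nat_lit 3312474206850) (nat_lit 152) (nat_lit 8274820412887) (nat_lit 0) (nat_lit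 2443372390632) (nat_lit 5) (nat_lit 5) (nat_lit 7) (nat_lit 4) (nat_lit 5) (nat_lit 4) (nat_lit 410) (nat_lit 372) (nat_lit 238))) (XT.nd (nat_lit 78) (nat_lit 76) (nat_lit 0) (XT.lf (nat_lit 0) (nat_lit 6667329922129) (nat_lit 152) (nat_lit 3430535165680) (nat_lit 0) (nat_lit 5798228105078) (nat_lit 5) (nat_lit 5) (nat_lit 7) (nat_lit 4) (nat_lit 5) (nat_lit 4) (nat_lit 411) (nat_lit 372) (nat_lit 237)) (XT.lf (nat_lit 0) (nat_lit 2253102152479) (nat_lit 76) (nat_lit 8326498997816) (nat_lit 76) (nat_lit 7457397180040) (nat_lit 4) (nat_lit 4) (nat_lit 5) (nat_lit 5) (nat_lit 5) (nat_lit 4) (nat_lit 412) (nat_lit 372) (nat_lit 236)))) (XT.nd (nat_lit 50076) (nat_lit 0) (nat_lit 4484) (XT.nd (nat_lit 49998) (nat_lit 0) (nat_lit 4940) (XT.lf (nat_lit 0) (nat_lit 8997027846129) (nat_lit 76) (nat_lit 6181561551924) (nat_lit 76) (nat_lit 5312459733518) (nat_lit 4) (nat_lit 4) (nat_lit 5) (nat_lit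 5) (nat_lit 5) (nat_lit 4) (nat_lit 413) (nat_lit 372) (nat_lit 235)) (XT.lf (nat_lit 0) (nat_lit 187626738760) (nat_lit 532) (nat_lit 8512365900) (nat_lit 532) (nat_lit 8512365900) (nat_lit 69) (nat_lit 3) (nat_lit 76) (nat_lit 3) (nat_lit 76) (nat_lit 5) (nat_lit 373) (nat_lit 373) (nat_lit 274))) (XT.nd (nat_lit 78) (nat_lit 456) (nat_lit 0) (XT.lf (nat_lit 76) (nat_lit 377941259917) (nat_lit 0) (nat_lit 34546384988) (nat_lit 532) (nat_lit 26785803832) (nat_lit 70) (nat_lit 5) (nat_lit 69) (nat_lit 3) (nat_lit 76) (nat_lit 5) (nat_lit 374) (nat_lit 373) (nat_lit 273)) (XT.nd (nat_lit 78) (nat_lit 0) (nat_lit 76) (XT.lf (nat_lit 0) (nat_lit 1411123415) (nat_lit 532) (nat_lit 103440880340) (nat_lit 608) (nat_lit 367409261524) (nat_lit 63) (nat_lit 5) (nat_lit 70) (nat_lit 5) (nat_lit 71) (nat_lit 5) (nat_lit 375) (nat_lit 373) (nat_lit 272)) (XT.lf (nat_lit 0) (nat_lit 52019441144) (nat_lit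 532) (nat_lit 143004614000) (nat_lit 608) (nat_lit 313536110818) (nat_lit 64) (nat_lit 5) (nat_lit 71) (nat_lit 5) (nat_lit 72) (nat_lit 5) (nat_lit 376) (nat_lit 373) (nat_lit 271))))))))
noncomputable def xc106 : XT := (XT.nd (nat_lit 1248) (nat_lit 1444) (nat_lit 0) (XT.nd (nat_lit 624) (nat_lit 1216) (nat_lit 0) (XT.nd (nat_lit 312) (nat_lit 836) (nat_lit 0) (XT.nd (nat_lit 156) (nat_lit 456) (nat_lit 0) (XT.nd (nat_lit 78) (nat_lit 456) (nat_lit 0) (XT.lf (nat_lit 0) (nat_lit 131328658627) (nat_lit 532) (nat_lit 178170503409) (nat_lit 76) (nat_lit 239115967599) (nat_lit 65) (nat_lit 5) (nat_lit 72) (nat_lit 5) (nat_lit 66) (nat_lit 5) (nat_lit 377) (nat_lit 373) (nat_lit 270)) (XT.lf (nat_lit 0) (nat_lit 245110300834) (nat_lit 532) (nat_lit 207514068996) (nat_lit 76) (nat_lit 140247884708) (nat_lit 59) (nat_lit 5) (nat_lit 66) (nat_lit 5) (nat_lit 60) (nat_lit 5) (nat_lit 378) (nat_lit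 373) (nat_lit 269))) (XT.nd (nat_lit 78) (nat_lit 228) (nat_lit 0) (XT.lf (nat_lit 0) (nat_lit 400082711166) (nat_lit 304) (nat_lit 229368525373) (nat_lit 76) (nat_lit 12386829937) (nat_lit 56) (nat_lit 5) (nat_lit 60) (nat_lit 5) (nat_lit 57) (nat_lit 5) (nat_lit 379) (nat_lit 373) (nat_lit 268)) (XT.lf (nat_lit 0) (nat_lit 450196888464) (nat_lit 228) (nat_lit 157648217470) (nat_lit 304) (nat_lit 87940114476) (nat_lit 53) (nat_lit 5) (nat_lit 56) (nat_lit 5) (nat_lit 57) (nat_lit 5) (nat_lit 380) (nat_lit 373) (nat_lit 267)))) (XT.nd (nat_lit 156) (nat_lit 380) (nat_lit 0) (XT.nd (nat_lit 78) (nat_lit 228) (nat_lit 0) (XT.lf (nat_lit 0) (nat_lit 113463051155) (nat_lit 228) (nat_lit 254356391665) (nat_lit 76) (nat_lit 387516657773) (nat_lit 50) (nat_lit 5) (nat_lit 53) (nat_lit 5) (nat_lit 51) (nat_lit 5) (nat_lit 381) (nat_lit 373) (nat_lit 266)) (XT.lf (nat_lit 0) (nat_lit 370476894942)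 (nat_lit 304) (nat_lit 253739080294) (nat_lit 76) (nat_lit 196972325732) (nat_lit 47) (nat_lit 5) (nat_lit 51) (nat_lit 5) (nat_lit 48) (nat_lit 5) (nat_lit 382) (nat_lit 373) (nat_lit 265))) (XT.nd (nat_lit 78) (nat_lit 228) (nat_lit 0) (XT.lf (nat_lit 0) (nat_lit 653950689669) (nat_lit 152) (nat_lit 45590240593) (nat_lit 228) (nat_lit 194697551962) (nat_lit 45) (nat_lit 5) (nat_lit 47) (nat_lit 5) (nat_lit 48) (nat_lit 5) (nat_lit 383) (nat_lit 373) (nat_lit 264)) (XT.lf (nat_lit 0) (nat_lit 136512034113) (nat_lit 228) (nat_lit 220103443461) (nat_lit 76) (nat_lit 618096297066) (nat_lit 42) (nat_lit 5) (nat_lit 45) (nat_lit 5) (nat_lit 43) (nat_lit 5) (nat_lit 384) (nat_lit 373) (nat_lit 263))))) (XT.nd (nat_lit 312) (nat_lit 608) (nat_lit 0) (XT.nd (nat_lit 156) (nat_lit 304) (nat_lit 0) (XT.nd (nat_lit 78) (nat_lit 152) (nat_lit 0) (XT.lf (nat_lit 0) (nat_lit 544272235986) (nat_lit 228)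 (nat_lit 188834266318) (nat_lit 76) (nat_lit 330673196637) (nat_lit 40) (nat_lit 5) (nat_lit 43) (nat_lit 5) (nat_lit 41) (nat_lit 5) (nat_lit 385) (nat_lit 373) (nat_lit 262)) (XT.lf (nat_lit 0) (nat_lit 1023031861013) (nat_lit 152) (nat_lit 31206130629) (nat_lit 228) (nat_lit 108686498379) (nat_lit 38) (nat_lit 5) (nat_lit 40) (nat_lit 5) (nat_lit 41) (nat_lit 5) (nat_lit 386) (nat_lit 373) (nat_lit 261))) (XT.nd (nat_lit 78) (nat_lit 152) (nat_lit 0) (XT.lf (nat_lit 0) (nat_lit 399918565663) (nat_lit 152) (nat_lit 90368629567) (nat_lit 76) (nat_lit 781605327504) (nat_lit 36) (nat_lit 5) (nat_lit 38) (nat_lit 5) (nat_lit 37) (nat_lit 5) (nat_lit 387) (nat_lit 373) (nat_lit 260)) (XT.lf (nat_lit 0) (nat_lit 1025417834136) (nat_lit 228) (nat_lit 24905142813) (nat_lit 76) (nat_lit 342893829469) (nat_lit 34) (nat_lit 5) (nat_lit 37) (nat_lit 5) (nat_lit 35) (nat_lit 4) (nat_lit 388) (nat_lit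 373) (nat_lit 259)))) (XT.nd (nat_lit 156) (nat_lit 228) (nat_lit 0) (XT.nd (nat_lit 78) (nat_lit 76) (nat_lit 0) (XT.lf (nat_lit 0) (nat_lit 52068347114) (nat_lit 152) (nat_lit 206356425341) (nat_lit 228) (nat_lit 1269344849538) (nat_lit 30) (nat_lit 5) (nat_lit 32) (nat_lit 5) (nat_lit 33) (nat_lit 5) (nat_lit 389) (nat_lit 373) (nat_lit 258)) (XT.lf (nat_lit 0) (nat_lit 127907540821) (nat_lit 76) (nat_lit 894134145979) (nat_lit 152) (nat_lit 654480422594) (nat_lit 29) (nat_lit 5) (nat_lit 30) (nat_lit 5) (nat_lit 31) (nat_lit 4) (nat_lit 390) (nat_lit 373) (nat_lit 257))) (XT.nd (nat_lit 78) (nat_lit 76) (nat_lit 0) (XT.lf (nat_lit 0) (nat_lit 107833118816) (nat_lit 152) (nat_lit 1625650808639) (nat_lit 76) (nat_lit 109374201721) (nat_lit 27) (nat_lit 5) (nat_lit 29) (nat_lit 5) (nat_lit 28) (nat_lit 4) (nat_lit 391) (nat_lit 373) (nat_lit 256)) (XT.lf (nat_lit 0) (nat_lit 281209503879)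 (nat_lit 76) (nat_lit 743383389751) (nat_lit 152) (nat_lit 1001883559245) (nat_lit 26) (nat_lit 5) (nat_lit 27) (nat_lit 5) (nat_lit 28) (nat_lit 4) (nat_lit 392) (nat_lit 373) (nat_lit 255)))))) (XT.nd (nat_lit 624) (nat_lit 684) (nat_lit 0) (XT.nd (nat_lit 312) (nat_lit 304) (nat_lit 0) (XT.nd (nat_lit 156) (nat_lit 228) (nat_lit 0) (XT.nd (nat_lit 78) (nat_lit 152) (nat_lit 0) (XT.lf (nat_lit 0) (nat_lit 345227079177) (nat_lit 76) (nat_lit 1800005996574) (nat_lit 76) (nat_lit 87095134095) (nat_lit 25) (nat_lit 4) (nat_lit 26) (nat_lit 5) (nat_lit 26) (nat_lit 4) (nat_lit 393) (nat_lit 373) (nat_lit 254)) (XT.lf (nat_lit 0) (nat_lit 363066407403) (nat_lit 76) (nat_lit 634999594159) (nat_lit 152) (nat_lit 1462621378665) (nat_lit 23) (nat_lit 5) (nat_lit 24) (nat_lit 5) (nat_lit 25) (nat_lit 4) (nat_lit 394) (nat_lit 373) (nat_lit 253))) (XT.nd (nat_lit 78) (nat_lit 152) (nat_lit 0) (XT.lf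 (nat_lit 0) (nat_lit 342477808144) (nat_lit 76) (nat_lit 1980067096289) (nat_lit 76) (nat_lit 394038496777) (nat_lit 22) (nat_lit 4) (nat_lit 23) (nat_lit 5) (nat_lit 23) (nat_lit 4) (nat_lit 395) (nat_lit 373) (nat_lit 252)) (XT.lf (nat_lit 0) (nat_lit 242545317142) (nat_lit 76) (nat_lit 636576762671) (nat_lit 152) (nat_lit 2123251373025) (nat_lit 20) (nat_lit 5) (nat_lit 21) (nat_lit 5) (nat_lit 22) (nat_lit 4) (nat_lit 396) (nat_lit 373) (nat_lit 251)))) (XT.nd (nat_lit 156) (nat_lit 152) (nat_lit 0) (XT.nd (nat_lit 78) (nat_lit 76) (nat_lit 0) (XT.lf (nat_lit 0) (nat_lit 37283705340) (nat_lit 76) (nat_lit 2376964358770) (nat_lit 76) (nat_lit 908419343020) (nat_lit 19) (nat_lit 4) (nat_lit 20) (nat_lit 5) (nat_lit 20) (nat_lit 4) (nat_lit 397) (nat_lit 373) (nat_lit 250)) (XT.lf (nat_lit 0) (nat_lit 564236412477) (nat_lit 152) (nat_lit 294933284349) (nat_lit 76) (nat_lit 2822892214481)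 (nat_lit 18) (nat_lit 5) (nat_lit 20) (nat_lit 5) (nat_lit 19) (nat_lit 4) (nat_lit 398) (nat_lit 373) (nat_lit 249))) (XT.nd (nat_lit 78) (nat_lit 76) (nat_lit 0) (XT.lf (nat_lit 0) (nat_lit 2308511212145) (nat_lit 152) (nat_lit 827858717575) (nat_lit 0) (nat_lit 948747297329) (nat_lit 17) (nat_lit 5) (nat_lit 19) (nat_lit 4) (nat_lit 17) (nat_lit 4) (nat_lit 399) (nat_lit 373) (nat_lit 248)) (XT.lf (nat_lit 0) (nat_lit 2935032052292) (nat_lit 76) (nat_lit 1482554962319) (nat_lit 76) (nat_lit 122791042915) (nat_lit 16) (nat_lit 4) (nat_lit 17) (nat_lit 5) (nat_lit 17) (nat_lit 4) (nat_lit 400) (nat_lit 373) (nat_lit 247))))) (XT.nd (nat_lit 312) (nat_lit 304) (nat_lit 0) (XT.nd (nat_lit 156) (nat_lit 152) (nat_lit 0) (XT.nd (nat_lit 78) (nat_lit 76) (nat_lit 0) (XT.lf (nat_lit 0) (nat_lit 1783992059888) (nat_lit 152) (nat_lit 2744050099658) (nat_lit 0) (nat_lit 524951390079) (nat_lit 14)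 (nat_lit 5) (nat_lit 16) (nat_lit 4) (nat_lit 14) (nat_lit 4) (nat_lit 401) (nat_lit 373) (nat_lit 246)) (XT.lf (nat_lit 0) (nat_lit 1287627303828) (nat_lit 76) (nat_lit 2802024597336) (nat_lit 76) (nat_lit 1542983924315) (nat_lit 13) (nat_lit 4) (nat_lit 14) (nat_lit 5) (nat_lit 14) (nat_lit 4) (nat_lit 402) (nat_lit 373) (nat_lit 245))) (XT.nd (nat_lit 78) (nat_lit 76) (nat_lit 0) (XT.lf (nat_lit 0) (nat_lit 501793955104) (nat_lit 152) (nat_lit 215309249197) (nat_lit 76) (nat_lit 5574713742440) (nat_lit 12) (nat_lit 5) (nat_lit 14) (nat_lit 5) (nat_lit 13) (nat_lit 4) (nat_lit 403) (nat_lit 373) (nat_lit 244)) (XT.lf (nat_lit 0) (nat_lit 2922703882448) (nat_lit 152) (nat_lit 2354177498092) (nat_lit 0) (nat_lit 1756925476667) (nat_lit 11) (nat_lit 5) (nat_lit 13) (nat_lit 4) (nat_lit 11) (nat_lit 4) (nat_lit 404) (nat_lit 373) (nat_lit 243)))) (XT.nd (nat_lit 156) (nat_lit 152) (nat_lit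 0) (XT.nd (nat_lit 78) (nat_lit 76) (nat_lit 0) (XT.lf (nat_lit 0) (nat_lit 2542440490206) (nat_lit 76) (nat_lit 3251720171378) (nat_lit 76) (nat_lit 2085941763642) (nat_lit 10) (nat_lit 4) (nat_lit 11) (nat_lit 5) (nat_lit 11) (nat_lit 4) (nat_lit 405) (nat_lit 373) (nat_lit 242)) (XT.lf (nat_lit 0) (nat_lit 301157682675) (nat_lit 152) (nat_lit 539370429471) (nat_lit 76) (nat_lit 8006721129773) (nat_lit 9) (nat_lit 5) (nat_lit 11) (nat_lit 5) (nat_lit 10) (nat_lit 4) (nat_lit 406) (nat_lit 373) (nat_lit 241))) (XT.nd (nat_lit 78) (nat_lit 76) (nat_lit 0) (XT.lf (nat_lit 0) (nat_lit 3102111553110) (nat_lit 152) (nat_lit 4815990962042) (nat_lit 0) (nat_lit 2022687098558) (nat_lit 8) (nat_lit 5) (nat_lit 10) (nat_lit 4) (nat_lit 8) (nat_lit 4) (nat_lit 407) (nat_lit 373) (nat_lit 240)) (XT.nd (nat_lit 78) (nat_lit 0) (nat_lit 0) (XT.lf (nat_lit 0) (nat_lit 474218452313) (nat_lit 76) (nat_lit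 5899753004252) (nat_lit 76) (nat_lit 4820328548509) (nat_lit 7) (nat_lit 4) (nat_lit 8) (nat_lit 5) (nat_lit 8) (nat_lit 4) (nat_lit 408) (nat_lit 373) (nat_lit 239)) (XT.lf (nat_lit 0) (nat_lit 6849601047625) (nat_lit 76) (nat_lit 3427221686600) (nat_lit 76) (nat_lit 2347797229822) (nat_lit 7) (nat_lit 4) (nat_lit 8) (nat_lit 5) (nat_lit 8) (nat_lit 4) (nat_lit 409) (nat_lit 373) (nat_lit 238))))))))
noncomputable def xc107 : XT := (XT.nd (nat_lit 51324) (nat_lit 0) (nat_lit 684) (XT.nd (nat_lit 50622) (nat_lit 0) (nat_lit 2736) (XT.nd (nat_lit 50310) (nat_lit 0) (nat_lit 4484) (XT.nd (nat_lit 156) (nat_lit 76) (nat_lit 0) (XT.nd (nat_lit 78) (nat_lit 76) (nat_lit 0) (XT.lf (nat_lit 0) (nat_lit 470821172091) (nat_lit 152) (nat_lit 100116419728) (nat_lit 76) (nat_lit 13697596763627) (nat_lit 6) (nat_lit 5) (nat_lit 8) (nat_lit 5) (nat_lit 7) (nat_lit 4) (nat_lit 410) (nat_lit 373) (nat_lit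 237)) (XT.lf (nat_lit 0) (nat_lit 3809345395576) (nat_lit 152) (nat_lit 9516043357321) (nat_lit 0) (nat_lit 2809878304409) (nat_lit 5) (nat_lit 5) (nat_lit 7) (nat_lit 4) (nat_lit 5) (nat_lit 4) (nat_lit 411) (nat_lit 373) (nat_lit 236))) (XT.nd (nat_lit 78) (nat_lit 76) (nat_lit 0) (XT.lf (nat_lit 0) (nat_lit 7667429460621) (nat_lit 152) (nat_lit 3945115338360) (nat_lit 0) (nat_lit 6667962368823) (nat_lit 5) (nat_lit 5) (nat_lit 7) (nat_lit 4) (nat_lit 5) (nat_lit 4) (nat_lit 412) (nat_lit 373) (nat_lit 235)) (XT.lf (nat_lit 0) (nat_lit 2591067568875) (nat_lit 76) (nat_lit 9575473799842) (nat_lit 76) (nat_lit 8576006707496) (nat_lit 4) (nat_lit 4) (nat_lit 5) (nat_lit 5) (nat_lit 5) (nat_lit 4) (nat_lit 413) (nat_lit 373) (nat_lit 234)))) (XT.nd (nat_lit 156) (nat_lit 456) (nat_lit 0) (XT.nd (nat_lit 78) (nat_lit 0) (nat_lit 0) (XT.lf (nat_lit 0) (nat_lit 215771382417) (nat_lit 532) (nat_lit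 9788878837) (nat_lit 532) (nat_lit 9788878837) (nat_lit 69) (nat_lit 3) (nat_lit 76) (nat_lit 3) (nat_lit 76) (nat_lit 5) (nat_lit 374) (nat_lit 374) (nat_lit 272)) (XT.lf (nat_lit 76) (nat_lit 434633074912) (nat_lit 0) (nat_lit 39728832380) (nat_lit 532) (nat_lit 30802468763) (nat_lit 70) (nat_lit 5) (nat_lit 69) (nat_lit 3) (nat_lit 76) (nat_lit 5) (nat_lit 375) (nat_lit 374) (nat_lit 271))) (XT.nd (nat_lit 78) (nat_lit 0) (nat_lit 76) (XT.lf (nat_lit 0) (nat_lit 1623793801) (nat_lit 532) (nat_lit 118956292865) (nat_lit 608) (nat_lit 422520287660) (nat_lit 63) (nat_lit 5) (nat_lit 70) (nat_lit 5) (nat_lit 71) (nat_lit 5) (nat_lit 376) (nat_lit 374) (nat_lit 270)) (XT.lf (nat_lit 0) (nat_lit 59823238856) (nat_lit 532) (nat_lit 164454570504) (nat_lit 608) (nat_lit 360566310455) (nat_lit 64) (nat_lit 5) (nat_lit 71) (nat_lit 5) (nat_lit 72) (nat_lit 5) (nat_lit 377) (nat_lit 374) (nat_lit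 269))))) (XT.nd (nat_lit 312) (nat_lit 988) (nat_lit 0) (XT.nd (nat_lit 156) (nat_lit 456) (nat_lit 0) (XT.nd (nat_lit 78) (nat_lit 456) (nat_lit 0) (XT.lf (nat_lit 0) (nat_lit 151028737540) (nat_lit 532) (nat_lit 204895339887) (nat_lit 76) (nat_lit 274983258793) (nat_lit 65) (nat_lit 5) (nat_lit 72) (nat_lit 5) (nat_lit 66) (nat_lit 5) (nat_lit 378) (nat_lit 374) (nat_lit 268)) (XT.lf (nat_lit 0) (nat_lit 281877540157) (nat_lit 532) (nat_lit 238640446468) (nat_lit 76) (nat_lit 161285050167) (nat_lit 59) (nat_lit 5) (nat_lit 66) (nat_lit 5) (nat_lit 60) (nat_lit 5) (nat_lit 379) (nat_lit 374) (nat_lit 267))) (XT.nd (nat_lit 78) (nat_lit 228) (nat_lit 0) (XT.lf (nat_lit 0) (nat_lit 460095738853) (nat_lit 304) (nat_lit 263773084640) (nat_lit 76) (nat_lit 14244902934) (nat_lit 56) (nat_lit 5) (nat_lit 60) (nat_lit 5) (nat_lit 57) (nat_lit 5) (nat_lit 380) (nat_lit 374) (nat_lit 266)) (XT.lf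 (nat_lit 0) (nat_lit 517727080367) (nat_lit 228) (nat_lit 181295347308) (nat_lit 304) (nat_lit 101130531033) (nat_lit 53) (nat_lit 5) (nat_lit 56) (nat_lit 5) (nat_lit 57) (nat_lit 5) (nat_lit 381) (nat_lit 374) (nat_lit 265)))) (XT.nd (nat_lit 156) (nat_lit 532) (nat_lit 0) (XT.nd (nat_lit 78) (nat_lit 228) (nat_lit 0) (XT.lf (nat_lit 0) (nat_lit 130483023013) (nat_lit 228) (nat_lit 292509181503) (nat_lit 76) (nat_lit 445644269792) (nat_lit 50) (nat_lit 5) (nat_lit 53) (nat_lit 5) (nat_lit 51) (nat_lit 5) (nat_lit 382) (nat_lit 374) (nat_lit 264)) (XT.lf (nat_lit 0) (nat_lit 426048894643) (nat_lit 304) (nat_lit 291799296511) (nat_lit 76) (nat_lit 226518317514) (nat_lit 47) (nat_lit 5) (nat_lit 51) (nat_lit 5) (nat_lit 48) (nat_lit 5) (nat_lit 383) (nat_lit 374) (nat_lit 263))) (XT.nd (nat_lit 78) (nat_lit 380) (nat_lit 0) (XT.lf (nat_lit 0) (nat_lit 752043884281) (nat_lit 152) (nat_lit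 52428604486) (nat_lit 228) (nat_lit 223901732093) (nat_lit 45) (nat_lit 5) (nat_lit 47) (nat_lit 5) (nat_lit 48) (nat_lit 5) (nat_lit 384) (nat_lit 374) (nat_lit 262)) (XT.nd (nat_lit 78) (nat_lit 152) (nat_lit 0) (XT.lf (nat_lit 0) (nat_lit 156989230874) (nat_lit 228) (nat_lit 253118371034) (nat_lit 76) (nat_lit 710810907450) (nat_lit 42) (nat_lit 5) (nat_lit 45) (nat_lit 5) (nat_lit 43) (nat_lit 5) (nat_lit 385) (nat_lit 374) (nat_lit 261)) (XT.lf (nat_lit 0) (nat_lit 625913429372) (nat_lit 228) (nat_lit 217158843226) (nat_lit 76) (nat_lit 380274352419) (nat_lit 40) (nat_lit 5) (nat_lit 43) (nat_lit 5) (nat_lit 41) (nat_lit 5) (nat_lit 386) (nat_lit 374) (nat_lit 260))))))) (XT.nd (nat_lit 624) (nat_lit 912) (nat_lit 0) (XT.nd (nat_lit 312) (nat_lit 380) (nat_lit 0) (XT.nd (nat_lit 156) (nat_lit 456) (nat_lit 0) (XT.nd (nat_lit 78) (nat_lit 152) (nat_lit 0) (XT.lf (nat_lit 0) (nat_lit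 1176487155546) (nat_lit 152) (nat_lit 35886858531) (nat_lit 228) (nat_lit 124989123442) (nat_lit 38) (nat_lit 5) (nat_lit 40) (nat_lit 5) (nat_lit 41) (nat_lit 5) (nat_lit 387) (nat_lit 374) (nat_lit 259)) (XT.lf (nat_lit 0) (nat_lit 459906655619) (nat_lit 152) (nat_lit 103923416506) (nat_lit 76) (nat_lit 898846304521) (nat_lit 36) (nat_lit 5) (nat_lit 38) (nat_lit 5) (nat_lit 37) (nat_lit 5) (nat_lit 388) (nat_lit 374) (nat_lit 258))) (XT.nd (nat_lit 78) (nat_lit 304) (nat_lit 0) (XT.lf (nat_lit 0) (nat_lit 1179230790262) (nat_lit 228) (nat_lit 28640432024) (nat_lit 76) (nat_lit 394328082538) (nat_lit 34) (nat_lit 5) (nat_lit 37) (nat_lit 5) (nat_lit 35) (nat_lit 4) (nat_lit 389) (nat_lit 374) (nat_lit 257)) (XT.lf (nat_lit 0) (nat_lit 59879078388) (nat_lit 152) (nat_lit 237309683115) (nat_lit 228) (nat_lit 1459746281873) (nat_lit 30) (nat_lit 5) (nat_lit 32) (nat_lit 5) (nat_lit 33) (nat_lit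 5) (nat_lit 390) (nat_lit 374) (nat_lit 256)))) (XT.nd (nat_lit 156) (nat_lit 152) (nat_lit 0) (XT.nd (nat_lit 78) (nat_lit 152) (nat_lit 0) (XT.lf (nat_lit 0) (nat_lit 147094126114) (nat_lit 76) (nat_lit 1028254066485) (nat_lit 152) (nat_lit 752652212929) (nat_lit 29) (nat_lit 5) (nat_lit 30) (nat_lit 5) (nat_lit 31) (nat_lit 4) (nat_lit 391) (nat_lit 374) (nat_lit 255)) (XT.lf (nat_lit 0) (nat_lit 124008327128) (nat_lit 152) (nat_lit 1869497987375) (nat_lit 76) (nat_lit 125780514768) (nat_lit 27) (nat_lit 5) (nat_lit 29) (nat_lit 5) (nat_lit 28) (nat_lit 4) (nat_lit 392) (nat_lit 374) (nat_lit 254))) (XT.nd (nat_lit 78) (nat_lit 76) (nat_lit 0) (XT.lf (nat_lit 0) (nat_lit 323391334561) (nat_lit 76) (nat_lit 854890711978) (nat_lit 152) (nat_lit 1152165856722) (nat_lit 26) (nat_lit 5) (nat_lit 27) (nat_lit 5) (nat_lit 28) (nat_lit 4) (nat_lit 393) (nat_lit 374) (nat_lit 253)) (XT.lf (nat_lit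 0) (nat_lit 397011523825) (nat_lit 76) (nat_lit 2070006716705) (nat_lit 76) (nat_lit 100159184487) (nat_lit 25) (nat_lit 4) (nat_lit 26) (nat_lit 5) (nat_lit 26) (nat_lit 4) (nat_lit 394) (nat_lit 374) (nat_lit 252))))) (XT.nd (nat_lit 312) (nat_lit 456) (nat_lit 0) (XT.nd (nat_lit 156) (nat_lit 228) (nat_lit 0) (XT.nd (nat_lit 78) (nat_lit 76) (nat_lit 0) (XT.lf (nat_lit 0) (nat_lit 417526728975) (nat_lit 76) (nat_lit 730249362996) (nat_lit 152) (nat_lit 1682014380051) (nat_lit 23) (nat_lit 5) (nat_lit 24) (nat_lit 5) (nat_lit 25) (nat_lit 4) (nat_lit 395) (nat_lit 374) (nat_lit 251)) (XT.lf (nat_lit 0) (nat_lit 393849819517) (nat_lit 76) (nat_lit 2277076997692) (nat_lit 76) (nat_lit 453144079991) (nat_lit 22) (nat_lit 4) (nat_lit 23) (nat_lit 5) (nat_lit 23) (nat_lit 4) (nat_lit 396) (nat_lit 374) (nat_lit 250))) (XT.nd (nat_lit 78) (nat_lit 76) (nat_lit 0) (XT.lf (nat_lit 0) (nat_lit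 278927434851) (nat_lit 76) (nat_lit 732063122662) (nat_lit 152) (nat_lit 2441738899974) (nat_lit 20) (nat_lit 5) (nat_lit 21) (nat_lit 5) (nat_lit 22) (nat_lit 4) (nat_lit 397) (nat_lit 374) (nat_lit 249)) (XT.lf (nat_lit 0) (nat_lit 42876562934) (nat_lit 76) (nat_lit 2733508865390) (nat_lit 76) (nat_lit 1044682077490) (nat_lit 19) (nat_lit 4) (nat_lit 20) (nat_lit 5) (nat_lit 20) (nat_lit 4) (nat_lit 398) (nat_lit 374) (nat_lit 248)))) (XT.nd (nat_lit 156) (nat_lit 304) (nat_lit 0) (XT.nd (nat_lit 78) (nat_lit 76) (nat_lit 0) (XT.lf (nat_lit 0) (nat_lit 648872012288) (nat_lit 152) (nat_lit 339173007295) (nat_lit 76) (nat_lit 3246326167373) (nat_lit 18) (nat_lit 5) (nat_lit 20) (nat_lit 5) (nat_lit 19) (nat_lit 4) (nat_lit 399) (nat_lit 374) (nat_lit 247)) (XT.lf (nat_lit 0) (nat_lit 2654788022760) (nat_lit 152) (nat_lit 952037271163) (nat_lit 0) (nat_lit 1091059506868) (nat_lit 17) (nat_lit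 5) (nat_lit 19) (nat_lit 4) (nat_lit 17) (nat_lit 4) (nat_lit 400) (nat_lit 374) (nat_lit 246))) (XT.nd (nat_lit 78) (nat_lit 228) (nat_lit 0) (XT.lf (nat_lit 0) (nat_lit 3375287092680) (nat_lit 76) (nat_lit 1704938091710) (nat_lit 76) (nat_lit 141209572348) (nat_lit 16) (nat_lit 4) (nat_lit 17) (nat_lit 5) (nat_lit 17) (nat_lit 4) (nat_lit 401) (nat_lit 374) (nat_lit 245)) (XT.nd (nat_lit 78) (nat_lit 76) (nat_lit 0) (XT.lf (nat_lit 0) (nat_lit 2051590981654) (nat_lit 152) (nat_lit 3155657389710) (nat_lit 0) (nat_lit 603694201674) (nat_lit 14) (nat_lit 5) (nat_lit 16) (nat_lit 4) (nat_lit 14) (nat_lit 4) (nat_lit 402) (nat_lit 374) (nat_lit 244)) (XT.lf (nat_lit 0) (nat_lit 1480771605263) (nat_lit 76) (nat_lit 3222328184099) (nat_lit 76) (nat_lit 1774431401690) (nat_lit 13) (nat_lit 4) (nat_lit 14) (nat_lit 5) (nat_lit 14) (nat_lit 4) (nat_lit 403) (nat_lit 374) (nat_lit 243))))))))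
noncomputable def xc108 : XT := (XT.nd (nat_lit 51324) (nat_lit 0) (nat_lit 1292) (XT.nd (nat_lit 624) (nat_lit 76) (nat_lit 0) (XT.nd (nat_lit 312) (nat_lit 228) (nat_lit 0) (XT.nd (nat_lit 156) (nat_lit 152) (nat_lit 0) (XT.nd (nat_lit 78) (nat_lit 76) (nat_lit 0) (XT.lf (nat_lit 0) (nat_lit 577063140287) (nat_lit 152) (nat_lit 247605452722) (nat_lit 76) (nat_lit 6410920888384) (nat_lit 12) (nat_lit 5) (nat_lit 14) (nat_lit 5) (nat_lit 13) (nat_lit 4) (nat_lit 404) (nat_lit 374) (nat_lit 242)) (XT.lf (nat_lit 0) (nat_lit 3361109550819) (nat_lit 152) (nat_lit 2707303949818) (nat_lit 0) (nat_lit 2020464378265) (nat_lit 11) (nat_lit 5) (nat_lit 13) (nat_lit 4) (nat_lit 11) (nat_lit 4) (nat_lit 405) (nat_lit 374) (nat_lit 241))) (XT.nd (nat_lit 78) (nat_lit 76) (nat_lit 0) (XT.lf (nat_lit 0) (nat_lit 2923806722082) (nat_lit 76) (nat_lit 3739478117334) (nat_lit 76) (nat_lit 2398832943302) (nat_lit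 10) (nat_lit 4) (nat_lit 11) (nat_lit 5) (nat_lit 11) (nat_lit 4) (nat_lit 406) (nat_lit 374) (nat_lit 240)) (XT.lf (nat_lit 0) (nat_lit 346331405198) (nat_lit 152) (nat_lit 620275852504) (nat_lit 76) (nat_lit 9207729364892) (nat_lit 9) (nat_lit 5) (nat_lit 11) (nat_lit 5) (nat_lit 10) (nat_lit 4) (nat_lit 407) (nat_lit 374) (nat_lit 239)))) (XT.nd (nat_lit 156) (nat_lit 76) (nat_lit 0) (XT.nd (nat_lit 78) (nat_lit 76) (nat_lit 0) (XT.lf (nat_lit 0) (nat_lit 3567428351735) (nat_lit 152) (nat_lit 5538389473371) (nat_lit 0) (nat_lit 2326090225406) (nat_lit 8) (nat_lit 5) (nat_lit 10) (nat_lit 4) (nat_lit 8) (nat_lit 4) (nat_lit 408) (nat_lit 374) (nat_lit 238)) (XT.lf (nat_lit 0) (nat_lit 545351341882) (nat_lit 76) (nat_lit 6784715893189) (nat_lit 76) (nat_lit 5543377765960) (nat_lit 7) (nat_lit 4) (nat_lit 8) (nat_lit 5) (nat_lit 8) (nat_lit 4) (nat_lit 409) (nat_lit 374) (nat_lit 237)))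 (XT.nd (nat_lit 78) (nat_lit 76) (nat_lit 0) (XT.lf (nat_lit 0) (nat_lit 7877041310615) (nat_lit 76) (nat_lit 3941304885938) (nat_lit 76) (nat_lit 2699966757925) (nat_lit 7) (nat_lit 4) (nat_lit 8) (nat_lit 5) (nat_lit 8) (nat_lit 4) (nat_lit 410) (nat_lit 374) (nat_lit 236)) (XT.lf (nat_lit 0) (nat_lit 541444394470) (nat_lit 152) (nat_lit 115133788194) (nat_lit 76) (nat_lit 15752236322371) (nat_lit 6) (nat_lit 5) (nat_lit 8) (nat_lit 5) (nat_lit 7) (nat_lit 4) (nat_lit 411) (nat_lit 374) (nat_lit 235))))) (XT.nd (nat_lit 50388) (nat_lit 0) (nat_lit 4104) (XT.nd (nat_lit 50232) (nat_lit 0) (nat_lit 4864) (XT.nd (nat_lit 78) (nat_lit 0) (nat_lit 0) (XT.lf (nat_lit 0) (nat_lit 4380747248542) (nat_lit 152) (nat_lit 10943449772074) (nat_lit 0) (nat_lit 3231360091796) (nat_lit 5) (nat_lit 5) (nat_lit 7) (nat_lit 4) (nat_lit 5) (nat_lit 4) (nat_lit 412) (nat_lit 374) (nat_lit 234)) (XT.lf (nat_lit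 0) (nat_lit 8817543917652) (nat_lit 152) (nat_lit 4536882561856) (nat_lit 0) (nat_lit 7668156760430) (nat_lit 5) (nat_lit 5) (nat_lit 7) (nat_lit 4) (nat_lit 5) (nat_lit 4) (nat_lit 413) (nat_lit 374) (nat_lit 233))) (XT.nd (nat_lit 78) (nat_lit 0) (nat_lit 0) (XT.lf (nat_lit 0) (nat_lit 248137568300) (nat_lit 532) (nat_lit 11256952101) (nat_lit 532) (nat_lit 11256952101) (nat_lit 69) (nat_lit 3) (nat_lit 76) (nat_lit 3) (nat_lit 76) (nat_lit 5) (nat_lit 375) (nat_lit 375) (nat_lit 270)) (XT.lf (nat_lit 76) (nat_lit 499828509501) (nat_lit 0) (nat_lit 45688527478) (nat_lit 532) (nat_lit 35421927438) (nat_lit 70) (nat_lit 5) (nat_lit 69) (nat_lit 3) (nat_lit 76) (nat_lit 5) (nat_lit 376) (nat_lit 375) (nat_lit 269)))) (XT.nd (nat_lit 156) (nat_lit 304) (nat_lit 0) (XT.nd (nat_lit 78) (nat_lit 0) (nat_lit 76) (XT.lf (nat_lit 0) (nat_lit 1868120431) (nat_lit 532) (nat_lit 136799192729) (nat_lit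 608) (nat_lit 485898056258) (nat_lit 63) (nat_lit 5) (nat_lit 70) (nat_lit 5) (nat_lit 71) (nat_lit 5) (nat_lit 377) (nat_lit 375) (nat_lit 268)) (XT.lf (nat_lit 0) (nat_lit 68797391256) (nat_lit 532) (nat_lit 189122199863) (nat_lit 608) (nat_lit 414651092951) (nat_lit 64) (nat_lit 5) (nat_lit 71) (nat_lit 5) (nat_lit 72) (nat_lit 5) (nat_lit 378) (nat_lit 375) (nat_lit 267))) (XT.nd (nat_lit 78) (nat_lit 456) (nat_lit 0) (XT.lf (nat_lit 0) (nat_lit 173683638053) (nat_lit 532) (nat_lit 235629082054) (nat_lit 76) (nat_lit 316230669015) (nat_lit 65) (nat_lit 5) (nat_lit 72) (nat_lit 5) (nat_lit 66) (nat_lit 5) (nat_lit 379) (nat_lit 375) (nat_lit 266)) (XT.lf (nat_lit 0) (nat_lit 324159696093) (nat_lit 532) (nat_lit 274435959277) (nat_lit 76) (nat_lit 185477794651) (nat_lit 59) (nat_lit 5) (nat_lit 66) (nat_lit 5) (nat_lit 60) (nat_lit 5) (nat_lit 380) (nat_lit 375) (nat_lit 265)))))) (XT.nd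 (nat_lit 624) (nat_lit 1216) (nat_lit 0) (XT.nd (nat_lit 312) (nat_lit 684) (nat_lit 0) (XT.nd (nat_lit 156) (nat_lit 456) (nat_lit 0) (XT.nd (nat_lit 78) (nat_lit 228) (nat_lit 0) (XT.lf (nat_lit 0) (nat_lit 529110569255) (nat_lit 304) (nat_lit 303338503261) (nat_lit 76) (nat_lit 16381675051) (nat_lit 56) (nat_lit 5) (nat_lit 60) (nat_lit 5) (nat_lit 57) (nat_lit 5) (nat_lit 381) (nat_lit 375) (nat_lit 264)) (XT.lf (nat_lit 0) (nat_lit 595386640444) (nat_lit 228) (nat_lit 208489571685) (nat_lit 304) (nat_lit 116299656538) (nat_lit 53) (nat_lit 5) (nat_lit 56) (nat_lit 5) (nat_lit 57) (nat_lit 5) (nat_lit 382) (nat_lit 375) (nat_lit 263))) (XT.nd (nat_lit 78) (nat_lit 228) (nat_lit 0) (XT.lf (nat_lit 0) (nat_lit 150055865261) (nat_lit 228) (nat_lit 336385052936) (nat_lit 76) (nat_lit 512490995973) (nat_lit 50) (nat_lit 5) (nat_lit 53) (nat_lit 5) (nat_lit 51) (nat_lit 5) (nat_lit 383) (nat_lit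 375) (nat_lit 262)) (XT.lf (nat_lit 0) (nat_lit 489956580795) (nat_lit 304) (nat_lit 335568702649) (nat_lit 76) (nat_lit 260496173212) (nat_lit 47) (nat_lit 5) (nat_lit 51) (nat_lit 5) (nat_lit 48) (nat_lit 5) (nat_lit 384) (nat_lit 375) (nat_lit 261)))) (XT.nd (nat_lit 156) (nat_lit 304) (nat_lit 0) (XT.nd (nat_lit 78) (nat_lit 228) (nat_lit 0) (XT.lf (nat_lit 0) (nat_lit 864850913926) (nat_lit 152) (nat_lit 60292764955) (nat_lit 228) (nat_lit 257486649628) (nat_lit 45) (nat_lit 5) (nat_lit 47) (nat_lit 5) (nat_lit 48) (nat_lit 5) (nat_lit 385) (nat_lit 375) (nat_lit 260)) (XT.lf (nat_lit 0) (nat_lit 180537911644) (nat_lit 228) (nat_lit 291085681362) (nat_lit 76) (nat_lit 817432668956) (nat_lit 42) (nat_lit 5) (nat_lit 45) (nat_lit 5) (nat_lit 43) (nat_lit 5) (nat_lit 386) (nat_lit 375) (nat_lit 259))) (XT.nd (nat_lit 78) (nat_lit 152) (nat_lit 0) (XT.lf (nat_lit 0) (nat_lit 719800714469)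 (nat_lit 228) (nat_lit 249732243971) (nat_lit 76) (nat_lit 437315638579) (nat_lit 40) (nat_lit 5) (nat_lit 43) (nat_lit 5) (nat_lit 41) (nat_lit 5) (nat_lit 387) (nat_lit 375) (nat_lit 258)) (XT.lf (nat_lit 0) (nat_lit 1352960618580) (nat_lit 152) (nat_lit 41269742364) (nat_lit 228) (nat_lit 143737227539) (nat_lit 38) (nat_lit 5) (nat_lit 40) (nat_lit 5) (nat_lit 41) (nat_lit 5) (nat_lit 388) (nat_lit 375) (nat_lit 257))))) (XT.nd (nat_lit 312) (nat_lit 532) (nat_lit 0) (XT.nd (nat_lit 156) (nat_lit 380) (nat_lit 0) (XT.nd (nat_lit 78) (nat_lit 152) (nat_lit 0) (XT.lf (nat_lit 0) (nat_lit 528892884667) (nat_lit 152) (nat_lit 119511545243) (nat_lit 76) (nat_lit 1033673384711) (nat_lit 36) (nat_lit 5) (nat_lit 38) (nat_lit 5) (nat_lit 37) (nat_lit 5) (nat_lit 389) (nat_lit 375) (nat_lit 256)) (XT.lf (nat_lit 0) (nat_lit 1356115621282) (nat_lit 228) (nat_lit 32936132206) (nat_lit 76) (nat_lit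 453477430002) (nat_lit 34) (nat_lit 5) (nat_lit 37) (nat_lit 5) (nat_lit 35) (nat_lit 4) (nat_lit 390) (nat_lit 375) (nat_lit 255))) (XT.nd (nat_lit 78) (nat_lit 76) (nat_lit 0) (XT.lf (nat_lit 0) (nat_lit 68861302495) (nat_lit 152) (nat_lit 272905979796) (nat_lit 228) (nat_lit 1678708001020) (nat_lit 30) (nat_lit 5) (nat_lit 32) (nat_lit 5) (nat_lit 33) (nat_lit 5) (nat_lit 391) (nat_lit 375) (nat_lit 254)) (XT.lf (nat_lit 0) (nat_lit 169158588449) (nat_lit 76) (nat_lit 1182492024177) (nat_lit 152) (nat_lit 865549838400) (nat_lit 29) (nat_lit 5) (nat_lit 30) (nat_lit 5) (nat_lit 31) (nat_lit 4) (nat_lit 392) (nat_lit 375) (nat_lit 253)))) (XT.nd (nat_lit 156) (nat_lit 304) (nat_lit 0) (XT.nd (nat_lit 78) (nat_lit 76) (nat_lit 0) (XT.lf (nat_lit 0) (nat_lit 142609758041) (nat_lit 152) (nat_lit 2149922350843) (nat_lit 76) (nat_lit 144647730198) (nat_lit 27) (nat_lit 5) (nat_lit 29) (nat_lit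 5) (nat_lit 28) (nat_lit 4) (nat_lit 393) (nat_lit 375) (nat_lit 252)) (XT.lf (nat_lit 0) (nat_lit 371900341058) (nat_lit 76) (nat_lit 983124177953) (nat_lit 152) (nat_lit 1324990556471) (nat_lit 26) (nat_lit 5) (nat_lit 27) (nat_lit 5) (nat_lit 28) (nat_lit 4) (nat_lit 394) (nat_lit 375) (nat_lit 251))) (XT.nd (nat_lit 78) (nat_lit 228) (nat_lit 0) (XT.lf (nat_lit 0) (nat_lit 456563541829) (nat_lit 76) (nat_lit 2380507588592) (nat_lit 76) (nat_lit 115182896018) (nat_lit 25) (nat_lit 4) (nat_lit 26) (nat_lit 5) (nat_lit 26) (nat_lit 4) (nat_lit 395) (nat_lit 375) (nat_lit 250)) (XT.nd (nat_lit 78) (nat_lit 76) (nat_lit 0) (XT.lf (nat_lit 0) (nat_lit 480156010881) (nat_lit 76) (nat_lit 839786638685) (nat_lit 152) (nat_lit 1934316381735) (nat_lit 23) (nat_lit 5) (nat_lit 24) (nat_lit 5) (nat_lit 25) (nat_lit 4) (nat_lit 396) (nat_lit 375) (nat_lit 249)) (XT.lf (nat_lit 0) (nat_lit 452927549647)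 (nat_lit 76) (nat_lit 2618638424064) (nat_lit 76) (nat_lit 521115547338) (nat_lit 22) (nat_lit 4) (nat_lit 23) (nat_lit 5) (nat_lit 23) (nat_lit 4) (nat_lit 397) (nat_lit 375) (nat_lit 248))))))))
noncomputable def xc109 : XT := (XT.nd (nat_lit 51402) (nat_lit 0) (nat_lit 1900) (XT.nd (nat_lit 624) (nat_lit 532) (nat_lit 0) (XT.nd (nat_lit 312) (nat_lit 380) (nat_lit 0) (XT.nd (nat_lit 156) (nat_lit 152) (nat_lit 0) (XT.nd (nat_lit 78) (nat_lit 76) (nat_lit 0) (XT.lf (nat_lit 0) (nat_lit 320766792149) (nat_lit 76) (nat_lit 841872474305) (nat_lit 152) (nat_lit 2807999599617) (nat_lit 20) (nat_lit 5) (nat_lit 21) (nat_lit 5) (nat_lit 22) (nat_lit 4) (nat_lit 398) (nat_lit 375) (nat_lit 247)) (XT.lf (nat_lit 0) (nat_lit 49308275574) (nat_lit 76) (nat_lit 3143535083898) (nat_lit 76) (nat_lit 1201384262851) (nat_lit 19) (nat_lit 4) (nat_lit 20) (nat_lit 5) (nat_lit 20) (nat_lit 4) (nat_lit 399)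 (nat_lit 375) (nat_lit 246))) (XT.nd (nat_lit 78) (nat_lit 76) (nat_lit 0) (XT.lf (nat_lit 0) (nat_lit 746202918432) (nat_lit 152) (nat_lit 390048754453) (nat_lit 76) (nat_lit 3733275183760) (nat_lit 18) (nat_lit 5) (nat_lit 20) (nat_lit 5) (nat_lit 19) (nat_lit 4) (nat_lit 400) (nat_lit 375) (nat_lit 245)) (XT.lf (nat_lit 0) (nat_lit 3053006323561) (nat_lit 152) (nat_lit 1094842669741) (nat_lit 0) (nat_lit 1254718519809) (nat_lit 17) (nat_lit 5) (nat_lit 19) (nat_lit 4) (nat_lit 17) (nat_lit 4) (nat_lit 401) (nat_lit 375) (nat_lit 244)))) (XT.nd (nat_lit 156) (nat_lit 152) (nat_lit 0) (XT.nd (nat_lit 78) (nat_lit 152) (nat_lit 0) (XT.lf (nat_lit 0) (nat_lit 3881580332419) (nat_lit 76) (nat_lit 1960678718542) (nat_lit 76) (nat_lit 162390912167) (nat_lit 16) (nat_lit 4) (nat_lit 17) (nat_lit 5) (nat_lit 17) (nat_lit 4) (nat_lit 402) (nat_lit 375) (nat_lit 243)) (XT.lf (nat_lit 0) (nat_lit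 2359329714183) (nat_lit 152) (nat_lit 3629005828112) (nat_lit 0) (nat_lit 694248409872) (nat_lit 14) (nat_lit 5) (nat_lit 16) (nat_lit 4) (nat_lit 14) (nat_lit 4) (nat_lit 403) (nat_lit 375) (nat_lit 242))) (XT.nd (nat_lit 78) (nat_lit 76) (nat_lit 0) (XT.lf (nat_lit 0) (nat_lit 1702887501712) (nat_lit 76) (nat_lit 3705677333954) (nat_lit 76) (nat_lit 2040596027807) (nat_lit 13) (nat_lit 4) (nat_lit 14) (nat_lit 5) (nat_lit 14) (nat_lit 4) (nat_lit 404) (nat_lit 375) (nat_lit 241)) (XT.lf (nat_lit 0) (nat_lit 663622680833) (nat_lit 152) (nat_lit 284746131610) (nat_lit 76) (nat_lit 7372559085595) (nat_lit 12) (nat_lit 5) (nat_lit 14) (nat_lit 5) (nat_lit 13) (nat_lit 4) (nat_lit 405) (nat_lit 375) (nat_lit 240))))) (XT.nd (nat_lit 312) (nat_lit 228) (nat_lit 0) (XT.nd (nat_lit 156) (nat_lit 152) (nat_lit 0) (XT.nd (nat_lit 78) (nat_lit 76) (nat_lit 0) (XT.lf (nat_lit 0) (nat_lit 3865276048473)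 (nat_lit 152) (nat_lit 3113399411488) (nat_lit 0) (nat_lit 2323534095571) (nat_lit 11) (nat_lit 5) (nat_lit 13) (nat_lit 4) (nat_lit 11) (nat_lit 4) (nat_lit 406) (nat_lit 375) (nat_lit 239)) (XT.lf (nat_lit 0) (nat_lit 3362377850126) (nat_lit 76) (nat_lit 4300399774631) (nat_lit 76) (nat_lit 2758657820612) (nat_lit 10) (nat_lit 4) (nat_lit 11) (nat_lit 5) (nat_lit 11) (nat_lit 4) (nat_lit 407) (nat_lit 375) (nat_lit 238))) (XT.nd (nat_lit 78) (nat_lit 76) (nat_lit 0) (XT.lf (nat_lit 0) (nat_lit 398281169000) (nat_lit 152) (nat_lit 713317123471) (nat_lit 76) (nat_lit 10588888819269) (nat_lit 9) (nat_lit 5) (nat_lit 11) (nat_lit 5) (nat_lit 10) (nat_lit 4) (nat_lit 408) (nat_lit 375) (nat_lit 237)) (XT.lf (nat_lit 0) (nat_lit 4102542654143) (nat_lit 152) (nat_lit 6369147793826) (nat_lit 0) (nat_lit 2675003806146) (nat_lit 8) (nat_lit 5) (nat_lit 10) (nat_lit 4) (nat_lit 8) (nat_lit 4) (nat_lit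 409) (nat_lit 375) (nat_lit 236)))) (XT.nd (nat_lit 156) (nat_lit 152) (nat_lit 0) (XT.nd (nat_lit 78) (nat_lit 0) (nat_lit 0) (XT.lf (nat_lit 0) (nat_lit 627154135204) (nat_lit 76) (nat_lit 7802423230514) (nat_lit 76) (nat_lit 6374884381835) (nat_lit 7) (nat_lit 4) (nat_lit 8) (nat_lit 5) (nat_lit 8) (nat_lit 4) (nat_lit 410) (nat_lit 375) (nat_lit 235)) (XT.lf (nat_lit 0) (nat_lit 9058597587241) (nat_lit 76) (nat_lit 4532500578260) (nat_lit 76) (nat_lit 3104961728989) (nat_lit 7) (nat_lit 4) (nat_lit 8) (nat_lit 5) (nat_lit 8) (nat_lit 4) (nat_lit 411) (nat_lit 375) (nat_lit 234))) (XT.nd (nat_lit 78) (nat_lit 76) (nat_lit 0) (XT.lf (nat_lit 0) (nat_lit 622661088851) (nat_lit 152) (nat_lit 132403784972) (nat_lit 76) (nat_lit 18115071804149) (nat_lit 6) (nat_lit 5) (nat_lit 8) (nat_lit 5) (nat_lit 7) (nat_lit 4) (nat_lit 412) (nat_lit 375) (nat_lit 233)) (XT.lf (nat_lit 0) (nat_lit 5037859368812)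 (nat_lit 152) (nat_lit 12584967170705) (nat_lit 0) (nat_lit 3716064137116) (nat_lit 5) (nat_lit 5) (nat_lit 7) (nat_lit 4) (nat_lit 5) (nat_lit 4) (nat_lit 413) (nat_lit 375) (nat_lit 232)))))) (XT.nd (nat_lit 624) (nat_lit 1748) (nat_lit 0) (XT.nd (nat_lit 312) (nat_lit 760) (nat_lit 0) (XT.nd (nat_lit 156) (nat_lit 456) (nat_lit 0) (XT.nd (nat_lit 78) (nat_lit 0) (nat_lit 0) (XT.lf (nat_lit 0) (nat_lit 285358565375) (nat_lit 532) (nat_lit 12945299407) (nat_lit 532) (nat_lit 12945299407) (nat_lit 69) (nat_lit 3) (nat_lit 76) (nat_lit 3) (nat_lit 76) (nat_lit 5) (nat_lit 376) (nat_lit 376) (nat_lit 268)) (XT.lf (nat_lit 76) (nat_lit 574803143848) (nat_lit 0) (nat_lit 52542086555) (nat_lit 532) (nat_lit 40734527223) (nat_lit 70) (nat_lit 5) (nat_lit 69) (nat_lit 3) (nat_lit 76) (nat_lit 5) (nat_lit 377) (nat_lit 376) (nat_lit 267))) (XT.nd (nat_lit 78) (nat_lit 0) (nat_lit 76) (XT.lf (nat_lit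 0) (nat_lit 2148911320) (nat_lit 532) (nat_lit 157318660247) (nat_lit 608) (nat_lit 558782557098) (nat_lit 63) (nat_lit 5) (nat_lit 70) (nat_lit 5) (nat_lit 71) (nat_lit 5) (nat_lit 378) (nat_lit 376) (nat_lit 266)) (XT.lf (nat_lit 0) (nat_lit 79117503968) (nat_lit 532) (nat_lit 217490109263) (nat_lit 608) (nat_lit 476848632831) (nat_lit 64) (nat_lit 5) (nat_lit 71) (nat_lit 5) (nat_lit 72) (nat_lit 5) (nat_lit 379) (nat_lit 376) (nat_lit 265)))) (XT.nd (nat_lit 156) (nat_lit 456) (nat_lit 0) (XT.nd (nat_lit 78) (nat_lit 456) (nat_lit 0) (XT.lf (nat_lit 0) (nat_lit 199736629797) (nat_lit 532) (nat_lit 270973021817) (nat_lit 76) (nat_lit 363665209936) (nat_lit 65) (nat_lit 5) (nat_lit 72) (nat_lit 5) (nat_lit 66) (nat_lit 5) (nat_lit 380) (nat_lit 376) (nat_lit 264)) (XT.lf (nat_lit 0) (nat_lit 372784047417) (nat_lit 532) (nat_lit 315600934144) (nat_lit 76) (nat_lit 213299453988) (nat_lit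 59) (nat_lit 5) (nat_lit 66) (nat_lit 5) (nat_lit 60) (nat_lit 5) (nat_lit 381) (nat_lit 376) (nat_lit 263))) (XT.nd (nat_lit 78) (nat_lit 228) (nat_lit 0) (XT.lf (nat_lit 0) (nat_lit 608477509708) (nat_lit 304) (nat_lit 348838867352) (nat_lit 76) (nat_lit 18838954042) (nat_lit 56) (nat_lit 5) (nat_lit 60) (nat_lit 5) (nat_lit 57) (nat_lit 5) (nat_lit 382) (nat_lit 376) (nat_lit 262)) (XT.lf (nat_lit 0) (nat_lit 684695013086) (nat_lit 228) (nat_lit 239762948671) (nat_lit 304) (nat_lit 133744261615) (nat_lit 53) (nat_lit 5) (nat_lit 56) (nat_lit 5) (nat_lit 57) (nat_lit 5) (nat_lit 383) (nat_lit 376) (nat_lit 261))))) (XT.nd (nat_lit 312) (nat_lit 912) (nat_lit 0) (XT.nd (nat_lit 156) (nat_lit 380) (nat_lit 0) (XT.nd (nat_lit 78) (nat_lit 228) (nat_lit 0) (XT.lf (nat_lit 0) (nat_lit 172564539037) (nat_lit 228) (nat_lit 386842428425) (nat_lit 76) (nat_lit 589364710179) (nat_lit 50) (nat_lit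 5) (nat_lit 53) (nat_lit 5) (nat_lit 51) (nat_lit 5) (nat_lit 384) (nat_lit 376) (nat_lit 260)) (XT.lf (nat_lit 0) (nat_lit 563450334042) (nat_lit 304) (nat_lit 385903638793) (nat_lit 76) (nat_lit 299570680910) (nat_lit 47) (nat_lit 5) (nat_lit 51) (nat_lit 5) (nat_lit 48) (nat_lit 5) (nat_lit 385) (nat_lit 376) (nat_lit 259))) (XT.nd (nat_lit 78) (nat_lit 228) (nat_lit 0) (XT.lf (nat_lit 0) (nat_lit 994578889013) (nat_lit 152) (nat_lit 69336581244) (nat_lit 228) (nat_lit 296109388261) (nat_lit 45) (nat_lit 5) (nat_lit 47) (nat_lit 5) (nat_lit 48) (nat_lit 5) (nat_lit 386) (nat_lit 376) (nat_lit 258)) (XT.lf (nat_lit 0) (nat_lit 207618822315) (nat_lit 228) (nat_lit 334748196835) (nat_lit 76) (nat_lit 940047664110) (nat_lit 42) (nat_lit 5) (nat_lit 45) (nat_lit 5) (nat_lit 43) (nat_lit 5) (nat_lit 387) (nat_lit 376) (nat_lit 257)))) (XT.nd (nat_lit 156) (nat_lit 608) (nat_lit 0) (XT.nd (nat_lit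 78) (nat_lit 152) (nat_lit 0) (XT.lf (nat_lit 0) (nat_lit 827771026320) (nat_lit 228) (nat_lit 287191758647) (nat_lit 76) (nat_lit 502913085158) (nat_lit 40) (nat_lit 5) (nat_lit 43) (nat_lit 5) (nat_lit 41) (nat_lit 5) (nat_lit 388) (nat_lit 376) (nat_lit 256)) (XT.lf (nat_lit 0) (nat_lit 1555905006038) (nat_lit 152) (nat_lit 47460094118) (nat_lit 228) (nat_lit 165297611731) (nat_lit 38) (nat_lit 5) (nat_lit 40) (nat_lit 5) (nat_lit 41) (nat_lit 5) (nat_lit 389) (nat_lit 376) (nat_lit 255))) (XT.nd (nat_lit 78) (nat_lit 456) (nat_lit 0) (XT.lf (nat_lit 0) (nat_lit 608226991813) (nat_lit 152) (nat_lit 137437986867) (nat_lit 76) (nat_lit 1188724494128) (nat_lit 36) (nat_lit 5) (nat_lit 38) (nat_lit 5) (nat_lit 37) (nat_lit 5) (nat_lit 390) (nat_lit 376) (nat_lit 254)) (XT.nd (nat_lit 78) (nat_lit 304) (nat_lit 0) (XT.lf (nat_lit 0) (nat_lit 1559533125140) (nat_lit 228) (nat_lit 37876276332)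 (nat_lit 76) (nat_lit 521499146646) (nat_lit 34) (nat_lit 5) (nat_lit 37) (nat_lit 5) (nat_lit 35) (nat_lit 4) (nat_lit 391) (nat_lit 376) (nat_lit 253)) (XT.lf (nat_lit 0) (nat_lit 79190771857) (nat_lit 152) (nat_lit 313841758969) (nat_lit 228) (nat_lit 1930514032451) (nat_lit 30) (nat_lit 5) (nat_lit 32) (nat_lit 5) (nat_lit 33) (nat_lit 5) (nat_lit 392) (nat_lit 376) (nat_lit 252))))))))
noncomputable def xc110 : XT := (XT.nd (nat_lit 1248) (nat_lit 304) (nat_lit 0) (XT.nd (nat_lit 624) (nat_lit 684) (nat_lit 0) (XT.nd (nat_lit 312) (nat_lit 456) (nat_lit 0) (XT.nd (nat_lit 156) (nat_lit 152) (nat_lit 0) (XT.nd (nat_lit 78) (nat_lit 152) (nat_lit 0) (XT.lf (nat_lit 0) (nat_lit 194532636390) (nat_lit 76) (nat_lit 1359865712658) (nat_lit 152) (nat_lit 995382158040) (nat_lit 29) (nat_lit 5) (nat_lit 30) (nat_lit 5) (nat_lit 31) (nat_lit 4) (nat_lit 393) (nat_lit 376) (nat_lit 251)) (XT.lf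 (nat_lit 0) (nat_lit 164001359247) (nat_lit 152) (nat_lit 2472410450434) (nat_lit 76) (nat_lit 166344994238) (nat_lit 27) (nat_lit 5) (nat_lit 29) (nat_lit 5) (nat_lit 28) (nat_lit 4) (nat_lit 394) (nat_lit 376) (nat_lit 250))) (XT.nd (nat_lit 78) (nat_lit 76) (nat_lit 0) (XT.lf (nat_lit 0) (nat_lit 427685623834) (nat_lit 76) (nat_lit 1130592698165) (nat_lit 152) (nat_lit 1523739004773) (nat_lit 26) (nat_lit 5) (nat_lit 27) (nat_lit 5) (nat_lit 28) (nat_lit 4) (nat_lit 395) (nat_lit 376) (nat_lit 249)) (XT.lf (nat_lit 0) (nat_lit 525048291955) (nat_lit 76) (nat_lit 2737583624334) (nat_lit 76) (nat_lit 132460204794) (nat_lit 25) (nat_lit 4) (nat_lit 26) (nat_lit 5) (nat_lit 26) (nat_lit 4) (nat_lit 396) (nat_lit 376) (nat_lit 248)))) (XT.nd (nat_lit 156) (nat_lit 228) (nat_lit 0) (XT.nd (nat_lit 78) (nat_lit 76) (nat_lit 0) (XT.lf (nat_lit 0) (nat_lit 552179618607) (nat_lit 76) (nat_lit 965754537126)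 (nat_lit 152) (nat_lit 2224463721549) (nat_lit 23) (nat_lit 5) (nat_lit 24) (nat_lit 5) (nat_lit 25) (nat_lit 4) (nat_lit 397) (nat_lit 376) (nat_lit 247)) (XT.lf (nat_lit 0) (nat_lit 520866876577) (nat_lit 76) (nat_lit 3011434094455) (nat_lit 76) (nat_lit 599282770061) (nat_lit 22) (nat_lit 4) (nat_lit 23) (nat_lit 5) (nat_lit 23) (nat_lit 4) (nat_lit 398) (nat_lit 376) (nat_lit 246))) (XT.nd (nat_lit 78) (nat_lit 76) (nat_lit 0) (XT.lf (nat_lit 0) (nat_lit 368881994011) (nat_lit 76) (nat_lit 968153257167) (nat_lit 152) (nat_lit 3229199437213) (nat_lit 20) (nat_lit 5) (nat_lit 21) (nat_lit 5) (nat_lit 22) (nat_lit 4) (nat_lit 399) (nat_lit 376) (nat_lit 245)) (XT.lf (nat_lit 0) (nat_lit 56704689461) (nat_lit 76) (nat_lit 3615065262324) (nat_lit 76) (nat_lit 1381591806806) (nat_lit 19) (nat_lit 4) (nat_lit 20) (nat_lit 5) (nat_lit 20) (nat_lit 4) (nat_lit 400) (nat_lit 376) (nat_lit 244)))))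 (XT.nd (nat_lit 312) (nat_lit 304) (nat_lit 0) (XT.nd (nat_lit 156) (nat_lit 228) (nat_lit 0) (XT.nd (nat_lit 78) (nat_lit 76) (nat_lit 0) (XT.lf (nat_lit 0) (nat_lit 858133435064) (nat_lit 152) (nat_lit 448555913416) (nat_lit 76) (nat_lit 4293266530345) (nat_lit 18) (nat_lit 5) (nat_lit 20) (nat_lit 5) (nat_lit 19) (nat_lit 4) (nat_lit 401) (nat_lit 376) (nat_lit 243)) (XT.lf (nat_lit 0) (nat_lit 3510957345734) (nat_lit 152) (nat_lit 1259068924949) (nat_lit 0) (nat_lit 1442926363498) (nat_lit 17) (nat_lit 5) (nat_lit 19) (nat_lit 4) (nat_lit 17) (nat_lit 4) (nat_lit 402) (nat_lit 376) (nat_lit 242))) (XT.nd (nat_lit 78) (nat_lit 152) (nat_lit 0) (XT.lf (nat_lit 0) (nat_lit 4463817515240) (nat_lit 76) (nat_lit 2254780460596) (nat_lit 76) (nat_lit 186749476377) (nat_lit 16) (nat_lit 4) (nat_lit 17) (nat_lit 5) (nat_lit 17) (nat_lit 4) (nat_lit 403) (nat_lit 376) (nat_lit 241)) (XT.lf (nat_lit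 0) (nat_lit 2713229235794) (nat_lit 152) (nat_lit 4173356573744) (nat_lit 0) (nat_lit 798385730291) (nat_lit 14) (nat_lit 5) (nat_lit 16) (nat_lit 4) (nat_lit 14) (nat_lit 4) (nat_lit 404) (nat_lit 376) (nat_lit 240)))) (XT.nd (nat_lit 156) (nat_lit 152) (nat_lit 0) (XT.nd (nat_lit 78) (nat_lit 76) (nat_lit 0) (XT.lf (nat_lit 0) (nat_lit 1958320744670) (nat_lit 76) (nat_lit 4261528875250) (nat_lit 76) (nat_lit 2346685368358) (nat_lit 13) (nat_lit 4) (nat_lit 14) (nat_lit 5) (nat_lit 14) (nat_lit 4) (nat_lit 405) (nat_lit 376) (nat_lit 239)) (XT.lf (nat_lit 0) (nat_lit 763166135513) (nat_lit 152) (nat_lit 327457946232) (nat_lit 76) (nat_lit 8478442996792) (nat_lit 12) (nat_lit 5) (nat_lit 14) (nat_lit 5) (nat_lit 13) (nat_lit 4) (nat_lit 406) (nat_lit 376) (nat_lit 238))) (XT.nd (nat_lit 78) (nat_lit 76) (nat_lit 0) (XT.lf (nat_lit 0) (nat_lit 4445067504916) (nat_lit 152) (nat_lit 3580409224305)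 (nat_lit 0) (nat_lit 2672064255703) (nat_lit 11) (nat_lit 5) (nat_lit 13) (nat_lit 4) (nat_lit 11) (nat_lit 4) (nat_lit 407) (nat_lit 376) (nat_lit 237)) (XT.lf (nat_lit 0) (nat_lit 3866734618179) (nat_lit 76) (nat_lit 4945459695228) (nat_lit 76) (nat_lit 3172456445170) (nat_lit 10) (nat_lit 4) (nat_lit 11) (nat_lit 5) (nat_lit 11) (nat_lit 4) (nat_lit 408) (nat_lit 376) (nat_lit 236)))))) (XT.nd (nat_lit 50856) (nat_lit 0) (nat_lit 2736) (XT.nd (nat_lit 312) (nat_lit 76) (nat_lit 0) (XT.nd (nat_lit 156) (nat_lit 76) (nat_lit 0) (XT.nd (nat_lit 78) (nat_lit 76) (nat_lit 0) (XT.lf (nat_lit 0) (nat_lit 458023384442) (nat_lit 152) (nat_lit 820314611153) (nat_lit 76) (nat_lit 12177222179697) (nat_lit 9) (nat_lit 5) (nat_lit 11) (nat_lit 5) (nat_lit 10) (nat_lit 4) (nat_lit 409) (nat_lit 376) (nat_lit 235)) (XT.lf (nat_lit 0) (nat_lit 4717924089805) (nat_lit 152) (nat_lit 7324519886869) (nat_lit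 0) (nat_lit 3076254412553) (nat_lit 8) (nat_lit 5) (nat_lit 10) (nat_lit 4) (nat_lit 8) (nat_lit 4) (nat_lit 410) (nat_lit 376) (nat_lit 234))) (XT.nd (nat_lit 78) (nat_lit 0) (nat_lit 0) (XT.lf (nat_lit 0) (nat_lit 721227325080) (nat_lit 76) (nat_lit 8972786679814) (nat_lit 76) (nat_lit 7331117002046) (nat_lit 7) (nat_lit 4) (nat_lit 8) (nat_lit 5) (nat_lit 8) (nat_lit 4) (nat_lit 411) (nat_lit 376) (nat_lit 233)) (XT.lf (nat_lit 0) (nat_lit 10417387285845) (nat_lit 76) (nat_lit 5212375634323) (nat_lit 76) (nat_lit 3570705956108) (nat_lit 7) (nat_lit 4) (nat_lit 8) (nat_lit 5) (nat_lit 8) (nat_lit 4) (nat_lit 412) (nat_lit 376) (nat_lit 232)))) (XT.nd (nat_lit 50388) (nat_lit 0) (nat_lit 4332) (XT.nd (nat_lit 50310) (nat_lit 0) (nat_lit 4788) (XT.lf (nat_lit 0) (nat_lit 716060278804) (nat_lit 152) (nat_lit 152264298691) (nat_lit 76) (nat_lit 20832332600043) (nat_lit 6) (nat_lit 5) (nat_lit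 8) (nat_lit 5) (nat_lit 7) (nat_lit 4) (nat_lit 413) (nat_lit 376) (nat_lit 231)) (XT.lf (nat_lit 0) (nat_lit 328162623776) (nat_lit 532) (nat_lit 14886946484) (nat_lit 532) (nat_lit 14886946484) (nat_lit 69) (nat_lit 3) (nat_lit 76) (nat_lit 3) (nat_lit 76) (nat_lit 5) (nat_lit 377) (nat_lit 377) (nat_lit 266))) (XT.nd (nat_lit 78) (nat_lit 456) (nat_lit 0) (XT.lf (nat_lit 76) (nat_lit 661023886065) (nat_lit 0) (nat_lit 60423611225) (nat_lit 532) (nat_lit 46844185073) (nat_lit 70) (nat_lit 5) (nat_lit 69) (nat_lit 3) (nat_lit 76) (nat_lit 5) (nat_lit 378) (nat_lit 377) (nat_lit 265)) (XT.lf (nat_lit 0) (nat_lit 2471681155) (nat_lit 532) (nat_lit 180916148213) (nat_lit 608) (nat_lit 642599783687) (nat_lit 63) (nat_lit 5) (nat_lit 70) (nat_lit 5) (nat_lit 71) (nat_lit 5) (nat_lit 379) (nat_lit 377) (nat_lit 264))))) (XT.nd (nat_lit 312) (nat_lit 1064) (nat_lit 0) (XT.nd (nat_lit 156) (nat_lit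 608) (nat_lit 0) (XT.nd (nat_lit 78) (nat_lit 0) (nat_lit 76) (XT.lf (nat_lit 0) (nat_lit 90985510678) (nat_lit 532) (nat_lit 250113307634) (nat_lit 608) (nat_lit 548375833947) (nat_lit 64) (nat_lit 5) (nat_lit 71) (nat_lit 5) (nat_lit 72) (nat_lit 5) (nat_lit 380) (nat_lit 377) (nat_lit 263)) (XT.lf (nat_lit 0) (nat_lit 229697461533) (nat_lit 532) (nat_lit 311618655584) (nat_lit 76) (nat_lit 418214946488) (nat_lit 65) (nat_lit 5) (nat_lit 72) (nat_lit 5) (nat_lit 66) (nat_lit 5) (nat_lit 381) (nat_lit 377) (nat_lit 262))) (XT.nd (nat_lit 78) (nat_lit 228) (nat_lit 0) (XT.lf (nat_lit 0) (nat_lit 428701954650) (nat_lit 532) (nat_lit 362940757422) (nat_lit 76) (nat_lit 245294364630) (nat_lit 59) (nat_lit 5) (nat_lit 66) (nat_lit 5) (nat_lit 60) (nat_lit 5) (nat_lit 382) (nat_lit 377) (nat_lit 261)) (XT.lf (nat_lit 0) (nat_lit 699749404645) (nat_lit 304) (nat_lit 401164386378) (nat_lit 76)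 (nat_lit 21664818119) (nat_lit 56) (nat_lit 5) (nat_lit 60) (nat_lit 5) (nat_lit 57) (nat_lit 5) (nat_lit 383) (nat_lit 377) (nat_lit 260)))) (XT.nd (nat_lit 156) (nat_lit 608) (nat_lit 0) (XT.nd (nat_lit 78) (nat_lit 228) (nat_lit 0) (XT.lf (nat_lit 0) (nat_lit 787399549795) (nat_lit 228) (nat_lit 275727346535) (nat_lit 304) (nat_lit 153805641195) (nat_lit 53) (nat_lit 5) (nat_lit 56) (nat_lit 5) (nat_lit 57) (nat_lit 5) (nat_lit 384) (nat_lit 377) (nat_lit 259)) (XT.lf (nat_lit 0) (nat_lit 198449442188) (nat_lit 228) (nat_lit 444868503500) (nat_lit 76) (nat_lit 677769465712) (nat_lit 50) (nat_lit 5) (nat_lit 53) (nat_lit 5) (nat_lit 51) (nat_lit 5) (nat_lit 385) (nat_lit 377) (nat_lit 258))) (XT.nd (nat_lit 78) (nat_lit 380) (nat_lit 0) (XT.lf (nat_lit 0) (nat_lit 647968085380) (nat_lit 304) (nat_lit 443788905403) (nat_lit 76) (nat_lit 344506344836) (nat_lit 47) (nat_lit 5) (nat_lit 51)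 (nat_lit 5) (nat_lit 48) (nat_lit 5) (nat_lit 386) (nat_lit 377) (nat_lit 257)) (XT.nd (nat_lit 78) (nat_lit 228) (nat_lit 0) (XT.lf (nat_lit 0) (nat_lit 1143765977940) (nat_lit 152) (nat_lit 79736993986) (nat_lit 228) (nat_lit 340525600802) (nat_lit 45) (nat_lit 5) (nat_lit 47) (nat_lit 5) (nat_lit 48) (nat_lit 5) (nat_lit 387) (nat_lit 377) (nat_lit 256)) (XT.lf (nat_lit 0) (nat_lit 238761814981) (nat_lit 228) (nat_lit 384960171742) (nat_lit 76) (nat_lit 1081054885417) (nat_lit 42) (nat_lit 5) (nat_lit 45) (nat_lit 5) (nat_lit 43) (nat_lit 5) (nat_lit 388) (nat_lit 377) (nat_lit 255))))))))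
noncomputable def xc111 : XT := (XT.nd (nat_lit 1326) (nat_lit 532) (nat_lit 0) (XT.nd (nat_lit 624) (nat_lit 912) (nat_lit 0) (XT.nd (nat_lit 312) (nat_lit 608) (nat_lit 0) (XT.nd (nat_lit 156) (nat_lit 304) (nat_lit 0) (XT.nd (nat_lit 78) (nat_lit 152) (nat_lit 0) (XT.lf (nat_lit 0) (nat_lit 951936835036) (nat_lit 228) (nat_lit 330270279026) (nat_lit 76) (nat_lit 578350124145) (nat_lit 40) (nat_lit 5) (nat_lit 43) (nat_lit 5) (nat_lit 41) (nat_lit 5) (nat_lit 389) (nat_lit 377) (nat_lit 254)) (XT.lf (nat_lit 0) (nat_lit 1789290979757) (nat_lit 152) (nat_lit 54579025362) (nat_lit 228) (nat_lit 190092102309) (nat_lit 38) (nat_lit 5) (nat_lit 40) (nat_lit 5) (nat_lit 41) (nat_lit 5) (nat_lit 390) (nat_lit 377) (nat_lit 253))) (XT.nd (nat_lit 78) (nat_lit 152) (nat_lit 0) (XT.lf (nat_lit 0) (nat_lit 699461172491) (nat_lit 152) (nat_lit 158053465493) (nat_lit 76) (nat_lit 1367033245155) (nat_lit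 36) (nat_lit 5) (nat_lit 38) (nat_lit 5) (nat_lit 37) (nat_lit 5) (nat_lit 391) (nat_lit 377) (nat_lit 252)) (XT.lf (nat_lit 0) (nat_lit 1793463215397) (nat_lit 228) (nat_lit 43557509308) (nat_lit 76) (nat_lit 599724095877) (nat_lit 34) (nat_lit 5) (nat_lit 37) (nat_lit 5) (nat_lit 35) (nat_lit 4) (nat_lit 392) (nat_lit 377) (nat_lit 251)))) (XT.nd (nat_lit 156) (nat_lit 228) (nat_lit 0) (XT.nd (nat_lit 78) (nat_lit 76) (nat_lit 0) (XT.lf (nat_lit 0) (nat_lit 91069594810) (nat_lit 152) (nat_lit 360917933743) (nat_lit 228) (nat_lit 2220091009741) (nat_lit 30) (nat_lit 5) (nat_lit 32) (nat_lit 5) (nat_lit 33) (nat_lit 5) (nat_lit 393) (nat_lit 377) (nat_lit 250)) (XT.lf (nat_lit 0) (nat_lit 223712728198) (nat_lit 76) (nat_lit 1563845482490) (nat_lit 152) (nat_lit 1144689363697) (nat_lit 29) (nat_lit 5) (nat_lit 30) (nat_lit 5) (nat_lit 31) (nat_lit 4) (nat_lit 394) (nat_lit 377) (nat_lit 249)))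 (XT.nd (nat_lit 78) (nat_lit 76) (nat_lit 0) (XT.lf (nat_lit 0) (nat_lit 188601667104) (nat_lit 152) (nat_lit 2843271826669) (nat_lit 76) (nat_lit 191296822399) (nat_lit 27) (nat_lit 5) (nat_lit 29) (nat_lit 5) (nat_lit 28) (nat_lit 4) (nat_lit 395) (nat_lit 377) (nat_lit 248)) (XT.lf (nat_lit 0) (nat_lit 491838642545) (nat_lit 76) (nat_lit 1300181522375) (nat_lit 152) (nat_lit 1752299753282) (nat_lit 26) (nat_lit 5) (nat_lit 27) (nat_lit 5) (nat_lit 28) (nat_lit 4) (nat_lit 396) (nat_lit 377) (nat_lit 247))))) (XT.nd (nat_lit 312) (nat_lit 456) (nat_lit 0) (XT.nd (nat_lit 156) (nat_lit 228) (nat_lit 0) (XT.nd (nat_lit 78) (nat_lit 152) (nat_lit 0) (XT.lf (nat_lit 0) (nat_lit 603805701231) (nat_lit 76) (nat_lit 3148221090445) (nat_lit 76) (nat_lit 152329140521) (nat_lit 25) (nat_lit 4) (nat_lit 26) (nat_lit 5) (nat_lit 26) (nat_lit 4) (nat_lit 397) (nat_lit 377) (nat_lit 246)) (XT.lf (nat_lit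 0) (nat_lit 635006717236) (nat_lit 76) (nat_lit 1110617644076) (nat_lit 152) (nat_lit 2558133190975) (nat_lit 23) (nat_lit 5) (nat_lit 24) (nat_lit 5) (nat_lit 25) (nat_lit 4) (nat_lit 398) (nat_lit 377) (nat_lit 245))) (XT.nd (nat_lit 78) (nat_lit 152) (nat_lit 0) (XT.lf (nat_lit 0) (nat_lit 598997055120) (nat_lit 76) (nat_lit 3463149138136) (nat_lit 76) (nat_lit 689175102865) (nat_lit 22) (nat_lit 4) (nat_lit 23) (nat_lit 5) (nat_lit 23) (nat_lit 4) (nat_lit 399) (nat_lit 377) (nat_lit 244)) (XT.lf (nat_lit 0) (nat_lit 424214431518) (nat_lit 76) (nat_lit 1113376178986) (nat_lit 152) (nat_lit 3713579275407) (nat_lit 20) (nat_lit 5) (nat_lit 21) (nat_lit 5) (nat_lit 22) (nat_lit 4) (nat_lit 400) (nat_lit 377) (nat_lit 243)))) (XT.nd (nat_lit 156) (nat_lit 304) (nat_lit 0) (XT.nd (nat_lit 78) (nat_lit 76) (nat_lit 0) (XT.lf (nat_lit 0) (nat_lit 65210523354) (nat_lit 76) (nat_lit 4157324988036)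 (nat_lit 76) (nat_lit 1588830505636) (nat_lit 19) (nat_lit 4) (nat_lit 20) (nat_lit 5) (nat_lit 20) (nat_lit 4) (nat_lit 401) (nat_lit 377) (nat_lit 242)) (XT.lf (nat_lit 0) (nat_lit 986853509958) (nat_lit 152) (nat_lit 515839183827) (nat_lit 76) (nat_lit 4937256562087) (nat_lit 18) (nat_lit 5) (nat_lit 20) (nat_lit 5) (nat_lit 19) (nat_lit 4) (nat_lit 402) (nat_lit 377) (nat_lit 241))) (XT.nd (nat_lit 78) (nat_lit 228) (nat_lit 0) (XT.lf (nat_lit 0) (nat_lit 4037601003275) (nat_lit 152) (nat_lit 1447929153859) (nat_lit 0) (nat_lit 1659365367715) (nat_lit 17) (nat_lit 5) (nat_lit 19) (nat_lit 4) (nat_lit 17) (nat_lit 4) (nat_lit 403) (nat_lit 377) (nat_lit 240)) (XT.nd (nat_lit 78) (nat_lit 152) (nat_lit 0) (XT.lf (nat_lit 0) (nat_lit 5133390243062) (nat_lit 76) (nat_lit 2592997479986) (nat_lit 76) (nat_lit 214761842926) (nat_lit 16) (nat_lit 4) (nat_lit 17) (nat_lit 5) (nat_lit 17) (nat_lit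 4) (nat_lit 404) (nat_lit 377) (nat_lit 239)) (XT.lf (nat_lit 0) (nat_lit 3120213669923) (nat_lit 152) (nat_lit 4799359962576) (nat_lit 0) (nat_lit 918143634400) (nat_lit 14) (nat_lit 5) (nat_lit 16) (nat_lit 4) (nat_lit 14) (nat_lit 4) (nat_lit 405) (nat_lit 377) (nat_lit 238))))))) (XT.nd (nat_lit 50934) (nat_lit 0) (nat_lit 3268) (XT.nd (nat_lit 312) (nat_lit 228) (nat_lit 0) (XT.nd (nat_lit 156) (nat_lit 152) (nat_lit 0) (XT.nd (nat_lit 78) (nat_lit 76) (nat_lit 0) (XT.lf (nat_lit 0) (nat_lit 2252068945370) (nat_lit 76) (nat_lit 4900758162078) (nat_lit 76) (nat_lit 2698688125505) (nat_lit 13) (nat_lit 4) (nat_lit 14) (nat_lit 5) (nat_lit 14) (nat_lit 4) (nat_lit 406) (nat_lit 377) (nat_lit 237)) (XT.lf (nat_lit 0) (nat_lit 877641095578) (nat_lit 152) (nat_lit 376576558681) (nat_lit 76) (nat_lit 9750209482876) (nat_lit 12) (nat_lit 5) (nat_lit 14) (nat_lit 5) (nat_lit 13) (nat_lit 4)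 (nat_lit 407) (nat_lit 377) (nat_lit 236))) (XT.nd (nat_lit 78) (nat_lit 76) (nat_lit 0) (XT.lf (nat_lit 0) (nat_lit 5111827667836) (nat_lit 152) (nat_lit 4117470533163) (nat_lit 0) (nat_lit 3072873928688) (nat_lit 11) (nat_lit 5) (nat_lit 13) (nat_lit 4) (nat_lit 11) (nat_lit 4) (nat_lit 408) (nat_lit 377) (nat_lit 235)) (XT.lf (nat_lit 0) (nat_lit 4446744879363) (nat_lit 76) (nat_lit 5687278615034) (nat_lit 76) (nat_lit 3648324875247) (nat_lit 10) (nat_lit 4) (nat_lit 11) (nat_lit 5) (nat_lit 11) (nat_lit 4) (nat_lit 409) (nat_lit 377) (nat_lit 234)))) (XT.nd (nat_lit 156) (nat_lit 76) (nat_lit 0) (XT.nd (nat_lit 78) (nat_lit 76) (nat_lit 0) (XT.lf (nat_lit 0) (nat_lit 526726922423) (nat_lit 152) (nat_lit 943361741701) (nat_lit 76) (nat_lit 14003805535035) (nat_lit 9) (nat_lit 5) (nat_lit 11) (nat_lit 5) (nat_lit 10) (nat_lit 4) (nat_lit 410) (nat_lit 377) (nat_lit 233)) (XT.lf (nat_lit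 0) (nat_lit 5425612731662) (nat_lit 152) (nat_lit 8423197812410) (nat_lit 0) (nat_lit 3537692601267) (nat_lit 8) (nat_lit 5) (nat_lit 10) (nat_lit 4) (nat_lit 8) (nat_lit 4) (nat_lit 411) (nat_lit 377) (nat_lit 232))) (XT.nd (nat_lit 78) (nat_lit 0) (nat_lit 0) (XT.lf (nat_lit 0) (nat_lit 829411476466) (nat_lit 76) (nat_lit 10318704655111) (nat_lit 76) (nat_lit 8430784524327) (nat_lit 7) (nat_lit 4) (nat_lit 8) (nat_lit 5) (nat_lit 8) (nat_lit 4) (nat_lit 412) (nat_lit 377) (nat_lit 231)) (XT.lf (nat_lit 0) (nat_lit 11979995424481) (nat_lit 76) (nat_lit 5994231956276) (nat_lit 76) (nat_lit 4106311825153) (nat_lit 7) (nat_lit 4) (nat_lit 8) (nat_lit 5) (nat_lit 8) (nat_lit 4) (nat_lit 413) (nat_lit 377) (nat_lit 230))))) (XT.nd (nat_lit 312) (nat_lit 988) (nat_lit 0) (XT.nd (nat_lit 156) (nat_lit 456) (nat_lit 0) (XT.nd (nat_lit 78) (nat_lit 0) (nat_lit 0) (XT.lf (nat_lit 0) (nat_lit 377387224220)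 (nat_lit 532) (nat_lit 17119876673) (nat_lit 532) (nat_lit 17119876673) (nat_lit 69) (nat_lit 3) (nat_lit 76) (nat_lit 3) (nat_lit 76) (nat_lit 5) (nat_lit 378) (nat_lit 378) (nat_lit 264)) (XT.lf (nat_lit 76) (nat_lit 760177673618) (nat_lit 0) (nat_lit 69487312974) (nat_lit 532) (nat_lit 53870418707) (nat_lit 70) (nat_lit 5) (nat_lit 69) (nat_lit 3) (nat_lit 76) (nat_lit 5) (nat_lit 379) (nat_lit 378) (nat_lit 263))) (XT.nd (nat_lit 78) (nat_lit 0) (nat_lit 76) (XT.lf (nat_lit 0) (nat_lit 2842760843) (nat_lit 532) (nat_lit 208053335231) (nat_lit 608) (nat_lit 738989632545) (nat_lit 63) (nat_lit 5) (nat_lit 70) (nat_lit 5) (nat_lit 71) (nat_lit 5) (nat_lit 380) (nat_lit 378) (nat_lit 262)) (XT.lf (nat_lit 0) (nat_lit 104633625456) (nat_lit 532) (nat_lit 287630063311) (nat_lit 608) (nat_lit 630632138106) (nat_lit 64) (nat_lit 5) (nat_lit 71) (nat_lit 5) (nat_lit 72) (nat_lit 5) (nat_lit 381)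 (nat_lit 378) (nat_lit 261)))) (XT.nd (nat_lit 156) (nat_lit 684) (nat_lit 0) (XT.nd (nat_lit 78) (nat_lit 456) (nat_lit 0) (XT.lf (nat_lit 0) (nat_lit 264152335786) (nat_lit 532) (nat_lit 358361212330) (nat_lit 76) (nat_lit 480947154481) (nat_lit 65) (nat_lit 5) (nat_lit 72) (nat_lit 5) (nat_lit 66) (nat_lit 5) (nat_lit 382) (nat_lit 378) (nat_lit 260)) (XT.lf (nat_lit 0) (nat_lit 493007474782) (nat_lit 532) (nat_lit 417381631456) (nat_lit 76) (nat_lit 282088513686) (nat_lit 59) (nat_lit 5) (nat_lit 66) (nat_lit 5) (nat_lit 60) (nat_lit 5) (nat_lit 383) (nat_lit 378) (nat_lit 259))) (XT.nd (nat_lit 78) (nat_lit 456) (nat_lit 0) (XT.lf (nat_lit 0) (nat_lit 804712018352) (nat_lit 304) (nat_lit 461338809116) (nat_lit 76) (nat_lit 24914556693) (nat_lit 56) (nat_lit 5) (nat_lit 60) (nat_lit 5) (nat_lit 57) (nat_lit 5) (nat_lit 384) (nat_lit 378) (nat_lit 258)) (XT.nd (nat_lit 78) (nat_lit 228)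 (nat_lit 0) (XT.lf (nat_lit 0) (nat_lit 905509697573) (nat_lit 228) (nat_lit 317086414915) (nat_lit 304) (nat_lit 176876291032) (nat_lit 53) (nat_lit 5) (nat_lit 56) (nat_lit 5) (nat_lit 57) (nat_lit 5) (nat_lit 385) (nat_lit 378) (nat_lit 257)) (XT.lf (nat_lit 0) (nat_lit 228217026604) (nat_lit 228) (nat_lit 511598560357) (nat_lit 76) (nat_lit 779434922624) (nat_lit 50) (nat_lit 5) (nat_lit 53) (nat_lit 5) (nat_lit 51) (nat_lit 5) (nat_lit 386) (nat_lit 378) (nat_lit 256))))))))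
noncomputable def xc112 : XT := (XT.nd (nat_lit 1248) (nat_lit 912) (nat_lit 0) (XT.nd (nat_lit 624) (nat_lit 836) (nat_lit 0) (XT.nd (nat_lit 312) (nat_lit 760) (nat_lit 0) (XT.nd (nat_lit 156) (nat_lit 380) (nat_lit 0) (XT.nd (nat_lit 78) (nat_lit 152) (nat_lit 0) (XT.lf (nat_lit 0) (nat_lit 745163450347) (nat_lit 304) (nat_lit 510357030091) (nat_lit 76) (nat_lit 396182343284) (nat_lit 47) (nat_lit 5) (nat_lit 51) (nat_lit 5) (nat_lit 48) (nat_lit 5) (nat_lit 387) (nat_lit 378) (nat_lit 255)) (XT.lf (nat_lit 0) (nat_lit 1315331067883) (nat_lit 152) (nat_lit 91697486793) (nat_lit 228) (nat_lit 391604292945) (nat_lit 45) (nat_lit 5) (nat_lit 47) (nat_lit 5) (nat_lit 48) (nat_lit 5) (nat_lit 388) (nat_lit 378) (nat_lit 254))) (XT.nd (nat_lit 78) (nat_lit 152) (nat_lit 0) (XT.lf (nat_lit 0) (nat_lit 274576215257) (nat_lit 228) (nat_lit 442704004976) (nat_lit 76) (nat_lit 1243213172438) (nat_lit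 42) (nat_lit 5) (nat_lit 45) (nat_lit 5) (nat_lit 43) (nat_lit 5) (nat_lit 389) (nat_lit 378) (nat_lit 253)) (XT.lf (nat_lit 0) (nat_lit 1094727477319) (nat_lit 228) (nat_lit 379810636821) (nat_lit 76) (nat_lit 665102700396) (nat_lit 40) (nat_lit 5) (nat_lit 43) (nat_lit 5) (nat_lit 41) (nat_lit 5) (nat_lit 390) (nat_lit 378) (nat_lit 252)))) (XT.nd (nat_lit 156) (nat_lit 456) (nat_lit 0) (XT.nd (nat_lit 78) (nat_lit 152) (nat_lit 0) (XT.lf (nat_lit 0) (nat_lit 2057684795200) (nat_lit 152) (nat_lit 62765816502) (nat_lit 228) (nat_lit 218605803340) (nat_lit 38) (nat_lit 5) (nat_lit 40) (nat_lit 5) (nat_lit 41) (nat_lit 5) (nat_lit 391) (nat_lit 378) (nat_lit 251)) (XT.lf (nat_lit 0) (nat_lit 804380448104) (nat_lit 152) (nat_lit 181761319416) (nat_lit 76) (nat_lit 1572088290081) (nat_lit 36) (nat_lit 5) (nat_lit 38) (nat_lit 5) (nat_lit 37) (nat_lit 5) (nat_lit 392) (nat_lit 378) (nat_lit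 250))) (XT.nd (nat_lit 78) (nat_lit 304) (nat_lit 0) (XT.lf (nat_lit 0) (nat_lit 2062482789568) (nat_lit 228) (nat_lit 50090978069) (nat_lit 76) (nat_lit 689682768659) (nat_lit 34) (nat_lit 5) (nat_lit 37) (nat_lit 5) (nat_lit 35) (nat_lit 4) (nat_lit 393) (nat_lit 378) (nat_lit 249)) (XT.lf (nat_lit 0) (nat_lit 104730190685) (nat_lit 152) (nat_lit 415055556454) (nat_lit 228) (nat_lit 2553104564735) (nat_lit 30) (nat_lit 5) (nat_lit 32) (nat_lit 5) (nat_lit 33) (nat_lit 5) (nat_lit 394) (nat_lit 378) (nat_lit 248))))) (XT.nd (nat_lit 312) (nat_lit 456) (nat_lit 0) (XT.nd (nat_lit 156) (nat_lit 152) (nat_lit 0) (XT.nd (nat_lit 78) (nat_lit 152) (nat_lit 0) (XT.lf (nat_lit 0) (nat_lit 257269785897) (nat_lit 76) (nat_lit 1798422239028) (nat_lit 152) (nat_lit 1316392678990) (nat_lit 29) (nat_lit 5) (nat_lit 30) (nat_lit 5) (nat_lit 31) (nat_lit 4) (nat_lit 395) (nat_lit 378) (nat_lit 247)) (XT.lf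 (nat_lit 0) (nat_lit 216891995786) (nat_lit 152) (nat_lit 3269762455995) (nat_lit 76) (nat_lit 219991405512) (nat_lit 27) (nat_lit 5) (nat_lit 29) (nat_lit 5) (nat_lit 28) (nat_lit 4) (nat_lit 396) (nat_lit 378) (nat_lit 246))) (XT.nd (nat_lit 78) (nat_lit 76) (nat_lit 0) (XT.lf (nat_lit 0) (nat_lit 565614571354) (nat_lit 76) (nat_lit 1495208689850) (nat_lit 152) (nat_lit 2015144638992) (nat_lit 26) (nat_lit 5) (nat_lit 27) (nat_lit 5) (nat_lit 28) (nat_lit 4) (nat_lit 397) (nat_lit 378) (nat_lit 245)) (XT.lf (nat_lit 0) (nat_lit 694376681544) (nat_lit 76) (nat_lit 3620454195380) (nat_lit 76) (nat_lit 175178439772) (nat_lit 25) (nat_lit 4) (nat_lit 26) (nat_lit 5) (nat_lit 26) (nat_lit 4) (nat_lit 398) (nat_lit 378) (nat_lit 244)))) (XT.nd (nat_lit 156) (nat_lit 228) (nat_lit 0) (XT.nd (nat_lit 78) (nat_lit 76) (nat_lit 0) (XT.lf (nat_lit 0) (nat_lit 730257842656) (nat_lit 76) (nat_lit 1277210235020)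 (nat_lit 152) (nat_lit 2941853102471) (nat_lit 23) (nat_lit 5) (nat_lit 24) (nat_lit 5) (nat_lit 25) (nat_lit 4) (nat_lit 399) (nat_lit 378) (nat_lit 243)) (XT.lf (nat_lit 0) (nat_lit 688846724584) (nat_lit 76) (nat_lit 3982621455559) (nat_lit 76) (nat_lit 792551305757) (nat_lit 22) (nat_lit 4) (nat_lit 23) (nat_lit 5) (nat_lit 23) (nat_lit 4) (nat_lit 400) (nat_lit 378) (nat_lit 242))) (XT.nd (nat_lit 78) (nat_lit 76) (nat_lit 0) (XT.lf (nat_lit 0) (nat_lit 487846700899) (nat_lit 76) (nat_lit 1280382555357) (nat_lit 152) (nat_lit 4270616108201) (nat_lit 20) (nat_lit 5) (nat_lit 21) (nat_lit 5) (nat_lit 22) (nat_lit 4) (nat_lit 401) (nat_lit 378) (nat_lit 241)) (XT.lf (nat_lit 0) (nat_lit 74992200514) (nat_lit 76) (nat_lit 4780923688123) (nat_lit 76) (nat_lit 1827155026895) (nat_lit 19) (nat_lit 4) (nat_lit 20) (nat_lit 5) (nat_lit 20) (nat_lit 4) (nat_lit 402) (nat_lit 378) (nat_lit 240))))))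 (XT.nd (nat_lit 624) (nat_lit 228) (nat_lit 0) (XT.nd (nat_lit 312) (nat_lit 304) (nat_lit 0) (XT.nd (nat_lit 156) (nat_lit 228) (nat_lit 0) (XT.nd (nat_lit 78) (nat_lit 76) (nat_lit 0) (XT.lf (nat_lit 0) (nat_lit 1134881581545) (nat_lit 152) (nat_lit 593214973234) (nat_lit 76) (nat_lit 5677845085864) (nat_lit 18) (nat_lit 5) (nat_lit 20) (nat_lit 5) (nat_lit 19) (nat_lit 4) (nat_lit 403) (nat_lit 378) (nat_lit 239)) (XT.lf (nat_lit 0) (nat_lit 4643241195869) (nat_lit 152) (nat_lit 1665118443889) (nat_lit 0) (nat_lit 1908270210446) (nat_lit 17) (nat_lit 5) (nat_lit 19) (nat_lit 4) (nat_lit 17) (nat_lit 4) (nat_lit 404) (nat_lit 378) (nat_lit 238))) (XT.nd (nat_lit 78) (nat_lit 152) (nat_lit 0) (XT.lf (nat_lit 0) (nat_lit 5903398855541) (nat_lit 76) (nat_lit 2981947064405) (nat_lit 76) (nat_lit 246976077847) (nat_lit 16) (nat_lit 4) (nat_lit 17) (nat_lit 5) (nat_lit 17) (nat_lit 4) (nat_lit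 405) (nat_lit 378) (nat_lit 237)) (XT.lf (nat_lit 0) (nat_lit 3588245757280) (nat_lit 152) (nat_lit 5519263883444) (nat_lit 0) (nat_lit 1055865213258) (nat_lit 14) (nat_lit 5) (nat_lit 16) (nat_lit 4) (nat_lit 14) (nat_lit 4) (nat_lit 406) (nat_lit 378) (nat_lit 236)))) (XT.nd (nat_lit 156) (nat_lit 152) (nat_lit 0) (XT.nd (nat_lit 78) (nat_lit 76) (nat_lit 0) (XT.lf (nat_lit 0) (nat_lit 2589879354472) (nat_lit 76) (nat_lit 5635871852772) (nat_lit 76) (nat_lit 3103491307956) (nat_lit 13) (nat_lit 4) (nat_lit 14) (nat_lit 5) (nat_lit 14) (nat_lit 4) (nat_lit 407) (nat_lit 378) (nat_lit 235)) (XT.lf (nat_lit 0) (nat_lit 1009287289963) (nat_lit 152) (nat_lit 433062982381) (nat_lit 76) (nat_lit 11212740932957) (nat_lit 12) (nat_lit 5) (nat_lit 14) (nat_lit 5) (nat_lit 13) (nat_lit 4) (nat_lit 408) (nat_lit 378) (nat_lit 234))) (XT.nd (nat_lit 78) (nat_lit 76) (nat_lit 0) (XT.lf (nat_lit 0) (nat_lit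 5878601846126) (nat_lit 152) (nat_lit 4735091056588) (nat_lit 0) (nat_lit 3533805044175) (nat_lit 11) (nat_lit 5) (nat_lit 13) (nat_lit 4) (nat_lit 11) (nat_lit 4) (nat_lit 409) (nat_lit 378) (nat_lit 233)) (XT.lf (nat_lit 0) (nat_lit 5113756663031) (nat_lit 76) (nat_lit 6540370381219) (nat_lit 76) (nat_lit 4195573578785) (nat_lit 10) (nat_lit 4) (nat_lit 11) (nat_lit 5) (nat_lit 11) (nat_lit 4) (nat_lit 410) (nat_lit 378) (nat_lit 232))))) (XT.nd (nat_lit 50700) (nat_lit 0) (nat_lit 3952) (XT.nd (nat_lit 156) (nat_lit 76) (nat_lit 0) (XT.nd (nat_lit 78) (nat_lit 76) (nat_lit 0) (XT.lf (nat_lit 0) (nat_lit 605735983710) (nat_lit 152) (nat_lit 1084865956737) (nat_lit 76) (nat_lit 16104376386752) (nat_lit 9) (nat_lit 5) (nat_lit 11) (nat_lit 5) (nat_lit 10) (nat_lit 4) (nat_lit 411) (nat_lit 378) (nat_lit 231)) (XT.lf (nat_lit 0) (nat_lit 6239454662876) (nat_lit 152) (nat_lit 9686677440801)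 (nat_lit 0) (nat_lit 4068346511746) (nat_lit 8) (nat_lit 5) (nat_lit 10) (nat_lit 4) (nat_lit 8) (nat_lit 4) (nat_lit 412) (nat_lit 378) (nat_lit 230))) (XT.nd (nat_lit 50466) (nat_lit 0) (nat_lit 4712) (XT.lf (nat_lit 0) (nat_lit 953823237727) (nat_lit 76) (nat_lit 11866510333208) (nat_lit 76) (nat_lit 9695402181784) (nat_lit 7) (nat_lit 4) (nat_lit 8) (nat_lit 5) (nat_lit 8) (nat_lit 4) (nat_lit 413) (nat_lit 378) (nat_lit 229)) (XT.lf (nat_lit 0) (nat_lit 433995464282) (nat_lit 532) (nat_lit 19687773650) (nat_lit 532) (nat_lit 19687773650) (nat_lit 69) (nat_lit 3) (nat_lit 76) (nat_lit 3) (nat_lit 76) (nat_lit 5) (nat_lit 379) (nat_lit 379) (nat_lit 262)))) (XT.nd (nat_lit 156) (nat_lit 304) (nat_lit 0) (XT.nd (nat_lit 78) (nat_lit 456) (nat_lit 0) (XT.lf (nat_lit 76) (nat_lit 874204479400) (nat_lit 0) (nat_lit 79910530953) (nat_lit 532) (nat_lit 61950683496) (nat_lit 70) (nat_lit 5)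 (nat_lit 69) (nat_lit 3) (nat_lit 76) (nat_lit 5) (nat_lit 380) (nat_lit 379) (nat_lit 261)) (XT.lf (nat_lit 0) (nat_lit 3269422617) (nat_lit 532) (nat_lit 239261157659) (nat_lit 608) (nat_lit 849837987675) (nat_lit 63) (nat_lit 5) (nat_lit 70) (nat_lit 5) (nat_lit 71) (nat_lit 5) (nat_lit 381) (nat_lit 379) (nat_lit 260))) (XT.nd (nat_lit 78) (nat_lit 380) (nat_lit 0) (XT.lf (nat_lit 0) (nat_lit 120328887178) (nat_lit 532) (nat_lit 330774390979) (nat_lit 608) (nat_lit 725226905186) (nat_lit 64) (nat_lit 5) (nat_lit 71) (nat_lit 5) (nat_lit 72) (nat_lit 5) (nat_lit 382) (nat_lit 379) (nat_lit 259)) (XT.nd (nat_lit 78) (nat_lit 456) (nat_lit 0) (XT.lf (nat_lit 0) (nat_lit 303775378987) (nat_lit 532) (nat_lit 412115211502) (nat_lit 76) (nat_lit 553089201960) (nat_lit 65) (nat_lit 5) (nat_lit 72) (nat_lit 5) (nat_lit 66) (nat_lit 5) (nat_lit 383) (nat_lit 379) (nat_lit 258)) (XT.lf (nat_lit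 0) (nat_lit 566958767594) (nat_lit 532) (nat_lit 479988695018) (nat_lit 76) (nat_lit 324401786476) (nat_lit 59) (nat_lit 5) (nat_lit 66) (nat_lit 5) (nat_lit 60) (nat_lit 5) (nat_lit 384) (nat_lit 379) (nat_lit 257))))))))
noncomputable def xc113 : XT := (XT.nd (nat_lit 1248) (nat_lit 1140) (nat_lit 0) (XT.nd (nat_lit 624) (nat_lit 1140) (nat_lit 0) (XT.nd (nat_lit 312) (nat_lit 684) (nat_lit 0) (XT.nd (nat_lit 156) (nat_lit 456) (nat_lit 0) (XT.nd (nat_lit 78) (nat_lit 228) (nat_lit 0) (XT.lf (nat_lit 0) (nat_lit 925418974609) (nat_lit 304) (nat_lit 530539452625) (nat_lit 76) (nat_lit 28651752187) (nat_lit 56) (nat_lit 5) (nat_lit 60) (nat_lit 5) (nat_lit 57) (nat_lit 5) (nat_lit 385) (nat_lit 379) (nat_lit 256)) (XT.lf (nat_lit 0) (nat_lit 1041336315013) (nat_lit 228) (nat_lit 364649351746) (nat_lit 304) (nat_lit 203407586225) (nat_lit 53) (nat_lit 5) (nat_lit 56) (nat_lit 5) (nat_lit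 57) (nat_lit 5) (nat_lit 386) (nat_lit 379) (nat_lit 255))) (XT.nd (nat_lit 78) (nat_lit 228) (nat_lit 0) (XT.lf (nat_lit 0) (nat_lit 262449707693) (nat_lit 228) (nat_lit 588338179066) (nat_lit 76) (nat_lit 896350189037) (nat_lit 50) (nat_lit 5) (nat_lit 53) (nat_lit 5) (nat_lit 51) (nat_lit 5) (nat_lit 387) (nat_lit 379) (nat_lit 254)) (XT.lf (nat_lit 0) (nat_lit 856938082954) (nat_lit 304) (nat_lit 586910424966) (nat_lit 76) (nat_lit 455609730105) (nat_lit 47) (nat_lit 5) (nat_lit 51) (nat_lit 5) (nat_lit 48) (nat_lit 5) (nat_lit 388) (nat_lit 379) (nat_lit 253)))) (XT.nd (nat_lit 156) (nat_lit 304) (nat_lit 0) (XT.nd (nat_lit 78) (nat_lit 228) (nat_lit 0) (XT.lf (nat_lit 0) (nat_lit 1512630874192) (nat_lit 152) (nat_lit 105452067248) (nat_lit 228) (nat_lit 450344824996) (nat_lit 45) (nat_lit 5) (nat_lit 47) (nat_lit 5) (nat_lit 48) (nat_lit 5) (nat_lit 389) (nat_lit 379) (nat_lit 252))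 (XT.lf (nat_lit 0) (nat_lit 315762744354) (nat_lit 228) (nat_lit 509109460145) (nat_lit 76) (nat_lit 1429695189293) (nat_lit 42) (nat_lit 5) (nat_lit 45) (nat_lit 5) (nat_lit 43) (nat_lit 5) (nat_lit 390) (nat_lit 379) (nat_lit 251))) (XT.nd (nat_lit 78) (nat_lit 152) (nat_lit 0) (XT.lf (nat_lit 0) (nat_lit 1258936687406) (nat_lit 228) (nat_lit 436782093170) (nat_lit 76) (nat_lit 764868149030) (nat_lit 40) (nat_lit 5) (nat_lit 43) (nat_lit 5) (nat_lit 41) (nat_lit 5) (nat_lit 391) (nat_lit 379) (nat_lit 250)) (XT.lf (nat_lit 0) (nat_lit 2366337641875) (nat_lit 152) (nat_lit 72180641594) (nat_lit 228) (nat_lit 251396587402) (nat_lit 38) (nat_lit 5) (nat_lit 40) (nat_lit 5) (nat_lit 41) (nat_lit 5) (nat_lit 392) (nat_lit 379) (nat_lit 249))))) (XT.nd (nat_lit 312) (nat_lit 456) (nat_lit 0) (XT.nd (nat_lit 156) (nat_lit 380) (nat_lit 0) (XT.nd (nat_lit 78) (nat_lit 152) (nat_lit 0) (XT.lf (nat_lit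 0) (nat_lit 925037590738) (nat_lit 152) (nat_lit 209025391883) (nat_lit 76) (nat_lit 1807901577565) (nat_lit 36) (nat_lit 5) (nat_lit 38) (nat_lit 5) (nat_lit 37) (nat_lit 5) (nat_lit 393) (nat_lit 379) (nat_lit 248)) (XT.lf (nat_lit 0) (nat_lit 2371855277463) (nat_lit 228) (nat_lit 57604505584) (nat_lit 76) (nat_lit 793135228118) (nat_lit 34) (nat_lit 5) (nat_lit 37) (nat_lit 5) (nat_lit 35) (nat_lit 4) (nat_lit 394) (nat_lit 379) (nat_lit 247))) (XT.nd (nat_lit 78) (nat_lit 76) (nat_lit 0) (XT.lf (nat_lit 0) (nat_lit 120439837741) (nat_lit 152) (nat_lit 477313838995) (nat_lit 228) (nat_lit 2936070176503) (nat_lit 30) (nat_lit 5) (nat_lit 32) (nat_lit 5) (nat_lit 33) (nat_lit 5) (nat_lit 395) (nat_lit 379) (nat_lit 246)) (XT.lf (nat_lit 0) (nat_lit 295860366045) (nat_lit 76) (nat_lit 2068185525102) (nat_lit 152) (nat_lit 1513851513344) (nat_lit 29) (nat_lit 5) (nat_lit 30) (nat_lit 5) (nat_lit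 31) (nat_lit 4) (nat_lit 396) (nat_lit 379) (nat_lit 245)))) (XT.nd (nat_lit 156) (nat_lit 228) (nat_lit 0) (XT.nd (nat_lit 78) (nat_lit 76) (nat_lit 0) (XT.lf (nat_lit 0) (nat_lit 249425854599) (nat_lit 152) (nat_lit 3760226715001) (nat_lit 76) (nat_lit 252990161522) (nat_lit 27) (nat_lit 5) (nat_lit 29) (nat_lit 5) (nat_lit 28) (nat_lit 4) (nat_lit 397) (nat_lit 379) (nat_lit 244)) (XT.lf (nat_lit 0) (nat_lit 650456857192) (nat_lit 76) (nat_lit 1719489947293) (nat_lit 152) (nat_lit 2317416276404) (nat_lit 26) (nat_lit 5) (nat_lit 27) (nat_lit 5) (nat_lit 28) (nat_lit 4) (nat_lit 398) (nat_lit 379) (nat_lit 243))) (XT.nd (nat_lit 78) (nat_lit 152) (nat_lit 0) (XT.lf (nat_lit 0) (nat_lit 798533278391) (nat_lit 76) (nat_lit 4163522280353) (nat_lit 76) (nat_lit 201455151426) (nat_lit 25) (nat_lit 4) (nat_lit 26) (nat_lit 5) (nat_lit 26) (nat_lit 4) (nat_lit 399) (nat_lit 379) (nat_lit 242))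 (XT.lf (nat_lit 0) (nat_lit 839796608155) (nat_lit 76) (nat_lit 1468791728181) (nat_lit 152) (nat_lit 3383131017067) (nat_lit 23) (nat_lit 5) (nat_lit 24) (nat_lit 5) (nat_lit 25) (nat_lit 4) (nat_lit 400) (nat_lit 379) (nat_lit 241)))))) (XT.nd (nat_lit 624) (nat_lit 380) (nat_lit 0) (XT.nd (nat_lit 312) (nat_lit 380) (nat_lit 0) (XT.nd (nat_lit 156) (nat_lit 152) (nat_lit 0) (XT.nd (nat_lit 78) (nat_lit 152) (nat_lit 0) (XT.lf (nat_lit 0) (nat_lit 792173817352) (nat_lit 76) (nat_lit 4580014633592) (nat_lit 76) (nat_lit 911433954334) (nat_lit 22) (nat_lit 4) (nat_lit 23) (nat_lit 5) (nat_lit 23) (nat_lit 4) (nat_lit 401) (nat_lit 379) (nat_lit 240)) (XT.lf (nat_lit 0) (nat_lit 561023785167) (nat_lit 76) (nat_lit 1472439900493) (nat_lit 152) (nat_lit 4911208480184) (nat_lit 20) (nat_lit 5) (nat_lit 21) (nat_lit 5) (nat_lit 22) (nat_lit 4) (nat_lit 402) (nat_lit 379) (nat_lit 239))) (XT.nd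 (nat_lit 78) (nat_lit 76) (nat_lit 0) (XT.lf (nat_lit 0) (nat_lit 86241105190) (nat_lit 76) (nat_lit 5498062204958) (nat_lit 76) (nat_lit 2101228239653) (nat_lit 19) (nat_lit 4) (nat_lit 20) (nat_lit 5) (nat_lit 20) (nat_lit 4) (nat_lit 403) (nat_lit 379) (nat_lit 238)) (XT.lf (nat_lit 0) (nat_lit 1305113852873) (nat_lit 152) (nat_lit 682197152552) (nat_lit 76) (nat_lit 6529521878583) (nat_lit 18) (nat_lit 5) (nat_lit 20) (nat_lit 5) (nat_lit 19) (nat_lit 4) (nat_lit 404) (nat_lit 379) (nat_lit 237)))) (XT.nd (nat_lit 156) (nat_lit 228) (nat_lit 0) (XT.nd (nat_lit 78) (nat_lit 76) (nat_lit 0) (XT.lf (nat_lit 0) (nat_lit 5339727407086) (nat_lit 152) (nat_lit 1914886147675) (nat_lit 0) (nat_lit 2194510770425) (nat_lit 17) (nat_lit 5) (nat_lit 19) (nat_lit 4) (nat_lit 17) (nat_lit 4) (nat_lit 405) (nat_lit 379) (nat_lit 236)) (XT.lf (nat_lit 0) (nat_lit 6788908741353) (nat_lit 76) (nat_lit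 3429239095650) (nat_lit 76) (nat_lit 284022458131) (nat_lit 16) (nat_lit 4) (nat_lit 17) (nat_lit 5) (nat_lit 17) (nat_lit 4) (nat_lit 406) (nat_lit 379) (nat_lit 235))) (XT.nd (nat_lit 78) (nat_lit 76) (nat_lit 0) (XT.lf (nat_lit 0) (nat_lit 4126482648750) (nat_lit 152) (nat_lit 6347153410369) (nat_lit 0) (nat_lit 1214245020728) (nat_lit 14) (nat_lit 5) (nat_lit 16) (nat_lit 4) (nat_lit 14) (nat_lit 4) (nat_lit 407) (nat_lit 379) (nat_lit 234)) (XT.lf (nat_lit 0) (nat_lit 2978361308528) (nat_lit 76) (nat_lit 6481252605268) (nat_lit 76) (nat_lit 3569014976645) (nat_lit 13) (nat_lit 4) (nat_lit 14) (nat_lit 5) (nat_lit 14) (nat_lit 4) (nat_lit 408) (nat_lit 379) (nat_lit 233))))) (XT.nd (nat_lit 312) (nat_lit 76) (nat_lit 0) (XT.nd (nat_lit 156) (nat_lit 152) (nat_lit 0) (XT.nd (nat_lit 78) (nat_lit 76) (nat_lit 0) (XT.lf (nat_lit 0) (nat_lit 1160680406178) (nat_lit 152) (nat_lit 498022384292)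 (nat_lit 76) (nat_lit 12894652093807) (nat_lit 12) (nat_lit 5) (nat_lit 14) (nat_lit 5) (nat_lit 13) (nat_lit 4) (nat_lit 409) (nat_lit 379) (nat_lit 232)) (XT.lf (nat_lit 0) (nat_lit 6760392144304) (nat_lit 152) (nat_lit 5445354672317) (nat_lit 0) (nat_lit 4063875820601) (nat_lit 11) (nat_lit 5) (nat_lit 13) (nat_lit 4) (nat_lit 11) (nat_lit 4) (nat_lit 410) (nat_lit 379) (nat_lit 231))) (XT.nd (nat_lit 78) (nat_lit 76) (nat_lit 0) (XT.lf (nat_lit 0) (nat_lit 5880820201626) (nat_lit 76) (nat_lit 7521425918688) (nat_lit 76) (nat_lit 4824909594620) (nat_lit 10) (nat_lit 4) (nat_lit 11) (nat_lit 5) (nat_lit 11) (nat_lit 4) (nat_lit 411) (nat_lit 379) (nat_lit 230)) (XT.lf (nat_lit 0) (nat_lit 696596398599) (nat_lit 152) (nat_lit 1247595815298) (nat_lit 76) (nat_lit 18520032860993) (nat_lit 9) (nat_lit 5) (nat_lit 11) (nat_lit 5) (nat_lit 10) (nat_lit 4) (nat_lit 412) (nat_lit 379) (nat_lit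 229)))) (XT.nd (nat_lit 50622) (nat_lit 0) (nat_lit 4180) (XT.nd (nat_lit 50544) (nat_lit 0) (nat_lit 4636) (XT.lf (nat_lit 0) (nat_lit 7175372878537) (nat_lit 152) (nat_lit 11139679024051) (nat_lit 0) (nat_lit 4678598503850) (nat_lit 8) (nat_lit 5) (nat_lit 10) (nat_lit 4) (nat_lit 8) (nat_lit 4) (nat_lit 413) (nat_lit 379) (nat_lit 228)) (XT.lf (nat_lit 0) (nat_lit 499094902207) (nat_lit 532) (nat_lit 22640875785) (nat_lit 532) (nat_lit 22640875785) (nat_lit 69) (nat_lit 3) (nat_lit 76) (nat_lit 3) (nat_lit 76) (nat_lit 5) (nat_lit 380) (nat_lit 380) (nat_lit 260))) (XT.nd (nat_lit 78) (nat_lit 456) (nat_lit 0) (XT.lf (nat_lit 76) (nat_lit 1005335268315) (nat_lit 0) (nat_lit 91897202114) (nat_lit 532) (nat_lit 71243060677) (nat_lit 70) (nat_lit 5) (nat_lit 69) (nat_lit 3) (nat_lit 76) (nat_lit 5) (nat_lit 381) (nat_lit 380) (nat_lit 259)) (XT.nd (nat_lit 78) (nat_lit 0) (nat_lit 76) (XT.lf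 (nat_lit 0) (nat_lit 3760023267) (nat_lit 532) (nat_lit 275150196824) (nat_lit 608) (nat_lit 977313617962) (nat_lit 63) (nat_lit 5) (nat_lit 70) (nat_lit 5) (nat_lit 71) (nat_lit 5) (nat_lit 382) (nat_lit 380) (nat_lit 258)) (XT.lf (nat_lit 0) (nat_lit 138378385021) (nat_lit 532) (nat_lit 380390412138) (nat_lit 608) (nat_lit 834010900408) (nat_lit 64) (nat_lit 5) (nat_lit 71) (nat_lit 5) (nat_lit 72) (nat_lit 5) (nat_lit 383) (nat_lit 380) (nat_lit 257))))))))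
noncomputable def xc114 : XT := (XT.nd (nat_lit 1248) (nat_lit 1292) (nat_lit 0) (XT.nd (nat_lit 624) (nat_lit 1216) (nat_lit 0) (XT.nd (nat_lit 312) (nat_lit 836) (nat_lit 0) (XT.nd (nat_lit 156) (nat_lit 456) (nat_lit 0) (XT.nd (nat_lit 78) (nat_lit 456) (nat_lit 0) (XT.lf (nat_lit 0) (nat_lit 349341831645) (nat_lit 532) (nat_lit 473932355097) (nat_lit 76) (nat_lit 636052562826) (nat_lit 65) (nat_lit 5) (nat_lit 72) (nat_lit 5) (nat_lit 66) (nat_lit 5) (nat_lit 384) (nat_lit 380) (nat_lit 256)) (XT.lf (nat_lit 0) (nat_lit 652002712483) (nat_lit 532) (nat_lit 551986862291) (nat_lit 76) (nat_lit 373062051224) (nat_lit 59) (nat_lit 5) (nat_lit 66) (nat_lit 5) (nat_lit 60) (nat_lit 5) (nat_lit 385) (nat_lit 380) (nat_lit 255))) (XT.nd (nat_lit 78) (nat_lit 228) (nat_lit 0) (XT.lf (nat_lit 0) (nat_lit 1064231936872) (nat_lit 304) (nat_lit 610120236031) (nat_lit 76) (nat_lit 32949524081) (nat_lit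 56) (nat_lit 5) (nat_lit 60) (nat_lit 5) (nat_lit 57) (nat_lit 5) (nat_lit 386) (nat_lit 380) (nat_lit 254)) (XT.lf (nat_lit 0) (nat_lit 1197536885368) (nat_lit 228) (nat_lit 419346735297) (nat_lit 304) (nat_lit 233918611899) (nat_lit 53) (nat_lit 5) (nat_lit 56) (nat_lit 5) (nat_lit 57) (nat_lit 5) (nat_lit 387) (nat_lit 380) (nat_lit 253)))) (XT.nd (nat_lit 156) (nat_lit 380) (nat_lit 0) (XT.nd (nat_lit 78) (nat_lit 228) (nat_lit 0) (XT.lf (nat_lit 0) (nat_lit 301817259952) (nat_lit 228) (nat_lit 676588780902) (nat_lit 76) (nat_lit 1030802738579) (nat_lit 50) (nat_lit 5) (nat_lit 53) (nat_lit 5) (nat_lit 51) (nat_lit 5) (nat_lit 388) (nat_lit 380) (nat_lit 252)) (XT.lf (nat_lit 0) (nat_lit 985478882395) (nat_lit 304) (nat_lit 674946868001) (nat_lit 76) (nat_lit 523951216334) (nat_lit 47) (nat_lit 5) (nat_lit 51) (nat_lit 5) (nat_lit 48) (nat_lit 5) (nat_lit 389) (nat_lit 380) (nat_lit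 251))) (XT.nd (nat_lit 78) (nat_lit 228) (nat_lit 0) (XT.lf (nat_lit 0) (nat_lit 1739525615813) (nat_lit 152) (nat_lit 121269845150) (nat_lit 228) (nat_lit 517896464139) (nat_lit 45) (nat_lit 5) (nat_lit 47) (nat_lit 5) (nat_lit 48) (nat_lit 5) (nat_lit 390) (nat_lit 380) (nat_lit 250)) (XT.lf (nat_lit 0) (nat_lit 363127229208) (nat_lit 228) (nat_lit 585475769088) (nat_lit 76) (nat_lit 1644149498681) (nat_lit 42) (nat_lit 5) (nat_lit 45) (nat_lit 5) (nat_lit 43) (nat_lit 5) (nat_lit 391) (nat_lit 380) (nat_lit 249))))) (XT.nd (nat_lit 312) (nat_lit 608) (nat_lit 0) (XT.nd (nat_lit 156) (nat_lit 304) (nat_lit 0) (XT.nd (nat_lit 78) (nat_lit 152) (nat_lit 0) (XT.lf (nat_lit 0) (nat_lit 1447777257427) (nat_lit 228) (nat_lit 502299301909) (nat_lit 76) (nat_lit 879598404334) (nat_lit 40) (nat_lit 5) (nat_lit 43) (nat_lit 5) (nat_lit 41) (nat_lit 5) (nat_lit 392) (nat_lit 380) (nat_lit 248)) (XT.lf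 (nat_lit 0) (nat_lit 2721288384484) (nat_lit 152) (nat_lit 83007702004) (nat_lit 228) (nat_lit 289106010152) (nat_lit 38) (nat_lit 5) (nat_lit 40) (nat_lit 5) (nat_lit 41) (nat_lit 5) (nat_lit 393) (nat_lit 380) (nat_lit 247))) (XT.nd (nat_lit 78) (nat_lit 152) (nat_lit 0) (XT.lf (nat_lit 0) (nat_lit 1063793286375) (nat_lit 152) (nat_lit 240379105811) (nat_lit 76) (nat_lit 2079086847449) (nat_lit 36) (nat_lit 5) (nat_lit 38) (nat_lit 5) (nat_lit 37) (nat_lit 5) (nat_lit 394) (nat_lit 380) (nat_lit 246)) (XT.lf (nat_lit 0) (nat_lit 2727633621605) (nat_lit 228) (nat_lit 66245091293) (nat_lit 76) (nat_lit 912105545726) (nat_lit 34) (nat_lit 5) (nat_lit 37) (nat_lit 5) (nat_lit 35) (nat_lit 4) (nat_lit 395) (nat_lit 380) (nat_lit 245)))) (XT.nd (nat_lit 156) (nat_lit 228) (nat_lit 0) (XT.nd (nat_lit 78) (nat_lit 76) (nat_lit 0) (XT.lf (nat_lit 0) (nat_lit 138505902969) (nat_lit 152) (nat_lit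 548910876336) (nat_lit 228) (nat_lit 3376480647823) (nat_lit 30) (nat_lit 5) (nat_lit 32) (nat_lit 5) (nat_lit 33) (nat_lit 5) (nat_lit 396) (nat_lit 380) (nat_lit 244)) (XT.lf (nat_lit 0) (nat_lit 340239505840) (nat_lit 76) (nat_lit 2378413316226) (nat_lit 152) (nat_lit 1740929189309) (nat_lit 29) (nat_lit 5) (nat_lit 30) (nat_lit 5) (nat_lit 31) (nat_lit 4) (nat_lit 397) (nat_lit 380) (nat_lit 243))) (XT.nd (nat_lit 78) (nat_lit 76) (nat_lit 0) (XT.lf (nat_lit 0) (nat_lit 286839777738) (nat_lit 152) (nat_lit 4324260639533) (nat_lit 76) (nat_lit 290938719915) (nat_lit 27) (nat_lit 5) (nat_lit 29) (nat_lit 5) (nat_lit 28) (nat_lit 4) (nat_lit 398) (nat_lit 380) (nat_lit 242)) (XT.lf (nat_lit 0) (nat_lit 748025461487) (nat_lit 76) (nat_lit 1977413404578) (nat_lit 152) (nat_lit 2665028673678) (nat_lit 26) (nat_lit 5) (nat_lit 27) (nat_lit 5) (nat_lit 28) (nat_lit 4) (nat_lit 399) (nat_lit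 380) (nat_lit 241)))))) (XT.nd (nat_lit 624) (nat_lit 532) (nat_lit 0) (XT.nd (nat_lit 312) (nat_lit 304) (nat_lit 0) (XT.nd (nat_lit 156) (nat_lit 228) (nat_lit 0) (XT.nd (nat_lit 78) (nat_lit 152) (nat_lit 0) (XT.lf (nat_lit 0) (nat_lit 918313341692) (nat_lit 76) (nat_lit 4788050588883) (nat_lit 76) (nat_lit 231673383072) (nat_lit 25) (nat_lit 4) (nat_lit 26) (nat_lit 5) (nat_lit 26) (nat_lit 4) (nat_lit 400) (nat_lit 380) (nat_lit 240)) (XT.lf (nat_lit 0) (nat_lit 965766166751) (nat_lit 76) (nat_lit 1689110455581) (nat_lit 152) (nat_lit 3890600631233) (nat_lit 23) (nat_lit 5) (nat_lit 24) (nat_lit 5) (nat_lit 25) (nat_lit 4) (nat_lit 401) (nat_lit 380) (nat_lit 239))) (XT.nd (nat_lit 78) (nat_lit 152) (nat_lit 0) (XT.lf (nat_lit 0) (nat_lit 910999953532) (nat_lit 76) (nat_lit 5267016798157) (nat_lit 76) (nat_lit 1048149011728) (nat_lit 22) (nat_lit 4) (nat_lit 23) (nat_lit 5) (nat_lit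 23) (nat_lit 4) (nat_lit 402) (nat_lit 380) (nat_lit 238)) (XT.lf (nat_lit 0) (nat_lit 645177412778) (nat_lit 76) (nat_lit 1693305856707) (nat_lit 152) (nat_lit 5647889718754) (nat_lit 20) (nat_lit 5) (nat_lit 21) (nat_lit 5) (nat_lit 22) (nat_lit 4) (nat_lit 403) (nat_lit 380) (nat_lit 237)))) (XT.nd (nat_lit 156) (nat_lit 152) (nat_lit 0) (XT.nd (nat_lit 78) (nat_lit 76) (nat_lit 0) (XT.lf (nat_lit 0) (nat_lit 99177327376) (nat_lit 76) (nat_lit 6322771508189) (nat_lit 76) (nat_lit 2416412444391) (nat_lit 19) (nat_lit 4) (nat_lit 20) (nat_lit 5) (nat_lit 20) (nat_lit 4) (nat_lit 404) (nat_lit 380) (nat_lit 236)) (XT.lf (nat_lit 0) (nat_lit 1500880956585) (nat_lit 152) (nat_lit 784526675025) (nat_lit 76) (nat_lit 7508950182934) (nat_lit 18) (nat_lit 5) (nat_lit 20) (nat_lit 5) (nat_lit 19) (nat_lit 4) (nat_lit 405) (nat_lit 380) (nat_lit 235))) (XT.nd (nat_lit 78) (nat_lit 76) (nat_lit 0)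 (XT.lf (nat_lit 0) (nat_lit 6140686542221) (nat_lit 152) (nat_lit 2202119022343) (nat_lit 0) (nat_lit 2523687407472) (nat_lit 17) (nat_lit 5) (nat_lit 19) (nat_lit 4) (nat_lit 17) (nat_lit 4) (nat_lit 406) (nat_lit 380) (nat_lit 234)) (XT.lf (nat_lit 0) (nat_lit 7807245096021) (nat_lit 76) (nat_lit 3943624938511) (nat_lit 76) (nat_lit 326625803113) (nat_lit 16) (nat_lit 4) (nat_lit 17) (nat_lit 5) (nat_lit 17) (nat_lit 4) (nat_lit 407) (nat_lit 380) (nat_lit 233))))) (XT.nd (nat_lit 312) (nat_lit 152) (nat_lit 0) (XT.nd (nat_lit 156) (nat_lit 152) (nat_lit 0) (XT.nd (nat_lit 78) (nat_lit 76) (nat_lit 0) (XT.lf (nat_lit 0) (nat_lit 4745455067143) (nat_lit 152) (nat_lit 7299226379890) (nat_lit 0) (nat_lit 1396381793104) (nat_lit 14) (nat_lit 5) (nat_lit 16) (nat_lit 4) (nat_lit 14) (nat_lit 4) (nat_lit 408) (nat_lit 380) (nat_lit 232)) (XT.lf (nat_lit 0) (nat_lit 3425115543284) (nat_lit 76)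 (nat_lit 7453440476838) (nat_lit 76) (nat_lit 4104367202345) (nat_lit 13) (nat_lit 4) (nat_lit 14) (nat_lit 5) (nat_lit 14) (nat_lit 4) (nat_lit 409) (nat_lit 380) (nat_lit 231))) (XT.nd (nat_lit 78) (nat_lit 76) (nat_lit 0) (XT.lf (nat_lit 0) (nat_lit 1334782484285) (nat_lit 152) (nat_lit 572725707573) (nat_lit 76) (nat_lit 14828849923686) (nat_lit 12) (nat_lit 5) (nat_lit 14) (nat_lit 5) (nat_lit 13) (nat_lit 4) (nat_lit 410) (nat_lit 380) (nat_lit 230)) (XT.lf (nat_lit 0) (nat_lit 7774450982024) (nat_lit 152) (nat_lit 6262157840832) (nat_lit 0) (nat_lit 4673457208662) (nat_lit 11) (nat_lit 5) (nat_lit 13) (nat_lit 4) (nat_lit 11) (nat_lit 4) (nat_lit 411) (nat_lit 380) (nat_lit 229)))) (XT.nd (nat_lit 50700) (nat_lit 0) (nat_lit 4104) (XT.nd (nat_lit 78) (nat_lit 76) (nat_lit 0) (XT.lf (nat_lit 0) (nat_lit 6762943261465) (nat_lit 76) (nat_lit 8649639791586) (nat_lit 76) (nat_lit 5548646017947)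 (nat_lit 10) (nat_lit 4) (nat_lit 11) (nat_lit 5) (nat_lit 11) (nat_lit 4) (nat_lit 412) (nat_lit 380) (nat_lit 228)) (XT.lf (nat_lit 0) (nat_lit 801085871495) (nat_lit 152) (nat_lit 1434735161167) (nat_lit 76) (nat_lit 21298037802413) (nat_lit 9) (nat_lit 5) (nat_lit 11) (nat_lit 5) (nat_lit 10) (nat_lit 4) (nat_lit 413) (nat_lit 380) (nat_lit 227))) (XT.nd (nat_lit 78) (nat_lit 456) (nat_lit 0) (XT.lf (nat_lit 0) (nat_lit 573959226977) (nat_lit 532) (nat_lit 26036958826) (nat_lit 532) (nat_lit 26036958826) (nat_lit 69) (nat_lit 3) (nat_lit 76) (nat_lit 3) (nat_lit 76) (nat_lit 5) (nat_lit 381) (nat_lit 381) (nat_lit 258)) (XT.nd (nat_lit 78) (nat_lit 456) (nat_lit 0) (XT.lf (nat_lit 76) (nat_lit 1156135647036) (nat_lit 0) (nat_lit 105681851632) (nat_lit 532) (nat_lit 81929349387) (nat_lit 70) (nat_lit 5) (nat_lit 69) (nat_lit 3) (nat_lit 76) (nat_lit 5) (nat_lit 382) (nat_lit 381) (nat_lit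 257)) (XT.lf (nat_lit 0) (nat_lit 4324168350) (nat_lit 532) (nat_lit 316422624658) (nat_lit 608) (nat_lit 1123910609341) (nat_lit 63) (nat_lit 5) (nat_lit 70) (nat_lit 5) (nat_lit 71) (nat_lit 5) (nat_lit 383) (nat_lit 381) (nat_lit 256))))))))
noncomputable def xc115 : XT := (XT.nd (nat_lit 1326) (nat_lit 1216) (nat_lit 0) (XT.nd (nat_lit 624) (nat_lit 1444) (nat_lit 0) (XT.nd (nat_lit 312) (nat_lit 836) (nat_lit 0) (XT.nd (nat_lit 156) (nat_lit 608) (nat_lit 0) (XT.nd (nat_lit 78) (nat_lit 0) (nat_lit 76) (XT.lf (nat_lit 0) (nat_lit 159135267362) (nat_lit 532) (nat_lit 437448869998) (nat_lit 608) (nat_lit 959112504802) (nat_lit 64) (nat_lit 5) (nat_lit 71) (nat_lit 5) (nat_lit 72) (nat_lit 5) (nat_lit 384) (nat_lit 381) (nat_lit 255)) (XT.lf (nat_lit 0) (nat_lit 401743216646) (nat_lit 532) (nat_lit 545022103915) (nat_lit 76) (nat_lit 731460432559) (nat_lit 65) (nat_lit 5) (nat_lit 72)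 (nat_lit 5) (nat_lit 66) (nat_lit 5) (nat_lit 385) (nat_lit 381) (nat_lit 254))) (XT.nd (nat_lit 78) (nat_lit 228) (nat_lit 0) (XT.lf (nat_lit 0) (nat_lit 749803217466) (nat_lit 532) (nat_lit 634784788058) (nat_lit 76) (nat_lit 429021356470) (nat_lit 59) (nat_lit 5) (nat_lit 66) (nat_lit 5) (nat_lit 60) (nat_lit 5) (nat_lit 386) (nat_lit 381) (nat_lit 253)) (XT.lf (nat_lit 0) (nat_lit 1223866815170) (nat_lit 304) (nat_lit 701638169745) (nat_lit 76) (nat_lit 37891959549) (nat_lit 56) (nat_lit 5) (nat_lit 60) (nat_lit 5) (nat_lit 57) (nat_lit 5) (nat_lit 387) (nat_lit 381) (nat_lit 252)))) (XT.nd (nat_lit 156) (nat_lit 380) (nat_lit 0) (XT.nd (nat_lit 78) (nat_lit 228) (nat_lit 0) (XT.lf (nat_lit 0) (nat_lit 1377167511257) (nat_lit 228) (nat_lit 482248731066) (nat_lit 304) (nat_lit 269006318800) (nat_lit 53) (nat_lit 5) (nat_lit 56) (nat_lit 5) (nat_lit 57) (nat_lit 5) (nat_lit 388) (nat_lit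 381) (nat_lit 251)) (XT.lf (nat_lit 0) (nat_lit 347089921614) (nat_lit 228) (nat_lit 778077003501) (nat_lit 76) (nat_lit 1185423165387) (nat_lit 50) (nat_lit 5) (nat_lit 53) (nat_lit 5) (nat_lit 51) (nat_lit 5) (nat_lit 389) (nat_lit 381) (nat_lit 250))) (XT.nd (nat_lit 78) (nat_lit 152) (nat_lit 0) (XT.lf (nat_lit 0) (nat_lit 1133300780537) (nat_lit 304) (nat_lit 776188806927) (nat_lit 76) (nat_lit 602543918983) (nat_lit 47) (nat_lit 5) (nat_lit 51) (nat_lit 5) (nat_lit 48) (nat_lit 5) (nat_lit 390) (nat_lit 381) (nat_lit 249)) (XT.lf (nat_lit 0) (nat_lit 2000454541733) (nat_lit 152) (nat_lit 139460297587) (nat_lit 228) (nat_lit 595580869786) (nat_lit 45) (nat_lit 5) (nat_lit 47) (nat_lit 5) (nat_lit 48) (nat_lit 5) (nat_lit 391) (nat_lit 381) (nat_lit 248))))) (XT.nd (nat_lit 312) (nat_lit 760) (nat_lit 0) (XT.nd (nat_lit 156) (nat_lit 304) (nat_lit 0) (XT.nd (nat_lit 78) (nat_lit 152)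 (nat_lit 0) (XT.lf (nat_lit 0) (nat_lit 417596368940) (nat_lit 228) (nat_lit 673297051217) (nat_lit 76) (nat_lit 1890771946919) (nat_lit 42) (nat_lit 5) (nat_lit 45) (nat_lit 5) (nat_lit 43) (nat_lit 5) (nat_lit 392) (nat_lit 381) (nat_lit 247)) (XT.lf (nat_lit 0) (nat_lit 1664943896635) (nat_lit 228) (nat_lit 577644117622) (nat_lit 76) (nat_lit 1011538189898) (nat_lit 40) (nat_lit 5) (nat_lit 43) (nat_lit 5) (nat_lit 41) (nat_lit 5) (nat_lit 393) (nat_lit 381) (nat_lit 246))) (XT.nd (nat_lit 78) (nat_lit 152) (nat_lit 0) (XT.lf (nat_lit 0) (nat_lit 3129481714995) (nat_lit 152) (nat_lit 95458830213) (nat_lit 228) (nat_lit 332471862253) (nat_lit 38) (nat_lit 5) (nat_lit 40) (nat_lit 5) (nat_lit 41) (nat_lit 5) (nat_lit 394) (nat_lit 381) (nat_lit 245)) (XT.lf (nat_lit 0) (nat_lit 1223362322452) (nat_lit 152) (nat_lit 276435899960) (nat_lit 76) (nat_lit 2390949899708) (nat_lit 36) (nat_lit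 5) (nat_lit 38) (nat_lit 5) (nat_lit 37) (nat_lit 5) (nat_lit 395) (nat_lit 381) (nat_lit 244)))) (XT.nd (nat_lit 156) (nat_lit 304) (nat_lit 0) (XT.nd (nat_lit 78) (nat_lit 304) (nat_lit 0) (XT.lf (nat_lit 0) (nat_lit 3136778704560) (nat_lit 228) (nat_lit 76181786837) (nat_lit 76) (nat_lit 1048921402833) (nat_lit 34) (nat_lit 5) (nat_lit 37) (nat_lit 5) (nat_lit 35) (nat_lit 4) (nat_lit 396) (nat_lit 381) (nat_lit 243)) (XT.lf (nat_lit 0) (nat_lit 159281856140) (nat_lit 152) (nat_lit 631247478669) (nat_lit 228) (nat_lit 3882952703291) (nat_lit 30) (nat_lit 5) (nat_lit 32) (nat_lit 5) (nat_lit 33) (nat_lit 5) (nat_lit 397) (nat_lit 381) (nat_lit 242))) (XT.nd (nat_lit 78) (nat_lit 228) (nat_lit 0) (XT.lf (nat_lit 0) (nat_lit 391275495903) (nat_lit 76) (nat_lit 2735175285197) (nat_lit 152) (nat_lit 2002068529115) (nat_lit 29) (nat_lit 5) (nat_lit 30) (nat_lit 5) (nat_lit 31) (nat_lit 4) (nat_lit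 398) (nat_lit 381) (nat_lit 241)) (XT.nd (nat_lit 78) (nat_lit 76) (nat_lit 0) (XT.lf (nat_lit 0) (nat_lit 329865778387) (nat_lit 152) (nat_lit 4972899672917) (nat_lit 76) (nat_lit 334579553735) (nat_lit 27) (nat_lit 5) (nat_lit 29) (nat_lit 5) (nat_lit 28) (nat_lit 4) (nat_lit 399) (nat_lit 381) (nat_lit 240)) (XT.lf (nat_lit 0) (nat_lit 860229337962) (nat_lit 76) (nat_lit 2274025388944) (nat_lit 152) (nat_lit 3064782941318) (nat_lit 26) (nat_lit 5) (nat_lit 27) (nat_lit 5) (nat_lit 28) (nat_lit 4) (nat_lit 400) (nat_lit 381) (nat_lit 239))))))) (XT.nd (nat_lit 624) (nat_lit 456) (nat_lit 0) (XT.nd (nat_lit 312) (nat_lit 304) (nat_lit 0) (XT.nd (nat_lit 156) (nat_lit 228) (nat_lit 0) (XT.nd (nat_lit 78) (nat_lit 152) (nat_lit 0) (XT.lf (nat_lit 0) (nat_lit 1056060397043) (nat_lit 76) (nat_lit 5506258151868) (nat_lit 76) (nat_lit 266424359480) (nat_lit 25) (nat_lit 4) (nat_lit 26) (nat_lit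 5) (nat_lit 26) (nat_lit 4) (nat_lit 401) (nat_lit 381) (nat_lit 238)) (XT.lf (nat_lit 0) (nat_lit 1110631142707) (nat_lit 76) (nat_lit 1942476999851) (nat_lit 152) (nat_lit 4474190696888) (nat_lit 23) (nat_lit 5) (nat_lit 24) (nat_lit 5) (nat_lit 25) (nat_lit 4) (nat_lit 402) (nat_lit 381) (nat_lit 237))) (XT.nd (nat_lit 78) (nat_lit 152) (nat_lit 0) (XT.lf (nat_lit 0) (nat_lit 1047649994634) (nat_lit 76) (nat_lit 6057069294838) (nat_lit 76) (nat_lit 1205371336451) (nat_lit 22) (nat_lit 4) (nat_lit 23) (nat_lit 5) (nat_lit 23) (nat_lit 4) (nat_lit 403) (nat_lit 381) (nat_lit 236)) (XT.lf (nat_lit 0) (nat_lit 741954069940) (nat_lit 76) (nat_lit 1947301713390) (nat_lit 152) (nat_lit 6495073151269) (nat_lit 20) (nat_lit 5) (nat_lit 21) (nat_lit 5) (nat_lit 22) (nat_lit 4) (nat_lit 404) (nat_lit 381) (nat_lit 235)))) (XT.nd (nat_lit 156) (nat_lit 152) (nat_lit 0) (XT.nd (nat_lit 78) (nat_lit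 76) (nat_lit 0) (XT.lf (nat_lit 0) (nat_lit 114053969135) (nat_lit 76) (nat_lit 7271187213615) (nat_lit 76) (nat_lit 2778874287451) (nat_lit 19) (nat_lit 4) (nat_lit 20) (nat_lit 5) (nat_lit 20) (nat_lit 4) (nat_lit 405) (nat_lit 381) (nat_lit 234)) (XT.lf (nat_lit 0) (nat_lit 1726013119568) (nat_lit 152) (nat_lit 902205638162) (nat_lit 76) (nat_lit 8635292727436) (nat_lit 18) (nat_lit 5) (nat_lit 20) (nat_lit 5) (nat_lit 19) (nat_lit 4) (nat_lit 406) (nat_lit 381) (nat_lit 233))) (XT.nd (nat_lit 78) (nat_lit 76) (nat_lit 0) (XT.lf (nat_lit 0) (nat_lit 7061789541757) (nat_lit 152) (nat_lit 2532436839790) (nat_lit 0) (nat_lit 2902240534837) (nat_lit 17) (nat_lit 5) (nat_lit 19) (nat_lit 4) (nat_lit 17) (nat_lit 4) (nat_lit 407) (nat_lit 381) (nat_lit 232)) (XT.lf (nat_lit 0) (nat_lit 8978331893289) (nat_lit 76) (nat_lit 4535168663041) (nat_lit 76) (nat_lit 375619655630) (nat_lit 16) (nat_lit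 4) (nat_lit 17) (nat_lit 5) (nat_lit 17) (nat_lit 4) (nat_lit 408) (nat_lit 381) (nat_lit 231))))) (XT.nd (nat_lit 312) (nat_lit 76) (nat_lit 0) (XT.nd (nat_lit 156) (nat_lit 152) (nat_lit 0) (XT.nd (nat_lit 78) (nat_lit 76) (nat_lit 0) (XT.lf (nat_lit 0) (nat_lit 5457273343154) (nat_lit 152) (nat_lit 8394110305089) (nat_lit 0) (nat_lit 1605839076638) (nat_lit 14) (nat_lit 5) (nat_lit 16) (nat_lit 4) (nat_lit 14) (nat_lit 4) (nat_lit 409) (nat_lit 381) (nat_lit 230)) (XT.lf (nat_lit 0) (nat_lit 3938882903871) (nat_lit 76) (nat_lit 8571456533829) (nat_lit 76) (nat_lit 4720022266971) (nat_lit 13) (nat_lit 4) (nat_lit 14) (nat_lit 5) (nat_lit 14) (nat_lit 4) (nat_lit 410) (nat_lit 381) (nat_lit 229))) (XT.nd (nat_lit 78) (nat_lit 76) (nat_lit 0) (XT.lf (nat_lit 0) (nat_lit 1534999869919) (nat_lit 152) (nat_lit 658634537725) (nat_lit 76) (nat_lit 17053177424192) (nat_lit 12) (nat_lit 5) (nat_lit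 14) (nat_lit 5) (nat_lit 13) (nat_lit 4) (nat_lit 411) (nat_lit 381) (nat_lit 228)) (XT.lf (nat_lit 0) (nat_lit 8940618641483) (nat_lit 152) (nat_lit 7201481492508) (nat_lit 0) (nat_lit 5374475801282) (nat_lit 11) (nat_lit 5) (nat_lit 13) (nat_lit 4) (nat_lit 11) (nat_lit 4) (nat_lit 412) (nat_lit 381) (nat_lit 227)))) (XT.nd (nat_lit 50778) (nat_lit 0) (nat_lit 4028) (XT.nd (nat_lit 50700) (nat_lit 0) (nat_lit 4484) (XT.lf (nat_lit 0) (nat_lit 7777384773064) (nat_lit 76) (nat_lit 9947085749052) (nat_lit 76) (nat_lit 6380942908643) (nat_lit 10) (nat_lit 4) (nat_lit 11) (nat_lit 5) (nat_lit 11) (nat_lit 4) (nat_lit 413) (nat_lit 381) (nat_lit 226)) (XT.lf (nat_lit 0) (nat_lit 660053178653) (nat_lit 532) (nat_lit 29942466108) (nat_lit 532) (nat_lit 29942466108) (nat_lit 69) (nat_lit 3) (nat_lit 76) (nat_lit 3) (nat_lit 76) (nat_lit 5) (nat_lit 382) (nat_lit 382) (nat_lit 256))) (XT.nd (nat_lit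 78) (nat_lit 456) (nat_lit 0) (XT.lf (nat_lit 76) (nat_lit 1329556060989) (nat_lit 0) (nat_lit 121534181703) (nat_lit 532) (nat_lit 94218622954) (nat_lit 70) (nat_lit 5) (nat_lit 69) (nat_lit 3) (nat_lit 76) (nat_lit 5) (nat_lit 383) (nat_lit 382) (nat_lit 255)) (XT.nd (nat_lit 78) (nat_lit 0) (nat_lit 76) (XT.lf (nat_lit 0) (nat_lit 4972900668) (nat_lit 532) (nat_lit 363885941464) (nat_lit 608) (nat_lit 1292497161941) (nat_lit 63) (nat_lit 5) (nat_lit 70) (nat_lit 5) (nat_lit 71) (nat_lit 5) (nat_lit 384) (nat_lit 382) (nat_lit 254)) (XT.lf (nat_lit 0) (nat_lit 183005651672) (nat_lit 532) (nat_lit 503066121889) (nat_lit 608) (nat_lit 1102979357335) (nat_lit 64) (nat_lit 5) (nat_lit 71) (nat_lit 5) (nat_lit 72) (nat_lit 5) (nat_lit 385) (nat_lit 382) (nat_lit 253))))))))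
noncomputable def xc116 : XT := (XT.nd (nat_lit 1248) (nat_lit 1064) (nat_lit 0) (XT.nd (nat_lit 624) (nat_lit 1216) (nat_lit 0) (XT.nd (nat_lit 312) (nat_lit 836) (nat_lit 0) (XT.nd (nat_lit 156) (nat_lit 456) (nat_lit 0) (XT.nd (nat_lit 78) (nat_lit 456) (nat_lit 0) (XT.lf (nat_lit 0) (nat_lit 462004782510) (nat_lit 532) (nat_lit 626775340525) (nat_lit 76) (nat_lit 841179486335) (nat_lit 65) (nat_lit 5) (nat_lit 72) (nat_lit 5) (nat_lit 66) (nat_lit 5) (nat_lit 386) (nat_lit 382) (nat_lit 252)) (XT.lf (nat_lit 0) (nat_lit 862273774271) (nat_lit 532) (nat_lit 730002427948) (nat_lit 76) (nat_lit 493374558097) (nat_lit 59) (nat_lit 5) (nat_lit 66) (nat_lit 5) (nat_lit 60) (nat_lit 5) (nat_lit 387) (nat_lit 382) (nat_lit 251))) (XT.nd (nat_lit 78) (nat_lit 228) (nat_lit 0) (XT.lf (nat_lit 0) (nat_lit 1407446903809) (nat_lit 304) (nat_lit 806883818313) (nat_lit 76) (nat_lit 43575758665) (nat_lit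 56) (nat_lit 5) (nat_lit 60) (nat_lit 5) (nat_lit 57) (nat_lit 5) (nat_lit 388) (nat_lit 382) (nat_lit 250)) (XT.lf (nat_lit 0) (nat_lit 1583742708331) (nat_lit 228) (nat_lit 554586029742) (nat_lit 304) (nat_lit 309357202436) (nat_lit 53) (nat_lit 5) (nat_lit 56) (nat_lit 5) (nat_lit 57) (nat_lit 5) (nat_lit 389) (nat_lit 382) (nat_lit 249)))) (XT.nd (nat_lit 156) (nat_lit 380) (nat_lit 0) (XT.nd (nat_lit 78) (nat_lit 228) (nat_lit 0) (XT.lf (nat_lit 0) (nat_lit 399153464804) (nat_lit 228) (nat_lit 894788482543) (nat_lit 76) (nat_lit 1363236652308) (nat_lit 50) (nat_lit 5) (nat_lit 53) (nat_lit 5) (nat_lit 51) (nat_lit 5) (nat_lit 390) (nat_lit 382) (nat_lit 248)) (XT.lf (nat_lit 0) (nat_lit 1303295947359) (nat_lit 304) (nat_lit 892617058950) (nat_lit 76) (nat_lit 692925522104) (nat_lit 47) (nat_lit 5) (nat_lit 51) (nat_lit 5) (nat_lit 48) (nat_lit 5) (nat_lit 391) (nat_lit 382) (nat_lit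 247))) (XT.nd (nat_lit 78) (nat_lit 228) (nat_lit 0) (XT.lf (nat_lit 0) (nat_lit 2300522786167) (nat_lit 152) (nat_lit 160379323823) (nat_lit 228) (nat_lit 684917951880) (nat_lit 45) (nat_lit 5) (nat_lit 47) (nat_lit 5) (nat_lit 48) (nat_lit 5) (nat_lit 392) (nat_lit 382) (nat_lit 246)) (XT.lf (nat_lit 0) (nat_lit 480235866134) (nat_lit 228) (nat_lit 774291545962) (nat_lit 76) (nat_lit 2174387756678) (nat_lit 42) (nat_lit 5) (nat_lit 45) (nat_lit 5) (nat_lit 43) (nat_lit 5) (nat_lit 393) (nat_lit 382) (nat_lit 245))))) (XT.nd (nat_lit 312) (nat_lit 608) (nat_lit 0) (XT.nd (nat_lit 156) (nat_lit 304) (nat_lit 0) (XT.nd (nat_lit 78) (nat_lit 152) (nat_lit 0) (XT.lf (nat_lit 0) (nat_lit 1914685519387) (nat_lit 228) (nat_lit 664290675096) (nat_lit 76) (nat_lit 1163268937222) (nat_lit 40) (nat_lit 5) (nat_lit 43) (nat_lit 5) (nat_lit 41) (nat_lit 5) (nat_lit 394) (nat_lit 382) (nat_lit 244))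 (XT.lf (nat_lit 0) (nat_lit 3598904027321) (nat_lit 152) (nat_lit 109777634260) (nat_lit 228) (nat_lit 382342604221) (nat_lit 38) (nat_lit 5) (nat_lit 40) (nat_lit 5) (nat_lit 41) (nat_lit 5) (nat_lit 395) (nat_lit 382) (nat_lit 243))) (XT.nd (nat_lit 78) (nat_lit 152) (nat_lit 0) (XT.lf (nat_lit 0) (nat_lit 1406866703425) (nat_lit 152) (nat_lit 317901230720) (nat_lit 76) (nat_lit 2749592403674) (nat_lit 36) (nat_lit 5) (nat_lit 38) (nat_lit 5) (nat_lit 37) (nat_lit 5) (nat_lit 396) (nat_lit 382) (nat_lit 242)) (XT.lf (nat_lit 0) (nat_lit 3607295540273) (nat_lit 228) (nat_lit 87609003331) (nat_lit 76) (nat_lit 1206259632350) (nat_lit 34) (nat_lit 5) (nat_lit 37) (nat_lit 5) (nat_lit 35) (nat_lit 4) (nat_lit 397) (nat_lit 382) (nat_lit 241)))) (XT.nd (nat_lit 156) (nat_lit 228) (nat_lit 0) (XT.nd (nat_lit 78) (nat_lit 76) (nat_lit 0) (XT.lf (nat_lit 0) (nat_lit 183174185771) (nat_lit 152)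 (nat_lit 725934578453) (nat_lit 228) (nat_lit 4465395577249) (nat_lit 30) (nat_lit 5) (nat_lit 32) (nat_lit 5) (nat_lit 33) (nat_lit 5) (nat_lit 398) (nat_lit 382) (nat_lit 240)) (XT.lf (nat_lit 0) (nat_lit 449966868823) (nat_lit 76) (nat_lit 3145451556455) (nat_lit 152) (nat_lit 2302378779303) (nat_lit 29) (nat_lit 5) (nat_lit 30) (nat_lit 5) (nat_lit 31) (nat_lit 4) (nat_lit 399) (nat_lit 382) (nat_lit 239))) (XT.nd (nat_lit 78) (nat_lit 76) (nat_lit 0) (XT.lf (nat_lit 0) (nat_lit 379345670845) (nat_lit 152) (nat_lit 5718834576561) (nat_lit 76) (nat_lit 384766506329) (nat_lit 27) (nat_lit 5) (nat_lit 29) (nat_lit 5) (nat_lit 28) (nat_lit 4) (nat_lit 400) (nat_lit 382) (nat_lit 238)) (XT.lf (nat_lit 0) (nat_lit 989263781947) (nat_lit 76) (nat_lit 2615129177384) (nat_lit 152) (nat_lit 3524500357252) (nat_lit 26) (nat_lit 5) (nat_lit 27) (nat_lit 5) (nat_lit 28) (nat_lit 4) (nat_lit 401)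 (nat_lit 382) (nat_lit 237)))))) (XT.nd (nat_lit 624) (nat_lit 304) (nat_lit 0) (XT.nd (nat_lit 312) (nat_lit 304) (nat_lit 0) (XT.nd (nat_lit 156) (nat_lit 228) (nat_lit 0) (XT.nd (nat_lit 78) (nat_lit 152) (nat_lit 0) (XT.lf (nat_lit 0) (nat_lit 1214469497504) (nat_lit 76) (nat_lit 6332196855481) (nat_lit 76) (nat_lit 306387989922) (nat_lit 25) (nat_lit 4) (nat_lit 26) (nat_lit 5) (nat_lit 26) (nat_lit 4) (nat_lit 402) (nat_lit 382) (nat_lit 236)) (XT.lf (nat_lit 0) (nat_lit 1277225852634) (nat_lit 76) (nat_lit 2233848531632) (nat_lit 152) (nat_lit 5145319279469) (nat_lit 23) (nat_lit 5) (nat_lit 24) (nat_lit 5) (nat_lit 25) (nat_lit 4) (nat_lit 403) (nat_lit 382) (nat_lit 235))) (XT.nd (nat_lit 78) (nat_lit 152) (nat_lit 0) (XT.lf (nat_lit 0) (nat_lit 1204797530180) (nat_lit 76) (nat_lit 6965629671641) (nat_lit 76) (nat_lit 1386177016475) (nat_lit 22) (nat_lit 4) (nat_lit 23) (nat_lit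 5) (nat_lit 23) (nat_lit 4) (nat_lit 404) (nat_lit 382) (nat_lit 234)) (XT.lf (nat_lit 0) (nat_lit 853247214642) (nat_lit 76) (nat_lit 2239396953898) (nat_lit 152) (nat_lit 7469334104830) (nat_lit 20) (nat_lit 5) (nat_lit 21) (nat_lit 5) (nat_lit 22) (nat_lit 4) (nat_lit 405) (nat_lit 382) (nat_lit 233)))) (XT.nd (nat_lit 156) (nat_lit 152) (nat_lit 0) (XT.nd (nat_lit 78) (nat_lit 76) (nat_lit 0) (XT.lf (nat_lit 0) (nat_lit 131162096756) (nat_lit 76) (nat_lit 8361865279927) (nat_lit 76) (nat_lit 3195705412724) (nat_lit 19) (nat_lit 4) (nat_lit 20) (nat_lit 5) (nat_lit 20) (nat_lit 4) (nat_lit 406) (nat_lit 382) (nat_lit 232)) (XT.lf (nat_lit 0) (nat_lit 1984915102244) (nat_lit 152) (nat_lit 1037536455065) (nat_lit 76) (nat_lit 9930586649452) (nat_lit 18) (nat_lit 5) (nat_lit 20) (nat_lit 5) (nat_lit 19) (nat_lit 4) (nat_lit 407) (nat_lit 382) (nat_lit 231))) (XT.nd (nat_lit 78) (nat_lit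 76) (nat_lit 0) (XT.lf (nat_lit 0) (nat_lit 8121057986784) (nat_lit 152) (nat_lit 2912302338610) (nat_lit 0) (nat_lit 3337576627345) (nat_lit 17) (nat_lit 5) (nat_lit 19) (nat_lit 4) (nat_lit 17) (nat_lit 4) (nat_lit 408) (nat_lit 382) (nat_lit 230)) (XT.lf (nat_lit 0) (nat_lit 10325081702133) (nat_lit 76) (nat_lit 5215443950212) (nat_lit 76) (nat_lit 431962590403) (nat_lit 16) (nat_lit 4) (nat_lit 17) (nat_lit 5) (nat_lit 17) (nat_lit 4) (nat_lit 409) (nat_lit 382) (nat_lit 229))))) (XT.nd (nat_lit 51090) (nat_lit 0) (nat_lit 3572) (XT.nd (nat_lit 156) (nat_lit 76) (nat_lit 0) (XT.nd (nat_lit 78) (nat_lit 76) (nat_lit 0) (XT.lf (nat_lit 0) (nat_lit 6275864356679) (nat_lit 152) (nat_lit 9653226826819) (nat_lit 0) (nat_lit 1846714949150) (nat_lit 14) (nat_lit 5) (nat_lit 16) (nat_lit 4) (nat_lit 14) (nat_lit 4) (nat_lit 410) (nat_lit 382) (nat_lit 228)) (XT.lf (nat_lit 0) (nat_lit 4529715361451)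 (nat_lit 76) (nat_lit 9857175002914) (nat_lit 76) (nat_lit 5428025595125) (nat_lit 13) (nat_lit 4) (nat_lit 14) (nat_lit 5) (nat_lit 14) (nat_lit 4) (nat_lit 411) (nat_lit 382) (nat_lit 227))) (XT.nd (nat_lit 50856) (nat_lit 0) (nat_lit 4332) (XT.lf (nat_lit 0) (nat_lit 1765249860229) (nat_lit 152) (nat_lit 757429698736) (nat_lit 76) (nat_lit 19611154046860) (nat_lit 12) (nat_lit 5) (nat_lit 14) (nat_lit 5) (nat_lit 13) (nat_lit 4) (nat_lit 412) (nat_lit 382) (nat_lit 226)) (XT.lf (nat_lit 0) (nat_lit 759061206587) (nat_lit 532) (nat_lit 34433808393) (nat_lit 532) (nat_lit 34433808393) (nat_lit 69) (nat_lit 3) (nat_lit 76) (nat_lit 3) (nat_lit 76) (nat_lit 5) (nat_lit 383) (nat_lit 383) (nat_lit 254)))) (XT.nd (nat_lit 156) (nat_lit 304) (nat_lit 0) (XT.nd (nat_lit 78) (nat_lit 456) (nat_lit 0) (XT.lf (nat_lit 76) (nat_lit 1528989520722) (nat_lit 0) (nat_lit 139764348524) (nat_lit 532) (nat_lit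 108351318975) (nat_lit 70) (nat_lit 5) (nat_lit 69) (nat_lit 3) (nat_lit 76) (nat_lit 5) (nat_lit 384) (nat_lit 383) (nat_lit 253)) (XT.lf (nat_lit 0) (nat_lit 5718916725) (nat_lit 532) (nat_lit 418468774543) (nat_lit 608) (nat_lit 1486371706892) (nat_lit 63) (nat_lit 5) (nat_lit 70) (nat_lit 5) (nat_lit 71) (nat_lit 5) (nat_lit 385) (nat_lit 383) (nat_lit 252))) (XT.nd (nat_lit 78) (nat_lit 380) (nat_lit 0) (XT.lf (nat_lit 0) (nat_lit 210456570655) (nat_lit 532) (nat_lit 578525980732) (nat_lit 608) (nat_lit 1268426243401) (nat_lit 64) (nat_lit 5) (nat_lit 71) (nat_lit 5) (nat_lit 72) (nat_lit 5) (nat_lit 386) (nat_lit 383) (nat_lit 251)) (XT.nd (nat_lit 78) (nat_lit 456) (nat_lit 0) (XT.lf (nat_lit 0) (nat_lit 531305562924) (nat_lit 532) (nat_lit 720791581886) (nat_lit 76) (nat_lit 967356400886) (nat_lit 65) (nat_lit 5) (nat_lit 72) (nat_lit 5) (nat_lit 66) (nat_lit 5) (nat_lit 387) (nat_lit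 383) (nat_lit 250)) (XT.lf (nat_lit 0) (nat_lit 991614896507) (nat_lit 532) (nat_lit 839502732920) (nat_lit 76) (nat_lit 567380740418) (nat_lit 59) (nat_lit 5) (nat_lit 66) (nat_lit 5) (nat_lit 60) (nat_lit 5) (nat_lit 388) (nat_lit 383) (nat_lit 249))))))))
noncomputable def xc117 : XT := (XT.nd (nat_lit 1248) (nat_lit 760) (nat_lit 0) (XT.nd (nat_lit 624) (nat_lit 1140) (nat_lit 0) (XT.nd (nat_lit 312) (nat_lit 684) (nat_lit 0) (XT.nd (nat_lit 156) (nat_lit 456) (nat_lit 0) (XT.nd (nat_lit 78) (nat_lit 228) (nat_lit 0) (XT.lf (nat_lit 0) (nat_lit 1618563989562) (nat_lit 304) (nat_lit 927916332918) (nat_lit 76) (nat_lit 50112126384) (nat_lit 56) (nat_lit 5) (nat_lit 60) (nat_lit 5) (nat_lit 57) (nat_lit 5) (nat_lit 389) (nat_lit 383) (nat_lit 248)) (XT.lf (nat_lit 0) (nat_lit 1821304167801) (nat_lit 228) (nat_lit 637773925898) (nat_lit 304) (nat_lit 355760734268) (nat_lit 53) (nat_lit 5)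 (nat_lit 56) (nat_lit 5) (nat_lit 57) (nat_lit 5) (nat_lit 390) (nat_lit 383) (nat_lit 247))) (XT.nd (nat_lit 78) (nat_lit 228) (nat_lit 0) (XT.lf (nat_lit 0) (nat_lit 459026526074) (nat_lit 228) (nat_lit 1029006700873) (nat_lit 76) (nat_lit 1567722159314) (nat_lit 50) (nat_lit 5) (nat_lit 53) (nat_lit 5) (nat_lit 51) (nat_lit 5) (nat_lit 391) (nat_lit 383) (nat_lit 246)) (XT.lf (nat_lit 0) (nat_lit 1498790377075) (nat_lit 304) (nat_lit 1026509565607) (nat_lit 76) (nat_lit 796864361968) (nat_lit 47) (nat_lit 5) (nat_lit 51) (nat_lit 5) (nat_lit 48) (nat_lit 5) (nat_lit 392) (nat_lit 383) (nat_lit 245)))) (XT.nd (nat_lit 156) (nat_lit 304) (nat_lit 0) (XT.nd (nat_lit 78) (nat_lit 228) (nat_lit 0) (XT.lf (nat_lit 0) (nat_lit 2645601251861) (nat_lit 152) (nat_lit 184436208482) (nat_lit 228) (nat_lit 787655608085) (nat_lit 45) (nat_lit 5) (nat_lit 47) (nat_lit 5) (nat_lit 48) (nat_lit 5) (nat_lit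 393) (nat_lit 383) (nat_lit 244)) (XT.lf (nat_lit 0) (nat_lit 552271277701) (nat_lit 228) (nat_lit 890435230266) (nat_lit 76) (nat_lit 2500545933579) (nat_lit 42) (nat_lit 5) (nat_lit 45) (nat_lit 5) (nat_lit 43) (nat_lit 5) (nat_lit 394) (nat_lit 383) (nat_lit 243))) (XT.nd (nat_lit 78) (nat_lit 152) (nat_lit 0) (XT.lf (nat_lit 0) (nat_lit 2201888376222) (nat_lit 228) (nat_lit 763934230864) (nat_lit 76) (nat_lit 1337759292050) (nat_lit 40) (nat_lit 5) (nat_lit 43) (nat_lit 5) (nat_lit 41) (nat_lit 5) (nat_lit 395) (nat_lit 383) (nat_lit 242)) (XT.lf (nat_lit 0) (nat_lit 4138739673064) (nat_lit 152) (nat_lit 126244263909) (nat_lit 228) (nat_lit 439693966597) (nat_lit 38) (nat_lit 5) (nat_lit 40) (nat_lit 5) (nat_lit 41) (nat_lit 5) (nat_lit 396) (nat_lit 383) (nat_lit 241))))) (XT.nd (nat_lit 312) (nat_lit 456) (nat_lit 0) (XT.nd (nat_lit 156) (nat_lit 380) (nat_lit 0) (XT.nd (nat_lit 78)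 (nat_lit 152) (nat_lit 0) (XT.lf (nat_lit 0) (nat_lit 1617896733593) (nat_lit 152) (nat_lit 365586374320) (nat_lit 76) (nat_lit 3162031278600) (nat_lit 36) (nat_lit 5) (nat_lit 38) (nat_lit 5) (nat_lit 37) (nat_lit 5) (nat_lit 397) (nat_lit 383) (nat_lit 240)) (XT.lf (nat_lit 0) (nat_lit 4148389894021) (nat_lit 228) (nat_lit 100750314865) (nat_lit 76) (nat_lit 1387198591638) (nat_lit 34) (nat_lit 5) (nat_lit 37) (nat_lit 5) (nat_lit 35) (nat_lit 4) (nat_lit 398) (nat_lit 383) (nat_lit 239))) (XT.nd (nat_lit 78) (nat_lit 76) (nat_lit 0) (XT.lf (nat_lit 0) (nat_lit 210650352359) (nat_lit 152) (nat_lit 834824748573) (nat_lit 228) (nat_lit 5135204889991) (nat_lit 30) (nat_lit 5) (nat_lit 32) (nat_lit 5) (nat_lit 33) (nat_lit 5) (nat_lit 399) (nat_lit 383) (nat_lit 238)) (XT.lf (nat_lit 0) (nat_lit 517461935846) (nat_lit 76) (nat_lit 3617269273650) (nat_lit 152) (nat_lit 2647735574134) (nat_lit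 29) (nat_lit 5) (nat_lit 30) (nat_lit 5) (nat_lit 31) (nat_lit 4) (nat_lit 400) (nat_lit 383) (nat_lit 237)))) (XT.nd (nat_lit 156) (nat_lit 228) (nat_lit 0) (XT.nd (nat_lit 78) (nat_lit 76) (nat_lit 0) (XT.lf (nat_lit 0) (nat_lit 436247540905) (nat_lit 152) (nat_lit 6576659727284) (nat_lit 76) (nat_lit 442481497049) (nat_lit 27) (nat_lit 5) (nat_lit 29) (nat_lit 5) (nat_lit 28) (nat_lit 4) (nat_lit 401) (nat_lit 383) (nat_lit 236)) (XT.lf (nat_lit 0) (nat_lit 1137653381973) (nat_lit 76) (nat_lit 3007398538943) (nat_lit 152) (nat_lit 4053175391737) (nat_lit 26) (nat_lit 5) (nat_lit 27) (nat_lit 5) (nat_lit 28) (nat_lit 4) (nat_lit 402) (nat_lit 383) (nat_lit 235))) (XT.nd (nat_lit 78) (nat_lit 152) (nat_lit 0) (XT.lf (nat_lit 0) (nat_lit 1396639953059) (nat_lit 76) (nat_lit 7282026369311) (nat_lit 76) (nat_lit 352346170655) (nat_lit 25) (nat_lit 4) (nat_lit 26) (nat_lit 5) (nat_lit 26) (nat_lit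 4) (nat_lit 403) (nat_lit 383) (nat_lit 234)) (XT.lf (nat_lit 0) (nat_lit 1468809759656) (nat_lit 76) (nat_lit 2568925797616) (nat_lit 152) (nat_lit 5917117154791) (nat_lit 23) (nat_lit 5) (nat_lit 24) (nat_lit 5) (nat_lit 25) (nat_lit 4) (nat_lit 404) (nat_lit 383) (nat_lit 233)))))) (XT.nd (nat_lit 51480) (nat_lit 0) (nat_lit 2812) (XT.nd (nat_lit 312) (nat_lit 380) (nat_lit 0) (XT.nd (nat_lit 156) (nat_lit 152) (nat_lit 0) (XT.nd (nat_lit 78) (nat_lit 152) (nat_lit 0) (XT.lf (nat_lit 0) (nat_lit 1385517187193) (nat_lit 76) (nat_lit 8010474109213) (nat_lit 76) (nat_lit 1594103553488) (nat_lit 22) (nat_lit 4) (nat_lit 23) (nat_lit 5) (nat_lit 23) (nat_lit 4) (nat_lit 405) (nat_lit 383) (nat_lit 232)) (XT.lf (nat_lit 0) (nat_lit 981234322708) (nat_lit 76) (nat_lit 2575306484505) (nat_lit 152) (nat_lit 8589734206090) (nat_lit 20) (nat_lit 5) (nat_lit 21) (nat_lit 5) (nat_lit 22) (nat_lit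 4) (nat_lit 406) (nat_lit 383) (nat_lit 231))) (XT.nd (nat_lit 78) (nat_lit 76) (nat_lit 0) (XT.lf (nat_lit 0) (nat_lit 150836435657) (nat_lit 76) (nat_lit 9616145060022) (nat_lit 76) (nat_lit 3675061211139) (nat_lit 19) (nat_lit 4) (nat_lit 20) (nat_lit 5) (nat_lit 20) (nat_lit 4) (nat_lit 407) (nat_lit 383) (nat_lit 230)) (XT.lf (nat_lit 0) (nat_lit 2282652378727) (nat_lit 152) (nat_lit 1193166901531) (nat_lit 76) (nat_lit 11420174656624) (nat_lit 18) (nat_lit 5) (nat_lit 20) (nat_lit 5) (nat_lit 19) (nat_lit 4) (nat_lit 408) (nat_lit 383) (nat_lit 229)))) (XT.nd (nat_lit 156) (nat_lit 228) (nat_lit 0) (XT.nd (nat_lit 78) (nat_lit 76) (nat_lit 0) (XT.lf (nat_lit 0) (nat_lit 9339216695209) (nat_lit 152) (nat_lit 3349147668873) (nat_lit 0) (nat_lit 3838213130735) (nat_lit 17) (nat_lit 5) (nat_lit 19) (nat_lit 4) (nat_lit 17) (nat_lit 4) (nat_lit 409) (nat_lit 383) (nat_lit 228)) (XT.lf (nat_lit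 0) (nat_lit 11873843976244) (nat_lit 76) (nat_lit 5997760533455) (nat_lit 76) (nat_lit 496756968701) (nat_lit 16) (nat_lit 4) (nat_lit 17) (nat_lit 5) (nat_lit 17) (nat_lit 4) (nat_lit 410) (nat_lit 383) (nat_lit 227))) (XT.nd (nat_lit 78) (nat_lit 76) (nat_lit 0) (XT.lf (nat_lit 0) (nat_lit 7217244019295) (nat_lit 152) (nat_lit 11101210832669) (nat_lit 0) (nat_lit 2123722199852) (nat_lit 14) (nat_lit 5) (nat_lit 16) (nat_lit 4) (nat_lit 14) (nat_lit 4) (nat_lit 411) (nat_lit 383) (nat_lit 226)) (XT.lf (nat_lit 0) (nat_lit 5209172682303) (nat_lit 76) (nat_lit 11335751245042) (nat_lit 76) (nat_lit 6242229425403) (nat_lit 13) (nat_lit 4) (nat_lit 14) (nat_lit 5) (nat_lit 14) (nat_lit 4) (nat_lit 412) (nat_lit 383) (nat_lit 225))))) (XT.nd (nat_lit 312) (nat_lit 988) (nat_lit 0) (XT.nd (nat_lit 156) (nat_lit 456) (nat_lit 0) (XT.nd (nat_lit 78) (nat_lit 0) (nat_lit 0) (XT.lf (nat_lit 0) (nat_lit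 872920426243) (nat_lit 532) (nat_lit 39598858759) (nat_lit 532) (nat_lit 39598858759) (nat_lit 69) (nat_lit 3) (nat_lit 76) (nat_lit 3) (nat_lit 76) (nat_lit 5) (nat_lit 384) (nat_lit 384) (nat_lit 252)) (XT.lf (nat_lit 76) (nat_lit 1758337987080) (nat_lit 0) (nat_lit 160729030720) (nat_lit 532) (nat_lit 124603943156) (nat_lit 70) (nat_lit 5) (nat_lit 69) (nat_lit 3) (nat_lit 76) (nat_lit 5) (nat_lit 385) (nat_lit 384) (nat_lit 251))) (XT.nd (nat_lit 78) (nat_lit 0) (nat_lit 76) (XT.lf (nat_lit 0) (nat_lit 6576815448) (nat_lit 532) (nat_lit 481239046761) (nat_lit 608) (nat_lit 1709327440741) (nat_lit 63) (nat_lit 5) (nat_lit 70) (nat_lit 5) (nat_lit 71) (nat_lit 5) (nat_lit 386) (nat_lit 384) (nat_lit 250)) (XT.lf (nat_lit 0) (nat_lit 242025110116) (nat_lit 532) (nat_lit 665304832897) (nat_lit 608) (nat_lit 1458690166654) (nat_lit 64) (nat_lit 5) (nat_lit 71) (nat_lit 5) (nat_lit 72) (nat_lit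 5) (nat_lit 387) (nat_lit 384) (nat_lit 249)))) (XT.nd (nat_lit 156) (nat_lit 684) (nat_lit 0) (XT.nd (nat_lit 78) (nat_lit 456) (nat_lit 0) (XT.lf (nat_lit 0) (nat_lit 611001445028) (nat_lit 532) (nat_lit 828910274014) (nat_lit 76) (nat_lit 1112459854668) (nat_lit 65) (nat_lit 5) (nat_lit 72) (nat_lit 5) (nat_lit 66) (nat_lit 5) (nat_lit 388) (nat_lit 384) (nat_lit 248)) (XT.lf (nat_lit 0) (nat_lit 1140357173398) (nat_lit 532) (nat_lit 965428098079) (nat_lit 76) (nat_lit 652487850427) (nat_lit 59) (nat_lit 5) (nat_lit 66) (nat_lit 5) (nat_lit 60) (nat_lit 5) (nat_lit 389) (nat_lit 384) (nat_lit 247))) (XT.nd (nat_lit 78) (nat_lit 456) (nat_lit 0) (XT.lf (nat_lit 0) (nat_lit 1861348625940) (nat_lit 304) (nat_lit 1067103738891) (nat_lit 76) (nat_lit 57628948306) (nat_lit 56) (nat_lit 5) (nat_lit 60) (nat_lit 5) (nat_lit 57) (nat_lit 5) (nat_lit 390) (nat_lit 384) (nat_lit 246)) (XT.nd (nat_lit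 78) (nat_lit 228) (nat_lit 0) (XT.lf (nat_lit 0) (nat_lit 2094499833214) (nat_lit 228) (nat_lit 733440008502) (nat_lit 304) (nat_lit 409124807711) (nat_lit 53) (nat_lit 5) (nat_lit 56) (nat_lit 5) (nat_lit 57) (nat_lit 5) (nat_lit 391) (nat_lit 384) (nat_lit 245)) (XT.lf (nat_lit 0) (nat_lit 527880536402) (nat_lit 228) (nat_lit 1183357665134) (nat_lit 76) (nat_lit 1802880490137) (nat_lit 50) (nat_lit 5) (nat_lit 53) (nat_lit 5) (nat_lit 51) (nat_lit 5) (nat_lit 392) (nat_lit 384) (nat_lit 244))))))))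
noncomputable def xc118 : XT := (XT.nd (nat_lit 1248) (nat_lit 380) (nat_lit 0) (XT.nd (nat_lit 624) (nat_lit 836) (nat_lit 0) (XT.nd (nat_lit 312) (nat_lit 760) (nat_lit 0) (XT.nd (nat_lit 156) (nat_lit 380) (nat_lit 0) (XT.nd (nat_lit 78) (nat_lit 152) (nat_lit 0) (XT.lf (nat_lit 0) (nat_lit 1723608962076) (nat_lit 304) (nat_lit 1180485960988) (nat_lit 76) (nat_lit 916394024996) (nat_lit 47) (nat_lit 5) (nat_lit 51) (nat_lit 5) (nat_lit 48) (nat_lit 5) (nat_lit 393) (nat_lit 384) (nat_lit 243)) (XT.lf (nat_lit 0) (nat_lit 3042441475761) (nat_lit 152) (nat_lit 212101629234) (nat_lit 228) (nat_lit 905803921640) (nat_lit 45) (nat_lit 5) (nat_lit 47) (nat_lit 5) (nat_lit 48) (nat_lit 5) (nat_lit 394) (nat_lit 384) (nat_lit 242))) (XT.nd (nat_lit 78) (nat_lit 152) (nat_lit 0) (XT.lf (nat_lit 0) (nat_lit 635111993286) (nat_lit 228) (nat_lit 1024000478821) (nat_lit 76) (nat_lit 2875627833748)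 (nat_lit 42) (nat_lit 5) (nat_lit 45) (nat_lit 5) (nat_lit 43) (nat_lit 5) (nat_lit 395) (nat_lit 384) (nat_lit 241)) (XT.lf (nat_lit 0) (nat_lit 2532171654529) (nat_lit 228) (nat_lit 878524331092) (nat_lit 76) (nat_lit 1538423196629) (nat_lit 40) (nat_lit 5) (nat_lit 43) (nat_lit 5) (nat_lit 41) (nat_lit 5) (nat_lit 396) (nat_lit 384) (nat_lit 240)))) (XT.nd (nat_lit 156) (nat_lit 456) (nat_lit 0) (XT.nd (nat_lit 78) (nat_lit 152) (nat_lit 0) (XT.lf (nat_lit 0) (nat_lit 4759550655514) (nat_lit 152) (nat_lit 145180891783) (nat_lit 228) (nat_lit 505648040220) (nat_lit 38) (nat_lit 5) (nat_lit 40) (nat_lit 5) (nat_lit 41) (nat_lit 5) (nat_lit 397) (nat_lit 384) (nat_lit 239)) (XT.lf (nat_lit 0) (nat_lit 1860581262275) (nat_lit 152) (nat_lit 420424299460) (nat_lit 76) (nat_lit 3636335981259) (nat_lit 36) (nat_lit 5) (nat_lit 38) (nat_lit 5) (nat_lit 37) (nat_lit 5) (nat_lit 398) (nat_lit 384)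 (nat_lit 238))) (XT.nd (nat_lit 78) (nat_lit 304) (nat_lit 0) (XT.lf (nat_lit 0) (nat_lit 4770648395294) (nat_lit 228) (nat_lit 115862832632) (nat_lit 76) (nat_lit 1595278391299) (nat_lit 34) (nat_lit 5) (nat_lit 37) (nat_lit 5) (nat_lit 35) (nat_lit 4) (nat_lit 399) (nat_lit 384) (nat_lit 237)) (XT.lf (nat_lit 0) (nat_lit 242247934493) (nat_lit 152) (nat_lit 960048448270) (nat_lit 228) (nat_lit 5905485605460) (nat_lit 30) (nat_lit 5) (nat_lit 32) (nat_lit 5) (nat_lit 33) (nat_lit 5) (nat_lit 400) (nat_lit 384) (nat_lit 236))))) (XT.nd (nat_lit 312) (nat_lit 456) (nat_lit 0) (XT.nd (nat_lit 156) (nat_lit 152) (nat_lit 0) (XT.nd (nat_lit 78) (nat_lit 152) (nat_lit 0) (XT.lf (nat_lit 0) (nat_lit 595081253973) (nat_lit 76) (nat_lit 4159859652392) (nat_lit 152) (nat_lit 3044895893570) (nat_lit 29) (nat_lit 5) (nat_lit 30) (nat_lit 5) (nat_lit 31) (nat_lit 4) (nat_lit 401) (nat_lit 384) (nat_lit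 235)) (XT.lf (nat_lit 0) (nat_lit 501684686734) (nat_lit 152) (nat_lit 7563158659336) (nat_lit 76) (nat_lit 508853732775) (nat_lit 27) (nat_lit 5) (nat_lit 29) (nat_lit 5) (nat_lit 28) (nat_lit 4) (nat_lit 402) (nat_lit 384) (nat_lit 234))) (XT.nd (nat_lit 78) (nat_lit 76) (nat_lit 0) (XT.lf (nat_lit 0) (nat_lit 1308301414021) (nat_lit 76) (nat_lit 3458508308405) (nat_lit 152) (nat_lit 4661151686053) (nat_lit 26) (nat_lit 5) (nat_lit 27) (nat_lit 5) (nat_lit 28) (nat_lit 4) (nat_lit 403) (nat_lit 384) (nat_lit 233)) (XT.lf (nat_lit 0) (nat_lit 1606135969406) (nat_lit 76) (nat_lit 8374330313749) (nat_lit 76) (nat_lit 405198082828) (nat_lit 25) (nat_lit 4) (nat_lit 26) (nat_lit 5) (nat_lit 26) (nat_lit 4) (nat_lit 404) (nat_lit 384) (nat_lit 232)))) (XT.nd (nat_lit 156) (nat_lit 228) (nat_lit 0) (XT.nd (nat_lit 78) (nat_lit 76) (nat_lit 0) (XT.lf (nat_lit 0) (nat_lit 1689131245629) (nat_lit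 76) (nat_lit 2954264656854) (nat_lit 152) (nat_lit 6804684715459) (nat_lit 23) (nat_lit 5) (nat_lit 24) (nat_lit 5) (nat_lit 25) (nat_lit 4) (nat_lit 405) (nat_lit 384) (nat_lit 231)) (XT.lf (nat_lit 0) (nat_lit 1593344786055) (nat_lit 76) (nat_lit 9212045215633) (nat_lit 76) (nat_lit 1833219074823) (nat_lit 22) (nat_lit 4) (nat_lit 23) (nat_lit 5) (nat_lit 23) (nat_lit 4) (nat_lit 406) (nat_lit 384) (nat_lit 230))) (XT.nd (nat_lit 78) (nat_lit 76) (nat_lit 0) (XT.lf (nat_lit 0) (nat_lit 1128419490674) (nat_lit 76) (nat_lit 2961602447746) (nat_lit 152) (nat_lit 9878194326066) (nat_lit 20) (nat_lit 5) (nat_lit 21) (nat_lit 5) (nat_lit 22) (nat_lit 4) (nat_lit 407) (nat_lit 384) (nat_lit 229)) (XT.lf (nat_lit 0) (nat_lit 173461919445) (nat_lit 76) (nat_lit 11058566810032) (nat_lit 76) (nat_lit 4226320382607) (nat_lit 19) (nat_lit 4) (nat_lit 20) (nat_lit 5) (nat_lit 20) (nat_lit 4) (nat_lit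 408) (nat_lit 384) (nat_lit 228)))))) (XT.nd (nat_lit 51558) (nat_lit 0) (nat_lit 1976) (XT.nd (nat_lit 51246) (nat_lit 0) (nat_lit 3724) (XT.nd (nat_lit 156) (nat_lit 228) (nat_lit 0) (XT.nd (nat_lit 78) (nat_lit 76) (nat_lit 0) (XT.lf (nat_lit 0) (nat_lit 2625050243964) (nat_lit 152) (nat_lit 1372141920281) (nat_lit 76) (nat_lit 13133200862494) (nat_lit 18) (nat_lit 5) (nat_lit 20) (nat_lit 5) (nat_lit 19) (nat_lit 4) (nat_lit 409) (nat_lit 384) (nat_lit 227)) (XT.lf (nat_lit 0) (nat_lit 10740099207360) (nat_lit 152) (nat_lit 3851519803682) (nat_lit 0) (nat_lit 4413945107368) (nat_lit 17) (nat_lit 5) (nat_lit 19) (nat_lit 4) (nat_lit 17) (nat_lit 4) (nat_lit 410) (nat_lit 384) (nat_lit 226))) (XT.nd (nat_lit 78) (nat_lit 152) (nat_lit 0) (XT.lf (nat_lit 0) (nat_lit 13654920586889) (nat_lit 76) (nat_lit 6897424606449) (nat_lit 76) (nat_lit 571270506246) (nat_lit 16) (nat_lit 4) (nat_lit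 17) (nat_lit 5) (nat_lit 17) (nat_lit 4) (nat_lit 411) (nat_lit 384) (nat_lit 225)) (XT.lf (nat_lit 0) (nat_lit 8299830629080) (nat_lit 152) (nat_lit 12766392443829) (nat_lit 0) (nat_lit 2442280536128) (nat_lit 14) (nat_lit 5) (nat_lit 16) (nat_lit 4) (nat_lit 14) (nat_lit 4) (nat_lit 412) (nat_lit 384) (nat_lit 224)))) (XT.nd (nat_lit 156) (nat_lit 456) (nat_lit 0) (XT.nd (nat_lit 78) (nat_lit 0) (nat_lit 0) (XT.lf (nat_lit 0) (nat_lit 1003858519417) (nat_lit 532) (nat_lit 45538671775) (nat_lit 532) (nat_lit 45538671775) (nat_lit 69) (nat_lit 3) (nat_lit 76) (nat_lit 3) (nat_lit 76) (nat_lit 5) (nat_lit 385) (nat_lit 385) (nat_lit 250)) (XT.lf (nat_lit 76) (nat_lit 2022088714064) (nat_lit 0) (nat_lit 184838407950) (nat_lit 532) (nat_lit 143294478928) (nat_lit 70) (nat_lit 5) (nat_lit 69) (nat_lit 3) (nat_lit 76) (nat_lit 5) (nat_lit 386) (nat_lit 385) (nat_lit 249))) (XT.nd (nat_lit 78)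 (nat_lit 0) (nat_lit 76) (XT.lf (nat_lit 0) (nat_lit 7563384053) (nat_lit 532) (nat_lit 553424870533) (nat_lit 608) (nat_lit 1965726540077) (nat_lit 63) (nat_lit 5) (nat_lit 70) (nat_lit 5) (nat_lit 71) (nat_lit 5) (nat_lit 387) (nat_lit 385) (nat_lit 248)) (XT.lf (nat_lit 0) (nat_lit 278328917361) (nat_lit 532) (nat_lit 765100523846) (nat_lit 608) (nat_lit 1677493681627) (nat_lit 64) (nat_lit 5) (nat_lit 71) (nat_lit 5) (nat_lit 72) (nat_lit 5) (nat_lit 388) (nat_lit 385) (nat_lit 247))))) (XT.nd (nat_lit 312) (nat_lit 988) (nat_lit 0) (XT.nd (nat_lit 156) (nat_lit 456) (nat_lit 0) (XT.nd (nat_lit 78) (nat_lit 456) (nat_lit 0) (XT.lf (nat_lit 0) (nat_lit 702651697824) (nat_lit 532) (nat_lit 953246780972) (nat_lit 76) (nat_lit 1279328828066) (nat_lit 65) (nat_lit 5) (nat_lit 72) (nat_lit 5) (nat_lit 66) (nat_lit 5) (nat_lit 389) (nat_lit 385) (nat_lit 246)) (XT.lf (nat_lit 0) (nat_lit 1311410781480)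 (nat_lit 532) (nat_lit 1110242278932) (nat_lit 76) (nat_lit 750361027195) (nat_lit 59) (nat_lit 5) (nat_lit 66) (nat_lit 5) (nat_lit 60) (nat_lit 5) (nat_lit 390) (nat_lit 385) (nat_lit 245))) (XT.nd (nat_lit 78) (nat_lit 228) (nat_lit 0) (XT.lf (nat_lit 0) (nat_lit 2140550948522) (nat_lit 304) (nat_lit 1227169266482) (nat_lit 76) (nat_lit 66273292793) (nat_lit 56) (nat_lit 5) (nat_lit 60) (nat_lit 5) (nat_lit 57) (nat_lit 5) (nat_lit 391) (nat_lit 385) (nat_lit 244)) (XT.lf (nat_lit 0) (nat_lit 2408674838626) (nat_lit 228) (nat_lit 843456005029) (nat_lit 304) (nat_lit 470493501119) (nat_lit 53) (nat_lit 5) (nat_lit 56) (nat_lit 5) (nat_lit 57) (nat_lit 5) (nat_lit 392) (nat_lit 385) (nat_lit 243)))) (XT.nd (nat_lit 156) (nat_lit 532) (nat_lit 0) (XT.nd (nat_lit 78) (nat_lit 228) (nat_lit 0) (XT.lf (nat_lit 0) (nat_lit 607062640618) (nat_lit 228) (nat_lit 1360861284000) (nat_lit 76) (nat_lit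 2073312568895) (nat_lit 50) (nat_lit 5) (nat_lit 53) (nat_lit 5) (nat_lit 51) (nat_lit 5) (nat_lit 393) (nat_lit 385) (nat_lit 242)) (XT.lf (nat_lit 0) (nat_lit 1982150327892) (nat_lit 304) (nat_lit 1357558825298) (nat_lit 76) (nat_lit 1053853135349) (nat_lit 47) (nat_lit 5) (nat_lit 51) (nat_lit 5) (nat_lit 48) (nat_lit 5) (nat_lit 394) (nat_lit 385) (nat_lit 241))) (XT.nd (nat_lit 78) (nat_lit 380) (nat_lit 0) (XT.lf (nat_lit 0) (nat_lit 3498807724437) (nat_lit 152) (nat_lit 243916865663) (nat_lit 228) (nat_lit 1041674488973) (nat_lit 45) (nat_lit 5) (nat_lit 47) (nat_lit 5) (nat_lit 48) (nat_lit 5) (nat_lit 395) (nat_lit 385) (nat_lit 240)) (XT.nd (nat_lit 78) (nat_lit 152) (nat_lit 0) (XT.lf (nat_lit 0) (nat_lit 730378810373) (nat_lit 228) (nat_lit 1177600523435) (nat_lit 76) (nat_lit 3306972016472) (nat_lit 42) (nat_lit 5) (nat_lit 45) (nat_lit 5) (nat_lit 43) (nat_lit 5) (nat_lit 396)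 (nat_lit 385) (nat_lit 239)) (XT.lf (nat_lit 0) (nat_lit 2911997419248) (nat_lit 228) (nat_lit 1010302954743) (nat_lit 76) (nat_lit 1769186684268) (nat_lit 40) (nat_lit 5) (nat_lit 43) (nat_lit 5) (nat_lit 41) (nat_lit 5) (nat_lit 397) (nat_lit 385) (nat_lit 238))))))))
noncomputable def xc119 : XT := (XT.nd (nat_lit 52416) (nat_lit 0) (nat_lit 684) (XT.nd (nat_lit 624) (nat_lit 608) (nat_lit 0) (XT.nd (nat_lit 312) (nat_lit 380) (nat_lit 0) (XT.nd (nat_lit 156) (nat_lit 456) (nat_lit 0) (XT.nd (nat_lit 78) (nat_lit 152) (nat_lit 0) (XT.lf (nat_lit 0) (nat_lit 5473483277652) (nat_lit 152) (nat_lit 166958016695) (nat_lit 228) (nat_lit 581495230097) (nat_lit 38) (nat_lit 5) (nat_lit 40) (nat_lit 5) (nat_lit 41) (nat_lit 5) (nat_lit 398) (nat_lit 385) (nat_lit 237)) (XT.lf (nat_lit 0) (nat_lit 2139668465712) (nat_lit 152) (nat_lit 483487920932) (nat_lit 76) (nat_lit 4181786386667) (nat_lit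 36) (nat_lit 5) (nat_lit 38) (nat_lit 5) (nat_lit 37) (nat_lit 5) (nat_lit 399) (nat_lit 385) (nat_lit 236))) (XT.nd (nat_lit 78) (nat_lit 304) (nat_lit 0) (XT.lf (nat_lit 0) (nat_lit 5486245667570) (nat_lit 228) (nat_lit 133242235248) (nat_lit 76) (nat_lit 1834570158247) (nat_lit 34) (nat_lit 5) (nat_lit 37) (nat_lit 5) (nat_lit 35) (nat_lit 4) (nat_lit 400) (nat_lit 385) (nat_lit 235)) (XT.lf (nat_lit 0) (nat_lit 278585146807) (nat_lit 152) (nat_lit 1104055705992) (nat_lit 228) (nat_lit 6791308432645) (nat_lit 30) (nat_lit 5) (nat_lit 32) (nat_lit 5) (nat_lit 33) (nat_lit 5) (nat_lit 401) (nat_lit 385) (nat_lit 234)))) (XT.nd (nat_lit 156) (nat_lit 152) (nat_lit 0) (XT.nd (nat_lit 78) (nat_lit 152) (nat_lit 0) (XT.lf (nat_lit 0) (nat_lit 684343463052) (nat_lit 76) (nat_lit 4783838590947) (nat_lit 152) (nat_lit 3501630264991) (nat_lit 29) (nat_lit 5) (nat_lit 30) (nat_lit 5) (nat_lit 31)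 (nat_lit 4) (nat_lit 402) (nat_lit 385) (nat_lit 233)) (XT.lf (nat_lit 0) (nat_lit 576937400855) (nat_lit 152) (nat_lit 8697632437789) (nat_lit 76) (nat_lit 585181801136) (nat_lit 27) (nat_lit 5) (nat_lit 29) (nat_lit 5) (nat_lit 28) (nat_lit 4) (nat_lit 403) (nat_lit 385) (nat_lit 232))) (XT.nd (nat_lit 78) (nat_lit 76) (nat_lit 0) (XT.lf (nat_lit 0) (nat_lit 1504546644840) (nat_lit 76) (nat_lit 3977284546062) (nat_lit 152) (nat_lit 5360324428038) (nat_lit 26) (nat_lit 5) (nat_lit 27) (nat_lit 5) (nat_lit 28) (nat_lit 4) (nat_lit 404) (nat_lit 385) (nat_lit 231)) (XT.lf (nat_lit 0) (nat_lit 1847056382501) (nat_lit 76) (nat_lit 9630479852525) (nat_lit 76) (nat_lit 465977785101) (nat_lit 25) (nat_lit 4) (nat_lit 26) (nat_lit 5) (nat_lit 26) (nat_lit 4) (nat_lit 405) (nat_lit 385) (nat_lit 230))))) (XT.nd (nat_lit 312) (nat_lit 152) (nat_lit 0) (XT.nd (nat_lit 156) (nat_lit 228) (nat_lit 0)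 (XT.nd (nat_lit 78) (nat_lit 76) (nat_lit 0) (XT.lf (nat_lit 0) (nat_lit 1942500949127) (nat_lit 76) (nat_lit 3397404347515) (nat_lit 152) (nat_lit 7825387413288) (nat_lit 23) (nat_lit 5) (nat_lit 24) (nat_lit 5) (nat_lit 25) (nat_lit 4) (nat_lit 406) (nat_lit 385) (nat_lit 229)) (XT.lf (nat_lit 0) (nat_lit 1832346519679) (nat_lit 76) (nat_lit 10593851990445) (nat_lit 76) (nat_lit 2108201927208) (nat_lit 22) (nat_lit 4) (nat_lit 23) (nat_lit 5) (nat_lit 23) (nat_lit 4) (nat_lit 407) (nat_lit 385) (nat_lit 228))) (XT.nd (nat_lit 78) (nat_lit 76) (nat_lit 0) (XT.lf (nat_lit 0) (nat_lit 1297682429066) (nat_lit 76) (nat_lit 3405842807775) (nat_lit 152) (nat_lit 11359923466706) (nat_lit 20) (nat_lit 5) (nat_lit 21) (nat_lit 5) (nat_lit 22) (nat_lit 4) (nat_lit 408) (nat_lit 385) (nat_lit 227)) (XT.lf (nat_lit 0) (nat_lit 199481221304) (nat_lit 76) (nat_lit 12717351824737) (nat_lit 76) (nat_lit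 4860268432284) (nat_lit 19) (nat_lit 4) (nat_lit 20) (nat_lit 5) (nat_lit 20) (nat_lit 4) (nat_lit 409) (nat_lit 385) (nat_lit 226)))) (XT.nd (nat_lit 51246) (nat_lit 0) (nat_lit 3496) (XT.nd (nat_lit 78) (nat_lit 76) (nat_lit 0) (XT.lf (nat_lit 0) (nat_lit 3018807786931) (nat_lit 152) (nat_lit 1577963195863) (nat_lit 76) (nat_lit 15103180997445) (nat_lit 18) (nat_lit 5) (nat_lit 20) (nat_lit 5) (nat_lit 19) (nat_lit 4) (nat_lit 410) (nat_lit 385) (nat_lit 225)) (XT.lf (nat_lit 0) (nat_lit 12351114094414) (nat_lit 152) (nat_lit 4429247762497) (nat_lit 0) (nat_lit 5076036878784) (nat_lit 17) (nat_lit 5) (nat_lit 19) (nat_lit 4) (nat_lit 17) (nat_lit 4) (nat_lit 411) (nat_lit 385) (nat_lit 224))) (XT.nd (nat_lit 78) (nat_lit 456) (nat_lit 0) (XT.lf (nat_lit 0) (nat_lit 1154437319437) (nat_lit 532) (nat_lit 52369460595) (nat_lit 532) (nat_lit 52369460595) (nat_lit 69) (nat_lit 3) (nat_lit 76)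 (nat_lit 3) (nat_lit 76) (nat_lit 5) (nat_lit 386) (nat_lit 386) (nat_lit 248)) (XT.nd (nat_lit 78) (nat_lit 456) (nat_lit 0) (XT.lf (nat_lit 76) (nat_lit 2325402043042) (nat_lit 0) (nat_lit 212564186248) (nat_lit 532) (nat_lit 164788608649) (nat_lit 70) (nat_lit 5) (nat_lit 69) (nat_lit 3) (nat_lit 76) (nat_lit 5) (nat_lit 387) (nat_lit 386) (nat_lit 247)) (XT.lf (nat_lit 0) (nat_lit 8697926660) (nat_lit 532) (nat_lit 636438575976) (nat_lit 608) (nat_lit 2260585508404) (nat_lit 63) (nat_lit 5) (nat_lit 70) (nat_lit 5) (nat_lit 71) (nat_lit 5) (nat_lit 388) (nat_lit 386) (nat_lit 246))))))) (XT.nd (nat_lit 624) (nat_lit 1444) (nat_lit 0) (XT.nd (nat_lit 312) (nat_lit 836) (nat_lit 0) (XT.nd (nat_lit 156) (nat_lit 608) (nat_lit 0) (XT.nd (nat_lit 78) (nat_lit 0) (nat_lit 76) (XT.lf (nat_lit 0) (nat_lit 320078285762) (nat_lit 532) (nat_lit 879865576726) (nat_lit 608) (nat_lit 1929117726291)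 (nat_lit 64) (nat_lit 5) (nat_lit 71) (nat_lit 5) (nat_lit 72) (nat_lit 5) (nat_lit 389) (nat_lit 386) (nat_lit 245)) (XT.lf (nat_lit 0) (nat_lit 808049479751) (nat_lit 532) (nat_lit 1096233772301) (nat_lit 76) (nat_lit 1471228148645) (nat_lit 65) (nat_lit 5) (nat_lit 72) (nat_lit 5) (nat_lit 66) (nat_lit 5) (nat_lit 390) (nat_lit 386) (nat_lit 244))) (XT.nd (nat_lit 78) (nat_lit 228) (nat_lit 0) (XT.lf (nat_lit 0) (nat_lit 1508122422954) (nat_lit 532) (nat_lit 1276778595169) (nat_lit 76) (nat_lit 862915180672) (nat_lit 59) (nat_lit 5) (nat_lit 66) (nat_lit 5) (nat_lit 60) (nat_lit 5) (nat_lit 391) (nat_lit 386) (nat_lit 243)) (XT.lf (nat_lit 0) (nat_lit 2461633612495) (nat_lit 304) (nat_lit 1411244631318) (nat_lit 76) (nat_lit 76214288406) (nat_lit 56) (nat_lit 5) (nat_lit 60) (nat_lit 5) (nat_lit 57) (nat_lit 5) (nat_lit 392) (nat_lit 386) (nat_lit 242)))) (XT.nd (nat_lit 156) (nat_lit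 380) (nat_lit 0) (XT.nd (nat_lit 78) (nat_lit 228) (nat_lit 0) (XT.lf (nat_lit 0) (nat_lit 2769976087428) (nat_lit 228) (nat_lit 969974402193) (nat_lit 304) (nat_lit 541067505305) (nat_lit 53) (nat_lit 5) (nat_lit 56) (nat_lit 5) (nat_lit 57) (nat_lit 5) (nat_lit 393) (nat_lit 386) (nat_lit 241)) (XT.lf (nat_lit 0) (nat_lit 698122054673) (nat_lit 228) (nat_lit 1564990453232) (nat_lit 76) (nat_lit 2384309458189) (nat_lit 50) (nat_lit 5) (nat_lit 53) (nat_lit 5) (nat_lit 51) (nat_lit 5) (nat_lit 394) (nat_lit 386) (nat_lit 240))) (XT.nd (nat_lit 78) (nat_lit 152) (nat_lit 0) (XT.lf (nat_lit 0) (nat_lit 2279472893336) (nat_lit 304) (nat_lit 1561192626532) (nat_lit 76) (nat_lit 1211931110644) (nat_lit 47) (nat_lit 5) (nat_lit 51) (nat_lit 5) (nat_lit 48) (nat_lit 5) (nat_lit 395) (nat_lit 386) (nat_lit 239)) (XT.lf (nat_lit 0) (nat_lit 4023628903755) (nat_lit 152) (nat_lit 280504389497) (nat_lit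 228) (nat_lit 1197925646505) (nat_lit 45) (nat_lit 5) (nat_lit 47) (nat_lit 5) (nat_lit 48) (nat_lit 5) (nat_lit 396) (nat_lit 386) (nat_lit 238))))) (XT.nd (nat_lit 312) (nat_lit 760) (nat_lit 0) (XT.nd (nat_lit 156) (nat_lit 304) (nat_lit 0) (XT.nd (nat_lit 78) (nat_lit 152) (nat_lit 0) (XT.lf (nat_lit 0) (nat_lit 839935645611) (nat_lit 228) (nat_lit 1354240581376) (nat_lit 76) (nat_lit 3803017824735) (nat_lit 42) (nat_lit 5) (nat_lit 45) (nat_lit 5) (nat_lit 43) (nat_lit 5) (nat_lit 397) (nat_lit 386) (nat_lit 237)) (XT.lf (nat_lit 0) (nat_lit 3348797044641) (nat_lit 228) (nat_lit 1161848378286) (nat_lit 76) (nat_lit 2034564693067) (nat_lit 40) (nat_lit 5) (nat_lit 43) (nat_lit 5) (nat_lit 41) (nat_lit 5) (nat_lit 398) (nat_lit 386) (nat_lit 236))) (XT.nd (nat_lit 78) (nat_lit 152) (nat_lit 0) (XT.lf (nat_lit 0) (nat_lit 6294505787304) (nat_lit 152) (nat_lit 192001712502) (nat_lit 228)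 (nat_lit 668719502396) (nat_lit 38) (nat_lit 5) (nat_lit 40) (nat_lit 5) (nat_lit 41) (nat_lit 5) (nat_lit 399) (nat_lit 386) (nat_lit 235)) (XT.lf (nat_lit 0) (nat_lit 2460618746228) (nat_lit 152) (nat_lit 556011091343) (nat_lit 76) (nat_lit 4809054350882) (nat_lit 36) (nat_lit 5) (nat_lit 38) (nat_lit 5) (nat_lit 37) (nat_lit 5) (nat_lit 400) (nat_lit 386) (nat_lit 234)))) (XT.nd (nat_lit 156) (nat_lit 304) (nat_lit 0) (XT.nd (nat_lit 78) (nat_lit 304) (nat_lit 0) (XT.lf (nat_lit 0) (nat_lit 6309182527523) (nat_lit 228) (nat_lit 153228553690) (nat_lit 76) (nat_lit 2109755688226) (nat_lit 34) (nat_lit 5) (nat_lit 37) (nat_lit 5) (nat_lit 35) (nat_lit 4) (nat_lit 401) (nat_lit 386) (nat_lit 233)) (XT.lf (nat_lit 0) (nat_lit 320372935568) (nat_lit 152) (nat_lit 1269664054694) (nat_lit 228) (nat_lit 7810004687233) (nat_lit 30) (nat_lit 5) (nat_lit 32) (nat_lit 5) (nat_lit 33) (nat_lit 5) (nat_lit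 402) (nat_lit 386) (nat_lit 232))) (XT.nd (nat_lit 78) (nat_lit 228) (nat_lit 0) (XT.lf (nat_lit 0) (nat_lit 786994998376) (nat_lit 76) (nat_lit 5501414372554) (nat_lit 152) (nat_lit 4026874795201) (nat_lit 29) (nat_lit 5) (nat_lit 30) (nat_lit 5) (nat_lit 31) (nat_lit 4) (nat_lit 403) (nat_lit 386) (nat_lit 231)) (XT.nd (nat_lit 78) (nat_lit 76) (nat_lit 0) (XT.lf (nat_lit 0) (nat_lit 663478019385) (nat_lit 152) (nat_lit 10002277287997) (nat_lit 76) (nat_lit 672959077693) (nat_lit 27) (nat_lit 5) (nat_lit 29) (nat_lit 5) (nat_lit 28) (nat_lit 4) (nat_lit 404) (nat_lit 386) (nat_lit 230)) (XT.lf (nat_lit 0) (nat_lit 1730228655718) (nat_lit 76) (nat_lit 4573877221465) (nat_lit 152) (nat_lit 6164373083985) (nat_lit 26) (nat_lit 5) (nat_lit 27) (nat_lit 5) (nat_lit 28) (nat_lit 4) (nat_lit 405) (nat_lit 386) (nat_lit 229))))))))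
noncomputable def xc120 : XT := (XT.nd (nat_lit 52416) (nat_lit 0) (nat_lit 76) (XT.nd (nat_lit 51792) (nat_lit 0) (nat_lit 2204) (XT.nd (nat_lit 312) (nat_lit 152) (nat_lit 0) (XT.nd (nat_lit 156) (nat_lit 228) (nat_lit 0) (XT.nd (nat_lit 78) (nat_lit 152) (nat_lit 0) (XT.lf (nat_lit 0) (nat_lit 2124114853248) (nat_lit 76) (nat_lit 11075051824138) (nat_lit 76) (nat_lit 535874445191) (nat_lit 25) (nat_lit 4) (nat_lit 26) (nat_lit 5) (nat_lit 26) (nat_lit 4) (nat_lit 406) (nat_lit 386) (nat_lit 228)) (XT.lf (nat_lit 0) (nat_lit 2233876104089) (nat_lit 76) (nat_lit 3907014993694) (nat_lit 152) (nat_lit 8999195518105) (nat_lit 23) (nat_lit 5) (nat_lit 24) (nat_lit 5) (nat_lit 25) (nat_lit 4) (nat_lit 407) (nat_lit 386) (nat_lit 227))) (XT.nd (nat_lit 78) (nat_lit 152) (nat_lit 0) (XT.lf (nat_lit 0) (nat_lit 2107198509513) (nat_lit 76) (nat_lit 12182929783316) (nat_lit 76) (nat_lit 2424432209606)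 (nat_lit 22) (nat_lit 4) (nat_lit 23) (nat_lit 5) (nat_lit 23) (nat_lit 4) (nat_lit 408) (nat_lit 386) (nat_lit 226)) (XT.lf (nat_lit 0) (nat_lit 1492334804610) (nat_lit 76) (nat_lit 3916719223547) (nat_lit 152) (nat_lit 13063911980459) (nat_lit 20) (nat_lit 5) (nat_lit 21) (nat_lit 5) (nat_lit 22) (nat_lit 4) (nat_lit 409) (nat_lit 386) (nat_lit 225)))) (XT.nd (nat_lit 51324) (nat_lit 0) (nat_lit 3876) (XT.nd (nat_lit 78) (nat_lit 76) (nat_lit 0) (XT.lf (nat_lit 0) (nat_lit 229403415043) (nat_lit 76) (nat_lit 14624954593305) (nat_lit 76) (nat_lit 5589308691293) (nat_lit 19) (nat_lit 4) (nat_lit 20) (nat_lit 5) (nat_lit 20) (nat_lit 4) (nat_lit 410) (nat_lit 386) (nat_lit 224)) (XT.lf (nat_lit 0) (nat_lit 3471628959790) (nat_lit 152) (nat_lit 1814657665821) (nat_lit 76) (nat_lit 17368658151279) (nat_lit 18) (nat_lit 5) (nat_lit 20) (nat_lit 5) (nat_lit 19) (nat_lit 4) (nat_lit 411) (nat_lit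 386) (nat_lit 223))) (XT.nd (nat_lit 78) (nat_lit 0) (nat_lit 0) (XT.lf (nat_lit 0) (nat_lit 1327602934070) (nat_lit 532) (nat_lit 60224870652) (nat_lit 532) (nat_lit 60224870652) (nat_lit 69) (nat_lit 3) (nat_lit 76) (nat_lit 3) (nat_lit 76) (nat_lit 5) (nat_lit 387) (nat_lit 387) (nat_lit 246)) (XT.lf (nat_lit 76) (nat_lit 2674212366035) (nat_lit 0) (nat_lit 244448827119) (nat_lit 532) (nat_lit 189506868099) (nat_lit 70) (nat_lit 5) (nat_lit 69) (nat_lit 3) (nat_lit 76) (nat_lit 5) (nat_lit 388) (nat_lit 387) (nat_lit 245))))) (XT.nd (nat_lit 312) (nat_lit 912) (nat_lit 0) (XT.nd (nat_lit 156) (nat_lit 304) (nat_lit 0) (XT.nd (nat_lit 78) (nat_lit 0) (nat_lit 76) (XT.lf (nat_lit 0) (nat_lit 10002642124) (nat_lit 532) (nat_lit 731904343366) (nat_lit 608) (nat_lit 2599673325074) (nat_lit 63) (nat_lit 5) (nat_lit 70) (nat_lit 5) (nat_lit 71) (nat_lit 5) (nat_lit 389) (nat_lit 387) (nat_lit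 244)) (XT.lf (nat_lit 0) (nat_lit 368090051912) (nat_lit 532) (nat_lit 1011845393804) (nat_lit 608) (nat_lit 2218485379503) (nat_lit 64) (nat_lit 5) (nat_lit 71) (nat_lit 5) (nat_lit 72) (nat_lit 5) (nat_lit 390) (nat_lit 387) (nat_lit 243))) (XT.nd (nat_lit 78) (nat_lit 456) (nat_lit 0) (XT.lf (nat_lit 0) (nat_lit 929256922321) (nat_lit 532) (nat_lit 1260668818624) (nat_lit 76) (nat_lit 1691912368196) (nat_lit 65) (nat_lit 5) (nat_lit 72) (nat_lit 5) (nat_lit 66) (nat_lit 5) (nat_lit 391) (nat_lit 387) (nat_lit 242)) (XT.lf (nat_lit 0) (nat_lit 1734340804734) (nat_lit 532) (nat_lit 1468295365085) (nat_lit 76) (nat_lit 992352457317) (nat_lit 59) (nat_lit 5) (nat_lit 66) (nat_lit 5) (nat_lit 60) (nat_lit 5) (nat_lit 392) (nat_lit 387) (nat_lit 241)))) (XT.nd (nat_lit 156) (nat_lit 456) (nat_lit 0) (XT.nd (nat_lit 78) (nat_lit 228) (nat_lit 0) (XT.lf (nat_lit 0) (nat_lit 2830878670774) (nat_lit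 304) (nat_lit 1622931307009) (nat_lit 76) (nat_lit 87646432948) (nat_lit 56) (nat_lit 5) (nat_lit 60) (nat_lit 5) (nat_lit 57) (nat_lit 5) (nat_lit 393) (nat_lit 387) (nat_lit 240)) (XT.lf (nat_lit 0) (nat_lit 3185472517941) (nat_lit 228) (nat_lit 1115470559807) (nat_lit 304) (nat_lit 622227615235) (nat_lit 53) (nat_lit 5) (nat_lit 56) (nat_lit 5) (nat_lit 57) (nat_lit 5) (nat_lit 394) (nat_lit 387) (nat_lit 239))) (XT.nd (nat_lit 78) (nat_lit 228) (nat_lit 0) (XT.lf (nat_lit 0) (nat_lit 802840376456) (nat_lit 228) (nat_lit 1799739003547) (nat_lit 76) (nat_lit 2741955879912) (nat_lit 50) (nat_lit 5) (nat_lit 53) (nat_lit 5) (nat_lit 51) (nat_lit 5) (nat_lit 395) (nat_lit 387) (nat_lit 238)) (XT.lf (nat_lit 0) (nat_lit 2621393839632) (nat_lit 304) (nat_lit 1795371503452) (nat_lit 76) (nat_lit 1393720781016) (nat_lit 47) (nat_lit 5) (nat_lit 51) (nat_lit 5) (nat_lit 48) (nat_lit 5) (nat_lit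 396) (nat_lit 387) (nat_lit 237)))))) (XT.nd (nat_lit 624) (nat_lit 760) (nat_lit 0) (XT.nd (nat_lit 312) (nat_lit 684) (nat_lit 0) (XT.nd (nat_lit 156) (nat_lit 304) (nat_lit 0) (XT.nd (nat_lit 78) (nat_lit 228) (nat_lit 0) (XT.lf (nat_lit 0) (nat_lit 4627173254934) (nat_lit 152) (nat_lit 322580043373) (nat_lit 228) (nat_lit 1377614481524) (nat_lit 45) (nat_lit 5) (nat_lit 47) (nat_lit 5) (nat_lit 48) (nat_lit 5) (nat_lit 397) (nat_lit 387) (nat_lit 236)) (XT.lf (nat_lit 0) (nat_lit 965926002798) (nat_lit 228) (nat_lit 1557376653025) (nat_lit 76) (nat_lit 4373470502826) (nat_lit 42) (nat_lit 5) (nat_lit 45) (nat_lit 5) (nat_lit 43) (nat_lit 5) (nat_lit 398) (nat_lit 387) (nat_lit 235))) (XT.nd (nat_lit 78) (nat_lit 152) (nat_lit 0) (XT.lf (nat_lit 0) (nat_lit 3851116610793) (nat_lit 228) (nat_lit 1336125620156) (nat_lit 76) (nat_lit 2339749401684) (nat_lit 40) (nat_lit 5) (nat_lit 43) (nat_lit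 5) (nat_lit 41) (nat_lit 5) (nat_lit 399) (nat_lit 387) (nat_lit 234)) (XT.lf (nat_lit 0) (nat_lit 7238681669014) (nat_lit 152) (nat_lit 220801964314) (nat_lit 228) (nat_lit 769027418518) (nat_lit 38) (nat_lit 5) (nat_lit 40) (nat_lit 5) (nat_lit 41) (nat_lit 5) (nat_lit 400) (nat_lit 387) (nat_lit 233)))) (XT.nd (nat_lit 156) (nat_lit 380) (nat_lit 0) (XT.nd (nat_lit 78) (nat_lit 152) (nat_lit 0) (XT.lf (nat_lit 0) (nat_lit 2829711566221) (nat_lit 152) (nat_lit 639412741639) (nat_lit 76) (nat_lit 5530412508213) (nat_lit 36) (nat_lit 5) (nat_lit 38) (nat_lit 5) (nat_lit 37) (nat_lit 5) (nat_lit 401) (nat_lit 387) (nat_lit 232)) (XT.lf (nat_lit 0) (nat_lit 7255559914074) (nat_lit 228) (nat_lit 176212824006) (nat_lit 76) (nat_lit 2426219046179) (nat_lit 34) (nat_lit 5) (nat_lit 37) (nat_lit 5) (nat_lit 35) (nat_lit 4) (nat_lit 402) (nat_lit 387) (nat_lit 231))) (XT.nd (nat_lit 78) (nat_lit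 76) (nat_lit 0) (XT.lf (nat_lit 0) (nat_lit 368428888562) (nat_lit 152) (nat_lit 1460113657456) (nat_lit 228) (nat_lit 8981505382523) (nat_lit 30) (nat_lit 5) (nat_lit 32) (nat_lit 5) (nat_lit 33) (nat_lit 5) (nat_lit 403) (nat_lit 387) (nat_lit 230)) (XT.lf (nat_lit 0) (nat_lit 905044260129) (nat_lit 76) (nat_lit 6326626523117) (nat_lit 152) (nat_lit 4630906007268) (nat_lit 29) (nat_lit 5) (nat_lit 30) (nat_lit 5) (nat_lit 31) (nat_lit 4) (nat_lit 404) (nat_lit 387) (nat_lit 229))))) (XT.nd (nat_lit 312) (nat_lit 304) (nat_lit 0) (XT.nd (nat_lit 156) (nat_lit 228) (nat_lit 0) (XT.nd (nat_lit 78) (nat_lit 76) (nat_lit 0) (XT.lf (nat_lit 0) (nat_lit 762999728646) (nat_lit 152) (nat_lit 11502618869507) (nat_lit 76) (nat_lit 773902944175) (nat_lit 27) (nat_lit 5) (nat_lit 29) (nat_lit 5) (nat_lit 28) (nat_lit 4) (nat_lit 405) (nat_lit 387) (nat_lit 228)) (XT.lf (nat_lit 0) (nat_lit 1989762964777)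 (nat_lit 76) (nat_lit 5259958799765) (nat_lit 152) (nat_lit 7089029040338) (nat_lit 26) (nat_lit 5) (nat_lit 27) (nat_lit 5) (nat_lit 28) (nat_lit 4) (nat_lit 406) (nat_lit 387) (nat_lit 227))) (XT.nd (nat_lit 78) (nat_lit 152) (nat_lit 0) (XT.lf (nat_lit 0) (nat_lit 2442732091347) (nat_lit 76) (nat_lit 12736309593021) (nat_lit 76) (nat_lit 616255606165) (nat_lit 25) (nat_lit 4) (nat_lit 26) (nat_lit 5) (nat_lit 26) (nat_lit 4) (nat_lit 407) (nat_lit 387) (nat_lit 226)) (XT.lf (nat_lit 0) (nat_lit 2568957529224) (nat_lit 76) (nat_lit 4493067238250) (nat_lit 152) (nat_lit 10349074840394) (nat_lit 23) (nat_lit 5) (nat_lit 24) (nat_lit 5) (nat_lit 25) (nat_lit 4) (nat_lit 408) (nat_lit 387) (nat_lit 225)))) (XT.nd (nat_lit 156) (nat_lit 76) (nat_lit 0) (XT.nd (nat_lit 78) (nat_lit 152) (nat_lit 0) (XT.lf (nat_lit 0) (nat_lit 2423278294926) (nat_lit 76) (nat_lit 14010369246507) (nat_lit 76)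 (nat_lit 2788097035994) (nat_lit 22) (nat_lit 4) (nat_lit 23) (nat_lit 5) (nat_lit 23) (nat_lit 4) (nat_lit 409) (nat_lit 387) (nat_lit 224)) (XT.lf (nat_lit 0) (nat_lit 1716185033758) (nat_lit 76) (nat_lit 4504227103000) (nat_lit 152) (nat_lit 15023498772799) (nat_lit 20) (nat_lit 5) (nat_lit 21) (nat_lit 5) (nat_lit 22) (nat_lit 4) (nat_lit 410) (nat_lit 387) (nat_lit 223))) (XT.nd (nat_lit 51324) (nat_lit 0) (nat_lit 3800) (XT.lf (nat_lit 0) (nat_lit 263813935272) (nat_lit 76) (nat_lit 16818697778413) (nat_lit 76) (nat_lit 6427704990576) (nat_lit 19) (nat_lit 4) (nat_lit 20) (nat_lit 5) (nat_lit 20) (nat_lit 4) (nat_lit 411) (nat_lit 387) (nat_lit 222)) (XT.nd (nat_lit 78) (nat_lit 0) (nat_lit 0) (XT.lf (nat_lit 0) (nat_lit 1526743386820) (nat_lit 532) (nat_lit 69258594420) (nat_lit 532) (nat_lit 69258594420) (nat_lit 69) (nat_lit 3) (nat_lit 76) (nat_lit 3) (nat_lit 76) (nat_lit 5) (nat_lit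 388) (nat_lit 388) (nat_lit 244)) (XT.lf (nat_lit 76) (nat_lit 3075344233444) (nat_lit 0) (nat_lit 281116160967) (nat_lit 532) (nat_lit 217932874233) (nat_lit 70) (nat_lit 5) (nat_lit 69) (nat_lit 3) (nat_lit 76) (nat_lit 5) (nat_lit 389) (nat_lit 388) (nat_lit 243))))))))
noncomputable def xc121 : XT := (XT.nd (nat_lit 1248) (nat_lit 532) (nat_lit 0) (XT.nd (nat_lit 624) (nat_lit 1368) (nat_lit 0) (XT.nd (nat_lit 312) (nat_lit 912) (nat_lit 0) (XT.nd (nat_lit 156) (nat_lit 304) (nat_lit 0) (XT.nd (nat_lit 78) (nat_lit 0) (nat_lit 76) (XT.lf (nat_lit 0) (nat_lit 11503058454) (nat_lit 532) (nat_lit 841689980500) (nat_lit 608) (nat_lit 2989624316582) (nat_lit 63) (nat_lit 5) (nat_lit 70) (nat_lit 5) (nat_lit 71) (nat_lit 5) (nat_lit 390) (nat_lit 388) (nat_lit 242)) (XT.lf (nat_lit 0) (nat_lit 423303577307) (nat_lit 532) (nat_lit 1163622188182) (nat_lit 608) (nat_lit 2551258182095) (nat_lit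 64) (nat_lit 5) (nat_lit 71) (nat_lit 5) (nat_lit 72) (nat_lit 5) (nat_lit 391) (nat_lit 388) (nat_lit 241))) (XT.nd (nat_lit 78) (nat_lit 456) (nat_lit 0) (XT.lf (nat_lit 0) (nat_lit 1068645476251) (nat_lit 532) (nat_lit 1449769126656) (nat_lit 76) (nat_lit 1945699221350) (nat_lit 65) (nat_lit 5) (nat_lit 72) (nat_lit 5) (nat_lit 66) (nat_lit 5) (nat_lit 392) (nat_lit 388) (nat_lit 240)) (XT.lf (nat_lit 0) (nat_lit 1994491939310) (nat_lit 532) (nat_lit 1688539655210) (nat_lit 76) (nat_lit 1141205325570) (nat_lit 59) (nat_lit 5) (nat_lit 66) (nat_lit 5) (nat_lit 60) (nat_lit 5) (nat_lit 393) (nat_lit 388) (nat_lit 239)))) (XT.nd (nat_lit 156) (nat_lit 456) (nat_lit 0) (XT.nd (nat_lit 78) (nat_lit 228) (nat_lit 0) (XT.lf (nat_lit 0) (nat_lit 3255510483794) (nat_lit 304) (nat_lit 1866370988688) (nat_lit 76) (nat_lit 100793398859) (nat_lit 56) (nat_lit 5) (nat_lit 60) (nat_lit 5) (nat_lit 57)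 (nat_lit 5) (nat_lit 394) (nat_lit 388) (nat_lit 238)) (XT.lf (nat_lit 0) (nat_lit 3663293408787) (nat_lit 228) (nat_lit 1282791141725) (nat_lit 304) (nat_lit 715561745524) (nat_lit 53) (nat_lit 5) (nat_lit 56) (nat_lit 5) (nat_lit 57) (nat_lit 5) (nat_lit 395) (nat_lit 388) (nat_lit 237))) (XT.nd (nat_lit 78) (nat_lit 228) (nat_lit 0) (XT.lf (nat_lit 0) (nat_lit 923266443195) (nat_lit 228) (nat_lit 2069699840719) (nat_lit 76) (nat_lit 3153249264163) (nat_lit 50) (nat_lit 5) (nat_lit 53) (nat_lit 5) (nat_lit 51) (nat_lit 5) (nat_lit 396) (nat_lit 388) (nat_lit 236)) (XT.lf (nat_lit 0) (nat_lit 3014602924874) (nat_lit 304) (nat_lit 2064677216070) (nat_lit 76) (nat_lit 1602778901024) (nat_lit 47) (nat_lit 5) (nat_lit 51) (nat_lit 5) (nat_lit 48) (nat_lit 5) (nat_lit 397) (nat_lit 388) (nat_lit 235))))) (XT.nd (nat_lit 312) (nat_lit 684) (nat_lit 0) (XT.nd (nat_lit 156) (nat_lit 304) (nat_lit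 0) (XT.nd (nat_lit 78) (nat_lit 228) (nat_lit 0) (XT.lf (nat_lit 0) (nat_lit 5321249254981) (nat_lit 152) (nat_lit 370967046440) (nat_lit 228) (nat_lit 1584256644711) (nat_lit 45) (nat_lit 5) (nat_lit 47) (nat_lit 5) (nat_lit 48) (nat_lit 5) (nat_lit 398) (nat_lit 388) (nat_lit 234)) (XT.lf (nat_lit 0) (nat_lit 1110814911041) (nat_lit 228) (nat_lit 1790983139215) (nat_lit 76) (nat_lit 5029491081562) (nat_lit 42) (nat_lit 5) (nat_lit 45) (nat_lit 5) (nat_lit 43) (nat_lit 5) (nat_lit 399) (nat_lit 388) (nat_lit 233))) (XT.nd (nat_lit 78) (nat_lit 152) (nat_lit 0) (XT.lf (nat_lit 0) (nat_lit 4428784109563) (nat_lit 228) (nat_lit 1536544451933) (nat_lit 76) (nat_lit 2690711815457) (nat_lit 40) (nat_lit 5) (nat_lit 43) (nat_lit 5) (nat_lit 41) (nat_lit 5) (nat_lit 400) (nat_lit 388) (nat_lit 232)) (XT.lf (nat_lit 0) (nat_lit 8324483929660) (nat_lit 152) (nat_lit 253922255133) (nat_lit 228) (nat_lit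 884381524311) (nat_lit 38) (nat_lit 5) (nat_lit 40) (nat_lit 5) (nat_lit 41) (nat_lit 5) (nat_lit 401) (nat_lit 388) (nat_lit 231)))) (XT.nd (nat_lit 156) (nat_lit 380) (nat_lit 0) (XT.nd (nat_lit 78) (nat_lit 152) (nat_lit 0) (XT.lf (nat_lit 0) (nat_lit 3254168307249) (nat_lit 152) (nat_lit 735324642749) (nat_lit 76) (nat_lit 6359974387998) (nat_lit 36) (nat_lit 5) (nat_lit 38) (nat_lit 5) (nat_lit 37) (nat_lit 5) (nat_lit 402) (nat_lit 388) (nat_lit 230)) (XT.lf (nat_lit 0) (nat_lit 8343893906798) (nat_lit 228) (nat_lit 202644737975) (nat_lit 76) (nat_lit 2790151906674) (nat_lit 34) (nat_lit 5) (nat_lit 37) (nat_lit 5) (nat_lit 35) (nat_lit 4) (nat_lit 403) (nat_lit 388) (nat_lit 229))) (XT.nd (nat_lit 78) (nat_lit 76) (nat_lit 0) (XT.lf (nat_lit 0) (nat_lit 423693231418) (nat_lit 152) (nat_lit 1679130701959) (nat_lit 228) (nat_lit 10328731184007) (nat_lit 30) (nat_lit 5) (nat_lit 32)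 (nat_lit 5) (nat_lit 33) (nat_lit 5) (nat_lit 404) (nat_lit 388) (nat_lit 228)) (XT.lf (nat_lit 0) (nat_lit 1040800908220) (nat_lit 76) (nat_lit 7275620497562) (nat_lit 152) (nat_lit 5325541902904) (nat_lit 29) (nat_lit 5) (nat_lit 30) (nat_lit 5) (nat_lit 31) (nat_lit 4) (nat_lit 405) (nat_lit 388) (nat_lit 227)))))) (XT.nd (nat_lit 52026) (nat_lit 0) (nat_lit 1520) (XT.nd (nat_lit 312) (nat_lit 76) (nat_lit 0) (XT.nd (nat_lit 156) (nat_lit 228) (nat_lit 0) (XT.nd (nat_lit 78) (nat_lit 76) (nat_lit 0) (XT.lf (nat_lit 0) (nat_lit 877449692746) (nat_lit 152) (nat_lit 13228011691093) (nat_lit 76) (nat_lit 889988389452) (nat_lit 27) (nat_lit 5) (nat_lit 29) (nat_lit 5) (nat_lit 28) (nat_lit 4) (nat_lit 406) (nat_lit 388) (nat_lit 226)) (XT.lf (nat_lit 0) (nat_lit 2288227417585) (nat_lit 76) (nat_lit 6048952616010) (nat_lit 152) (nat_lit 8152383391667) (nat_lit 26) (nat_lit 5) (nat_lit 27) (nat_lit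 5) (nat_lit 28) (nat_lit 4) (nat_lit 407) (nat_lit 388) (nat_lit 225))) (XT.nd (nat_lit 78) (nat_lit 152) (nat_lit 0) (XT.lf (nat_lit 0) (nat_lit 2809141912694) (nat_lit 76) (nat_lit 14646756028392) (nat_lit 76) (nat_lit 708693942702) (nat_lit 25) (nat_lit 4) (nat_lit 26) (nat_lit 5) (nat_lit 26) (nat_lit 4) (nat_lit 408) (nat_lit 388) (nat_lit 224)) (XT.lf (nat_lit 0) (nat_lit 2954301165807) (nat_lit 76) (nat_lit 5167027320586) (nat_lit 152) (nat_lit 11901436062351) (nat_lit 23) (nat_lit 5) (nat_lit 24) (nat_lit 5) (nat_lit 25) (nat_lit 4) (nat_lit 409) (nat_lit 388) (nat_lit 223)))) (XT.nd (nat_lit 51558) (nat_lit 0) (nat_lit 3116) (XT.nd (nat_lit 51480) (nat_lit 0) (nat_lit 3572) (XT.lf (nat_lit 0) (nat_lit 2786770045959) (nat_lit 76) (nat_lit 16111924630227) (nat_lit 76) (nat_lit 3206311587572) (nat_lit 22) (nat_lit 4) (nat_lit 23) (nat_lit 5) (nat_lit 23) (nat_lit 4) (nat_lit 410) (nat_lit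 388) (nat_lit 222)) (XT.lf (nat_lit 0) (nat_lit 1755754904401) (nat_lit 532) (nat_lit 79647378418) (nat_lit 532) (nat_lit 79647378418) (nat_lit 69) (nat_lit 3) (nat_lit 76) (nat_lit 3) (nat_lit 76) (nat_lit 5) (nat_lit 389) (nat_lit 389) (nat_lit 242))) (XT.nd (nat_lit 78) (nat_lit 456) (nat_lit 0) (XT.lf (nat_lit 76) (nat_lit 3536645877916) (nat_lit 0) (nat_lit 323283592507) (nat_lit 532) (nat_lit 250622787159) (nat_lit 70) (nat_lit 5) (nat_lit 69) (nat_lit 3) (nat_lit 76) (nat_lit 5) (nat_lit 390) (nat_lit 389) (nat_lit 241)) (XT.lf (nat_lit 0) (nat_lit 13228532354) (nat_lit 532) (nat_lit 967943466708) (nat_lit 608) (nat_lit 3438067958586) (nat_lit 63) (nat_lit 5) (nat_lit 70) (nat_lit 5) (nat_lit 71) (nat_lit 5) (nat_lit 391) (nat_lit 389) (nat_lit 240))))) (XT.nd (nat_lit 312) (nat_lit 1064) (nat_lit 0) (XT.nd (nat_lit 156) (nat_lit 608) (nat_lit 0) (XT.nd (nat_lit 78) (nat_lit 0) (nat_lit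 76) (XT.lf (nat_lit 0) (nat_lit 486799127217) (nat_lit 532) (nat_lit 1338165505299) (nat_lit 608) (nat_lit 2933946906132) (nat_lit 64) (nat_lit 5) (nat_lit 71) (nat_lit 5) (nat_lit 72) (nat_lit 5) (nat_lit 392) (nat_lit 389) (nat_lit 239)) (XT.lf (nat_lit 0) (nat_lit 1228942309471) (nat_lit 532) (nat_lit 1667234484493) (nat_lit 76) (nat_lit 2237554102982) (nat_lit 65) (nat_lit 5) (nat_lit 72) (nat_lit 5) (nat_lit 66) (nat_lit 5) (nat_lit 393) (nat_lit 389) (nat_lit 238))) (XT.nd (nat_lit 78) (nat_lit 228) (nat_lit 0) (XT.lf (nat_lit 0) (nat_lit 2293665740691) (nat_lit 532) (nat_lit 1941820592422) (nat_lit 76) (nat_lit 1312386124145) (nat_lit 59) (nat_lit 5) (nat_lit 66) (nat_lit 5) (nat_lit 60) (nat_lit 5) (nat_lit 394) (nat_lit 389) (nat_lit 237)) (XT.lf (nat_lit 0) (nat_lit 3743837065742) (nat_lit 304) (nat_lit 2146326626124) (nat_lit 76) (nat_lit 115912409421) (nat_lit 56) (nat_lit 5)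 (nat_lit 60) (nat_lit 5) (nat_lit 57) (nat_lit 5) (nat_lit 395) (nat_lit 389) (nat_lit 236)))) (XT.nd (nat_lit 156) (nat_lit 608) (nat_lit 0) (XT.nd (nat_lit 78) (nat_lit 228) (nat_lit 0) (XT.lf (nat_lit 0) (nat_lit 4212787430053) (nat_lit 228) (nat_lit 1475209811432) (nat_lit 304) (nat_lit 822895998281) (nat_lit 53) (nat_lit 5) (nat_lit 56) (nat_lit 5) (nat_lit 57) (nat_lit 5) (nat_lit 396) (nat_lit 389) (nat_lit 235)) (XT.lf (nat_lit 0) (nat_lit 1061756417440) (nat_lit 228) (nat_lit 2380154806724) (nat_lit 76) (nat_lit 3626236655499) (nat_lit 50) (nat_lit 5) (nat_lit 53) (nat_lit 5) (nat_lit 51) (nat_lit 5) (nat_lit 397) (nat_lit 389) (nat_lit 234))) (XT.nd (nat_lit 78) (nat_lit 380) (nat_lit 0) (XT.lf (nat_lit 0) (nat_lit 3466793370635) (nat_lit 304) (nat_lit 2374378788727) (nat_lit 76) (nat_lit 1843195738336) (nat_lit 47) (nat_lit 5) (nat_lit 51) (nat_lit 5) (nat_lit 48) (nat_lit 5)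 (nat_lit 398) (nat_lit 389) (nat_lit 233)) (XT.nd (nat_lit 78) (nat_lit 228) (nat_lit 0) (XT.lf (nat_lit 0) (nat_lit 6119436652157) (nat_lit 152) (nat_lit 426612100805) (nat_lit 228) (nat_lit 1821895134581) (nat_lit 45) (nat_lit 5) (nat_lit 47) (nat_lit 5) (nat_lit 48) (nat_lit 5) (nat_lit 399) (nat_lit 389) (nat_lit 232)) (XT.lf (nat_lit 0) (nat_lit 1277437153612) (nat_lit 228) (nat_lit 2059630601203) (nat_lit 76) (nat_lit 5783914746301) (nat_lit 42) (nat_lit 5) (nat_lit 45) (nat_lit 5) (nat_lit 43) (nat_lit 5) (nat_lit 400) (nat_lit 389) (nat_lit 231))))))))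
noncomputable def xc122 : XT := (XT.nd (nat_lit 52728) (nat_lit 0) (nat_lit 228) (XT.nd (nat_lit 624) (nat_lit 228) (nat_lit 0) (XT.nd (nat_lit 312) (nat_lit 608) (nat_lit 0) (XT.nd (nat_lit 156) (nat_lit 304) (nat_lit 0) (XT.nd (nat_lit 78) (nat_lit 152) (nat_lit 0) (XT.lf (nat_lit 0) (nat_lit 5093101731404) (nat_lit 228) (nat_lit 1767026111219) (nat_lit 76) (nat_lit 3094318590438) (nat_lit 40) (nat_lit 5) (nat_lit 43) (nat_lit 5) (nat_lit 41) (nat_lit 5) (nat_lit 401) (nat_lit 389) (nat_lit 230)) (XT.lf (nat_lit 0) (nat_lit 9573156526893) (nat_lit 152) (nat_lit 292010590507) (nat_lit 228) (nat_lit 1017038747676) (nat_lit 38) (nat_lit 5) (nat_lit 40) (nat_lit 5) (nat_lit 41) (nat_lit 5) (nat_lit 402) (nat_lit 389) (nat_lit 229))) (XT.nd (nat_lit 78) (nat_lit 152) (nat_lit 0) (XT.lf (nat_lit 0) (nat_lit 3742293557944) (nat_lit 152) (nat_lit 845623331496) (nat_lit 76) (nat_lit 7313970548885)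 (nat_lit 36) (nat_lit 5) (nat_lit 38) (nat_lit 5) (nat_lit 37) (nat_lit 5) (nat_lit 403) (nat_lit 389) (nat_lit 228)) (XT.lf (nat_lit 0) (nat_lit 9595477997062) (nat_lit 228) (nat_lit 233041441389) (nat_lit 76) (nat_lit 3208674695373) (nat_lit 34) (nat_lit 5) (nat_lit 37) (nat_lit 5) (nat_lit 35) (nat_lit 4) (nat_lit 404) (nat_lit 389) (nat_lit 227)))) (XT.nd (nat_lit 156) (nat_lit 228) (nat_lit 0) (XT.nd (nat_lit 78) (nat_lit 76) (nat_lit 0) (XT.lf (nat_lit 0) (nat_lit 487247223368) (nat_lit 152) (nat_lit 1931000304141) (nat_lit 228) (nat_lit 11878040857151) (nat_lit 30) (nat_lit 5) (nat_lit 32) (nat_lit 5) (nat_lit 33) (nat_lit 5) (nat_lit 405) (nat_lit 389) (nat_lit 226)) (XT.lf (nat_lit 0) (nat_lit 1196921051312) (nat_lit 76) (nat_lit 8366963569155) (nat_lit 152) (nat_lit 6124373184216) (nat_lit 29) (nat_lit 5) (nat_lit 30) (nat_lit 5) (nat_lit 31) (nat_lit 4) (nat_lit 406) (nat_lit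 389) (nat_lit 225))) (XT.nd (nat_lit 78) (nat_lit 76) (nat_lit 0) (XT.lf (nat_lit 0) (nat_lit 1009067150290) (nat_lit 152) (nat_lit 15212213438073) (nat_lit 76) (nat_lit 1023486650631) (nat_lit 27) (nat_lit 5) (nat_lit 29) (nat_lit 5) (nat_lit 28) (nat_lit 4) (nat_lit 407) (nat_lit 389) (nat_lit 224)) (XT.lf (nat_lit 0) (nat_lit 2631461536341) (nat_lit 76) (nat_lit 6956295505599) (nat_lit 152) (nat_lit 9375240896847) (nat_lit 26) (nat_lit 5) (nat_lit 27) (nat_lit 5) (nat_lit 28) (nat_lit 4) (nat_lit 408) (nat_lit 389) (nat_lit 223))))) (XT.nd (nat_lit 51792) (nat_lit 0) (nat_lit 2736) (XT.nd (nat_lit 51636) (nat_lit 0) (nat_lit 3496) (XT.nd (nat_lit 78) (nat_lit 152) (nat_lit 0) (XT.lf (nat_lit 0) (nat_lit 3230513205379) (nat_lit 76) (nat_lit 16843769429942) (nat_lit 76) (nat_lit 814998030789) (nat_lit 25) (nat_lit 4) (nat_lit 26) (nat_lit 5) (nat_lit 26) (nat_lit 4) (nat_lit 409) (nat_lit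 389) (nat_lit 222)) (XT.lf (nat_lit 0) (nat_lit 3397446346122) (nat_lit 76) (nat_lit 5942081416102) (nat_lit 152) (nat_lit 13686651468601) (nat_lit 23) (nat_lit 5) (nat_lit 24) (nat_lit 5) (nat_lit 25) (nat_lit 4) (nat_lit 410) (nat_lit 389) (nat_lit 221))) (XT.nd (nat_lit 78) (nat_lit 0) (nat_lit 0) (XT.lf (nat_lit 0) (nat_lit 2019118147289) (nat_lit 532) (nat_lit 91594481276) (nat_lit 532) (nat_lit 91594481276) (nat_lit 69) (nat_lit 3) (nat_lit 76) (nat_lit 3) (nat_lit 76) (nat_lit 5) (nat_lit 390) (nat_lit 390) (nat_lit 240)) (XT.lf (nat_lit 76) (nat_lit 4067142766752) (nat_lit 0) (nat_lit 371776136975) (nat_lit 532) (nat_lit 288216191464) (nat_lit 70) (nat_lit 5) (nat_lit 69) (nat_lit 3) (nat_lit 76) (nat_lit 5) (nat_lit 391) (nat_lit 390) (nat_lit 239)))) (XT.nd (nat_lit 156) (nat_lit 304) (nat_lit 0) (XT.nd (nat_lit 78) (nat_lit 0) (nat_lit 76) (XT.lf (nat_lit 0) (nat_lit 15212823649)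 (nat_lit 532) (nat_lit 1113134978497) (nat_lit 608) (nat_lit 3953778148227) (nat_lit 63) (nat_lit 5) (nat_lit 70) (nat_lit 5) (nat_lit 71) (nat_lit 5) (nat_lit 392) (nat_lit 390) (nat_lit 238)) (XT.lf (nat_lit 0) (nat_lit 559819006367) (nat_lit 532) (nat_lit 1538890322694) (nat_lit 608) (nat_lit 3374038939573) (nat_lit 64) (nat_lit 5) (nat_lit 71) (nat_lit 5) (nat_lit 72) (nat_lit 5) (nat_lit 393) (nat_lit 390) (nat_lit 237))) (XT.nd (nat_lit 78) (nat_lit 456) (nat_lit 0) (XT.lf (nat_lit 0) (nat_lit 1413283664800) (nat_lit 532) (nat_lit 1917319648727) (nat_lit 76) (nat_lit 2573187217242) (nat_lit 65) (nat_lit 5) (nat_lit 72) (nat_lit 5) (nat_lit 66) (nat_lit 5) (nat_lit 394) (nat_lit 390) (nat_lit 236)) (XT.lf (nat_lit 0) (nat_lit 2637715609723) (nat_lit 532) (nat_lit 2233093672916) (nat_lit 76) (nat_lit 1509244042570) (nat_lit 59) (nat_lit 5) (nat_lit 66) (nat_lit 5) (nat_lit 60) (nat_lit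 5) (nat_lit 395) (nat_lit 390) (nat_lit 235)))))) (XT.nd (nat_lit 624) (nat_lit 912) (nat_lit 0) (XT.nd (nat_lit 312) (nat_lit 684) (nat_lit 0) (XT.nd (nat_lit 156) (nat_lit 456) (nat_lit 0) (XT.nd (nat_lit 78) (nat_lit 228) (nat_lit 0) (XT.lf (nat_lit 0) (nat_lit 4305412632696) (nat_lit 304) (nat_lit 2468275611826) (nat_lit 76) (nat_lit 133299271388) (nat_lit 56) (nat_lit 5) (nat_lit 60) (nat_lit 5) (nat_lit 57) (nat_lit 5) (nat_lit 396) (nat_lit 390) (nat_lit 234)) (XT.lf (nat_lit 0) (nat_lit 4844705552082) (nat_lit 228) (nat_lit 1696491281973) (nat_lit 304) (nat_lit 946330391165) (nat_lit 53) (nat_lit 5) (nat_lit 56) (nat_lit 5) (nat_lit 57) (nat_lit 5) (nat_lit 397) (nat_lit 390) (nat_lit 233))) (XT.nd (nat_lit 78) (nat_lit 228) (nat_lit 0) (XT.lf (nat_lit 0) (nat_lit 1221019885928) (nat_lit 228) (nat_lit 2737178020094) (nat_lit 76) (nat_lit 4170172155119) (nat_lit 50) (nat_lit 5) (nat_lit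 53) (nat_lit 5) (nat_lit 51) (nat_lit 5) (nat_lit 398) (nat_lit 390) (nat_lit 232)) (XT.lf (nat_lit 0) (nat_lit 3986812381546) (nat_lit 304) (nat_lit 2730535599660) (nat_lit 76) (nat_lit 2119675100718) (nat_lit 47) (nat_lit 5) (nat_lit 51) (nat_lit 5) (nat_lit 48) (nat_lit 5) (nat_lit 399) (nat_lit 390) (nat_lit 231)))) (XT.nd (nat_lit 156) (nat_lit 304) (nat_lit 0) (XT.nd (nat_lit 78) (nat_lit 228) (nat_lit 0) (XT.lf (nat_lit 0) (nat_lit 7037352156732) (nat_lit 152) (nat_lit 490603913960) (nat_lit 228) (nat_lit 2095179399599) (nat_lit 45) (nat_lit 5) (nat_lit 47) (nat_lit 5) (nat_lit 48) (nat_lit 5) (nat_lit 400) (nat_lit 390) (nat_lit 230)) (XT.lf (nat_lit 0) (nat_lit 1469052731127) (nat_lit 228) (nat_lit 2368575184658) (nat_lit 76) (nat_lit 6651501960140) (nat_lit 42) (nat_lit 5) (nat_lit 45) (nat_lit 5) (nat_lit 43) (nat_lit 5) (nat_lit 401) (nat_lit 390) (nat_lit 229))) (XT.nd (nat_lit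 78) (nat_lit 152) (nat_lit 0) (XT.lf (nat_lit 0) (nat_lit 5857066995203) (nat_lit 228) (nat_lit 2032080021472) (nat_lit 76) (nat_lit 3558466381017) (nat_lit 40) (nat_lit 5) (nat_lit 43) (nat_lit 5) (nat_lit 41) (nat_lit 5) (nat_lit 402) (nat_lit 390) (nat_lit 228)) (XT.lf (nat_lit 0) (nat_lit 11009130011813) (nat_lit 152) (nat_lit 335812176895) (nat_lit 228) (nat_lit 1169594555834) (nat_lit 38) (nat_lit 5) (nat_lit 40) (nat_lit 5) (nat_lit 41) (nat_lit 5) (nat_lit 403) (nat_lit 390) (nat_lit 227))))) (XT.nd (nat_lit 312) (nat_lit 228) (nat_lit 0) (XT.nd (nat_lit 156) (nat_lit 380) (nat_lit 0) (XT.nd (nat_lit 78) (nat_lit 152) (nat_lit 0) (XT.lf (nat_lit 0) (nat_lit 4303637595120) (nat_lit 152) (nat_lit 972466825425) (nat_lit 76) (nat_lit 8411066133249) (nat_lit 36) (nat_lit 5) (nat_lit 38) (nat_lit 5) (nat_lit 37) (nat_lit 5) (nat_lit 404) (nat_lit 390) (nat_lit 226)) (XT.lf (nat_lit 0)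 (nat_lit 11034799699830) (nat_lit 228) (nat_lit 267997652090) (nat_lit 76) (nat_lit 3689975901719) (nat_lit 34) (nat_lit 5) (nat_lit 37) (nat_lit 5) (nat_lit 35) (nat_lit 4) (nat_lit 405) (nat_lit 390) (nat_lit 225))) (XT.nd (nat_lit 78) (nat_lit 76) (nat_lit 0) (XT.lf (nat_lit 0) (nat_lit 560334312346) (nat_lit 152) (nat_lit 2220650347410) (nat_lit 228) (nat_lit 13659746982354) (nat_lit 30) (nat_lit 5) (nat_lit 32) (nat_lit 5) (nat_lit 33) (nat_lit 5) (nat_lit 406) (nat_lit 390) (nat_lit 224)) (XT.lf (nat_lit 0) (nat_lit 1376459214196) (nat_lit 76) (nat_lit 9622008102228) (nat_lit 152) (nat_lit 7043029158730) (nat_lit 29) (nat_lit 5) (nat_lit 30) (nat_lit 5) (nat_lit 31) (nat_lit 4) (nat_lit 407) (nat_lit 390) (nat_lit 223)))) (XT.nd (nat_lit 51792) (nat_lit 0) (nat_lit 2812) (XT.nd (nat_lit 78) (nat_lit 76) (nat_lit 0) (XT.lf (nat_lit 0) (nat_lit 1160427225580) (nat_lit 152) (nat_lit 17494045448730)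 (nat_lit 76) (nat_lit 1177009650313) (nat_lit 27) (nat_lit 5) (nat_lit 29) (nat_lit 5) (nat_lit 28) (nat_lit 4) (nat_lit 408) (nat_lit 390) (nat_lit 222)) (XT.lf (nat_lit 0) (nat_lit 3026180771418) (nat_lit 76) (nat_lit 7999739829312) (nat_lit 152) (nat_lit 10781527028674) (nat_lit 26) (nat_lit 5) (nat_lit 27) (nat_lit 5) (nat_lit 28) (nat_lit 4) (nat_lit 409) (nat_lit 390) (nat_lit 221))) (XT.nd (nat_lit 78) (nat_lit 456) (nat_lit 0) (XT.lf (nat_lit 0) (nat_lit 2321985874847) (nat_lit 532) (nat_lit 105333650515) (nat_lit 532) (nat_lit 105333650515) (nat_lit 69) (nat_lit 3) (nat_lit 76) (nat_lit 3) (nat_lit 76) (nat_lit 5) (nat_lit 391) (nat_lit 391) (nat_lit 238)) (XT.nd (nat_lit 78) (nat_lit 456) (nat_lit 0) (XT.lf (nat_lit 76) (nat_lit 4677214187171) (nat_lit 0) (nat_lit 427542561749) (nat_lit 532) (nat_lit 331448609773) (nat_lit 70) (nat_lit 5) (nat_lit 69) (nat_lit 3) (nat_lit 76) (nat_lit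 5) (nat_lit 392) (nat_lit 391) (nat_lit 237)) (XT.lf (nat_lit 0) (nat_lit 17494755847) (nat_lit 532) (nat_lit 1280105219058) (nat_lit 608) (nat_lit 4546844867326) (nat_lit 63) (nat_lit 5) (nat_lit 70) (nat_lit 5) (nat_lit 71) (nat_lit 5) (nat_lit 393) (nat_lit 391) (nat_lit 236))))))))
noncomputable def xc123 : XT := (XT.nd (nat_lit 53040) (nat_lit 0) (nat_lit 152) (XT.nd (nat_lit 624) (nat_lit 1368) (nat_lit 0) (XT.nd (nat_lit 312) (nat_lit 836) (nat_lit 0) (XT.nd (nat_lit 156) (nat_lit 608) (nat_lit 0) (XT.nd (nat_lit 78) (nat_lit 0) (nat_lit 76) (XT.lf (nat_lit 0) (nat_lit 643791864934) (nat_lit 532) (nat_lit 1769723864746) (nat_lit 608) (nat_lit 3880144778636) (nat_lit 64) (nat_lit 5) (nat_lit 71) (nat_lit 5) (nat_lit 72) (nat_lit 5) (nat_lit 394) (nat_lit 391) (nat_lit 235)) (XT.lf (nat_lit 0) (nat_lit 1625276221257) (nat_lit 532) (nat_lit 2204917589655) (nat_lit 76) (nat_lit 2959165298931)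 (nat_lit 65) (nat_lit 5) (nat_lit 72) (nat_lit 5) (nat_lit 66) (nat_lit 5) (nat_lit 395) (nat_lit 391) (nat_lit 234))) (XT.nd (nat_lit 78) (nat_lit 228) (nat_lit 0) (XT.lf (nat_lit 0) (nat_lit 3033372957176) (nat_lit 532) (nat_lit 2568057717525) (nat_lit 76) (nat_lit 1735630648806) (nat_lit 59) (nat_lit 5) (nat_lit 66) (nat_lit 5) (nat_lit 60) (nat_lit 5) (nat_lit 396) (nat_lit 391) (nat_lit 233)) (XT.lf (nat_lit 0) (nat_lit 4951224532963) (nat_lit 304) (nat_lit 2838516947386) (nat_lit 76) (nat_lit 153294162515) (nat_lit 56) (nat_lit 5) (nat_lit 60) (nat_lit 5) (nat_lit 57) (nat_lit 5) (nat_lit 397) (nat_lit 391) (nat_lit 232)))) (XT.nd (nat_lit 156) (nat_lit 380) (nat_lit 0) (XT.nd (nat_lit 78) (nat_lit 228) (nat_lit 0) (XT.lf (nat_lit 0) (nat_lit 5571411390582) (nat_lit 228) (nat_lit 1950964973381) (nat_lit 304) (nat_lit 1088279944653) (nat_lit 53) (nat_lit 5) (nat_lit 56) (nat_lit 5)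 (nat_lit 57) (nat_lit 5) (nat_lit 398) (nat_lit 391) (nat_lit 231)) (XT.lf (nat_lit 0) (nat_lit 1404172873258) (nat_lit 228) (nat_lit 3147754717332) (nat_lit 76) (nat_lit 4795697979365) (nat_lit 50) (nat_lit 5) (nat_lit 53) (nat_lit 5) (nat_lit 51) (nat_lit 5) (nat_lit 399) (nat_lit 391) (nat_lit 230))) (XT.nd (nat_lit 78) (nat_lit 152) (nat_lit 0) (XT.lf (nat_lit 0) (nat_lit 4584834242797) (nat_lit 304) (nat_lit 3140115934032) (nat_lit 76) (nat_lit 2437626367060) (nat_lit 47) (nat_lit 5) (nat_lit 51) (nat_lit 5) (nat_lit 48) (nat_lit 5) (nat_lit 400) (nat_lit 391) (nat_lit 229)) (XT.lf (nat_lit 0) (nat_lit 8092954985346) (nat_lit 152) (nat_lit 564194499567) (nat_lit 228) (nat_lit 2409456305630) (nat_lit 45) (nat_lit 5) (nat_lit 47) (nat_lit 5) (nat_lit 48) (nat_lit 5) (nat_lit 401) (nat_lit 391) (nat_lit 228))))) (XT.nd (nat_lit 312) (nat_lit 684) (nat_lit 0) (XT.nd (nat_lit 156) (nat_lit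 304) (nat_lit 0) (XT.nd (nat_lit 78) (nat_lit 152) (nat_lit 0) (XT.lf (nat_lit 0) (nat_lit 1689410644178) (nat_lit 228) (nat_lit 2723861457271) (nat_lit 76) (nat_lit 7649227255593) (nat_lit 42) (nat_lit 5) (nat_lit 45) (nat_lit 5) (nat_lit 43) (nat_lit 5) (nat_lit 402) (nat_lit 391) (nat_lit 227)) (XT.lf (nat_lit 0) (nat_lit 6735627047575) (nat_lit 228) (nat_lit 2336892019832) (nat_lit 76) (nat_lit 4092236339692) (nat_lit 40) (nat_lit 5) (nat_lit 43) (nat_lit 5) (nat_lit 41) (nat_lit 5) (nat_lit 403) (nat_lit 391) (nat_lit 226))) (XT.nd (nat_lit 78) (nat_lit 152) (nat_lit 0) (XT.lf (nat_lit 0) (nat_lit 12660499518035) (nat_lit 152) (nat_lit 386184001774) (nat_lit 228) (nat_lit 1345033736189) (nat_lit 38) (nat_lit 5) (nat_lit 40) (nat_lit 5) (nat_lit 41) (nat_lit 5) (nat_lit 404) (nat_lit 391) (nat_lit 225)) (XT.lf (nat_lit 0) (nat_lit 4949183237023) (nat_lit 152) (nat_lit 1118336844857)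 (nat_lit 76) (nat_lit 9672726054773) (nat_lit 36) (nat_lit 5) (nat_lit 38) (nat_lit 5) (nat_lit 37) (nat_lit 5) (nat_lit 405) (nat_lit 391) (nat_lit 224)))) (XT.nd (nat_lit 156) (nat_lit 228) (nat_lit 0) (XT.nd (nat_lit 78) (nat_lit 304) (nat_lit 0) (XT.lf (nat_lit 0) (nat_lit 12690019657232) (nat_lit 228) (nat_lit 308197295740) (nat_lit 76) (nat_lit 4243472288520) (nat_lit 34) (nat_lit 5) (nat_lit 37) (nat_lit 5) (nat_lit 35) (nat_lit 4) (nat_lit 406) (nat_lit 391) (nat_lit 223)) (XT.lf (nat_lit 0) (nat_lit 644384463336) (nat_lit 152) (nat_lit 2553747897742) (nat_lit 228) (nat_lit 15708709027159) (nat_lit 30) (nat_lit 5) (nat_lit 32) (nat_lit 5) (nat_lit 33) (nat_lit 5) (nat_lit 407) (nat_lit 391) (nat_lit 222))) (XT.nd (nat_lit 78) (nat_lit 152) (nat_lit 0) (XT.lf (nat_lit 0) (nat_lit 1582928100248) (nat_lit 76) (nat_lit 11065309315823) (nat_lit 152) (nat_lit 8099483530182) (nat_lit 29)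 (nat_lit 5) (nat_lit 30) (nat_lit 5) (nat_lit 31) (nat_lit 4) (nat_lit 408) (nat_lit 391) (nat_lit 221)) (XT.nd (nat_lit 51792) (nat_lit 0) (nat_lit 3192) (XT.lf (nat_lit 0) (nat_lit 1334491311494) (nat_lit 152) (nat_lit 20118152262218) (nat_lit 76) (nat_lit 1353561099438) (nat_lit 27) (nat_lit 5) (nat_lit 29) (nat_lit 5) (nat_lit 28) (nat_lit 4) (nat_lit 409) (nat_lit 391) (nat_lit 220)) (XT.lf (nat_lit 0) (nat_lit 2670283760206) (nat_lit 532) (nat_lit 121133695859) (nat_lit 532) (nat_lit 121133695859) (nat_lit 69) (nat_lit 3) (nat_lit 76) (nat_lit 3) (nat_lit 76) (nat_lit 5) (nat_lit 392) (nat_lit 392) (nat_lit 236))))))) (XT.nd (nat_lit 624) (nat_lit 1596) (nat_lit 0) (XT.nd (nat_lit 312) (nat_lit 988) (nat_lit 0) (XT.nd (nat_lit 156) (nat_lit 0) (nat_lit 76) (XT.nd (nat_lit 78) (nat_lit 456) (nat_lit 0) (XT.lf (nat_lit 76) (nat_lit 5378796319334) (nat_lit 0) (nat_lit 491673949209) (nat_lit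 532) (nat_lit 381165893367) (nat_lit 70) (nat_lit 5) (nat_lit 69) (nat_lit 3) (nat_lit 76) (nat_lit 5) (nat_lit 393) (nat_lit 392) (nat_lit 235)) (XT.lf (nat_lit 0) (nat_lit 20118975766) (nat_lit 532) (nat_lit 1472120997219) (nat_lit 608) (nat_lit 5228871595054) (nat_lit 63) (nat_lit 5) (nat_lit 70) (nat_lit 5) (nat_lit 71) (nat_lit 5) (nat_lit 394) (nat_lit 392) (nat_lit 234))) (XT.nd (nat_lit 78) (nat_lit 0) (nat_lit 76) (XT.lf (nat_lit 0) (nat_lit 740360650431) (nat_lit 532) (nat_lit 2035182439655) (nat_lit 608) (nat_lit 4462166494014) (nat_lit 64) (nat_lit 5) (nat_lit 71) (nat_lit 5) (nat_lit 72) (nat_lit 5) (nat_lit 395) (nat_lit 392) (nat_lit 233)) (XT.lf (nat_lit 0) (nat_lit 1869067659539) (nat_lit 532) (nat_lit 2535655223277) (nat_lit 76) (nat_lit 3403040093092) (nat_lit 65) (nat_lit 5) (nat_lit 72) (nat_lit 5) (nat_lit 66) (nat_lit 5) (nat_lit 396) (nat_lit 392) (nat_lit 232))))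 (XT.nd (nat_lit 156) (nat_lit 456) (nat_lit 0) (XT.nd (nat_lit 78) (nat_lit 228) (nat_lit 0) (XT.lf (nat_lit 0) (nat_lit 3488378905285) (nat_lit 532) (nat_lit 2953266370369) (nat_lit 76) (nat_lit 1995975246015) (nat_lit 59) (nat_lit 5) (nat_lit 66) (nat_lit 5) (nat_lit 60) (nat_lit 5) (nat_lit 397) (nat_lit 392) (nat_lit 231)) (XT.lf (nat_lit 0) (nat_lit 5693908216962) (nat_lit 304) (nat_lit 3264294484796) (nat_lit 76) (nat_lit 176288287209) (nat_lit 56) (nat_lit 5) (nat_lit 60) (nat_lit 5) (nat_lit 57) (nat_lit 5) (nat_lit 398) (nat_lit 392) (nat_lit 230))) (XT.nd (nat_lit 78) (nat_lit 228) (nat_lit 0) (XT.lf (nat_lit 0) (nat_lit 6407123103470) (nat_lit 228) (nat_lit 2243609718717) (nat_lit 304) (nat_lit 1251521932429) (nat_lit 53) (nat_lit 5) (nat_lit 56) (nat_lit 5) (nat_lit 57) (nat_lit 5) (nat_lit 399) (nat_lit 392) (nat_lit 229)) (XT.lf (nat_lit 0) (nat_lit 1614798807604) (nat_lit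 228) (nat_lit 3619917920564) (nat_lit 76) (nat_lit 5515052677010) (nat_lit 50) (nat_lit 5) (nat_lit 53) (nat_lit 5) (nat_lit 51) (nat_lit 5) (nat_lit 400) (nat_lit 392) (nat_lit 228))))) (XT.nd (nat_lit 312) (nat_lit 836) (nat_lit 0) (XT.nd (nat_lit 156) (nat_lit 380) (nat_lit 0) (XT.nd (nat_lit 78) (nat_lit 152) (nat_lit 0) (XT.lf (nat_lit 0) (nat_lit 5272559382256) (nat_lit 304) (nat_lit 3611133319920) (nat_lit 76) (nat_lit 2803270323053) (nat_lit 47) (nat_lit 5) (nat_lit 51) (nat_lit 5) (nat_lit 48) (nat_lit 5) (nat_lit 401) (nat_lit 392) (nat_lit 227)) (XT.lf (nat_lit 0) (nat_lit 9306898237008) (nat_lit 152) (nat_lit 648823673377) (nat_lit 228) (nat_lit 2770874748519) (nat_lit 45) (nat_lit 5) (nat_lit 47) (nat_lit 5) (nat_lit 48) (nat_lit 5) (nat_lit 402) (nat_lit 392) (nat_lit 226))) (XT.nd (nat_lit 78) (nat_lit 152) (nat_lit 0) (XT.lf (nat_lit 0) (nat_lit 1942822243362) (nat_lit 228)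 (nat_lit 3132440672016) (nat_lit 76) (nat_lit 8796611345015) (nat_lit 42) (nat_lit 5) (nat_lit 45) (nat_lit 5) (nat_lit 43) (nat_lit 5) (nat_lit 403) (nat_lit 392) (nat_lit 225)) (XT.lf (nat_lit 0) (nat_lit 7745971107049) (nat_lit 228) (nat_lit 2687425819130) (nat_lit 76) (nat_lit 4706071791797) (nat_lit 40) (nat_lit 5) (nat_lit 43) (nat_lit 5) (nat_lit 41) (nat_lit 5) (nat_lit 404) (nat_lit 392) (nat_lit 224)))) (XT.nd (nat_lit 156) (nat_lit 532) (nat_lit 0) (XT.nd (nat_lit 78) (nat_lit 152) (nat_lit 0) (XT.lf (nat_lit 0) (nat_lit 14559574449106) (nat_lit 152) (nat_lit 444111600788) (nat_lit 228) (nat_lit 1546788794335) (nat_lit 38) (nat_lit 5) (nat_lit 40) (nat_lit 5) (nat_lit 41) (nat_lit 5) (nat_lit 405) (nat_lit 392) (nat_lit 223)) (XT.lf (nat_lit 0) (nat_lit 5691560724569) (nat_lit 152) (nat_lit 1286087368272) (nat_lit 76) (nat_lit 11123634964150) (nat_lit 36) (nat_lit 5) (nat_lit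 38) (nat_lit 5) (nat_lit 37) (nat_lit 5) (nat_lit 406) (nat_lit 392) (nat_lit 222))) (XT.nd (nat_lit 78) (nat_lit 380) (nat_lit 0) (XT.lf (nat_lit 0) (nat_lit 14593522607651) (nat_lit 228) (nat_lit 354426886952) (nat_lit 76) (nat_lit 4879993132965) (nat_lit 34) (nat_lit 5) (nat_lit 37) (nat_lit 5) (nat_lit 35) (nat_lit 4) (nat_lit 407) (nat_lit 392) (nat_lit 221)) (XT.nd (nat_lit 78) (nat_lit 76) (nat_lit 0) (XT.lf (nat_lit 0) (nat_lit 741042135966) (nat_lit 152) (nat_lit 2936810081058) (nat_lit 228) (nat_lit 18065015379306) (nat_lit 30) (nat_lit 5) (nat_lit 32) (nat_lit 5) (nat_lit 33) (nat_lit 5) (nat_lit 408) (nat_lit 392) (nat_lit 220)) (XT.lf (nat_lit 0) (nat_lit 1820367318250) (nat_lit 76) (nat_lit 12725105711882) (nat_lit 152) (nat_lit 9314406057926) (nat_lit 29) (nat_lit 5) (nat_lit 30) (nat_lit 5) (nat_lit 31) (nat_lit 4) (nat_lit 409) (nat_lit 392) (nat_lit 219))))))))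
noncomputable def xc124 : XT := (XT.nd (nat_lit 1248) (nat_lit 304) (nat_lit 0) (XT.nd (nat_lit 624) (nat_lit 1444) (nat_lit 0) (XT.nd (nat_lit 312) (nat_lit 760) (nat_lit 0) (XT.nd (nat_lit 156) (nat_lit 456) (nat_lit 0) (XT.nd (nat_lit 78) (nat_lit 0) (nat_lit 0) (XT.lf (nat_lit 0) (nat_lit 3070826327362) (nat_lit 532) (nat_lit 139303748550) (nat_lit 532) (nat_lit 139303748550) (nat_lit 69) (nat_lit 3) (nat_lit 76) (nat_lit 3) (nat_lit 76) (nat_lit 5) (nat_lit 393) (nat_lit 393) (nat_lit 234)) (XT.lf (nat_lit 76) (nat_lit 6185615770325) (nat_lit 0) (nat_lit 565425044008) (nat_lit 532) (nat_lit 438340771420) (nat_lit 70) (nat_lit 5) (nat_lit 69) (nat_lit 3) (nat_lit 76) (nat_lit 5) (nat_lit 394) (nat_lit 393) (nat_lit 233))) (XT.nd (nat_lit 78) (nat_lit 0) (nat_lit 76) (XT.lf (nat_lit 0) (nat_lit 23136827078) (nat_lit 532) (nat_lit 1692939143250) (nat_lit 608) (nat_lit 6013202332520) (nat_lit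 63) (nat_lit 5) (nat_lit 70) (nat_lit 5) (nat_lit 71) (nat_lit 5) (nat_lit 395) (nat_lit 393) (nat_lit 232)) (XT.lf (nat_lit 0) (nat_lit 851414752348) (nat_lit 532) (nat_lit 2340459801971) (nat_lit 608) (nat_lit 5131491467045) (nat_lit 64) (nat_lit 5) (nat_lit 71) (nat_lit 5) (nat_lit 72) (nat_lit 5) (nat_lit 396) (nat_lit 393) (nat_lit 231)))) (XT.nd (nat_lit 156) (nat_lit 456) (nat_lit 0) (XT.nd (nat_lit 78) (nat_lit 456) (nat_lit 0) (XT.lf (nat_lit 0) (nat_lit 2149427812322) (nat_lit 532) (nat_lit 2916003503120) (nat_lit 76) (nat_lit 3913496106543) (nat_lit 65) (nat_lit 5) (nat_lit 72) (nat_lit 5) (nat_lit 66) (nat_lit 5) (nat_lit 397) (nat_lit 393) (nat_lit 230)) (XT.lf (nat_lit 0) (nat_lit 4011635744505) (nat_lit 532) (nat_lit 3396256322306) (nat_lit 76) (nat_lit 2295371532832) (nat_lit 59) (nat_lit 5) (nat_lit 66) (nat_lit 5) (nat_lit 60) (nat_lit 5) (nat_lit 398) (nat_lit 393) (nat_lit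 229))) (XT.nd (nat_lit 78) (nat_lit 228) (nat_lit 0) (XT.lf (nat_lit 0) (nat_lit 6547994452572) (nat_lit 304) (nat_lit 3753938653963) (nat_lit 76) (nat_lit 202731530530) (nat_lit 56) (nat_lit 5) (nat_lit 60) (nat_lit 5) (nat_lit 57) (nat_lit 5) (nat_lit 399) (nat_lit 393) (nat_lit 228)) (XT.lf (nat_lit 0) (nat_lit 7368191572243) (nat_lit 228) (nat_lit 2580151176017) (nat_lit 304) (nat_lit 1439250219328) (nat_lit 53) (nat_lit 5) (nat_lit 56) (nat_lit 5) (nat_lit 57) (nat_lit 5) (nat_lit 400) (nat_lit 393) (nat_lit 227))))) (XT.nd (nat_lit 312) (nat_lit 608) (nat_lit 0) (XT.nd (nat_lit 156) (nat_lit 380) (nat_lit 0) (XT.nd (nat_lit 78) (nat_lit 228) (nat_lit 0) (XT.lf (nat_lit 0) (nat_lit 1857018631283) (nat_lit 228) (nat_lit 4162905605346) (nat_lit 76) (nat_lit 6342310579122) (nat_lit 50) (nat_lit 5) (nat_lit 53) (nat_lit 5) (nat_lit 51) (nat_lit 5) (nat_lit 401) (nat_lit 393) (nat_lit 226))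 (XT.lf (nat_lit 0) (nat_lit 6063443291892) (nat_lit 304) (nat_lit 4152803314720) (nat_lit 76) (nat_lit 3223760872216) (nat_lit 47) (nat_lit 5) (nat_lit 51) (nat_lit 5) (nat_lit 48) (nat_lit 5) (nat_lit 402) (nat_lit 393) (nat_lit 225))) (XT.nd (nat_lit 78) (nat_lit 228) (nat_lit 0) (XT.lf (nat_lit 0) (nat_lit 10702932975478) (nat_lit 152) (nat_lit 746147223534) (nat_lit 228) (nat_lit 3186505958562) (nat_lit 45) (nat_lit 5) (nat_lit 47) (nat_lit 5) (nat_lit 48) (nat_lit 5) (nat_lit 403) (nat_lit 393) (nat_lit 224)) (XT.lf (nat_lit 0) (nat_lit 2234245581799) (nat_lit 228) (nat_lit 3602306769911) (nat_lit 76) (nat_lit 10116103047586) (nat_lit 42) (nat_lit 5) (nat_lit 45) (nat_lit 5) (nat_lit 43) (nat_lit 5) (nat_lit 404) (nat_lit 393) (nat_lit 223)))) (XT.nd (nat_lit 156) (nat_lit 304) (nat_lit 0) (XT.nd (nat_lit 78) (nat_lit 152) (nat_lit 0) (XT.lf (nat_lit 0) (nat_lit 8907866774874) (nat_lit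 228) (nat_lit 3090539689220) (nat_lit 76) (nat_lit 5411982561437) (nat_lit 40) (nat_lit 5) (nat_lit 43) (nat_lit 5) (nat_lit 41) (nat_lit 5) (nat_lit 405) (nat_lit 393) (nat_lit 222)) (XT.lf (nat_lit 0) (nat_lit 16743510619016) (nat_lit 152) (nat_lit 510728339960) (nat_lit 228) (nat_lit 1778807111758) (nat_lit 38) (nat_lit 5) (nat_lit 40) (nat_lit 5) (nat_lit 41) (nat_lit 5) (nat_lit 406) (nat_lit 393) (nat_lit 221))) (XT.nd (nat_lit 78) (nat_lit 152) (nat_lit 0) (XT.lf (nat_lit 0) (nat_lit 6545294834760) (nat_lit 152) (nat_lit 1479000471007) (nat_lit 76) (nat_lit 12792180209651) (nat_lit 36) (nat_lit 5) (nat_lit 38) (nat_lit 5) (nat_lit 37) (nat_lit 5) (nat_lit 407) (nat_lit 393) (nat_lit 220)) (XT.lf (nat_lit 0) (nat_lit 16782551000186) (nat_lit 228) (nat_lit 407590917614) (nat_lit 76) (nat_lit 5611992103791) (nat_lit 34) (nat_lit 5) (nat_lit 37) (nat_lit 5) (nat_lit 35) (nat_lit 4) (nat_lit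 408) (nat_lit 393) (nat_lit 219)))))) (XT.nd (nat_lit 52494) (nat_lit 0) (nat_lit 456) (XT.nd (nat_lit 52182) (nat_lit 0) (nat_lit 1976) (XT.nd (nat_lit 52026) (nat_lit 0) (nat_lit 2508) (XT.nd (nat_lit 51948) (nat_lit 0) (nat_lit 2964) (XT.lf (nat_lit 0) (nat_lit 852198458727) (nat_lit 152) (nat_lit 3377331592200) (nat_lit 228) (nat_lit 20774767684745) (nat_lit 30) (nat_lit 5) (nat_lit 32) (nat_lit 5) (nat_lit 33) (nat_lit 5) (nat_lit 409) (nat_lit 393) (nat_lit 218)) (XT.lf (nat_lit 0) (nat_lit 3531450278828) (nat_lit 532) (nat_lit 160199309556) (nat_lit 532) (nat_lit 160199309556) (nat_lit 69) (nat_lit 3) (nat_lit 76) (nat_lit 3) (nat_lit 76) (nat_lit 5) (nat_lit 394) (nat_lit 394) (nat_lit 232))) (XT.nd (nat_lit 78) (nat_lit 456) (nat_lit 0) (XT.lf (nat_lit 76) (nat_lit 7113458138210) (nat_lit 0) (nat_lit 650238802437) (nat_lit 532) (nat_lit 504091882632) (nat_lit 70) (nat_lit 5) (nat_lit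 69) (nat_lit 3) (nat_lit 76) (nat_lit 5) (nat_lit 395) (nat_lit 394) (nat_lit 231)) (XT.lf (nat_lit 0) (nat_lit 26607354880) (nat_lit 532) (nat_lit 1946880012051) (nat_lit 608) (nat_lit 6915182681043) (nat_lit 63) (nat_lit 5) (nat_lit 70) (nat_lit 5) (nat_lit 71) (nat_lit 5) (nat_lit 396) (nat_lit 394) (nat_lit 230)))) (XT.nd (nat_lit 156) (nat_lit 608) (nat_lit 0) (XT.nd (nat_lit 78) (nat_lit 0) (nat_lit 76) (XT.lf (nat_lit 0) (nat_lit 979126968491) (nat_lit 532) (nat_lit 2691528769521) (nat_lit 608) (nat_lit 5901215186292) (nat_lit 64) (nat_lit 5) (nat_lit 71) (nat_lit 5) (nat_lit 72) (nat_lit 5) (nat_lit 397) (nat_lit 394) (nat_lit 229)) (XT.lf (nat_lit 0) (nat_lit 2471841987083) (nat_lit 532) (nat_lit 3353404025829) (nat_lit 76) (nat_lit 4500520522137) (nat_lit 65) (nat_lit 5) (nat_lit 72) (nat_lit 5) (nat_lit 66) (nat_lit 5) (nat_lit 398) (nat_lit 394) (nat_lit 228))) (XT.nd (nat_lit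 78) (nat_lit 228) (nat_lit 0) (XT.lf (nat_lit 0) (nat_lit 4613381108773) (nat_lit 532) (nat_lit 3905694767916) (nat_lit 76) (nat_lit 2639677262692) (nat_lit 59) (nat_lit 5) (nat_lit 66) (nat_lit 5) (nat_lit 60) (nat_lit 5) (nat_lit 399) (nat_lit 394) (nat_lit 227)) (XT.lf (nat_lit 0) (nat_lit 7530193622777) (nat_lit 304) (nat_lit 4317029449371) (nat_lit 76) (nat_lit 233141260291) (nat_lit 56) (nat_lit 5) (nat_lit 60) (nat_lit 5) (nat_lit 57) (nat_lit 5) (nat_lit 400) (nat_lit 394) (nat_lit 226))))) (XT.nd (nat_lit 312) (nat_lit 684) (nat_lit 0) (XT.nd (nat_lit 156) (nat_lit 380) (nat_lit 0) (XT.nd (nat_lit 78) (nat_lit 228) (nat_lit 0) (XT.lf (nat_lit 0) (nat_lit 8473420310538) (nat_lit 228) (nat_lit 2967173852036) (nat_lit 304) (nat_lit 1655137749985) (nat_lit 53) (nat_lit 5) (nat_lit 56) (nat_lit 5) (nat_lit 57) (nat_lit 5) (nat_lit 401) (nat_lit 394) (nat_lit 225)) (XT.lf (nat_lit 0)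 (nat_lit 2135571427895) (nat_lit 228) (nat_lit 4787341443651) (nat_lit 76) (nat_lit 7293657166413) (nat_lit 50) (nat_lit 5) (nat_lit 53) (nat_lit 5) (nat_lit 51) (nat_lit 5) (nat_lit 402) (nat_lit 394) (nat_lit 224))) (XT.nd (nat_lit 78) (nat_lit 152) (nat_lit 0) (XT.lf (nat_lit 0) (nat_lit 6972959787414) (nat_lit 304) (nat_lit 4775723809517) (nat_lit 76) (nat_lit 3707325003582) (nat_lit 47) (nat_lit 5) (nat_lit 51) (nat_lit 5) (nat_lit 48) (nat_lit 5) (nat_lit 403) (nat_lit 394) (nat_lit 223)) (XT.lf (nat_lit 0) (nat_lit 12308372924007) (nat_lit 152) (nat_lit 858069306421) (nat_lit 228) (nat_lit 3664481850656) (nat_lit 45) (nat_lit 5) (nat_lit 47) (nat_lit 5) (nat_lit 48) (nat_lit 5) (nat_lit 404) (nat_lit 394) (nat_lit 222)))) (XT.nd (nat_lit 156) (nat_lit 304) (nat_lit 0) (XT.nd (nat_lit 78) (nat_lit 152) (nat_lit 0) (XT.lf (nat_lit 0) (nat_lit 2569382420532) (nat_lit 228) (nat_lit 4142652783199)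 (nat_lit 76) (nat_lit 11633518505343) (nat_lit 42) (nat_lit 5) (nat_lit 45) (nat_lit 5) (nat_lit 43) (nat_lit 5) (nat_lit 405) (nat_lit 394) (nat_lit 221)) (XT.lf (nat_lit 0) (nat_lit 10244046792441) (nat_lit 228) (nat_lit 3554120640501) (nat_lit 76) (nat_lit 6223779946311) (nat_lit 40) (nat_lit 5) (nat_lit 43) (nat_lit 5) (nat_lit 41) (nat_lit 5) (nat_lit 406) (nat_lit 394) (nat_lit 220))) (XT.nd (nat_lit 78) (nat_lit 152) (nat_lit 0) (XT.lf (nat_lit 0) (nat_lit 19255037213793) (nat_lit 152) (nat_lit 587337590238) (nat_lit 228) (nat_lit 2045628177217) (nat_lit 38) (nat_lit 5) (nat_lit 40) (nat_lit 5) (nat_lit 41) (nat_lit 5) (nat_lit 407) (nat_lit 394) (nat_lit 219)) (XT.nd (nat_lit 52104) (nat_lit 0) (nat_lit 2508) (XT.lf (nat_lit 0) (nat_lit 7527089061114) (nat_lit 152) (nat_lit 1700850539763) (nat_lit 76) (nat_lit 14711007241763) (nat_lit 36) (nat_lit 5) (nat_lit 38) (nat_lit 5) (nat_lit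 37) (nat_lit 5) (nat_lit 408) (nat_lit 394) (nat_lit 218)) (XT.lf (nat_lit 0) (nat_lit 4061167822439) (nat_lit 532) (nat_lit 184229205024) (nat_lit 532) (nat_lit 184229205024) (nat_lit 69) (nat_lit 3) (nat_lit 76) (nat_lit 3) (nat_lit 76) (nat_lit 5) (nat_lit 395) (nat_lit 395) (nat_lit 230))))))))
noncomputable def xc125 : XT := (XT.nd (nat_lit 53352) (nat_lit 0) (nat_lit 152) (XT.nd (nat_lit 624) (nat_lit 912) (nat_lit 0) (XT.nd (nat_lit 312) (nat_lit 988) (nat_lit 0) (XT.nd (nat_lit 156) (nat_lit 0) (nat_lit 76) (XT.nd (nat_lit 78) (nat_lit 456) (nat_lit 0) (XT.lf (nat_lit 76) (nat_lit 8180476860709) (nat_lit 0) (nat_lit 747774624185) (nat_lit 532) (nat_lit 579705661623) (nat_lit 70) (nat_lit 5) (nat_lit 69) (nat_lit 3) (nat_lit 76) (nat_lit 5) (nat_lit 396) (nat_lit 395) (nat_lit 229)) (XT.lf (nat_lit 0) (nat_lit 30598460940) (nat_lit 532) (nat_lit 2238912011828) (nat_lit 608) (nat_lit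 7952460082174) (nat_lit 63) (nat_lit 5) (nat_lit 70) (nat_lit 5) (nat_lit 71) (nat_lit 5) (nat_lit 397) (nat_lit 395) (nat_lit 228))) (XT.nd (nat_lit 78) (nat_lit 0) (nat_lit 76) (XT.lf (nat_lit 0) (nat_lit 1125996016253) (nat_lit 532) (nat_lit 3095258082872) (nat_lit 608) (nat_lit 6786397463624) (nat_lit 64) (nat_lit 5) (nat_lit 71) (nat_lit 5) (nat_lit 72) (nat_lit 5) (nat_lit 398) (nat_lit 395) (nat_lit 227)) (XT.lf (nat_lit 0) (nat_lit 2842618287348) (nat_lit 532) (nat_lit 3856414627618) (nat_lit 76) (nat_lit 5175598600164) (nat_lit 65) (nat_lit 5) (nat_lit 72) (nat_lit 5) (nat_lit 66) (nat_lit 5) (nat_lit 399) (nat_lit 395) (nat_lit 226)))) (XT.nd (nat_lit 156) (nat_lit 456) (nat_lit 0) (XT.nd (nat_lit 78) (nat_lit 228) (nat_lit 0) (XT.lf (nat_lit 0) (nat_lit 5305388277049) (nat_lit 532) (nat_lit 4491548981035) (nat_lit 76) (nat_lit 3035628852048) (nat_lit 59) (nat_lit 5) (nat_lit 66)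 (nat_lit 5) (nat_lit 60) (nat_lit 5) (nat_lit 400) (nat_lit 395) (nat_lit 225)) (XT.lf (nat_lit 0) (nat_lit 8659722667946) (nat_lit 304) (nat_lit 4964583864746) (nat_lit 76) (nat_lit 268112449472) (nat_lit 56) (nat_lit 5) (nat_lit 60) (nat_lit 5) (nat_lit 57) (nat_lit 5) (nat_lit 401) (nat_lit 395) (nat_lit 224))) (XT.nd (nat_lit 78) (nat_lit 228) (nat_lit 0) (XT.lf (nat_lit 0) (nat_lit 9744433358978) (nat_lit 228) (nat_lit 3412249929551) (nat_lit 304) (nat_lit 1903408410788) (nat_lit 53) (nat_lit 5) (nat_lit 56) (nat_lit 5) (nat_lit 57) (nat_lit 5) (nat_lit 402) (nat_lit 395) (nat_lit 223)) (XT.lf (nat_lit 0) (nat_lit 2455907143531) (nat_lit 228) (nat_lit 5505442658310) (nat_lit 76) (nat_lit 8387705741695) (nat_lit 50) (nat_lit 5) (nat_lit 53) (nat_lit 5) (nat_lit 51) (nat_lit 5) (nat_lit 403) (nat_lit 395) (nat_lit 222))))) (XT.nd (nat_lit 312) (nat_lit 152) (nat_lit 0) (XT.nd (nat_lit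 156) (nat_lit 380) (nat_lit 0) (XT.nd (nat_lit 78) (nat_lit 152) (nat_lit 0) (XT.lf (nat_lit 0) (nat_lit 8018903756840) (nat_lit 304) (nat_lit 5492082379121) (nat_lit 76) (nat_lit 4263423754523) (nat_lit 47) (nat_lit 5) (nat_lit 51) (nat_lit 5) (nat_lit 48) (nat_lit 5) (nat_lit 404) (nat_lit 395) (nat_lit 221)) (XT.lf (nat_lit 0) (nat_lit 14154628864277) (nat_lit 152) (nat_lit 986779701898) (nat_lit 228) (nat_lit 4214154126977) (nat_lit 45) (nat_lit 5) (nat_lit 47) (nat_lit 5) (nat_lit 48) (nat_lit 5) (nat_lit 405) (nat_lit 395) (nat_lit 220))) (XT.nd (nat_lit 78) (nat_lit 152) (nat_lit 0) (XT.lf (nat_lit 0) (nat_lit 2954789784717) (nat_lit 228) (nat_lit 4764050699016) (nat_lit 76) (nat_lit 13378546281613) (nat_lit 42) (nat_lit 5) (nat_lit 45) (nat_lit 5) (nat_lit 43) (nat_lit 5) (nat_lit 406) (nat_lit 395) (nat_lit 219)) (XT.lf (nat_lit 0) (nat_lit 11780653812318) (nat_lit 228) (nat_lit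 4087238734986) (nat_lit 76) (nat_lit 7157346938756) (nat_lit 40) (nat_lit 5) (nat_lit 43) (nat_lit 5) (nat_lit 41) (nat_lit 5) (nat_lit 407) (nat_lit 395) (nat_lit 218)))) (XT.nd (nat_lit 52260) (nat_lit 0) (nat_lit 1900) (XT.nd (nat_lit 52182) (nat_lit 0) (nat_lit 2356) (XT.lf (nat_lit 0) (nat_lit 22143292797317) (nat_lit 152) (nat_lit 675438228233) (nat_lit 228) (nat_lit 2352472402812) (nat_lit 38) (nat_lit 5) (nat_lit 40) (nat_lit 5) (nat_lit 41) (nat_lit 5) (nat_lit 408) (nat_lit 395) (nat_lit 217)) (XT.lf (nat_lit 0) (nat_lit 4670342997156) (nat_lit 532) (nat_lit 211863585048) (nat_lit 532) (nat_lit 211863585048) (nat_lit 69) (nat_lit 3) (nat_lit 76) (nat_lit 3) (nat_lit 76) (nat_lit 5) (nat_lit 396) (nat_lit 396) (nat_lit 228))) (XT.nd (nat_lit 78) (nat_lit 456) (nat_lit 0) (XT.lf (nat_lit 76) (nat_lit 9407548391152) (nat_lit 0) (nat_lit 859940818858) (nat_lit 532) (nat_lit 666661508293)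 (nat_lit 70) (nat_lit 5) (nat_lit 69) (nat_lit 3) (nat_lit 76) (nat_lit 5) (nat_lit 397) (nat_lit 396) (nat_lit 227)) (XT.lf (nat_lit 0) (nat_lit 35188232219) (nat_lit 532) (nat_lit 2574748812066) (nat_lit 608) (nat_lit 9145329093725) (nat_lit 63) (nat_lit 5) (nat_lit 70) (nat_lit 5) (nat_lit 71) (nat_lit 5) (nat_lit 398) (nat_lit 396) (nat_lit 226)))))) (XT.nd (nat_lit 624) (nat_lit 380) (nat_lit 0) (XT.nd (nat_lit 312) (nat_lit 836) (nat_lit 0) (XT.nd (nat_lit 156) (nat_lit 608) (nat_lit 0) (XT.nd (nat_lit 78) (nat_lit 0) (nat_lit 76) (XT.lf (nat_lit 0) (nat_lit 1294895420573) (nat_lit 532) (nat_lit 3559546793733) (nat_lit 608) (nat_lit 7804357082704) (nat_lit 64) (nat_lit 5) (nat_lit 71) (nat_lit 5) (nat_lit 72) (nat_lit 5) (nat_lit 399) (nat_lit 396) (nat_lit 225)) (XT.lf (nat_lit 0) (nat_lit 3269011032115) (nat_lit 532) (nat_lit 4434876820183) (nat_lit 76) (nat_lit 5951938389966) (nat_lit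 65) (nat_lit 5) (nat_lit 72) (nat_lit 5) (nat_lit 66) (nat_lit 5) (nat_lit 400) (nat_lit 396) (nat_lit 224))) (XT.nd (nat_lit 78) (nat_lit 228) (nat_lit 0) (XT.lf (nat_lit 0) (nat_lit 6101196520088) (nat_lit 532) (nat_lit 5165281326626) (nat_lit 76) (nat_lit 3490973179818) (nat_lit 59) (nat_lit 5) (nat_lit 66) (nat_lit 5) (nat_lit 60) (nat_lit 5) (nat_lit 401) (nat_lit 396) (nat_lit 223)) (XT.lf (nat_lit 0) (nat_lit 9958681069464) (nat_lit 304) (nat_lit 5709271442922) (nat_lit 76) (nat_lit 308329316996) (nat_lit 56) (nat_lit 5) (nat_lit 60) (nat_lit 5) (nat_lit 57) (nat_lit 5) (nat_lit 402) (nat_lit 396) (nat_lit 222)))) (XT.nd (nat_lit 156) (nat_lit 380) (nat_lit 0) (XT.nd (nat_lit 78) (nat_lit 228) (nat_lit 0) (XT.lf (nat_lit 0) (nat_lit 11206098364231) (nat_lit 228) (nat_lit 3924087418765) (nat_lit 304) (nat_lit 2188919671124) (nat_lit 53) (nat_lit 5) (nat_lit 56) (nat_lit 5) (nat_lit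 57) (nat_lit 5) (nat_lit 403) (nat_lit 396) (nat_lit 221)) (XT.lf (nat_lit 0) (nat_lit 2824293216158) (nat_lit 228) (nat_lit 6331259055629) (nat_lit 76) (nat_lit 9645861603191) (nat_lit 50) (nat_lit 5) (nat_lit 53) (nat_lit 5) (nat_lit 51) (nat_lit 5) (nat_lit 404) (nat_lit 396) (nat_lit 220))) (XT.nd (nat_lit 78) (nat_lit 152) (nat_lit 0) (XT.lf (nat_lit 0) (nat_lit 9221739321359) (nat_lit 304) (nat_lit 6315894734611) (nat_lit 76) (nat_lit 4902937318007) (nat_lit 47) (nat_lit 5) (nat_lit 51) (nat_lit 5) (nat_lit 48) (nat_lit 5) (nat_lit 405) (nat_lit 396) (nat_lit 219)) (XT.lf (nat_lit 0) (nat_lit 16277823195180) (nat_lit 152) (nat_lit 1134796656815) (nat_lit 228) (nat_lit 4846277245058) (nat_lit 45) (nat_lit 5) (nat_lit 47) (nat_lit 5) (nat_lit 48) (nat_lit 5) (nat_lit 406) (nat_lit 396) (nat_lit 218))))) (XT.nd (nat_lit 52494) (nat_lit 0) (nat_lit 1216) (XT.nd (nat_lit 52338) (nat_lit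 0) (nat_lit 2204) (XT.nd (nat_lit 78) (nat_lit 152) (nat_lit 0) (XT.lf (nat_lit 0) (nat_lit 3398008253260) (nat_lit 228) (nat_lit 5478658302611) (nat_lit 76) (nat_lit 15385328224209) (nat_lit 42) (nat_lit 5) (nat_lit 45) (nat_lit 5) (nat_lit 43) (nat_lit 5) (nat_lit 407) (nat_lit 396) (nat_lit 217)) (XT.lf (nat_lit 0) (nat_lit 13547751884930) (nat_lit 228) (nat_lit 4700324544033) (nat_lit 76) (nat_lit 8230948979945) (nat_lit 40) (nat_lit 5) (nat_lit 43) (nat_lit 5) (nat_lit 41) (nat_lit 5) (nat_lit 408) (nat_lit 396) (nat_lit 216))) (XT.nd (nat_lit 78) (nat_lit 0) (nat_lit 0) (XT.lf (nat_lit 0) (nat_lit 5370894447751) (nat_lit 532) (nat_lit 243643122254) (nat_lit 532) (nat_lit 243643122254) (nat_lit 69) (nat_lit 3) (nat_lit 76) (nat_lit 3) (nat_lit 76) (nat_lit 5) (nat_lit 397) (nat_lit 397) (nat_lit 226)) (XT.lf (nat_lit 76) (nat_lit 10818680650835) (nat_lit 0) (nat_lit 988931942477) (nat_lit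 532) (nat_lit 766660732592) (nat_lit 70) (nat_lit 5) (nat_lit 69) (nat_lit 3) (nat_lit 76) (nat_lit 5) (nat_lit 398) (nat_lit 397) (nat_lit 225)))) (XT.nd (nat_lit 156) (nat_lit 532) (nat_lit 0) (XT.nd (nat_lit 78) (nat_lit 0) (nat_lit 76) (XT.lf (nat_lit 0) (nat_lit 40466468669) (nat_lit 532) (nat_lit 2960961132715) (nat_lit 608) (nat_lit 10517128457198) (nat_lit 63) (nat_lit 5) (nat_lit 70) (nat_lit 5) (nat_lit 71) (nat_lit 5) (nat_lit 399) (nat_lit 397) (nat_lit 224)) (XT.lf (nat_lit 0) (nat_lit 1489129735081) (nat_lit 532) (nat_lit 4093478811606) (nat_lit 608) (nat_lit 8975010644759) (nat_lit 64) (nat_lit 5) (nat_lit 71) (nat_lit 5) (nat_lit 72) (nat_lit 5) (nat_lit 400) (nat_lit 397) (nat_lit 223))) (XT.nd (nat_lit 78) (nat_lit 684) (nat_lit 0) (XT.lf (nat_lit 0) (nat_lit 3759362688191) (nat_lit 532) (nat_lit 5100108342018) (nat_lit 76) (nat_lit 6844729148294) (nat_lit 65) (nat_lit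 5) (nat_lit 72) (nat_lit 5) (nat_lit 66) (nat_lit 5) (nat_lit 401) (nat_lit 397) (nat_lit 222)) (XT.nd (nat_lit 78) (nat_lit 228) (nat_lit 0) (XT.lf (nat_lit 0) (nat_lit 7016375999221) (nat_lit 532) (nat_lit 5940073524436) (nat_lit 76) (nat_lit 4014619156763) (nat_lit 59) (nat_lit 5) (nat_lit 66) (nat_lit 5) (nat_lit 60) (nat_lit 5) (nat_lit 402) (nat_lit 397) (nat_lit 221)) (XT.lf (nat_lit 0) (nat_lit 11452483230886) (nat_lit 304) (nat_lit 6565662158199) (nat_lit 76) (nat_lit 354578714624) (nat_lit 56) (nat_lit 5) (nat_lit 60) (nat_lit 5) (nat_lit 57) (nat_lit 5) (nat_lit 403) (nat_lit 397) (nat_lit 220))))))))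
noncomputable def xc126 : XT := (XT.nd (nat_lit 105846) (nat_lit 0) (nat_lit 380) (XT.nd (nat_lit 52884) (nat_lit 0) (nat_lit 228) (XT.nd (nat_lit 312) (nat_lit 228) (nat_lit 0) (XT.nd (nat_lit 156) (nat_lit 380) (nat_lit 0) (XT.nd (nat_lit 78) (nat_lit 228) (nat_lit 0) (XT.lf (nat_lit 0) (nat_lit 12887013119928) (nat_lit 228) (nat_lit 4512700531414) (nat_lit 304) (nat_lit 2517257620823) (nat_lit 53) (nat_lit 5) (nat_lit 56) (nat_lit 5) (nat_lit 57) (nat_lit 5) (nat_lit 404) (nat_lit 397) (nat_lit 219)) (XT.lf (nat_lit 0) (nat_lit 3247937199412) (nat_lit 228) (nat_lit 7280947912894) (nat_lit 76) (nat_lit 11092740843853) (nat_lit 50) (nat_lit 5) (nat_lit 53) (nat_lit 5) (nat_lit 51) (nat_lit 5) (nat_lit 405) (nat_lit 397) (nat_lit 218))) (XT.nd (nat_lit 78) (nat_lit 152) (nat_lit 0) (XT.lf (nat_lit 0) (nat_lit 10605000220315) (nat_lit 304) (nat_lit 7263278943761) (nat_lit 76) (nat_lit 5638377915939)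 (nat_lit 47) (nat_lit 5) (nat_lit 51) (nat_lit 5) (nat_lit 48) (nat_lit 5) (nat_lit 406) (nat_lit 397) (nat_lit 217)) (XT.lf (nat_lit 0) (nat_lit 18719496675412) (nat_lit 152) (nat_lit 1305016155060) (nat_lit 228) (nat_lit 5573218831086) (nat_lit 45) (nat_lit 5) (nat_lit 47) (nat_lit 5) (nat_lit 48) (nat_lit 5) (nat_lit 407) (nat_lit 397) (nat_lit 216)))) (XT.nd (nat_lit 52416) (nat_lit 0) (nat_lit 1596) (XT.nd (nat_lit 52338) (nat_lit 0) (nat_lit 2052) (XT.lf (nat_lit 0) (nat_lit 3907709491882) (nat_lit 228) (nat_lit 6300457047052) (nat_lit 76) (nat_lit 17693127458108) (nat_lit 42) (nat_lit 5) (nat_lit 45) (nat_lit 5) (nat_lit 43) (nat_lit 5) (nat_lit 408) (nat_lit 397) (nat_lit 215)) (XT.lf (nat_lit 0) (nat_lit 6176528615686) (nat_lit 532) (nat_lit 280189590174) (nat_lit 532) (nat_lit 280189590174) (nat_lit 69) (nat_lit 3) (nat_lit 76) (nat_lit 3) (nat_lit 76) (nat_lit 5) (nat_lit 398)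 (nat_lit 398) (nat_lit 224))) (XT.nd (nat_lit 78) (nat_lit 456) (nat_lit 0) (XT.lf (nat_lit 76) (nat_lit 12441482749224) (nat_lit 0) (nat_lit 1137271734446) (nat_lit 532) (nat_lit 881659841009) (nat_lit 70) (nat_lit 5) (nat_lit 69) (nat_lit 3) (nat_lit 76) (nat_lit 5) (nat_lit 399) (nat_lit 398) (nat_lit 223)) (XT.lf (nat_lit 0) (nat_lit 46536440192) (nat_lit 532) (nat_lit 3405105301744) (nat_lit 608) (nat_lit 12094697725335) (nat_lit 63) (nat_lit 5) (nat_lit 70) (nat_lit 5) (nat_lit 71) (nat_lit 5) (nat_lit 400) (nat_lit 398) (nat_lit 222))))) (XT.nd (nat_lit 312) (nat_lit 836) (nat_lit 0) (XT.nd (nat_lit 156) (nat_lit 608) (nat_lit 0) (XT.nd (nat_lit 78) (nat_lit 0) (nat_lit 76) (XT.lf (nat_lit 0) (nat_lit 1712499196419) (nat_lit 532) (nat_lit 4707500632449) (nat_lit 608) (nat_lit 10321262241209) (nat_lit 64) (nat_lit 5) (nat_lit 71) (nat_lit 5) (nat_lit 72) (nat_lit 5) (nat_lit 401) (nat_lit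 398) (nat_lit 221)) (XT.lf (nat_lit 0) (nat_lit 4323267092372) (nat_lit 532) (nat_lit 5865124592419) (nat_lit 76) (nat_lit 7871438520411) (nat_lit 65) (nat_lit 5) (nat_lit 72) (nat_lit 5) (nat_lit 66) (nat_lit 5) (nat_lit 402) (nat_lit 398) (nat_lit 220))) (XT.nd (nat_lit 78) (nat_lit 228) (nat_lit 0) (XT.lf (nat_lit 0) (nat_lit 8068832399952) (nat_lit 532) (nat_lit 6831084552208) (nat_lit 76) (nat_lit 4616812030256) (nat_lit 59) (nat_lit 5) (nat_lit 66) (nat_lit 5) (nat_lit 60) (nat_lit 5) (nat_lit 403) (nat_lit 398) (nat_lit 219)) (XT.lf (nat_lit 0) (nat_lit 13170355716276) (nat_lit 304) (nat_lit 7550511481051) (nat_lit 76) (nat_lit 407765521877) (nat_lit 56) (nat_lit 5) (nat_lit 60) (nat_lit 5) (nat_lit 57) (nat_lit 5) (nat_lit 404) (nat_lit 398) (nat_lit 218)))) (XT.nd (nat_lit 156) (nat_lit 380) (nat_lit 0) (XT.nd (nat_lit 78) (nat_lit 228) (nat_lit 0) (XT.lf (nat_lit 0) (nat_lit 14820065088722)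 (nat_lit 228) (nat_lit 5189605611001) (nat_lit 304) (nat_lit 2894846263214) (nat_lit 53) (nat_lit 5) (nat_lit 56) (nat_lit 5) (nat_lit 57) (nat_lit 5) (nat_lit 405) (nat_lit 398) (nat_lit 217)) (XT.lf (nat_lit 0) (nat_lit 3735127779951) (nat_lit 228) (nat_lit 8373090099012) (nat_lit 76) (nat_lit 12756651970569) (nat_lit 50) (nat_lit 5) (nat_lit 53) (nat_lit 5) (nat_lit 51) (nat_lit 5) (nat_lit 406) (nat_lit 398) (nat_lit 216))) (XT.nd (nat_lit 78) (nat_lit 152) (nat_lit 0) (XT.lf (nat_lit 0) (nat_lit 12195750253930) (nat_lit 304) (nat_lit 8352770784537) (nat_lit 76) (nat_lit 6484134603504) (nat_lit 47) (nat_lit 5) (nat_lit 51) (nat_lit 5) (nat_lit 48) (nat_lit 5) (nat_lit 407) (nat_lit 398) (nat_lit 215)) (XT.lf (nat_lit 0) (nat_lit 21527421177445) (nat_lit 152) (nat_lit 1500768578109) (nat_lit 228) (nat_lit 6409201655196) (nat_lit 45) (nat_lit 5) (nat_lit 47) (nat_lit 5) (nat_lit 48) (nat_lit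 5) (nat_lit 408) (nat_lit 398) (nat_lit 214)))))) (XT.nd (nat_lit 624) (nat_lit 456) (nat_lit 0) (XT.nd (nat_lit 312) (nat_lit 760) (nat_lit 0) (XT.nd (nat_lit 156) (nat_lit 456) (nat_lit 0) (XT.nd (nat_lit 78) (nat_lit 0) (nat_lit 0) (XT.lf (nat_lit 0) (nat_lit 7103007908623) (nat_lit 532) (nat_lit 322218028385) (nat_lit 532) (nat_lit 322218028385) (nat_lit 69) (nat_lit 3) (nat_lit 76) (nat_lit 3) (nat_lit 76) (nat_lit 5) (nat_lit 399) (nat_lit 399) (nat_lit 222)) (XT.lf (nat_lit 76) (nat_lit 14307705162186) (nat_lit 0) (nat_lit 1307862495065) (nat_lit 532) (nat_lit 1013908816048) (nat_lit 70) (nat_lit 5) (nat_lit 69) (nat_lit 3) (nat_lit 76) (nat_lit 5) (nat_lit 400) (nat_lit 399) (nat_lit 221))) (XT.nd (nat_lit 78) (nat_lit 0) (nat_lit 76) (XT.lf (nat_lit 0) (nat_lit 53516907146) (nat_lit 532) (nat_lit 3915871096342) (nat_lit 608) (nat_lit 13908902383800) (nat_lit 63) (nat_lit 5) (nat_lit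 70) (nat_lit 5) (nat_lit 71) (nat_lit 5) (nat_lit 401) (nat_lit 399) (nat_lit 220)) (XT.lf (nat_lit 0) (nat_lit 1969374076696) (nat_lit 532) (nat_lit 5413625726638) (nat_lit 608) (nat_lit 11869451577190) (nat_lit 64) (nat_lit 5) (nat_lit 71) (nat_lit 5) (nat_lit 72) (nat_lit 5) (nat_lit 402) (nat_lit 399) (nat_lit 219)))) (XT.nd (nat_lit 156) (nat_lit 456) (nat_lit 0) (XT.nd (nat_lit 78) (nat_lit 456) (nat_lit 0) (XT.lf (nat_lit 0) (nat_lit 4971757156948) (nat_lit 532) (nat_lit 6744893280600) (nat_lit 76) (nat_lit 9052154298377) (nat_lit 65) (nat_lit 5) (nat_lit 72) (nat_lit 5) (nat_lit 66) (nat_lit 5) (nat_lit 403) (nat_lit 399) (nat_lit 218)) (XT.lf (nat_lit 0) (nat_lit 9279157260585) (nat_lit 532) (nat_lit 7855747234363) (nat_lit 76) (nat_lit 5309333834779) (nat_lit 59) (nat_lit 5) (nat_lit 66) (nat_lit 5) (nat_lit 60) (nat_lit 5) (nat_lit 404) (nat_lit 399) (nat_lit 217))) (XT.nd (nat_lit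 78) (nat_lit 228) (nat_lit 0) (XT.lf (nat_lit 0) (nat_lit 15145909074291) (nat_lit 304) (nat_lit 8683088202544) (nat_lit 76) (nat_lit 468930350203) (nat_lit 56) (nat_lit 5) (nat_lit 60) (nat_lit 5) (nat_lit 57) (nat_lit 5) (nat_lit 405) (nat_lit 399) (nat_lit 216)) (XT.lf (nat_lit 0) (nat_lit 17043074852638) (nat_lit 228) (nat_lit 5968046452556) (nat_lit 304) (nat_lit 3329073202142) (nat_lit 53) (nat_lit 5) (nat_lit 56) (nat_lit 5) (nat_lit 57) (nat_lit 5) (nat_lit 406) (nat_lit 399) (nat_lit 215))))) (XT.nd (nat_lit 52728) (nat_lit 0) (nat_lit 684) (XT.nd (nat_lit 52572) (nat_lit 0) (nat_lit 1672) (XT.nd (nat_lit 78) (nat_lit 228) (nat_lit 0) (XT.lf (nat_lit 0) (nat_lit 4295396947419) (nat_lit 228) (nat_lit 9629053613246) (nat_lit 76) (nat_lit 14670149766260) (nat_lit 50) (nat_lit 5) (nat_lit 53) (nat_lit 5) (nat_lit 51) (nat_lit 5) (nat_lit 407) (nat_lit 399) (nat_lit 214)) (XT.lf (nat_lit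 0) (nat_lit 14025112792449) (nat_lit 304) (nat_lit 9605686401621) (nat_lit 76) (nat_lit 7456754794162) (nat_lit 47) (nat_lit 5) (nat_lit 51) (nat_lit 5) (nat_lit 48) (nat_lit 5) (nat_lit 408) (nat_lit 399) (nat_lit 213))) (XT.nd (nat_lit 78) (nat_lit 0) (nat_lit 0) (XT.lf (nat_lit 0) (nat_lit 8168459095358) (nat_lit 532) (nat_lit 370550732404) (nat_lit 532) (nat_lit 370550732404) (nat_lit 69) (nat_lit 3) (nat_lit 76) (nat_lit 3) (nat_lit 76) (nat_lit 5) (nat_lit 400) (nat_lit 400) (nat_lit 220)) (XT.lf (nat_lit 76) (nat_lit 16453860936951) (nat_lit 0) (nat_lit 1504041869666) (nat_lit 532) (nat_lit 1165995137614) (nat_lit 70) (nat_lit 5) (nat_lit 69) (nat_lit 3) (nat_lit 76) (nat_lit 5) (nat_lit 401) (nat_lit 400) (nat_lit 219)))) (XT.nd (nat_lit 156) (nat_lit 532) (nat_lit 0) (XT.nd (nat_lit 78) (nat_lit 0) (nat_lit 76) (XT.lf (nat_lit 0) (nat_lit 61544443917) (nat_lit 532) (nat_lit 4503251760291)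 (nat_lit 608) (nat_lit 15995237741117) (nat_lit 63) (nat_lit 5) (nat_lit 70) (nat_lit 5) (nat_lit 71) (nat_lit 5) (nat_lit 402) (nat_lit 400) (nat_lit 218)) (XT.lf (nat_lit 0) (nat_lit 2264780188815) (nat_lit 532) (nat_lit 6225669585121) (nat_lit 608) (nat_lit 13649869313617) (nat_lit 64) (nat_lit 5) (nat_lit 71) (nat_lit 5) (nat_lit 72) (nat_lit 5) (nat_lit 403) (nat_lit 400) (nat_lit 217))) (XT.nd (nat_lit 78) (nat_lit 684) (nat_lit 0) (XT.lf (nat_lit 0) (nat_lit 5717520731035) (nat_lit 532) (nat_lit 7756627272174) (nat_lit 76) (nat_lit 10409977443061) (nat_lit 65) (nat_lit 5) (nat_lit 72) (nat_lit 5) (nat_lit 66) (nat_lit 5) (nat_lit 404) (nat_lit 400) (nat_lit 216)) (XT.nd (nat_lit 78) (nat_lit 228) (nat_lit 0) (XT.lf (nat_lit 0) (nat_lit 10671030850158) (nat_lit 532) (nat_lit 9034109319005) (nat_lit 76) (nat_lit 6105733909984) (nat_lit 59) (nat_lit 5) (nat_lit 66) (nat_lit 5) (nat_lit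 60) (nat_lit 5) (nat_lit 405) (nat_lit 400) (nat_lit 215)) (XT.lf (nat_lit 0) (nat_lit 17417795435868) (nat_lit 304) (nat_lit 9985551432424) (nat_lit 76) (nat_lit 539269902768) (nat_lit 56) (nat_lit 5) (nat_lit 60) (nat_lit 5) (nat_lit 57) (nat_lit 5) (nat_lit 406) (nat_lit 400) (nat_lit 214))))))))
noncomputable def xc127 : XT := (XT.nd (nat_lit 159042) (nat_lit 0) (nat_lit 684) (XT.nd (nat_lit 53118) (nat_lit 0) (nat_lit 228) (XT.nd (nat_lit 52806) (nat_lit 0) (nat_lit 684) (XT.nd (nat_lit 52650) (nat_lit 0) (nat_lit 1444) (XT.nd (nat_lit 78) (nat_lit 228) (nat_lit 0) (XT.lf (nat_lit 0) (nat_lit 19599536080993) (nat_lit 228) (nat_lit 6863253420368) (nat_lit 304) (nat_lit 3828434182044) (nat_lit 53) (nat_lit 5) (nat_lit 56) (nat_lit 5) (nat_lit 57) (nat_lit 5) (nat_lit 407) (nat_lit 400) (nat_lit 213)) (XT.lf (nat_lit 0) (nat_lit 4939706489891) (nat_lit 228) (nat_lit 11073411654766) (nat_lit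 76) (nat_lit 16870672231278) (nat_lit 50) (nat_lit 5) (nat_lit 53) (nat_lit 5) (nat_lit 51) (nat_lit 5) (nat_lit 408) (nat_lit 400) (nat_lit 212))) (XT.nd (nat_lit 78) (nat_lit 0) (nat_lit 0) (XT.lf (nat_lit 0) (nat_lit 9393727959995) (nat_lit 532) (nat_lit 426133342084) (nat_lit 532) (nat_lit 426133342084) (nat_lit 69) (nat_lit 3) (nat_lit 76) (nat_lit 3) (nat_lit 76) (nat_lit 5) (nat_lit 401) (nat_lit 401) (nat_lit 218)) (XT.lf (nat_lit 76) (nat_lit 18921940077824) (nat_lit 0) (nat_lit 1729648150375) (nat_lit 532) (nat_lit 1340894407620) (nat_lit 70) (nat_lit 5) (nat_lit 69) (nat_lit 3) (nat_lit 76) (nat_lit 5) (nat_lit 402) (nat_lit 401) (nat_lit 217)))) (XT.nd (nat_lit 156) (nat_lit 304) (nat_lit 0) (XT.nd (nat_lit 78) (nat_lit 0) (nat_lit 76) (XT.lf (nat_lit 0) (nat_lit 70776111033) (nat_lit 532) (nat_lit 5178739523955) (nat_lit 608) (nat_lit 18394523402093) (nat_lit 63) (nat_lit 5)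 (nat_lit 70) (nat_lit 5) (nat_lit 71) (nat_lit 5) (nat_lit 403) (nat_lit 401) (nat_lit 216)) (XT.lf (nat_lit 0) (nat_lit 2604497217603) (nat_lit 532) (nat_lit 7159520022501) (nat_lit 608) (nat_lit 15697349710545) (nat_lit 64) (nat_lit 5) (nat_lit 71) (nat_lit 5) (nat_lit 72) (nat_lit 5) (nat_lit 404) (nat_lit 401) (nat_lit 215))) (XT.nd (nat_lit 78) (nat_lit 456) (nat_lit 0) (XT.lf (nat_lit 0) (nat_lit 6575148841101) (nat_lit 532) (nat_lit 8920121362610) (nat_lit 76) (nat_lit 11971474059465) (nat_lit 65) (nat_lit 5) (nat_lit 72) (nat_lit 5) (nat_lit 66) (nat_lit 5) (nat_lit 405) (nat_lit 401) (nat_lit 214)) (XT.lf (nat_lit 0) (nat_lit 12271685478048) (nat_lit 532) (nat_lit 10389225716470) (nat_lit 76) (nat_lit 7021593996473) (nat_lit 59) (nat_lit 5) (nat_lit 66) (nat_lit 5) (nat_lit 60) (nat_lit 5) (nat_lit 406) (nat_lit 401) (nat_lit 213))))) (XT.nd (nat_lit 52884) (nat_lit 0) (nat_lit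 228) (XT.nd (nat_lit 52728) (nat_lit 0) (nat_lit 1216) (XT.nd (nat_lit 78) (nat_lit 228) (nat_lit 0) (XT.lf (nat_lit 0) (nat_lit 20030464751576) (nat_lit 304) (nat_lit 11483384146908) (nat_lit 76) (nat_lit 620160388208) (nat_lit 56) (nat_lit 5) (nat_lit 60) (nat_lit 5) (nat_lit 57) (nat_lit 5) (nat_lit 407) (nat_lit 401) (nat_lit 212)) (XT.lf (nat_lit 0) (nat_lit 22539466493490) (nat_lit 228) (nat_lit 7892741433369) (nat_lit 304) (nat_lit 4402699309034) (nat_lit 53) (nat_lit 5) (nat_lit 56) (nat_lit 5) (nat_lit 57) (nat_lit 5) (nat_lit 408) (nat_lit 401) (nat_lit 211))) (XT.nd (nat_lit 78) (nat_lit 0) (nat_lit 0) (XT.lf (nat_lit 0) (nat_lit 10802787154247) (nat_lit 532) (nat_lit 490053343261) (nat_lit 532) (nat_lit 490053343261) (nat_lit 69) (nat_lit 3) (nat_lit 76) (nat_lit 3) (nat_lit 76) (nat_lit 5) (nat_lit 402) (nat_lit 402) (nat_lit 216)) (XT.lf (nat_lit 76) (nat_lit 21760231089747)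 (nat_lit 0) (nat_lit 1989095373127) (nat_lit 532) (nat_lit 1542028568282) (nat_lit 70) (nat_lit 5) (nat_lit 69) (nat_lit 3) (nat_lit 76) (nat_lit 5) (nat_lit 403) (nat_lit 402) (nat_lit 215)))) (XT.nd (nat_lit 156) (nat_lit 532) (nat_lit 0) (XT.nd (nat_lit 78) (nat_lit 0) (nat_lit 76) (XT.lf (nat_lit 0) (nat_lit 81392528088) (nat_lit 532) (nat_lit 5955550452261) (nat_lit 608) (nat_lit 21153701912262) (nat_lit 63) (nat_lit 5) (nat_lit 70) (nat_lit 5) (nat_lit 71) (nat_lit 5) (nat_lit 404) (nat_lit 402) (nat_lit 214)) (XT.lf (nat_lit 0) (nat_lit 2995171800595) (nat_lit 532) (nat_lit 8233448025582) (nat_lit 608) (nat_lit 18051952167040) (nat_lit 64) (nat_lit 5) (nat_lit 71) (nat_lit 5) (nat_lit 72) (nat_lit 5) (nat_lit 405) (nat_lit 402) (nat_lit 213))) (XT.nd (nat_lit 78) (nat_lit 684) (nat_lit 0) (XT.lf (nat_lit 0) (nat_lit 7561421167578) (nat_lit 532) (nat_lit 10258139566707) (nat_lit 76)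 (nat_lit 13767195168344) (nat_lit 65) (nat_lit 5) (nat_lit 72) (nat_lit 5) (nat_lit 66) (nat_lit 5) (nat_lit 406) (nat_lit 402) (nat_lit 212)) (XT.nd (nat_lit 78) (nat_lit 228) (nat_lit 0) (XT.lf (nat_lit 0) (nat_lit 14112438300032) (nat_lit 532) (nat_lit 11947609573648) (nat_lit 76) (nat_lit 8074833095937) (nat_lit 59) (nat_lit 5) (nat_lit 66) (nat_lit 5) (nat_lit 60) (nat_lit 5) (nat_lit 407) (nat_lit 402) (nat_lit 211)) (XT.lf (nat_lit 0) (nat_lit 23035034464560) (nat_lit 304) (nat_lit 13205891768657) (nat_lit 76) (nat_lit 713184446459) (nat_lit 56) (nat_lit 5) (nat_lit 60) (nat_lit 5) (nat_lit 57) (nat_lit 5) (nat_lit 408) (nat_lit 402) (nat_lit 210))))))) (XT.nd (nat_lit 53352) (nat_lit 0) (nat_lit 304) (XT.nd (nat_lit 312) (nat_lit 304) (nat_lit 0) (XT.nd (nat_lit 156) (nat_lit 456) (nat_lit 0) (XT.nd (nat_lit 78) (nat_lit 0) (nat_lit 0) (XT.lf (nat_lit 0) (nat_lit 12423205227575)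 (nat_lit 532) (nat_lit 563561344647) (nat_lit 532) (nat_lit 563561344647) (nat_lit 69) (nat_lit 3) (nat_lit 76) (nat_lit 3) (nat_lit 76) (nat_lit 5) (nat_lit 403) (nat_lit 403) (nat_lit 214)) (XT.lf (nat_lit 76) (nat_lit 25024265753398) (nat_lit 0) (nat_lit 2287459679243) (nat_lit 532) (nat_lit 1773332853161) (nat_lit 70) (nat_lit 5) (nat_lit 69) (nat_lit 3) (nat_lit 76) (nat_lit 5) (nat_lit 404) (nat_lit 403) (nat_lit 213))) (XT.nd (nat_lit 78) (nat_lit 0) (nat_lit 76) (XT.lf (nat_lit 0) (nat_lit 93601407603) (nat_lit 532) (nat_lit 6848883019883) (nat_lit 608) (nat_lit 24326757198992) (nat_lit 63) (nat_lit 5) (nat_lit 70) (nat_lit 5) (nat_lit 71) (nat_lit 5) (nat_lit 405) (nat_lit 403) (nat_lit 212)) (XT.lf (nat_lit 0) (nat_lit 3444447570950) (nat_lit 532) (nat_lit 9468465229198) (nat_lit 608) (nat_lit 20759744992031) (nat_lit 64) (nat_lit 5) (nat_lit 71) (nat_lit 5) (nat_lit 72) (nat_lit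 5) (nat_lit 406) (nat_lit 403) (nat_lit 211)))) (XT.nd (nat_lit 52884) (nat_lit 0) (nat_lit 760) (XT.nd (nat_lit 78) (nat_lit 456) (nat_lit 0) (XT.lf (nat_lit 0) (nat_lit 8695634342950) (nat_lit 532) (nat_lit 11796860501490) (nat_lit 76) (nat_lit 15832274443564) (nat_lit 65) (nat_lit 5) (nat_lit 72) (nat_lit 5) (nat_lit 66) (nat_lit 5) (nat_lit 407) (nat_lit 403) (nat_lit 210)) (XT.lf (nat_lit 0) (nat_lit 16229304045246) (nat_lit 532) (nat_lit 13739751009474) (nat_lit 76) (nat_lit 9286058060322) (nat_lit 59) (nat_lit 5) (nat_lit 66) (nat_lit 5) (nat_lit 60) (nat_lit 5) (nat_lit 408) (nat_lit 403) (nat_lit 209))) (XT.nd (nat_lit 78) (nat_lit 0) (nat_lit 0) (XT.lf (nat_lit 0) (nat_lit 14286686011856) (nat_lit 532) (nat_lit 648095546266) (nat_lit 532) (nat_lit 648095546266) (nat_lit 69) (nat_lit 3) (nat_lit 76) (nat_lit 3) (nat_lit 76) (nat_lit 5) (nat_lit 404) (nat_lit 404) (nat_lit 212))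 (XT.lf (nat_lit 76) (nat_lit 28777905616551) (nat_lit 0) (nat_lit 2630578631241) (nat_lit 532) (nat_lit 2039332780860) (nat_lit 70) (nat_lit 5) (nat_lit 69) (nat_lit 3) (nat_lit 76) (nat_lit 5) (nat_lit 405) (nat_lit 404) (nat_lit 211))))) (XT.nd (nat_lit 53118) (nat_lit 0) (nat_lit 0) (XT.nd (nat_lit 156) (nat_lit 0) (nat_lit 152) (XT.nd (nat_lit 78) (nat_lit 0) (nat_lit 76) (XT.lf (nat_lit 0) (nat_lit 107641618972) (nat_lit 532) (nat_lit 7876215472702) (nat_lit 608) (nat_lit 27975770778757) (nat_lit 63) (nat_lit 5) (nat_lit 70) (nat_lit 5) (nat_lit 71) (nat_lit 5) (nat_lit 406) (nat_lit 404) (nat_lit 210)) (XT.lf (nat_lit 0) (nat_lit 3961114706794) (nat_lit 532) (nat_lit 10888735013410) (nat_lit 608) (nat_lit 23873706740786) (nat_lit 64) (nat_lit 5) (nat_lit 71) (nat_lit 5) (nat_lit 72) (nat_lit 5) (nat_lit 407) (nat_lit 404) (nat_lit 209))) (XT.nd (nat_lit 52884) (nat_lit 0) (nat_lit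 304) (XT.lf (nat_lit 0) (nat_lit 9999979494571) (nat_lit 532) (nat_lit 13566389576545) (nat_lit 76) (nat_lit 18207115610075) (nat_lit 65) (nat_lit 5) (nat_lit 72) (nat_lit 5) (nat_lit 66) (nat_lit 5) (nat_lit 408) (nat_lit 404) (nat_lit 208)) (XT.lf (nat_lit 0) (nat_lit 16429688913744) (nat_lit 532) (nat_lit 745309878147) (nat_lit 532) (nat_lit 745309878147) (nat_lit 69) (nat_lit 3) (nat_lit 76) (nat_lit 3) (nat_lit 76) (nat_lit 5) (nat_lit 405) (nat_lit 405) (nat_lit 210)))) (XT.nd (nat_lit 156) (nat_lit 0) (nat_lit 76) (XT.nd (nat_lit 78) (nat_lit 456) (nat_lit 0) (XT.lf (nat_lit 76) (nat_lit 33094591459141) (nat_lit 0) (nat_lit 3025165426012) (nat_lit 532) (nat_lit 2345232697781) (nat_lit 70) (nat_lit 5) (nat_lit 69) (nat_lit 3) (nat_lit 76) (nat_lit 5) (nat_lit 406) (nat_lit 405) (nat_lit 209)) (XT.lf (nat_lit 0) (nat_lit 123787861991) (nat_lit 532) (nat_lit 9057647793483) (nat_lit 608)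 (nat_lit 32172136395508) (nat_lit 63) (nat_lit 5) (nat_lit 70) (nat_lit 5) (nat_lit 71) (nat_lit 5) (nat_lit 407) (nat_lit 405) (nat_lit 208))) (XT.nd (nat_lit 53040) (nat_lit 0) (nat_lit 380) (XT.lf (nat_lit 0) (nat_lit 4555281912965) (nat_lit 532) (nat_lit 12522045265295) (nat_lit 608) (nat_lit 27454762751867) (nat_lit 64) (nat_lit 5) (nat_lit 71) (nat_lit 5) (nat_lit 72) (nat_lit 5) (nat_lit 408) (nat_lit 405) (nat_lit 207)) (XT.nd (nat_lit 53118) (nat_lit 0) (nat_lit 0) (XT.lf (nat_lit 76) (nat_lit 38058780178094) (nat_lit 0) (nat_lit 3478940239978) (nat_lit 532) (nat_lit 2697017602291) (nat_lit 70) (nat_lit 5) (nat_lit 69) (nat_lit 3) (nat_lit 76) (nat_lit 5) (nat_lit 407) (nat_lit 406) (nat_lit 207)) (XT.lf (nat_lit 0) (nat_lit 21728263588583) (nat_lit 532) (nat_lit 985672313764) (nat_lit 532) (nat_lit 985672313764) (nat_lit 69) (nat_lit 3) (nat_lit 76) (nat_lit 3) (nat_lit 76) (nat_lit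 5) (nat_lit 407) (nat_lit 407) (nat_lit 206))))))))

set_option maxRecDepth 10000000 in
noncomputable def Tp : PT := (PT.nd (nat_lit 9149712) (PT.nd (nat_lit 8831082) pc0 pc1) (PT.nd (nat_lit 211458) pc2 pc3))

set_option maxRecDepth 10000000 in
noncomputable def Tx : XT := (XT.nd (nat_lit 16021122) (nat_lit 0) (nat_lit 76) XT.nil (XT.nd (nat_lit 5629728) (nat_lit 0) (nat_lit 0) (XT.nd (nat_lit 2491866) (nat_lit 0) (nat_lit 0) (XT.nd (nat_lit 1697514) (nat_lit 0) (nat_lit 0) (XT.nd (nat_lit 1168518) (nat_lit 0) (nat_lit 0) (XT.nd (nat_lit 847782) (nat_lit 0) (nat_lit 0) (XT.nd (nat_lit 583128) (nat_lit 0) (nat_lit 0) (XT.nd (nat_lit 371748) (nat_lit 0) (nat_lit 0) (XT.nd (nat_lit 265122) (nat_lit 0) (nat_lit 0) xc0 xc1) (XT.nd (nat_lit 106002) (nat_lit 0) (nat_lit 0) xc2 xc3)) (XT.nd (nat_lit 107328) (nat_lit 0) (nat_lit 0) (XT.nd (nat_lit 53742) (nat_lit 0) (nat_lit 0) xc4 xc5) (XT.nd (nat_lit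 104130) (nat_lit 0) (nat_lit 0) xc6 xc7))) (XT.nd (nat_lit 161070) (nat_lit 0) (nat_lit 0) (XT.nd (nat_lit 105768) (nat_lit 0) (nat_lit 0) (XT.nd (nat_lit 52962) (nat_lit 0) (nat_lit 0) xc8 xc9) (XT.nd (nat_lit 2574) (nat_lit 0) (nat_lit 0) xc10 xc11)) (XT.nd (nat_lit 104832) (nat_lit 0) (nat_lit 0) (XT.nd (nat_lit 52494) (nat_lit 0) (nat_lit 0) xc12 xc13) (XT.nd (nat_lit 52182) (nat_lit 0) (nat_lit 0) xc14 xc15)))) (XT.nd (nat_lit 315120) (nat_lit 0) (nat_lit 0) (XT.nd (nat_lit 158262) (nat_lit 0) (nat_lit 0) (XT.nd (nat_lit 103896) (nat_lit 0) (nat_lit 0) (XT.nd (nat_lit 52026) (nat_lit 0) (nat_lit 0) xc16 xc17) (XT.nd (nat_lit 51714) (nat_lit 0) (nat_lit 0) xc18 xc19)) (XT.nd (nat_lit 54132) (nat_lit 0) (nat_lit 0) (XT.nd (nat_lit 51558) (nat_lit 0) (nat_lit 0) xc20 xc21) (XT.nd (nat_lit 51402) (nat_lit 0) (nat_lit 0) xc22 xc23))) (XT.nd (nat_lit 107250) (nat_lit 0) (nat_lit 0) (XT.nd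 (nat_lit 53664) (nat_lit 0) (nat_lit 0) (XT.nd (nat_lit 2574) (nat_lit 0) (nat_lit 0) xc24 xc25) (XT.nd (nat_lit 2574) (nat_lit 0) (nat_lit 0) xc26 xc27)) (XT.nd (nat_lit 53352) (nat_lit 0) (nat_lit 0) (XT.nd (nat_lit 2574) (nat_lit 0) (nat_lit 0) xc28 xc29) (XT.nd (nat_lit 50622) (nat_lit 0) (nat_lit 0) xc30 xc31))))) (XT.nd (nat_lit 373776) (nat_lit 0) (nat_lit 0) (XT.nd (nat_lit 211458) (nat_lit 0) (nat_lit 0) (XT.nd (nat_lit 105924) (nat_lit 0) (nat_lit 0) (XT.nd (nat_lit 53040) (nat_lit 0) (nat_lit 0) (XT.nd (nat_lit 50466) (nat_lit 0) (nat_lit 0) xc32 xc33) (XT.nd (nat_lit 50310) (nat_lit 0) (nat_lit 76) xc34 xc35)) (XT.nd (nat_lit 52806) (nat_lit 0) (nat_lit 0) (XT.nd (nat_lit 50232) (nat_lit 0) (nat_lit 76) xc36 xc37) (XT.nd (nat_lit 2574) (nat_lit 0) (nat_lit 0) xc38 xc39))) (XT.nd (nat_lit 104910) (nat_lit 0) (nat_lit 0) (XT.nd (nat_lit 52494) (nat_lit 0) (nat_lit 0) (XT.nd (nat_lit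 2574) (nat_lit 0) (nat_lit 0) xc40 xc41) (XT.nd (nat_lit 2574) (nat_lit 0) (nat_lit 0) xc42 xc43)) (XT.nd (nat_lit 52182) (nat_lit 0) (nat_lit 0) (XT.nd (nat_lit 2574) (nat_lit 0) (nat_lit 0) xc44 xc45) (XT.nd (nat_lit 2574) (nat_lit 304) (nat_lit 0) xc46 xc47)))) (XT.nd (nat_lit 209664) (nat_lit 0) (nat_lit 0) (XT.nd (nat_lit 104676) (nat_lit 0) (nat_lit 0) (XT.nd (nat_lit 52260) (nat_lit 0) (nat_lit 0) (XT.nd (nat_lit 49686) (nat_lit 0) (nat_lit 0) xc48 xc49) (XT.nd (nat_lit 49764) (nat_lit 0) (nat_lit 0) xc50 xc51)) (XT.nd (nat_lit 52416) (nat_lit 0) (nat_lit 0) (XT.nd (nat_lit 49842) (nat_lit 0) (nat_lit 228) xc52 xc53) (XT.nd (nat_lit 49920) (nat_lit 0) (nat_lit 608) xc54 xc55))) (XT.nd (nat_lit 105300) (nat_lit 0) (nat_lit 0) (XT.nd (nat_lit 52572) (nat_lit 0) (nat_lit 0) (XT.nd (nat_lit 2574) (nat_lit 0) (nat_lit 0) xc56 xc57) (XT.nd (nat_lit 2574) (nat_lit 0) (nat_lit 0) xc58 xc59))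 (XT.nd (nat_lit 52728) (nat_lit 0) (nat_lit 0) (XT.nd (nat_lit 2574) (nat_lit 0) (nat_lit 0) xc60 xc61) (XT.nd (nat_lit 2574) (nat_lit 76) (nat_lit 0) xc62 xc63)))))) (XT.nd (nat_lit 906906) (nat_lit 0) (nat_lit 76) (XT.nd (nat_lit 426114) (nat_lit 0) (nat_lit 0) (XT.nd (nat_lit 212394) (nat_lit 0) (nat_lit 0) (XT.nd (nat_lit 106002) (nat_lit 0) (nat_lit 0) (XT.nd (nat_lit 52962) (nat_lit 0) (nat_lit 0) (XT.nd (nat_lit 2574) (nat_lit 228) (nat_lit 0) xc64 xc65) (XT.nd (nat_lit 2574) (nat_lit 304) (nat_lit 0) xc66 xc67)) (XT.nd (nat_lit 53118) (nat_lit 0) (nat_lit 0) (XT.nd (nat_lit 2574) (nat_lit 380) (nat_lit 0) xc68 xc69) (XT.nd (nat_lit 2574) (nat_lit 456) (nat_lit 0) xc70 xc71))) (XT.nd (nat_lit 106704) (nat_lit 0) (nat_lit 0) (XT.nd (nat_lit 53274) (nat_lit 0) (nat_lit 0) (XT.nd (nat_lit 2574) (nat_lit 380) (nat_lit 0) xc72 xc73) (XT.nd (nat_lit 2574) (nat_lit 304) (nat_lit 0) xc74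 xc75)) (XT.nd (nat_lit 53430) (nat_lit 0) (nat_lit 0) (XT.nd (nat_lit 2574) (nat_lit 228) (nat_lit 0) xc76 xc77) (XT.nd (nat_lit 2574) (nat_lit 76) (nat_lit 0) xc78 xc79)))) (XT.nd (nat_lit 215046) (nat_lit 0) (nat_lit 0) (XT.nd (nat_lit 107328) (nat_lit 0) (nat_lit 0) (XT.nd (nat_lit 53586) (nat_lit 0) (nat_lit 0) (XT.nd (nat_lit 2574) (nat_lit 76) (nat_lit 0) xc80 xc81) (XT.nd (nat_lit 2574) (nat_lit 0) (nat_lit 0) xc82 xc83)) (XT.nd (nat_lit 53742) (nat_lit 0) (nat_lit 0) (XT.nd (nat_lit 51168) (nat_lit 0) (nat_lit 456) xc84 xc85) (XT.nd (nat_lit 51324) (nat_lit 0) (nat_lit 76) xc86 xc87))) (XT.nd (nat_lit 157092) (nat_lit 0) (nat_lit 0) (XT.nd (nat_lit 102882) (nat_lit 0) (nat_lit 0) (XT.nd (nat_lit 51402) (nat_lit 0) (nat_lit 0) xc88 xc89) (XT.nd (nat_lit 2574) (nat_lit 608) (nat_lit 0) xc90 xc91)) (XT.nd (nat_lit 54210) (nat_lit 0) (nat_lit 0) (XT.nd (nat_lit 2574) (nat_lit 76) (nat_lit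 0) xc92 xc93) (XT.nd (nat_lit 51792) (nat_lit 0) (nat_lit 228) xc94 xc95))))) (XT.nd (nat_lit 688896) (nat_lit 0) (nat_lit 380) (XT.nd (nat_lit 317694) (nat_lit 0) (nat_lit 152) (XT.nd (nat_lit 158496) (nat_lit 0) (nat_lit 0) (XT.nd (nat_lit 103818) (nat_lit 0) (nat_lit 0) (XT.nd (nat_lit 51870) (nat_lit 0) (nat_lit 0) xc96 xc97) (XT.nd (nat_lit 2574) (nat_lit 152) (nat_lit 0) xc98 xc99)) (XT.nd (nat_lit 104286) (nat_lit 0) (nat_lit 0) (XT.nd (nat_lit 52104) (nat_lit 0) (nat_lit 0) xc100 xc101) (XT.nd (nat_lit 2574) (nat_lit 456) (nat_lit 0) xc102 xc103))) (XT.nd (nat_lit 160056) (nat_lit 0) (nat_lit 76) (XT.nd (nat_lit 104832) (nat_lit 0) (nat_lit 0) (XT.nd (nat_lit 52338) (nat_lit 0) (nat_lit 0) xc104 xc105) (XT.nd (nat_lit 2574) (nat_lit 228) (nat_lit 0) xc106 xc107)) (XT.nd (nat_lit 105378) (nat_lit 0) (nat_lit 76) (XT.nd (nat_lit 52650) (nat_lit 0) (nat_lit 0) xc108 xc109) (XT.nd (nat_lit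 52806) (nat_lit 0) (nat_lit 76) xc110 xc111)))) (XT.nd (nat_lit 426426) (nat_lit 0) (nat_lit 836) (XT.nd (nat_lit 212394) (nat_lit 0) (nat_lit 380) (XT.nd (nat_lit 106002) (nat_lit 0) (nat_lit 152) (XT.nd (nat_lit 52962) (nat_lit 0) (nat_lit 76) xc112 xc113) (XT.nd (nat_lit 53118) (nat_lit 0) (nat_lit 76) xc114 xc115)) (XT.nd (nat_lit 106782) (nat_lit 0) (nat_lit 152) (XT.nd (nat_lit 53352) (nat_lit 0) (nat_lit 76) xc116 xc117) (XT.nd (nat_lit 53508) (nat_lit 0) (nat_lit 228) xc118 xc119))) (XT.nd (nat_lit 370812) (nat_lit 0) (nat_lit 912) (XT.nd (nat_lit 158964) (nat_lit 0) (nat_lit 380) (XT.nd (nat_lit 104988) (nat_lit 0) (nat_lit 304) xc120 xc121) (XT.nd (nat_lit 105690) (nat_lit 0) (nat_lit 304) xc122 xc123)) (XT.nd (nat_lit 213330) (nat_lit 0) (nat_lit 912) (XT.nd (nat_lit 106470) (nat_lit 0) (nat_lit 608) xc124 xc125) (XT.nd (nat_lit 159588) (nat_lit 0) (nat_lit 608) xc126 xc127)))))))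 XT.nil))

set_option maxRecDepth 10000000 in
noncomputable def Te : XT := XT.nil

set_option maxRecDepth 10000000 in
noncomputable def Tz : ZL := (ZL.cons (nat_lit 76) (nat_lit 3) (nat_lit 172495197269016366077) (ZL.cons (nat_lit 152) (nat_lit 6) (nat_lit 322857859214578115058) (ZL.cons (nat_lit 228) (nat_lit 6) (nat_lit 303683876524776964796) (ZL.cons (nat_lit 304) (nat_lit 3) (nat_lit 150381837580488096491) (ZL.cons (nat_lit 380) (nat_lit 6) (nat_lit 281633796431505641996) (ZL.cons (nat_lit 456) (nat_lit 6) (nat_lit 265093942790155081756) (ZL.cons (nat_lit 532) (nat_lit 3) (nat_lit 131277318628207640089) (ZL.cons (nat_lit 608) (nat_lit 6) (nat_lit 246073111102601937482) (ZL.cons (nat_lit 684) (nat_lit 6) (nat_lit 231866753327925787634) (ZL.cons (nat_lit 760) (nat_lit 3) (nat_lit 114829330779728197479) (ZL.cons (nat_lit 836) (nat_lit 6) (nat_lit 215529441887048215310) (ZL.cons (nat_lit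 912) (nat_lit 6) (nat_lit 203409010830917238504) (ZL.cons (nat_lit 988) (nat_lit 3) (nat_lit 100744465516124100696) (ZL.cons (nat_lit 1064) (nat_lit 6) (nat_lit 189470515116366615174) (ZL.cons (nat_lit 1140) (nat_lit 6) (nat_lit 179239051219310121276) (ZL.cons (nat_lit 1216) (nat_lit 3) (nat_lit 88784708305885914068) (ZL.cons (nat_lit 1292) (nat_lit 6) (nat_lit 167472867737695153290) (ZL.cons (nat_lit 1368) (nat_lit 6) (nat_lit 158983327320513351348) (ZL.cons (nat_lit 1444) (nat_lit 3) (nat_lit 78765735570022635179) (ZL.cons (nat_lit 1520) (nat_lit 6) (nat_lit 149220355840754279116) (ZL.cons (nat_lit 1596) (nat_lit 6) (nat_lit 142376913062227355818) (ZL.cons (nat_lit 1672) (nat_lit 3) (nat_lit 70557214713518860088) (ZL.cons (nat_lit 1748) (nat_lit 6) (nat_lit 136867249358797669366) (ZL.cons (nat_lit 1824) (nat_lit 6) (nat_lit 134506953866921394030) (ZL.cons (nat_lit 1900) (nat_lit 6) (nat_lit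 129268652464663894298) (ZL.cons (nat_lit 1976) (nat_lit 3) (nat_lit 64085420303988627302) (ZL.cons (nat_lit 2052) (nat_lit 6) (nat_lit 125297036714568878594) (ZL.cons (nat_lit 2128) (nat_lit 6) (nat_lit 123244605852067769606) (ZL.cons (nat_lit 2204) (nat_lit 3) (nat_lit 60160248104228468906) (ZL.cons (nat_lit 2280) (nat_lit 6) (nat_lit 120866302723336155254) (ZL.cons (nat_lit 2356) (nat_lit 6) (nat_lit 122514401091091009652) (ZL.cons (nat_lit 2432) (nat_lit 6) (nat_lit 119631866745272970840) (ZL.cons (nat_lit 2508) (nat_lit 3) (nat_lit 59338623869729250773) (ZL.cons (nat_lit 2584) (nat_lit 6) (nat_lit 116088455254600033884) (ZL.cons (nat_lit 2660) (nat_lit 6) (nat_lit 117261939261590351380) (ZL.cons (nat_lit 2736) (nat_lit 6) (nat_lit 115477216772458952262) (ZL.cons (nat_lit 2812) (nat_lit 3) (nat_lit 56477113078714884825) (ZL.cons (nat_lit 2888) (nat_lit 6) (nat_lit 113581903649540869704)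 (ZL.cons (nat_lit 2964) (nat_lit 3) (nat_lit 56375900083111969940) (ZL.cons (nat_lit 3040) (nat_lit 6) (nat_lit 111402293558185074764) (ZL.cons (nat_lit 3116) (nat_lit 1) (nat_lit 18446744073709551617) ZL.nil)))))))))))))))))))))))))))))))))))))))))

noncomputable def vl : XL := ⟨(nat_lit 0), (nat_lit 76), (nat_lit 293870060), (nat_lit 152), (nat_lit 25938819), (nat_lit 152), (nat_lit 25938819), (nat_lit 1), (nat_lit 4), (nat_lit 2), (nat_lit 5), (nat_lit 2), (nat_lit 4), (nat_lit 0), (nat_lit 0), (nat_lit 0)⟩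

noncomputable def cp0 : Nat := (nat_lit 569651032715475534206261003550534493005382910163235947796013694983992266466810690503605585391219431850366385730853885377569122496263826052807769223174861311118364649890060801631260067078971928605541373050392268013167967266407317283590310787302687015950269780497349208471950866277680706286408026285735194584954652637664670915074571149145774926465383010633702116074852524920587954987805629523622701065075469091929115583050276646001849706885360200836601171766470775504296904698536098596811131182133984532585016666360410034528360098325427642801810440182359403242446107724220629283159043928119237750263433307964201559852846139784637551992606293971510331147981535516880773356121959591768200597106214103152742680045407874360189399726351576110113317332490871001603292684690938400356309595671700380199263624878756396850121491944253018448852055038734256994029010649857582127517969829709864474103095147243009206816915346730043999812744462029826052384317599037974904832)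

noncomputable def cp1 : Nat := (nat_lit 250699401241322219325218195603542267120293011867828210366734446650783405505770589192227499160697028492272350009759166875704535194909873250276288066780434313820438385526584950084442272185576449807370334608014578836439319809911101821543733664587744339063726369772262288676382174787642867608090996454904780672871514273160117632826821240502919748921614207179263871528505167899238709281795778611731379583445052537024149015198560408896242119283941943453319913484934429703754166288016602665819800504108882032297143342882887385102837871562166413573302723798039800105951076422354686333232331038903254379480559250566740036428149590400721969136409268351364661966048792526693252388206038591987705538998199603830574508470889082063475801657139723072545313396529592389124763581584853734728232396333496417744207842481490560862745367273043507591531243184035405070642538335750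66114681489957489878263555033272481304041162815477240688351969588483013273426811496677239237833331774243556019804988364079383628056884804787550581748275126598220725250815618726688702430466311417292441089920449844673966635806044034548678381356801405257049575773269370071858585365661541572057654791055140545036634212603875945423522991476339913429588556071127680665072387729524088695310109369156897605991266507080025456932413685780623041254895842315757765664394656858827156701865549189237237800827548719450050523476512136279393323925149359329252377290640449190789588587050929140943152950240385247007666771770899002664136331341830339571543978290985236215247445237227415027155443330660818389946060775461319963684997238874316602073052322391873646502898613114233263355453912097538193481542890977688834192323791290087461759678940918607640062633659556050367978218248289835900277806730460752378821483693840792284188689304995845912459015673190562094876189452433261966594694907896840908245590878970596479694115958689214411716455834079248284388683658983938573916506937308478855733927350990019431355467215250597801078601339870868190873219584641967813025998743074222508474449648795361650178464643140623212262987615713040915832925813318706896624892907940770557600462874260717161125556043940329697004486656)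

noncomputable def rc0 : Nat := (nat_lit 250699401241322219325218195603542267120293011867828210366734446650783405505770589192227499160697028492272350009759166875704535194909873250276288066780434313820438385526584950084442272185576449807370334608014578836439319809911101821543733664587744339063726369772262288676382174787642867608090996454904780672871514273160117632826821240502919748921614207179263871528505167899238709281795778611731379583445052537024149015198560408896242119283941943453319913484934429703754166288016602665819800504108882032297143342882887385102837871562166413573302723798039800105951076422354686333232331038903254379480559250566740036428149590400721969136409268351364661966048792526693252388206038591987705538998199603830574508470889082063475801657139723072545313396529592389124763581584853734728232396333496417744207842481490560862745367273043507591531243184035405070642538335750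66114681489957489878263555033272481304041162815477240688351969588483013273426811496677239237833331774243556019804988364079383628056884804787550581748275126598220725250815618726688702430466311417292441089920449844673966635806044034548678381356801405257049575773269370071858585365661541572057654791055140545036634212603875945423522991476339913429588556071127680665072387729524088695310109369156897605991266507080025456932413685780623041254895842315757765664394656858827156701865549189237237800827548719450050523476512136279393323925149359329252377290640449190789588587050929140943152950240385247007666771770899002664136331341830339571543978290985236215247445237227415027155443330660818389946060775461319963684997238874316602073052322391873646502898613114233263355453912097538193481542890977688834192323791290087461759678940918607640062633659556050367978218248289835900277806730460752378821483693840792284188689304995845912459015673190562094876189452433261966594694907896840908245590878970596479694115958689214411716455834079248284388683658983938573916506937308478855733927350990019431355467215250597801078601339870868190873219584641967813025998743074222508474449648795361650178464643140623212262987615713040915832925813318706896624892907940770557600462874260717161125556043940329697004486656)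

end Vale.Agent.Lib.P154.PChain.BE.S1
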