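import Vale.Agent.Lib.P154.PChain.BE.R1_0

set_option linter.all false

namespace Vale.Agent.Lib.P154.PChain.BE.S2

open Vale.Agent.Lib.P154.Chain

noncomputable def pc0 : PT := (PT.nd (nat_lit 10762986) (PT.nd (nat_lit 10388352) (PT.nd (nat_lit 10200996) (PT.nd (nat_lit 10138440) (PT.nd (nat_lit 10076040) (PT.nd (nat_lit 10013640) PT.nil (PT.lf (nat_lit 76) (nat_lit 3) (nat_lit 1) (nat_lit 1) (nat_lit 220) (nat_lit 160) (nat_lit 220))) (PT.nd (nat_lit 78) (PT.lf (nat_lit 152) (nat_lit 6) (nat_lit 2) (nat_lit 3) (nat_lit 219) (nat_lit 161) (nat_lit 220)) (PT.lf (nat_lit 152) (nat_lit 6) (nat_lit 2) (nat_lit 1) (nat_lit 220) (nat_lit 161) (nat_lit 219)))) (PT.nd (nat_lit 156) (PT.nd (nat_lit 78) (PT.lf (nat_lit 228) (nat_lit 6) (nat_lit 3) (nat_lit 3) (nat_lit 218) (nat_lit 162) (nat_lit 220)) (PT.lf (nat_lit 304) (nat_lit 3) (nat_lit 4) (nat_lit 1) (nat_lit 219) (nat_lit 162) (nat_lit 219)))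 (PT.nd (nat_lit 62322) (PT.lf (nat_lit 228) (nat_lit 6) (nat_lit 3) (nat_lit 1) (nat_lit 220) (nat_lit 162) (nat_lit 218)) (PT.lf (nat_lit 380) (nat_lit 6) (nat_lit 5) (nat_lit 3) (nat_lit 218) (nat_lit 163) (nat_lit 219))))) (PT.nd (nat_lit 124800) (PT.nd (nat_lit 62400) (PT.nd (nat_lit 62322) (PT.lf (nat_lit 380) (nat_lit 6) (nat_lit 5) (nat_lit 1) (nat_lit 219) (nat_lit 163) (nat_lit 218)) (PT.lf (nat_lit 456) (nat_lit 6) (nat_lit 6) (nat_lit 3) (nat_lit 217) (nat_lit 164) (nat_lit 219))) (PT.nd (nat_lit 78) (PT.lf (nat_lit 532) (nat_lit 3) (nat_lit 7) (nat_lit 1) (nat_lit 218) (nat_lit 164) (nat_lit 218)) (PT.lf (nat_lit 456) (nat_lit 6) (nat_lit 6) (nat_lit 1) (nat_lit 219) (nat_lit 164) (nat_lit 217)))) (PT.nd (nat_lit 62400) (PT.nd (nat_lit 78) (PT.lf (nat_lit 608) (nat_lit 6) (nat_lit 8) (nat_lit 3) (nat_lit 217) (nat_lit 165) (nat_lit 218)) (PT.lf (nat_lit 608) (nat_lit 6) (nat_lit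 8) (nat_lit 1) (nat_lit 218) (nat_lit 165) (nat_lit 217))) (PT.nd (nat_lit 78) (PT.lf (nat_lit 684) (nat_lit 6) (nat_lit 9) (nat_lit 3) (nat_lit 216) (nat_lit 166) (nat_lit 218)) (PT.lf (nat_lit 760) (nat_lit 3) (nat_lit 10) (nat_lit 1) (nat_lit 217) (nat_lit 166) (nat_lit 217)))))) (PT.nd (nat_lit 187278) (PT.nd (nat_lit 124722) (PT.nd (nat_lit 62322) (PT.lf (nat_lit 684) (nat_lit 6) (nat_lit 9) (nat_lit 1) (nat_lit 218) (nat_lit 166) (nat_lit 216)) (PT.nd (nat_lit 78) (PT.lf (nat_lit 836) (nat_lit 6) (nat_lit 11) (nat_lit 3) (nat_lit 216) (nat_lit 167) (nat_lit 217)) (PT.lf (nat_lit 836) (nat_lit 6) (nat_lit 11) (nat_lit 1) (nat_lit 217) (nat_lit 167) (nat_lit 216)))) (PT.nd (nat_lit 156) (PT.nd (nat_lit 78) (PT.lf (nat_lit 912) (nat_lit 6) (nat_lit 12) (nat_lit 3) (nat_lit 215) (nat_lit 168) (nat_lit 217)) (PT.lf (nat_lit 988) (nat_lit 3) (nat_lit 13) (nat_lit 1) (nat_lit 216) (nat_lit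 168) (nat_lit 216))) (PT.nd (nat_lit 62322) (PT.lf (nat_lit 912) (nat_lit 6) (nat_lit 12) (nat_lit 1) (nat_lit 217) (nat_lit 168) (nat_lit 215)) (PT.lf (nat_lit 1064) (nat_lit 6) (nat_lit 14) (nat_lit 3) (nat_lit 215) (nat_lit 169) (nat_lit 216))))) (PT.nd (nat_lit 124800) (PT.nd (nat_lit 62400) (PT.nd (nat_lit 62322) (PT.lf (nat_lit 1064) (nat_lit 6) (nat_lit 14) (nat_lit 1) (nat_lit 216) (nat_lit 169) (nat_lit 215)) (PT.lf (nat_lit 1140) (nat_lit 6) (nat_lit 15) (nat_lit 3) (nat_lit 214) (nat_lit 170) (nat_lit 216))) (PT.nd (nat_lit 78) (PT.lf (nat_lit 1216) (nat_lit 3) (nat_lit 16) (nat_lit 1) (nat_lit 215) (nat_lit 170) (nat_lit 215)) (PT.lf (nat_lit 1140) (nat_lit 6) (nat_lit 15) (nat_lit 1) (nat_lit 216) (nat_lit 170) (nat_lit 214)))) (PT.nd (nat_lit 62400) (PT.nd (nat_lit 78) (PT.lf (nat_lit 1292) (nat_lit 6) (nat_lit 17) (nat_lit 3) (nat_lit 214) (nat_lit 171) (nat_lit 215)) (PT.lf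 (nat_lit 1292) (nat_lit 6) (nat_lit 17) (nat_lit 1) (nat_lit 215) (nat_lit 171) (nat_lit 214))) (PT.nd (nat_lit 78) (PT.lf (nat_lit 1368) (nat_lit 6) (nat_lit 18) (nat_lit 3) (nat_lit 213) (nat_lit 172) (nat_lit 215)) (PT.lf (nat_lit 1444) (nat_lit 3) (nat_lit 19) (nat_lit 1) (nat_lit 214) (nat_lit 172) (nat_lit 214))))))) (PT.nd (nat_lit 374634) (PT.nd (nat_lit 187278) (PT.nd (nat_lit 124722) (PT.nd (nat_lit 62322) (PT.lf (nat_lit 1368) (nat_lit 6) (nat_lit 18) (nat_lit 1) (nat_lit 215) (nat_lit 172) (nat_lit 213)) (PT.nd (nat_lit 78) (PT.lf (nat_lit 1520) (nat_lit 6) (nat_lit 20) (nat_lit 3) (nat_lit 213) (nat_lit 173) (nat_lit 214)) (PT.lf (nat_lit 1520) (nat_lit 6) (nat_lit 20) (nat_lit 1) (nat_lit 214) (nat_lit 173) (nat_lit 213)))) (PT.nd (nat_lit 156) (PT.nd (nat_lit 78) (PT.lf (nat_lit 1596) (nat_lit 6) (nat_lit 21) (nat_lit 3) (nat_lit 212) (nat_lit 174) (nat_lit 214)) (PT.lf (nat_lit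 1672) (nat_lit 3) (nat_lit 22) (nat_lit 1) (nat_lit 213) (nat_lit 174) (nat_lit 213))) (PT.nd (nat_lit 62322) (PT.lf (nat_lit 1596) (nat_lit 6) (nat_lit 21) (nat_lit 1) (nat_lit 214) (nat_lit 174) (nat_lit 212)) (PT.lf (nat_lit 1748) (nat_lit 6) (nat_lit 23) (nat_lit 3) (nat_lit 212) (nat_lit 175) (nat_lit 213))))) (PT.nd (nat_lit 124800) (PT.nd (nat_lit 62400) (PT.nd (nat_lit 62322) (PT.lf (nat_lit 1748) (nat_lit 6) (nat_lit 23) (nat_lit 1) (nat_lit 213) (nat_lit 175) (nat_lit 212)) (PT.lf (nat_lit 1824) (nat_lit 6) (nat_lit 24) (nat_lit 3) (nat_lit 211) (nat_lit 176) (nat_lit 213))) (PT.nd (nat_lit 78) (PT.lf (nat_lit 1900) (nat_lit 3) (nat_lit 25) (nat_lit 1) (nat_lit 212) (nat_lit 176) (nat_lit 212)) (PT.lf (nat_lit 1824) (nat_lit 6) (nat_lit 24) (nat_lit 1) (nat_lit 213) (nat_lit 176) (nat_lit 211)))) (PT.nd (nat_lit 62400) (PT.nd (nat_lit 78) (PT.lf (nat_lit 1976) (nat_lit 6) (nat_lit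 26) (nat_lit 3) (nat_lit 211) (nat_lit 177) (nat_lit 212)) (PT.lf (nat_lit 1976) (nat_lit 6) (nat_lit 26) (nat_lit 1) (nat_lit 212) (nat_lit 177) (nat_lit 211))) (PT.nd (nat_lit 78) (PT.lf (nat_lit 2052) (nat_lit 6) (nat_lit 27) (nat_lit 3) (nat_lit 210) (nat_lit 178) (nat_lit 212)) (PT.lf (nat_lit 2128) (nat_lit 3) (nat_lit 28) (nat_lit 1) (nat_lit 211) (nat_lit 178) (nat_lit 211)))))) (PT.nd (nat_lit 187200) (PT.nd (nat_lit 124722) (PT.nd (nat_lit 62322) (PT.lf (nat_lit 2052) (nat_lit 6) (nat_lit 27) (nat_lit 1) (nat_lit 212) (nat_lit 178) (nat_lit 210)) (PT.nd (nat_lit 78) (PT.lf (nat_lit 2204) (nat_lit 6) (nat_lit 29) (nat_lit 3) (nat_lit 210) (nat_lit 179) (nat_lit 211)) (PT.lf (nat_lit 2204) (nat_lit 6) (nat_lit 29) (nat_lit 1) (nat_lit 211) (nat_lit 179) (nat_lit 210)))) (PT.nd (nat_lit 156) (PT.nd (nat_lit 78) (PT.lf (nat_lit 2280) (nat_lit 6) (nat_lit 30) (nat_lit 3) (nat_lit 209)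 (nat_lit 180) (nat_lit 211)) (PT.lf (nat_lit 2356) (nat_lit 3) (nat_lit 31) (nat_lit 1) (nat_lit 210) (nat_lit 180) (nat_lit 210))) (PT.nd (nat_lit 62244) (PT.lf (nat_lit 2280) (nat_lit 6) (nat_lit 30) (nat_lit 1) (nat_lit 211) (nat_lit 180) (nat_lit 209)) (PT.lf (nat_lit 2432) (nat_lit 6) (nat_lit 32) (nat_lit 3) (nat_lit 208) (nat_lit 181) (nat_lit 211))))) (PT.nd (nat_lit 62478) (PT.nd (nat_lit 156) (PT.nd (nat_lit 78) (PT.lf (nat_lit 2508) (nat_lit 6) (nat_lit 33) (nat_lit 3) (nat_lit 209) (nat_lit 181) (nat_lit 210)) (PT.lf (nat_lit 2508) (nat_lit 6) (nat_lit 33) (nat_lit 1) (nat_lit 210) (nat_lit 181) (nat_lit 209))) (PT.nd (nat_lit 62244) (PT.lf (nat_lit 2432) (nat_lit 6) (nat_lit 32) (nat_lit 1) (nat_lit 211) (nat_lit 181) (nat_lit 208)) (PT.lf (nat_lit 2584) (nat_lit 6) (nat_lit 34) (nat_lit 3) (nat_lit 208) (nat_lit 182) (nat_lit 210)))) (PT.nd (nat_lit 62322) (PT.nd (nat_lit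 78) (PT.lf (nat_lit 2660) (nat_lit 3) (nat_lit 35) (nat_lit 1) (nat_lit 209) (nat_lit 182) (nat_lit 209)) (PT.lf (nat_lit 2584) (nat_lit 6) (nat_lit 34) (nat_lit 1) (nat_lit 210) (nat_lit 182) (nat_lit 208))) (PT.nd (nat_lit 78) (PT.lf (nat_lit 2736) (nat_lit 6) (nat_lit 36) (nat_lit 3) (nat_lit 207) (nat_lit 183) (nat_lit 210)) (PT.lf (nat_lit 2812) (nat_lit 6) (nat_lit 37) (nat_lit 3) (nat_lit 208) (nat_lit 183) (nat_lit 209))))))))
noncomputable def pc1 : PT := (PT.nd (nat_lit 436956) (PT.nd (nat_lit 249678) (PT.nd (nat_lit 124878) (PT.nd (nat_lit 62400) (PT.nd (nat_lit 78) (PT.lf (nat_lit 2812) (nat_lit 6) (nat_lit 37) (nat_lit 1) (nat_lit 209) (nat_lit 183) (nat_lit 208)) (PT.nd (nat_lit 62244) (PT.lf (nat_lit 2736) (nat_lit 6) (nat_lit 36) (nat_lit 1) (nat_lit 210) (nat_lit 183) (nat_lit 207)) (PT.lf (nat_lit 2888) (nat_lit 6) (nat_lit 38) (nat_lit 3) (nat_lit 207) (nat_lit 184) (nat_lit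 209)))) (PT.nd (nat_lit 62322) (PT.nd (nat_lit 78) (PT.lf (nat_lit 2964) (nat_lit 3) (nat_lit 39) (nat_lit 1) (nat_lit 208) (nat_lit 184) (nat_lit 208)) (PT.lf (nat_lit 2888) (nat_lit 6) (nat_lit 38) (nat_lit 1) (nat_lit 209) (nat_lit 184) (nat_lit 207))) (PT.nd (nat_lit 78) (PT.lf (nat_lit 3040) (nat_lit 6) (nat_lit 40) (nat_lit 3) (nat_lit 206) (nat_lit 185) (nat_lit 209)) (PT.lf (nat_lit 3116) (nat_lit 6) (nat_lit 41) (nat_lit 3) (nat_lit 207) (nat_lit 185) (nat_lit 208))))) (PT.nd (nat_lit 62400) (PT.nd (nat_lit 62244) (PT.nd (nat_lit 78) (PT.lf (nat_lit 3116) (nat_lit 6) (nat_lit 41) (nat_lit 1) (nat_lit 208) (nat_lit 185) (nat_lit 207)) (PT.lf (nat_lit 3040) (nat_lit 6) (nat_lit 40) (nat_lit 1) (nat_lit 209) (nat_lit 185) (nat_lit 206))) (PT.nd (nat_lit 78) (PT.lf (nat_lit 3192) (nat_lit 6) (nat_lit 42) (nat_lit 3) (nat_lit 205) (nat_lit 186) (nat_lit 209)) (PT.lf (nat_lit 3268) (nat_lit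 6) (nat_lit 43) (nat_lit 3) (nat_lit 206) (nat_lit 186) (nat_lit 208)))) (PT.nd (nat_lit 156) (PT.nd (nat_lit 78) (PT.lf (nat_lit 3344) (nat_lit 3) (nat_lit 44) (nat_lit 1) (nat_lit 207) (nat_lit 186) (nat_lit 207)) (PT.lf (nat_lit 3268) (nat_lit 6) (nat_lit 43) (nat_lit 1) (nat_lit 208) (nat_lit 186) (nat_lit 206))) (PT.nd (nat_lit 62166) (PT.lf (nat_lit 3192) (nat_lit 6) (nat_lit 42) (nat_lit 1) (nat_lit 209) (nat_lit 186) (nat_lit 205)) (PT.lf (nat_lit 3420) (nat_lit 6) (nat_lit 45) (nat_lit 3) (nat_lit 205) (nat_lit 187) (nat_lit 208)))))) (PT.nd (nat_lit 62634) (PT.nd (nat_lit 62322) (PT.nd (nat_lit 78) (PT.lf (nat_lit 3496) (nat_lit 6) (nat_lit 46) (nat_lit 3) (nat_lit 206) (nat_lit 187) (nat_lit 207)) (PT.nd (nat_lit 78) (PT.lf (nat_lit 3496) (nat_lit 6) (nat_lit 46) (nat_lit 1) (nat_lit 207) (nat_lit 187) (nat_lit 206)) (PT.lf (nat_lit 3420) (nat_lit 6) (nat_lit 45) (nat_lit 1)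 (nat_lit 208) (nat_lit 187) (nat_lit 205)))) (PT.nd (nat_lit 156) (PT.nd (nat_lit 78) (PT.lf (nat_lit 3572) (nat_lit 6) (nat_lit 47) (nat_lit 3) (nat_lit 204) (nat_lit 188) (nat_lit 208)) (PT.lf (nat_lit 3648) (nat_lit 6) (nat_lit 48) (nat_lit 3) (nat_lit 205) (nat_lit 188) (nat_lit 207))) (PT.nd (nat_lit 78) (PT.lf (nat_lit 3724) (nat_lit 3) (nat_lit 49) (nat_lit 1) (nat_lit 206) (nat_lit 188) (nat_lit 206)) (PT.lf (nat_lit 3648) (nat_lit 6) (nat_lit 48) (nat_lit 1) (nat_lit 207) (nat_lit 188) (nat_lit 205))))) (PT.nd (nat_lit 62322) (PT.nd (nat_lit 62166) (PT.nd (nat_lit 62088) (PT.lf (nat_lit 3572) (nat_lit 6) (nat_lit 47) (nat_lit 1) (nat_lit 208) (nat_lit 188) (nat_lit 204)) (PT.lf (nat_lit 3800) (nat_lit 6) (nat_lit 50) (nat_lit 3) (nat_lit 203) (nat_lit 189) (nat_lit 208))) (PT.nd (nat_lit 78) (PT.lf (nat_lit 3876) (nat_lit 6) (nat_lit 51) (nat_lit 3) (nat_lit 204) (nat_lit 189)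 (nat_lit 207)) (PT.lf (nat_lit 3952) (nat_lit 6) (nat_lit 52) (nat_lit 3) (nat_lit 205) (nat_lit 189) (nat_lit 206)))) (PT.nd (nat_lit 156) (PT.nd (nat_lit 78) (PT.lf (nat_lit 3952) (nat_lit 6) (nat_lit 52) (nat_lit 1) (nat_lit 206) (nat_lit 189) (nat_lit 205)) (PT.lf (nat_lit 3876) (nat_lit 6) (nat_lit 51) (nat_lit 1) (nat_lit 207) (nat_lit 189) (nat_lit 204))) (PT.nd (nat_lit 62088) (PT.lf (nat_lit 3800) (nat_lit 6) (nat_lit 50) (nat_lit 1) (nat_lit 208) (nat_lit 189) (nat_lit 203)) (PT.lf (nat_lit 4028) (nat_lit 6) (nat_lit 53) (nat_lit 3) (nat_lit 203) (nat_lit 190) (nat_lit 207))))))) (PT.nd (nat_lit 125112) (PT.nd (nat_lit 62556) (PT.nd (nat_lit 234) (PT.nd (nat_lit 78) (PT.lf (nat_lit 4104) (nat_lit 6) (nat_lit 54) (nat_lit 3) (nat_lit 204) (nat_lit 190) (nat_lit 206)) (PT.nd (nat_lit 78) (PT.lf (nat_lit 4180) (nat_lit 3) (nat_lit 55) (nat_lit 1) (nat_lit 205) (nat_lit 190) (nat_lit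 205)) (PT.lf (nat_lit 4104) (nat_lit 6) (nat_lit 54) (nat_lit 1) (nat_lit 206) (nat_lit 190) (nat_lit 204)))) (PT.nd (nat_lit 62166) (PT.nd (nat_lit 62088) (PT.lf (nat_lit 4028) (nat_lit 6) (nat_lit 53) (nat_lit 1) (nat_lit 207) (nat_lit 190) (nat_lit 203)) (PT.lf (nat_lit 4256) (nat_lit 6) (nat_lit 56) (nat_lit 3) (nat_lit 202) (nat_lit 191) (nat_lit 207))) (PT.nd (nat_lit 78) (PT.lf (nat_lit 4332) (nat_lit 6) (nat_lit 57) (nat_lit 3) (nat_lit 203) (nat_lit 191) (nat_lit 206)) (PT.lf (nat_lit 4408) (nat_lit 6) (nat_lit 58) (nat_lit 3) (nat_lit 204) (nat_lit 191) (nat_lit 205))))) (PT.nd (nat_lit 62244) (PT.nd (nat_lit 156) (PT.nd (nat_lit 78) (PT.lf (nat_lit 4408) (nat_lit 6) (nat_lit 58) (nat_lit 1) (nat_lit 205) (nat_lit 191) (nat_lit 204)) (PT.lf (nat_lit 4332) (nat_lit 6) (nat_lit 57) (nat_lit 1) (nat_lit 206) (nat_lit 191) (nat_lit 203))) (PT.nd (nat_lit 62010) (PT.lf (nat_lit 4256)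 (nat_lit 6) (nat_lit 56) (nat_lit 1) (nat_lit 207) (nat_lit 191) (nat_lit 202)) (PT.lf (nat_lit 4484) (nat_lit 6) (nat_lit 59) (nat_lit 3) (nat_lit 201) (nat_lit 192) (nat_lit 207)))) (PT.nd (nat_lit 156) (PT.nd (nat_lit 78) (PT.lf (nat_lit 4560) (nat_lit 6) (nat_lit 60) (nat_lit 3) (nat_lit 202) (nat_lit 192) (nat_lit 206)) (PT.lf (nat_lit 4636) (nat_lit 6) (nat_lit 61) (nat_lit 3) (nat_lit 203) (nat_lit 192) (nat_lit 205))) (PT.nd (nat_lit 78) (PT.lf (nat_lit 4712) (nat_lit 3) (nat_lit 62) (nat_lit 1) (nat_lit 204) (nat_lit 192) (nat_lit 204)) (PT.lf (nat_lit 4636) (nat_lit 6) (nat_lit 61) (nat_lit 1) (nat_lit 205) (nat_lit 192) (nat_lit 203)))))) (PT.nd (nat_lit 62478) (PT.nd (nat_lit 62166) (PT.nd (nat_lit 62010) (PT.nd (nat_lit 78) (PT.lf (nat_lit 4560) (nat_lit 6) (nat_lit 60) (nat_lit 1) (nat_lit 206) (nat_lit 192) (nat_lit 202)) (PT.lf (nat_lit 4484) (nat_lit 6) (nat_lit 59) (nat_lit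 1) (nat_lit 207) (nat_lit 192) (nat_lit 201))) (PT.nd (nat_lit 78) (PT.lf (nat_lit 4940) (nat_lit 6) (nat_lit 65) (nat_lit 3) (nat_lit 200) (nat_lit 193) (nat_lit 207)) (PT.lf (nat_lit 5016) (nat_lit 6) (nat_lit 66) (nat_lit 3) (nat_lit 201) (nat_lit 193) (nat_lit 206)))) (PT.nd (nat_lit 156) (PT.nd (nat_lit 78) (PT.lf (nat_lit 5092) (nat_lit 6) (nat_lit 67) (nat_lit 3) (nat_lit 202) (nat_lit 193) (nat_lit 205)) (PT.lf (nat_lit 5168) (nat_lit 6) (nat_lit 68) (nat_lit 3) (nat_lit 203) (nat_lit 193) (nat_lit 204))) (PT.nd (nat_lit 78) (PT.lf (nat_lit 5168) (nat_lit 6) (nat_lit 68) (nat_lit 1) (nat_lit 204) (nat_lit 193) (nat_lit 203)) (PT.lf (nat_lit 5092) (nat_lit 6) (nat_lit 67) (nat_lit 1) (nat_lit 205) (nat_lit 193) (nat_lit 202))))) (PT.nd (nat_lit 62088) (PT.nd (nat_lit 61932) (PT.nd (nat_lit 78) (PT.lf (nat_lit 5016) (nat_lit 6) (nat_lit 66) (nat_lit 1) (nat_lit 206) (nat_lit 193)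 (nat_lit 201)) (PT.lf (nat_lit 4940) (nat_lit 6) (nat_lit 65) (nat_lit 1) (nat_lit 207) (nat_lit 193) (nat_lit 200))) (PT.nd (nat_lit 78) (PT.lf (nat_lit 4864) (nat_lit 6) (nat_lit 64) (nat_lit 3) (nat_lit 199) (nat_lit 194) (nat_lit 207)) (PT.lf (nat_lit 5472) (nat_lit 6) (nat_lit 72) (nat_lit 3) (nat_lit 200) (nat_lit 194) (nat_lit 206)))) (PT.nd (nat_lit 156) (PT.nd (nat_lit 78) (PT.lf (nat_lit 5548) (nat_lit 6) (nat_lit 73) (nat_lit 3) (nat_lit 201) (nat_lit 194) (nat_lit 205)) (PT.lf (nat_lit 5624) (nat_lit 6) (nat_lit 74) (nat_lit 3) (nat_lit 202) (nat_lit 194) (nat_lit 204))) (PT.nd (nat_lit 78) (PT.lf (nat_lit 5700) (nat_lit 3) (nat_lit 75) (nat_lit 1) (nat_lit 203) (nat_lit 194) (nat_lit 203)) (PT.lf (nat_lit 5624) (nat_lit 6) (nat_lit 74) (nat_lit 1) (nat_lit 204) (nat_lit 194) (nat_lit 202))))))))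
noncomputable def pc2 : PT := (PT.nd (nat_lit 187434) (PT.nd (nat_lit 124566) (PT.nd (nat_lit 62244) (PT.nd (nat_lit 61932) (PT.nd (nat_lit 78) (PT.lf (nat_lit 5548) (nat_lit 6) (nat_lit 73) (nat_lit 1) (nat_lit 205) (nat_lit 194) (nat_lit 201)) (PT.nd (nat_lit 78) (PT.lf (nat_lit 5472) (nat_lit 6) (nat_lit 72) (nat_lit 1) (nat_lit 206) (nat_lit 194) (nat_lit 200)) (PT.lf (nat_lit 4864) (nat_lit 6) (nat_lit 64) (nat_lit 1) (nat_lit 207) (nat_lit 194) (nat_lit 199)))) (PT.nd (nat_lit 156) (PT.nd (nat_lit 78) (PT.lf (nat_lit 4788) (nat_lit 6) (nat_lit 63) (nat_lit 3) (nat_lit 198) (nat_lit 195) (nat_lit 207)) (PT.lf (nat_lit 5396) (nat_lit 6) (nat_lit 71) (nat_lit 3) (nat_lit 199) (nat_lit 195) (nat_lit 206))) (PT.nd (nat_lit 78) (PT.lf (nat_lit 5928) (nat_lit 6) (nat_lit 78) (nat_lit 3) (nat_lit 200) (nat_lit 195) (nat_lit 205)) (PT.lf (nat_lit 6004) (nat_lit 6) (nat_lit 79) (nat_lit 3)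 (nat_lit 201) (nat_lit 195) (nat_lit 204))))) (PT.nd (nat_lit 312) (PT.nd (nat_lit 156) (PT.nd (nat_lit 78) (PT.lf (nat_lit 6080) (nat_lit 6) (nat_lit 80) (nat_lit 3) (nat_lit 202) (nat_lit 195) (nat_lit 203)) (PT.lf (nat_lit 6080) (nat_lit 6) (nat_lit 80) (nat_lit 1) (nat_lit 203) (nat_lit 195) (nat_lit 202))) (PT.nd (nat_lit 78) (PT.lf (nat_lit 6004) (nat_lit 6) (nat_lit 79) (nat_lit 1) (nat_lit 204) (nat_lit 195) (nat_lit 201)) (PT.lf (nat_lit 5928) (nat_lit 6) (nat_lit 78) (nat_lit 1) (nat_lit 205) (nat_lit 195) (nat_lit 200)))) (PT.nd (nat_lit 61854) (PT.nd (nat_lit 78) (PT.lf (nat_lit 5396) (nat_lit 6) (nat_lit 71) (nat_lit 1) (nat_lit 206) (nat_lit 195) (nat_lit 199)) (PT.lf (nat_lit 4788) (nat_lit 6) (nat_lit 63) (nat_lit 1) (nat_lit 207) (nat_lit 195) (nat_lit 198))) (PT.nd (nat_lit 78) (PT.lf (nat_lit 5320) (nat_lit 6) (nat_lit 70) (nat_lit 3) (nat_lit 198) (nat_lit 196) (nat_lit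 206)) (PT.lf (nat_lit 5852) (nat_lit 6) (nat_lit 77) (nat_lit 3) (nat_lit 199) (nat_lit 196) (nat_lit 205)))))) (PT.nd (nat_lit 62244) (PT.nd (nat_lit 234) (PT.nd (nat_lit 78) (PT.lf (nat_lit 6308) (nat_lit 6) (nat_lit 83) (nat_lit 3) (nat_lit 200) (nat_lit 196) (nat_lit 204)) (PT.nd (nat_lit 78) (PT.lf (nat_lit 6384) (nat_lit 6) (nat_lit 84) (nat_lit 3) (nat_lit 201) (nat_lit 196) (nat_lit 203)) (PT.lf (nat_lit 6460) (nat_lit 3) (nat_lit 85) (nat_lit 1) (nat_lit 202) (nat_lit 196) (nat_lit 202)))) (PT.nd (nat_lit 156) (PT.nd (nat_lit 78) (PT.lf (nat_lit 6384) (nat_lit 6) (nat_lit 84) (nat_lit 1) (nat_lit 203) (nat_lit 196) (nat_lit 201)) (PT.lf (nat_lit 6308) (nat_lit 6) (nat_lit 83) (nat_lit 1) (nat_lit 204) (nat_lit 196) (nat_lit 200))) (PT.nd (nat_lit 78) (PT.lf (nat_lit 5852) (nat_lit 6) (nat_lit 77) (nat_lit 1) (nat_lit 205) (nat_lit 196) (nat_lit 199)) (PT.lf (nat_lit 5320) (nat_lit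 6) (nat_lit 70) (nat_lit 1) (nat_lit 206) (nat_lit 196) (nat_lit 198))))) (PT.nd (nat_lit 312) (PT.nd (nat_lit 156) (PT.nd (nat_lit 78) (PT.lf (nat_lit 5244) (nat_lit 3) (nat_lit 69) (nat_lit 3) (nat_lit 197) (nat_lit 197) (nat_lit 206)) (PT.lf (nat_lit 5776) (nat_lit 6) (nat_lit 76) (nat_lit 3) (nat_lit 198) (nat_lit 197) (nat_lit 205))) (PT.nd (nat_lit 78) (PT.lf (nat_lit 6232) (nat_lit 6) (nat_lit 82) (nat_lit 3) (nat_lit 199) (nat_lit 197) (nat_lit 204)) (PT.lf (nat_lit 6612) (nat_lit 6) (nat_lit 87) (nat_lit 3) (nat_lit 200) (nat_lit 197) (nat_lit 203)))) (PT.nd (nat_lit 156) (PT.nd (nat_lit 78) (PT.lf (nat_lit 6688) (nat_lit 6) (nat_lit 88) (nat_lit 3) (nat_lit 201) (nat_lit 197) (nat_lit 202)) (PT.lf (nat_lit 6688) (nat_lit 6) (nat_lit 88) (nat_lit 1) (nat_lit 202) (nat_lit 197) (nat_lit 201))) (PT.nd (nat_lit 78) (PT.lf (nat_lit 6612) (nat_lit 6) (nat_lit 87) (nat_lit 1) (nat_lit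 203) (nat_lit 197) (nat_lit 200)) (PT.lf (nat_lit 6232) (nat_lit 6) (nat_lit 82) (nat_lit 1) (nat_lit 204) (nat_lit 197) (nat_lit 199))))))) (PT.nd (nat_lit 124098) (PT.nd (nat_lit 62088) (PT.nd (nat_lit 61776) (PT.nd (nat_lit 78) (PT.lf (nat_lit 5776) (nat_lit 6) (nat_lit 76) (nat_lit 1) (nat_lit 205) (nat_lit 197) (nat_lit 198)) (PT.nd (nat_lit 61620) (PT.lf (nat_lit 5244) (nat_lit 3) (nat_lit 69) (nat_lit 0) (nat_lit 206) (nat_lit 197) (nat_lit 197)) (PT.lf (nat_lit 4788) (nat_lit 6) (nat_lit 63) (nat_lit 5) (nat_lit 195) (nat_lit 198) (nat_lit 207)))) (PT.nd (nat_lit 156) (PT.nd (nat_lit 78) (PT.lf (nat_lit 5320) (nat_lit 6) (nat_lit 70) (nat_lit 5) (nat_lit 196) (nat_lit 198) (nat_lit 206)) (PT.lf (nat_lit 5776) (nat_lit 6) (nat_lit 76) (nat_lit 5) (nat_lit 197) (nat_lit 198) (nat_lit 205))) (PT.nd (nat_lit 78) (PT.lf (nat_lit 6156) (nat_lit 3) (nat_lit 81) (nat_lit 3) (nat_lit 198)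 (nat_lit 198) (nat_lit 204)) (PT.lf (nat_lit 6536) (nat_lit 6) (nat_lit 86) (nat_lit 3) (nat_lit 199) (nat_lit 198) (nat_lit 203))))) (PT.nd (nat_lit 312) (PT.nd (nat_lit 156) (PT.nd (nat_lit 78) (PT.lf (nat_lit 6840) (nat_lit 6) (nat_lit 90) (nat_lit 3) (nat_lit 200) (nat_lit 198) (nat_lit 202)) (PT.lf (nat_lit 6916) (nat_lit 3) (nat_lit 91) (nat_lit 1) (nat_lit 201) (nat_lit 198) (nat_lit 201))) (PT.nd (nat_lit 78) (PT.lf (nat_lit 6840) (nat_lit 6) (nat_lit 90) (nat_lit 1) (nat_lit 202) (nat_lit 198) (nat_lit 200)) (PT.lf (nat_lit 6536) (nat_lit 6) (nat_lit 86) (nat_lit 1) (nat_lit 203) (nat_lit 198) (nat_lit 199)))) (PT.nd (nat_lit 156) (PT.nd (nat_lit 78) (PT.lf (nat_lit 6156) (nat_lit 3) (nat_lit 81) (nat_lit 0) (nat_lit 204) (nat_lit 198) (nat_lit 198)) (PT.lf (nat_lit 5776) (nat_lit 6) (nat_lit 76) (nat_lit 0) (nat_lit 205) (nat_lit 198) (nat_lit 197))) (PT.nd (nat_lit 78) (PT.lf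 (nat_lit 5320) (nat_lit 6) (nat_lit 70) (nat_lit 0) (nat_lit 206) (nat_lit 198) (nat_lit 196)) (PT.lf (nat_lit 4788) (nat_lit 6) (nat_lit 63) (nat_lit 0) (nat_lit 207) (nat_lit 198) (nat_lit 195)))))) (PT.nd (nat_lit 546) (PT.nd (nat_lit 234) (PT.nd (nat_lit 78) (PT.lf (nat_lit 4864) (nat_lit 6) (nat_lit 64) (nat_lit 5) (nat_lit 194) (nat_lit 199) (nat_lit 207)) (PT.nd (nat_lit 78) (PT.lf (nat_lit 5396) (nat_lit 6) (nat_lit 71) (nat_lit 5) (nat_lit 195) (nat_lit 199) (nat_lit 206)) (PT.lf (nat_lit 5852) (nat_lit 6) (nat_lit 77) (nat_lit 5) (nat_lit 196) (nat_lit 199) (nat_lit 205)))) (PT.nd (nat_lit 156) (PT.nd (nat_lit 78) (PT.lf (nat_lit 6232) (nat_lit 6) (nat_lit 82) (nat_lit 5) (nat_lit 197) (nat_lit 199) (nat_lit 204)) (PT.lf (nat_lit 6536) (nat_lit 6) (nat_lit 86) (nat_lit 5) (nat_lit 198) (nat_lit 199) (nat_lit 203))) (PT.nd (nat_lit 78) (PT.lf (nat_lit 6764) (nat_lit 3) (nat_lit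 89) (nat_lit 3) (nat_lit 199) (nat_lit 199) (nat_lit 202)) (PT.lf (nat_lit 6992) (nat_lit 6) (nat_lit 92) (nat_lit 3) (nat_lit 200) (nat_lit 199) (nat_lit 201))))) (PT.nd (nat_lit 312) (PT.nd (nat_lit 156) (PT.nd (nat_lit 78) (PT.lf (nat_lit 6992) (nat_lit 6) (nat_lit 92) (nat_lit 1) (nat_lit 201) (nat_lit 199) (nat_lit 200)) (PT.lf (nat_lit 6764) (nat_lit 3) (nat_lit 89) (nat_lit 0) (nat_lit 202) (nat_lit 199) (nat_lit 199))) (PT.nd (nat_lit 78) (PT.lf (nat_lit 6536) (nat_lit 6) (nat_lit 86) (nat_lit 0) (nat_lit 203) (nat_lit 199) (nat_lit 198)) (PT.lf (nat_lit 6232) (nat_lit 6) (nat_lit 82) (nat_lit 0) (nat_lit 204) (nat_lit 199) (nat_lit 197)))) (PT.nd (nat_lit 156) (PT.nd (nat_lit 78) (PT.lf (nat_lit 5852) (nat_lit 6) (nat_lit 77) (nat_lit 0) (nat_lit 205) (nat_lit 199) (nat_lit 196)) (PT.lf (nat_lit 5396) (nat_lit 6) (nat_lit 71) (nat_lit 0) (nat_lit 206) (nat_lit 199) (nat_lit 195)))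 (PT.nd (nat_lit 61386) (PT.lf (nat_lit 4864) (nat_lit 6) (nat_lit 64) (nat_lit 0) (nat_lit 207) (nat_lit 199) (nat_lit 194)) (PT.lf (nat_lit 4940) (nat_lit 6) (nat_lit 65) (nat_lit 5) (nat_lit 193) (nat_lit 200) (nat_lit 207))))))))
noncomputable def pc3 : PT := (PT.nd (nat_lit 124722) (PT.nd (nat_lit 62400) (PT.nd (nat_lit 546) (PT.nd (nat_lit 234) (PT.nd (nat_lit 78) (PT.lf (nat_lit 5472) (nat_lit 6) (nat_lit 72) (nat_lit 5) (nat_lit 194) (nat_lit 200) (nat_lit 206)) (PT.nd (nat_lit 78) (PT.lf (nat_lit 5928) (nat_lit 6) (nat_lit 78) (nat_lit 5) (nat_lit 195) (nat_lit 200) (nat_lit 205)) (PT.lf (nat_lit 6308) (nat_lit 6) (nat_lit 83) (nat_lit 5) (nat_lit 196) (nat_lit 200) (nat_lit 204)))) (PT.nd (nat_lit 156) (PT.nd (nat_lit 78) (PT.lf (nat_lit 6612) (nat_lit 6) (nat_lit 87) (nat_lit 5) (nat_lit 197) (nat_lit 200) (nat_lit 203)) (PT.lf (nat_lit 6840) (nat_lit 6) (nat_lit 90) (nat_lit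 5) (nat_lit 198) (nat_lit 200) (nat_lit 202))) (PT.nd (nat_lit 78) (PT.lf (nat_lit 6992) (nat_lit 6) (nat_lit 92) (nat_lit 5) (nat_lit 199) (nat_lit 200) (nat_lit 201)) (PT.lf (nat_lit 7068) (nat_lit 1) (nat_lit 93) (nat_lit 0) (nat_lit 200) (nat_lit 200) (nat_lit 200))))) (PT.nd (nat_lit 312) (PT.nd (nat_lit 156) (PT.nd (nat_lit 78) (PT.lf (nat_lit 6992) (nat_lit 6) (nat_lit 92) (nat_lit 0) (nat_lit 201) (nat_lit 200) (nat_lit 199)) (PT.lf (nat_lit 6840) (nat_lit 6) (nat_lit 90) (nat_lit 0) (nat_lit 202) (nat_lit 200) (nat_lit 198))) (PT.nd (nat_lit 78) (PT.lf (nat_lit 6612) (nat_lit 6) (nat_lit 87) (nat_lit 0) (nat_lit 203) (nat_lit 200) (nat_lit 197)) (PT.lf (nat_lit 6308) (nat_lit 6) (nat_lit 83) (nat_lit 0) (nat_lit 204) (nat_lit 200) (nat_lit 196)))) (PT.nd (nat_lit 156) (PT.nd (nat_lit 78) (PT.lf (nat_lit 5928) (nat_lit 6) (nat_lit 78) (nat_lit 0) (nat_lit 205) (nat_lit 200) (nat_lit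 195)) (PT.lf (nat_lit 5472) (nat_lit 6) (nat_lit 72) (nat_lit 0) (nat_lit 206) (nat_lit 200) (nat_lit 194))) (PT.nd (nat_lit 61308) (PT.lf (nat_lit 4940) (nat_lit 6) (nat_lit 65) (nat_lit 0) (nat_lit 207) (nat_lit 200) (nat_lit 193)) (PT.lf (nat_lit 4484) (nat_lit 6) (nat_lit 59) (nat_lit 5) (nat_lit 192) (nat_lit 201) (nat_lit 207)))))) (PT.nd (nat_lit 546) (PT.nd (nat_lit 234) (PT.nd (nat_lit 78) (PT.lf (nat_lit 5016) (nat_lit 6) (nat_lit 66) (nat_lit 5) (nat_lit 193) (nat_lit 201) (nat_lit 206)) (PT.nd (nat_lit 78) (PT.lf (nat_lit 5548) (nat_lit 6) (nat_lit 73) (nat_lit 5) (nat_lit 194) (nat_lit 201) (nat_lit 205)) (PT.lf (nat_lit 6004) (nat_lit 6) (nat_lit 79) (nat_lit 5) (nat_lit 195) (nat_lit 201) (nat_lit 204)))) (PT.nd (nat_lit 156) (PT.nd (nat_lit 78) (PT.lf (nat_lit 6384) (nat_lit 6) (nat_lit 84) (nat_lit 5) (nat_lit 196) (nat_lit 201) (nat_lit 203)) (PT.lf (nat_lit 6688) (nat_lit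 6) (nat_lit 88) (nat_lit 5) (nat_lit 197) (nat_lit 201) (nat_lit 202))) (PT.nd (nat_lit 78) (PT.lf (nat_lit 6916) (nat_lit 3) (nat_lit 91) (nat_lit 4) (nat_lit 198) (nat_lit 201) (nat_lit 201)) (PT.lf (nat_lit 6992) (nat_lit 6) (nat_lit 92) (nat_lit 4) (nat_lit 199) (nat_lit 201) (nat_lit 200))))) (PT.nd (nat_lit 312) (PT.nd (nat_lit 156) (PT.nd (nat_lit 78) (PT.lf (nat_lit 6992) (nat_lit 6) (nat_lit 92) (nat_lit 2) (nat_lit 200) (nat_lit 201) (nat_lit 199)) (PT.lf (nat_lit 6916) (nat_lit 3) (nat_lit 91) (nat_lit 0) (nat_lit 201) (nat_lit 201) (nat_lit 198))) (PT.nd (nat_lit 78) (PT.lf (nat_lit 6688) (nat_lit 6) (nat_lit 88) (nat_lit 0) (nat_lit 202) (nat_lit 201) (nat_lit 197)) (PT.lf (nat_lit 6384) (nat_lit 6) (nat_lit 84) (nat_lit 0) (nat_lit 203) (nat_lit 201) (nat_lit 196)))) (PT.nd (nat_lit 156) (PT.nd (nat_lit 78) (PT.lf (nat_lit 6004) (nat_lit 6) (nat_lit 79) (nat_lit 0) (nat_lit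 204) (nat_lit 201) (nat_lit 195)) (PT.lf (nat_lit 5548) (nat_lit 6) (nat_lit 73) (nat_lit 0) (nat_lit 205) (nat_lit 201) (nat_lit 194))) (PT.nd (nat_lit 78) (PT.lf (nat_lit 5016) (nat_lit 6) (nat_lit 66) (nat_lit 0) (nat_lit 206) (nat_lit 201) (nat_lit 193)) (PT.lf (nat_lit 4484) (nat_lit 6) (nat_lit 59) (nat_lit 0) (nat_lit 207) (nat_lit 201) (nat_lit 192))))))) (PT.nd (nat_lit 1170) (PT.nd (nat_lit 546) (PT.nd (nat_lit 234) (PT.nd (nat_lit 78) (PT.lf (nat_lit 4256) (nat_lit 6) (nat_lit 56) (nat_lit 5) (nat_lit 191) (nat_lit 202) (nat_lit 207)) (PT.nd (nat_lit 78) (PT.lf (nat_lit 4560) (nat_lit 6) (nat_lit 60) (nat_lit 5) (nat_lit 192) (nat_lit 202) (nat_lit 206)) (PT.lf (nat_lit 5092) (nat_lit 6) (nat_lit 67) (nat_lit 5) (nat_lit 193) (nat_lit 202) (nat_lit 205)))) (PT.nd (nat_lit 156) (PT.nd (nat_lit 78) (PT.lf (nat_lit 5624) (nat_lit 6) (nat_lit 74) (nat_lit 5) (nat_lit 194) (nat_lit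 202) (nat_lit 204)) (PT.lf (nat_lit 6080) (nat_lit 6) (nat_lit 80) (nat_lit 5) (nat_lit 195) (nat_lit 202) (nat_lit 203))) (PT.nd (nat_lit 78) (PT.lf (nat_lit 6460) (nat_lit 3) (nat_lit 85) (nat_lit 4) (nat_lit 196) (nat_lit 202) (nat_lit 202)) (PT.lf (nat_lit 6688) (nat_lit 6) (nat_lit 88) (nat_lit 4) (nat_lit 197) (nat_lit 202) (nat_lit 201))))) (PT.nd (nat_lit 312) (PT.nd (nat_lit 156) (PT.nd (nat_lit 78) (PT.lf (nat_lit 6840) (nat_lit 6) (nat_lit 90) (nat_lit 4) (nat_lit 198) (nat_lit 202) (nat_lit 200)) (PT.lf (nat_lit 6764) (nat_lit 3) (nat_lit 89) (nat_lit 2) (nat_lit 199) (nat_lit 202) (nat_lit 199))) (PT.nd (nat_lit 78) (PT.lf (nat_lit 6840) (nat_lit 6) (nat_lit 90) (nat_lit 2) (nat_lit 200) (nat_lit 202) (nat_lit 198)) (PT.lf (nat_lit 6688) (nat_lit 6) (nat_lit 88) (nat_lit 2) (nat_lit 201) (nat_lit 202) (nat_lit 197)))) (PT.nd (nat_lit 156) (PT.nd (nat_lit 78) (PT.lf (nat_lit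 6460) (nat_lit 3) (nat_lit 85) (nat_lit 0) (nat_lit 202) (nat_lit 202) (nat_lit 196)) (PT.lf (nat_lit 6080) (nat_lit 6) (nat_lit 80) (nat_lit 0) (nat_lit 203) (nat_lit 202) (nat_lit 195))) (PT.nd (nat_lit 78) (PT.lf (nat_lit 5624) (nat_lit 6) (nat_lit 74) (nat_lit 0) (nat_lit 204) (nat_lit 202) (nat_lit 194)) (PT.lf (nat_lit 5092) (nat_lit 6) (nat_lit 67) (nat_lit 0) (nat_lit 205) (nat_lit 202) (nat_lit 193)))))) (PT.nd (nat_lit 61620) (PT.nd (nat_lit 61308) (PT.nd (nat_lit 61152) (PT.nd (nat_lit 78) (PT.lf (nat_lit 4560) (nat_lit 6) (nat_lit 60) (nat_lit 0) (nat_lit 206) (nat_lit 202) (nat_lit 192)) (PT.lf (nat_lit 4256) (nat_lit 6) (nat_lit 56) (nat_lit 0) (nat_lit 207) (nat_lit 202) (nat_lit 191))) (PT.nd (nat_lit 78) (PT.lf (nat_lit 3800) (nat_lit 6) (nat_lit 50) (nat_lit 5) (nat_lit 189) (nat_lit 203) (nat_lit 208)) (PT.lf (nat_lit 4028) (nat_lit 6) (nat_lit 53) (nat_lit 5) (nat_lit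 190) (nat_lit 203) (nat_lit 207)))) (PT.nd (nat_lit 156) (PT.nd (nat_lit 78) (PT.lf (nat_lit 4332) (nat_lit 6) (nat_lit 57) (nat_lit 5) (nat_lit 191) (nat_lit 203) (nat_lit 206)) (PT.lf (nat_lit 4636) (nat_lit 6) (nat_lit 61) (nat_lit 5) (nat_lit 192) (nat_lit 203) (nat_lit 205))) (PT.nd (nat_lit 78) (PT.lf (nat_lit 5168) (nat_lit 6) (nat_lit 68) (nat_lit 5) (nat_lit 193) (nat_lit 203) (nat_lit 204)) (PT.lf (nat_lit 5700) (nat_lit 3) (nat_lit 75) (nat_lit 4) (nat_lit 194) (nat_lit 203) (nat_lit 203))))) (PT.nd (nat_lit 312) (PT.nd (nat_lit 156) (PT.nd (nat_lit 78) (PT.lf (nat_lit 6080) (nat_lit 6) (nat_lit 80) (nat_lit 4) (nat_lit 195) (nat_lit 203) (nat_lit 202)) (PT.lf (nat_lit 6384) (nat_lit 6) (nat_lit 84) (nat_lit 4) (nat_lit 196) (nat_lit 203) (nat_lit 201))) (PT.nd (nat_lit 78) (PT.lf (nat_lit 6612) (nat_lit 6) (nat_lit 87) (nat_lit 4) (nat_lit 197) (nat_lit 203) (nat_lit 200)) (PT.lf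 (nat_lit 6536) (nat_lit 6) (nat_lit 86) (nat_lit 4) (nat_lit 198) (nat_lit 203) (nat_lit 199)))) (PT.nd (nat_lit 156) (PT.nd (nat_lit 78) (PT.lf (nat_lit 6536) (nat_lit 6) (nat_lit 86) (nat_lit 2) (nat_lit 199) (nat_lit 203) (nat_lit 198)) (PT.lf (nat_lit 6612) (nat_lit 6) (nat_lit 87) (nat_lit 2) (nat_lit 200) (nat_lit 203) (nat_lit 197))) (PT.nd (nat_lit 78) (PT.lf (nat_lit 6384) (nat_lit 6) (nat_lit 84) (nat_lit 2) (nat_lit 201) (nat_lit 203) (nat_lit 196)) (PT.lf (nat_lit 6080) (nat_lit 6) (nat_lit 80) (nat_lit 2) (nat_lit 202) (nat_lit 203) (nat_lit 195))))))))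
noncomputable def pc4 : PT := (PT.nd (nat_lit 123864) (PT.nd (nat_lit 62010) (PT.nd (nat_lit 61386) (PT.nd (nat_lit 234) (PT.nd (nat_lit 78) (PT.lf (nat_lit 5700) (nat_lit 3) (nat_lit 75) (nat_lit 0) (nat_lit 203) (nat_lit 203) (nat_lit 194)) (PT.nd (nat_lit 78) (PT.lf (nat_lit 5168) (nat_lit 6) (nat_lit 68) (nat_lit 0) (nat_lit 204) (nat_lit 203) (nat_lit 193)) (PT.lf (nat_lit 4636) (nat_lit 6) (nat_lit 61) (nat_lit 0) (nat_lit 205) (nat_lit 203) (nat_lit 192)))) (PT.nd (nat_lit 156) (PT.nd (nat_lit 78) (PT.lf (nat_lit 4332) (nat_lit 6) (nat_lit 57) (nat_lit 0) (nat_lit 206) (nat_lit 203) (nat_lit 191)) (PT.lf (nat_lit 4028) (nat_lit 6) (nat_lit 53) (nat_lit 0) (nat_lit 207) (nat_lit 203) (nat_lit 190))) (PT.nd (nat_lit 60918) (PT.lf (nat_lit 3800) (nat_lit 6) (nat_lit 50) (nat_lit 0) (nat_lit 208) (nat_lit 203) (nat_lit 189)) (PT.lf (nat_lit 3572) (nat_lit 6) (nat_lit 47) (nat_lit 5)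 (nat_lit 188) (nat_lit 204) (nat_lit 208))))) (PT.nd (nat_lit 312) (PT.nd (nat_lit 156) (PT.nd (nat_lit 78) (PT.lf (nat_lit 3876) (nat_lit 6) (nat_lit 51) (nat_lit 5) (nat_lit 189) (nat_lit 204) (nat_lit 207)) (PT.lf (nat_lit 4104) (nat_lit 6) (nat_lit 54) (nat_lit 5) (nat_lit 190) (nat_lit 204) (nat_lit 206))) (PT.nd (nat_lit 78) (PT.lf (nat_lit 4408) (nat_lit 6) (nat_lit 58) (nat_lit 5) (nat_lit 191) (nat_lit 204) (nat_lit 205)) (PT.lf (nat_lit 4712) (nat_lit 3) (nat_lit 62) (nat_lit 4) (nat_lit 192) (nat_lit 204) (nat_lit 204)))) (PT.nd (nat_lit 156) (PT.nd (nat_lit 78) (PT.lf (nat_lit 5168) (nat_lit 6) (nat_lit 68) (nat_lit 4) (nat_lit 193) (nat_lit 204) (nat_lit 203)) (PT.lf (nat_lit 5624) (nat_lit 6) (nat_lit 74) (nat_lit 4) (nat_lit 194) (nat_lit 204) (nat_lit 202))) (PT.nd (nat_lit 78) (PT.lf (nat_lit 6004) (nat_lit 6) (nat_lit 79) (nat_lit 4) (nat_lit 195) (nat_lit 204) (nat_lit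 201)) (PT.lf (nat_lit 6308) (nat_lit 6) (nat_lit 83) (nat_lit 4) (nat_lit 196) (nat_lit 204) (nat_lit 200)))))) (PT.nd (nat_lit 546) (PT.nd (nat_lit 234) (PT.nd (nat_lit 78) (PT.lf (nat_lit 6232) (nat_lit 6) (nat_lit 82) (nat_lit 4) (nat_lit 197) (nat_lit 204) (nat_lit 199)) (PT.nd (nat_lit 78) (PT.lf (nat_lit 6156) (nat_lit 3) (nat_lit 81) (nat_lit 2) (nat_lit 198) (nat_lit 204) (nat_lit 198)) (PT.lf (nat_lit 6232) (nat_lit 6) (nat_lit 82) (nat_lit 2) (nat_lit 199) (nat_lit 204) (nat_lit 197)))) (PT.nd (nat_lit 156) (PT.nd (nat_lit 78) (PT.lf (nat_lit 6308) (nat_lit 6) (nat_lit 83) (nat_lit 2) (nat_lit 200) (nat_lit 204) (nat_lit 196)) (PT.lf (nat_lit 6004) (nat_lit 6) (nat_lit 79) (nat_lit 2) (nat_lit 201) (nat_lit 204) (nat_lit 195))) (PT.nd (nat_lit 78) (PT.lf (nat_lit 5624) (nat_lit 6) (nat_lit 74) (nat_lit 2) (nat_lit 202) (nat_lit 204) (nat_lit 194)) (PT.lf (nat_lit 5168) (nat_lit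 6) (nat_lit 68) (nat_lit 2) (nat_lit 203) (nat_lit 204) (nat_lit 193))))) (PT.nd (nat_lit 312) (PT.nd (nat_lit 156) (PT.nd (nat_lit 78) (PT.lf (nat_lit 4712) (nat_lit 3) (nat_lit 62) (nat_lit 0) (nat_lit 204) (nat_lit 204) (nat_lit 192)) (PT.lf (nat_lit 4408) (nat_lit 6) (nat_lit 58) (nat_lit 0) (nat_lit 205) (nat_lit 204) (nat_lit 191))) (PT.nd (nat_lit 78) (PT.lf (nat_lit 4104) (nat_lit 6) (nat_lit 54) (nat_lit 0) (nat_lit 206) (nat_lit 204) (nat_lit 190)) (PT.lf (nat_lit 3876) (nat_lit 6) (nat_lit 51) (nat_lit 0) (nat_lit 207) (nat_lit 204) (nat_lit 189)))) (PT.nd (nat_lit 60840) (PT.nd (nat_lit 60762) (PT.lf (nat_lit 3572) (nat_lit 6) (nat_lit 47) (nat_lit 0) (nat_lit 208) (nat_lit 204) (nat_lit 188)) (PT.lf (nat_lit 3192) (nat_lit 6) (nat_lit 42) (nat_lit 5) (nat_lit 186) (nat_lit 205) (nat_lit 209))) (PT.nd (nat_lit 78) (PT.lf (nat_lit 3420) (nat_lit 6) (nat_lit 45) (nat_lit 5) (nat_lit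 187) (nat_lit 205) (nat_lit 208)) (PT.lf (nat_lit 3648) (nat_lit 6) (nat_lit 48) (nat_lit 5) (nat_lit 188) (nat_lit 205) (nat_lit 207))))))) (PT.nd (nat_lit 1170) (PT.nd (nat_lit 546) (PT.nd (nat_lit 234) (PT.nd (nat_lit 78) (PT.lf (nat_lit 3952) (nat_lit 6) (nat_lit 52) (nat_lit 5) (nat_lit 189) (nat_lit 205) (nat_lit 206)) (PT.nd (nat_lit 78) (PT.lf (nat_lit 4180) (nat_lit 3) (nat_lit 55) (nat_lit 4) (nat_lit 190) (nat_lit 205) (nat_lit 205)) (PT.lf (nat_lit 4408) (nat_lit 6) (nat_lit 58) (nat_lit 4) (nat_lit 191) (nat_lit 205) (nat_lit 204)))) (PT.nd (nat_lit 156) (PT.nd (nat_lit 78) (PT.lf (nat_lit 4636) (nat_lit 6) (nat_lit 61) (nat_lit 4) (nat_lit 192) (nat_lit 205) (nat_lit 203)) (PT.lf (nat_lit 5092) (nat_lit 6) (nat_lit 67) (nat_lit 4) (nat_lit 193) (nat_lit 205) (nat_lit 202))) (PT.nd (nat_lit 78) (PT.lf (nat_lit 5548) (nat_lit 6) (nat_lit 73) (nat_lit 4) (nat_lit 194) (nat_lit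 205) (nat_lit 201)) (PT.lf (nat_lit 5928) (nat_lit 6) (nat_lit 78) (nat_lit 4) (nat_lit 195) (nat_lit 205) (nat_lit 200))))) (PT.nd (nat_lit 312) (PT.nd (nat_lit 156) (PT.nd (nat_lit 78) (PT.lf (nat_lit 5852) (nat_lit 6) (nat_lit 77) (nat_lit 4) (nat_lit 196) (nat_lit 205) (nat_lit 199)) (PT.lf (nat_lit 5776) (nat_lit 6) (nat_lit 76) (nat_lit 4) (nat_lit 197) (nat_lit 205) (nat_lit 198))) (PT.nd (nat_lit 78) (PT.lf (nat_lit 5776) (nat_lit 6) (nat_lit 76) (nat_lit 2) (nat_lit 198) (nat_lit 205) (nat_lit 197)) (PT.lf (nat_lit 5852) (nat_lit 6) (nat_lit 77) (nat_lit 2) (nat_lit 199) (nat_lit 205) (nat_lit 196)))) (PT.nd (nat_lit 156) (PT.nd (nat_lit 78) (PT.lf (nat_lit 5928) (nat_lit 6) (nat_lit 78) (nat_lit 2) (nat_lit 200) (nat_lit 205) (nat_lit 195)) (PT.lf (nat_lit 5548) (nat_lit 6) (nat_lit 73) (nat_lit 2) (nat_lit 201) (nat_lit 205) (nat_lit 194))) (PT.nd (nat_lit 78) (PT.lf (nat_lit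 5092) (nat_lit 6) (nat_lit 67) (nat_lit 2) (nat_lit 202) (nat_lit 205) (nat_lit 193)) (PT.lf (nat_lit 4636) (nat_lit 6) (nat_lit 61) (nat_lit 2) (nat_lit 203) (nat_lit 205) (nat_lit 192)))))) (PT.nd (nat_lit 61074) (PT.nd (nat_lit 234) (PT.nd (nat_lit 78) (PT.lf (nat_lit 4408) (nat_lit 6) (nat_lit 58) (nat_lit 2) (nat_lit 204) (nat_lit 205) (nat_lit 191)) (PT.nd (nat_lit 78) (PT.lf (nat_lit 4180) (nat_lit 3) (nat_lit 55) (nat_lit 0) (nat_lit 205) (nat_lit 205) (nat_lit 190)) (PT.lf (nat_lit 3952) (nat_lit 6) (nat_lit 52) (nat_lit 0) (nat_lit 206) (nat_lit 205) (nat_lit 189)))) (PT.nd (nat_lit 156) (PT.nd (nat_lit 78) (PT.lf (nat_lit 3648) (nat_lit 6) (nat_lit 48) (nat_lit 0) (nat_lit 207) (nat_lit 205) (nat_lit 188)) (PT.lf (nat_lit 3420) (nat_lit 6) (nat_lit 45) (nat_lit 0) (nat_lit 208) (nat_lit 205) (nat_lit 187))) (PT.nd (nat_lit 60606) (PT.lf (nat_lit 3192) (nat_lit 6) (nat_lit 42)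 (nat_lit 0) (nat_lit 209) (nat_lit 205) (nat_lit 186)) (PT.lf (nat_lit 3040) (nat_lit 6) (nat_lit 40) (nat_lit 5) (nat_lit 185) (nat_lit 206) (nat_lit 209))))) (PT.nd (nat_lit 312) (PT.nd (nat_lit 156) (PT.nd (nat_lit 78) (PT.lf (nat_lit 3268) (nat_lit 6) (nat_lit 43) (nat_lit 5) (nat_lit 186) (nat_lit 206) (nat_lit 208)) (PT.lf (nat_lit 3496) (nat_lit 6) (nat_lit 46) (nat_lit 5) (nat_lit 187) (nat_lit 206) (nat_lit 207))) (PT.nd (nat_lit 78) (PT.lf (nat_lit 3724) (nat_lit 3) (nat_lit 49) (nat_lit 4) (nat_lit 188) (nat_lit 206) (nat_lit 206)) (PT.lf (nat_lit 3952) (nat_lit 6) (nat_lit 52) (nat_lit 4) (nat_lit 189) (nat_lit 206) (nat_lit 205)))) (PT.nd (nat_lit 156) (PT.nd (nat_lit 78) (PT.lf (nat_lit 4104) (nat_lit 6) (nat_lit 54) (nat_lit 4) (nat_lit 190) (nat_lit 206) (nat_lit 204)) (PT.lf (nat_lit 4332) (nat_lit 6) (nat_lit 57) (nat_lit 4) (nat_lit 191) (nat_lit 206) (nat_lit 203)))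 (PT.nd (nat_lit 78) (PT.lf (nat_lit 4560) (nat_lit 6) (nat_lit 60) (nat_lit 4) (nat_lit 192) (nat_lit 206) (nat_lit 202)) (PT.lf (nat_lit 5016) (nat_lit 6) (nat_lit 66) (nat_lit 4) (nat_lit 193) (nat_lit 206) (nat_lit 201))))))))
noncomputable def pc5 : PT := (PT.nd (nat_lit 62868) (PT.nd (nat_lit 1170) (PT.nd (nat_lit 546) (PT.nd (nat_lit 234) (PT.nd (nat_lit 78) (PT.lf (nat_lit 5472) (nat_lit 6) (nat_lit 72) (nat_lit 4) (nat_lit 194) (nat_lit 206) (nat_lit 200)) (PT.nd (nat_lit 78) (PT.lf (nat_lit 5396) (nat_lit 6) (nat_lit 71) (nat_lit 4) (nat_lit 195) (nat_lit 206) (nat_lit 199)) (PT.lf (nat_lit 5320) (nat_lit 6) (nat_lit 70) (nat_lit 4) (nat_lit 196) (nat_lit 206) (nat_lit 198)))) (PT.nd (nat_lit 156) (PT.nd (nat_lit 78) (PT.lf (nat_lit 5244) (nat_lit 3) (nat_lit 69) (nat_lit 2) (nat_lit 197) (nat_lit 206) (nat_lit 197)) (PT.lf (nat_lit 5320) (nat_lit 6) (nat_lit 70) (nat_lit 2) (nat_lit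 198) (nat_lit 206) (nat_lit 196))) (PT.nd (nat_lit 78) (PT.lf (nat_lit 5396) (nat_lit 6) (nat_lit 71) (nat_lit 2) (nat_lit 199) (nat_lit 206) (nat_lit 195)) (PT.lf (nat_lit 5472) (nat_lit 6) (nat_lit 72) (nat_lit 2) (nat_lit 200) (nat_lit 206) (nat_lit 194))))) (PT.nd (nat_lit 312) (PT.nd (nat_lit 156) (PT.nd (nat_lit 78) (PT.lf (nat_lit 5016) (nat_lit 6) (nat_lit 66) (nat_lit 2) (nat_lit 201) (nat_lit 206) (nat_lit 193)) (PT.lf (nat_lit 4560) (nat_lit 6) (nat_lit 60) (nat_lit 2) (nat_lit 202) (nat_lit 206) (nat_lit 192))) (PT.nd (nat_lit 78) (PT.lf (nat_lit 4332) (nat_lit 6) (nat_lit 57) (nat_lit 2) (nat_lit 203) (nat_lit 206) (nat_lit 191)) (PT.lf (nat_lit 4104) (nat_lit 6) (nat_lit 54) (nat_lit 2) (nat_lit 204) (nat_lit 206) (nat_lit 190)))) (PT.nd (nat_lit 156) (PT.nd (nat_lit 78) (PT.lf (nat_lit 3952) (nat_lit 6) (nat_lit 52) (nat_lit 2) (nat_lit 205) (nat_lit 206) (nat_lit 189)) (PT.lf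 (nat_lit 3724) (nat_lit 3) (nat_lit 49) (nat_lit 0) (nat_lit 206) (nat_lit 206) (nat_lit 188))) (PT.nd (nat_lit 78) (PT.lf (nat_lit 3496) (nat_lit 6) (nat_lit 46) (nat_lit 0) (nat_lit 207) (nat_lit 206) (nat_lit 187)) (PT.lf (nat_lit 3268) (nat_lit 6) (nat_lit 43) (nat_lit 0) (nat_lit 208) (nat_lit 206) (nat_lit 186)))))) (PT.nd (nat_lit 60918) (PT.nd (nat_lit 60606) (PT.nd (nat_lit 60450) (PT.lf (nat_lit 3040) (nat_lit 6) (nat_lit 40) (nat_lit 0) (nat_lit 209) (nat_lit 206) (nat_lit 185)) (PT.nd (nat_lit 78) (PT.lf (nat_lit 2736) (nat_lit 6) (nat_lit 36) (nat_lit 5) (nat_lit 183) (nat_lit 207) (nat_lit 210)) (PT.lf (nat_lit 2888) (nat_lit 6) (nat_lit 38) (nat_lit 5) (nat_lit 184) (nat_lit 207) (nat_lit 209)))) (PT.nd (nat_lit 156) (PT.nd (nat_lit 78) (PT.lf (nat_lit 3116) (nat_lit 6) (nat_lit 41) (nat_lit 5) (nat_lit 185) (nat_lit 207) (nat_lit 208)) (PT.lf (nat_lit 3344) (nat_lit 3) (nat_lit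 44) (nat_lit 4) (nat_lit 186) (nat_lit 207) (nat_lit 207))) (PT.nd (nat_lit 78) (PT.lf (nat_lit 3496) (nat_lit 6) (nat_lit 46) (nat_lit 4) (nat_lit 187) (nat_lit 207) (nat_lit 206)) (PT.lf (nat_lit 3648) (nat_lit 6) (nat_lit 48) (nat_lit 4) (nat_lit 188) (nat_lit 207) (nat_lit 205))))) (PT.nd (nat_lit 312) (PT.nd (nat_lit 156) (PT.nd (nat_lit 78) (PT.lf (nat_lit 3876) (nat_lit 6) (nat_lit 51) (nat_lit 4) (nat_lit 189) (nat_lit 207) (nat_lit 204)) (PT.lf (nat_lit 4028) (nat_lit 6) (nat_lit 53) (nat_lit 4) (nat_lit 190) (nat_lit 207) (nat_lit 203))) (PT.nd (nat_lit 78) (PT.lf (nat_lit 4256) (nat_lit 6) (nat_lit 56) (nat_lit 4) (nat_lit 191) (nat_lit 207) (nat_lit 202)) (PT.lf (nat_lit 4484) (nat_lit 6) (nat_lit 59) (nat_lit 4) (nat_lit 192) (nat_lit 207) (nat_lit 201)))) (PT.nd (nat_lit 156) (PT.nd (nat_lit 78) (PT.lf (nat_lit 4940) (nat_lit 6) (nat_lit 65) (nat_lit 4) (nat_lit 193) (nat_lit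 207) (nat_lit 200)) (PT.lf (nat_lit 4864) (nat_lit 6) (nat_lit 64) (nat_lit 4) (nat_lit 194) (nat_lit 207) (nat_lit 199))) (PT.nd (nat_lit 234) (PT.lf (nat_lit 4788) (nat_lit 6) (nat_lit 63) (nat_lit 4) (nat_lit 195) (nat_lit 207) (nat_lit 198)) (PT.lf (nat_lit 4788) (nat_lit 6) (nat_lit 63) (nat_lit 2) (nat_lit 198) (nat_lit 207) (nat_lit 195))))))) (PT.nd (nat_lit 61308) (PT.nd (nat_lit 546) (PT.nd (nat_lit 234) (PT.nd (nat_lit 78) (PT.lf (nat_lit 4864) (nat_lit 6) (nat_lit 64) (nat_lit 2) (nat_lit 199) (nat_lit 207) (nat_lit 194)) (PT.nd (nat_lit 78) (PT.lf (nat_lit 4940) (nat_lit 6) (nat_lit 65) (nat_lit 2) (nat_lit 200) (nat_lit 207) (nat_lit 193)) (PT.lf (nat_lit 4484) (nat_lit 6) (nat_lit 59) (nat_lit 2) (nat_lit 201) (nat_lit 207) (nat_lit 192)))) (PT.nd (nat_lit 156) (PT.nd (nat_lit 78) (PT.lf (nat_lit 4256) (nat_lit 6) (nat_lit 56) (nat_lit 2) (nat_lit 202) (nat_lit 207) (nat_lit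 191)) (PT.lf (nat_lit 4028) (nat_lit 6) (nat_lit 53) (nat_lit 2) (nat_lit 203) (nat_lit 207) (nat_lit 190))) (PT.nd (nat_lit 78) (PT.lf (nat_lit 3876) (nat_lit 6) (nat_lit 51) (nat_lit 2) (nat_lit 204) (nat_lit 207) (nat_lit 189)) (PT.lf (nat_lit 3648) (nat_lit 6) (nat_lit 48) (nat_lit 2) (nat_lit 205) (nat_lit 207) (nat_lit 188))))) (PT.nd (nat_lit 312) (PT.nd (nat_lit 156) (PT.nd (nat_lit 78) (PT.lf (nat_lit 3496) (nat_lit 6) (nat_lit 46) (nat_lit 2) (nat_lit 206) (nat_lit 207) (nat_lit 187)) (PT.lf (nat_lit 3344) (nat_lit 3) (nat_lit 44) (nat_lit 0) (nat_lit 207) (nat_lit 207) (nat_lit 186))) (PT.nd (nat_lit 78) (PT.lf (nat_lit 3116) (nat_lit 6) (nat_lit 41) (nat_lit 0) (nat_lit 208) (nat_lit 207) (nat_lit 185)) (PT.lf (nat_lit 2888) (nat_lit 6) (nat_lit 38) (nat_lit 0) (nat_lit 209) (nat_lit 207) (nat_lit 184)))) (PT.nd (nat_lit 60294) (PT.nd (nat_lit 60216) (PT.lf (nat_lit 2736) (nat_lit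 6) (nat_lit 36) (nat_lit 0) (nat_lit 210) (nat_lit 207) (nat_lit 183)) (PT.lf (nat_lit 2432) (nat_lit 6) (nat_lit 32) (nat_lit 5) (nat_lit 181) (nat_lit 208) (nat_lit 211))) (PT.nd (nat_lit 78) (PT.lf (nat_lit 2584) (nat_lit 6) (nat_lit 34) (nat_lit 5) (nat_lit 182) (nat_lit 208) (nat_lit 210)) (PT.lf (nat_lit 2812) (nat_lit 6) (nat_lit 37) (nat_lit 5) (nat_lit 183) (nat_lit 208) (nat_lit 209)))))) (PT.nd (nat_lit 1638) (PT.nd (nat_lit 312) (PT.nd (nat_lit 156) (PT.nd (nat_lit 78) (PT.lf (nat_lit 2964) (nat_lit 3) (nat_lit 39) (nat_lit 4) (nat_lit 184) (nat_lit 208) (nat_lit 208)) (PT.lf (nat_lit 3116) (nat_lit 6) (nat_lit 41) (nat_lit 4) (nat_lit 185) (nat_lit 208) (nat_lit 207))) (PT.nd (nat_lit 78) (PT.lf (nat_lit 3268) (nat_lit 6) (nat_lit 43) (nat_lit 4) (nat_lit 186) (nat_lit 208) (nat_lit 206)) (PT.lf (nat_lit 3420) (nat_lit 6) (nat_lit 45) (nat_lit 4) (nat_lit 187) (nat_lit 208)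 (nat_lit 205)))) (PT.nd (nat_lit 1170) (PT.nd (nat_lit 78) (PT.lf (nat_lit 3572) (nat_lit 6) (nat_lit 47) (nat_lit 4) (nat_lit 188) (nat_lit 208) (nat_lit 204)) (PT.lf (nat_lit 3800) (nat_lit 6) (nat_lit 50) (nat_lit 4) (nat_lit 189) (nat_lit 208) (nat_lit 203))) (PT.nd (nat_lit 78) (PT.lf (nat_lit 3800) (nat_lit 6) (nat_lit 50) (nat_lit 2) (nat_lit 203) (nat_lit 208) (nat_lit 189)) (PT.lf (nat_lit 3572) (nat_lit 6) (nat_lit 47) (nat_lit 2) (nat_lit 204) (nat_lit 208) (nat_lit 188))))) (PT.nd (nat_lit 312) (PT.nd (nat_lit 156) (PT.nd (nat_lit 78) (PT.lf (nat_lit 3420) (nat_lit 6) (nat_lit 45) (nat_lit 2) (nat_lit 205) (nat_lit 208) (nat_lit 187)) (PT.lf (nat_lit 3268) (nat_lit 6) (nat_lit 43) (nat_lit 2) (nat_lit 206) (nat_lit 208) (nat_lit 186))) (PT.nd (nat_lit 78) (PT.lf (nat_lit 3116) (nat_lit 6) (nat_lit 41) (nat_lit 2) (nat_lit 207) (nat_lit 208) (nat_lit 185)) (PT.lf (nat_lit 2964)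 (nat_lit 3) (nat_lit 39) (nat_lit 0) (nat_lit 208) (nat_lit 208) (nat_lit 184)))) (PT.nd (nat_lit 156) (PT.nd (nat_lit 78) (PT.lf (nat_lit 2812) (nat_lit 6) (nat_lit 37) (nat_lit 0) (nat_lit 209) (nat_lit 208) (nat_lit 183)) (PT.lf (nat_lit 2584) (nat_lit 6) (nat_lit 34) (nat_lit 0) (nat_lit 210) (nat_lit 208) (nat_lit 182))) (PT.nd (nat_lit 60060) (PT.lf (nat_lit 2432) (nat_lit 6) (nat_lit 32) (nat_lit 0) (nat_lit 211) (nat_lit 208) (nat_lit 181)) (PT.lf (nat_lit 2280) (nat_lit 6) (nat_lit 30) (nat_lit 5) (nat_lit 180) (nat_lit 209) (nat_lit 211))))))))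
noncomputable def pc6 : PT := (PT.nd (nat_lit 124956) (PT.nd (nat_lit 62400) (PT.nd (nat_lit 1950) (PT.nd (nat_lit 234) (PT.nd (nat_lit 78) (PT.lf (nat_lit 2508) (nat_lit 6) (nat_lit 33) (nat_lit 5) (nat_lit 181) (nat_lit 209) (nat_lit 210)) (PT.nd (nat_lit 78) (PT.lf (nat_lit 2660) (nat_lit 3) (nat_lit 35) (nat_lit 4) (nat_lit 182) (nat_lit 209) (nat_lit 209)) (PT.lf (nat_lit 2812) (nat_lit 6) (nat_lit 37) (nat_lit 4) (nat_lit 183) (nat_lit 209) (nat_lit 208)))) (PT.nd (nat_lit 156) (PT.nd (nat_lit 78) (PT.lf (nat_lit 2888) (nat_lit 6) (nat_lit 38) (nat_lit 4) (nat_lit 184) (nat_lit 209) (nat_lit 207)) (PT.lf (nat_lit 3040) (nat_lit 6) (nat_lit 40) (nat_lit 4) (nat_lit 185) (nat_lit 209) (nat_lit 206))) (PT.nd (nat_lit 1482) (PT.lf (nat_lit 3192) (nat_lit 6) (nat_lit 42) (nat_lit 4) (nat_lit 186) (nat_lit 209) (nat_lit 205)) (PT.lf (nat_lit 3192) (nat_lit 6) (nat_lit 42) (nat_lit 2) (nat_lit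 205) (nat_lit 209) (nat_lit 186))))) (PT.nd (nat_lit 312) (PT.nd (nat_lit 156) (PT.nd (nat_lit 78) (PT.lf (nat_lit 3040) (nat_lit 6) (nat_lit 40) (nat_lit 2) (nat_lit 206) (nat_lit 209) (nat_lit 185)) (PT.lf (nat_lit 2888) (nat_lit 6) (nat_lit 38) (nat_lit 2) (nat_lit 207) (nat_lit 209) (nat_lit 184))) (PT.nd (nat_lit 78) (PT.lf (nat_lit 2812) (nat_lit 6) (nat_lit 37) (nat_lit 2) (nat_lit 208) (nat_lit 209) (nat_lit 183)) (PT.lf (nat_lit 2660) (nat_lit 3) (nat_lit 35) (nat_lit 0) (nat_lit 209) (nat_lit 209) (nat_lit 182)))) (PT.nd (nat_lit 59982) (PT.nd (nat_lit 78) (PT.lf (nat_lit 2508) (nat_lit 6) (nat_lit 33) (nat_lit 0) (nat_lit 210) (nat_lit 209) (nat_lit 181)) (PT.lf (nat_lit 2280) (nat_lit 6) (nat_lit 30) (nat_lit 0) (nat_lit 211) (nat_lit 209) (nat_lit 180))) (PT.nd (nat_lit 78) (PT.lf (nat_lit 2052) (nat_lit 6) (nat_lit 27) (nat_lit 5) (nat_lit 178) (nat_lit 210) (nat_lit 212))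 (PT.lf (nat_lit 2204) (nat_lit 6) (nat_lit 29) (nat_lit 5) (nat_lit 179) (nat_lit 210) (nat_lit 211)))))) (PT.nd (nat_lit 2340) (PT.nd (nat_lit 234) (PT.nd (nat_lit 78) (PT.lf (nat_lit 2356) (nat_lit 3) (nat_lit 31) (nat_lit 4) (nat_lit 180) (nat_lit 210) (nat_lit 210)) (PT.nd (nat_lit 78) (PT.lf (nat_lit 2508) (nat_lit 6) (nat_lit 33) (nat_lit 4) (nat_lit 181) (nat_lit 210) (nat_lit 209)) (PT.lf (nat_lit 2584) (nat_lit 6) (nat_lit 34) (nat_lit 4) (nat_lit 182) (nat_lit 210) (nat_lit 208)))) (PT.nd (nat_lit 1950) (PT.nd (nat_lit 1872) (PT.lf (nat_lit 2736) (nat_lit 6) (nat_lit 36) (nat_lit 4) (nat_lit 183) (nat_lit 210) (nat_lit 207)) (PT.lf (nat_lit 2736) (nat_lit 6) (nat_lit 36) (nat_lit 2) (nat_lit 207) (nat_lit 210) (nat_lit 183))) (PT.nd (nat_lit 78) (PT.lf (nat_lit 2584) (nat_lit 6) (nat_lit 34) (nat_lit 2) (nat_lit 208) (nat_lit 210) (nat_lit 182)) (PT.lf (nat_lit 2508) (nat_lit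 6) (nat_lit 33) (nat_lit 2) (nat_lit 209) (nat_lit 210) (nat_lit 181))))) (PT.nd (nat_lit 59904) (PT.nd (nat_lit 156) (PT.nd (nat_lit 78) (PT.lf (nat_lit 2356) (nat_lit 3) (nat_lit 31) (nat_lit 0) (nat_lit 210) (nat_lit 210) (nat_lit 180)) (PT.lf (nat_lit 2204) (nat_lit 6) (nat_lit 29) (nat_lit 0) (nat_lit 211) (nat_lit 210) (nat_lit 179))) (PT.nd (nat_lit 59670) (PT.lf (nat_lit 2052) (nat_lit 6) (nat_lit 27) (nat_lit 0) (nat_lit 212) (nat_lit 210) (nat_lit 178)) (PT.lf (nat_lit 1824) (nat_lit 6) (nat_lit 24) (nat_lit 5) (nat_lit 176) (nat_lit 211) (nat_lit 213)))) (PT.nd (nat_lit 156) (PT.nd (nat_lit 78) (PT.lf (nat_lit 1976) (nat_lit 6) (nat_lit 26) (nat_lit 5) (nat_lit 177) (nat_lit 211) (nat_lit 212)) (PT.lf (nat_lit 2128) (nat_lit 3) (nat_lit 28) (nat_lit 4) (nat_lit 178) (nat_lit 211) (nat_lit 211))) (PT.nd (nat_lit 78) (PT.lf (nat_lit 2204) (nat_lit 6) (nat_lit 29) (nat_lit 4) (nat_lit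 179) (nat_lit 211) (nat_lit 210)) (PT.lf (nat_lit 2280) (nat_lit 6) (nat_lit 30) (nat_lit 4) (nat_lit 180) (nat_lit 211) (nat_lit 209))))))) (PT.nd (nat_lit 64974) (PT.nd (nat_lit 61932) (PT.nd (nat_lit 2262) (PT.nd (nat_lit 2106) (PT.lf (nat_lit 2432) (nat_lit 6) (nat_lit 32) (nat_lit 4) (nat_lit 181) (nat_lit 211) (nat_lit 208)) (PT.nd (nat_lit 78) (PT.lf (nat_lit 2432) (nat_lit 6) (nat_lit 32) (nat_lit 2) (nat_lit 208) (nat_lit 211) (nat_lit 181)) (PT.lf (nat_lit 2280) (nat_lit 6) (nat_lit 30) (nat_lit 2) (nat_lit 209) (nat_lit 211) (nat_lit 180)))) (PT.nd (nat_lit 156) (PT.nd (nat_lit 78) (PT.lf (nat_lit 2204) (nat_lit 6) (nat_lit 29) (nat_lit 2) (nat_lit 210) (nat_lit 211) (nat_lit 179)) (PT.lf (nat_lit 2128) (nat_lit 3) (nat_lit 28) (nat_lit 0) (nat_lit 211) (nat_lit 211) (nat_lit 178))) (PT.nd (nat_lit 78) (PT.lf (nat_lit 1976) (nat_lit 6) (nat_lit 26) (nat_lit 0) (nat_lit 212) (nat_lit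 211) (nat_lit 177)) (PT.lf (nat_lit 1824) (nat_lit 6) (nat_lit 24) (nat_lit 0) (nat_lit 213) (nat_lit 211) (nat_lit 176))))) (PT.nd (nat_lit 312) (PT.nd (nat_lit 156) (PT.nd (nat_lit 78) (PT.lf (nat_lit 1596) (nat_lit 6) (nat_lit 21) (nat_lit 5) (nat_lit 174) (nat_lit 212) (nat_lit 214)) (PT.lf (nat_lit 1748) (nat_lit 6) (nat_lit 23) (nat_lit 5) (nat_lit 175) (nat_lit 212) (nat_lit 213))) (PT.nd (nat_lit 78) (PT.lf (nat_lit 1900) (nat_lit 3) (nat_lit 25) (nat_lit 4) (nat_lit 176) (nat_lit 212) (nat_lit 212)) (PT.lf (nat_lit 1976) (nat_lit 6) (nat_lit 26) (nat_lit 4) (nat_lit 177) (nat_lit 212) (nat_lit 211)))) (PT.nd (nat_lit 2574) (PT.nd (nat_lit 2496) (PT.lf (nat_lit 2052) (nat_lit 6) (nat_lit 27) (nat_lit 4) (nat_lit 178) (nat_lit 212) (nat_lit 210)) (PT.lf (nat_lit 2052) (nat_lit 6) (nat_lit 27) (nat_lit 2) (nat_lit 210) (nat_lit 212) (nat_lit 178))) (PT.nd (nat_lit 78) (PT.lf (nat_lit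 1976) (nat_lit 6) (nat_lit 26) (nat_lit 2) (nat_lit 211) (nat_lit 212) (nat_lit 177)) (PT.lf (nat_lit 1900) (nat_lit 3) (nat_lit 25) (nat_lit 0) (nat_lit 212) (nat_lit 212) (nat_lit 176)))))) (PT.nd (nat_lit 62322) (PT.nd (nat_lit 59358) (PT.nd (nat_lit 78) (PT.lf (nat_lit 1748) (nat_lit 6) (nat_lit 23) (nat_lit 0) (nat_lit 213) (nat_lit 212) (nat_lit 175)) (PT.nd (nat_lit 59202) (PT.lf (nat_lit 1596) (nat_lit 6) (nat_lit 21) (nat_lit 0) (nat_lit 214) (nat_lit 212) (nat_lit 174)) (PT.lf (nat_lit 1368) (nat_lit 6) (nat_lit 18) (nat_lit 5) (nat_lit 172) (nat_lit 213) (nat_lit 215)))) (PT.nd (nat_lit 156) (PT.nd (nat_lit 78) (PT.lf (nat_lit 1520) (nat_lit 6) (nat_lit 20) (nat_lit 5) (nat_lit 173) (nat_lit 213) (nat_lit 214)) (PT.lf (nat_lit 1672) (nat_lit 3) (nat_lit 22) (nat_lit 4) (nat_lit 174) (nat_lit 213) (nat_lit 213))) (PT.nd (nat_lit 78) (PT.lf (nat_lit 1748) (nat_lit 6) (nat_lit 23)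 (nat_lit 4) (nat_lit 175) (nat_lit 213) (nat_lit 212)) (PT.lf (nat_lit 1824) (nat_lit 6) (nat_lit 24) (nat_lit 4) (nat_lit 176) (nat_lit 213) (nat_lit 211))))) (PT.nd (nat_lit 312) (PT.nd (nat_lit 156) (PT.nd (nat_lit 78) (PT.lf (nat_lit 1824) (nat_lit 6) (nat_lit 24) (nat_lit 2) (nat_lit 211) (nat_lit 213) (nat_lit 176)) (PT.lf (nat_lit 1748) (nat_lit 6) (nat_lit 23) (nat_lit 2) (nat_lit 212) (nat_lit 213) (nat_lit 175))) (PT.nd (nat_lit 78) (PT.lf (nat_lit 1672) (nat_lit 3) (nat_lit 22) (nat_lit 0) (nat_lit 213) (nat_lit 213) (nat_lit 174)) (PT.lf (nat_lit 1520) (nat_lit 6) (nat_lit 20) (nat_lit 0) (nat_lit 214) (nat_lit 213) (nat_lit 173)))) (PT.nd (nat_lit 59046) (PT.nd (nat_lit 58968) (PT.lf (nat_lit 1368) (nat_lit 6) (nat_lit 18) (nat_lit 0) (nat_lit 215) (nat_lit 213) (nat_lit 172)) (PT.lf (nat_lit 1140) (nat_lit 6) (nat_lit 15) (nat_lit 5) (nat_lit 170) (nat_lit 214) (nat_lit 216)))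 (PT.nd (nat_lit 78) (PT.lf (nat_lit 1292) (nat_lit 6) (nat_lit 17) (nat_lit 5) (nat_lit 171) (nat_lit 214) (nat_lit 215)) (PT.lf (nat_lit 1444) (nat_lit 3) (nat_lit 19) (nat_lit 4) (nat_lit 172) (nat_lit 214) (nat_lit 214))))))))
noncomputable def pc7 : PT := (PT.nd (nat_lit 186966) (PT.nd (nat_lit 65832) (PT.nd (nat_lit 62088) (PT.nd (nat_lit 3120) (PT.nd (nat_lit 78) (PT.lf (nat_lit 1520) (nat_lit 6) (nat_lit 20) (nat_lit 4) (nat_lit 173) (nat_lit 214) (nat_lit 213)) (PT.nd (nat_lit 2964) (PT.lf (nat_lit 1596) (nat_lit 6) (nat_lit 21) (nat_lit 4) (nat_lit 174) (nat_lit 214) (nat_lit 212)) (PT.lf (nat_lit 1596) (nat_lit 6) (nat_lit 21) (nat_lit 2) (nat_lit 212) (nat_lit 214) (nat_lit 174)))) (PT.nd (nat_lit 156) (PT.nd (nat_lit 78) (PT.lf (nat_lit 1520) (nat_lit 6) (nat_lit 20) (nat_lit 2) (nat_lit 213) (nat_lit 214) (nat_lit 173)) (PT.lf (nat_lit 1444) (nat_lit 3) (nat_lit 19) (nat_lit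 0) (nat_lit 214) (nat_lit 214) (nat_lit 172))) (PT.nd (nat_lit 78) (PT.lf (nat_lit 1292) (nat_lit 6) (nat_lit 17) (nat_lit 0) (nat_lit 215) (nat_lit 214) (nat_lit 171)) (PT.lf (nat_lit 1140) (nat_lit 6) (nat_lit 15) (nat_lit 0) (nat_lit 216) (nat_lit 214) (nat_lit 170))))) (PT.nd (nat_lit 312) (PT.nd (nat_lit 156) (PT.nd (nat_lit 78) (PT.lf (nat_lit 912) (nat_lit 6) (nat_lit 12) (nat_lit 5) (nat_lit 168) (nat_lit 215) (nat_lit 217)) (PT.lf (nat_lit 1064) (nat_lit 6) (nat_lit 14) (nat_lit 5) (nat_lit 169) (nat_lit 215) (nat_lit 216))) (PT.nd (nat_lit 78) (PT.lf (nat_lit 1216) (nat_lit 3) (nat_lit 16) (nat_lit 4) (nat_lit 170) (nat_lit 215) (nat_lit 215)) (PT.lf (nat_lit 1292) (nat_lit 6) (nat_lit 17) (nat_lit 4) (nat_lit 171) (nat_lit 215) (nat_lit 214)))) (PT.nd (nat_lit 3276) (PT.nd (nat_lit 3198) (PT.lf (nat_lit 1368) (nat_lit 6) (nat_lit 18) (nat_lit 4) (nat_lit 172) (nat_lit 215) (nat_lit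 213)) (PT.lf (nat_lit 1368) (nat_lit 6) (nat_lit 18) (nat_lit 2) (nat_lit 213) (nat_lit 215) (nat_lit 172))) (PT.nd (nat_lit 78) (PT.lf (nat_lit 1292) (nat_lit 6) (nat_lit 17) (nat_lit 2) (nat_lit 214) (nat_lit 215) (nat_lit 171)) (PT.lf (nat_lit 1216) (nat_lit 3) (nat_lit 16) (nat_lit 0) (nat_lit 215) (nat_lit 215) (nat_lit 170)))))) (PT.nd (nat_lit 62322) (PT.nd (nat_lit 58656) (PT.nd (nat_lit 78) (PT.lf (nat_lit 1064) (nat_lit 6) (nat_lit 14) (nat_lit 0) (nat_lit 216) (nat_lit 215) (nat_lit 169)) (PT.nd (nat_lit 58500) (PT.lf (nat_lit 912) (nat_lit 6) (nat_lit 12) (nat_lit 0) (nat_lit 217) (nat_lit 215) (nat_lit 168)) (PT.lf (nat_lit 684) (nat_lit 6) (nat_lit 9) (nat_lit 5) (nat_lit 166) (nat_lit 216) (nat_lit 218)))) (PT.nd (nat_lit 156) (PT.nd (nat_lit 78) (PT.lf (nat_lit 836) (nat_lit 6) (nat_lit 11) (nat_lit 5) (nat_lit 167) (nat_lit 216) (nat_lit 217)) (PT.lf (nat_lit 988) (nat_lit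 3) (nat_lit 13) (nat_lit 4) (nat_lit 168) (nat_lit 216) (nat_lit 216))) (PT.nd (nat_lit 78) (PT.lf (nat_lit 1064) (nat_lit 6) (nat_lit 14) (nat_lit 4) (nat_lit 169) (nat_lit 216) (nat_lit 215)) (PT.lf (nat_lit 1140) (nat_lit 6) (nat_lit 15) (nat_lit 4) (nat_lit 170) (nat_lit 216) (nat_lit 214))))) (PT.nd (nat_lit 312) (PT.nd (nat_lit 156) (PT.nd (nat_lit 78) (PT.lf (nat_lit 1140) (nat_lit 6) (nat_lit 15) (nat_lit 2) (nat_lit 214) (nat_lit 216) (nat_lit 170)) (PT.lf (nat_lit 1064) (nat_lit 6) (nat_lit 14) (nat_lit 2) (nat_lit 215) (nat_lit 216) (nat_lit 169))) (PT.nd (nat_lit 78) (PT.lf (nat_lit 988) (nat_lit 3) (nat_lit 13) (nat_lit 0) (nat_lit 216) (nat_lit 216) (nat_lit 168)) (PT.lf (nat_lit 836) (nat_lit 6) (nat_lit 11) (nat_lit 0) (nat_lit 217) (nat_lit 216) (nat_lit 167)))) (PT.nd (nat_lit 58344) (PT.nd (nat_lit 58266) (PT.lf (nat_lit 684) (nat_lit 6) (nat_lit 9) (nat_lit 0) (nat_lit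 218) (nat_lit 216) (nat_lit 166)) (PT.lf (nat_lit 456) (nat_lit 6) (nat_lit 6) (nat_lit 5) (nat_lit 164) (nat_lit 217) (nat_lit 219))) (PT.nd (nat_lit 78) (PT.lf (nat_lit 608) (nat_lit 6) (nat_lit 8) (nat_lit 5) (nat_lit 165) (nat_lit 217) (nat_lit 218)) (PT.lf (nat_lit 760) (nat_lit 3) (nat_lit 10) (nat_lit 4) (nat_lit 166) (nat_lit 217) (nat_lit 217))))))) (PT.nd (nat_lit 66534) (PT.nd (nat_lit 62088) (PT.nd (nat_lit 3822) (PT.nd (nat_lit 78) (PT.lf (nat_lit 836) (nat_lit 6) (nat_lit 11) (nat_lit 4) (nat_lit 167) (nat_lit 217) (nat_lit 216)) (PT.nd (nat_lit 3666) (PT.lf (nat_lit 912) (nat_lit 6) (nat_lit 12) (nat_lit 4) (nat_lit 168) (nat_lit 217) (nat_lit 215)) (PT.lf (nat_lit 912) (nat_lit 6) (nat_lit 12) (nat_lit 2) (nat_lit 215) (nat_lit 217) (nat_lit 168)))) (PT.nd (nat_lit 156) (PT.nd (nat_lit 78) (PT.lf (nat_lit 836) (nat_lit 6) (nat_lit 11) (nat_lit 2) (nat_lit 216) (nat_lit 217)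 (nat_lit 167)) (PT.lf (nat_lit 760) (nat_lit 3) (nat_lit 10) (nat_lit 0) (nat_lit 217) (nat_lit 217) (nat_lit 166))) (PT.nd (nat_lit 78) (PT.lf (nat_lit 608) (nat_lit 6) (nat_lit 8) (nat_lit 0) (nat_lit 218) (nat_lit 217) (nat_lit 165)) (PT.lf (nat_lit 456) (nat_lit 6) (nat_lit 6) (nat_lit 0) (nat_lit 219) (nat_lit 217) (nat_lit 164))))) (PT.nd (nat_lit 312) (PT.nd (nat_lit 156) (PT.nd (nat_lit 78) (PT.lf (nat_lit 228) (nat_lit 6) (nat_lit 3) (nat_lit 5) (nat_lit 162) (nat_lit 218) (nat_lit 220)) (PT.lf (nat_lit 380) (nat_lit 6) (nat_lit 5) (nat_lit 5) (nat_lit 163) (nat_lit 218) (nat_lit 219))) (PT.nd (nat_lit 78) (PT.lf (nat_lit 532) (nat_lit 3) (nat_lit 7) (nat_lit 4) (nat_lit 164) (nat_lit 218) (nat_lit 218)) (PT.lf (nat_lit 608) (nat_lit 6) (nat_lit 8) (nat_lit 4) (nat_lit 165) (nat_lit 218) (nat_lit 217)))) (PT.nd (nat_lit 3978) (PT.nd (nat_lit 3900) (PT.lf (nat_lit 684) (nat_lit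 6) (nat_lit 9) (nat_lit 4) (nat_lit 166) (nat_lit 218) (nat_lit 216)) (PT.lf (nat_lit 684) (nat_lit 6) (nat_lit 9) (nat_lit 2) (nat_lit 216) (nat_lit 218) (nat_lit 166))) (PT.nd (nat_lit 78) (PT.lf (nat_lit 608) (nat_lit 6) (nat_lit 8) (nat_lit 2) (nat_lit 217) (nat_lit 218) (nat_lit 165)) (PT.lf (nat_lit 532) (nat_lit 3) (nat_lit 7) (nat_lit 0) (nat_lit 218) (nat_lit 218) (nat_lit 164)))))) (PT.nd (nat_lit 62478) (PT.nd (nat_lit 58110) (PT.nd (nat_lit 57954) (PT.nd (nat_lit 78) (PT.lf (nat_lit 380) (nat_lit 6) (nat_lit 5) (nat_lit 0) (nat_lit 219) (nat_lit 218) (nat_lit 163)) (PT.lf (nat_lit 228) (nat_lit 6) (nat_lit 3) (nat_lit 0) (nat_lit 220) (nat_lit 218) (nat_lit 162))) (PT.nd (nat_lit 78) (PT.lf (nat_lit 152) (nat_lit 6) (nat_lit 2) (nat_lit 5) (nat_lit 161) (nat_lit 219) (nat_lit 220)) (PT.lf (nat_lit 304) (nat_lit 3) (nat_lit 4) (nat_lit 4) (nat_lit 162) (nat_lit 219) (nat_lit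 219)))) (PT.nd (nat_lit 4212) (PT.nd (nat_lit 78) (PT.lf (nat_lit 380) (nat_lit 6) (nat_lit 5) (nat_lit 4) (nat_lit 163) (nat_lit 219) (nat_lit 218)) (PT.lf (nat_lit 456) (nat_lit 6) (nat_lit 6) (nat_lit 4) (nat_lit 164) (nat_lit 219) (nat_lit 217))) (PT.nd (nat_lit 78) (PT.lf (nat_lit 456) (nat_lit 6) (nat_lit 6) (nat_lit 2) (nat_lit 217) (nat_lit 219) (nat_lit 164)) (PT.lf (nat_lit 380) (nat_lit 6) (nat_lit 5) (nat_lit 2) (nat_lit 218) (nat_lit 219) (nat_lit 163))))) (PT.nd (nat_lit 58032) (PT.nd (nat_lit 57876) (PT.nd (nat_lit 78) (PT.lf (nat_lit 304) (nat_lit 3) (nat_lit 4) (nat_lit 0) (nat_lit 219) (nat_lit 219) (nat_lit 162)) (PT.lf (nat_lit 152) (nat_lit 6) (nat_lit 2) (nat_lit 0) (nat_lit 220) (nat_lit 219) (nat_lit 161))) (PT.nd (nat_lit 78) (PT.lf (nat_lit 76) (nat_lit 3) (nat_lit 1) (nat_lit 4) (nat_lit 160) (nat_lit 220) (nat_lit 220)) (PT.lf (nat_lit 152) (nat_lit 6) (nat_lit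 2) (nat_lit 4) (nat_lit 161) (nat_lit 220) (nat_lit 219)))) (PT.nd (nat_lit 4446) (PT.nd (nat_lit 4368) (PT.lf (nat_lit 228) (nat_lit 6) (nat_lit 3) (nat_lit 4) (nat_lit 162) (nat_lit 220) (nat_lit 218)) (PT.lf (nat_lit 228) (nat_lit 6) (nat_lit 3) (nat_lit 2) (nat_lit 218) (nat_lit 220) (nat_lit 162))) (PT.nd (nat_lit 78) (PT.lf (nat_lit 152) (nat_lit 6) (nat_lit 2) (nat_lit 2) (nat_lit 219) (nat_lit 220) (nat_lit 161)) (PT.lf (nat_lit 76) (nat_lit 3) (nat_lit 1) (nat_lit 0) (nat_lit 220) (nat_lit 220) (nat_lit 160))))))))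
noncomputable def xc0 : XT := (XT.nd (nat_lit 249756) (nat_lit 0) (nat_lit 0) (XT.nd (nat_lit 187122) (nat_lit 0) (nat_lit 0) (XT.nd (nat_lit 124722) (nat_lit 0) (nat_lit 0) (XT.nd (nat_lit 62400) (nat_lit 0) (nat_lit 0) (XT.nd (nat_lit 62322) (nat_lit 0) (nat_lit 0) (XT.lf (nat_lit 0) (nat_lit 6501114767906) (nat_lit 76) (nat_lit 576156665284) (nat_lit 76) (nat_lit 576156665284) (nat_lit 1) (nat_lit 4) (nat_lit 2) (nat_lit 5) (nat_lit 2) (nat_lit 4) (nat_lit 530) (nat_lit 335) (nat_lit 335)) (XT.lf (nat_lit 0) (nat_lit 5572805466522) (nat_lit 76) (nat_lit 494404441346) (nat_lit 76) (nat_lit 494404441346) (nat_lit 1) (nat_lit 4) (nat_lit 2) (nat_lit 5) (nat_lit 2) (nat_lit 4) (nat_lit 528) (nat_lit 336) (nat_lit 336))) (XT.nd (nat_lit 78) (nat_lit 0) (nat_lit 0) (XT.lf (nat_lit 0) (nat_lit 12038227812477) (nat_lit 76) (nat_lit 1067413139813) (nat_lit 76) (nat_lit 1067408198278) (nat_lit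 1) (nat_lit 4) (nat_lit 2) (nat_lit 5) (nat_lit 2) (nat_lit 4) (nat_lit 529) (nat_lit 336) (nat_lit 335)) (XT.nd (nat_lit 62166) (nat_lit 0) (nat_lit 0) (XT.lf (nat_lit 0) (nat_lit 13002206844655) (nat_lit 76) (nat_lit 1152329878213) (nat_lit 76) (nat_lit 1152320361182) (nat_lit 1) (nat_lit 4) (nat_lit 2) (nat_lit 5) (nat_lit 2) (nat_lit 4) (nat_lit 530) (nat_lit 336) (nat_lit 334)) (XT.lf (nat_lit 0) (nat_lit 4776861657260) (nat_lit 76) (nat_lit 424350523367) (nat_lit 76) (nat_lit 424350523367) (nat_lit 1) (nat_lit 4) (nat_lit 2) (nat_lit 5) (nat_lit 2) (nat_lit 4) (nat_lit 526) (nat_lit 337) (nat_lit 337))))) (XT.nd (nat_lit 234) (nat_lit 0) (nat_lit 0) (XT.nd (nat_lit 78) (nat_lit 0) (nat_lit 0) (XT.lf (nat_lit 0) (nat_lit 10319066624853) (nat_lit 76) (nat_lit 916056640700) (nat_lit 76) (nat_lit 916051303842) (nat_lit 1) (nat_lit 4) (nat_lit 2) (nat_lit 5) (nat_lit 2) (nat_lit 4) (nat_lit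 527) (nat_lit 337) (nat_lit 336)) (XT.nd (nat_lit 78) (nat_lit 0) (nat_lit 0) (XT.lf (nat_lit 0) (nat_lit 11145586426595) (nat_lit 76) (nat_lit 988826754148) (nat_lit 76) (nat_lit 988816475755) (nat_lit 1) (nat_lit 4) (nat_lit 2) (nat_lit 5) (nat_lit 2) (nat_lit 4) (nat_lit 528) (nat_lit 337) (nat_lit 335)) (XT.lf (nat_lit 0) (nat_lit 12038180614869) (nat_lit 76) (nat_lit 1067442617379) (nat_lit 76) (nat_lit 1067427763491) (nat_lit 1) (nat_lit 4) (nat_lit 2) (nat_lit 5) (nat_lit 2) (nat_lit 4) (nat_lit 529) (nat_lit 337) (nat_lit 334)))) (XT.nd (nat_lit 62010) (nat_lit 0) (nat_lit 0) (XT.lf (nat_lit 0) (nat_lit 13002138636715) (nat_lit 76) (nat_lit 1152370102177) (nat_lit 76) (nat_lit 1152351011718) (nat_lit 1) (nat_lit 4) (nat_lit 2) (nat_lit 5) (nat_lit 2) (nat_lit 4) (nat_lit 530) (nat_lit 337) (nat_lit 333)) (XT.nd (nat_lit 78) (nat_lit 0) (nat_lit 0) (XT.lf (nat_lit 0) (nat_lit 4094394466226)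 (nat_lit 76) (nat_lit 364328852200) (nat_lit 76) (nat_lit 364328852200) (nat_lit 1) (nat_lit 4) (nat_lit 2) (nat_lit 5) (nat_lit 2) (nat_lit 4) (nat_lit 524) (nat_lit 338) (nat_lit 338)) (XT.lf (nat_lit 0) (nat_lit 8845021127833) (nat_lit 76) (nat_lit 786366591797) (nat_lit 76) (nat_lit 786360827990) (nat_lit 1) (nat_lit 4) (nat_lit 2) (nat_lit 5) (nat_lit 2) (nat_lit 4) (nat_lit 525) (nat_lit 338) (nat_lit 337)))))) (XT.nd (nat_lit 62166) (nat_lit 0) (nat_lit 0) (XT.nd (nat_lit 156) (nat_lit 0) (nat_lit 0) (XT.nd (nat_lit 78) (nat_lit 0) (nat_lit 0) (XT.lf (nat_lit 0) (nat_lit 9553696847554) (nat_lit 76) (nat_lit 848720347908) (nat_lit 76) (nat_lit 848709247243) (nat_lit 1) (nat_lit 4) (nat_lit 2) (nat_lit 5) (nat_lit 2) (nat_lit 4) (nat_lit 526) (nat_lit 338) (nat_lit 336)) (XT.lf (nat_lit 0) (nat_lit 10319015651436) (nat_lit 76) (nat_lit 916088476472) (nat_lit 76) (nat_lit 916072434272)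 (nat_lit 1) (nat_lit 4) (nat_lit 2) (nat_lit 5) (nat_lit 2) (nat_lit 4) (nat_lit 527) (nat_lit 338) (nat_lit 335))) (XT.nd (nat_lit 78) (nat_lit 0) (nat_lit 0) (XT.lf (nat_lit 0) (nat_lit 11145512762021) (nat_lit 76) (nat_lit 988870196029) (nat_lit 76) (nat_lit 988849578333) (nat_lit 1) (nat_lit 4) (nat_lit 2) (nat_lit 5) (nat_lit 2) (nat_lit 4) (nat_lit 528) (nat_lit 338) (nat_lit 334)) (XT.nd (nat_lit 78) (nat_lit 0) (nat_lit 0) (XT.lf (nat_lit 0) (nat_lit 12038085939963) (nat_lit 76) (nat_lit 1067496805658) (nat_lit 76) (nat_lit 1067471951393) (nat_lit 1) (nat_lit 4) (nat_lit 2) (nat_lit 5) (nat_lit 2) (nat_lit 4) (nat_lit 529) (nat_lit 338) (nat_lit 333)) (XT.lf (nat_lit 0) (nat_lit 13002024507799) (nat_lit 76) (nat_lit 1152434240824) (nat_lit 76) (nat_lit 1152405463808) (nat_lit 1) (nat_lit 4) (nat_lit 2) (nat_lit 5) (nat_lit 2) (nat_lit 4) (nat_lit 530) (nat_lit 338) (nat_lit 332)))))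 (XT.nd (nat_lit 234) (nat_lit 0) (nat_lit 0) (XT.nd (nat_lit 78) (nat_lit 0) (nat_lit 0) (XT.lf (nat_lit 0) (nat_lit 3509209292030) (nat_lit 76) (nat_lit 312911277456) (nat_lit 76) (nat_lit 312911277456) (nat_lit 1) (nat_lit 4) (nat_lit 2) (nat_lit 5) (nat_lit 2) (nat_lit 4) (nat_lit 522) (nat_lit 339) (nat_lit 339)) (XT.nd (nat_lit 78) (nat_lit 0) (nat_lit 0) (XT.lf (nat_lit 0) (nat_lit 7581111478032) (nat_lit 76) (nat_lit 675257932035) (nat_lit 76) (nat_lit 675251707124) (nat_lit 1) (nat_lit 4) (nat_lit 2) (nat_lit 5) (nat_lit 2) (nat_lit 4) (nat_lit 523) (nat_lit 339) (nat_lit 338)) (XT.lf (nat_lit 0) (nat_lit 8188760348129) (nat_lit 76) (nat_lit 728678549666) (nat_lit 76) (nat_lit 728666560949) (nat_lit 1) (nat_lit 4) (nat_lit 2) (nat_lit 5) (nat_lit 2) (nat_lit 4) (nat_lit 524) (nat_lit 339) (nat_lit 337)))) (XT.nd (nat_lit 78) (nat_lit 0) (nat_lit 0) (XT.lf (nat_lit 0) (nat_lit 8844966076543)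 (nat_lit 76) (nat_lit 786400974430) (nat_lit 76) (nat_lit 786383648854) (nat_lit 1) (nat_lit 4) (nat_lit 2) (nat_lit 5) (nat_lit 2) (nat_lit 4) (nat_lit 525) (nat_lit 339) (nat_lit 336)) (XT.nd (nat_lit 78) (nat_lit 0) (nat_lit 0) (XT.lf (nat_lit 0) (nat_lit 9553617289814) (nat_lit 76) (nat_lit 848767265139) (nat_lit 76) (nat_lit 848744998028) (nat_lit 1) (nat_lit 4) (nat_lit 2) (nat_lit 5) (nat_lit 2) (nat_lit 4) (nat_lit 526) (nat_lit 339) (nat_lit 335)) (XT.lf (nat_lit 0) (nat_lit 10318913402538) (nat_lit 76) (nat_lit 916146999813) (nat_lit 76) (nat_lit 916120157206) (nat_lit 1) (nat_lit 4) (nat_lit 2) (nat_lit 5) (nat_lit 2) (nat_lit 4) (nat_lit 527) (nat_lit 339) (nat_lit 334))))))) (XT.nd (nat_lit 62478) (nat_lit 0) (nat_lit 0) (XT.nd (nat_lit 62010) (nat_lit 0) (nat_lit 0) (XT.nd (nat_lit 156) (nat_lit 0) (nat_lit 0) (XT.nd (nat_lit 78) (nat_lit 0) (nat_lit 0) (XT.lf (nat_lit 0)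 (nat_lit 11145389502791) (nat_lit 76) (nat_lit 988939465768) (nat_lit 76) (nat_lit 988908386591) (nat_lit 1) (nat_lit 4) (nat_lit 2) (nat_lit 5) (nat_lit 2) (nat_lit 4) (nat_lit 528) (nat_lit 339) (nat_lit 333)) (XT.lf (nat_lit 0) (nat_lit 12037943226723) (nat_lit 76) (nat_lit 1067576025765) (nat_lit 76) (nat_lit 1067541023839) (nat_lit 1) (nat_lit 4) (nat_lit 2) (nat_lit 5) (nat_lit 2) (nat_lit 4) (nat_lit 529) (nat_lit 339) (nat_lit 332))) (XT.nd (nat_lit 61698) (nat_lit 0) (nat_lit 0) (XT.lf (nat_lit 0) (nat_lit 13001863781587) (nat_lit 76) (nat_lit 1152522674235) (nat_lit 76) (nat_lit 1152484040132) (nat_lit 1) (nat_lit 4) (nat_lit 2) (nat_lit 5) (nat_lit 2) (nat_lit 4) (nat_lit 530) (nat_lit 339) (nat_lit 331)) (XT.nd (nat_lit 78) (nat_lit 0) (nat_lit 0) (XT.lf (nat_lit 0) (nat_lit 3007421402767) (nat_lit 76) (nat_lit 268873635312) (nat_lit 76) (nat_lit 268873635312) (nat_lit 1) (nat_lit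 4) (nat_lit 2) (nat_lit 5) (nat_lit 2) (nat_lit 4) (nat_lit 520) (nat_lit 340) (nat_lit 340)) (XT.lf (nat_lit 0) (nat_lit 6497347189804) (nat_lit 76) (nat_lit 580086190822) (nat_lit 76) (nat_lit 580079467918) (nat_lit 1) (nat_lit 4) (nat_lit 2) (nat_lit 5) (nat_lit 2) (nat_lit 4) (nat_lit 521) (nat_lit 340) (nat_lit 339))))) (XT.nd (nat_lit 234) (nat_lit 0) (nat_lit 0) (XT.nd (nat_lit 78) (nat_lit 0) (nat_lit 0) (XT.lf (nat_lit 0) (nat_lit 7018387712991) (nat_lit 76) (nat_lit 625845067802) (nat_lit 76) (nat_lit 625832119986) (nat_lit 1) (nat_lit 4) (nat_lit 2) (nat_lit 5) (nat_lit 2) (nat_lit 4) (nat_lit 522) (nat_lit 340) (nat_lit 338)) (XT.nd (nat_lit 78) (nat_lit 0) (nat_lit 0) (XT.lf (nat_lit 0) (nat_lit 7581052022639) (nat_lit 76) (nat_lit 675295065279) (nat_lit 76) (nat_lit 675276353657) (nat_lit 1) (nat_lit 4) (nat_lit 2) (nat_lit 5) (nat_lit 2) (nat_lit 4) (nat_lit 523) (nat_lit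 340) (nat_lit 337)) (XT.lf (nat_lit 0) (nat_lit 8188674425769) (nat_lit 76) (nat_lit 728729220276) (nat_lit 76) (nat_lit 728705171796) (nat_lit 1) (nat_lit 4) (nat_lit 2) (nat_lit 5) (nat_lit 2) (nat_lit 4) (nat_lit 524) (nat_lit 340) (nat_lit 336)))) (XT.nd (nat_lit 78) (nat_lit 0) (nat_lit 0) (XT.lf (nat_lit 0) (nat_lit 8844855647733) (nat_lit 76) (nat_lit 786464179638) (nat_lit 76) (nat_lit 786435189623) (nat_lit 1) (nat_lit 4) (nat_lit 2) (nat_lit 5) (nat_lit 2) (nat_lit 4) (nat_lit 525) (nat_lit 340) (nat_lit 335)) (XT.nd (nat_lit 78) (nat_lit 0) (nat_lit 0) (XT.lf (nat_lit 0) (nat_lit 9553484169846) (nat_lit 76) (nat_lit 848842076457) (nat_lit 76) (nat_lit 848808510946) (nat_lit 1) (nat_lit 4) (nat_lit 2) (nat_lit 5) (nat_lit 2) (nat_lit 4) (nat_lit 526) (nat_lit 340) (nat_lit 334)) (XT.lf (nat_lit 0) (nat_lit 10318759272239) (nat_lit 76) (nat_lit 916232557528) (nat_lit 76) (nat_lit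 916194755447) (nat_lit 1) (nat_lit 4) (nat_lit 2) (nat_lit 5) (nat_lit 2) (nat_lit 4) (nat_lit 527) (nat_lit 340) (nat_lit 333)))))) (XT.nd (nat_lit 61932) (nat_lit 0) (nat_lit 0) (XT.nd (nat_lit 61698) (nat_lit 0) (nat_lit 0) (XT.nd (nat_lit 78) (nat_lit 0) (nat_lit 0) (XT.lf (nat_lit 0) (nat_lit 11145215918482) (nat_lit 76) (nat_lit 989034973852) (nat_lit 76) (nat_lit 988993249021) (nat_lit 1) (nat_lit 4) (nat_lit 2) (nat_lit 5) (nat_lit 2) (nat_lit 4) (nat_lit 528) (nat_lit 340) (nat_lit 332)) (XT.nd (nat_lit 78) (nat_lit 0) (nat_lit 0) (XT.lf (nat_lit 0) (nat_lit 12037751629442) (nat_lit 76) (nat_lit 1067680747153) (nat_lit 76) (nat_lit 1067635390146) (nat_lit 1) (nat_lit 4) (nat_lit 2) (nat_lit 5) (nat_lit 2) (nat_lit 4) (nat_lit 529) (nat_lit 340) (nat_lit 331)) (XT.lf (nat_lit 0) (nat_lit 13001655505627) (nat_lit 76) (nat_lit 1152635926460) (nat_lit 76) (nat_lit 1152587206327) (nat_lit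 1) (nat_lit 4) (nat_lit 2) (nat_lit 5) (nat_lit 2) (nat_lit 4) (nat_lit 530) (nat_lit 340) (nat_lit 330)))) (XT.nd (nat_lit 78) (nat_lit 0) (nat_lit 0) (XT.lf (nat_lit 0) (nat_lit 2577126369596) (nat_lit 76) (nat_lit 231166667135) (nat_lit 76) (nat_lit 231166667135) (nat_lit 1) (nat_lit 4) (nat_lit 2) (nat_lit 5) (nat_lit 2) (nat_lit 4) (nat_lit 518) (nat_lit 341) (nat_lit 341)) (XT.nd (nat_lit 78) (nat_lit 0) (nat_lit 0) (XT.lf (nat_lit 0) (nat_lit 5568015274941) (nat_lit 76) (nat_lit 498584670642) (nat_lit 76) (nat_lit 498577409905) (nat_lit 1) (nat_lit 4) (nat_lit 2) (nat_lit 5) (nat_lit 2) (nat_lit 4) (nat_lit 519) (nat_lit 341) (nat_lit 340)) (XT.lf (nat_lit 0) (nat_lit 6014809464779) (nat_lit 76) (nat_lit 537771584544) (nat_lit 76) (nat_lit 537757600904) (nat_lit 1) (nat_lit 4) (nat_lit 2) (nat_lit 5) (nat_lit 2) (nat_lit 4) (nat_lit 520) (nat_lit 341) (nat_lit 339))))) (XT.nd (nat_lit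 234) (nat_lit 0) (nat_lit 0) (XT.nd (nat_lit 78) (nat_lit 0) (nat_lit 0) (XT.lf (nat_lit 0) (nat_lit 6497282977979) (nat_lit 76) (nat_lit 580126294725) (nat_lit 76) (nat_lit 580106086173) (nat_lit 1) (nat_lit 4) (nat_lit 2) (nat_lit 5) (nat_lit 2) (nat_lit 4) (nat_lit 521) (nat_lit 341) (nat_lit 338)) (XT.nd (nat_lit 78) (nat_lit 0) (nat_lit 0) (XT.lf (nat_lit 0) (nat_lit 7018294916842) (nat_lit 76) (nat_lit 625899792060) (nat_lit 76) (nat_lit 625873819702) (nat_lit 1) (nat_lit 4) (nat_lit 2) (nat_lit 5) (nat_lit 2) (nat_lit 4) (nat_lit 522) (nat_lit 341) (nat_lit 337)) (XT.lf (nat_lit 0) (nat_lit 7580932759524) (nat_lit 76) (nat_lit 675363326904) (nat_lit 76) (nat_lit 675332017687) (nat_lit 1) (nat_lit 4) (nat_lit 2) (nat_lit 5) (nat_lit 2) (nat_lit 4) (nat_lit 523) (nat_lit 341) (nat_lit 336)))) (XT.nd (nat_lit 78) (nat_lit 0) (nat_lit 0) (XT.lf (nat_lit 0) (nat_lit 8188530656204) (nat_lit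 76) (nat_lit 728810016500) (nat_lit 76) (nat_lit 728773765748) (nat_lit 1) (nat_lit 4) (nat_lit 2) (nat_lit 5) (nat_lit 2) (nat_lit 4) (nat_lit 524) (nat_lit 341) (nat_lit 335)) (XT.nd (nat_lit 78) (nat_lit 0) (nat_lit 0) (XT.lf (nat_lit 0) (nat_lit 8844689187010) (nat_lit 76) (nat_lit 786556581971) (nat_lit 76) (nat_lit 786515755724) (nat_lit 1) (nat_lit 4) (nat_lit 2) (nat_lit 5) (nat_lit 2) (nat_lit 4) (nat_lit 525) (nat_lit 341) (nat_lit 334)) (XT.lf (nat_lit 0) (nat_lit 9553296698792) (nat_lit 76) (nat_lit 848945225187) (nat_lit 76) (nat_lit 848900162370) (nat_lit 1) (nat_lit 4) (nat_lit 2) (nat_lit 5) (nat_lit 2) (nat_lit 4) (nat_lit 526) (nat_lit 341) (nat_lit 333))))))))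
noncomputable def xc1 : XT := (XT.nd (nat_lit 124176) (nat_lit 0) (nat_lit 0) (XT.nd (nat_lit 62166) (nat_lit 0) (nat_lit 0) (XT.nd (nat_lit 61698) (nat_lit 0) (nat_lit 0) (XT.nd (nat_lit 156) (nat_lit 0) (nat_lit 0) (XT.nd (nat_lit 78) (nat_lit 0) (nat_lit 0) (XT.lf (nat_lit 0) (nat_lit 10318552347175) (nat_lit 76) (nat_lit 916345656627) (nat_lit 76) (nat_lit 916296671060) (nat_lit 1) (nat_lit 4) (nat_lit 2) (nat_lit 5) (nat_lit 2) (nat_lit 4) (nat_lit 527) (nat_lit 341) (nat_lit 332)) (XT.lf (nat_lit 0) (nat_lit 11144990980445) (nat_lit 76) (nat_lit 989157286254) (nat_lit 76) (nat_lit 989104668511) (nat_lit 1) (nat_lit 4) (nat_lit 2) (nat_lit 5) (nat_lit 2) (nat_lit 4) (nat_lit 528) (nat_lit 341) (nat_lit 331))) (XT.nd (nat_lit 78) (nat_lit 0) (nat_lit 0) (XT.lf (nat_lit 0) (nat_lit 12037510012727) (nat_lit 76) (nat_lit 1067811590393) (nat_lit 76) (nat_lit 1067755609524) (nat_lit 1) (nat_lit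 4) (nat_lit 2) (nat_lit 5) (nat_lit 2) (nat_lit 4) (nat_lit 529) (nat_lit 341) (nat_lit 330)) (XT.nd (nat_lit 61386) (nat_lit 0) (nat_lit 0) (XT.lf (nat_lit 0) (nat_lit 13001398445691) (nat_lit 76) (nat_lit 1152774668623) (nat_lit 76) (nat_lit 1152715573749) (nat_lit 1) (nat_lit 4) (nat_lit 2) (nat_lit 5) (nat_lit 2) (nat_lit 4) (nat_lit 530) (nat_lit 341) (nat_lit 329)) (XT.lf (nat_lit 0) (nat_lit 2208117513636) (nat_lit 76) (nat_lit 198891088466) (nat_lit 76) (nat_lit 198891088466) (nat_lit 1) (nat_lit 4) (nat_lit 2) (nat_lit 5) (nat_lit 2) (nat_lit 4) (nat_lit 516) (nat_lit 342) (nat_lit 342))))) (XT.nd (nat_lit 234) (nat_lit 0) (nat_lit 0) (XT.nd (nat_lit 78) (nat_lit 0) (nat_lit 0) (XT.lf (nat_lit 0) (nat_lit 4771069931396) (nat_lit 76) (nat_lit 428810594288) (nat_lit 76) (nat_lit 428802752693) (nat_lit 1) (nat_lit 4) (nat_lit 2) (nat_lit 5) (nat_lit 2) (nat_lit 4) (nat_lit 517) (nat_lit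 342) (nat_lit 341)) (XT.nd (nat_lit 78) (nat_lit 0) (nat_lit 0) (XT.lf (nat_lit 0) (nat_lit 5154216731177) (nat_lit 76) (nat_lit 462359593302) (nat_lit 76) (nat_lit 462344490970) (nat_lit 1) (nat_lit 4) (nat_lit 2) (nat_lit 5) (nat_lit 2) (nat_lit 4) (nat_lit 518) (nat_lit 342) (nat_lit 340)) (XT.lf (nat_lit 0) (nat_lit 5567945926171) (nat_lit 76) (nat_lit 498627982857) (nat_lit 76) (nat_lit 498606157621) (nat_lit 1) (nat_lit 4) (nat_lit 2) (nat_lit 5) (nat_lit 2) (nat_lit 4) (nat_lit 519) (nat_lit 342) (nat_lit 339)))) (XT.nd (nat_lit 78) (nat_lit 0) (nat_lit 0) (XT.lf (nat_lit 0) (nat_lit 6014709244939) (nat_lit 76) (nat_lit 537830686743) (nat_lit 76) (nat_lit 537802636596) (nat_lit 1) (nat_lit 4) (nat_lit 2) (nat_lit 5) (nat_lit 2) (nat_lit 4) (nat_lit 520) (nat_lit 342) (nat_lit 338)) (XT.nd (nat_lit 78) (nat_lit 0) (nat_lit 0) (XT.lf (nat_lit 0) (nat_lit 6497154173816) (nat_lit 76)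 (nat_lit 580200017280) (nat_lit 76) (nat_lit 580166203326) (nat_lit 1) (nat_lit 4) (nat_lit 2) (nat_lit 5) (nat_lit 2) (nat_lit 4) (nat_lit 521) (nat_lit 342) (nat_lit 337)) (XT.lf (nat_lit 0) (nat_lit 7018139645712) (nat_lit 76) (nat_lit 625987051981) (nat_lit 76) (nat_lit 625947901170) (nat_lit 1) (nat_lit 4) (nat_lit 2) (nat_lit 5) (nat_lit 2) (nat_lit 4) (nat_lit 522) (nat_lit 342) (nat_lit 336)))))) (XT.nd (nat_lit 390) (nat_lit 0) (nat_lit 0) (XT.nd (nat_lit 156) (nat_lit 0) (nat_lit 0) (XT.nd (nat_lit 78) (nat_lit 0) (nat_lit 0) (XT.lf (nat_lit 0) (nat_lit 7580752981944) (nat_lit 76) (nat_lit 675463121423) (nat_lit 76) (nat_lit 675419029076) (nat_lit 1) (nat_lit 4) (nat_lit 2) (nat_lit 5) (nat_lit 2) (nat_lit 4) (nat_lit 523) (nat_lit 342) (nat_lit 335)) (XT.lf (nat_lit 0) (nat_lit 8188328187466) (nat_lit 76) (nat_lit 728921417129) (nat_lit 76) (nat_lit 728872749286) (nat_lit 1)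 (nat_lit 4) (nat_lit 2) (nat_lit 5) (nat_lit 2) (nat_lit 4) (nat_lit 524) (nat_lit 342) (nat_lit 334))) (XT.nd (nat_lit 78) (nat_lit 0) (nat_lit 0) (XT.lf (nat_lit 0) (nat_lit 8844465707941) (nat_lit 76) (nat_lit 786678728998) (nat_lit 76) (nat_lit 786625824585) (nat_lit 1) (nat_lit 4) (nat_lit 2) (nat_lit 5) (nat_lit 2) (nat_lit 4) (nat_lit 525) (nat_lit 342) (nat_lit 333)) (XT.nd (nat_lit 78) (nat_lit 0) (nat_lit 0) (XT.lf (nat_lit 0) (nat_lit 9553053765712) (nat_lit 76) (nat_lit 849077322582) (nat_lit 76) (nat_lit 849020495420) (nat_lit 1) (nat_lit 4) (nat_lit 2) (nat_lit 5) (nat_lit 2) (nat_lit 4) (nat_lit 526) (nat_lit 342) (nat_lit 332)) (XT.lf (nat_lit 0) (nat_lit 10318291401123) (nat_lit 76) (nat_lit 916486967326) (nat_lit 76) (nat_lit 916426507988) (nat_lit 1) (nat_lit 4) (nat_lit 2) (nat_lit 5) (nat_lit 2) (nat_lit 4) (nat_lit 527) (nat_lit 342) (nat_lit 331))))) (XT.nd (nat_lit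 61386) (nat_lit 0) (nat_lit 0) (XT.nd (nat_lit 78) (nat_lit 0) (nat_lit 0) (XT.lf (nat_lit 0) (nat_lit 11144713355715) (nat_lit 76) (nat_lit 989307127791) (nat_lit 76) (nat_lit 989243305326) (nat_lit 1) (nat_lit 4) (nat_lit 2) (nat_lit 5) (nat_lit 2) (nat_lit 4) (nat_lit 528) (nat_lit 342) (nat_lit 330)) (XT.nd (nat_lit 78) (nat_lit 0) (nat_lit 0) (XT.lf (nat_lit 0) (nat_lit 12037216944775) (nat_lit 76) (nat_lit 1067969330852) (nat_lit 76) (nat_lit 1067902394383) (nat_lit 1) (nat_lit 4) (nat_lit 2) (nat_lit 5) (nat_lit 2) (nat_lit 4) (nat_lit 529) (nat_lit 342) (nat_lit 329)) (XT.lf (nat_lit 0) (nat_lit 13001091078462) (nat_lit 76) (nat_lit 1152939722900) (nat_lit 76) (nat_lit 1152869903092) (nat_lit 1) (nat_lit 4) (nat_lit 2) (nat_lit 5) (nat_lit 2) (nat_lit 4) (nat_lit 530) (nat_lit 342) (nat_lit 328)))) (XT.nd (nat_lit 78) (nat_lit 0) (nat_lit 0) (XT.lf (nat_lit 0) (nat_lit 1891643658958)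 (nat_lit 76) (nat_lit 171276216387) (nat_lit 76) (nat_lit 171276216387) (nat_lit 1) (nat_lit 4) (nat_lit 2) (nat_lit 5) (nat_lit 2) (nat_lit 4) (nat_lit 514) (nat_lit 343) (nat_lit 343)) (XT.nd (nat_lit 78) (nat_lit 0) (nat_lit 0) (XT.lf (nat_lit 0) (nat_lit 4087609293448) (nat_lit 76) (nat_lit 369098938055) (nat_lit 76) (nat_lit 369090469132) (nat_lit 1) (nat_lit 4) (nat_lit 2) (nat_lit 5) (nat_lit 2) (nat_lit 4) (nat_lit 515) (nat_lit 343) (nat_lit 342)) (XT.lf (nat_lit 0) (nat_lit 4416196138615) (nat_lit 76) (nat_lit 397810536688) (nat_lit 76) (nat_lit 397794226169) (nat_lit 1) (nat_lit 4) (nat_lit 2) (nat_lit 5) (nat_lit 2) (nat_lit 4) (nat_lit 516) (nat_lit 343) (nat_lit 341))))))) (XT.nd (nat_lit 858) (nat_lit 0) (nat_lit 0) (XT.nd (nat_lit 390) (nat_lit 0) (nat_lit 0) (XT.nd (nat_lit 156) (nat_lit 0) (nat_lit 0) (XT.nd (nat_lit 78) (nat_lit 0) (nat_lit 0) (XT.lf (nat_lit 0) (nat_lit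 4770995034724) (nat_lit 76) (nat_lit 428857371481) (nat_lit 76) (nat_lit 428833800226) (nat_lit 1) (nat_lit 4) (nat_lit 2) (nat_lit 5) (nat_lit 2) (nat_lit 4) (nat_lit 517) (nat_lit 343) (nat_lit 340)) (XT.lf (nat_lit 0) (nat_lit 5154108493750) (nat_lit 76) (nat_lit 462423423677) (nat_lit 76) (nat_lit 462393129519) (nat_lit 1) (nat_lit 4) (nat_lit 2) (nat_lit 5) (nat_lit 2) (nat_lit 4) (nat_lit 518) (nat_lit 343) (nat_lit 339))) (XT.nd (nat_lit 78) (nat_lit 0) (nat_lit 0) (XT.lf (nat_lit 0) (nat_lit 5567806817674) (nat_lit 76) (nat_lit 498707603217) (nat_lit 76) (nat_lit 498671084146) (nat_lit 1) (nat_lit 4) (nat_lit 2) (nat_lit 5) (nat_lit 2) (nat_lit 4) (nat_lit 519) (nat_lit 343) (nat_lit 338)) (XT.nd (nat_lit 78) (nat_lit 0) (nat_lit 0) (XT.lf (nat_lit 0) (nat_lit 6014541552118) (nat_lit 76) (nat_lit 537924927458) (nat_lit 76) (nat_lit 537882644582) (nat_lit 1) (nat_lit 4) (nat_lit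 2) (nat_lit 5) (nat_lit 2) (nat_lit 4) (nat_lit 520) (nat_lit 343) (nat_lit 337)) (XT.lf (nat_lit 0) (nat_lit 6496960014029) (nat_lit 76) (nat_lit 580307795361) (nat_lit 76) (nat_lit 580260175626) (nat_lit 1) (nat_lit 4) (nat_lit 2) (nat_lit 5) (nat_lit 2) (nat_lit 4) (nat_lit 521) (nat_lit 343) (nat_lit 336))))) (XT.nd (nat_lit 234) (nat_lit 0) (nat_lit 0) (XT.nd (nat_lit 78) (nat_lit 0) (nat_lit 0) (XT.lf (nat_lit 0) (nat_lit 7017920979475) (nat_lit 76) (nat_lit 626107364661) (nat_lit 76) (nat_lit 626054803391) (nat_lit 1) (nat_lit 4) (nat_lit 2) (nat_lit 5) (nat_lit 2) (nat_lit 4) (nat_lit 522) (nat_lit 343) (nat_lit 335)) (XT.nd (nat_lit 78) (nat_lit 0) (nat_lit 0) (XT.lf (nat_lit 0) (nat_lit 7580511624549) (nat_lit 76) (nat_lit 675595040212) (nat_lit 76) (nat_lit 675537903447) (nat_lit 1) (nat_lit 4) (nat_lit 2) (nat_lit 5) (nat_lit 2) (nat_lit 4) (nat_lit 523) (nat_lit 343) (nat_lit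 334)) (XT.lf (nat_lit 0) (nat_lit 8188065819740) (nat_lit 76) (nat_lit 729064082315) (nat_lit 76) (nat_lit 729002708980) (nat_lit 1) (nat_lit 4) (nat_lit 2) (nat_lit 5) (nat_lit 2) (nat_lit 4) (nat_lit 524) (nat_lit 343) (nat_lit 333)))) (XT.nd (nat_lit 78) (nat_lit 0) (nat_lit 0) (XT.lf (nat_lit 0) (nat_lit 8844183886204) (nat_lit 76) (nat_lit 786831344553) (nat_lit 76) (nat_lit 786766048467) (nat_lit 1) (nat_lit 4) (nat_lit 2) (nat_lit 5) (nat_lit 2) (nat_lit 4) (nat_lit 525) (nat_lit 343) (nat_lit 332)) (XT.nd (nat_lit 78) (nat_lit 0) (nat_lit 0) (XT.lf (nat_lit 0) (nat_lit 9552753931003) (nat_lit 76) (nat_lit 849239151442) (nat_lit 76) (nat_lit 849170223180) (nat_lit 1) (nat_lit 4) (nat_lit 2) (nat_lit 5) (nat_lit 2) (nat_lit 4) (nat_lit 526) (nat_lit 343) (nat_lit 331)) (XT.lf (nat_lit 0) (nat_lit 10317974887735) (nat_lit 76) (nat_lit 916657327022) (nat_lit 76) (nat_lit 916585035635)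 (nat_lit 1) (nat_lit 4) (nat_lit 2) (nat_lit 5) (nat_lit 2) (nat_lit 4) (nat_lit 527) (nat_lit 343) (nat_lit 330)))))) (XT.nd (nat_lit 61464) (nat_lit 0) (nat_lit 0) (XT.nd (nat_lit 61230) (nat_lit 0) (nat_lit 0) (XT.nd (nat_lit 78) (nat_lit 0) (nat_lit 0) (XT.lf (nat_lit 0) (nat_lit 11144381399107) (nat_lit 76) (nat_lit 989485386410) (nat_lit 76) (nat_lit 989409981017) (nat_lit 1) (nat_lit 4) (nat_lit 2) (nat_lit 5) (nat_lit 2) (nat_lit 4) (nat_lit 528) (nat_lit 343) (nat_lit 329)) (XT.nd (nat_lit 78) (nat_lit 0) (nat_lit 0) (XT.lf (nat_lit 0) (nat_lit 12036870688889) (nat_lit 76) (nat_lit 1068154903289) (nat_lit 76) (nat_lit 1068076614559) (nat_lit 1) (nat_lit 4) (nat_lit 2) (nat_lit 5) (nat_lit 2) (nat_lit 4) (nat_lit 529) (nat_lit 343) (nat_lit 328)) (XT.lf (nat_lit 0) (nat_lit 13000731582503) (nat_lit 76) (nat_lit 1153132067390) (nat_lit 76) (nat_lit 1153051108902) (nat_lit 1) (nat_lit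 4) (nat_lit 2) (nat_lit 5) (nat_lit 2) (nat_lit 4) (nat_lit 530) (nat_lit 343) (nat_lit 327)))) (XT.nd (nat_lit 78) (nat_lit 0) (nat_lit 0) (XT.lf (nat_lit 0) (nat_lit 1620201441311) (nat_lit 76) (nat_lit 147661647755) (nat_lit 76) (nat_lit 147661647755) (nat_lit 1) (nat_lit 4) (nat_lit 2) (nat_lit 5) (nat_lit 2) (nat_lit 4) (nat_lit 512) (nat_lit 344) (nat_lit 344)) (XT.nd (nat_lit 78) (nat_lit 0) (nat_lit 0) (XT.lf (nat_lit 0) (nat_lit 3501426822538) (nat_lit 76) (nat_lit 318022854662) (nat_lit 76) (nat_lit 318013708225) (nat_lit 1) (nat_lit 4) (nat_lit 2) (nat_lit 5) (nat_lit 2) (nat_lit 4) (nat_lit 513) (nat_lit 344) (nat_lit 343)) (XT.lf (nat_lit 0) (nat_lit 3783245318168) (nat_lit 76) (nat_lit 342583061311) (nat_lit 76) (nat_lit 342565445951) (nat_lit 1) (nat_lit 4) (nat_lit 2) (nat_lit 5) (nat_lit 2) (nat_lit 4) (nat_lit 514) (nat_lit 344) (nat_lit 342))))) (XT.nd (nat_lit 234) (nat_lit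 0) (nat_lit 0) (XT.nd (nat_lit 78) (nat_lit 0) (nat_lit 0) (XT.lf (nat_lit 0) (nat_lit 4087528405042) (nat_lit 76) (nat_lit 369149457423) (nat_lit 76) (nat_lit 369124000468) (nat_lit 1) (nat_lit 4) (nat_lit 2) (nat_lit 5) (nat_lit 2) (nat_lit 4) (nat_lit 515) (nat_lit 344) (nat_lit 341)) (XT.nd (nat_lit 78) (nat_lit 0) (nat_lit 0) (XT.lf (nat_lit 0) (nat_lit 4416079242194) (nat_lit 76) (nat_lit 397879473493) (nat_lit 76) (nat_lit 397846755801) (nat_lit 1) (nat_lit 4) (nat_lit 2) (nat_lit 5) (nat_lit 2) (nat_lit 4) (nat_lit 516) (nat_lit 344) (nat_lit 340)) (XT.lf (nat_lit 0) (nat_lit 4770844797547) (nat_lit 76) (nat_lit 428943361469) (nat_lit 76) (nat_lit 428903920873) (nat_lit 1) (nat_lit 4) (nat_lit 2) (nat_lit 5) (nat_lit 2) (nat_lit 4) (nat_lit 517) (nat_lit 344) (nat_lit 339)))) (XT.nd (nat_lit 78) (nat_lit 0) (nat_lit 0) (XT.lf (nat_lit 0) (nat_lit 5153927385504) (nat_lit 76) (nat_lit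 462525203649) (nat_lit 76) (nat_lit 462479538143) (nat_lit 1) (nat_lit 4) (nat_lit 2) (nat_lit 5) (nat_lit 2) (nat_lit 4) (nat_lit 518) (nat_lit 344) (nat_lit 338)) (XT.nd (nat_lit 78) (nat_lit 0) (nat_lit 0) (XT.lf (nat_lit 0) (nat_lit 5567597125104) (nat_lit 76) (nat_lit 498824003544) (nat_lit 76) (nat_lit 498772574231) (nat_lit 1) (nat_lit 4) (nat_lit 2) (nat_lit 5) (nat_lit 2) (nat_lit 4) (nat_lit 519) (nat_lit 344) (nat_lit 337)) (XT.lf (nat_lit 0) (nat_lit 6014305392582) (nat_lit 76) (nat_lit 538054865152) (nat_lit 76) (nat_lit 537998098980) (nat_lit 1) (nat_lit 4) (nat_lit 2) (nat_lit 5) (nat_lit 2) (nat_lit 4) (nat_lit 520) (nat_lit 344) (nat_lit 336))))))))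
noncomputable def xc2 : XT := (XT.nd (nat_lit 62556) (nat_lit 0) (nat_lit 0) (XT.nd (nat_lit 61698) (nat_lit 0) (nat_lit 0) (XT.nd (nat_lit 390) (nat_lit 0) (nat_lit 0) (XT.nd (nat_lit 156) (nat_lit 0) (nat_lit 0) (XT.nd (nat_lit 78) (nat_lit 0) (nat_lit 0) (XT.lf (nat_lit 0) (nat_lit 6496699348042) (nat_lit 76) (nat_lit 580450267653) (nat_lit 76) (nat_lit 580388559946) (nat_lit 1) (nat_lit 4) (nat_lit 2) (nat_lit 5) (nat_lit 2) (nat_lit 4) (nat_lit 521) (nat_lit 344) (nat_lit 335)) (XT.lf (nat_lit 0) (nat_lit 7017637622331) (nat_lit 76) (nat_lit 626261443062) (nat_lit 76) (nat_lit 626195159860) (nat_lit 1) (nat_lit 4) (nat_lit 2) (nat_lit 5) (nat_lit 2) (nat_lit 4) (nat_lit 522) (nat_lit 344) (nat_lit 334))) (XT.nd (nat_lit 78) (nat_lit 0) (nat_lit 0) (XT.lf (nat_lit 0) (nat_lit 7580207257073) (nat_lit 76) (nat_lit 675759865012) (nat_lit 76) (nat_lit 675689345239) (nat_lit 1) (nat_lit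 4) (nat_lit 2) (nat_lit 5) (nat_lit 2) (nat_lit 4) (nat_lit 523) (nat_lit 344) (nat_lit 333)) (XT.nd (nat_lit 78) (nat_lit 0) (nat_lit 0) (XT.lf (nat_lit 0) (nat_lit 8187741998254) (nat_lit 76) (nat_lit 729238857483) (nat_lit 76) (nat_lit 729164414961) (nat_lit 1) (nat_lit 4) (nat_lit 2) (nat_lit 5) (nat_lit 2) (nat_lit 4) (nat_lit 524) (nat_lit 344) (nat_lit 332)) (XT.lf (nat_lit 0) (nat_lit 8843842051746) (nat_lit 76) (nat_lit 787015333025) (nat_lit 76) (nat_lit 786937258326) (nat_lit 1) (nat_lit 4) (nat_lit 2) (nat_lit 5) (nat_lit 2) (nat_lit 4) (nat_lit 525) (nat_lit 344) (nat_lit 331))))) (XT.nd (nat_lit 234) (nat_lit 0) (nat_lit 0) (XT.nd (nat_lit 78) (nat_lit 0) (nat_lit 0) (XT.lf (nat_lit 0) (nat_lit 9552395417867) (nat_lit 76) (nat_lit 849431670750) (nat_lit 76) (nat_lit 849350232926) (nat_lit 1) (nat_lit 4) (nat_lit 2) (nat_lit 5) (nat_lit 2) (nat_lit 4) (nat_lit 526) (nat_lit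 344) (nat_lit 330)) (XT.nd (nat_lit 78) (nat_lit 0) (nat_lit 0) (XT.lf (nat_lit 0) (nat_lit 10317600931378) (nat_lit 76) (nat_lit 916857745254) (nat_lit 76) (nat_lit 916773193425) (nat_lit 1) (nat_lit 4) (nat_lit 2) (nat_lit 5) (nat_lit 2) (nat_lit 4) (nat_lit 527) (nat_lit 344) (nat_lit 329)) (XT.lf (nat_lit 0) (nat_lit 11143993143471) (nat_lit 76) (nat_lit 989693118460) (nat_lit 76) (nat_lit 989605683292) (nat_lit 1) (nat_lit 4) (nat_lit 2) (nat_lit 5) (nat_lit 2) (nat_lit 4) (nat_lit 528) (nat_lit 344) (nat_lit 328)))) (XT.nd (nat_lit 78) (nat_lit 0) (nat_lit 0) (XT.lf (nat_lit 0) (nat_lit 12036469193180) (nat_lit 76) (nat_lit 1068369407393) (nat_lit 76) (nat_lit 1068279302467) (nat_lit 1) (nat_lit 4) (nat_lit 2) (nat_lit 5) (nat_lit 2) (nat_lit 4) (nat_lit 529) (nat_lit 344) (nat_lit 327)) (XT.nd (nat_lit 60918) (nat_lit 0) (nat_lit 0) (XT.lf (nat_lit 0) (nat_lit 13000317827468) (nat_lit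 76) (nat_lit 1153352841914) (nat_lit 76) (nat_lit 1153260264990) (nat_lit 1) (nat_lit 4) (nat_lit 2) (nat_lit 5) (nat_lit 2) (nat_lit 4) (nat_lit 530) (nat_lit 344) (nat_lit 326)) (XT.lf (nat_lit 0) (nat_lit 1387357242518) (nat_lit 76) (nat_lit 127481553219) (nat_lit 76) (nat_lit 127481553219) (nat_lit 1) (nat_lit 4) (nat_lit 2) (nat_lit 5) (nat_lit 2) (nat_lit 4) (nat_lit 510) (nat_lit 345) (nat_lit 345)))))) (XT.nd (nat_lit 390) (nat_lit 0) (nat_lit 0) (XT.nd (nat_lit 156) (nat_lit 0) (nat_lit 0) (XT.nd (nat_lit 78) (nat_lit 0) (nat_lit 0) (XT.lf (nat_lit 0) (nat_lit 2998626689890) (nat_lit 76) (nat_lit 274359746104) (nat_lit 76) (nat_lit 274349867952) (nat_lit 1) (nat_lit 4) (nat_lit 2) (nat_lit 5) (nat_lit 2) (nat_lit 4) (nat_lit 511) (nat_lit 345) (nat_lit 344)) (XT.lf (nat_lit 0) (nat_lit 3240357522894) (nat_lit 76) (nat_lit 295356374330) (nat_lit 76) (nat_lit 295337349741) (nat_lit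 1) (nat_lit 4) (nat_lit 2) (nat_lit 5) (nat_lit 2) (nat_lit 4) (nat_lit 512) (nat_lit 345) (nat_lit 343))) (XT.nd (nat_lit 78) (nat_lit 0) (nat_lit 0) (XT.lf (nat_lit 0) (nat_lit 3501339463059) (nat_lit 76) (nat_lit 318077415580) (nat_lit 76) (nat_lit 318049922068) (nat_lit 1) (nat_lit 4) (nat_lit 2) (nat_lit 5) (nat_lit 2) (nat_lit 4) (nat_lit 513) (nat_lit 345) (nat_lit 342)) (XT.nd (nat_lit 78) (nat_lit 0) (nat_lit 0) (XT.lf (nat_lit 0) (nat_lit 3783119070033) (nat_lit 76) (nat_lit 342657513061) (nat_lit 76) (nat_lit 342622177954) (nat_lit 1) (nat_lit 4) (nat_lit 2) (nat_lit 5) (nat_lit 2) (nat_lit 4) (nat_lit 514) (nat_lit 345) (nat_lit 341)) (XT.lf (nat_lit 0) (nat_lit 4087366148891) (nat_lit 76) (nat_lit 369242326610) (nat_lit 76) (nat_lit 369199730766) (nat_lit 1) (nat_lit 4) (nat_lit 2) (nat_lit 5) (nat_lit 2) (nat_lit 4) (nat_lit 515) (nat_lit 345) (nat_lit 340))))) (XT.nd (nat_lit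 234) (nat_lit 0) (nat_lit 0) (XT.nd (nat_lit 78) (nat_lit 0) (nat_lit 0) (XT.lf (nat_lit 0) (nat_lit 4415883645288) (nat_lit 76) (nat_lit 397989395863) (nat_lit 76) (nat_lit 397940077115) (nat_lit 1) (nat_lit 4) (nat_lit 2) (nat_lit 5) (nat_lit 2) (nat_lit 4) (nat_lit 516) (nat_lit 345) (nat_lit 339)) (XT.nd (nat_lit 78) (nat_lit 0) (nat_lit 0) (XT.lf (nat_lit 0) (nat_lit 4770618329571) (nat_lit 76) (nat_lit 429069073822) (nat_lit 76) (nat_lit 429013530164) (nat_lit 1) (nat_lit 4) (nat_lit 2) (nat_lit 5) (nat_lit 2) (nat_lit 4) (nat_lit 517) (nat_lit 345) (nat_lit 338)) (XT.lf (nat_lit 0) (nat_lit 5153672333205) (nat_lit 76) (nat_lit 462665536359) (nat_lit 76) (nat_lit 462604228893) (nat_lit 1) (nat_lit 4) (nat_lit 2) (nat_lit 5) (nat_lit 2) (nat_lit 4) (nat_lit 518) (nat_lit 345) (nat_lit 337)))) (XT.nd (nat_lit 78) (nat_lit 0) (nat_lit 0) (XT.lf (nat_lit 0) (nat_lit 5567315605839) (nat_lit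 76) (nat_lit 498977873620) (nat_lit 76) (nat_lit 498911229296) (nat_lit 1) (nat_lit 4) (nat_lit 2) (nat_lit 5) (nat_lit 2) (nat_lit 4) (nat_lit 519) (nat_lit 345) (nat_lit 336)) (XT.nd (nat_lit 78) (nat_lit 0) (nat_lit 0) (XT.lf (nat_lit 0) (nat_lit 6013999366866) (nat_lit 76) (nat_lit 538221269826) (nat_lit 76) (nat_lit 538149683967) (nat_lit 1) (nat_lit 4) (nat_lit 2) (nat_lit 5) (nat_lit 2) (nat_lit 4) (nat_lit 520) (nat_lit 345) (nat_lit 335)) (XT.lf (nat_lit 0) (nat_lit 6496370631169) (nat_lit 76) (nat_lit 580628278437) (nat_lit 76) (nat_lit 580552117083) (nat_lit 1) (nat_lit 4) (nat_lit 2) (nat_lit 5) (nat_lit 2) (nat_lit 4) (nat_lit 521) (nat_lit 345) (nat_lit 334))))))) (XT.nd (nat_lit 61542) (nat_lit 0) (nat_lit 0) (XT.nd (nat_lit 390) (nat_lit 0) (nat_lit 0) (XT.nd (nat_lit 156) (nat_lit 0) (nat_lit 0) (XT.nd (nat_lit 78) (nat_lit 0) (nat_lit 0) (XT.lf (nat_lit 0) (nat_lit 7017287895126)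 (nat_lit 76) (nat_lit 626450200244) (nat_lit 76) (nat_lit 626369802320) (nat_lit 1) (nat_lit 4) (nat_lit 2) (nat_lit 5) (nat_lit 2) (nat_lit 4) (nat_lit 522) (nat_lit 345) (nat_lit 333)) (XT.lf (nat_lit 0) (nat_lit 7579838075858) (nat_lit 76) (nat_lit 675958572561) (nat_lit 76) (nat_lit 675874251887) (nat_lit 1) (nat_lit 4) (nat_lit 2) (nat_lit 5) (nat_lit 2) (nat_lit 4) (nat_lit 523) (nat_lit 345) (nat_lit 332))) (XT.nd (nat_lit 78) (nat_lit 0) (nat_lit 0) (XT.lf (nat_lit 0) (nat_lit 8187354804066) (nat_lit 76) (nat_lit 729446778337) (nat_lit 76) (nat_lit 729358825487) (nat_lit 1) (nat_lit 4) (nat_lit 2) (nat_lit 5) (nat_lit 2) (nat_lit 4) (nat_lit 524) (nat_lit 345) (nat_lit 331)) (XT.nd (nat_lit 78) (nat_lit 0) (nat_lit 0) (XT.lf (nat_lit 0) (nat_lit 8843438178880) (nat_lit 76) (nat_lit 787231784715) (nat_lit 76) (nat_lit 787140468739) (nat_lit 1) (nat_lit 4) (nat_lit 2) (nat_lit 5)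 (nat_lit 2) (nat_lit 4) (nat_lit 525) (nat_lit 345) (nat_lit 330)) (XT.lf (nat_lit 0) (nat_lit 9551976101780) (nat_lit 76) (nat_lit 849656021364) (nat_lit 76) (nat_lit 849561591383) (nat_lit 1) (nat_lit 4) (nat_lit 2) (nat_lit 5) (nat_lit 2) (nat_lit 4) (nat_lit 526) (nat_lit 345) (nat_lit 329))))) (XT.nd (nat_lit 234) (nat_lit 0) (nat_lit 0) (XT.nd (nat_lit 78) (nat_lit 0) (nat_lit 0) (XT.lf (nat_lit 0) (nat_lit 10317167316013) (nat_lit 76) (nat_lit 917089409686) (nat_lit 76) (nat_lit 916992096366) (nat_lit 1) (nat_lit 4) (nat_lit 2) (nat_lit 5) (nat_lit 2) (nat_lit 4) (nat_lit 527) (nat_lit 345) (nat_lit 328)) (XT.nd (nat_lit 78) (nat_lit 0) (nat_lit 0) (XT.lf (nat_lit 0) (nat_lit 11143546288033) (nat_lit 76) (nat_lit 989931554945) (nat_lit 76) (nat_lit 989831571867) (nat_lit 1) (nat_lit 4) (nat_lit 2) (nat_lit 5) (nat_lit 2) (nat_lit 4) (nat_lit 528) (nat_lit 345) (nat_lit 327)) (XT.lf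 (nat_lit 0) (nat_lit 12036010078416) (nat_lit 76) (nat_lit 1068614114298) (nat_lit 76) (nat_lit 1068511659222) (nat_lit 1) (nat_lit 4) (nat_lit 2) (nat_lit 5) (nat_lit 2) (nat_lit 4) (nat_lit 529) (nat_lit 345) (nat_lit 326)))) (XT.nd (nat_lit 60762) (nat_lit 0) (nat_lit 0) (XT.lf (nat_lit 0) (nat_lit 12999847361475) (nat_lit 76) (nat_lit 1153603354763) (nat_lit 76) (nat_lit 1153498610801) (nat_lit 1) (nat_lit 4) (nat_lit 2) (nat_lit 5) (nat_lit 2) (nat_lit 4) (nat_lit 530) (nat_lit 345) (nat_lit 325)) (XT.nd (nat_lit 78) (nat_lit 0) (nat_lit 0) (XT.lf (nat_lit 0) (nat_lit 1187594523825) (nat_lit 76) (nat_lit 110251214001) (nat_lit 76) (nat_lit 110251214001) (nat_lit 1) (nat_lit 4) (nat_lit 2) (nat_lit 5) (nat_lit 2) (nat_lit 4) (nat_lit 508) (nat_lit 346) (nat_lit 346)) (XT.lf (nat_lit 0) (nat_lit 2567294021196) (nat_lit 76) (nat_lit 237062180686) (nat_lit 76) (nat_lit 237051512283) (nat_lit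 1) (nat_lit 4) (nat_lit 2) (nat_lit 5) (nat_lit 2) (nat_lit 4) (nat_lit 509) (nat_lit 346) (nat_lit 345)))))) (XT.nd (nat_lit 468) (nat_lit 0) (nat_lit 0) (XT.nd (nat_lit 234) (nat_lit 0) (nat_lit 0) (XT.nd (nat_lit 78) (nat_lit 0) (nat_lit 0) (XT.lf (nat_lit 0) (nat_lit 2774665496529) (nat_lit 76) (nat_lit 254998831562) (nat_lit 76) (nat_lit 254978285006) (nat_lit 1) (nat_lit 4) (nat_lit 2) (nat_lit 5) (nat_lit 2) (nat_lit 4) (nat_lit 510) (nat_lit 346) (nat_lit 344)) (XT.nd (nat_lit 78) (nat_lit 0) (nat_lit 0) (XT.lf (nat_lit 0) (nat_lit 2998532341653) (nat_lit 76) (nat_lit 274418671895) (nat_lit 76) (nat_lit 274388978902) (nat_lit 1) (nat_lit 4) (nat_lit 2) (nat_lit 5) (nat_lit 2) (nat_lit 4) (nat_lit 511) (nat_lit 346) (nat_lit 343)) (XT.lf (nat_lit 0) (nat_lit 3240221174908) (nat_lit 76) (nat_lit 295436782220) (nat_lit 76) (nat_lit 295398620304) (nat_lit 1) (nat_lit 4) (nat_lit 2)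 (nat_lit 5) (nat_lit 2) (nat_lit 4) (nat_lit 512) (nat_lit 346) (nat_lit 342)))) (XT.nd (nat_lit 78) (nat_lit 0) (nat_lit 0) (XT.lf (nat_lit 0) (nat_lit 3501164226417) (nat_lit 76) (nat_lit 318177714302) (nat_lit 76) (nat_lit 318131710791) (nat_lit 1) (nat_lit 4) (nat_lit 2) (nat_lit 5) (nat_lit 2) (nat_lit 4) (nat_lit 513) (nat_lit 346) (nat_lit 341)) (XT.nd (nat_lit 78) (nat_lit 0) (nat_lit 0) (XT.lf (nat_lit 0) (nat_lit 3782907825374) (nat_lit 76) (nat_lit 342776229220) (nat_lit 76) (nat_lit 342722964973) (nat_lit 1) (nat_lit 4) (nat_lit 2) (nat_lit 5) (nat_lit 2) (nat_lit 4) (nat_lit 514) (nat_lit 346) (nat_lit 340)) (XT.lf (nat_lit 0) (nat_lit 4087121563478) (nat_lit 76) (nat_lit 369378095952) (nat_lit 76) (nat_lit 369318108800) (nat_lit 1) (nat_lit 4) (nat_lit 2) (nat_lit 5) (nat_lit 2) (nat_lit 4) (nat_lit 515) (nat_lit 346) (nat_lit 339))))) (XT.nd (nat_lit 234) (nat_lit 0) (nat_lit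 0) (XT.nd (nat_lit 78) (nat_lit 0) (nat_lit 0) (XT.lf (nat_lit 0) (nat_lit 4415608188805) (nat_lit 76) (nat_lit 398140955189) (nat_lit 76) (nat_lit 398074743126) (nat_lit 1) (nat_lit 4) (nat_lit 2) (nat_lit 5) (nat_lit 2) (nat_lit 4) (nat_lit 516) (nat_lit 346) (nat_lit 338)) (XT.nd (nat_lit 78) (nat_lit 0) (nat_lit 0) (XT.lf (nat_lit 0) (nat_lit 4770314288765) (nat_lit 76) (nat_lit 429235253504) (nat_lit 76) (nat_lit 429163277635) (nat_lit 1) (nat_lit 4) (nat_lit 2) (nat_lit 5) (nat_lit 2) (nat_lit 4) (nat_lit 517) (nat_lit 346) (nat_lit 337)) (XT.lf (nat_lit 0) (nat_lit 5153341825432) (nat_lit 76) (nat_lit 462845253406) (nat_lit 76) (nat_lit 462767940679) (nat_lit 1) (nat_lit 4) (nat_lit 2) (nat_lit 5) (nat_lit 2) (nat_lit 4) (nat_lit 518) (nat_lit 346) (nat_lit 336)))) (XT.nd (nat_lit 78) (nat_lit 0) (nat_lit 0) (XT.lf (nat_lit 0) (nat_lit 5566960591615) (nat_lit 76) (nat_lit 499170125266)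 (nat_lit 76) (nat_lit 499087871003) (nat_lit 1) (nat_lit 4) (nat_lit 2) (nat_lit 5) (nat_lit 2) (nat_lit 4) (nat_lit 519) (nat_lit 346) (nat_lit 335)) (XT.nd (nat_lit 78) (nat_lit 0) (nat_lit 0) (XT.lf (nat_lit 0) (nat_lit 6013621661485) (nat_lit 76) (nat_lit 538425127582) (nat_lit 76) (nat_lit 538338297824) (nat_lit 1) (nat_lit 4) (nat_lit 2) (nat_lit 5) (nat_lit 2) (nat_lit 4) (nat_lit 520) (nat_lit 346) (nat_lit 334)) (XT.lf (nat_lit 0) (nat_lit 6495971915456) (nat_lit 76) (nat_lit 580842882590) (nat_lit 76) (nat_lit 580751816262) (nat_lit 1) (nat_lit 4) (nat_lit 2) (nat_lit 5) (nat_lit 2) (nat_lit 4) (nat_lit 521) (nat_lit 346) (nat_lit 333))))))))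
noncomputable def xc3 : XT := (XT.nd (nat_lit 62244) (nat_lit 0) (nat_lit 0) (XT.nd (nat_lit 61386) (nat_lit 0) (nat_lit 0) (XT.nd (nat_lit 390) (nat_lit 0) (nat_lit 0) (XT.nd (nat_lit 156) (nat_lit 0) (nat_lit 0) (XT.nd (nat_lit 78) (nat_lit 0) (nat_lit 0) (XT.lf (nat_lit 0) (nat_lit 7016869725403) (nat_lit 76) (nat_lit 626674754765) (nat_lit 76) (nat_lit 626579765688) (nat_lit 1) (nat_lit 4) (nat_lit 2) (nat_lit 5) (nat_lit 2) (nat_lit 4) (nat_lit 522) (nat_lit 346) (nat_lit 332)) (XT.lf (nat_lit 0) (nat_lit 7579401893163) (nat_lit 76) (nat_lit 676192340387) (nat_lit 76) (nat_lit 676093719133) (nat_lit 1) (nat_lit 4) (nat_lit 2) (nat_lit 5) (nat_lit 2) (nat_lit 4) (nat_lit 523) (nat_lit 346) (nat_lit 331))) (XT.nd (nat_lit 78) (nat_lit 0) (nat_lit 0) (XT.lf (nat_lit 0) (nat_lit 8186901942693) (nat_lit 76) (nat_lit 729689077000) (nat_lit 76) (nat_lit 729587092620) (nat_lit 1) (nat_lit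 4) (nat_lit 2) (nat_lit 5) (nat_lit 2) (nat_lit 4) (nat_lit 524) (nat_lit 346) (nat_lit 330)) (XT.nd (nat_lit 78) (nat_lit 0) (nat_lit 0) (XT.lf (nat_lit 0) (nat_lit 8842969874286) (nat_lit 76) (nat_lit 787481982301) (nat_lit 76) (nat_lit 787376883916) (nat_lit 1) (nat_lit 4) (nat_lit 2) (nat_lit 5) (nat_lit 2) (nat_lit 4) (nat_lit 525) (nat_lit 346) (nat_lit 329)) (XT.lf (nat_lit 0) (nat_lit 9551493497907) (nat_lit 76) (nat_lit 849913532768) (nat_lit 76) (nat_lit 849805551045) (nat_lit 1) (nat_lit 4) (nat_lit 2) (nat_lit 5) (nat_lit 2) (nat_lit 4) (nat_lit 526) (nat_lit 346) (nat_lit 328))))) (XT.nd (nat_lit 234) (nat_lit 0) (nat_lit 0) (XT.nd (nat_lit 78) (nat_lit 0) (nat_lit 0) (XT.lf (nat_lit 0) (nat_lit 10316671472068) (nat_lit 76) (nat_lit 917353693143) (nat_lit 76) (nat_lit 917243041662) (nat_lit 1) (nat_lit 4) (nat_lit 2) (nat_lit 5) (nat_lit 2) (nat_lit 4) (nat_lit 527) (nat_lit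 346) (nat_lit 327)) (XT.nd (nat_lit 78) (nat_lit 0) (nat_lit 0) (XT.lf (nat_lit 0) (nat_lit 11143038184762) (nat_lit 76) (nat_lit 990202108822) (nat_lit 76) (nat_lit 990088985343) (nat_lit 1) (nat_lit 4) (nat_lit 2) (nat_lit 5) (nat_lit 2) (nat_lit 4) (nat_lit 528) (nat_lit 346) (nat_lit 326)) (XT.lf (nat_lit 0) (nat_lit 12035490623916) (nat_lit 76) (nat_lit 1068890474119) (nat_lit 76) (nat_lit 1068775061753) (nat_lit 1) (nat_lit 4) (nat_lit 2) (nat_lit 5) (nat_lit 2) (nat_lit 4) (nat_lit 529) (nat_lit 346) (nat_lit 325)))) (XT.nd (nat_lit 60606) (nat_lit 0) (nat_lit 0) (XT.lf (nat_lit 0) (nat_lit 12999317396579) (nat_lit 76) (nat_lit 1153885090459) (nat_lit 76) (nat_lit 1153767558753) (nat_lit 1) (nat_lit 4) (nat_lit 2) (nat_lit 5) (nat_lit 2) (nat_lit 4) (nat_lit 530) (nat_lit 346) (nat_lit 324)) (XT.nd (nat_lit 78) (nat_lit 0) (nat_lit 0) (XT.lf (nat_lit 0) (nat_lit 1016182934415) (nat_lit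 76) (nat_lit 95555481668) (nat_lit 76) (nat_lit 95555481668) (nat_lit 1) (nat_lit 4) (nat_lit 2) (nat_lit 5) (nat_lit 2) (nat_lit 4) (nat_lit 506) (nat_lit 347) (nat_lit 347)) (XT.lf (nat_lit 0) (nat_lit 2197212176049) (nat_lit 76) (nat_lit 205232963521) (nat_lit 76) (nat_lit 205221441645) (nat_lit 1) (nat_lit 4) (nat_lit 2) (nat_lit 5) (nat_lit 2) (nat_lit 4) (nat_lit 507) (nat_lit 347) (nat_lit 346)))))) (XT.nd (nat_lit 390) (nat_lit 0) (nat_lit 0) (XT.nd (nat_lit 156) (nat_lit 0) (nat_lit 0) (XT.nd (nat_lit 78) (nat_lit 0) (nat_lit 0) (XT.lf (nat_lit 0) (nat_lit 2375136140062) (nat_lit 76) (nat_lit 220541011137) (nat_lit 76) (nat_lit 220518820857) (nat_lit 1) (nat_lit 4) (nat_lit 2) (nat_lit 5) (nat_lit 2) (nat_lit 4) (nat_lit 508) (nat_lit 347) (nat_lit 345)) (XT.lf (nat_lit 0) (nat_lit 2567192125100) (nat_lit 76) (nat_lit 237125820541) (nat_lit 76) (nat_lit 237093752109) (nat_lit 1)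 (nat_lit 4) (nat_lit 2) (nat_lit 5) (nat_lit 2) (nat_lit 4) (nat_lit 509) (nat_lit 347) (nat_lit 344))) (XT.nd (nat_lit 78) (nat_lit 0) (nat_lit 0) (XT.lf (nat_lit 0) (nat_lit 2774518240704) (nat_lit 76) (nat_lit 255085672083) (nat_lit 76) (nat_lit 255044457214) (nat_lit 1) (nat_lit 4) (nat_lit 2) (nat_lit 5) (nat_lit 2) (nat_lit 4) (nat_lit 510) (nat_lit 347) (nat_lit 343)) (XT.nd (nat_lit 78) (nat_lit 0) (nat_lit 0) (XT.lf (nat_lit 0) (nat_lit 2998343086078) (nat_lit 76) (nat_lit 274526994514) (nat_lit 76) (nat_lit 274477310723) (nat_lit 1) (nat_lit 4) (nat_lit 2) (nat_lit 5) (nat_lit 2) (nat_lit 4) (nat_lit 511) (nat_lit 347) (nat_lit 342)) (XT.lf (nat_lit 0) (nat_lit 3239993030676) (nat_lit 76) (nat_lit 295564995672) (nat_lit 76) (nat_lit 295507470285) (nat_lit 1) (nat_lit 4) (nat_lit 2) (nat_lit 5) (nat_lit 2) (nat_lit 4) (nat_lit 512) (nat_lit 347) (nat_lit 341))))) (XT.nd (nat_lit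 234) (nat_lit 0) (nat_lit 0) (XT.nd (nat_lit 78) (nat_lit 0) (nat_lit 0) (XT.lf (nat_lit 0) (nat_lit 3500900074170) (nat_lit 76) (nat_lit 318324345191) (nat_lit 76) (nat_lit 318259559068) (nat_lit 1) (nat_lit 4) (nat_lit 2) (nat_lit 5) (nat_lit 2) (nat_lit 4) (nat_lit 513) (nat_lit 347) (nat_lit 340)) (XT.nd (nat_lit 78) (nat_lit 0) (nat_lit 0) (XT.lf (nat_lit 0) (nat_lit 3782610332372) (nat_lit 76) (nat_lit 342939913292) (nat_lit 76) (nat_lit 342868404265) (nat_lit 1) (nat_lit 4) (nat_lit 2) (nat_lit 5) (nat_lit 2) (nat_lit 4) (nat_lit 514) (nat_lit 347) (nat_lit 339)) (XT.lf (nat_lit 0) (nat_lit 4086793199406) (nat_lit 76) (nat_lit 369557570008) (nat_lit 76) (nat_lit 369479836069) (nat_lit 1) (nat_lit 4) (nat_lit 2) (nat_lit 5) (nat_lit 2) (nat_lit 4) (nat_lit 515) (nat_lit 347) (nat_lit 338)))) (XT.nd (nat_lit 78) (nat_lit 0) (nat_lit 0) (XT.lf (nat_lit 0) (nat_lit 4415251240410) (nat_lit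 76) (nat_lit 398335049600) (nat_lit 76) (nat_lit 398251551855) (nat_lit 1) (nat_lit 4) (nat_lit 2) (nat_lit 5) (nat_lit 2) (nat_lit 4) (nat_lit 516) (nat_lit 347) (nat_lit 337)) (XT.nd (nat_lit 78) (nat_lit 0) (nat_lit 0) (XT.lf (nat_lit 0) (nat_lit 4769930873403) (nat_lit 76) (nat_lit 429442885282) (nat_lit 76) (nat_lit 429354050678) (nat_lit 1) (nat_lit 4) (nat_lit 2) (nat_lit 5) (nat_lit 2) (nat_lit 4) (nat_lit 517) (nat_lit 347) (nat_lit 336)) (XT.lf (nat_lit 0) (nat_lit 5152933903620) (nat_lit 76) (nat_lit 463065419783) (nat_lit 76) (nat_lit 462971643644) (nat_lit 1) (nat_lit 4) (nat_lit 2) (nat_lit 5) (nat_lit 2) (nat_lit 4) (nat_lit 518) (nat_lit 347) (nat_lit 335))))))) (XT.nd (nat_lit 858) (nat_lit 0) (nat_lit 0) (XT.nd (nat_lit 390) (nat_lit 0) (nat_lit 0) (XT.nd (nat_lit 156) (nat_lit 0) (nat_lit 0) (XT.nd (nat_lit 78) (nat_lit 0) (nat_lit 0) (XT.lf (nat_lit 0) (nat_lit 5566529978646)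 (nat_lit 76) (nat_lit 499401897751) (nat_lit 76) (nat_lit 499303546117) (nat_lit 1) (nat_lit 4) (nat_lit 2) (nat_lit 5) (nat_lit 2) (nat_lit 4) (nat_lit 519) (nat_lit 347) (nat_lit 334)) (XT.lf (nat_lit 0) (nat_lit 6013170038185) (nat_lit 76) (nat_lit 538667646465) (nat_lit 76) (nat_lit 538565058261) (nat_lit 1) (nat_lit 4) (nat_lit 2) (nat_lit 5) (nat_lit 2) (nat_lit 4) (nat_lit 520) (nat_lit 347) (nat_lit 333))) (XT.nd (nat_lit 78) (nat_lit 0) (nat_lit 0) (XT.lf (nat_lit 0) (nat_lit 6495500838145) (nat_lit 76) (nat_lit 581095351842) (nat_lit 76) (nat_lit 580988840888) (nat_lit 1) (nat_lit 4) (nat_lit 2) (nat_lit 5) (nat_lit 2) (nat_lit 4) (nat_lit 521) (nat_lit 347) (nat_lit 332)) (XT.nd (nat_lit 78) (nat_lit 0) (nat_lit 0) (XT.lf (nat_lit 0) (nat_lit 7016380635120) (nat_lit 76) (nat_lit 626936437321) (nat_lit 76) (nat_lit 626826294191) (nat_lit 1) (nat_lit 4) (nat_lit 2) (nat_lit 5)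 (nat_lit 2) (nat_lit 4) (nat_lit 522) (nat_lit 347) (nat_lit 331)) (XT.lf (nat_lit 0) (nat_lit 7578896124201) (nat_lit 76) (nat_lit 676462553780) (nat_lit 76) (nat_lit 676349047524) (nat_lit 1) (nat_lit 4) (nat_lit 2) (nat_lit 5) (nat_lit 2) (nat_lit 4) (nat_lit 523) (nat_lit 347) (nat_lit 330))))) (XT.nd (nat_lit 234) (nat_lit 0) (nat_lit 0) (XT.nd (nat_lit 78) (nat_lit 0) (nat_lit 0) (XT.lf (nat_lit 0) (nat_lit 8186380730510) (nat_lit 76) (nat_lit 729967189316) (nat_lit 76) (nat_lit 729850569054) (nat_lit 1) (nat_lit 4) (nat_lit 2) (nat_lit 5) (nat_lit 2) (nat_lit 4) (nat_lit 524) (nat_lit 347) (nat_lit 329)) (XT.nd (nat_lit 78) (nat_lit 0) (nat_lit 0) (XT.lf (nat_lit 0) (nat_lit 8842434362825) (nat_lit 76) (nat_lit 787767408435) (nat_lit 76) (nat_lit 787647904835) (nat_lit 1) (nat_lit 4) (nat_lit 2) (nat_lit 5) (nat_lit 2) (nat_lit 4) (nat_lit 525) (nat_lit 347) (nat_lit 328)) (XT.lf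 (nat_lit 0) (nat_lit 9550944746374) (nat_lit 76) (nat_lit 850205730955) (nat_lit 76) (nat_lit 850083557598) (nat_lit 1) (nat_lit 4) (nat_lit 2) (nat_lit 5) (nat_lit 2) (nat_lit 4) (nat_lit 526) (nat_lit 347) (nat_lit 327)))) (XT.nd (nat_lit 78) (nat_lit 0) (nat_lit 0) (XT.lf (nat_lit 0) (nat_lit 10316110461208) (nat_lit 76) (nat_lit 917652161750) (nat_lit 76) (nat_lit 917527516395) (nat_lit 1) (nat_lit 4) (nat_lit 2) (nat_lit 5) (nat_lit 2) (nat_lit 4) (nat_lit 527) (nat_lit 347) (nat_lit 326)) (XT.nd (nat_lit 78) (nat_lit 0) (nat_lit 0) (XT.lf (nat_lit 0) (nat_lit 11142465822674) (nat_lit 76) (nat_lit 990506383373) (nat_lit 76) (nat_lit 990379449131) (nat_lit 1) (nat_lit 4) (nat_lit 2) (nat_lit 5) (nat_lit 2) (nat_lit 4) (nat_lit 528) (nat_lit 347) (nat_lit 325)) (XT.lf (nat_lit 0) (nat_lit 12034907751432) (nat_lit 76) (nat_lit 1069200124545) (nat_lit 76) (nat_lit 1069071070963) (nat_lit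 1) (nat_lit 4) (nat_lit 2) (nat_lit 5) (nat_lit 2) (nat_lit 4) (nat_lit 529) (nat_lit 347) (nat_lit 324)))))) (XT.nd (nat_lit 60840) (nat_lit 0) (nat_lit 0) (XT.nd (nat_lit 60606) (nat_lit 0) (nat_lit 0) (XT.nd (nat_lit 60450) (nat_lit 0) (nat_lit 0) (XT.lf (nat_lit 0) (nat_lit 12998724792246) (nat_lit 76) (nat_lit 1154199718546) (nat_lit 76) (nat_lit 1154068702613) (nat_lit 1) (nat_lit 4) (nat_lit 2) (nat_lit 5) (nat_lit 2) (nat_lit 4) (nat_lit 530) (nat_lit 347) (nat_lit 323)) (XT.nd (nat_lit 78) (nat_lit 0) (nat_lit 0) (XT.lf (nat_lit 0) (nat_lit 869066088273) (nat_lit 76) (nat_lit 83038886719) (nat_lit 76) (nat_lit 83038886719) (nat_lit 1) (nat_lit 4) (nat_lit 2) (nat_lit 5) (nat_lit 2) (nat_lit 4) (nat_lit 504) (nat_lit 348) (nat_lit 348)) (XT.lf (nat_lit 0) (nat_lit 1879620351400) (nat_lit 76) (nat_lit 178103768281) (nat_lit 76) (nat_lit 178091324655) (nat_lit 1) (nat_lit 4) (nat_lit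 2) (nat_lit 5) (nat_lit 2) (nat_lit 4) (nat_lit 505) (nat_lit 348) (nat_lit 347)))) (XT.nd (nat_lit 78) (nat_lit 0) (nat_lit 0) (XT.lf (nat_lit 0) (nat_lit 2032308728635) (nat_lit 76) (nat_lit 191152633121) (nat_lit 76) (nat_lit 191128667618) (nat_lit 1) (nat_lit 4) (nat_lit 2) (nat_lit 5) (nat_lit 2) (nat_lit 4) (nat_lit 506) (nat_lit 348) (nat_lit 346)) (XT.nd (nat_lit 78) (nat_lit 0) (nat_lit 0) (XT.lf (nat_lit 0) (nat_lit 2197102128266) (nat_lit 76) (nat_lit 205301694564) (nat_lit 76) (nat_lit 205267060657) (nat_lit 1) (nat_lit 4) (nat_lit 2) (nat_lit 5) (nat_lit 2) (nat_lit 4) (nat_lit 507) (nat_lit 348) (nat_lit 345)) (XT.lf (nat_lit 0) (nat_lit 2374977103771) (nat_lit 76) (nat_lit 220634798900) (nat_lit 76) (nat_lit 220590286842) (nat_lit 1) (nat_lit 4) (nat_lit 2) (nat_lit 5) (nat_lit 2) (nat_lit 4) (nat_lit 508) (nat_lit 348) (nat_lit 344))))) (XT.nd (nat_lit 234) (nat_lit 0) (nat_lit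 0) (XT.nd (nat_lit 78) (nat_lit 0) (nat_lit 0) (XT.lf (nat_lit 0) (nat_lit 2566987729080) (nat_lit 76) (nat_lit 237242808970) (nat_lit 76) (nat_lit 237189150475) (nat_lit 1) (nat_lit 4) (nat_lit 2) (nat_lit 5) (nat_lit 2) (nat_lit 4) (nat_lit 509) (nat_lit 348) (nat_lit 343)) (XT.nd (nat_lit 78) (nat_lit 0) (nat_lit 0) (XT.lf (nat_lit 0) (nat_lit 2774271844935) (nat_lit 76) (nat_lit 255224142611) (nat_lit 76) (nat_lit 255162015193) (nat_lit 1) (nat_lit 4) (nat_lit 2) (nat_lit 5) (nat_lit 2) (nat_lit 4) (nat_lit 510) (nat_lit 348) (nat_lit 342)) (XT.lf (nat_lit 0) (nat_lit 2998057801652) (nat_lit 76) (nat_lit 274685355875) (nat_lit 76) (nat_lit 274615386862) (nat_lit 1) (nat_lit 4) (nat_lit 2) (nat_lit 5) (nat_lit 2) (nat_lit 4) (nat_lit 511) (nat_lit 348) (nat_lit 341)))) (XT.nd (nat_lit 78) (nat_lit 0) (nat_lit 0) (XT.lf (nat_lit 0) (nat_lit 3239671738235) (nat_lit 76) (nat_lit 295741774470)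 (nat_lit 76) (nat_lit 295664544720) (nat_lit 1) (nat_lit 4) (nat_lit 2) (nat_lit 5) (nat_lit 2) (nat_lit 4) (nat_lit 512) (nat_lit 348) (nat_lit 340)) (XT.nd (nat_lit 78) (nat_lit 0) (nat_lit 0) (XT.lf (nat_lit 0) (nat_lit 3500545440973) (nat_lit 76) (nat_lit 318518177172) (nat_lit 76) (nat_lit 318434224518) (nat_lit 1) (nat_lit 4) (nat_lit 2) (nat_lit 5) (nat_lit 2) (nat_lit 4) (nat_lit 513) (nat_lit 348) (nat_lit 339)) (XT.lf (nat_lit 0) (nat_lit 3782224828106) (nat_lit 76) (nat_lit 343149535257) (nat_lit 76) (nat_lit 343059357692) (nat_lit 1) (nat_lit 4) (nat_lit 2) (nat_lit 5) (nat_lit 2) (nat_lit 4) (nat_lit 514) (nat_lit 348) (nat_lit 338))))))))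
noncomputable def xc4 : XT := (XT.nd (nat_lit 61932) (nat_lit 0) (nat_lit 0) (XT.nd (nat_lit 858) (nat_lit 0) (nat_lit 0) (XT.nd (nat_lit 390) (nat_lit 0) (nat_lit 0) (XT.nd (nat_lit 156) (nat_lit 0) (nat_lit 0) (XT.nd (nat_lit 78) (nat_lit 0) (nat_lit 0) (XT.lf (nat_lit 0) (nat_lit 4086379110816) (nat_lit 76) (nat_lit 369781812328) (nat_lit 76) (nat_lit 369685870956) (nat_lit 1) (nat_lit 4) (nat_lit 2) (nat_lit 5) (nat_lit 2) (nat_lit 4) (nat_lit 515) (nat_lit 348) (nat_lit 337)) (XT.lf (nat_lit 0) (nat_lit 4414810684853) (nat_lit 76) (nat_lit 398572829286) (nat_lit 76) (nat_lit 398471551057) (nat_lit 1) (nat_lit 4) (nat_lit 2) (nat_lit 5) (nat_lit 2) (nat_lit 4) (nat_lit 516) (nat_lit 348) (nat_lit 336))) (XT.nd (nat_lit 78) (nat_lit 0) (nat_lit 0) (XT.lf (nat_lit 0) (nat_lit 4769465811397) (nat_lit 76) (nat_lit 429693199566) (nat_lit 76) (nat_lit 429586979802) (nat_lit 1) (nat_lit 4)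 (nat_lit 2) (nat_lit 5) (nat_lit 2) (nat_lit 4) (nat_lit 517) (nat_lit 348) (nat_lit 335)) (XT.nd (nat_lit 78) (nat_lit 0) (nat_lit 0) (XT.lf (nat_lit 0) (nat_lit 5152446150455) (nat_lit 76) (nat_lit 463327340177) (nat_lit 76) (nat_lit 463216544916) (nat_lit 1) (nat_lit 4) (nat_lit 2) (nat_lit 5) (nat_lit 2) (nat_lit 4) (nat_lit 518) (nat_lit 348) (nat_lit 334)) (XT.lf (nat_lit 0) (nat_lit 5566021215150) (nat_lit 76) (nat_lit 499674564543) (nat_lit 76) (nat_lit 499559532713) (nat_lit 1) (nat_lit 4) (nat_lit 2) (nat_lit 5) (nat_lit 2) (nat_lit 4) (nat_lit 519) (nat_lit 348) (nat_lit 333))))) (XT.nd (nat_lit 234) (nat_lit 0) (nat_lit 0) (XT.nd (nat_lit 78) (nat_lit 0) (nat_lit 0) (XT.lf (nat_lit 0) (nat_lit 6012641820679) (nat_lit 76) (nat_lit 538950263625) (nat_lit 76) (nat_lit 538831309045) (nat_lit 1) (nat_lit 4) (nat_lit 2) (nat_lit 5) (nat_lit 2) (nat_lit 4) (nat_lit 520) (nat_lit 348)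 (nat_lit 332)) (XT.nd (nat_lit 78) (nat_lit 0) (nat_lit 0) (XT.lf (nat_lit 0) (nat_lit 6494954607667) (nat_lit 76) (nat_lit 581387182306) (nat_lit 76) (nat_lit 581264595550) (nat_lit 1) (nat_lit 4) (nat_lit 2) (nat_lit 5) (nat_lit 2) (nat_lit 4) (nat_lit 521) (nat_lit 348) (nat_lit 331)) (XT.lf (nat_lit 0) (nat_lit 7015817725963) (nat_lit 76) (nat_lit 627236798623) (nat_lit 76) (nat_lit 627110848741) (nat_lit 1) (nat_lit 4) (nat_lit 2) (nat_lit 5) (nat_lit 2) (nat_lit 4) (nat_lit 522) (nat_lit 348) (nat_lit 330)))) (XT.nd (nat_lit 78) (nat_lit 0) (nat_lit 0) (XT.lf (nat_lit 0) (nat_lit 7578317771824) (nat_lit 76) (nat_lit 676770814005) (nat_lit 76) (nat_lit 676641750117) (nat_lit 1) (nat_lit 4) (nat_lit 2) (nat_lit 5) (nat_lit 2) (nat_lit 4) (nat_lit 523) (nat_lit 348) (nat_lit 329)) (XT.nd (nat_lit 78) (nat_lit 0) (nat_lit 0) (XT.lf (nat_lit 0) (nat_lit 8185788078854) (nat_lit 76) (nat_lit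 730282763358) (nat_lit 76) (nat_lit 730150816132) (nat_lit 1) (nat_lit 4) (nat_lit 2) (nat_lit 5) (nat_lit 2) (nat_lit 4) (nat_lit 524) (nat_lit 348) (nat_lit 328)) (XT.lf (nat_lit 0) (nat_lit 8841828471096) (nat_lit 76) (nat_lit 788089754531) (nat_lit 76) (nat_lit 787955137547) (nat_lit 1) (nat_lit 4) (nat_lit 2) (nat_lit 5) (nat_lit 2) (nat_lit 4) (nat_lit 525) (nat_lit 348) (nat_lit 327)))))) (XT.nd (nat_lit 60606) (nat_lit 0) (nat_lit 0) (XT.nd (nat_lit 156) (nat_lit 0) (nat_lit 0) (XT.nd (nat_lit 78) (nat_lit 0) (nat_lit 0) (XT.lf (nat_lit 0) (nat_lit 9550326595319) (nat_lit 76) (nat_lit 850534347471) (nat_lit 76) (nat_lit 850397258489) (nat_lit 1) (nat_lit 4) (nat_lit 2) (nat_lit 5) (nat_lit 2) (nat_lit 4) (nat_lit 526) (nat_lit 348) (nat_lit 326)) (XT.lf (nat_lit 0) (nat_lit 10315480958924) (nat_lit 76) (nat_lit 917986584210) (nat_lit 76) (nat_lit 917847206342) (nat_lit 1) (nat_lit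 4) (nat_lit 2) (nat_lit 5) (nat_lit 2) (nat_lit 4) (nat_lit 527) (nat_lit 348) (nat_lit 325))) (XT.nd (nat_lit 78) (nat_lit 0) (nat_lit 0) (XT.lf (nat_lit 0) (nat_lit 11141825809994) (nat_lit 76) (nat_lit 990846181708) (nat_lit 76) (nat_lit 990704684500) (nat_lit 1) (nat_lit 4) (nat_lit 2) (nat_lit 5) (nat_lit 2) (nat_lit 4) (nat_lit 528) (nat_lit 348) (nat_lit 324)) (XT.nd (nat_lit 78) (nat_lit 0) (nat_lit 0) (XT.lf (nat_lit 0) (nat_lit 12034258006904) (nat_lit 76) (nat_lit 1069544900541) (nat_lit 76) (nat_lit 1069401440981) (nat_lit 1) (nat_lit 4) (nat_lit 2) (nat_lit 5) (nat_lit 2) (nat_lit 4) (nat_lit 529) (nat_lit 348) (nat_lit 323)) (XT.lf (nat_lit 0) (nat_lit 12998066036747) (nat_lit 76) (nat_lit 1154549103488) (nat_lit 76) (nat_lit 1154403826936) (nat_lit 1) (nat_lit 4) (nat_lit 2) (nat_lit 5) (nat_lit 2) (nat_lit 4) (nat_lit 530) (nat_lit 348) (nat_lit 322))))) (XT.nd (nat_lit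 234) (nat_lit 0) (nat_lit 0) (XT.nd (nat_lit 78) (nat_lit 0) (nat_lit 0) (XT.lf (nat_lit 0) (nat_lit 742765345761) (nat_lit 76) (nat_lit 72397160995) (nat_lit 76) (nat_lit 72397160995) (nat_lit 1) (nat_lit 4) (nat_lit 2) (nat_lit 5) (nat_lit 2) (nat_lit 4) (nat_lit 502) (nat_lit 349) (nat_lit 349)) (XT.nd (nat_lit 78) (nat_lit 0) (nat_lit 0) (XT.lf (nat_lit 0) (nat_lit 1607005755632) (nat_lit 76) (nat_lit 155016822554) (nat_lit 76) (nat_lit 155003383438) (nat_lit 1) (nat_lit 4) (nat_lit 2) (nat_lit 5) (nat_lit 2) (nat_lit 4) (nat_lit 503) (nat_lit 349) (nat_lit 348)) (XT.lf (nat_lit 0) (nat_lit 1738070465136) (nat_lit 76) (nat_lit 166122776806) (nat_lit 76) (nat_lit 166096894063) (nat_lit 1) (nat_lit 4) (nat_lit 2) (nat_lit 5) (nat_lit 2) (nat_lit 4) (nat_lit 504) (nat_lit 349) (nat_lit 347)))) (XT.nd (nat_lit 78) (nat_lit 0) (nat_lit 0) (XT.lf (nat_lit 0) (nat_lit 1879501499794) (nat_lit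 76) (nat_lit 178177997807) (nat_lit 76) (nat_lit 178140593188) (nat_lit 1) (nat_lit 4) (nat_lit 2) (nat_lit 5) (nat_lit 2) (nat_lit 4) (nat_lit 505) (nat_lit 349) (nat_lit 346)) (XT.nd (nat_lit 78) (nat_lit 0) (nat_lit 0) (XT.lf (nat_lit 0) (nat_lit 2032136969441) (nat_lit 76) (nat_lit 191253923904) (nat_lit 76) (nat_lit 191205850881) (nat_lit 1) (nat_lit 4) (nat_lit 2) (nat_lit 5) (nat_lit 2) (nat_lit 4) (nat_lit 506) (nat_lit 349) (nat_lit 345)) (XT.lf (nat_lit 0) (nat_lit 2196881380564) (nat_lit 76) (nat_lit 205428042067) (nat_lit 76) (nat_lit 205370090893) (nat_lit 1) (nat_lit 4) (nat_lit 2) (nat_lit 5) (nat_lit 2) (nat_lit 4) (nat_lit 507) (nat_lit 349) (nat_lit 344))))))) (XT.nd (nat_lit 858) (nat_lit 0) (nat_lit 0) (XT.nd (nat_lit 390) (nat_lit 0) (nat_lit 0) (XT.nd (nat_lit 156) (nat_lit 0) (nat_lit 0) (XT.nd (nat_lit 78) (nat_lit 0) (nat_lit 0) (XT.lf (nat_lit 0) (nat_lit 2374710996340)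 (nat_lit 76) (nat_lit 220784347070) (nat_lit 76) (nat_lit 220717249459) (nat_lit 1) (nat_lit 4) (nat_lit 2) (nat_lit 5) (nat_lit 2) (nat_lit 4) (nat_lit 508) (nat_lit 349) (nat_lit 343)) (XT.lf (nat_lit 0) (nat_lit 2566679621899) (nat_lit 76) (nat_lit 237413839239) (nat_lit 76) (nat_lit 237338272705) (nat_lit 1) (nat_lit 4) (nat_lit 2) (nat_lit 5) (nat_lit 2) (nat_lit 4) (nat_lit 509) (nat_lit 349) (nat_lit 342))) (XT.nd (nat_lit 78) (nat_lit 0) (nat_lit 0) (XT.lf (nat_lit 0) (nat_lit 2773924849098) (nat_lit 76) (nat_lit 255415063713) (nat_lit 76) (nat_lit 255331655583) (nat_lit 1) (nat_lit 4) (nat_lit 2) (nat_lit 5) (nat_lit 2) (nat_lit 4) (nat_lit 510) (nat_lit 349) (nat_lit 341)) (XT.nd (nat_lit 78) (nat_lit 0) (nat_lit 0) (XT.lf (nat_lit 0) (nat_lit 2997674797799) (nat_lit 76) (nat_lit 274894694414) (nat_lit 76) (nat_lit 274804025548) (nat_lit 1) (nat_lit 4) (nat_lit 2) (nat_lit 5)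 (nat_lit 2) (nat_lit 4) (nat_lit 511) (nat_lit 349) (nat_lit 340)) (XT.lf (nat_lit 0) (nat_lit 3239255393627) (nat_lit 76) (nat_lit 295968166191) (nat_lit 76) (nat_lit 295870774421) (nat_lit 1) (nat_lit 4) (nat_lit 2) (nat_lit 5) (nat_lit 2) (nat_lit 4) (nat_lit 512) (nat_lit 349) (nat_lit 339))))) (XT.nd (nat_lit 234) (nat_lit 0) (nat_lit 0) (XT.nd (nat_lit 78) (nat_lit 0) (nat_lit 0) (XT.lf (nat_lit 0) (nat_lit 3500098225296) (nat_lit 76) (nat_lit 318760358877) (nat_lit 76) (nat_lit 318656742196) (nat_lit 1) (nat_lit 4) (nat_lit 2) (nat_lit 5) (nat_lit 2) (nat_lit 4) (nat_lit 513) (nat_lit 349) (nat_lit 338)) (XT.nd (nat_lit 78) (nat_lit 0) (nat_lit 0) (XT.lf (nat_lit 0) (nat_lit 3781749028105) (nat_lit 76) (nat_lit 343406337318) (nat_lit 76) (nat_lit 343296956830) (nat_lit 1) (nat_lit 4) (nat_lit 2) (nat_lit 5) (nat_lit 2) (nat_lit 4) (nat_lit 514) (nat_lit 349) (nat_lit 337)) (XT.lf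 (nat_lit 0) (nat_lit 4085876843849) (nat_lit 76) (nat_lit 370052151755) (nat_lit 76) (nat_lit 369937434409) (nat_lit 1) (nat_lit 4) (nat_lit 2) (nat_lit 5) (nat_lit 2) (nat_lit 4) (nat_lit 515) (nat_lit 349) (nat_lit 336)))) (XT.nd (nat_lit 78) (nat_lit 0) (nat_lit 0) (XT.lf (nat_lit 0) (nat_lit 4414283911435) (nat_lit 76) (nat_lit 398855703312) (nat_lit 76) (nat_lit 398736044431) (nat_lit 1) (nat_lit 4) (nat_lit 2) (nat_lit 5) (nat_lit 2) (nat_lit 4) (nat_lit 516) (nat_lit 349) (nat_lit 335)) (XT.nd (nat_lit 78) (nat_lit 0) (nat_lit 0) (XT.lf (nat_lit 0) (nat_lit 4768916346821) (nat_lit 76) (nat_lit 429987679702) (nat_lit 76) (nat_lit 429863445325) (nat_lit 1) (nat_lit 4) (nat_lit 2) (nat_lit 5) (nat_lit 2) (nat_lit 4) (nat_lit 517) (nat_lit 349) (nat_lit 334)) (XT.lf (nat_lit 0) (nat_lit 5151875675549) (nat_lit 76) (nat_lit 463632566710) (nat_lit 76) (nat_lit 463504095763) (nat_lit 1)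 (nat_lit 4) (nat_lit 2) (nat_lit 5) (nat_lit 2) (nat_lit 4) (nat_lit 518) (nat_lit 349) (nat_lit 333)))))) (XT.nd (nat_lit 468) (nat_lit 0) (nat_lit 0) (XT.nd (nat_lit 234) (nat_lit 0) (nat_lit 0) (XT.nd (nat_lit 78) (nat_lit 0) (nat_lit 0) (XT.lf (nat_lit 0) (nat_lit 5565431286233) (nat_lit 76) (nat_lit 499989741445) (nat_lit 76) (nat_lit 499857347748) (nat_lit 1) (nat_lit 4) (nat_lit 2) (nat_lit 5) (nat_lit 2) (nat_lit 4) (nat_lit 519) (nat_lit 349) (nat_lit 332)) (XT.nd (nat_lit 78) (nat_lit 0) (nat_lit 0) (XT.lf (nat_lit 0) (nat_lit 6012033878789) (nat_lit 76) (nat_lit 539274653831) (nat_lit 76) (nat_lit 539138627958) (nat_lit 1) (nat_lit 4) (nat_lit 2) (nat_lit 5) (nat_lit 2) (nat_lit 4) (nat_lit 520) (nat_lit 349) (nat_lit 331)) (XT.lf (nat_lit 0) (nat_lit 6494329987099) (nat_lit 76) (nat_lit 581720103349) (nat_lit 76) (nat_lit 581580714350) (nat_lit 1) (nat_lit 4) (nat_lit 2) (nat_lit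 5) (nat_lit 2) (nat_lit 4) (nat_lit 521) (nat_lit 349) (nat_lit 330)))) (XT.nd (nat_lit 78) (nat_lit 0) (nat_lit 0) (XT.lf (nat_lit 0) (nat_lit 7015177662174) (nat_lit 76) (nat_lit 627577618588) (nat_lit 76) (nat_lit 627435115584) (nat_lit 1) (nat_lit 4) (nat_lit 2) (nat_lit 5) (nat_lit 2) (nat_lit 4) (nat_lit 522) (nat_lit 349) (nat_lit 329)) (XT.nd (nat_lit 78) (nat_lit 0) (nat_lit 0) (XT.lf (nat_lit 0) (nat_lit 7577663408757) (nat_lit 76) (nat_lit 677118947788) (nat_lit 76) (nat_lit 676973561446) (nat_lit 1) (nat_lit 4) (nat_lit 2) (nat_lit 5) (nat_lit 2) (nat_lit 4) (nat_lit 523) (nat_lit 349) (nat_lit 328)) (XT.lf (nat_lit 0) (nat_lit 8185120475715) (nat_lit 76) (nat_lit 730637669195) (nat_lit 76) (nat_lit 730489613095) (nat_lit 1) (nat_lit 4) (nat_lit 2) (nat_lit 5) (nat_lit 2) (nat_lit 4) (nat_lit 524) (nat_lit 349) (nat_lit 327))))) (XT.nd (nat_lit 234) (nat_lit 0) (nat_lit 0) (XT.nd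 (nat_lit 78) (nat_lit 0) (nat_lit 0) (XT.lf (nat_lit 0) (nat_lit 8841148608630) (nat_lit 76) (nat_lit 788450930788) (nat_lit 76) (nat_lit 788300402690) (nat_lit 1) (nat_lit 4) (nat_lit 2) (nat_lit 5) (nat_lit 2) (nat_lit 4) (nat_lit 525) (nat_lit 349) (nat_lit 326)) (XT.nd (nat_lit 78) (nat_lit 0) (nat_lit 0) (XT.lf (nat_lit 0) (nat_lit 9549635381625) (nat_lit 76) (nat_lit 850901329672) (nat_lit 76) (nat_lit 850748512687) (nat_lit 1) (nat_lit 4) (nat_lit 2) (nat_lit 5) (nat_lit 2) (nat_lit 4) (nat_lit 526) (nat_lit 349) (nat_lit 325)) (XT.lf (nat_lit 0) (nat_lit 10314779234834) (nat_lit 76) (nat_lit 918358942286) (nat_lit 76) (nat_lit 918204005961) (nat_lit 1) (nat_lit 4) (nat_lit 2) (nat_lit 5) (nat_lit 2) (nat_lit 4) (nat_lit 527) (nat_lit 349) (nat_lit 324)))) (XT.nd (nat_lit 78) (nat_lit 0) (nat_lit 0) (XT.lf (nat_lit 0) (nat_lit 11141114354055) (nat_lit 76) (nat_lit 991223517445) (nat_lit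 76) (nat_lit 991066618769) (nat_lit 1) (nat_lit 4) (nat_lit 2) (nat_lit 5) (nat_lit 2) (nat_lit 4) (nat_lit 528) (nat_lit 349) (nat_lit 323)) (XT.nd (nat_lit 78) (nat_lit 0) (nat_lit 0) (XT.lf (nat_lit 0) (nat_lit 12033537539993) (nat_lit 76) (nat_lit 1069926845224) (nat_lit 76) (nat_lit 1069768129555) (nat_lit 1) (nat_lit 4) (nat_lit 2) (nat_lit 5) (nat_lit 2) (nat_lit 4) (nat_lit 529) (nat_lit 349) (nat_lit 322)) (XT.lf (nat_lit 0) (nat_lit 12997337226345) (nat_lit 76) (nat_lit 1154935315713) (nat_lit 76) (nat_lit 1154774917644) (nat_lit 1) (nat_lit 4) (nat_lit 2) (nat_lit 5) (nat_lit 2) (nat_lit 4) (nat_lit 530) (nat_lit 349) (nat_lit 321))))))))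
noncomputable def xc5 : XT := (XT.nd (nat_lit 1716) (nat_lit 0) (nat_lit 0) (XT.nd (nat_lit 858) (nat_lit 0) (nat_lit 0) (XT.nd (nat_lit 390) (nat_lit 0) (nat_lit 0) (XT.nd (nat_lit 156) (nat_lit 0) (nat_lit 0) (XT.nd (nat_lit 78) (nat_lit 0) (nat_lit 0) (XT.lf (nat_lit 0) (nat_lit 634297316243) (nat_lit 76) (nat_lit 63369972402) (nat_lit 76) (nat_lit 63369972402) (nat_lit 1) (nat_lit 4) (nat_lit 2) (nat_lit 5) (nat_lit 2) (nat_lit 4) (nat_lit 500) (nat_lit 350) (nat_lit 350)) (XT.lf (nat_lit 0) (nat_lit 1372925420575) (nat_lit 76) (nat_lit 135409211577) (nat_lit 76) (nat_lit 135394697332) (nat_lit 1) (nat_lit 4) (nat_lit 2) (nat_lit 5) (nat_lit 2) (nat_lit 4) (nat_lit 501) (nat_lit 350) (nat_lit 349))) (XT.nd (nat_lit 78) (nat_lit 0) (nat_lit 0) (XT.lf (nat_lit 0) (nat_lit 1485464043199) (nat_lit 76) (nat_lit 144842925627) (nat_lit 76) (nat_lit 144814972265) (nat_lit 1) (nat_lit 4) (nat_lit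 2) (nat_lit 5) (nat_lit 2) (nat_lit 4) (nat_lit 502) (nat_lit 350) (nat_lit 348)) (XT.nd (nat_lit 78) (nat_lit 0) (nat_lit 0) (XT.lf (nat_lit 0) (nat_lit 1606877395898) (nat_lit 76) (nat_lit 155096990442) (nat_lit 76) (nat_lit 155056593454) (nat_lit 1) (nat_lit 4) (nat_lit 2) (nat_lit 5) (nat_lit 2) (nat_lit 4) (nat_lit 503) (nat_lit 350) (nat_lit 347)) (XT.lf (nat_lit 0) (nat_lit 1737884965206) (nat_lit 76) (nat_lit 166232170852) (nat_lit 76) (nat_lit 166180251987) (nat_lit 1) (nat_lit 4) (nat_lit 2) (nat_lit 5) (nat_lit 2) (nat_lit 4) (nat_lit 504) (nat_lit 350) (nat_lit 346))))) (XT.nd (nat_lit 234) (nat_lit 0) (nat_lit 0) (XT.nd (nat_lit 78) (nat_lit 0) (nat_lit 0) (XT.lf (nat_lit 0) (nat_lit 1879263092276) (nat_lit 76) (nat_lit 178314453111) (nat_lit 76) (nat_lit 178251865842) (nat_lit 1) (nat_lit 4) (nat_lit 2) (nat_lit 5) (nat_lit 2) (nat_lit 4) (nat_lit 505) (nat_lit 350) (nat_lit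 345)) (XT.nd (nat_lit 78) (nat_lit 0) (nat_lit 0) (XT.lf (nat_lit 0) (nat_lit 2031849573415) (nat_lit 76) (nat_lit 191415435928) (nat_lit 76) (nat_lit 191342970508) (nat_lit 1) (nat_lit 4) (nat_lit 2) (nat_lit 5) (nat_lit 2) (nat_lit 4) (nat_lit 506) (nat_lit 350) (nat_lit 344)) (XT.lf (nat_lit 0) (nat_lit 2196548624809) (nat_lit 76) (nat_lit 205612754758) (nat_lit 76) (nat_lit 205531142901) (nat_lit 1) (nat_lit 4) (nat_lit 2) (nat_lit 5) (nat_lit 2) (nat_lit 4) (nat_lit 507) (nat_lit 350) (nat_lit 343)))) (XT.nd (nat_lit 78) (nat_lit 0) (nat_lit 0) (XT.lf (nat_lit 0) (nat_lit 2374336240836) (nat_lit 76) (nat_lit 220990541860) (nat_lit 76) (nat_lit 220900461080) (nat_lit 1) (nat_lit 4) (nat_lit 2) (nat_lit 5) (nat_lit 2) (nat_lit 4) (nat_lit 508) (nat_lit 350) (nat_lit 342)) (XT.nd (nat_lit 78) (nat_lit 0) (nat_lit 0) (XT.lf (nat_lit 0) (nat_lit 2566265977738) (nat_lit 76) (nat_lit 237639924861)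 (nat_lit 76) (nat_lit 237542002486) (nat_lit 1) (nat_lit 4) (nat_lit 2) (nat_lit 5) (nat_lit 2) (nat_lit 4) (nat_lit 509) (nat_lit 350) (nat_lit 341)) (XT.lf (nat_lit 0) (nat_lit 2773475196921) (nat_lit 76) (nat_lit 255659566772) (nat_lit 76) (nat_lit 255554383660) (nat_lit 1) (nat_lit 4) (nat_lit 2) (nat_lit 5) (nat_lit 2) (nat_lit 4) (nat_lit 510) (nat_lit 350) (nat_lit 340)))))) (XT.nd (nat_lit 390) (nat_lit 0) (nat_lit 0) (XT.nd (nat_lit 156) (nat_lit 0) (nat_lit 0) (XT.nd (nat_lit 78) (nat_lit 0) (nat_lit 0) (XT.lf (nat_lit 0) (nat_lit 2997191804868) (nat_lit 76) (nat_lit 275156250656) (nat_lit 76) (nat_lit 275044344640) (nat_lit 1) (nat_lit 4) (nat_lit 2) (nat_lit 5) (nat_lit 2) (nat_lit 4) (nat_lit 511) (nat_lit 350) (nat_lit 339)) (XT.lf (nat_lit 0) (nat_lit 3238741529626) (nat_lit 76) (nat_lit 296245512417) (nat_lit 76) (nat_lit 296127381490) (nat_lit 1) (nat_lit 4) (nat_lit 2)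 (nat_lit 5) (nat_lit 2) (nat_lit 4) (nat_lit 512) (nat_lit 350) (nat_lit 338))) (XT.nd (nat_lit 78) (nat_lit 0) (nat_lit 0) (XT.lf (nat_lit 0) (nat_lit 3499555776971) (nat_lit 76) (nat_lit 319052325459) (nat_lit 76) (nat_lit 318928430725) (nat_lit 1) (nat_lit 4) (nat_lit 2) (nat_lit 5) (nat_lit 2) (nat_lit 4) (nat_lit 513) (nat_lit 350) (nat_lit 337)) (XT.nd (nat_lit 78) (nat_lit 0) (nat_lit 0) (XT.lf (nat_lit 0) (nat_lit 3781180112814) (nat_lit 76) (nat_lit 343711841266) (nat_lit 76) (nat_lit 343582609674) (nat_lit 1) (nat_lit 4) (nat_lit 2) (nat_lit 5) (nat_lit 2) (nat_lit 4) (nat_lit 514) (nat_lit 350) (nat_lit 336)) (XT.lf (nat_lit 0) (nat_lit 4085283422107) (nat_lit 76) (nat_lit 370370190301) (nat_lit 76) (nat_lit 370236017174) (nat_lit 1) (nat_lit 4) (nat_lit 2) (nat_lit 5) (nat_lit 2) (nat_lit 4) (nat_lit 515) (nat_lit 350) (nat_lit 335))))) (XT.nd (nat_lit 234) (nat_lit 0) (nat_lit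 0) (XT.nd (nat_lit 78) (nat_lit 0) (nat_lit 0) (XT.lf (nat_lit 0) (nat_lit 4413667798536) (nat_lit 76) (nat_lit 399185347968) (nat_lit 76) (nat_lit 399046599346) (nat_lit 1) (nat_lit 4) (nat_lit 2) (nat_lit 5) (nat_lit 2) (nat_lit 4) (nat_lit 516) (nat_lit 350) (nat_lit 334)) (XT.nd (nat_lit 78) (nat_lit 0) (nat_lit 0) (XT.lf (nat_lit 0) (nat_lit 4768279223591) (nat_lit 76) (nat_lit 430328070755) (nat_lit 76) (nat_lit 430185085563) (nat_lit 1) (nat_lit 4) (nat_lit 2) (nat_lit 5) (nat_lit 2) (nat_lit 4) (nat_lit 517) (nat_lit 350) (nat_lit 333)) (XT.lf (nat_lit 0) (nat_lit 5151219098308) (nat_lit 76) (nat_lit 463982908132) (nat_lit 76) (nat_lit 463836000189) (nat_lit 1) (nat_lit 4) (nat_lit 2) (nat_lit 5) (nat_lit 2) (nat_lit 4) (nat_lit 518) (nat_lit 350) (nat_lit 332)))) (XT.nd (nat_lit 78) (nat_lit 0) (nat_lit 0) (XT.lf (nat_lit 0) (nat_lit 5564756696020) (nat_lit 76) (nat_lit 500349296171)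 (nat_lit 76) (nat_lit 500198756052) (nat_lit 1) (nat_lit 4) (nat_lit 2) (nat_lit 5) (nat_lit 2) (nat_lit 4) (nat_lit 519) (nat_lit 350) (nat_lit 331)) (XT.nd (nat_lit 78) (nat_lit 0) (nat_lit 0) (XT.lf (nat_lit 0) (nat_lit 6011342609897) (nat_lit 76) (nat_lit 539642739394) (nat_lit 76) (nat_lit 539488836150) (nat_lit 1) (nat_lit 4) (nat_lit 2) (nat_lit 5) (nat_lit 2) (nat_lit 4) (nat_lit 520) (nat_lit 350) (nat_lit 330)) (XT.lf (nat_lit 0) (nat_lit 6493623274986) (nat_lit 76) (nat_lit 582096087835) (nat_lit 76) (nat_lit 581939070585) (nat_lit 1) (nat_lit 4) (nat_lit 2) (nat_lit 5) (nat_lit 2) (nat_lit 4) (nat_lit 521) (nat_lit 350) (nat_lit 329))))))) (XT.nd (nat_lit 60762) (nat_lit 0) (nat_lit 0) (XT.nd (nat_lit 390) (nat_lit 0) (nat_lit 0) (XT.nd (nat_lit 156) (nat_lit 0) (nat_lit 0) (XT.nd (nat_lit 78) (nat_lit 0) (nat_lit 0) (XT.lf (nat_lit 0) (nat_lit 7014456650783) (nat_lit 76) (nat_lit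 627960916892) (nat_lit 76) (nat_lit 627801016304) (nat_lit 1) (nat_lit 4) (nat_lit 2) (nat_lit 5) (nat_lit 2) (nat_lit 4) (nat_lit 522) (nat_lit 350) (nat_lit 328)) (XT.lf (nat_lit 0) (nat_lit 7576929157293) (nat_lit 76) (nat_lit 677509018145) (nat_lit 76) (nat_lit 677346447800) (nat_lit 1) (nat_lit 4) (nat_lit 2) (nat_lit 5) (nat_lit 2) (nat_lit 4) (nat_lit 523) (nat_lit 350) (nat_lit 327))) (XT.nd (nat_lit 78) (nat_lit 0) (nat_lit 0) (XT.lf (nat_lit 0) (nat_lit 8184373964925) (nat_lit 76) (nat_lit 731034009972) (nat_lit 76) (nat_lit 730868967629) (nat_lit 1) (nat_lit 4) (nat_lit 2) (nat_lit 5) (nat_lit 2) (nat_lit 4) (nat_lit 524) (nat_lit 350) (nat_lit 326)) (XT.nd (nat_lit 78) (nat_lit 0) (nat_lit 0) (XT.lf (nat_lit 0) (nat_lit 8840390746612) (nat_lit 76) (nat_lit 788853077509) (nat_lit 76) (nat_lit 788685746279) (nat_lit 1) (nat_lit 4) (nat_lit 2) (nat_lit 5) (nat_lit 2) (nat_lit 4)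 (nat_lit 525) (nat_lit 350) (nat_lit 325)) (XT.lf (nat_lit 0) (nat_lit 9548867009210) (nat_lit 76) (nat_lit 851308852268) (nat_lit 76) (nat_lit 851139401698) (nat_lit 1) (nat_lit 4) (nat_lit 2) (nat_lit 5) (nat_lit 2) (nat_lit 4) (nat_lit 526) (nat_lit 350) (nat_lit 324))))) (XT.nd (nat_lit 234) (nat_lit 0) (nat_lit 0) (XT.nd (nat_lit 78) (nat_lit 0) (nat_lit 0) (XT.lf (nat_lit 0) (nat_lit 10314001130571) (nat_lit 76) (nat_lit 918771442543) (nat_lit 76) (nat_lit 918600029621) (nat_lit 1) (nat_lit 4) (nat_lit 2) (nat_lit 5) (nat_lit 2) (nat_lit 4) (nat_lit 527) (nat_lit 350) (nat_lit 323)) (XT.nd (nat_lit 78) (nat_lit 0) (nat_lit 0) (XT.lf (nat_lit 0) (nat_lit 11140327238821) (nat_lit 76) (nat_lit 991640626648) (nat_lit 76) (nat_lit 991467396734) (nat_lit 1) (nat_lit 4) (nat_lit 2) (nat_lit 5) (nat_lit 2) (nat_lit 4) (nat_lit 528) (nat_lit 350) (nat_lit 322)) (XT.lf (nat_lit 0) (nat_lit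 12032742081268) (nat_lit 76) (nat_lit 1070348221969) (nat_lit 76) (nat_lit 1070173309655) (nat_lit 1) (nat_lit 4) (nat_lit 2) (nat_lit 5) (nat_lit 2) (nat_lit 4) (nat_lit 529) (nat_lit 350) (nat_lit 321)))) (XT.nd (nat_lit 59982) (nat_lit 0) (nat_lit 0) (XT.lf (nat_lit 0) (nat_lit 12996534042164) (nat_lit 76) (nat_lit 1155360643887) (nat_lit 76) (nat_lit 1155184173794) (nat_lit 1) (nat_lit 4) (nat_lit 2) (nat_lit 5) (nat_lit 2) (nat_lit 4) (nat_lit 530) (nat_lit 350) (nat_lit 320)) (XT.nd (nat_lit 78) (nat_lit 0) (nat_lit 0) (XT.lf (nat_lit 0) (nat_lit 541103123851) (nat_lit 76) (nat_lit 55734699247) (nat_lit 76) (nat_lit 55734699247) (nat_lit 1) (nat_lit 4) (nat_lit 2) (nat_lit 5) (nat_lit 2) (nat_lit 4) (nat_lit 498) (nat_lit 351) (nat_lit 351)) (XT.lf (nat_lit 0) (nat_lit 1171853422408) (nat_lit 76) (nat_lit 118799427258) (nat_lit 76) (nat_lit 118783751872) (nat_lit 1) (nat_lit 4) (nat_lit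 2) (nat_lit 5) (nat_lit 2) (nat_lit 4) (nat_lit 499) (nat_lit 351) (nat_lit 350)))))) (XT.nd (nat_lit 468) (nat_lit 0) (nat_lit 0) (XT.nd (nat_lit 234) (nat_lit 0) (nat_lit 0) (XT.nd (nat_lit 78) (nat_lit 0) (nat_lit 0) (XT.lf (nat_lit 0) (nat_lit 1268522652296) (nat_lit 76) (nat_lit 126792436731) (nat_lit 76) (nat_lit 126762247100) (nat_lit 1) (nat_lit 4) (nat_lit 2) (nat_lit 5) (nat_lit 2) (nat_lit 4) (nat_lit 500) (nat_lit 351) (nat_lit 349)) (XT.nd (nat_lit 78) (nat_lit 0) (nat_lit 0) (XT.lf (nat_lit 0) (nat_lit 1372786792062) (nat_lit 76) (nat_lit 135495792896) (nat_lit 76) (nat_lit 135452164149) (nat_lit 1) (nat_lit 4) (nat_lit 2) (nat_lit 5) (nat_lit 2) (nat_lit 4) (nat_lit 501) (nat_lit 351) (nat_lit 348)) (XT.lf (nat_lit 0) (nat_lit 1485263703275) (nat_lit 76) (nat_lit 144961071197) (nat_lit 76) (nat_lit 144904998823) (nat_lit 1) (nat_lit 4) (nat_lit 2) (nat_lit 5) (nat_lit 2)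 (nat_lit 4) (nat_lit 502) (nat_lit 351) (nat_lit 347)))) (XT.nd (nat_lit 78) (nat_lit 0) (nat_lit 0) (XT.lf (nat_lit 0) (nat_lit 1606619915778) (nat_lit 76) (nat_lit 155244362170) (nat_lit 76) (nat_lit 155176767920) (nat_lit 1) (nat_lit 4) (nat_lit 2) (nat_lit 5) (nat_lit 2) (nat_lit 4) (nat_lit 503) (nat_lit 351) (nat_lit 346)) (XT.nd (nat_lit 78) (nat_lit 0) (nat_lit 0) (XT.lf (nat_lit 0) (nat_lit 1737574577498) (nat_lit 76) (nat_lit 166406603838) (nat_lit 76) (nat_lit 166328341184) (nat_lit 1) (nat_lit 4) (nat_lit 2) (nat_lit 5) (nat_lit 2) (nat_lit 4) (nat_lit 504) (nat_lit 351) (nat_lit 345)) (XT.lf (nat_lit 0) (nat_lit 1878903716060) (nat_lit 76) (nat_lit 178513942817) (nat_lit 76) (nat_lit 178425802011) (nat_lit 1) (nat_lit 4) (nat_lit 2) (nat_lit 5) (nat_lit 2) (nat_lit 4) (nat_lit 505) (nat_lit 351) (nat_lit 344))))) (XT.nd (nat_lit 234) (nat_lit 0) (nat_lit 0) (XT.nd (nat_lit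 78) (nat_lit 0) (nat_lit 0) (XT.lf (nat_lit 0) (nat_lit 2031444837471) (nat_lit 76) (nat_lit 191638126301) (nat_lit 76) (nat_lit 191540839059) (nat_lit 1) (nat_lit 4) (nat_lit 2) (nat_lit 5) (nat_lit 2) (nat_lit 4) (nat_lit 506) (nat_lit 351) (nat_lit 343)) (XT.nd (nat_lit 78) (nat_lit 0) (nat_lit 0) (XT.lf (nat_lit 0) (nat_lit 2196101889115) (nat_lit 76) (nat_lit 205856927230) (nat_lit 76) (nat_lit 205751171065) (nat_lit 1) (nat_lit 4) (nat_lit 2) (nat_lit 5) (nat_lit 2) (nat_lit 4) (nat_lit 507) (nat_lit 351) (nat_lit 342)) (XT.lf (nat_lit 0) (nat_lit 2373850616485) (nat_lit 76) (nat_lit 221254605164) (nat_lit 76) (nat_lit 221141007404) (nat_lit 1) (nat_lit 4) (nat_lit 2) (nat_lit 5) (nat_lit 2) (nat_lit 4) (nat_lit 508) (nat_lit 351) (nat_lit 341)))) (XT.nd (nat_lit 78) (nat_lit 0) (nat_lit 0) (XT.lf (nat_lit 0) (nat_lit 2565744345372) (nat_lit 76) (nat_lit 237922405603) (nat_lit 76)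 (nat_lit 237801547106) (nat_lit 1) (nat_lit 4) (nat_lit 2) (nat_lit 5) (nat_lit 2) (nat_lit 4) (nat_lit 509) (nat_lit 351) (nat_lit 340)) (XT.nd (nat_lit 78) (nat_lit 0) (nat_lit 0) (XT.lf (nat_lit 0) (nat_lit 2772920223800) (nat_lit 76) (nat_lit 255959100696) (nat_lit 76) (nat_lit 255831519295) (nat_lit 1) (nat_lit 4) (nat_lit 2) (nat_lit 5) (nat_lit 2) (nat_lit 4) (nat_lit 510) (nat_lit 351) (nat_lit 339)) (XT.lf (nat_lit 0) (nat_lit 2996605960677) (nat_lit 76) (nat_lit 275471574564) (nat_lit 76) (nat_lit 275337768252) (nat_lit 1) (nat_lit 4) (nat_lit 2) (nat_lit 5) (nat_lit 2) (nat_lit 4) (nat_lit 511) (nat_lit 351) (nat_lit 338))))))))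
noncomputable def xc6 : XT := (XT.nd (nat_lit 61464) (nat_lit 0) (nat_lit 0) (XT.nd (nat_lit 858) (nat_lit 0) (nat_lit 0) (XT.nd (nat_lit 390) (nat_lit 0) (nat_lit 0) (XT.nd (nat_lit 156) (nat_lit 0) (nat_lit 0) (XT.nd (nat_lit 78) (nat_lit 0) (nat_lit 0) (XT.lf (nat_lit 0) (nat_lit 3238127101111) (nat_lit 76) (nat_lit 296575456681) (nat_lit 76) (nat_lit 296435886562) (nat_lit 1) (nat_lit 4) (nat_lit 2) (nat_lit 5) (nat_lit 2) (nat_lit 4) (nat_lit 512) (nat_lit 351) (nat_lit 337)) (XT.lf (nat_lit 0) (nat_lit 3498914881490) (nat_lit 76) (nat_lit 319395807089) (nat_lit 76) (nat_lit 319250900112) (nat_lit 1) (nat_lit 4) (nat_lit 2) (nat_lit 5) (nat_lit 2) (nat_lit 4) (nat_lit 513) (nat_lit 351) (nat_lit 336))) (XT.nd (nat_lit 78) (nat_lit 0) (nat_lit 0) (XT.lf (nat_lit 0) (nat_lit 3780514710883) (nat_lit 76) (nat_lit 344067857494) (nat_lit 76) (nat_lit 343918008981) (nat_lit 1) (nat_lit 4)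 (nat_lit 2) (nat_lit 5) (nat_lit 2) (nat_lit 4) (nat_lit 514) (nat_lit 351) (nat_lit 335)) (XT.nd (nat_lit 78) (nat_lit 0) (nat_lit 0) (XT.lf (nat_lit 0) (nat_lit 4084595329018) (nat_lit 76) (nat_lit 370737812639) (nat_lit 76) (nat_lit 370583388631) (nat_lit 1) (nat_lit 4) (nat_lit 2) (nat_lit 5) (nat_lit 2) (nat_lit 4) (nat_lit 515) (nat_lit 351) (nat_lit 334)) (XT.lf (nat_lit 0) (nat_lit 4412958695116) (nat_lit 76) (nat_lit 399563716704) (nat_lit 76) (nat_lit 399405056126) (nat_lit 1) (nat_lit 4) (nat_lit 2) (nat_lit 5) (nat_lit 2) (nat_lit 4) (nat_lit 516) (nat_lit 351) (nat_lit 333))))) (XT.nd (nat_lit 234) (nat_lit 0) (nat_lit 0) (XT.nd (nat_lit 78) (nat_lit 0) (nat_lit 0) (XT.lf (nat_lit 0) (nat_lit 4767550666160) (nat_lit 76) (nat_lit 430716389859) (nat_lit 76) (nat_lit 430553806532) (nat_lit 1) (nat_lit 4) (nat_lit 2) (nat_lit 5) (nat_lit 2) (nat_lit 4) (nat_lit 517) (nat_lit 351)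 (nat_lit 332)) (XT.nd (nat_lit 78) (nat_lit 0) (nat_lit 0) (XT.lf (nat_lit 0) (nat_lit 5150472527905) (nat_lit 76) (nat_lit 464380440540) (nat_lit 76) (nat_lit 464214225036) (nat_lit 1) (nat_lit 4) (nat_lit 2) (nat_lit 5) (nat_lit 2) (nat_lit 4) (nat_lit 518) (nat_lit 351) (nat_lit 331)) (XT.lf (nat_lit 0) (nat_lit 5563993446938) (nat_lit 76) (nat_lit 500755359416) (nat_lit 76) (nat_lit 500585780786) (nat_lit 1) (nat_lit 4) (nat_lit 2) (nat_lit 5) (nat_lit 2) (nat_lit 4) (nat_lit 519) (nat_lit 351) (nat_lit 330)))) (XT.nd (nat_lit 78) (nat_lit 0) (nat_lit 0) (XT.lf (nat_lit 0) (nat_lit 6010563917596) (nat_lit 76) (nat_lit 540056701562) (nat_lit 76) (nat_lit 539884008927) (nat_lit 1) (nat_lit 4) (nat_lit 2) (nat_lit 5) (nat_lit 2) (nat_lit 4) (nat_lit 520) (nat_lit 351) (nat_lit 329)) (XT.nd (nat_lit 78) (nat_lit 0) (nat_lit 0) (XT.lf (nat_lit 0) (nat_lit 6492830283406) (nat_lit 76) (nat_lit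 582517363821) (nat_lit 76) (nat_lit 582341787848) (nat_lit 1) (nat_lit 4) (nat_lit 2) (nat_lit 5) (nat_lit 2) (nat_lit 4) (nat_lit 521) (nat_lit 351) (nat_lit 328)) (XT.lf (nat_lit 0) (nat_lit 7013650419131) (nat_lit 76) (nat_lit 628388964932) (nat_lit 76) (nat_lit 628210719201) (nat_lit 1) (nat_lit 4) (nat_lit 2) (nat_lit 5) (nat_lit 2) (nat_lit 4) (nat_lit 522) (nat_lit 351) (nat_lit 327)))))) (XT.nd (nat_lit 390) (nat_lit 0) (nat_lit 0) (XT.nd (nat_lit 156) (nat_lit 0) (nat_lit 0) (XT.nd (nat_lit 78) (nat_lit 0) (nat_lit 0) (XT.lf (nat_lit 0) (nat_lit 7576110666314) (nat_lit 76) (nat_lit 677943336605) (nat_lit 76) (nat_lit 677762618876) (nat_lit 1) (nat_lit 4) (nat_lit 2) (nat_lit 5) (nat_lit 2) (nat_lit 4) (nat_lit 523) (nat_lit 351) (nat_lit 326)) (XT.lf (nat_lit 0) (nat_lit 8183544122717) (nat_lit 76) (nat_lit 731474134376) (nat_lit 76) (nat_lit 731291127760) (nat_lit 1) (nat_lit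 4) (nat_lit 2) (nat_lit 5) (nat_lit 2) (nat_lit 4) (nat_lit 524) (nat_lit 351) (nat_lit 325))) (XT.nd (nat_lit 78) (nat_lit 0) (nat_lit 0) (XT.lf (nat_lit 0) (nat_lit 8839550394008) (nat_lit 76) (nat_lit 789298577787) (nat_lit 76) (nat_lit 789113451832) (nat_lit 1) (nat_lit 4) (nat_lit 2) (nat_lit 5) (nat_lit 2) (nat_lit 4) (nat_lit 525) (nat_lit 351) (nat_lit 324)) (XT.nd (nat_lit 78) (nat_lit 0) (nat_lit 0) (XT.lf (nat_lit 0) (nat_lit 9548016924758) (nat_lit 76) (nat_lit 851759330207) (nat_lit 76) (nat_lit 851572241900) (nat_lit 1) (nat_lit 4) (nat_lit 2) (nat_lit 5) (nat_lit 2) (nat_lit 4) (nat_lit 526) (nat_lit 351) (nat_lit 323)) (XT.lf (nat_lit 0) (nat_lit 10313142035147) (nat_lit 76) (nat_lit 919226529429) (nat_lit 76) (nat_lit 919037624129) (nat_lit 1) (nat_lit 4) (nat_lit 2) (nat_lit 5) (nat_lit 2) (nat_lit 4) (nat_lit 527) (nat_lit 351) (nat_lit 322))))) (XT.nd (nat_lit 59982)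 (nat_lit 0) (nat_lit 0) (XT.nd (nat_lit 78) (nat_lit 0) (nat_lit 0) (XT.lf (nat_lit 0) (nat_lit 11139459799905) (nat_lit 76) (nat_lit 992099981076) (nat_lit 76) (nat_lit 991909393376) (nat_lit 1) (nat_lit 4) (nat_lit 2) (nat_lit 5) (nat_lit 2) (nat_lit 4) (nat_lit 528) (nat_lit 351) (nat_lit 321)) (XT.nd (nat_lit 78) (nat_lit 0) (nat_lit 0) (XT.lf (nat_lit 0) (nat_lit 12031866916898) (nat_lit 76) (nat_lit 1070811527825) (nat_lit 76) (nat_lit 1070619382347) (nat_lit 1) (nat_lit 4) (nat_lit 2) (nat_lit 5) (nat_lit 2) (nat_lit 4) (nat_lit 529) (nat_lit 351) (nat_lit 320)) (XT.lf (nat_lit 0) (nat_lit 12995651724595) (nat_lit 76) (nat_lit 1155827608472) (nat_lit 76) (nat_lit 1155634020608) (nat_lit 1) (nat_lit 4) (nat_lit 2) (nat_lit 5) (nat_lit 2) (nat_lit 4) (nat_lit 530) (nat_lit 351) (nat_lit 319)))) (XT.nd (nat_lit 78) (nat_lit 0) (nat_lit 0) (XT.lf (nat_lit 0) (nat_lit 460987757768) (nat_lit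 76) (nat_lit 49301096116) (nat_lit 76) (nat_lit 49301096116) (nat_lit 1) (nat_lit 4) (nat_lit 2) (nat_lit 5) (nat_lit 2) (nat_lit 4) (nat_lit 496) (nat_lit 352) (nat_lit 352)) (XT.nd (nat_lit 78) (nat_lit 0) (nat_lit 0) (XT.lf (nat_lit 0) (nat_lit 999049885661) (nat_lit 76) (nat_lit 104775842647) (nat_lit 76) (nat_lit 104758913231) (nat_lit 1) (nat_lit 4) (nat_lit 2) (nat_lit 5) (nat_lit 2) (nat_lit 4) (nat_lit 497) (nat_lit 352) (nat_lit 351)) (XT.lf (nat_lit 0) (nat_lit 1082128509097) (nat_lit 76) (nat_lit 111526089776) (nat_lit 76) (nat_lit 111493484974) (nat_lit 1) (nat_lit 4) (nat_lit 2) (nat_lit 5) (nat_lit 2) (nat_lit 4) (nat_lit 498) (nat_lit 352) (nat_lit 350))))))) (XT.nd (nat_lit 858) (nat_lit 0) (nat_lit 0) (XT.nd (nat_lit 390) (nat_lit 0) (nat_lit 0) (XT.nd (nat_lit 156) (nat_lit 0) (nat_lit 0) (XT.nd (nat_lit 78) (nat_lit 0) (nat_lit 0) (XT.lf (nat_lit 0) (nat_lit 1171703703614)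 (nat_lit 76) (nat_lit 118892935082) (nat_lit 76) (nat_lit 118845816035) (nat_lit 1) (nat_lit 4) (nat_lit 2) (nat_lit 5) (nat_lit 2) (nat_lit 4) (nat_lit 499) (nat_lit 352) (nat_lit 349)) (XT.lf (nat_lit 0) (nat_lit 1268306285178) (nat_lit 76) (nat_lit 126920033947) (nat_lit 76) (nat_lit 126859475783) (nat_lit 1) (nat_lit 4) (nat_lit 2) (nat_lit 5) (nat_lit 2) (nat_lit 4) (nat_lit 500) (nat_lit 352) (nat_lit 348))) (XT.nd (nat_lit 78) (nat_lit 0) (nat_lit 0) (XT.lf (nat_lit 0) (nat_lit 1372508713533) (nat_lit 76) (nat_lit 135654954363) (nat_lit 76) (nat_lit 135581952573) (nat_lit 1) (nat_lit 4) (nat_lit 2) (nat_lit 5) (nat_lit 2) (nat_lit 4) (nat_lit 501) (nat_lit 352) (nat_lit 347)) (XT.nd (nat_lit 78) (nat_lit 0) (nat_lit 0) (XT.lf (nat_lit 0) (nat_lit 1484928484550) (nat_lit 76) (nat_lit 145149458822) (nat_lit 76) (nat_lit 145064935155) (nat_lit 1) (nat_lit 4) (nat_lit 2) (nat_lit 5)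 (nat_lit 2) (nat_lit 4) (nat_lit 502) (nat_lit 352) (nat_lit 346)) (XT.lf (nat_lit 0) (nat_lit 1606231789466) (nat_lit 76) (nat_lit 155459811053) (nat_lit 76) (nat_lit 155364618983) (nat_lit 1) (nat_lit 4) (nat_lit 2) (nat_lit 5) (nat_lit 2) (nat_lit 4) (nat_lit 503) (nat_lit 352) (nat_lit 345))))) (XT.nd (nat_lit 234) (nat_lit 0) (nat_lit 0) (XT.nd (nat_lit 78) (nat_lit 0) (nat_lit 0) (XT.lf (nat_lit 0) (nat_lit 1737137462678) (nat_lit 76) (nat_lit 166647109441) (nat_lit 76) (nat_lit 166542039219) (nat_lit 1) (nat_lit 4) (nat_lit 2) (nat_lit 5) (nat_lit 2) (nat_lit 4) (nat_lit 504) (nat_lit 352) (nat_lit 344)) (XT.nd (nat_lit 78) (nat_lit 0) (nat_lit 0) (XT.lf (nat_lit 0) (nat_lit 1878421241511) (nat_lit 76) (nat_lit 178777649087) (nat_lit 76) (nat_lit 178663432428) (nat_lit 1) (nat_lit 4) (nat_lit 2) (nat_lit 5) (nat_lit 2) (nat_lit 4) (nat_lit 505) (nat_lit 352) (nat_lit 343)) (XT.lf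 (nat_lit 0) (nat_lit 2030920363172) (nat_lit 76) (nat_lit 191923314670) (nat_lit 76) (nat_lit 191800629088) (nat_lit 1) (nat_lit 4) (nat_lit 2) (nat_lit 5) (nat_lit 2) (nat_lit 4) (nat_lit 506) (nat_lit 352) (nat_lit 342)))) (XT.nd (nat_lit 78) (nat_lit 0) (nat_lit 0) (XT.lf (nat_lit 0) (nat_lit 2195538526160) (nat_lit 76) (nat_lit 206162006431) (nat_lit 76) (nat_lit 206031479254) (nat_lit 1) (nat_lit 4) (nat_lit 2) (nat_lit 5) (nat_lit 2) (nat_lit 4) (nat_lit 507) (nat_lit 352) (nat_lit 341)) (XT.nd (nat_lit 78) (nat_lit 0) (nat_lit 0) (XT.lf (nat_lit 0) (nat_lit 2373251245514) (nat_lit 76) (nat_lit 221578101802) (nat_lit 76) (nat_lit 221440313889) (nat_lit 1) (nat_lit 4) (nat_lit 2) (nat_lit 5) (nat_lit 2) (nat_lit 4) (nat_lit 508) (nat_lit 352) (nat_lit 340)) (XT.lf (nat_lit 0) (nat_lit 2565111633646) (nat_lit 76) (nat_lit 238262955424) (nat_lit 76) (nat_lit 238118444606) (nat_lit 1)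 (nat_lit 4) (nat_lit 2) (nat_lit 5) (nat_lit 2) (nat_lit 4) (nat_lit 509) (nat_lit 352) (nat_lit 339)))))) (XT.nd (nat_lit 468) (nat_lit 0) (nat_lit 0) (XT.nd (nat_lit 234) (nat_lit 0) (nat_lit 0) (XT.nd (nat_lit 78) (nat_lit 0) (nat_lit 0) (XT.lf (nat_lit 0) (nat_lit 2772256641004) (nat_lit 76) (nat_lit 256315440501) (nat_lit 76) (nat_lit 256164704773) (nat_lit 1) (nat_lit 4) (nat_lit 2) (nat_lit 5) (nat_lit 2) (nat_lit 4) (nat_lit 510) (nat_lit 352) (nat_lit 338)) (XT.nd (nat_lit 78) (nat_lit 0) (nat_lit 0) (XT.lf (nat_lit 0) (nat_lit 2995913793558) (nat_lit 76) (nat_lit 275842534725) (nat_lit 76) (nat_lit 275686035189) (nat_lit 1) (nat_lit 4) (nat_lit 2) (nat_lit 5) (nat_lit 2) (nat_lit 4) (nat_lit 511) (nat_lit 352) (nat_lit 337)) (XT.lf (nat_lit 0) (nat_lit 3237408467026) (nat_lit 76) (nat_lit 296959954207) (nat_lit 76) (nat_lit 296798117814) (nat_lit 1) (nat_lit 4) (nat_lit 2) (nat_lit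 5) (nat_lit 2) (nat_lit 4) (nat_lit 512) (nat_lit 352) (nat_lit 336)))) (XT.nd (nat_lit 78) (nat_lit 0) (nat_lit 0) (XT.lf (nat_lit 0) (nat_lit 3498171740954) (nat_lit 76) (nat_lit 319792839214) (nat_lit 76) (nat_lit 319626061285) (nat_lit 1) (nat_lit 4) (nat_lit 2) (nat_lit 5) (nat_lit 2) (nat_lit 4) (nat_lit 513) (nat_lit 352) (nat_lit 335)) (XT.nd (nat_lit 78) (nat_lit 0) (nat_lit 0) (XT.lf (nat_lit 0) (nat_lit 3779748879189) (nat_lit 76) (nat_lit 344476495728) (nat_lit 76) (nat_lit 344305142304) (nat_lit 1) (nat_lit 4) (nat_lit 2) (nat_lit 5) (nat_lit 2) (nat_lit 4) (nat_lit 514) (nat_lit 352) (nat_lit 334)) (XT.lf (nat_lit 0) (nat_lit 4083808486994) (nat_lit 76) (nat_lit 371157197272) (nat_lit 76) (nat_lit 370981607277) (nat_lit 1) (nat_lit 4) (nat_lit 2) (nat_lit 5) (nat_lit 2) (nat_lit 4) (nat_lit 515) (nat_lit 352) (nat_lit 333))))) (XT.nd (nat_lit 234) (nat_lit 0) (nat_lit 0) (XT.nd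 (nat_lit 78) (nat_lit 0) (nat_lit 0) (XT.lf (nat_lit 0) (nat_lit 4412152399081) (nat_lit 76) (nat_lit 399993051704) (nat_lit 76) (nat_lit 399813538960) (nat_lit 1) (nat_lit 4) (nat_lit 2) (nat_lit 5) (nat_lit 2) (nat_lit 4) (nat_lit 516) (nat_lit 352) (nat_lit 332)) (XT.nd (nat_lit 78) (nat_lit 0) (nat_lit 0) (XT.lf (nat_lit 0) (nat_lit 4766726357153) (nat_lit 76) (nat_lit 431154938164) (nat_lit 76) (nat_lit 430971793244) (nat_lit 1) (nat_lit 4) (nat_lit 2) (nat_lit 5) (nat_lit 2) (nat_lit 4) (nat_lit 517) (nat_lit 352) (nat_lit 331)) (XT.lf (nat_lit 0) (nat_lit 5149631540219) (nat_lit 76) (nat_lit 464827519682) (nat_lit 76) (nat_lit 464641011636) (nat_lit 1) (nat_lit 4) (nat_lit 2) (nat_lit 5) (nat_lit 2) (nat_lit 4) (nat_lit 518) (nat_lit 352) (nat_lit 330)))) (XT.nd (nat_lit 78) (nat_lit 0) (nat_lit 0) (XT.lf (nat_lit 0) (nat_lit 5563137016032) (nat_lit 76) (nat_lit 501210337481) (nat_lit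 76) (nat_lit 501020715429) (nat_lit 1) (nat_lit 4) (nat_lit 2) (nat_lit 5) (nat_lit 2) (nat_lit 4) (nat_lit 519) (nat_lit 352) (nat_lit 329)) (XT.nd (nat_lit 78) (nat_lit 0) (nat_lit 0) (XT.lf (nat_lit 0) (nat_lit 6009693187410) (nat_lit 76) (nat_lit 540518993445) (nat_lit 76) (nat_lit 540326488055) (nat_lit 1) (nat_lit 4) (nat_lit 2) (nat_lit 5) (nat_lit 2) (nat_lit 4) (nat_lit 520) (nat_lit 352) (nat_lit 328)) (XT.lf (nat_lit 0) (nat_lit 6491946313148) (nat_lit 76) (nat_lit 582986427757) (nat_lit 76) (nat_lit 582791252610) (nat_lit 1) (nat_lit 4) (nat_lit 2) (nat_lit 5) (nat_lit 2) (nat_lit 4) (nat_lit 521) (nat_lit 352) (nat_lit 327))))))))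
noncomputable def xc7 : XT := (XT.nd (nat_lit 61308) (nat_lit 0) (nat_lit 0) (XT.nd (nat_lit 60450) (nat_lit 0) (nat_lit 0) (XT.nd (nat_lit 390) (nat_lit 0) (nat_lit 0) (XT.nd (nat_lit 156) (nat_lit 0) (nat_lit 0) (XT.nd (nat_lit 78) (nat_lit 0) (nat_lit 0) (XT.lf (nat_lit 0) (nat_lit 7012754189546) (nat_lit 76) (nat_lit 628864299288) (nat_lit 76) (nat_lit 628666652142) (nat_lit 1) (nat_lit 4) (nat_lit 2) (nat_lit 5) (nat_lit 2) (nat_lit 4) (nat_lit 522) (nat_lit 352) (nat_lit 326)) (XT.lf (nat_lit 0) (nat_lit 7575203085502) (nat_lit 76) (nat_lit 678424476905) (nat_lit 76) (nat_lit 678224540873) (nat_lit 1) (nat_lit 4) (nat_lit 2) (nat_lit 5) (nat_lit 2) (nat_lit 4) (nat_lit 523) (nat_lit 352) (nat_lit 325))) (XT.nd (nat_lit 78) (nat_lit 0) (nat_lit 0) (XT.lf (nat_lit 0) (nat_lit 8182626031509) (nat_lit 76) (nat_lit 731960650550) (nat_lit 76) (nat_lit 731758595179) (nat_lit 1) (nat_lit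 4) (nat_lit 2) (nat_lit 5) (nat_lit 2) (nat_lit 4) (nat_lit 524) (nat_lit 352) (nat_lit 324)) (XT.nd (nat_lit 78) (nat_lit 0) (nat_lit 0) (XT.lf (nat_lit 0) (nat_lit 8838622570951) (nat_lit 76) (nat_lit 789790071623) (nat_lit 76) (nat_lit 789586053900) (nat_lit 1) (nat_lit 4) (nat_lit 2) (nat_lit 5) (nat_lit 2) (nat_lit 4) (nat_lit 525) (nat_lit 352) (nat_lit 323)) (XT.lf (nat_lit 0) (nat_lit 9547080090729) (nat_lit 76) (nat_lit 852255432989) (nat_lit 76) (nat_lit 852049598274) (nat_lit 1) (nat_lit 4) (nat_lit 2) (nat_lit 5) (nat_lit 2) (nat_lit 4) (nat_lit 526) (nat_lit 352) (nat_lit 322))))) (XT.nd (nat_lit 234) (nat_lit 0) (nat_lit 0) (XT.nd (nat_lit 78) (nat_lit 0) (nat_lit 0) (XT.lf (nat_lit 0) (nat_lit 10312196857627) (nat_lit 76) (nat_lit 919726899753) (nat_lit 76) (nat_lit 919519382637) (nat_lit 1) (nat_lit 4) (nat_lit 2) (nat_lit 5) (nat_lit 2) (nat_lit 4) (nat_lit 527) (nat_lit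 352) (nat_lit 321)) (XT.nd (nat_lit 78) (nat_lit 0) (nat_lit 0) (XT.lf (nat_lit 0) (nat_lit 11138506896930) (nat_lit 76) (nat_lit 992604302828) (nat_lit 76) (nat_lit 992395227934) (nat_lit 1) (nat_lit 4) (nat_lit 2) (nat_lit 5) (nat_lit 2) (nat_lit 4) (nat_lit 528) (nat_lit 352) (nat_lit 320)) (XT.lf (nat_lit 0) (nat_lit 12030906860723) (nat_lit 76) (nat_lit 1071319508307) (nat_lit 76) (nat_lit 1071108991026) (nat_lit 1) (nat_lit 4) (nat_lit 2) (nat_lit 5) (nat_lit 2) (nat_lit 4) (nat_lit 529) (nat_lit 352) (nat_lit 319)))) (XT.nd (nat_lit 59670) (nat_lit 0) (nat_lit 0) (XT.lf (nat_lit 0) (nat_lit 12994685045088) (nat_lit 76) (nat_lit 1156338976667) (nat_lit 76) (nat_lit 1156127123843) (nat_lit 1) (nat_lit 4) (nat_lit 2) (nat_lit 5) (nat_lit 2) (nat_lit 4) (nat_lit 530) (nat_lit 352) (nat_lit 318)) (XT.nd (nat_lit 78) (nat_lit 0) (nat_lit 0) (XT.lf (nat_lit 0) (nat_lit 392068067835) (nat_lit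 76) (nat_lit 43906724384) (nat_lit 76) (nat_lit 43906724384) (nat_lit 1) (nat_lit 4) (nat_lit 2) (nat_lit 5) (nat_lit 2) (nat_lit 4) (nat_lit 494) (nat_lit 353) (nat_lit 353)) (XT.lf (nat_lit 0) (nat_lit 850448661717) (nat_lit 76) (nat_lit 92986837708) (nat_lit 76) (nat_lit 92968553938) (nat_lit 1) (nat_lit 4) (nat_lit 2) (nat_lit 5) (nat_lit 2) (nat_lit 4) (nat_lit 495) (nat_lit 353) (nat_lit 352)))))) (XT.nd (nat_lit 390) (nat_lit 0) (nat_lit 0) (XT.nd (nat_lit 156) (nat_lit 0) (nat_lit 0) (XT.nd (nat_lit 78) (nat_lit 0) (nat_lit 0) (XT.lf (nat_lit 0) (nat_lit 921891557844) (nat_lit 76) (nat_lit 98663418818) (nat_lit 76) (nat_lit 98628205632) (nat_lit 1) (nat_lit 4) (nat_lit 2) (nat_lit 5) (nat_lit 2) (nat_lit 4) (nat_lit 496) (nat_lit 353) (nat_lit 351)) (XT.lf (nat_lit 0) (nat_lit 998888189363) (nat_lit 76) (nat_lit 104876831098) (nat_lit 76) (nat_lit 104825942527) (nat_lit 1) (nat_lit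 4) (nat_lit 2) (nat_lit 5) (nat_lit 2) (nat_lit 4) (nat_lit 497) (nat_lit 353) (nat_lit 350))) (XT.nd (nat_lit 78) (nat_lit 0) (nat_lit 0) (XT.lf (nat_lit 0) (nat_lit 1081894832609) (nat_lit 76) (nat_lit 111663894768) (nat_lit 76) (nat_lit 111598491952) (nat_lit 1) (nat_lit 4) (nat_lit 2) (nat_lit 5) (nat_lit 2) (nat_lit 4) (nat_lit 498) (nat_lit 353) (nat_lit 349)) (XT.nd (nat_lit 78) (nat_lit 0) (nat_lit 0) (XT.lf (nat_lit 0) (nat_lit 1171403378802) (nat_lit 76) (nat_lit 119064829466) (nat_lit 76) (nat_lit 118985987533) (nat_lit 1) (nat_lit 4) (nat_lit 2) (nat_lit 5) (nat_lit 2) (nat_lit 4) (nat_lit 499) (nat_lit 353) (nat_lit 348)) (XT.lf (nat_lit 0) (nat_lit 1267944248956) (nat_lit 76) (nat_lit 127123492582) (nat_lit 76) (nat_lit 127032207022) (nat_lit 1) (nat_lit 4) (nat_lit 2) (nat_lit 5) (nat_lit 2) (nat_lit 4) (nat_lit 500) (nat_lit 353) (nat_lit 347))))) (XT.nd (nat_lit 234) (nat_lit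 0) (nat_lit 0) (XT.nd (nat_lit 78) (nat_lit 0) (nat_lit 0) (XT.lf (nat_lit 0) (nat_lit 1372089537116) (nat_lit 76) (nat_lit 135887639156) (nat_lit 76) (nat_lit 135784831720) (nat_lit 1) (nat_lit 4) (nat_lit 2) (nat_lit 5) (nat_lit 2) (nat_lit 4) (nat_lit 501) (nat_lit 353) (nat_lit 346)) (XT.nd (nat_lit 78) (nat_lit 0) (nat_lit 0) (XT.lf (nat_lit 0) (nat_lit 1484456400545) (nat_lit 76) (nat_lit 145409204873) (nat_lit 76) (nat_lit 145295729033) (nat_lit 1) (nat_lit 4) (nat_lit 2) (nat_lit 5) (nat_lit 2) (nat_lit 4) (nat_lit 502) (nat_lit 353) (nat_lit 345)) (XT.lf (nat_lit 0) (nat_lit 1605710716952) (nat_lit 76) (nat_lit 155744613824) (nat_lit 76) (nat_lit 155621259833) (nat_lit 1) (nat_lit 4) (nat_lit 2) (nat_lit 5) (nat_lit 2) (nat_lit 4) (nat_lit 503) (nat_lit 353) (nat_lit 344)))) (XT.nd (nat_lit 78) (nat_lit 0) (nat_lit 0) (XT.lf (nat_lit 0) (nat_lit 1736571030436) (nat_lit 76) (nat_lit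 166955112879) (nat_lit 76) (nat_lit 166822612451) (nat_lit 1) (nat_lit 4) (nat_lit 2) (nat_lit 5) (nat_lit 2) (nat_lit 4) (nat_lit 504) (nat_lit 353) (nat_lit 343)) (XT.nd (nat_lit 78) (nat_lit 0) (nat_lit 0) (XT.lf (nat_lit 0) (nat_lit 1877812809519) (nat_lit 76) (nat_lit 179107134624) (nat_lit 76) (nat_lit 178966165272) (nat_lit 1) (nat_lit 4) (nat_lit 2) (nat_lit 5) (nat_lit 2) (nat_lit 4) (nat_lit 505) (nat_lit 353) (nat_lit 342)) (XT.lf (nat_lit 0) (nat_lit 2030273042523) (nat_lit 76) (nat_lit 192272691039) (nat_lit 76) (nat_lit 192123880093) (nat_lit 1) (nat_lit 4) (nat_lit 2) (nat_lit 5) (nat_lit 2) (nat_lit 4) (nat_lit 506) (nat_lit 353) (nat_lit 341))))))) (XT.nd (nat_lit 858) (nat_lit 0) (nat_lit 0) (XT.nd (nat_lit 390) (nat_lit 0) (nat_lit 0) (XT.nd (nat_lit 156) (nat_lit 0) (nat_lit 0) (XT.nd (nat_lit 78) (nat_lit 0) (nat_lit 0) (XT.lf (nat_lit 0) (nat_lit 2194855197495) (nat_lit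 76) (nat_lit 206529800237) (nat_lit 76) (nat_lit 206373728554) (nat_lit 1) (nat_lit 4) (nat_lit 2) (nat_lit 5) (nat_lit 2) (nat_lit 4) (nat_lit 507) (nat_lit 353) (nat_lit 340)) (XT.lf (nat_lit 0) (nat_lit 2372534576095) (nat_lit 76) (nat_lit 221962948792) (nat_lit 76) (nat_lit 221800154205) (nat_lit 1) (nat_lit 4) (nat_lit 2) (nat_lit 5) (nat_lit 2) (nat_lit 4) (nat_lit 508) (nat_lit 353) (nat_lit 339))) (XT.nd (nat_lit 78) (nat_lit 0) (nat_lit 0) (XT.lf (nat_lit 0) (nat_lit 2564364093157) (nat_lit 76) (nat_lit 238663592397) (nat_lit 76) (nat_lit 238494572899) (nat_lit 1) (nat_lit 4) (nat_lit 2) (nat_lit 5) (nat_lit 2) (nat_lit 4) (nat_lit 509) (nat_lit 353) (nat_lit 338)) (XT.nd (nat_lit 78) (nat_lit 0) (nat_lit 0) (XT.lf (nat_lit 0) (nat_lit 2771480516192) (nat_lit 76) (nat_lit 256730697830) (nat_lit 76) (nat_lit 256555914525) (nat_lit 1) (nat_lit 4) (nat_lit 2) (nat_lit 5) (nat_lit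 2) (nat_lit 4) (nat_lit 510) (nat_lit 353) (nat_lit 337)) (XT.lf (nat_lit 0) (nat_lit 2995111201779) (nat_lit 76) (nat_lit 276271329419) (nat_lit 76) (nat_lit 276091209257) (nat_lit 1) (nat_lit 4) (nat_lit 2) (nat_lit 5) (nat_lit 2) (nat_lit 4) (nat_lit 511) (nat_lit 353) (nat_lit 336))))) (XT.nd (nat_lit 234) (nat_lit 0) (nat_lit 0) (XT.nd (nat_lit 78) (nat_lit 0) (nat_lit 0) (XT.lf (nat_lit 0) (nat_lit 3236581368797) (nat_lit 76) (nat_lit 297401283501) (nat_lit 76) (nat_lit 297216221803) (nat_lit 1) (nat_lit 4) (nat_lit 2) (nat_lit 5) (nat_lit 2) (nat_lit 4) (nat_lit 512) (nat_lit 353) (nat_lit 335)) (XT.nd (nat_lit 78) (nat_lit 0) (nat_lit 0) (XT.lf (nat_lit 0) (nat_lit 3497321951567) (nat_lit 76) (nat_lit 320245774617) (nat_lit 76) (nat_lit 320056137423) (nat_lit 1) (nat_lit 4) (nat_lit 2) (nat_lit 5) (nat_lit 2) (nat_lit 4) (nat_lit 513) (nat_lit 353) (nat_lit 334)) (XT.lf (nat_lit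 0) (nat_lit 3778878079471) (nat_lit 76) (nat_lit 344940177529) (nat_lit 76) (nat_lit 344746303765) (nat_lit 1) (nat_lit 4) (nat_lit 2) (nat_lit 5) (nat_lit 2) (nat_lit 4) (nat_lit 514) (nat_lit 353) (nat_lit 333)))) (XT.nd (nat_lit 78) (nat_lit 0) (nat_lit 0) (XT.lf (nat_lit 0) (nat_lit 4082918233265) (nat_lit 76) (nat_lit 371630829441) (nat_lit 76) (nat_lit 371433032927) (nat_lit 1) (nat_lit 4) (nat_lit 2) (nat_lit 5) (nat_lit 2) (nat_lit 4) (nat_lit 515) (nat_lit 353) (nat_lit 332)) (XT.nd (nat_lit 78) (nat_lit 0) (nat_lit 0) (XT.lf (nat_lit 0) (nat_lit 4411244132380) (nat_lit 76) (nat_lit 400475897177) (nat_lit 76) (nat_lit 400274468488) (nat_lit 1) (nat_lit 4) (nat_lit 2) (nat_lit 5) (nat_lit 2) (nat_lit 4) (nat_lit 516) (nat_lit 353) (nat_lit 331)) (XT.lf (nat_lit 0) (nat_lit 4765801411773) (nat_lit 76) (nat_lit 431646314474) (nat_lit 76) (nat_lit 431441522659) (nat_lit 1) (nat_lit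 4) (nat_lit 2) (nat_lit 5) (nat_lit 2) (nat_lit 4) (nat_lit 517) (nat_lit 353) (nat_lit 330)))))) (XT.nd (nat_lit 468) (nat_lit 0) (nat_lit 0) (XT.nd (nat_lit 234) (nat_lit 0) (nat_lit 0) (XT.nd (nat_lit 78) (nat_lit 0) (nat_lit 0) (XT.lf (nat_lit 0) (nat_lit 5148691151619) (nat_lit 76) (nat_lit 465326794915) (nat_lit 76) (nat_lit 465118889094) (nat_lit 1) (nat_lit 4) (nat_lit 2) (nat_lit 5) (nat_lit 2) (nat_lit 4) (nat_lit 518) (nat_lit 353) (nat_lit 329)) (XT.nd (nat_lit 78) (nat_lit 0) (nat_lit 0) (XT.lf (nat_lit 0) (nat_lit 5562182328153) (nat_lit 76) (nat_lit 501716926532) (nat_lit 76) (nat_lit 501506137373) (nat_lit 1) (nat_lit 4) (nat_lit 2) (nat_lit 5) (nat_lit 2) (nat_lit 4) (nat_lit 519) (nat_lit 353) (nat_lit 328)) (XT.lf (nat_lit 0) (nat_lit 6008725259460) (nat_lit 76) (nat_lit 541032354549) (nat_lit 76) (nat_lit 540818895632) (nat_lit 1) (nat_lit 4) (nat_lit 2) (nat_lit 5)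 (nat_lit 2) (nat_lit 4) (nat_lit 520) (nat_lit 353) (nat_lit 327)))) (XT.nd (nat_lit 78) (nat_lit 0) (nat_lit 0) (XT.lf (nat_lit 0) (nat_lit 6490966125871) (nat_lit 76) (nat_lit 583506059281) (nat_lit 76) (nat_lit 583290128367) (nat_lit 1) (nat_lit 4) (nat_lit 2) (nat_lit 5) (nat_lit 2) (nat_lit 4) (nat_lit 521) (nat_lit 353) (nat_lit 326)) (XT.nd (nat_lit 78) (nat_lit 0) (nat_lit 0) (XT.lf (nat_lit 0) (nat_lit 7011762651041) (nat_lit 76) (nat_lit 629389736756) (nat_lit 76) (nat_lit 629171516955) (nat_lit 1) (nat_lit 4) (nat_lit 2) (nat_lit 5) (nat_lit 2) (nat_lit 4) (nat_lit 522) (nat_lit 353) (nat_lit 325)) (XT.lf (nat_lit 0) (nat_lit 7574201036600) (nat_lit 76) (nat_lit 678955290248) (nat_lit 76) (nat_lit 678734951107) (nat_lit 1) (nat_lit 4) (nat_lit 2) (nat_lit 5) (nat_lit 2) (nat_lit 4) (nat_lit 523) (nat_lit 353) (nat_lit 324))))) (XT.nd (nat_lit 234) (nat_lit 0) (nat_lit 0) (XT.nd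 (nat_lit 78) (nat_lit 0) (nat_lit 0) (XT.lf (nat_lit 0) (nat_lit 8181614250758) (nat_lit 76) (nat_lit 732496441555) (nat_lit 76) (nat_lit 732274140062) (nat_lit 1) (nat_lit 4) (nat_lit 2) (nat_lit 5) (nat_lit 2) (nat_lit 4) (nat_lit 524) (nat_lit 353) (nat_lit 323)) (XT.nd (nat_lit 78) (nat_lit 0) (nat_lit 0) (XT.lf (nat_lit 0) (nat_lit 8837601779229) (nat_lit 76) (nat_lit 790330471574) (nat_lit 76) (nat_lit 790106353088) (nat_lit 1) (nat_lit 4) (nat_lit 2) (nat_lit 5) (nat_lit 2) (nat_lit 4) (nat_lit 525) (nat_lit 353) (nat_lit 322)) (XT.lf (nat_lit 0) (nat_lit 9546050955516) (nat_lit 76) (nat_lit 852800100482) (nat_lit 76) (nat_lit 852574299597) (nat_lit 1) (nat_lit 4) (nat_lit 2) (nat_lit 5) (nat_lit 2) (nat_lit 4) (nat_lit 526) (nat_lit 353) (nat_lit 321)))) (XT.nd (nat_lit 78) (nat_lit 0) (nat_lit 0) (XT.lf (nat_lit 0) (nat_lit 10311159996959) (nat_lit 76) (nat_lit 920275518674) (nat_lit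 76) (nat_lit 920048160010) (nat_lit 1) (nat_lit 4) (nat_lit 2) (nat_lit 5) (nat_lit 2) (nat_lit 4) (nat_lit 527) (nat_lit 353) (nat_lit 320)) (XT.nd (nat_lit 78) (nat_lit 0) (nat_lit 0) (XT.lf (nat_lit 0) (nat_lit 11137462883063) (nat_lit 76) (nat_lit 993156580479) (nat_lit 76) (nat_lit 992927779428) (nat_lit 1) (nat_lit 4) (nat_lit 2) (nat_lit 5) (nat_lit 2) (nat_lit 4) (nat_lit 528) (nat_lit 353) (nat_lit 319)) (XT.lf (nat_lit 0) (nat_lit 12029856223523) (nat_lit 76) (nat_lit 1071875173671) (nat_lit 76) (nat_lit 1071645037077) (nat_lit 1) (nat_lit 4) (nat_lit 2) (nat_lit 5) (nat_lit 2) (nat_lit 4) (nat_lit 529) (nat_lit 353) (nat_lit 318))))))))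
noncomputable def xc8 : XT := (XT.nd (nat_lit 61152) (nat_lit 0) (nat_lit 0) (XT.nd (nat_lit 60294) (nat_lit 0) (nat_lit 0) (XT.nd (nat_lit 59826) (nat_lit 0) (nat_lit 0) (XT.nd (nat_lit 59592) (nat_lit 0) (nat_lit 0) (XT.nd (nat_lit 59514) (nat_lit 0) (nat_lit 0) (XT.lf (nat_lit 0) (nat_lit 12993628275172) (nat_lit 76) (nat_lit 1156897778802) (nat_lit 76) (nat_lit 1156666405594) (nat_lit 1) (nat_lit 4) (nat_lit 2) (nat_lit 5) (nat_lit 2) (nat_lit 4) (nat_lit 530) (nat_lit 353) (nat_lit 317)) (XT.lf (nat_lit 0) (nat_lit 332728171566) (nat_lit 76) (nat_lit 39413038550) (nat_lit 76) (nat_lit 39413038550) (nat_lit 1) (nat_lit 4) (nat_lit 2) (nat_lit 5) (nat_lit 2) (nat_lit 4) (nat_lit 492) (nat_lit 354) (nat_lit 354))) (XT.nd (nat_lit 78) (nat_lit 0) (nat_lit 0) (XT.lf (nat_lit 0) (nat_lit 722561016590) (nat_lit 76) (nat_lit 83132341350) (nat_lit 76) (nat_lit 83112594879) (nat_lit 1) (nat_lit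 4) (nat_lit 2) (nat_lit 5) (nat_lit 2) (nat_lit 4) (nat_lit 493) (nat_lit 354) (nat_lit 353)) (XT.nd (nat_lit 78) (nat_lit 0) (nat_lit 0) (XT.lf (nat_lit 0) (nat_lit 784045461363) (nat_lit 76) (nat_lit 87879573479) (nat_lit 76) (nat_lit 87841543239) (nat_lit 1) (nat_lit 4) (nat_lit 2) (nat_lit 5) (nat_lit 2) (nat_lit 4) (nat_lit 494) (nat_lit 354) (nat_lit 352)) (XT.lf (nat_lit 0) (nat_lit 850274029715) (nat_lit 76) (nat_lit 93095905234) (nat_lit 76) (nat_lit 93040945577) (nat_lit 1) (nat_lit 4) (nat_lit 2) (nat_lit 5) (nat_lit 2) (nat_lit 4) (nat_lit 495) (nat_lit 354) (nat_lit 351))))) (XT.nd (nat_lit 234) (nat_lit 0) (nat_lit 0) (XT.nd (nat_lit 78) (nat_lit 0) (nat_lit 0) (XT.lf (nat_lit 0) (nat_lit 921639187237) (nat_lit 76) (nat_lit 98812248210) (nat_lit 76) (nat_lit 98741613168) (nat_lit 1) (nat_lit 4) (nat_lit 2) (nat_lit 5) (nat_lit 2) (nat_lit 4) (nat_lit 496) (nat_lit 354) (nat_lit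 350)) (XT.nd (nat_lit 78) (nat_lit 0) (nat_lit 0) (XT.lf (nat_lit 0) (nat_lit 998563838567) (nat_lit 76) (nat_lit 105062477032) (nat_lit 76) (nat_lit 104977327745) (nat_lit 1) (nat_lit 4) (nat_lit 2) (nat_lit 5) (nat_lit 2) (nat_lit 4) (nat_lit 497) (nat_lit 354) (nat_lit 349)) (XT.lf (nat_lit 0) (nat_lit 1081503833489) (nat_lit 76) (nat_lit 111883630094) (nat_lit 76) (nat_lit 111785041690) (nat_lit 1) (nat_lit 4) (nat_lit 2) (nat_lit 5) (nat_lit 2) (nat_lit 4) (nat_lit 498) (nat_lit 354) (nat_lit 348)))) (XT.nd (nat_lit 78) (nat_lit 0) (nat_lit 0) (XT.lf (nat_lit 0) (nat_lit 1170950668271) (nat_lit 76) (nat_lit 119316129043) (nat_lit 76) (nat_lit 119205097012) (nat_lit 1) (nat_lit 4) (nat_lit 2) (nat_lit 5) (nat_lit 2) (nat_lit 4) (nat_lit 499) (nat_lit 354) (nat_lit 347)) (XT.nd (nat_lit 78) (nat_lit 0) (nat_lit 0) (XT.lf (nat_lit 0) (nat_lit 1267434398230) (nat_lit 76) (nat_lit 127404018317)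 (nat_lit 76) (nat_lit 127281464410) (nat_lit 1) (nat_lit 4) (nat_lit 2) (nat_lit 5) (nat_lit 2) (nat_lit 4) (nat_lit 500) (nat_lit 354) (nat_lit 346)) (XT.lf (nat_lit 0) (nat_lit 1371526778801) (nat_lit 76) (nat_lit 136195226149) (nat_lit 76) (nat_lit 136062003838) (nat_lit 1) (nat_lit 4) (nat_lit 2) (nat_lit 5) (nat_lit 2) (nat_lit 4) (nat_lit 501) (nat_lit 354) (nat_lit 345)))))) (XT.nd (nat_lit 390) (nat_lit 0) (nat_lit 0) (XT.nd (nat_lit 156) (nat_lit 0) (nat_lit 0) (XT.nd (nat_lit 78) (nat_lit 0) (nat_lit 0) (XT.lf (nat_lit 0) (nat_lit 1483844653723) (nat_lit 76) (nat_lit 145741848586) (nat_lit 76) (nat_lit 145598748123) (nat_lit 1) (nat_lit 4) (nat_lit 2) (nat_lit 5) (nat_lit 2) (nat_lit 4) (nat_lit 502) (nat_lit 354) (nat_lit 344)) (XT.lf (nat_lit 0) (nat_lit 1605053610401) (nat_lit 76) (nat_lit 156100458204) (nat_lit 76) (nat_lit 155948211305) (nat_lit 1) (nat_lit 4) (nat_lit 2)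 (nat_lit 5) (nat_lit 2) (nat_lit 4) (nat_lit 503) (nat_lit 354) (nat_lit 343))) (XT.nd (nat_lit 78) (nat_lit 0) (nat_lit 0) (XT.lf (nat_lit 0) (nat_lit 1735871924135) (nat_lit 76) (nat_lit 167332439358) (nat_lit 76) (nat_lit 167171723535) (nat_lit 1) (nat_lit 4) (nat_lit 2) (nat_lit 5) (nat_lit 2) (nat_lit 4) (nat_lit 504) (nat_lit 354) (nat_lit 342)) (XT.nd (nat_lit 78) (nat_lit 0) (nat_lit 0) (XT.lf (nat_lit 0) (nat_lit 1877074814562) (nat_lit 76) (nat_lit 179504351935) (nat_lit 76) (nat_lit 179335794517) (nat_lit 1) (nat_lit 4) (nat_lit 2) (nat_lit 5) (nat_lit 2) (nat_lit 4) (nat_lit 505) (nat_lit 354) (nat_lit 341)) (XT.lf (nat_lit 0) (nat_lit 2029499039551) (nat_lit 76) (nat_lit 192688325787) (nat_lit 76) (nat_lit 192512507633) (nat_lit 1) (nat_lit 4) (nat_lit 2) (nat_lit 5) (nat_lit 2) (nat_lit 4) (nat_lit 506) (nat_lit 354) (nat_lit 340))))) (XT.nd (nat_lit 234) (nat_lit 0) (nat_lit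 0) (XT.nd (nat_lit 78) (nat_lit 0) (nat_lit 0) (XT.lf (nat_lit 0) (nat_lit 2194047853768) (nat_lit 76) (nat_lit 206962488168) (nat_lit 76) (nat_lit 206779947110) (nat_lit 1) (nat_lit 4) (nat_lit 2) (nat_lit 5) (nat_lit 2) (nat_lit 4) (nat_lit 507) (nat_lit 354) (nat_lit 339)) (XT.nd (nat_lit 78) (nat_lit 0) (nat_lit 0) (XT.lf (nat_lit 0) (nat_lit 2371696361297) (nat_lit 76) (nat_lit 222411426706) (nat_lit 76) (nat_lit 222222660737) (nat_lit 1) (nat_lit 4) (nat_lit 2) (nat_lit 5) (nat_lit 2) (nat_lit 4) (nat_lit 508) (nat_lit 354) (nat_lit 338)) (XT.lf (nat_lit 0) (nat_lit 2563497294036) (nat_lit 76) (nat_lit 239126690667) (nat_lit 76) (nat_lit 238932160891) (nat_lit 1) (nat_lit 4) (nat_lit 2) (nat_lit 5) (nat_lit 2) (nat_lit 4) (nat_lit 509) (nat_lit 354) (nat_lit 337)))) (XT.nd (nat_lit 78) (nat_lit 0) (nat_lit 0) (XT.lf (nat_lit 0) (nat_lit 2770587250104) (nat_lit 76) (nat_lit 257207333467)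 (nat_lit 76) (nat_lit 257007466833) (nat_lit 1) (nat_lit 4) (nat_lit 2) (nat_lit 5) (nat_lit 2) (nat_lit 4) (nat_lit 510) (nat_lit 354) (nat_lit 336)) (XT.nd (nat_lit 78) (nat_lit 0) (nat_lit 0) (XT.lf (nat_lit 0) (nat_lit 2994193429241) (nat_lit 76) (nat_lit 276760499655) (nat_lit 76) (nat_lit 276555691485) (nat_lit 1) (nat_lit 4) (nat_lit 2) (nat_lit 5) (nat_lit 2) (nat_lit 4) (nat_lit 511) (nat_lit 354) (nat_lit 335)) (XT.lf (nat_lit 0) (nat_lit 3235640905101) (nat_lit 76) (nat_lit 297902059845) (nat_lit 76) (nat_lit 297692676181) (nat_lit 1) (nat_lit 4) (nat_lit 2) (nat_lit 5) (nat_lit 2) (nat_lit 4) (nat_lit 512) (nat_lit 354) (nat_lit 334))))))) (XT.nd (nat_lit 858) (nat_lit 0) (nat_lit 0) (XT.nd (nat_lit 390) (nat_lit 0) (nat_lit 0) (XT.nd (nat_lit 156) (nat_lit 0) (nat_lit 0) (XT.nd (nat_lit 78) (nat_lit 0) (nat_lit 0) (XT.lf (nat_lit 0) (nat_lit 3496360477541) (nat_lit 76) (nat_lit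 320757297359) (nat_lit 76) (nat_lit 320543677124) (nat_lit 1) (nat_lit 4) (nat_lit 2) (nat_lit 5) (nat_lit 2) (nat_lit 4) (nat_lit 513) (nat_lit 354) (nat_lit 333)) (XT.lf (nat_lit 0) (nat_lit 3777897151434) (nat_lit 76) (nat_lit 345461650640) (nat_lit 76) (nat_lit 345244107655) (nat_lit 1) (nat_lit 4) (nat_lit 2) (nat_lit 5) (nat_lit 2) (nat_lit 4) (nat_lit 514) (nat_lit 354) (nat_lit 332))) (XT.nd (nat_lit 78) (nat_lit 0) (nat_lit 0) (XT.lf (nat_lit 0) (nat_lit 4081919292256) (nat_lit 76) (nat_lit 372161515855) (nat_lit 76) (nat_lit 371940340695) (nat_lit 1) (nat_lit 4) (nat_lit 2) (nat_lit 5) (nat_lit 2) (nat_lit 4) (nat_lit 515) (nat_lit 354) (nat_lit 331)) (XT.nd (nat_lit 78) (nat_lit 0) (nat_lit 0) (XT.lf (nat_lit 0) (nat_lit 4410228512692) (nat_lit 76) (nat_lit 401015114429) (nat_lit 76) (nat_lit 400790576143) (nat_lit 1) (nat_lit 4) (nat_lit 2) (nat_lit 5) (nat_lit 2) (nat_lit 4)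 (nat_lit 516) (nat_lit 354) (nat_lit 330)) (XT.lf (nat_lit 0) (nat_lit 4764770348865) (nat_lit 76) (nat_lit 432193430649) (nat_lit 76) (nat_lit 431965778357) (nat_lit 1) (nat_lit 4) (nat_lit 2) (nat_lit 5) (nat_lit 2) (nat_lit 4) (nat_lit 517) (nat_lit 354) (nat_lit 329))))) (XT.nd (nat_lit 234) (nat_lit 0) (nat_lit 0) (XT.nd (nat_lit 78) (nat_lit 0) (nat_lit 0) (XT.lf (nat_lit 0) (nat_lit 5147645789432) (nat_lit 76) (nat_lit 465881224907) (nat_lit 76) (nat_lit 465650689277) (nat_lit 1) (nat_lit 4) (nat_lit 2) (nat_lit 5) (nat_lit 2) (nat_lit 4) (nat_lit 518) (nat_lit 354) (nat_lit 328)) (XT.nd (nat_lit 78) (nat_lit 0) (nat_lit 0) (XT.lf (nat_lit 0) (nat_lit 5561123725894) (nat_lit 76) (nat_lit 502278128578) (nat_lit 76) (nat_lit 502044923190) (nat_lit 1) (nat_lit 4) (nat_lit 2) (nat_lit 5) (nat_lit 2) (nat_lit 4) (nat_lit 519) (nat_lit 354) (nat_lit 327)) (XT.lf (nat_lit 0) (nat_lit 6007654397874)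 (nat_lit 76) (nat_lit 541599827015) (nat_lit 76) (nat_lit 541364149629) (nat_lit 1) (nat_lit 4) (nat_lit 2) (nat_lit 5) (nat_lit 2) (nat_lit 4) (nat_lit 520) (nat_lit 354) (nat_lit 326)))) (XT.nd (nat_lit 78) (nat_lit 0) (nat_lit 0) (XT.lf (nat_lit 0) (nat_lit 6489883913057) (nat_lit 76) (nat_lit 584079337692) (nat_lit 76) (nat_lit 583841371419) (nat_lit 1) (nat_lit 4) (nat_lit 2) (nat_lit 5) (nat_lit 2) (nat_lit 4) (nat_lit 521) (nat_lit 354) (nat_lit 325)) (XT.nd (nat_lit 78) (nat_lit 0) (nat_lit 0) (XT.lf (nat_lit 0) (nat_lit 7010669927830) (nat_lit 76) (nat_lit 629968391041) (nat_lit 76) (nat_lit 629728305429) (nat_lit 1) (nat_lit 4) (nat_lit 2) (nat_lit 5) (nat_lit 2) (nat_lit 4) (nat_lit 522) (nat_lit 354) (nat_lit 324)) (XT.lf (nat_lit 0) (nat_lit 7573098581540) (nat_lit 76) (nat_lit 679538922194) (nat_lit 76) (nat_lit 679296874230) (nat_lit 1) (nat_lit 4) (nat_lit 2) (nat_lit 5)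 (nat_lit 2) (nat_lit 4) (nat_lit 523) (nat_lit 354) (nat_lit 323)))))) (XT.nd (nat_lit 468) (nat_lit 0) (nat_lit 0) (XT.nd (nat_lit 234) (nat_lit 0) (nat_lit 0) (XT.nd (nat_lit 78) (nat_lit 0) (nat_lit 0) (XT.lf (nat_lit 0) (nat_lit 8180502784728) (nat_lit 76) (nat_lit 733084682447) (nat_lit 76) (nat_lit 732840817491) (nat_lit 1) (nat_lit 4) (nat_lit 2) (nat_lit 5) (nat_lit 2) (nat_lit 4) (nat_lit 524) (nat_lit 354) (nat_lit 322)) (XT.nd (nat_lit 78) (nat_lit 0) (nat_lit 0) (XT.lf (nat_lit 0) (nat_lit 8836481969708) (nat_lit 76) (nat_lit 790922980008) (nat_lit 76) (nat_lit 790677432652) (nat_lit 1) (nat_lit 4) (nat_lit 2) (nat_lit 5) (nat_lit 2) (nat_lit 4) (nat_lit 525) (nat_lit 354) (nat_lit 321)) (XT.lf (nat_lit 0) (nat_lit 9544923420539) (nat_lit 76) (nat_lit 853396560345) (nat_lit 76) (nat_lit 853149455210) (nat_lit 1) (nat_lit 4) (nat_lit 2) (nat_lit 5) (nat_lit 2) (nat_lit 4) (nat_lit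 526) (nat_lit 354) (nat_lit 320)))) (XT.nd (nat_lit 78) (nat_lit 0) (nat_lit 0) (XT.lf (nat_lit 0) (nat_lit 10310025308783) (nat_lit 76) (nat_lit 920875637266) (nat_lit 76) (nat_lit 920627089745) (nat_lit 1) (nat_lit 4) (nat_lit 2) (nat_lit 5) (nat_lit 2) (nat_lit 4) (nat_lit 527) (nat_lit 354) (nat_lit 319)) (XT.nd (nat_lit 78) (nat_lit 0) (nat_lit 0) (XT.lf (nat_lit 0) (nat_lit 11136321571554) (nat_lit 76) (nat_lit 993760086784) (nat_lit 76) (nat_lit 993510203719) (nat_lit 1) (nat_lit 4) (nat_lit 2) (nat_lit 5) (nat_lit 2) (nat_lit 4) (nat_lit 528) (nat_lit 354) (nat_lit 318)) (XT.lf (nat_lit 0) (nat_lit 12028708779299) (nat_lit 76) (nat_lit 1072481816747) (nat_lit 76) (nat_lit 1072230697068) (nat_lit 1) (nat_lit 4) (nat_lit 2) (nat_lit 5) (nat_lit 2) (nat_lit 4) (nat_lit 529) (nat_lit 354) (nat_lit 317))))) (XT.nd (nat_lit 59514) (nat_lit 0) (nat_lit 0) (XT.nd (nat_lit 59358) (nat_lit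 0) (nat_lit 0) (XT.lf (nat_lit 0) (nat_lit 12992475152508) (nat_lit 76) (nat_lit 1157507326296) (nat_lit 76) (nat_lit 1157255061603) (nat_lit 1) (nat_lit 4) (nat_lit 2) (nat_lit 5) (nat_lit 2) (nat_lit 4) (nat_lit 530) (nat_lit 354) (nat_lit 316)) (XT.nd (nat_lit 78) (nat_lit 0) (nat_lit 0) (XT.lf (nat_lit 0) (nat_lit 281581214647) (nat_lit 76) (nat_lit 35702035180) (nat_lit 76) (nat_lit 35702035180) (nat_lit 1) (nat_lit 4) (nat_lit 2) (nat_lit 5) (nat_lit 2) (nat_lit 4) (nat_lit 490) (nat_lit 355) (nat_lit 355)) (XT.lf (nat_lit 0) (nat_lit 612393042925) (nat_lit 76) (nat_lit 74956588317) (nat_lit 76) (nat_lit 74935262128) (nat_lit 1) (nat_lit 4) (nat_lit 2) (nat_lit 5) (nat_lit 2) (nat_lit 4) (nat_lit 491) (nat_lit 355) (nat_lit 354)))) (XT.nd (nat_lit 78) (nat_lit 0) (nat_lit 0) (XT.lf (nat_lit 0) (nat_lit 665358414879) (nat_lit 76) (nat_lit 78897491789) (nat_lit 76) (nat_lit 78856419129)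 (nat_lit 1) (nat_lit 4) (nat_lit 2) (nat_lit 5) (nat_lit 2) (nat_lit 4) (nat_lit 492) (nat_lit 355) (nat_lit 353)) (XT.nd (nat_lit 78) (nat_lit 0) (nat_lit 0) (XT.lf (nat_lit 0) (nat_lit 722372414028) (nat_lit 76) (nat_lit 83250134279) (nat_lit 76) (nat_lit 83190777849) (nat_lit 1) (nat_lit 4) (nat_lit 2) (nat_lit 5) (nat_lit 2) (nat_lit 4) (nat_lit 493) (nat_lit 355) (nat_lit 352)) (XT.lf (nat_lit 0) (nat_lit 783772901107) (nat_lit 76) (nat_lit 88040309223) (nat_lit 76) (nat_lit 87964023377) (nat_lit 1) (nat_lit 4) (nat_lit 2) (nat_lit 5) (nat_lit 2) (nat_lit 4) (nat_lit 494) (nat_lit 355) (nat_lit 351))))))))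
noncomputable def xc9 : XT := (XT.nd (nat_lit 1716) (nat_lit 0) (nat_lit 0) (XT.nd (nat_lit 858) (nat_lit 0) (nat_lit 0) (XT.nd (nat_lit 390) (nat_lit 0) (nat_lit 0) (XT.nd (nat_lit 156) (nat_lit 0) (nat_lit 0) (XT.nd (nat_lit 78) (nat_lit 0) (nat_lit 0) (XT.lf (nat_lit 0) (nat_lit 849923730855) (nat_lit 76) (nat_lit 93296402843) (nat_lit 76) (nat_lit 93204441613) (nat_lit 1) (nat_lit 4) (nat_lit 2) (nat_lit 5) (nat_lit 2) (nat_lit 4) (nat_lit 495) (nat_lit 355) (nat_lit 350)) (XT.lf (nat_lit 0) (nat_lit 921216908187) (nat_lit 76) (nat_lit 99049562362) (nat_lit 76) (nat_lit 98943086885) (nat_lit 1) (nat_lit 4) (nat_lit 2) (nat_lit 5) (nat_lit 2) (nat_lit 4) (nat_lit 496) (nat_lit 355) (nat_lit 349))) (XT.nd (nat_lit 78) (nat_lit 0) (nat_lit 0) (XT.lf (nat_lit 0) (nat_lit 998074911193) (nat_lit 76) (nat_lit 105333880575) (nat_lit 76) (nat_lit 105213965982) (nat_lit 1) (nat_lit 4) (nat_lit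 2) (nat_lit 5) (nat_lit 2) (nat_lit 4) (nat_lit 497) (nat_lit 355) (nat_lit 348)) (XT.nd (nat_lit 78) (nat_lit 0) (nat_lit 0) (XT.lf (nat_lit 0) (nat_lit 1080953194705) (nat_lit 76) (nat_lit 112186597888) (nat_lit 76) (nat_lit 112054239669) (nat_lit 1) (nat_lit 4) (nat_lit 2) (nat_lit 5) (nat_lit 2) (nat_lit 4) (nat_lit 498) (nat_lit 355) (nat_lit 347)) (XT.lf (nat_lit 0) (nat_lit 1170342889292) (nat_lit 76) (nat_lit 119648322995) (nat_lit 76) (nat_lit 119504442900) (nat_lit 1) (nat_lit 4) (nat_lit 2) (nat_lit 5) (nat_lit 2) (nat_lit 4) (nat_lit 499) (nat_lit 355) (nat_lit 346))))) (XT.nd (nat_lit 234) (nat_lit 0) (nat_lit 0) (XT.nd (nat_lit 78) (nat_lit 0) (nat_lit 0) (XT.lf (nat_lit 0) (nat_lit 1266773711662) (nat_lit 76) (nat_lit 127763273527) (nat_lit 76) (nat_lit 127608725028) (nat_lit 1) (nat_lit 4) (nat_lit 2) (nat_lit 5) (nat_lit 2) (nat_lit 4) (nat_lit 500) (nat_lit 355) (nat_lit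 345)) (XT.nd (nat_lit 78) (nat_lit 0) (nat_lit 0) (XT.lf (nat_lit 0) (nat_lit 1370817103726) (nat_lit 76) (nat_lit 136579538079) (nat_lit 76) (nat_lit 136415111428) (nat_lit 1) (nat_lit 4) (nat_lit 2) (nat_lit 5) (nat_lit 2) (nat_lit 4) (nat_lit 501) (nat_lit 355) (nat_lit 344)) (XT.lf (nat_lit 0) (nat_lit 1483089618918) (nat_lit 76) (nat_lit 146149361183) (nat_lit 76) (nat_lit 145975788095) (nat_lit 1) (nat_lit 4) (nat_lit 2) (nat_lit 5) (nat_lit 2) (nat_lit 4) (nat_lit 502) (nat_lit 355) (nat_lit 343)))) (XT.nd (nat_lit 78) (nat_lit 0) (nat_lit 0) (XT.lf (nat_lit 0) (nat_lit 1604256575847) (nat_lit 76) (nat_lit 156529452900) (nat_lit 76) (nat_lit 156347410889) (nat_lit 1) (nat_lit 4) (nat_lit 2) (nat_lit 5) (nat_lit 2) (nat_lit 4) (nat_lit 503) (nat_lit 355) (nat_lit 342)) (XT.nd (nat_lit 78) (nat_lit 0) (nat_lit 0) (XT.lf (nat_lit 0) (nat_lit 1735036000925) (nat_lit 76) (nat_lit 167781324886)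 (nat_lit 76) (nat_lit 167591441279) (nat_lit 1) (nat_lit 4) (nat_lit 2) (nat_lit 5) (nat_lit 2) (nat_lit 4) (nat_lit 504) (nat_lit 355) (nat_lit 341)) (XT.lf (nat_lit 0) (nat_lit 1876202883336) (nat_lit 76) (nat_lit 179971654900) (nat_lit 76) (nat_lit 179774510557) (nat_lit 1) (nat_lit 4) (nat_lit 2) (nat_lit 5) (nat_lit 2) (nat_lit 4) (nat_lit 505) (nat_lit 355) (nat_lit 340)))))) (XT.nd (nat_lit 390) (nat_lit 0) (nat_lit 0) (XT.nd (nat_lit 156) (nat_lit 0) (nat_lit 0) (XT.nd (nat_lit 78) (nat_lit 0) (nat_lit 0) (XT.lf (nat_lit 0) (nat_lit 2028593767569) (nat_lit 76) (nat_lit 193172681935) (nat_lit 76) (nat_lit 192968814689) (nat_lit 1) (nat_lit 4) (nat_lit 2) (nat_lit 5) (nat_lit 2) (nat_lit 4) (nat_lit 506) (nat_lit 355) (nat_lit 339)) (XT.lf (nat_lit 0) (nat_lit 2193111710717) (nat_lit 76) (nat_lit 207462634300) (nat_lit 76) (nat_lit 207252542142) (nat_lit 1) (nat_lit 4) (nat_lit 2)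 (nat_lit 5) (nat_lit 2) (nat_lit 4) (nat_lit 507) (nat_lit 355) (nat_lit 338))) (XT.nd (nat_lit 78) (nat_lit 0) (nat_lit 0) (XT.lf (nat_lit 0) (nat_lit 2370731633923) (nat_lit 76) (nat_lit 222926193194) (nat_lit 76) (nat_lit 222710337230) (nat_lit 1) (nat_lit 4) (nat_lit 2) (nat_lit 5) (nat_lit 2) (nat_lit 4) (nat_lit 508) (nat_lit 355) (nat_lit 337)) (XT.nd (nat_lit 78) (nat_lit 0) (nat_lit 0) (XT.lf (nat_lit 0) (nat_lit 2562506099696) (nat_lit 76) (nat_lit 239654994521) (nat_lit 76) (nat_lit 239433801698) (nat_lit 1) (nat_lit 4) (nat_lit 2) (nat_lit 5) (nat_lit 2) (nat_lit 4) (nat_lit 509) (nat_lit 355) (nat_lit 336)) (XT.lf (nat_lit 0) (nat_lit 2769571549313) (nat_lit 76) (nat_lit 257748171919) (nat_lit 76) (nat_lit 257522037561) (nat_lit 1) (nat_lit 4) (nat_lit 2) (nat_lit 5) (nat_lit 2) (nat_lit 4) (nat_lit 510) (nat_lit 355) (nat_lit 335))))) (XT.nd (nat_lit 234) (nat_lit 0) (nat_lit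 0) (XT.nd (nat_lit 78) (nat_lit 0) (nat_lit 0) (XT.lf (nat_lit 0) (nat_lit 2993155037293) (nat_lit 76) (nat_lit 277312944216) (nat_lit 76) (nat_lit 277082234363) (nat_lit 1) (nat_lit 4) (nat_lit 2) (nat_lit 5) (nat_lit 2) (nat_lit 4) (nat_lit 511) (nat_lit 355) (nat_lit 334)) (XT.nd (nat_lit 78) (nat_lit 0) (nat_lit 0) (XT.lf (nat_lit 0) (nat_lit 3234581502821) (nat_lit 76) (nat_lit 298465250805) (nat_lit 76) (nat_lit 298230304382) (nat_lit 1) (nat_lit 4) (nat_lit 2) (nat_lit 5) (nat_lit 2) (nat_lit 4) (nat_lit 512) (nat_lit 355) (nat_lit 333)) (XT.lf (nat_lit 0) (nat_lit 3495281621250) (nat_lit 76) (nat_lit 321330438687) (nat_lit 76) (nat_lit 321091569514) (nat_lit 1) (nat_lit 4) (nat_lit 2) (nat_lit 5) (nat_lit 2) (nat_lit 4) (nat_lit 513) (nat_lit 355) (nat_lit 332)))) (XT.nd (nat_lit 78) (nat_lit 0) (nat_lit 0) (XT.lf (nat_lit 0) (nat_lit 3776800282171) (nat_lit 76) (nat_lit 346044005272)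 (nat_lit 76) (nat_lit 345801503923) (nat_lit 1) (nat_lit 4) (nat_lit 2) (nat_lit 5) (nat_lit 2) (nat_lit 4) (nat_lit 514) (nat_lit 355) (nat_lit 331)) (XT.nd (nat_lit 78) (nat_lit 0) (nat_lit 0) (XT.lf (nat_lit 0) (nat_lit 4080805744314) (nat_lit 76) (nat_lit 372752401324) (nat_lit 76) (nat_lit 372506536849) (nat_lit 1) (nat_lit 4) (nat_lit 2) (nat_lit 5) (nat_lit 2) (nat_lit 4) (nat_lit 515) (nat_lit 355) (nat_lit 330)) (XT.lf (nat_lit 0) (nat_lit 4409099521530) (nat_lit 76) (nat_lit 401613898821) (nat_lit 76) (nat_lit 401364920341) (nat_lit 1) (nat_lit 4) (nat_lit 2) (nat_lit 5) (nat_lit 2) (nat_lit 4) (nat_lit 516) (nat_lit 355) (nat_lit 329))))))) (XT.nd (nat_lit 858) (nat_lit 0) (nat_lit 0) (XT.nd (nat_lit 390) (nat_lit 0) (nat_lit 0) (XT.nd (nat_lit 156) (nat_lit 0) (nat_lit 0) (XT.nd (nat_lit 78) (nat_lit 0) (nat_lit 0) (XT.lf (nat_lit 0) (nat_lit 4763627058425) (nat_lit 76) (nat_lit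 432799528859) (nat_lit 76) (nat_lit 432547667040) (nat_lit 1) (nat_lit 4) (nat_lit 2) (nat_lit 5) (nat_lit 2) (nat_lit 4) (nat_lit 517) (nat_lit 355) (nat_lit 328)) (XT.lf (nat_lit 0) (nat_lit 5146489258919) (nat_lit 76) (nat_lit 466494095171) (nat_lit 76) (nat_lit 466239563594) (nat_lit 1) (nat_lit 4) (nat_lit 2) (nat_lit 5) (nat_lit 2) (nat_lit 4) (nat_lit 518) (nat_lit 355) (nat_lit 327))) (XT.nd (nat_lit 78) (nat_lit 0) (nat_lit 0) (XT.lf (nat_lit 0) (nat_lit 5559954936055) (nat_lit 76) (nat_lit 502897269261) (nat_lit 76) (nat_lit 502640265687) (nat_lit 1) (nat_lit 4) (nat_lit 2) (nat_lit 5) (nat_lit 2) (nat_lit 4) (nat_lit 519) (nat_lit 355) (nat_lit 326)) (XT.nd (nat_lit 78) (nat_lit 0) (nat_lit 0) (XT.lf (nat_lit 0) (nat_lit 6006474256806) (nat_lit 76) (nat_lit 542224773643) (nat_lit 76) (nat_lit 541965481181) (nat_lit 1) (nat_lit 4) (nat_lit 2) (nat_lit 5) (nat_lit 2) (nat_lit 4)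 (nat_lit 520) (nat_lit 355) (nat_lit 325)) (XT.lf (nat_lit 0) (nat_lit 6488693261593) (nat_lit 76) (nat_lit 584709660194) (nat_lit 76) (nat_lit 584448248393) (nat_lit 1) (nat_lit 4) (nat_lit 2) (nat_lit 5) (nat_lit 2) (nat_lit 4) (nat_lit 521) (nat_lit 355) (nat_lit 324))))) (XT.nd (nat_lit 234) (nat_lit 0) (nat_lit 0) (XT.nd (nat_lit 78) (nat_lit 0) (nat_lit 0) (XT.lf (nat_lit 0) (nat_lit 7009469544518) (nat_lit 76) (nat_lit 630603691205) (nat_lit 76) (nat_lit 630340317052) (nat_lit 1) (nat_lit 4) (nat_lit 2) (nat_lit 5) (nat_lit 2) (nat_lit 4) (nat_lit 522) (nat_lit 355) (nat_lit 323)) (XT.nd (nat_lit 78) (nat_lit 0) (nat_lit 0) (XT.lf (nat_lit 0) (nat_lit 7571889187257) (nat_lit 76) (nat_lit 680178831304) (nat_lit 76) (nat_lit 679913640159) (nat_lit 1) (nat_lit 4) (nat_lit 2) (nat_lit 5) (nat_lit 2) (nat_lit 4) (nat_lit 523) (nat_lit 355) (nat_lit 322)) (XT.lf (nat_lit 0) (nat_lit 8179285046953)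 (nat_lit 76) (nat_lit 733728859099) (nat_lit 76) (nat_lit 733461985553) (nat_lit 1) (nat_lit 4) (nat_lit 2) (nat_lit 5) (nat_lit 2) (nat_lit 4) (nat_lit 524) (nat_lit 355) (nat_lit 321)))) (XT.nd (nat_lit 78) (nat_lit 0) (nat_lit 0) (XT.lf (nat_lit 0) (nat_lit 8835256506477) (nat_lit 76) (nat_lit 791571108088) (nat_lit 76) (nat_lit 791302676765) (nat_lit 1) (nat_lit 4) (nat_lit 2) (nat_lit 5) (nat_lit 2) (nat_lit 4) (nat_lit 525) (nat_lit 355) (nat_lit 320)) (XT.nd (nat_lit 78) (nat_lit 0) (nat_lit 0) (XT.lf (nat_lit 0) (nat_lit 9543690804110) (nat_lit 76) (nat_lit 854048347154) (nat_lit 76) (nat_lit 853778473444) (nat_lit 1) (nat_lit 4) (nat_lit 2) (nat_lit 5) (nat_lit 2) (nat_lit 4) (nat_lit 526) (nat_lit 355) (nat_lit 319)) (XT.lf (nat_lit 0) (nat_lit 10308786069020) (nat_lit 76) (nat_lit 921530811789) (nat_lit 76) (nat_lit 921259602535) (nat_lit 1) (nat_lit 4) (nat_lit 2) (nat_lit 5)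 (nat_lit 2) (nat_lit 4) (nat_lit 527) (nat_lit 355) (nat_lit 318)))))) (XT.nd (nat_lit 59592) (nat_lit 0) (nat_lit 0) (XT.nd (nat_lit 59358) (nat_lit 0) (nat_lit 0) (XT.nd (nat_lit 78) (nat_lit 0) (nat_lit 0) (XT.lf (nat_lit 0) (nat_lit 11135076199076) (nat_lit 76) (nat_lit 994418398078) (nat_lit 76) (nat_lit 994145952209) (nat_lit 1) (nat_lit 4) (nat_lit 2) (nat_lit 5) (nat_lit 2) (nat_lit 4) (nat_lit 528) (nat_lit 355) (nat_lit 317)) (XT.nd (nat_lit 78) (nat_lit 0) (nat_lit 0) (XT.lf (nat_lit 0) (nat_lit 12027457728381) (nat_lit 76) (nat_lit 1073143032458) (nat_lit 76) (nat_lit 1072869441577) (nat_lit 1) (nat_lit 4) (nat_lit 2) (nat_lit 5) (nat_lit 2) (nat_lit 4) (nat_lit 529) (nat_lit 355) (nat_lit 316)) (XT.lf (nat_lit 0) (nat_lit 12991218843775) (nat_lit 76) (nat_lit 1158171231283) (nat_lit 76) (nat_lit 1157896580204) (nat_lit 1) (nat_lit 4) (nat_lit 2) (nat_lit 5) (nat_lit 2) (nat_lit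 4) (nat_lit 530) (nat_lit 355) (nat_lit 315)))) (XT.nd (nat_lit 78) (nat_lit 0) (nat_lit 0) (XT.lf (nat_lit 0) (nat_lit 237436577864) (nat_lit 76) (nat_lit 32673384505) (nat_lit 76) (nat_lit 32673384505) (nat_lit 1) (nat_lit 4) (nat_lit 2) (nat_lit 5) (nat_lit 2) (nat_lit 4) (nat_lit 488) (nat_lit 356) (nat_lit 356)) (XT.nd (nat_lit 78) (nat_lit 0) (nat_lit 0) (XT.lf (nat_lit 0) (nat_lit 517374837017) (nat_lit 76) (nat_lit 68241918244) (nat_lit 76) (nat_lit 68218885961) (nat_lit 1) (nat_lit 4) (nat_lit 2) (nat_lit 5) (nat_lit 2) (nat_lit 4) (nat_lit 489) (nat_lit 356) (nat_lit 355)) (XT.lf (nat_lit 0) (nat_lit 563056666780) (nat_lit 76) (nat_lit 71481198223) (nat_lit 76) (nat_lit 71436839751) (nat_lit 1) (nat_lit 4) (nat_lit 2) (nat_lit 5) (nat_lit 2) (nat_lit 4) (nat_lit 490) (nat_lit 356) (nat_lit 354))))) (XT.nd (nat_lit 234) (nat_lit 0) (nat_lit 0) (XT.nd (nat_lit 78) (nat_lit 0) (nat_lit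 0) (XT.lf (nat_lit 0) (nat_lit 612189352158) (nat_lit 76) (nat_lit 75083804679) (nat_lit 76) (nat_lit 75019699736) (nat_lit 1) (nat_lit 4) (nat_lit 2) (nat_lit 5) (nat_lit 2) (nat_lit 4) (nat_lit 491) (nat_lit 356) (nat_lit 353)) (XT.nd (nat_lit 78) (nat_lit 0) (nat_lit 0) (XT.lf (nat_lit 0) (nat_lit 665064049804) (nat_lit 76) (nat_lit 79071086392) (nat_lit 76) (nat_lit 78988697679) (nat_lit 1) (nat_lit 4) (nat_lit 2) (nat_lit 5) (nat_lit 2) (nat_lit 4) (nat_lit 492) (nat_lit 356) (nat_lit 352)) (XT.lf (nat_lit 0) (nat_lit 721994091260) (nat_lit 76) (nat_lit 83466671697) (nat_lit 76) (nat_lit 83367353567) (nat_lit 1) (nat_lit 4) (nat_lit 2) (nat_lit 5) (nat_lit 2) (nat_lit 4) (nat_lit 493) (nat_lit 356) (nat_lit 351)))) (XT.nd (nat_lit 78) (nat_lit 0) (nat_lit 0) (XT.lf (nat_lit 0) (nat_lit 783316839734) (nat_lit 76) (nat_lit 88296608507) (nat_lit 76) (nat_lit 88181614992) (nat_lit 1) (nat_lit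 4) (nat_lit 2) (nat_lit 5) (nat_lit 2) (nat_lit 4) (nat_lit 494) (nat_lit 356) (nat_lit 350)) (XT.nd (nat_lit 78) (nat_lit 0) (nat_lit 0) (XT.lf (nat_lit 0) (nat_lit 849395689292) (nat_lit 76) (nat_lit 93589518670) (nat_lit 76) (nat_lit 93460010909) (nat_lit 1) (nat_lit 4) (nat_lit 2) (nat_lit 5) (nat_lit 2) (nat_lit 4) (nat_lit 495) (nat_lit 356) (nat_lit 349)) (XT.lf (nat_lit 0) (nat_lit 920622218301) (nat_lit 76) (nat_lit 99376767579) (nat_lit 76) (nat_lit 99233820702) (nat_lit 1) (nat_lit 4) (nat_lit 2) (nat_lit 5) (nat_lit 2) (nat_lit 4) (nat_lit 496) (nat_lit 356) (nat_lit 348))))))))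
noncomputable def xc10 : XT := (XT.nd (nat_lit 1716) (nat_lit 0) (nat_lit 0) (XT.nd (nat_lit 858) (nat_lit 0) (nat_lit 0) (XT.nd (nat_lit 390) (nat_lit 0) (nat_lit 0) (XT.nd (nat_lit 156) (nat_lit 0) (nat_lit 0) (XT.nd (nat_lit 78) (nat_lit 0) (nat_lit 0) (XT.lf (nat_lit 0) (nat_lit 997418509896) (nat_lit 76) (nat_lit 105692650044) (nat_lit 76) (nat_lit 105537259541) (nat_lit 1) (nat_lit 4) (nat_lit 2) (nat_lit 5) (nat_lit 2) (nat_lit 4) (nat_lit 497) (nat_lit 356) (nat_lit 347)) (XT.lf (nat_lit 0) (nat_lit 1080239653212) (nat_lit 76) (nat_lit 112574593515) (nat_lit 76) (nat_lit 112407681136) (nat_lit 1) (nat_lit 4) (nat_lit 2) (nat_lit 5) (nat_lit 2) (nat_lit 4) (nat_lit 498) (nat_lit 356) (nat_lit 346))) (XT.nd (nat_lit 78) (nat_lit 0) (nat_lit 0) (XT.lf (nat_lit 0) (nat_lit 1169576440211) (nat_lit 76) (nat_lit 120063379880) (nat_lit 76) (nat_lit 119885799097) (nat_lit 1) (nat_lit 4)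 (nat_lit 2) (nat_lit 5) (nat_lit 2) (nat_lit 4) (nat_lit 499) (nat_lit 356) (nat_lit 345)) (XT.nd (nat_lit 78) (nat_lit 0) (nat_lit 0) (XT.lf (nat_lit 0) (nat_lit 1265958274073) (nat_lit 76) (nat_lit 128203387132) (nat_lit 76) (nat_lit 128015928197) (nat_lit 1) (nat_lit 4) (nat_lit 2) (nat_lit 5) (nat_lit 2) (nat_lit 4) (nat_lit 500) (nat_lit 356) (nat_lit 344)) (XT.lf (nat_lit 0) (nat_lit 1369956306408) (nat_lit 76) (nat_lit 137042852351) (nat_lit 76) (nat_lit 136846246979) (nat_lit 1) (nat_lit 4) (nat_lit 2) (nat_lit 5) (nat_lit 2) (nat_lit 4) (nat_lit 501) (nat_lit 356) (nat_lit 343))))) (XT.nd (nat_lit 234) (nat_lit 0) (nat_lit 0) (XT.nd (nat_lit 78) (nat_lit 0) (nat_lit 0) (XT.lf (nat_lit 0) (nat_lit 1482186821851) (nat_lit 76) (nat_lit 146634157553) (nat_lit 76) (nat_lit 146429083258) (nat_lit 1) (nat_lit 4) (nat_lit 2) (nat_lit 5) (nat_lit 2) (nat_lit 4) (nat_lit 502) (nat_lit 356)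 (nat_lit 342)) (XT.nd (nat_lit 78) (nat_lit 0) (nat_lit 0) (XT.lf (nat_lit 0) (nat_lit 1603314890123) (nat_lit 76) (nat_lit 157034140103) (nat_lit 76) (nat_lit 156821224212) (nat_lit 1) (nat_lit 4) (nat_lit 2) (nat_lit 5) (nat_lit 2) (nat_lit 4) (nat_lit 503) (nat_lit 356) (nat_lit 341)) (XT.lf (nat_lit 0) (nat_lit 1734058307185) (nat_lit 76) (nat_lit 168304429526) (nat_lit 76) (nat_lit 168084252899) (nat_lit 1) (nat_lit 4) (nat_lit 2) (nat_lit 5) (nat_lit 2) (nat_lit 4) (nat_lit 504) (nat_lit 356) (nat_lit 340)))) (XT.nd (nat_lit 78) (nat_lit 0) (nat_lit 0) (XT.lf (nat_lit 0) (nat_lit 1875191848841) (nat_lit 76) (nat_lit 180511812723) (nat_lit 76) (nat_lit 180284913192) (nat_lit 1) (nat_lit 4) (nat_lit 2) (nat_lit 5) (nat_lit 2) (nat_lit 4) (nat_lit 505) (nat_lit 356) (nat_lit 339)) (XT.nd (nat_lit 78) (nat_lit 0) (nat_lit 0) (XT.lf (nat_lit 0) (nat_lit 2027551862005) (nat_lit 76) (nat_lit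 193728629742) (nat_lit 76) (nat_lit 193495505300) (nat_lit 1) (nat_lit 4) (nat_lit 2) (nat_lit 5) (nat_lit 2) (nat_lit 4) (nat_lit 506) (nat_lit 356) (nat_lit 338)) (XT.lf (nat_lit 0) (nat_lit 2192041220829) (nat_lit 76) (nat_lit 208033202463) (nat_lit 76) (nat_lit 207794314214) (nat_lit 1) (nat_lit 4) (nat_lit 2) (nat_lit 5) (nat_lit 2) (nat_lit 4) (nat_lit 507) (nat_lit 356) (nat_lit 337)))))) (XT.nd (nat_lit 390) (nat_lit 0) (nat_lit 0) (XT.nd (nat_lit 156) (nat_lit 0) (nat_lit 0) (XT.nd (nat_lit 78) (nat_lit 0) (nat_lit 0) (XT.lf (nat_lit 0) (nat_lit 2369634677069) (nat_lit 76) (nat_lit 223510298723) (nat_lit 76) (nat_lit 223266073616) (nat_lit 1) (nat_lit 4) (nat_lit 2) (nat_lit 5) (nat_lit 2) (nat_lit 4) (nat_lit 508) (nat_lit 356) (nat_lit 336)) (XT.lf (nat_lit 0) (nat_lit 2561384636391) (nat_lit 76) (nat_lit 240251634648) (nat_lit 76) (nat_lit 240002468006) (nat_lit 1) (nat_lit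 4) (nat_lit 2) (nat_lit 5) (nat_lit 2) (nat_lit 4) (nat_lit 509) (nat_lit 356) (nat_lit 335))) (XT.nd (nat_lit 78) (nat_lit 0) (nat_lit 0) (XT.lf (nat_lit 0) (nat_lit 2768427394851) (nat_lit 76) (nat_lit 258356418155) (nat_lit 76) (nat_lit 258102676018) (nat_lit 1) (nat_lit 4) (nat_lit 2) (nat_lit 5) (nat_lit 2) (nat_lit 4) (nat_lit 510) (nat_lit 356) (nat_lit 334)) (XT.nd (nat_lit 78) (nat_lit 0) (nat_lit 0) (XT.lf (nat_lit 0) (nat_lit 2991989872499) (nat_lit 76) (nat_lit 277931936851) (nat_lit 76) (nat_lit 277673958143) (nat_lit 1) (nat_lit 4) (nat_lit 2) (nat_lit 5) (nat_lit 2) (nat_lit 4) (nat_lit 511) (nat_lit 356) (nat_lit 333)) (XT.lf (nat_lit 0) (nat_lit 3233396884017) (nat_lit 76) (nat_lit 299094193808) (nat_lit 76) (nat_lit 298832292350) (nat_lit 1) (nat_lit 4) (nat_lit 2) (nat_lit 5) (nat_lit 2) (nat_lit 4) (nat_lit 512) (nat_lit 356) (nat_lit 332))))) (XT.nd (nat_lit 234) (nat_lit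 0) (nat_lit 0) (XT.nd (nat_lit 78) (nat_lit 0) (nat_lit 0) (XT.lf (nat_lit 0) (nat_lit 3494078989474) (nat_lit 76) (nat_lit 321968594994) (nat_lit 76) (nat_lit 321703061360) (nat_lit 1) (nat_lit 4) (nat_lit 2) (nat_lit 5) (nat_lit 2) (nat_lit 4) (nat_lit 513) (nat_lit 356) (nat_lit 331)) (XT.nd (nat_lit 78) (nat_lit 0) (nat_lit 0) (XT.lf (nat_lit 0) (nat_lit 3775580971716) (nat_lit 76) (nat_lit 346690692415) (nat_lit 76) (nat_lit 346421795656) (nat_lit 1) (nat_lit 4) (nat_lit 2) (nat_lit 5) (nat_lit 2) (nat_lit 4) (nat_lit 514) (nat_lit 356) (nat_lit 330)) (XT.lf (nat_lit 0) (nat_lit 4079570990639) (nat_lit 76) (nat_lit 373406987391) (nat_lit 76) (nat_lit 373134976627) (nat_lit 1) (nat_lit 4) (nat_lit 2) (nat_lit 5) (nat_lit 2) (nat_lit 4) (nat_lit 515) (nat_lit 356) (nat_lit 329)))) (XT.nd (nat_lit 78) (nat_lit 0) (nat_lit 0) (XT.lf (nat_lit 0) (nat_lit 4407850468576) (nat_lit 76) (nat_lit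 402275798706) (nat_lit 76) (nat_lit 402000904603) (nat_lit 1) (nat_lit 4) (nat_lit 2) (nat_lit 5) (nat_lit 2) (nat_lit 4) (nat_lit 516) (nat_lit 356) (nat_lit 328)) (XT.nd (nat_lit 78) (nat_lit 0) (nat_lit 0) (XT.lf (nat_lit 0) (nat_lit 4762364765398) (nat_lit 76) (nat_lit 433468200797) (nat_lit 76) (nat_lit 433190636937) (nat_lit 1) (nat_lit 4) (nat_lit 2) (nat_lit 5) (nat_lit 2) (nat_lit 4) (nat_lit 517) (nat_lit 356) (nat_lit 327)) (XT.lf (nat_lit 0) (nat_lit 5145214706566) (nat_lit 76) (nat_lit 467169037529) (nat_lit 76) (nat_lit 466889001670) (nat_lit 1) (nat_lit 4) (nat_lit 2) (nat_lit 5) (nat_lit 2) (nat_lit 4) (nat_lit 518) (nat_lit 356) (nat_lit 326))))))) (XT.nd (nat_lit 858) (nat_lit 0) (nat_lit 0) (XT.nd (nat_lit 390) (nat_lit 0) (nat_lit 0) (XT.nd (nat_lit 156) (nat_lit 0) (nat_lit 0) (XT.nd (nat_lit 78) (nat_lit 0) (nat_lit 0) (XT.lf (nat_lit 0) (nat_lit 5558669032473) (nat_lit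 76) (nat_lit 503578017563) (nat_lit 76) (nat_lit 503295692818) (nat_lit 1) (nat_lit 4) (nat_lit 2) (nat_lit 5) (nat_lit 2) (nat_lit 4) (nat_lit 519) (nat_lit 356) (nat_lit 325)) (XT.lf (nat_lit 0) (nat_lit 6005177842828) (nat_lit 76) (nat_lit 542910897819) (nat_lit 76) (nat_lit 542626453734) (nat_lit 1) (nat_lit 4) (nat_lit 2) (nat_lit 5) (nat_lit 2) (nat_lit 4) (nat_lit 520) (nat_lit 356) (nat_lit 324))) (XT.nd (nat_lit 78) (nat_lit 0) (nat_lit 0) (XT.lf (nat_lit 0) (nat_lit 6487387115767) (nat_lit 76) (nat_lit 585400762032) (nat_lit 76) (nat_lit 585114355595) (nat_lit 1) (nat_lit 4) (nat_lit 2) (nat_lit 5) (nat_lit 2) (nat_lit 4) (nat_lit 521) (nat_lit 356) (nat_lit 323)) (XT.nd (nat_lit 78) (nat_lit 0) (nat_lit 0) (XT.lf (nat_lit 0) (nat_lit 7008154387720) (nat_lit 76) (nat_lit 631299401988) (nat_lit 76) (nat_lit 631011178560) (nat_lit 1) (nat_lit 4) (nat_lit 2) (nat_lit 5) (nat_lit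 2) (nat_lit 4) (nat_lit 522) (nat_lit 356) (nat_lit 322)) (XT.lf (nat_lit 0) (nat_lit 7570565686968) (nat_lit 76) (nat_lit 680878809630) (nat_lit 76) (nat_lit 680588903801) (nat_lit 1) (nat_lit 4) (nat_lit 2) (nat_lit 5) (nat_lit 2) (nat_lit 4) (nat_lit 523) (nat_lit 356) (nat_lit 321))))) (XT.nd (nat_lit 234) (nat_lit 0) (nat_lit 0) (XT.nd (nat_lit 78) (nat_lit 0) (nat_lit 0) (XT.lf (nat_lit 0) (nat_lit 8177953821209) (nat_lit 76) (nat_lit 734432788853) (nat_lit 76) (nat_lit 734141325246) (nat_lit 1) (nat_lit 4) (nat_lit 2) (nat_lit 5) (nat_lit 2) (nat_lit 4) (nat_lit 524) (nat_lit 356) (nat_lit 320)) (XT.nd (nat_lit 78) (nat_lit 0) (nat_lit 0) (XT.lf (nat_lit 0) (nat_lit 8833918127534) (nat_lit 76) (nat_lit 792278696572) (nat_lit 76) (nat_lit 791985790578) (nat_lit 1) (nat_lit 4) (nat_lit 2) (nat_lit 5) (nat_lit 2) (nat_lit 4) (nat_lit 525) (nat_lit 356) (nat_lit 319)) (XT.lf (nat_lit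 0) (nat_lit 9542345801834) (nat_lit 76) (nat_lit 854759323351) (nat_lit 76) (nat_lit 854465081814) (nat_lit 1) (nat_lit 4) (nat_lit 2) (nat_lit 5) (nat_lit 2) (nat_lit 4) (nat_lit 526) (nat_lit 356) (nat_lit 318)))) (XT.nd (nat_lit 78) (nat_lit 0) (nat_lit 0) (XT.lf (nat_lit 0) (nat_lit 10307434934029) (nat_lit 76) (nat_lit 922244924757) (nat_lit 76) (nat_lit 921949446605) (nat_lit 1) (nat_lit 4) (nat_lit 2) (nat_lit 5) (nat_lit 2) (nat_lit 4) (nat_lit 527) (nat_lit 356) (nat_lit 317)) (XT.nd (nat_lit 78) (nat_lit 0) (nat_lit 0) (XT.lf (nat_lit 0) (nat_lit 11133719385645) (nat_lit 76) (nat_lit 995135415463) (nat_lit 76) (nat_lit 994838792298) (nat_lit 1) (nat_lit 4) (nat_lit 2) (nat_lit 5) (nat_lit 2) (nat_lit 4) (nat_lit 528) (nat_lit 356) (nat_lit 316)) (XT.lf (nat_lit 0) (nat_lit 12026095657135) (nat_lit 76) (nat_lit 1073862739120) (nat_lit 76) (nat_lit 1073565055757) (nat_lit 1) (nat_lit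 4) (nat_lit 2) (nat_lit 5) (nat_lit 2) (nat_lit 4) (nat_lit 529) (nat_lit 356) (nat_lit 315)))))) (XT.nd (nat_lit 59436) (nat_lit 0) (nat_lit 0) (XT.nd (nat_lit 59202) (nat_lit 0) (nat_lit 0) (XT.nd (nat_lit 59046) (nat_lit 0) (nat_lit 0) (XT.lf (nat_lit 0) (nat_lit 12989851904181) (nat_lit 76) (nat_lit 1158893428014) (nat_lit 76) (nat_lit 1158594762987) (nat_lit 1) (nat_lit 4) (nat_lit 2) (nat_lit 5) (nat_lit 2) (nat_lit 4) (nat_lit 530) (nat_lit 356) (nat_lit 314)) (XT.nd (nat_lit 78) (nat_lit 0) (nat_lit 0) (XT.lf (nat_lit 0) (nat_lit 199271752760) (nat_lit 76) (nat_lit 30241976210) (nat_lit 76) (nat_lit 30241976210) (nat_lit 1) (nat_lit 4) (nat_lit 2) (nat_lit 5) (nat_lit 2) (nat_lit 4) (nat_lit 486) (nat_lit 357) (nat_lit 357)) (XT.lf (nat_lit 0) (nat_lit 435299761099) (nat_lit 76) (nat_lit 62803468945) (nat_lit 76) (nat_lit 62778594079) (nat_lit 1) (nat_lit 4) (nat_lit 2) (nat_lit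 5) (nat_lit 2) (nat_lit 4) (nat_lit 487) (nat_lit 357) (nat_lit 356)))) (XT.nd (nat_lit 78) (nat_lit 0) (nat_lit 0) (XT.lf (nat_lit 0) (nat_lit 474758932213) (nat_lit 76) (nat_lit 65430067102) (nat_lit 76) (nat_lit 65382159951) (nat_lit 1) (nat_lit 4) (nat_lit 2) (nat_lit 5) (nat_lit 2) (nat_lit 4) (nat_lit 488) (nat_lit 357) (nat_lit 355)) (XT.nd (nat_lit 78) (nat_lit 0) (nat_lit 0) (XT.lf (nat_lit 0) (nat_lit 517154850988) (nat_lit 76) (nat_lit 68379311916) (nat_lit 76) (nat_lit 68310078577) (nat_lit 1) (nat_lit 4) (nat_lit 2) (nat_lit 5) (nat_lit 2) (nat_lit 4) (nat_lit 489) (nat_lit 357) (nat_lit 354)) (XT.lf (nat_lit 0) (nat_lit 562738752499) (nat_lit 76) (nat_lit 71668680395) (nat_lit 76) (nat_lit 71579700584) (nat_lit 1) (nat_lit 4) (nat_lit 2) (nat_lit 5) (nat_lit 2) (nat_lit 4) (nat_lit 490) (nat_lit 357) (nat_lit 353))))) (XT.nd (nat_lit 234) (nat_lit 0) (nat_lit 0) (XT.nd (nat_lit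 78) (nat_lit 0) (nat_lit 0) (XT.lf (nat_lit 0) (nat_lit 611780763568) (nat_lit 76) (nat_lit 75317665091) (nat_lit 76) (nat_lit 75210401511) (nat_lit 1) (nat_lit 4) (nat_lit 2) (nat_lit 5) (nat_lit 2) (nat_lit 4) (nat_lit 491) (nat_lit 357) (nat_lit 352)) (XT.nd (nat_lit 78) (nat_lit 0) (nat_lit 0) (XT.lf (nat_lit 0) (nat_lit 664571503520) (nat_lit 76) (nat_lit 79347889619) (nat_lit 76) (nat_lit 79223696623) (nat_lit 1) (nat_lit 4) (nat_lit 2) (nat_lit 5) (nat_lit 2) (nat_lit 4) (nat_lit 492) (nat_lit 357) (nat_lit 351)) (XT.lf (nat_lit 0) (nat_lit 721423806371) (nat_lit 76) (nat_lit 83783236789) (nat_lit 76) (nat_lit 83643368408) (nat_lit 1) (nat_lit 4) (nat_lit 2) (nat_lit 5) (nat_lit 2) (nat_lit 4) (nat_lit 493) (nat_lit 357) (nat_lit 350)))) (XT.nd (nat_lit 78) (nat_lit 0) (nat_lit 0) (XT.lf (nat_lit 0) (nat_lit 782674574656) (nat_lit 76) (nat_lit 88649990142) (nat_lit 76) (nat_lit 88495607515)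 (nat_lit 1) (nat_lit 4) (nat_lit 2) (nat_lit 5) (nat_lit 2) (nat_lit 4) (nat_lit 494) (nat_lit 357) (nat_lit 349)) (XT.nd (nat_lit 78) (nat_lit 0) (nat_lit 0) (XT.lf (nat_lit 0) (nat_lit 848686775890) (nat_lit 76) (nat_lit 93976989696) (nat_lit 76) (nat_lit 93809167952) (nat_lit 1) (nat_lit 4) (nat_lit 2) (nat_lit 5) (nat_lit 2) (nat_lit 4) (nat_lit 495) (nat_lit 357) (nat_lit 348)) (XT.lf (nat_lit 0) (nat_lit 919851593488) (nat_lit 76) (nat_lit 99795802856) (nat_lit 76) (nat_lit 99615537487) (nat_lit 1) (nat_lit 4) (nat_lit 2) (nat_lit 5) (nat_lit 2) (nat_lit 4) (nat_lit 496) (nat_lit 357) (nat_lit 347))))))))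
noncomputable def xc11 : XT := (XT.nd (nat_lit 1716) (nat_lit 0) (nat_lit 0) (XT.nd (nat_lit 858) (nat_lit 0) (nat_lit 0) (XT.nd (nat_lit 390) (nat_lit 0) (nat_lit 0) (XT.nd (nat_lit 156) (nat_lit 0) (nat_lit 0) (XT.nd (nat_lit 78) (nat_lit 0) (nat_lit 0) (XT.lf (nat_lit 0) (nat_lit 996590744888) (nat_lit 76) (nat_lit 106140911479) (nat_lit 76) (nat_lit 105949124233) (nat_lit 1) (nat_lit 4) (nat_lit 2) (nat_lit 5) (nat_lit 2) (nat_lit 4) (nat_lit 497) (nat_lit 357) (nat_lit 346)) (XT.lf (nat_lit 0) (nat_lit 1079358980616) (nat_lit 76) (nat_lit 113049916208) (nat_lit 76) (nat_lit 112847460558) (nat_lit 1) (nat_lit 4) (nat_lit 2) (nat_lit 5) (nat_lit 2) (nat_lit 4) (nat_lit 498) (nat_lit 357) (nat_lit 345))) (XT.nd (nat_lit 78) (nat_lit 0) (nat_lit 0) (XT.lf (nat_lit 0) (nat_lit 1168646779107) (nat_lit 76) (nat_lit 120563759293) (nat_lit 76) (nat_lit 120351425491) (nat_lit 1) (nat_lit 4)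 (nat_lit 2) (nat_lit 5) (nat_lit 2) (nat_lit 4) (nat_lit 499) (nat_lit 357) (nat_lit 344)) (XT.nd (nat_lit 78) (nat_lit 0) (nat_lit 0) (XT.lf (nat_lit 0) (nat_lit 1264983253240) (nat_lit 76) (nat_lit 128726967212) (nat_lit 76) (nat_lit 128505486973) (nat_lit 1) (nat_lit 4) (nat_lit 2) (nat_lit 5) (nat_lit 2) (nat_lit 4) (nat_lit 500) (nat_lit 357) (nat_lit 343)) (XT.lf (nat_lit 0) (nat_lit 1368939285826) (nat_lit 76) (nat_lit 137587914530) (nat_lit 76) (nat_lit 137357965368) (nat_lit 1) (nat_lit 4) (nat_lit 2) (nat_lit 5) (nat_lit 2) (nat_lit 4) (nat_lit 501) (nat_lit 357) (nat_lit 342))))) (XT.nd (nat_lit 234) (nat_lit 0) (nat_lit 0) (XT.nd (nat_lit 78) (nat_lit 0) (nat_lit 0) (XT.lf (nat_lit 0) (nat_lit 1481130912612) (nat_lit 76) (nat_lit 147199110564) (nat_lit 76) (nat_lit 146961319808) (nat_lit 1) (nat_lit 4) (nat_lit 2) (nat_lit 5) (nat_lit 2) (nat_lit 4) (nat_lit 502) (nat_lit 357)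 (nat_lit 341)) (XT.nd (nat_lit 78) (nat_lit 0) (nat_lit 0) (XT.lf (nat_lit 0) (nat_lit 1602222972869) (nat_lit 76) (nat_lit 157617510551) (nat_lit 76) (nat_lit 157372459058) (nat_lit 1) (nat_lit 4) (nat_lit 2) (nat_lit 5) (nat_lit 2) (nat_lit 4) (nat_lit 503) (nat_lit 357) (nat_lit 340)) (XT.lf (nat_lit 0) (nat_lit 1732933049175) (nat_lit 76) (nat_lit 168904853157) (nat_lit 76) (nat_lit 168653078760) (nat_lit 1) (nat_lit 4) (nat_lit 2) (nat_lit 5) (nat_lit 2) (nat_lit 4) (nat_lit 504) (nat_lit 357) (nat_lit 339)))) (XT.nd (nat_lit 78) (nat_lit 0) (nat_lit 0) (XT.lf (nat_lit 0) (nat_lit 1874035719762) (nat_lit 76) (nat_lit 181128026338) (nat_lit 76) (nat_lit 180870027030) (nat_lit 1) (nat_lit 4) (nat_lit 2) (nat_lit 5) (nat_lit 2) (nat_lit 4) (nat_lit 505) (nat_lit 357) (nat_lit 338)) (XT.nd (nat_lit 78) (nat_lit 0) (nat_lit 0) (XT.lf (nat_lit 0) (nat_lit 2026367148602) (nat_lit 76) (nat_lit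 194359463713) (nat_lit 76) (nat_lit 194095700598) (nat_lit 1) (nat_lit 4) (nat_lit 2) (nat_lit 5) (nat_lit 2) (nat_lit 4) (nat_lit 506) (nat_lit 357) (nat_lit 337)) (XT.lf (nat_lit 0) (nat_lit 2190830040460) (nat_lit 76) (nat_lit 208677573800) (nat_lit 76) (nat_lit 208408473827) (nat_lit 1) (nat_lit 4) (nat_lit 2) (nat_lit 5) (nat_lit 2) (nat_lit 4) (nat_lit 507) (nat_lit 357) (nat_lit 336)))))) (XT.nd (nat_lit 390) (nat_lit 0) (nat_lit 0) (XT.nd (nat_lit 156) (nat_lit 0) (nat_lit 0) (XT.nd (nat_lit 78) (nat_lit 0) (nat_lit 0) (XT.lf (nat_lit 0) (nat_lit 2368398990249) (nat_lit 76) (nat_lit 224167204658) (nat_lit 76) (nat_lit 223893163150) (nat_lit 1) (nat_lit 4) (nat_lit 2) (nat_lit 5) (nat_lit 2) (nat_lit 4) (nat_lit 508) (nat_lit 357) (nat_lit 335)) (XT.lf (nat_lit 0) (nat_lit 2560126258414) (nat_lit 76) (nat_lit 240920146693) (nat_lit 76) (nat_lit 240641529689) (nat_lit 1) (nat_lit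 4) (nat_lit 2) (nat_lit 5) (nat_lit 2) (nat_lit 4) (nat_lit 509) (nat_lit 357) (nat_lit 334))) (XT.nd (nat_lit 78) (nat_lit 0) (nat_lit 0) (XT.lf (nat_lit 0) (nat_lit 2767148006543) (nat_lit 76) (nat_lit 259035676598) (nat_lit 76) (nat_lit 258752823024) (nat_lit 1) (nat_lit 4) (nat_lit 2) (nat_lit 5) (nat_lit 2) (nat_lit 4) (nat_lit 510) (nat_lit 357) (nat_lit 333)) (XT.nd (nat_lit 78) (nat_lit 0) (nat_lit 0) (XT.lf (nat_lit 0) (nat_lit 2990691030180) (nat_lit 76) (nat_lit 278621145662) (nat_lit 76) (nat_lit 278334369338) (nat_lit 1) (nat_lit 4) (nat_lit 2) (nat_lit 5) (nat_lit 2) (nat_lit 4) (nat_lit 511) (nat_lit 357) (nat_lit 332)) (XT.lf (nat_lit 0) (nat_lit 3232080028726) (nat_lit 76) (nat_lit 299792615923) (nat_lit 76) (nat_lit 299502207423) (nat_lit 1) (nat_lit 4) (nat_lit 2) (nat_lit 5) (nat_lit 2) (nat_lit 4) (nat_lit 512) (nat_lit 357) (nat_lit 331))))) (XT.nd (nat_lit 234) (nat_lit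 0) (nat_lit 0) (XT.nd (nat_lit 78) (nat_lit 0) (nat_lit 0) (XT.lf (nat_lit 0) (nat_lit 3492745455504) (nat_lit 76) (nat_lit 322675547946) (nat_lit 76) (nat_lit 322381776320) (nat_lit 1) (nat_lit 4) (nat_lit 2) (nat_lit 5) (nat_lit 2) (nat_lit 4) (nat_lit 513) (nat_lit 357) (nat_lit 330)) (XT.nd (nat_lit 78) (nat_lit 0) (nat_lit 0) (XT.lf (nat_lit 0) (nat_lit 3774231994526) (nat_lit 76) (nat_lit 347405544291) (nat_lit 76) (nat_lit 347108658660) (nat_lit 1) (nat_lit 4) (nat_lit 2) (nat_lit 5) (nat_lit 2) (nat_lit 4) (nat_lit 514) (nat_lit 357) (nat_lit 329)) (XT.lf (nat_lit 0) (nat_lit 4078207714170) (nat_lit 76) (nat_lit 374129153084) (nat_lit 76) (nat_lit 373829384115) (nat_lit 1) (nat_lit 4) (nat_lit 2) (nat_lit 5) (nat_lit 2) (nat_lit 4) (nat_lit 515) (nat_lit 357) (nat_lit 328)))) (XT.nd (nat_lit 78) (nat_lit 0) (nat_lit 0) (XT.lf (nat_lit 0) (nat_lit 4406473952035) (nat_lit 76) (nat_lit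 403004736452) (nat_lit 76) (nat_lit 402702297725) (nat_lit 1) (nat_lit 4) (nat_lit 2) (nat_lit 5) (nat_lit 2) (nat_lit 4) (nat_lit 516) (nat_lit 357) (nat_lit 327)) (XT.nd (nat_lit 78) (nat_lit 0) (nat_lit 0) (XT.lf (nat_lit 0) (nat_lit 4760975989530) (nat_lit 76) (nat_lit 434203408963) (nat_lit 76) (nat_lit 433898498238) (nat_lit 1) (nat_lit 4) (nat_lit 2) (nat_lit 5) (nat_lit 2) (nat_lit 4) (nat_lit 517) (nat_lit 357) (nat_lit 326)) (XT.lf (nat_lit 0) (nat_lit 5143814579471) (nat_lit 76) (nat_lit 467910051639) (nat_lit 76) (nat_lit 467602852028) (nat_lit 1) (nat_lit 4) (nat_lit 2) (nat_lit 5) (nat_lit 2) (nat_lit 4) (nat_lit 518) (nat_lit 357) (nat_lit 325))))))) (XT.nd (nat_lit 858) (nat_lit 0) (nat_lit 0) (XT.nd (nat_lit 390) (nat_lit 0) (nat_lit 0) (XT.nd (nat_lit 156) (nat_lit 0) (nat_lit 0) (XT.nd (nat_lit 78) (nat_lit 0) (nat_lit 0) (XT.lf (nat_lit 0) (nat_lit 5557258394981) (nat_lit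 76) (nat_lit 504324407548) (nat_lit 76) (nat_lit 504015088597) (nat_lit 1) (nat_lit 4) (nat_lit 2) (nat_lit 5) (nat_lit 2) (nat_lit 4) (nat_lit 519) (nat_lit 357) (nat_lit 324)) (XT.lf (nat_lit 0) (nat_lit 6003757473487) (nat_lit 76) (nat_lit 543662265466) (nat_lit 76) (nat_lit 543350984163) (nat_lit 1) (nat_lit 4) (nat_lit 2) (nat_lit 5) (nat_lit 2) (nat_lit 4) (nat_lit 520) (nat_lit 357) (nat_lit 323))) (XT.nd (nat_lit 78) (nat_lit 0) (nat_lit 0) (XT.lf (nat_lit 0) (nat_lit 6485957735455) (nat_lit 76) (nat_lit 586156738624) (nat_lit 76) (nat_lit 585843640329) (nat_lit 1) (nat_lit 4) (nat_lit 2) (nat_lit 5) (nat_lit 2) (nat_lit 4) (nat_lit 521) (nat_lit 357) (nat_lit 322)) (XT.nd (nat_lit 78) (nat_lit 0) (nat_lit 0) (XT.lf (nat_lit 0) (nat_lit 7006716663917) (nat_lit 76) (nat_lit 632059646123) (nat_lit 76) (nat_lit 631744865428) (nat_lit 1) (nat_lit 4) (nat_lit 2) (nat_lit 5) (nat_lit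 2) (nat_lit 4) (nat_lit 522) (nat_lit 357) (nat_lit 321)) (XT.lf (nat_lit 0) (nat_lit 7569120237709) (nat_lit 76) (nat_lit 681643005193) (nat_lit 76) (nat_lit 681326666719) (nat_lit 1) (nat_lit 4) (nat_lit 2) (nat_lit 5) (nat_lit 2) (nat_lit 4) (nat_lit 523) (nat_lit 357) (nat_lit 320))))) (XT.nd (nat_lit 234) (nat_lit 0) (nat_lit 0) (XT.nd (nat_lit 78) (nat_lit 0) (nat_lit 0) (XT.lf (nat_lit 0) (nat_lit 8176501218751) (nat_lit 76) (nat_lit 735200643146) (nat_lit 76) (nat_lit 734882862285) (nat_lit 1) (nat_lit 4) (nat_lit 2) (nat_lit 5) (nat_lit 2) (nat_lit 4) (nat_lit 524) (nat_lit 357) (nat_lit 319)) (XT.nd (nat_lit 78) (nat_lit 0) (nat_lit 0) (XT.lf (nat_lit 0) (nat_lit 8832458901744) (nat_lit 76) (nat_lit 793049938578) (nat_lit 76) (nat_lit 792730822174) (nat_lit 1) (nat_lit 4) (nat_lit 2) (nat_lit 5) (nat_lit 2) (nat_lit 4) (nat_lit 525) (nat_lit 357) (nat_lit 318)) (XT.lf (nat_lit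 0) (nat_lit 9540880443328) (nat_lit 76) (nat_lit 855533702128) (nat_lit 76) (nat_lit 855213349109) (nat_lit 1) (nat_lit 4) (nat_lit 2) (nat_lit 5) (nat_lit 2) (nat_lit 4) (nat_lit 526) (nat_lit 357) (nat_lit 317)))) (XT.nd (nat_lit 78) (nat_lit 0) (nat_lit 0) (XT.lf (nat_lit 0) (nat_lit 10305963897083) (nat_lit 76) (nat_lit 923022207951) (nat_lit 76) (nat_lit 922700709919) (nat_lit 1) (nat_lit 4) (nat_lit 2) (nat_lit 5) (nat_lit 2) (nat_lit 4) (nat_lit 527) (nat_lit 357) (nat_lit 316)) (XT.nd (nat_lit 78) (nat_lit 0) (nat_lit 0) (XT.lf (nat_lit 0) (nat_lit 11132243090884) (nat_lit 76) (nat_lit 995915387933) (nat_lit 76) (nat_lit 995592829704) (nat_lit 1) (nat_lit 4) (nat_lit 2) (nat_lit 5) (nat_lit 2) (nat_lit 4) (nat_lit 528) (nat_lit 357) (nat_lit 315)) (XT.lf (nat_lit 0) (nat_lit 12024614494026) (nat_lit 76) (nat_lit 1074645201659) (nat_lit 76) (nat_lit 1074321661766) (nat_lit 1) (nat_lit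 4) (nat_lit 2) (nat_lit 5) (nat_lit 2) (nat_lit 4) (nat_lit 529) (nat_lit 357) (nat_lit 314)))))) (XT.nd (nat_lit 59280) (nat_lit 0) (nat_lit 0) (XT.nd (nat_lit 59046) (nat_lit 0) (nat_lit 0) (XT.nd (nat_lit 58890) (nat_lit 0) (nat_lit 0) (XT.lf (nat_lit 0) (nat_lit 12988366233344) (nat_lit 76) (nat_lit 1159678196174) (nat_lit 76) (nat_lit 1159353747332) (nat_lit 1) (nat_lit 4) (nat_lit 2) (nat_lit 5) (nat_lit 2) (nat_lit 4) (nat_lit 530) (nat_lit 357) (nat_lit 313)) (XT.nd (nat_lit 78) (nat_lit 0) (nat_lit 0) (XT.lf (nat_lit 0) (nat_lit 166208219204) (nat_lit 76) (nat_lit 28335820714) (nat_lit 76) (nat_lit 28335820714) (nat_lit 1) (nat_lit 4) (nat_lit 2) (nat_lit 5) (nat_lit 2) (nat_lit 4) (nat_lit 484) (nat_lit 358) (nat_lit 358)) (XT.lf (nat_lit 0) (nat_lit 364272350629) (nat_lit 76) (nat_lit 58484637100) (nat_lit 76) (nat_lit 58457772244) (nat_lit 1) (nat_lit 4) (nat_lit 2) (nat_lit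 5) (nat_lit 2) (nat_lit 4) (nat_lit 485) (nat_lit 358) (nat_lit 357)))) (XT.nd (nat_lit 78) (nat_lit 0) (nat_lit 0) (XT.lf (nat_lit 0) (nat_lit 398420144124) (nat_lit 76) (nat_lit 60573914360) (nat_lit 76) (nat_lit 60522174638) (nat_lit 1) (nat_lit 4) (nat_lit 2) (nat_lit 5) (nat_lit 2) (nat_lit 4) (nat_lit 486) (nat_lit 358) (nat_lit 356)) (XT.nd (nat_lit 78) (nat_lit 0) (nat_lit 0) (XT.lf (nat_lit 0) (nat_lit 435062176188) (nat_lit 76) (nat_lit 62951854111) (nat_lit 76) (nat_lit 62877082105) (nat_lit 1) (nat_lit 4) (nat_lit 2) (nat_lit 5) (nat_lit 2) (nat_lit 4) (nat_lit 487) (nat_lit 358) (nat_lit 355)) (XT.lf (nat_lit 0) (nat_lit 474415584789) (nat_lit 76) (nat_lit 65632547847) (nat_lit 76) (nat_lit 65536449652) (nat_lit 1) (nat_lit 4) (nat_lit 2) (nat_lit 5) (nat_lit 2) (nat_lit 4) (nat_lit 488) (nat_lit 358) (nat_lit 354))))) (XT.nd (nat_lit 234) (nat_lit 0) (nat_lit 0) (XT.nd (nat_lit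 78) (nat_lit 0) (nat_lit 0) (XT.lf (nat_lit 0) (nat_lit 516713575311) (nat_lit 76) (nat_lit 68631881161) (nat_lit 76) (nat_lit 68516036495) (nat_lit 1) (nat_lit 4) (nat_lit 2) (nat_lit 5) (nat_lit 2) (nat_lit 4) (nat_lit 489) (nat_lit 358) (nat_lit 353)) (XT.nd (nat_lit 78) (nat_lit 0) (nat_lit 0) (XT.lf (nat_lit 0) (nat_lit 562206802512) (nat_lit 76) (nat_lit 71967627879) (nat_lit 76) (nat_lit 71833499444) (nat_lit 1) (nat_lit 4) (nat_lit 2) (nat_lit 5) (nat_lit 2) (nat_lit 4) (nat_lit 490) (nat_lit 358) (nat_lit 352)) (XT.lf (nat_lit 0) (nat_lit 611164855888) (nat_lit 76) (nat_lit 75659555391) (nat_lit 76) (nat_lit 75508497539) (nat_lit 1) (nat_lit 4) (nat_lit 2) (nat_lit 5) (nat_lit 2) (nat_lit 4) (nat_lit 491) (nat_lit 358) (nat_lit 351)))) (XT.nd (nat_lit 78) (nat_lit 0) (nat_lit 0) (XT.lf (nat_lit 0) (nat_lit 663877857236) (nat_lit 76) (nat_lit 79729541784) (nat_lit 76) (nat_lit 79562808547)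 (nat_lit 1) (nat_lit 4) (nat_lit 2) (nat_lit 5) (nat_lit 2) (nat_lit 4) (nat_lit 492) (nat_lit 358) (nat_lit 350)) (XT.nd (nat_lit 78) (nat_lit 0) (nat_lit 0) (XT.lf (nat_lit 0) (nat_lit 720658179897) (nat_lit 76) (nat_lit 84201705497) (nat_lit 76) (nat_lit 84020458014) (nat_lit 1) (nat_lit 4) (nat_lit 2) (nat_lit 5) (nat_lit 2) (nat_lit 4) (nat_lit 493) (nat_lit 358) (nat_lit 349)) (XT.lf (nat_lit 0) (nat_lit 781842299858) (nat_lit 76) (nat_lit 89102548241) (nat_lit 76) (nat_lit 88907861641) (nat_lit 1) (nat_lit 4) (nat_lit 2) (nat_lit 5) (nat_lit 2) (nat_lit 4) (nat_lit 494) (nat_lit 358) (nat_lit 348))))))))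
noncomputable def xc12 : XT := (XT.nd (nat_lit 1716) (nat_lit 0) (nat_lit 0) (XT.nd (nat_lit 858) (nat_lit 0) (nat_lit 0) (XT.nd (nat_lit 390) (nat_lit 0) (nat_lit 0) (XT.nd (nat_lit 156) (nat_lit 0) (nat_lit 0) (XT.nd (nat_lit 78) (nat_lit 0) (nat_lit 0) (XT.lf (nat_lit 0) (nat_lit 847792789681) (nat_lit 76) (nat_lit 94461112046) (nat_lit 76) (nat_lit 94253981820) (nat_lit 1) (nat_lit 4) (nat_lit 2) (nat_lit 5) (nat_lit 2) (nat_lit 4) (nat_lit 495) (nat_lit 358) (nat_lit 347)) (XT.lf (nat_lit 0) (nat_lit 918900467084) (nat_lit 76) (nat_lit 100309151365) (nat_lit 76) (nat_lit 100090499263) (nat_lit 1) (nat_lit 4) (nat_lit 2) (nat_lit 5) (nat_lit 2) (nat_lit 4) (nat_lit 496) (nat_lit 358) (nat_lit 346))) (XT.nd (nat_lit 78) (nat_lit 0) (nat_lit 0) (XT.lf (nat_lit 0) (nat_lit 995586710896) (nat_lit 76) (nat_lit 106681321245) (nat_lit 76) (nat_lit 106452000740) (nat_lit 1) (nat_lit 4) (nat_lit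 2) (nat_lit 5) (nat_lit 2) (nat_lit 4) (nat_lit 497) (nat_lit 358) (nat_lit 345)) (XT.nd (nat_lit 78) (nat_lit 0) (nat_lit 0) (XT.lf (nat_lit 0) (nat_lit 1078305958117) (nat_lit 76) (nat_lit 113615382694) (nat_lit 76) (nat_lit 113376184037) (nat_lit 1) (nat_lit 4) (nat_lit 2) (nat_lit 5) (nat_lit 2) (nat_lit 4) (nat_lit 498) (nat_lit 358) (nat_lit 344)) (XT.lf (nat_lit 0) (nat_lit 1167548396878) (nat_lit 76) (nat_lit 121152426446) (nat_lit 76) (nat_lit 120904081352) (nat_lit 1) (nat_lit 4) (nat_lit 2) (nat_lit 5) (nat_lit 2) (nat_lit 4) (nat_lit 499) (nat_lit 358) (nat_lit 343))))) (XT.nd (nat_lit 234) (nat_lit 0) (nat_lit 0) (XT.nd (nat_lit 78) (nat_lit 0) (nat_lit 0) (XT.lf (nat_lit 0) (nat_lit 1263842871262) (nat_lit 76) (nat_lit 129337116464) (nat_lit 76) (nat_lit 129080302447) (nat_lit 1) (nat_lit 4) (nat_lit 2) (nat_lit 5) (nat_lit 2) (nat_lit 4) (nat_lit 500) (nat_lit 358) (nat_lit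 342)) (XT.nd (nat_lit 78) (nat_lit 0) (nat_lit 0) (XT.lf (nat_lit 0) (nat_lit 1367760015191) (nat_lit 76) (nat_lit 138217954614) (nat_lit 76) (nat_lit 137953299002) (nat_lit 1) (nat_lit 4) (nat_lit 2) (nat_lit 5) (nat_lit 2) (nat_lit 4) (nat_lit 501) (nat_lit 358) (nat_lit 341)) (XT.lf (nat_lit 0) (nat_lit 1479915633962) (nat_lit 76) (nat_lit 147847568086) (nat_lit 76) (nat_lit 147575651737) (nat_lit 1) (nat_lit 4) (nat_lit 2) (nat_lit 5) (nat_lit 2) (nat_lit 4) (nat_lit 502) (nat_lit 358) (nat_lit 340)))) (XT.nd (nat_lit 78) (nat_lit 0) (nat_lit 0) (XT.lf (nat_lit 0) (nat_lit 1600974353463) (nat_lit 76) (nat_lit 158283021255) (nat_lit 76) (nat_lit 158004382002) (nat_lit 1) (nat_lit 4) (nat_lit 2) (nat_lit 5) (nat_lit 2) (nat_lit 4) (nat_lit 503) (nat_lit 358) (nat_lit 339)) (XT.nd (nat_lit 78) (nat_lit 0) (nat_lit 0) (XT.lf (nat_lit 0) (nat_lit 1731653558700) (nat_lit 76) (nat_lit 169586153845)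 (nat_lit 76) (nat_lit 169301289681) (nat_lit 1) (nat_lit 4) (nat_lit 2) (nat_lit 5) (nat_lit 2) (nat_lit 4) (nat_lit 504) (nat_lit 358) (nat_lit 338)) (XT.lf (nat_lit 0) (nat_lit 1872727644963) (nat_lit 76) (nat_lit 181823947382) (nat_lit 76) (nat_lit 181533319411) (nat_lit 1) (nat_lit 4) (nat_lit 2) (nat_lit 5) (nat_lit 2) (nat_lit 4) (nat_lit 505) (nat_lit 358) (nat_lit 337)))))) (XT.nd (nat_lit 390) (nat_lit 0) (nat_lit 0) (XT.nd (nat_lit 156) (nat_lit 0) (nat_lit 0) (XT.nd (nat_lit 78) (nat_lit 0) (nat_lit 0) (XT.lf (nat_lit 0) (nat_lit 2025032606837) (nat_lit 76) (nat_lit 195068922123) (nat_lit 76) (nat_lit 194772957294) (nat_lit 1) (nat_lit 4) (nat_lit 2) (nat_lit 5) (nat_lit 2) (nat_lit 4) (nat_lit 506) (nat_lit 358) (nat_lit 336)) (XT.lf (nat_lit 0) (nat_lit 2189470992245) (nat_lit 76) (nat_lit 209399566808) (nat_lit 76) (nat_lit 209098660444) (nat_lit 1) (nat_lit 4) (nat_lit 2)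 (nat_lit 5) (nat_lit 2) (nat_lit 4) (nat_lit 507) (nat_lit 358) (nat_lit 335))) (XT.nd (nat_lit 78) (nat_lit 0) (nat_lit 0) (XT.lf (nat_lit 0) (nat_lit 2367017250876) (nat_lit 76) (nat_lit 224900803776) (nat_lit 76) (nat_lit 224595321916) (nat_lit 1) (nat_lit 4) (nat_lit 2) (nat_lit 5) (nat_lit 2) (nat_lit 4) (nat_lit 508) (nat_lit 358) (nat_lit 334)) (XT.nd (nat_lit 78) (nat_lit 0) (nat_lit 0) (XT.lf (nat_lit 0) (nat_lit 2558723508710) (nat_lit 76) (nat_lit 241664492209) (nat_lit 76) (nat_lit 241354773779) (nat_lit 1) (nat_lit 4) (nat_lit 2) (nat_lit 5) (nat_lit 2) (nat_lit 4) (nat_lit 509) (nat_lit 358) (nat_lit 333)) (XT.lf (nat_lit 0) (nat_lit 2765725802828) (nat_lit 76) (nat_lit 259789972482) (nat_lit 76) (nat_lit 259476331303) (nat_lit 1) (nat_lit 4) (nat_lit 2) (nat_lit 5) (nat_lit 2) (nat_lit 4) (nat_lit 510) (nat_lit 358) (nat_lit 332))))) (XT.nd (nat_lit 234) (nat_lit 0) (nat_lit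 0) (XT.nd (nat_lit 78) (nat_lit 0) (nat_lit 0) (XT.lf (nat_lit 0) (nat_lit 2989250813493) (nat_lit 76) (nat_lit 279384654850) (nat_lit 76) (nat_lit 279067381494) (nat_lit 1) (nat_lit 4) (nat_lit 2) (nat_lit 5) (nat_lit 2) (nat_lit 4) (nat_lit 511) (nat_lit 358) (nat_lit 331)) (XT.nd (nat_lit 78) (nat_lit 0) (nat_lit 0) (XT.lf (nat_lit 0) (nat_lit 3230623133360) (nat_lit 76) (nat_lit 300564655948) (nat_lit 76) (nat_lit 300244019467) (nat_lit 1) (nat_lit 4) (nat_lit 2) (nat_lit 5) (nat_lit 2) (nat_lit 4) (nat_lit 512) (nat_lit 358) (nat_lit 330)) (XT.lf (nat_lit 0) (nat_lit 3491273116918) (nat_lit 76) (nat_lit 323455486894) (nat_lit 76) (nat_lit 323131736407) (nat_lit 1) (nat_lit 4) (nat_lit 2) (nat_lit 5) (nat_lit 2) (nat_lit 4) (nat_lit 513) (nat_lit 358) (nat_lit 329)))) (XT.nd (nat_lit 78) (nat_lit 0) (nat_lit 0) (XT.lf (nat_lit 0) (nat_lit 3772745356661) (nat_lit 76) (nat_lit 348192797057)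 (nat_lit 76) (nat_lit 347866163232) (nat_lit 1) (nat_lit 4) (nat_lit 2) (nat_lit 5) (nat_lit 2) (nat_lit 4) (nat_lit 514) (nat_lit 358) (nat_lit 328)) (XT.nd (nat_lit 78) (nat_lit 0) (nat_lit 0) (XT.lf (nat_lit 0) (nat_lit 4076707836233) (nat_lit 76) (nat_lit 374923177904) (nat_lit 76) (nat_lit 374593874321) (nat_lit 1) (nat_lit 4) (nat_lit 2) (nat_lit 5) (nat_lit 2) (nat_lit 4) (nat_lit 515) (nat_lit 358) (nat_lit 327)) (XT.lf (nat_lit 0) (nat_lit 4404961814772) (nat_lit 76) (nat_lit 403805031692) (nat_lit 76) (nat_lit 403473256111) (nat_lit 1) (nat_lit 4) (nat_lit 2) (nat_lit 5) (nat_lit 2) (nat_lit 4) (nat_lit 516) (nat_lit 358) (nat_lit 326))))))) (XT.nd (nat_lit 858) (nat_lit 0) (nat_lit 0) (XT.nd (nat_lit 390) (nat_lit 0) (nat_lit 0) (XT.nd (nat_lit 156) (nat_lit 0) (nat_lit 0) (XT.nd (nat_lit 78) (nat_lit 0) (nat_lit 0) (XT.lf (nat_lit 0) (nat_lit 4759452501039) (nat_lit 76) (nat_lit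 435009510147) (nat_lit 76) (nat_lit 434675445680) (nat_lit 1) (nat_lit 4) (nat_lit 2) (nat_lit 5) (nat_lit 2) (nat_lit 4) (nat_lit 517) (nat_lit 358) (nat_lit 325)) (XT.lf (nat_lit 0) (nat_lit 5142280580582) (nat_lit 76) (nat_lit 468721528698) (nat_lit 76) (nat_lit 468385344890) (nat_lit 1) (nat_lit 4) (nat_lit 2) (nat_lit 5) (nat_lit 2) (nat_lit 4) (nat_lit 518) (nat_lit 358) (nat_lit 324))) (XT.nd (nat_lit 78) (nat_lit 0) (nat_lit 0) (XT.lf (nat_lit 0) (nat_lit 5555714664244) (nat_lit 76) (nat_lit 505140862268) (nat_lit 76) (nat_lit 504802716109) (nat_lit 1) (nat_lit 4) (nat_lit 2) (nat_lit 5) (nat_lit 2) (nat_lit 4) (nat_lit 519) (nat_lit 358) (nat_lit 323)) (XT.nd (nat_lit 78) (nat_lit 0) (nat_lit 0) (XT.lf (nat_lit 0) (nat_lit 6002204731780) (nat_lit 76) (nat_lit 544483329131) (nat_lit 76) (nat_lit 544143365980) (nat_lit 1) (nat_lit 4) (nat_lit 2) (nat_lit 5) (nat_lit 2) (nat_lit 4)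 (nat_lit 520) (nat_lit 358) (nat_lit 322)) (XT.lf (nat_lit 0) (nat_lit 6484396650255) (nat_lit 76) (nat_lit 586982069832) (nat_lit 76) (nat_lit 586640424281) (nat_lit 1) (nat_lit 4) (nat_lit 2) (nat_lit 5) (nat_lit 2) (nat_lit 4) (nat_lit 521) (nat_lit 358) (nat_lit 321))))) (XT.nd (nat_lit 234) (nat_lit 0) (nat_lit 0) (XT.nd (nat_lit 78) (nat_lit 0) (nat_lit 0) (XT.lf (nat_lit 0) (nat_lit 7005147853263) (nat_lit 76) (nat_lit 632888928759) (nat_lit 76) (nat_lit 632545725430) (nat_lit 1) (nat_lit 4) (nat_lit 2) (nat_lit 5) (nat_lit 2) (nat_lit 4) (nat_lit 522) (nat_lit 358) (nat_lit 320)) (XT.nd (nat_lit 78) (nat_lit 0) (nat_lit 0) (XT.lf (nat_lit 0) (nat_lit 7567544273856) (nat_lit 76) (nat_lit 682475946559) (nat_lit 76) (nat_lit 682131300842) (nat_lit 1) (nat_lit 4) (nat_lit 2) (nat_lit 5) (nat_lit 2) (nat_lit 4) (nat_lit 523) (nat_lit 358) (nat_lit 319)) (XT.lf (nat_lit 0) (nat_lit 8174918631564)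 (nat_lit 76) (nat_lit 736036972225) (nat_lit 76) (nat_lit 735690990964) (nat_lit 1) (nat_lit 4) (nat_lit 2) (nat_lit 5) (nat_lit 2) (nat_lit 4) (nat_lit 524) (nat_lit 358) (nat_lit 318)))) (XT.nd (nat_lit 78) (nat_lit 0) (nat_lit 0) (XT.lf (nat_lit 0) (nat_lit 8830870181842) (nat_lit 76) (nat_lit 793889404427) (nat_lit 76) (nat_lit 793542186553) (nat_lit 1) (nat_lit 4) (nat_lit 2) (nat_lit 5) (nat_lit 2) (nat_lit 4) (nat_lit 525) (nat_lit 358) (nat_lit 317)) (XT.nd (nat_lit 78) (nat_lit 0) (nat_lit 0) (XT.lf (nat_lit 0) (nat_lit 9539286044986) (nat_lit 76) (nat_lit 856376072395) (nat_lit 76) (nat_lit 856027709508) (nat_lit 1) (nat_lit 4) (nat_lit 2) (nat_lit 5) (nat_lit 2) (nat_lit 4) (nat_lit 526) (nat_lit 358) (nat_lit 316)) (XT.lf (nat_lit 0) (nat_lit 10304364240926) (nat_lit 76) (nat_lit 923867267494) (nat_lit 76) (nat_lit 923517844409) (nat_lit 1) (nat_lit 4) (nat_lit 2) (nat_lit 5)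 (nat_lit 2) (nat_lit 4) (nat_lit 527) (nat_lit 358) (nat_lit 315)))))) (XT.nd (nat_lit 59124) (nat_lit 0) (nat_lit 0) (XT.nd (nat_lit 58890) (nat_lit 0) (nat_lit 0) (XT.nd (nat_lit 78) (nat_lit 0) (nat_lit 0) (XT.lf (nat_lit 0) (nat_lit 11130638566380) (nat_lit 76) (nat_lit 996762937546) (nat_lit 76) (nat_lit 996412532796) (nat_lit 1) (nat_lit 4) (nat_lit 2) (nat_lit 5) (nat_lit 2) (nat_lit 4) (nat_lit 528) (nat_lit 358) (nat_lit 314)) (XT.nd (nat_lit 78) (nat_lit 0) (nat_lit 0) (XT.lf (nat_lit 0) (nat_lit 12023005461793) (nat_lit 76) (nat_lit 1075495056893) (nat_lit 76) (nat_lit 1075143743195) (nat_lit 1) (nat_lit 4) (nat_lit 2) (nat_lit 5) (nat_lit 2) (nat_lit 4) (nat_lit 529) (nat_lit 358) (nat_lit 313)) (XT.lf (nat_lit 0) (nat_lit 12986753027288) (nat_lit 76) (nat_lit 1160530186241) (nat_lit 76) (nat_lit 1160178030924) (nat_lit 1) (nat_lit 4) (nat_lit 2) (nat_lit 5) (nat_lit 2) (nat_lit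 4) (nat_lit 530) (nat_lit 358) (nat_lit 312)))) (XT.nd (nat_lit 78) (nat_lit 0) (nat_lit 0) (XT.lf (nat_lit 0) (nat_lit 137490753132) (nat_lit 76) (nat_lit 26894255650) (nat_lit 76) (nat_lit 26894255650) (nat_lit 1) (nat_lit 4) (nat_lit 2) (nat_lit 5) (nat_lit 2) (nat_lit 4) (nat_lit 482) (nat_lit 359) (nat_lit 359)) (XT.nd (nat_lit 78) (nat_lit 0) (nat_lit 0) (XT.lf (nat_lit 0) (nat_lit 302663631686) (nat_lit 76) (nat_lit 55153197711) (nat_lit 76) (nat_lit 55124183666) (nat_lit 1) (nat_lit 4) (nat_lit 2) (nat_lit 5) (nat_lit 2) (nat_lit 4) (nat_lit 483) (nat_lit 359) (nat_lit 358)) (XT.lf (nat_lit 0) (nat_lit 332283208101) (nat_lit 76) (nat_lit 56768800323) (nat_lit 76) (nat_lit 56712921423) (nat_lit 1) (nat_lit 4) (nat_lit 2) (nat_lit 5) (nat_lit 2) (nat_lit 4) (nat_lit 484) (nat_lit 359) (nat_lit 357))))) (XT.nd (nat_lit 234) (nat_lit 0) (nat_lit 0) (XT.nd (nat_lit 78) (nat_lit 0) (nat_lit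 0) (XT.lf (nat_lit 0) (nat_lit 364015758926) (nat_lit 76) (nat_lit 58644893079) (nat_lit 76) (nat_lit 58564139312) (nat_lit 1) (nat_lit 4) (nat_lit 2) (nat_lit 5) (nat_lit 2) (nat_lit 4) (nat_lit 485) (nat_lit 359) (nat_lit 356)) (XT.nd (nat_lit 78) (nat_lit 0) (nat_lit 0) (XT.lf (nat_lit 0) (nat_lit 398049328906) (nat_lit 76) (nat_lit 60792593565) (nat_lit 76) (nat_lit 60688807514) (nat_lit 1) (nat_lit 4) (nat_lit 2) (nat_lit 5) (nat_lit 2) (nat_lit 4) (nat_lit 486) (nat_lit 359) (nat_lit 355)) (XT.lf (nat_lit 0) (nat_lit 434585598457) (nat_lit 76) (nat_lit 63224628895) (nat_lit 76) (nat_lit 63099516656) (nat_lit 1) (nat_lit 4) (nat_lit 2) (nat_lit 5) (nat_lit 2) (nat_lit 4) (nat_lit 487) (nat_lit 359) (nat_lit 354)))) (XT.nd (nat_lit 78) (nat_lit 0) (nat_lit 0) (XT.lf (nat_lit 0) (nat_lit 473841078804) (nat_lit 76) (nat_lit 65955411130) (nat_lit 76) (nat_lit 65810552420) (nat_lit 1) (nat_lit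 4) (nat_lit 2) (nat_lit 5) (nat_lit 2) (nat_lit 4) (nat_lit 488) (nat_lit 359) (nat_lit 353)) (XT.nd (nat_lit 78) (nat_lit 0) (nat_lit 0) (XT.lf (nat_lit 0) (nat_lit 516048395017) (nat_lit 76) (nat_lit 69001122685) (nat_lit 76) (nat_lit 68837980205) (nat_lit 1) (nat_lit 4) (nat_lit 2) (nat_lit 5) (nat_lit 2) (nat_lit 4) (nat_lit 489) (nat_lit 359) (nat_lit 352)) (XT.lf (nat_lit 0) (nat_lit 561457664525) (nat_lit 76) (nat_lit 72379812218) (nat_lit 76) (nat_lit 72199740322) (nat_lit 1) (nat_lit 4) (nat_lit 2) (nat_lit 5) (nat_lit 2) (nat_lit 4) (nat_lit 490) (nat_lit 359) (nat_lit 351))))))))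
noncomputable def xc13 : XT := (XT.nd (nat_lit 1716) (nat_lit 0) (nat_lit 0) (XT.nd (nat_lit 858) (nat_lit 0) (nat_lit 0) (XT.nd (nat_lit 390) (nat_lit 0) (nat_lit 0) (XT.nd (nat_lit 156) (nat_lit 0) (nat_lit 0) (XT.nd (nat_lit 78) (nat_lit 0) (nat_lit 0) (XT.lf (nat_lit 0) (nat_lit 610337979297) (nat_lit 76) (nat_lit 76111501596) (nat_lit 76) (nat_lit 75915754314) (nat_lit 1) (nat_lit 4) (nat_lit 2) (nat_lit 5) (nat_lit 2) (nat_lit 4) (nat_lit 491) (nat_lit 359) (nat_lit 350)) (XT.lf (nat_lit 0) (nat_lit 662979000455) (nat_lit 76) (nat_lit 80218304531) (nat_lit 76) (nat_lit 80008043004) (nat_lit 1) (nat_lit 4) (nat_lit 2) (nat_lit 5) (nat_lit 2) (nat_lit 4) (nat_lit 492) (nat_lit 359) (nat_lit 349))) (XT.nd (nat_lit 78) (nat_lit 0) (nat_lit 0) (XT.lf (nat_lit 0) (nat_lit 719692674792) (nat_lit 76) (nat_lit 84724557635) (nat_lit 76) (nat_lit 84500856992) (nat_lit 1) (nat_lit 4) (nat_lit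 2) (nat_lit 5) (nat_lit 2) (nat_lit 4) (nat_lit 493) (nat_lit 359) (nat_lit 348)) (XT.nd (nat_lit 78) (nat_lit 0) (nat_lit 0) (XT.lf (nat_lit 0) (nat_lit 780815083342) (nat_lit 76) (nat_lit 89656964630) (nat_lit 76) (nat_lit 89420820360) (nat_lit 1) (nat_lit 4) (nat_lit 2) (nat_lit 5) (nat_lit 2) (nat_lit 4) (nat_lit 494) (nat_lit 359) (nat_lit 347)) (XT.lf (nat_lit 0) (nat_lit 846708432970) (nat_lit 76) (nat_lit 95044754593) (nat_lit 76) (nat_lit 94797088447) (nat_lit 1) (nat_lit 4) (nat_lit 2) (nat_lit 5) (nat_lit 2) (nat_lit 4) (nat_lit 495) (nat_lit 359) (nat_lit 346))))) (XT.nd (nat_lit 234) (nat_lit 0) (nat_lit 0) (XT.nd (nat_lit 78) (nat_lit 0) (nat_lit 0) (XT.lf (nat_lit 0) (nat_lit 917763202785) (nat_lit 76) (nat_lit 100919855170) (nat_lit 76) (nat_lit 100661520620) (nat_lit 1) (nat_lit 4) (nat_lit 2) (nat_lit 5) (nat_lit 2) (nat_lit 4) (nat_lit 496) (nat_lit 359) (nat_lit 345))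 (XT.nd (nat_lit 78) (nat_lit 0) (nat_lit 0) (XT.lf (nat_lit 0) (nat_lit 994400458089) (nat_lit 76) (nat_lit 107317081771) (nat_lit 76) (nat_lit 107048869069) (nat_lit 1) (nat_lit 4) (nat_lit 2) (nat_lit 5) (nat_lit 2) (nat_lit 4) (nat_lit 497) (nat_lit 359) (nat_lit 344)) (XT.lf (nat_lit 0) (nat_lit 1077074345580) (nat_lit 76) (nat_lit 114274343887) (nat_lit 76) (nat_lit 113996984748) (nat_lit 1) (nat_lit 4) (nat_lit 2) (nat_lit 5) (nat_lit 2) (nat_lit 4) (nat_lit 498) (nat_lit 359) (nat_lit 343)))) (XT.nd (nat_lit 78) (nat_lit 0) (nat_lit 0) (XT.lf (nat_lit 0) (nat_lit 1166274784593) (nat_lit 76) (nat_lit 121832869737) (nat_lit 76) (nat_lit 121547041676) (nat_lit 1) (nat_lit 4) (nat_lit 2) (nat_lit 5) (nat_lit 2) (nat_lit 4) (nat_lit 499) (nat_lit 359) (nat_lit 342)) (XT.nd (nat_lit 78) (nat_lit 0) (nat_lit 0) (XT.lf (nat_lit 0) (nat_lit 1262530370320) (nat_lit 76) (nat_lit 130037450587)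 (nat_lit 76) (nat_lit 129743780930) (nat_lit 1) (nat_lit 4) (nat_lit 2) (nat_lit 5) (nat_lit 2) (nat_lit 4) (nat_lit 500) (nat_lit 359) (nat_lit 341)) (XT.lf (nat_lit 0) (nat_lit 1366411506233) (nat_lit 76) (nat_lit 138936706175) (nat_lit 76) (nat_lit 138635775782) (nat_lit 1) (nat_lit 4) (nat_lit 2) (nat_lit 5) (nat_lit 2) (nat_lit 4) (nat_lit 501) (nat_lit 359) (nat_lit 340)))))) (XT.nd (nat_lit 390) (nat_lit 0) (nat_lit 0) (XT.nd (nat_lit 156) (nat_lit 0) (nat_lit 0) (XT.nd (nat_lit 78) (nat_lit 0) (nat_lit 0) (XT.lf (nat_lit 0) (nat_lit 1478533784249) (nat_lit 76) (nat_lit 148583372829) (nat_lit 76) (nat_lit 148275719532) (nat_lit 1) (nat_lit 4) (nat_lit 2) (nat_lit 5) (nat_lit 2) (nat_lit 4) (nat_lit 502) (nat_lit 359) (nat_lit 339)) (XT.lf (nat_lit 0) (nat_lit 1599561632681) (nat_lit 76) (nat_lit 159034615983) (nat_lit 76) (nat_lit 158720737774) (nat_lit 1) (nat_lit 4) (nat_lit 2)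 (nat_lit 5) (nat_lit 2) (nat_lit 4) (nat_lit 503) (nat_lit 359) (nat_lit 338))) (XT.nd (nat_lit 78) (nat_lit 0) (nat_lit 0) (XT.lf (nat_lit 0) (nat_lit 1730212253594) (nat_lit 76) (nat_lit 170352368928) (nat_lit 76) (nat_lit 170032726913) (nat_lit 1) (nat_lit 4) (nat_lit 2) (nat_lit 5) (nat_lit 2) (nat_lit 4) (nat_lit 504) (nat_lit 359) (nat_lit 337)) (XT.nd (nat_lit 78) (nat_lit 0) (nat_lit 0) (XT.lf (nat_lit 0) (nat_lit 1871259872891) (nat_lit 76) (nat_lit 182603699831) (nat_lit 76) (nat_lit 182278720958) (nat_lit 1) (nat_lit 4) (nat_lit 2) (nat_lit 5) (nat_lit 2) (nat_lit 4) (nat_lit 505) (nat_lit 359) (nat_lit 336)) (XT.lf (nat_lit 0) (nat_lit 2023540328315) (nat_lit 76) (nat_lit 195861209171) (nat_lit 76) (nat_lit 195531288762) (nat_lit 1) (nat_lit 4) (nat_lit 2) (nat_lit 5) (nat_lit 2) (nat_lit 4) (nat_lit 506) (nat_lit 359) (nat_lit 335))))) (XT.nd (nat_lit 234) (nat_lit 0) (nat_lit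 0) (XT.nd (nat_lit 78) (nat_lit 0) (nat_lit 0) (XT.lf (nat_lit 0) (nat_lit 2187956022564) (nat_lit 76) (nat_lit 210203459965) (nat_lit 76) (nat_lit 209868964061) (nat_lit 1) (nat_lit 4) (nat_lit 2) (nat_lit 5) (nat_lit 2) (nat_lit 4) (nat_lit 507) (nat_lit 359) (nat_lit 334)) (XT.nd (nat_lit 78) (nat_lit 0) (nat_lit 0) (XT.lf (nat_lit 0) (nat_lit 2365481270865) (nat_lit 76) (nat_lit 225715443331) (nat_lit 76) (nat_lit 225376710857) (nat_lit 1) (nat_lit 4) (nat_lit 2) (nat_lit 5) (nat_lit 2) (nat_lit 4) (nat_lit 508) (nat_lit 359) (nat_lit 333)) (XT.lf (nat_lit 0) (nat_lit 2557168074688) (nat_lit 76) (nat_lit 242489082132) (nat_lit 76) (nat_lit 242146426908) (nat_lit 1) (nat_lit 4) (nat_lit 2) (nat_lit 5) (nat_lit 2) (nat_lit 4) (nat_lit 509) (nat_lit 359) (nat_lit 332)))) (XT.nd (nat_lit 78) (nat_lit 0) (nat_lit 0) (XT.lf (nat_lit 0) (nat_lit 2764152355833) (nat_lit 76) (nat_lit 260623775710)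 (nat_lit 76) (nat_lit 260277488310) (nat_lit 1) (nat_lit 4) (nat_lit 2) (nat_lit 5) (nat_lit 2) (nat_lit 4) (nat_lit 510) (nat_lit 359) (nat_lit 331)) (XT.nd (nat_lit 78) (nat_lit 0) (nat_lit 0) (XT.lf (nat_lit 0) (nat_lit 2987660687820) (nat_lit 76) (nat_lit 280226988914) (nat_lit 76) (nat_lit 279877338388) (nat_lit 1) (nat_lit 4) (nat_lit 2) (nat_lit 5) (nat_lit 2) (nat_lit 4) (nat_lit 511) (nat_lit 359) (nat_lit 330)) (XT.lf (nat_lit 0) (nat_lit 3229017564467) (nat_lit 76) (nat_lit 301414888935) (nat_lit 76) (nat_lit 301062124404) (nat_lit 1) (nat_lit 4) (nat_lit 2) (nat_lit 5) (nat_lit 2) (nat_lit 4) (nat_lit 512) (nat_lit 359) (nat_lit 329))))))) (XT.nd (nat_lit 858) (nat_lit 0) (nat_lit 0) (XT.nd (nat_lit 390) (nat_lit 0) (nat_lit 0) (XT.nd (nat_lit 156) (nat_lit 0) (nat_lit 0) (XT.nd (nat_lit 78) (nat_lit 0) (nat_lit 0) (XT.lf (nat_lit 0) (nat_lit 3489653248746) (nat_lit 76) (nat_lit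 324313033699) (nat_lit 76) (nat_lit 323957385830) (nat_lit 1) (nat_lit 4) (nat_lit 2) (nat_lit 5) (nat_lit 2) (nat_lit 4) (nat_lit 513) (nat_lit 359) (nat_lit 328)) (XT.lf (nat_lit 0) (nat_lit 3771112248417) (nat_lit 76) (nat_lit 349057115915) (nat_lit 76) (nat_lit 348698798288) (nat_lit 1) (nat_lit 4) (nat_lit 2) (nat_lit 5) (nat_lit 2) (nat_lit 4) (nat_lit 514) (nat_lit 359) (nat_lit 327))) (XT.nd (nat_lit 78) (nat_lit 0) (nat_lit 0) (XT.lf (nat_lit 0) (nat_lit 4075062468662) (nat_lit 76) (nat_lit 375793767182) (nat_lit 76) (nat_lit 375432977557) (nat_lit 1) (nat_lit 4) (nat_lit 2) (nat_lit 5) (nat_lit 2) (nat_lit 4) (nat_lit 515) (nat_lit 359) (nat_lit 326)) (XT.nd (nat_lit 78) (nat_lit 0) (nat_lit 0) (XT.lf (nat_lit 0) (nat_lit 4403305095973) (nat_lit 76) (nat_lit 404681426915) (nat_lit 76) (nat_lit 404318348403) (nat_lit 1) (nat_lit 4) (nat_lit 2) (nat_lit 5) (nat_lit 2) (nat_lit 4)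 (nat_lit 516) (nat_lit 359) (nat_lit 325)) (XT.lf (nat_lit 0) (nat_lit 4757785271843) (nat_lit 76) (nat_lit 435891281244) (nat_lit 76) (nat_lit 435526083393) (nat_lit 1) (nat_lit 4) (nat_lit 2) (nat_lit 5) (nat_lit 2) (nat_lit 4) (nat_lit 517) (nat_lit 359) (nat_lit 324))))) (XT.nd (nat_lit 234) (nat_lit 0) (nat_lit 0) (XT.nd (nat_lit 78) (nat_lit 0) (nat_lit 0) (XT.lf (nat_lit 0) (nat_lit 5140603619538) (nat_lit 76) (nat_lit 469608277456) (nat_lit 76) (nat_lit 469241117253) (nat_lit 1) (nat_lit 4) (nat_lit 2) (nat_lit 5) (nat_lit 2) (nat_lit 4) (nat_lit 518) (nat_lit 359) (nat_lit 323)) (XT.nd (nat_lit 78) (nat_lit 0) (nat_lit 0) (XT.lf (nat_lit 0) (nat_lit 5554028692229) (nat_lit 76) (nat_lit 506032219973) (nat_lit 76) (nat_lit 505663242777) (nat_lit 1) (nat_lit 4) (nat_lit 2) (nat_lit 5) (nat_lit 2) (nat_lit 4) (nat_lit 519) (nat_lit 359) (nat_lit 322)) (XT.lf (nat_lit 0) (nat_lit 6000510416273)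 (nat_lit 76) (nat_lit 545378954378) (nat_lit 76) (nat_lit 545008294783) (nat_lit 1) (nat_lit 4) (nat_lit 2) (nat_lit 5) (nat_lit 2) (nat_lit 4) (nat_lit 520) (nat_lit 359) (nat_lit 321)))) (XT.nd (nat_lit 78) (nat_lit 0) (nat_lit 0) (XT.lf (nat_lit 0) (nat_lit 6482694609293) (nat_lit 76) (nat_lit 587881646507) (nat_lit 76) (nat_lit 587509429133) (nat_lit 1) (nat_lit 4) (nat_lit 2) (nat_lit 5) (nat_lit 2) (nat_lit 4) (nat_lit 521) (nat_lit 359) (nat_lit 320)) (XT.nd (nat_lit 78) (nat_lit 0) (nat_lit 0) (XT.lf (nat_lit 0) (nat_lit 7003438659101) (nat_lit 76) (nat_lit 633792164164) (nat_lit 76) (nat_lit 633418504403) (nat_lit 1) (nat_lit 4) (nat_lit 2) (nat_lit 5) (nat_lit 2) (nat_lit 4) (nat_lit 522) (nat_lit 359) (nat_lit 319)) (XT.lf (nat_lit 0) (nat_lit 7565828456362) (nat_lit 76) (nat_lit 683382569676) (nat_lit 76) (nat_lit 683007574372) (nat_lit 1) (nat_lit 4) (nat_lit 2) (nat_lit 5)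 (nat_lit 2) (nat_lit 4) (nat_lit 523) (nat_lit 359) (nat_lit 318)))))) (XT.nd (nat_lit 468) (nat_lit 0) (nat_lit 0) (XT.nd (nat_lit 234) (nat_lit 0) (nat_lit 0) (XT.nd (nat_lit 78) (nat_lit 0) (nat_lit 0) (XT.lf (nat_lit 0) (nat_lit 8173196681355) (nat_lit 76) (nat_lit 736946732113) (nat_lit 76) (nat_lit 736570500195) (nat_lit 1) (nat_lit 4) (nat_lit 2) (nat_lit 5) (nat_lit 2) (nat_lit 4) (nat_lit 524) (nat_lit 359) (nat_lit 317)) (XT.nd (nat_lit 78) (nat_lit 0) (nat_lit 0) (XT.lf (nat_lit 0) (nat_lit 8829142553192) (nat_lit 76) (nat_lit 794802068734) (nat_lit 76) (nat_lit 794424691802) (nat_lit 1) (nat_lit 4) (nat_lit 2) (nat_lit 5) (nat_lit 2) (nat_lit 4) (nat_lit 525) (nat_lit 359) (nat_lit 316)) (XT.lf (nat_lit 0) (nat_lit 9537553158521) (nat_lit 76) (nat_lit 857291425977) (nat_lit 76) (nat_lit 856912988848) (nat_lit 1) (nat_lit 4) (nat_lit 2) (nat_lit 5) (nat_lit 2) (nat_lit 4) (nat_lit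 526) (nat_lit 359) (nat_lit 315)))) (XT.nd (nat_lit 78) (nat_lit 0) (nat_lit 0) (XT.lf (nat_lit 0) (nat_lit 10302626486115) (nat_lit 76) (nat_lit 924785111146) (nat_lit 76) (nat_lit 924405692352) (nat_lit 1) (nat_lit 4) (nat_lit 2) (nat_lit 5) (nat_lit 2) (nat_lit 4) (nat_lit 527) (nat_lit 359) (nat_lit 314)) (XT.nd (nat_lit 78) (nat_lit 0) (nat_lit 0) (XT.lf (nat_lit 0) (nat_lit 11128896303839) (nat_lit 76) (nat_lit 997683086819) (nat_lit 76) (nat_lit 997302759076) (nat_lit 1) (nat_lit 4) (nat_lit 2) (nat_lit 5) (nat_lit 2) (nat_lit 4) (nat_lit 528) (nat_lit 359) (nat_lit 313)) (XT.lf (nat_lit 0) (nat_lit 12021259025430) (nat_lit 76) (nat_lit 1076417340999) (nat_lit 76) (nat_lit 1076036171637) (nat_lit 1) (nat_lit 4) (nat_lit 2) (nat_lit 5) (nat_lit 2) (nat_lit 4) (nat_lit 529) (nat_lit 359) (nat_lit 312))))) (XT.nd (nat_lit 58734) (nat_lit 0) (nat_lit 0) (XT.nd (nat_lit 58578) (nat_lit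 0) (nat_lit 0) (XT.lf (nat_lit 0) (nat_lit 12985002726273) (nat_lit 76) (nat_lit 1161454447045) (nat_lit 76) (nat_lit 1161072498407) (nat_lit 1) (nat_lit 4) (nat_lit 2) (nat_lit 5) (nat_lit 2) (nat_lit 4) (nat_lit 530) (nat_lit 359) (nat_lit 311)) (XT.nd (nat_lit 78) (nat_lit 0) (nat_lit 0) (XT.lf (nat_lit 0) (nat_lit 112469674213) (nat_lit 76) (nat_lit 25866414482) (nat_lit 76) (nat_lit 25866414482) (nat_lit 1) (nat_lit 4) (nat_lit 2) (nat_lit 5) (nat_lit 2) (nat_lit 4) (nat_lit 480) (nat_lit 360) (nat_lit 360)) (XT.lf (nat_lit 0) (nat_lit 249072789614) (nat_lit 76) (nat_lit 52697989229) (nat_lit 76) (nat_lit 52666654061) (nat_lit 1) (nat_lit 4) (nat_lit 2) (nat_lit 5) (nat_lit 2) (nat_lit 4) (nat_lit 481) (nat_lit 360) (nat_lit 359)))) (XT.nd (nat_lit 78) (nat_lit 0) (nat_lit 0) (XT.lf (nat_lit 0) (nat_lit 274837617533) (nat_lit 76) (nat_lit 53893442907) (nat_lit 76) (nat_lit 53833093694)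 (nat_lit 1) (nat_lit 4) (nat_lit 2) (nat_lit 5) (nat_lit 2) (nat_lit 4) (nat_lit 482) (nat_lit 360) (nat_lit 358)) (XT.nd (nat_lit 78) (nat_lit 0) (nat_lit 0) (XT.lf (nat_lit 0) (nat_lit 302386512647) (nat_lit 76) (nat_lit 55326274168) (nat_lit 76) (nat_lit 55239060100) (nat_lit 1) (nat_lit 4) (nat_lit 2) (nat_lit 5) (nat_lit 2) (nat_lit 4) (nat_lit 483) (nat_lit 360) (nat_lit 357)) (XT.lf (nat_lit 0) (nat_lit 331882727666) (nat_lit 76) (nat_lit 57004973864) (nat_lit 76) (nat_lit 56892884929) (nat_lit 1) (nat_lit 4) (nat_lit 2) (nat_lit 5) (nat_lit 2) (nat_lit 4) (nat_lit 484) (nat_lit 360) (nat_lit 356))))))))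
noncomputable def xc14 : XT := (XT.nd (nat_lit 1716) (nat_lit 0) (nat_lit 0) (XT.nd (nat_lit 858) (nat_lit 0) (nat_lit 0) (XT.nd (nat_lit 390) (nat_lit 0) (nat_lit 0) (XT.nd (nat_lit 156) (nat_lit 0) (nat_lit 0) (XT.nd (nat_lit 78) (nat_lit 0) (nat_lit 0) (XT.lf (nat_lit 0) (nat_lit 363501054976) (nat_lit 76) (nat_lit 58939489846) (nat_lit 76) (nat_lit 58804368627) (nat_lit 1) (nat_lit 4) (nat_lit 2) (nat_lit 5) (nat_lit 2) (nat_lit 4) (nat_lit 485) (nat_lit 360) (nat_lit 355)) (XT.lf (nat_lit 0) (nat_lit 397428862442) (nat_lit 76) (nat_lit 61141285911) (nat_lit 76) (nat_lit 60984838504) (nat_lit 1) (nat_lit 4) (nat_lit 2) (nat_lit 5) (nat_lit 2) (nat_lit 4) (nat_lit 486) (nat_lit 360) (nat_lit 354))) (XT.nd (nat_lit 78) (nat_lit 0) (nat_lit 0) (XT.lf (nat_lit 0) (nat_lit 433867203739) (nat_lit 76) (nat_lit 63623409741) (nat_lit 76) (nat_lit 63447215862) (nat_lit 1) (nat_lit 4) (nat_lit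 2) (nat_lit 5) (nat_lit 2) (nat_lit 4) (nat_lit 487) (nat_lit 360) (nat_lit 353)) (XT.nd (nat_lit 78) (nat_lit 0) (nat_lit 0) (XT.lf (nat_lit 0) (nat_lit 473032009778) (nat_lit 76) (nat_lit 66400570216) (nat_lit 76) (nat_lit 66206092569) (nat_lit 1) (nat_lit 4) (nat_lit 2) (nat_lit 5) (nat_lit 2) (nat_lit 4) (nat_lit 488) (nat_lit 360) (nat_lit 352)) (XT.lf (nat_lit 0) (nat_lit 515155368298) (nat_lit 76) (nat_lit 69489224586) (nat_lit 76) (nat_lit 69277817522) (nat_lit 1) (nat_lit 4) (nat_lit 2) (nat_lit 5) (nat_lit 2) (nat_lit 4) (nat_lit 489) (nat_lit 360) (nat_lit 351))))) (XT.nd (nat_lit 234) (nat_lit 0) (nat_lit 0) (XT.nd (nat_lit 78) (nat_lit 0) (nat_lit 0) (XT.lf (nat_lit 0) (nat_lit 560486899202) (nat_lit 76) (nat_lit 72907675985) (nat_lit 76) (nat_lit 72680593536) (nat_lit 1) (nat_lit 4) (nat_lit 2) (nat_lit 5) (nat_lit 2) (nat_lit 4) (nat_lit 490) (nat_lit 360) (nat_lit 350))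 (XT.nd (nat_lit 78) (nat_lit 0) (nat_lit 0) (XT.lf (nat_lit 0) (nat_lit 609295233783) (nat_lit 76) (nat_lit 76676181905) (nat_lit 76) (nat_lit 76434585210) (nat_lit 1) (nat_lit 4) (nat_lit 2) (nat_lit 5) (nat_lit 2) (nat_lit 4) (nat_lit 491) (nat_lit 360) (nat_lit 349)) (XT.lf (nat_lit 0) (nat_lit 661869606618) (nat_lit 76) (nat_lit 80817074232) (nat_lit 76) (nat_lit 80562038420) (nat_lit 1) (nat_lit 4) (nat_lit 2) (nat_lit 5) (nat_lit 2) (nat_lit 4) (nat_lit 492) (nat_lit 360) (nat_lit 348)))) (XT.nd (nat_lit 78) (nat_lit 0) (nat_lit 0) (XT.lf (nat_lit 0) (nat_lit 718521569544) (nat_lit 76) (nat_lit 85354891587) (nat_lit 76) (nat_lit 85087412149) (nat_lit 1) (nat_lit 4) (nat_lit 2) (nat_lit 5) (nat_lit 2) (nat_lit 4) (nat_lit 493) (nat_lit 360) (nat_lit 347)) (XT.nd (nat_lit 78) (nat_lit 0) (nat_lit 0) (XT.lf (nat_lit 0) (nat_lit 779586837899) (nat_lit 76) (nat_lit 90316524740) (nat_lit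 76) (nat_lit 90037523426) (nat_lit 1) (nat_lit 4) (nat_lit 2) (nat_lit 5) (nat_lit 2) (nat_lit 4) (nat_lit 494) (nat_lit 360) (nat_lit 346)) (XT.lf (nat_lit 0) (nat_lit 845427279939) (nat_lit 76) (nat_lit 95731375961) (nat_lit 76) (nat_lit 95441706243) (nat_lit 1) (nat_lit 4) (nat_lit 2) (nat_lit 5) (nat_lit 2) (nat_lit 4) (nat_lit 495) (nat_lit 360) (nat_lit 345)))))) (XT.nd (nat_lit 390) (nat_lit 0) (nat_lit 0) (XT.nd (nat_lit 156) (nat_lit 0) (nat_lit 0) (XT.nd (nat_lit 78) (nat_lit 0) (nat_lit 0) (XT.lf (nat_lit 0) (nat_lit 916433061246) (nat_lit 76) (nat_lit 101631533258) (nat_lit 76) (nat_lit 101331985388) (nat_lit 1) (nat_lit 4) (nat_lit 2) (nat_lit 5) (nat_lit 2) (nat_lit 4) (nat_lit 496) (nat_lit 360) (nat_lit 344)) (XT.lf (nat_lit 0) (nat_lit 993024956821) (nat_lit 76) (nat_lit 108051960525) (nat_lit 76) (nat_lit 107743266219) (nat_lit 1) (nat_lit 4) (nat_lit 2) (nat_lit 5) (nat_lit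 2) (nat_lit 4) (nat_lit 497) (nat_lit 360) (nat_lit 343))) (XT.nd (nat_lit 78) (nat_lit 0) (nat_lit 0) (XT.lf (nat_lit 0) (nat_lit 1075656844563) (nat_lit 76) (nat_lit 115030704740) (nat_lit 76) (nat_lit 114713541511) (nat_lit 1) (nat_lit 4) (nat_lit 2) (nat_lit 5) (nat_lit 2) (nat_lit 4) (nat_lit 498) (nat_lit 360) (nat_lit 342)) (XT.nd (nat_lit 78) (nat_lit 0) (nat_lit 0) (XT.lf (nat_lit 0) (nat_lit 1164818394918) (nat_lit 76) (nat_lit 122609121423) (nat_lit 76) (nat_lit 122284116598) (nat_lit 1) (nat_lit 4) (nat_lit 2) (nat_lit 5) (nat_lit 2) (nat_lit 4) (nat_lit 499) (nat_lit 360) (nat_lit 341)) (XT.lf (nat_lit 0) (nat_lit 1261037972630) (nat_lit 76) (nat_lit 130832119710) (nat_lit 76) (nat_lit 130499854149) (nat_lit 1) (nat_lit 4) (nat_lit 2) (nat_lit 5) (nat_lit 2) (nat_lit 4) (nat_lit 500) (nat_lit 360) (nat_lit 340))))) (XT.nd (nat_lit 234) (nat_lit 0) (nat_lit 0) (XT.nd (nat_lit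 78) (nat_lit 0) (nat_lit 0) (XT.lf (nat_lit 0) (nat_lit 1364885767788) (nat_lit 76) (nat_lit 139748428480) (nat_lit 76) (nat_lit 139409440015) (nat_lit 1) (nat_lit 4) (nat_lit 2) (nat_lit 5) (nat_lit 2) (nat_lit 4) (nat_lit 501) (nat_lit 360) (nat_lit 339)) (XT.nd (nat_lit 78) (nat_lit 0) (nat_lit 0) (XT.lf (nat_lit 0) (nat_lit 1476977174734) (nat_lit 76) (nat_lit 149410885119) (nat_lit 76) (nat_lit 149065671743) (nat_lit 1) (nat_lit 4) (nat_lit 2) (nat_lit 5) (nat_lit 2) (nat_lit 4) (nat_lit 502) (nat_lit 360) (nat_lit 338)) (XT.lf (nat_lit 0) (nat_lit 1597976438843) (nat_lit 76) (nat_lit 159876748628) (nat_lit 76) (nat_lit 159525771445) (nat_lit 1) (nat_lit 4) (nat_lit 2) (nat_lit 5) (nat_lit 2) (nat_lit 4) (nat_lit 503) (nat_lit 360) (nat_lit 337)))) (XT.nd (nat_lit 78) (nat_lit 0) (nat_lit 0) (XT.lf (nat_lit 0) (nat_lit 1728600592790) (nat_lit 76) (nat_lit 171208038940) (nat_lit 76)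 (nat_lit 170851724899) (nat_lit 1) (nat_lit 4) (nat_lit 2) (nat_lit 5) (nat_lit 2) (nat_lit 4) (nat_lit 504) (nat_lit 360) (nat_lit 336)) (XT.nd (nat_lit 78) (nat_lit 0) (nat_lit 0) (XT.lf (nat_lit 0) (nat_lit 1869623705636) (nat_lit 76) (nat_lit 183471904441) (nat_lit 76) (nat_lit 183110648864) (nat_lit 1) (nat_lit 4) (nat_lit 2) (nat_lit 5) (nat_lit 2) (nat_lit 4) (nat_lit 505) (nat_lit 360) (nat_lit 335)) (XT.lf (nat_lit 0) (nat_lit 2021881469902) (nat_lit 76) (nat_lit 196741019890) (nat_lit 76) (nat_lit 196375188818) (nat_lit 1) (nat_lit 4) (nat_lit 2) (nat_lit 5) (nat_lit 2) (nat_lit 4) (nat_lit 506) (nat_lit 360) (nat_lit 334))))))) (XT.nd (nat_lit 858) (nat_lit 0) (nat_lit 0) (XT.nd (nat_lit 390) (nat_lit 0) (nat_lit 0) (XT.nd (nat_lit 156) (nat_lit 0) (nat_lit 0) (XT.nd (nat_lit 78) (nat_lit 0) (nat_lit 0) (XT.lf (nat_lit 0) (nat_lit 2186276153820) (nat_lit 76) (nat_lit 211094017083)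 (nat_lit 76) (nat_lit 210723949441) (nat_lit 1) (nat_lit 4) (nat_lit 2) (nat_lit 5) (nat_lit 2) (nat_lit 4) (nat_lit 507) (nat_lit 360) (nat_lit 333)) (XT.lf (nat_lit 0) (nat_lit 2363781948110) (nat_lit 76) (nat_lit 226615950817) (nat_lit 76) (nat_lit 226241960425) (nat_lit 1) (nat_lit 4) (nat_lit 2) (nat_lit 5) (nat_lit 2) (nat_lit 4) (nat_lit 508) (nat_lit 360) (nat_lit 332))) (XT.nd (nat_lit 78) (nat_lit 0) (nat_lit 0) (XT.lf (nat_lit 0) (nat_lit 2555450738961) (nat_lit 76) (nat_lit 243398802922) (nat_lit 76) (nat_lit 243021180354) (nat_lit 1) (nat_lit 4) (nat_lit 2) (nat_lit 5) (nat_lit 2) (nat_lit 4) (nat_lit 509) (nat_lit 360) (nat_lit 331)) (XT.nd (nat_lit 78) (nat_lit 0) (nat_lit 0) (XT.lf (nat_lit 0) (nat_lit 2762418341428) (nat_lit 76) (nat_lit 261542027336) (nat_lit 76) (nat_lit 261161041642) (nat_lit 1) (nat_lit 4) (nat_lit 2) (nat_lit 5) (nat_lit 2) (nat_lit 4) (nat_lit 510)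 (nat_lit 360) (nat_lit 330)) (XT.lf (nat_lit 0) (nat_lit 2985911230194) (nat_lit 76) (nat_lit 281153139464) (nat_lit 76) (nat_lit 280769039765) (nat_lit 1) (nat_lit 4) (nat_lit 2) (nat_lit 5) (nat_lit 2) (nat_lit 4) (nat_lit 511) (nat_lit 360) (nat_lit 329))))) (XT.nd (nat_lit 234) (nat_lit 0) (nat_lit 0) (XT.nd (nat_lit 78) (nat_lit 0) (nat_lit 0) (XT.lf (nat_lit 0) (nat_lit 3227253807563) (nat_lit 76) (nat_lit 302348353303) (nat_lit 76) (nat_lit 301961370266) (nat_lit 1) (nat_lit 4) (nat_lit 2) (nat_lit 5) (nat_lit 2) (nat_lit 4) (nat_lit 512) (nat_lit 360) (nat_lit 328)) (XT.nd (nat_lit 78) (nat_lit 0) (nat_lit 0) (XT.lf (nat_lit 0) (nat_lit 3487876251769) (nat_lit 76) (nat_lit 325253270120) (nat_lit 76) (nat_lit 324863617325) (nat_lit 1) (nat_lit 4) (nat_lit 2) (nat_lit 5) (nat_lit 2) (nat_lit 4) (nat_lit 513) (nat_lit 360) (nat_lit 327)) (XT.lf (nat_lit 0) (nat_lit 3769322992114) (nat_lit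 76) (nat_lit 350003622756) (nat_lit 76) (nat_lit 349611497963) (nat_lit 1) (nat_lit 4) (nat_lit 2) (nat_lit 5) (nat_lit 2) (nat_lit 4) (nat_lit 514) (nat_lit 360) (nat_lit 326)))) (XT.nd (nat_lit 78) (nat_lit 0) (nat_lit 0) (XT.lf (nat_lit 0) (nat_lit 4073261861131) (nat_lit 76) (nat_lit 376746079967) (nat_lit 76) (nat_lit 376351666288) (nat_lit 1) (nat_lit 4) (nat_lit 2) (nat_lit 5) (nat_lit 2) (nat_lit 4) (nat_lit 515) (nat_lit 360) (nat_lit 325)) (XT.nd (nat_lit 78) (nat_lit 0) (nat_lit 0) (XT.lf (nat_lit 0) (nat_lit 4401493978045) (nat_lit 76) (nat_lit 405639115574) (nat_lit 76) (nat_lit 405242582555) (nat_lit 1) (nat_lit 4) (nat_lit 2) (nat_lit 5) (nat_lit 2) (nat_lit 4) (nat_lit 516) (nat_lit 360) (nat_lit 324)) (XT.lf (nat_lit 0) (nat_lit 4755964422066) (nat_lit 76) (nat_lit 436853947565) (nat_lit 76) (nat_lit 436455452194) (nat_lit 1) (nat_lit 4) (nat_lit 2) (nat_lit 5) (nat_lit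 2) (nat_lit 4) (nat_lit 517) (nat_lit 360) (nat_lit 323)))))) (XT.nd (nat_lit 468) (nat_lit 0) (nat_lit 0) (XT.nd (nat_lit 234) (nat_lit 0) (nat_lit 0) (XT.nd (nat_lit 78) (nat_lit 0) (nat_lit 0) (XT.lf (nat_lit 0) (nat_lit 5138773758791) (nat_lit 76) (nat_lit 470575552723) (nat_lit 76) (nat_lit 470175240360) (nat_lit 1) (nat_lit 4) (nat_lit 2) (nat_lit 5) (nat_lit 2) (nat_lit 4) (nat_lit 518) (nat_lit 360) (nat_lit 322)) (XT.nd (nat_lit 78) (nat_lit 0) (nat_lit 0) (XT.lf (nat_lit 0) (nat_lit 5552190487990) (nat_lit 76) (nat_lit 507003762782) (nat_lit 76) (nat_lit 506601768018) (nat_lit 1) (nat_lit 4) (nat_lit 2) (nat_lit 5) (nat_lit 2) (nat_lit 4) (nat_lit 519) (nat_lit 360) (nat_lit 321)) (XT.lf (nat_lit 0) (nat_lit 5998664486579) (nat_lit 76) (nat_lit 546354448616) (nat_lit 76) (nat_lit 545950896074) (nat_lit 1) (nat_lit 4) (nat_lit 2) (nat_lit 5) (nat_lit 2) (nat_lit 4) (nat_lit 520)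 (nat_lit 360) (nat_lit 320)))) (XT.nd (nat_lit 78) (nat_lit 0) (nat_lit 0) (XT.lf (nat_lit 0) (nat_lit 6480841526400) (nat_lit 76) (nat_lit 588860799474) (nat_lit 76) (nat_lit 588455804546) (nat_lit 1) (nat_lit 4) (nat_lit 2) (nat_lit 5) (nat_lit 2) (nat_lit 4) (nat_lit 521) (nat_lit 360) (nat_lit 319)) (XT.nd (nat_lit 78) (nat_lit 0) (nat_lit 0) (XT.lf (nat_lit 0) (nat_lit 7001578952875) (nat_lit 76) (nat_lit 634774704844) (nat_lit 76) (nat_lit 634368374372) (nat_lit 1) (nat_lit 4) (nat_lit 2) (nat_lit 5) (nat_lit 2) (nat_lit 4) (nat_lit 522) (nat_lit 360) (nat_lit 318)) (XT.lf (nat_lit 0) (nat_lit 7563962617420) (nat_lit 76) (nat_lit 684368247127) (nat_lit 76) (nat_lit 683960680041) (nat_lit 1) (nat_lit 4) (nat_lit 2) (nat_lit 5) (nat_lit 2) (nat_lit 4) (nat_lit 523) (nat_lit 360) (nat_lit 317))))) (XT.nd (nat_lit 234) (nat_lit 0) (nat_lit 0) (XT.nd (nat_lit 78) (nat_lit 0) (nat_lit 0)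 (XT.lf (nat_lit 0) (nat_lit 8171325163973) (nat_lit 76) (nat_lit 737935313982) (nat_lit 76) (nat_lit 737526601882) (nat_lit 1) (nat_lit 4) (nat_lit 2) (nat_lit 5) (nat_lit 2) (nat_lit 4) (nat_lit 524) (nat_lit 360) (nat_lit 316)) (XT.nd (nat_lit 78) (nat_lit 0) (nat_lit 0) (XT.lf (nat_lit 0) (nat_lit 8827265777996) (nat_lit 76) (nat_lit 795793339878) (nat_lit 76) (nat_lit 795383567581) (nat_lit 1) (nat_lit 4) (nat_lit 2) (nat_lit 5) (nat_lit 2) (nat_lit 4) (nat_lit 525) (nat_lit 360) (nat_lit 315)) (XT.lf (nat_lit 0) (nat_lit 9535671514978) (nat_lit 76) (nat_lit 858285187192) (nat_lit 76) (nat_lit 857874433230) (nat_lit 1) (nat_lit 4) (nat_lit 2) (nat_lit 5) (nat_lit 2) (nat_lit 4) (nat_lit 526) (nat_lit 360) (nat_lit 314)))) (XT.nd (nat_lit 78) (nat_lit 0) (nat_lit 0) (XT.lf (nat_lit 0) (nat_lit 10300740334842) (nat_lit 76) (nat_lit 925781177981) (nat_lit 76) (nat_lit 925369515070) (nat_lit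 1) (nat_lit 4) (nat_lit 2) (nat_lit 5) (nat_lit 2) (nat_lit 4) (nat_lit 527) (nat_lit 360) (nat_lit 313)) (XT.nd (nat_lit 78) (nat_lit 0) (nat_lit 0) (XT.lf (nat_lit 0) (nat_lit 11127005978743) (nat_lit 76) (nat_lit 998681288487) (nat_lit 76) (nat_lit 998268783958) (nat_lit 1) (nat_lit 4) (nat_lit 2) (nat_lit 5) (nat_lit 2) (nat_lit 4) (nat_lit 528) (nat_lit 360) (nat_lit 312)) (XT.lf (nat_lit 0) (nat_lit 12019364835683) (nat_lit 76) (nat_lit 1077417519365) (nat_lit 76) (nat_lit 1077004235559) (nat_lit 1) (nat_lit 4) (nat_lit 2) (nat_lit 5) (nat_lit 2) (nat_lit 4) (nat_lit 529) (nat_lit 360) (nat_lit 311))))))))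
noncomputable def xc15 : XT := (XT.nd (nat_lit 60138) (nat_lit 0) (nat_lit 0) (XT.nd (nat_lit 59202) (nat_lit 0) (nat_lit 0) (XT.nd (nat_lit 58734) (nat_lit 0) (nat_lit 0) (XT.nd (nat_lit 58500) (nat_lit 0) (nat_lit 0) (XT.nd (nat_lit 58422) (nat_lit 0) (nat_lit 0) (XT.lf (nat_lit 0) (nat_lit 12983104958146) (nat_lit 76) (nat_lit 1162456455687) (nat_lit 76) (nat_lit 1162042450328) (nat_lit 1) (nat_lit 4) (nat_lit 2) (nat_lit 5) (nat_lit 2) (nat_lit 4) (nat_lit 530) (nat_lit 360) (nat_lit 310)) (XT.lf (nat_lit 0) (nat_lit 90585613059) (nat_lit 76) (nat_lit 25209920354) (nat_lit 76) (nat_lit 25209920354) (nat_lit 1) (nat_lit 4) (nat_lit 2) (nat_lit 5) (nat_lit 2) (nat_lit 4) (nat_lit 478) (nat_lit 361) (nat_lit 361))) (XT.nd (nat_lit 78) (nat_lit 0) (nat_lit 0) (XT.lf (nat_lit 0) (nat_lit 202294280986) (nat_lit 76) (nat_lit 51026084628) (nat_lit 76) (nat_lit 50992242646) (nat_lit 1) (nat_lit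 4) (nat_lit 2) (nat_lit 5) (nat_lit 2) (nat_lit 4) (nat_lit 479) (nat_lit 361) (nat_lit 360)) (XT.nd (nat_lit 78) (nat_lit 0) (nat_lit 0) (XT.lf (nat_lit 0) (nat_lit 224783948595) (nat_lit 76) (nat_lit 51846155100) (nat_lit 76) (nat_lit 51780977951) (nat_lit 1) (nat_lit 4) (nat_lit 2) (nat_lit 5) (nat_lit 2) (nat_lit 4) (nat_lit 480) (nat_lit 361) (nat_lit 359)) (XT.lf (nat_lit 0) (nat_lit 248773501051) (nat_lit 76) (nat_lit 52884911803) (nat_lit 76) (nat_lit 52790720609) (nat_lit 1) (nat_lit 4) (nat_lit 2) (nat_lit 5) (nat_lit 2) (nat_lit 4) (nat_lit 481) (nat_lit 361) (nat_lit 358))))) (XT.nd (nat_lit 234) (nat_lit 0) (nat_lit 0) (XT.nd (nat_lit 78) (nat_lit 0) (nat_lit 0) (XT.lf (nat_lit 0) (nat_lit 274405098663) (nat_lit 76) (nat_lit 54148510331) (nat_lit 76) (nat_lit 54027454282) (nat_lit 1) (nat_lit 4) (nat_lit 2) (nat_lit 5) (nat_lit 2) (nat_lit 4) (nat_lit 482) (nat_lit 361) (nat_lit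 357)) (XT.nd (nat_lit 78) (nat_lit 0) (nat_lit 0) (XT.lf (nat_lit 0) (nat_lit 301830632380) (nat_lit 76) (nat_lit 55644438676) (nat_lit 76) (nat_lit 55498507760) (nat_lit 1) (nat_lit 4) (nat_lit 2) (nat_lit 5) (nat_lit 2) (nat_lit 4) (nat_lit 483) (nat_lit 361) (nat_lit 356)) (XT.lf (nat_lit 0) (nat_lit 331212623885) (nat_lit 76) (nat_lit 57381561598) (nat_lit 76) (nat_lit 57212598398) (nat_lit 1) (nat_lit 4) (nat_lit 2) (nat_lit 5) (nat_lit 2) (nat_lit 4) (nat_lit 484) (nat_lit 361) (nat_lit 355)))) (XT.nd (nat_lit 78) (nat_lit 0) (nat_lit 0) (XT.lf (nat_lit 0) (nat_lit 362725188681) (nat_lit 76) (nat_lit 59370173159) (nat_lit 76) (nat_lit 59179883770) (nat_lit 1) (nat_lit 4) (nat_lit 2) (nat_lit 5) (nat_lit 2) (nat_lit 4) (nat_lit 485) (nat_lit 361) (nat_lit 354)) (XT.nd (nat_lit 78) (nat_lit 0) (nat_lit 0) (XT.lf (nat_lit 0) (nat_lit 396555067894) (nat_lit 76) (nat_lit 61622057724) (nat_lit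 76) (nat_lit 61412021864) (nat_lit 1) (nat_lit 4) (nat_lit 2) (nat_lit 5) (nat_lit 2) (nat_lit 4) (nat_lit 486) (nat_lit 361) (nat_lit 353)) (XT.lf (nat_lit 0) (nat_lit 432902734883) (nat_lit 76) (nat_lit 64150559794) (nat_lit 76) (nat_lit 63922240165) (nat_lit 1) (nat_lit 4) (nat_lit 2) (nat_lit 5) (nat_lit 2) (nat_lit 4) (nat_lit 487) (nat_lit 361) (nat_lit 352)))))) (XT.nd (nat_lit 468) (nat_lit 0) (nat_lit 0) (XT.nd (nat_lit 234) (nat_lit 0) (nat_lit 0) (XT.nd (nat_lit 78) (nat_lit 0) (nat_lit 0) (XT.lf (nat_lit 0) (nat_lit 471983583228) (nat_lit 76) (nat_lit 66970663085) (nat_lit 76) (nat_lit 66725414039) (nat_lit 1) (nat_lit 4) (nat_lit 2) (nat_lit 5) (nat_lit 2) (nat_lit 4) (nat_lit 488) (nat_lit 361) (nat_lit 351)) (XT.nd (nat_lit 78) (nat_lit 0) (nat_lit 0) (XT.lf (nat_lit 0) (nat_lit 514029203143) (nat_lit 76) (nat_lit 70099079320) (nat_lit 76) (nat_lit 69838154889) (nat_lit 1)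 (nat_lit 4) (nat_lit 2) (nat_lit 5) (nat_lit 2) (nat_lit 4) (nat_lit 489) (nat_lit 361) (nat_lit 350)) (XT.lf (nat_lit 0) (nat_lit 559288753857) (nat_lit 76) (nat_lit 73554347262) (nat_lit 76) (nat_lit 73278908585) (nat_lit 1) (nat_lit 4) (nat_lit 2) (nat_lit 5) (nat_lit 2) (nat_lit 4) (nat_lit 490) (nat_lit 361) (nat_lit 349)))) (XT.nd (nat_lit 78) (nat_lit 0) (nat_lit 0) (XT.lf (nat_lit 0) (nat_lit 608030440115) (nat_lit 76) (nat_lit 77356942572) (nat_lit 76) (nat_lit 77068064780) (nat_lit 1) (nat_lit 4) (nat_lit 2) (nat_lit 5) (nat_lit 2) (nat_lit 4) (nat_lit 491) (nat_lit 361) (nat_lit 348)) (XT.nd (nat_lit 78) (nat_lit 0) (nat_lit 0) (XT.lf (nat_lit 0) (nat_lit 660543101539) (nat_lit 76) (nat_lit 81529399150) (nat_lit 76) (nat_lit 81228077731) (nat_lit 1) (nat_lit 4) (nat_lit 2) (nat_lit 5) (nat_lit 2) (nat_lit 4) (nat_lit 492) (nat_lit 361) (nat_lit 347)) (XT.lf (nat_lit 0) (nat_lit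 717137924270) (nat_lit 76) (nat_lit 86096442664) (nat_lit 76) (nat_lit 85783599368) (nat_lit 1) (nat_lit 4) (nat_lit 2) (nat_lit 5) (nat_lit 2) (nat_lit 4) (nat_lit 493) (nat_lit 361) (nat_lit 346))))) (XT.nd (nat_lit 234) (nat_lit 0) (nat_lit 0) (XT.nd (nat_lit 78) (nat_lit 0) (nat_lit 0) (XT.lf (nat_lit 0) (nat_lit 778150285037) (nat_lit 76) (nat_lit 91085137074) (nat_lit 76) (nat_lit 90761625375) (nat_lit 1) (nat_lit 4) (nat_lit 2) (nat_lit 5) (nat_lit 2) (nat_lit 4) (nat_lit 494) (nat_lit 361) (nat_lit 345)) (XT.nd (nat_lit 78) (nat_lit 0) (nat_lit 0) (XT.lf (nat_lit 0) (nat_lit 843941738569) (nat_lit 76) (nat_lit 96525045016) (nat_lit 76) (nat_lit 96191655165) (nat_lit 1) (nat_lit 4) (nat_lit 2) (nat_lit 5) (nat_lit 2) (nat_lit 4) (nat_lit 495) (nat_lit 361) (nat_lit 344)) (XT.lf (nat_lit 0) (nat_lit 914902160147) (nat_lit 76) (nat_lit 102448402979) (nat_lit 76) (nat_lit 102105866692)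 (nat_lit 1) (nat_lit 4) (nat_lit 2) (nat_lit 5) (nat_lit 2) (nat_lit 4) (nat_lit 496) (nat_lit 361) (nat_lit 343)))) (XT.nd (nat_lit 78) (nat_lit 0) (nat_lit 0) (XT.lf (nat_lit 0) (nat_lit 991452055972) (nat_lit 76) (nat_lit 108890312346) (nat_lit 76) (nat_lit 108539307135) (nat_lit 1) (nat_lit 4) (nat_lit 2) (nat_lit 5) (nat_lit 2) (nat_lit 4) (nat_lit 497) (nat_lit 361) (nat_lit 342)) (XT.nd (nat_lit 78) (nat_lit 0) (nat_lit 0) (XT.lf (nat_lit 0) (nat_lit 1074045055058) (nat_lit 76) (nat_lit 115888947393) (nat_lit 76) (nat_lit 115530100587) (nat_lit 1) (nat_lit 4) (nat_lit 2) (nat_lit 5) (nat_lit 2) (nat_lit 4) (nat_lit 498) (nat_lit 361) (nat_lit 341)) (XT.lf (nat_lit 0) (nat_lit 1163170597398) (nat_lit 76) (nat_lit 123485781513) (nat_lit 76) (nat_lit 123119673971) (nat_lit 1) (nat_lit 4) (nat_lit 2) (nat_lit 5) (nat_lit 2) (nat_lit 4) (nat_lit 499) (nat_lit 361) (nat_lit 340)))))))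 (XT.nd (nat_lit 858) (nat_lit 0) (nat_lit 0) (XT.nd (nat_lit 390) (nat_lit 0) (nat_lit 0) (XT.nd (nat_lit 156) (nat_lit 0) (nat_lit 0) (XT.nd (nat_lit 78) (nat_lit 0) (nat_lit 0) (XT.lf (nat_lit 0) (nat_lit 1259356834354) (nat_lit 76) (nat_lit 131725832983) (nat_lit 76) (nat_lit 131353002536) (nat_lit 1) (nat_lit 4) (nat_lit 2) (nat_lit 5) (nat_lit 2) (nat_lit 4) (nat_lit 500) (nat_lit 361) (nat_lit 339)) (XT.lf (nat_lit 0) (nat_lit 1363173758443) (nat_lit 76) (nat_lit 140657931737) (nat_lit 76) (nat_lit 140278876379) (nat_lit 1) (nat_lit 4) (nat_lit 2) (nat_lit 5) (nat_lit 2) (nat_lit 4) (nat_lit 501) (nat_lit 361) (nat_lit 338))) (XT.nd (nat_lit 78) (nat_lit 0) (nat_lit 0) (XT.lf (nat_lit 0) (nat_lit 1475236581065) (nat_lit 76) (nat_lit 150335008731) (nat_lit 76) (nat_lit 149950189567) (nat_lit 1) (nat_lit 4) (nat_lit 2) (nat_lit 5) (nat_lit 2) (nat_lit 4) (nat_lit 502) (nat_lit 361)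 (nat_lit 337)) (XT.nd (nat_lit 78) (nat_lit 0) (nat_lit 0) (XT.lf (nat_lit 0) (nat_lit 1596209378207) (nat_lit 76) (nat_lit 160814409607) (nat_lit 76) (nat_lit 160424253584) (nat_lit 1) (nat_lit 4) (nat_lit 2) (nat_lit 5) (nat_lit 2) (nat_lit 4) (nat_lit 503) (nat_lit 361) (nat_lit 336)) (XT.lf (nat_lit 0) (nat_lit 1726809025704) (nat_lit 76) (nat_lit 172158234517) (nat_lit 76) (nat_lit 171763136959) (nat_lit 1) (nat_lit 4) (nat_lit 2) (nat_lit 5) (nat_lit 2) (nat_lit 4) (nat_lit 504) (nat_lit 361) (nat_lit 335))))) (XT.nd (nat_lit 234) (nat_lit 0) (nat_lit 0) (XT.nd (nat_lit 78) (nat_lit 0) (nat_lit 0) (XT.lf (nat_lit 0) (nat_lit 1867809447393) (nat_lit 76) (nat_lit 184433706127) (nat_lit 76) (nat_lit 184034033074) (nat_lit 1) (nat_lit 4) (nat_lit 2) (nat_lit 5) (nat_lit 2) (nat_lit 4) (nat_lit 505) (nat_lit 361) (nat_lit 334)) (XT.nd (nat_lit 78) (nat_lit 0) (nat_lit 0) (XT.lf (nat_lit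 0) (nat_lit 2020046201327) (nat_lit 76) (nat_lit 197713567974) (nat_lit 76) (nat_lit 197309658351) (nat_lit 1) (nat_lit 4) (nat_lit 2) (nat_lit 5) (nat_lit 2) (nat_lit 4) (nat_lit 506) (nat_lit 361) (nat_lit 333)) (XT.lf (nat_lit 0) (nat_lit 2184421431235) (nat_lit 76) (nat_lit 212076515535) (nat_lit 76) (nat_lit 211668683162) (nat_lit 1) (nat_lit 4) (nat_lit 2) (nat_lit 5) (nat_lit 2) (nat_lit 4) (nat_lit 507) (nat_lit 361) (nat_lit 332)))) (XT.nd (nat_lit 78) (nat_lit 0) (nat_lit 0) (XT.lf (nat_lit 0) (nat_lit 2361909212553) (nat_lit 76) (nat_lit 227607662573) (nat_lit 76) (nat_lit 227196198024) (nat_lit 1) (nat_lit 4) (nat_lit 2) (nat_lit 5) (nat_lit 2) (nat_lit 4) (nat_lit 508) (nat_lit 361) (nat_lit 331)) (XT.nd (nat_lit 78) (nat_lit 0) (nat_lit 0) (XT.lf (nat_lit 0) (nat_lit 2553561324725) (nat_lit 76) (nat_lit 244399045515) (nat_lit 76) (nat_lit 243984217840) (nat_lit 1) (nat_lit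 4) (nat_lit 2) (nat_lit 5) (nat_lit 2) (nat_lit 4) (nat_lit 509) (nat_lit 361) (nat_lit 330)) (XT.lf (nat_lit 0) (nat_lit 2760513483972) (nat_lit 76) (nat_lit 262550168853) (nat_lit 76) (nat_lit 262132227173) (nat_lit 1) (nat_lit 4) (nat_lit 2) (nat_lit 5) (nat_lit 2) (nat_lit 4) (nat_lit 510) (nat_lit 361) (nat_lit 329)))))) (XT.nd (nat_lit 468) (nat_lit 0) (nat_lit 0) (XT.nd (nat_lit 234) (nat_lit 0) (nat_lit 0) (XT.nd (nat_lit 78) (nat_lit 0) (nat_lit 0) (XT.lf (nat_lit 0) (nat_lit 2983992073460) (nat_lit 76) (nat_lit 282168594798) (nat_lit 76) (nat_lit 281747769780) (nat_lit 1) (nat_lit 4) (nat_lit 2) (nat_lit 5) (nat_lit 2) (nat_lit 4) (nat_lit 511) (nat_lit 361) (nat_lit 328)) (XT.nd (nat_lit 78) (nat_lit 0) (nat_lit 0) (XT.lf (nat_lit 0) (nat_lit 3225321410755) (nat_lit 76) (nat_lit 303370580691) (nat_lit 76) (nat_lit 302947085915) (nat_lit 1) (nat_lit 4) (nat_lit 2) (nat_lit 5)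 (nat_lit 2) (nat_lit 4) (nat_lit 512) (nat_lit 361) (nat_lit 327)) (XT.lf (nat_lit 0) (nat_lit 3485931595636) (nat_lit 76) (nat_lit 326281767928) (nat_lit 76) (nat_lit 325855801154) (nat_lit 1) (nat_lit 4) (nat_lit 2) (nat_lit 5) (nat_lit 2) (nat_lit 4) (nat_lit 513) (nat_lit 361) (nat_lit 326)))) (XT.nd (nat_lit 78) (nat_lit 0) (nat_lit 0) (XT.lf (nat_lit 0) (nat_lit 3767366984752) (nat_lit 76) (nat_lit 351037926509) (nat_lit 76) (nat_lit 350609670847) (nat_lit 1) (nat_lit 4) (nat_lit 2) (nat_lit 5) (nat_lit 2) (nat_lit 4) (nat_lit 514) (nat_lit 361) (nat_lit 325)) (XT.nd (nat_lit 78) (nat_lit 0) (nat_lit 0) (XT.lf (nat_lit 0) (nat_lit 4071295343372) (nat_lit 76) (nat_lit 377785759594) (nat_lit 76) (nat_lit 377355384593) (nat_lit 1) (nat_lit 4) (nat_lit 2) (nat_lit 5) (nat_lit 2) (nat_lit 4) (nat_lit 515) (nat_lit 361) (nat_lit 324)) (XT.lf (nat_lit 0) (nat_lit 4399517728437) (nat_lit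 76) (nat_lit 406683772862) (nat_lit 76) (nat_lit 406251435510) (nat_lit 1) (nat_lit 4) (nat_lit 2) (nat_lit 5) (nat_lit 2) (nat_lit 4) (nat_lit 516) (nat_lit 361) (nat_lit 323))))) (XT.nd (nat_lit 234) (nat_lit 0) (nat_lit 0) (XT.nd (nat_lit 78) (nat_lit 0) (nat_lit 0) (XT.lf (nat_lit 0) (nat_lit 4753979161488) (nat_lit 76) (nat_lit 437903213799) (nat_lit 76) (nat_lit 437469059455) (nat_lit 1) (nat_lit 4) (nat_lit 2) (nat_lit 5) (nat_lit 2) (nat_lit 4) (nat_lit 517) (nat_lit 361) (nat_lit 322)) (XT.nd (nat_lit 78) (nat_lit 0) (nat_lit 0) (XT.lf (nat_lit 0) (nat_lit 5136780154721) (nat_lit 76) (nat_lit 471629086500) (nat_lit 76) (nat_lit 471193249755) (nat_lit 1) (nat_lit 4) (nat_lit 2) (nat_lit 5) (nat_lit 2) (nat_lit 4) (nat_lit 518) (nat_lit 361) (nat_lit 321)) (XT.lf (nat_lit 0) (nat_lit 5550189158465) (nat_lit 76) (nat_lit 508061247986) (nat_lit 76) (nat_lit 507623853463) (nat_lit 1)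 (nat_lit 4) (nat_lit 2) (nat_lit 5) (nat_lit 2) (nat_lit 4) (nat_lit 519) (nat_lit 361) (nat_lit 320)))) (XT.nd (nat_lit 78) (nat_lit 0) (nat_lit 0) (XT.lf (nat_lit 0) (nat_lit 5996656003855) (nat_lit 76) (nat_lit 547415592550) (nat_lit 76) (nat_lit 546976755640) (nat_lit 1) (nat_lit 4) (nat_lit 2) (nat_lit 5) (nat_lit 2) (nat_lit 4) (nat_lit 520) (nat_lit 361) (nat_lit 319)) (XT.nd (nat_lit 78) (nat_lit 0) (nat_lit 0) (XT.lf (nat_lit 0) (nat_lit 6478826420343) (nat_lit 76) (nat_lit 589925331121) (nat_lit 76) (nat_lit 589485158668) (nat_lit 1) (nat_lit 4) (nat_lit 2) (nat_lit 5) (nat_lit 2) (nat_lit 4) (nat_lit 521) (nat_lit 361) (nat_lit 318)) (XT.lf (nat_lit 0) (nat_lit 6999557714103) (nat_lit 76) (nat_lit 635842373262) (nat_lit 76) (nat_lit 635400964194) (nat_lit 1) (nat_lit 4) (nat_lit 2) (nat_lit 5) (nat_lit 2) (nat_lit 4) (nat_lit 522) (nat_lit 361) (nat_lit 317))))))))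
noncomputable def xc16 : XT := (XT.nd (nat_lit 59904) (nat_lit 0) (nat_lit 0) (XT.nd (nat_lit 59046) (nat_lit 0) (nat_lit 0) (XT.nd (nat_lit 390) (nat_lit 0) (nat_lit 0) (XT.nd (nat_lit 156) (nat_lit 0) (nat_lit 0) (XT.nd (nat_lit 78) (nat_lit 0) (nat_lit 0) (XT.lf (nat_lit 0) (nat_lit 7561935700208) (nat_lit 76) (nat_lit 685438819963) (nat_lit 76) (nat_lit 684996265882) (nat_lit 1) (nat_lit 4) (nat_lit 2) (nat_lit 5) (nat_lit 2) (nat_lit 4) (nat_lit 523) (nat_lit 361) (nat_lit 316)) (XT.lf (nat_lit 0) (nat_lit 8169292988946) (nat_lit 76) (nat_lit 739008576093) (nat_lit 76) (nat_lit 738564961815) (nat_lit 1) (nat_lit 4) (nat_lit 2) (nat_lit 5) (nat_lit 2) (nat_lit 4) (nat_lit 524) (nat_lit 361) (nat_lit 315))) (XT.nd (nat_lit 78) (nat_lit 0) (nat_lit 0) (XT.lf (nat_lit 0) (nat_lit 8825228734621) (nat_lit 76) (nat_lit 796869092060) (nat_lit 76) (nat_lit 796424496116) (nat_lit 1) (nat_lit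 4) (nat_lit 2) (nat_lit 5) (nat_lit 2) (nat_lit 4) (nat_lit 525) (nat_lit 361) (nat_lit 314)) (XT.nd (nat_lit 78) (nat_lit 0) (nat_lit 0) (XT.lf (nat_lit 0) (nat_lit 9533629963874) (nat_lit 76) (nat_lit 859363244993) (nat_lit 76) (nat_lit 858917740102) (nat_lit 1) (nat_lit 4) (nat_lit 2) (nat_lit 5) (nat_lit 2) (nat_lit 4) (nat_lit 526) (nat_lit 361) (nat_lit 313)) (XT.lf (nat_lit 0) (nat_lit 10298694609915) (nat_lit 76) (nat_lit 926861370616) (nat_lit 76) (nat_lit 926415024105) (nat_lit 1) (nat_lit 4) (nat_lit 2) (nat_lit 5) (nat_lit 2) (nat_lit 4) (nat_lit 527) (nat_lit 361) (nat_lit 312))))) (XT.nd (nat_lit 58422) (nat_lit 0) (nat_lit 0) (XT.nd (nat_lit 78) (nat_lit 0) (nat_lit 0) (XT.lf (nat_lit 0) (nat_lit 11124956389166) (nat_lit 76) (nat_lit 999763457820) (nat_lit 76) (nat_lit 999316332033) (nat_lit 1) (nat_lit 4) (nat_lit 2) (nat_lit 5) (nat_lit 2) (nat_lit 4) (nat_lit 528) (nat_lit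 361) (nat_lit 311)) (XT.nd (nat_lit 78) (nat_lit 0) (nat_lit 0) (XT.lf (nat_lit 0) (nat_lit 12017311667725) (nat_lit 76) (nat_lit 1078501518974) (nat_lit 76) (nat_lit 1078053671634) (nat_lit 1) (nat_lit 4) (nat_lit 2) (nat_lit 5) (nat_lit 2) (nat_lit 4) (nat_lit 529) (nat_lit 361) (nat_lit 310)) (XT.lf (nat_lit 0) (nat_lit 12981048476873) (nat_lit 76) (nat_lit 1163542149996) (nat_lit 76) (nat_lit 1163093634552) (nat_lit 1) (nat_lit 4) (nat_lit 2) (nat_lit 5) (nat_lit 2) (nat_lit 4) (nat_lit 530) (nat_lit 361) (nat_lit 309)))) (XT.nd (nat_lit 78) (nat_lit 0) (nat_lit 0) (XT.lf (nat_lit 0) (nat_lit 71356437506) (nat_lit 76) (nat_lit 24889773578) (nat_lit 76) (nat_lit 24889773578) (nat_lit 1) (nat_lit 4) (nat_lit 2) (nat_lit 5) (nat_lit 2) (nat_lit 4) (nat_lit 476) (nat_lit 362) (nat_lit 362)) (XT.nd (nat_lit 78) (nat_lit 0) (nat_lit 0) (XT.lf (nat_lit 0) (nat_lit 161289610333) (nat_lit 76)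 (nat_lit 50060380126) (nat_lit 76) (nat_lit 50023830786) (nat_lit 1) (nat_lit 4) (nat_lit 2) (nat_lit 5) (nat_lit 2) (nat_lit 4) (nat_lit 477) (nat_lit 362) (nat_lit 361)) (XT.lf (nat_lit 0) (nat_lit 181003394301) (nat_lit 76) (nat_lit 50542232934) (nat_lit 76) (nat_lit 50471841613) (nat_lit 1) (nat_lit 4) (nat_lit 2) (nat_lit 5) (nat_lit 2) (nat_lit 4) (nat_lit 478) (nat_lit 362) (nat_lit 360)))))) (XT.nd (nat_lit 390) (nat_lit 0) (nat_lit 0) (XT.nd (nat_lit 156) (nat_lit 0) (nat_lit 0) (XT.nd (nat_lit 78) (nat_lit 0) (nat_lit 0) (XT.lf (nat_lit 0) (nat_lit 201971049338) (nat_lit 76) (nat_lit 51227961007) (nat_lit 76) (nat_lit 51126234518) (nat_lit 1) (nat_lit 4) (nat_lit 2) (nat_lit 5) (nat_lit 2) (nat_lit 4) (nat_lit 479) (nat_lit 362) (nat_lit 359)) (XT.lf (nat_lit 0) (nat_lit 224316828215) (nat_lit 76) (nat_lit 52121627918) (nat_lit 76) (nat_lit 51990887385) (nat_lit 1) (nat_lit 4)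 (nat_lit 2) (nat_lit 5) (nat_lit 2) (nat_lit 4) (nat_lit 480) (nat_lit 362) (nat_lit 358))) (XT.nd (nat_lit 78) (nat_lit 0) (nat_lit 0) (XT.lf (nat_lit 0) (nat_lit 248173150363) (nat_lit 76) (nat_lit 53228529472) (nat_lit 76) (nat_lit 53070924082) (nat_lit 1) (nat_lit 4) (nat_lit 2) (nat_lit 5) (nat_lit 2) (nat_lit 4) (nat_lit 481) (nat_lit 362) (nat_lit 357)) (XT.nd (nat_lit 78) (nat_lit 0) (nat_lit 0) (XT.lf (nat_lit 0) (nat_lit 273681386579) (nat_lit 76) (nat_lit 54555225084) (nat_lit 76) (nat_lit 54372744828) (nat_lit 1) (nat_lit 4) (nat_lit 2) (nat_lit 5) (nat_lit 2) (nat_lit 4) (nat_lit 482) (nat_lit 362) (nat_lit 356)) (XT.lf (nat_lit 0) (nat_lit 300992696782) (nat_lit 76) (nat_lit 56109576654) (nat_lit 76) (nat_lit 55904064115) (nat_lit 1) (nat_lit 4) (nat_lit 2) (nat_lit 5) (nat_lit 2) (nat_lit 4) (nat_lit 483) (nat_lit 362) (nat_lit 355))))) (XT.nd (nat_lit 234) (nat_lit 0) (nat_lit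 0) (XT.nd (nat_lit 78) (nat_lit 0) (nat_lit 0) (XT.lf (nat_lit 0) (nat_lit 330268925773) (nat_lit 76) (nat_lit 57900795156) (nat_lit 76) (nat_lit 57673956427) (nat_lit 1) (nat_lit 4) (nat_lit 2) (nat_lit 5) (nat_lit 2) (nat_lit 4) (nat_lit 484) (nat_lit 362) (nat_lit 354)) (XT.nd (nat_lit 78) (nat_lit 0) (nat_lit 0) (XT.lf (nat_lit 0) (nat_lit 361683562316) (nat_lit 76) (nat_lit 59939495216) (nat_lit 76) (nat_lit 59692910017) (nat_lit 1) (nat_lit 4) (nat_lit 2) (nat_lit 5) (nat_lit 2) (nat_lit 4) (nat_lit 485) (nat_lit 362) (nat_lit 353)) (XT.lf (nat_lit 0) (nat_lit 395422767221) (nat_lit 76) (nat_lit 62237758022) (nat_lit 76) (nat_lit 61972889053) (nat_lit 1) (nat_lit 4) (nat_lit 2) (nat_lit 5) (nat_lit 2) (nat_lit 4) (nat_lit 486) (nat_lit 362) (nat_lit 352)))) (XT.nd (nat_lit 78) (nat_lit 0) (nat_lit 0) (XT.lf (nat_lit 0) (nat_lit 431686476516) (nat_lit 76) (nat_lit 64809202907) (nat_lit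 76) (nat_lit 64527404521) (nat_lit 1) (nat_lit 4) (nat_lit 2) (nat_lit 5) (nat_lit 2) (nat_lit 4) (nat_lit 487) (nat_lit 362) (nat_lit 351)) (XT.nd (nat_lit 78) (nat_lit 0) (nat_lit 0) (XT.lf (nat_lit 0) (nat_lit 470689586257) (nat_lit 76) (nat_lit 67669068063) (nat_lit 76) (nat_lit 67371594293) (nat_lit 1) (nat_lit 4) (nat_lit 2) (nat_lit 5) (nat_lit 2) (nat_lit 4) (nat_lit 488) (nat_lit 362) (nat_lit 350)) (XT.lf (nat_lit 0) (nat_lit 512663225982) (nat_lit 76) (nat_lit 70834300840) (nat_lit 76) (nat_lit 70522312824) (nat_lit 1) (nat_lit 4) (nat_lit 2) (nat_lit 5) (nat_lit 2) (nat_lit 4) (nat_lit 489) (nat_lit 362) (nat_lit 349))))))) (XT.nd (nat_lit 858) (nat_lit 0) (nat_lit 0) (XT.nd (nat_lit 390) (nat_lit 0) (nat_lit 0) (XT.nd (nat_lit 156) (nat_lit 0) (nat_lit 0) (XT.nd (nat_lit 78) (nat_lit 0) (nat_lit 0) (XT.lf (nat_lit 0) (nat_lit 557856128372) (nat_lit 76) (nat_lit 74323658174)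 (nat_lit 76) (nat_lit 73998231041) (nat_lit 1) (nat_lit 4) (nat_lit 2) (nat_lit 5) (nat_lit 2) (nat_lit 4) (nat_lit 490) (nat_lit 362) (nat_lit 348)) (XT.lf (nat_lit 0) (nat_lit 606536103219) (nat_lit 76) (nat_lit 78157817735) (nat_lit 76) (nat_lit 77819946977) (nat_lit 1) (nat_lit 4) (nat_lit 2) (nat_lit 5) (nat_lit 2) (nat_lit 4) (nat_lit 491) (nat_lit 362) (nat_lit 347))) (XT.nd (nat_lit 78) (nat_lit 0) (nat_lit 0) (XT.lf (nat_lit 0) (nat_lit 658991624448) (nat_lit 76) (nat_lit 82359500472) (nat_lit 76) (nat_lit 82010107837) (nat_lit 1) (nat_lit 4) (nat_lit 2) (nat_lit 5) (nat_lit 2) (nat_lit 4) (nat_lit 492) (nat_lit 362) (nat_lit 346)) (XT.nd (nat_lit 78) (nat_lit 0) (nat_lit 0) (XT.lf (nat_lit 0) (nat_lit 715533539591) (nat_lit 76) (nat_lit 86953605243) (nat_lit 76) (nat_lit 86593544204) (nat_lit 1) (nat_lit 4) (nat_lit 2) (nat_lit 5) (nat_lit 2) (nat_lit 4) (nat_lit 493) (nat_lit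 362) (nat_lit 345)) (XT.lf (nat_lit 0) (nat_lit 776496911850) (nat_lit 76) (nat_lit 91967356374) (nat_lit 76) (nat_lit 91597417183) (nat_lit 1) (nat_lit 4) (nat_lit 2) (nat_lit 5) (nat_lit 2) (nat_lit 4) (nat_lit 494) (nat_lit 362) (nat_lit 344))))) (XT.nd (nat_lit 234) (nat_lit 0) (nat_lit 0) (XT.nd (nat_lit 78) (nat_lit 0) (nat_lit 0) (XT.lf (nat_lit 0) (nat_lit 842243005653) (nat_lit 76) (nat_lit 97430464982) (nat_lit 76) (nat_lit 97051379354) (nat_lit 1) (nat_lit 4) (nat_lit 2) (nat_lit 5) (nat_lit 2) (nat_lit 4) (nat_lit 495) (nat_lit 362) (nat_lit 343)) (XT.nd (nat_lit 78) (nat_lit 0) (nat_lit 0) (XT.lf (nat_lit 0) (nat_lit 913161427481) (nat_lit 76) (nat_lit 103375305044) (nat_lit 76) (nat_lit 102987750494) (nat_lit 1) (nat_lit 4) (nat_lit 2) (nat_lit 5) (nat_lit 2) (nat_lit 4) (nat_lit 496) (nat_lit 362) (nat_lit 342)) (XT.lf (nat_lit 0) (nat_lit 989672434650) (nat_lit 76) (nat_lit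 109837105243) (nat_lit 76) (nat_lit 109441709097) (nat_lit 1) (nat_lit 4) (nat_lit 2) (nat_lit 5) (nat_lit 2) (nat_lit 4) (nat_lit 497) (nat_lit 362) (nat_lit 341)))) (XT.nd (nat_lit 78) (nat_lit 0) (nat_lit 0) (XT.lf (nat_lit 0) (nat_lit 1072229425720) (nat_lit 76) (nat_lit 116854157727) (nat_lit 76) (nat_lit 116451500845) (nat_lit 1) (nat_lit 4) (nat_lit 2) (nat_lit 5) (nat_lit 2) (nat_lit 4) (nat_lit 498) (nat_lit 362) (nat_lit 340)) (XT.nd (nat_lit 78) (nat_lit 0) (nat_lit 0) (XT.lf (nat_lit 0) (nat_lit 1161321627305) (nat_lit 76) (nat_lit 124468045030) (nat_lit 76) (nat_lit 124058665244) (nat_lit 1) (nat_lit 4) (nat_lit 2) (nat_lit 5) (nat_lit 2) (nat_lit 4) (nat_lit 499) (nat_lit 362) (nat_lit 339)) (XT.lf (nat_lit 0) (nat_lit 1257476993192) (nat_lit 76) (nat_lit 132723886484) (nat_lit 76) (nat_lit 132308281787) (nat_lit 1) (nat_lit 4) (nat_lit 2) (nat_lit 5) (nat_lit 2) (nat_lit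 4) (nat_lit 500) (nat_lit 362) (nat_lit 338)))))) (XT.nd (nat_lit 468) (nat_lit 0) (nat_lit 0) (XT.nd (nat_lit 234) (nat_lit 0) (nat_lit 0) (XT.nd (nat_lit 78) (nat_lit 0) (nat_lit 0) (XT.lf (nat_lit 0) (nat_lit 1361265332957) (nat_lit 76) (nat_lit 141670605594) (nat_lit 76) (nat_lit 141249237090) (nat_lit 1) (nat_lit 4) (nat_lit 2) (nat_lit 5) (nat_lit 2) (nat_lit 4) (nat_lit 501) (nat_lit 362) (nat_lit 337)) (XT.nd (nat_lit 78) (nat_lit 0) (nat_lit 0) (XT.lf (nat_lit 0) (nat_lit 1473301688613) (nat_lit 76) (nat_lit 151361219954) (nat_lit 76) (nat_lit 150934514592) (nat_lit 1) (nat_lit 4) (nat_lit 2) (nat_lit 5) (nat_lit 2) (nat_lit 4) (nat_lit 502) (nat_lit 362) (nat_lit 336)) (XT.lf (nat_lit 0) (nat_lit 1594249979304) (nat_lit 76) (nat_lit 161853155428) (nat_lit 76) (nat_lit 161421508531) (nat_lit 1) (nat_lit 4) (nat_lit 2) (nat_lit 5) (nat_lit 2) (nat_lit 4) (nat_lit 503) (nat_lit 362)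 (nat_lit 335)))) (XT.nd (nat_lit 78) (nat_lit 0) (nat_lit 0) (XT.lf (nat_lit 0) (nat_lit 1724826935644) (nat_lit 76) (nat_lit 173208586448) (nat_lit 76) (nat_lit 172772364055) (nat_lit 1) (nat_lit 4) (nat_lit 2) (nat_lit 5) (nat_lit 2) (nat_lit 4) (nat_lit 504) (nat_lit 362) (nat_lit 334)) (XT.nd (nat_lit 78) (nat_lit 0) (nat_lit 0) (XT.lf (nat_lit 0) (nat_lit 1865806347001) (nat_lit 76) (nat_lit 185494804456) (nat_lit 76) (nat_lit 185054345493) (nat_lit 1) (nat_lit 4) (nat_lit 2) (nat_lit 5) (nat_lit 2) (nat_lit 4) (nat_lit 505) (nat_lit 362) (nat_lit 333)) (XT.lf (nat_lit 0) (nat_lit 2018023646925) (nat_lit 76) (nat_lit 198784616671) (nat_lit 76) (nat_lit 198340234958) (nat_lit 1) (nat_lit 4) (nat_lit 2) (nat_lit 5) (nat_lit 2) (nat_lit 4) (nat_lit 506) (nat_lit 362) (nat_lit 332))))) (XT.nd (nat_lit 234) (nat_lit 0) (nat_lit 0) (XT.nd (nat_lit 78) (nat_lit 0) (nat_lit 0) (XT.lf (nat_lit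 0) (nat_lit 2182380863861) (nat_lit 76) (nat_lit 213156777536) (nat_lit 76) (nat_lit 212708763647) (nat_lit 1) (nat_lit 4) (nat_lit 2) (nat_lit 5) (nat_lit 2) (nat_lit 4) (nat_lit 507) (nat_lit 362) (nat_lit 331)) (XT.nd (nat_lit 78) (nat_lit 0) (nat_lit 0) (XT.lf (nat_lit 0) (nat_lit 2359851966500) (nat_lit 76) (nat_lit 228696455411) (nat_lit 76) (nat_lit 228245078397) (nat_lit 1) (nat_lit 4) (nat_lit 2) (nat_lit 5) (nat_lit 2) (nat_lit 4) (nat_lit 508) (nat_lit 362) (nat_lit 330)) (XT.lf (nat_lit 0) (nat_lit 2551488635451) (nat_lit 76) (nat_lit 245495737277) (nat_lit 76) (nat_lit 245041246256) (nat_lit 1) (nat_lit 4) (nat_lit 2) (nat_lit 5) (nat_lit 2) (nat_lit 4) (nat_lit 509) (nat_lit 362) (nat_lit 329)))) (XT.nd (nat_lit 78) (nat_lit 0) (nat_lit 0) (XT.lf (nat_lit 0) (nat_lit 2758426495420) (nat_lit 76) (nat_lit 263654174432) (nat_lit 76) (nat_lit 263196800073) (nat_lit 1) (nat_lit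 4) (nat_lit 2) (nat_lit 5) (nat_lit 2) (nat_lit 4) (nat_lit 510) (nat_lit 362) (nat_lit 328)) (XT.nd (nat_lit 78) (nat_lit 0) (nat_lit 0) (XT.lf (nat_lit 0) (nat_lit 2981891844835) (nat_lit 76) (nat_lit 283279372431) (nat_lit 76) (nat_lit 282819328315) (nat_lit 1) (nat_lit 4) (nat_lit 2) (nat_lit 5) (nat_lit 2) (nat_lit 4) (nat_lit 511) (nat_lit 362) (nat_lit 327)) (XT.lf (nat_lit 0) (nat_lit 3223208922804) (nat_lit 76) (nat_lit 304487628743) (nat_lit 76) (nat_lit 304025112629) (nat_lit 1) (nat_lit 4) (nat_lit 2) (nat_lit 5) (nat_lit 2) (nat_lit 4) (nat_lit 512) (nat_lit 362) (nat_lit 326))))))))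
noncomputable def xc17 : XT := (XT.nd (nat_lit 59748) (nat_lit 0) (nat_lit 0) (XT.nd (nat_lit 858) (nat_lit 0) (nat_lit 0) (XT.nd (nat_lit 390) (nat_lit 0) (nat_lit 0) (XT.nd (nat_lit 156) (nat_lit 0) (nat_lit 0) (XT.nd (nat_lit 78) (nat_lit 0) (nat_lit 0) (XT.lf (nat_lit 0) (nat_lit 3483807756456) (nat_lit 76) (nat_lit 327404621925) (nat_lit 76) (nat_lit 326939816924) (nat_lit 1) (nat_lit 4) (nat_lit 2) (nat_lit 5) (nat_lit 2) (nat_lit 4) (nat_lit 513) (nat_lit 362) (nat_lit 325)) (XT.lf (nat_lit 0) (nat_lit 3765232635176) (nat_lit 76) (nat_lit 352166156380) (nat_lit 76) (nat_lit 351699232039) (nat_lit 1) (nat_lit 4) (nat_lit 2) (nat_lit 5) (nat_lit 2) (nat_lit 4) (nat_lit 514) (nat_lit 362) (nat_lit 324))) (XT.nd (nat_lit 78) (nat_lit 0) (nat_lit 0) (XT.lf (nat_lit 0) (nat_lit 4069151261948) (nat_lit 76) (nat_lit 378918967127) (nat_lit 76) (nat_lit 378450080434) (nat_lit 1) (nat_lit 4)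 (nat_lit 2) (nat_lit 5) (nat_lit 2) (nat_lit 4) (nat_lit 515) (nat_lit 362) (nat_lit 323)) (XT.nd (nat_lit 78) (nat_lit 0) (nat_lit 0) (XT.lf (nat_lit 0) (nat_lit 4397364636042) (nat_lit 76) (nat_lit 407821589341) (nat_lit 76) (nat_lit 407350885656) (nat_lit 1) (nat_lit 4) (nat_lit 2) (nat_lit 5) (nat_lit 2) (nat_lit 4) (nat_lit 516) (nat_lit 362) (nat_lit 322)) (XT.lf (nat_lit 0) (nat_lit 4751817725601) (nat_lit 76) (nat_lit 439045297820) (nat_lit 76) (nat_lit 438572911735) (nat_lit 1) (nat_lit 4) (nat_lit 2) (nat_lit 5) (nat_lit 2) (nat_lit 4) (nat_lit 517) (nat_lit 362) (nat_lit 321))))) (XT.nd (nat_lit 234) (nat_lit 0) (nat_lit 0) (XT.nd (nat_lit 78) (nat_lit 0) (nat_lit 0) (XT.lf (nat_lit 0) (nat_lit 5134610993379) (nat_lit 76) (nat_lit 472775121949) (nat_lit 76) (nat_lit 472301178086) (nat_lit 1) (nat_lit 4) (nat_lit 2) (nat_lit 5) (nat_lit 2) (nat_lit 4) (nat_lit 518) (nat_lit 362)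 (nat_lit 320)) (XT.nd (nat_lit 78) (nat_lit 0) (nat_lit 0) (XT.lf (nat_lit 0) (nat_lit 5548012843924) (nat_lit 76) (nat_lit 509210942165) (nat_lit 76) (nat_lit 508735555915) (nat_lit 1) (nat_lit 4) (nat_lit 2) (nat_lit 5) (nat_lit 2) (nat_lit 4) (nat_lit 519) (nat_lit 362) (nat_lit 319)) (XT.lf (nat_lit 0) (nat_lit 5994473065981) (nat_lit 76) (nat_lit 548568674442) (nat_lit 76) (nat_lit 548091952648) (nat_lit 1) (nat_lit 4) (nat_lit 2) (nat_lit 5) (nat_lit 2) (nat_lit 4) (nat_lit 520) (nat_lit 362) (nat_lit 318)))) (XT.nd (nat_lit 78) (nat_lit 0) (nat_lit 0) (XT.lf (nat_lit 0) (nat_lit 6476637349754) (nat_lit 76) (nat_lit 591081549784) (nat_lit 76) (nat_lit 590603591376) (nat_lit 1) (nat_lit 4) (nat_lit 2) (nat_lit 5) (nat_lit 2) (nat_lit 4) (nat_lit 521) (nat_lit 362) (nat_lit 317)) (XT.nd (nat_lit 78) (nat_lit 0) (nat_lit 0) (XT.lf (nat_lit 0) (nat_lit 6997362965073) (nat_lit 76) (nat_lit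 637001496343) (nat_lit 76) (nat_lit 636522392921) (nat_lit 1) (nat_lit 4) (nat_lit 2) (nat_lit 5) (nat_lit 2) (nat_lit 4) (nat_lit 522) (nat_lit 362) (nat_lit 316)) (XT.lf (nat_lit 0) (nat_lit 7559735693363) (nat_lit 76) (nat_lit 686600632319) (nat_lit 76) (nat_lit 686120468700) (nat_lit 1) (nat_lit 4) (nat_lit 2) (nat_lit 5) (nat_lit 2) (nat_lit 4) (nat_lit 523) (nat_lit 362) (nat_lit 315)))))) (XT.nd (nat_lit 390) (nat_lit 0) (nat_lit 0) (XT.nd (nat_lit 156) (nat_lit 0) (nat_lit 0) (XT.nd (nat_lit 78) (nat_lit 0) (nat_lit 0) (XT.lf (nat_lit 0) (nat_lit 8167088113754) (nat_lit 76) (nat_lit 740172878519) (nat_lit 76) (nat_lit 739691733236) (nat_lit 1) (nat_lit 4) (nat_lit 2) (nat_lit 5) (nat_lit 2) (nat_lit 4) (nat_lit 524) (nat_lit 362) (nat_lit 314)) (XT.lf (nat_lit 0) (nat_lit 8823019351701) (nat_lit 76) (nat_lit 798035700106) (nat_lit 76) (nat_lit 797553645874) (nat_lit 1) (nat_lit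 4) (nat_lit 2) (nat_lit 5) (nat_lit 2) (nat_lit 4) (nat_lit 525) (nat_lit 362) (nat_lit 313))) (XT.nd (nat_lit 78) (nat_lit 0) (nat_lit 0) (XT.lf (nat_lit 0) (nat_lit 9531416407130) (nat_lit 76) (nat_lit 860531987873) (nat_lit 76) (nat_lit 860049092023) (nat_lit 1) (nat_lit 4) (nat_lit 2) (nat_lit 5) (nat_lit 2) (nat_lit 4) (nat_lit 526) (nat_lit 362) (nat_lit 312)) (XT.nd (nat_lit 78) (nat_lit 0) (nat_lit 0) (XT.lf (nat_lit 0) (nat_lit 10296477188521) (nat_lit 76) (nat_lit 928032090194) (nat_lit 76) (nat_lit 927548415067) (nat_lit 1) (nat_lit 4) (nat_lit 2) (nat_lit 5) (nat_lit 2) (nat_lit 4) (nat_lit 527) (nat_lit 362) (nat_lit 311)) (XT.lf (nat_lit 0) (nat_lit 11122735389391) (nat_lit 76) (nat_lit 1000936007674) (nat_lit 76) (nat_lit 1000451610994) (nat_lit 1) (nat_lit 4) (nat_lit 2) (nat_lit 5) (nat_lit 2) (nat_lit 4) (nat_lit 528) (nat_lit 362) (nat_lit 310))))) (XT.nd (nat_lit 58266)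 (nat_lit 0) (nat_lit 0) (XT.nd (nat_lit 78) (nat_lit 0) (nat_lit 0) (XT.lf (nat_lit 0) (nat_lit 12015087354634) (nat_lit 76) (nat_lit 1079675763528) (nat_lit 76) (nat_lit 1079190698743) (nat_lit 1) (nat_lit 4) (nat_lit 2) (nat_lit 5) (nat_lit 2) (nat_lit 4) (nat_lit 529) (nat_lit 362) (nat_lit 309)) (XT.nd (nat_lit 58110) (nat_lit 0) (nat_lit 0) (XT.lf (nat_lit 0) (nat_lit 12978821095898) (nat_lit 76) (nat_lit 1164717963716) (nat_lit 76) (nat_lit 1164232280317) (nat_lit 1) (nat_lit 4) (nat_lit 2) (nat_lit 5) (nat_lit 2) (nat_lit 4) (nat_lit 530) (nat_lit 362) (nat_lit 308)) (XT.lf (nat_lit 0) (nat_lit 54366028811) (nat_lit 76) (nat_lit 24877405736) (nat_lit 76) (nat_lit 24877405736) (nat_lit 1) (nat_lit 4) (nat_lit 2) (nat_lit 5) (nat_lit 2) (nat_lit 4) (nat_lit 474) (nat_lit 363) (nat_lit 363)))) (XT.nd (nat_lit 78) (nat_lit 0) (nat_lit 0) (XT.lf (nat_lit 0) (nat_lit 125163103979) (nat_lit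 76) (nat_lit 49737543121) (nat_lit 76) (nat_lit 49698069834) (nat_lit 1) (nat_lit 4) (nat_lit 2) (nat_lit 5) (nat_lit 2) (nat_lit 4) (nat_lit 475) (nat_lit 363) (nat_lit 362)) (XT.nd (nat_lit 78) (nat_lit 0) (nat_lit 0) (XT.lf (nat_lit 0) (nat_lit 142531616649) (nat_lit 76) (nat_lit 49911730761) (nat_lit 76) (nat_lit 49835708135) (nat_lit 1) (nat_lit 4) (nat_lit 2) (nat_lit 5) (nat_lit 2) (nat_lit 4) (nat_lit 476) (nat_lit 363) (nat_lit 361)) (XT.lf (nat_lit 0) (nat_lit 160940520154) (nat_lit 76) (nat_lit 50278406616) (nat_lit 76) (nat_lit 50168542007) (nat_lit 1) (nat_lit 4) (nat_lit 2) (nat_lit 5) (nat_lit 2) (nat_lit 4) (nat_lit 477) (nat_lit 363) (nat_lit 360))))))) (XT.nd (nat_lit 858) (nat_lit 0) (nat_lit 0) (XT.nd (nat_lit 390) (nat_lit 0) (nat_lit 0) (XT.nd (nat_lit 156) (nat_lit 0) (nat_lit 0) (XT.nd (nat_lit 78) (nat_lit 0) (nat_lit 0) (XT.lf (nat_lit 0) (nat_lit 180498904290)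 (nat_lit 76) (nat_lit 50839743578) (nat_lit 76) (nat_lit 50698543802) (nat_lit 1) (nat_lit 4) (nat_lit 2) (nat_lit 5) (nat_lit 2) (nat_lit 4) (nat_lit 478) (nat_lit 363) (nat_lit 359)) (XT.lf (nat_lit 0) (nat_lit 201322670595) (nat_lit 76) (nat_lit 51599068089) (nat_lit 76) (nat_lit 51428854269) (nat_lit 1) (nat_lit 4) (nat_lit 2) (nat_lit 5) (nat_lit 2) (nat_lit 4) (nat_lit 479) (nat_lit 363) (nat_lit 358))) (XT.nd (nat_lit 78) (nat_lit 0) (nat_lit 0) (XT.lf (nat_lit 0) (nat_lit 223535219165) (nat_lit 76) (nat_lit 52560879851) (nat_lit 76) (nat_lit 52363801175) (nat_lit 1) (nat_lit 4) (nat_lit 2) (nat_lit 5) (nat_lit 2) (nat_lit 4) (nat_lit 480) (nat_lit 363) (nat_lit 357)) (XT.nd (nat_lit 78) (nat_lit 0) (nat_lit 0) (XT.lf (nat_lit 0) (nat_lit 247268179917) (nat_lit 76) (nat_lit 53730878488) (nat_lit 76) (nat_lit 53508924946) (nat_lit 1) (nat_lit 4) (nat_lit 2) (nat_lit 5) (nat_lit 2)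 (nat_lit 4) (nat_lit 481) (nat_lit 363) (nat_lit 356)) (XT.lf (nat_lit 0) (nat_lit 272662192619) (nat_lit 76) (nat_lit 55115997326) (nat_lit 76) (nat_lit 54871011499) (nat_lit 1) (nat_lit 4) (nat_lit 2) (nat_lit 5) (nat_lit 2) (nat_lit 4) (nat_lit 482) (nat_lit 363) (nat_lit 355))))) (XT.nd (nat_lit 234) (nat_lit 0) (nat_lit 0) (XT.nd (nat_lit 78) (nat_lit 0) (nat_lit 0) (XT.lf (nat_lit 0) (nat_lit 299867740308) (nat_lit 76) (nat_lit 56724444476) (nat_lit 76) (nat_lit 56458132461) (nat_lit 1) (nat_lit 4) (nat_lit 2) (nat_lit 5) (nat_lit 2) (nat_lit 4) (nat_lit 483) (nat_lit 363) (nat_lit 354)) (XT.nd (nat_lit 78) (nat_lit 0) (nat_lit 0) (XT.lf (nat_lit 0) (nat_lit 329046041045) (nat_lit 76) (nat_lit 58565751477) (nat_lit 76) (nat_lit 58279692991) (nat_lit 1) (nat_lit 4) (nat_lit 2) (nat_lit 5) (nat_lit 2) (nat_lit 4) (nat_lit 484) (nat_lit 363) (nat_lit 353)) (XT.lf (nat_lit 0) (nat_lit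 360370003280) (nat_lit 76) (nat_lit 60650829778) (nat_lit 76) (nat_lit 60346487522) (nat_lit 1) (nat_lit 4) (nat_lit 2) (nat_lit 5) (nat_lit 2) (nat_lit 4) (nat_lit 485) (nat_lit 363) (nat_lit 352)))) (XT.nd (nat_lit 78) (nat_lit 0) (nat_lit 0) (XT.lf (nat_lit 0) (nat_lit 394025250491) (nat_lit 76) (nat_lit 62992035398) (nat_lit 76) (nat_lit 62670763726) (nat_lit 1) (nat_lit 4) (nat_lit 2) (nat_lit 5) (nat_lit 2) (nat_lit 4) (nat_lit 486) (nat_lit 363) (nat_lit 351)) (XT.nd (nat_lit 78) (nat_lit 0) (nat_lit 0) (XT.lf (nat_lit 0) (nat_lit 430211221181) (nat_lit 76) (nat_lit 65603242149) (nat_lit 76) (nat_lit 65266295092) (nat_lit 1) (nat_lit 4) (nat_lit 2) (nat_lit 5) (nat_lit 2) (nat_lit 4) (nat_lit 487) (nat_lit 363) (nat_lit 350)) (XT.lf (nat_lit 0) (nat_lit 469142350733) (nat_lit 76) (nat_lit 68499923848) (nat_lit 76) (nat_lit 68148462545) (nat_lit 1) (nat_lit 4) (nat_lit 2) (nat_lit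 5) (nat_lit 2) (nat_lit 4) (nat_lit 488) (nat_lit 363) (nat_lit 349)))))) (XT.nd (nat_lit 468) (nat_lit 0) (nat_lit 0) (XT.nd (nat_lit 234) (nat_lit 0) (nat_lit 0) (XT.nd (nat_lit 78) (nat_lit 0) (nat_lit 0) (XT.lf (nat_lit 0) (nat_lit 511049342134) (nat_lit 76) (nat_lit 71699246017) (nat_lit 76) (nat_lit 71334345597) (nat_lit 1) (nat_lit 4) (nat_lit 2) (nat_lit 5) (nat_lit 2) (nat_lit 4) (nat_lit 489) (nat_lit 363) (nat_lit 348)) (XT.nd (nat_lit 78) (nat_lit 0) (nat_lit 0) (XT.lf (nat_lit 0) (nat_lit 556180533114) (nat_lit 76) (nat_lit 75220167601) (nat_lit 76) (nat_lit 74842823555) (nat_lit 1) (nat_lit 4) (nat_lit 2) (nat_lit 5) (nat_lit 2) (nat_lit 4) (nat_lit 490) (nat_lit 363) (nat_lit 347)) (XT.lf (nat_lit 0) (nat_lit 604803367765) (nat_lit 76) (nat_lit 79083553321) (nat_lit 76) (nat_lit 78694687399) (nat_lit 1) (nat_lit 4) (nat_lit 2) (nat_lit 5) (nat_lit 2) (nat_lit 4) (nat_lit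 491) (nat_lit 363) (nat_lit 346)))) (XT.nd (nat_lit 78) (nat_lit 0) (nat_lit 0) (XT.lf (nat_lit 0) (nat_lit 657205981406) (nat_lit 76) (nat_lit 83312297315) (nat_lit 76) (nat_lit 82912762989) (nat_lit 1) (nat_lit 4) (nat_lit 2) (nat_lit 5) (nat_lit 2) (nat_lit 4) (nat_lit 492) (nat_lit 363) (nat_lit 345)) (XT.nd (nat_lit 78) (nat_lit 0) (nat_lit 0) (XT.lf (nat_lit 0) (nat_lit 713698908041) (nat_lit 76) (nat_lit 87931458806) (nat_lit 76) (nat_lit 87522046329) (nat_lit 1) (nat_lit 4) (nat_lit 2) (nat_lit 5) (nat_lit 2) (nat_lit 4) (nat_lit 493) (nat_lit 363) (nat_lit 344)) (XT.lf (nat_lit 0) (nat_lit 774616920571) (nat_lit 76) (nat_lit 92968410604) (nat_lit 76) (nat_lit 92549851689) (nat_lit 1) (nat_lit 4) (nat_lit 2) (nat_lit 5) (nat_lit 2) (nat_lit 4) (nat_lit 494) (nat_lit 363) (nat_lit 343))))) (XT.nd (nat_lit 234) (nat_lit 0) (nat_lit 0) (XT.nd (nat_lit 78) (nat_lit 0) (nat_lit 0) (XT.lf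 (nat_lit 0) (nat_lit 840321014624) (nat_lit 76) (nat_lit 98453001311) (nat_lit 76) (nat_lit 98025973473) (nat_lit 1) (nat_lit 4) (nat_lit 2) (nat_lit 5) (nat_lit 2) (nat_lit 4) (nat_lit 495) (nat_lit 363) (nat_lit 342)) (XT.nd (nat_lit 78) (nat_lit 0) (nat_lit 0) (XT.lf (nat_lit 0) (nat_lit 911200547796) (nat_lit 76) (nat_lit 104417732206) (nat_lit 76) (nat_lit 103982862773) (nat_lit 1) (nat_lit 4) (nat_lit 2) (nat_lit 5) (nat_lit 2) (nat_lit 4) (nat_lit 496) (nat_lit 363) (nat_lit 341)) (XT.lf (nat_lit 0) (nat_lit 987675546949) (nat_lit 76) (nat_lit 110897949842) (nat_lit 76) (nat_lit 110455819673) (nat_lit 1) (nat_lit 4) (nat_lit 2) (nat_lit 5) (nat_lit 2) (nat_lit 4) (nat_lit 497) (nat_lit 363) (nat_lit 340)))) (XT.nd (nat_lit 78) (nat_lit 0) (nat_lit 0) (XT.lf (nat_lit 0) (nat_lit 1070199197264) (nat_lit 76) (nat_lit 117932055509) (nat_lit 76) (nat_lit 117483202435) (nat_lit 1) (nat_lit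 4) (nat_lit 2) (nat_lit 5) (nat_lit 2) (nat_lit 4) (nat_lit 498) (nat_lit 363) (nat_lit 339)) (XT.nd (nat_lit 78) (nat_lit 0) (nat_lit 0) (XT.lf (nat_lit 0) (nat_lit 1159260527780) (nat_lit 76) (nat_lit 125561732796) (nat_lit 76) (nat_lit 125106654811) (nat_lit 1) (nat_lit 4) (nat_lit 2) (nat_lit 5) (nat_lit 2) (nat_lit 4) (nat_lit 499) (nat_lit 363) (nat_lit 338)) (XT.lf (nat_lit 0) (nat_lit 1255387309343) (nat_lit 76) (nat_lit 133832194605) (nat_lit 76) (nat_lit 133371352814) (nat_lit 1) (nat_lit 4) (nat_lit 2) (nat_lit 5) (nat_lit 2) (nat_lit 4) (nat_lit 500) (nat_lit 363) (nat_lit 337))))))))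
noncomputable def xc18 : XT := (XT.nd (nat_lit 1716) (nat_lit 0) (nat_lit 0) (XT.nd (nat_lit 858) (nat_lit 0) (nat_lit 0) (XT.nd (nat_lit 390) (nat_lit 0) (nat_lit 0) (XT.nd (nat_lit 156) (nat_lit 0) (nat_lit 0) (XT.nd (nat_lit 78) (nat_lit 0) (nat_lit 0) (XT.lf (nat_lit 0) (nat_lit 1359149182142) (nat_lit 76) (nat_lit 142792451081) (nat_lit 76) (nat_lit 142326272432) (nat_lit 1) (nat_lit 4) (nat_lit 2) (nat_lit 5) (nat_lit 2) (nat_lit 4) (nat_lit 501) (nat_lit 363) (nat_lit 336)) (XT.lf (nat_lit 0) (nat_lit 1471161031347) (nat_lit 76) (nat_lit 152495600040) (nat_lit 76) (nat_lit 152024479855) (nat_lit 1) (nat_lit 4) (nat_lit 2) (nat_lit 5) (nat_lit 2) (nat_lit 4) (nat_lit 502) (nat_lit 363) (nat_lit 335))) (XT.nd (nat_lit 78) (nat_lit 0) (nat_lit 0) (XT.lf (nat_lit 0) (nat_lit 1592086630881) (nat_lit 76) (nat_lit 162999141623) (nat_lit 76) (nat_lit 162523445943) (nat_lit 1) (nat_lit 4)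 (nat_lit 2) (nat_lit 5) (nat_lit 2) (nat_lit 4) (nat_lit 503) (nat_lit 363) (nat_lit 334)) (XT.nd (nat_lit 78) (nat_lit 0) (nat_lit 0) (XT.lf (nat_lit 0) (nat_lit 1722642576889) (nat_lit 76) (nat_lit 174365319041) (nat_lit 76) (nat_lit 173885386791) (nat_lit 1) (nat_lit 4) (nat_lit 2) (nat_lit 5) (nat_lit 2) (nat_lit 4) (nat_lit 504) (nat_lit 363) (nat_lit 333)) (XT.lf (nat_lit 0) (nat_lit 1863602534236) (nat_lit 76) (nat_lit 186661487417) (nat_lit 76) (nat_lit 186177632417) (nat_lit 1) (nat_lit 4) (nat_lit 2) (nat_lit 5) (nat_lit 2) (nat_lit 4) (nat_lit 505) (nat_lit 363) (nat_lit 332))))) (XT.nd (nat_lit 234) (nat_lit 0) (nat_lit 0) (XT.nd (nat_lit 78) (nat_lit 0) (nat_lit 0) (XT.lf (nat_lit 0) (nat_lit 2015801821188) (nat_lit 76) (nat_lit 199960512937) (nat_lit 76) (nat_lit 199473025761) (nat_lit 1) (nat_lit 4) (nat_lit 2) (nat_lit 5) (nat_lit 2) (nat_lit 4) (nat_lit 506) (nat_lit 363)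 (nat_lit 331)) (XT.nd (nat_lit 78) (nat_lit 0) (nat_lit 0) (XT.lf (nat_lit 0) (nat_lit 2180142359445) (nat_lit 76) (nat_lit 214341204639) (nat_lit 76) (nat_lit 213850354337) (nat_lit 1) (nat_lit 4) (nat_lit 2) (nat_lit 5) (nat_lit 2) (nat_lit 4) (nat_lit 507) (nat_lit 363) (nat_lit 330)) (XT.lf (nat_lit 0) (nat_lit 2357598018864) (nat_lit 76) (nat_lit 229888781437) (nat_lit 76) (nat_lit 229394817130) (nat_lit 1) (nat_lit 4) (nat_lit 2) (nat_lit 5) (nat_lit 2) (nat_lit 4) (nat_lit 508) (nat_lit 363) (nat_lit 329)))) (XT.nd (nat_lit 78) (nat_lit 0) (nat_lit 0) (XT.lf (nat_lit 0) (nat_lit 2549220388537) (nat_lit 76) (nat_lit 246695377120) (nat_lit 76) (nat_lit 246198529474) (nat_lit 1) (nat_lit 4) (nat_lit 2) (nat_lit 5) (nat_lit 2) (nat_lit 4) (nat_lit 509) (nat_lit 363) (nat_lit 328)) (XT.nd (nat_lit 78) (nat_lit 0) (nat_lit 0) (XT.lf (nat_lit 0) (nat_lit 2756145008433) (nat_lit 76) (nat_lit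 264860586329) (nat_lit 76) (nat_lit 264361068925) (nat_lit 1) (nat_lit 4) (nat_lit 2) (nat_lit 5) (nat_lit 2) (nat_lit 4) (nat_lit 510) (nat_lit 363) (nat_lit 327)) (XT.lf (nat_lit 0) (nat_lit 2979598098521) (nat_lit 76) (nat_lit 284492054748) (nat_lit 76) (nat_lit 283990065346) (nat_lit 1) (nat_lit 4) (nat_lit 2) (nat_lit 5) (nat_lit 2) (nat_lit 4) (nat_lit 511) (nat_lit 363) (nat_lit 326)))))) (XT.nd (nat_lit 390) (nat_lit 0) (nat_lit 0) (XT.nd (nat_lit 156) (nat_lit 0) (nat_lit 0) (XT.nd (nat_lit 78) (nat_lit 0) (nat_lit 0) (XT.lf (nat_lit 0) (nat_lit 3220903825262) (nat_lit 76) (nat_lit 305706117004) (nat_lit 76) (nat_lit 305201838716) (nat_lit 1) (nat_lit 4) (nat_lit 2) (nat_lit 5) (nat_lit 2) (nat_lit 4) (nat_lit 512) (nat_lit 363) (nat_lit 325)) (XT.lf (nat_lit 0) (nat_lit 3481492148518) (nat_lit 76) (nat_lit 328628486060) (nat_lit 76) (nat_lit 328122088432) (nat_lit 1) (nat_lit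 4) (nat_lit 2) (nat_lit 5) (nat_lit 2) (nat_lit 4) (nat_lit 513) (nat_lit 363) (nat_lit 324))) (XT.nd (nat_lit 78) (nat_lit 0) (nat_lit 0) (XT.lf (nat_lit 0) (nat_lit 3762907295389) (nat_lit 76) (nat_lit 353394998176) (nat_lit 76) (nat_lit 352886638197) (nat_lit 1) (nat_lit 4) (nat_lit 2) (nat_lit 5) (nat_lit 2) (nat_lit 4) (nat_lit 514) (nat_lit 363) (nat_lit 323)) (XT.nd (nat_lit 78) (nat_lit 0) (nat_lit 0) (XT.lf (nat_lit 0) (nat_lit 4066816911190) (nat_lit 76) (nat_lit 380152417869) (nat_lit 76) (nat_lit 379642240898) (nat_lit 1) (nat_lit 4) (nat_lit 2) (nat_lit 5) (nat_lit 2) (nat_lit 4) (nat_lit 515) (nat_lit 363) (nat_lit 322)) (XT.lf (nat_lit 0) (nat_lit 4395021941793) (nat_lit 76) (nat_lit 409059307626) (nat_lit 76) (nat_lit 408547448254) (nat_lit 1) (nat_lit 4) (nat_lit 2) (nat_lit 5) (nat_lit 2) (nat_lit 4) (nat_lit 516) (nat_lit 363) (nat_lit 321))))) (XT.nd (nat_lit 234) (nat_lit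 0) (nat_lit 0) (XT.nd (nat_lit 78) (nat_lit 0) (nat_lit 0) (XT.lf (nat_lit 0) (nat_lit 4749467305897) (nat_lit 76) (nat_lit 440286967533) (nat_lit 76) (nat_lit 439773550384) (nat_lit 1) (nat_lit 4) (nat_lit 2) (nat_lit 5) (nat_lit 2) (nat_lit 4) (nat_lit 517) (nat_lit 363) (nat_lit 320)) (XT.nd (nat_lit 78) (nat_lit 0) (nat_lit 0) (XT.lf (nat_lit 0) (nat_lit 5132253420475) (nat_lit 76) (nat_lit 474020450392) (nat_lit 76) (nat_lit 473505590855) (nat_lit 1) (nat_lit 4) (nat_lit 2) (nat_lit 5) (nat_lit 2) (nat_lit 4) (nat_lit 518) (nat_lit 363) (nat_lit 319)) (XT.lf (nat_lit 0) (nat_lit 5545648647687) (nat_lit 76) (nat_lit 510459658321) (nat_lit 76) (nat_lit 509943463240) (nat_lit 1) (nat_lit 4) (nat_lit 2) (nat_lit 5) (nat_lit 2) (nat_lit 4) (nat_lit 519) (nat_lit 363) (nat_lit 318)))) (XT.nd (nat_lit 78) (nat_lit 0) (nat_lit 0) (XT.lf (nat_lit 0) (nat_lit 5992102737029) (nat_lit 76) (nat_lit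 549820527368) (nat_lit 76) (nat_lit 549303095674) (nat_lit 1) (nat_lit 4) (nat_lit 2) (nat_lit 5) (nat_lit 2) (nat_lit 4) (nat_lit 520) (nat_lit 363) (nat_lit 317)) (XT.nd (nat_lit 78) (nat_lit 0) (nat_lit 0) (XT.lf (nat_lit 0) (nat_lit 6474261342362) (nat_lit 76) (nat_lit 592336307128) (nat_lit 76) (nat_lit 591817730420) (nat_lit 1) (nat_lit 4) (nat_lit 2) (nat_lit 5) (nat_lit 2) (nat_lit 4) (nat_lit 521) (nat_lit 363) (nat_lit 316)) (XT.lf (nat_lit 0) (nat_lit 6994981699866) (nat_lit 76) (nat_lit 638258942963) (nat_lit 76) (nat_lit 637739306057) (nat_lit 1) (nat_lit 4) (nat_lit 2) (nat_lit 5) (nat_lit 2) (nat_lit 4) (nat_lit 522) (nat_lit 363) (nat_lit 315))))))) (XT.nd (nat_lit 58734) (nat_lit 0) (nat_lit 0) (XT.nd (nat_lit 390) (nat_lit 0) (nat_lit 0) (XT.nd (nat_lit 156) (nat_lit 0) (nat_lit 0) (XT.nd (nat_lit 78) (nat_lit 0) (nat_lit 0) (XT.lf (nat_lit 0) (nat_lit 7557349559809) (nat_lit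 76) (nat_lit 687860569009) (nat_lit 76) (nat_lit 687339950439) (nat_lit 1) (nat_lit 4) (nat_lit 2) (nat_lit 5) (nat_lit 2) (nat_lit 4) (nat_lit 523) (nat_lit 363) (nat_lit 314)) (XT.lf (nat_lit 0) (nat_lit 8164697472471) (nat_lit 76) (nat_lit 741435120830) (nat_lit 76) (nat_lit 740913593311) (nat_lit 1) (nat_lit 4) (nat_lit 2) (nat_lit 5) (nat_lit 2) (nat_lit 4) (nat_lit 524) (nat_lit 363) (nat_lit 313))) (XT.nd (nat_lit 78) (nat_lit 0) (nat_lit 0) (XT.lf (nat_lit 0) (nat_lit 8820624536594) (nat_lit 76) (nat_lit 799300077250) (nat_lit 76) (nat_lit 798777708112) (nat_lit 1) (nat_lit 4) (nat_lit 2) (nat_lit 5) (nat_lit 2) (nat_lit 4) (nat_lit 525) (nat_lit 363) (nat_lit 312)) (XT.nd (nat_lit 78) (nat_lit 0) (nat_lit 0) (XT.lf (nat_lit 0) (nat_lit 9529017727373) (nat_lit 76) (nat_lit 861798341715) (nat_lit 76) (nat_lit 861275193301) (nat_lit 1) (nat_lit 4) (nat_lit 2) (nat_lit 5) (nat_lit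 2) (nat_lit 4) (nat_lit 526) (nat_lit 363) (nat_lit 311)) (XT.lf (nat_lit 0) (nat_lit 10294074930383) (nat_lit 76) (nat_lit 929300274312) (nat_lit 76) (nat_lit 928776404345) (nat_lit 1) (nat_lit 4) (nat_lit 2) (nat_lit 5) (nat_lit 2) (nat_lit 4) (nat_lit 527) (nat_lit 363) (nat_lit 310))))) (XT.nd (nat_lit 58110) (nat_lit 0) (nat_lit 0) (XT.nd (nat_lit 78) (nat_lit 0) (nat_lit 0) (XT.lf (nat_lit 0) (nat_lit 11120329817938) (nat_lit 76) (nat_lit 1002205886491) (nat_lit 76) (nat_lit 1001681348420) (nat_lit 1) (nat_lit 4) (nat_lit 2) (nat_lit 5) (nat_lit 2) (nat_lit 4) (nat_lit 528) (nat_lit 363) (nat_lit 309)) (XT.nd (nat_lit 78) (nat_lit 0) (nat_lit 0) (XT.lf (nat_lit 0) (nat_lit 12012678715297) (nat_lit 76) (nat_lit 1080947211512) (nat_lit 76) (nat_lit 1080422054825) (nat_lit 1) (nat_lit 4) (nat_lit 2) (nat_lit 5) (nat_lit 2) (nat_lit 4) (nat_lit 529) (nat_lit 363) (nat_lit 308)) (XT.lf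 (nat_lit 0) (nat_lit 12976409615926) (nat_lit 76) (nat_lit 1165990864632) (nat_lit 76) (nat_lit 1165465135154) (nat_lit 1) (nat_lit 4) (nat_lit 2) (nat_lit 5) (nat_lit 2) (nat_lit 4) (nat_lit 530) (nat_lit 363) (nat_lit 307)))) (XT.nd (nat_lit 78) (nat_lit 0) (nat_lit 0) (XT.lf (nat_lit 0) (nat_lit 39254642653) (nat_lit 76) (nat_lit 25149877234) (nat_lit 76) (nat_lit 25149877234) (nat_lit 1) (nat_lit 4) (nat_lit 2) (nat_lit 5) (nat_lit 2) (nat_lit 4) (nat_lit 472) (nat_lit 364) (nat_lit 364)) (XT.nd (nat_lit 78) (nat_lit 0) (nat_lit 0) (XT.lf (nat_lit 0) (nat_lit 93141108417) (nat_lit 76) (nat_lit 50006269295) (nat_lit 76) (nat_lit 49963638145) (nat_lit 1) (nat_lit 4) (nat_lit 2) (nat_lit 5) (nat_lit 2) (nat_lit 4) (nat_lit 473) (nat_lit 364) (nat_lit 363)) (XT.lf (nat_lit 0) (nat_lit 108536298591) (nat_lit 76) (nat_lit 49897569764) (nat_lit 76) (nat_lit 49815465327) (nat_lit 1) (nat_lit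 4) (nat_lit 2) (nat_lit 5) (nat_lit 2) (nat_lit 4) (nat_lit 474) (nat_lit 364) (nat_lit 362)))))) (XT.nd (nat_lit 468) (nat_lit 0) (nat_lit 0) (XT.nd (nat_lit 234) (nat_lit 0) (nat_lit 0) (XT.nd (nat_lit 78) (nat_lit 0) (nat_lit 0) (XT.lf (nat_lit 0) (nat_lit 124786086584) (nat_lit 76) (nat_lit 49973011730) (nat_lit 76) (nat_lit 49854357954) (nat_lit 1) (nat_lit 4) (nat_lit 2) (nat_lit 5) (nat_lit 2) (nat_lit 4) (nat_lit 475) (nat_lit 364) (nat_lit 361)) (XT.nd (nat_lit 78) (nat_lit 0) (nat_lit 0) (XT.lf (nat_lit 0) (nat_lit 141986767438) (nat_lit 76) (nat_lit 50233042256) (nat_lit 76) (nat_lit 50080546498) (nat_lit 1) (nat_lit 4) (nat_lit 2) (nat_lit 5) (nat_lit 2) (nat_lit 4) (nat_lit 476) (nat_lit 364) (nat_lit 360)) (XT.lf (nat_lit 0) (nat_lit 160240271112) (nat_lit 76) (nat_lit 50679202264) (nat_lit 76) (nat_lit 50495371338) (nat_lit 1) (nat_lit 4) (nat_lit 2) (nat_lit 5) (nat_lit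 2) (nat_lit 4) (nat_lit 477) (nat_lit 364) (nat_lit 359)))) (XT.nd (nat_lit 78) (nat_lit 0) (nat_lit 0) (XT.lf (nat_lit 0) (nat_lit 179654766516) (nat_lit 76) (nat_lit 51314135665) (nat_lit 76) (nat_lit 51101290695) (nat_lit 1) (nat_lit 4) (nat_lit 2) (nat_lit 5) (nat_lit 2) (nat_lit 4) (nat_lit 478) (nat_lit 364) (nat_lit 358)) (XT.nd (nat_lit 78) (nat_lit 0) (nat_lit 0) (XT.lf (nat_lit 0) (nat_lit 200345302514) (nat_lit 76) (nat_lit 52141605028) (nat_lit 76) (nat_lit 51901895201) (nat_lit 1) (nat_lit 4) (nat_lit 2) (nat_lit 5) (nat_lit 2) (nat_lit 4) (nat_lit 479) (nat_lit 364) (nat_lit 357)) (XT.lf (nat_lit 0) (nat_lit 222434489688) (nat_lit 76) (nat_lit 53166513873) (nat_lit 76) (nat_lit 52901929180) (nat_lit 1) (nat_lit 4) (nat_lit 2) (nat_lit 5) (nat_lit 2) (nat_lit 4) (nat_lit 480) (nat_lit 364) (nat_lit 356))))) (XT.nd (nat_lit 234) (nat_lit 0) (nat_lit 0) (XT.nd (nat_lit 78) (nat_lit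 0) (nat_lit 0) (XT.lf (nat_lit 0) (nat_lit 246053226925) (nat_lit 76) (nat_lit 54394935736) (nat_lit 76) (nat_lit 54107318759) (nat_lit 1) (nat_lit 4) (nat_lit 2) (nat_lit 5) (nat_lit 2) (nat_lit 4) (nat_lit 481) (nat_lit 364) (nat_lit 355)) (XT.nd (nat_lit 78) (nat_lit 0) (nat_lit 0) (XT.lf (nat_lit 0) (nat_lit 271341477113) (nat_lit 76) (nat_lit 55834150153) (nat_lit 76) (nat_lit 55525206988) (nat_lit 1) (nat_lit 4) (nat_lit 2) (nat_lit 5) (nat_lit 2) (nat_lit 4) (nat_lit 482) (nat_lit 364) (nat_lit 354)) (XT.lf (nat_lit 0) (nat_lit 298449096549) (nat_lit 76) (nat_lit 57492685803) (nat_lit 76) (nat_lit 57163996166) (nat_lit 1) (nat_lit 4) (nat_lit 2) (nat_lit 5) (nat_lit 2) (nat_lit 4) (nat_lit 483) (nat_lit 364) (nat_lit 353)))) (XT.nd (nat_lit 78) (nat_lit 0) (nat_lit 0) (XT.lf (nat_lit 0) (nat_lit 327536722977) (nat_lit 76) (nat_lit 59380371044) (nat_lit 76) (nat_lit 59033397638) (nat_lit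 1) (nat_lit 4) (nat_lit 2) (nat_lit 5) (nat_lit 2) (nat_lit 4) (nat_lit 484) (nat_lit 364) (nat_lit 352)) (XT.nd (nat_lit 78) (nat_lit 0) (nat_lit 0) (XT.lf (nat_lit 0) (nat_lit 358776727519) (nat_lit 76) (nat_lit 61508392160) (nat_lit 76) (nat_lit 61144489338) (nat_lit 1) (nat_lit 4) (nat_lit 2) (nat_lit 5) (nat_lit 2) (nat_lit 4) (nat_lit 485) (nat_lit 364) (nat_lit 351)) (XT.lf (nat_lit 0) (nat_lit 392354236125) (nat_lit 76) (nat_lit 63889359646) (nat_lit 76) (nat_lit 63509781439) (nat_lit 1) (nat_lit 4) (nat_lit 2) (nat_lit 5) (nat_lit 2) (nat_lit 4) (nat_lit 486) (nat_lit 364) (nat_lit 350))))))))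
noncomputable def xc19 : XT := (XT.nd (nat_lit 1716) (nat_lit 0) (nat_lit 0) (XT.nd (nat_lit 858) (nat_lit 0) (nat_lit 0) (XT.nd (nat_lit 390) (nat_lit 0) (nat_lit 0) (XT.nd (nat_lit 156) (nat_lit 0) (nat_lit 0) (XT.nd (nat_lit 78) (nat_lit 0) (nat_lit 0) (XT.lf (nat_lit 0) (nat_lit 428468226626) (nat_lit 76) (nat_lit 66537382939) (nat_lit 76) (nat_lit 66143290486) (nat_lit 1) (nat_lit 4) (nat_lit 2) (nat_lit 5) (nat_lit 2) (nat_lit 4) (nat_lit 487) (nat_lit 364) (nat_lit 349)) (XT.lf (nat_lit 0) (nat_lit 467332707853) (nat_lit 76) (nat_lit 69468154029) (nat_lit 76) (nat_lit 69060622460) (nat_lit 1) (nat_lit 4) (nat_lit 2) (nat_lit 5) (nat_lit 2) (nat_lit 4) (nat_lit 488) (nat_lit 364) (nat_lit 348))) (XT.nd (nat_lit 78) (nat_lit 0) (nat_lit 0) (XT.lf (nat_lit 0) (nat_lit 509177987844) (nat_lit 76) (nat_lit 72699040449) (nat_lit 76) (nat_lit 72279065253) (nat_lit 1) (nat_lit 4) (nat_lit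 2) (nat_lit 5) (nat_lit 2) (nat_lit 4) (nat_lit 489) (nat_lit 364) (nat_lit 347)) (XT.nd (nat_lit 78) (nat_lit 0) (nat_lit 0) (XT.lf (nat_lit 0) (nat_lit 554252038628) (nat_lit 76) (nat_lit 76249188191) (nat_lit 76) (nat_lit 75817691119) (nat_lit 1) (nat_lit 4) (nat_lit 2) (nat_lit 5) (nat_lit 2) (nat_lit 4) (nat_lit 490) (nat_lit 364) (nat_lit 346)) (XT.lf (nat_lit 0) (nat_lit 602821965692) (nat_lit 76) (nat_lit 80139635169) (nat_lit 76) (nat_lit 79697469693) (nat_lit 1) (nat_lit 4) (nat_lit 2) (nat_lit 5) (nat_lit 2) (nat_lit 4) (nat_lit 491) (nat_lit 364) (nat_lit 345))))) (XT.nd (nat_lit 234) (nat_lit 0) (nat_lit 0) (XT.nd (nat_lit 78) (nat_lit 0) (nat_lit 0) (XT.lf (nat_lit 0) (nat_lit 655175590824) (nat_lit 76) (nat_lit 84393435884) (nat_lit 76) (nat_lit 83941392256) (nat_lit 1) (nat_lit 4) (nat_lit 2) (nat_lit 5) (nat_lit 2) (nat_lit 4) (nat_lit 492) (nat_lit 364) (nat_lit 344))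 (XT.nd (nat_lit 78) (nat_lit 0) (nat_lit 0) (XT.lf (nat_lit 0) (nat_lit 711623157731) (nat_lit 76) (nat_lit 89035798042) (nat_lit 76) (nat_lit 88574607977) (nat_lit 1) (nat_lit 4) (nat_lit 2) (nat_lit 5) (nat_lit 2) (nat_lit 4) (nat_lit 493) (nat_lit 364) (nat_lit 343)) (XT.lf (nat_lit 0) (nat_lit 772499170511) (nat_lit 76) (nat_lit 94094231938) (nat_lit 76) (nat_lit 93624572951) (nat_lit 1) (nat_lit 4) (nat_lit 2) (nat_lit 5) (nat_lit 2) (nat_lit 4) (nat_lit 494) (nat_lit 364) (nat_lit 342)))) (XT.nd (nat_lit 78) (nat_lit 0) (nat_lit 0) (XT.lf (nat_lit 0) (nat_lit 838164375908) (nat_lit 76) (nat_lit 99598713478) (nat_lit 76) (nat_lit 99121212895) (nat_lit 1) (nat_lit 4) (nat_lit 2) (nat_lit 5) (nat_lit 2) (nat_lit 4) (nat_lit 495) (nat_lit 364) (nat_lit 341)) (XT.nd (nat_lit 78) (nat_lit 0) (nat_lit 0) (XT.lf (nat_lit 0) (nat_lit 909007901064) (nat_lit 76) (nat_lit 105581861810) (nat_lit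 76) (nat_lit 105097100491) (nat_lit 1) (nat_lit 4) (nat_lit 2) (nat_lit 5) (nat_lit 2) (nat_lit 4) (nat_lit 496) (nat_lit 364) (nat_lit 340)) (XT.lf (nat_lit 0) (nat_lit 985449559462) (nat_lit 76) (nat_lit 112079132629) (nat_lit 76) (nat_lit 111587648405) (nat_lit 1) (nat_lit 4) (nat_lit 2) (nat_lit 5) (nat_lit 2) (nat_lit 4) (nat_lit 497) (nat_lit 364) (nat_lit 339)))))) (XT.nd (nat_lit 390) (nat_lit 0) (nat_lit 0) (XT.nd (nat_lit 156) (nat_lit 0) (nat_lit 0) (XT.nd (nat_lit 78) (nat_lit 0) (nat_lit 0) (XT.lf (nat_lit 0) (nat_lit 1067942338708) (nat_lit 76) (nat_lit 119129028279) (nat_lit 76) (nat_lit 118631319145) (nat_lit 1) (nat_lit 4) (nat_lit 2) (nat_lit 5) (nat_lit 2) (nat_lit 4) (nat_lit 498) (nat_lit 364) (nat_lit 338)) (XT.lf (nat_lit 0) (nat_lit 1156975084899) (nat_lit 76) (nat_lit 126773325922) (nat_lit 76) (nat_lit 126269852981) (nat_lit 1) (nat_lit 4) (nat_lit 2) (nat_lit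 5) (nat_lit 2) (nat_lit 4) (nat_lit 499) (nat_lit 364) (nat_lit 337))) (XT.nd (nat_lit 78) (nat_lit 0) (nat_lit 0) (XT.lf (nat_lit 0) (nat_lit 1253075399496) (nat_lit 76) (nat_lit 135057325098) (nat_lit 76) (nat_lit 134548515298) (nat_lit 1) (nat_lit 4) (nat_lit 2) (nat_lit 5) (nat_lit 2) (nat_lit 4) (nat_lit 500) (nat_lit 364) (nat_lit 336)) (XT.nd (nat_lit 78) (nat_lit 0) (nat_lit 0) (XT.lf (nat_lit 0) (nat_lit 1356812765845) (nat_lit 76) (nat_lit 144030116172) (nat_lit 76) (nat_lit 143516364837) (nat_lit 1) (nat_lit 4) (nat_lit 2) (nat_lit 5) (nat_lit 2) (nat_lit 4) (nat_lit 501) (nat_lit 364) (nat_lit 335)) (XT.lf (nat_lit 0) (nat_lit 1468801923893) (nat_lit 76) (nat_lit 153744871240) (nat_lit 76) (nat_lit 153226544410) (nat_lit 1) (nat_lit 4) (nat_lit 2) (nat_lit 5) (nat_lit 2) (nat_lit 4) (nat_lit 502) (nat_lit 364) (nat_lit 334))))) (XT.nd (nat_lit 234) (nat_lit 0) (nat_lit 0) (XT.nd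 (nat_lit 78) (nat_lit 0) (nat_lit 0) (XT.lf (nat_lit 0) (nat_lit 1589706513095) (nat_lit 76) (nat_lit 164259159221) (nat_lit 76) (nat_lit 163736595821) (nat_lit 1) (nat_lit 4) (nat_lit 2) (nat_lit 5) (nat_lit 2) (nat_lit 4) (nat_lit 503) (nat_lit 364) (nat_lit 333)) (XT.nd (nat_lit 78) (nat_lit 0) (nat_lit 0) (XT.lf (nat_lit 0) (nat_lit 1720243005093) (nat_lit 76) (nat_lit 175635287007) (nat_lit 76) (nat_lit 175108800857) (nat_lit 1) (nat_lit 4) (nat_lit 2) (nat_lit 5) (nat_lit 2) (nat_lit 4) (nat_lit 504) (nat_lit 364) (nat_lit 332)) (XT.lf (nat_lit 0) (nat_lit 1861184949467) (nat_lit 76) (nat_lit 187940668688) (nat_lit 76) (nat_lit 187410550362) (nat_lit 1) (nat_lit 4) (nat_lit 2) (nat_lit 5) (nat_lit 2) (nat_lit 4) (nat_lit 505) (nat_lit 364) (nat_lit 331)))) (XT.nd (nat_lit 78) (nat_lit 0) (nat_lit 0) (XT.lf (nat_lit 0) (nat_lit 2013367557741) (nat_lit 76) (nat_lit 201248225044) (nat_lit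 76) (nat_lit 200714743592) (nat_lit 1) (nat_lit 4) (nat_lit 2) (nat_lit 5) (nat_lit 2) (nat_lit 4) (nat_lit 506) (nat_lit 364) (nat_lit 330)) (XT.nd (nat_lit 78) (nat_lit 0) (nat_lit 0) (XT.lf (nat_lit 0) (nat_lit 2177692652777) (nat_lit 76) (nat_lit 215636815669) (nat_lit 76) (nat_lit 215100220212) (nat_lit 1) (nat_lit 4) (nat_lit 2) (nat_lit 5) (nat_lit 2) (nat_lit 4) (nat_lit 507) (nat_lit 364) (nat_lit 329)) (XT.lf (nat_lit 0) (nat_lit 2355134012917) (nat_lit 76) (nat_lit 231191706285) (nat_lit 76) (nat_lit 230652227490) (nat_lit 1) (nat_lit 4) (nat_lit 2) (nat_lit 5) (nat_lit 2) (nat_lit 4) (nat_lit 508) (nat_lit 364) (nat_lit 328))))))) (XT.nd (nat_lit 858) (nat_lit 0) (nat_lit 0) (XT.nd (nat_lit 390) (nat_lit 0) (nat_lit 0) (XT.nd (nat_lit 156) (nat_lit 0) (nat_lit 0) (XT.nd (nat_lit 78) (nat_lit 0) (nat_lit 0) (XT.lf (nat_lit 0) (nat_lit 2546743142518) (nat_lit 76) (nat_lit 248005074022)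 (nat_lit 76) (nat_lit 247462925468) (nat_lit 1) (nat_lit 4) (nat_lit 2) (nat_lit 5) (nat_lit 2) (nat_lit 4) (nat_lit 509) (nat_lit 364) (nat_lit 327)) (XT.lf (nat_lit 0) (nat_lit 2753655503087) (nat_lit 76) (nat_lit 266176553650) (nat_lit 76) (nat_lit 265631933099) (nat_lit 1) (nat_lit 4) (nat_lit 2) (nat_lit 5) (nat_lit 2) (nat_lit 4) (nat_lit 510) (nat_lit 364) (nat_lit 326))) (XT.nd (nat_lit 78) (nat_lit 0) (nat_lit 0) (XT.lf (nat_lit 0) (nat_lit 2977097241948) (nat_lit 76) (nat_lit 285813828014) (nat_lit 76) (nat_lit 285266918576) (nat_lit 1) (nat_lit 4) (nat_lit 2) (nat_lit 5) (nat_lit 2) (nat_lit 4) (nat_lit 511) (nat_lit 364) (nat_lit 325)) (XT.nd (nat_lit 78) (nat_lit 0) (nat_lit 0) (XT.lf (nat_lit 0) (nat_lit 3218392458292) (nat_lit 76) (nat_lit 307033266145) (nat_lit 76) (nat_lit 306484237367) (nat_lit 1) (nat_lit 4) (nat_lit 2) (nat_lit 5) (nat_lit 2) (nat_lit 4) (nat_lit 512)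 (nat_lit 364) (nat_lit 324)) (XT.lf (nat_lit 0) (nat_lit 3478971049699) (nat_lit 76) (nat_lit 329960612862) (nat_lit 76) (nat_lit 329409621733) (nat_lit 1) (nat_lit 4) (nat_lit 2) (nat_lit 5) (nat_lit 2) (nat_lit 4) (nat_lit 513) (nat_lit 364) (nat_lit 323))))) (XT.nd (nat_lit 234) (nat_lit 0) (nat_lit 0) (XT.nd (nat_lit 78) (nat_lit 0) (nat_lit 0) (XT.lf (nat_lit 0) (nat_lit 3760377185599) (nat_lit 76) (nat_lit 354731733924) (nat_lit 76) (nat_lit 354178925803) (nat_lit 1) (nat_lit 4) (nat_lit 2) (nat_lit 5) (nat_lit 2) (nat_lit 4) (nat_lit 514) (nat_lit 364) (nat_lit 322)) (XT.nd (nat_lit 78) (nat_lit 0) (nat_lit 0) (XT.lf (nat_lit 0) (nat_lit 4064278457909) (nat_lit 76) (nat_lit 381493421159) (nat_lit 76) (nat_lit 380938930638) (nat_lit 1) (nat_lit 4) (nat_lit 2) (nat_lit 5) (nat_lit 2) (nat_lit 4) (nat_lit 515) (nat_lit 364) (nat_lit 321)) (XT.lf (nat_lit 0) (nat_lit 4392475763057) (nat_lit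 76) (nat_lit 410404262344) (nat_lit 76) (nat_lit 409848214044) (nat_lit 1) (nat_lit 4) (nat_lit 2) (nat_lit 5) (nat_lit 2) (nat_lit 4) (nat_lit 516) (nat_lit 364) (nat_lit 320)))) (XT.nd (nat_lit 78) (nat_lit 0) (nat_lit 0) (XT.lf (nat_lit 0) (nat_lit 4746913973961) (nat_lit 76) (nat_lit 441635580981) (nat_lit 76) (nat_lit 441078090295) (nat_lit 1) (nat_lit 4) (nat_lit 2) (nat_lit 5) (nat_lit 2) (nat_lit 4) (nat_lit 517) (nat_lit 364) (nat_lit 319)) (XT.nd (nat_lit 78) (nat_lit 0) (nat_lit 0) (XT.lf (nat_lit 0) (nat_lit 5129693465207) (nat_lit 76) (nat_lit 475372451552) (nat_lit 76) (nat_lit 474813625322) (nat_lit 1) (nat_lit 4) (nat_lit 2) (nat_lit 5) (nat_lit 2) (nat_lit 4) (nat_lit 518) (nat_lit 364) (nat_lit 318)) (XT.lf (nat_lit 0) (nat_lit 5543082559704) (nat_lit 76) (nat_lit 511814796253) (nat_lit 76) (nat_lit 511254733408) (nat_lit 1) (nat_lit 4) (nat_lit 2) (nat_lit 5) (nat_lit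 2) (nat_lit 4) (nat_lit 519) (nat_lit 364) (nat_lit 317)))))) (XT.nd (nat_lit 468) (nat_lit 0) (nat_lit 0) (XT.nd (nat_lit 234) (nat_lit 0) (nat_lit 0) (XT.nd (nat_lit 78) (nat_lit 0) (nat_lit 0) (XT.lf (nat_lit 0) (nat_lit 5989530970605) (nat_lit 76) (nat_lit 551178569718) (nat_lit 76) (nat_lit 550617361860) (nat_lit 1) (nat_lit 4) (nat_lit 2) (nat_lit 5) (nat_lit 2) (nat_lit 4) (nat_lit 520) (nat_lit 364) (nat_lit 316)) (XT.nd (nat_lit 78) (nat_lit 0) (nat_lit 0) (XT.lf (nat_lit 0) (nat_lit 6471684318123) (nat_lit 76) (nat_lit 593697038754) (nat_lit 76) (nat_lit 593134770698) (nat_lit 1) (nat_lit 4) (nat_lit 2) (nat_lit 5) (nat_lit 2) (nat_lit 4) (nat_lit 521) (nat_lit 364) (nat_lit 315)) (XT.lf (nat_lit 0) (nat_lit 6992399807281) (nat_lit 76) (nat_lit 639622164658) (nat_lit 76) (nat_lit 639058914938) (nat_lit 1) (nat_lit 4) (nat_lit 2) (nat_lit 5) (nat_lit 2) (nat_lit 4) (nat_lit 522)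 (nat_lit 364) (nat_lit 314)))) (XT.nd (nat_lit 78) (nat_lit 0) (nat_lit 0) (XT.lf (nat_lit 0) (nat_lit 7554763159494) (nat_lit 76) (nat_lit 689226096325) (nat_lit 76) (nat_lit 688661937656) (nat_lit 1) (nat_lit 4) (nat_lit 2) (nat_lit 5) (nat_lit 2) (nat_lit 4) (nat_lit 523) (nat_lit 364) (nat_lit 313)) (XT.nd (nat_lit 78) (nat_lit 0) (nat_lit 0) (XT.lf (nat_lit 0) (nat_lit 8162106898333) (nat_lit 76) (nat_lit 742802782979) (nat_lit 76) (nat_lit 742237782691) (nat_lit 1) (nat_lit 4) (nat_lit 2) (nat_lit 5) (nat_lit 2) (nat_lit 4) (nat_lit 524) (nat_lit 364) (nat_lit 312)) (XT.lf (nat_lit 0) (nat_lit 8818030097806) (nat_lit 76) (nat_lit 800669716097) (nat_lit 76) (nat_lit 800103936533) (nat_lit 1) (nat_lit 4) (nat_lit 2) (nat_lit 5) (nat_lit 2) (nat_lit 4) (nat_lit 525) (nat_lit 364) (nat_lit 311))))) (XT.nd (nat_lit 234) (nat_lit 0) (nat_lit 0) (XT.nd (nat_lit 78) (nat_lit 0) (nat_lit 0)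 (XT.lf (nat_lit 0) (nat_lit 9526419710204) (nat_lit 76) (nat_lit 863169810838) (nat_lit 76) (nat_lit 862603309721) (nat_lit 1) (nat_lit 4) (nat_lit 2) (nat_lit 5) (nat_lit 2) (nat_lit 4) (nat_lit 526) (nat_lit 364) (nat_lit 310)) (XT.nd (nat_lit 78) (nat_lit 0) (nat_lit 0) (XT.lf (nat_lit 0) (nat_lit 10291473599898) (nat_lit 76) (nat_lit 930673438134) (nat_lit 76) (nat_lit 930106268913) (nat_lit 1) (nat_lit 4) (nat_lit 2) (nat_lit 5) (nat_lit 2) (nat_lit 4) (nat_lit 527) (nat_lit 364) (nat_lit 309)) (XT.lf (nat_lit 0) (nat_lit 11117725419568) (nat_lit 76) (nat_lit 1003580619481) (nat_lit 76) (nat_lit 1003012831644) (nat_lit 1) (nat_lit 4) (nat_lit 2) (nat_lit 5) (nat_lit 2) (nat_lit 4) (nat_lit 528) (nat_lit 364) (nat_lit 308)))) (XT.nd (nat_lit 78) (nat_lit 0) (nat_lit 0) (XT.lf (nat_lit 0) (nat_lit 12010071476294) (nat_lit 76) (nat_lit 1082323397433) (nat_lit 76) (nat_lit 1081755036805)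 (nat_lit 1) (nat_lit 4) (nat_lit 2) (nat_lit 5) (nat_lit 2) (nat_lit 4) (nat_lit 529) (nat_lit 364) (nat_lit 307)) (XT.nd (nat_lit 57798) (nat_lit 0) (nat_lit 0) (XT.lf (nat_lit 0) (nat_lit 12973799746707) (nat_lit 76) (nat_lit 1167368395860) (nat_lit 76) (nat_lit 1166799504870) (nat_lit 1) (nat_lit 4) (nat_lit 2) (nat_lit 5) (nat_lit 2) (nat_lit 4) (nat_lit 530) (nat_lit 364) (nat_lit 306)) (XT.lf (nat_lit 0) (nat_lit 25710627523) (nat_lit 76) (nat_lit 25689198550) (nat_lit 76) (nat_lit 25689198550) (nat_lit 1) (nat_lit 4) (nat_lit 2) (nat_lit 5) (nat_lit 2) (nat_lit 4) (nat_lit 470) (nat_lit 365) (nat_lit 365))))))))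
noncomputable def xc20 : XT := (XT.nd (nat_lit 1716) (nat_lit 0) (nat_lit 0) (XT.nd (nat_lit 858) (nat_lit 0) (nat_lit 0) (XT.nd (nat_lit 390) (nat_lit 0) (nat_lit 0) (XT.nd (nat_lit 156) (nat_lit 0) (nat_lit 0) (XT.nd (nat_lit 78) (nat_lit 0) (nat_lit 0) (XT.lf (nat_lit 0) (nat_lit 64554122159) (nat_lit 76) (nat_lit 50825806096) (nat_lit 76) (nat_lit 50779764454) (nat_lit 1) (nat_lit 4) (nat_lit 2) (nat_lit 5) (nat_lit 2) (nat_lit 4) (nat_lit 471) (nat_lit 365) (nat_lit 364)) (XT.lf (nat_lit 0) (nat_lit 78297865552) (nat_lit 76) (nat_lit 50453933424) (nat_lit 76) (nat_lit 50365260632) (nat_lit 1) (nat_lit 4) (nat_lit 2) (nat_lit 5) (nat_lit 2) (nat_lit 4) (nat_lit 472) (nat_lit 365) (nat_lit 363))) (XT.nd (nat_lit 78) (nat_lit 0) (nat_lit 0) (XT.lf (nat_lit 0) (nat_lit 92733929631) (nat_lit 76) (nat_lit 50260575393) (nat_lit 76) (nat_lit 50132429314) (nat_lit 1) (nat_lit 4) (nat_lit 2)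 (nat_lit 5) (nat_lit 2) (nat_lit 4) (nat_lit 473) (nat_lit 365) (nat_lit 362)) (XT.nd (nat_lit 78) (nat_lit 0) (nat_lit 0) (XT.lf (nat_lit 0) (nat_lit 107947861443) (nat_lit 76) (nat_lit 50244586179) (nat_lit 76) (nat_lit 50079890760) (nat_lit 1) (nat_lit 4) (nat_lit 2) (nat_lit 5) (nat_lit 2) (nat_lit 4) (nat_lit 474) (nat_lit 365) (nat_lit 361)) (XT.lf (nat_lit 0) (nat_lit 124029817619) (nat_lit 76) (nat_lit 50405871031) (nat_lit 76) (nat_lit 50207333631) (nat_lit 1) (nat_lit 4) (nat_lit 2) (nat_lit 5) (nat_lit 2) (nat_lit 4) (nat_lit 475) (nat_lit 365) (nat_lit 360))))) (XT.nd (nat_lit 234) (nat_lit 0) (nat_lit 0) (XT.nd (nat_lit 78) (nat_lit 0) (nat_lit 0) (XT.lf (nat_lit 0) (nat_lit 141075098642) (nat_lit 76) (nat_lit 50745385711) (nat_lit 76) (nat_lit 50515513143) (nat_lit 1) (nat_lit 4) (nat_lit 2) (nat_lit 5) (nat_lit 2) (nat_lit 4) (nat_lit 476) (nat_lit 365) (nat_lit 359)) (XT.nd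 (nat_lit 78) (nat_lit 0) (nat_lit 0) (XT.lf (nat_lit 0) (nat_lit 159184713583) (nat_lit 76) (nat_lit 51265142158) (nat_lit 76) (nat_lit 51006255545) (nat_lit 1) (nat_lit 4) (nat_lit 2) (nat_lit 5) (nat_lit 2) (nat_lit 4) (nat_lit 477) (nat_lit 365) (nat_lit 358)) (XT.lf (nat_lit 0) (nat_lit 178465978681) (nat_lit 76) (nat_lit 51968220409) (nat_lit 76) (nat_lit 51682468941) (nat_lit 1) (nat_lit 4) (nat_lit 2) (nat_lit 5) (nat_lit 2) (nat_lit 4) (nat_lit 478) (nat_lit 365) (nat_lit 357)))) (XT.nd (nat_lit 78) (nat_lit 0) (nat_lit 0) (XT.lf (nat_lit 0) (nat_lit 199033153282) (nat_lit 76) (nat_lit 52858786855) (nat_lit 76) (nat_lit 52548160520) (nat_lit 1) (nat_lit 4) (nat_lit 2) (nat_lit 5) (nat_lit 2) (nat_lit 4) (nat_lit 479) (nat_lit 365) (nat_lit 356)) (XT.nd (nat_lit 78) (nat_lit 0) (nat_lit 0) (XT.lf (nat_lit 0) (nat_lit 221008116941) (nat_lit 76) (nat_lit 53942118926) (nat_lit 76) (nat_lit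 53608460308) (nat_lit 1) (nat_lit 4) (nat_lit 2) (nat_lit 5) (nat_lit 2) (nat_lit 4) (nat_lit 480) (nat_lit 365) (nat_lit 355)) (XT.lf (nat_lit 0) (nat_lit 244521091665) (nat_lit 76) (nat_lit 55224636369) (nat_lit 76) (nat_lit 54869651562) (nat_lit 1) (nat_lit 4) (nat_lit 2) (nat_lit 5) (nat_lit 2) (nat_lit 4) (nat_lit 481) (nat_lit 365) (nat_lit 354)))))) (XT.nd (nat_lit 390) (nat_lit 0) (nat_lit 0) (XT.nd (nat_lit 156) (nat_lit 0) (nat_lit 0) (XT.nd (nat_lit 78) (nat_lit 0) (nat_lit 0) (XT.lf (nat_lit 0) (nat_lit 269711413599) (nat_lit 76) (nat_lit 56713939286) (nat_lit 76) (nat_lit 56339208007) (nat_lit 1) (nat_lit 4) (nat_lit 2) (nat_lit 5) (nat_lit 2) (nat_lit 4) (nat_lit 482) (nat_lit 365) (nat_lit 353)) (XT.lf (nat_lit 0) (nat_lit 296728358727) (nat_lit 76) (nat_lit 58418853175) (nat_lit 76) (nat_lit 58025838128) (nat_lit 1) (nat_lit 4) (nat_lit 2) (nat_lit 5) (nat_lit 2) (nat_lit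 4) (nat_lit 483) (nat_lit 365) (nat_lit 352))) (XT.nd (nat_lit 78) (nat_lit 0) (nat_lit 0) (XT.lf (nat_lit 0) (nat_lit 325732027462) (nat_lit 76) (nat_lit 60349481232) (nat_lit 76) (nat_lit 59939536768) (nat_lit 1) (nat_lit 4) (nat_lit 2) (nat_lit 5) (nat_lit 2) (nat_lit 4) (nat_lit 484) (nat_lit 365) (nat_lit 351)) (XT.nd (nat_lit 78) (nat_lit 0) (nat_lit 0) (XT.lf (nat_lit 0) (nat_lit 356894293399) (nat_lit 76) (nat_lit 62517264214) (nat_lit 76) (nat_lit 62091644364) (nat_lit 1) (nat_lit 4) (nat_lit 2) (nat_lit 5) (nat_lit 2) (nat_lit 4) (nat_lit 485) (nat_lit 365) (nat_lit 350)) (XT.lf (nat_lit 0) (nat_lit 390399821816) (nat_lit 76) (nat_lit 64935048242) (nat_lit 76) (nat_lit 64494914147) (nat_lit 1) (nat_lit 4) (nat_lit 2) (nat_lit 5) (nat_lit 2) (nat_lit 4) (nat_lit 486) (nat_lit 365) (nat_lit 349))))) (XT.nd (nat_lit 234) (nat_lit 0) (nat_lit 0) (XT.nd (nat_lit 78) (nat_lit 0) (nat_lit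 0) (XT.lf (nat_lit 0) (nat_lit 426447163993) (nat_lit 76) (nat_lit 67617160926) (nat_lit 76) (nat_lit 67163587715) (nat_lit 1) (nat_lit 4) (nat_lit 2) (nat_lit 5) (nat_lit 2) (nat_lit 4) (nat_lit 487) (nat_lit 365) (nat_lit 348)) (XT.nd (nat_lit 78) (nat_lit 0) (nat_lit 0) (XT.lf (nat_lit 0) (nat_lit 465249933809) (nat_lit 76) (nat_lit 70579496268) (nat_lit 76) (nat_lit 70113479430) (nat_lit 1) (nat_lit 4) (nat_lit 2) (nat_lit 5) (nat_lit 2) (nat_lit 4) (nat_lit 488) (nat_lit 365) (nat_lit 347)) (XT.lf (nat_lit 0) (nat_lit 507038073605) (nat_lit 76) (nat_lit 73839608845) (nat_lit 76) (nat_lit 73362070131) (nat_lit 1) (nat_lit 4) (nat_lit 2) (nat_lit 5) (nat_lit 2) (nat_lit 4) (nat_lit 489) (nat_lit 365) (nat_lit 346)))) (XT.nd (nat_lit 78) (nat_lit 0) (nat_lit 0) (XT.lf (nat_lit 0) (nat_lit 552059216801) (nat_lit 76) (nat_lit 77416817846) (nat_lit 76) (nat_lit 76928610728) (nat_lit 1) (nat_lit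 4) (nat_lit 2) (nat_lit 5) (nat_lit 2) (nat_lit 4) (nat_lit 490) (nat_lit 365) (nat_lit 345)) (XT.nd (nat_lit 78) (nat_lit 0) (nat_lit 0) (XT.lf (nat_lit 0) (nat_lit 600580155357) (nat_lit 76) (nat_lit 81332321544) (nat_lit 76) (nat_lit 80834236274) (nat_lit 1) (nat_lit 4) (nat_lit 2) (nat_lit 5) (nat_lit 2) (nat_lit 4) (nat_lit 491) (nat_lit 365) (nat_lit 344)) (XT.lf (nat_lit 0) (nat_lit 652888420760) (nat_lit 76) (nat_lit 85609322925) (nat_lit 76) (nat_lit 85102091218) (nat_lit 1) (nat_lit 4) (nat_lit 2) (nat_lit 5) (nat_lit 2) (nat_lit 4) (nat_lit 492) (nat_lit 365) (nat_lit 343))))))) (XT.nd (nat_lit 858) (nat_lit 0) (nat_lit 0) (XT.nd (nat_lit 390) (nat_lit 0) (nat_lit 0) (XT.nd (nat_lit 156) (nat_lit 0) (nat_lit 0) (XT.nd (nat_lit 78) (nat_lit 0) (nat_lit 0) (XT.lf (nat_lit 0) (nat_lit 709293987917) (nat_lit 76) (nat_lit 90273167182) (nat_lit 76) (nat_lit 89757466552) (nat_lit 1)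 (nat_lit 4) (nat_lit 2) (nat_lit 5) (nat_lit 2) (nat_lit 4) (nat_lit 493) (nat_lit 365) (nat_lit 342)) (XT.lf (nat_lit 0) (nat_lit 770131112041) (nat_lit 76) (nat_lit 95351491910) (nat_lit 76) (nat_lit 94827949686) (nat_lit 1) (nat_lit 4) (nat_lit 2) (nat_lit 5) (nat_lit 2) (nat_lit 4) (nat_lit 494) (nat_lit 365) (nat_lit 341))) (XT.nd (nat_lit 78) (nat_lit 0) (nat_lit 0) (XT.lf (nat_lit 0) (nat_lit 835760309422) (nat_lit 76) (nat_lit 100874390887) (nat_lit 76) (nat_lit 100343587926) (nat_lit 1) (nat_lit 4) (nat_lit 2) (nat_lit 5) (nat_lit 2) (nat_lit 4) (nat_lit 495) (nat_lit 365) (nat_lit 340)) (XT.nd (nat_lit 78) (nat_lit 0) (nat_lit 0) (XT.lf (nat_lit 0) (nat_lit 906570493823) (nat_lit 76) (nat_lit 106874592402) (nat_lit 76) (nat_lit 106337066537) (nat_lit 1) (nat_lit 4) (nat_lit 2) (nat_lit 5) (nat_lit 2) (nat_lit 4) (nat_lit 496) (nat_lit 365) (nat_lit 339)) (XT.lf (nat_lit 0) (nat_lit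 982981281152) (nat_lit 76) (nat_lit 113387653205) (nat_lit 76) (nat_lit 112843902428) (nat_lit 1) (nat_lit 4) (nat_lit 2) (nat_lit 5) (nat_lit 2) (nat_lit 4) (nat_lit 497) (nat_lit 365) (nat_lit 338))))) (XT.nd (nat_lit 234) (nat_lit 0) (nat_lit 0) (XT.nd (nat_lit 78) (nat_lit 0) (nat_lit 0) (XT.lf (nat_lit 0) (nat_lit 1065445476073) (nat_lit 76) (nat_lit 120452169211) (nat_lit 76) (nat_lit 119902654628) (nat_lit 1) (nat_lit 4) (nat_lit 2) (nat_lit 5) (nat_lit 2) (nat_lit 4) (nat_lit 498) (nat_lit 365) (nat_lit 337)) (XT.nd (nat_lit 78) (nat_lit 0) (nat_lit 0) (XT.lf (nat_lit 0) (nat_lit 1154451755299) (nat_lit 76) (nat_lit 128110004220) (nat_lit 76) (nat_lit 127555152779) (nat_lit 1) (nat_lit 4) (nat_lit 2) (nat_lit 5) (nat_lit 2) (nat_lit 4) (nat_lit 499) (nat_lit 365) (nat_lit 336)) (XT.lf (nat_lit 0) (nat_lit 1250527563445) (nat_lit 76) (nat_lit 136406537994) (nat_lit 76) (nat_lit 135846745018)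 (nat_lit 1) (nat_lit 4) (nat_lit 2) (nat_lit 5) (nat_lit 2) (nat_lit 4) (nat_lit 500) (nat_lit 365) (nat_lit 335)))) (XT.nd (nat_lit 78) (nat_lit 0) (nat_lit 0) (XT.lf (nat_lit 0) (nat_lit 1354242238636) (nat_lit 76) (nat_lit 145390935178) (nat_lit 76) (nat_lit 144826566706) (nat_lit 1) (nat_lit 4) (nat_lit 2) (nat_lit 5) (nat_lit 2) (nat_lit 4) (nat_lit 501) (nat_lit 365) (nat_lit 334)) (XT.nd (nat_lit 78) (nat_lit 0) (nat_lit 0) (XT.lf (nat_lit 0) (nat_lit 1466210386353) (nat_lit 76) (nat_lit 155116436644) (nat_lit 76) (nat_lit 154547831602) (nat_lit 1) (nat_lit 4) (nat_lit 2) (nat_lit 5) (nat_lit 2) (nat_lit 4) (nat_lit 502) (nat_lit 365) (nat_lit 333)) (XT.lf (nat_lit 0) (nat_lit 1587095521545) (nat_lit 76) (nat_lit 165640674993) (nat_lit 76) (nat_lit 165068147201) (nat_lit 1) (nat_lit 4) (nat_lit 2) (nat_lit 5) (nat_lit 2) (nat_lit 4) (nat_lit 503) (nat_lit 365) (nat_lit 332))))))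 (XT.nd (nat_lit 468) (nat_lit 0) (nat_lit 0) (XT.nd (nat_lit 234) (nat_lit 0) (nat_lit 0) (XT.nd (nat_lit 78) (nat_lit 0) (nat_lit 0) (XT.lf (nat_lit 0) (nat_lit 1717614000570) (nat_lit 76) (nat_lit 177026016083) (nat_lit 76) (nat_lit 176449856115) (nat_lit 1) (nat_lit 4) (nat_lit 2) (nat_lit 5) (nat_lit 2) (nat_lit 4) (nat_lit 504) (nat_lit 365) (nat_lit 331)) (XT.nd (nat_lit 78) (nat_lit 0) (nat_lit 0) (XT.lf (nat_lit 0) (nat_lit 1858539266266) (nat_lit 76) (nat_lit 189339928601) (nat_lit 76) (nat_lit 188760405507) (nat_lit 1) (nat_lit 4) (nat_lit 2) (nat_lit 5) (nat_lit 2) (nat_lit 4) (nat_lit 505) (nat_lit 365) (nat_lit 330)) (XT.lf (nat_lit 0) (nat_lit 2010706431319) (nat_lit 76) (nat_lit 202655383880) (nat_lit 76) (nat_lit 202072746781) (nat_lit 1) (nat_lit 4) (nat_lit 2) (nat_lit 5) (nat_lit 2) (nat_lit 4) (nat_lit 506) (nat_lit 365) (nat_lit 329)))) (XT.nd (nat_lit 78) (nat_lit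 0) (nat_lit 0) (XT.lf (nat_lit 0) (nat_lit 2175017227077) (nat_lit 76) (nat_lit 217051288323) (nat_lit 76) (nat_lit 216465767886) (nat_lit 1) (nat_lit 4) (nat_lit 2) (nat_lit 5) (nat_lit 2) (nat_lit 4) (nat_lit 507) (nat_lit 365) (nat_lit 328)) (XT.nd (nat_lit 78) (nat_lit 0) (nat_lit 0) (XT.lf (nat_lit 0) (nat_lit 2352445347145) (nat_lit 76) (nat_lit 232612950993) (nat_lit 76) (nat_lit 232024760797) (nat_lit 1) (nat_lit 4) (nat_lit 2) (nat_lit 5) (nat_lit 2) (nat_lit 4) (nat_lit 508) (nat_lit 365) (nat_lit 327)) (XT.lf (nat_lit 0) (nat_lit 2544042217419) (nat_lit 76) (nat_lit 249432589149) (nat_lit 76) (nat_lit 248841926956) (nat_lit 1) (nat_lit 4) (nat_lit 2) (nat_lit 5) (nat_lit 2) (nat_lit 4) (nat_lit 509) (nat_lit 365) (nat_lit 326))))) (XT.nd (nat_lit 234) (nat_lit 0) (nat_lit 0) (XT.nd (nat_lit 78) (nat_lit 0) (nat_lit 0) (XT.lf (nat_lit 0) (nat_lit 2750943226760) (nat_lit 76) (nat_lit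 267609874722) (nat_lit 76) (nat_lit 267016923642) (nat_lit 1) (nat_lit 4) (nat_lit 2) (nat_lit 5) (nat_lit 2) (nat_lit 4) (nat_lit 510) (nat_lit 365) (nat_lit 325)) (XT.nd (nat_lit 78) (nat_lit 0) (nat_lit 0) (XT.lf (nat_lit 0) (nat_lit 2974374455224) (nat_lit 76) (nat_lit 287252524960) (nat_lit 76) (nat_lit 286657454540) (nat_lit 1) (nat_lit 4) (nat_lit 2) (nat_lit 5) (nat_lit 2) (nat_lit 4) (nat_lit 511) (nat_lit 365) (nat_lit 324)) (XT.lf (nat_lit 0) (nat_lit 3215659939720) (nat_lit 76) (nat_lit 308476940752) (nat_lit 76) (nat_lit 307879907981) (nat_lit 1) (nat_lit 4) (nat_lit 2) (nat_lit 5) (nat_lit 2) (nat_lit 4) (nat_lit 512) (nat_lit 365) (nat_lit 323)))) (XT.nd (nat_lit 78) (nat_lit 0) (nat_lit 0) (XT.lf (nat_lit 0) (nat_lit 3476229520156) (nat_lit 76) (nat_lit 331408896415) (nat_lit 76) (nat_lit 330810046652) (nat_lit 1) (nat_lit 4) (nat_lit 2) (nat_lit 5) (nat_lit 2) (nat_lit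 4) (nat_lit 513) (nat_lit 365) (nat_lit 322)) (XT.nd (nat_lit 78) (nat_lit 0) (nat_lit 0) (XT.lf (nat_lit 0) (nat_lit 3757627312564) (nat_lit 76) (nat_lit 356184285020) (nat_lit 76) (nat_lit 355583752856) (nat_lit 1) (nat_lit 4) (nat_lit 2) (nat_lit 5) (nat_lit 2) (nat_lit 4) (nat_lit 514) (nat_lit 365) (nat_lit 321)) (XT.lf (nat_lit 0) (nat_lit 4061520859419) (nat_lit 76) (nat_lit 382949923683) (nat_lit 76) (nat_lit 382347833742) (nat_lit 1) (nat_lit 4) (nat_lit 2) (nat_lit 5) (nat_lit 2) (nat_lit 4) (nat_lit 515) (nat_lit 365) (nat_lit 320))))))))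
noncomputable def xc21 : XT := (XT.nd (nat_lit 59280) (nat_lit 0) (nat_lit 0) (XT.nd (nat_lit 858) (nat_lit 0) (nat_lit 0) (XT.nd (nat_lit 390) (nat_lit 0) (nat_lit 0) (XT.nd (nat_lit 156) (nat_lit 0) (nat_lit 0) (XT.nd (nat_lit 78) (nat_lit 0) (nat_lit 0) (XT.lf (nat_lit 0) (nat_lit 4389711011367) (nat_lit 76) (nat_lit 411864423598) (nat_lit 76) (nat_lit 411260891269) (nat_lit 1) (nat_lit 4) (nat_lit 2) (nat_lit 5) (nat_lit 2) (nat_lit 4) (nat_lit 516) (nat_lit 365) (nat_lit 319)) (XT.lf (nat_lit 0) (nat_lit 4744142598939) (nat_lit 76) (nat_lit 443099129948) (nat_lit 76) (nat_lit 442494262076) (nat_lit 1) (nat_lit 4) (nat_lit 2) (nat_lit 5) (nat_lit 2) (nat_lit 4) (nat_lit 517) (nat_lit 365) (nat_lit 318))) (XT.nd (nat_lit 78) (nat_lit 0) (nat_lit 0) (XT.lf (nat_lit 0) (nat_lit 5126915957469) (nat_lit 76) (nat_lit 476839137290) (nat_lit 76) (nat_lit 476233032803) (nat_lit 1) (nat_lit 4)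 (nat_lit 2) (nat_lit 5) (nat_lit 2) (nat_lit 4) (nat_lit 518) (nat_lit 365) (nat_lit 317)) (XT.nd (nat_lit 78) (nat_lit 0) (nat_lit 0) (XT.lf (nat_lit 0) (nat_lit 5540299373526) (nat_lit 76) (nat_lit 513284386408) (nat_lit 76) (nat_lit 512677136908) (nat_lit 1) (nat_lit 4) (nat_lit 2) (nat_lit 5) (nat_lit 2) (nat_lit 4) (nat_lit 519) (nat_lit 365) (nat_lit 316)) (XT.lf (nat_lit 0) (nat_lit 5986742526612) (nat_lit 76) (nat_lit 552650849149) (nat_lit 76) (nat_lit 552042539451) (nat_lit 1) (nat_lit 4) (nat_lit 2) (nat_lit 5) (nat_lit 2) (nat_lit 4) (nat_lit 520) (nat_lit 365) (nat_lit 315))))) (XT.nd (nat_lit 234) (nat_lit 0) (nat_lit 0) (XT.nd (nat_lit 78) (nat_lit 0) (nat_lit 0) (XT.lf (nat_lit 0) (nat_lit 6468891005783) (nat_lit 76) (nat_lit 595171808254) (nat_lit 76) (nat_lit 594562516893) (nat_lit 1) (nat_lit 4) (nat_lit 2) (nat_lit 5) (nat_lit 2) (nat_lit 4) (nat_lit 521) (nat_lit 365)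 (nat_lit 314)) (XT.nd (nat_lit 78) (nat_lit 0) (nat_lit 0) (XT.lf (nat_lit 0) (nat_lit 6989601987212) (nat_lit 76) (nat_lit 641099239779) (nat_lit 76) (nat_lit 640489039469) (nat_lit 1) (nat_lit 4) (nat_lit 2) (nat_lit 5) (nat_lit 2) (nat_lit 4) (nat_lit 522) (nat_lit 365) (nat_lit 313)) (XT.lf (nat_lit 0) (nat_lit 7551961165603) (nat_lit 76) (nat_lit 690705306280) (nat_lit 76) (nat_lit 690094264350) (nat_lit 1) (nat_lit 4) (nat_lit 2) (nat_lit 5) (nat_lit 2) (nat_lit 4) (nat_lit 523) (nat_lit 365) (nat_lit 312)))) (XT.nd (nat_lit 78) (nat_lit 0) (nat_lit 0) (XT.lf (nat_lit 0) (nat_lit 8159301039791) (nat_lit 76) (nat_lit 744283969632) (nat_lit 76) (nat_lit 743672148425) (nat_lit 1) (nat_lit 4) (nat_lit 2) (nat_lit 5) (nat_lit 2) (nat_lit 4) (nat_lit 524) (nat_lit 365) (nat_lit 311)) (XT.nd (nat_lit 78) (nat_lit 0) (nat_lit 0) (XT.lf (nat_lit 0) (nat_lit 8815220660882) (nat_lit 76) (nat_lit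 802152733026) (nat_lit 76) (nat_lit 801540190267) (nat_lit 1) (nat_lit 4) (nat_lit 2) (nat_lit 5) (nat_lit 2) (nat_lit 4) (nat_lit 525) (nat_lit 365) (nat_lit 310)) (XT.lf (nat_lit 0) (nat_lit 9523606959965) (nat_lit 76) (nat_lit 864654522467) (nat_lit 76) (nat_lit 864041311603) (nat_lit 1) (nat_lit 4) (nat_lit 2) (nat_lit 5) (nat_lit 2) (nat_lit 4) (nat_lit 526) (nat_lit 365) (nat_lit 309)))))) (XT.nd (nat_lit 57954) (nat_lit 0) (nat_lit 0) (XT.nd (nat_lit 156) (nat_lit 0) (nat_lit 0) (XT.nd (nat_lit 78) (nat_lit 0) (nat_lit 0) (XT.lf (nat_lit 0) (nat_lit 10288657781775) (nat_lit 76) (nat_lit 932159718929) (nat_lit 76) (nat_lit 931545889451) (nat_lit 1) (nat_lit 4) (nat_lit 2) (nat_lit 5) (nat_lit 2) (nat_lit 4) (nat_lit 527) (nat_lit 365) (nat_lit 308)) (XT.lf (nat_lit 0) (nat_lit 11114906760811) (nat_lit 76) (nat_lit 1005068353207) (nat_lit 76) (nat_lit 1004453950937) (nat_lit 1) (nat_lit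 4) (nat_lit 2) (nat_lit 5) (nat_lit 2) (nat_lit 4) (nat_lit 528) (nat_lit 365) (nat_lit 307))) (XT.nd (nat_lit 78) (nat_lit 0) (nat_lit 0) (XT.lf (nat_lit 0) (nat_lit 12007250187320) (nat_lit 76) (nat_lit 1083812476467) (nat_lit 76) (nat_lit 1083197543834) (nat_lit 1) (nat_lit 4) (nat_lit 2) (nat_lit 5) (nat_lit 2) (nat_lit 4) (nat_lit 529) (nat_lit 365) (nat_lit 306)) (XT.nd (nat_lit 57642) (nat_lit 0) (nat_lit 0) (XT.lf (nat_lit 0) (nat_lit 12970976022347) (nat_lit 76) (nat_lit 1168858720550) (nat_lit 76) (nat_lit 1168243296840) (nat_lit 1) (nat_lit 4) (nat_lit 2) (nat_lit 5) (nat_lit 2) (nat_lit 4) (nat_lit 530) (nat_lit 365) (nat_lit 305)) (XT.lf (nat_lit 0) (nat_lit 13463305449) (nat_lit 76) (nat_lit 26481758249) (nat_lit 76) (nat_lit 26481758249) (nat_lit 1) (nat_lit 4) (nat_lit 2) (nat_lit 5) (nat_lit 2) (nat_lit 4) (nat_lit 468) (nat_lit 366) (nat_lit 366))))) (XT.nd (nat_lit 234)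 (nat_lit 0) (nat_lit 0) (XT.nd (nat_lit 78) (nat_lit 0) (nat_lit 0) (XT.lf (nat_lit 0) (nat_lit 38821439817) (nat_lit 76) (nat_lit 52164706024) (nat_lit 76) (nat_lit 52114981051) (nat_lit 1) (nat_lit 4) (nat_lit 2) (nat_lit 5) (nat_lit 2) (nat_lit 4) (nat_lit 469) (nat_lit 366) (nat_lit 365)) (XT.nd (nat_lit 78) (nat_lit 0) (nat_lit 0) (XT.lf (nat_lit 0) (nat_lit 51192921712) (nat_lit 76) (nat_lit 51544910373) (nat_lit 76) (nat_lit 51449143758) (nat_lit 1) (nat_lit 4) (nat_lit 2) (nat_lit 5) (nat_lit 2) (nat_lit 4) (nat_lit 470) (nat_lit 366) (nat_lit 364)) (XT.lf (nat_lit 0) (nat_lit 64114369071) (nat_lit 76) (nat_lit 51100456682) (nat_lit 76) (nat_lit 50962058917) (nat_lit 1) (nat_lit 4) (nat_lit 2) (nat_lit 5) (nat_lit 2) (nat_lit 4) (nat_lit 471) (nat_lit 366) (nat_lit 363)))) (XT.nd (nat_lit 78) (nat_lit 0) (nat_lit 0) (XT.lf (nat_lit 0) (nat_lit 77662353432) (nat_lit 76) (nat_lit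 50828711152) (nat_lit 76) (nat_lit 50650840099) (nat_lit 1) (nat_lit 4) (nat_lit 2) (nat_lit 5) (nat_lit 2) (nat_lit 4) (nat_lit 472) (nat_lit 366) (nat_lit 362)) (XT.nd (nat_lit 78) (nat_lit 0) (nat_lit 0) (XT.lf (nat_lit 0) (nat_lit 91917159149) (nat_lit 76) (nat_lit 50728063438) (nat_lit 76) (nat_lit 50513643046) (nat_lit 1) (nat_lit 4) (nat_lit 2) (nat_lit 5) (nat_lit 2) (nat_lit 4) (nat_lit 473) (nat_lit 366) (nat_lit 361)) (XT.lf (nat_lit 0) (nat_lit 106963259143) (nat_lit 76) (nat_lit 50797917110) (nat_lit 76) (nat_lit 50549654737) (nat_lit 1) (nat_lit 4) (nat_lit 2) (nat_lit 5) (nat_lit 2) (nat_lit 4) (nat_lit 474) (nat_lit 366) (nat_lit 360))))))) (XT.nd (nat_lit 858) (nat_lit 0) (nat_lit 0) (XT.nd (nat_lit 390) (nat_lit 0) (nat_lit 0) (XT.nd (nat_lit 156) (nat_lit 0) (nat_lit 0) (XT.nd (nat_lit 78) (nat_lit 0) (nat_lit 0) (XT.lf (nat_lit 0) (nat_lit 122889815489) (nat_lit 76)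 (nat_lit 51038686116) (nat_lit 76) (nat_lit 50759088574) (nat_lit 1) (nat_lit 4) (nat_lit 2) (nat_lit 5) (nat_lit 2) (nat_lit 4) (nat_lit 475) (nat_lit 366) (nat_lit 359)) (XT.lf (nat_lit 0) (nat_lit 139791207779) (nat_lit 76) (nat_lit 51451797234) (nat_lit 76) (nat_lit 51143185648) (nat_lit 1) (nat_lit 4) (nat_lit 2) (nat_lit 5) (nat_lit 2) (nat_lit 4) (nat_lit 476) (nat_lit 366) (nat_lit 358))) (XT.nd (nat_lit 78) (nat_lit 0) (nat_lit 0) (XT.lf (nat_lit 0) (nat_lit 157767592413) (nat_lit 76) (nat_lit 52039698531) (nat_lit 76) (nat_lit 51704222090) (nat_lit 1) (nat_lit 4) (nat_lit 2) (nat_lit 5) (nat_lit 2) (nat_lit 4) (nat_lit 477) (nat_lit 366) (nat_lit 357)) (XT.nd (nat_lit 78) (nat_lit 0) (nat_lit 0) (XT.lf (nat_lit 0) (nat_lit 176925496115) (nat_lit 76) (nat_lit 52805873867) (nat_lit 76) (nat_lit 52445522559) (nat_lit 1) (nat_lit 4) (nat_lit 2) (nat_lit 5) (nat_lit 2) (nat_lit 4)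 (nat_lit 478) (nat_lit 366) (nat_lit 356)) (XT.lf (nat_lit 0) (nat_lit 197378447201) (nat_lit 76) (nat_lit 53754863539) (nat_lit 76) (nat_lit 53371479947) (nat_lit 1) (nat_lit 4) (nat_lit 2) (nat_lit 5) (nat_lit 2) (nat_lit 4) (nat_lit 479) (nat_lit 366) (nat_lit 355))))) (XT.nd (nat_lit 234) (nat_lit 0) (nat_lit 0) (XT.nd (nat_lit 78) (nat_lit 0) (nat_lit 0) (XT.lf (nat_lit 0) (nat_lit 219247648347) (nat_lit 76) (nat_lit 54892291189) (nat_lit 76) (nat_lit 54487581409) (nat_lit 1) (nat_lit 4) (nat_lit 2) (nat_lit 5) (nat_lit 2) (nat_lit 4) (nat_lit 480) (nat_lit 366) (nat_lit 354)) (XT.nd (nat_lit 78) (nat_lit 0) (nat_lit 0) (XT.lf (nat_lit 0) (nat_lit 242662694817) (nat_lit 76) (nat_lit 56224897131) (nat_lit 76) (nat_lit 55800440880) (nat_lit 1) (nat_lit 4) (nat_lit 2) (nat_lit 5) (nat_lit 2) (nat_lit 4) (nat_lit 481) (nat_lit 366) (nat_lit 353)) (XT.lf (nat_lit 0) (nat_lit 267762342443)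 (nat_lit 76) (nat_lit 57760578288) (nat_lit 76) (nat_lit 57317838267) (nat_lit 1) (nat_lit 4) (nat_lit 2) (nat_lit 5) (nat_lit 2) (nat_lit 4) (nat_lit 482) (nat_lit 366) (nat_lit 352)))) (XT.nd (nat_lit 78) (nat_lit 0) (nat_lit 0) (XT.lf (nat_lit 0) (nat_lit 294695329877) (nat_lit 76) (nat_lit 59508434993) (nat_lit 76) (nat_lit 59048765556) (nat_lit 1) (nat_lit 4) (nat_lit 2) (nat_lit 5) (nat_lit 2) (nat_lit 4) (nat_lit 483) (nat_lit 366) (nat_lit 351)) (XT.nd (nat_lit 78) (nat_lit 0) (nat_lit 0) (XT.lf (nat_lit 0) (nat_lit 323621260008) (nat_lit 76) (nat_lit 61478824915) (nat_lit 76) (nat_lit 61003480093) (nat_lit 1) (nat_lit 4) (nat_lit 2) (nat_lit 5) (nat_lit 2) (nat_lit 4) (nat_lit 484) (nat_lit 366) (nat_lit 350)) (XT.lf (nat_lit 0) (nat_lit 354711545755) (nat_lit 76) (nat_lit 63683424439) (nat_lit 76) (nat_lit 63193565371) (nat_lit 1) (nat_lit 4) (nat_lit 2) (nat_lit 5) (nat_lit 2)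 (nat_lit 4) (nat_lit 485) (nat_lit 366) (nat_lit 349)))))) (XT.nd (nat_lit 468) (nat_lit 0) (nat_lit 0) (XT.nd (nat_lit 234) (nat_lit 0) (nat_lit 0) (XT.nd (nat_lit 78) (nat_lit 0) (nat_lit 0) (XT.lf (nat_lit 0) (nat_lit 388150425848) (nat_lit 76) (nat_lit 66135297859) (nat_lit 76) (nat_lit 65631999674) (nat_lit 1) (nat_lit 4) (nat_lit 2) (nat_lit 5) (nat_lit 2) (nat_lit 4) (nat_lit 486) (nat_lit 366) (nat_lit 348)) (XT.nd (nat_lit 78) (nat_lit 0) (nat_lit 0) (XT.lf (nat_lit 0) (nat_lit 424136056614) (nat_lit 76) (nat_lit 68848974794) (nat_lit 76) (nat_lit 68333232983) (nat_lit 1) (nat_lit 4) (nat_lit 2) (nat_lit 5) (nat_lit 2) (nat_lit 4) (nat_lit 487) (nat_lit 366) (nat_lit 347)) (XT.lf (nat_lit 0) (nat_lit 462881686235) (nat_lit 76) (nat_lit 71840536294) (nat_lit 76) (nat_lit 71313272607) (nat_lit 1) (nat_lit 4) (nat_lit 2) (nat_lit 5) (nat_lit 2) (nat_lit 4) (nat_lit 488) (nat_lit 366)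 (nat_lit 346)))) (XT.nd (nat_lit 78) (nat_lit 0) (nat_lit 0) (XT.lf (nat_lit 0) (nat_lit 504616918443) (nat_lit 76) (nat_lit 75127710130) (nat_lit 76) (nat_lit 74589778038) (nat_lit 1) (nat_lit 4) (nat_lit 2) (nat_lit 5) (nat_lit 2) (nat_lit 4) (nat_lit 489) (nat_lit 366) (nat_lit 345)) (XT.nd (nat_lit 78) (nat_lit 0) (nat_lit 0) (XT.lf (nat_lit 0) (nat_lit 549589073131) (nat_lit 76) (nat_lit 78729975850) (nat_lit 76) (nat_lit 78182165607) (nat_lit 1) (nat_lit 4) (nat_lit 2) (nat_lit 5) (nat_lit 2) (nat_lit 4) (nat_lit 490) (nat_lit 366) (nat_lit 344)) (XT.lf (nat_lit 0) (nat_lit 598064651958) (nat_lit 76) (nat_lit 82668680215) (nat_lit 76) (nat_lit 82111723535) (nat_lit 1) (nat_lit 4) (nat_lit 2) (nat_lit 5) (nat_lit 2) (nat_lit 4) (nat_lit 491) (nat_lit 366) (nat_lit 343))))) (XT.nd (nat_lit 234) (nat_lit 0) (nat_lit 0) (XT.nd (nat_lit 78) (nat_lit 0) (nat_lit 0) (XT.lf (nat_lit 0) (nat_lit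 650330917612) (nat_lit 76) (nat_lit 86967163695) (nat_lit 76) (nat_lit 86401738092) (nat_lit 1) (nat_lit 4) (nat_lit 2) (nat_lit 5) (nat_lit 2) (nat_lit 4) (nat_lit 492) (nat_lit 366) (nat_lit 342)) (XT.nd (nat_lit 78) (nat_lit 0) (nat_lit 0) (XT.lf (nat_lit 0) (nat_lit 706697596112) (nat_lit 76) (nat_lit 91650898784) (nat_lit 76) (nat_lit 91077631586) (nat_lit 1) (nat_lit 4) (nat_lit 2) (nat_lit 5) (nat_lit 2) (nat_lit 4) (nat_lit 493) (nat_lit 366) (nat_lit 341)) (XT.lf (nat_lit 0) (nat_lit 767498712220) (nat_lit 76) (nat_lit 96747640950) (nat_lit 76) (nat_lit 96167113016) (nat_lit 1) (nat_lit 4) (nat_lit 2) (nat_lit 5) (nat_lit 2) (nat_lit 4) (nat_lit 494) (nat_lit 366) (nat_lit 340)))) (XT.nd (nat_lit 78) (nat_lit 0) (nat_lit 0) (XT.lf (nat_lit 0) (nat_lit 833094568846) (nat_lit 76) (nat_lit 102287593109) (nat_lit 76) (nat_lit 101700342271) (nat_lit 1) (nat_lit 4) (nat_lit 2) (nat_lit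 5) (nat_lit 2) (nat_lit 4) (nat_lit 495) (nat_lit 366) (nat_lit 339)) (XT.nd (nat_lit 78) (nat_lit 0) (nat_lit 0) (XT.lf (nat_lit 0) (nat_lit 903873882178) (nat_lit 76) (nat_lit 108303584608) (nat_lit 76) (nat_lit 107710108858) (nat_lit 1) (nat_lit 4) (nat_lit 2) (nat_lit 5) (nat_lit 2) (nat_lit 4) (nat_lit 496) (nat_lit 366) (nat_lit 338)) (XT.lf (nat_lit 0) (nat_lit 980256085183) (nat_lit 76) (nat_lit 114831265767) (nat_lit 76) (nat_lit 114232026210) (nat_lit 1) (nat_lit 4) (nat_lit 2) (nat_lit 5) (nat_lit 2) (nat_lit 4) (nat_lit 497) (nat_lit 366) (nat_lit 337))))))))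
noncomputable def xc22 : XT := (XT.nd (nat_lit 1716) (nat_lit 0) (nat_lit 0) (XT.nd (nat_lit 858) (nat_lit 0) (nat_lit 0) (XT.nd (nat_lit 390) (nat_lit 0) (nat_lit 0) (XT.nd (nat_lit 156) (nat_lit 0) (nat_lit 0) (XT.nd (nat_lit 78) (nat_lit 0) (nat_lit 0) (XT.lf (nat_lit 0) (nat_lit 1062693813138) (nat_lit 76) (nat_lit 121909319139) (nat_lit 76) (nat_lit 121304742725) (nat_lit 1) (nat_lit 4) (nat_lit 2) (nat_lit 5) (nat_lit 2) (nat_lit 4) (nat_lit 498) (nat_lit 366) (nat_lit 336)) (XT.lf (nat_lit 0) (nat_lit 1151675585913) (nat_lit 76) (nat_lit 129579688746) (nat_lit 76) (nat_lit 128970170797) (nat_lit 1) (nat_lit 4) (nat_lit 2) (nat_lit 5) (nat_lit 2) (nat_lit 4) (nat_lit 499) (nat_lit 366) (nat_lit 335))) (XT.nd (nat_lit 78) (nat_lit 0) (nat_lit 0) (XT.lf (nat_lit 0) (nat_lit 1247728702902) (nat_lit 76) (nat_lit 137887828630) (nat_lit 76) (nat_lit 137273735185) (nat_lit 1) (nat_lit 4)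 (nat_lit 2) (nat_lit 5) (nat_lit 2) (nat_lit 4) (nat_lit 500) (nat_lit 366) (nat_lit 334)) (XT.nd (nat_lit 78) (nat_lit 0) (nat_lit 0) (XT.lf (nat_lit 0) (nat_lit 1351422367762) (nat_lit 76) (nat_lit 146882972212) (nat_lit 76) (nat_lit 146264642196) (nat_lit 1) (nat_lit 4) (nat_lit 2) (nat_lit 5) (nat_lit 2) (nat_lit 4) (nat_lit 501) (nat_lit 366) (nat_lit 333)) (XT.lf (nat_lit 0) (nat_lit 1463371061468) (nat_lit 76) (nat_lit 156618424046) (nat_lit 76) (nat_lit 155996171281) (nat_lit 1) (nat_lit 4) (nat_lit 2) (nat_lit 5) (nat_lit 2) (nat_lit 4) (nat_lit 502) (nat_lit 366) (nat_lit 332))))) (XT.nd (nat_lit 234) (nat_lit 0) (nat_lit 0) (XT.nd (nat_lit 78) (nat_lit 0) (nat_lit 0) (XT.lf (nat_lit 0) (nat_lit 1584238183688) (nat_lit 76) (nat_lit 167151875699) (nat_lit 76) (nat_lit 166525990758) (nat_lit 1) (nat_lit 4) (nat_lit 2) (nat_lit 5) (nat_lit 2) (nat_lit 4) (nat_lit 503) (nat_lit 366)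 (nat_lit 331)) (XT.nd (nat_lit 78) (nat_lit 0) (nat_lit 0) (XT.lf (nat_lit 0) (nat_lit 1714739984035) (nat_lit 76) (nat_lit 178545747626) (nat_lit 76) (nat_lit 177916499559) (nat_lit 1) (nat_lit 4) (nat_lit 2) (nat_lit 5) (nat_lit 2) (nat_lit 4) (nat_lit 504) (nat_lit 366) (nat_lit 330)) (XT.lf (nat_lit 0) (nat_lit 1855649806510) (nat_lit 76) (nat_lit 190867559067) (nat_lit 76) (nat_lit 190235196995) (nat_lit 1) (nat_lit 4) (nat_lit 2) (nat_lit 5) (nat_lit 2) (nat_lit 4) (nat_lit 505) (nat_lit 366) (nat_lit 329)))) (XT.nd (nat_lit 78) (nat_lit 0) (nat_lit 0) (XT.lf (nat_lit 0) (nat_lit 2007802672284) (nat_lit 76) (nat_lit 204190328164) (nat_lit 76) (nat_lit 203555082754) (nat_lit 1) (nat_lit 4) (nat_lit 2) (nat_lit 5) (nat_lit 2) (nat_lit 4) (nat_lit 506) (nat_lit 366) (nat_lit 328)) (XT.nd (nat_lit 78) (nat_lit 0) (nat_lit 0) (XT.lf (nat_lit 0) (nat_lit 2172100227970) (nat_lit 76) (nat_lit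 218593004661) (nat_lit 76) (nat_lit 217955089492) (nat_lit 1) (nat_lit 4) (nat_lit 2) (nat_lit 5) (nat_lit 2) (nat_lit 4) (nat_lit 507) (nat_lit 366) (nat_lit 327)) (XT.lf (nat_lit 0) (nat_lit 2349516088711) (nat_lit 76) (nat_lit 234160937750) (nat_lit 76) (nat_lit 233520550584) (nat_lit 1) (nat_lit 4) (nat_lit 2) (nat_lit 5) (nat_lit 2) (nat_lit 4) (nat_lit 508) (nat_lit 366) (nat_lit 326)))))) (XT.nd (nat_lit 390) (nat_lit 0) (nat_lit 0) (XT.nd (nat_lit 156) (nat_lit 0) (nat_lit 0) (XT.nd (nat_lit 78) (nat_lit 0) (nat_lit 0) (XT.lf (nat_lit 0) (nat_lit 2541101607757) (nat_lit 76) (nat_lit 250986381851) (nat_lit 76) (nat_lit 250343705797) (nat_lit 1) (nat_lit 4) (nat_lit 2) (nat_lit 5) (nat_lit 2) (nat_lit 4) (nat_lit 509) (nat_lit 366) (nat_lit 325)) (XT.lf (nat_lit 0) (nat_lit 2747992106702) (nat_lit 76) (nat_lit 269169043298) (nat_lit 76) (nat_lit 268524247905) (nat_lit 1) (nat_lit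 4) (nat_lit 2) (nat_lit 5) (nat_lit 2) (nat_lit 4) (nat_lit 510) (nat_lit 366) (nat_lit 324))) (XT.nd (nat_lit 78) (nat_lit 0) (nat_lit 0) (XT.lf (nat_lit 0) (nat_lit 2971413603317) (nat_lit 76) (nat_lit 288816671197) (nat_lit 76) (nat_lit 288169913453) (nat_lit 1) (nat_lit 4) (nat_lit 2) (nat_lit 5) (nat_lit 2) (nat_lit 4) (nat_lit 511) (nat_lit 366) (nat_lit 323)) (XT.nd (nat_lit 78) (nat_lit 0) (nat_lit 0) (XT.lf (nat_lit 0) (nat_lit 3212690076842) (nat_lit 76) (nat_lit 310045695936) (nat_lit 76) (nat_lit 309397121199) (nat_lit 1) (nat_lit 4) (nat_lit 2) (nat_lit 5) (nat_lit 2) (nat_lit 4) (nat_lit 512) (nat_lit 366) (nat_lit 322)) (XT.lf (nat_lit 0) (nat_lit 3473251313786) (nat_lit 76) (nat_lit 332981919141) (nat_lit 76) (nat_lit 332331662004) (nat_lit 1) (nat_lit 4) (nat_lit 2) (nat_lit 5) (nat_lit 2) (nat_lit 4) (nat_lit 513) (nat_lit 366) (nat_lit 321))))) (XT.nd (nat_lit 234) (nat_lit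 0) (nat_lit 0) (XT.nd (nat_lit 78) (nat_lit 0) (nat_lit 0) (XT.lf (nat_lit 0) (nat_lit 3754641380740) (nat_lit 76) (nat_lit 357761259174) (nat_lit 76) (nat_lit 357109444259) (nat_lit 1) (nat_lit 4) (nat_lit 2) (nat_lit 5) (nat_lit 2) (nat_lit 4) (nat_lit 514) (nat_lit 366) (nat_lit 320)) (XT.nd (nat_lit 78) (nat_lit 0) (nat_lit 0) (XT.lf (nat_lit 0) (nat_lit 4058527774395) (nat_lit 76) (nat_lit 384530556567) (nat_lit 76) (nat_lit 383877299265) (nat_lit 1) (nat_lit 4) (nat_lit 2) (nat_lit 5) (nat_lit 2) (nat_lit 4) (nat_lit 515) (nat_lit 366) (nat_lit 319)) (XT.lf (nat_lit 0) (nat_lit 4386711303011) (nat_lit 76) (nat_lit 413448444194) (nat_lit 76) (nat_lit 412793851349) (nat_lit 1) (nat_lit 4) (nat_lit 2) (nat_lit 5) (nat_lit 2) (nat_lit 4) (nat_lit 516) (nat_lit 366) (nat_lit 318)))) (XT.nd (nat_lit 78) (nat_lit 0) (nat_lit 0) (XT.lf (nat_lit 0) (nat_lit 4741136757867) (nat_lit 76) (nat_lit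 444686287316) (nat_lit 76) (nat_lit 444030457856) (nat_lit 1) (nat_lit 4) (nat_lit 2) (nat_lit 5) (nat_lit 2) (nat_lit 4) (nat_lit 517) (nat_lit 366) (nat_lit 317)) (XT.nd (nat_lit 78) (nat_lit 0) (nat_lit 0) (XT.lf (nat_lit 0) (nat_lit 5123904437957) (nat_lit 76) (nat_lit 478429199075) (nat_lit 76) (nat_lit 477772224602) (nat_lit 1) (nat_lit 4) (nat_lit 2) (nat_lit 5) (nat_lit 2) (nat_lit 4) (nat_lit 518) (nat_lit 366) (nat_lit 316)) (XT.lf (nat_lit 0) (nat_lit 5537282596199) (nat_lit 76) (nat_lit 514877137469) (nat_lit 76) (nat_lit 514219102798) (nat_lit 1) (nat_lit 4) (nat_lit 2) (nat_lit 5) (nat_lit 2) (nat_lit 4) (nat_lit 519) (nat_lit 366) (nat_lit 315))))))) (XT.nd (nat_lit 58266) (nat_lit 0) (nat_lit 0) (XT.nd (nat_lit 390) (nat_lit 0) (nat_lit 0) (XT.nd (nat_lit 156) (nat_lit 0) (nat_lit 0) (XT.nd (nat_lit 78) (nat_lit 0) (nat_lit 0) (XT.lf (nat_lit 0) (nat_lit 5983720880938) (nat_lit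 76) (nat_lit 554246090280) (nat_lit 76) (nat_lit 553587073944) (nat_lit 1) (nat_lit 4) (nat_lit 2) (nat_lit 5) (nat_lit 2) (nat_lit 4) (nat_lit 520) (nat_lit 366) (nat_lit 314)) (XT.lf (nat_lit 0) (nat_lit 6465864852380) (nat_lit 76) (nat_lit 596769355006) (nat_lit 76) (nat_lit 596109429722) (nat_lit 1) (nat_lit 4) (nat_lit 2) (nat_lit 5) (nat_lit 2) (nat_lit 4) (nat_lit 521) (nat_lit 366) (nat_lit 313))) (XT.nd (nat_lit 78) (nat_lit 0) (nat_lit 0) (XT.lf (nat_lit 0) (nat_lit 6986571659985) (nat_lit 76) (nat_lit 642698921364) (nat_lit 76) (nat_lit 642038154461) (nat_lit 1) (nat_lit 4) (nat_lit 2) (nat_lit 5) (nat_lit 2) (nat_lit 4) (nat_lit 522) (nat_lit 366) (nat_lit 312)) (XT.nd (nat_lit 78) (nat_lit 0) (nat_lit 0) (XT.lf (nat_lit 0) (nat_lit 7548926973725) (nat_lit 76) (nat_lit 692306964562) (nat_lit 76) (nat_lit 691645418383) (nat_lit 1) (nat_lit 4) (nat_lit 2) (nat_lit 5) (nat_lit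 2) (nat_lit 4) (nat_lit 523) (nat_lit 366) (nat_lit 311)) (XT.lf (nat_lit 0) (nat_lit 8156263269533) (nat_lit 76) (nat_lit 745887458190) (nat_lit 76) (nat_lit 745225190458) (nat_lit 1) (nat_lit 4) (nat_lit 2) (nat_lit 5) (nat_lit 2) (nat_lit 4) (nat_lit 524) (nat_lit 366) (nat_lit 310))))) (XT.nd (nat_lit 234) (nat_lit 0) (nat_lit 0) (XT.nd (nat_lit 78) (nat_lit 0) (nat_lit 0) (XT.lf (nat_lit 0) (nat_lit 8812179577309) (nat_lit 76) (nat_lit 803757916284) (nat_lit 76) (nat_lit 803094980448) (nat_lit 1) (nat_lit 4) (nat_lit 2) (nat_lit 5) (nat_lit 2) (nat_lit 4) (nat_lit 525) (nat_lit 366) (nat_lit 309)) (XT.nd (nat_lit 78) (nat_lit 0) (nat_lit 0) (XT.lf (nat_lit 0) (nat_lit 9520562808508) (nat_lit 76) (nat_lit 866261274892) (nat_lit 76) (nat_lit 865597720440) (nat_lit 1) (nat_lit 4) (nat_lit 2) (nat_lit 5) (nat_lit 2) (nat_lit 4) (nat_lit 526) (nat_lit 366) (nat_lit 308)) (XT.lf (nat_lit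 0) (nat_lit 10285610789684) (nat_lit 76) (nat_lit 933767924286) (nat_lit 76) (nat_lit 933103797043) (nat_lit 1) (nat_lit 4) (nat_lit 2) (nat_lit 5) (nat_lit 2) (nat_lit 4) (nat_lit 527) (nat_lit 366) (nat_lit 307)))) (XT.nd (nat_lit 78) (nat_lit 0) (nat_lit 0) (XT.lf (nat_lit 0) (nat_lit 11111857138503) (nat_lit 76) (nat_lit 1006677903871) (nat_lit 76) (nat_lit 1006013246266) (nat_lit 1) (nat_lit 4) (nat_lit 2) (nat_lit 5) (nat_lit 2) (nat_lit 4) (nat_lit 528) (nat_lit 366) (nat_lit 306)) (XT.nd (nat_lit 78) (nat_lit 0) (nat_lit 0) (XT.lf (nat_lit 0) (nat_lit 12004198129626) (nat_lit 76) (nat_lit 1085423272786) (nat_lit 76) (nat_lit 1084758124103) (nat_lit 1) (nat_lit 4) (nat_lit 2) (nat_lit 5) (nat_lit 2) (nat_lit 4) (nat_lit 529) (nat_lit 366) (nat_lit 305)) (XT.lf (nat_lit 0) (nat_lit 12967921709667) (nat_lit 76) (nat_lit 1170470670253) (nat_lit 76) (nat_lit 1169805066870) (nat_lit 1)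 (nat_lit 4) (nat_lit 2) (nat_lit 5) (nat_lit 2) (nat_lit 4) (nat_lit 530) (nat_lit 366) (nat_lit 304)))))) (XT.nd (nat_lit 468) (nat_lit 0) (nat_lit 0) (XT.nd (nat_lit 234) (nat_lit 0) (nat_lit 0) (XT.nd (nat_lit 78) (nat_lit 0) (nat_lit 0) (XT.lf (nat_lit 0) (nat_lit 2276847701) (nat_lit 76) (nat_lit 27517843332) (nat_lit 76) (nat_lit 27517843332) (nat_lit 1) (nat_lit 4) (nat_lit 2) (nat_lit 5) (nat_lit 2) (nat_lit 4) (nat_lit 466) (nat_lit 367) (nat_lit 367)) (XT.nd (nat_lit 78) (nat_lit 0) (nat_lit 0) (XT.lf (nat_lit 0) (nat_lit 15437947084) (nat_lit 76) (nat_lit 53999778460) (nat_lit 76) (nat_lit 53946075488) (nat_lit 1) (nat_lit 4) (nat_lit 2) (nat_lit 5) (nat_lit 2) (nat_lit 4) (nat_lit 467) (nat_lit 367) (nat_lit 366)) (XT.lf (nat_lit 0) (nat_lit 26680010898) (nat_lit 76) (nat_lit 53143350833) (nat_lit 76) (nat_lit 53039922888) (nat_lit 1) (nat_lit 4) (nat_lit 2) (nat_lit 5) (nat_lit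 2) (nat_lit 4) (nat_lit 468) (nat_lit 367) (nat_lit 365)))) (XT.nd (nat_lit 78) (nat_lit 0) (nat_lit 0) (XT.lf (nat_lit 0) (nat_lit 38346506481) (nat_lit 76) (nat_lit 52461328657) (nat_lit 76) (nat_lit 52311859070) (nat_lit 1) (nat_lit 4) (nat_lit 2) (nat_lit 5) (nat_lit 2) (nat_lit 4) (nat_lit 469) (nat_lit 367) (nat_lit 364)) (XT.nd (nat_lit 78) (nat_lit 0) (nat_lit 0) (XT.lf (nat_lit 0) (nat_lit 50506568623) (nat_lit 76) (nat_lit 51949670319) (nat_lit 76) (nat_lit 51757569583) (nat_lit 1) (nat_lit 4) (nat_lit 2) (nat_lit 5) (nat_lit 2) (nat_lit 4) (nat_lit 470) (nat_lit 367) (nat_lit 363)) (XT.lf (nat_lit 0) (nat_lit 63232256950) (nat_lit 76) (nat_lit 51605343770) (nat_lit 76) (nat_lit 51373769747) (nat_lit 1) (nat_lit 4) (nat_lit 2) (nat_lit 5) (nat_lit 2) (nat_lit 4) (nat_lit 471) (nat_lit 367) (nat_lit 362))))) (XT.nd (nat_lit 234) (nat_lit 0) (nat_lit 0) (XT.nd (nat_lit 78) (nat_lit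 0) (nat_lit 0) (XT.lf (nat_lit 0) (nat_lit 76598982949) (nat_lit 76) (nat_lit 51426308557) (nat_lit 76) (nat_lit 51158185194) (nat_lit 1) (nat_lit 4) (nat_lit 2) (nat_lit 5) (nat_lit 2) (nat_lit 4) (nat_lit 472) (nat_lit 367) (nat_lit 361)) (XT.nd (nat_lit 78) (nat_lit 0) (nat_lit 0) (XT.lf (nat_lit 0) (nat_lit 90685956848) (nat_lit 76) (nat_lit 51411503729) (nat_lit 76) (nat_lit 51109538385) (nat_lit 1) (nat_lit 4) (nat_lit 2) (nat_lit 5) (nat_lit 2) (nat_lit 4) (nat_lit 473) (nat_lit 367) (nat_lit 360)) (XT.lf (nat_lit 0) (nat_lit 105576657011) (nat_lit 76) (nat_lit 51560841555) (nat_lit 76) (nat_lit 51227541043) (nat_lit 1) (nat_lit 4) (nat_lit 2) (nat_lit 5) (nat_lit 2) (nat_lit 4) (nat_lit 474) (nat_lit 367) (nat_lit 359)))) (XT.nd (nat_lit 78) (nat_lit 0) (nat_lit 0) (XT.lf (nat_lit 0) (nat_lit 121359324625) (nat_lit 76) (nat_lit 51875206999) (nat_lit 76) (nat_lit 51512892442) (nat_lit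 1) (nat_lit 4) (nat_lit 2) (nat_lit 5) (nat_lit 2) (nat_lit 4) (nat_lit 475) (nat_lit 367) (nat_lit 358)) (XT.nd (nat_lit 78) (nat_lit 0) (nat_lit 0) (XT.lf (nat_lit 0) (nat_lit 138127486608) (nat_lit 76) (nat_lit 52356462968) (nat_lit 76) (nat_lit 51967283556) (nat_lit 1) (nat_lit 4) (nat_lit 2) (nat_lit 5) (nat_lit 2) (nat_lit 4) (nat_lit 476) (nat_lit 367) (nat_lit 357)) (XT.lf (nat_lit 0) (nat_lit 155980509846) (nat_lit 76) (nat_lit 53007461349) (nat_lit 76) (nat_lit 52593407070) (nat_lit 1) (nat_lit 4) (nat_lit 2) (nat_lit 5) (nat_lit 2) (nat_lit 4) (nat_lit 477) (nat_lit 367) (nat_lit 356))))))))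
noncomputable def xc23 : XT := (XT.nd (nat_lit 1716) (nat_lit 0) (nat_lit 0) (XT.nd (nat_lit 858) (nat_lit 0) (nat_lit 0) (XT.nd (nat_lit 390) (nat_lit 0) (nat_lit 0) (XT.nd (nat_lit 156) (nat_lit 0) (nat_lit 0) (XT.nd (nat_lit 78) (nat_lit 0) (nat_lit 0) (XT.lf (nat_lit 0) (nat_lit 175024190033) (nat_lit 76) (nat_lit 53832059911) (nat_lit 76) (nat_lit 53394973347) (nat_lit 1) (nat_lit 4) (nat_lit 2) (nat_lit 5) (nat_lit 2) (nat_lit 4) (nat_lit 478) (nat_lit 367) (nat_lit 355)) (XT.lf (nat_lit 0) (nat_lit 195371378606) (nat_lit 76) (nat_lit 54835145162) (nat_lit 76) (nat_lit 54376732410) (nat_lit 1) (nat_lit 4) (nat_lit 2) (nat_lit 5) (nat_lit 2) (nat_lit 4) (nat_lit 479) (nat_lit 367) (nat_lit 354))) (XT.nd (nat_lit 78) (nat_lit 0) (nat_lit 0) (XT.lf (nat_lit 0) (nat_lit 217142651498) (nat_lit 76) (nat_lit 56022661312) (nat_lit 76) (nat_lit 55544502089) (nat_lit 1) (nat_lit 4) (nat_lit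 2) (nat_lit 5) (nat_lit 2) (nat_lit 4) (nat_lit 480) (nat_lit 367) (nat_lit 353)) (XT.nd (nat_lit 78) (nat_lit 0) (nat_lit 0) (XT.lf (nat_lit 0) (nat_lit 240467023660) (nat_lit 76) (nat_lit 57401645494) (nat_lit 76) (nat_lit 56905202502) (nat_lit 1) (nat_lit 4) (nat_lit 2) (nat_lit 5) (nat_lit 2) (nat_lit 4) (nat_lit 481) (nat_lit 367) (nat_lit 352)) (XT.lf (nat_lit 0) (nat_lit 265482713592) (nat_lit 76) (nat_lit 58980269466) (nat_lit 76) (nat_lit 58466897058) (nat_lit 1) (nat_lit 4) (nat_lit 2) (nat_lit 5) (nat_lit 2) (nat_lit 4) (nat_lit 482) (nat_lit 367) (nat_lit 351))))) (XT.nd (nat_lit 234) (nat_lit 0) (nat_lit 0) (XT.nd (nat_lit 78) (nat_lit 0) (nat_lit 0) (XT.lf (nat_lit 0) (nat_lit 292337962422) (nat_lit 76) (nat_lit 60767888037) (nat_lit 76) (nat_lit 60238840243) (nat_lit 1) (nat_lit 4) (nat_lit 2) (nat_lit 5) (nat_lit 2) (nat_lit 4) (nat_lit 483) (nat_lit 367) (nat_lit 350))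 (XT.nd (nat_lit 78) (nat_lit 0) (nat_lit 0) (XT.lf (nat_lit 0) (nat_lit 321191912363) (nat_lit 76) (nat_lit 62775094502) (nat_lit 76) (nat_lit 62231532462) (nat_lit 1) (nat_lit 4) (nat_lit 2) (nat_lit 5) (nat_lit 2) (nat_lit 4) (nat_lit 484) (nat_lit 367) (nat_lit 349)) (XT.lf (nat_lit 0) (nat_lit 352215549786) (nat_lit 76) (nat_lit 65013783417) (nat_lit 76) (nat_lit 64456782261) (nat_lit 1) (nat_lit 4) (nat_lit 2) (nat_lit 5) (nat_lit 2) (nat_lit 4) (nat_lit 485) (nat_lit 367) (nat_lit 348)))) (XT.nd (nat_lit 78) (nat_lit 0) (nat_lit 0) (XT.lf (nat_lit 0) (nat_lit 385592718468) (nat_lit 76) (nat_lit 67497221088) (nat_lit 76) (nat_lit 66927776305) (nat_lit 1) (nat_lit 4) (nat_lit 2) (nat_lit 5) (nat_lit 2) (nat_lit 4) (nat_lit 486) (nat_lit 367) (nat_lit 347)) (XT.nd (nat_lit 78) (nat_lit 0) (nat_lit 0) (XT.lf (nat_lit 0) (nat_lit 421521209039) (nat_lit 76) (nat_lit 70240124181) (nat_lit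 76) (nat_lit 69659157523) (nat_lit 1) (nat_lit 4) (nat_lit 2) (nat_lit 5) (nat_lit 2) (nat_lit 4) (nat_lit 487) (nat_lit 367) (nat_lit 346)) (XT.lf (nat_lit 0) (nat_lit 460213931072) (nat_lit 76) (nat_lit 73258746939) (nat_lit 76) (nat_lit 72667111876) (nat_lit 1) (nat_lit 4) (nat_lit 2) (nat_lit 5) (nat_lit 2) (nat_lit 4) (nat_lit 488) (nat_lit 367) (nat_lit 345)))))) (XT.nd (nat_lit 390) (nat_lit 0) (nat_lit 0) (XT.nd (nat_lit 156) (nat_lit 0) (nat_lit 0) (XT.nd (nat_lit 78) (nat_lit 0) (nat_lit 0) (XT.lf (nat_lit 0) (nat_lit 501900174772) (nat_lit 76) (nat_lit 76570977494) (nat_lit 76) (nat_lit 75969464280) (nat_lit 1) (nat_lit 4) (nat_lit 2) (nat_lit 5) (nat_lit 2) (nat_lit 4) (nat_lit 489) (nat_lit 367) (nat_lit 344)) (XT.lf (nat_lit 0) (nat_lit 546826969731) (nat_lit 76) (nat_lit 80196443882) (nat_lit 76) (nat_lit 79585784231) (nat_lit 1) (nat_lit 4) (nat_lit 2) (nat_lit 5) (nat_lit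 2) (nat_lit 4) (nat_lit 490) (nat_lit 367) (nat_lit 343))) (XT.nd (nat_lit 78) (nat_lit 0) (nat_lit 0) (XT.lf (nat_lit 0) (nat_lit 595260548808) (nat_lit 76) (nat_lit 84156630345) (nat_lit 76) (nat_lit 83537501771) (nat_lit 1) (nat_lit 4) (nat_lit 2) (nat_lit 5) (nat_lit 2) (nat_lit 4) (nat_lit 491) (nat_lit 367) (nat_lit 342)) (XT.nd (nat_lit 78) (nat_lit 0) (nat_lit 0) (XT.lf (nat_lit 0) (nat_lit 647487925806) (nat_lit 76) (nat_lit 88475004657) (nat_lit 76) (nat_lit 87848034488) (nat_lit 1) (nat_lit 4) (nat_lit 2) (nat_lit 5) (nat_lit 2) (nat_lit 4) (nat_lit 492) (nat_lit 367) (nat_lit 341)) (XT.lf (nat_lit 0) (nat_lit 703818596291) (nat_lit 76) (nat_lit 93177157184) (nat_lit 76) (nat_lit 92542926278) (nat_lit 1) (nat_lit 4) (nat_lit 2) (nat_lit 5) (nat_lit 2) (nat_lit 4) (nat_lit 493) (nat_lit 367) (nat_lit 340))))) (XT.nd (nat_lit 234) (nat_lit 0) (nat_lit 0) (XT.nd (nat_lit 78) (nat_lit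 0) (nat_lit 0) (XT.lf (nat_lit 0) (nat_lit 764586371644) (nat_lit 76) (nat_lit 98290952533) (nat_lit 76) (nat_lit 97649998723) (nat_lit 1) (nat_lit 4) (nat_lit 2) (nat_lit 5) (nat_lit 2) (nat_lit 4) (nat_lit 494) (nat_lit 367) (nat_lit 339)) (XT.nd (nat_lit 78) (nat_lit 0) (nat_lit 0) (XT.lf (nat_lit 0) (nat_lit 830151357200) (nat_lit 76) (nat_lit 103846694676) (nat_lit 76) (nat_lit 103199515955) (nat_lit 1) (nat_lit 4) (nat_lit 2) (nat_lit 5) (nat_lit 2) (nat_lit 4) (nat_lit 495) (nat_lit 367) (nat_lit 338)) (XT.lf (nat_lit 0) (nat_lit 900902086208) (nat_lit 76) (nat_lit 109877306531) (nat_lit 76) (nat_lit 109224364003) (nat_lit 1) (nat_lit 4) (nat_lit 2) (nat_lit 5) (nat_lit 2) (nat_lit 4) (nat_lit 496) (nat_lit 367) (nat_lit 337)))) (XT.nd (nat_lit 78) (nat_lit 0) (nat_lit 0) (XT.lf (nat_lit 0) (nat_lit 977257822247) (nat_lit 76) (nat_lit 116418525055) (nat_lit 76) (nat_lit 115760245669)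 (nat_lit 1) (nat_lit 4) (nat_lit 2) (nat_lit 5) (nat_lit 2) (nat_lit 4) (nat_lit 497) (nat_lit 367) (nat_lit 336)) (XT.nd (nat_lit 78) (nat_lit 0) (nat_lit 0) (XT.lf (nat_lit 0) (nat_lit 1059671043752) (nat_lit 76) (nat_lit 123509113026) (nat_lit 76) (nat_lit 122845892105) (nat_lit 1) (nat_lit 4) (nat_lit 2) (nat_lit 5) (nat_lit 2) (nat_lit 4) (nat_lit 498) (nat_lit 367) (nat_lit 335)) (XT.lf (nat_lit 0) (nat_lit 1148630125369) (nat_lit 76) (nat_lit 131191088743) (nat_lit 76) (nat_lit 130523292326) (nat_lit 1) (nat_lit 4) (nat_lit 2) (nat_lit 5) (nat_lit 2) (nat_lit 4) (nat_lit 499) (nat_lit 367) (nat_lit 334))))))) (XT.nd (nat_lit 858) (nat_lit 0) (nat_lit 0) (XT.nd (nat_lit 390) (nat_lit 0) (nat_lit 0) (XT.nd (nat_lit 156) (nat_lit 0) (nat_lit 0) (XT.nd (nat_lit 78) (nat_lit 0) (nat_lit 0) (XT.lf (nat_lit 0) (nat_lit 1244662232027) (nat_lit 76) (nat_lit 139509975024) (nat_lit 76) (nat_lit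 138837942038) (nat_lit 1) (nat_lit 4) (nat_lit 2) (nat_lit 5) (nat_lit 2) (nat_lit 4) (nat_lit 500) (nat_lit 367) (nat_lit 333)) (XT.lf (nat_lit 0) (nat_lit 1348336442876) (nat_lit 76) (nat_lit 148515068974) (nat_lit 76) (nat_lit 147839113238) (nat_lit 1) (nat_lit 4) (nat_lit 2) (nat_lit 5) (nat_lit 2) (nat_lit 4) (nat_lit 501) (nat_lit 367) (nat_lit 332))) (XT.nd (nat_lit 78) (nat_lit 0) (nat_lit 0) (XT.lf (nat_lit 0) (nat_lit 1460267123609) (nat_lit 76) (nat_lit 158259734113) (nat_lit 76) (nat_lit 157580146200) (nat_lit 1) (nat_lit 4) (nat_lit 2) (nat_lit 5) (nat_lit 2) (nat_lit 4) (nat_lit 502) (nat_lit 367) (nat_lit 331)) (XT.nd (nat_lit 78) (nat_lit 0) (nat_lit 0) (XT.lf (nat_lit 0) (nat_lit 1581117567151) (nat_lit 76) (nat_lit 168801716603) (nat_lit 76) (nat_lit 168118765565) (nat_lit 1) (nat_lit 4) (nat_lit 2) (nat_lit 5) (nat_lit 2) (nat_lit 4) (nat_lit 503) (nat_lit 367) (nat_lit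 330)) (XT.lf (nat_lit 0) (nat_lit 1711603924277) (nat_lit 76) (nat_lit 180203487453) (nat_lit 76) (nat_lit 179517422409) (nat_lit 1) (nat_lit 4) (nat_lit 2) (nat_lit 5) (nat_lit 2) (nat_lit 4) (nat_lit 504) (nat_lit 367) (nat_lit 329))))) (XT.nd (nat_lit 234) (nat_lit 0) (nat_lit 0) (XT.nd (nat_lit 78) (nat_lit 0) (nat_lit 0) (XT.lf (nat_lit 0) (nat_lit 1852499447474) (nat_lit 76) (nat_lit 192532612712) (nat_lit 76) (nat_lit 191843664330) (nat_lit 1) (nat_lit 4) (nat_lit 2) (nat_lit 5) (nat_lit 2) (nat_lit 4) (nat_lit 505) (nat_lit 367) (nat_lit 328)) (XT.nd (nat_lit 78) (nat_lit 0) (nat_lit 0) (XT.lf (nat_lit 0) (nat_lit 2004639073176) (nat_lit 76) (nat_lit 205862153862) (nat_lit 76) (nat_lit 205170535723) (nat_lit 1) (nat_lit 4) (nat_lit 2) (nat_lit 5) (nat_lit 2) (nat_lit 4) (nat_lit 506) (nat_lit 367) (nat_lit 327)) (XT.lf (nat_lit 0) (nat_lit 2168924369535) (nat_lit 76) (nat_lit 220271100779)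 (nat_lit 76) (nat_lit 219577010641) (nat_lit 1) (nat_lit 4) (nat_lit 2) (nat_lit 5) (nat_lit 2) (nat_lit 4) (nat_lit 507) (nat_lit 367) (nat_lit 326)))) (XT.nd (nat_lit 78) (nat_lit 0) (nat_lit 0) (XT.lf (nat_lit 0) (nat_lit 2346328879048) (nat_lit 76) (nat_lit 235844839812) (nat_lit 76) (nat_lit 235148460788) (nat_lit 1) (nat_lit 4) (nat_lit 2) (nat_lit 5) (nat_lit 2) (nat_lit 4) (nat_lit 508) (nat_lit 367) (nat_lit 325)) (XT.nd (nat_lit 78) (nat_lit 0) (nat_lit 0) (XT.lf (nat_lit 0) (nat_lit 2537903887697) (nat_lit 76) (nat_lit 252675659787) (nat_lit 76) (nat_lit 251977161423) (nat_lit 1) (nat_lit 4) (nat_lit 2) (nat_lit 5) (nat_lit 2) (nat_lit 4) (nat_lit 509) (nat_lit 367) (nat_lit 324)) (XT.lf (nat_lit 0) (nat_lit 2744784654794) (nat_lit 76) (nat_lit 270863298896) (nat_lit 76) (nat_lit 270162838180) (nat_lit 1) (nat_lit 4) (nat_lit 2) (nat_lit 5) (nat_lit 2) (nat_lit 4) (nat_lit 510)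 (nat_lit 367) (nat_lit 323)))))) (XT.nd (nat_lit 468) (nat_lit 0) (nat_lit 0) (XT.nd (nat_lit 234) (nat_lit 0) (nat_lit 0) (XT.nd (nat_lit 78) (nat_lit 0) (nat_lit 0) (XT.lf (nat_lit 0) (nat_lit 2968197140438) (nat_lit 76) (nat_lit 290515535741) (nat_lit 76) (nat_lit 289813258033) (nat_lit 1) (nat_lit 4) (nat_lit 2) (nat_lit 5) (nat_lit 2) (nat_lit 4) (nat_lit 511) (nat_lit 367) (nat_lit 322)) (XT.nd (nat_lit 78) (nat_lit 0) (nat_lit 0) (XT.lf (nat_lit 0) (nat_lit 3209465270471) (nat_lit 76) (nat_lit 311748828022) (nat_lit 76) (nat_lit 311044867914) (nat_lit 1) (nat_lit 4) (nat_lit 2) (nat_lit 5) (nat_lit 2) (nat_lit 4) (nat_lit 512) (nat_lit 367) (nat_lit 321)) (XT.lf (nat_lit 0) (nat_lit 3470018781961) (nat_lit 76) (nat_lit 334689002656) (nat_lit 76) (nat_lit 333983484770) (nat_lit 1) (nat_lit 4) (nat_lit 2) (nat_lit 5) (nat_lit 2) (nat_lit 4) (nat_lit 513) (nat_lit 367) (nat_lit 320))))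 (XT.nd (nat_lit 78) (nat_lit 0) (nat_lit 0) (XT.lf (nat_lit 0) (nat_lit 3751401695715) (nat_lit 76) (nat_lit 359472001418) (nat_lit 76) (nat_lit 358765041145) (nat_lit 1) (nat_lit 4) (nat_lit 2) (nat_lit 5) (nat_lit 2) (nat_lit 4) (nat_lit 514) (nat_lit 367) (nat_lit 319)) (XT.nd (nat_lit 78) (nat_lit 0) (nat_lit 0) (XT.lf (nat_lit 0) (nat_lit 4055281466037) (nat_lit 76) (nat_lit 386244686524) (nat_lit 76) (nat_lit 385536390707) (nat_lit 1) (nat_lit 4) (nat_lit 2) (nat_lit 5) (nat_lit 2) (nat_lit 4) (nat_lit 515) (nat_lit 367) (nat_lit 318)) (XT.lf (nat_lit 0) (nat_lit 4383458861937) (nat_lit 76) (nat_lit 415165710923) (nat_lit 76) (nat_lit 414456178491) (nat_lit 1) (nat_lit 4) (nat_lit 2) (nat_lit 5) (nat_lit 2) (nat_lit 4) (nat_lit 516) (nat_lit 367) (nat_lit 317))))) (XT.nd (nat_lit 234) (nat_lit 0) (nat_lit 0) (XT.nd (nat_lit 78) (nat_lit 0) (nat_lit 0) (XT.lf (nat_lit 0) (nat_lit 4737878638354)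 (nat_lit 76) (nat_lit 446406458461) (nat_lit 76) (nat_lit 445695781017) (nat_lit 1) (nat_lit 4) (nat_lit 2) (nat_lit 5) (nat_lit 2) (nat_lit 4) (nat_lit 517) (nat_lit 367) (nat_lit 316)) (XT.nd (nat_lit 78) (nat_lit 0) (nat_lit 0) (XT.lf (nat_lit 0) (nat_lit 5120641060629) (nat_lit 76) (nat_lit 480152059497) (nat_lit 76) (nat_lit 479440321855) (nat_lit 1) (nat_lit 4) (nat_lit 2) (nat_lit 5) (nat_lit 2) (nat_lit 4) (nat_lit 518) (nat_lit 367) (nat_lit 315)) (XT.lf (nat_lit 0) (nat_lit 5534014350524) (nat_lit 76) (nat_lit 516602487960) (nat_lit 76) (nat_lit 515889768654) (nat_lit 1) (nat_lit 4) (nat_lit 2) (nat_lit 5) (nat_lit 2) (nat_lit 4) (nat_lit 519) (nat_lit 367) (nat_lit 314)))) (XT.nd (nat_lit 78) (nat_lit 0) (nat_lit 0) (XT.lf (nat_lit 0) (nat_lit 5980448127534) (nat_lit 76) (nat_lit 555973746391) (nat_lit 76) (nat_lit 555260118137) (nat_lit 1) (nat_lit 4) (nat_lit 2) (nat_lit 5)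 (nat_lit 2) (nat_lit 4) (nat_lit 520) (nat_lit 367) (nat_lit 313)) (XT.nd (nat_lit 78) (nat_lit 0) (nat_lit 0) (XT.lf (nat_lit 0) (nat_lit 6462587925153) (nat_lit 76) (nat_lit 598499145951) (nat_lit 76) (nat_lit 597784676077) (nat_lit 1) (nat_lit 4) (nat_lit 2) (nat_lit 5) (nat_lit 2) (nat_lit 4) (nat_lit 521) (nat_lit 367) (nat_lit 312)) (XT.lf (nat_lit 0) (nat_lit 6983290868107) (nat_lit 76) (nat_lit 644430689007) (nat_lit 76) (nat_lit 643715439857) (nat_lit 1) (nat_lit 4) (nat_lit 2) (nat_lit 5) (nat_lit 2) (nat_lit 4) (nat_lit 522) (nat_lit 367) (nat_lit 311))))))))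
noncomputable def xc24 : XT := (XT.nd (nat_lit 58968) (nat_lit 0) (nat_lit 0) (XT.nd (nat_lit 58110) (nat_lit 0) (nat_lit 0) (XT.nd (nat_lit 390) (nat_lit 0) (nat_lit 0) (XT.nd (nat_lit 156) (nat_lit 0) (nat_lit 0) (XT.nd (nat_lit 78) (nat_lit 0) (nat_lit 0) (XT.lf (nat_lit 0) (nat_lit 7545642603466) (nat_lit 76) (nat_lit 694040562481) (nat_lit 76) (nat_lit 693324591778) (nat_lit 1) (nat_lit 4) (nat_lit 2) (nat_lit 5) (nat_lit 2) (nat_lit 4) (nat_lit 523) (nat_lit 367) (nat_lit 310)) (XT.lf (nat_lit 0) (nat_lit 8152975585959) (nat_lit 76) (nat_lit 747622750809) (nat_lit 76) (nat_lit 746906112002) (nat_lit 1) (nat_lit 4) (nat_lit 2) (nat_lit 5) (nat_lit 2) (nat_lit 4) (nat_lit 524) (nat_lit 367) (nat_lit 309))) (XT.nd (nat_lit 78) (nat_lit 0) (nat_lit 0) (XT.lf (nat_lit 0) (nat_lit 8808888825850) (nat_lit 76) (nat_lit 805494778069) (nat_lit 76) (nat_lit 804777520647) (nat_lit 1) (nat_lit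 4) (nat_lit 2) (nat_lit 5) (nat_lit 2) (nat_lit 4) (nat_lit 525) (nat_lit 367) (nat_lit 308)) (XT.nd (nat_lit 78) (nat_lit 0) (nat_lit 0) (XT.lf (nat_lit 0) (nat_lit 9517269216415) (nat_lit 76) (nat_lit 867999589609) (nat_lit 76) (nat_lit 867281759394) (nat_lit 1) (nat_lit 4) (nat_lit 2) (nat_lit 5) (nat_lit 2) (nat_lit 4) (nat_lit 526) (nat_lit 367) (nat_lit 307)) (XT.lf (nat_lit 0) (nat_lit 10282314567374) (nat_lit 76) (nat_lit 935507584311) (nat_lit 76) (nat_lit 934789223734) (nat_lit 1) (nat_lit 4) (nat_lit 2) (nat_lit 5) (nat_lit 2) (nat_lit 4) (nat_lit 527) (nat_lit 367) (nat_lit 306))))) (XT.nd (nat_lit 57486) (nat_lit 0) (nat_lit 0) (XT.nd (nat_lit 78) (nat_lit 0) (nat_lit 0) (XT.lf (nat_lit 0) (nat_lit 11108558480809) (nat_lit 76) (nat_lit 1008418809551) (nat_lit 76) (nat_lit 1007699957897) (nat_lit 1) (nat_lit 4) (nat_lit 2) (nat_lit 5) (nat_lit 2) (nat_lit 4) (nat_lit 528) (nat_lit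 367) (nat_lit 305)) (XT.nd (nat_lit 78) (nat_lit 0) (nat_lit 0) (XT.lf (nat_lit 0) (nat_lit 12000897216945) (nat_lit 76) (nat_lit 1087165331850) (nat_lit 76) (nat_lit 1086446025496) (nat_lit 1) (nat_lit 4) (nat_lit 2) (nat_lit 5) (nat_lit 2) (nat_lit 4) (nat_lit 529) (nat_lit 367) (nat_lit 304)) (XT.lf (nat_lit 0) (nat_lit 12964618709035) (nat_lit 76) (nat_lit 1172213797265) (nat_lit 76) (nat_lit 1171494069892) (nat_lit 1) (nat_lit 4) (nat_lit 2) (nat_lit 5) (nat_lit 2) (nat_lit 4) (nat_lit 530) (nat_lit 367) (nat_lit 303)))) (XT.nd (nat_lit 78) (nat_lit 76) (nat_lit 0) (XT.lf (nat_lit 0) (nat_lit 20929964385) (nat_lit 152) (nat_lit 7652054495) (nat_lit 0) (nat_lit 20929964385) (nat_lit 2) (nat_lit 5) (nat_lit 4) (nat_lit 4) (nat_lit 2) (nat_lit 4) (nat_lit 464) (nat_lit 368) (nat_lit 368)) (XT.nd (nat_lit 78) (nat_lit 76) (nat_lit 0) (XT.lf (nat_lit 0) (nat_lit 50423165805) (nat_lit 152)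 (nat_lit 5735236048) (nat_lit 0) (nat_lit 50365166597) (nat_lit 2) (nat_lit 5) (nat_lit 4) (nat_lit 4) (nat_lit 2) (nat_lit 4) (nat_lit 465) (nat_lit 368) (nat_lit 367)) (XT.lf (nat_lit 0) (nat_lit 4287367402) (nat_lit 76) (nat_lit 55229907745) (nat_lit 76) (nat_lit 55118205565) (nat_lit 1) (nat_lit 4) (nat_lit 2) (nat_lit 5) (nat_lit 2) (nat_lit 4) (nat_lit 466) (nat_lit 368) (nat_lit 366)))))) (XT.nd (nat_lit 390) (nat_lit 0) (nat_lit 0) (XT.nd (nat_lit 156) (nat_lit 0) (nat_lit 0) (XT.nd (nat_lit 78) (nat_lit 0) (nat_lit 0) (XT.lf (nat_lit 0) (nat_lit 14925019082) (nat_lit 76) (nat_lit 54320130903) (nat_lit 76) (nat_lit 54158703749) (nat_lit 1) (nat_lit 4) (nat_lit 2) (nat_lit 5) (nat_lit 2) (nat_lit 4) (nat_lit 467) (nat_lit 368) (nat_lit 365)) (XT.lf (nat_lit 0) (nat_lit 25938749561) (nat_lit 76) (nat_lit 53580491574) (nat_lit 76) (nat_lit 53373022779) (nat_lit 1) (nat_lit 4) (nat_lit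 2) (nat_lit 5) (nat_lit 2) (nat_lit 4) (nat_lit 468) (nat_lit 368) (nat_lit 364))) (XT.nd (nat_lit 78) (nat_lit 0) (nat_lit 0) (XT.lf (nat_lit 0) (nat_lit 37393825390) (nat_lit 76) (nat_lit 53006606712) (nat_lit 76) (nat_lit 52756506767) (nat_lit 1) (nat_lit 4) (nat_lit 2) (nat_lit 5) (nat_lit 2) (nat_lit 4) (nat_lit 469) (nat_lit 368) (nat_lit 363)) (XT.nd (nat_lit 78) (nat_lit 0) (nat_lit 0) (XT.lf (nat_lit 0) (nat_lit 49358128500) (nat_lit 76) (nat_lit 52595075517) (nat_lit 76) (nat_lit 52305502284) (nat_lit 1) (nat_lit 4) (nat_lit 2) (nat_lit 5) (nat_lit 2) (nat_lit 4) (nat_lit 470) (nat_lit 368) (nat_lit 362)) (XT.lf (nat_lit 0) (nat_lit 61902558465) (nat_lit 76) (nat_lit 52343459285) (nat_lit 76) (nat_lit 52017336713) (nat_lit 1) (nat_lit 4) (nat_lit 2) (nat_lit 5) (nat_lit 2) (nat_lit 4) (nat_lit 471) (nat_lit 368) (nat_lit 361))))) (XT.nd (nat_lit 234) (nat_lit 0) (nat_lit 0) (XT.nd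 (nat_lit 78) (nat_lit 0) (nat_lit 0) (XT.lf (nat_lit 0) (nat_lit 75101452647) (nat_lit 76) (nat_lit 52250266957) (nat_lit 76) (nat_lit 51890302404) (nat_lit 1) (nat_lit 4) (nat_lit 2) (nat_lit 5) (nat_lit 2) (nat_lit 4) (nat_lit 472) (nat_lit 368) (nat_lit 360)) (XT.nd (nat_lit 78) (nat_lit 0) (nat_lit 0) (XT.lf (nat_lit 0) (nat_lit 89033026715) (nat_lit 76) (nat_lit 52314946284) (nat_lit 76) (nat_lit 51923646562) (nat_lit 1) (nat_lit 4) (nat_lit 2) (nat_lit 5) (nat_lit 2) (nat_lit 4) (nat_lit 473) (nat_lit 368) (nat_lit 359)) (XT.lf (nat_lit 0) (nat_lit 103779838146) (nat_lit 76) (nat_lit 52537880548) (nat_lit 76) (nat_lit 52117566782) (nat_lit 1) (nat_lit 4) (nat_lit 2) (nat_lit 5) (nat_lit 2) (nat_lit 4) (nat_lit 474) (nat_lit 368) (nat_lit 358)))) (XT.nd (nat_lit 78) (nat_lit 0) (nat_lit 0) (XT.lf (nat_lit 0) (nat_lit 119429275452) (nat_lit 76) (nat_lit 52920390843) (nat_lit 76) (nat_lit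 52473212221) (nat_lit 1) (nat_lit 4) (nat_lit 2) (nat_lit 5) (nat_lit 2) (nat_lit 4) (nat_lit 475) (nat_lit 368) (nat_lit 357)) (XT.nd (nat_lit 78) (nat_lit 0) (nat_lit 0) (XT.lf (nat_lit 0) (nat_lit 136074076039) (nat_lit 76) (nat_lit 53464743896) (nat_lit 76) (nat_lit 52992690408) (nat_lit 1) (nat_lit 4) (nat_lit 2) (nat_lit 5) (nat_lit 2) (nat_lit 4) (nat_lit 476) (nat_lit 368) (nat_lit 356)) (XT.lf (nat_lit 0) (nat_lit 153812875763) (nat_lit 76) (nat_lit 54174165503) (nat_lit 76) (nat_lit 53679079731) (nat_lit 1) (nat_lit 4) (nat_lit 2) (nat_lit 5) (nat_lit 2) (nat_lit 4) (nat_lit 477) (nat_lit 368) (nat_lit 355))))))) (XT.nd (nat_lit 858) (nat_lit 0) (nat_lit 0) (XT.nd (nat_lit 390) (nat_lit 0) (nat_lit 0) (XT.nd (nat_lit 156) (nat_lit 0) (nat_lit 0) (XT.nd (nat_lit 78) (nat_lit 0) (nat_lit 0) (XT.lf (nat_lit 0) (nat_lit 172750793436) (nat_lit 76) (nat_lit 55052859643) (nat_lit 76)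 (nat_lit 54536447683) (nat_lit 1) (nat_lit 4) (nat_lit 2) (nat_lit 5) (nat_lit 2) (nat_lit 4) (nat_lit 478) (nat_lit 368) (nat_lit 354)) (XT.lf (nat_lit 0) (nat_lit 193000053756) (nat_lit 76) (nat_lit 56106033394) (nat_lit 76) (nat_lit 55569874962) (nat_lit 1) (nat_lit 4) (nat_lit 2) (nat_lit 5) (nat_lit 2) (nat_lit 4) (nat_lit 479) (nat_lit 368) (nat_lit 353))) (XT.nd (nat_lit 78) (nat_lit 0) (nat_lit 0) (XT.lf (nat_lit 0) (nat_lit 214680652339) (nat_lit 76) (nat_lit 57339927785) (nat_lit 76) (nat_lit 56785485583) (nat_lit 1) (nat_lit 4) (nat_lit 2) (nat_lit 5) (nat_lit 2) (nat_lit 4) (nat_lit 480) (nat_lit 368) (nat_lit 352)) (XT.nd (nat_lit 78) (nat_lit 0) (nat_lit 0) (XT.lf (nat_lit 0) (nat_lit 237921066808) (nat_lit 76) (nat_lit 58761854782) (nat_lit 76) (nat_lit 58190483164) (nat_lit 1) (nat_lit 4) (nat_lit 2) (nat_lit 5) (nat_lit 2) (nat_lit 4) (nat_lit 481) (nat_lit 368) (nat_lit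 351)) (XT.lf (nat_lit 0) (nat_lit 262859018136) (nat_lit 76) (nat_lit 60380240620) (nat_lit 76) (nat_lit 59793193617) (nat_lit 1) (nat_lit 4) (nat_lit 2) (nat_lit 5) (nat_lit 2) (nat_lit 4) (nat_lit 482) (nat_lit 368) (nat_lit 350))))) (XT.nd (nat_lit 234) (nat_lit 0) (nat_lit 0) (XT.nd (nat_lit 78) (nat_lit 0) (nat_lit 0) (XT.lf (nat_lit 0) (nat_lit 289642286775) (nat_lit 76) (nat_lit 62204675733) (nat_lit 76) (nat_lit 61603114484) (nat_lit 1) (nat_lit 4) (nat_lit 2) (nat_lit 5) (nat_lit 2) (nat_lit 4) (nat_lit 483) (nat_lit 368) (nat_lit 349)) (XT.nd (nat_lit 78) (nat_lit 0) (nat_lit 0) (XT.lf (nat_lit 0) (nat_lit 318429588393) (nat_lit 76) (nat_lit 64245971589) (nat_lit 76) (nat_lit 63630971224) (nat_lit 1) (nat_lit 4) (nat_lit 2) (nat_lit 5) (nat_lit 2) (nat_lit 4) (nat_lit 484) (nat_lit 368) (nat_lit 348)) (XT.lf (nat_lit 0) (nat_lit 349391514405) (nat_lit 76) (nat_lit 66516224755)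 (nat_lit 76) (nat_lit 65888780764) (nat_lit 1) (nat_lit 4) (nat_lit 2) (nat_lit 5) (nat_lit 2) (nat_lit 4) (nat_lit 485) (nat_lit 368) (nat_lit 347)))) (XT.nd (nat_lit 78) (nat_lit 0) (nat_lit 0) (XT.lf (nat_lit 0) (nat_lit 382711542892) (nat_lit 76) (nat_lit 69028888584) (nat_lit 76) (nat_lit 68389922716) (nat_lit 1) (nat_lit 4) (nat_lit 2) (nat_lit 5) (nat_lit 2) (nat_lit 4) (nat_lit 486) (nat_lit 368) (nat_lit 346)) (XT.nd (nat_lit 78) (nat_lit 0) (nat_lit 0) (XT.lf (nat_lit 0) (nat_lit 418587125875) (nat_lit 76) (nat_lit 71798852935) (nat_lit 76) (nat_lit 71149218664) (nat_lit 1) (nat_lit 4) (nat_lit 2) (nat_lit 5) (nat_lit 2) (nat_lit 4) (nat_lit 487) (nat_lit 368) (nat_lit 345)) (XT.lf (nat_lit 0) (nat_lit 457230859400) (nat_lit 76) (nat_lit 74842532413) (nat_lit 76) (nat_lit 74183019990) (nat_lit 1) (nat_lit 4) (nat_lit 2) (nat_lit 5) (nat_lit 2) (nat_lit 4) (nat_lit 488) (nat_lit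 368) (nat_lit 344)))))) (XT.nd (nat_lit 468) (nat_lit 0) (nat_lit 0) (XT.nd (nat_lit 234) (nat_lit 0) (nat_lit 0) (XT.nd (nat_lit 78) (nat_lit 0) (nat_lit 0) (XT.lf (nat_lit 0) (nat_lit 498871743371) (nat_lit 76) (nat_lit 78177963635) (nat_lit 76) (nat_lit 77509304775) (nat_lit 1) (nat_lit 4) (nat_lit 2) (nat_lit 5) (nat_lit 2) (nat_lit 4) (nat_lit 489) (nat_lit 368) (nat_lit 343)) (XT.nd (nat_lit 78) (nat_lit 0) (nat_lit 0) (XT.lf (nat_lit 0) (nat_lit 543756538581) (nat_lit 76) (nat_lit 81824912121) (nat_lit 76) (nat_lit 81147784338) (nat_lit 1) (nat_lit 4) (nat_lit 2) (nat_lit 5) (nat_lit 2) (nat_lit 4) (nat_lit 490) (nat_lit 368) (nat_lit 342)) (XT.lf (nat_lit 0) (nat_lit 592151229001) (nat_lit 76) (nat_lit 85804989417) (nat_lit 76) (nat_lit 85120020039) (nat_lit 1) (nat_lit 4) (nat_lit 2) (nat_lit 5) (nat_lit 2) (nat_lit 4) (nat_lit 491) (nat_lit 368) (nat_lit 341)))) (XT.nd (nat_lit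 78) (nat_lit 0) (nat_lit 0) (XT.lf (nat_lit 0) (nat_lit 644342597983) (nat_lit 76) (nat_lit 90141781167) (nat_lit 76) (nat_lit 89449551052) (nat_lit 1) (nat_lit 4) (nat_lit 2) (nat_lit 5) (nat_lit 2) (nat_lit 4) (nat_lit 492) (nat_lit 368) (nat_lit 340)) (XT.nd (nat_lit 78) (nat_lit 0) (nat_lit 0) (XT.lf (nat_lit 0) (nat_lit 700639927713) (nat_lit 76) (nat_lit 94860986876) (nat_lit 76) (nat_lit 94162033857) (nat_lit 1) (nat_lit 4) (nat_lit 2) (nat_lit 5) (nat_lit 2) (nat_lit 4) (nat_lit 493) (nat_lit 368) (nat_lit 339)) (XT.lf (nat_lit 0) (nat_lit 761376831996) (nat_lit 76) (nat_lit 99990572209) (nat_lit 76) (nat_lit 99285394279) (nat_lit 1) (nat_lit 4) (nat_lit 2) (nat_lit 5) (nat_lit 2) (nat_lit 4) (nat_lit 494) (nat_lit 368) (nat_lit 338))))) (XT.nd (nat_lit 234) (nat_lit 0) (nat_lit 0) (XT.nd (nat_lit 78) (nat_lit 0) (nat_lit 0) (XT.lf (nat_lit 0) (nat_lit 826913233229) (nat_lit 76)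 (nat_lit 105560934708) (nat_lit 76) (nat_lit 104849992971) (nat_lit 1) (nat_lit 4) (nat_lit 2) (nat_lit 5) (nat_lit 2) (nat_lit 4) (nat_lit 495) (nat_lit 368) (nat_lit 337)) (XT.nd (nat_lit 78) (nat_lit 0) (nat_lit 0) (XT.lf (nat_lit 0) (nat_lit 897637495271) (nat_lit 76) (nat_lit 111605083929) (nat_lit 76) (nat_lit 110888805334) (nat_lit 1) (nat_lit 4) (nat_lit 2) (nat_lit 5) (nat_lit 2) (nat_lit 4) (nat_lit 496) (nat_lit 368) (nat_lit 336)) (XT.lf (nat_lit 0) (nat_lit 973968724859) (nat_lit 76) (nat_lit 118158837051) (nat_lit 76) (nat_lit 117437616922) (nat_lit 1) (nat_lit 4) (nat_lit 2) (nat_lit 5) (nat_lit 2) (nat_lit 4) (nat_lit 497) (nat_lit 368) (nat_lit 335)))) (XT.nd (nat_lit 78) (nat_lit 0) (nat_lit 0) (XT.lf (nat_lit 0) (nat_lit 1056359255206) (nat_lit 76) (nat_lit 125261031132) (nat_lit 76) (nat_lit 124535235507) (nat_lit 1) (nat_lit 4) (nat_lit 2) (nat_lit 5) (nat_lit 2) (nat_lit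 4) (nat_lit 498) (nat_lit 368) (nat_lit 334)) (XT.nd (nat_lit 78) (nat_lit 0) (nat_lit 0) (XT.lf (nat_lit 0) (nat_lit 1145297326492) (nat_lit 76) (nat_lit 132953753247) (nat_lit 76) (nat_lit 132223721051) (nat_lit 1) (nat_lit 4) (nat_lit 2) (nat_lit 5) (nat_lit 2) (nat_lit 4) (nat_lit 499) (nat_lit 368) (nat_lit 333)) (XT.lf (nat_lit 0) (nat_lit 1241309979140) (nat_lit 76) (nat_lit 141282589896) (nat_lit 76) (nat_lit 140548634951) (nat_lit 1) (nat_lit 4) (nat_lit 2) (nat_lit 5) (nat_lit 2) (nat_lit 4) (nat_lit 500) (nat_lit 368) (nat_lit 332))))))))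
noncomputable def xc25 : XT := (XT.nd (nat_lit 1716) (nat_lit 0) (nat_lit 0) (XT.nd (nat_lit 858) (nat_lit 0) (nat_lit 0) (XT.nd (nat_lit 390) (nat_lit 0) (nat_lit 0) (XT.nd (nat_lit 156) (nat_lit 0) (nat_lit 0) (XT.nd (nat_lit 78) (nat_lit 0) (nat_lit 0) (XT.lf (nat_lit 0) (nat_lit 1344966177016) (nat_lit 76) (nat_lit 150296897150) (nat_lit 76) (nat_lit 149559310029) (nat_lit 1) (nat_lit 4) (nat_lit 2) (nat_lit 5) (nat_lit 2) (nat_lit 4) (nat_lit 501) (nat_lit 368) (nat_lit 331)) (XT.lf (nat_lit 0) (nat_lit 1456880179072) (nat_lit 76) (nat_lit 160050093126) (nat_lit 76) (nat_lit 159309142879) (nat_lit 1) (nat_lit 4) (nat_lit 2) (nat_lit 5) (nat_lit 2) (nat_lit 4) (nat_lit 502) (nat_lit 368) (nat_lit 330))) (XT.nd (nat_lit 78) (nat_lit 0) (nat_lit 0) (XT.lf (nat_lit 0) (nat_lit 1577715179392) (nat_lit 76) (nat_lit 170599974539) (nat_lit 76) (nat_lit 169855910287) (nat_lit 1) (nat_lit 4)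 (nat_lit 2) (nat_lit 5) (nat_lit 2) (nat_lit 4) (nat_lit 503) (nat_lit 368) (nat_lit 329)) (XT.nd (nat_lit 78) (nat_lit 0) (nat_lit 0) (XT.lf (nat_lit 0) (nat_lit 1708187237240) (nat_lit 76) (nat_lit 182009059207) (nat_lit 76) (nat_lit 181262111616) (nat_lit 1) (nat_lit 4) (nat_lit 2) (nat_lit 5) (nat_lit 2) (nat_lit 4) (nat_lit 504) (nat_lit 368) (nat_lit 328)) (XT.lf (nat_lit 0) (nat_lit 1849069520365) (nat_lit 76) (nat_lit 194344956519) (nat_lit 76) (nat_lit 193595339171) (nat_lit 1) (nat_lit 4) (nat_lit 2) (nat_lit 5) (nat_lit 2) (nat_lit 4) (nat_lit 505) (nat_lit 368) (nat_lit 327))))) (XT.nd (nat_lit 234) (nat_lit 0) (nat_lit 0) (XT.nd (nat_lit 78) (nat_lit 0) (nat_lit 0) (XT.lf (nat_lit 0) (nat_lit 2001196886740) (nat_lit 76) (nat_lit 207680768090) (nat_lit 76) (nat_lit 206928678743) (nat_lit 1) (nat_lit 4) (nat_lit 2) (nat_lit 5) (nat_lit 2) (nat_lit 4) (nat_lit 506) (nat_lit 368)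 (nat_lit 326)) (XT.nd (nat_lit 78) (nat_lit 0) (nat_lit 0) (XT.lf (nat_lit 0) (nat_lit 2165470831871) (nat_lit 76) (nat_lit 222095520950) (nat_lit 76) (nat_lit 221341142717) (nat_lit 1) (nat_lit 4) (nat_lit 2) (nat_lit 5) (nat_lit 2) (nat_lit 4) (nat_lit 507) (nat_lit 368) (nat_lit 325)) (XT.lf (nat_lit 0) (nat_lit 2342864830987) (nat_lit 76) (nat_lit 237674635858) (nat_lit 76) (nat_lit 236918138285) (nat_lit 1) (nat_lit 4) (nat_lit 2) (nat_lit 5) (nat_lit 2) (nat_lit 4) (nat_lit 508) (nat_lit 368) (nat_lit 324)))) (XT.nd (nat_lit 78) (nat_lit 0) (nat_lit 0) (XT.lf (nat_lit 0) (nat_lit 2534430107788) (nat_lit 76) (nat_lit 254510433495) (nat_lit 76) (nat_lit 253751973570) (nat_lit 1) (nat_lit 4) (nat_lit 2) (nat_lit 5) (nat_lit 2) (nat_lit 4) (nat_lit 509) (nat_lit 368) (nat_lit 323)) (XT.nd (nat_lit 78) (nat_lit 0) (nat_lit 0) (XT.lf (nat_lit 0) (nat_lit 2741301863913) (nat_lit 76) (nat_lit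 272702681550) (nat_lit 76) (nat_lit 271942404633) (nat_lit 1) (nat_lit 4) (nat_lit 2) (nat_lit 5) (nat_lit 2) (nat_lit 4) (nat_lit 510) (nat_lit 368) (nat_lit 322)) (XT.lf (nat_lit 0) (nat_lit 2964706006066) (nat_lit 76) (nat_lit 292359185937) (nat_lit 76) (nat_lit 291597226620) (nat_lit 1) (nat_lit 4) (nat_lit 2) (nat_lit 5) (nat_lit 2) (nat_lit 4) (nat_lit 511) (nat_lit 368) (nat_lit 321)))))) (XT.nd (nat_lit 390) (nat_lit 0) (nat_lit 0) (XT.nd (nat_lit 156) (nat_lit 0) (nat_lit 0) (XT.nd (nat_lit 78) (nat_lit 0) (nat_lit 0) (XT.lf (nat_lit 0) (nat_lit 3205966410644) (nat_lit 76) (nat_lit 313596429646) (nat_lit 76) (nat_lit 312832912551) (nat_lit 1) (nat_lit 4) (nat_lit 2) (nat_lit 5) (nat_lit 2) (nat_lit 4) (nat_lit 512) (nat_lit 368) (nat_lit 320)) (XT.lf (nat_lit 0) (nat_lit 3466512768934) (nat_lit 76) (nat_lit 336540263009) (nat_lit 76) (nat_lit 335775303527) (nat_lit 1) (nat_lit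 4) (nat_lit 2) (nat_lit 5) (nat_lit 2) (nat_lit 4) (nat_lit 513) (nat_lit 368) (nat_lit 319))) (XT.nd (nat_lit 78) (nat_lit 0) (nat_lit 0) (XT.lf (nat_lit 0) (nat_lit 3747889059356) (nat_lit 76) (nat_lit 361326649485) (nat_lit 76) (nat_lit 360560354459) (nat_lit 1) (nat_lit 4) (nat_lit 2) (nat_lit 5) (nat_lit 2) (nat_lit 4) (nat_lit 514) (nat_lit 368) (nat_lit 318)) (XT.nd (nat_lit 78) (nat_lit 0) (nat_lit 0) (XT.lf (nat_lit 0) (nat_lit 4051762696963) (nat_lit 76) (nat_lit 388102471362) (nat_lit 76) (nat_lit 387334939722) (nat_lit 1) (nat_lit 4) (nat_lit 2) (nat_lit 5) (nat_lit 2) (nat_lit 4) (nat_lit 515) (nat_lit 368) (nat_lit 317)) (XT.lf (nat_lit 0) (nat_lit 4379934414423) (nat_lit 76) (nat_lit 417026400178) (nat_lit 76) (nat_lit 416257723524) (nat_lit 1) (nat_lit 4) (nat_lit 2) (nat_lit 5) (nat_lit 2) (nat_lit 4) (nat_lit 516) (nat_lit 368) (nat_lit 316))))) (XT.nd (nat_lit 234) (nat_lit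 0) (nat_lit 0) (XT.nd (nat_lit 78) (nat_lit 0) (nat_lit 0) (XT.lf (nat_lit 0) (nat_lit 4734348933025) (nat_lit 76) (nat_lit 448269836992) (nat_lit 76) (nat_lit 447500100141) (nat_lit 1) (nat_lit 4) (nat_lit 2) (nat_lit 5) (nat_lit 2) (nat_lit 4) (nat_lit 517) (nat_lit 368) (nat_lit 315)) (XT.nd (nat_lit 78) (nat_lit 0) (nat_lit 0) (XT.lf (nat_lit 0) (nat_lit 5117106486952) (nat_lit 76) (nat_lit 482017928097) (nat_lit 76) (nat_lit 481247209582) (nat_lit 1) (nat_lit 4) (nat_lit 2) (nat_lit 5) (nat_lit 2) (nat_lit 4) (nat_lit 518) (nat_lit 368) (nat_lit 314)) (XT.lf (nat_lit 0) (nat_lit 5530475269118) (nat_lit 76) (nat_lit 518470662181) (nat_lit 76) (nat_lit 517699034718) (nat_lit 1) (nat_lit 4) (nat_lit 2) (nat_lit 5) (nat_lit 2) (nat_lit 4) (nat_lit 519) (nat_lit 368) (nat_lit 313)))) (XT.nd (nat_lit 78) (nat_lit 0) (nat_lit 0) (XT.lf (nat_lit 0) (nat_lit 5976904872305) (nat_lit 76) (nat_lit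 557844055446) (nat_lit 76) (nat_lit 557071586363) (nat_lit 1) (nat_lit 4) (nat_lit 2) (nat_lit 5) (nat_lit 2) (nat_lit 4) (nat_lit 520) (nat_lit 368) (nat_lit 312)) (XT.nd (nat_lit 78) (nat_lit 0) (nat_lit 0) (XT.lf (nat_lit 0) (nat_lit 6459040805273) (nat_lit 76) (nat_lit 600371431704) (nat_lit 76) (nat_lit 599598183344) (nat_lit 1) (nat_lit 4) (nat_lit 2) (nat_lit 5) (nat_lit 2) (nat_lit 4) (nat_lit 521) (nat_lit 368) (nat_lit 311)) (XT.lf (nat_lit 0) (nat_lit 6979740169847) (nat_lit 76) (nat_lit 646304805036) (nat_lit 76) (nat_lit 645530835123) (nat_lit 1) (nat_lit 4) (nat_lit 2) (nat_lit 5) (nat_lit 2) (nat_lit 4) (nat_lit 522) (nat_lit 368) (nat_lit 310))))))) (XT.nd (nat_lit 57954) (nat_lit 0) (nat_lit 0) (XT.nd (nat_lit 390) (nat_lit 0) (nat_lit 0) (XT.nd (nat_lit 156) (nat_lit 0) (nat_lit 0) (XT.nd (nat_lit 78) (nat_lit 0) (nat_lit 0) (XT.lf (nat_lit 0) (nat_lit 7542088591891) (nat_lit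 76) (nat_lit 695916373210) (nat_lit 76) (nat_lit 695141735193) (nat_lit 1) (nat_lit 4) (nat_lit 2) (nat_lit 5) (nat_lit 2) (nat_lit 4) (nat_lit 523) (nat_lit 368) (nat_lit 309)) (XT.lf (nat_lit 0) (nat_lit 8149418506499) (nat_lit 76) (nat_lit 749500130704) (nat_lit 76) (nat_lit 748724874072) (nat_lit 1) (nat_lit 4) (nat_lit 2) (nat_lit 5) (nat_lit 2) (nat_lit 4) (nat_lit 524) (nat_lit 368) (nat_lit 308))) (XT.nd (nat_lit 78) (nat_lit 0) (nat_lit 0) (XT.lf (nat_lit 0) (nat_lit 8805328905756) (nat_lit 76) (nat_lit 807373610896) (nat_lit 76) (nat_lit 806597781473) (nat_lit 1) (nat_lit 4) (nat_lit 2) (nat_lit 5) (nat_lit 2) (nat_lit 4) (nat_lit 525) (nat_lit 368) (nat_lit 307)) (XT.nd (nat_lit 78) (nat_lit 0) (nat_lit 0) (XT.lf (nat_lit 0) (nat_lit 9513706666105) (nat_lit 76) (nat_lit 869879767743) (nat_lit 76) (nat_lit 869103407957) (nat_lit 1) (nat_lit 4) (nat_lit 2) (nat_lit 5) (nat_lit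 2) (nat_lit 4) (nat_lit 526) (nat_lit 368) (nat_lit 306)) (XT.lf (nat_lit 0) (nat_lit 10278749581678) (nat_lit 76) (nat_lit 937389008100) (nat_lit 76) (nat_lit 936612157237) (nat_lit 1) (nat_lit 4) (nat_lit 2) (nat_lit 5) (nat_lit 2) (nat_lit 4) (nat_lit 527) (nat_lit 368) (nat_lit 305))))) (XT.nd (nat_lit 57330) (nat_lit 0) (nat_lit 76) (XT.nd (nat_lit 78) (nat_lit 0) (nat_lit 0) (XT.lf (nat_lit 0) (nat_lit 11104991240126) (nat_lit 76) (nat_lit 1010301386724) (nat_lit 76) (nat_lit 1009524081161) (nat_lit 1) (nat_lit 4) (nat_lit 2) (nat_lit 5) (nat_lit 2) (nat_lit 4) (nat_lit 528) (nat_lit 368) (nat_lit 304)) (XT.nd (nat_lit 78) (nat_lit 0) (nat_lit 0) (XT.lf (nat_lit 0) (nat_lit 11997327888312) (nat_lit 76) (nat_lit 1089048976971) (nat_lit 76) (nat_lit 1088271250389) (nat_lit 1) (nat_lit 4) (nat_lit 2) (nat_lit 5) (nat_lit 2) (nat_lit 4) (nat_lit 529) (nat_lit 368) (nat_lit 303)) (XT.lf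 (nat_lit 0) (nat_lit 12961047447114) (nat_lit 76) (nat_lit 1174098431228) (nat_lit 76) (nat_lit 1173320314813) (nat_lit 1) (nat_lit 4) (nat_lit 2) (nat_lit 5) (nat_lit 2) (nat_lit 4) (nat_lit 530) (nat_lit 368) (nat_lit 302)))) (XT.nd (nat_lit 78) (nat_lit 0) (nat_lit 0) (XT.lf (nat_lit 0) (nat_lit 13011457704) (nat_lit 152) (nat_lit 16827354227) (nat_lit 0) (nat_lit 13011457704) (nat_lit 2) (nat_lit 5) (nat_lit 4) (nat_lit 4) (nat_lit 2) (nat_lit 4) (nat_lit 462) (nat_lit 369) (nat_lit 369)) (XT.nd (nat_lit 78) (nat_lit 0) (nat_lit 0) (XT.lf (nat_lit 0) (nat_lit 33736346793) (nat_lit 152) (nat_lit 24690427336) (nat_lit 0) (nat_lit 33673707647) (nat_lit 2) (nat_lit 5) (nat_lit 4) (nat_lit 4) (nat_lit 2) (nat_lit 4) (nat_lit 463) (nat_lit 369) (nat_lit 368)) (XT.lf (nat_lit 0) (nat_lit 41788970907) (nat_lit 152) (nat_lit 15577354602) (nat_lit 0) (nat_lit 41668332553) (nat_lit 2) (nat_lit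 5) (nat_lit 4) (nat_lit 4) (nat_lit 2) (nat_lit 4) (nat_lit 464) (nat_lit 369) (nat_lit 367)))))) (XT.nd (nat_lit 468) (nat_lit 0) (nat_lit 0) (XT.nd (nat_lit 234) (nat_lit 0) (nat_lit 0) (XT.nd (nat_lit 78) (nat_lit 76) (nat_lit 0) (XT.lf (nat_lit 0) (nat_lit 50228507007) (nat_lit 152) (nat_lit 6261486856) (nat_lit 0) (nat_lit 50054165681) (nat_lit 2) (nat_lit 5) (nat_lit 4) (nat_lit 4) (nat_lit 2) (nat_lit 4) (nat_lit 465) (nat_lit 369) (nat_lit 366)) (XT.nd (nat_lit 78) (nat_lit 0) (nat_lit 0) (XT.lf (nat_lit 0) (nat_lit 3486805158) (nat_lit 76) (nat_lit 55702019746) (nat_lit 76) (nat_lit 55477953447) (nat_lit 1) (nat_lit 4) (nat_lit 2) (nat_lit 5) (nat_lit 2) (nat_lit 4) (nat_lit 466) (nat_lit 369) (nat_lit 365)) (XT.lf (nat_lit 0) (nat_lit 13896123504) (nat_lit 76) (nat_lit 54909031203) (nat_lit 76) (nat_lit 54638923262) (nat_lit 1) (nat_lit 4) (nat_lit 2) (nat_lit 5) (nat_lit 2) (nat_lit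 4) (nat_lit 467) (nat_lit 369) (nat_lit 364)))) (XT.nd (nat_lit 78) (nat_lit 0) (nat_lit 0) (XT.lf (nat_lit 0) (nat_lit 24698434229) (nat_lit 76) (nat_lit 54277529188) (nat_lit 76) (nat_lit 53964790097) (nat_lit 1) (nat_lit 4) (nat_lit 2) (nat_lit 5) (nat_lit 2) (nat_lit 4) (nat_lit 468) (nat_lit 369) (nat_lit 363)) (XT.nd (nat_lit 78) (nat_lit 0) (nat_lit 0) (XT.lf (nat_lit 0) (nat_lit 35957751027) (nat_lit 76) (nat_lit 53803771468) (nat_lit 76) (nat_lit 53451559090) (nat_lit 1) (nat_lit 4) (nat_lit 2) (nat_lit 5) (nat_lit 2) (nat_lit 4) (nat_lit 469) (nat_lit 369) (nat_lit 362)) (XT.lf (nat_lit 0) (nat_lit 47740795774) (nat_lit 76) (nat_lit 53484950589) (nat_lit 76) (nat_lit 53096188872) (nat_lit 1) (nat_lit 4) (nat_lit 2) (nat_lit 5) (nat_lit 2) (nat_lit 4) (nat_lit 470) (nat_lit 369) (nat_lit 361))))) (XT.nd (nat_lit 234) (nat_lit 0) (nat_lit 0) (XT.nd (nat_lit 78) (nat_lit 0) (nat_lit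 0) (XT.lf (nat_lit 0) (nat_lit 60117393921) (nat_lit 76) (nat_lit 53319177244) (nat_lit 76) (nat_lit 52896573545) (nat_lit 1) (nat_lit 4) (nat_lit 2) (nat_lit 5) (nat_lit 2) (nat_lit 4) (nat_lit 471) (nat_lit 369) (nat_lit 360)) (XT.nd (nat_lit 78) (nat_lit 0) (nat_lit 0) (XT.lf (nat_lit 0) (nat_lit 73160888272) (nat_lit 76) (nat_lit 53305469070) (nat_lit 76) (nat_lit 52851530203) (nat_lit 1) (nat_lit 4) (nat_lit 2) (nat_lit 5) (nat_lit 2) (nat_lit 4) (nat_lit 472) (nat_lit 369) (nat_lit 359)) (XT.lf (nat_lit 0) (nat_lit 86948573609) (nat_lit 76) (nat_lit 53443744835) (nat_lit 76) (nat_lit 52960791923) (nat_lit 1) (nat_lit 4) (nat_lit 2) (nat_lit 5) (nat_lit 2) (nat_lit 4) (nat_lit 473) (nat_lit 369) (nat_lit 358)))) (XT.nd (nat_lit 78) (nat_lit 0) (nat_lit 0) (XT.lf (nat_lit 0) (nat_lit 101562154732) (nat_lit 76) (nat_lit 53734823950) (nat_lit 76) (nat_lit 53225006182) (nat_lit 1) (nat_lit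 4) (nat_lit 2) (nat_lit 5) (nat_lit 2) (nat_lit 4) (nat_lit 474) (nat_lit 369) (nat_lit 357)) (XT.nd (nat_lit 78) (nat_lit 0) (nat_lit 0) (XT.lf (nat_lit 0) (nat_lit 117088230643) (nat_lit 76) (nat_lit 54180431328) (nat_lit 76) (nat_lit 53645738695) (nat_lit 1) (nat_lit 4) (nat_lit 2) (nat_lit 5) (nat_lit 2) (nat_lit 4) (nat_lit 475) (nat_lit 369) (nat_lit 356)) (XT.lf (nat_lit 0) (nat_lit 133618807715) (nat_lit 76) (nat_lit 54783207607) (nat_lit 76) (nat_lit 54225482690) (nat_lit 1) (nat_lit 4) (nat_lit 2) (nat_lit 5) (nat_lit 2) (nat_lit 4) (nat_lit 476) (nat_lit 369) (nat_lit 355))))))))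
noncomputable def xc26 : XT := (XT.nd (nat_lit 1716) (nat_lit 0) (nat_lit 0) (XT.nd (nat_lit 858) (nat_lit 0) (nat_lit 0) (XT.nd (nat_lit 390) (nat_lit 0) (nat_lit 0) (XT.nd (nat_lit 156) (nat_lit 0) (nat_lit 0) (XT.nd (nat_lit 78) (nat_lit 0) (nat_lit 0) (XT.lf (nat_lit 0) (nat_lit 151251844925) (nat_lit 76) (nat_lit 55546724793) (nat_lit 76) (nat_lit 54967673687) (nat_lit 1) (nat_lit 4) (nat_lit 2) (nat_lit 5) (nat_lit 2) (nat_lit 4) (nat_lit 477) (nat_lit 369) (nat_lit 354)) (XT.lf (nat_lit 0) (nat_lit 170091834345) (nat_lit 76) (nat_lit 56475507434) (nat_lit 76) (nat_lit 55876709856) (nat_lit 1) (nat_lit 4) (nat_lit 2) (nat_lit 5) (nat_lit 2) (nat_lit 4) (nat_lit 478) (nat_lit 369) (nat_lit 353))) (XT.nd (nat_lit 78) (nat_lit 0) (nat_lit 0) (XT.lf (nat_lit 0) (nat_lit 190250420356) (nat_lit 76) (nat_lit 57575059425) (nat_lit 76) (nat_lit 56957978078) (nat_lit 1) (nat_lit 4) (nat_lit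 2) (nat_lit 5) (nat_lit 2) (nat_lit 4) (nat_lit 479) (nat_lit 369) (nat_lit 352)) (XT.nd (nat_lit 78) (nat_lit 0) (nat_lit 0) (XT.lf (nat_lit 0) (nat_lit 211847061246) (nat_lit 76) (nat_lit 58851896630) (nat_lit 76) (nat_lit 58217885867) (nat_lit 1) (nat_lit 4) (nat_lit 2) (nat_lit 5) (nat_lit 2) (nat_lit 4) (nat_lit 480) (nat_lit 369) (nat_lit 351)) (XT.lf (nat_lit 0) (nat_lit 235009737110) (nat_lit 76) (nat_lit 60313585493) (nat_lit 76) (nat_lit 59663899345) (nat_lit 1) (nat_lit 4) (nat_lit 2) (nat_lit 5) (nat_lit 2) (nat_lit 4) (nat_lit 481) (nat_lit 369) (nat_lit 350))))) (XT.nd (nat_lit 234) (nat_lit 0) (nat_lit 0) (XT.nd (nat_lit 78) (nat_lit 0) (nat_lit 0) (XT.lf (nat_lit 0) (nat_lit 259875708248) (nat_lit 76) (nat_lit 61968787874) (nat_lit 76) (nat_lit 61304587479) (nat_lit 1) (nat_lit 4) (nat_lit 2) (nat_lit 5) (nat_lit 2) (nat_lit 4) (nat_lit 482) (nat_lit 369) (nat_lit 349))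 (XT.nd (nat_lit 78) (nat_lit 0) (nat_lit 0) (XT.lf (nat_lit 0) (nat_lit 286592328564) (nat_lit 76) (nat_lit 63827312378) (nat_lit 76) (nat_lit 63149672867) (nat_lit 1) (nat_lit 4) (nat_lit 2) (nat_lit 5) (nat_lit 2) (nat_lit 4) (nat_lit 483) (nat_lit 369) (nat_lit 348)) (XT.lf (nat_lit 0) (nat_lit 315317918770) (nat_lit 76) (nat_lit 65900172485) (nat_lit 76) (nat_lit 65210089348) (nat_lit 1) (nat_lit 4) (nat_lit 2) (nat_lit 5) (nat_lit 2) (nat_lit 4) (nat_lit 484) (nat_lit 369) (nat_lit 347)))) (XT.nd (nat_lit 78) (nat_lit 0) (nat_lit 0) (XT.lf (nat_lit 0) (nat_lit 346222704587) (nat_lit 76) (nat_lit 68199651809) (nat_lit 76) (nat_lit 67498046796) (nat_lit 1) (nat_lit 4) (nat_lit 2) (nat_lit 5) (nat_lit 2) (nat_lit 4) (nat_lit 485) (nat_lit 369) (nat_lit 346)) (XT.nd (nat_lit 78) (nat_lit 0) (nat_lit 0) (XT.lf (nat_lit 0) (nat_lit 379489825486) (nat_lit 76) (nat_lit 70739376896) (nat_lit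 76) (nat_lit 70027103479) (nat_lit 1) (nat_lit 4) (nat_lit 2) (nat_lit 5) (nat_lit 2) (nat_lit 4) (nat_lit 486) (nat_lit 369) (nat_lit 345)) (XT.lf (nat_lit 0) (nat_lit 415316419961) (nat_lit 76) (nat_lit 73534397968) (nat_lit 76) (nat_lit 72812246399) (nat_lit 1) (nat_lit 4) (nat_lit 2) (nat_lit 5) (nat_lit 2) (nat_lit 4) (nat_lit 487) (nat_lit 369) (nat_lit 344)))))) (XT.nd (nat_lit 390) (nat_lit 0) (nat_lit 0) (XT.nd (nat_lit 156) (nat_lit 0) (nat_lit 0) (XT.nd (nat_lit 78) (nat_lit 0) (nat_lit 0) (XT.lf (nat_lit 0) (nat_lit 453914793758) (nat_lit 76) (nat_lit 76601278112) (nat_lit 76) (nat_lit 75869980106) (nat_lit 1) (nat_lit 4) (nat_lit 2) (nat_lit 5) (nat_lit 2) (nat_lit 4) (nat_lit 488) (nat_lit 369) (nat_lit 343)) (XT.lf (nat_lit 0) (nat_lit 495513677979) (nat_lit 76) (nat_lit 79958191433) (nat_lit 76) (nat_lit 79218424505) (nat_lit 1) (nat_lit 4) (nat_lit 2) (nat_lit 5) (nat_lit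 2) (nat_lit 4) (nat_lit 489) (nat_lit 369) (nat_lit 342))) (XT.nd (nat_lit 78) (nat_lit 0) (nat_lit 0) (XT.lf (nat_lit 0) (nat_lit 540359584532) (nat_lit 76) (nat_lit 83625030752) (nat_lit 76) (nat_lit 82877422228) (nat_lit 1) (nat_lit 4) (nat_lit 2) (nat_lit 5) (nat_lit 2) (nat_lit 4) (nat_lit 490) (nat_lit 369) (nat_lit 341)) (XT.nd (nat_lit 78) (nat_lit 0) (nat_lit 0) (XT.lf (nat_lit 0) (nat_lit 588718266937) (nat_lit 76) (nat_lit 87623525485) (nat_lit 76) (nat_lit 86868656225) (nat_lit 1) (nat_lit 4) (nat_lit 2) (nat_lit 5) (nat_lit 2) (nat_lit 4) (nat_lit 491) (nat_lit 369) (nat_lit 340)) (XT.lf (nat_lit 0) (nat_lit 640876295164) (nat_lit 76) (nat_lit 91977370417) (nat_lit 76) (nat_lit 91215778253) (nat_lit 1) (nat_lit 4) (nat_lit 2) (nat_lit 5) (nat_lit 2) (nat_lit 4) (nat_lit 492) (nat_lit 369) (nat_lit 339))))) (XT.nd (nat_lit 234) (nat_lit 0) (nat_lit 0) (XT.nd (nat_lit 78) (nat_lit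 0) (nat_lit 0) (XT.lf (nat_lit 0) (nat_lit 697142753824) (nat_lit 76) (nat_lit 96712366110) (nat_lit 76) (nat_lit 95944549035) (nat_lit 1) (nat_lit 4) (nat_lit 2) (nat_lit 5) (nat_lit 2) (nat_lit 4) (nat_lit 493) (nat_lit 369) (nat_lit 338)) (XT.nd (nat_lit 78) (nat_lit 0) (nat_lit 0) (XT.lf (nat_lit 0) (nat_lit 757851073784) (nat_lit 76) (nat_lit 101856571799) (nat_lit 76) (nat_lit 101082990916) (nat_lit 1) (nat_lit 4) (nat_lit 2) (nat_lit 5) (nat_lit 2) (nat_lit 4) (nat_lit 494) (nat_lit 369) (nat_lit 337)) (XT.lf (nat_lit 0) (nat_lit 823361008050) (nat_lit 76) (nat_lit 107440471664) (nat_lit 76) (nat_lit 106661553924) (nat_lit 1) (nat_lit 4) (nat_lit 2) (nat_lit 5) (nat_lit 2) (nat_lit 4) (nat_lit 495) (nat_lit 369) (nat_lit 336)))) (XT.nd (nat_lit 78) (nat_lit 0) (nat_lit 0) (XT.lf (nat_lit 0) (nat_lit 894060763641) (nat_lit 76) (nat_lit 113497155483) (nat_lit 76) (nat_lit 112713296207)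 (nat_lit 1) (nat_lit 4) (nat_lit 2) (nat_lit 5) (nat_lit 2) (nat_lit 4) (nat_lit 496) (nat_lit 369) (nat_lit 335)) (XT.nd (nat_lit 78) (nat_lit 0) (nat_lit 0) (XT.lf (nat_lit 0) (nat_lit 970369302072) (nat_lit 76) (nat_lit 120062514715) (nat_lit 76) (nat_lit 119274079944) (nat_lit 1) (nat_lit 4) (nat_lit 2) (nat_lit 5) (nat_lit 2) (nat_lit 4) (nat_lit 497) (nat_lit 369) (nat_lit 334)) (XT.lf (nat_lit 0) (nat_lit 1052738822088) (nat_lit 76) (nat_lit 127175455194) (nat_lit 76) (nat_lit 126382783853) (nat_lit 1) (nat_lit 4) (nat_lit 2) (nat_lit 5) (nat_lit 2) (nat_lit 4) (nat_lit 498) (nat_lit 369) (nat_lit 333))))))) (XT.nd (nat_lit 858) (nat_lit 0) (nat_lit 0) (XT.nd (nat_lit 390) (nat_lit 0) (nat_lit 0) (XT.nd (nat_lit 156) (nat_lit 0) (nat_lit 0) (XT.nd (nat_lit 78) (nat_lit 0) (nat_lit 0) (XT.lf (nat_lit 0) (nat_lit 1141657439364) (nat_lit 76) (nat_lit 134878127677) (nat_lit 76) (nat_lit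 134081533586) (nat_lit 1) (nat_lit 4) (nat_lit 2) (nat_lit 5) (nat_lit 2) (nat_lit 4) (nat_lit 499) (nat_lit 369) (nat_lit 332)) (XT.lf (nat_lit 0) (nat_lit 1237652079039) (nat_lit 76) (nat_lit 143216177630) (nat_lit 76) (nat_lit 142415951363) (nat_lit 1) (nat_lit 4) (nat_lit 2) (nat_lit 5) (nat_lit 2) (nat_lit 4) (nat_lit 500) (nat_lit 369) (nat_lit 331))) (XT.nd (nat_lit 78) (nat_lit 0) (nat_lit 0) (XT.lf (nat_lit 0) (nat_lit 1341291598237) (nat_lit 76) (nat_lit 152239015721) (nat_lit 76) (nat_lit 151435426329) (nat_lit 1) (nat_lit 4) (nat_lit 2) (nat_lit 5) (nat_lit 2) (nat_lit 4) (nat_lit 501) (nat_lit 369) (nat_lit 330)) (XT.nd (nat_lit 78) (nat_lit 0) (nat_lit 0) (XT.lf (nat_lit 0) (nat_lit 1453190157072) (nat_lit 76) (nat_lit 162000110620) (nat_lit 76) (nat_lit 161193407222) (nat_lit 1) (nat_lit 4) (nat_lit 2) (nat_lit 5) (nat_lit 2) (nat_lit 4) (nat_lit 502) (nat_lit 369) (nat_lit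 329)) (XT.lf (nat_lit 0) (nat_lit 1574010858114) (nat_lit 76) (nat_lit 172557305851) (nat_lit 76) (nat_lit 171747719115) (nat_lit 1) (nat_lit 4) (nat_lit 2) (nat_lit 5) (nat_lit 2) (nat_lit 4) (nat_lit 503) (nat_lit 369) (nat_lit 328))))) (XT.nd (nat_lit 234) (nat_lit 0) (nat_lit 0) (XT.nd (nat_lit 78) (nat_lit 0) (nat_lit 0) (XT.lf (nat_lit 0) (nat_lit 1704469675889) (nat_lit 76) (nat_lit 183973162572) (nat_lit 76) (nat_lit 183160906078) (nat_lit 1) (nat_lit 4) (nat_lit 2) (nat_lit 5) (nat_lit 2) (nat_lit 4) (nat_lit 504) (nat_lit 369) (nat_lit 327)) (XT.nd (nat_lit 78) (nat_lit 0) (nat_lit 0) (XT.lf (nat_lit 0) (nat_lit 1845339699687) (nat_lit 76) (nat_lit 196315330304) (nat_lit 76) (nat_lit 195500601812) (nat_lit 1) (nat_lit 4) (nat_lit 2) (nat_lit 5) (nat_lit 2) (nat_lit 4) (nat_lit 505) (nat_lit 369) (nat_lit 326)) (XT.lf (nat_lit 0) (nat_lit 1997455714834) (nat_lit 76) (nat_lit 209656947819)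 (nat_lit 76) (nat_lit 208839930440) (nat_lit 1) (nat_lit 4) (nat_lit 2) (nat_lit 5) (nat_lit 2) (nat_lit 4) (nat_lit 506) (nat_lit 369) (nat_lit 325)))) (XT.nd (nat_lit 78) (nat_lit 0) (nat_lit 0) (XT.lf (nat_lit 0) (nat_lit 2161719149569) (nat_lit 76) (nat_lit 224077076554) (nat_lit 76) (nat_lit 223257939836) (nat_lit 1) (nat_lit 4) (nat_lit 2) (nat_lit 5) (nat_lit 2) (nat_lit 4) (nat_lit 507) (nat_lit 369) (nat_lit 324)) (XT.nd (nat_lit 78) (nat_lit 0) (nat_lit 0) (XT.lf (nat_lit 0) (nat_lit 2339103416837) (nat_lit 76) (nat_lit 239661169124) (nat_lit 76) (nat_lit 238840070053) (nat_lit 1) (nat_lit 4) (nat_lit 2) (nat_lit 5) (nat_lit 2) (nat_lit 4) (nat_lit 508) (nat_lit 369) (nat_lit 323)) (XT.lf (nat_lit 0) (nat_lit 2530659682666) (nat_lit 76) (nat_lit 256501575706) (nat_lit 76) (nat_lit 255678659644) (nat_lit 1) (nat_lit 4) (nat_lit 2) (nat_lit 5) (nat_lit 2) (nat_lit 4) (nat_lit 509)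 (nat_lit 369) (nat_lit 322)))))) (XT.nd (nat_lit 468) (nat_lit 0) (nat_lit 0) (XT.nd (nat_lit 234) (nat_lit 0) (nat_lit 0) (XT.nd (nat_lit 78) (nat_lit 0) (nat_lit 0) (XT.lf (nat_lit 0) (nat_lit 2737523095300) (nat_lit 76) (nat_lit 274698091303) (nat_lit 76) (nat_lit 273873492841) (nat_lit 1) (nat_lit 4) (nat_lit 2) (nat_lit 5) (nat_lit 2) (nat_lit 4) (nat_lit 510) (nat_lit 369) (nat_lit 321)) (XT.nd (nat_lit 78) (nat_lit 0) (nat_lit 0) (XT.lf (nat_lit 0) (nat_lit 2960919511998) (nat_lit 76) (nat_lit 294358547119) (nat_lit 76) (nat_lit 293532390878) (nat_lit 1) (nat_lit 4) (nat_lit 2) (nat_lit 5) (nat_lit 2) (nat_lit 4) (nat_lit 511) (nat_lit 369) (nat_lit 320)) (XT.lf (nat_lit 0) (nat_lit 3202172763377) (nat_lit 76) (nat_lit 315599449558) (nat_lit 76) (nat_lit 314771850930) (nat_lit 1) (nat_lit 4) (nat_lit 2) (nat_lit 5) (nat_lit 2) (nat_lit 4) (nat_lit 512) (nat_lit 369) (nat_lit 319))))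 (XT.nd (nat_lit 78) (nat_lit 0) (nat_lit 0) (XT.lf (nat_lit 0) (nat_lit 3462712498334) (nat_lit 76) (nat_lit 338546670634) (nat_lit 76) (nat_lit 337717736463) (nat_lit 1) (nat_lit 4) (nat_lit 2) (nat_lit 5) (nat_lit 2) (nat_lit 4) (nat_lit 513) (nat_lit 369) (nat_lit 318)) (XT.nd (nat_lit 78) (nat_lit 0) (nat_lit 0) (XT.lf (nat_lit 0) (nat_lit 3744082656040) (nat_lit 76) (nat_lit 363336193880) (nat_lit 76) (nat_lit 362506023094) (nat_lit 1) (nat_lit 4) (nat_lit 2) (nat_lit 5) (nat_lit 2) (nat_lit 4) (nat_lit 514) (nat_lit 369) (nat_lit 317)) (XT.lf (nat_lit 0) (nat_lit 4047950615207) (nat_lit 76) (nat_lit 390114920175) (nat_lit 76) (nat_lit 389283604376) (nat_lit 1) (nat_lit 4) (nat_lit 2) (nat_lit 5) (nat_lit 2) (nat_lit 4) (nat_lit 515) (nat_lit 369) (nat_lit 316))))) (XT.nd (nat_lit 234) (nat_lit 0) (nat_lit 0) (XT.nd (nat_lit 78) (nat_lit 0) (nat_lit 0) (XT.lf (nat_lit 0) (nat_lit 4376117074852)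 (nat_lit 76) (nat_lit 419041538266) (nat_lit 76) (nat_lit 418209162270) (nat_lit 1) (nat_lit 4) (nat_lit 2) (nat_lit 5) (nat_lit 2) (nat_lit 4) (nat_lit 516) (nat_lit 369) (nat_lit 315)) (XT.nd (nat_lit 78) (nat_lit 0) (nat_lit 0) (XT.lf (nat_lit 0) (nat_lit 4730526725107) (nat_lit 76) (nat_lit 450287465151) (nat_lit 76) (nat_lit 449454107490) (nat_lit 1) (nat_lit 4) (nat_lit 2) (nat_lit 5) (nat_lit 2) (nat_lit 4) (nat_lit 517) (nat_lit 369) (nat_lit 314)) (XT.lf (nat_lit 0) (nat_lit 5113279771305) (nat_lit 76) (nat_lit 484037861877) (nat_lit 76) (nat_lit 483203595267) (nat_lit 1) (nat_lit 4) (nat_lit 2) (nat_lit 5) (nat_lit 2) (nat_lit 4) (nat_lit 518) (nat_lit 369) (nat_lit 313)))) (XT.nd (nat_lit 78) (nat_lit 0) (nat_lit 0) (XT.lf (nat_lit 0) (nat_lit 5526644379648) (nat_lit 76) (nat_lit 520492730794) (nat_lit 76) (nat_lit 519657622566) (nat_lit 1) (nat_lit 4) (nat_lit 2) (nat_lit 5)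 (nat_lit 2) (nat_lit 4) (nat_lit 519) (nat_lit 369) (nat_lit 312)) (XT.nd (nat_lit 78) (nat_lit 0) (nat_lit 0) (XT.lf (nat_lit 0) (nat_lit 5973070118184) (nat_lit 76) (nat_lit 559868100757) (nat_lit 76) (nat_lit 559032213252) (nat_lit 1) (nat_lit 4) (nat_lit 2) (nat_lit 5) (nat_lit 2) (nat_lit 4) (nat_lit 520) (nat_lit 369) (nat_lit 311)) (XT.lf (nat_lit 0) (nat_lit 6455202472771) (nat_lit 76) (nat_lit 602397307290) (nat_lit 76) (nat_lit 601560698232) (nat_lit 1) (nat_lit 4) (nat_lit 2) (nat_lit 5) (nat_lit 2) (nat_lit 4) (nat_lit 521) (nat_lit 369) (nat_lit 310))))))))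
noncomputable def xc27 : XT := (XT.nd (nat_lit 58734) (nat_lit 0) (nat_lit 0) (XT.nd (nat_lit 57876) (nat_lit 0) (nat_lit 0) (XT.nd (nat_lit 390) (nat_lit 0) (nat_lit 0) (XT.nd (nat_lit 156) (nat_lit 0) (nat_lit 0) (XT.nd (nat_lit 78) (nat_lit 0) (nat_lit 0) (XT.lf (nat_lit 0) (nat_lit 6975898524030) (nat_lit 76) (nat_lit 648332375322) (nat_lit 76) (nat_lit 647495098160) (nat_lit 1) (nat_lit 4) (nat_lit 2) (nat_lit 5) (nat_lit 2) (nat_lit 4) (nat_lit 522) (nat_lit 369) (nat_lit 309)) (XT.lf (nat_lit 0) (nat_lit 7538243878190) (nat_lit 76) (nat_lit 697945512662) (nat_lit 76) (nat_lit 697107616885) (nat_lit 1) (nat_lit 4) (nat_lit 2) (nat_lit 5) (nat_lit 2) (nat_lit 4) (nat_lit 523) (nat_lit 369) (nat_lit 308))) (XT.nd (nat_lit 78) (nat_lit 0) (nat_lit 0) (XT.lf (nat_lit 0) (nat_lit 8145570952163) (nat_lit 76) (nat_lit 751530723089) (nat_lit 76) (nat_lit 750692254520) (nat_lit 1) (nat_lit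 4) (nat_lit 2) (nat_lit 5) (nat_lit 2) (nat_lit 4) (nat_lit 524) (nat_lit 369) (nat_lit 307)) (XT.nd (nat_lit 78) (nat_lit 0) (nat_lit 0) (XT.lf (nat_lit 0) (nat_lit 8801478721205) (nat_lit 76) (nat_lit 809405548588) (nat_lit 76) (nat_lit 808566549656) (nat_lit 1) (nat_lit 4) (nat_lit 2) (nat_lit 5) (nat_lit 2) (nat_lit 4) (nat_lit 525) (nat_lit 369) (nat_lit 306)) (XT.lf (nat_lit 0) (nat_lit 9509854046167) (nat_lit 76) (nat_lit 871912951090) (nat_lit 76) (nat_lit 871073461082) (nat_lit 1) (nat_lit 4) (nat_lit 2) (nat_lit 5) (nat_lit 2) (nat_lit 4) (nat_lit 526) (nat_lit 369) (nat_lit 305))))) (XT.nd (nat_lit 57252) (nat_lit 0) (nat_lit 76) (XT.nd (nat_lit 78) (nat_lit 0) (nat_lit 0) (XT.lf (nat_lit 0) (nat_lit 10274894706754) (nat_lit 76) (nat_lit 939423344831) (nat_lit 76) (nat_lit 938583400122) (nat_lit 1) (nat_lit 4) (nat_lit 2) (nat_lit 5) (nat_lit 2) (nat_lit 4) (nat_lit 527) (nat_lit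 369) (nat_lit 304)) (XT.nd (nat_lit 78) (nat_lit 0) (nat_lit 0) (XT.lf (nat_lit 0) (nat_lit 11101134277251) (nat_lit 76) (nat_lit 1012336791404) (nat_lit 76) (nat_lit 1011496425676) (nat_lit 1) (nat_lit 4) (nat_lit 2) (nat_lit 5) (nat_lit 2) (nat_lit 4) (nat_lit 528) (nat_lit 369) (nat_lit 303)) (XT.lf (nat_lit 0) (nat_lit 11993468992149) (nat_lit 76) (nat_lit 1091085370492) (nat_lit 76) (nat_lit 1090244614932) (nat_lit 1) (nat_lit 4) (nat_lit 2) (nat_lit 5) (nat_lit 2) (nat_lit 4) (nat_lit 529) (nat_lit 369) (nat_lit 302)))) (XT.nd (nat_lit 78) (nat_lit 0) (nat_lit 0) (XT.lf (nat_lit 0) (nat_lit 5828005466) (nat_lit 152) (nat_lit 25515050943) (nat_lit 0) (nat_lit 5828005466) (nat_lit 2) (nat_lit 5) (nat_lit 4) (nat_lit 4) (nat_lit 2) (nat_lit 4) (nat_lit 460) (nat_lit 370) (nat_lit 370)) (XT.nd (nat_lit 78) (nat_lit 0) (nat_lit 0) (XT.lf (nat_lit 0) (nat_lit 18670617810) (nat_lit 152)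 (nat_lit 42523319620) (nat_lit 0) (nat_lit 18602967533) (nat_lit 2) (nat_lit 5) (nat_lit 4) (nat_lit 4) (nat_lit 2) (nat_lit 4) (nat_lit 461) (nat_lit 370) (nat_lit 369)) (XT.lf (nat_lit 0) (nat_lit 25946280916) (nat_lit 152) (nat_lit 33949813714) (nat_lit 0) (nat_lit 25815991493) (nat_lit 2) (nat_lit 5) (nat_lit 4) (nat_lit 4) (nat_lit 2) (nat_lit 4) (nat_lit 462) (nat_lit 370) (nat_lit 368)))))) (XT.nd (nat_lit 390) (nat_lit 0) (nat_lit 0) (XT.nd (nat_lit 156) (nat_lit 76) (nat_lit 0) (XT.nd (nat_lit 78) (nat_lit 0) (nat_lit 0) (XT.lf (nat_lit 0) (nat_lit 33526115290) (nat_lit 152) (nat_lit 25258778208) (nat_lit 0) (nat_lit 33337826658) (nat_lit 2) (nat_lit 5) (nat_lit 4) (nat_lit 4) (nat_lit 2) (nat_lit 4) (nat_lit 463) (nat_lit 370) (nat_lit 367)) (XT.lf (nat_lit 0) (nat_lit 41455038470) (nat_lit 152) (nat_lit 16398710670) (nat_lit 0) (nat_lit 41213046867) (nat_lit 2) (nat_lit 5) (nat_lit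 4) (nat_lit 4) (nat_lit 2) (nat_lit 4) (nat_lit 464) (nat_lit 370) (nat_lit 366))) (XT.nd (nat_lit 78) (nat_lit 76) (nat_lit 0) (XT.lf (nat_lit 0) (nat_lit 49780036667) (nat_lit 152) (nat_lit 7317106994) (nat_lit 0) (nat_lit 49488320090) (nat_lit 2) (nat_lit 5) (nat_lit 4) (nat_lit 4) (nat_lit 2) (nat_lit 4) (nat_lit 465) (nat_lit 370) (nat_lit 365)) (XT.nd (nat_lit 78) (nat_lit 0) (nat_lit 0) (XT.lf (nat_lit 0) (nat_lit 2147264599) (nat_lit 76) (nat_lit 56454820369) (nat_lit 76) (nat_lit 56117062151) (nat_lit 1) (nat_lit 4) (nat_lit 2) (nat_lit 5) (nat_lit 2) (nat_lit 4) (nat_lit 466) (nat_lit 370) (nat_lit 364)) (XT.lf (nat_lit 0) (nat_lit 12345163191) (nat_lit 76) (nat_lit 55769969139) (nat_lit 76) (nat_lit 55389579771) (nat_lit 1) (nat_lit 4) (nat_lit 2) (nat_lit 5) (nat_lit 2) (nat_lit 4) (nat_lit 467) (nat_lit 370) (nat_lit 363))))) (XT.nd (nat_lit 234) (nat_lit 0) (nat_lit 0) (XT.nd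 (nat_lit 78) (nat_lit 0) (nat_lit 0) (XT.lf (nat_lit 0) (nat_lit 22951714885) (nat_lit 76) (nat_lit 55238594266) (nat_lit 76) (nat_lit 54818731611) (nat_lit 1) (nat_lit 4) (nat_lit 2) (nat_lit 5) (nat_lit 2) (nat_lit 4) (nat_lit 468) (nat_lit 370) (nat_lit 362)) (XT.nd (nat_lit 78) (nat_lit 0) (nat_lit 0) (XT.lf (nat_lit 0) (nat_lit 34029773320) (nat_lit 76) (nat_lit 54857546863) (nat_lit 76) (nat_lit 54401134868) (nat_lit 1) (nat_lit 4) (nat_lit 2) (nat_lit 5) (nat_lit 2) (nat_lit 4) (nat_lit 469) (nat_lit 370) (nat_lit 361)) (XT.lf (nat_lit 0) (nat_lit 45644986250) (nat_lit 76) (nat_lit 54624568871) (nat_lit 76) (nat_lit 54134314895) (nat_lit 1) (nat_lit 4) (nat_lit 2) (nat_lit 5) (nat_lit 2) (nat_lit 4) (nat_lit 470) (nat_lit 370) (nat_lit 360)))) (XT.nd (nat_lit 78) (nat_lit 0) (nat_lit 0) (XT.lf (nat_lit 0) (nat_lit 57866184566) (nat_lit 76) (nat_lit 54538279679) (nat_lit 76) (nat_lit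 54016690535) (nat_lit 1) (nat_lit 4) (nat_lit 2) (nat_lit 5) (nat_lit 2) (nat_lit 4) (nat_lit 471) (nat_lit 370) (nat_lit 359)) (XT.nd (nat_lit 78) (nat_lit 0) (nat_lit 0) (XT.lf (nat_lit 0) (nat_lit 70765790185) (nat_lit 76) (nat_lit 54598167944) (nat_lit 76) (nat_lit 54047564755) (nat_lit 1) (nat_lit 4) (nat_lit 2) (nat_lit 5) (nat_lit 2) (nat_lit 4) (nat_lit 472) (nat_lit 370) (nat_lit 358)) (XT.lf (nat_lit 0) (nat_lit 84420245214) (nat_lit 76) (nat_lit 54804588559) (nat_lit 76) (nat_lit 54227120514) (nat_lit 1) (nat_lit 4) (nat_lit 2) (nat_lit 5) (nat_lit 2) (nat_lit 4) (nat_lit 473) (nat_lit 370) (nat_lit 357))))))) (XT.nd (nat_lit 858) (nat_lit 0) (nat_lit 0) (XT.nd (nat_lit 390) (nat_lit 0) (nat_lit 0) (XT.nd (nat_lit 156) (nat_lit 0) (nat_lit 0) (XT.nd (nat_lit 78) (nat_lit 0) (nat_lit 0) (XT.lf (nat_lit 0) (nat_lit 98910464942) (nat_lit 76) (nat_lit 55158764758) (nat_lit 76) (nat_lit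 54556421847) (nat_lit 1) (nat_lit 4) (nat_lit 2) (nat_lit 5) (nat_lit 2) (nat_lit 4) (nat_lit 474) (nat_lit 370) (nat_lit 356)) (XT.lf (nat_lit 0) (nat_lit 114322317337) (nat_lit 76) (nat_lit 55662795362) (nat_lit 76) (nat_lit 55037420168) (nat_lit 1) (nat_lit 4) (nat_lit 2) (nat_lit 5) (nat_lit 2) (nat_lit 4) (nat_lit 475) (nat_lit 370) (nat_lit 355))) (XT.nd (nat_lit 78) (nat_lit 0) (nat_lit 0) (XT.lf (nat_lit 0) (nat_lit 130747131896) (nat_lit 76) (nat_lit 56319667221) (nat_lit 76) (nat_lit 55672965837) (nat_lit 1) (nat_lit 4) (nat_lit 2) (nat_lit 5) (nat_lit 2) (nat_lit 4) (nat_lit 476) (nat_lit 370) (nat_lit 354)) (XT.nd (nat_lit 78) (nat_lit 0) (nat_lit 0) (XT.lf (nat_lit 0) (nat_lit 148282240853) (nat_lit 76) (nat_lit 57133272906) (nat_lit 76) (nat_lit 56466825052) (nat_lit 1) (nat_lit 4) (nat_lit 2) (nat_lit 5) (nat_lit 2) (nat_lit 4) (nat_lit 477) (nat_lit 370) (nat_lit 353)) (XT.lf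 (nat_lit 0) (nat_lit 167031555964) (nat_lit 76) (nat_lit 58108433787) (nat_lit 76) (nat_lit 57423702163) (nat_lit 1) (nat_lit 4) (nat_lit 2) (nat_lit 5) (nat_lit 2) (nat_lit 4) (nat_lit 478) (nat_lit 370) (nat_lit 352))))) (XT.nd (nat_lit 234) (nat_lit 0) (nat_lit 0) (XT.nd (nat_lit 78) (nat_lit 0) (nat_lit 0) (XT.lf (nat_lit 0) (nat_lit 187106184282) (nat_lit 76) (nat_lit 59250928593) (nat_lit 76) (nat_lit 58549267553) (nat_lit 1) (nat_lit 4) (nat_lit 2) (nat_lit 5) (nat_lit 2) (nat_lit 4) (nat_lit 479) (nat_lit 370) (nat_lit 351)) (XT.nd (nat_lit 78) (nat_lit 0) (nat_lit 0) (XT.lf (nat_lit 0) (nat_lit 208625086567) (nat_lit 76) (nat_lit 60567527664) (nat_lit 76) (nat_lit 59850191239) (nat_lit 1) (nat_lit 4) (nat_lit 2) (nat_lit 5) (nat_lit 2) (nat_lit 4) (nat_lit 480) (nat_lit 370) (nat_lit 350)) (XT.lf (nat_lit 0) (nat_lit 231715782241) (nat_lit 76) (nat_lit 62066033070) (nat_lit 76)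 (nat_lit 61334182398) (nat_lit 1) (nat_lit 4) (nat_lit 2) (nat_lit 5) (nat_lit 2) (nat_lit 4) (nat_lit 481) (nat_lit 370) (nat_lit 349)))) (XT.nd (nat_lit 78) (nat_lit 0) (nat_lit 0) (XT.lf (nat_lit 0) (nat_lit 256515105056) (nat_lit 76) (nat_lit 63755324841) (nat_lit 76) (nat_lit 63010035053) (nat_lit 1) (nat_lit 4) (nat_lit 2) (nat_lit 5) (nat_lit 2) (nat_lit 4) (nat_lit 482) (nat_lit 370) (nat_lit 348)) (XT.nd (nat_lit 78) (nat_lit 0) (nat_lit 0) (XT.lf (nat_lit 0) (nat_lit 283170013961) (nat_lit 76) (nat_lit 65645413597) (nat_lit 76) (nat_lit 64887680182) (nat_lit 1) (nat_lit 4) (nat_lit 2) (nat_lit 5) (nat_lit 2) (nat_lit 4) (nat_lit 483) (nat_lit 370) (nat_lit 347)) (XT.lf (nat_lit 0) (nat_lit 311838463972) (nat_lit 76) (nat_lit 67747499862) (nat_lit 76) (nat_lit 66978244571) (nat_lit 1) (nat_lit 4) (nat_lit 2) (nat_lit 5) (nat_lit 2) (nat_lit 4) (nat_lit 484) (nat_lit 370) (nat_lit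 346)))))) (XT.nd (nat_lit 468) (nat_lit 0) (nat_lit 0) (XT.nd (nat_lit 234) (nat_lit 0) (nat_lit 0) (XT.nd (nat_lit 78) (nat_lit 0) (nat_lit 0) (XT.lf (nat_lit 0) (nat_lit 342690342201) (nat_lit 76) (nat_lit 70074040444) (nat_lit 76) (nat_lit 69294116750) (nat_lit 1) (nat_lit 4) (nat_lit 2) (nat_lit 5) (nat_lit 2) (nat_lit 4) (nat_lit 485) (nat_lit 370) (nat_lit 345)) (XT.nd (nat_lit 78) (nat_lit 0) (nat_lit 0) (XT.lf (nat_lit 0) (nat_lit 375908474592) (nat_lit 76) (nat_lit 72638822251) (nat_lit 76) (nat_lit 71849020405) (nat_lit 1) (nat_lit 4) (nat_lit 2) (nat_lit 5) (nat_lit 2) (nat_lit 4) (nat_lit 486) (nat_lit 370) (nat_lit 344)) (XT.lf (nat_lit 0) (nat_lit 411689709338) (nat_lit 76) (nat_lit 75457043989) (nat_lit 76) (nat_lit 74658095706) (nat_lit 1) (nat_lit 4) (nat_lit 2) (nat_lit 5) (nat_lit 2) (nat_lit 4) (nat_lit 487) (nat_lit 370) (nat_lit 343)))) (XT.nd (nat_lit 78) (nat_lit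 0) (nat_lit 0) (XT.lf (nat_lit 0) (nat_lit 450246083385) (nat_lit 76) (nat_lit 78545406232) (nat_lit 76) (nat_lit 77737989027) (nat_lit 1) (nat_lit 4) (nat_lit 2) (nat_lit 5) (nat_lit 2) (nat_lit 4) (nat_lit 488) (nat_lit 370) (nat_lit 342)) (XT.nd (nat_lit 78) (nat_lit 0) (nat_lit 0) (XT.lf (nat_lit 0) (nat_lit 491806078950) (nat_lit 76) (nat_lit 81922210386) (nat_lit 76) (nat_lit 81106951585) (nat_lit 1) (nat_lit 4) (nat_lit 2) (nat_lit 5) (nat_lit 2) (nat_lit 4) (nat_lit 489) (nat_lit 370) (nat_lit 341)) (XT.lf (nat_lit 0) (nat_lit 536615977487) (nat_lit 76) (nat_lit 85607467142) (nat_lit 76) (nat_lit 84784947604) (nat_lit 1) (nat_lit 4) (nat_lit 2) (nat_lit 5) (nat_lit 2) (nat_lit 4) (nat_lit 490) (nat_lit 370) (nat_lit 340))))) (XT.nd (nat_lit 234) (nat_lit 0) (nat_lit 0) (XT.nd (nat_lit 78) (nat_lit 0) (nat_lit 0) (XT.lf (nat_lit 0) (nat_lit 584941319137) (nat_lit 76) (nat_lit 89623015058)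 (nat_lit 76) (nat_lit 88793772616) (nat_lit 1) (nat_lit 4) (nat_lit 2) (nat_lit 5) (nat_lit 2) (nat_lit 4) (nat_lit 491) (nat_lit 370) (nat_lit 339)) (XT.nd (nat_lit 78) (nat_lit 0) (nat_lit 0) (XT.lf (nat_lit 0) (nat_lit 637068476294) (nat_lit 76) (nat_lit 93992649974) (nat_lit 76) (nat_lit 93157182621) (nat_lit 1) (nat_lit 4) (nat_lit 2) (nat_lit 5) (nat_lit 2) (nat_lit 4) (nat_lit 492) (nat_lit 370) (nat_lit 338)) (XT.lf (nat_lit 0) (nat_lit 693306350631) (nat_lit 76) (nat_lit 98742266023) (nat_lit 76) (nat_lit 97901034863) (nat_lit 1) (nat_lit 4) (nat_lit 2) (nat_lit 5) (nat_lit 2) (nat_lit 4) (nat_lit 493) (nat_lit 370) (nat_lit 337)))) (XT.nd (nat_lit 78) (nat_lit 0) (nat_lit 0) (XT.lf (nat_lit 0) (nat_lit 753988203624) (nat_lit 76) (nat_lit 103900009077) (nat_lit 76) (nat_lit 103053441060) (nat_lit 1) (nat_lit 4) (nat_lit 2) (nat_lit 5) (nat_lit 2) (nat_lit 4) (nat_lit 494) (nat_lit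 370) (nat_lit 336)) (XT.nd (nat_lit 78) (nat_lit 0) (nat_lit 0) (XT.lf (nat_lit 0) (nat_lit 819473631440) (nat_lit 76) (nat_lit 109496443541) (nat_lit 76) (nat_lit 108644933988) (nat_lit 1) (nat_lit 4) (nat_lit 2) (nat_lit 5) (nat_lit 2) (nat_lit 4) (nat_lit 495) (nat_lit 370) (nat_lit 335)) (XT.lf (nat_lit 0) (nat_lit 890150695874) (nat_lit 76) (nat_lit 115564733469) (nat_lit 76) (nat_lit 114708648421) (nat_lit 1) (nat_lit 4) (nat_lit 2) (nat_lit 5) (nat_lit 2) (nat_lit 4) (nat_lit 496) (nat_lit 370) (nat_lit 334))))))))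
noncomputable def xc28 : XT := (XT.nd (nat_lit 1716) (nat_lit 0) (nat_lit 0) (XT.nd (nat_lit 858) (nat_lit 0) (nat_lit 0) (XT.nd (nat_lit 390) (nat_lit 0) (nat_lit 0) (XT.nd (nat_lit 156) (nat_lit 0) (nat_lit 0) (XT.nd (nat_lit 78) (nat_lit 0) (nat_lit 0) (XT.lf (nat_lit 0) (nat_lit 966438223973) (nat_lit 76) (nat_lit 122140839100) (nat_lit 76) (nat_lit 121280517481) (nat_lit 1) (nat_lit 4) (nat_lit 2) (nat_lit 5) (nat_lit 2) (nat_lit 4) (nat_lit 497) (nat_lit 370) (nat_lit 333)) (XT.lf (nat_lit 0) (nat_lit 1048788289979) (nat_lit 76) (nat_lit 129263729946) (nat_lit 76) (nat_lit 128399485578) (nat_lit 1) (nat_lit 4) (nat_lit 2) (nat_lit 5) (nat_lit 2) (nat_lit 4) (nat_lit 498) (nat_lit 370) (nat_lit 332))) (XT.nd (nat_lit 78) (nat_lit 0) (nat_lit 0) (XT.lf (nat_lit 0) (nat_lit 1137688894282) (nat_lit 76) (nat_lit 136975615733) (nat_lit 76) (nat_lit 136107739189) (nat_lit 1) (nat_lit 4)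 (nat_lit 2) (nat_lit 5) (nat_lit 2) (nat_lit 4) (nat_lit 499) (nat_lit 370) (nat_lit 331)) (XT.nd (nat_lit 78) (nat_lit 0) (nat_lit 0) (XT.lf (nat_lit 0) (nat_lit 1233666855279) (nat_lit 76) (nat_lit 145322196524) (nat_lit 76) (nat_lit 144450956854) (nat_lit 1) (nat_lit 4) (nat_lit 2) (nat_lit 5) (nat_lit 2) (nat_lit 4) (nat_lit 500) (nat_lit 370) (nat_lit 330)) (XT.lf (nat_lit 0) (nat_lit 1337290931256) (nat_lit 76) (nat_lit 154352933538) (nat_lit 76) (nat_lit 153478579863) (nat_lit 1) (nat_lit 4) (nat_lit 2) (nat_lit 5) (nat_lit 2) (nat_lit 4) (nat_lit 501) (nat_lit 370) (nat_lit 329))))) (XT.nd (nat_lit 234) (nat_lit 0) (nat_lit 0) (XT.nd (nat_lit 78) (nat_lit 0) (nat_lit 0) (XT.lf (nat_lit 0) (nat_lit 1449175190812) (nat_lit 76) (nat_lit 164121342254) (nat_lit 76) (nat_lit 163244105241) (nat_lit 1) (nat_lit 4) (nat_lit 2) (nat_lit 5) (nat_lit 2) (nat_lit 4) (nat_lit 502) (nat_lit 370)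 (nat_lit 328)) (XT.nd (nat_lit 78) (nat_lit 0) (nat_lit 0) (XT.lf (nat_lit 0) (nat_lit 1569982651783) (nat_lit 76) (nat_lit 174685309539) (nat_lit 76) (nat_lit 173805402768) (nat_lit 1) (nat_lit 4) (nat_lit 2) (nat_lit 5) (nat_lit 2) (nat_lit 4) (nat_lit 503) (nat_lit 370) (nat_lit 327)) (XT.lf (nat_lit 0) (nat_lit 1700429210231) (nat_lit 76) (nat_lit 186107436680) (nat_lit 76) (nat_lit 185225057911) (nat_lit 1) (nat_lit 4) (nat_lit 2) (nat_lit 5) (nat_lit 2) (nat_lit 4) (nat_lit 504) (nat_lit 370) (nat_lit 326)))) (XT.nd (nat_lit 78) (nat_lit 0) (nat_lit 0) (XT.lf (nat_lit 0) (nat_lit 1841287882801) (nat_lit 76) (nat_lit 198455410357) (nat_lit 76) (nat_lit 197570742701) (nat_lit 1) (nat_lit 4) (nat_lit 2) (nat_lit 5) (nat_lit 2) (nat_lit 4) (nat_lit 505) (nat_lit 370) (nat_lit 325)) (XT.nd (nat_lit 78) (nat_lit 0) (nat_lit 0) (XT.lf (nat_lit 0) (nat_lit 1993393387552) (nat_lit 76) (nat_lit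 211802403746) (nat_lit 76) (nat_lit 210915616750) (nat_lit 1) (nat_lit 4) (nat_lit 2) (nat_lit 5) (nat_lit 2) (nat_lit 4) (nat_lit 506) (nat_lit 370) (nat_lit 324)) (XT.lf (nat_lit 0) (nat_lit 2157647090437) (nat_lit 76) (nat_lit 226227510142) (nat_lit 76) (nat_lit 225338760795) (nat_lit 1) (nat_lit 4) (nat_lit 2) (nat_lit 5) (nat_lit 2) (nat_lit 4) (nat_lit 507) (nat_lit 370) (nat_lit 323)))))) (XT.nd (nat_lit 390) (nat_lit 0) (nat_lit 0) (XT.nd (nat_lit 156) (nat_lit 0) (nat_lit 0) (XT.nd (nat_lit 78) (nat_lit 0) (nat_lit 0) (XT.lf (nat_lit 0) (nat_lit 2335022346734) (nat_lit 76) (nat_lit 241816211658) (nat_lit 76) (nat_lit 240925645318) (nat_lit 1) (nat_lit 4) (nat_lit 2) (nat_lit 5) (nat_lit 2) (nat_lit 4) (nat_lit 508) (nat_lit 370) (nat_lit 322)) (XT.lf (nat_lit 0) (nat_lit 2526570269072) (nat_lit 76) (nat_lit 258660885783) (nat_lit 76) (nat_lit 257768637043) (nat_lit 1) (nat_lit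 4) (nat_lit 2) (nat_lit 5) (nat_lit 2) (nat_lit 4) (nat_lit 509) (nat_lit 370) (nat_lit 321))) (XT.nd (nat_lit 78) (nat_lit 0) (nat_lit 0) (XT.lf (nat_lit 0) (nat_lit 2733425956251) (nat_lit 76) (nat_lit 276861352808) (nat_lit 76) (nat_lit 275967546290) (nat_lit 1) (nat_lit 4) (nat_lit 2) (nat_lit 5) (nat_lit 2) (nat_lit 4) (nat_lit 510) (nat_lit 370) (nat_lit 320)) (XT.nd (nat_lit 78) (nat_lit 0) (nat_lit 0) (XT.lf (nat_lit 0) (nat_lit 2956815219749) (nat_lit 76) (nat_lit 296525467353) (nat_lit 76) (nat_lit 295630218448) (nat_lit 1) (nat_lit 4) (nat_lit 2) (nat_lit 5) (nat_lit 2) (nat_lit 4) (nat_lit 511) (nat_lit 370) (nat_lit 319)) (XT.lf (nat_lit 0) (nat_lit 3198061847796) (nat_lit 76) (nat_lit 317769757505) (nat_lit 76) (nat_lit 316873173056) (nat_lit 1) (nat_lit 4) (nat_lit 2) (nat_lit 5) (nat_lit 2) (nat_lit 4) (nat_lit 512) (nat_lit 370) (nat_lit 318))))) (XT.nd (nat_lit 234) (nat_lit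 0) (nat_lit 0) (XT.nd (nat_lit 78) (nat_lit 0) (nat_lit 0) (XT.lf (nat_lit 0) (nat_lit 3458595450038) (nat_lit 76) (nat_lit 340720115352) (nat_lit 76) (nat_lit 339822294289) (nat_lit 1) (nat_lit 4) (nat_lit 2) (nat_lit 5) (nat_lit 2) (nat_lit 4) (nat_lit 513) (nat_lit 370) (nat_lit 317)) (XT.nd (nat_lit 78) (nat_lit 0) (nat_lit 0) (XT.lf (nat_lit 0) (nat_lit 3739959929304) (nat_lit 76) (nat_lit 365512543016) (nat_lit 76) (nat_lit 364613576940) (nat_lit 1) (nat_lit 4) (nat_lit 2) (nat_lit 5) (nat_lit 2) (nat_lit 4) (nat_lit 514) (nat_lit 370) (nat_lit 316)) (XT.lf (nat_lit 0) (nat_lit 4043822630655) (nat_lit 76) (nat_lit 392293958586) (nat_lit 76) (nat_lit 391393932313) (nat_lit 1) (nat_lit 4) (nat_lit 2) (nat_lit 5) (nat_lit 2) (nat_lit 4) (nat_lit 515) (nat_lit 370) (nat_lit 315)))) (XT.nd (nat_lit 78) (nat_lit 0) (nat_lit 0) (XT.lf (nat_lit 0) (nat_lit 4371984221953) (nat_lit 76) (nat_lit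 421223066748) (nat_lit 76) (nat_lit 420322058810) (nat_lit 1) (nat_lit 4) (nat_lit 2) (nat_lit 5) (nat_lit 2) (nat_lit 4) (nat_lit 516) (nat_lit 370) (nat_lit 314)) (XT.nd (nat_lit 78) (nat_lit 0) (nat_lit 0) (XT.lf (nat_lit 0) (nat_lit 4726389364479) (nat_lit 76) (nat_lit 452471299253) (nat_lit 76) (nat_lit 451569382366) (nat_lit 1) (nat_lit 4) (nat_lit 2) (nat_lit 5) (nat_lit 2) (nat_lit 4) (nat_lit 517) (nat_lit 370) (nat_lit 313)) (XT.lf (nat_lit 0) (nat_lit 5109138236855) (nat_lit 76) (nat_lit 486223830812) (nat_lit 76) (nat_lit 485321072306) (nat_lit 1) (nat_lit 4) (nat_lit 2) (nat_lit 5) (nat_lit 2) (nat_lit 4) (nat_lit 518) (nat_lit 370) (nat_lit 312))))))) (XT.nd (nat_lit 57720) (nat_lit 0) (nat_lit 0) (XT.nd (nat_lit 390) (nat_lit 0) (nat_lit 0) (XT.nd (nat_lit 156) (nat_lit 0) (nat_lit 0) (XT.nd (nat_lit 78) (nat_lit 0) (nat_lit 0) (XT.lf (nat_lit 0) (nat_lit 5522498980546) (nat_lit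 76) (nat_lit 522680676428) (nat_lit 76) (nat_lit 521777138645) (nat_lit 1) (nat_lit 4) (nat_lit 2) (nat_lit 5) (nat_lit 2) (nat_lit 4) (nat_lit 519) (nat_lit 370) (nat_lit 311)) (XT.lf (nat_lit 0) (nat_lit 5968921140702) (nat_lit 76) (nat_lit 562057876666) (nat_lit 76) (nat_lit 561153617331) (nat_lit 1) (nat_lit 4) (nat_lit 2) (nat_lit 5) (nat_lit 2) (nat_lit 4) (nat_lit 520) (nat_lit 370) (nat_lit 310))) (XT.nd (nat_lit 78) (nat_lit 0) (nat_lit 0) (XT.lf (nat_lit 0) (nat_lit 6451050181974) (nat_lit 76) (nat_lit 604588777899) (nat_lit 76) (nat_lit 603683850460) (nat_lit 1) (nat_lit 4) (nat_lit 2) (nat_lit 5) (nat_lit 2) (nat_lit 4) (nat_lit 521) (nat_lit 370) (nat_lit 309)) (XT.nd (nat_lit 78) (nat_lit 0) (nat_lit 0) (XT.lf (nat_lit 0) (nat_lit 6971743165348) (nat_lit 76) (nat_lit 650525415098) (nat_lit 76) (nat_lit 649619869043) (nat_lit 1) (nat_lit 4) (nat_lit 2) (nat_lit 5) (nat_lit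 2) (nat_lit 4) (nat_lit 522) (nat_lit 370) (nat_lit 308)) (XT.lf (nat_lit 0) (nat_lit 7534085678874) (nat_lit 76) (nat_lit 700140005370) (nat_lit 76) (nat_lit 699233886524) (nat_lit 1) (nat_lit 4) (nat_lit 2) (nat_lit 5) (nat_lit 2) (nat_lit 4) (nat_lit 523) (nat_lit 370) (nat_lit 307))))) (XT.nd (nat_lit 234) (nat_lit 0) (nat_lit 0) (XT.nd (nat_lit 78) (nat_lit 0) (nat_lit 0) (XT.lf (nat_lit 0) (nat_lit 8141410122631) (nat_lit 76) (nat_lit 753726561103) (nat_lit 76) (nat_lit 752819911894) (nat_lit 1) (nat_lit 4) (nat_lit 2) (nat_lit 5) (nat_lit 2) (nat_lit 4) (nat_lit 524) (nat_lit 370) (nat_lit 306)) (XT.nd (nat_lit 78) (nat_lit 0) (nat_lit 0) (XT.lf (nat_lit 0) (nat_lit 8797315456287) (nat_lit 76) (nat_lit 811602632258) (nat_lit 76) (nat_lit 810695491972) (nat_lit 1) (nat_lit 4) (nat_lit 2) (nat_lit 5) (nat_lit 2) (nat_lit 4) (nat_lit 525) (nat_lit 370) (nat_lit 305)) (XT.lf (nat_lit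 0) (nat_lit 9505688526262) (nat_lit 76) (nat_lit 874111188144) (nat_lit 76) (nat_lit 873203593158) (nat_lit 1) (nat_lit 4) (nat_lit 2) (nat_lit 5) (nat_lit 2) (nat_lit 4) (nat_lit 526) (nat_lit 370) (nat_lit 304)))) (XT.nd (nat_lit 78) (nat_lit 0) (nat_lit 0) (XT.lf (nat_lit 0) (nat_lit 10270727098899) (nat_lit 76) (nat_lit 941622649833) (nat_lit 76) (nat_lit 940714633828) (nat_lit 1) (nat_lit 4) (nat_lit 2) (nat_lit 5) (nat_lit 2) (nat_lit 4) (nat_lit 527) (nat_lit 370) (nat_lit 303)) (XT.nd (nat_lit 78) (nat_lit 0) (nat_lit 0) (XT.lf (nat_lit 0) (nat_lit 11096964736108) (nat_lit 76) (nat_lit 1014537085247) (nat_lit 76) (nat_lit 1013628679410) (nat_lit 1) (nat_lit 4) (nat_lit 2) (nat_lit 5) (nat_lit 2) (nat_lit 4) (nat_lit 528) (nat_lit 370) (nat_lit 302)) (XT.lf (nat_lit 0) (nat_lit 11989297660925) (nat_lit 76) (nat_lit 1093286579929) (nat_lit 76) (nat_lit 1092377813136) (nat_lit 1) (nat_lit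 4) (nat_lit 2) (nat_lit 5) (nat_lit 2) (nat_lit 4) (nat_lit 529) (nat_lit 370) (nat_lit 301)))))) (XT.nd (nat_lit 468) (nat_lit 76) (nat_lit 0) (XT.nd (nat_lit 234) (nat_lit 0) (nat_lit 0) (XT.nd (nat_lit 78) (nat_lit 152) (nat_lit 0) (XT.lf (nat_lit 0) (nat_lit 30855532087) (nat_lit 76) (nat_lit 737664666) (nat_lit 76) (nat_lit 737664666) (nat_lit 4) (nat_lit 4) (nat_lit 5) (nat_lit 5) (nat_lit 5) (nat_lit 4) (nat_lit 458) (nat_lit 371) (nat_lit 371)) (XT.nd (nat_lit 78) (nat_lit 0) (nat_lit 0) (XT.lf (nat_lit 0) (nat_lit 4933954542) (nat_lit 152) (nat_lit 59520571075) (nat_lit 0) (nat_lit 4860892242) (nat_lit 2) (nat_lit 5) (nat_lit 4) (nat_lit 4) (nat_lit 2) (nat_lit 4) (nat_lit 459) (nat_lit 371) (nat_lit 370)) (XT.lf (nat_lit 0) (nat_lit 11573245680) (nat_lit 152) (nat_lit 51348815568) (nat_lit 0) (nat_lit 11432533104) (nat_lit 2) (nat_lit 5) (nat_lit 4) (nat_lit 4) (nat_lit 2) (nat_lit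 4) (nat_lit 460) (nat_lit 371) (nat_lit 369)))) (XT.nd (nat_lit 78) (nat_lit 0) (nat_lit 0) (XT.lf (nat_lit 0) (nat_lit 18443567788) (nat_lit 152) (nat_lit 43137138562) (nat_lit 0) (nat_lit 18240216065) (nat_lit 2) (nat_lit 5) (nat_lit 4) (nat_lit 4) (nat_lit 2) (nat_lit 4) (nat_lit 461) (nat_lit 371) (nat_lit 368)) (XT.nd (nat_lit 78) (nat_lit 0) (nat_lit 0) (XT.lf (nat_lit 0) (nat_lit 25585633884) (nat_lit 152) (nat_lit 34836878268) (nat_lit 0) (nat_lit 25324282952) (nat_lit 2) (nat_lit 5) (nat_lit 4) (nat_lit 4) (nat_lit 2) (nat_lit 4) (nat_lit 462) (nat_lit 371) (nat_lit 367)) (XT.lf (nat_lit 0) (nat_lit 33041767323) (nat_lit 152) (nat_lit 26398847958) (nat_lit 0) (nat_lit 32726713421) (nat_lit 2) (nat_lit 5) (nat_lit 4) (nat_lit 4) (nat_lit 2) (nat_lit 4) (nat_lit 463) (nat_lit 371) (nat_lit 366))))) (XT.nd (nat_lit 234) (nat_lit 0) (nat_lit 0) (XT.nd (nat_lit 78) (nat_lit 76) (nat_lit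 0) (XT.lf (nat_lit 0) (nat_lit 40856152600) (nat_lit 152) (nat_lit 17773044490) (nat_lit 0) (nat_lit 40491373724) (nat_lit 2) (nat_lit 5) (nat_lit 4) (nat_lit 4) (nat_lit 2) (nat_lit 4) (nat_lit 464) (nat_lit 371) (nat_lit 365)) (XT.nd (nat_lit 78) (nat_lit 76) (nat_lit 0) (XT.lf (nat_lit 0) (nat_lit 49075097183) (nat_lit 152) (nat_lit 8908351991) (nat_lit 0) (nat_lit 48664276666) (nat_lit 2) (nat_lit 5) (nat_lit 4) (nat_lit 4) (nat_lit 2) (nat_lit 4) (nat_lit 465) (nat_lit 371) (nat_lit 364)) (XT.lf (nat_lit 0) (nat_lit 260807707) (nat_lit 76) (nat_lit 57492770654) (nat_lit 76) (nat_lit 57039318986) (nat_lit 1) (nat_lit 4) (nat_lit 2) (nat_lit 5) (nat_lit 2) (nat_lit 4) (nat_lit 466) (nat_lit 371) (nat_lit 363)))) (XT.nd (nat_lit 78) (nat_lit 0) (nat_lit 0) (XT.lf (nat_lit 0) (nat_lit 10262947267) (nat_lit 76) (nat_lit 56908046566) (nat_lit 76) (nat_lit 56415121611) (nat_lit 1) (nat_lit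 4) (nat_lit 2) (nat_lit 5) (nat_lit 2) (nat_lit 4) (nat_lit 467) (nat_lit 371) (nat_lit 362)) (XT.nd (nat_lit 78) (nat_lit 0) (nat_lit 0) (XT.lf (nat_lit 0) (nat_lit 20688240598) (nat_lit 76) (nat_lit 56469382010) (nat_lit 76) (nat_lit 55939907716) (nat_lit 1) (nat_lit 4) (nat_lit 2) (nat_lit 5) (nat_lit 2) (nat_lit 4) (nat_lit 468) (nat_lit 371) (nat_lit 361)) (XT.lf (nat_lit 0) (nat_lit 31598467216) (nat_lit 76) (nat_lit 56174177493) (nat_lit 76) (nat_lit 55610861218) (nat_lit 1) (nat_lit 4) (nat_lit 2) (nat_lit 5) (nat_lit 2) (nat_lit 4) (nat_lit 469) (nat_lit 371) (nat_lit 360))))))))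
noncomputable def xc29 : XT := (XT.nd (nat_lit 1716) (nat_lit 0) (nat_lit 0) (XT.nd (nat_lit 858) (nat_lit 0) (nat_lit 0) (XT.nd (nat_lit 390) (nat_lit 0) (nat_lit 0) (XT.nd (nat_lit 156) (nat_lit 0) (nat_lit 0) (XT.nd (nat_lit 78) (nat_lit 0) (nat_lit 0) (XT.lf (nat_lit 0) (nat_lit 43058280316) (nat_lit 76) (nat_lit 56020683655) (nat_lit 76) (nat_lit 55426032211) (nat_lit 1) (nat_lit 4) (nat_lit 2) (nat_lit 5) (nat_lit 2) (nat_lit 4) (nat_lit 470) (nat_lit 371) (nat_lit 359)) (XT.lf (nat_lit 0) (nat_lit 55135589900) (nat_lit 76) (nat_lit 56007990901) (nat_lit 76) (nat_lit 55384325413) (nat_lit 1) (nat_lit 4) (nat_lit 2) (nat_lit 5) (nat_lit 2) (nat_lit 4) (nat_lit 471) (nat_lit 371) (nat_lit 358))) (XT.nd (nat_lit 78) (nat_lit 0) (nat_lit 0) (XT.lf (nat_lit 0) (nat_lit 67901965212) (nat_lit 76) (nat_lit 56136024017) (nat_lit 76) (nat_lit 55485493673) (nat_lit 1) (nat_lit 4) (nat_lit 2)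 (nat_lit 5) (nat_lit 2) (nat_lit 4) (nat_lit 472) (nat_lit 371) (nat_lit 357)) (XT.nd (nat_lit 78) (nat_lit 0) (nat_lit 0) (XT.lf (nat_lit 0) (nat_lit 81433058845) (nat_lit 76) (nat_lit 56405541716) (nat_lit 76) (nat_lit 55730136505) (nat_lit 1) (nat_lit 4) (nat_lit 2) (nat_lit 5) (nat_lit 2) (nat_lit 4) (nat_lit 473) (nat_lit 371) (nat_lit 356)) (XT.lf (nat_lit 0) (nat_lit 95809055058) (nat_lit 76) (nat_lit 56818141140) (nat_lit 76) (nat_lit 56119703646) (nat_lit 1) (nat_lit 4) (nat_lit 2) (nat_lit 5) (nat_lit 2) (nat_lit 4) (nat_lit 474) (nat_lit 371) (nat_lit 355))))) (XT.nd (nat_lit 234) (nat_lit 0) (nat_lit 0) (XT.nd (nat_lit 78) (nat_lit 0) (nat_lit 0) (XT.lf (nat_lit 0) (nat_lit 111115144940) (nat_lit 76) (nat_lit 57376267324) (nat_lit 76) (nat_lit 56656503641) (nat_lit 1) (nat_lit 4) (nat_lit 2) (nat_lit 5) (nat_lit 2) (nat_lit 4) (nat_lit 475) (nat_lit 371) (nat_lit 354)) (XT.nd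 (nat_lit 78) (nat_lit 0) (nat_lit 0) (XT.lf (nat_lit 0) (nat_lit 127442031245) (nat_lit 76) (nat_lit 58083227682) (nat_lit 76) (nat_lit 57343717528) (nat_lit 1) (nat_lit 4) (nat_lit 2) (nat_lit 5) (nat_lit 2) (nat_lit 4) (nat_lit 476) (nat_lit 371) (nat_lit 353)) (XT.lf (nat_lit 0) (nat_lit 144886465893) (nat_lit 76) (nat_lit 58943211608) (nat_lit 76) (nat_lit 58185417685) (nat_lit 1) (nat_lit 4) (nat_lit 2) (nat_lit 5) (nat_lit 2) (nat_lit 4) (nat_lit 477) (nat_lit 371) (nat_lit 352)))) (XT.nd (nat_lit 78) (nat_lit 0) (nat_lit 0) (XT.lf (nat_lit 0) (nat_lit 163551823311) (nat_lit 76) (nat_lit 59961315304) (nat_lit 76) (nat_lit 59186591964) (nat_lit 1) (nat_lit 4) (nat_lit 2) (nat_lit 5) (nat_lit 2) (nat_lit 4) (nat_lit 478) (nat_lit 371) (nat_lit 351)) (XT.nd (nat_lit 78) (nat_lit 0) (nat_lit 0) (XT.lf (nat_lit 0) (nat_lit 183548713024) (nat_lit 76) (nat_lit 61143571976) (nat_lit 76) (nat_lit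 60353173250) (nat_lit 1) (nat_lit 4) (nat_lit 2) (nat_lit 5) (nat_lit 2) (nat_lit 4) (nat_lit 479) (nat_lit 371) (nat_lit 350)) (XT.lf (nat_lit 0) (nat_lit 204995635120) (nat_lit 76) (nat_lit 62496987589) (nat_lit 76) (nat_lit 61692074619) (nat_lit 1) (nat_lit 4) (nat_lit 2) (nat_lit 5) (nat_lit 2) (nat_lit 4) (nat_lit 480) (nat_lit 371) (nat_lit 349)))))) (XT.nd (nat_lit 390) (nat_lit 0) (nat_lit 0) (XT.nd (nat_lit 156) (nat_lit 0) (nat_lit 0) (XT.nd (nat_lit 78) (nat_lit 0) (nat_lit 0) (XT.lf (nat_lit 0) (nat_lit 228019682470) (nat_lit 76) (nat_lit 64029582386) (nat_lit 76) (nat_lit 63211230299) (nat_lit 1) (nat_lit 4) (nat_lit 2) (nat_lit 5) (nat_lit 2) (nat_lit 4) (nat_lit 481) (nat_lit 371) (nat_lit 348)) (XT.lf (nat_lit 0) (nat_lit 252757293874) (nat_lit 76) (nat_lit 65750438408) (nat_lit 76) (nat_lit 64919642695) (nat_lit 1) (nat_lit 4) (nat_lit 2) (nat_lit 5) (nat_lit 2) (nat_lit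 4) (nat_lit 482) (nat_lit 371) (nat_lit 347))) (XT.nd (nat_lit 78) (nat_lit 0) (nat_lit 0) (XT.lf (nat_lit 0) (nat_lit 279355062584) (nat_lit 76) (nat_lit 67669753322) (nat_lit 76) (nat_lit 66827435732) (nat_lit 1) (nat_lit 4) (nat_lit 2) (nat_lit 5) (nat_lit 2) (nat_lit 4) (nat_lit 483) (nat_lit 371) (nat_lit 346)) (XT.nd (nat_lit 78) (nat_lit 0) (nat_lit 0) (XT.lf (nat_lit 0) (nat_lit 307970605007) (nat_lit 76) (nat_lit 69798900845) (nat_lit 76) (nat_lit 68945914851) (nat_lit 1) (nat_lit 4) (nat_lit 2) (nat_lit 5) (nat_lit 2) (nat_lit 4) (nat_lit 484) (nat_lit 371) (nat_lit 345)) (XT.lf (nat_lit 0) (nat_lit 338773494728) (nat_lit 76) (nat_lit 72150498147) (nat_lit 76) (nat_lit 71287634002) (nat_lit 1) (nat_lit 4) (nat_lit 2) (nat_lit 5) (nat_lit 2) (nat_lit 4) (nat_lit 485) (nat_lit 371) (nat_lit 344))))) (XT.nd (nat_lit 234) (nat_lit 0) (nat_lit 0) (XT.nd (nat_lit 78) (nat_lit 0) (nat_lit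 0) (XT.lf (nat_lit 0) (nat_lit 371946267390) (nat_lit 76) (nat_lit 74738480621) (nat_lit 76) (nat_lit 73866470039) (nat_lit 1) (nat_lit 4) (nat_lit 2) (nat_lit 5) (nat_lit 2) (nat_lit 4) (nat_lit 486) (nat_lit 371) (nat_lit 343)) (XT.nd (nat_lit 78) (nat_lit 0) (nat_lit 0) (XT.lf (nat_lit 0) (nat_lit 407685502387) (nat_lit 76) (nat_lit 77578184458) (nat_lit 76) (nat_lit 76697704953) (nat_lit 1) (nat_lit 4) (nat_lit 2) (nat_lit 5) (nat_lit 2) (nat_lit 4) (nat_lit 487) (nat_lit 371) (nat_lit 342)) (XT.lf (nat_lit 0) (nat_lit 446202987777) (nat_lit 76) (nat_lit 80686437534) (nat_lit 76) (nat_lit 79798116433) (nat_lit 1) (nat_lit 4) (nat_lit 2) (nat_lit 5) (nat_lit 2) (nat_lit 4) (nat_lit 488) (nat_lit 371) (nat_lit 341)))) (XT.nd (nat_lit 78) (nat_lit 0) (nat_lit 0) (XT.lf (nat_lit 0) (nat_lit 487726975326) (nat_lit 76) (nat_lit 84081659125) (nat_lit 76) (nat_lit 83186077288) (nat_lit 1) (nat_lit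 4) (nat_lit 2) (nat_lit 5) (nat_lit 2) (nat_lit 4) (nat_lit 489) (nat_lit 371) (nat_lit 340)) (XT.nd (nat_lit 78) (nat_lit 0) (nat_lit 0) (XT.lf (nat_lit 0) (nat_lit 532503533108) (nat_lit 76) (nat_lit 87783969063) (nat_lit 76) (nat_lit 86881664322) (nat_lit 1) (nat_lit 4) (nat_lit 2) (nat_lit 5) (nat_lit 2) (nat_lit 4) (nat_lit 490) (nat_lit 371) (nat_lit 339)) (XT.lf (nat_lit 0) (nat_lit 580798003688) (nat_lit 76) (nat_lit 91815306963) (nat_lit 76) (nat_lit 90906777311) (nat_lit 1) (nat_lit 4) (nat_lit 2) (nat_lit 5) (nat_lit 2) (nat_lit 4) (nat_lit 491) (nat_lit 371) (nat_lit 338))))))) (XT.nd (nat_lit 858) (nat_lit 0) (nat_lit 0) (XT.nd (nat_lit 390) (nat_lit 0) (nat_lit 0) (XT.nd (nat_lit 156) (nat_lit 0) (nat_lit 0) (XT.nd (nat_lit 78) (nat_lit 0) (nat_lit 0) (XT.lf (nat_lit 0) (nat_lit 632896576522) (nat_lit 76) (nat_lit 96199562235) (nat_lit 76) (nat_lit 95285268776) (nat_lit 1)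 (nat_lit 4) (nat_lit 2) (nat_lit 5) (nat_lit 2) (nat_lit 4) (nat_lit 492) (nat_lit 371) (nat_lit 337)) (XT.lf (nat_lit 0) (nat_lit 689107983892) (nat_lit 76) (nat_lit 100962715650) (nat_lit 76) (nat_lit 100043085333) (nat_lit 1) (nat_lit 4) (nat_lit 2) (nat_lit 5) (nat_lit 2) (nat_lit 4) (nat_lit 493) (nat_lit 371) (nat_lit 336))) (XT.nd (nat_lit 78) (nat_lit 0) (nat_lit 0) (XT.lf (nat_lit 0) (nat_lit 749765330435) (nat_lit 76) (nat_lit 106132993303) (nat_lit 76) (nat_lit 105208421451) (nat_lit 1) (nat_lit 4) (nat_lit 2) (nat_lit 5) (nat_lit 2) (nat_lit 4) (nat_lit 494) (nat_lit 371) (nat_lit 335)) (XT.nd (nat_lit 78) (nat_lit 0) (nat_lit 0) (XT.lf (nat_lit 0) (nat_lit 815228067094) (nat_lit 76) (nat_lit 111741033876) (nat_lit 76) (nat_lit 110811886528) (nat_lit 1) (nat_lit 4) (nat_lit 2) (nat_lit 5) (nat_lit 2) (nat_lit 4) (nat_lit 495) (nat_lit 371) (nat_lit 334)) (XT.lf (nat_lit 0) (nat_lit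 885884121196) (nat_lit 76) (nat_lit 117820070202) (nat_lit 76) (nat_lit 116886686285) (nat_lit 1) (nat_lit 4) (nat_lit 2) (nat_lit 5) (nat_lit 2) (nat_lit 4) (nat_lit 496) (nat_lit 371) (nat_lit 333))))) (XT.nd (nat_lit 234) (nat_lit 0) (nat_lit 0) (XT.nd (nat_lit 78) (nat_lit 0) (nat_lit 0) (XT.lf (nat_lit 0) (nat_lit 962152195285) (nat_lit 76) (nat_lit 124406126201) (nat_lit 76) (nat_lit 123468819533) (nat_lit 1) (nat_lit 4) (nat_lit 2) (nat_lit 5) (nat_lit 2) (nat_lit 4) (nat_lit 497) (nat_lit 371) (nat_lit 332)) (XT.nd (nat_lit 78) (nat_lit 0) (nat_lit 0) (XT.lf (nat_lit 0) (nat_lit 1044484248318) (nat_lit 76) (nat_lit 131538230352) (nat_lit 76) (nat_lit 130597291508) (nat_lit 1) (nat_lit 4) (nat_lit 2) (nat_lit 5) (nat_lit 2) (nat_lit 4) (nat_lit 498) (nat_lit 371) (nat_lit 331)) (XT.lf (nat_lit 0) (nat_lit 1133368173943) (nat_lit 76) (nat_lit 139258646975) (nat_lit 76) (nat_lit 138314345006)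 (nat_lit 1) (nat_lit 4) (nat_lit 2) (nat_lit 5) (nat_lit 2) (nat_lit 4) (nat_lit 499) (nat_lit 371) (nat_lit 330)))) (XT.nd (nat_lit 78) (nat_lit 0) (nat_lit 0) (XT.lf (nat_lit 0) (nat_lit 1229330691719) (nat_lit 76) (nat_lit 147613126689) (nat_lit 76) (nat_lit 146665710715) (nat_lit 1) (nat_lit 4) (nat_lit 2) (nat_lit 5) (nat_lit 2) (nat_lit 4) (nat_lit 500) (nat_lit 371) (nat_lit 329)) (XT.nd (nat_lit 78) (nat_lit 0) (nat_lit 0) (XT.lf (nat_lit 0) (nat_lit 1332940468418) (nat_lit 76) (nat_lit 156651177521) (nat_lit 76) (nat_lit 155700878208) (nat_lit 1) (nat_lit 4) (nat_lit 2) (nat_lit 5) (nat_lit 2) (nat_lit 4) (nat_lit 501) (nat_lit 371) (nat_lit 328)) (XT.lf (nat_lit 0) (nat_lit 1444811487902) (nat_lit 76) (nat_lit 166426358291) (nat_lit 76) (nat_lit 165473389220) (nat_lit 1) (nat_lit 4) (nat_lit 2) (nat_lit 5) (nat_lit 2) (nat_lit 4) (nat_lit 502) (nat_lit 371) (nat_lit 327))))))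 (XT.nd (nat_lit 468) (nat_lit 0) (nat_lit 0) (XT.nd (nat_lit 234) (nat_lit 0) (nat_lit 0) (XT.nd (nat_lit 78) (nat_lit 0) (nat_lit 0) (XT.lf (nat_lit 0) (nat_lit 1565606689545) (nat_lit 76) (nat_lit 176996595996) (nat_lit 76) (nat_lit 176041154927) (nat_lit 1) (nat_lit 4) (nat_lit 2) (nat_lit 5) (nat_lit 2) (nat_lit 4) (nat_lit 503) (nat_lit 371) (nat_lit 326)) (XT.nd (nat_lit 78) (nat_lit 0) (nat_lit 0) (XT.lf (nat_lit 0) (nat_lit 1696041896766) (nat_lit 76) (nat_lit 188424529081) (nat_lit 76) (nat_lit 187466799126) (nat_lit 1) (nat_lit 4) (nat_lit 2) (nat_lit 5) (nat_lit 2) (nat_lit 4) (nat_lit 504) (nat_lit 371) (nat_lit 325)) (XT.lf (nat_lit 0) (nat_lit 1836890058939) (nat_lit 76) (nat_lit 200777878632) (nat_lit 76) (nat_lit 199818029337) (nat_lit 1) (nat_lit 4) (nat_lit 2) (nat_lit 5) (nat_lit 2) (nat_lit 4) (nat_lit 505) (nat_lit 371) (nat_lit 324)))) (XT.nd (nat_lit 78) (nat_lit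 0) (nat_lit 0) (XT.lf (nat_lit 0) (nat_lit 1988985831841) (nat_lit 76) (nat_lit 214129849683) (nat_lit 76) (nat_lit 213168038036) (nat_lit 1) (nat_lit 4) (nat_lit 2) (nat_lit 5) (nat_lit 2) (nat_lit 4) (nat_lit 506) (nat_lit 371) (nat_lit 323)) (XT.nd (nat_lit 78) (nat_lit 0) (nat_lit 0) (XT.lf (nat_lit 0) (nat_lit 2153230523756) (nat_lit 76) (nat_lit 228559565025) (nat_lit 76) (nat_lit 227595936386) (nat_lit 1) (nat_lit 4) (nat_lit 2) (nat_lit 5) (nat_lit 2) (nat_lit 4) (nat_lit 507) (nat_lit 371) (nat_lit 322)) (XT.lf (nat_lit 0) (nat_lit 2330597436561) (nat_lit 76) (nat_lit 244152534083) (nat_lit 76) (nat_lit 243187223043) (nat_lit 1) (nat_lit 4) (nat_lit 2) (nat_lit 5) (nat_lit 2) (nat_lit 4) (nat_lit 508) (nat_lit 371) (nat_lit 321))))) (XT.nd (nat_lit 234) (nat_lit 0) (nat_lit 0) (XT.nd (nat_lit 78) (nat_lit 0) (nat_lit 0) (XT.lf (nat_lit 0) (nat_lit 2522137633444) (nat_lit 76) (nat_lit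 261001159636) (nat_lit 76) (nat_lit 260034290818) (nat_lit 1) (nat_lit 4) (nat_lit 2) (nat_lit 5) (nat_lit 2) (nat_lit 4) (nat_lit 509) (nat_lit 371) (nat_lit 320)) (XT.nd (nat_lit 78) (nat_lit 0) (nat_lit 0) (XT.lf (nat_lit 0) (nat_lit 2728986167424) (nat_lit 76) (nat_lit 279205285391) (nat_lit 76) (nat_lit 278236974186) (nat_lit 1) (nat_lit 4) (nat_lit 2) (nat_lit 5) (nat_lit 2) (nat_lit 4) (nat_lit 510) (nat_lit 371) (nat_lit 319)) (XT.lf (nat_lit 0) (nat_lit 2952368807589) (nat_lit 76) (nat_lit 298872787649) (nat_lit 76) (nat_lit 297903140901) (nat_lit 1) (nat_lit 4) (nat_lit 2) (nat_lit 5) (nat_lit 2) (nat_lit 4) (nat_lit 511) (nat_lit 371) (nat_lit 318)))) (XT.nd (nat_lit 78) (nat_lit 0) (nat_lit 0) (XT.lf (nat_lit 0) (nat_lit 3193609302920) (nat_lit 76) (nat_lit 320120214571) (nat_lit 76) (nat_lit 319149331209) (nat_lit 1) (nat_lit 4) (nat_lit 2) (nat_lit 5) (nat_lit 2) (nat_lit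 4) (nat_lit 512) (nat_lit 371) (nat_lit 317)) (XT.nd (nat_lit 78) (nat_lit 0) (nat_lit 0) (XT.lf (nat_lit 0) (nat_lit 3454137226722) (nat_lit 76) (nat_lit 343073476836) (nat_lit 76) (nat_lit 342101448461) (nat_lit 1) (nat_lit 4) (nat_lit 2) (nat_lit 5) (nat_lit 2) (nat_lit 4) (nat_lit 513) (nat_lit 371) (nat_lit 316)) (XT.lf (nat_lit 0) (nat_lit 3735496448173) (nat_lit 76) (nat_lit 367868593776) (nat_lit 76) (nat_lit 366895505203) (nat_lit 1) (nat_lit 4) (nat_lit 2) (nat_lit 5) (nat_lit 2) (nat_lit 4) (nat_lit 514) (nat_lit 371) (nat_lit 315))))))))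
noncomputable def xc30 : XT := (XT.nd (nat_lit 58422) (nat_lit 0) (nat_lit 0) (XT.nd (nat_lit 858) (nat_lit 0) (nat_lit 0) (XT.nd (nat_lit 390) (nat_lit 0) (nat_lit 0) (XT.nd (nat_lit 156) (nat_lit 0) (nat_lit 0) (XT.nd (nat_lit 78) (nat_lit 0) (nat_lit 0) (XT.lf (nat_lit 0) (nat_lit 4039354281178) (nat_lit 76) (nat_lit 394652499416) (nat_lit 76) (nat_lit 393678429179) (nat_lit 1) (nat_lit 4) (nat_lit 2) (nat_lit 5) (nat_lit 2) (nat_lit 4) (nat_lit 515) (nat_lit 371) (nat_lit 314)) (XT.lf (nat_lit 0) (nat_lit 4367511364747) (nat_lit 76) (nat_lit 423583913198) (nat_lit 76) (nat_lit 422608934012) (nat_lit 1) (nat_lit 4) (nat_lit 2) (nat_lit 5) (nat_lit 2) (nat_lit 4) (nat_lit 516) (nat_lit 371) (nat_lit 313))) (XT.nd (nat_lit 78) (nat_lit 0) (nat_lit 0) (XT.lf (nat_lit 0) (nat_lit 4721912333449) (nat_lit 76) (nat_lit 454834280537) (nat_lit 76) (nat_lit 453858459732) (nat_lit 1) (nat_lit 4)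 (nat_lit 2) (nat_lit 5) (nat_lit 2) (nat_lit 4) (nat_lit 517) (nat_lit 371) (nat_lit 312)) (XT.nd (nat_lit 78) (nat_lit 0) (nat_lit 0) (XT.lf (nat_lit 0) (nat_lit 5104657341174) (nat_lit 76) (nat_lit 488588788794) (nat_lit 76) (nat_lit 487612188712) (nat_lit 1) (nat_lit 4) (nat_lit 2) (nat_lit 5) (nat_lit 2) (nat_lit 4) (nat_lit 518) (nat_lit 371) (nat_lit 311)) (XT.lf (nat_lit 0) (nat_lit 5518014506485) (nat_lit 76) (nat_lit 525047464685) (nat_lit 76) (nat_lit 524070143051) (nat_lit 1) (nat_lit 4) (nat_lit 2) (nat_lit 5) (nat_lit 2) (nat_lit 4) (nat_lit 519) (nat_lit 371) (nat_lit 310))))) (XT.nd (nat_lit 234) (nat_lit 0) (nat_lit 0) (XT.nd (nat_lit 78) (nat_lit 0) (nat_lit 0) (XT.lf (nat_lit 0) (nat_lit 5964433353325) (nat_lit 76) (nat_lit 564426359624) (nat_lit 76) (nat_lit 563448369885) (nat_lit 1) (nat_lit 4) (nat_lit 2) (nat_lit 5) (nat_lit 2) (nat_lit 4) (nat_lit 520) (nat_lit 371)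 (nat_lit 309)) (XT.nd (nat_lit 78) (nat_lit 0) (nat_lit 0) (XT.lf (nat_lit 0) (nat_lit 6446559326713) (nat_lit 76) (nat_lit 606958830023) (nat_lit 76) (nat_lit 605980221670) (nat_lit 1) (nat_lit 4) (nat_lit 2) (nat_lit 5) (nat_lit 2) (nat_lit 4) (nat_lit 521) (nat_lit 371) (nat_lit 308)) (XT.lf (nat_lit 0) (nat_lit 6967249469453) (nat_lit 76) (nat_lit 652896920153) (nat_lit 76) (nat_lit 651917739008) (nat_lit 1) (nat_lit 4) (nat_lit 2) (nat_lit 5) (nat_lit 2) (nat_lit 4) (nat_lit 522) (nat_lit 371) (nat_lit 307)))) (XT.nd (nat_lit 78) (nat_lit 0) (nat_lit 0) (XT.lf (nat_lit 0) (nat_lit 7529589352762) (nat_lit 76) (nat_lit 702512855733) (nat_lit 76) (nat_lit 701533144225) (nat_lit 1) (nat_lit 4) (nat_lit 2) (nat_lit 5) (nat_lit 2) (nat_lit 4) (nat_lit 523) (nat_lit 371) (nat_lit 306)) (XT.nd (nat_lit 78) (nat_lit 0) (nat_lit 0) (XT.lf (nat_lit 0) (nat_lit 8136911361134) (nat_lit 76) (nat_lit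 756100657122) (nat_lit 76) (nat_lit 755120454537) (nat_lit 1) (nat_lit 4) (nat_lit 2) (nat_lit 5) (nat_lit 2) (nat_lit 4) (nat_lit 524) (nat_lit 371) (nat_lit 305)) (XT.lf (nat_lit 0) (nat_lit 8792814439803) (nat_lit 76) (nat_lit 813977881660) (nat_lit 76) (nat_lit 812997224375) (nat_lit 1) (nat_lit 4) (nat_lit 2) (nat_lit 5) (nat_lit 2) (nat_lit 4) (nat_lit 525) (nat_lit 371) (nat_lit 304)))))) (XT.nd (nat_lit 57096) (nat_lit 0) (nat_lit 76) (XT.nd (nat_lit 156) (nat_lit 0) (nat_lit 0) (XT.nd (nat_lit 78) (nat_lit 0) (nat_lit 0) (XT.lf (nat_lit 0) (nat_lit 9501185421828) (nat_lit 76) (nat_lit 876487505495) (nat_lit 76) (nat_lit 875506427190) (nat_lit 1) (nat_lit 4) (nat_lit 2) (nat_lit 5) (nat_lit 2) (nat_lit 4) (nat_lit 526) (nat_lit 371) (nat_lit 303)) (XT.lf (nat_lit 0) (nat_lit 10266222061177) (nat_lit 76) (nat_lit 943999956025) (nat_lit 76) (nat_lit 943018487888) (nat_lit 1) (nat_lit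 4) (nat_lit 2) (nat_lit 5) (nat_lit 2) (nat_lit 4) (nat_lit 527) (nat_lit 371) (nat_lit 302))) (XT.nd (nat_lit 78) (nat_lit 0) (nat_lit 0) (XT.lf (nat_lit 0) (nat_lit 11092457908305) (nat_lit 76) (nat_lit 1016915307033) (nat_lit 76) (nat_lit 1015933477940) (nat_lit 1) (nat_lit 4) (nat_lit 2) (nat_lit 5) (nat_lit 2) (nat_lit 4) (nat_lit 528) (nat_lit 371) (nat_lit 301)) (XT.nd (nat_lit 56784) (nat_lit 0) (nat_lit 228) (XT.lf (nat_lit 0) (nat_lit 11984789175639) (nat_lit 76) (nat_lit 1095665649486) (nat_lit 76) (nat_lit 1094683486175) (nat_lit 1) (nat_lit 4) (nat_lit 2) (nat_lit 5) (nat_lit 2) (nat_lit 4) (nat_lit 529) (nat_lit 371) (nat_lit 300)) (XT.lf (nat_lit 0) (nat_lit 14798500252) (nat_lit 76) (nat_lit 6688792528) (nat_lit 76) (nat_lit 6688792528) (nat_lit 4) (nat_lit 4) (nat_lit 5) (nat_lit 5) (nat_lit 5) (nat_lit 4) (nat_lit 456) (nat_lit 372) (nat_lit 372))))) (XT.nd (nat_lit 234)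 (nat_lit 0) (nat_lit 0) (XT.nd (nat_lit 78) (nat_lit 152) (nat_lit 0) (XT.lf (nat_lit 0) (nat_lit 45197514980) (nat_lit 76) (nat_lit 7614264631) (nat_lit 76) (nat_lit 7529044765) (nat_lit 4) (nat_lit 4) (nat_lit 5) (nat_lit 5) (nat_lit 5) (nat_lit 4) (nat_lit 457) (nat_lit 372) (nat_lit 371)) (XT.nd (nat_lit 78) (nat_lit 152) (nat_lit 0) (XT.lf (nat_lit 0) (nat_lit 61400873024) (nat_lit 76) (nat_lit 1718577557) (nat_lit 76) (nat_lit 1554450407) (nat_lit 4) (nat_lit 4) (nat_lit 5) (nat_lit 5) (nat_lit 5) (nat_lit 4) (nat_lit 458) (nat_lit 372) (nat_lit 370)) (XT.lf (nat_lit 0) (nat_lit 4688740517) (nat_lit 152) (nat_lit 60183495532) (nat_lit 0) (nat_lit 4469120657) (nat_lit 2) (nat_lit 5) (nat_lit 4) (nat_lit 4) (nat_lit 2) (nat_lit 4) (nat_lit 459) (nat_lit 372) (nat_lit 369)))) (XT.nd (nat_lit 78) (nat_lit 0) (nat_lit 0) (XT.lf (nat_lit 0) (nat_lit 11183746885) (nat_lit 152) (nat_lit 52306845286)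 (nat_lit 0) (nat_lit 10901487879) (nat_lit 2) (nat_lit 5) (nat_lit 4) (nat_lit 4) (nat_lit 2) (nat_lit 4) (nat_lit 460) (nat_lit 372) (nat_lit 368)) (XT.nd (nat_lit 78) (nat_lit 0) (nat_lit 0) (XT.lf (nat_lit 0) (nat_lit 17920471983) (nat_lit 152) (nat_lit 44368413892) (nat_lit 0) (nat_lit 17580213768) (nat_lit 2) (nat_lit 5) (nat_lit 4) (nat_lit 4) (nat_lit 2) (nat_lit 4) (nat_lit 461) (nat_lit 372) (nat_lit 367)) (XT.lf (nat_lit 0) (nat_lit 24938837144) (nat_lit 152) (nat_lit 36321158794) (nat_lit 0) (nat_lit 24544875958) (nat_lit 2) (nat_lit 5) (nat_lit 4) (nat_lit 4) (nat_lit 2) (nat_lit 4) (nat_lit 462) (nat_lit 372) (nat_lit 366))))))) (XT.nd (nat_lit 858) (nat_lit 0) (nat_lit 0) (XT.nd (nat_lit 390) (nat_lit 0) (nat_lit 0) (XT.nd (nat_lit 156) (nat_lit 76) (nat_lit 0) (XT.nd (nat_lit 78) (nat_lit 0) (nat_lit 0) (XT.lf (nat_lit 0) (nat_lit 32280432681) (nat_lit 152) (nat_lit 28117392554)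 (nat_lit 0) (nat_lit 31836746522) (nat_lit 2) (nat_lit 5) (nat_lit 4) (nat_lit 4) (nat_lit 2) (nat_lit 4) (nat_lit 463) (nat_lit 372) (nat_lit 365)) (XT.lf (nat_lit 0) (nat_lit 39988764345) (nat_lit 152) (nat_lit 19708500262) (nat_lit 0) (nat_lit 39499036544) (nat_lit 2) (nat_lit 5) (nat_lit 4) (nat_lit 4) (nat_lit 2) (nat_lit 4) (nat_lit 464) (nat_lit 372) (nat_lit 364))) (XT.nd (nat_lit 78) (nat_lit 76) (nat_lit 0) (XT.lf (nat_lit 0) (nat_lit 48109511138) (nat_lit 152) (nat_lit 11044651445) (nat_lit 0) (nat_lit 47577152187) (nat_lit 2) (nat_lit 5) (nat_lit 4) (nat_lit 4) (nat_lit 2) (nat_lit 4) (nat_lit 465) (nat_lit 372) (nat_lit 363)) (XT.nd (nat_lit 78) (nat_lit 76) (nat_lit 0) (XT.lf (nat_lit 0) (nat_lit 56690796004) (nat_lit 152) (nat_lit 2074504776) (nat_lit 0) (nat_lit 56118963766) (nat_lit 2) (nat_lit 5) (nat_lit 4) (nat_lit 4) (nat_lit 2) (nat_lit 4) (nat_lit 466) (nat_lit 372)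 (nat_lit 362)) (XT.lf (nat_lit 0) (nat_lit 7637136676) (nat_lit 76) (nat_lit 58330007646) (nat_lit 76) (nat_lit 57721626068) (nat_lit 1) (nat_lit 4) (nat_lit 2) (nat_lit 5) (nat_lit 2) (nat_lit 4) (nat_lit 467) (nat_lit 372) (nat_lit 361))))) (XT.nd (nat_lit 234) (nat_lit 0) (nat_lit 0) (XT.nd (nat_lit 78) (nat_lit 0) (nat_lit 0) (XT.lf (nat_lit 0) (nat_lit 17894598190) (nat_lit 76) (nat_lit 57977185977) (nat_lit 76) (nat_lit 57334962418) (nat_lit 1) (nat_lit 4) (nat_lit 2) (nat_lit 5) (nat_lit 2) (nat_lit 4) (nat_lit 468) (nat_lit 372) (nat_lit 360)) (XT.nd (nat_lit 78) (nat_lit 0) (nat_lit 0) (XT.lf (nat_lit 0) (nat_lit 28649424977) (nat_lit 76) (nat_lit 57761465613) (nat_lit 76) (nat_lit 57087906886) (nat_lit 1) (nat_lit 4) (nat_lit 2) (nat_lit 5) (nat_lit 2) (nat_lit 4) (nat_lit 469) (nat_lit 372) (nat_lit 359)) (XT.lf (nat_lit 0) (nat_lit 39965349344) (nat_lit 76) (nat_lit 57681568213)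 (nat_lit 76) (nat_lit 56978995442) (nat_lit 1) (nat_lit 4) (nat_lit 2) (nat_lit 5) (nat_lit 2) (nat_lit 4) (nat_lit 470) (nat_lit 372) (nat_lit 358)))) (XT.nd (nat_lit 78) (nat_lit 0) (nat_lit 0) (XT.lf (nat_lit 0) (nat_lit 51909428621) (nat_lit 76) (nat_lit 57737020310) (nat_lit 76) (nat_lit 57007582683) (nat_lit 1) (nat_lit 4) (nat_lit 2) (nat_lit 5) (nat_lit 2) (nat_lit 4) (nat_lit 471) (nat_lit 372) (nat_lit 357)) (XT.nd (nat_lit 78) (nat_lit 0) (nat_lit 0) (XT.lf (nat_lit 0) (nat_lit 64552442537) (nat_lit 76) (nat_lit 57928150510) (nat_lit 76) (nat_lit 57173838016) (nat_lit 1) (nat_lit 4) (nat_lit 2) (nat_lit 5) (nat_lit 2) (nat_lit 4) (nat_lit 472) (nat_lit 372) (nat_lit 356)) (XT.lf (nat_lit 0) (nat_lit 77969312655) (nat_lit 76) (nat_lit 58256091435) (nat_lit 76) (nat_lit 57478746657) (nat_lit 1) (nat_lit 4) (nat_lit 2) (nat_lit 5) (nat_lit 2) (nat_lit 4) (nat_lit 473) (nat_lit 372)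 (nat_lit 355)))))) (XT.nd (nat_lit 468) (nat_lit 0) (nat_lit 0) (XT.nd (nat_lit 234) (nat_lit 0) (nat_lit 0) (XT.nd (nat_lit 78) (nat_lit 0) (nat_lit 0) (XT.lf (nat_lit 0) (nat_lit 92239546354) (nat_lit 76) (nat_lit 58722786439) (nat_lit 76) (nat_lit 57924115472) (nat_lit 1) (nat_lit 4) (nat_lit 2) (nat_lit 5) (nat_lit 2) (nat_lit 4) (nat_lit 474) (nat_lit 372) (nat_lit 354)) (XT.nd (nat_lit 78) (nat_lit 0) (nat_lit 0) (XT.lf (nat_lit 0) (nat_lit 107447707983) (nat_lit 76) (nat_lit 59331001122) (nat_lit 76) (nat_lit 58512583685) (nat_lit 1) (nat_lit 4) (nat_lit 2) (nat_lit 5) (nat_lit 2) (nat_lit 4) (nat_lit 475) (nat_lit 372) (nat_lit 353)) (XT.lf (nat_lit 0) (nat_lit 123683919980) (nat_lit 76) (nat_lit 60084339720) (nat_lit 76) (nat_lit 59247638513) (nat_lit 1) (nat_lit 4) (nat_lit 2) (nat_lit 5) (nat_lit 2) (nat_lit 4) (nat_lit 476) (nat_lit 372) (nat_lit 352)))) (XT.nd (nat_lit 78)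 (nat_lit 0) (nat_lit 0) (XT.lf (nat_lit 0) (nat_lit 141044396934) (nat_lit 76) (nat_lit 60987266461) (nat_lit 76) (nat_lit 60133635838) (nat_lit 1) (nat_lit 4) (nat_lit 2) (nat_lit 5) (nat_lit 2) (nat_lit 4) (nat_lit 477) (nat_lit 372) (nat_lit 351)) (XT.nd (nat_lit 78) (nat_lit 0) (nat_lit 0) (XT.lf (nat_lit 0) (nat_lit 159632015747) (nat_lit 76) (nat_lit 62045132023) (nat_lit 76) (nat_lit 61175826014) (nat_lit 1) (nat_lit 4) (nat_lit 2) (nat_lit 5) (nat_lit 2) (nat_lit 4) (nat_lit 478) (nat_lit 372) (nat_lit 350)) (XT.lf (nat_lit 0) (nat_lit 179556925271) (nat_lit 76) (nat_lit 63264205237) (nat_lit 76) (nat_lit 62380384983) (nat_lit 1) (nat_lit 4) (nat_lit 2) (nat_lit 5) (nat_lit 2) (nat_lit 4) (nat_lit 479) (nat_lit 372) (nat_lit 349))))) (XT.nd (nat_lit 234) (nat_lit 0) (nat_lit 0) (XT.nd (nat_lit 78) (nat_lit 0) (nat_lit 0) (XT.lf (nat_lit 0) (nat_lit 200937199043) (nat_lit 76) (nat_lit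 64651710242) (nat_lit 76) (nat_lit 63754450871) (nat_lit 1) (nat_lit 4) (nat_lit 2) (nat_lit 5) (nat_lit 2) (nat_lit 4) (nat_lit 480) (nat_lit 372) (nat_lit 348)) (XT.nd (nat_lit 78) (nat_lit 0) (nat_lit 0) (XT.lf (nat_lit 0) (nat_lit 223899534983) (nat_lit 76) (nat_lit 66215869290) (nat_lit 76) (nat_lit 65306166293) (nat_lit 1) (nat_lit 4) (nat_lit 2) (nat_lit 5) (nat_lit 2) (nat_lit 4) (nat_lit 481) (nat_lit 372) (nat_lit 347)) (XT.lf (nat_lit 0) (nat_lit 248580006191) (nat_lit 76) (nat_lit 67965951470) (nat_lit 76) (nat_lit 67044726597) (nat_lit 1) (nat_lit 4) (nat_lit 2) (nat_lit 5) (nat_lit 2) (nat_lit 4) (nat_lit 482) (nat_lit 372) (nat_lit 346)))) (XT.nd (nat_lit 78) (nat_lit 0) (nat_lit 0) (XT.lf (nat_lit 0) (nat_lit 275124867313) (nat_lit 76) (nat_lit 69912327642) (nat_lit 76) (nat_lit 68980434365) (nat_lit 1) (nat_lit 4) (nat_lit 2) (nat_lit 5) (nat_lit 2) (nat_lit 4) (nat_lit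 483) (nat_lit 372) (nat_lit 345)) (XT.nd (nat_lit 78) (nat_lit 0) (nat_lit 0) (XT.lf (nat_lit 0) (nat_lit 303691421228) (nat_lit 76) (nat_lit 72066531885) (nat_lit 76) (nat_lit 71124760456) (nat_lit 1) (nat_lit 4) (nat_lit 2) (nat_lit 5) (nat_lit 2) (nat_lit 4) (nat_lit 484) (nat_lit 372) (nat_lit 344)) (XT.lf (nat_lit 0) (nat_lit 334448951220) (nat_lit 76) (nat_lit 74441329854) (nat_lit 76) (nat_lit 73490411989) (nat_lit 1) (nat_lit 4) (nat_lit 2) (nat_lit 5) (nat_lit 2) (nat_lit 4) (nat_lit 485) (nat_lit 372) (nat_lit 343))))))))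
noncomputable def xc31 : XT := (XT.nd (nat_lit 1794) (nat_lit 0) (nat_lit 0) (XT.nd (nat_lit 858) (nat_lit 0) (nat_lit 0) (XT.nd (nat_lit 390) (nat_lit 0) (nat_lit 0) (XT.nd (nat_lit 156) (nat_lit 0) (nat_lit 0) (XT.nd (nat_lit 78) (nat_lit 0) (nat_lit 0) (XT.lf (nat_lit 0) (nat_lit 367579724133) (nat_lit 76) (nat_lit 77050794427) (nat_lit 76) (nat_lit 76091407638) (nat_lit 1) (nat_lit 4) (nat_lit 2) (nat_lit 5) (nat_lit 2) (nat_lit 4) (nat_lit 486) (nat_lit 372) (nat_lit 342)) (XT.lf (nat_lit 0) (nat_lit 403280070473) (nat_lit 76) (nat_lit 79910389096) (nat_lit 76) (nat_lit 78943160712) (nat_lit 1) (nat_lit 4) (nat_lit 2) (nat_lit 5) (nat_lit 2) (nat_lit 4) (nat_lit 487) (nat_lit 372) (nat_lit 341))) (XT.nd (nat_lit 78) (nat_lit 0) (nat_lit 0) (XT.lf (nat_lit 0) (nat_lit 441761547847) (nat_lit 76) (nat_lit 83037059609) (nat_lit 76) (nat_lit 82062570489) (nat_lit 1) (nat_lit 4) (nat_lit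 2) (nat_lit 5) (nat_lit 2) (nat_lit 4) (nat_lit 488) (nat_lit 372) (nat_lit 340)) (XT.nd (nat_lit 78) (nat_lit 0) (nat_lit 0) (XT.lf (nat_lit 0) (nat_lit 483252194641) (nat_lit 76) (nat_lit 86449334383) (nat_lit 76) (nat_lit 85468122358) (nat_lit 1) (nat_lit 4) (nat_lit 2) (nat_lit 5) (nat_lit 2) (nat_lit 4) (nat_lit 489) (nat_lit 372) (nat_lit 339)) (XT.lf (nat_lit 0) (nat_lit 527997881354) (nat_lit 76) (nat_lit 90167434305) (nat_lit 76) (nat_lit 89179997369) (nat_lit 1) (nat_lit 4) (nat_lit 2) (nat_lit 5) (nat_lit 2) (nat_lit 4) (nat_lit 490) (nat_lit 372) (nat_lit 338))))) (XT.nd (nat_lit 234) (nat_lit 0) (nat_lit 0) (XT.nd (nat_lit 78) (nat_lit 0) (nat_lit 0) (XT.lf (nat_lit 0) (nat_lit 576263767611) (nat_lit 76) (nat_lit 94213392561) (nat_lit 76) (nat_lit 93220191818) (nat_lit 1) (nat_lit 4) (nat_lit 2) (nat_lit 5) (nat_lit 2) (nat_lit 4) (nat_lit 491) (nat_lit 372) (nat_lit 337))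 (XT.nd (nat_lit 78) (nat_lit 0) (nat_lit 0) (XT.lf (nat_lit 0) (nat_lit 628335873478) (nat_lit 76) (nat_lit 98611185198) (nat_lit 76) (nat_lit 97612647598) (nat_lit 1) (nat_lit 4) (nat_lit 2) (nat_lit 5) (nat_lit 2) (nat_lit 4) (nat_lit 492) (nat_lit 372) (nat_lit 336)) (XT.lf (nat_lit 0) (nat_lit 684522774398) (nat_lit 76) (nat_lit 103386873212) (nat_lit 76) (nat_lit 102383394076) (nat_lit 1) (nat_lit 4) (nat_lit 2) (nat_lit 5) (nat_lit 2) (nat_lit 4) (nat_lit 493) (nat_lit 372) (nat_lit 335)))) (XT.nd (nat_lit 78) (nat_lit 0) (nat_lit 0) (XT.lf (nat_lit 0) (nat_lit 745157429783) (nat_lit 76) (nat_lit 108568756974) (nat_lit 76) (nat_lit 107560702343) (nat_lit 1) (nat_lit 4) (nat_lit 2) (nat_lit 5) (nat_lit 2) (nat_lit 4) (nat_lit 494) (nat_lit 372) (nat_lit 334)) (XT.nd (nat_lit 78) (nat_lit 0) (nat_lit 0) (XT.lf (nat_lit 0) (nat_lit 810599156111) (nat_lit 76) (nat_lit 114187543945) (nat_lit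 76) (nat_lit 113175252744) (nat_lit 1) (nat_lit 4) (nat_lit 2) (nat_lit 5) (nat_lit 2) (nat_lit 4) (nat_lit 495) (nat_lit 372) (nat_lit 333)) (XT.lf (nat_lit 0) (nat_lit 881235756202) (nat_lit 76) (nat_lit 120276530640) (nat_lit 76) (nat_lit 119260316689) (nat_lit 1) (nat_lit 4) (nat_lit 2) (nat_lit 5) (nat_lit 2) (nat_lit 4) (nat_lit 496) (nat_lit 372) (nat_lit 332)))))) (XT.nd (nat_lit 468) (nat_lit 0) (nat_lit 0) (XT.nd (nat_lit 234) (nat_lit 0) (nat_lit 0) (XT.nd (nat_lit 78) (nat_lit 0) (nat_lit 0) (XT.lf (nat_lit 0) (nat_lit 957485817319) (nat_lit 76) (nat_lit 126871799943) (nat_lit 76) (nat_lit 125851953816) (nat_lit 1) (nat_lit 4) (nat_lit 2) (nat_lit 5) (nat_lit 2) (nat_lit 4) (nat_lit 497) (nat_lit 372) (nat_lit 331)) (XT.nd (nat_lit 78) (nat_lit 0) (nat_lit 0) (XT.lf (nat_lit 0) (nat_lit 1039801191674) (nat_lit 76) (nat_lit 134012434930) (nat_lit 76) (nat_lit 132989225678) (nat_lit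 1) (nat_lit 4) (nat_lit 2) (nat_lit 5) (nat_lit 2) (nat_lit 4) (nat_lit 498) (nat_lit 372) (nat_lit 330)) (XT.lf (nat_lit 0) (nat_lit 1128669674078) (nat_lit 76) (nat_lit 141740750477) (nat_lit 76) (nat_lit 140714427219) (nat_lit 1) (nat_lit 4) (nat_lit 2) (nat_lit 5) (nat_lit 2) (nat_lit 4) (nat_lit 499) (nat_lit 372) (nat_lit 329)))) (XT.nd (nat_lit 78) (nat_lit 0) (nat_lit 0) (XT.lf (nat_lit 0) (nat_lit 1224617892575) (nat_lit 76) (nat_lit 150102544009) (nat_lit 76) (nat_lit 149073337413) (nat_lit 1) (nat_lit 4) (nat_lit 2) (nat_lit 5) (nat_lit 2) (nat_lit 4) (nat_lit 500) (nat_lit 372) (nat_lit 328)) (XT.nd (nat_lit 78) (nat_lit 0) (nat_lit 0) (XT.lf (nat_lit 0) (nat_lit 1328214429202) (nat_lit 76) (nat_lit 159147366894) (nat_lit 76) (nat_lit 158115490540) (nat_lit 1) (nat_lit 4) (nat_lit 2) (nat_lit 5) (nat_lit 2) (nat_lit 4) (nat_lit 501) (nat_lit 372) (nat_lit 327)) (XT.lf (nat_lit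 0) (nat_lit 1440073189359) (nat_lit 76) (nat_lit 168928818084) (nat_lit 76) (nat_lit 167894469732) (nat_lit 1) (nat_lit 4) (nat_lit 2) (nat_lit 5) (nat_lit 2) (nat_lit 4) (nat_lit 502) (nat_lit 372) (nat_lit 326))))) (XT.nd (nat_lit 234) (nat_lit 0) (nat_lit 0) (XT.nd (nat_lit 78) (nat_lit 0) (nat_lit 0) (XT.lf (nat_lit 0) (nat_lit 1560857039775) (nat_lit 76) (nat_lit 179504861733) (nat_lit 76) (nat_lit 178468224494) (nat_lit 1) (nat_lit 4) (nat_lit 2) (nat_lit 5) (nat_lit 2) (nat_lit 4) (nat_lit 503) (nat_lit 372) (nat_lit 325)) (XT.nd (nat_lit 78) (nat_lit 0) (nat_lit 0) (XT.lf (nat_lit 0) (nat_lit 1691281736598) (nat_lit 76) (nat_lit 190938170693) (nat_lit 76) (nat_lit 189899414114) (nat_lit 1) (nat_lit 4) (nat_lit 2) (nat_lit 5) (nat_lit 2) (nat_lit 4) (nat_lit 504) (nat_lit 372) (nat_lit 324)) (XT.lf (nat_lit 0) (nat_lit 1832120166923) (nat_lit 76) (nat_lit 203296497905) (nat_lit 76)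 (nat_lit 202255778975) (nat_lit 1) (nat_lit 4) (nat_lit 2) (nat_lit 5) (nat_lit 2) (nat_lit 4) (nat_lit 505) (nat_lit 372) (nat_lit 323)))) (XT.nd (nat_lit 78) (nat_lit 0) (nat_lit 0) (XT.lf (nat_lit 0) (nat_lit 1984206928854) (nat_lit 76) (nat_lit 216653077902) (nat_lit 76) (nat_lit 215610541979) (nat_lit 1) (nat_lit 4) (nat_lit 2) (nat_lit 5) (nat_lit 2) (nat_lit 4) (nat_lit 506) (nat_lit 372) (nat_lit 322)) (XT.nd (nat_lit 78) (nat_lit 0) (nat_lit 0) (XT.lf (nat_lit 0) (nat_lit 2148443277277) (nat_lit 76) (nat_lit 231087060786) (nat_lit 76) (nat_lit 230042842464) (nat_lit 1) (nat_lit 4) (nat_lit 2) (nat_lit 5) (nat_lit 2) (nat_lit 4) (nat_lit 507) (nat_lit 372) (nat_lit 321)) (XT.lf (nat_lit 0) (nat_lit 2325802464628) (nat_lit 76) (nat_lit 246683981272) (nat_lit 76) (nat_lit 245638205172) (nat_lit 1) (nat_lit 4) (nat_lit 2) (nat_lit 5) (nat_lit 2) (nat_lit 4) (nat_lit 508) (nat_lit 372)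 (nat_lit 320))))))) (XT.nd (nat_lit 858) (nat_lit 0) (nat_lit 0) (XT.nd (nat_lit 390) (nat_lit 0) (nat_lit 0) (XT.nd (nat_lit 156) (nat_lit 0) (nat_lit 0) (XT.nd (nat_lit 78) (nat_lit 0) (nat_lit 0) (XT.lf (nat_lit 0) (nat_lit 2517335508311) (nat_lit 76) (nat_lit 263536265555) (nat_lit 76) (nat_lit 262489047067) (nat_lit 1) (nat_lit 4) (nat_lit 2) (nat_lit 5) (nat_lit 2) (nat_lit 4) (nat_lit 509) (nat_lit 372) (nat_lit 319)) (XT.lf (nat_lit 0) (nat_lit 2724177418958) (nat_lit 76) (nat_lit 281743779023) (nat_lit 76) (nat_lit 280695224992) (nat_lit 1) (nat_lit 4) (nat_lit 2) (nat_lit 5) (nat_lit 2) (nat_lit 4) (nat_lit 510) (nat_lit 372) (nat_lit 318))) (XT.nd (nat_lit 78) (nat_lit 0) (nat_lit 0) (XT.lf (nat_lit 0) (nat_lit 2947553926408) (nat_lit 76) (nat_lit 301414418052) (nat_lit 76) (nat_lit 300364627406) (nat_lit 1) (nat_lit 4) (nat_lit 2) (nat_lit 5) (nat_lit 2) (nat_lit 4) (nat_lit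 511) (nat_lit 372) (nat_lit 317)) (XT.nd (nat_lit 78) (nat_lit 0) (nat_lit 0) (XT.lf (nat_lit 0) (nat_lit 3188788743299) (nat_lit 76) (nat_lit 322664749392) (nat_lit 76) (nat_lit 321613813733) (nat_lit 1) (nat_lit 4) (nat_lit 2) (nat_lit 5) (nat_lit 2) (nat_lit 4) (nat_lit 512) (nat_lit 372) (nat_lit 316)) (XT.lf (nat_lit 0) (nat_lit 3449311409286) (nat_lit 76) (nat_lit 345620700933) (nat_lit 76) (nat_lit 344568705076) (nat_lit 1) (nat_lit 4) (nat_lit 2) (nat_lit 5) (nat_lit 2) (nat_lit 4) (nat_lit 513) (nat_lit 372) (nat_lit 315))))) (XT.nd (nat_lit 234) (nat_lit 0) (nat_lit 0) (XT.nd (nat_lit 78) (nat_lit 0) (nat_lit 0) (XT.lf (nat_lit 0) (nat_lit 3730665762390) (nat_lit 76) (nat_lit 370418307942) (nat_lit 76) (nat_lit 369365330421) (nat_lit 1) (nat_lit 4) (nat_lit 2) (nat_lit 5) (nat_lit 2) (nat_lit 4) (nat_lit 514) (nat_lit 372) (nat_lit 314)) (XT.nd (nat_lit 78) (nat_lit 0) (nat_lit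 0) (XT.lf (nat_lit 0) (nat_lit 4034519087665) (nat_lit 76) (nat_lit 397204519203) (nat_lit 76) (nat_lit 396150632734) (nat_lit 1) (nat_lit 4) (nat_lit 2) (nat_lit 5) (nat_lit 2) (nat_lit 4) (nat_lit 515) (nat_lit 372) (nat_lit 313)) (XT.lf (nat_lit 0) (nat_lit 4362671997411) (nat_lit 76) (nat_lit 426138067819) (nat_lit 76) (nat_lit 425083339730) (nat_lit 1) (nat_lit 4) (nat_lit 2) (nat_lit 5) (nat_lit 2) (nat_lit 4) (nat_lit 516) (nat_lit 372) (nat_lit 312)))) (XT.nd (nat_lit 78) (nat_lit 0) (nat_lit 0) (XT.lf (nat_lit 0) (nat_lit 4717069101463) (nat_lit 76) (nat_lit 457390411855) (nat_lit 76) (nat_lit 456334904490) (nat_lit 1) (nat_lit 4) (nat_lit 2) (nat_lit 5) (nat_lit 2) (nat_lit 4) (nat_lit 517) (nat_lit 372) (nat_lit 311)) (XT.nd (nat_lit 78) (nat_lit 0) (nat_lit 0) (XT.lf (nat_lit 0) (nat_lit 5099810530807) (nat_lit 76) (nat_lit 491146750388) (nat_lit 76) (nat_lit 490090521470) (nat_lit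 1) (nat_lit 4) (nat_lit 2) (nat_lit 5) (nat_lit 2) (nat_lit 4) (nat_lit 518) (nat_lit 372) (nat_lit 310)) (XT.lf (nat_lit 0) (nat_lit 5513164382803) (nat_lit 76) (nat_lit 527607120979) (nat_lit 76) (nat_lit 526550223957) (nat_lit 1) (nat_lit 4) (nat_lit 2) (nat_lit 5) (nat_lit 2) (nat_lit 4) (nat_lit 519) (nat_lit 372) (nat_lit 309)))))) (XT.nd (nat_lit 468) (nat_lit 0) (nat_lit 0) (XT.nd (nat_lit 234) (nat_lit 0) (nat_lit 0) (XT.nd (nat_lit 78) (nat_lit 0) (nat_lit 0) (XT.lf (nat_lit 0) (nat_lit 5959580161759) (nat_lit 76) (nat_lit 566987585084) (nat_lit 76) (nat_lit 565930069447) (nat_lit 1) (nat_lit 4) (nat_lit 2) (nat_lit 5) (nat_lit 2) (nat_lit 4) (nat_lit 520) (nat_lit 372) (nat_lit 308)) (XT.nd (nat_lit 78) (nat_lit 0) (nat_lit 0) (XT.lf (nat_lit 0) (nat_lit 6441703294512) (nat_lit 76) (nat_lit 609521508416) (nat_lit 76) (nat_lit 608463419987) (nat_lit 1) (nat_lit 4) (nat_lit 2)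 (nat_lit 5) (nat_lit 2) (nat_lit 4) (nat_lit 521) (nat_lit 372) (nat_lit 307)) (XT.lf (nat_lit 0) (nat_lit 6962390807036) (nat_lit 76) (nat_lit 655460943853) (nat_lit 76) (nat_lit 654402325061) (nat_lit 1) (nat_lit 4) (nat_lit 2) (nat_lit 5) (nat_lit 2) (nat_lit 4) (nat_lit 522) (nat_lit 372) (nat_lit 306)))) (XT.nd (nat_lit 78) (nat_lit 0) (nat_lit 0) (XT.lf (nat_lit 0) (nat_lit 7524728254960) (nat_lit 76) (nat_lit 705078125088) (nat_lit 76) (nat_lit 704019015220) (nat_lit 1) (nat_lit 4) (nat_lit 2) (nat_lit 5) (nat_lit 2) (nat_lit 4) (nat_lit 523) (nat_lit 372) (nat_lit 305)) (XT.nd (nat_lit 78) (nat_lit 0) (nat_lit 0) (XT.lf (nat_lit 0) (nat_lit 8132048008345) (nat_lit 76) (nat_lit 758667079861) (nat_lit 76) (nat_lit 757607515292) (nat_lit 1) (nat_lit 4) (nat_lit 2) (nat_lit 5) (nat_lit 2) (nat_lit 4) (nat_lit 524) (nat_lit 372) (nat_lit 304)) (XT.lf (nat_lit 0) (nat_lit 8787948999063)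 (nat_lit 76) (nat_lit 816545372348) (nat_lit 76) (nat_lit 815485386760) (nat_lit 1) (nat_lit 4) (nat_lit 2) (nat_lit 5) (nat_lit 2) (nat_lit 4) (nat_lit 525) (nat_lit 372) (nat_lit 303))))) (XT.nd (nat_lit 234) (nat_lit 0) (nat_lit 0) (XT.nd (nat_lit 78) (nat_lit 0) (nat_lit 0) (XT.lf (nat_lit 0) (nat_lit 9496318047800) (nat_lit 76) (nat_lit 879055985023) (nat_lit 76) (nat_lit 877995609603) (nat_lit 1) (nat_lit 4) (nat_lit 2) (nat_lit 5) (nat_lit 2) (nat_lit 4) (nat_lit 526) (nat_lit 372) (nat_lit 302)) (XT.nd (nat_lit 78) (nat_lit 0) (nat_lit 0) (XT.lf (nat_lit 0) (nat_lit 10261352897068) (nat_lit 76) (nat_lit 946569351147) (nat_lit 76) (nat_lit 945508614771) (nat_lit 1) (nat_lit 4) (nat_lit 2) (nat_lit 5) (nat_lit 2) (nat_lit 4) (nat_lit 527) (nat_lit 372) (nat_lit 301)) (XT.lf (nat_lit 0) (nat_lit 11087587086713) (nat_lit 76) (nat_lit 1019485549926) (nat_lit 76) (nat_lit 1018424479332)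 (nat_lit 1) (nat_lit 4) (nat_lit 2) (nat_lit 5) (nat_lit 2) (nat_lit 4) (nat_lit 528) (nat_lit 372) (nat_lit 300)))) (XT.nd (nat_lit 56628) (nat_lit 0) (nat_lit 228) (XT.lf (nat_lit 0) (nat_lit 11979916819341) (nat_lit 76) (nat_lit 1098236677354) (nat_lit 76) (nat_lit 1097175297298) (nat_lit 1) (nat_lit 4) (nat_lit 2) (nat_lit 5) (nat_lit 2) (nat_lit 4) (nat_lit 529) (nat_lit 372) (nat_lit 299)) (XT.nd (nat_lit 78) (nat_lit 0) (nat_lit 0) (XT.lf (nat_lit 0) (nat_lit 99771902) (nat_lit 76) (nat_lit 12275434586) (nat_lit 76) (nat_lit 12275434586) (nat_lit 4) (nat_lit 4) (nat_lit 5) (nat_lit 5) (nat_lit 5) (nat_lit 4) (nat_lit 454) (nat_lit 373) (nat_lit 373)) (XT.lf (nat_lit 0) (nat_lit 14506882101) (nat_lit 76) (nat_lit 19134729298) (nat_lit 76) (nat_lit 19042691843) (nat_lit 4) (nat_lit 4) (nat_lit 5) (nat_lit 5) (nat_lit 5) (nat_lit 4) (nat_lit 455) (nat_lit 373) (nat_lit 372))))))))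
noncomputable def xc32 : XT := (XT.nd (nat_lit 1716) (nat_lit 0) (nat_lit 0) (XT.nd (nat_lit 858) (nat_lit 76) (nat_lit 0) (XT.nd (nat_lit 390) (nat_lit 0) (nat_lit 0) (XT.nd (nat_lit 156) (nat_lit 152) (nat_lit 0) (XT.nd (nat_lit 78) (nat_lit 0) (nat_lit 0) (XT.lf (nat_lit 0) (nat_lit 29261994062) (nat_lit 76) (nat_lit 13640293139) (nat_lit 76) (nat_lit 13463035817) (nat_lit 4) (nat_lit 4) (nat_lit 5) (nat_lit 5) (nat_lit 5) (nat_lit 4) (nat_lit 456) (nat_lit 373) (nat_lit 371)) (XT.lf (nat_lit 0) (nat_lit 44552317389) (nat_lit 76) (nat_lit 8035001072) (nat_lit 76) (nat_lit 7778836467) (nat_lit 4) (nat_lit 4) (nat_lit 5) (nat_lit 5) (nat_lit 5) (nat_lit 4) (nat_lit 457) (nat_lit 373) (nat_lit 370))) (XT.nd (nat_lit 78) (nat_lit 152) (nat_lit 0) (XT.lf (nat_lit 0) (nat_lit 60468461406) (nat_lit 76) (nat_lit 2285636552) (nat_lit 76) (nat_lit 1956409648) (nat_lit 4) (nat_lit 4) (nat_lit 5)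 (nat_lit 5) (nat_lit 5) (nat_lit 4) (nat_lit 458) (nat_lit 373) (nat_lit 369)) (XT.nd (nat_lit 78) (nat_lit 0) (nat_lit 0) (XT.lf (nat_lit 0) (nat_lit 4123797048) (nat_lit 152) (nat_lit 61513272888) (nat_lit 0) (nat_lit 3756318176) (nat_lit 2) (nat_lit 5) (nat_lit 4) (nat_lit 4) (nat_lit 2) (nat_lit 4) (nat_lit 459) (nat_lit 373) (nat_lit 368)) (XT.lf (nat_lit 0) (nat_lit 10485206407) (nat_lit 152) (nat_lit 53909868253) (nat_lit 0) (nat_lit 10059728326) (nat_lit 2) (nat_lit 5) (nat_lit 4) (nat_lit 4) (nat_lit 2) (nat_lit 4) (nat_lit 460) (nat_lit 373) (nat_lit 367))))) (XT.nd (nat_lit 234) (nat_lit 0) (nat_lit 0) (XT.nd (nat_lit 78) (nat_lit 0) (nat_lit 0) (XT.lf (nat_lit 0) (nat_lit 17098230570) (nat_lit 152) (nat_lit 46224442055) (nat_lit 0) (nat_lit 16619049518) (nat_lit 2) (nat_lit 5) (nat_lit 4) (nat_lit 4) (nat_lit 2) (nat_lit 4) (nat_lit 461) (nat_lit 373) (nat_lit 366)) (XT.nd (nat_lit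 78) (nat_lit 0) (nat_lit 0) (XT.lf (nat_lit 0) (nat_lit 24002057828) (nat_lit 152) (nat_lit 38411451028) (nat_lit 0) (nat_lit 23473151803) (nat_lit 2) (nat_lit 5) (nat_lit 4) (nat_lit 4) (nat_lit 2) (nat_lit 4) (nat_lit 462) (nat_lit 373) (nat_lit 365)) (XT.lf (nat_lit 0) (nat_lit 31237599752) (nat_lit 152) (nat_lit 30424595964) (nat_lit 0) (nat_lit 30662652085) (nat_lit 2) (nat_lit 5) (nat_lit 4) (nat_lit 4) (nat_lit 2) (nat_lit 4) (nat_lit 463) (nat_lit 373) (nat_lit 364)))) (XT.nd (nat_lit 78) (nat_lit 0) (nat_lit 0) (XT.lf (nat_lit 0) (nat_lit 38847733625) (nat_lit 152) (nat_lit 22216547354) (nat_lit 0) (nat_lit 38230154808) (nat_lit 2) (nat_lit 5) (nat_lit 4) (nat_lit 4) (nat_lit 2) (nat_lit 4) (nat_lit 464) (nat_lit 373) (nat_lit 363)) (XT.nd (nat_lit 78) (nat_lit 0) (nat_lit 0) (XT.lf (nat_lit 0) (nat_lit 46877556538) (nat_lit 152) (nat_lit 13738664909) (nat_lit 0) (nat_lit 46220504434)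 (nat_lit 2) (nat_lit 5) (nat_lit 4) (nat_lit 4) (nat_lit 2) (nat_lit 4) (nat_lit 465) (nat_lit 373) (nat_lit 362)) (XT.lf (nat_lit 0) (nat_lit 55374652627) (nat_lit 152) (nat_lit 4940709325) (nat_lit 0) (nat_lit 54681051183) (nat_lit 2) (nat_lit 5) (nat_lit 4) (nat_lit 4) (nat_lit 2) (nat_lit 4) (nat_lit 466) (nat_lit 373) (nat_lit 361)))))) (XT.nd (nat_lit 390) (nat_lit 0) (nat_lit 0) (XT.nd (nat_lit 156) (nat_lit 0) (nat_lit 0) (XT.nd (nat_lit 78) (nat_lit 0) (nat_lit 0) (XT.lf (nat_lit 0) (nat_lit 4452171057) (nat_lit 76) (nat_lit 60044278816) (nat_lit 76) (nat_lit 59316835391) (nat_lit 1) (nat_lit 4) (nat_lit 2) (nat_lit 5) (nat_lit 2) (nat_lit 4) (nat_lit 467) (nat_lit 373) (nat_lit 360)) (XT.lf (nat_lit 0) (nat_lit 14554232740) (nat_lit 76) (nat_lit 59770941300) (nat_lit 76) (nat_lit 59012162707) (nat_lit 1) (nat_lit 4) (nat_lit 2) (nat_lit 5) (nat_lit 2) (nat_lit 4) (nat_lit 468)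 (nat_lit 373) (nat_lit 359))) (XT.nd (nat_lit 78) (nat_lit 0) (nat_lit 0) (XT.lf (nat_lit 0) (nat_lit 25165170795) (nat_lit 76) (nat_lit 59628817375) (nat_lit 76) (nat_lit 58841024738) (nat_lit 1) (nat_lit 4) (nat_lit 2) (nat_lit 5) (nat_lit 2) (nat_lit 4) (nat_lit 469) (nat_lit 373) (nat_lit 358)) (XT.nd (nat_lit 78) (nat_lit 0) (nat_lit 0) (XT.lf (nat_lit 0) (nat_lit 36347864855) (nat_lit 76) (nat_lit 59617064826) (nat_lit 76) (nat_lit 58802407333) (nat_lit 1) (nat_lit 4) (nat_lit 2) (nat_lit 5) (nat_lit 2) (nat_lit 4) (nat_lit 470) (nat_lit 373) (nat_lit 357)) (XT.lf (nat_lit 0) (nat_lit 48168582736) (nat_lit 76) (nat_lit 59735614007) (nat_lit 76) (nat_lit 58896081647) (nat_lit 1) (nat_lit 4) (nat_lit 2) (nat_lit 5) (nat_lit 2) (nat_lit 4) (nat_lit 471) (nat_lit 373) (nat_lit 356))))) (XT.nd (nat_lit 234) (nat_lit 0) (nat_lit 0) (XT.nd (nat_lit 78) (nat_lit 0) (nat_lit 0) (XT.lf (nat_lit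 0) (nat_lit 60697373137) (nat_lit 76) (nat_lit 59985167432) (nat_lit 76) (nat_lit 59122602788) (nat_lit 1) (nat_lit 4) (nat_lit 2) (nat_lit 5) (nat_lit 2) (nat_lit 4) (nat_lit 472) (nat_lit 373) (nat_lit 355)) (XT.nd (nat_lit 78) (nat_lit 0) (nat_lit 0) (XT.lf (nat_lit 0) (nat_lit 74008480742) (nat_lit 76) (nat_lit 60367203936) (nat_lit 76) (nat_lit 59483313104) (nat_lit 1) (nat_lit 4) (nat_lit 2) (nat_lit 5) (nat_lit 2) (nat_lit 4) (nat_lit 473) (nat_lit 373) (nat_lit 354)) (XT.lf (nat_lit 0) (nat_lit 88180786188) (nat_lit 76) (nat_lit 60883987440) (nat_lit 76) (nat_lit 59980350137) (nat_lit 1) (nat_lit 4) (nat_lit 2) (nat_lit 5) (nat_lit 2) (nat_lit 4) (nat_lit 474) (nat_lit 373) (nat_lit 353)))) (XT.nd (nat_lit 78) (nat_lit 0) (nat_lit 0) (XT.lf (nat_lit 0) (nat_lit 103298273508) (nat_lit 76) (nat_lit 61538580364) (nat_lit 76) (nat_lit 60616659291) (nat_lit 1) (nat_lit 4) (nat_lit 2)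 (nat_lit 5) (nat_lit 2) (nat_lit 4) (nat_lit 475) (nat_lit 373) (nat_lit 352)) (XT.nd (nat_lit 78) (nat_lit 0) (nat_lit 0) (XT.lf (nat_lit 0) (nat_lit 119450527811) (nat_lit 76) (nat_lit 62334861777) (nat_lit 76) (nat_lit 61396011288) (nat_lit 1) (nat_lit 4) (nat_lit 2) (nat_lit 5) (nat_lit 2) (nat_lit 4) (nat_lit 476) (nat_lit 373) (nat_lit 351)) (XT.lf (nat_lit 0) (nat_lit 136733266161) (nat_lit 76) (nat_lit 63277550384) (nat_lit 76) (nat_lit 62323024509) (nat_lit 1) (nat_lit 4) (nat_lit 2) (nat_lit 5) (nat_lit 2) (nat_lit 4) (nat_lit 477) (nat_lit 373) (nat_lit 350))))))) (XT.nd (nat_lit 858) (nat_lit 0) (nat_lit 0) (XT.nd (nat_lit 390) (nat_lit 0) (nat_lit 0) (XT.nd (nat_lit 156) (nat_lit 0) (nat_lit 0) (XT.nd (nat_lit 78) (nat_lit 0) (nat_lit 0) (XT.lf (nat_lit 0) (nat_lit 155248904785) (nat_lit 76) (nat_lit 64372232487) (nat_lit 76) (nat_lit 63403192367) (nat_lit 1) (nat_lit 4) (nat_lit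 2) (nat_lit 5) (nat_lit 2) (nat_lit 4) (nat_lit 478) (nat_lit 373) (nat_lit 349)) (XT.lf (nat_lit 0) (nat_lit 175107165985) (nat_lit 76) (nat_lit 65625395093) (nat_lit 76) (nat_lit 64642915856) (nat_lit 1) (nat_lit 4) (nat_lit 2) (nat_lit 5) (nat_lit 2) (nat_lit 4) (nat_lit 479) (nat_lit 373) (nat_lit 348))) (XT.nd (nat_lit 78) (nat_lit 0) (nat_lit 0) (XT.lf (nat_lit 0) (nat_lit 196425728346) (nat_lit 76) (nat_lit 67044464349) (nat_lit 76) (nat_lit 66049541486) (nat_lit 1) (nat_lit 4) (nat_lit 2) (nat_lit 5) (nat_lit 2) (nat_lit 4) (nat_lit 480) (nat_lit 373) (nat_lit 347)) (XT.nd (nat_lit 78) (nat_lit 0) (nat_lit 0) (XT.lf (nat_lit 0) (nat_lit 219330924090) (nat_lit 76) (nat_lit 68637849555) (nat_lit 76) (nat_lit 67631404816) (nat_lit 1) (nat_lit 4) (nat_lit 2) (nat_lit 5) (nat_lit 2) (nat_lit 4) (nat_lit 481) (nat_lit 373) (nat_lit 346)) (XT.lf (nat_lit 0) (nat_lit 243958487710) (nat_lit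 76) (nat_lit 70414992993) (nat_lit 76) (nat_lit 69397879850) (nat_lit 1) (nat_lit 4) (nat_lit 2) (nat_lit 5) (nat_lit 2) (nat_lit 4) (nat_lit 482) (nat_lit 373) (nat_lit 345))))) (XT.nd (nat_lit 234) (nat_lit 0) (nat_lit 0) (XT.nd (nat_lit 78) (nat_lit 0) (nat_lit 0) (XT.lf (nat_lit 0) (nat_lit 270454360324) (nat_lit 76) (nat_lit 72386425885) (nat_lit 76) (nat_lit 71359434590) (nat_lit 1) (nat_lit 4) (nat_lit 2) (nat_lit 5) (nat_lit 2) (nat_lit 4) (nat_lit 483) (nat_lit 373) (nat_lit 344)) (XT.nd (nat_lit 78) (nat_lit 0) (nat_lit 0) (XT.lf (nat_lit 0) (nat_lit 298975554511) (nat_lit 76) (nat_lit 74563830795) (nat_lit 76) (nat_lit 73527693063) (nat_lit 1) (nat_lit 4) (nat_lit 2) (nat_lit 5) (nat_lit 2) (nat_lit 4) (nat_lit 484) (nat_lit 373) (nat_lit 343)) (XT.lf (nat_lit 0) (nat_lit 329691084753) (nat_lit 76) (nat_lit 76960110863) (nat_lit 76) (nat_lit 75915504208) (nat_lit 1) (nat_lit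 4) (nat_lit 2) (nat_lit 5) (nat_lit 2) (nat_lit 4) (nat_lit 485) (nat_lit 373) (nat_lit 342)))) (XT.nd (nat_lit 78) (nat_lit 0) (nat_lit 0) (XT.lf (nat_lit 0) (nat_lit 362782969009) (nat_lit 76) (nat_lit 79589466268) (nat_lit 76) (nat_lit 78537018018) (nat_lit 1) (nat_lit 4) (nat_lit 2) (nat_lit 5) (nat_lit 2) (nat_lit 4) (nat_lit 486) (nat_lit 373) (nat_lit 341)) (XT.nd (nat_lit 78) (nat_lit 0) (nat_lit 0) (XT.lf (nat_lit 0) (nat_lit 398447307333) (nat_lit 76) (nat_lit 82467478375) (nat_lit 76) (nat_lit 81407769388) (nat_lit 1) (nat_lit 4) (nat_lit 2) (nat_lit 5) (nat_lit 2) (nat_lit 4) (nat_lit 487) (nat_lit 373) (nat_lit 340)) (XT.lf (nat_lit 0) (nat_lit 436895443953) (nat_lit 76) (nat_lit 85611202070) (nat_lit 76) (nat_lit 84544770180) (nat_lit 1) (nat_lit 4) (nat_lit 2) (nat_lit 5) (nat_lit 2) (nat_lit 4) (nat_lit 488) (nat_lit 373) (nat_lit 339)))))) (XT.nd (nat_lit 468) (nat_lit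 0) (nat_lit 0) (XT.nd (nat_lit 234) (nat_lit 0) (nat_lit 0) (XT.nd (nat_lit 78) (nat_lit 0) (nat_lit 0) (XT.lf (nat_lit 0) (nat_lit 478355219677) (nat_lit 76) (nat_lit 89039266828) (nat_lit 76) (nat_lit 87966610026) (nat_lit 1) (nat_lit 4) (nat_lit 2) (nat_lit 5) (nat_lit 2) (nat_lit 4) (nat_lit 489) (nat_lit 373) (nat_lit 338)) (XT.nd (nat_lit 78) (nat_lit 0) (nat_lit 0) (XT.lf (nat_lit 0) (nat_lit 523072322066) (nat_lit 76) (nat_lit 92771987106) (nat_lit 76) (nat_lit 91693566497) (nat_lit 1) (nat_lit 4) (nat_lit 2) (nat_lit 5) (nat_lit 2) (nat_lit 4) (nat_lit 490) (nat_lit 373) (nat_lit 337)) (XT.lf (nat_lit 0) (nat_lit 571311741357) (nat_lit 76) (nat_lit 96831482728) (nat_lit 76) (nat_lit 95747725261) (nat_lit 1) (nat_lit 4) (nat_lit 2) (nat_lit 5) (nat_lit 2) (nat_lit 4) (nat_lit 491) (nat_lit 373) (nat_lit 336)))) (XT.nd (nat_lit 78) (nat_lit 0) (nat_lit 0) (XT.lf (nat_lit 0) (nat_lit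 623359340774) (nat_lit 76) (nat_lit 101241809964) (nat_lit 76) (nat_lit 100153110962) (nat_lit 1) (nat_lit 4) (nat_lit 2) (nat_lit 5) (nat_lit 2) (nat_lit 4) (nat_lit 492) (nat_lit 373) (nat_lit 335)) (XT.nd (nat_lit 78) (nat_lit 0) (nat_lit 0) (XT.lf (nat_lit 0) (nat_lit 679523550536) (nat_lit 76) (nat_lit 106029104087) (nat_lit 76) (nat_lit 104935829590) (nat_lit 1) (nat_lit 4) (nat_lit 2) (nat_lit 5) (nat_lit 2) (nat_lit 4) (nat_lit 493) (nat_lit 373) (nat_lit 334)) (XT.lf (nat_lit 0) (nat_lit 740137195590) (nat_lit 76) (nat_lit 111221734247) (nat_lit 76) (nat_lit 110124223180) (nat_lit 1) (nat_lit 4) (nat_lit 2) (nat_lit 5) (nat_lit 2) (nat_lit 4) (nat_lit 494) (nat_lit 373) (nat_lit 333))))) (XT.nd (nat_lit 234) (nat_lit 0) (nat_lit 0) (XT.nd (nat_lit 78) (nat_lit 0) (nat_lit 0) (XT.lf (nat_lit 0) (nat_lit 805559467907) (nat_lit 76) (nat_lit 116850471586) (nat_lit 76) (nat_lit 115749037769)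 (nat_lit 1) (nat_lit 4) (nat_lit 2) (nat_lit 5) (nat_lit 2) (nat_lit 4) (nat_lit 495) (nat_lit 373) (nat_lit 332)) (XT.nd (nat_lit 78) (nat_lit 0) (nat_lit 0) (XT.lf (nat_lit 0) (nat_lit 876178055026) (nat_lit 76) (nat_lit 122948671585) (nat_lit 76) (nat_lit 121843605592) (nat_lit 1) (nat_lit 4) (nat_lit 2) (nat_lit 5) (nat_lit 2) (nat_lit 4) (nat_lit 496) (nat_lit 373) (nat_lit 331)) (XT.lf (nat_lit 0) (nat_lit 952411437464) (nat_lit 76) (nat_lit 129552471725) (nat_lit 76) (nat_lit 128444042606) (nat_lit 1) (nat_lit 4) (nat_lit 2) (nat_lit 5) (nat_lit 2) (nat_lit 4) (nat_lit 497) (nat_lit 373) (nat_lit 330)))) (XT.nd (nat_lit 78) (nat_lit 0) (nat_lit 0) (XT.lf (nat_lit 0) (nat_lit 1034711368599) (nat_lit 76) (nat_lit 136701005635) (nat_lit 76) (nat_lit 135589462511) (nat_lit 1) (nat_lit 4) (nat_lit 2) (nat_lit 5) (nat_lit 2) (nat_lit 4) (nat_lit 498) (nat_lit 373) (nat_lit 329)) (XT.nd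 (nat_lit 78) (nat_lit 0) (nat_lit 0) (XT.lf (nat_lit 0) (nat_lit 1123565551724) (nat_lit 76) (nat_lit 144436635000) (nat_lit 76) (nat_lit 143322208538) (nat_lit 1) (nat_lit 4) (nat_lit 2) (nat_lit 5) (nat_lit 2) (nat_lit 4) (nat_lit 499) (nat_lit 373) (nat_lit 328)) (XT.lf (nat_lit 0) (nat_lit 1219500530149) (nat_lit 76) (nat_lit 152805200585) (nat_lit 76) (nat_lit 151688104365) (nat_lit 1) (nat_lit 4) (nat_lit 2) (nat_lit 5) (nat_lit 2) (nat_lit 4) (nat_lit 500) (nat_lit 373) (nat_lit 327))))))))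
noncomputable def xc33 : XT := (XT.nd (nat_lit 1716) (nat_lit 0) (nat_lit 0) (XT.nd (nat_lit 858) (nat_lit 0) (nat_lit 0) (XT.nd (nat_lit 390) (nat_lit 0) (nat_lit 0) (XT.nd (nat_lit 156) (nat_lit 0) (nat_lit 0) (XT.nd (nat_lit 78) (nat_lit 0) (nat_lit 0) (XT.lf (nat_lit 0) (nat_lit 1323084807449) (nat_lit 76) (nat_lit 161856293891) (nat_lit 76) (nat_lit 160736725673) (nat_lit 1) (nat_lit 4) (nat_lit 2) (nat_lit 5) (nat_lit 2) (nat_lit 4) (nat_lit 501) (nat_lit 373) (nat_lit 326)) (XT.lf (nat_lit 0) (nat_lit 1434932216378) (nat_lit 76) (nat_lit 171643551025) (nat_lit 76) (nat_lit 170521693920) (nat_lit 1) (nat_lit 4) (nat_lit 2) (nat_lit 5) (nat_lit 2) (nat_lit 4) (nat_lit 502) (nat_lit 373) (nat_lit 325))) (XT.nd (nat_lit 78) (nat_lit 0) (nat_lit 0) (XT.lf (nat_lit 0) (nat_lit 1555705556397) (nat_lit 76) (nat_lit 182224970548) (nat_lit 76) (nat_lit 181100994103) (nat_lit 1) (nat_lit 4)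 (nat_lit 2) (nat_lit 5) (nat_lit 2) (nat_lit 4) (nat_lit 503) (nat_lit 373) (nat_lit 324)) (XT.nd (nat_lit 78) (nat_lit 0) (nat_lit 0) (XT.lf (nat_lit 0) (nat_lit 1686120521373) (nat_lit 76) (nat_lit 193663257169) (nat_lit 76) (nat_lit 192537318373) (nat_lit 1) (nat_lit 4) (nat_lit 2) (nat_lit 5) (nat_lit 2) (nat_lit 4) (nat_lit 504) (nat_lit 373) (nat_lit 323)) (XT.lf (nat_lit 0) (nat_lit 1826949940726) (nat_lit 76) (nat_lit 206026193328) (nat_lit 76) (nat_lit 204898437539) (nat_lit 1) (nat_lit 4) (nat_lit 2) (nat_lit 5) (nat_lit 2) (nat_lit 4) (nat_lit 505) (nat_lit 373) (nat_lit 322))))) (XT.nd (nat_lit 234) (nat_lit 0) (nat_lit 0) (XT.nd (nat_lit 78) (nat_lit 0) (nat_lit 0) (XT.lf (nat_lit 0) (nat_lit 1979028359166) (nat_lit 76) (nat_lit 219387040867) (nat_lit 76) (nat_lit 218257602678) (nat_lit 1) (nat_lit 4) (nat_lit 2) (nat_lit 5) (nat_lit 2) (nat_lit 4) (nat_lit 506) (nat_lit 373)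 (nat_lit 321)) (XT.nd (nat_lit 78) (nat_lit 0) (nat_lit 0) (XT.lf (nat_lit 0) (nat_lit 2143256982134) (nat_lit 76) (nat_lit 233824975179) (nat_lit 76) (nat_lit 232693979212) (nat_lit 1) (nat_lit 4) (nat_lit 2) (nat_lit 5) (nat_lit 2) (nat_lit 4) (nat_lit 507) (nat_lit 373) (nat_lit 320)) (XT.lf (nat_lit 0) (nat_lit 2320609016285) (nat_lit 76) (nat_lit 249425554395) (nat_lit 76) (nat_lit 248293116041) (nat_lit 1) (nat_lit 4) (nat_lit 2) (nat_lit 5) (nat_lit 2) (nat_lit 4) (nat_lit 508) (nat_lit 373) (nat_lit 319)))) (XT.nd (nat_lit 78) (nat_lit 0) (nat_lit 0) (XT.lf (nat_lit 0) (nat_lit 2512135436636) (nat_lit 76) (nat_lit 266281226390) (nat_lit 76) (nat_lit 265147452493) (nat_lit 1) (nat_lit 4) (nat_lit 2) (nat_lit 5) (nat_lit 2) (nat_lit 4) (nat_lit 509) (nat_lit 373) (nat_lit 318)) (XT.nd (nat_lit 78) (nat_lit 0) (nat_lit 0) (XT.lf (nat_lit 0) (nat_lit 2718971214567) (nat_lit 76) (nat_lit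 284491876629) (nat_lit 76) (nat_lit 283356866118) (nat_lit 1) (nat_lit 4) (nat_lit 2) (nat_lit 5) (nat_lit 2) (nat_lit 4) (nat_lit 510) (nat_lit 373) (nat_lit 317)) (XT.lf (nat_lit 0) (nat_lit 2942342043577) (nat_lit 76) (nat_lit 304165420076) (nat_lit 76) (nat_lit 303029264551) (nat_lit 1) (nat_lit 4) (nat_lit 2) (nat_lit 5) (nat_lit 2) (nat_lit 4) (nat_lit 511) (nat_lit 373) (nat_lit 316)))))) (XT.nd (nat_lit 390) (nat_lit 0) (nat_lit 0) (XT.nd (nat_lit 156) (nat_lit 0) (nat_lit 0) (XT.nd (nat_lit 78) (nat_lit 0) (nat_lit 0) (XT.lf (nat_lit 0) (nat_lit 3183571602653) (nat_lit 76) (nat_lit 325418440692) (nat_lit 76) (nat_lit 324281224969) (nat_lit 1) (nat_lit 4) (nat_lit 2) (nat_lit 5) (nat_lit 2) (nat_lit 4) (nat_lit 512) (nat_lit 373) (nat_lit 315)) (XT.lf (nat_lit 0) (nat_lit 3444089400293) (nat_lit 76) (nat_lit 348376882303) (nat_lit 76) (nat_lit 347238684916) (nat_lit 1) (nat_lit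 4) (nat_lit 2) (nat_lit 5) (nat_lit 2) (nat_lit 4) (nat_lit 513) (nat_lit 373) (nat_lit 314))) (XT.nd (nat_lit 78) (nat_lit 0) (nat_lit 0) (XT.lf (nat_lit 0) (nat_lit 3725439245668) (nat_lit 76) (nat_lit 373176794933) (nat_lit 76) (nat_lit 372037688597) (nat_lit 1) (nat_lit 4) (nat_lit 2) (nat_lit 5) (nat_lit 2) (nat_lit 4) (nat_lit 514) (nat_lit 373) (nat_lit 313)) (XT.nd (nat_lit 78) (nat_lit 0) (nat_lit 0) (XT.lf (nat_lit 0) (nat_lit 4029288397120) (nat_lit 76) (nat_lit 399965141027) (nat_lit 76) (nat_lit 398825193072) (nat_lit 1) (nat_lit 4) (nat_lit 2) (nat_lit 5) (nat_lit 2) (nat_lit 4) (nat_lit 515) (nat_lit 373) (nat_lit 312)) (XT.lf (nat_lit 0) (nat_lit 4357437442215) (nat_lit 76) (nat_lit 428900666340) (nat_lit 76) (nat_lit 427759939109) (nat_lit 1) (nat_lit 4) (nat_lit 2) (nat_lit 5) (nat_lit 2) (nat_lit 4) (nat_lit 516) (nat_lit 373) (nat_lit 311))))) (XT.nd (nat_lit 234) (nat_lit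 0) (nat_lit 0) (XT.nd (nat_lit 78) (nat_lit 0) (nat_lit 0) (XT.lf (nat_lit 0) (nat_lit 4711830967886) (nat_lit 76) (nat_lit 460154840653) (nat_lit 76) (nat_lit 459013391869) (nat_lit 1) (nat_lit 4) (nat_lit 2) (nat_lit 5) (nat_lit 2) (nat_lit 4) (nat_lit 517) (nat_lit 373) (nat_lit 310)) (XT.nd (nat_lit 78) (nat_lit 0) (nat_lit 0) (XT.lf (nat_lit 0) (nat_lit 5094569083915) (nat_lit 76) (nat_lit 493912873885) (nat_lit 76) (nat_lit 492770756997) (nat_lit 1) (nat_lit 4) (nat_lit 2) (nat_lit 5) (nat_lit 2) (nat_lit 4) (nat_lit 518) (nat_lit 373) (nat_lit 309)) (XT.lf (nat_lit 0) (nat_lit 5507919868027) (nat_lit 76) (nat_lit 530374813643) (nat_lit 76) (nat_lit 529232078140) (nat_lit 1) (nat_lit 4) (nat_lit 2) (nat_lit 5) (nat_lit 2) (nat_lit 4) (nat_lit 519) (nat_lit 373) (nat_lit 308)))) (XT.nd (nat_lit 78) (nat_lit 0) (nat_lit 0) (XT.lf (nat_lit 0) (nat_lit 5954332806348) (nat_lit 76) (nat_lit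 569756730680) (nat_lit 76) (nat_lit 568613422385) (nat_lit 1) (nat_lit 4) (nat_lit 2) (nat_lit 5) (nat_lit 2) (nat_lit 4) (nat_lit 520) (nat_lit 373) (nat_lit 307)) (XT.nd (nat_lit 78) (nat_lit 0) (nat_lit 0) (XT.lf (nat_lit 0) (nat_lit 6436453308886) (nat_lit 76) (nat_lit 612291999319) (nat_lit 76) (nat_lit 611148160661) (nat_lit 1) (nat_lit 4) (nat_lit 2) (nat_lit 5) (nat_lit 2) (nat_lit 4) (nat_lit 521) (nat_lit 373) (nat_lit 306)) (XT.lf (nat_lit 0) (nat_lit 6957138386024) (nat_lit 76) (nat_lit 658232680411) (nat_lit 76) (nat_lit 657088350677) (nat_lit 1) (nat_lit 4) (nat_lit 2) (nat_lit 5) (nat_lit 2) (nat_lit 4) (nat_lit 522) (nat_lit 373) (nat_lit 305))))))) (XT.nd (nat_lit 57252) (nat_lit 0) (nat_lit 0) (XT.nd (nat_lit 390) (nat_lit 0) (nat_lit 0) (XT.nd (nat_lit 156) (nat_lit 0) (nat_lit 0) (XT.nd (nat_lit 78) (nat_lit 0) (nat_lit 0) (XT.lf (nat_lit 0) (nat_lit 7519473578960) (nat_lit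 76) (nat_lit 707851015030) (nat_lit 76) (nat_lit 706706230595) (nat_lit 1) (nat_lit 4) (nat_lit 2) (nat_lit 5) (nat_lit 2) (nat_lit 4) (nat_lit 523) (nat_lit 373) (nat_lit 304)) (XT.lf (nat_lit 0) (nat_lit 8126791244395) (nat_lit 76) (nat_lit 761441037751) (nat_lit 76) (nat_lit 760295832297) (nat_lit 1) (nat_lit 4) (nat_lit 2) (nat_lit 5) (nat_lit 2) (nat_lit 4) (nat_lit 524) (nat_lit 373) (nat_lit 303))) (XT.nd (nat_lit 78) (nat_lit 0) (nat_lit 0) (XT.lf (nat_lit 0) (nat_lit 8782690301825) (nat_lit 76) (nat_lit 819320319079) (nat_lit 76) (nat_lit 818174723793) (nat_lit 1) (nat_lit 4) (nat_lit 2) (nat_lit 5) (nat_lit 2) (nat_lit 4) (nat_lit 525) (nat_lit 373) (nat_lit 302)) (XT.nd (nat_lit 78) (nat_lit 0) (nat_lit 0) (XT.lf (nat_lit 0) (nat_lit 9491057560482) (nat_lit 76) (nat_lit 881831847348) (nat_lit 76) (nat_lit 880685891106) (nat_lit 1) (nat_lit 4) (nat_lit 2) (nat_lit 5) (nat_lit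 2) (nat_lit 4) (nat_lit 526) (nat_lit 373) (nat_lit 301)) (XT.lf (nat_lit 0) (nat_lit 10256090752267) (nat_lit 76) (nat_lit 949346061244) (nat_lit 76) (nat_lit 948199770783) (nat_lit 1) (nat_lit 4) (nat_lit 2) (nat_lit 5) (nat_lit 2) (nat_lit 4) (nat_lit 527) (nat_lit 373) (nat_lit 300))))) (XT.nd (nat_lit 56628) (nat_lit 0) (nat_lit 228) (XT.nd (nat_lit 78) (nat_lit 0) (nat_lit 0) (XT.lf (nat_lit 0) (nat_lit 11082323407206) (nat_lit 76) (nat_lit 1022263044997) (nat_lit 76) (nat_lit 1021116445075) (nat_lit 1) (nat_lit 4) (nat_lit 2) (nat_lit 5) (nat_lit 2) (nat_lit 4) (nat_lit 528) (nat_lit 373) (nat_lit 299)) (XT.nd (nat_lit 56472) (nat_lit 0) (nat_lit 304) (XT.lf (nat_lit 0) (nat_lit 11974651718810) (nat_lit 76) (nat_lit 1101014899253) (nat_lit 76) (nat_lit 1099868012792) (nat_lit 1) (nat_lit 4) (nat_lit 2) (nat_lit 5) (nat_lit 2) (nat_lit 4) (nat_lit 529) (nat_lit 373) (nat_lit 298))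 (XT.lf (nat_lit 0) (nat_lit 4404218807) (nat_lit 152) (nat_lit 12833247022) (nat_lit 0) (nat_lit 4404218807) (nat_lit 5) (nat_lit 5) (nat_lit 7) (nat_lit 4) (nat_lit 5) (nat_lit 4) (nat_lit 452) (nat_lit 374) (nat_lit 374)))) (XT.nd (nat_lit 78) (nat_lit 76) (nat_lit 0) (XT.lf (nat_lit 0) (nat_lit 16605966698) (nat_lit 152) (nat_lit 13057234236) (nat_lit 0) (nat_lit 16506566246) (nat_lit 5) (nat_lit 5) (nat_lit 7) (nat_lit 4) (nat_lit 5) (nat_lit 4) (nat_lit 453) (nat_lit 374) (nat_lit 373)) (XT.nd (nat_lit 78) (nat_lit 76) (nat_lit 0) (XT.lf (nat_lit 0) (nat_lit 24676233184) (nat_lit 152) (nat_lit 154146091) (nat_lit 0) (nat_lit 24484795276) (nat_lit 5) (nat_lit 5) (nat_lit 7) (nat_lit 4) (nat_lit 5) (nat_lit 4) (nat_lit 454) (nat_lit 374) (nat_lit 372)) (XT.lf (nat_lit 0) (nat_lit 13810068703) (nat_lit 76) (nat_lit 19589124655) (nat_lit 76) (nat_lit 19312466882) (nat_lit 4) (nat_lit 4)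 (nat_lit 5) (nat_lit 5) (nat_lit 5) (nat_lit 4) (nat_lit 455) (nat_lit 374) (nat_lit 371)))))) (XT.nd (nat_lit 468) (nat_lit 76) (nat_lit 0) (XT.nd (nat_lit 234) (nat_lit 152) (nat_lit 0) (XT.nd (nat_lit 78) (nat_lit 0) (nat_lit 0) (XT.lf (nat_lit 0) (nat_lit 28254989514) (nat_lit 76) (nat_lit 14252716853) (nat_lit 76) (nat_lit 13897151797) (nat_lit 4) (nat_lit 4) (nat_lit 5) (nat_lit 5) (nat_lit 5) (nat_lit 4) (nat_lit 456) (nat_lit 374) (nat_lit 370)) (XT.nd (nat_lit 78) (nat_lit 0) (nat_lit 0) (XT.lf (nat_lit 0) (nat_lit 43258098815) (nat_lit 76) (nat_lit 8793747341) (nat_lit 76) (nat_lit 8365119985) (nat_lit 4) (nat_lit 4) (nat_lit 5) (nat_lit 5) (nat_lit 5) (nat_lit 4) (nat_lit 457) (nat_lit 374) (nat_lit 369)) (XT.lf (nat_lit 0) (nat_lit 58908303917) (nat_lit 76) (nat_lit 3179866668) (nat_lit 76) (nat_lit 2683589034) (nat_lit 4) (nat_lit 4) (nat_lit 5) (nat_lit 5) (nat_lit 5) (nat_lit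 4) (nat_lit 458) (nat_lit 374) (nat_lit 368)))) (XT.nd (nat_lit 78) (nat_lit 0) (nat_lit 0) (XT.lf (nat_lit 0) (nat_lit 3235776322) (nat_lit 152) (nat_lit 63517783305) (nat_lit 0) (nat_lit 2718260786) (nat_lit 2) (nat_lit 5) (nat_lit 4) (nat_lit 4) (nat_lit 2) (nat_lit 4) (nat_lit 459) (nat_lit 374) (nat_lit 367)) (XT.nd (nat_lit 78) (nat_lit 0) (nat_lit 0) (XT.lf (nat_lit 0) (nat_lit 9473484745) (nat_lit 152) (nat_lit 56167383866) (nat_lit 0) (nat_lit 8902266238) (nat_lit 2) (nat_lit 5) (nat_lit 4) (nat_lit 4) (nat_lit 2) (nat_lit 4) (nat_lit 460) (nat_lit 374) (nat_lit 366)) (XT.lf (nat_lit 0) (nat_lit 15971971006) (nat_lit 152) (nat_lit 48716221738) (nat_lit 0) (nat_lit 15351027525) (nat_lit 2) (nat_lit 5) (nat_lit 4) (nat_lit 4) (nat_lit 2) (nat_lit 4) (nat_lit 461) (nat_lit 374) (nat_lit 365))))) (XT.nd (nat_lit 234) (nat_lit 76) (nat_lit 0) (XT.nd (nat_lit 78) (nat_lit 0) (nat_lit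 0) (XT.lf (nat_lit 0) (nat_lit 22769744651) (nat_lit 152) (nat_lit 41120141887) (nat_lit 0) (nat_lit 22102759529) (nat_lit 2) (nat_lit 5) (nat_lit 4) (nat_lit 4) (nat_lit 2) (nat_lit 4) (nat_lit 462) (nat_lit 374) (nat_lit 364)) (XT.nd (nat_lit 78) (nat_lit 0) (nat_lit 0) (XT.lf (nat_lit 0) (nat_lit 29907088784) (nat_lit 152) (nat_lit 33334130506) (nat_lit 0) (nat_lit 29197472512) (nat_lit 2) (nat_lit 5) (nat_lit 4) (nat_lit 4) (nat_lit 2) (nat_lit 4) (nat_lit 463) (nat_lit 374) (nat_lit 363)) (XT.lf (nat_lit 0) (nat_lit 37426298778) (nat_lit 152) (nat_lit 25312048267) (nat_lit 0) (nat_lit 36677209218) (nat_lit 2) (nat_lit 5) (nat_lit 4) (nat_lit 4) (nat_lit 2) (nat_lit 4) (nat_lit 464) (nat_lit 374) (nat_lit 362)))) (XT.nd (nat_lit 78) (nat_lit 76) (nat_lit 0) (XT.lf (nat_lit 0) (nat_lit 45371932913) (nat_lit 152) (nat_lit 17006356907) (nat_lit 0) (nat_lit 44586294014) (nat_lit 2) (nat_lit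 5) (nat_lit 4) (nat_lit 4) (nat_lit 2) (nat_lit 4) (nat_lit 465) (nat_lit 374) (nat_lit 361)) (XT.nd (nat_lit 78) (nat_lit 76) (nat_lit 0) (XT.lf (nat_lit 0) (nat_lit 53791076430) (nat_lit 152) (nat_lit 8367837513) (nat_lit 0) (nat_lit 52971595549) (nat_lit 2) (nat_lit 5) (nat_lit 4) (nat_lit 4) (nat_lit 2) (nat_lit 4) (nat_lit 466) (nat_lit 374) (nat_lit 360)) (XT.lf (nat_lit 0) (nat_lit 689176541) (nat_lit 76) (nat_lit 62061018719) (nat_lit 76) (nat_lit 61210202671) (nat_lit 1) (nat_lit 4) (nat_lit 2) (nat_lit 5) (nat_lit 2) (nat_lit 4) (nat_lit 467) (nat_lit 374) (nat_lit 359))))))))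
noncomputable def xc34 : XT := (XT.nd (nat_lit 1716) (nat_lit 0) (nat_lit 0) (XT.nd (nat_lit 858) (nat_lit 0) (nat_lit 0) (XT.nd (nat_lit 390) (nat_lit 0) (nat_lit 0) (XT.nd (nat_lit 156) (nat_lit 0) (nat_lit 0) (XT.nd (nat_lit 78) (nat_lit 0) (nat_lit 0) (XT.lf (nat_lit 0) (nat_lit 10647349492) (nat_lit 76) (nat_lit 61861277642) (nat_lit 76) (nat_lit 60981447549) (nat_lit 1) (nat_lit 4) (nat_lit 2) (nat_lit 5) (nat_lit 2) (nat_lit 4) (nat_lit 468) (nat_lit 374) (nat_lit 358)) (XT.lf (nat_lit 0) (nat_lit 21125057240) (nat_lit 76) (nat_lit 61787298568) (nat_lit 76) (nat_lit 60880603619) (nat_lit 1) (nat_lit 4) (nat_lit 2) (nat_lit 5) (nat_lit 2) (nat_lit 4) (nat_lit 469) (nat_lit 374) (nat_lit 357))) (XT.nd (nat_lit 78) (nat_lit 0) (nat_lit 0) (XT.lf (nat_lit 0) (nat_lit 32184389904) (nat_lit 76) (nat_lit 61838643102) (nat_lit 76) (nat_lit 60907073287) (nat_lit 1) (nat_lit 4) (nat_lit 2)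 (nat_lit 5) (nat_lit 2) (nat_lit 4) (nat_lit 470) (nat_lit 374) (nat_lit 356)) (XT.nd (nat_lit 78) (nat_lit 0) (nat_lit 0) (XT.lf (nat_lit 0) (nat_lit 43890884270) (nat_lit 76) (nat_lit 62015615509) (nat_lit 76) (nat_lit 61061013410) (nat_lit 1) (nat_lit 4) (nat_lit 2) (nat_lit 5) (nat_lit 2) (nat_lit 4) (nat_lit 471) (nat_lit 374) (nat_lit 355)) (XT.lf (nat_lit 0) (nat_lit 56313912157) (nat_lit 76) (nat_lit 62319264513) (nat_lit 76) (nat_lit 61343336226) (nat_lit 1) (nat_lit 4) (nat_lit 2) (nat_lit 5) (nat_lit 2) (nat_lit 4) (nat_lit 472) (nat_lit 374) (nat_lit 354))))) (XT.nd (nat_lit 234) (nat_lit 0) (nat_lit 0) (XT.nd (nat_lit 78) (nat_lit 0) (nat_lit 0) (XT.lf (nat_lit 0) (nat_lit 69527091509) (nat_lit 76) (nat_lit 62751389517) (nat_lit 76) (nat_lit 61755714758) (nat_lit 1) (nat_lit 4) (nat_lit 2) (nat_lit 5) (nat_lit 2) (nat_lit 4) (nat_lit 473) (nat_lit 374) (nat_lit 353)) (XT.nd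 (nat_lit 78) (nat_lit 0) (nat_lit 0) (XT.lf (nat_lit 0) (nat_lit 83608722646) (nat_lit 76) (nat_lit 63314551261) (nat_lit 76) (nat_lit 62300592733) (nat_lit 1) (nat_lit 4) (nat_lit 2) (nat_lit 5) (nat_lit 2) (nat_lit 4) (nat_lit 474) (nat_lit 374) (nat_lit 352)) (XT.lf (nat_lit 0) (nat_lit 98642252273) (nat_lit 76) (nat_lit 64012087000) (nat_lit 76) (nat_lit 62981199055) (nat_lit 1) (nat_lit 4) (nat_lit 2) (nat_lit 5) (nat_lit 2) (nat_lit 4) (nat_lit 475) (nat_lit 374) (nat_lit 351)))) (XT.nd (nat_lit 78) (nat_lit 0) (nat_lit 0) (XT.lf (nat_lit 0) (nat_lit 114716767972) (nat_lit 76) (nat_lit 64848130279) (nat_lit 76) (nat_lit 63801566949) (nat_lit 1) (nat_lit 4) (nat_lit 2) (nat_lit 5) (nat_lit 2) (nat_lit 4) (nat_lit 476) (nat_lit 374) (nat_lit 350)) (XT.nd (nat_lit 78) (nat_lit 0) (nat_lit 0) (XT.lf (nat_lit 0) (nat_lit 131927526132) (nat_lit 76) (nat_lit 65827635428) (nat_lit 76) (nat_lit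 64766557852) (nat_lit 1) (nat_lit 4) (nat_lit 2) (nat_lit 5) (nat_lit 2) (nat_lit 4) (nat_lit 477) (nat_lit 374) (nat_lit 349)) (XT.lf (nat_lit 0) (nat_lit 150376516432) (nat_lit 76) (nat_lit 66956406923) (nat_lit 76) (nat_lit 65881890231) (nat_lit 1) (nat_lit 4) (nat_lit 2) (nat_lit 5) (nat_lit 2) (nat_lit 4) (nat_lit 478) (nat_lit 374) (nat_lit 348)))))) (XT.nd (nat_lit 390) (nat_lit 0) (nat_lit 0) (XT.nd (nat_lit 156) (nat_lit 0) (nat_lit 0) (XT.nd (nat_lit 78) (nat_lit 0) (nat_lit 0) (XT.lf (nat_lit 0) (nat_lit 170173066221) (nat_lit 76) (nat_lit 68241133779) (nat_lit 76) (nat_lit 67154173461) (nat_lit 1) (nat_lit 4) (nat_lit 2) (nat_lit 5) (nat_lit 2) (nat_lit 4) (nat_lit 479) (nat_lit 374) (nat_lit 347)) (XT.lf (nat_lit 0) (nat_lit 191434488387) (nat_lit 76) (nat_lit 69689429194) (nat_lit 76) (nat_lit 68590946999) (nat_lit 1) (nat_lit 4) (nat_lit 2) (nat_lit 5) (nat_lit 2) (nat_lit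 4) (nat_lit 480) (nat_lit 374) (nat_lit 346))) (XT.nd (nat_lit 78) (nat_lit 0) (nat_lit 0) (XT.lf (nat_lit 0) (nat_lit 214286776543) (nat_lit 76) (nat_lit 71309875658) (nat_lit 76) (nat_lit 70200725059) (nat_lit 1) (nat_lit 4) (nat_lit 2) (nat_lit 5) (nat_lit 2) (nat_lit 4) (nat_lit 481) (nat_lit 374) (nat_lit 345)) (XT.nd (nat_lit 78) (nat_lit 0) (nat_lit 0) (XT.lf (nat_lit 0) (nat_lit 238865351655) (nat_lit 76) (nat_lit 73112075816) (nat_lit 76) (nat_lit 71993047066) (nat_lit 1) (nat_lit 4) (nat_lit 2) (nat_lit 5) (nat_lit 2) (nat_lit 4) (nat_lit 482) (nat_lit 374) (nat_lit 344)) (XT.lf (nat_lit 0) (nat_lit 265315864540) (nat_lit 76) (nat_lit 75106709375) (nat_lit 76) (nat_lit 73978534188) (nat_lit 1) (nat_lit 4) (nat_lit 2) (nat_lit 5) (nat_lit 2) (nat_lit 4) (nat_lit 483) (nat_lit 374) (nat_lit 343))))) (XT.nd (nat_lit 234) (nat_lit 0) (nat_lit 0) (XT.nd (nat_lit 78) (nat_lit 0) (nat_lit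 0) (XT.lf (nat_lit 0) (nat_lit 293795058977) (nat_lit 76) (nat_lit 77305596383) (nat_lit 76) (nat_lit 76168952273) (nat_lit 1) (nat_lit 4) (nat_lit 2) (nat_lit 5) (nat_lit 2) (nat_lit 4) (nat_lit 484) (nat_lit 374) (nat_lit 342)) (XT.nd (nat_lit 78) (nat_lit 0) (nat_lit 0) (XT.lf (nat_lit 0) (nat_lit 324471700563) (nat_lit 76) (nat_lit 79721767284) (nat_lit 76) (nat_lit 78577281578) (nat_lit 1) (nat_lit 4) (nat_lit 2) (nat_lit 5) (nat_lit 2) (nat_lit 4) (nat_lit 485) (nat_lit 374) (nat_lit 341)) (XT.lf (nat_lit 0) (nat_lit 357527576803) (nat_lit 76) (nat_lit 82369540126) (nat_lit 76) (nat_lit 81217793684) (nat_lit 1) (nat_lit 4) (nat_lit 2) (nat_lit 5) (nat_lit 2) (nat_lit 4) (nat_lit 486) (nat_lit 374) (nat_lit 340)))) (XT.nd (nat_lit 78) (nat_lit 0) (nat_lit 0) (XT.lf (nat_lit 0) (nat_lit 393158574372) (nat_lit 76) (nat_lit 85264605415) (nat_lit 76) (nat_lit 84106136070) (nat_lit 1) (nat_lit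 4) (nat_lit 2) (nat_lit 5) (nat_lit 2) (nat_lit 4) (nat_lit 487) (nat_lit 374) (nat_lit 339)) (XT.nd (nat_lit 78) (nat_lit 0) (nat_lit 0) (XT.lf (nat_lit 0) (nat_lit 431575839922) (nat_lit 76) (nat_lit 88424119095) (nat_lit 76) (nat_lit 87259424838) (nat_lit 1) (nat_lit 4) (nat_lit 2) (nat_lit 5) (nat_lit 2) (nat_lit 4) (nat_lit 488) (nat_lit 374) (nat_lit 338)) (XT.lf (nat_lit 0) (nat_lit 473007031323) (nat_lit 76) (nat_lit 91866804208) (nat_lit 76) (nat_lit 90696346144) (nat_lit 1) (nat_lit 4) (nat_lit 2) (nat_lit 5) (nat_lit 2) (nat_lit 4) (nat_lit 489) (nat_lit 374) (nat_lit 337))))))) (XT.nd (nat_lit 858) (nat_lit 0) (nat_lit 0) (XT.nd (nat_lit 390) (nat_lit 0) (nat_lit 0) (XT.nd (nat_lit 156) (nat_lit 0) (nat_lit 0) (XT.nd (nat_lit 78) (nat_lit 0) (nat_lit 0) (XT.lf (nat_lit 0) (nat_lit 517697666746) (nat_lit 76) (nat_lit 95613061852) (nat_lit 76) (nat_lit 94437266930) (nat_lit 1)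 (nat_lit 4) (nat_lit 2) (nat_lit 5) (nat_lit 2) (nat_lit 4) (nat_lit 490) (nat_lit 374) (nat_lit 336)) (XT.lf (nat_lit 0) (nat_lit 565912579586) (nat_lit 76) (nat_lit 99685092072) (nat_lit 76) (nat_lit 98504355615) (nat_lit 1) (nat_lit 4) (nat_lit 2) (nat_lit 5) (nat_lit 2) (nat_lit 4) (nat_lit 491) (nat_lit 374) (nat_lit 335))) (XT.nd (nat_lit 78) (nat_lit 0) (nat_lit 0) (XT.lf (nat_lit 0) (nat_lit 617937487845) (nat_lit 76) (nat_lit 104107025418) (nat_lit 76) (nat_lit 102921713466) (nat_lit 1) (nat_lit 4) (nat_lit 2) (nat_lit 5) (nat_lit 2) (nat_lit 4) (nat_lit 492) (nat_lit 374) (nat_lit 334)) (XT.nd (nat_lit 78) (nat_lit 0) (nat_lit 0) (XT.lf (nat_lit 0) (nat_lit 674080687276) (nat_lit 76) (nat_lit 108905065939) (nat_lit 76) (nat_lit 107715517417) (nat_lit 1) (nat_lit 4) (nat_lit 2) (nat_lit 5) (nat_lit 2) (nat_lit 4) (nat_lit 493) (nat_lit 374) (nat_lit 333)) (XT.lf (nat_lit 0) (nat_lit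 734674878320) (nat_lit 76) (nat_lit 114107646468) (nat_lit 76) (nat_lit 112914175195) (nat_lit 1) (nat_lit 4) (nat_lit 2) (nat_lit 5) (nat_lit 2) (nat_lit 4) (nat_lit 494) (nat_lit 374) (nat_lit 332))))) (XT.nd (nat_lit 234) (nat_lit 0) (nat_lit 0) (XT.nd (nat_lit 78) (nat_lit 0) (nat_lit 0) (XT.lf (nat_lit 0) (nat_lit 800079137664) (nat_lit 76) (nat_lit 119745597111) (nat_lit 76) (nat_lit 118548493663) (nat_lit 1) (nat_lit 4) (nat_lit 2) (nat_lit 5) (nat_lit 2) (nat_lit 4) (nat_lit 495) (nat_lit 374) (nat_lit 331)) (XT.nd (nat_lit 78) (nat_lit 0) (nat_lit 0) (XT.lf (nat_lit 0) (nat_lit 870681046105) (nat_lit 76) (nat_lit 125852327947) (nat_lit 76) (nat_lit 124651861372) (nat_lit 1) (nat_lit 4) (nat_lit 2) (nat_lit 5) (nat_lit 2) (nat_lit 4) (nat_lit 496) (nat_lit 374) (nat_lit 330)) (XT.lf (nat_lit 0) (nat_lit 946898985323) (nat_lit 76) (nat_lit 132464027009) (nat_lit 76) (nat_lit 131260446430)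 (nat_lit 1) (nat_lit 4) (nat_lit 2) (nat_lit 5) (nat_lit 2) (nat_lit 4) (nat_lit 497) (nat_lit 374) (nat_lit 329)))) (XT.nd (nat_lit 78) (nat_lit 0) (nat_lit 0) (XT.lf (nat_lit 0) (nat_lit 1029184617179) (nat_lit 76) (nat_lit 139619874738) (nat_lit 76) (nat_lit 138413410820) (nat_lit 1) (nat_lit 4) (nat_lit 2) (nat_lit 5) (nat_lit 2) (nat_lit 4) (nat_lit 498) (nat_lit 374) (nat_lit 328)) (XT.nd (nat_lit 78) (nat_lit 0) (nat_lit 0) (XT.lf (nat_lit 0) (nat_lit 1118025560232) (nat_lit 76) (nat_lit 147362276156) (nat_lit 76) (nat_lit 146153142481) (nat_lit 1) (nat_lit 4) (nat_lit 2) (nat_lit 5) (nat_lit 2) (nat_lit 4) (nat_lit 499) (nat_lit 374) (nat_lit 327)) (XT.lf (nat_lit 0) (nat_lit 1213948279330) (nat_lit 76) (nat_lit 155737112161) (nat_lit 76) (nat_lit 154525506488) (nat_lit 1) (nat_lit 4) (nat_lit 2) (nat_lit 5) (nat_lit 2) (nat_lit 4) (nat_lit 500) (nat_lit 374) (nat_lit 326))))))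 (XT.nd (nat_lit 468) (nat_lit 0) (nat_lit 0) (XT.nd (nat_lit 234) (nat_lit 0) (nat_lit 0) (XT.nd (nat_lit 78) (nat_lit 0) (nat_lit 0) (XT.lf (nat_lit 0) (nat_lit 1317521205402) (nat_lit 76) (nat_lit 164794011411) (nat_lit 76) (nat_lit 163580116851) (nat_lit 1) (nat_lit 4) (nat_lit 2) (nat_lit 5) (nat_lit 2) (nat_lit 4) (nat_lit 501) (nat_lit 374) (nat_lit 325)) (XT.nd (nat_lit 78) (nat_lit 0) (nat_lit 0) (XT.lf (nat_lit 0) (nat_lit 1429358103935) (nat_lit 76) (nat_lit 174586644419) (nat_lit 76) (nat_lit 173370630519) (nat_lit 1) (nat_lit 4) (nat_lit 2) (nat_lit 5) (nat_lit 2) (nat_lit 4) (nat_lit 502) (nat_lit 374) (nat_lit 324)) (XT.lf (nat_lit 0) (nat_lit 1550121712105) (nat_lit 76) (nat_lit 185173041604) (nat_lit 76) (nat_lit 183955065353) (nat_lit 1) (nat_lit 4) (nat_lit 2) (nat_lit 5) (nat_lit 2) (nat_lit 4) (nat_lit 503) (nat_lit 374) (nat_lit 323)))) (XT.nd (nat_lit 78) (nat_lit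 0) (nat_lit 0) (XT.lf (nat_lit 0) (nat_lit 1680527666109) (nat_lit 76) (nat_lit 196615937171) (nat_lit 76) (nat_lit 195396143927) (nat_lit 1) (nat_lit 4) (nat_lit 2) (nat_lit 5) (nat_lit 2) (nat_lit 4) (nat_lit 504) (nat_lit 374) (nat_lit 322)) (XT.nd (nat_lit 78) (nat_lit 0) (nat_lit 0) (XT.lf (nat_lit 0) (nat_lit 1821348741971) (nat_lit 76) (nat_lit 208983140872) (nat_lit 76) (nat_lit 207761665228) (nat_lit 1) (nat_lit 4) (nat_lit 2) (nat_lit 5) (nat_lit 2) (nat_lit 4) (nat_lit 505) (nat_lit 374) (nat_lit 321)) (XT.lf (nat_lit 0) (nat_lit 1973419434956) (nat_lit 76) (nat_lit 222347939839) (nat_lit 76) (nat_lit 221124906417) (nat_lit 1) (nat_lit 4) (nat_lit 2) (nat_lit 5) (nat_lit 2) (nat_lit 4) (nat_lit 506) (nat_lit 374) (nat_lit 320))))) (XT.nd (nat_lit 234) (nat_lit 0) (nat_lit 0) (XT.nd (nat_lit 78) (nat_lit 0) (nat_lit 0) (XT.lf (nat_lit 0) (nat_lit 2137640904725) (nat_lit 76) (nat_lit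 236789532882) (nat_lit 76) (nat_lit 235565057072) (nat_lit 1) (nat_lit 4) (nat_lit 2) (nat_lit 5) (nat_lit 2) (nat_lit 4) (nat_lit 507) (nat_lit 374) (nat_lit 319)) (XT.nd (nat_lit 78) (nat_lit 0) (nat_lit 0) (XT.lf (nat_lit 0) (nat_lit 2314986315543) (nat_lit 76) (nat_lit 252393499810) (nat_lit 76) (nat_lit 251167688457) (nat_lit 1) (nat_lit 4) (nat_lit 2) (nat_lit 5) (nat_lit 2) (nat_lit 4) (nat_lit 508) (nat_lit 374) (nat_lit 318)) (XT.lf (nat_lit 0) (nat_lit 2506506603179) (nat_lit 76) (nat_lit 269252308577) (nat_lit 76) (nat_lit 268025260609) (nat_lit 1) (nat_lit 4) (nat_lit 2) (nat_lit 5) (nat_lit 2) (nat_lit 4) (nat_lit 509) (nat_lit 374) (nat_lit 317)))) (XT.nd (nat_lit 78) (nat_lit 0) (nat_lit 0) (XT.lf (nat_lit 0) (nat_lit 2713336702670) (nat_lit 76) (nat_lit 287465863233) (nat_lit 76) (nat_lit 286237670253) (nat_lit 1) (nat_lit 4) (nat_lit 2) (nat_lit 5) (nat_lit 2) (nat_lit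 4) (nat_lit 510) (nat_lit 374) (nat_lit 316)) (XT.nd (nat_lit 78) (nat_lit 0) (nat_lit 0) (XT.lf (nat_lit 0) (nat_lit 2936702273865) (nat_lit 76) (nat_lit 307142095956) (nat_lit 76) (nat_lit 305912842778) (nat_lit 1) (nat_lit 4) (nat_lit 2) (nat_lit 5) (nat_lit 2) (nat_lit 4) (nat_lit 511) (nat_lit 374) (nat_lit 315)) (XT.lf (nat_lit 0) (nat_lit 3177926964593) (nat_lit 76) (nat_lit 328397606641) (nat_lit 76) (nat_lit 327167371799) (nat_lit 1) (nat_lit 4) (nat_lit 2) (nat_lit 5) (nat_lit 2) (nat_lit 4) (nat_lit 512) (nat_lit 374) (nat_lit 314))))))))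
noncomputable def xc35 : XT := (XT.nd (nat_lit 57954) (nat_lit 0) (nat_lit 0) (XT.nd (nat_lit 858) (nat_lit 0) (nat_lit 0) (XT.nd (nat_lit 390) (nat_lit 0) (nat_lit 0) (XT.nd (nat_lit 156) (nat_lit 0) (nat_lit 0) (XT.nd (nat_lit 78) (nat_lit 0) (nat_lit 0) (XT.lf (nat_lit 0) (nat_lit 3438440254504) (nat_lit 76) (nat_lit 351358353872) (nat_lit 76) (nat_lit 350127210082) (nat_lit 1) (nat_lit 4) (nat_lit 2) (nat_lit 5) (nat_lit 2) (nat_lit 4) (nat_lit 513) (nat_lit 374) (nat_lit 313)) (XT.lf (nat_lit 0) (nat_lit 3719785926056) (nat_lit 76) (nat_lit 376160401336) (nat_lit 76) (nat_lit 374928415926) (nat_lit 1) (nat_lit 4) (nat_lit 2) (nat_lit 5) (nat_lit 2) (nat_lit 4) (nat_lit 514) (nat_lit 374) (nat_lit 312))) (XT.nd (nat_lit 78) (nat_lit 0) (nat_lit 0) (XT.lf (nat_lit 0) (nat_lit 4023631212858) (nat_lit 76) (nat_lit 402950724128) (nat_lit 76) (nat_lit 401717959442) (nat_lit 1) (nat_lit 4)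 (nat_lit 2) (nat_lit 5) (nat_lit 2) (nat_lit 4) (nat_lit 515) (nat_lit 374) (nat_lit 311)) (XT.nd (nat_lit 78) (nat_lit 0) (nat_lit 0) (XT.lf (nat_lit 0) (nat_lit 4351776679572) (nat_lit 76) (nat_lit 431888079718) (nat_lit 76) (nat_lit 430654593478) (nat_lit 1) (nat_lit 4) (nat_lit 2) (nat_lit 5) (nat_lit 2) (nat_lit 4) (nat_lit 516) (nat_lit 374) (nat_lit 310)) (XT.lf (nat_lit 0) (nat_lit 4706166891928) (nat_lit 76) (nat_lit 463143948730) (nat_lit 76) (nat_lit 461909794386) (nat_lit 1) (nat_lit 4) (nat_lit 2) (nat_lit 5) (nat_lit 2) (nat_lit 4) (nat_lit 517) (nat_lit 374) (nat_lit 309))))) (XT.nd (nat_lit 234) (nat_lit 0) (nat_lit 0) (XT.nd (nat_lit 78) (nat_lit 0) (nat_lit 0) (XT.lf (nat_lit 0) (nat_lit 5088901940072) (nat_lit 76) (nat_lit 496903551129) (nat_lit 76) (nat_lit 495668778170) (nat_lit 1) (nat_lit 4) (nat_lit 2) (nat_lit 5) (nat_lit 2) (nat_lit 4) (nat_lit 518) (nat_lit 374)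 (nat_lit 308)) (XT.nd (nat_lit 78) (nat_lit 0) (nat_lit 0) (XT.lf (nat_lit 0) (nat_lit 5502249883550) (nat_lit 76) (nat_lit 533366943818) (nat_lit 76) (nat_lit 532131598068) (nat_lit 1) (nat_lit 4) (nat_lit 2) (nat_lit 5) (nat_lit 2) (nat_lit 4) (nat_lit 519) (nat_lit 374) (nat_lit 307)) (XT.lf (nat_lit 0) (nat_lit 5948660191655) (nat_lit 76) (nat_lit 572750206163) (nat_lit 76) (nat_lit 571514330049) (nat_lit 1) (nat_lit 4) (nat_lit 2) (nat_lit 5) (nat_lit 2) (nat_lit 4) (nat_lit 520) (nat_lit 374) (nat_lit 306)))) (XT.nd (nat_lit 78) (nat_lit 0) (nat_lit 0) (XT.lf (nat_lit 0) (nat_lit 6430778258807) (nat_lit 76) (nat_lit 615286720456) (nat_lit 76) (nat_lit 614050353267) (nat_lit 1) (nat_lit 4) (nat_lit 2) (nat_lit 5) (nat_lit 2) (nat_lit 4) (nat_lit 521) (nat_lit 374) (nat_lit 305)) (XT.nd (nat_lit 78) (nat_lit 0) (nat_lit 0) (XT.lf (nat_lit 0) (nat_lit 6951461080958) (nat_lit 76) (nat_lit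 661228554933) (nat_lit 76) (nat_lit 659991733043) (nat_lit 1) (nat_lit 4) (nat_lit 2) (nat_lit 5) (nat_lit 2) (nat_lit 4) (nat_lit 522) (nat_lit 374) (nat_lit 304)) (XT.lf (nat_lit 0) (nat_lit 7513794185944) (nat_lit 76) (nat_lit 710847957500) (nat_lit 76) (nat_lit 709610714591) (nat_lit 1) (nat_lit 4) (nat_lit 2) (nat_lit 5) (nat_lit 2) (nat_lit 4) (nat_lit 523) (nat_lit 374) (nat_lit 303)))))) (XT.nd (nat_lit 390) (nat_lit 0) (nat_lit 0) (XT.nd (nat_lit 156) (nat_lit 0) (nat_lit 0) (XT.nd (nat_lit 78) (nat_lit 0) (nat_lit 0) (XT.lf (nat_lit 0) (nat_lit 8121109918090) (nat_lit 76) (nat_lit 764438969062) (nat_lit 76) (nat_lit 763201336321) (nat_lit 1) (nat_lit 4) (nat_lit 2) (nat_lit 5) (nat_lit 2) (nat_lit 4) (nat_lit 524) (nat_lit 374) (nat_lit 302)) (XT.lf (nat_lit 0) (nat_lit 8777007185440) (nat_lit 76) (nat_lit 822319165984) (nat_lit 76) (nat_lit 821081172286) (nat_lit 1) (nat_lit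 4) (nat_lit 2) (nat_lit 5) (nat_lit 2) (nat_lit 4) (nat_lit 525) (nat_lit 374) (nat_lit 301))) (XT.nd (nat_lit 78) (nat_lit 0) (nat_lit 0) (XT.lf (nat_lit 0) (nat_lit 9485372786614) (nat_lit 76) (nat_lit 884831542025) (nat_lit 76) (nat_lit 883593214109) (nat_lit 1) (nat_lit 4) (nat_lit 2) (nat_lit 5) (nat_lit 2) (nat_lit 4) (nat_lit 526) (nat_lit 374) (nat_lit 300)) (XT.nd (nat_lit 78) (nat_lit 0) (nat_lit 0) (XT.lf (nat_lit 0) (nat_lit 10250404443693) (nat_lit 76) (nat_lit 952346540895) (nat_lit 76) (nat_lit 951107903517) (nat_lit 1) (nat_lit 4) (nat_lit 2) (nat_lit 5) (nat_lit 2) (nat_lit 4) (nat_lit 527) (nat_lit 374) (nat_lit 299)) (XT.lf (nat_lit 0) (nat_lit 11076635677608) (nat_lit 76) (nat_lit 1025264251476) (nat_lit 76) (nat_lit 1024025327559) (nat_lit 1) (nat_lit 4) (nat_lit 2) (nat_lit 5) (nat_lit 2) (nat_lit 4) (nat_lit 528) (nat_lit 374) (nat_lit 298))))) (XT.nd (nat_lit 56472)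 (nat_lit 0) (nat_lit 304) (XT.nd (nat_lit 56316) (nat_lit 0) (nat_lit 304) (XT.lf (nat_lit 0) (nat_lit 11968962673449) (nat_lit 76) (nat_lit 1104016778719) (nat_lit 76) (nat_lit 1102777589490) (nat_lit 1) (nat_lit 4) (nat_lit 2) (nat_lit 5) (nat_lit 2) (nat_lit 4) (nat_lit 529) (nat_lit 374) (nat_lit 297)) (XT.nd (nat_lit 78) (nat_lit 152) (nat_lit 0) (XT.lf (nat_lit 0) (nat_lit 13379985972) (nat_lit 76) (nat_lit 2849817450) (nat_lit 76) (nat_lit 2849817450) (nat_lit 7) (nat_lit 4) (nat_lit 8) (nat_lit 5) (nat_lit 8) (nat_lit 4) (nat_lit 450) (nat_lit 375) (nat_lit 375)) (XT.lf (nat_lit 0) (nat_lit 1344790843) (nat_lit 152) (nat_lit 38056647054) (nat_lit 0) (nat_lit 1237438355) (nat_lit 5) (nat_lit 5) (nat_lit 7) (nat_lit 4) (nat_lit 5) (nat_lit 4) (nat_lit 451) (nat_lit 375) (nat_lit 374)))) (XT.nd (nat_lit 78) (nat_lit 0) (nat_lit 0) (XT.lf (nat_lit 0) (nat_lit 8733506392) (nat_lit 152)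 (nat_lit 26037698584) (nat_lit 0) (nat_lit 8526753453) (nat_lit 5) (nat_lit 5) (nat_lit 7) (nat_lit 4) (nat_lit 5) (nat_lit 4) (nat_lit 452) (nat_lit 375) (nat_lit 373)) (XT.nd (nat_lit 78) (nat_lit 0) (nat_lit 0) (XT.lf (nat_lit 0) (nat_lit 16362254262) (nat_lit 152) (nat_lit 13772146683) (nat_lit 0) (nat_lit 16063463867) (nat_lit 5) (nat_lit 5) (nat_lit 7) (nat_lit 4) (nat_lit 5) (nat_lit 4) (nat_lit 453) (nat_lit 375) (nat_lit 372)) (XT.lf (nat_lit 0) (nat_lit 24276241846) (nat_lit 152) (nat_lit 1187306601) (nat_lit 0) (nat_lit 23892231585) (nat_lit 5) (nat_lit 5) (nat_lit 7) (nat_lit 4) (nat_lit 5) (nat_lit 4) (nat_lit 454) (nat_lit 375) (nat_lit 371))))))) (XT.nd (nat_lit 858) (nat_lit 76) (nat_lit 0) (XT.nd (nat_lit 390) (nat_lit 0) (nat_lit 0) (XT.nd (nat_lit 156) (nat_lit 152) (nat_lit 0) (XT.nd (nat_lit 78) (nat_lit 0) (nat_lit 0) (XT.lf (nat_lit 0) (nat_lit 12412312642) (nat_lit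 76) (nat_lit 20408570625) (nat_lit 76) (nat_lit 19945653081) (nat_lit 4) (nat_lit 4) (nat_lit 5) (nat_lit 5) (nat_lit 5) (nat_lit 4) (nat_lit 455) (nat_lit 375) (nat_lit 370)) (XT.lf (nat_lit 0) (nat_lit 26570019426) (nat_lit 76) (nat_lit 15218485378) (nat_lit 76) (nat_lit 14682505534) (nat_lit 4) (nat_lit 4) (nat_lit 5) (nat_lit 5) (nat_lit 5) (nat_lit 4) (nat_lit 456) (nat_lit 375) (nat_lit 369))) (XT.nd (nat_lit 78) (nat_lit 152) (nat_lit 0) (XT.lf (nat_lit 0) (nat_lit 41307189812) (nat_lit 76) (nat_lit 9894999712) (nat_lit 76) (nat_lit 9291369591) (nat_lit 4) (nat_lit 4) (nat_lit 5) (nat_lit 5) (nat_lit 5) (nat_lit 4) (nat_lit 457) (nat_lit 375) (nat_lit 368)) (XT.nd (nat_lit 78) (nat_lit 152) (nat_lit 0) (XT.lf (nat_lit 0) (nat_lit 56711155179) (nat_lit 76) (nat_lit 4406567045) (nat_lit 76) (nat_lit 3740297778) (nat_lit 4) (nat_lit 4) (nat_lit 5) (nat_lit 5) (nat_lit 5) (nat_lit 4)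 (nat_lit 458) (nat_lit 375) (nat_lit 367)) (XT.lf (nat_lit 0) (nat_lit 2019415993) (nat_lit 152) (nat_lit 66208905363) (nat_lit 0) (nat_lit 1348797034) (nat_lit 2) (nat_lit 5) (nat_lit 4) (nat_lit 4) (nat_lit 2) (nat_lit 4) (nat_lit 459) (nat_lit 375) (nat_lit 366))))) (XT.nd (nat_lit 234) (nat_lit 0) (nat_lit 0) (XT.nd (nat_lit 78) (nat_lit 0) (nat_lit 0) (XT.lf (nat_lit 0) (nat_lit 8142586514) (nat_lit 152) (nat_lit 59092769994) (nat_lit 0) (nat_lit 7422242582) (nat_lit 2) (nat_lit 5) (nat_lit 4) (nat_lit 4) (nat_lit 2) (nat_lit 4) (nat_lit 460) (nat_lit 375) (nat_lit 365)) (XT.nd (nat_lit 78) (nat_lit 0) (nat_lit 0) (XT.lf (nat_lit 0) (nat_lit 14535019161) (nat_lit 152) (nat_lit 51858519043) (nat_lit 0) (nat_lit 13768633587) (nat_lit 2) (nat_lit 5) (nat_lit 4) (nat_lit 4) (nat_lit 2) (nat_lit 4) (nat_lit 461) (nat_lit 375) (nat_lit 364)) (XT.lf (nat_lit 0) (nat_lit 21234595016) (nat_lit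 152) (nat_lit 44463282873) (nat_lit 0) (nat_lit 20425578292) (nat_lit 2) (nat_lit 5) (nat_lit 4) (nat_lit 4) (nat_lit 2) (nat_lit 4) (nat_lit 462) (nat_lit 375) (nat_lit 363)))) (XT.nd (nat_lit 78) (nat_lit 0) (nat_lit 0) (XT.lf (nat_lit 0) (nat_lit 28281015269) (nat_lit 152) (nat_lit 36863237864) (nat_lit 0) (nat_lit 27432525258) (nat_lit 2) (nat_lit 5) (nat_lit 4) (nat_lit 4) (nat_lit 2) (nat_lit 4) (nat_lit 463) (nat_lit 375) (nat_lit 362)) (XT.nd (nat_lit 78) (nat_lit 0) (nat_lit 0) (XT.lf (nat_lit 0) (nat_lit 35716036485) (nat_lit 152) (nat_lit 29013346711) (nat_lit 0) (nat_lit 34830997134) (nat_lit 2) (nat_lit 5) (nat_lit 4) (nat_lit 4) (nat_lit 2) (nat_lit 4) (nat_lit 464) (nat_lit 375) (nat_lit 361)) (XT.lf (nat_lit 0) (nat_lit 43583718048) (nat_lit 152) (nat_lit 20867091540) (nat_lit 0) (nat_lit 42664836716) (nat_lit 2) (nat_lit 5) (nat_lit 4) (nat_lit 4) (nat_lit 2) (nat_lit 4)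 (nat_lit 465) (nat_lit 375) (nat_lit 360)))))) (XT.nd (nat_lit 468) (nat_lit 0) (nat_lit 0) (XT.nd (nat_lit 234) (nat_lit 0) (nat_lit 0) (XT.nd (nat_lit 78) (nat_lit 76) (nat_lit 0) (XT.lf (nat_lit 0) (nat_lit 51930683258) (nat_lit 152) (nat_lit 12376198248) (nat_lit 0) (nat_lit 50980466757) (nat_lit 2) (nat_lit 5) (nat_lit 4) (nat_lit 4) (nat_lit 2) (nat_lit 4) (nat_lit 466) (nat_lit 375) (nat_lit 359)) (XT.nd (nat_lit 78) (nat_lit 76) (nat_lit 0) (XT.lf (nat_lit 0) (nat_lit 60806395610) (nat_lit 152) (nat_lit 3490350430) (nat_lit 0) (nat_lit 59827165066) (nat_lit 2) (nat_lit 5) (nat_lit 4) (nat_lit 4) (nat_lit 2) (nat_lit 4) (nat_lit 467) (nat_lit 375) (nat_lit 358)) (XT.lf (nat_lit 0) (nat_lit 6150796545) (nat_lit 76) (nat_lit 64260582180) (nat_lit 76) (nat_lit 63254486780) (nat_lit 1) (nat_lit 4) (nat_lit 2) (nat_lit 5) (nat_lit 2) (nat_lit 4) (nat_lit 468) (nat_lit 375) (nat_lit 357))))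 (XT.nd (nat_lit 78) (nat_lit 0) (nat_lit 0) (XT.lf (nat_lit 0) (nat_lit 16505142896) (nat_lit 76) (nat_lit 64249700190) (nat_lit 76) (nat_lit 63218729923) (nat_lit 1) (nat_lit 4) (nat_lit 2) (nat_lit 5) (nat_lit 2) (nat_lit 4) (nat_lit 469) (nat_lit 375) (nat_lit 356)) (XT.nd (nat_lit 78) (nat_lit 0) (nat_lit 0) (XT.lf (nat_lit 0) (nat_lit 27450252045) (nat_lit 76) (nat_lit 64359467950) (nat_lit 76) (nat_lit 63305465399) (nat_lit 1) (nat_lit 4) (nat_lit 2) (nat_lit 5) (nat_lit 2) (nat_lit 4) (nat_lit 470) (nat_lit 375) (nat_lit 355)) (XT.lf (nat_lit 0) (nat_lit 39050983898) (nat_lit 76) (nat_lit 64590535936) (nat_lit 76) (nat_lit 63515207196) (nat_lit 1) (nat_lit 4) (nat_lit 2) (nat_lit 5) (nat_lit 2) (nat_lit 4) (nat_lit 471) (nat_lit 375) (nat_lit 354))))) (XT.nd (nat_lit 234) (nat_lit 0) (nat_lit 0) (XT.nd (nat_lit 78) (nat_lit 0) (nat_lit 0) (XT.lf (nat_lit 0) (nat_lit 51376083532)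 (nat_lit 76) (nat_lit 64944273440) (nat_lit 76) (nat_lit 63849198230) (nat_lit 1) (nat_lit 4) (nat_lit 2) (nat_lit 5) (nat_lit 2) (nat_lit 4) (nat_lit 472) (nat_lit 375) (nat_lit 353)) (XT.nd (nat_lit 78) (nat_lit 0) (nat_lit 0) (XT.lf (nat_lit 0) (nat_lit 64498588575) (nat_lit 76) (nat_lit 65422776684) (nat_lit 76) (nat_lit 64309417704) (nat_lit 1) (nat_lit 4) (nat_lit 2) (nat_lit 5) (nat_lit 2) (nat_lit 4) (nat_lit 473) (nat_lit 375) (nat_lit 352)) (XT.lf (nat_lit 0) (nat_lit 78496262019) (nat_lit 76) (nat_lit 66028881243) (nat_lit 76) (nat_lit 64898592847) (nat_lit 1) (nat_lit 4) (nat_lit 2) (nat_lit 5) (nat_lit 2) (nat_lit 4) (nat_lit 474) (nat_lit 375) (nat_lit 351)))) (XT.nd (nat_lit 78) (nat_lit 0) (nat_lit 0) (XT.lf (nat_lit 0) (nat_lit 93452053041) (nat_lit 76) (nat_lit 66766178848) (nat_lit 76) (nat_lit 65620215066) (nat_lit 1) (nat_lit 4) (nat_lit 2) (nat_lit 5) (nat_lit 2) (nat_lit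 4) (nat_lit 475) (nat_lit 375) (nat_lit 350)) (XT.nd (nat_lit 78) (nat_lit 0) (nat_lit 0) (XT.lf (nat_lit 0) (nat_lit 109454588550) (nat_lit 76) (nat_lit 67639038669) (nat_lit 76) (nat_lit 66478560642) (nat_lit 1) (nat_lit 4) (nat_lit 2) (nat_lit 5) (nat_lit 2) (nat_lit 4) (nat_lit 476) (nat_lit 375) (nat_lit 349)) (XT.lf (nat_lit 0) (nat_lit 126598698387) (nat_lit 76) (nat_lit 68652633210) (nat_lit 76) (nat_lit 67478716066) (nat_lit 1) (nat_lit 4) (nat_lit 2) (nat_lit 5) (nat_lit 2) (nat_lit 4) (nat_lit 477) (nat_lit 375) (nat_lit 348))))))))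
noncomputable def xc36 : XT := (XT.nd (nat_lit 1716) (nat_lit 0) (nat_lit 0) (XT.nd (nat_lit 858) (nat_lit 0) (nat_lit 0) (XT.nd (nat_lit 390) (nat_lit 0) (nat_lit 0) (XT.nd (nat_lit 156) (nat_lit 0) (nat_lit 0) (XT.nd (nat_lit 78) (nat_lit 0) (nat_lit 0) (XT.lf (nat_lit 0) (nat_lit 144985977275) (nat_lit 76) (nat_lit 69812968955) (nat_lit 76) (nat_lit 68626608185) (nat_lit 1) (nat_lit 4) (nat_lit 2) (nat_lit 5) (nat_lit 2) (nat_lit 4) (nat_lit 478) (nat_lit 375) (nat_lit 347)) (XT.lf (nat_lit 0) (nat_lit 164725386869) (nat_lit 76) (nat_lit 71126921970) (nat_lit 76) (nat_lit 69929039324) (nat_lit 1) (nat_lit 4) (nat_lit 2) (nat_lit 5) (nat_lit 2) (nat_lit 4) (nat_lit 479) (nat_lit 375) (nat_lit 346))) (XT.nd (nat_lit 78) (nat_lit 0) (nat_lit 0) (XT.lf (nat_lit 0) (nat_lit 185933901447) (nat_lit 76) (nat_lit 72602278642) (nat_lit 76) (nat_lit 71393727592) (nat_lit 1) (nat_lit 4) (nat_lit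 2) (nat_lit 5) (nat_lit 2) (nat_lit 4) (nat_lit 480) (nat_lit 375) (nat_lit 345)) (XT.nd (nat_lit 78) (nat_lit 0) (nat_lit 0) (XT.lf (nat_lit 0) (nat_lit 208737201095) (nat_lit 76) (nat_lit 74247781826) (nat_lit 76) (nat_lit 73029352624) (nat_lit 1) (nat_lit 4) (nat_lit 2) (nat_lit 5) (nat_lit 2) (nat_lit 4) (nat_lit 481) (nat_lit 375) (nat_lit 344)) (XT.lf (nat_lit 0) (nat_lit 233270416479) (nat_lit 76) (nat_lit 76073182652) (nat_lit 76) (nat_lit 74845607013) (nat_lit 1) (nat_lit 4) (nat_lit 2) (nat_lit 5) (nat_lit 2) (nat_lit 4) (nat_lit 482) (nat_lit 375) (nat_lit 343))))) (XT.nd (nat_lit 234) (nat_lit 0) (nat_lit 0) (XT.nd (nat_lit 78) (nat_lit 0) (nat_lit 0) (XT.lf (nat_lit 0) (nat_lit 259678929614) (nat_lit 76) (nat_lit 78089298309) (nat_lit 76) (nat_lit 76853253747) (nat_lit 1) (nat_lit 4) (nat_lit 2) (nat_lit 5) (nat_lit 2) (nat_lit 4) (nat_lit 483) (nat_lit 375) (nat_lit 342))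 (XT.nd (nat_lit 78) (nat_lit 0) (nat_lit 0) (XT.lf (nat_lit 0) (nat_lit 288119235395) (nat_lit 76) (nat_lit 80308076150) (nat_lit 76) (nat_lit 79064189993) (nat_lit 1) (nat_lit 4) (nat_lit 2) (nat_lit 5) (nat_lit 2) (nat_lit 4) (nat_lit 484) (nat_lit 375) (nat_lit 341)) (XT.lf (nat_lit 0) (nat_lit 318759868965) (nat_lit 76) (nat_lit 82742664488) (nat_lit 76) (nat_lit 81491517594) (nat_lit 1) (nat_lit 4) (nat_lit 2) (nat_lit 5) (nat_lit 2) (nat_lit 4) (nat_lit 485) (nat_lit 375) (nat_lit 340)))) (XT.nd (nat_lit 78) (nat_lit 0) (nat_lit 0) (XT.lf (nat_lit 0) (nat_lit 351782404450) (nat_lit 76) (nat_lit 85407490513) (nat_lit 76) (nat_lit 84149620715) (nat_lit 1) (nat_lit 4) (nat_lit 2) (nat_lit 5) (nat_lit 2) (nat_lit 4) (nat_lit 486) (nat_lit 375) (nat_lit 339)) (XT.nd (nat_lit 78) (nat_lit 0) (nat_lit 0) (XT.lf (nat_lit 0) (nat_lit 387382530950) (nat_lit 76) (nat_lit 88318345786) (nat_lit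 76) (nat_lit 87054251077) (nat_lit 1) (nat_lit 4) (nat_lit 2) (nat_lit 5) (nat_lit 2) (nat_lit 4) (nat_lit 487) (nat_lit 375) (nat_lit 338)) (XT.lf (nat_lit 0) (nat_lit 425771212176) (nat_lit 76) (nat_lit 91492479821) (nat_lit 76) (nat_lit 90222621306) (nat_lit 1) (nat_lit 4) (nat_lit 2) (nat_lit 5) (nat_lit 2) (nat_lit 4) (nat_lit 488) (nat_lit 375) (nat_lit 337)))))) (XT.nd (nat_lit 390) (nat_lit 0) (nat_lit 0) (XT.nd (nat_lit 156) (nat_lit 0) (nat_lit 0) (XT.nd (nat_lit 78) (nat_lit 0) (nat_lit 0) (XT.lf (nat_lit 0) (nat_lit 467175936611) (nat_lit 76) (nat_lit 94948702301) (nat_lit 76) (nat_lit 93673506927) (nat_lit 1) (nat_lit 4) (nat_lit 2) (nat_lit 5) (nat_lit 2) (nat_lit 4) (nat_lit 489) (nat_lit 375) (nat_lit 336)) (XT.lf (nat_lit 0) (nat_lit 511842065583) (nat_lit 76) (nat_lit 98707494543) (nat_lit 76) (nat_lit 97427357634) (nat_lit 1) (nat_lit 4) (nat_lit 2) (nat_lit 5) (nat_lit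 2) (nat_lit 4) (nat_lit 490) (nat_lit 375) (nat_lit 335))) (XT.nd (nat_lit 78) (nat_lit 0) (nat_lit 0) (XT.lf (nat_lit 0) (nat_lit 560034287265) (nat_lit 76) (nat_lit 102791130873) (nat_lit 76) (nat_lit 101506418469) (nat_lit 1) (nat_lit 4) (nat_lit 2) (nat_lit 5) (nat_lit 2) (nat_lit 4) (nat_lit 491) (nat_lit 375) (nat_lit 334)) (XT.nd (nat_lit 78) (nat_lit 0) (nat_lit 0) (XT.lf (nat_lit 0) (nat_lit 612038185193) (nat_lit 76) (nat_lit 107223810616) (nat_lit 76) (nat_lit 105934861642) (nat_lit 1) (nat_lit 4) (nat_lit 2) (nat_lit 5) (nat_lit 2) (nat_lit 4) (nat_lit 492) (nat_lit 375) (nat_lit 333)) (XT.lf (nat_lit 0) (nat_lit 668161930614) (nat_lit 76) (nat_lit 112031801506) (nat_lit 76) (nat_lit 110738929781) (nat_lit 1) (nat_lit 4) (nat_lit 2) (nat_lit 5) (nat_lit 2) (nat_lit 4) (nat_lit 493) (nat_lit 375) (nat_lit 332))))) (XT.nd (nat_lit 234) (nat_lit 0) (nat_lit 0) (XT.nd (nat_lit 78)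 (nat_lit 0) (nat_lit 0) (XT.lf (nat_lit 0) (nat_lit 728738108685) (nat_lit 76) (nat_lit 117243595338) (nat_lit 76) (nat_lit 115947091438) (nat_lit 1) (nat_lit 4) (nat_lit 2) (nat_lit 5) (nat_lit 2) (nat_lit 4) (nat_lit 494) (nat_lit 375) (nat_lit 331)) (XT.nd (nat_lit 78) (nat_lit 0) (nat_lit 0) (XT.lf (nat_lit 0) (nat_lit 794125689351) (nat_lit 76) (nat_lit 122890076818) (nat_lit 76) (nat_lit 121590209793) (nat_lit 1) (nat_lit 4) (nat_lit 2) (nat_lit 5) (nat_lit 2) (nat_lit 4) (nat_lit 495) (nat_lit 375) (nat_lit 330)) (XT.lf (nat_lit 0) (nat_lit 864712154572) (nat_lit 76) (nat_lit 129004706577) (nat_lit 76) (nat_lit 127701725546) (nat_lit 1) (nat_lit 4) (nat_lit 2) (nat_lit 5) (nat_lit 2) (nat_lit 4) (nat_lit 496) (nat_lit 375) (nat_lit 329)))) (XT.nd (nat_lit 78) (nat_lit 0) (nat_lit 0) (XT.lf (nat_lit 0) (nat_lit 940915794511) (nat_lit 76) (nat_lit 135623719458) (nat_lit 76) (nat_lit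 134317855088) (nat_lit 1) (nat_lit 4) (nat_lit 2) (nat_lit 5) (nat_lit 2) (nat_lit 4) (nat_lit 497) (nat_lit 375) (nat_lit 328)) (XT.nd (nat_lit 78) (nat_lit 0) (nat_lit 0) (XT.lf (nat_lit 0) (nat_lit 1023188186294) (nat_lit 76) (nat_lit 142786339240) (nat_lit 76) (nat_lit 141477805113) (nat_lit 1) (nat_lit 4) (nat_lit 2) (nat_lit 5) (nat_lit 2) (nat_lit 4) (nat_lit 498) (nat_lit 375) (nat_lit 327)) (XT.lf (nat_lit 0) (nat_lit 1112016870021) (nat_lit 76) (nat_lit 150535011078) (nat_lit 76) (nat_lit 149224004953) (nat_lit 1) (nat_lit 4) (nat_lit 2) (nat_lit 5) (nat_lit 2) (nat_lit 4) (nat_lit 499) (nat_lit 375) (nat_lit 326))))))) (XT.nd (nat_lit 858) (nat_lit 0) (nat_lit 0) (XT.nd (nat_lit 390) (nat_lit 0) (nat_lit 0) (XT.nd (nat_lit 156) (nat_lit 0) (nat_lit 0) (XT.nd (nat_lit 78) (nat_lit 0) (nat_lit 0) (XT.lf (nat_lit 0) (nat_lit 1207928237891) (nat_lit 76) (nat_lit 158915653027) (nat_lit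 76) (nat_lit 157602358015) (nat_lit 1) (nat_lit 4) (nat_lit 2) (nat_lit 5) (nat_lit 2) (nat_lit 4) (nat_lit 500) (nat_lit 375) (nat_lit 325)) (XT.lf (nat_lit 0) (nat_lit 1311490653566) (nat_lit 76) (nat_lit 167977928152) (nat_lit 76) (nat_lit 166662513800) (nat_lit 1) (nat_lit 4) (nat_lit 2) (nat_lit 5) (nat_lit 2) (nat_lit 4) (nat_lit 501) (nat_lit 375) (nat_lit 324))) (XT.nd (nat_lit 78) (nat_lit 0) (nat_lit 0) (XT.lf (nat_lit 0) (nat_lit 1423317820250) (nat_lit 76) (nat_lit 177775538821) (nat_lit 76) (nat_lit 176458162118) (nat_lit 1) (nat_lit 4) (nat_lit 2) (nat_lit 5) (nat_lit 2) (nat_lit 4) (nat_lit 502) (nat_lit 375) (nat_lit 323)) (XT.nd (nat_lit 78) (nat_lit 0) (nat_lit 0) (XT.lf (nat_lit 0) (nat_lit 1544072417450) (nat_lit 76) (nat_lit 188366544952) (nat_lit 76) (nat_lit 187047351256) (nat_lit 1) (nat_lit 4) (nat_lit 2) (nat_lit 5) (nat_lit 2) (nat_lit 4) (nat_lit 503) (nat_lit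 375) (nat_lit 322)) (XT.lf (nat_lit 0) (nat_lit 1674470027962) (nat_lit 76) (nat_lit 199813708062) (nat_lit 76) (nat_lit 198492831966) (nat_lit 1) (nat_lit 4) (nat_lit 2) (nat_lit 5) (nat_lit 2) (nat_lit 4) (nat_lit 504) (nat_lit 375) (nat_lit 321))))) (XT.nd (nat_lit 234) (nat_lit 0) (nat_lit 0) (XT.nd (nat_lit 78) (nat_lit 0) (nat_lit 0) (XT.lf (nat_lit 0) (nat_lit 1815283378369) (nat_lit 76) (nat_lit 212184863190) (nat_lit 76) (nat_lit 210862429316) (nat_lit 1) (nat_lit 4) (nat_lit 2) (nat_lit 5) (nat_lit 2) (nat_lit 4) (nat_lit 505) (nat_lit 375) (nat_lit 320)) (XT.nd (nat_lit 78) (nat_lit 0) (nat_lit 0) (XT.lf (nat_lit 0) (nat_lit 1967346918155) (nat_lit 76) (nat_lit 225553320887) (nat_lit 76) (nat_lit 224229444626) (nat_lit 1) (nat_lit 4) (nat_lit 2) (nat_lit 5) (nat_lit 2) (nat_lit 4) (nat_lit 506) (nat_lit 375) (nat_lit 319)) (XT.lf (nat_lit 0) (nat_lit 2131561764591) (nat_lit 76)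 (nat_lit 239998301643) (nat_lit 76) (nat_lit 238673089838) (nat_lit 1) (nat_lit 4) (nat_lit 2) (nat_lit 5) (nat_lit 2) (nat_lit 4) (nat_lit 507) (nat_lit 375) (nat_lit 318)))) (XT.nd (nat_lit 78) (nat_lit 0) (nat_lit 0) (XT.lf (nat_lit 0) (nat_lit 2308901042694) (nat_lit 76) (nat_lit 255605405342) (nat_lit 76) (nat_lit 254278956923) (nat_lit 1) (nat_lit 4) (nat_lit 2) (nat_lit 5) (nat_lit 2) (nat_lit 4) (nat_lit 508) (nat_lit 375) (nat_lit 317)) (XT.nd (nat_lit 78) (nat_lit 0) (nat_lit 0) (XT.lf (nat_lit 0) (nat_lit 2500415651889) (nat_lit 76) (nat_lit 272467118526) (nat_lit 76) (nat_lit 271139525094) (nat_lit 1) (nat_lit 4) (nat_lit 2) (nat_lit 5) (nat_lit 2) (nat_lit 4) (nat_lit 509) (nat_lit 375) (nat_lit 316)) (XT.lf (nat_lit 0) (nat_lit 2707240493565) (nat_lit 76) (nat_lit 290683362458) (nat_lit 76) (nat_lit 289354708829) (nat_lit 1) (nat_lit 4) (nat_lit 2) (nat_lit 5) (nat_lit 2)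 (nat_lit 4) (nat_lit 510) (nat_lit 375) (nat_lit 315)))))) (XT.nd (nat_lit 468) (nat_lit 0) (nat_lit 0) (XT.nd (nat_lit 234) (nat_lit 0) (nat_lit 0) (XT.nd (nat_lit 78) (nat_lit 0) (nat_lit 0) (XT.lf (nat_lit 0) (nat_lit 2930601196413) (nat_lit 76) (nat_lit 310362085251) (nat_lit 76) (nat_lit 309032449957) (nat_lit 1) (nat_lit 4) (nat_lit 2) (nat_lit 5) (nat_lit 2) (nat_lit 4) (nat_lit 511) (nat_lit 375) (nat_lit 314)) (XT.nd (nat_lit 78) (nat_lit 0) (nat_lit 0) (XT.lf (nat_lit 0) (nat_lit 3171821379413) (nat_lit 76) (nat_lit 331619901557) (nat_lit 76) (nat_lit 330289357314) (nat_lit 1) (nat_lit 4) (nat_lit 2) (nat_lit 5) (nat_lit 2) (nat_lit 4) (nat_lit 512) (nat_lit 375) (nat_lit 313)) (XT.lf (nat_lit 0) (nat_lit 3432330495501) (nat_lit 76) (nat_lit 354582783622) (nat_lit 76) (nat_lit 353251397760) (nat_lit 1) (nat_lit 4) (nat_lit 2) (nat_lit 5) (nat_lit 2) (nat_lit 4) (nat_lit 513) (nat_lit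 375) (nat_lit 312)))) (XT.nd (nat_lit 78) (nat_lit 0) (nat_lit 0) (XT.lf (nat_lit 0) (nat_lit 3713672302401) (nat_lit 76) (nat_lit 379386807783) (nat_lit 76) (nat_lit 378054642645) (nat_lit 1) (nat_lit 4) (nat_lit 2) (nat_lit 5) (nat_lit 2) (nat_lit 4) (nat_lit 514) (nat_lit 375) (nat_lit 311)) (XT.nd (nat_lit 78) (nat_lit 0) (nat_lit 0) (XT.lf (nat_lit 0) (nat_lit 4017514010822) (nat_lit 76) (nat_lit 406178960851) (nat_lit 76) (nat_lit 404846074160) (nat_lit 1) (nat_lit 4) (nat_lit 2) (nat_lit 5) (nat_lit 2) (nat_lit 4) (nat_lit 515) (nat_lit 375) (nat_lit 310)) (XT.lf (nat_lit 0) (nat_lit 4345656164222) (nat_lit 76) (nat_lit 435118011140) (nat_lit 76) (nat_lit 433784456345) (nat_lit 1) (nat_lit 4) (nat_lit 2) (nat_lit 5) (nat_lit 2) (nat_lit 4) (nat_lit 516) (nat_lit 375) (nat_lit 309))))) (XT.nd (nat_lit 234) (nat_lit 0) (nat_lit 0) (XT.nd (nat_lit 78) (nat_lit 0) (nat_lit 0) (XT.lf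 (nat_lit 0) (nat_lit 4700043308693) (nat_lit 76) (nat_lit 466375449319) (nat_lit 76) (nat_lit 465041275908) (nat_lit 1) (nat_lit 4) (nat_lit 2) (nat_lit 5) (nat_lit 2) (nat_lit 4) (nat_lit 517) (nat_lit 375) (nat_lit 308)) (XT.nd (nat_lit 78) (nat_lit 0) (nat_lit 0) (XT.lf (nat_lit 0) (nat_lit 5082775516203) (nat_lit 76) (nat_lit 500136504650) (nat_lit 76) (nat_lit 498801758448) (nat_lit 1) (nat_lit 4) (nat_lit 2) (nat_lit 5) (nat_lit 2) (nat_lit 4) (nat_lit 518) (nat_lit 375) (nat_lit 307)) (XT.lf (nat_lit 0) (nat_lit 5496120829464) (nat_lit 76) (nat_lit 536601242647) (nat_lit 76) (nat_lit 535265966082) (nat_lit 1) (nat_lit 4) (nat_lit 2) (nat_lit 5) (nat_lit 2) (nat_lit 4) (nat_lit 519) (nat_lit 375) (nat_lit 306)))) (XT.nd (nat_lit 78) (nat_lit 0) (nat_lit 0) (XT.lf (nat_lit 0) (nat_lit 5942528702184) (nat_lit 76) (nat_lit 575985750646) (nat_lit 76) (nat_lit 574649983005) (nat_lit 1)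 (nat_lit 4) (nat_lit 2) (nat_lit 5) (nat_lit 2) (nat_lit 4) (nat_lit 520) (nat_lit 375) (nat_lit 305)) (XT.nd (nat_lit 78) (nat_lit 0) (nat_lit 0) (XT.lf (nat_lit 0) (nat_lit 6424644514349) (nat_lit 76) (nat_lit 618523418324) (nat_lit 76) (nat_lit 617187195982) (nat_lit 1) (nat_lit 4) (nat_lit 2) (nat_lit 5) (nat_lit 2) (nat_lit 4) (nat_lit 521) (nat_lit 375) (nat_lit 304)) (XT.lf (nat_lit 0) (nat_lit 6945325248549) (nat_lit 76) (nat_lit 664466320749) (nat_lit 76) (nat_lit 663129677388) (nat_lit 1) (nat_lit 4) (nat_lit 2) (nat_lit 5) (nat_lit 2) (nat_lit 4) (nat_lit 522) (nat_lit 375) (nat_lit 303))))))))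
noncomputable def xc37 : XT := (XT.nd (nat_lit 57798) (nat_lit 0) (nat_lit 0) (XT.nd (nat_lit 56940) (nat_lit 0) (nat_lit 76) (XT.nd (nat_lit 390) (nat_lit 0) (nat_lit 0) (XT.nd (nat_lit 156) (nat_lit 0) (nat_lit 0) (XT.nd (nat_lit 78) (nat_lit 0) (nat_lit 0) (XT.lf (nat_lit 0) (nat_lit 7507656420248) (nat_lit 76) (nat_lit 714086712157) (nat_lit 76) (nat_lit 712749678964) (nat_lit 1) (nat_lit 4) (nat_lit 2) (nat_lit 5) (nat_lit 2) (nat_lit 4) (nat_lit 523) (nat_lit 375) (nat_lit 302)) (XT.lf (nat_lit 0) (nat_lit 8114970362313) (nat_lit 76) (nat_lit 767678639313) (nat_lit 76) (nat_lit 766341245164) (nat_lit 1) (nat_lit 4) (nat_lit 2) (nat_lit 5) (nat_lit 2) (nat_lit 4) (nat_lit 524) (nat_lit 375) (nat_lit 301))) (XT.nd (nat_lit 78) (nat_lit 0) (nat_lit 0) (XT.lf (nat_lit 0) (nat_lit 8770865972180) (nat_lit 76) (nat_lit 825559684007) (nat_lit 76) (nat_lit 824221955639) (nat_lit 1) (nat_lit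 4) (nat_lit 2) (nat_lit 5) (nat_lit 2) (nat_lit 4) (nat_lit 525) (nat_lit 375) (nat_lit 300)) (XT.nd (nat_lit 78) (nat_lit 0) (nat_lit 0) (XT.lf (nat_lit 0) (nat_lit 9479230038648) (nat_lit 76) (nat_lit 888072845021) (nat_lit 76) (nat_lit 886734807192) (nat_lit 1) (nat_lit 4) (nat_lit 2) (nat_lit 5) (nat_lit 2) (nat_lit 4) (nat_lit 526) (nat_lit 375) (nat_lit 299)) (XT.lf (nat_lit 0) (nat_lit 10244260274703) (nat_lit 76) (nat_lit 955588570719) (nat_lit 76) (nat_lit 954250246351) (nat_lit 1) (nat_lit 4) (nat_lit 2) (nat_lit 5) (nat_lit 2) (nat_lit 4) (nat_lit 527) (nat_lit 375) (nat_lit 298))))) (XT.nd (nat_lit 56316) (nat_lit 0) (nat_lit 304) (XT.nd (nat_lit 78) (nat_lit 0) (nat_lit 0) (XT.lf (nat_lit 0) (nat_lit 11070490192855) (nat_lit 76) (nat_lit 1028506954288) (nat_lit 76) (nat_lit 1027168364607) (nat_lit 1) (nat_lit 4) (nat_lit 2) (nat_lit 5) (nat_lit 2) (nat_lit 4) (nat_lit 528)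 (nat_lit 375) (nat_lit 297)) (XT.nd (nat_lit 56160) (nat_lit 0) (nat_lit 532) (XT.lf (nat_lit 0) (nat_lit 11962815970396) (nat_lit 76) (nat_lit 1107260104670) (nat_lit 76) (nat_lit 1105921269328) (nat_lit 1) (nat_lit 4) (nat_lit 2) (nat_lit 5) (nat_lit 2) (nat_lit 4) (nat_lit 529) (nat_lit 375) (nat_lit 296)) (XT.lf (nat_lit 0) (nat_lit 7447942502) (nat_lit 152) (nat_lit 1993357905) (nat_lit 0) (nat_lit 7447942502) (nat_lit 8) (nat_lit 5) (nat_lit 10) (nat_lit 4) (nat_lit 8) (nat_lit 4) (nat_lit 448) (nat_lit 376) (nat_lit 376)))) (XT.nd (nat_lit 78) (nat_lit 152) (nat_lit 0) (XT.lf (nat_lit 0) (nat_lit 10873856802) (nat_lit 76) (nat_lit 12566384483) (nat_lit 76) (nat_lit 12441168541) (nat_lit 7) (nat_lit 4) (nat_lit 8) (nat_lit 5) (nat_lit 8) (nat_lit 4) (nat_lit 449) (nat_lit 376) (nat_lit 375)) (XT.nd (nat_lit 78) (nat_lit 152) (nat_lit 0) (XT.lf (nat_lit 0) (nat_lit 26398831815) (nat_lit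 76) (nat_lit 6007910275) (nat_lit 76) (nat_lit 5766753646) (nat_lit 7) (nat_lit 4) (nat_lit 8) (nat_lit 5) (nat_lit 8) (nat_lit 4) (nat_lit 450) (nat_lit 376) (nat_lit 374)) (XT.lf (nat_lit 0) (nat_lit 1081581412) (nat_lit 152) (nat_lit 38828752497) (nat_lit 0) (nat_lit 758887786) (nat_lit 5) (nat_lit 5) (nat_lit 7) (nat_lit 4) (nat_lit 5) (nat_lit 4) (nat_lit 451) (nat_lit 376) (nat_lit 373)))))) (XT.nd (nat_lit 390) (nat_lit 152) (nat_lit 0) (XT.nd (nat_lit 156) (nat_lit 76) (nat_lit 0) (XT.nd (nat_lit 78) (nat_lit 0) (nat_lit 0) (XT.lf (nat_lit 0) (nat_lit 8301515748) (nat_lit 152) (nat_lit 27153511934) (nat_lit 0) (nat_lit 7886784666) (nat_lit 5) (nat_lit 5) (nat_lit 7) (nat_lit 4) (nat_lit 5) (nat_lit 4) (nat_lit 452) (nat_lit 376) (nat_lit 372)) (XT.lf (nat_lit 0) (nat_lit 15773984717) (nat_lit 152) (nat_lit 15206208096) (nat_lit 0) (nat_lit 15274033769) (nat_lit 5) (nat_lit 5) (nat_lit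 7) (nat_lit 4) (nat_lit 5) (nat_lit 4) (nat_lit 453) (nat_lit 376) (nat_lit 371))) (XT.nd (nat_lit 78) (nat_lit 76) (nat_lit 0) (XT.lf (nat_lit 0) (nat_lit 23543269615) (nat_lit 152) (nat_lit 2916042146) (nat_lit 0) (nat_lit 22964411383) (nat_lit 5) (nat_lit 5) (nat_lit 7) (nat_lit 4) (nat_lit 5) (nat_lit 4) (nat_lit 454) (nat_lit 376) (nat_lit 370)) (XT.nd (nat_lit 78) (nat_lit 0) (nat_lit 0) (XT.lf (nat_lit 0) (nat_lit 10305330919) (nat_lit 76) (nat_lit 21597923186) (nat_lit 76) (nat_lit 20946002655) (nat_lit 4) (nat_lit 4) (nat_lit 5) (nat_lit 5) (nat_lit 5) (nat_lit 4) (nat_lit 455) (nat_lit 376) (nat_lit 369)) (XT.lf (nat_lit 0) (nat_lit 24197098790) (nat_lit 76) (nat_lit 16543321786) (nat_lit 76) (nat_lit 15823750978) (nat_lit 4) (nat_lit 4) (nat_lit 5) (nat_lit 5) (nat_lit 5) (nat_lit 4) (nat_lit 456) (nat_lit 376) (nat_lit 368))))) (XT.nd (nat_lit 234) (nat_lit 0) (nat_lit 0) (XT.nd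 (nat_lit 78) (nat_lit 152) (nat_lit 0) (XT.lf (nat_lit 0) (nat_lit 38688029440) (nat_lit 76) (nat_lit 11345284125) (nat_lit 76) (nat_lit 10563074172) (nat_lit 4) (nat_lit 4) (nat_lit 5) (nat_lit 5) (nat_lit 5) (nat_lit 4) (nat_lit 457) (nat_lit 376) (nat_lit 367)) (XT.nd (nat_lit 78) (nat_lit 152) (nat_lit 0) (XT.lf (nat_lit 0) (nat_lit 53863995052) (nat_lit 76) (nat_lit 5973007019) (nat_lit 76) (nat_lit 5132797857) (nat_lit 4) (nat_lit 4) (nat_lit 5) (nat_lit 5) (nat_lit 5) (nat_lit 4) (nat_lit 458) (nat_lit 376) (nat_lit 366)) (XT.lf (nat_lit 0) (nat_lit 97471391) (nat_lit 76) (nat_lit 379155303) (nat_lit 152) (nat_lit 69232549843) (nat_lit 2) (nat_lit 5) (nat_lit 3) (nat_lit 5) (nat_lit 4) (nat_lit 4) (nat_lit 459) (nat_lit 376) (nat_lit 365)))) (XT.nd (nat_lit 78) (nat_lit 0) (nat_lit 0) (XT.lf (nat_lit 0) (nat_lit 6484624908) (nat_lit 152) (nat_lit 62703362259) (nat_lit 0) (nat_lit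 5610886846) (nat_lit 2) (nat_lit 5) (nat_lit 4) (nat_lit 4) (nat_lit 2) (nat_lit 4) (nat_lit 460) (nat_lit 376) (nat_lit 364)) (XT.nd (nat_lit 78) (nat_lit 0) (nat_lit 0) (XT.lf (nat_lit 0) (nat_lit 12778859765) (nat_lit 152) (nat_lit 55669954990) (nat_lit 0) (nat_lit 11862490553) (nat_lit 2) (nat_lit 5) (nat_lit 4) (nat_lit 4) (nat_lit 2) (nat_lit 4) (nat_lit 461) (nat_lit 376) (nat_lit 363)) (XT.lf (nat_lit 0) (nat_lit 19387511740) (nat_lit 152) (nat_lit 48460685192) (nat_lit 0) (nat_lit 18431669241) (nat_lit 2) (nat_lit 5) (nat_lit 4) (nat_lit 4) (nat_lit 2) (nat_lit 4) (nat_lit 462) (nat_lit 376) (nat_lit 362))))))) (XT.nd (nat_lit 858) (nat_lit 0) (nat_lit 0) (XT.nd (nat_lit 390) (nat_lit 76) (nat_lit 0) (XT.nd (nat_lit 156) (nat_lit 0) (nat_lit 0) (XT.nd (nat_lit 78) (nat_lit 0) (nat_lit 0) (XT.lf (nat_lit 0) (nat_lit 26349743215) (nat_lit 152) (nat_lit 41032831268) (nat_lit 0) (nat_lit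 25357351376) (nat_lit 2) (nat_lit 5) (nat_lit 4) (nat_lit 4) (nat_lit 2) (nat_lit 4) (nat_lit 463) (nat_lit 376) (nat_lit 361)) (XT.lf (nat_lit 0) (nat_lit 33706811859) (nat_lit 152) (nat_lit 33342376304) (nat_lit 0) (nat_lit 32680578039) (nat_lit 2) (nat_lit 5) (nat_lit 4) (nat_lit 4) (nat_lit 2) (nat_lit 4) (nat_lit 464) (nat_lit 376) (nat_lit 360))) (XT.nd (nat_lit 78) (nat_lit 0) (nat_lit 0) (XT.lf (nat_lit 0) (nat_lit 41502315115) (nat_lit 152) (nat_lit 25343747236) (nat_lit 0) (nat_lit 40444746127) (nat_lit 2) (nat_lit 5) (nat_lit 4) (nat_lit 4) (nat_lit 2) (nat_lit 4) (nat_lit 465) (nat_lit 376) (nat_lit 359)) (XT.nd (nat_lit 78) (nat_lit 0) (nat_lit 0) (XT.lf (nat_lit 0) (nat_lit 49782448558) (nat_lit 152) (nat_lit 16989544779) (nat_lit 0) (nat_lit 48695865526) (nat_lit 2) (nat_lit 5) (nat_lit 4) (nat_lit 4) (nat_lit 2) (nat_lit 4) (nat_lit 466) (nat_lit 376) (nat_lit 358)) (XT.lf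 (nat_lit 0) (nat_lit 58596279646) (nat_lit 152) (nat_lit 8230262548) (nat_lit 0) (nat_lit 57482831758) (nat_lit 2) (nat_lit 5) (nat_lit 4) (nat_lit 4) (nat_lit 2) (nat_lit 4) (nat_lit 467) (nat_lit 376) (nat_lit 357))))) (XT.nd (nat_lit 234) (nat_lit 0) (nat_lit 0) (XT.nd (nat_lit 78) (nat_lit 0) (nat_lit 0) (XT.lf (nat_lit 0) (nat_lit 1037927658) (nat_lit 76) (nat_lit 66983073016) (nat_lit 76) (nat_lit 65844750261) (nat_lit 1) (nat_lit 4) (nat_lit 2) (nat_lit 5) (nat_lit 2) (nat_lit 4) (nat_lit 468) (nat_lit 376) (nat_lit 356)) (XT.nd (nat_lit 78) (nat_lit 0) (nat_lit 0) (XT.lf (nat_lit 0) (nat_lit 11278050495) (nat_lit 76) (nat_lit 67030614251) (nat_lit 76) (nat_lit 65869259212) (nat_lit 1) (nat_lit 4) (nat_lit 2) (nat_lit 5) (nat_lit 2) (nat_lit 4) (nat_lit 469) (nat_lit 376) (nat_lit 355)) (XT.lf (nat_lit 0) (nat_lit 22117397130) (nat_lit 76) (nat_lit 67194477591) (nat_lit 76) (nat_lit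 66011796363) (nat_lit 1) (nat_lit 4) (nat_lit 2) (nat_lit 5) (nat_lit 2) (nat_lit 4) (nat_lit 470) (nat_lit 376) (nat_lit 354)))) (XT.nd (nat_lit 78) (nat_lit 0) (nat_lit 0) (XT.lf (nat_lit 0) (nat_lit 33620200730) (nat_lit 76) (nat_lit 67475634076) (nat_lit 76) (nat_lit 66273206378) (nat_lit 1) (nat_lit 4) (nat_lit 2) (nat_lit 5) (nat_lit 2) (nat_lit 4) (nat_lit 471) (nat_lit 376) (nat_lit 353)) (XT.nd (nat_lit 78) (nat_lit 0) (nat_lit 0) (XT.lf (nat_lit 0) (nat_lit 45854626055) (nat_lit 76) (nat_lit 67875749821) (nat_lit 76) (nat_lit 66655038353) (nat_lit 1) (nat_lit 4) (nat_lit 2) (nat_lit 5) (nat_lit 2) (nat_lit 4) (nat_lit 472) (nat_lit 376) (nat_lit 352)) (XT.lf (nat_lit 0) (nat_lit 58893173405) (nat_lit 76) (nat_lit 68397195880) (nat_lit 76) (nat_lit 67159554996) (nat_lit 1) (nat_lit 4) (nat_lit 2) (nat_lit 5) (nat_lit 2) (nat_lit 4) (nat_lit 473) (nat_lit 376) (nat_lit 351))))))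 (XT.nd (nat_lit 468) (nat_lit 0) (nat_lit 0) (XT.nd (nat_lit 234) (nat_lit 0) (nat_lit 0) (XT.nd (nat_lit 78) (nat_lit 0) (nat_lit 0) (XT.lf (nat_lit 0) (nat_lit 72813108244) (nat_lit 76) (nat_lit 69043062305) (nat_lit 76) (nat_lit 67789746035) (nat_lit 1) (nat_lit 4) (nat_lit 2) (nat_lit 5) (nat_lit 2) (nat_lit 4) (nat_lit 474) (nat_lit 376) (nat_lit 350)) (XT.nd (nat_lit 78) (nat_lit 0) (nat_lit 0) (XT.lf (nat_lit 0) (nat_lit 87696919076) (nat_lit 76) (nat_lit 69817176452) (nat_lit 76) (nat_lit 68549345937) (nat_lit 1) (nat_lit 4) (nat_lit 2) (nat_lit 5) (nat_lit 2) (nat_lit 4) (nat_lit 475) (nat_lit 376) (nat_lit 349)) (XT.lf (nat_lit 0) (nat_lit 103632806262) (nat_lit 76) (nat_lit 70724125664) (nat_lit 76) (nat_lit 69442856033) (nat_lit 1) (nat_lit 4) (nat_lit 2) (nat_lit 5) (nat_lit 2) (nat_lit 4) (nat_lit 476) (nat_lit 376) (nat_lit 348)))) (XT.nd (nat_lit 78) (nat_lit 0) (nat_lit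 0) (XT.lf (nat_lit 0) (nat_lit 120715204687) (nat_lit 76) (nat_lit 71769284456) (nat_lit 76) (nat_lit 70475571198) (nat_lit 1) (nat_lit 4) (nat_lit 2) (nat_lit 5) (nat_lit 2) (nat_lit 4) (nat_lit 477) (nat_lit 376) (nat_lit 347)) (XT.nd (nat_lit 78) (nat_lit 0) (nat_lit 0) (XT.lf (nat_lit 0) (nat_lit 139045343381) (nat_lit 76) (nat_lit 72958846360) (nat_lit 76) (nat_lit 71653611226) (nat_lit 1) (nat_lit 4) (nat_lit 2) (nat_lit 5) (nat_lit 2) (nat_lit 4) (nat_lit 478) (nat_lit 376) (nat_lit 346)) (XT.lf (nat_lit 0) (nat_lit 158731845386) (nat_lit 76) (nat_lit 74299860632) (nat_lit 76) (nat_lit 72983957094) (nat_lit 1) (nat_lit 4) (nat_lit 2) (nat_lit 5) (nat_lit 2) (nat_lit 4) (nat_lit 479) (nat_lit 376) (nat_lit 345))))) (XT.nd (nat_lit 234) (nat_lit 0) (nat_lit 0) (XT.nd (nat_lit 78) (nat_lit 0) (nat_lit 0) (XT.lf (nat_lit 0) (nat_lit 179891371457) (nat_lit 76) (nat_lit 75800274025) (nat_lit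 76) (nat_lit 74474492335) (nat_lit 1) (nat_lit 4) (nat_lit 2) (nat_lit 5) (nat_lit 2) (nat_lit 4) (nat_lit 480) (nat_lit 376) (nat_lit 344)) (XT.nd (nat_lit 78) (nat_lit 0) (nat_lit 0) (XT.lf (nat_lit 0) (nat_lit 202649311376) (nat_lit 76) (nat_lit 77468977875) (nat_lit 76) (nat_lit 76134049749) (nat_lit 1) (nat_lit 4) (nat_lit 2) (nat_lit 5) (nat_lit 2) (nat_lit 4) (nat_lit 481) (nat_lit 376) (nat_lit 343)) (XT.lf (nat_lit 0) (nat_lit 227140527010) (nat_lit 76) (nat_lit 79315860800) (nat_lit 76) (nat_lit 77972463750) (nat_lit 1) (nat_lit 4) (nat_lit 2) (nat_lit 5) (nat_lit 2) (nat_lit 4) (nat_lit 482) (nat_lit 376) (nat_lit 342)))) (XT.nd (nat_lit 78) (nat_lit 0) (nat_lit 0) (XT.lf (nat_lit 0) (nat_lit 253510151489) (nat_lit 76) (nat_lit 81351867289) (nat_lit 76) (nat_lit 80000628644) (nat_lit 1) (nat_lit 4) (nat_lit 2) (nat_lit 5) (nat_lit 2) (nat_lit 4) (nat_lit 483) (nat_lit 376) (nat_lit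 341)) (XT.nd (nat_lit 78) (nat_lit 0) (nat_lit 0) (XT.lf (nat_lit 0) (nat_lit 281914449253) (nat_lit 76) (nat_lit 83589062568) (nat_lit 76) (nat_lit 82230563186) (nat_lit 1) (nat_lit 4) (nat_lit 2) (nat_lit 5) (nat_lit 2) (nat_lit 4) (nat_lit 484) (nat_lit 376) (nat_lit 340)) (XT.lf (nat_lit 0) (nat_lit 312521742069) (nat_lit 76) (nat_lit 86040704088) (nat_lit 76) (nat_lit 84675481803) (nat_lit 1) (nat_lit 4) (nat_lit 2) (nat_lit 5) (nat_lit 2) (nat_lit 4) (nat_lit 485) (nat_lit 376) (nat_lit 339))))))))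
noncomputable def xc38 : XT := (XT.nd (nat_lit 1716) (nat_lit 0) (nat_lit 0) (XT.nd (nat_lit 858) (nat_lit 0) (nat_lit 0) (XT.nd (nat_lit 390) (nat_lit 0) (nat_lit 0) (XT.nd (nat_lit 156) (nat_lit 0) (nat_lit 0) (XT.nd (nat_lit 78) (nat_lit 0) (nat_lit 0) (XT.lf (nat_lit 0) (nat_lit 345513406484) (nat_lit 76) (nat_lit 88721320097) (nat_lit 76) (nat_lit 87349872900) (nat_lit 1) (nat_lit 4) (nat_lit 2) (nat_lit 5) (nat_lit 2) (nat_lit 4) (nat_lit 486) (nat_lit 376) (nat_lit 338)) (XT.lf (nat_lit 0) (nat_lit 381084948660) (nat_lit 76) (nat_lit 91646795726) (nat_lit 76) (nat_lit 90269584723) (nat_lit 1) (nat_lit 4) (nat_lit 2) (nat_lit 5) (nat_lit 2) (nat_lit 4) (nat_lit 487) (nat_lit 376) (nat_lit 337))) (XT.nd (nat_lit 78) (nat_lit 0) (nat_lit 0) (XT.lf (nat_lit 0) (nat_lit 419447162920) (nat_lit 76) (nat_lit 94834467127) (nat_lit 76) (nat_lit 93451919266) (nat_lit 1) (nat_lit 4) (nat_lit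 2) (nat_lit 5) (nat_lit 2) (nat_lit 4) (nat_lit 488) (nat_lit 376) (nat_lit 336)) (XT.nd (nat_lit 78) (nat_lit 0) (nat_lit 0) (XT.lf (nat_lit 0) (nat_lit 460827380904) (nat_lit 76) (nat_lit 98303224205) (nat_lit 76) (nat_lit 96915734808) (nat_lit 1) (nat_lit 4) (nat_lit 2) (nat_lit 5) (nat_lit 2) (nat_lit 4) (nat_lit 489) (nat_lit 376) (nat_lit 335)) (XT.lf (nat_lit 0) (nat_lit 505470818719) (nat_lit 76) (nat_lit 102073622557) (nat_lit 76) (nat_lit 100681557665) (nat_lit 1) (nat_lit 4) (nat_lit 2) (nat_lit 5) (nat_lit 2) (nat_lit 4) (nat_lit 490) (nat_lit 376) (nat_lit 334))))) (XT.nd (nat_lit 234) (nat_lit 0) (nat_lit 0) (XT.nd (nat_lit 78) (nat_lit 0) (nat_lit 0) (XT.lf (nat_lit 0) (nat_lit 553642030070) (nat_lit 76) (nat_lit 106168005285) (nat_lit 76) (nat_lit 104771703823) (nat_lit 1) (nat_lit 4) (nat_lit 2) (nat_lit 5) (nat_lit 2) (nat_lit 4) (nat_lit 491) (nat_lit 376) (nat_lit 333))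 (XT.nd (nat_lit 78) (nat_lit 0) (nat_lit 0) (XT.lf (nat_lit 0) (nat_lit 605626473988) (nat_lit 76) (nat_lit 110610635397) (nat_lit 76) (nat_lit 109210411184) (nat_lit 1) (nat_lit 4) (nat_lit 2) (nat_lit 5) (nat_lit 2) (nat_lit 4) (nat_lit 492) (nat_lit 376) (nat_lit 332)) (XT.lf (nat_lit 0) (nat_lit 661732206436) (nat_lit 76) (nat_lit 115427839590) (nat_lit 76) (nat_lit 114023983202) (nat_lit 1) (nat_lit 4) (nat_lit 2) (nat_lit 5) (nat_lit 2) (nat_lit 4) (nat_lit 493) (nat_lit 376) (nat_lit 331)))) (XT.nd (nat_lit 78) (nat_lit 0) (nat_lit 0) (XT.lf (nat_lit 0) (nat_lit 722291705829) (nat_lit 76) (nat_lit 120648164259) (nat_lit 76) (nat_lit 119240944746) (nat_lit 1) (nat_lit 4) (nat_lit 2) (nat_lit 5) (nat_lit 2) (nat_lit 4) (nat_lit 494) (nat_lit 376) (nat_lit 330)) (XT.nd (nat_lit 78) (nat_lit 0) (nat_lit 0) (XT.lf (nat_lit 0) (nat_lit 787663843274) (nat_lit 76) (nat_lit 126302544663)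 (nat_lit 76) (nat_lit 124892211144) (nat_lit 1) (nat_lit 4) (nat_lit 2) (nat_lit 5) (nat_lit 2) (nat_lit 4) (nat_lit 495) (nat_lit 376) (nat_lit 329)) (XT.lf (nat_lit 0) (nat_lit 858236009216) (nat_lit 76) (nat_lit 132424488239) (nat_lit 76) (nat_lit 131011271382) (nat_lit 1) (nat_lit 4) (nat_lit 2) (nat_lit 5) (nat_lit 2) (nat_lit 4) (nat_lit 496) (nat_lit 376) (nat_lit 328)))))) (XT.nd (nat_lit 390) (nat_lit 0) (nat_lit 0) (XT.nd (nat_lit 156) (nat_lit 0) (nat_lit 0) (XT.nd (nat_lit 78) (nat_lit 0) (nat_lit 0) (XT.lf (nat_lit 0) (nat_lit 934426409083) (nat_lit 76) (nat_lit 139050273173) (nat_lit 76) (nat_lit 137634386558) (nat_lit 1) (nat_lit 4) (nat_lit 2) (nat_lit 5) (nat_lit 2) (nat_lit 4) (nat_lit 497) (nat_lit 376) (nat_lit 327)) (XT.lf (nat_lit 0) (nat_lit 1016686541539) (nat_lit 76) (nat_lit 146219163375) (nat_lit 76) (nat_lit 144800804762) (nat_lit 1) (nat_lit 4) (nat_lit 2) (nat_lit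 5) (nat_lit 2) (nat_lit 4) (nat_lit 498) (nat_lit 376) (nat_lit 326))) (XT.nd (nat_lit 78) (nat_lit 0) (nat_lit 0) (XT.lf (nat_lit 0) (nat_lit 1105503874038) (nat_lit 76) (nat_lit 153973641158) (nat_lit 76) (nat_lit 152552993658) (nat_lit 1) (nat_lit 4) (nat_lit 2) (nat_lit 5) (nat_lit 2) (nat_lit 4) (nat_lit 499) (nat_lit 376) (nat_lit 325)) (XT.nd (nat_lit 78) (nat_lit 0) (nat_lit 0) (XT.lf (nat_lit 0) (nat_lit 1201404731512) (nat_lit 76) (nat_lit 162359658982) (nat_lit 76) (nat_lit 160936892142) (nat_lit 1) (nat_lit 4) (nat_lit 2) (nat_lit 5) (nat_lit 2) (nat_lit 4) (nat_lit 500) (nat_lit 376) (nat_lit 324)) (XT.lf (nat_lit 0) (nat_lit 1304957415338) (nat_lit 76) (nat_lit 171426911767) (nat_lit 76) (nat_lit 170002182576) (nat_lit 1) (nat_lit 4) (nat_lit 2) (nat_lit 5) (nat_lit 2) (nat_lit 4) (nat_lit 501) (nat_lit 376) (nat_lit 323))))) (XT.nd (nat_lit 234) (nat_lit 0) (nat_lit 0) (XT.nd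 (nat_lit 78) (nat_lit 0) (nat_lit 0) (XT.lf (nat_lit 0) (nat_lit 1416775571052) (nat_lit 76) (nat_lit 181229131383) (nat_lit 76) (nat_lit 179802585199) (nat_lit 1) (nat_lit 4) (nat_lit 2) (nat_lit 5) (nat_lit 2) (nat_lit 4) (nat_lit 502) (nat_lit 376) (nat_lit 322)) (XT.nd (nat_lit 78) (nat_lit 0) (nat_lit 0) (XT.lf (nat_lit 0) (nat_lit 1537521824759) (nat_lit 76) (nat_lit 191824405056) (nat_lit 76) (nat_lit 190396176472) (nat_lit 1) (nat_lit 4) (nat_lit 2) (nat_lit 5) (nat_lit 2) (nat_lit 4) (nat_lit 503) (nat_lit 376) (nat_lit 321)) (XT.lf (nat_lit 0) (nat_lit 1667911709817) (nat_lit 76) (nat_lit 203275519594) (nat_lit 76) (nat_lit 201845733232) (nat_lit 1) (nat_lit 4) (nat_lit 2) (nat_lit 5) (nat_lit 2) (nat_lit 4) (nat_lit 504) (nat_lit 376) (nat_lit 320)))) (XT.nd (nat_lit 78) (nat_lit 0) (nat_lit 0) (XT.lf (nat_lit 0) (nat_lit 1808717907025) (nat_lit 76) (nat_lit 215650333452) (nat_lit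 76) (nat_lit 214219104703) (nat_lit 1) (nat_lit 4) (nat_lit 2) (nat_lit 5) (nat_lit 2) (nat_lit 4) (nat_lit 505) (nat_lit 376) (nat_lit 319)) (XT.nd (nat_lit 78) (nat_lit 0) (nat_lit 0) (XT.lf (nat_lit 0) (nat_lit 1960774823477) (nat_lit 76) (nat_lit 229022178862) (nat_lit 76) (nat_lit 227589614569) (nat_lit 1) (nat_lit 4) (nat_lit 2) (nat_lit 5) (nat_lit 2) (nat_lit 4) (nat_lit 506) (nat_lit 376) (nat_lit 318)) (XT.lf (nat_lit 0) (nat_lit 2124983537198) (nat_lit 76) (nat_lit 243470296388) (nat_lit 76) (nat_lit 242036495481) (nat_lit 1) (nat_lit 4) (nat_lit 2) (nat_lit 5) (nat_lit 2) (nat_lit 4) (nat_lit 507) (nat_lit 376) (nat_lit 317))))))) (XT.nd (nat_lit 858) (nat_lit 0) (nat_lit 0) (XT.nd (nat_lit 390) (nat_lit 0) (nat_lit 0) (XT.nd (nat_lit 156) (nat_lit 0) (nat_lit 0) (XT.nd (nat_lit 78) (nat_lit 0) (nat_lit 0) (XT.lf (nat_lit 0) (nat_lit 2302317136861) (nat_lit 76) (nat_lit 259080304505)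 (nat_lit 76) (nat_lit 257645358585) (nat_lit 1) (nat_lit 4) (nat_lit 2) (nat_lit 5) (nat_lit 2) (nat_lit 4) (nat_lit 508) (nat_lit 376) (nat_lit 316)) (XT.lf (nat_lit 0) (nat_lit 2493826488241) (nat_lit 76) (nat_lit 275944706965) (nat_lit 76) (nat_lit 274508700847) (nat_lit 1) (nat_lit 4) (nat_lit 2) (nat_lit 5) (nat_lit 2) (nat_lit 4) (nat_lit 509) (nat_lit 376) (nat_lit 315))) (XT.nd (nat_lit 78) (nat_lit 0) (nat_lit 0) (XT.lf (nat_lit 0) (nat_lit 2700646461570) (nat_lit 76) (nat_lit 294163440967) (nat_lit 76) (nat_lit 292726453185) (nat_lit 1) (nat_lit 4) (nat_lit 2) (nat_lit 5) (nat_lit 2) (nat_lit 4) (nat_lit 510) (nat_lit 376) (nat_lit 314)) (XT.nd (nat_lit 78) (nat_lit 0) (nat_lit 0) (XT.lf (nat_lit 0) (nat_lit 2924002656689) (nat_lit 76) (nat_lit 313844469380) (nat_lit 76) (nat_lit 312406572650) (nat_lit 1) (nat_lit 4) (nat_lit 2) (nat_lit 5) (nat_lit 2) (nat_lit 4) (nat_lit 511)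 (nat_lit 376) (nat_lit 313)) (XT.lf (nat_lit 0) (nat_lit 3165218665866) (nat_lit 76) (nat_lit 335104420520) (nat_lit 76) (nat_lit 333665682171) (nat_lit 1) (nat_lit 4) (nat_lit 2) (nat_lit 5) (nat_lit 2) (nat_lit 4) (nat_lit 512) (nat_lit 376) (nat_lit 312))))) (XT.nd (nat_lit 234) (nat_lit 0) (nat_lit 0) (XT.nd (nat_lit 78) (nat_lit 0) (nat_lit 0) (XT.lf (nat_lit 0) (nat_lit 3425723917302) (nat_lit 76) (nat_lit 358069279283) (nat_lit 76) (nat_lit 356629761656) (nat_lit 1) (nat_lit 4) (nat_lit 2) (nat_lit 5) (nat_lit 2) (nat_lit 4) (nat_lit 513) (nat_lit 376) (nat_lit 311)) (XT.nd (nat_lit 78) (nat_lit 0) (nat_lit 0) (XT.lf (nat_lit 0) (nat_lit 3707062145823) (nat_lit 76) (nat_lit 382875133720) (nat_lit 76) (nat_lit 381434894541) (nat_lit 1) (nat_lit 4) (nat_lit 2) (nat_lit 5) (nat_lit 2) (nat_lit 4) (nat_lit 514) (nat_lit 376) (nat_lit 310)) (XT.lf (nat_lit 0) (nat_lit 4010900540929) (nat_lit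 76) (nat_lit 409668981488) (nat_lit 76) (nat_lit 408228074204) (nat_lit 1) (nat_lit 4) (nat_lit 2) (nat_lit 5) (nat_lit 2) (nat_lit 4) (nat_lit 515) (nat_lit 376) (nat_lit 309)))) (XT.nd (nat_lit 78) (nat_lit 0) (nat_lit 0) (XT.lf (nat_lit 0) (nat_lit 4339039626443) (nat_lit 76) (nat_lit 438609600943) (nat_lit 76) (nat_lit 437168075045) (nat_lit 1) (nat_lit 4) (nat_lit 2) (nat_lit 5) (nat_lit 2) (nat_lit 4) (nat_lit 516) (nat_lit 376) (nat_lit 308)) (XT.nd (nat_lit 78) (nat_lit 0) (nat_lit 0) (XT.lf (nat_lit 0) (nat_lit 4693423930280) (nat_lit 76) (nat_lit 469868492054) (nat_lit 76) (nat_lit 468426393364) (nat_lit 1) (nat_lit 4) (nat_lit 2) (nat_lit 5) (nat_lit 2) (nat_lit 4) (nat_lit 517) (nat_lit 376) (nat_lit 307)) (XT.lf (nat_lit 0) (nat_lit 5076153507574) (nat_lit 76) (nat_lit 503630892692) (nat_lit 76) (nat_lit 502188263640) (nat_lit 1) (nat_lit 4) (nat_lit 2) (nat_lit 5) (nat_lit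 2) (nat_lit 4) (nat_lit 518) (nat_lit 376) (nat_lit 306)))))) (XT.nd (nat_lit 468) (nat_lit 0) (nat_lit 0) (XT.nd (nat_lit 234) (nat_lit 0) (nat_lit 0) (XT.nd (nat_lit 78) (nat_lit 0) (nat_lit 0) (XT.lf (nat_lit 0) (nat_lit 5489496385450) (nat_lit 76) (nat_lit 540096876344) (nat_lit 76) (nat_lit 538653756215) (nat_lit 1) (nat_lit 4) (nat_lit 2) (nat_lit 5) (nat_lit 2) (nat_lit 4) (nat_lit 519) (nat_lit 376) (nat_lit 305)) (XT.nd (nat_lit 78) (nat_lit 0) (nat_lit 0) (XT.lf (nat_lit 0) (nat_lit 5935902003183) (nat_lit 76) (nat_lit 579482537727) (nat_lit 76) (nat_lit 578038962898) (nat_lit 1) (nat_lit 4) (nat_lit 2) (nat_lit 5) (nat_lit 2) (nat_lit 4) (nat_lit 520) (nat_lit 376) (nat_lit 304)) (XT.lf (nat_lit 0) (nat_lit 6418015727397) (nat_lit 76) (nat_lit 622021273354) (nat_lit 76) (nat_lit 620577277505) (nat_lit 1) (nat_lit 4) (nat_lit 2) (nat_lit 5) (nat_lit 2) (nat_lit 4) (nat_lit 521)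 (nat_lit 376) (nat_lit 303)))) (XT.nd (nat_lit 78) (nat_lit 0) (nat_lit 0) (XT.lf (nat_lit 0) (nat_lit 6938694528310) (nat_lit 76) (nat_lit 667965164620) (nat_lit 76) (nat_lit 666520778939) (nat_lit 1) (nat_lit 4) (nat_lit 2) (nat_lit 5) (nat_lit 2) (nat_lit 4) (nat_lit 522) (nat_lit 376) (nat_lit 302)) (XT.nd (nat_lit 78) (nat_lit 0) (nat_lit 0) (XT.lf (nat_lit 0) (nat_lit 7501023909927) (nat_lit 76) (nat_lit 717586471622) (nat_lit 76) (nat_lit 716141724985) (nat_lit 1) (nat_lit 4) (nat_lit 2) (nat_lit 5) (nat_lit 2) (nat_lit 4) (nat_lit 523) (nat_lit 376) (nat_lit 301)) (XT.lf (nat_lit 0) (nat_lit 8108336194510) (nat_lit 76) (nat_lit 771179246549) (nat_lit 76) (nat_lit 769734165693) (nat_lit 1) (nat_lit 4) (nat_lit 2) (nat_lit 5) (nat_lit 2) (nat_lit 4) (nat_lit 524) (nat_lit 376) (nat_lit 300))))) (XT.nd (nat_lit 234) (nat_lit 0) (nat_lit 0) (XT.nd (nat_lit 78) (nat_lit 0) (nat_lit 0)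 (XT.lf (nat_lit 0) (nat_lit 8764230269671) (nat_lit 76) (nat_lit 829061076217) (nat_lit 76) (nat_lit 827615685899) (nat_lit 1) (nat_lit 4) (nat_lit 2) (nat_lit 5) (nat_lit 2) (nat_lit 4) (nat_lit 525) (nat_lit 376) (nat_lit 299)) (XT.nd (nat_lit 78) (nat_lit 0) (nat_lit 0) (XT.lf (nat_lit 0) (nat_lit 9472592915114) (nat_lit 76) (nat_lit 891574964059) (nat_lit 76) (nat_lit 890129287203) (nat_lit 1) (nat_lit 4) (nat_lit 2) (nat_lit 5) (nat_lit 2) (nat_lit 4) (nat_lit 526) (nat_lit 376) (nat_lit 298)) (XT.lf (nat_lit 0) (nat_lit 10237621835406) (nat_lit 76) (nat_lit 959091362745) (nat_lit 76) (nat_lit 957645420576) (nat_lit 1) (nat_lit 4) (nat_lit 2) (nat_lit 5) (nat_lit 2) (nat_lit 4) (nat_lit 527) (nat_lit 376) (nat_lit 297)))) (XT.nd (nat_lit 78) (nat_lit 0) (nat_lit 0) (XT.lf (nat_lit 0) (nat_lit 11063850535259) (nat_lit 76) (nat_lit 1032010369452) (nat_lit 76) (nat_lit 1030564181623)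 (nat_lit 1) (nat_lit 4) (nat_lit 2) (nat_lit 5) (nat_lit 2) (nat_lit 4) (nat_lit 528) (nat_lit 376) (nat_lit 296)) (XT.nd (nat_lit 56004) (nat_lit 0) (nat_lit 684) (XT.lf (nat_lit 0) (nat_lit 11956175184746) (nat_lit 76) (nat_lit 1110764096813) (nat_lit 76) (nat_lit 1109317681520) (nat_lit 1) (nat_lit 4) (nat_lit 2) (nat_lit 5) (nat_lit 2) (nat_lit 4) (nat_lit 529) (nat_lit 376) (nat_lit 295)) (XT.lf (nat_lit 0) (nat_lit 14441993368) (nat_lit 76) (nat_lit 292848404) (nat_lit 76) (nat_lit 292848404) (nat_lit 10) (nat_lit 4) (nat_lit 11) (nat_lit 5) (nat_lit 11) (nat_lit 4) (nat_lit 446) (nat_lit 377) (nat_lit 377))))))))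
noncomputable def xc39 : XT := (XT.nd (nat_lit 1716) (nat_lit 76) (nat_lit 0) (XT.nd (nat_lit 858) (nat_lit 152) (nat_lit 0) (XT.nd (nat_lit 390) (nat_lit 76) (nat_lit 0) (XT.nd (nat_lit 156) (nat_lit 228) (nat_lit 0) (XT.nd (nat_lit 78) (nat_lit 0) (nat_lit 0) (XT.lf (nat_lit 0) (nat_lit 7009479987) (nat_lit 152) (nat_lit 17956438658) (nat_lit 0) (nat_lit 6874246769) (nat_lit 8) (nat_lit 5) (nat_lit 10) (nat_lit 4) (nat_lit 8) (nat_lit 4) (nat_lit 447) (nat_lit 377) (nat_lit 376)) (XT.lf (nat_lit 0) (nat_lit 14848171332) (nat_lit 152) (nat_lit 4357236204) (nat_lit 0) (nat_lit 14587722173) (nat_lit 8) (nat_lit 5) (nat_lit 10) (nat_lit 4) (nat_lit 8) (nat_lit 4) (nat_lit 448) (nat_lit 377) (nat_lit 375))) (XT.nd (nat_lit 78) (nat_lit 152) (nat_lit 0) (XT.lf (nat_lit 0) (nat_lit 10122685331) (nat_lit 76) (nat_lit 13082381318) (nat_lit 76) (nat_lit 12705991472) (nat_lit 7) (nat_lit 4) (nat_lit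 8) (nat_lit 5) (nat_lit 8) (nat_lit 4) (nat_lit 449) (nat_lit 377) (nat_lit 374)) (XT.nd (nat_lit 78) (nat_lit 152) (nat_lit 0) (XT.lf (nat_lit 0) (nat_lit 25313271336) (nat_lit 76) (nat_lit 6693406585) (nat_lit 76) (nat_lit 6209664251) (nat_lit 7) (nat_lit 4) (nat_lit 8) (nat_lit 5) (nat_lit 8) (nat_lit 4) (nat_lit 450) (nat_lit 377) (nat_lit 373)) (XT.lf (nat_lit 0) (nat_lit 349991749) (nat_lit 76) (nat_lit 98630623) (nat_lit 152) (nat_lit 40281280269) (nat_lit 5) (nat_lit 5) (nat_lit 6) (nat_lit 5) (nat_lit 7) (nat_lit 4) (nat_lit 451) (nat_lit 377) (nat_lit 372))))) (XT.nd (nat_lit 234) (nat_lit 76) (nat_lit 0) (XT.nd (nat_lit 78) (nat_lit 0) (nat_lit 0) (XT.lf (nat_lit 0) (nat_lit 7509905738) (nat_lit 152) (nat_lit 29020546323) (nat_lit 0) (nat_lit 6884738848) (nat_lit 5) (nat_lit 5) (nat_lit 7) (nat_lit 4) (nat_lit 5) (nat_lit 4) (nat_lit 452) (nat_lit 377) (nat_lit 371)) (XT.nd (nat_lit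 78) (nat_lit 0) (nat_lit 0) (XT.lf (nat_lit 0) (nat_lit 14837672020) (nat_lit 152) (nat_lit 17367916617) (nat_lit 0) (nat_lit 14133597847) (nat_lit 5) (nat_lit 5) (nat_lit 7) (nat_lit 4) (nat_lit 5) (nat_lit 4) (nat_lit 453) (nat_lit 377) (nat_lit 370)) (XT.lf (nat_lit 0) (nat_lit 22472972949) (nat_lit 152) (nat_lit 5350597085) (nat_lit 0) (nat_lit 21695836477) (nat_lit 5) (nat_lit 5) (nat_lit 7) (nat_lit 4) (nat_lit 5) (nat_lit 4) (nat_lit 454) (nat_lit 377) (nat_lit 369)))) (XT.nd (nat_lit 78) (nat_lit 0) (nat_lit 0) (XT.lf (nat_lit 0) (nat_lit 7476637717) (nat_lit 76) (nat_lit 23164230353) (nat_lit 76) (nat_lit 22319443603) (nat_lit 4) (nat_lit 4) (nat_lit 5) (nat_lit 5) (nat_lit 5) (nat_lit 4) (nat_lit 455) (nat_lit 377) (nat_lit 368)) (XT.nd (nat_lit 78) (nat_lit 0) (nat_lit 0) (XT.lf (nat_lit 0) (nat_lit 21122165852) (nat_lit 76) (nat_lit 18235076958) (nat_lit 76) (nat_lit 17327651063)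 (nat_lit 4) (nat_lit 4) (nat_lit 5) (nat_lit 5) (nat_lit 5) (nat_lit 4) (nat_lit 456) (nat_lit 377) (nat_lit 367)) (XT.lf (nat_lit 0) (nat_lit 35385096748) (nat_lit 76) (nat_lit 13153194859) (nat_lit 76) (nat_lit 12187769755) (nat_lit 4) (nat_lit 4) (nat_lit 5) (nat_lit 5) (nat_lit 5) (nat_lit 4) (nat_lit 457) (nat_lit 377) (nat_lit 366)))))) (XT.nd (nat_lit 390) (nat_lit 0) (nat_lit 0) (XT.nd (nat_lit 156) (nat_lit 152) (nat_lit 0) (XT.nd (nat_lit 78) (nat_lit 0) (nat_lit 0) (XT.lf (nat_lit 0) (nat_lit 50349951476) (nat_lit 76) (nat_lit 7888469198) (nat_lit 76) (nat_lit 6869341123) (nat_lit 4) (nat_lit 4) (nat_lit 5) (nat_lit 5) (nat_lit 5) (nat_lit 4) (nat_lit 458) (nat_lit 377) (nat_lit 365)) (XT.lf (nat_lit 0) (nat_lit 66105410657) (nat_lit 76) (nat_lit 2409701602) (nat_lit 76) (nat_lit 1340848553) (nat_lit 4) (nat_lit 4) (nat_lit 5) (nat_lit 5) (nat_lit 5) (nat_lit 4) (nat_lit 459)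 (nat_lit 377) (nat_lit 364))) (XT.nd (nat_lit 78) (nat_lit 0) (nat_lit 0) (XT.lf (nat_lit 0) (nat_lit 4489774970) (nat_lit 152) (nat_lit 67020556764) (nat_lit 0) (nat_lit 3457465071) (nat_lit 2) (nat_lit 5) (nat_lit 4) (nat_lit 4) (nat_lit 2) (nat_lit 4) (nat_lit 460) (nat_lit 377) (nat_lit 363)) (XT.nd (nat_lit 78) (nat_lit 0) (nat_lit 0) (XT.lf (nat_lit 0) (nat_lit 10693085946) (nat_lit 152) (nat_lit 60173115866) (nat_lit 0) (nat_lit 9621302760) (nat_lit 2) (nat_lit 5) (nat_lit 4) (nat_lit 4) (nat_lit 2) (nat_lit 4) (nat_lit 461) (nat_lit 377) (nat_lit 362)) (XT.lf (nat_lit 0) (nat_lit 17217549144) (nat_lit 152) (nat_lit 53136037153) (nat_lit 0) (nat_lit 16109216618) (nat_lit 2) (nat_lit 5) (nat_lit 4) (nat_lit 4) (nat_lit 2) (nat_lit 4) (nat_lit 462) (nat_lit 377) (nat_lit 361))))) (XT.nd (nat_lit 234) (nat_lit 0) (nat_lit 0) (XT.nd (nat_lit 78) (nat_lit 0) (nat_lit 0) (XT.lf (nat_lit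 0) (nat_lit 24101828047) (nat_lit 152) (nat_lit 45867619419) (nat_lit 0) (nat_lit 22959653540) (nat_lit 2) (nat_lit 5) (nat_lit 4) (nat_lit 4) (nat_lit 2) (nat_lit 4) (nat_lit 463) (nat_lit 377) (nat_lit 360)) (XT.nd (nat_lit 78) (nat_lit 0) (nat_lit 0) (XT.lf (nat_lit 0) (nat_lit 31386718384) (nat_lit 152) (nat_lit 38324790558) (nat_lit 0) (nat_lit 30213208709) (nat_lit 2) (nat_lit 5) (nat_lit 4) (nat_lit 4) (nat_lit 2) (nat_lit 4) (nat_lit 464) (nat_lit 377) (nat_lit 359)) (XT.lf (nat_lit 0) (nat_lit 39115389874) (nat_lit 152) (nat_lit 30462852324) (nat_lit 0) (nat_lit 37912866155) (nat_lit 2) (nat_lit 5) (nat_lit 4) (nat_lit 4) (nat_lit 2) (nat_lit 4) (nat_lit 465) (nat_lit 377) (nat_lit 358)))) (XT.nd (nat_lit 78) (nat_lit 0) (nat_lit 0) (XT.lf (nat_lit 0) (nat_lit 47333642052) (nat_lit 152) (nat_lit 22235215455) (nat_lit 0) (nat_lit 46104253477) (nat_lit 2) (nat_lit 5) (nat_lit 4)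 (nat_lit 4) (nat_lit 2) (nat_lit 4) (nat_lit 466) (nat_lit 377) (nat_lit 357)) (XT.nd (nat_lit 78) (nat_lit 0) (nat_lit 0) (XT.lf (nat_lit 0) (nat_lit 56090175673) (nat_lit 152) (nat_lit 13593123584) (nat_lit 0) (nat_lit 54835912231) (nat_lit 2) (nat_lit 5) (nat_lit 4) (nat_lit 4) (nat_lit 2) (nat_lit 4) (nat_lit 467) (nat_lit 377) (nat_lit 356)) (XT.lf (nat_lit 0) (nat_lit 65436881305) (nat_lit 152) (nat_lit 4485364313) (nat_lit 0) (nat_lit 64159585579) (nat_lit 2) (nat_lit 5) (nat_lit 4) (nat_lit 4) (nat_lit 2) (nat_lit 4) (nat_lit 468) (nat_lit 377) (nat_lit 355))))))) (XT.nd (nat_lit 858) (nat_lit 0) (nat_lit 0) (XT.nd (nat_lit 390) (nat_lit 0) (nat_lit 0) (XT.nd (nat_lit 156) (nat_lit 0) (nat_lit 0) (XT.nd (nat_lit 78) (nat_lit 0) (nat_lit 0) (XT.lf (nat_lit 0) (nat_lit 5412804673) (nat_lit 76) (nat_lit 70146520243) (nat_lit 76) (nat_lit 68847898328) (nat_lit 1) (nat_lit 4) (nat_lit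 2) (nat_lit 5) (nat_lit 2) (nat_lit 4) (nat_lit 469) (nat_lit 377) (nat_lit 354)) (XT.lf (nat_lit 0) (nat_lit 16154223055) (nat_lit 76) (nat_lit 70360472082) (nat_lit 76) (nat_lit 69042103696) (nat_lit 1) (nat_lit 4) (nat_lit 2) (nat_lit 5) (nat_lit 2) (nat_lit 4) (nat_lit 470) (nat_lit 377) (nat_lit 353))) (XT.nd (nat_lit 78) (nat_lit 0) (nat_lit 0) (XT.lf (nat_lit 0) (nat_lit 27566352346) (nat_lit 76) (nat_lit 70688006808) (nat_lit 76) (nat_lit 69351354653) (nat_lit 1) (nat_lit 4) (nat_lit 2) (nat_lit 5) (nat_lit 2) (nat_lit 4) (nat_lit 471) (nat_lit 377) (nat_lit 352)) (XT.nd (nat_lit 78) (nat_lit 0) (nat_lit 0) (XT.lf (nat_lit 0) (nat_lit 39716819978) (nat_lit 76) (nat_lit 71131065367) (nat_lit 76) (nat_lit 69777483796) (nat_lit 1) (nat_lit 4) (nat_lit 2) (nat_lit 5) (nat_lit 2) (nat_lit 4) (nat_lit 472) (nat_lit 377) (nat_lit 351)) (XT.lf (nat_lit 0) (nat_lit 52677628723) (nat_lit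 76) (nat_lit 71692273292) (nat_lit 76) (nat_lit 70323016336) (nat_lit 1) (nat_lit 4) (nat_lit 2) (nat_lit 5) (nat_lit 2) (nat_lit 4) (nat_lit 473) (nat_lit 377) (nat_lit 350))))) (XT.nd (nat_lit 234) (nat_lit 0) (nat_lit 0) (XT.nd (nat_lit 78) (nat_lit 0) (nat_lit 0) (XT.lf (nat_lit 0) (nat_lit 66525583372) (nat_lit 76) (nat_lit 72374956260) (nat_lit 76) (nat_lit 70991185057) (nat_lit 1) (nat_lit 4) (nat_lit 2) (nat_lit 5) (nat_lit 2) (nat_lit 4) (nat_lit 474) (nat_lit 377) (nat_lit 349)) (XT.nd (nat_lit 78) (nat_lit 0) (nat_lit 0) (XT.lf (nat_lit 0) (nat_lit 81342745881) (nat_lit 76) (nat_lit 73183159798) (nat_lit 76) (nat_lit 71785949479) (nat_lit 1) (nat_lit 4) (nat_lit 2) (nat_lit 5) (nat_lit 2) (nat_lit 4) (nat_lit 475) (nat_lit 377) (nat_lit 348)) (XT.lf (nat_lit 0) (nat_lit 97216921655) (nat_lit 76) (nat_lit 74121673261) (nat_lit 76) (nat_lit 72712019316) (nat_lit 1) (nat_lit 4)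 (nat_lit 2) (nat_lit 5) (nat_lit 2) (nat_lit 4) (nat_lit 476) (nat_lit 377) (nat_lit 347)))) (XT.nd (nat_lit 78) (nat_lit 0) (nat_lit 0) (XT.lf (nat_lit 0) (nat_lit 114242179886) (nat_lit 76) (nat_lit 75196058211) (nat_lit 76) (nat_lit 73774882390) (nat_lit 1) (nat_lit 4) (nat_lit 2) (nat_lit 5) (nat_lit 2) (nat_lit 4) (nat_lit 477) (nat_lit 377) (nat_lit 346)) (XT.nd (nat_lit 78) (nat_lit 0) (nat_lit 0) (XT.lf (nat_lit 0) (nat_lit 132519410991) (nat_lit 76) (nat_lit 76412681373) (nat_lit 76) (nat_lit 74980837148) (nat_lit 1) (nat_lit 4) (nat_lit 2) (nat_lit 5) (nat_lit 2) (nat_lit 4) (nat_lit 478) (nat_lit 377) (nat_lit 345)) (XT.lf (nat_lit 0) (nat_lit 152156924489) (nat_lit 76) (nat_lit 77778752366) (nat_lit 76) (nat_lit 76337029989) (nat_lit 1) (nat_lit 4) (nat_lit 2) (nat_lit 5) (nat_lit 2) (nat_lit 4) (nat_lit 479) (nat_lit 377) (nat_lit 344)))))) (XT.nd (nat_lit 468) (nat_lit 0)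 (nat_lit 0) (XT.nd (nat_lit 234) (nat_lit 0) (nat_lit 0) (XT.nd (nat_lit 78) (nat_lit 0) (nat_lit 0) (XT.lf (nat_lit 0) (nat_lit 173271090830) (nat_lit 76) (nat_lit 79302366425) (nat_lit 76) (nat_lit 77851497611) (nat_lit 1) (nat_lit 4) (nat_lit 2) (nat_lit 5) (nat_lit 2) (nat_lit 4) (nat_lit 480) (nat_lit 377) (nat_lit 343)) (XT.nd (nat_lit 78) (nat_lit 0) (nat_lit 0) (XT.lf (nat_lit 0) (nat_lit 195987031000) (nat_lit 76) (nat_lit 80992552374) (nat_lit 76) (nat_lit 79533214638) (nat_lit 1) (nat_lit 4) (nat_lit 2) (nat_lit 5) (nat_lit 2) (nat_lit 4) (nat_lit 481) (nat_lit 377) (nat_lit 342)) (XT.lf (nat_lit 0) (nat_lit 220439357977) (nat_lit 76) (nat_lit 82859326131) (nat_lit 76) (nat_lit 81392146799) (nat_lit 1) (nat_lit 4) (nat_lit 2) (nat_lit 5) (nat_lit 2) (nat_lit 4) (nat_lit 482) (nat_lit 377) (nat_lit 341)))) (XT.nd (nat_lit 78) (nat_lit 0) (nat_lit 0) (XT.lf (nat_lit 0) (nat_lit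 246772974440) (nat_lit 76) (nat_lit 84913750058) (nat_lit 76) (nat_lit 83439309989) (nat_lit 1) (nat_lit 4) (nat_lit 2) (nat_lit 5) (nat_lit 2) (nat_lit 4) (nat_lit 483) (nat_lit 377) (nat_lit 340)) (XT.nd (nat_lit 78) (nat_lit 0) (nat_lit 0) (XT.lf (nat_lit 0) (nat_lit 275143931450) (nat_lit 76) (nat_lit 87167998519) (nat_lit 76) (nat_lit 85686835546) (nat_lit 1) (nat_lit 4) (nat_lit 2) (nat_lit 5) (nat_lit 2) (nat_lit 4) (nat_lit 484) (nat_lit 377) (nat_lit 339)) (XT.lf (nat_lit 0) (nat_lit 305720353196) (nat_lit 76) (nat_lit 89635430023) (nat_lit 76) (nat_lit 88148042139) (nat_lit 1) (nat_lit 4) (nat_lit 2) (nat_lit 5) (nat_lit 2) (nat_lit 4) (nat_lit 485) (nat_lit 377) (nat_lit 338))))) (XT.nd (nat_lit 234) (nat_lit 0) (nat_lit 0) (XT.nd (nat_lit 78) (nat_lit 0) (nat_lit 0) (XT.lf (nat_lit 0) (nat_lit 338683433288) (nat_lit 76) (nat_lit 92330666387) (nat_lit 76) (nat_lit 90837514697)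 (nat_lit 1) (nat_lit 4) (nat_lit 2) (nat_lit 5) (nat_lit 2) (nat_lit 4) (nat_lit 486) (nat_lit 377) (nat_lit 337)) (XT.nd (nat_lit 78) (nat_lit 0) (nat_lit 0) (XT.lf (nat_lit 0) (nat_lit 374228508498) (nat_lit 76) (nat_lit 95269679383) (nat_lit 76) (nat_lit 93771190834) (nat_lit 1) (nat_lit 4) (nat_lit 2) (nat_lit 5) (nat_lit 2) (nat_lit 4) (nat_lit 487) (nat_lit 377) (nat_lit 336)) (XT.lf (nat_lit 0) (nat_lit 412566216307) (nat_lit 76) (nat_lit 98469885382) (nat_lit 76) (nat_lit 96966455299) (nat_lit 1) (nat_lit 4) (nat_lit 2) (nat_lit 5) (nat_lit 2) (nat_lit 4) (nat_lit 488) (nat_lit 377) (nat_lit 335)))) (XT.nd (nat_lit 78) (nat_lit 0) (nat_lit 0) (XT.lf (nat_lit 0) (nat_lit 453923743134) (nat_lit 76) (nat_lit 101950248570) (nat_lit 76) (nat_lit 100442242991) (nat_lit 1) (nat_lit 4) (nat_lit 2) (nat_lit 5) (nat_lit 2) (nat_lit 4) (nat_lit 489) (nat_lit 377) (nat_lit 334)) (XT.nd (nat_lit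 78) (nat_lit 0) (nat_lit 0) (XT.lf (nat_lit 0) (nat_lit 498546170617) (nat_lit 76) (nat_lit 105731393320) (nat_lit 76) (nat_lit 104219151171) (nat_lit 1) (nat_lit 4) (nat_lit 2) (nat_lit 5) (nat_lit 2) (nat_lit 4) (nat_lit 490) (nat_lit 377) (nat_lit 333)) (XT.lf (nat_lit 0) (nat_lit 546697927958) (nat_lit 76) (nat_lit 109835726416) (nat_lit 76) (nat_lit 108319561517) (nat_lit 1) (nat_lit 4) (nat_lit 2) (nat_lit 5) (nat_lit 2) (nat_lit 4) (nat_lit 491) (nat_lit 377) (nat_lit 332))))))))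
noncomputable def xc40 : XT := (XT.nd (nat_lit 1716) (nat_lit 0) (nat_lit 0) (XT.nd (nat_lit 858) (nat_lit 0) (nat_lit 0) (XT.nd (nat_lit 390) (nat_lit 0) (nat_lit 0) (XT.nd (nat_lit 156) (nat_lit 0) (nat_lit 0) (XT.nd (nat_lit 78) (nat_lit 0) (nat_lit 0) (XT.lf (nat_lit 0) (nat_lit 598664358903) (nat_lit 76) (nat_lit 114287569831) (nat_lit 76) (nat_lit 112767772757) (nat_lit 1) (nat_lit 4) (nat_lit 2) (nat_lit 5) (nat_lit 2) (nat_lit 4) (nat_lit 492) (nat_lit 377) (nat_lit 331)) (XT.lf (nat_lit 0) (nat_lit 654753412673) (nat_lit 76) (nat_lit 119113304862) (nat_lit 76) (nat_lit 117590144661) (nat_lit 1) (nat_lit 4) (nat_lit 2) (nat_lit 5) (nat_lit 2) (nat_lit 4) (nat_lit 493) (nat_lit 377) (nat_lit 330))) (XT.nd (nat_lit 78) (nat_lit 0) (nat_lit 0) (XT.lf (nat_lit 0) (nat_lit 715297468845) (nat_lit 76) (nat_lit 124341528454) (nat_lit 76) (nat_lit 122815254248) (nat_lit 1) (nat_lit 4) (nat_lit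 2) (nat_lit 5) (nat_lit 2) (nat_lit 4) (nat_lit 494) (nat_lit 377) (nat_lit 329)) (XT.nd (nat_lit 78) (nat_lit 0) (nat_lit 0) (XT.lf (nat_lit 0) (nat_lit 780655307012) (nat_lit 76) (nat_lit 130003222676) (nat_lit 76) (nat_lit 128474065131) (nat_lit 1) (nat_lit 4) (nat_lit 2) (nat_lit 5) (nat_lit 2) (nat_lit 4) (nat_lit 495) (nat_lit 377) (nat_lit 328)) (XT.lf (nat_lit 0) (nat_lit 851214232881) (nat_lit 76) (nat_lit 136131938306) (nat_lit 76) (nat_lit 134600111004) (nat_lit 1) (nat_lit 4) (nat_lit 2) (nat_lit 5) (nat_lit 2) (nat_lit 4) (nat_lit 496) (nat_lit 377) (nat_lit 327))))) (XT.nd (nat_lit 234) (nat_lit 0) (nat_lit 0) (XT.nd (nat_lit 78) (nat_lit 0) (nat_lit 0) (XT.lf (nat_lit 0) (nat_lit 927392373421) (nat_lit 76) (nat_lit 142763993660) (nat_lit 76) (nat_lit 141229694359) (nat_lit 1) (nat_lit 4) (nat_lit 2) (nat_lit 5) (nat_lit 2) (nat_lit 4) (nat_lit 497) (nat_lit 377) (nat_lit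 326)) (XT.nd (nat_lit 78) (nat_lit 0) (nat_lit 0) (XT.lf (nat_lit 0) (nat_lit 1009641154650) (nat_lit 76) (nat_lit 149938689806) (nat_lit 76) (nat_lit 148402101619) (nat_lit 1) (nat_lit 4) (nat_lit 2) (nat_lit 5) (nat_lit 2) (nat_lit 4) (nat_lit 498) (nat_lit 377) (nat_lit 325)) (XT.lf (nat_lit 0) (nat_lit 1098447976752) (nat_lit 76) (nat_lit 157698543463) (nat_lit 76) (nat_lit 156159835936) (nat_lit 1) (nat_lit 4) (nat_lit 2) (nat_lit 5) (nat_lit 2) (nat_lit 4) (nat_lit 499) (nat_lit 377) (nat_lit 324)))) (XT.nd (nat_lit 78) (nat_lit 0) (nat_lit 0) (XT.lf (nat_lit 0) (nat_lit 1194339102377) (nat_lit 76) (nat_lit 166089538948) (nat_lit 76) (nat_lit 164548869070) (nat_lit 1) (nat_lit 4) (nat_lit 2) (nat_lit 5) (nat_lit 2) (nat_lit 4) (nat_lit 500) (nat_lit 377) (nat_lit 323)) (XT.nd (nat_lit 78) (nat_lit 0) (nat_lit 0) (XT.lf (nat_lit 0) (nat_lit 1297882775233) (nat_lit 76) (nat_lit 175161400679)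 (nat_lit 76) (nat_lit 173618913809) (nat_lit 1) (nat_lit 4) (nat_lit 2) (nat_lit 5) (nat_lit 2) (nat_lit 4) (nat_lit 501) (nat_lit 377) (nat_lit 322)) (XT.lf (nat_lit 0) (nat_lit 1409692587454) (nat_lit 76) (nat_lit 184967887838) (nat_lit 76) (nat_lit 183423718567) (nat_lit 1) (nat_lit 4) (nat_lit 2) (nat_lit 5) (nat_lit 2) (nat_lit 4) (nat_lit 502) (nat_lit 377) (nat_lit 321)))))) (XT.nd (nat_lit 390) (nat_lit 0) (nat_lit 0) (XT.nd (nat_lit 156) (nat_lit 0) (nat_lit 0) (XT.nd (nat_lit 78) (nat_lit 0) (nat_lit 0) (XT.lf (nat_lit 0) (nat_lit 1530431115707) (nat_lit 76) (nat_lit 195567112939) (nat_lit 76) (nat_lit 194021385890) (nat_lit 1) (nat_lit 4) (nat_lit 2) (nat_lit 5) (nat_lit 2) (nat_lit 4) (nat_lit 503) (nat_lit 377) (nat_lit 320)) (XT.lf (nat_lit 0) (nat_lit 1660813847565) (nat_lit 76) (nat_lit 207021886206) (nat_lit 76) (nat_lit 205474716770) (nat_lit 1) (nat_lit 4) (nat_lit 2)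 (nat_lit 5) (nat_lit 2) (nat_lit 4) (nat_lit 504) (nat_lit 377) (nat_lit 319))) (XT.nd (nat_lit 78) (nat_lit 0) (nat_lit 0) (XT.lf (nat_lit 0) (nat_lit 1801613421440) (nat_lit 76) (nat_lit 219400087777) (nat_lit 76) (nat_lit 217851582798) (nat_lit 1) (nat_lit 4) (nat_lit 2) (nat_lit 5) (nat_lit 2) (nat_lit 4) (nat_lit 505) (nat_lit 377) (nat_lit 318)) (XT.nd (nat_lit 78) (nat_lit 0) (nat_lit 0) (XT.lf (nat_lit 0) (nat_lit 1953664205178) (nat_lit 76) (nat_lit 232775069958) (nat_lit 76) (nat_lit 231225328364) (nat_lit 1) (nat_lit 4) (nat_lit 2) (nat_lit 5) (nat_lit 2) (nat_lit 4) (nat_lit 506) (nat_lit 377) (nat_lit 317)) (XT.lf (nat_lit 0) (nat_lit 2117867240458) (nat_lit 76) (nat_lit 247226091902) (nat_lit 76) (nat_lit 245675205295) (nat_lit 1) (nat_lit 4) (nat_lit 2) (nat_lit 5) (nat_lit 2) (nat_lit 4) (nat_lit 507) (nat_lit 377) (nat_lit 316))))) (XT.nd (nat_lit 234) (nat_lit 0) (nat_lit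 0) (XT.nd (nat_lit 78) (nat_lit 0) (nat_lit 0) (XT.lf (nat_lit 0) (nat_lit 2295195582306) (nat_lit 76) (nat_lit 262838789295) (nat_lit 76) (nat_lit 261286842490) (nat_lit 1) (nat_lit 4) (nat_lit 2) (nat_lit 5) (nat_lit 2) (nat_lit 4) (nat_lit 508) (nat_lit 377) (nat_lit 315)) (XT.nd (nat_lit 78) (nat_lit 0) (nat_lit 0) (XT.lf (nat_lit 0) (nat_lit 2486700065339) (nat_lit 76) (nat_lit 279705681825) (nat_lit 76) (nat_lit 278152753356) (nat_lit 1) (nat_lit 4) (nat_lit 2) (nat_lit 5) (nat_lit 2) (nat_lit 4) (nat_lit 509) (nat_lit 377) (nat_lit 314)) (XT.lf (nat_lit 0) (nat_lit 2693515530939) (nat_lit 76) (nat_lit 297926721447) (nat_lit 76) (nat_lit 296372884030) (nat_lit 1) (nat_lit 4) (nat_lit 2) (nat_lit 5) (nat_lit 2) (nat_lit 4) (nat_lit 510) (nat_lit 377) (nat_lit 313)))) (XT.nd (nat_lit 78) (nat_lit 0) (nat_lit 0) (XT.lf (nat_lit 0) (nat_lit 2916867552235) (nat_lit 76) (nat_lit 317609884694)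 (nat_lit 76) (nat_lit 316055205657) (nat_lit 1) (nat_lit 4) (nat_lit 2) (nat_lit 5) (nat_lit 2) (nat_lit 4) (nat_lit 511) (nat_lit 377) (nat_lit 312)) (XT.nd (nat_lit 78) (nat_lit 0) (nat_lit 0) (XT.lf (nat_lit 0) (nat_lit 3158079696761) (nat_lit 76) (nat_lit 338871812532) (nat_lit 76) (nat_lit 337316354218) (nat_lit 1) (nat_lit 4) (nat_lit 2) (nat_lit 5) (nat_lit 2) (nat_lit 4) (nat_lit 512) (nat_lit 377) (nat_lit 311)) (XT.lf (nat_lit 0) (nat_lit 3418581369817) (nat_lit 76) (nat_lit 361838501570) (nat_lit 76) (nat_lit 360282321704) (nat_lit 1) (nat_lit 4) (nat_lit 2) (nat_lit 5) (nat_lit 2) (nat_lit 4) (nat_lit 513) (nat_lit 377) (nat_lit 310))))))) (XT.nd (nat_lit 858) (nat_lit 0) (nat_lit 0) (XT.nd (nat_lit 390) (nat_lit 0) (nat_lit 0) (XT.nd (nat_lit 156) (nat_lit 0) (nat_lit 0) (XT.nd (nat_lit 78) (nat_lit 0) (nat_lit 0) (XT.lf (nat_lit 0) (nat_lit 3699916285022) (nat_lit 76) (nat_lit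 386646050707) (nat_lit 76) (nat_lit 385089202737) (nat_lit 1) (nat_lit 4) (nat_lit 2) (nat_lit 5) (nat_lit 2) (nat_lit 4) (nat_lit 514) (nat_lit 377) (nat_lit 309)) (XT.lf (nat_lit 0) (nat_lit 4003751612243) (nat_lit 76) (nat_lit 413441467641) (nat_lit 76) (nat_lit 411884001056) (nat_lit 1) (nat_lit 4) (nat_lit 2) (nat_lit 5) (nat_lit 2) (nat_lit 4) (nat_lit 515) (nat_lit 377) (nat_lit 308))) (XT.nd (nat_lit 78) (nat_lit 0) (nat_lit 0) (XT.lf (nat_lit 0) (nat_lit 4331887857124) (nat_lit 76) (nat_lit 442383540029) (nat_lit 76) (nat_lit 440825500652) (nat_lit 1) (nat_lit 4) (nat_lit 2) (nat_lit 5) (nat_lit 2) (nat_lit 4) (nat_lit 516) (nat_lit 377) (nat_lit 307)) (XT.nd (nat_lit 78) (nat_lit 0) (nat_lit 0) (XT.lf (nat_lit 0) (nat_lit 4686269530745) (nat_lit 76) (nat_lit 473643776447) (nat_lit 76) (nat_lit 472085206707) (nat_lit 1) (nat_lit 4) (nat_lit 2) (nat_lit 5) (nat_lit 2) (nat_lit 4)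 (nat_lit 517) (nat_lit 377) (nat_lit 306)) (XT.lf (nat_lit 0) (nat_lit 5068996672653) (nat_lit 76) (nat_lit 507407422740) (nat_lit 76) (nat_lit 505848361924) (nat_lit 1) (nat_lit 4) (nat_lit 2) (nat_lit 5) (nat_lit 2) (nat_lit 4) (nat_lit 518) (nat_lit 377) (nat_lit 305))))) (XT.nd (nat_lit 234) (nat_lit 0) (nat_lit 0) (XT.nd (nat_lit 78) (nat_lit 0) (nat_lit 0) (XT.lf (nat_lit 0) (nat_lit 5482337295542) (nat_lit 76) (nat_lit 543874559776) (nat_lit 76) (nat_lit 542315044259) (nat_lit 1) (nat_lit 4) (nat_lit 2) (nat_lit 5) (nat_lit 2) (nat_lit 4) (nat_lit 519) (nat_lit 377) (nat_lit 304)) (XT.nd (nat_lit 78) (nat_lit 0) (nat_lit 0) (XT.lf (nat_lit 0) (nat_lit 5928740825324) (nat_lit 76) (nat_lit 583261289108) (nat_lit 76) (nat_lit 581701352572) (nat_lit 1) (nat_lit 4) (nat_lit 2) (nat_lit 5) (nat_lit 2) (nat_lit 4) (nat_lit 520) (nat_lit 377) (nat_lit 303)) (XT.lf (nat_lit 0) (nat_lit 6410852616251)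 (nat_lit 76) (nat_lit 625801013575) (nat_lit 76) (nat_lit 624240687207) (nat_lit 1) (nat_lit 4) (nat_lit 2) (nat_lit 5) (nat_lit 2) (nat_lit 4) (nat_lit 521) (nat_lit 377) (nat_lit 302)))) (XT.nd (nat_lit 78) (nat_lit 0) (nat_lit 0) (XT.lf (nat_lit 0) (nat_lit 6931529627082) (nat_lit 76) (nat_lit 671745820435) (nat_lit 76) (nat_lit 670185133111) (nat_lit 1) (nat_lit 4) (nat_lit 2) (nat_lit 5) (nat_lit 2) (nat_lit 4) (nat_lit 522) (nat_lit 377) (nat_lit 301)) (XT.nd (nat_lit 78) (nat_lit 0) (nat_lit 0) (XT.lf (nat_lit 0) (nat_lit 7493857351217) (nat_lit 76) (nat_lit 721367975209) (nat_lit 76) (nat_lit 719806953666) (nat_lit 1) (nat_lit 4) (nat_lit 2) (nat_lit 5) (nat_lit 2) (nat_lit 4) (nat_lit 523) (nat_lit 377) (nat_lit 300)) (XT.lf (nat_lit 0) (nat_lit 8101168101094) (nat_lit 76) (nat_lit 774961535110) (nat_lit 76) (nat_lit 773400204106) (nat_lit 1) (nat_lit 4) (nat_lit 2) (nat_lit 5)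 (nat_lit 2) (nat_lit 4) (nat_lit 524) (nat_lit 377) (nat_lit 299)))))) (XT.nd (nat_lit 56238) (nat_lit 0) (nat_lit 456) (XT.nd (nat_lit 234) (nat_lit 0) (nat_lit 0) (XT.nd (nat_lit 78) (nat_lit 0) (nat_lit 0) (XT.lf (nat_lit 0) (nat_lit 8757060755230) (nat_lit 76) (nat_lit 832844091605) (nat_lit 76) (nat_lit 831282474062) (nat_lit 1) (nat_lit 4) (nat_lit 2) (nat_lit 5) (nat_lit 2) (nat_lit 4) (nat_lit 525) (nat_lit 377) (nat_lit 298)) (XT.nd (nat_lit 78) (nat_lit 0) (nat_lit 0) (XT.lf (nat_lit 0) (nat_lit 9465422084911) (nat_lit 76) (nat_lit 895358652436) (nat_lit 76) (nat_lit 893796769580) (nat_lit 1) (nat_lit 4) (nat_lit 2) (nat_lit 5) (nat_lit 2) (nat_lit 4) (nat_lit 526) (nat_lit 377) (nat_lit 297)) (XT.lf (nat_lit 0) (nat_lit 10230449786903) (nat_lit 76) (nat_lit 962875674260) (nat_lit 76) (nat_lit 961313545743) (nat_lit 1) (nat_lit 4) (nat_lit 2) (nat_lit 5) (nat_lit 2) (nat_lit 4)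 (nat_lit 527) (nat_lit 377) (nat_lit 296)))) (XT.nd (nat_lit 78) (nat_lit 0) (nat_lit 0) (XT.lf (nat_lit 0) (nat_lit 11056677358701) (nat_lit 76) (nat_lit 1035795257946) (nat_lit 76) (nat_lit 1034232901966) (nat_lit 1) (nat_lit 4) (nat_lit 2) (nat_lit 5) (nat_lit 2) (nat_lit 4) (nat_lit 528) (nat_lit 377) (nat_lit 295)) (XT.nd (nat_lit 55848) (nat_lit 0) (nat_lit 760) (XT.lf (nat_lit 0) (nat_lit 11949000963693) (nat_lit 76) (nat_lit 1114549519547) (nat_lit 76) (nat_lit 1112986952953) (nat_lit 1) (nat_lit 4) (nat_lit 2) (nat_lit 5) (nat_lit 2) (nat_lit 4) (nat_lit 529) (nat_lit 377) (nat_lit 294)) (XT.lf (nat_lit 0) (nat_lit 6160547494) (nat_lit 152) (nat_lit 1098420940) (nat_lit 0) (nat_lit 6160547494) (nat_lit 11) (nat_lit 5) (nat_lit 13) (nat_lit 4) (nat_lit 11) (nat_lit 4) (nat_lit 444) (nat_lit 378) (nat_lit 378))))) (XT.nd (nat_lit 234) (nat_lit 76) (nat_lit 0) (XT.nd (nat_lit 78)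 (nat_lit 152) (nat_lit 0) (XT.lf (nat_lit 0) (nat_lit 12872877543) (nat_lit 76) (nat_lit 7832544264) (nat_lit 76) (nat_lit 7674808239) (nat_lit 10) (nat_lit 4) (nat_lit 11) (nat_lit 5) (nat_lit 11) (nat_lit 4) (nat_lit 445) (nat_lit 378) (nat_lit 377)) (XT.nd (nat_lit 78) (nat_lit 152) (nat_lit 0) (XT.lf (nat_lit 0) (nat_lit 28523686616) (nat_lit 76) (nat_lit 924898925) (nat_lit 76) (nat_lit 621111026) (nat_lit 10) (nat_lit 4) (nat_lit 11) (nat_lit 5) (nat_lit 11) (nat_lit 4) (nat_lit 446) (nat_lit 378) (nat_lit 376)) (XT.lf (nat_lit 0) (nat_lit 6775002329) (nat_lit 152) (nat_lit 18727121075) (nat_lit 0) (nat_lit 6368501295) (nat_lit 8) (nat_lit 5) (nat_lit 10) (nat_lit 4) (nat_lit 8) (nat_lit 4) (nat_lit 447) (nat_lit 378) (nat_lit 375)))) (XT.nd (nat_lit 78) (nat_lit 76) (nat_lit 0) (XT.lf (nat_lit 0) (nat_lit 14444298405) (nat_lit 152) (nat_lit 5470993059) (nat_lit 0) (nat_lit 13921856684)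 (nat_lit 8) (nat_lit 5) (nat_lit 10) (nat_lit 4) (nat_lit 8) (nat_lit 4) (nat_lit 448) (nat_lit 378) (nat_lit 374)) (XT.nd (nat_lit 78) (nat_lit 0) (nat_lit 0) (XT.lf (nat_lit 0) (nat_lit 8615891005) (nat_lit 76) (nat_lit 13992216807) (nat_lit 76) (nat_lit 13362422598) (nat_lit 7) (nat_lit 4) (nat_lit 8) (nat_lit 5) (nat_lit 8) (nat_lit 4) (nat_lit 449) (nat_lit 378) (nat_lit 373)) (XT.lf (nat_lit 0) (nat_lit 23496857556) (nat_lit 76) (nat_lit 7760186031) (nat_lit 76) (nat_lit 7030991370) (nat_lit 7) (nat_lit 4) (nat_lit 8) (nat_lit 5) (nat_lit 8) (nat_lit 4) (nat_lit 450) (nat_lit 378) (nat_lit 372))))))))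
noncomputable def xc41 : XT := (XT.nd (nat_lit 1716) (nat_lit 0) (nat_lit 0) (XT.nd (nat_lit 858) (nat_lit 76) (nat_lit 0) (XT.nd (nat_lit 390) (nat_lit 152) (nat_lit 0) (XT.nd (nat_lit 156) (nat_lit 76) (nat_lit 0) (XT.nd (nat_lit 78) (nat_lit 152) (nat_lit 0) (XT.lf (nat_lit 0) (nat_lit 38971997300) (nat_lit 76) (nat_lit 1331855229) (nat_lit 76) (nat_lit 510623113) (nat_lit 7) (nat_lit 4) (nat_lit 8) (nat_lit 5) (nat_lit 8) (nat_lit 4) (nat_lit 451) (nat_lit 378) (nat_lit 371)) (XT.lf (nat_lit 0) (nat_lit 6353985340) (nat_lit 152) (nat_lit 31649865657) (nat_lit 0) (nat_lit 5514677949) (nat_lit 5) (nat_lit 5) (nat_lit 7) (nat_lit 4) (nat_lit 5) (nat_lit 4) (nat_lit 452) (nat_lit 378) (nat_lit 370))) (XT.nd (nat_lit 78) (nat_lit 76) (nat_lit 0) (XT.lf (nat_lit 0) (nat_lit 13547767653) (nat_lit 152) (nat_lit 20270082369) (nat_lit 0) (nat_lit 12635397963) (nat_lit 5) (nat_lit 5) (nat_lit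 7) (nat_lit 4) (nat_lit 5) (nat_lit 4) (nat_lit 453) (nat_lit 378) (nat_lit 369)) (XT.nd (nat_lit 78) (nat_lit 76) (nat_lit 0) (XT.lf (nat_lit 0) (nat_lit 21059009351) (nat_lit 152) (nat_lit 8505398410) (nat_lit 0) (nat_lit 20078989384) (nat_lit 5) (nat_lit 5) (nat_lit 7) (nat_lit 4) (nat_lit 5) (nat_lit 4) (nat_lit 454) (nat_lit 378) (nat_lit 368)) (XT.lf (nat_lit 0) (nat_lit 3909470410) (nat_lit 76) (nat_lit 25116773945) (nat_lit 76) (nat_lit 24074114832) (nat_lit 4) (nat_lit 4) (nat_lit 5) (nat_lit 5) (nat_lit 5) (nat_lit 4) (nat_lit 455) (nat_lit 378) (nat_lit 367))))) (XT.nd (nat_lit 234) (nat_lit 152) (nat_lit 0) (XT.nd (nat_lit 78) (nat_lit 0) (nat_lit 0) (XT.lf (nat_lit 0) (nat_lit 17326998790) (nat_lit 76) (nat_lit 20303776111) (nat_lit 76) (nat_lit 19203117790) (nat_lit 4) (nat_lit 4) (nat_lit 5) (nat_lit 5) (nat_lit 5) (nat_lit 4) (nat_lit 456) (nat_lit 378) (nat_lit 366)) (XT.nd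 (nat_lit 78) (nat_lit 0) (nat_lit 0) (XT.lf (nat_lit 0) (nat_lit 31378818801) (nat_lit 76) (nat_lit 15329445458) (nat_lit 76) (nat_lit 14175084165) (nat_lit 4) (nat_lit 4) (nat_lit 5) (nat_lit 5) (nat_lit 5) (nat_lit 4) (nat_lit 457) (nat_lit 378) (nat_lit 365)) (XT.lf (nat_lit 0) (nat_lit 46148200489) (nat_lit 76) (nat_lit 10164304469) (nat_lit 76) (nat_lit 8960218203) (nat_lit 4) (nat_lit 4) (nat_lit 5) (nat_lit 5) (nat_lit 5) (nat_lit 4) (nat_lit 458) (nat_lit 378) (nat_lit 364)))) (XT.nd (nat_lit 78) (nat_lit 152) (nat_lit 0) (XT.lf (nat_lit 0) (nat_lit 61722666113) (nat_lit 76) (nat_lit 4777744902) (nat_lit 76) (nat_lit 3527616994) (nat_lit 4) (nat_lit 4) (nat_lit 5) (nat_lit 5) (nat_lit 5) (nat_lit 4) (nat_lit 459) (nat_lit 378) (nat_lit 363)) (XT.nd (nat_lit 78) (nat_lit 0) (nat_lit 0) (XT.lf (nat_lit 0) (nat_lit 2146215366) (nat_lit 152) (nat_lit 72069936882) (nat_lit 0) (nat_lit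 949216238) (nat_lit 2) (nat_lit 5) (nat_lit 4) (nat_lit 4) (nat_lit 2) (nat_lit 4) (nat_lit 460) (nat_lit 378) (nat_lit 362)) (XT.lf (nat_lit 0) (nat_lit 8265337565) (nat_lit 152) (nat_lit 65394687069) (nat_lit 0) (nat_lit 7031789098) (nat_lit 2) (nat_lit 5) (nat_lit 4) (nat_lit 4) (nat_lit 2) (nat_lit 4) (nat_lit 461) (nat_lit 378) (nat_lit 361)))))) (XT.nd (nat_lit 390) (nat_lit 76) (nat_lit 0) (XT.nd (nat_lit 156) (nat_lit 0) (nat_lit 0) (XT.nd (nat_lit 78) (nat_lit 0) (nat_lit 0) (XT.lf (nat_lit 0) (nat_lit 14711848191) (nat_lit 152) (nat_lit 58517044547) (nat_lit 0) (nat_lit 13444457742) (nat_lit 2) (nat_lit 5) (nat_lit 4) (nat_lit 4) (nat_lit 2) (nat_lit 4) (nat_lit 462) (nat_lit 378) (nat_lit 360)) (XT.lf (nat_lit 0) (nat_lit 21523948787) (nat_lit 152) (nat_lit 51396252914) (nat_lit 0) (nat_lit 20225223170) (nat_lit 2) (nat_lit 5) (nat_lit 4) (nat_lit 4) (nat_lit 2) (nat_lit 4) (nat_lit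 463) (nat_lit 378) (nat_lit 359))) (XT.nd (nat_lit 78) (nat_lit 0) (nat_lit 0) (XT.lf (nat_lit 0) (nat_lit 28742007357) (nat_lit 152) (nat_lit 43990114888) (nat_lit 0) (nat_lit 27414267696) (nat_lit 2) (nat_lit 5) (nat_lit 4) (nat_lit 4) (nat_lit 2) (nat_lit 4) (nat_lit 464) (nat_lit 378) (nat_lit 358)) (XT.nd (nat_lit 78) (nat_lit 0) (nat_lit 0) (XT.lf (nat_lit 0) (nat_lit 36408797583) (nat_lit 152) (nat_lit 36254742242) (nat_lit 0) (nat_lit 35054193066) (nat_lit 2) (nat_lit 5) (nat_lit 4) (nat_lit 4) (nat_lit 2) (nat_lit 4) (nat_lit 465) (nat_lit 378) (nat_lit 357)) (XT.lf (nat_lit 0) (nat_lit 44569752294) (nat_lit 152) (nat_lit 28144295732) (nat_lit 0) (nat_lit 43190272910) (nat_lit 2) (nat_lit 5) (nat_lit 4) (nat_lit 4) (nat_lit 2) (nat_lit 4) (nat_lit 466) (nat_lit 378) (nat_lit 356))))) (XT.nd (nat_lit 234) (nat_lit 76) (nat_lit 0) (XT.nd (nat_lit 78) (nat_lit 0) (nat_lit 0) (XT.lf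 (nat_lit 0) (nat_lit 53273232703) (nat_lit 152) (nat_lit 19610713453) (nat_lit 0) (nat_lit 51870721036) (nat_lit 2) (nat_lit 5) (nat_lit 4) (nat_lit 4) (nat_lit 2) (nat_lit 4) (nat_lit 467) (nat_lit 378) (nat_lit 355)) (XT.nd (nat_lit 78) (nat_lit 0) (nat_lit 0) (XT.lf (nat_lit 0) (nat_lit 62570814992) (nat_lit 152) (nat_lit 10603426027) (nat_lit 0) (nat_lit 61146977136) (nat_lit 2) (nat_lit 5) (nat_lit 4) (nat_lit 4) (nat_lit 2) (nat_lit 4) (nat_lit 468) (nat_lit 378) (nat_lit 354)) (XT.lf (nat_lit 0) (nat_lit 72517595944) (nat_lit 152) (nat_lit 1069056937) (nat_lit 0) (nat_lit 71074011617) (nat_lit 2) (nat_lit 5) (nat_lit 4) (nat_lit 4) (nat_lit 2) (nat_lit 4) (nat_lit 469) (nat_lit 378) (nat_lit 353)))) (XT.nd (nat_lit 78) (nat_lit 0) (nat_lit 0) (XT.lf (nat_lit 0) (nat_lit 9525392492) (nat_lit 76) (nat_lit 73876212872) (nat_lit 76) (nat_lit 72414344775) (nat_lit 1) (nat_lit 4) (nat_lit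 2) (nat_lit 5) (nat_lit 2) (nat_lit 4) (nat_lit 470) (nat_lit 378) (nat_lit 352)) (XT.nd (nat_lit 78) (nat_lit 0) (nat_lit 0) (XT.lf (nat_lit 0) (nat_lit 20853564089) (nat_lit 76) (nat_lit 74246690413) (nat_lit 76) (nat_lit 72767892900) (nat_lit 1) (nat_lit 4) (nat_lit 2) (nat_lit 5) (nat_lit 2) (nat_lit 4) (nat_lit 471) (nat_lit 378) (nat_lit 351)) (XT.lf (nat_lit 0) (nat_lit 32926293117) (nat_lit 76) (nat_lit 74729510838) (nat_lit 76) (nat_lit 73235037940) (nat_lit 1) (nat_lit 4) (nat_lit 2) (nat_lit 5) (nat_lit 2) (nat_lit 4) (nat_lit 472) (nat_lit 378) (nat_lit 350))))))) (XT.nd (nat_lit 858) (nat_lit 0) (nat_lit 0) (XT.nd (nat_lit 390) (nat_lit 0) (nat_lit 0) (XT.nd (nat_lit 156) (nat_lit 0) (nat_lit 0) (XT.nd (nat_lit 78) (nat_lit 0) (nat_lit 0) (XT.lf (nat_lit 0) (nat_lit 45815121672) (nat_lit 76) (nat_lit 75327535306) (nat_lit 76) (nat_lit 73818548162) (nat_lit 1) (nat_lit 4) (nat_lit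 2) (nat_lit 5) (nat_lit 2) (nat_lit 4) (nat_lit 473) (nat_lit 378) (nat_lit 349)) (XT.lf (nat_lit 0) (nat_lit 59596427998) (nat_lit 76) (nat_lit 76044307664) (nat_lit 76) (nat_lit 74521881404) (nat_lit 1) (nat_lit 4) (nat_lit 2) (nat_lit 5) (nat_lit 2) (nat_lit 4) (nat_lit 474) (nat_lit 378) (nat_lit 348))) (XT.nd (nat_lit 78) (nat_lit 0) (nat_lit 0) (XT.lf (nat_lit 0) (nat_lit 74351879095) (nat_lit 76) (nat_lit 76884075453) (nat_lit 76) (nat_lit 75349205566) (nat_lit 1) (nat_lit 4) (nat_lit 2) (nat_lit 5) (nat_lit 2) (nat_lit 4) (nat_lit 475) (nat_lit 378) (nat_lit 347)) (XT.nd (nat_lit 78) (nat_lit 0) (nat_lit 0) (XT.lf (nat_lit 0) (nat_lit 90168914675) (nat_lit 76) (nat_lit 77851815075) (nat_lit 76) (nat_lit 76305423312) (nat_lit 1) (nat_lit 4) (nat_lit 2) (nat_lit 5) (nat_lit 2) (nat_lit 4) (nat_lit 476) (nat_lit 378) (nat_lit 346)) (XT.lf (nat_lit 0) (nat_lit 107141265317) (nat_lit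 76) (nat_lit 78953261283) (nat_lit 76) (nat_lit 77396201116) (nat_lit 1) (nat_lit 4) (nat_lit 2) (nat_lit 5) (nat_lit 2) (nat_lit 4) (nat_lit 477) (nat_lit 378) (nat_lit 345))))) (XT.nd (nat_lit 234) (nat_lit 0) (nat_lit 0) (XT.nd (nat_lit 78) (nat_lit 0) (nat_lit 0) (XT.lf (nat_lit 0) (nat_lit 125369507915) (nat_lit 76) (nat_lit 80194941165) (nat_lit 76) (nat_lit 78628002846) (nat_lit 1) (nat_lit 4) (nat_lit 2) (nat_lit 5) (nat_lit 2) (nat_lit 4) (nat_lit 478) (nat_lit 378) (nat_lit 344)) (XT.nd (nat_lit 78) (nat_lit 0) (nat_lit 0) (XT.lf (nat_lit 0) (nat_lit 144961661683) (nat_lit 76) (nat_lit 81584212824) (nat_lit 76) (nat_lit 80008128069) (nat_lit 1) (nat_lit 4) (nat_lit 2) (nat_lit 5) (nat_lit 2) (nat_lit 4) (nat_lit 479) (nat_lit 378) (nat_lit 343)) (XT.lf (nat_lit 0) (nat_lit 166033828275) (nat_lit 76) (nat_lit 83129308982) (nat_lit 76) (nat_lit 81544755304) (nat_lit 1) (nat_lit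 4) (nat_lit 2) (nat_lit 5) (nat_lit 2) (nat_lit 4) (nat_lit 480) (nat_lit 378) (nat_lit 342)))) (XT.nd (nat_lit 78) (nat_lit 0) (nat_lit 0) (XT.lf (nat_lit 0) (nat_lit 188710879788) (nat_lit 76) (nat_lit 84839385764) (nat_lit 76) (nat_lit 83246990490) (nat_lit 1) (nat_lit 4) (nat_lit 2) (nat_lit 5) (nat_lit 2) (nat_lit 4) (nat_lit 481) (nat_lit 378) (nat_lit 341)) (XT.nd (nat_lit 78) (nat_lit 0) (nat_lit 0) (XT.lf (nat_lit 0) (nat_lit 213127198750) (nat_lit 76) (nat_lit 86724576958) (nat_lit 76) (nat_lit 85124920948) (nat_lit 1) (nat_lit 4) (nat_lit 2) (nat_lit 5) (nat_lit 2) (nat_lit 4) (nat_lit 482) (nat_lit 378) (nat_lit 340)) (XT.lf (nat_lit 0) (nat_lit 239427474458) (nat_lit 76) (nat_lit 88796054067) (nat_lit 76) (nat_lit 87189675153) (nat_lit 1) (nat_lit 4) (nat_lit 2) (nat_lit 5) (nat_lit 2) (nat_lit 4) (nat_lit 483) (nat_lit 378) (nat_lit 339)))))) (XT.nd (nat_lit 468) (nat_lit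 0) (nat_lit 0) (XT.nd (nat_lit 234) (nat_lit 0) (nat_lit 0) (XT.nd (nat_lit 78) (nat_lit 0) (nat_lit 0) (XT.lf (nat_lit 0) (nat_lit 267767560398) (nat_lit 76) (nat_lit 91066092512) (nat_lit 76) (nat_lit 89453488687) (nat_lit 1) (nat_lit 4) (nat_lit 2) (nat_lit 5) (nat_lit 2) (nat_lit 4) (nat_lit 484) (nat_lit 378) (nat_lit 338)) (XT.nd (nat_lit 78) (nat_lit 0) (nat_lit 0) (XT.lf (nat_lit 0) (nat_lit 298315397820) (nat_lit 76) (nat_lit 93548144372) (nat_lit 76) (nat_lit 91929776740) (nat_lit 1) (nat_lit 4) (nat_lit 2) (nat_lit 5) (nat_lit 2) (nat_lit 4) (nat_lit 485) (nat_lit 378) (nat_lit 337)) (XT.lf (nat_lit 0) (nat_lit 331252010946) (nat_lit 76) (nat_lit 96256918103) (nat_lit 76) (nat_lit 94633213613) (nat_lit 1) (nat_lit 4) (nat_lit 2) (nat_lit 5) (nat_lit 2) (nat_lit 4) (nat_lit 486) (nat_lit 378) (nat_lit 336)))) (XT.nd (nat_lit 78) (nat_lit 0) (nat_lit 0) (XT.lf (nat_lit 0) (nat_lit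 366772579705) (nat_lit 76) (nat_lit 99208465697) (nat_lit 76) (nat_lit 97579819671) (nat_lit 1) (nat_lit 4) (nat_lit 2) (nat_lit 5) (nat_lit 2) (nat_lit 4) (nat_lit 487) (nat_lit 378) (nat_lit 335)) (XT.nd (nat_lit 78) (nat_lit 0) (nat_lit 0) (XT.lf (nat_lit 0) (nat_lit 405087596357) (nat_lit 76) (nat_lit 102420277806) (nat_lit 76) (nat_lit 100787056285) (nat_lit 1) (nat_lit 4) (nat_lit 2) (nat_lit 5) (nat_lit 2) (nat_lit 4) (nat_lit 488) (nat_lit 378) (nat_lit 334)) (XT.lf (nat_lit 0) (nat_lit 446424112852) (nat_lit 76) (nat_lit 105911387391) (nat_lit 76) (nat_lit 104273929300) (nat_lit 1) (nat_lit 4) (nat_lit 2) (nat_lit 5) (nat_lit 2) (nat_lit 4) (nat_lit 489) (nat_lit 378) (nat_lit 333))))) (XT.nd (nat_lit 234) (nat_lit 0) (nat_lit 0) (XT.nd (nat_lit 78) (nat_lit 0) (nat_lit 0) (XT.lf (nat_lit 0) (nat_lit 491027086325) (nat_lit 76) (nat_lit 109702482509) (nat_lit 76) (nat_lit 108061101668)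 (nat_lit 1) (nat_lit 4) (nat_lit 2) (nat_lit 5) (nat_lit 2) (nat_lit 4) (nat_lit 490) (nat_lit 378) (nat_lit 332)) (XT.nd (nat_lit 78) (nat_lit 0) (nat_lit 0) (XT.lf (nat_lit 0) (nat_lit 539160830694) (nat_lit 76) (nat_lit 113816028909) (nat_lit 76) (nat_lit 112171015892) (nat_lit 1) (nat_lit 4) (nat_lit 2) (nat_lit 5) (nat_lit 2) (nat_lit 4) (nat_lit 491) (nat_lit 378) (nat_lit 331)) (XT.lf (nat_lit 0) (nat_lit 591110582960) (nat_lit 76) (nat_lit 118276403162) (nat_lit 76) (nat_lit 116628027019) (nat_lit 1) (nat_lit 4) (nat_lit 2) (nat_lit 5) (nat_lit 2) (nat_lit 4) (nat_lit 492) (nat_lit 378) (nat_lit 330)))) (XT.nd (nat_lit 78) (nat_lit 0) (nat_lit 0) (XT.lf (nat_lit 0) (nat_lit 647184193509) (nat_lit 76) (nat_lit 123110037115) (nat_lit 76) (nat_lit 121458546967) (nat_lit 1) (nat_lit 4) (nat_lit 2) (nat_lit 5) (nat_lit 2) (nat_lit 4) (nat_lit 493) (nat_lit 378) (nat_lit 329)) (XT.nd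 (nat_lit 78) (nat_lit 0) (nat_lit 0) (XT.lf (nat_lit 0) (nat_lit 707713950403) (nat_lit 76) (nat_lit 128345574526) (nat_lit 76) (nat_lit 126691201040) (nat_lit 1) (nat_lit 4) (nat_lit 2) (nat_lit 5) (nat_lit 2) (nat_lit 4) (nat_lit 494) (nat_lit 378) (nat_lit 328)) (XT.lf (nat_lit 0) (nat_lit 773058548498) (nat_lit 76) (nat_lit 134014040801) (nat_lit 76) (nat_lit 132356997557) (nat_lit 1) (nat_lit 4) (nat_lit 2) (nat_lit 5) (nat_lit 2) (nat_lit 4) (nat_lit 495) (nat_lit 378) (nat_lit 327))))))))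
noncomputable def xc42 : XT := (XT.nd (nat_lit 1716) (nat_lit 0) (nat_lit 0) (XT.nd (nat_lit 858) (nat_lit 0) (nat_lit 0) (XT.nd (nat_lit 390) (nat_lit 0) (nat_lit 0) (XT.nd (nat_lit 156) (nat_lit 0) (nat_lit 0) (XT.nd (nat_lit 78) (nat_lit 0) (nat_lit 0) (XT.lf (nat_lit 0) (nat_lit 843605215041) (nat_lit 76) (nat_lit 140149026851) (nat_lit 76) (nat_lit 138489511609) (nat_lit 1) (nat_lit 4) (nat_lit 2) (nat_lit 5) (nat_lit 2) (nat_lit 4) (nat_lit 496) (nat_lit 378) (nat_lit 326)) (XT.lf (nat_lit 0) (nat_lit 919772004352) (nat_lit 76) (nat_lit 146786888149) (nat_lit 76) (nat_lit 145125084020) (nat_lit 1) (nat_lit 4) (nat_lit 2) (nat_lit 5) (nat_lit 2) (nat_lit 4) (nat_lit 497) (nat_lit 378) (nat_lit 325))) (XT.nd (nat_lit 78) (nat_lit 0) (nat_lit 0) (XT.lf (nat_lit 0) (nat_lit 1002010275184) (nat_lit 76) (nat_lit 153966960170) (nat_lit 76) (nat_lit 152303036701) (nat_lit 1) (nat_lit 4) (nat_lit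 2) (nat_lit 5) (nat_lit 2) (nat_lit 4) (nat_lit 498) (nat_lit 378) (nat_lit 324)) (XT.nd (nat_lit 78) (nat_lit 0) (nat_lit 0) (XT.lf (nat_lit 0) (nat_lit 1090807365438) (nat_lit 76) (nat_lit 161731791488) (nat_lit 76) (nat_lit 160065905668) (nat_lit 1) (nat_lit 4) (nat_lit 2) (nat_lit 5) (nat_lit 2) (nat_lit 4) (nat_lit 499) (nat_lit 378) (nat_lit 323)) (XT.lf (nat_lit 0) (nat_lit 1186689480092) (nat_lit 76) (nat_lit 170127395919) (nat_lit 76) (nat_lit 168459693107) (nat_lit 1) (nat_lit 4) (nat_lit 2) (nat_lit 5) (nat_lit 2) (nat_lit 4) (nat_lit 500) (nat_lit 378) (nat_lit 322))))) (XT.nd (nat_lit 234) (nat_lit 0) (nat_lit 0) (XT.nd (nat_lit 78) (nat_lit 0) (nat_lit 0) (XT.lf (nat_lit 0) (nat_lit 1290224809456) (nat_lit 76) (nat_lit 179203525193) (nat_lit 76) (nat_lit 177534139980) (nat_lit 1) (nat_lit 4) (nat_lit 2) (nat_lit 5) (nat_lit 2) (nat_lit 4) (nat_lit 501) (nat_lit 378) (nat_lit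 321)) (XT.nd (nat_lit 78) (nat_lit 0) (nat_lit 0) (XT.lf (nat_lit 0) (nat_lit 1402026896223) (nat_lit 76) (nat_lit 189013963779) (nat_lit 76) (nat_lit 187343020788) (nat_lit 1) (nat_lit 4) (nat_lit 2) (nat_lit 5) (nat_lit 2) (nat_lit 4) (nat_lit 502) (nat_lit 378) (nat_lit 320)) (XT.lf (nat_lit 0) (nat_lit 1522758271276) (nat_lit 76) (nat_lit 199616847610) (nat_lit 76) (nat_lit 197944462232) (nat_lit 1) (nat_lit 4) (nat_lit 2) (nat_lit 5) (nat_lit 2) (nat_lit 4) (nat_lit 503) (nat_lit 378) (nat_lit 319)))) (XT.nd (nat_lit 78) (nat_lit 0) (nat_lit 0) (XT.lf (nat_lit 0) (nat_lit 1653134379802) (nat_lit 76) (nat_lit 211075008590) (nat_lit 76) (nat_lit 209401287669) (nat_lit 1) (nat_lit 4) (nat_lit 2) (nat_lit 5) (nat_lit 2) (nat_lit 4) (nat_lit 504) (nat_lit 378) (nat_lit 318)) (XT.nd (nat_lit 78) (nat_lit 0) (nat_lit 0) (XT.lf (nat_lit 0) (nat_lit 1793927820962) (nat_lit 76) (nat_lit 223456346933)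 (nat_lit 76) (nat_lit 221781389397) (nat_lit 1) (nat_lit 4) (nat_lit 2) (nat_lit 5) (nat_lit 2) (nat_lit 4) (nat_lit 505) (nat_lit 378) (nat_lit 317)) (XT.lf (nat_lit 0) (nat_lit 1945972926258) (nat_lit 76) (nat_lit 236834233531) (nat_lit 76) (nat_lit 235158130982) (nat_lit 1) (nat_lit 4) (nat_lit 2) (nat_lit 5) (nat_lit 2) (nat_lit 4) (nat_lit 506) (nat_lit 378) (nat_lit 316)))))) (XT.nd (nat_lit 390) (nat_lit 0) (nat_lit 0) (XT.nd (nat_lit 156) (nat_lit 0) (nat_lit 0) (XT.nd (nat_lit 78) (nat_lit 0) (nat_lit 0) (XT.lf (nat_lit 0) (nat_lit 2110170703724) (nat_lit 76) (nat_lit 251287944751) (nat_lit 76) (nat_lit 249610782004) (nat_lit 1) (nat_lit 4) (nat_lit 2) (nat_lit 5) (nat_lit 2) (nat_lit 4) (nat_lit 507) (nat_lit 378) (nat_lit 315)) (XT.lf (nat_lit 0) (nat_lit 2287494177225) (nat_lit 76) (nat_lit 266903132213) (nat_lit 76) (nat_lit 265224987803) (nat_lit 1) (nat_lit 4) (nat_lit 2)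 (nat_lit 5) (nat_lit 2) (nat_lit 4) (nat_lit 508) (nat_lit 378) (nat_lit 314))) (XT.nd (nat_lit 78) (nat_lit 0) (nat_lit 0) (XT.lf (nat_lit 0) (nat_lit 2478994152529) (nat_lit 76) (nat_lit 283772330364) (nat_lit 76) (nat_lit 282093277004) (nat_lit 1) (nat_lit 4) (nat_lit 2) (nat_lit 5) (nat_lit 2) (nat_lit 4) (nat_lit 509) (nat_lit 378) (nat_lit 313)) (XT.nd (nat_lit 78) (nat_lit 0) (nat_lit 0) (XT.lf (nat_lit 0) (nat_lit 2685805444306) (nat_lit 76) (nat_lit 301995504820) (nat_lit 76) (nat_lit 300315609842) (nat_lit 1) (nat_lit 4) (nat_lit 2) (nat_lit 5) (nat_lit 2) (nat_lit 4) (nat_lit 510) (nat_lit 378) (nat_lit 312)) (XT.lf (nat_lit 0) (nat_lit 2909153600951) (nat_lit 76) (nat_lit 321680644764) (nat_lit 76) (nat_lit 319999970509) (nat_lit 1) (nat_lit 4) (nat_lit 2) (nat_lit 5) (nat_lit 2) (nat_lit 4) (nat_lit 511) (nat_lit 378) (nat_lit 311))))) (XT.nd (nat_lit 234) (nat_lit 0) (nat_lit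 0) (XT.nd (nat_lit 78) (nat_lit 0) (nat_lit 0) (XT.lf (nat_lit 0) (nat_lit 3150362167096) (nat_lit 76) (nat_lit 342944402878) (nat_lit 76) (nat_lit 341263007070) (nat_lit 1) (nat_lit 4) (nat_lit 2) (nat_lit 5) (nat_lit 2) (nat_lit 4) (nat_lit 512) (nat_lit 378) (nat_lit 310)) (XT.nd (nat_lit 78) (nat_lit 0) (nat_lit 0) (XT.lf (nat_lit 0) (nat_lit 3410860526837) (nat_lit 76) (nat_lit 365912786616) (nat_lit 76) (nat_lit 364230722704) (nat_lit 1) (nat_lit 4) (nat_lit 2) (nat_lit 5) (nat_lit 2) (nat_lit 4) (nat_lit 513) (nat_lit 378) (nat_lit 309)) (XT.lf (nat_lit 0) (nat_lit 3692192374157) (nat_lit 76) (nat_lit 390721904920) (nat_lit 76) (nat_lit 389039222392) (nat_lit 1) (nat_lit 4) (nat_lit 2) (nat_lit 5) (nat_lit 2) (nat_lit 4) (nat_lit 514) (nat_lit 378) (nat_lit 308)))) (XT.nd (nat_lit 78) (nat_lit 0) (nat_lit 0) (XT.lf (nat_lit 0) (nat_lit 3996024860745) (nat_lit 76) (nat_lit 417518774786)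 (nat_lit 76) (nat_lit 415835519467) (nat_lit 1) (nat_lit 4) (nat_lit 2) (nat_lit 5) (nat_lit 2) (nat_lit 4) (nat_lit 515) (nat_lit 378) (nat_lit 307)) (XT.nd (nat_lit 78) (nat_lit 0) (nat_lit 0) (XT.lf (nat_lit 0) (nat_lit 4324158475409) (nat_lit 76) (nat_lit 446462192481) (nat_lit 76) (nat_lit 444778406799) (nat_lit 1) (nat_lit 4) (nat_lit 2) (nat_lit 5) (nat_lit 2) (nat_lit 4) (nat_lit 516) (nat_lit 378) (nat_lit 306)) (XT.lf (nat_lit 0) (nat_lit 4678537713644) (nat_lit 76) (nat_lit 477723674553) (nat_lit 76) (nat_lit 476039397795) (nat_lit 1) (nat_lit 4) (nat_lit 2) (nat_lit 5) (nat_lit 2) (nat_lit 4) (nat_lit 517) (nat_lit 378) (nat_lit 305))))))) (XT.nd (nat_lit 858) (nat_lit 0) (nat_lit 0) (XT.nd (nat_lit 390) (nat_lit 0) (nat_lit 0) (XT.nd (nat_lit 156) (nat_lit 0) (nat_lit 0) (XT.nd (nat_lit 78) (nat_lit 0) (nat_lit 0) (XT.lf (nat_lit 0) (nat_lit 5061262600566) (nat_lit 76) (nat_lit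 511488474231) (nat_lit 76) (nat_lit 509803742772) (nat_lit 1) (nat_lit 4) (nat_lit 2) (nat_lit 5) (nat_lit 2) (nat_lit 4) (nat_lit 518) (nat_lit 378) (nat_lit 304)) (XT.lf (nat_lit 0) (nat_lit 5474601135504) (nat_lit 76) (nat_lit 547956679216) (nat_lit 76) (nat_lit 546271526738) (nat_lit 1) (nat_lit 4) (nat_lit 2) (nat_lit 5) (nat_lit 2) (nat_lit 4) (nat_lit 519) (nat_lit 378) (nat_lit 303))) (XT.nd (nat_lit 78) (nat_lit 0) (nat_lit 0) (XT.lf (nat_lit 0) (nat_lit 5921002731998) (nat_lit 76) (nat_lit 587344397388) (nat_lit 76) (nat_lit 585658855078) (nat_lit 1) (nat_lit 4) (nat_lit 2) (nat_lit 5) (nat_lit 2) (nat_lit 4) (nat_lit 520) (nat_lit 378) (nat_lit 302)) (XT.nd (nat_lit 78) (nat_lit 0) (nat_lit 0) (XT.lf (nat_lit 0) (nat_lit 6403112732844) (nat_lit 76) (nat_lit 629885037449) (nat_lit 76) (nat_lit 628199134183) (nat_lit 1) (nat_lit 4) (nat_lit 2) (nat_lit 5) (nat_lit 2) (nat_lit 4)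 (nat_lit 521) (nat_lit 378) (nat_lit 301)) (XT.lf (nat_lit 0) (nat_lit 6923788086193) (nat_lit 76) (nat_lit 675830692081) (nat_lit 76) (nat_lit 674144454596) (nat_lit 1) (nat_lit 4) (nat_lit 2) (nat_lit 5) (nat_lit 2) (nat_lit 4) (nat_lit 522) (nat_lit 378) (nat_lit 300))))) (XT.nd (nat_lit 234) (nat_lit 0) (nat_lit 0) (XT.nd (nat_lit 78) (nat_lit 0) (nat_lit 0) (XT.lf (nat_lit 0) (nat_lit 7486114275621) (nat_lit 76) (nat_lit 725453631828) (nat_lit 76) (nat_lit 723767084882) (nat_lit 1) (nat_lit 4) (nat_lit 2) (nat_lit 5) (nat_lit 2) (nat_lit 4) (nat_lit 523) (nat_lit 378) (nat_lit 299)) (XT.nd (nat_lit 78) (nat_lit 0) (nat_lit 0) (XT.lf (nat_lit 0) (nat_lit 8093423604474) (nat_lit 76) (nat_lit 779047918557) (nat_lit 76) (nat_lit 777361085073) (nat_lit 1) (nat_lit 4) (nat_lit 2) (nat_lit 5) (nat_lit 2) (nat_lit 4) (nat_lit 524) (nat_lit 378) (nat_lit 298)) (XT.lf (nat_lit 0) (nat_lit 8749314942848)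 (nat_lit 76) (nat_lit 836931148041) (nat_lit 76) (nat_lit 835244049243) (nat_lit 1) (nat_lit 4) (nat_lit 2) (nat_lit 5) (nat_lit 2) (nat_lit 4) (nat_lit 525) (nat_lit 378) (nat_lit 297)))) (XT.nd (nat_lit 78) (nat_lit 0) (nat_lit 0) (XT.lf (nat_lit 0) (nat_lit 9457675054229) (nat_lit 76) (nat_lit 899446332010) (nat_lit 76) (nat_lit 897758987551) (nat_lit 1) (nat_lit 4) (nat_lit 2) (nat_lit 5) (nat_lit 2) (nat_lit 4) (nat_lit 526) (nat_lit 378) (nat_lit 296)) (XT.nd (nat_lit 78) (nat_lit 0) (nat_lit 0) (XT.lf (nat_lit 0) (nat_lit 10222701628167) (nat_lit 76) (nat_lit 966963930813) (nat_lit 76) (nat_lit 965276358891) (nat_lit 1) (nat_lit 4) (nat_lit 2) (nat_lit 5) (nat_lit 2) (nat_lit 4) (nat_lit 527) (nat_lit 378) (nat_lit 295)) (XT.lf (nat_lit 0) (nat_lit 11048928155470) (nat_lit 76) (nat_lit 1039884048739) (nat_lit 76) (nat_lit 1038196266203) (nat_lit 1) (nat_lit 4) (nat_lit 2) (nat_lit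 5) (nat_lit 2) (nat_lit 4) (nat_lit 528) (nat_lit 378) (nat_lit 294)))))) (XT.nd (nat_lit 56082) (nat_lit 0) (nat_lit 304) (XT.nd (nat_lit 55848) (nat_lit 0) (nat_lit 684) (XT.nd (nat_lit 55692) (nat_lit 0) (nat_lit 760) (XT.lf (nat_lit 0) (nat_lit 11941250793336) (nat_lit 76) (nat_lit 1118638805007) (nat_lit 76) (nat_lit 1116950827457) (nat_lit 1) (nat_lit 4) (nat_lit 2) (nat_lit 5) (nat_lit 2) (nat_lit 4) (nat_lit 529) (nat_lit 378) (nat_lit 293)) (XT.nd (nat_lit 78) (nat_lit 152) (nat_lit 0) (XT.lf (nat_lit 0) (nat_lit 9343883684) (nat_lit 76) (nat_lit 1351595697) (nat_lit 76) (nat_lit 1351595697) (nat_lit 13) (nat_lit 4) (nat_lit 14) (nat_lit 5) (nat_lit 14) (nat_lit 4) (nat_lit 442) (nat_lit 379) (nat_lit 379)) (XT.lf (nat_lit 0) (nat_lit 4660893411) (nat_lit 152) (nat_lit 16265967592) (nat_lit 0) (nat_lit 4490538504) (nat_lit 11) (nat_lit 5) (nat_lit 13) (nat_lit 4) (nat_lit 11) (nat_lit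 4) (nat_lit 443) (nat_lit 379) (nat_lit 378)))) (XT.nd (nat_lit 78) (nat_lit 76) (nat_lit 0) (XT.lf (nat_lit 0) (nat_lit 12307667588) (nat_lit 152) (nat_lit 2566500445) (nat_lit 0) (nat_lit 11979576656) (nat_lit 11) (nat_lit 5) (nat_lit 13) (nat_lit 4) (nat_lit 11) (nat_lit 4) (nat_lit 444) (nat_lit 379) (nat_lit 377)) (XT.nd (nat_lit 78) (nat_lit 0) (nat_lit 0) (XT.lf (nat_lit 0) (nat_lit 12123453293) (nat_lit 76) (nat_lit 8380348639) (nat_lit 76) (nat_lit 7906205834) (nat_lit 10) (nat_lit 4) (nat_lit 11) (nat_lit 5) (nat_lit 11) (nat_lit 4) (nat_lit 445) (nat_lit 379) (nat_lit 376)) (XT.lf (nat_lit 0) (nat_lit 27440651144) (nat_lit 76) (nat_lit 1640727459) (nat_lit 76) (nat_lit 1031351436) (nat_lit 10) (nat_lit 4) (nat_lit 11) (nat_lit 5) (nat_lit 11) (nat_lit 4) (nat_lit 446) (nat_lit 379) (nat_lit 375))))) (XT.nd (nat_lit 234) (nat_lit 152) (nat_lit 0) (XT.nd (nat_lit 78) (nat_lit 76)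 (nat_lit 0) (XT.lf (nat_lit 0) (nat_lit 6169424299) (nat_lit 152) (nat_lit 20273052916) (nat_lit 0) (nat_lit 5489246553) (nat_lit 8) (nat_lit 5) (nat_lit 10) (nat_lit 4) (nat_lit 8) (nat_lit 4) (nat_lit 447) (nat_lit 379) (nat_lit 374)) (XT.nd (nat_lit 78) (nat_lit 76) (nat_lit 0) (XT.lf (nat_lit 0) (nat_lit 13681872903) (nat_lit 152) (nat_lit 7334586417) (nat_lit 0) (nat_lit 12894342670) (nat_lit 8) (nat_lit 5) (nat_lit 10) (nat_lit 4) (nat_lit 8) (nat_lit 4) (nat_lit 448) (nat_lit 379) (nat_lit 373)) (XT.lf (nat_lit 0) (nat_lit 6344544670) (nat_lit 76) (nat_lit 15301282566) (nat_lit 76) (nat_lit 14414351881) (nat_lit 7) (nat_lit 4) (nat_lit 8) (nat_lit 5) (nat_lit 8) (nat_lit 4) (nat_lit 449) (nat_lit 379) (nat_lit 372)))) (XT.nd (nat_lit 78) (nat_lit 152) (nat_lit 0) (XT.lf (nat_lit 0) (nat_lit 20938826543) (nat_lit 76) (nat_lit 9214570269) (nat_lit 76) (nat_lit 8235602129) (nat_lit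 7) (nat_lit 4) (nat_lit 8) (nat_lit 5) (nat_lit 8) (nat_lit 4) (nat_lit 450) (nat_lit 379) (nat_lit 371)) (XT.nd (nat_lit 78) (nat_lit 152) (nat_lit 0) (XT.lf (nat_lit 0) (nat_lit 36148517510) (nat_lit 76) (nat_lit 2920793615) (nat_lit 76) (nat_lit 1856605608) (nat_lit 7) (nat_lit 4) (nat_lit 8) (nat_lit 5) (nat_lit 8) (nat_lit 4) (nat_lit 451) (nat_lit 379) (nat_lit 370)) (XT.lf (nat_lit 0) (nat_lit 4826904654) (nat_lit 152) (nat_lit 35057051088) (nat_lit 0) (nat_lit 3768483089) (nat_lit 5) (nat_lit 5) (nat_lit 7) (nat_lit 4) (nat_lit 5) (nat_lit 4) (nat_lit 452) (nat_lit 379) (nat_lit 369))))))))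
noncomputable def xc43 : XT := (XT.nd (nat_lit 1716) (nat_lit 0) (nat_lit 0) (XT.nd (nat_lit 858) (nat_lit 76) (nat_lit 0) (XT.nd (nat_lit 390) (nat_lit 152) (nat_lit 0) (XT.nd (nat_lit 156) (nat_lit 76) (nat_lit 0) (XT.nd (nat_lit 78) (nat_lit 0) (nat_lit 0) (XT.lf (nat_lit 0) (nat_lit 11896627736) (nat_lit 152) (nat_lit 23929903373) (nat_lit 0) (nat_lit 10770555895) (nat_lit 5) (nat_lit 5) (nat_lit 7) (nat_lit 4) (nat_lit 5) (nat_lit 4) (nat_lit 453) (nat_lit 379) (nat_lit 368)) (XT.lf (nat_lit 0) (nat_lit 19292999778) (nat_lit 152) (nat_lit 12399141240) (nat_lit 0) (nat_lit 18104288790) (nat_lit 5) (nat_lit 5) (nat_lit 7) (nat_lit 4) (nat_lit 5) (nat_lit 4) (nat_lit 454) (nat_lit 379) (nat_lit 367))) (XT.nd (nat_lit 78) (nat_lit 76) (nat_lit 0) (XT.lf (nat_lit 0) (nat_lit 27059851130) (nat_lit 152) (nat_lit 396434246) (nat_lit 0) (nat_lit 25813140934) (nat_lit 5) (nat_lit 5) (nat_lit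 7) (nat_lit 4) (nat_lit 5) (nat_lit 4) (nat_lit 455) (nat_lit 379) (nat_lit 366)) (XT.nd (nat_lit 78) (nat_lit 0) (nat_lit 0) (XT.lf (nat_lit 0) (nat_lit 12789107724) (nat_lit 76) (nat_lit 22761678204) (nat_lit 76) (nat_lit 21461265036) (nat_lit 4) (nat_lit 4) (nat_lit 5) (nat_lit 5) (nat_lit 5) (nat_lit 4) (nat_lit 456) (nat_lit 379) (nat_lit 365)) (XT.lf (nat_lit 0) (nat_lit 26645454694) (nat_lit 76) (nat_lit 17886932222) (nat_lit 76) (nat_lit 16536794081) (nat_lit 4) (nat_lit 4) (nat_lit 5) (nat_lit 5) (nat_lit 5) (nat_lit 4) (nat_lit 457) (nat_lit 379) (nat_lit 364))))) (XT.nd (nat_lit 234) (nat_lit 152) (nat_lit 0) (XT.nd (nat_lit 78) (nat_lit 0) (nat_lit 0) (XT.lf (nat_lit 0) (nat_lit 41233842825) (nat_lit 76) (nat_lit 12813999262) (nat_lit 76) (nat_lit 11417819480) (nat_lit 4) (nat_lit 4) (nat_lit 5) (nat_lit 5) (nat_lit 5) (nat_lit 4) (nat_lit 458) (nat_lit 379) (nat_lit 363)) (XT.nd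 (nat_lit 78) (nat_lit 0) (nat_lit 0) (XT.lf (nat_lit 0) (nat_lit 56640721823) (nat_lit 76) (nat_lit 7512817500) (nat_lit 76) (nat_lit 6074006568) (nat_lit 4) (nat_lit 4) (nat_lit 5) (nat_lit 5) (nat_lit 5) (nat_lit 4) (nat_lit 459) (nat_lit 379) (nat_lit 362)) (XT.lf (nat_lit 0) (nat_lit 72957391713) (nat_lit 76) (nat_lit 1951972526) (nat_lit 76) (nat_lit 473688306) (nat_lit 4) (nat_lit 4) (nat_lit 5) (nat_lit 5) (nat_lit 5) (nat_lit 4) (nat_lit 460) (nat_lit 379) (nat_lit 361)))) (XT.nd (nat_lit 78) (nat_lit 0) (nat_lit 0) (XT.lf (nat_lit 0) (nat_lit 5481227964) (nat_lit 152) (nat_lit 71365611244) (nat_lit 0) (nat_lit 4078604298) (nat_lit 2) (nat_lit 5) (nat_lit 4) (nat_lit 4) (nat_lit 2) (nat_lit 4) (nat_lit 461) (nat_lit 379) (nat_lit 360)) (XT.nd (nat_lit 78) (nat_lit 0) (nat_lit 0) (XT.lf (nat_lit 0) (nat_lit 11855560282) (nat_lit 152) (nat_lit 64635594823) (nat_lit 0) (nat_lit 10421601448)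 (nat_lit 2) (nat_lit 5) (nat_lit 4) (nat_lit 4) (nat_lit 2) (nat_lit 4) (nat_lit 462) (nat_lit 379) (nat_lit 359)) (XT.lf (nat_lit 0) (nat_lit 18600829112) (nat_lit 152) (nat_lit 57651494026) (nat_lit 0) (nat_lit 17137856234) (nat_lit 2) (nat_lit 5) (nat_lit 4) (nat_lit 4) (nat_lit 2) (nat_lit 4) (nat_lit 463) (nat_lit 379) (nat_lit 358)))))) (XT.nd (nat_lit 390) (nat_lit 76) (nat_lit 0) (XT.nd (nat_lit 156) (nat_lit 0) (nat_lit 0) (XT.nd (nat_lit 78) (nat_lit 0) (nat_lit 0) (XT.lf (nat_lit 0) (nat_lit 25757006418) (nat_lit 152) (nat_lit 50371921587) (nat_lit 0) (nat_lit 24267168684) (nat_lit 2) (nat_lit 5) (nat_lit 4) (nat_lit 4) (nat_lit 2) (nat_lit 4) (nat_lit 464) (nat_lit 379) (nat_lit 357)) (XT.lf (nat_lit 0) (nat_lit 33366499176) (nat_lit 152) (nat_lit 42753739301) (nat_lit 0) (nat_lit 31851786575) (nat_lit 2) (nat_lit 5) (nat_lit 4) (nat_lit 4) (nat_lit 2) (nat_lit 4) (nat_lit 465)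 (nat_lit 379) (nat_lit 356))) (XT.nd (nat_lit 78) (nat_lit 0) (nat_lit 0) (XT.lf (nat_lit 0) (nat_lit 41474400676) (nat_lit 152) (nat_lit 34751802383) (nat_lit 0) (nat_lit 39936655791) (nat_lit 2) (nat_lit 5) (nat_lit 4) (nat_lit 4) (nat_lit 2) (nat_lit 4) (nat_lit 466) (nat_lit 379) (nat_lit 355)) (XT.nd (nat_lit 78) (nat_lit 0) (nat_lit 0) (XT.lf (nat_lit 0) (nat_lit 50128757743) (nat_lit 152) (nat_lit 26318691948) (nat_lit 0) (nat_lit 48569686669) (nat_lit 2) (nat_lit 5) (nat_lit 4) (nat_lit 4) (nat_lit 2) (nat_lit 4) (nat_lit 467) (nat_lit 379) (nat_lit 354)) (XT.lf (nat_lit 0) (nat_lit 59380855454) (nat_lit 152) (nat_lit 17404434008) (nat_lit 0) (nat_lit 57802037910) (nat_lit 2) (nat_lit 5) (nat_lit 4) (nat_lit 4) (nat_lit 2) (nat_lit 4) (nat_lit 468) (nat_lit 379) (nat_lit 353))))) (XT.nd (nat_lit 234) (nat_lit 0) (nat_lit 0) (XT.nd (nat_lit 78) (nat_lit 76) (nat_lit 0) (XT.lf (nat_lit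 0) (nat_lit 69285521057) (nat_lit 152) (nat_lit 7956203330) (nat_lit 0) (nat_lit 67688419743) (nat_lit 2) (nat_lit 5) (nat_lit 4) (nat_lit 4) (nat_lit 2) (nat_lit 4) (nat_lit 469) (nat_lit 379) (nat_lit 352)) (XT.nd (nat_lit 78) (nat_lit 0) (nat_lit 0) (XT.lf (nat_lit 0) (nat_lit 2191623481) (nat_lit 76) (nat_lit 77762533981) (nat_lit 76) (nat_lit 76148503251) (nat_lit 1) (nat_lit 4) (nat_lit 2) (nat_lit 5) (nat_lit 2) (nat_lit 4) (nat_lit 470) (nat_lit 379) (nat_lit 351)) (XT.lf (nat_lit 0) (nat_lit 13442056474) (nat_lit 76) (nat_lit 78172773388) (nat_lit 76) (nat_lit 76543067272) (nat_lit 1) (nat_lit 4) (nat_lit 2) (nat_lit 5) (nat_lit 2) (nat_lit 4) (nat_lit 471) (nat_lit 379) (nat_lit 350)))) (XT.nd (nat_lit 78) (nat_lit 0) (nat_lit 0) (XT.lf (nat_lit 0) (nat_lit 25442805312) (nat_lit 76) (nat_lit 78692410355) (nat_lit 76) (nat_lit 77048189994) (nat_lit 1) (nat_lit 4) (nat_lit 2) (nat_lit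 5) (nat_lit 2) (nat_lit 4) (nat_lit 472) (nat_lit 379) (nat_lit 349)) (XT.nd (nat_lit 78) (nat_lit 0) (nat_lit 0) (XT.lf (nat_lit 0) (nat_lit 38264985543) (nat_lit 76) (nat_lit 79324524214) (nat_lit 76) (nat_lit 77666864736) (nat_lit 1) (nat_lit 4) (nat_lit 2) (nat_lit 5) (nat_lit 2) (nat_lit 4) (nat_lit 473) (nat_lit 379) (nat_lit 348)) (XT.lf (nat_lit 0) (nat_lit 51984580458) (nat_lit 76) (nat_lit 80072860823) (nat_lit 76) (nat_lit 78402757719) (nat_lit 1) (nat_lit 4) (nat_lit 2) (nat_lit 5) (nat_lit 2) (nat_lit 4) (nat_lit 474) (nat_lit 379) (nat_lit 347))))))) (XT.nd (nat_lit 858) (nat_lit 0) (nat_lit 0) (XT.nd (nat_lit 390) (nat_lit 0) (nat_lit 0) (XT.nd (nat_lit 156) (nat_lit 0) (nat_lit 0) (XT.nd (nat_lit 78) (nat_lit 0) (nat_lit 0) (XT.lf (nat_lit 0) (nat_lit 66682891361) (nat_lit 76) (nat_lit 80941854771) (nat_lit 76) (nat_lit 79260229791) (nat_lit 1) (nat_lit 4) (nat_lit 2) (nat_lit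 5) (nat_lit 2) (nat_lit 4) (nat_lit 475) (nat_lit 379) (nat_lit 346)) (XT.lf (nat_lit 0) (nat_lit 82447019352) (nat_lit 76) (nat_lit 81936655650) (nat_lit 76) (nat_lit 80244362266) (nat_lit 1) (nat_lit 4) (nat_lit 2) (nat_lit 5) (nat_lit 2) (nat_lit 4) (nat_lit 476) (nat_lit 379) (nat_lit 345))) (XT.nd (nat_lit 78) (nat_lit 0) (nat_lit 0) (XT.lf (nat_lit 0) (nat_lit 99370381486) (nat_lit 76) (nat_lit 83063158578) (nat_lit 76) (nat_lit 81360987042) (nat_lit 1) (nat_lit 4) (nat_lit 2) (nat_lit 5) (nat_lit 2) (nat_lit 4) (nat_lit 477) (nat_lit 379) (nat_lit 344)) (XT.nd (nat_lit 78) (nat_lit 0) (nat_lit 0) (XT.lf (nat_lit 0) (nat_lit 117553264355) (nat_lit 76) (nat_lit 84328039127) (nat_lit 76) (nat_lit 82616721154) (nat_lit 1) (nat_lit 4) (nat_lit 2) (nat_lit 5) (nat_lit 2) (nat_lit 4) (nat_lit 478) (nat_lit 379) (nat_lit 343)) (XT.lf (nat_lit 0) (nat_lit 137103418375) (nat_lit 76) (nat_lit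 85738792885) (nat_lit 76) (nat_lit 84019005990) (nat_lit 1) (nat_lit 4) (nat_lit 2) (nat_lit 5) (nat_lit 2) (nat_lit 4) (nat_lit 479) (nat_lit 379) (nat_lit 342))))) (XT.nd (nat_lit 234) (nat_lit 0) (nat_lit 0) (XT.nd (nat_lit 78) (nat_lit 0) (nat_lit 0) (XT.lf (nat_lit 0) (nat_lit 158136696309) (nat_lit 76) (nat_lit 87303779876) (nat_lit 76) (nat_lit 85576151385) (nat_lit 1) (nat_lit 4) (nat_lit 2) (nat_lit 5) (nat_lit 2) (nat_lit 4) (nat_lit 480) (nat_lit 379) (nat_lit 341)) (XT.nd (nat_lit 78) (nat_lit 0) (nat_lit 0) (XT.lf (nat_lit 0) (nat_lit 180777739807) (nat_lit 76) (nat_lit 89032274095) (nat_lit 76) (nat_lit 87297384867) (nat_lit 1) (nat_lit 4) (nat_lit 2) (nat_lit 5) (nat_lit 2) (nat_lit 4) (nat_lit 481) (nat_lit 379) (nat_lit 340)) (XT.lf (nat_lit 0) (nat_lit 205160718014) (nat_lit 76) (nat_lit 90934518471) (nat_lit 76) (nat_lit 89192906340) (nat_lit 1) (nat_lit 4) (nat_lit 2)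 (nat_lit 5) (nat_lit 2) (nat_lit 4) (nat_lit 482) (nat_lit 379) (nat_lit 339)))) (XT.nd (nat_lit 78) (nat_lit 0) (nat_lit 0) (XT.lf (nat_lit 0) (nat_lit 231430122652) (nat_lit 76) (nat_lit 93021785565) (nat_lit 76) (nat_lit 91273948522) (nat_lit 1) (nat_lit 4) (nat_lit 2) (nat_lit 5) (nat_lit 2) (nat_lit 4) (nat_lit 483) (nat_lit 379) (nat_lit 338)) (XT.nd (nat_lit 78) (nat_lit 0) (nat_lit 0) (XT.lf (nat_lit 0) (nat_lit 259741624269) (nat_lit 76) (nat_lit 95306444365) (nat_lit 76) (nat_lit 93552843516) (nat_lit 1) (nat_lit 4) (nat_lit 2) (nat_lit 5) (nat_lit 2) (nat_lit 4) (nat_lit 484) (nat_lit 379) (nat_lit 337)) (XT.lf (nat_lit 0) (nat_lit 290262994724) (nat_lit 76) (nat_lit 97802033592) (nat_lit 76) (nat_lit 96043095884) (nat_lit 1) (nat_lit 4) (nat_lit 2) (nat_lit 5) (nat_lit 2) (nat_lit 4) (nat_lit 485) (nat_lit 379) (nat_lit 336)))))) (XT.nd (nat_lit 468) (nat_lit 0) (nat_lit 0)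 (XT.nd (nat_lit 234) (nat_lit 0) (nat_lit 0) (XT.nd (nat_lit 78) (nat_lit 0) (nat_lit 0) (XT.lf (nat_lit 0) (nat_lit 323175101400) (nat_lit 76) (nat_lit 100523341921) (nat_lit 76) (nat_lit 98759462678) (nat_lit 1) (nat_lit 4) (nat_lit 2) (nat_lit 5) (nat_lit 2) (nat_lit 4) (nat_lit 486) (nat_lit 379) (nat_lit 335)) (XT.nd (nat_lit 78) (nat_lit 0) (nat_lit 0) (XT.lf (nat_lit 0) (nat_lit 358672979001) (nat_lit 76) (nat_lit 103486495624) (nat_lit 76) (nat_lit 101718040886) (nat_lit 1) (nat_lit 4) (nat_lit 2) (nat_lit 5) (nat_lit 2) (nat_lit 4) (nat_lit 487) (nat_lit 379) (nat_lit 334)) (XT.lf (nat_lit 0) (nat_lit 396966985322) (nat_lit 76) (nat_lit 106709054131) (nat_lit 76) (nat_lit 104936362823) (nat_lit 1) (nat_lit 4) (nat_lit 2) (nat_lit 5) (nat_lit 2) (nat_lit 4) (nat_lit 488) (nat_lit 379) (nat_lit 333)))) (XT.nd (nat_lit 78) (nat_lit 0) (nat_lit 0) (XT.lf (nat_lit 0) (nat_lit 438284047807)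 (nat_lit 76) (nat_lit 110210114084) (nat_lit 76) (nat_lit 108433500026) (nat_lit 1) (nat_lit 4) (nat_lit 2) (nat_lit 5) (nat_lit 2) (nat_lit 4) (nat_lit 489) (nat_lit 379) (nat_lit 332)) (XT.nd (nat_lit 78) (nat_lit 0) (nat_lit 0) (XT.lf (nat_lit 0) (nat_lit 482869008307) (nat_lit 76) (nat_lit 114010422506) (nat_lit 76) (nat_lit 112230176272) (nat_lit 1) (nat_lit 4) (nat_lit 2) (nat_lit 5) (nat_lit 2) (nat_lit 4) (nat_lit 490) (nat_lit 379) (nat_lit 331)) (XT.lf (nat_lit 0) (nat_lit 530986073997) (nat_lit 76) (nat_lit 118132499743) (nat_lit 76) (nat_lit 116348890383) (nat_lit 1) (nat_lit 4) (nat_lit 2) (nat_lit 5) (nat_lit 2) (nat_lit 4) (nat_lit 491) (nat_lit 379) (nat_lit 330))))) (XT.nd (nat_lit 234) (nat_lit 0) (nat_lit 0) (XT.nd (nat_lit 78) (nat_lit 0) (nat_lit 0) (XT.lf (nat_lit 0) (nat_lit 582920383043) (nat_lit 76) (nat_lit 122600772919) (nat_lit 76) (nat_lit 120814049554) (nat_lit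 1) (nat_lit 4) (nat_lit 2) (nat_lit 5) (nat_lit 2) (nat_lit 4) (nat_lit 492) (nat_lit 379) (nat_lit 329)) (XT.nd (nat_lit 78) (nat_lit 0) (nat_lit 0) (XT.lf (nat_lit 0) (nat_lit 638979694314) (nat_lit 76) (nat_lit 127441720691) (nat_lit 76) (nat_lit 125652113987) (nat_lit 1) (nat_lit 4) (nat_lit 2) (nat_lit 5) (nat_lit 2) (nat_lit 4) (nat_lit 493) (nat_lit 379) (nat_lit 328)) (XT.lf (nat_lit 0) (nat_lit 699496211135) (nat_lit 76) (nat_lit 132684030155) (nat_lit 76) (nat_lit 130891753693) (nat_lit 1) (nat_lit 4) (nat_lit 2) (nat_lit 5) (nat_lit 2) (nat_lit 4) (nat_lit 494) (nat_lit 379) (nat_lit 327)))) (XT.nd (nat_lit 78) (nat_lit 0) (nat_lit 0) (XT.lf (nat_lit 0) (nat_lit 764828549903) (nat_lit 76) (nat_lit 138358766849) (nat_lit 76) (nat_lit 136564018390) (nat_lit 1) (nat_lit 4) (nat_lit 2) (nat_lit 5) (nat_lit 2) (nat_lit 4) (nat_lit 495) (nat_lit 379) (nat_lit 326)) (XT.nd (nat_lit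 78) (nat_lit 0) (nat_lit 0) (XT.lf (nat_lit 0) (nat_lit 835363865218) (nat_lit 76) (nat_lit 144499558843) (nat_lit 76) (nat_lit 142702521497) (nat_lit 1) (nat_lit 4) (nat_lit 2) (nat_lit 5) (nat_lit 2) (nat_lit 4) (nat_lit 496) (nat_lit 379) (nat_lit 325)) (XT.lf (nat_lit 0) (nat_lit 911520144133) (nat_lit 76) (nat_lit 151142796016) (nat_lit 76) (nat_lit 149343639330) (nat_lit 1) (nat_lit 4) (nat_lit 2) (nat_lit 5) (nat_lit 2) (nat_lit 4) (nat_lit 497) (nat_lit 379) (nat_lit 324))))))))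
noncomputable def xc44 : XT := (XT.nd (nat_lit 1716) (nat_lit 0) (nat_lit 0) (XT.nd (nat_lit 858) (nat_lit 0) (nat_lit 0) (XT.nd (nat_lit 390) (nat_lit 0) (nat_lit 0) (XT.nd (nat_lit 156) (nat_lit 0) (nat_lit 0) (XT.nd (nat_lit 78) (nat_lit 0) (nat_lit 0) (XT.lf (nat_lit 0) (nat_lit 993748683117) (nat_lit 76) (nat_lit 158327845698) (nat_lit 76) (nat_lit 156526726661) (nat_lit 1) (nat_lit 4) (nat_lit 2) (nat_lit 5) (nat_lit 2) (nat_lit 4) (nat_lit 498) (nat_lit 379) (nat_lit 323)) (XT.lf (nat_lit 0) (nat_lit 1082536762399) (nat_lit 76) (nat_lit 166097285962) (nat_lit 76) (nat_lit 164294349933) (nat_lit 1) (nat_lit 4) (nat_lit 2) (nat_lit 5) (nat_lit 2) (nat_lit 4) (nat_lit 499) (nat_lit 379) (nat_lit 322))) (XT.nd (nat_lit 78) (nat_lit 0) (nat_lit 0) (XT.lf (nat_lit 0) (nat_lit 1178410533562) (nat_lit 76) (nat_lit 174497157936) (nat_lit 76) (nat_lit 172692539506) (nat_lit 1) (nat_lit 4)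 (nat_lit 2) (nat_lit 5) (nat_lit 2) (nat_lit 4) (nat_lit 500) (nat_lit 379) (nat_lit 321)) (XT.nd (nat_lit 78) (nat_lit 0) (nat_lit 0) (XT.lf (nat_lit 0) (nat_lit 1281938137471) (nat_lit 76) (nat_lit 183577238638) (nat_lit 76) (nat_lit 181771062430) (nat_lit 1) (nat_lit 4) (nat_lit 2) (nat_lit 5) (nat_lit 2) (nat_lit 4) (nat_lit 501) (nat_lit 379) (nat_lit 320)) (XT.lf (nat_lit 0) (nat_lit 1393733071038) (nat_lit 76) (nat_lit 193391335954) (nat_lit 76) (nat_lit 191583717359) (nat_lit 1) (nat_lit 4) (nat_lit 2) (nat_lit 5) (nat_lit 2) (nat_lit 4) (nat_lit 502) (nat_lit 379) (nat_lit 319))))) (XT.nd (nat_lit 234) (nat_lit 0) (nat_lit 0) (XT.nd (nat_lit 78) (nat_lit 0) (nat_lit 0) (XT.lf (nat_lit 0) (nat_lit 1514457822759) (nat_lit 76) (nat_lit 203997607498) (nat_lit 76) (nat_lit 202188653359) (nat_lit 1) (nat_lit 4) (nat_lit 2) (nat_lit 5) (nat_lit 2) (nat_lit 4) (nat_lit 503) (nat_lit 379)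 (nat_lit 318)) (XT.nd (nat_lit 78) (nat_lit 0) (nat_lit 0) (XT.lf (nat_lit 0) (nat_lit 1644827798569) (nat_lit 76) (nat_lit 215458905249) (nat_lit 76) (nat_lit 213648714496) (nat_lit 1) (nat_lit 4) (nat_lit 2) (nat_lit 5) (nat_lit 2) (nat_lit 4) (nat_lit 504) (nat_lit 379) (nat_lit 317)) (XT.lf (nat_lit 0) (nat_lit 1785615561289) (nat_lit 76) (nat_lit 227843148009) (nat_lit 76) (nat_lit 226031812243) (nat_lit 1) (nat_lit 4) (nat_lit 2) (nat_lit 5) (nat_lit 2) (nat_lit 4) (nat_lit 505) (nat_lit 379) (nat_lit 316)))) (XT.nd (nat_lit 78) (nat_lit 0) (nat_lit 0) (XT.lf (nat_lit 0) (nat_lit 1937655408771) (nat_lit 76) (nat_lit 241223723883) (nat_lit 76) (nat_lit 239411327919) (nat_lit 1) (nat_lit 4) (nat_lit 2) (nat_lit 5) (nat_lit 2) (nat_lit 4) (nat_lit 506) (nat_lit 379) (nat_lit 315)) (XT.nd (nat_lit 78) (nat_lit 0) (nat_lit 0) (XT.lf (nat_lit 0) (nat_lit 2101848317889) (nat_lit 76) (nat_lit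 255679925173) (nat_lit 76) (nat_lit 253866547544) (nat_lit 1) (nat_lit 4) (nat_lit 2) (nat_lit 5) (nat_lit 2) (nat_lit 4) (nat_lit 507) (nat_lit 379) (nat_lit 314)) (XT.lf (nat_lit 0) (nat_lit 2279167283661) (nat_lit 76) (nat_lit 271297418256) (nat_lit 76) (nat_lit 269483131679) (nat_lit 1) (nat_lit 4) (nat_lit 2) (nat_lit 5) (nat_lit 2) (nat_lit 4) (nat_lit 508) (nat_lit 379) (nat_lit 313)))))) (XT.nd (nat_lit 390) (nat_lit 0) (nat_lit 0) (XT.nd (nat_lit 156) (nat_lit 0) (nat_lit 0) (XT.nd (nat_lit 78) (nat_lit 0) (nat_lit 0) (XT.lf (nat_lit 0) (nat_lit 2470663085142) (nat_lit 76) (nat_lit 288168751240) (nat_lit 76) (nat_lit 286353623044) (nat_lit 1) (nat_lit 4) (nat_lit 2) (nat_lit 5) (nat_lit 2) (nat_lit 4) (nat_lit 509) (nat_lit 379) (nat_lit 312)) (XT.lf (nat_lit 0) (nat_lit 2677470512268) (nat_lit 76) (nat_lit 306393902394) (nat_lit 76) (nat_lit 304577994921) (nat_lit 1) (nat_lit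 4) (nat_lit 2) (nat_lit 5) (nat_lit 2) (nat_lit 4) (nat_lit 510) (nat_lit 379) (nat_lit 311))) (XT.nd (nat_lit 78) (nat_lit 0) (nat_lit 0) (XT.lf (nat_lit 0) (nat_lit 2900815090532) (nat_lit 76) (nat_lit 326080872614) (nat_lit 76) (nat_lit 324264243589) (nat_lit 1) (nat_lit 4) (nat_lit 2) (nat_lit 5) (nat_lit 2) (nat_lit 4) (nat_lit 511) (nat_lit 379) (nat_lit 310)) (XT.nd (nat_lit 78) (nat_lit 0) (nat_lit 0) (XT.lf (nat_lit 0) (nat_lit 3142020343362) (nat_lit 76) (nat_lit 347346325427) (nat_lit 76) (nat_lit 345529028298) (nat_lit 1) (nat_lit 4) (nat_lit 2) (nat_lit 5) (nat_lit 2) (nat_lit 4) (nat_lit 512) (nat_lit 379) (nat_lit 309)) (XT.lf (nat_lit 0) (nat_lit 3402515635219) (nat_lit 76) (nat_lit 370316278332) (nat_lit 76) (nat_lit 368498362588) (nat_lit 1) (nat_lit 4) (nat_lit 2) (nat_lit 5) (nat_lit 2) (nat_lit 4) (nat_lit 513) (nat_lit 379) (nat_lit 308))))) (XT.nd (nat_lit 234) (nat_lit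 0) (nat_lit 0) (XT.nd (nat_lit 78) (nat_lit 0) (nat_lit 0) (XT.lf (nat_lit 0) (nat_lit 3683844641905) (nat_lit 76) (nat_lit 395126849567) (nat_lit 76) (nat_lit 393308361031) (nat_lit 1) (nat_lit 4) (nat_lit 2) (nat_lit 5) (nat_lit 2) (nat_lit 4) (nat_lit 514) (nat_lit 379) (nat_lit 307)) (XT.nd (nat_lit 78) (nat_lit 0) (nat_lit 0) (XT.lf (nat_lit 0) (nat_lit 3987674498276) (nat_lit 76) (nat_lit 421925064741) (nat_lit 76) (nat_lit 420106045842) (nat_lit 1) (nat_lit 4) (nat_lit 2) (nat_lit 5) (nat_lit 2) (nat_lit 4) (nat_lit 515) (nat_lit 379) (nat_lit 306)) (XT.lf (nat_lit 0) (nat_lit 4315805677555) (nat_lit 76) (nat_lit 450869728091) (nat_lit 76) (nat_lit 449050218115) (nat_lit 1) (nat_lit 4) (nat_lit 2) (nat_lit 5) (nat_lit 2) (nat_lit 4) (nat_lit 516) (nat_lit 379) (nat_lit 305)))) (XT.nd (nat_lit 78) (nat_lit 0) (nat_lit 0) (XT.lf (nat_lit 0) (nat_lit 4670182660803) (nat_lit 76) (nat_lit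 482132363548) (nat_lit 76) (nat_lit 480312398872) (nat_lit 1) (nat_lit 4) (nat_lit 2) (nat_lit 5) (nat_lit 2) (nat_lit 4) (nat_lit 517) (nat_lit 379) (nat_lit 304)) (XT.nd (nat_lit 78) (nat_lit 0) (nat_lit 0) (XT.lf (nat_lit 0) (nat_lit 5052905459774) (nat_lit 76) (nat_lit 515898231174) (nat_lit 76) (nat_lit 514077845479) (nat_lit 1) (nat_lit 4) (nat_lit 2) (nat_lit 5) (nat_lit 2) (nat_lit 4) (nat_lit 518) (nat_lit 379) (nat_lit 303)) (XT.lf (nat_lit 0) (nat_lit 5466242061424) (nat_lit 76) (nat_lit 552367424999) (nat_lit 76) (nat_lit 550546649472) (nat_lit 1) (nat_lit 4) (nat_lit 2) (nat_lit 5) (nat_lit 2) (nat_lit 4) (nat_lit 519) (nat_lit 379) (nat_lit 302))))))) (XT.nd (nat_lit 56316) (nat_lit 0) (nat_lit 304) (XT.nd (nat_lit 390) (nat_lit 0) (nat_lit 0) (XT.nd (nat_lit 156) (nat_lit 0) (nat_lit 0) (XT.nd (nat_lit 78) (nat_lit 0) (nat_lit 0) (XT.lf (nat_lit 0) (nat_lit 5912641867838)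 (nat_lit 76) (nat_lit 591756058766) (nat_lit 76) (nat_lit 589934922282) (nat_lit 1) (nat_lit 4) (nat_lit 2) (nat_lit 5) (nat_lit 2) (nat_lit 4) (nat_lit 520) (nat_lit 379) (nat_lit 301)) (XT.lf (nat_lit 0) (nat_lit 6394750211201) (nat_lit 76) (nat_lit 634297546599) (nat_lit 76) (nat_lit 632476075897) (nat_lit 1) (nat_lit 4) (nat_lit 2) (nat_lit 5) (nat_lit 2) (nat_lit 4) (nat_lit 521) (nat_lit 379) (nat_lit 300))) (XT.nd (nat_lit 78) (nat_lit 0) (nat_lit 0) (XT.lf (nat_lit 0) (nat_lit 6915424029844) (nat_lit 76) (nat_lit 680243986204) (nat_lit 76) (nat_lit 678422206040) (nat_lit 1) (nat_lit 4) (nat_lit 2) (nat_lit 5) (nat_lit 2) (nat_lit 4) (nat_lit 522) (nat_lit 379) (nat_lit 299)) (XT.nd (nat_lit 78) (nat_lit 0) (nat_lit 0) (XT.lf (nat_lit 0) (nat_lit 7477748798248) (nat_lit 76) (nat_lit 729867652779) (nat_lit 76) (nat_lit 728045586077) (nat_lit 1) (nat_lit 4) (nat_lit 2) (nat_lit 5)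 (nat_lit 2) (nat_lit 4) (nat_lit 523) (nat_lit 379) (nat_lit 298)) (XT.lf (nat_lit 0) (nat_lit 8085056811338) (nat_lit 76) (nat_lit 783462612497) (nat_lit 76) (nat_lit 781640280482) (nat_lit 1) (nat_lit 4) (nat_lit 2) (nat_lit 5) (nat_lit 2) (nat_lit 4) (nat_lit 524) (nat_lit 379) (nat_lit 297))))) (XT.nd (nat_lit 234) (nat_lit 0) (nat_lit 0) (XT.nd (nat_lit 78) (nat_lit 0) (nat_lit 0) (XT.lf (nat_lit 0) (nat_lit 8740946931412) (nat_lit 76) (nat_lit 841346465118) (nat_lit 76) (nat_lit 839523887442) (nat_lit 1) (nat_lit 4) (nat_lit 2) (nat_lit 5) (nat_lit 2) (nat_lit 4) (nat_lit 525) (nat_lit 379) (nat_lit 296)) (XT.nd (nat_lit 78) (nat_lit 0) (nat_lit 0) (XT.lf (nat_lit 0) (nat_lit 9449305914739) (nat_lit 76) (nat_lit 903862226066) (nat_lit 76) (nat_lit 902039420927) (nat_lit 1) (nat_lit 4) (nat_lit 2) (nat_lit 5) (nat_lit 2) (nat_lit 4) (nat_lit 526) (nat_lit 379) (nat_lit 295)) (XT.lf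 (nat_lit 0) (nat_lit 10214331444181) (nat_lit 76) (nat_lit 971380359109) (nat_lit 76) (nat_lit 969557343355) (nat_lit 1) (nat_lit 4) (nat_lit 2) (nat_lit 5) (nat_lit 2) (nat_lit 4) (nat_lit 527) (nat_lit 379) (nat_lit 294)))) (XT.nd (nat_lit 78) (nat_lit 0) (nat_lit 0) (XT.lf (nat_lit 0) (nat_lit 11040557004359) (nat_lit 76) (nat_lit 1044300971702) (nat_lit 76) (nat_lit 1042477760935) (nat_lit 1) (nat_lit 4) (nat_lit 2) (nat_lit 5) (nat_lit 2) (nat_lit 4) (nat_lit 528) (nat_lit 379) (nat_lit 293)) (XT.nd (nat_lit 55536) (nat_lit 0) (nat_lit 988) (XT.lf (nat_lit 0) (nat_lit 11932878746739) (nat_lit 76) (nat_lit 1123056185995) (nat_lit 76) (nat_lit 1121232794660) (nat_lit 1) (nat_lit 4) (nat_lit 2) (nat_lit 5) (nat_lit 2) (nat_lit 4) (nat_lit 529) (nat_lit 379) (nat_lit 292)) (XT.lf (nat_lit 0) (nat_lit 2822959577) (nat_lit 152) (nat_lit 5212811965) (nat_lit 0) (nat_lit 2822959577) (nat_lit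 14) (nat_lit 5) (nat_lit 16) (nat_lit 4) (nat_lit 14) (nat_lit 4) (nat_lit 440) (nat_lit 380) (nat_lit 380)))))) (XT.nd (nat_lit 468) (nat_lit 380) (nat_lit 0) (XT.nd (nat_lit 234) (nat_lit 76) (nat_lit 0) (XT.nd (nat_lit 78) (nat_lit 152) (nat_lit 0) (XT.lf (nat_lit 0) (nat_lit 3472673249) (nat_lit 76) (nat_lit 9794809458) (nat_lit 76) (nat_lit 9596107495) (nat_lit 13) (nat_lit 4) (nat_lit 14) (nat_lit 5) (nat_lit 14) (nat_lit 4) (nat_lit 441) (nat_lit 380) (nat_lit 379)) (XT.nd (nat_lit 78) (nat_lit 152) (nat_lit 0) (XT.lf (nat_lit 0) (nat_lit 18328525420) (nat_lit 76) (nat_lit 3081352298) (nat_lit 76) (nat_lit 2698667035) (nat_lit 13) (nat_lit 4) (nat_lit 14) (nat_lit 5) (nat_lit 14) (nat_lit 4) (nat_lit 442) (nat_lit 380) (nat_lit 378)) (XT.lf (nat_lit 0) (nat_lit 4462609512) (nat_lit 152) (nat_lit 17034857407) (nat_lit 0) (nat_lit 3950535282) (nat_lit 11) (nat_lit 5) (nat_lit 13) (nat_lit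 4) (nat_lit 11) (nat_lit 4) (nat_lit 443) (nat_lit 380) (nat_lit 377)))) (XT.nd (nat_lit 78) (nat_lit 76) (nat_lit 0) (XT.lf (nat_lit 0) (nat_lit 11939214886) (nat_lit 152) (nat_lit 3677666708) (nat_lit 0) (nat_lit 11281088782) (nat_lit 11) (nat_lit 5) (nat_lit 13) (nat_lit 4) (nat_lit 11) (nat_lit 4) (nat_lit 444) (nat_lit 380) (nat_lit 376)) (XT.nd (nat_lit 78) (nat_lit 0) (nat_lit 0) (XT.lf (nat_lit 0) (nat_lit 10620163761) (nat_lit 76) (nat_lit 9321467615) (nat_lit 76) (nat_lit 8528108293) (nat_lit 10) (nat_lit 4) (nat_lit 11) (nat_lit 5) (nat_lit 11) (nat_lit 4) (nat_lit 445) (nat_lit 380) (nat_lit 375)) (XT.lf (nat_lit 0) (nat_lit 25628462332) (nat_lit 76) (nat_lit 2737424359) (nat_lit 76) (nat_lit 1818849095) (nat_lit 10) (nat_lit 4) (nat_lit 11) (nat_lit 5) (nat_lit 11) (nat_lit 4) (nat_lit 446) (nat_lit 380) (nat_lit 374))))) (XT.nd (nat_lit 234) (nat_lit 152) (nat_lit 0) (XT.nd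 (nat_lit 78) (nat_lit 76) (nat_lit 0) (XT.lf (nat_lit 0) (nat_lit 5189157286) (nat_lit 152) (nat_lit 22603395260) (nat_lit 0) (nat_lit 4231272146) (nat_lit 8) (nat_lit 5) (nat_lit 10) (nat_lit 4) (nat_lit 8) (nat_lit 4) (nat_lit 447) (nat_lit 380) (nat_lit 373)) (XT.nd (nat_lit 78) (nat_lit 76) (nat_lit 0) (XT.lf (nat_lit 0) (nat_lit 12556376750) (nat_lit 152) (nat_lit 9959059795) (nat_lit 0) (nat_lit 11499091159) (nat_lit 8) (nat_lit 5) (nat_lit 10) (nat_lit 4) (nat_lit 8) (nat_lit 4) (nat_lit 448) (nat_lit 380) (nat_lit 372)) (XT.lf (nat_lit 0) (nat_lit 3295186497) (nat_lit 76) (nat_lit 17017336022) (nat_lit 76) (nat_lit 15868012976) (nat_lit 7) (nat_lit 4) (nat_lit 8) (nat_lit 5) (nat_lit 8) (nat_lit 4) (nat_lit 449) (nat_lit 380) (nat_lit 371)))) (XT.nd (nat_lit 78) (nat_lit 152) (nat_lit 0) (XT.lf (nat_lit 0) (nat_lit 17624019593) (nat_lit 76) (nat_lit 11065177873) (nat_lit 76) (nat_lit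 9830634960) (nat_lit 7) (nat_lit 4) (nat_lit 8) (nat_lit 5) (nat_lit 8) (nat_lit 4) (nat_lit 450) (nat_lit 380) (nat_lit 370)) (XT.nd (nat_lit 78) (nat_lit 152) (nat_lit 0) (XT.lf (nat_lit 0) (nat_lit 32587924656) (nat_lit 76) (nat_lit 4895988392) (nat_lit 76) (nat_lit 3582538196) (nat_lit 7) (nat_lit 4) (nat_lit 8) (nat_lit 5) (nat_lit 8) (nat_lit 4) (nat_lit 451) (nat_lit 380) (nat_lit 369)) (XT.lf (nat_lit 0) (nat_lit 2919614314) (nat_lit 152) (nat_lit 39262293345) (nat_lit 0) (nat_lit 1635806448) (nat_lit 5) (nat_lit 5) (nat_lit 7) (nat_lit 4) (nat_lit 5) (nat_lit 4) (nat_lit 452) (nat_lit 380) (nat_lit 368))))))))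
noncomputable def xc45 : XT := (XT.nd (nat_lit 1716) (nat_lit 0) (nat_lit 0) (XT.nd (nat_lit 858) (nat_lit 76) (nat_lit 0) (XT.nd (nat_lit 390) (nat_lit 152) (nat_lit 0) (XT.nd (nat_lit 156) (nat_lit 76) (nat_lit 0) (XT.nd (nat_lit 78) (nat_lit 0) (nat_lit 0) (XT.lf (nat_lit 0) (nat_lit 9874467739) (nat_lit 152) (nat_lit 28369067456) (nat_lit 0) (nat_lit 8528020727) (nat_lit 5) (nat_lit 5) (nat_lit 7) (nat_lit 4) (nat_lit 5) (nat_lit 4) (nat_lit 453) (nat_lit 380) (nat_lit 367)) (XT.lf (nat_lit 0) (nat_lit 17164478986) (nat_lit 152) (nat_lit 17054899607) (nat_lit 0) (nat_lit 15760032765) (nat_lit 5) (nat_lit 5) (nat_lit 7) (nat_lit 4) (nat_lit 5) (nat_lit 4) (nat_lit 454) (nat_lit 380) (nat_lit 366))) (XT.nd (nat_lit 78) (nat_lit 76) (nat_lit 0) (XT.lf (nat_lit 0) (nat_lit 24832848121) (nat_lit 152) (nat_lit 5252742876) (nat_lit 0) (nat_lit 23374698929) (nat_lit 5) (nat_lit 5) (nat_lit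 7) (nat_lit 4) (nat_lit 5) (nat_lit 4) (nat_lit 455) (nat_lit 380) (nat_lit 365)) (XT.nd (nat_lit 78) (nat_lit 0) (nat_lit 0) (XT.lf (nat_lit 0) (nat_lit 7481601447) (nat_lit 76) (nat_lit 25623348580) (nat_lit 76) (nat_lit 24115474415) (nat_lit 4) (nat_lit 4) (nat_lit 5) (nat_lit 5) (nat_lit 5) (nat_lit 4) (nat_lit 456) (nat_lit 380) (nat_lit 364)) (XT.lf (nat_lit 0) (nat_lit 21156954861) (nat_lit 76) (nat_lit 20840810628) (nat_lit 76) (nat_lit 19286894820) (nat_lit 4) (nat_lit 4) (nat_lit 5) (nat_lit 5) (nat_lit 5) (nat_lit 4) (nat_lit 457) (nat_lit 380) (nat_lit 363))))) (XT.nd (nat_lit 234) (nat_lit 152) (nat_lit 0) (XT.nd (nat_lit 78) (nat_lit 0) (nat_lit 0) (XT.lf (nat_lit 0) (nat_lit 35577756365) (nat_lit 76) (nat_lit 15853255473) (nat_lit 76) (nat_lit 14256708516) (nat_lit 4) (nat_lit 4) (nat_lit 5) (nat_lit 5) (nat_lit 5) (nat_lit 4) (nat_lit 458) (nat_lit 380) (nat_lit 362)) (XT.nd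 (nat_lit 78) (nat_lit 0) (nat_lit 0) (XT.lf (nat_lit 0) (nat_lit 50829462562) (nat_lit 76) (nat_lit 10631127235) (nat_lit 76) (nat_lit 8995106990) (nat_lit 4) (nat_lit 4) (nat_lit 5) (nat_lit 5) (nat_lit 5) (nat_lit 4) (nat_lit 459) (nat_lit 380) (nat_lit 361)) (XT.lf (nat_lit 0) (nat_lit 67002453931) (nat_lit 76) (nat_lit 5143479967) (nat_lit 76) (nat_lit 3470910383) (nat_lit 4) (nat_lit 4) (nat_lit 5) (nat_lit 5) (nat_lit 5) (nat_lit 4) (nat_lit 460) (nat_lit 380) (nat_lit 360)))) (XT.nd (nat_lit 78) (nat_lit 0) (nat_lit 0) (XT.lf (nat_lit 0) (nat_lit 2324258715) (nat_lit 152) (nat_lit 78121271645) (nat_lit 0) (nat_lit 744248007) (nat_lit 2) (nat_lit 5) (nat_lit 4) (nat_lit 4) (nat_lit 2) (nat_lit 4) (nat_lit 461) (nat_lit 380) (nat_lit 359)) (XT.nd (nat_lit 78) (nat_lit 0) (nat_lit 0) (XT.lf (nat_lit 0) (nat_lit 8631759267) (nat_lit 152) (nat_lit 71527946059) (nat_lit 0) (nat_lit 7022734514)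 (nat_lit 2) (nat_lit 5) (nat_lit 4) (nat_lit 4) (nat_lit 2) (nat_lit 4) (nat_lit 462) (nat_lit 380) (nat_lit 358)) (XT.lf (nat_lit 0) (nat_lit 15315146833) (nat_lit 152) (nat_lit 64670410849) (nat_lit 0) (nat_lit 13679257224) (nat_lit 2) (nat_lit 5) (nat_lit 4) (nat_lit 4) (nat_lit 2) (nat_lit 4) (nat_lit 463) (nat_lit 380) (nat_lit 357)))))) (XT.nd (nat_lit 390) (nat_lit 76) (nat_lit 0) (XT.nd (nat_lit 156) (nat_lit 0) (nat_lit 0) (XT.nd (nat_lit 78) (nat_lit 0) (nat_lit 0) (XT.lf (nat_lit 0) (nat_lit 22414026671) (nat_lit 152) (nat_lit 57508028770) (nat_lit 0) (nat_lit 20753262195) (nat_lit 2) (nat_lit 5) (nat_lit 4) (nat_lit 4) (nat_lit 2) (nat_lit 4) (nat_lit 464) (nat_lit 380) (nat_lit 356)) (XT.lf (nat_lit 0) (nat_lit 29970466218) (nat_lit 152) (nat_lit 49998356076) (nat_lit 0) (nat_lit 28286669459) (nat_lit 2) (nat_lit 5) (nat_lit 4) (nat_lit 4) (nat_lit 2) (nat_lit 4) (nat_lit 465)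 (nat_lit 380) (nat_lit 355))) (XT.nd (nat_lit 78) (nat_lit 0) (nat_lit 0) (XT.lf (nat_lit 0) (nat_lit 38029244375) (nat_lit 152) (nat_lit 42096891002) (nat_lit 0) (nat_lit 36324121427) (nat_lit 2) (nat_lit 5) (nat_lit 4) (nat_lit 4) (nat_lit 2) (nat_lit 4) (nat_lit 466) (nat_lit 380) (nat_lit 354)) (XT.nd (nat_lit 78) (nat_lit 0) (nat_lit 0) (XT.lf (nat_lit 0) (nat_lit 46638116865) (nat_lit 152) (nat_lit 33756810052) (nat_lit 0) (nat_lit 44913247446) (nat_lit 2) (nat_lit 5) (nat_lit 4) (nat_lit 4) (nat_lit 2) (nat_lit 4) (nat_lit 467) (nat_lit 380) (nat_lit 353)) (XT.lf (nat_lit 0) (nat_lit 55848099228) (nat_lit 152) (nat_lit 24928690525) (nat_lit 0) (nat_lit 54104946039) (nat_lit 2) (nat_lit 5) (nat_lit 4) (nat_lit 4) (nat_lit 2) (nat_lit 4) (nat_lit 468) (nat_lit 380) (nat_lit 352))))) (XT.nd (nat_lit 234) (nat_lit 0) (nat_lit 0) (XT.nd (nat_lit 78) (nat_lit 76) (nat_lit 0) (XT.lf (nat_lit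 0) (nat_lit 65713769137) (nat_lit 152) (nat_lit 15560217636) (nat_lit 0) (nat_lit 63953686532) (nat_lit 2) (nat_lit 5) (nat_lit 4) (nat_lit 4) (nat_lit 2) (nat_lit 4) (nat_lit 469) (nat_lit 380) (nat_lit 351)) (XT.nd (nat_lit 78) (nat_lit 76) (nat_lit 0) (XT.lf (nat_lit 0) (nat_lit 76293589821) (nat_lit 152) (nat_lit 5595874512) (nat_lit 0) (nat_lit 74517831831) (nat_lit 2) (nat_lit 5) (nat_lit 4) (nat_lit 4) (nat_lit 2) (nat_lit 4) (nat_lit 470) (nat_lit 380) (nat_lit 350)) (XT.lf (nat_lit 0) (nat_lit 5287909455) (nat_lit 76) (nat_lit 82489521408) (nat_lit 76) (nat_lit 80699249172) (nat_lit 1) (nat_lit 4) (nat_lit 2) (nat_lit 5) (nat_lit 2) (nat_lit 4) (nat_lit 471) (nat_lit 380) (nat_lit 349)))) (XT.nd (nat_lit 78) (nat_lit 0) (nat_lit 0) (XT.lf (nat_lit 0) (nat_lit 17222009969) (nat_lit 76) (nat_lit 83043247767) (nat_lit 76) (nat_lit 81239536415) (nat_lit 1) (nat_lit 4) (nat_lit 2) (nat_lit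 5) (nat_lit 2) (nat_lit 4) (nat_lit 472) (nat_lit 380) (nat_lit 348)) (XT.nd (nat_lit 78) (nat_lit 0) (nat_lit 0) (XT.lf (nat_lit 0) (nat_lit 29982478790) (nat_lit 76) (nat_lit 83706925877) (nat_lit 76) (nat_lit 81890770898) (nat_lit 1) (nat_lit 4) (nat_lit 2) (nat_lit 5) (nat_lit 2) (nat_lit 4) (nat_lit 473) (nat_lit 380) (nat_lit 347)) (XT.lf (nat_lit 0) (nat_lit 43644933510) (nat_lit 76) (nat_lit 84484488644) (nat_lit 76) (nat_lit 82656811790) (nat_lit 1) (nat_lit 4) (nat_lit 2) (nat_lit 5) (nat_lit 2) (nat_lit 4) (nat_lit 474) (nat_lit 380) (nat_lit 346))))))) (XT.nd (nat_lit 858) (nat_lit 0) (nat_lit 0) (XT.nd (nat_lit 390) (nat_lit 0) (nat_lit 0) (XT.nd (nat_lit 156) (nat_lit 0) (nat_lit 0) (XT.nd (nat_lit 78) (nat_lit 0) (nat_lit 0) (XT.lf (nat_lit 0) (nat_lit 58290336824) (nat_lit 76) (nat_lit 85380543850) (nat_lit 76) (nat_lit 83542198591) (nat_lit 1) (nat_lit 4) (nat_lit 2) (nat_lit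 5) (nat_lit 2) (nat_lit 4) (nat_lit 475) (nat_lit 380) (nat_lit 345)) (XT.lf (nat_lit 0) (nat_lit 74005476308) (nat_lit 76) (nat_lit 86400401449) (nat_lit 76) (nat_lit 84552178039) (nat_lit 1) (nat_lit 4) (nat_lit 2) (nat_lit 5) (nat_lit 2) (nat_lit 4) (nat_lit 476) (nat_lit 380) (nat_lit 344))) (XT.nd (nat_lit 78) (nat_lit 0) (nat_lit 0) (XT.lf (nat_lit 0) (nat_lit 90883478713) (nat_lit 76) (nat_lit 87550105044) (nat_lit 76) (nat_lit 85692735197) (nat_lit 1) (nat_lit 4) (nat_lit 2) (nat_lit 5) (nat_lit 2) (nat_lit 4) (nat_lit 477) (nat_lit 380) (nat_lit 343)) (XT.nd (nat_lit 78) (nat_lit 0) (nat_lit 0) (XT.lf (nat_lit 0) (nat_lit 109024361832) (nat_lit 76) (nat_lit 88836467692) (nat_lit 76) (nat_lit 86970628921) (nat_lit 1) (nat_lit 4) (nat_lit 2) (nat_lit 5) (nat_lit 2) (nat_lit 4) (nat_lit 478) (nat_lit 380) (nat_lit 342)) (XT.lf (nat_lit 0) (nat_lit 128535627195) (nat_lit 76) (nat_lit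 90267112282) (nat_lit 76) (nat_lit 88393431917) (nat_lit 1) (nat_lit 4) (nat_lit 2) (nat_lit 5) (nat_lit 2) (nat_lit 4) (nat_lit 479) (nat_lit 380) (nat_lit 341))))) (XT.nd (nat_lit 234) (nat_lit 0) (nat_lit 0) (XT.nd (nat_lit 78) (nat_lit 0) (nat_lit 0) (XT.lf (nat_lit 0) (nat_lit 149532897114) (nat_lit 76) (nat_lit 91850516710) (nat_lit 76) (nat_lit 89969575608) (nat_lit 1) (nat_lit 4) (nat_lit 2) (nat_lit 5) (nat_lit 2) (nat_lit 4) (nat_lit 480) (nat_lit 380) (nat_lit 340)) (XT.nd (nat_lit 78) (nat_lit 0) (nat_lit 0) (XT.lf (nat_lit 0) (nat_lit 172140599857) (nat_lit 76) (nat_lit 93596064112) (nat_lit 76) (nat_lit 91708400106) (nat_lit 1) (nat_lit 4) (nat_lit 2) (nat_lit 5) (nat_lit 2) (nat_lit 4) (nat_lit 481) (nat_lit 380) (nat_lit 339)) (XT.lf (nat_lit 0) (nat_lit 196492706994) (nat_lit 76) (nat_lit 95514098472) (nat_lit 76) (nat_lit 93620209555) (nat_lit 1) (nat_lit 4) (nat_lit 2)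 (nat_lit 5) (nat_lit 2) (nat_lit 4) (nat_lit 482) (nat_lit 380) (nat_lit 338)))) (XT.nd (nat_lit 78) (nat_lit 0) (nat_lit 0) (XT.lf (nat_lit 0) (nat_lit 222733527309) (nat_lit 76) (nat_lit 97615985921) (nat_lit 76) (nat_lit 95716333197) (nat_lit 1) (nat_lit 4) (nat_lit 2) (nat_lit 5) (nat_lit 2) (nat_lit 4) (nat_lit 483) (nat_lit 380) (nat_lit 337)) (XT.nd (nat_lit 78) (nat_lit 0) (nat_lit 0) (XT.lf (nat_lit 0) (nat_lit 251018561959) (nat_lit 76) (nat_lit 99914182088) (nat_lit 76) (nat_lit 98009192506) (nat_lit 1) (nat_lit 4) (nat_lit 2) (nat_lit 5) (nat_lit 2) (nat_lit 4) (nat_lit 484) (nat_lit 380) (nat_lit 336)) (XT.lf (nat_lit 0) (nat_lit 281515425964) (nat_lit 76) (nat_lit 102422305913) (nat_lit 76) (nat_lit 100512374795) (nat_lit 1) (nat_lit 4) (nat_lit 2) (nat_lit 5) (nat_lit 2) (nat_lit 4) (nat_lit 485) (nat_lit 380) (nat_lit 335)))))) (XT.nd (nat_lit 468) (nat_lit 0) (nat_lit 0)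 (XT.nd (nat_lit 234) (nat_lit 0) (nat_lit 0) (XT.nd (nat_lit 78) (nat_lit 0) (nat_lit 0) (XT.lf (nat_lit 0) (nat_lit 314404841482) (nat_lit 76) (nat_lit 105155220351) (nat_lit 76) (nat_lit 103240713739) (nat_lit 1) (nat_lit 4) (nat_lit 2) (nat_lit 5) (nat_lit 2) (nat_lit 4) (nat_lit 486) (nat_lit 380) (nat_lit 334)) (XT.nd (nat_lit 78) (nat_lit 0) (nat_lit 0) (XT.lf (nat_lit 0) (nat_lit 349881708752) (nat_lit 76) (nat_lit 108129120452) (nat_lit 76) (nat_lit 106210377270) (nat_lit 1) (nat_lit 4) (nat_lit 2) (nat_lit 5) (nat_lit 2) (nat_lit 4) (nat_lit 487) (nat_lit 380) (nat_lit 333)) (XT.lf (nat_lit 0) (nat_lit 388156261063) (nat_lit 76) (nat_lit 111361629328) (nat_lit 76) (nat_lit 109438963395) (nat_lit 1) (nat_lit 4) (nat_lit 2) (nat_lit 5) (nat_lit 2) (nat_lit 4) (nat_lit 488) (nat_lit 380) (nat_lit 332)))) (XT.nd (nat_lit 78) (nat_lit 0) (nat_lit 0) (XT.lf (nat_lit 0) (nat_lit 429455310575)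 (nat_lit 76) (nat_lit 114871902585) (nat_lit 76) (nat_lit 112945604477) (nat_lit 1) (nat_lit 4) (nat_lit 2) (nat_lit 5) (nat_lit 2) (nat_lit 4) (nat_lit 489) (nat_lit 380) (nat_lit 331)) (XT.nd (nat_lit 78) (nat_lit 0) (nat_lit 0) (XT.lf (nat_lit 0) (nat_lit 474023592397) (nat_lit 76) (nat_lit 118680741844) (nat_lit 76) (nat_lit 116751080610) (nat_lit 1) (nat_lit 4) (nat_lit 2) (nat_lit 5) (nat_lit 2) (nat_lit 4) (nat_lit 490) (nat_lit 380) (nat_lit 330)) (XT.lf (nat_lit 0) (nat_lit 522125214866) (nat_lit 76) (nat_lit 122810718004) (nat_lit 76) (nat_lit 120877942765) (nat_lit 1) (nat_lit 4) (nat_lit 2) (nat_lit 5) (nat_lit 2) (nat_lit 4) (nat_lit 491) (nat_lit 380) (nat_lit 329))))) (XT.nd (nat_lit 234) (nat_lit 0) (nat_lit 0) (XT.nd (nat_lit 78) (nat_lit 0) (nat_lit 0) (XT.lf (nat_lit 0) (nat_lit 574045224634) (nat_lit 76) (nat_lit 127286304998) (nat_lit 76) (nat_lit 125350646420) (nat_lit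 1) (nat_lit 4) (nat_lit 2) (nat_lit 5) (nat_lit 2) (nat_lit 4) (nat_lit 492) (nat_lit 380) (nat_lit 328)) (XT.nd (nat_lit 78) (nat_lit 0) (nat_lit 0) (XT.lf (nat_lit 0) (nat_lit 630091295832) (nat_lit 76) (nat_lit 132134024823) (nat_lit 76) (nat_lit 130195696487) (nat_lit 1) (nat_lit 4) (nat_lit 2) (nat_lit 5) (nat_lit 2) (nat_lit 4) (nat_lit 493) (nat_lit 380) (nat_lit 327)) (XT.lf (nat_lit 0) (nat_lit 690595553327) (nat_lit 76) (nat_lit 137382604707) (nat_lit 76) (nat_lit 135441804373) (nat_lit 1) (nat_lit 4) (nat_lit 2) (nat_lit 5) (nat_lit 2) (nat_lit 4) (nat_lit 494) (nat_lit 380) (nat_lit 326)))) (XT.nd (nat_lit 78) (nat_lit 0) (nat_lit 0) (XT.lf (nat_lit 0) (nat_lit 755916540867) (nat_lit 76) (nat_lit 143063147346) (nat_lit 76) (nat_lit 141120058125) (nat_lit 1) (nat_lit 4) (nat_lit 2) (nat_lit 5) (nat_lit 2) (nat_lit 4) (nat_lit 495) (nat_lit 380) (nat_lit 325)) (XT.nd (nat_lit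 78) (nat_lit 0) (nat_lit 0) (XT.lf (nat_lit 0) (nat_lit 826441345785) (nat_lit 76) (nat_lit 149209315214) (nat_lit 76) (nat_lit 147264106654) (nat_lit 1) (nat_lit 4) (nat_lit 2) (nat_lit 5) (nat_lit 2) (nat_lit 4) (nat_lit 496) (nat_lit 380) (nat_lit 324)) (XT.lf (nat_lit 0) (nat_lit 902587892852) (nat_lit 76) (nat_lit 155857530049) (nat_lit 76) (nat_lit 153910359136) (nat_lit 1) (nat_lit 4) (nat_lit 2) (nat_lit 5) (nat_lit 2) (nat_lit 4) (nat_lit 497) (nat_lit 380) (nat_lit 323))))))))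
noncomputable def xc46 : XT := (XT.nd (nat_lit 1716) (nat_lit 0) (nat_lit 0) (XT.nd (nat_lit 858) (nat_lit 0) (nat_lit 0) (XT.nd (nat_lit 390) (nat_lit 0) (nat_lit 0) (XT.nd (nat_lit 156) (nat_lit 0) (nat_lit 0) (XT.nd (nat_lit 78) (nat_lit 0) (nat_lit 0) (XT.lf (nat_lit 0) (nat_lit 984807420864) (nat_lit 76) (nat_lit 163047188677) (nat_lit 76) (nat_lit 161098200772) (nat_lit 1) (nat_lit 4) (nat_lit 2) (nat_lit 5) (nat_lit 2) (nat_lit 4) (nat_lit 498) (nat_lit 380) (nat_lit 322)) (XT.lf (nat_lit 0) (nat_lit 1073587156655) (nat_lit 76) (nat_lit 170820896483) (nat_lit 76) (nat_lit 168870226179) (nat_lit 1) (nat_lit 4) (nat_lit 2) (nat_lit 5) (nat_lit 2) (nat_lit 4) (nat_lit 499) (nat_lit 380) (nat_lit 321))) (XT.nd (nat_lit 78) (nat_lit 0) (nat_lit 0) (XT.lf (nat_lit 0) (nat_lit 1169453202363) (nat_lit 76) (nat_lit 179224719885) (nat_lit 76) (nat_lit 177272491802) (nat_lit 1) (nat_lit 4)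 (nat_lit 2) (nat_lit 5) (nat_lit 2) (nat_lit 4) (nat_lit 500) (nat_lit 380) (nat_lit 320)) (XT.nd (nat_lit 78) (nat_lit 0) (nat_lit 0) (XT.lf (nat_lit 0) (nat_lit 1272973653072) (nat_lit 76) (nat_lit 188308459316) (nat_lit 76) (nat_lit 186354788847) (nat_lit 1) (nat_lit 4) (nat_lit 2) (nat_lit 5) (nat_lit 2) (nat_lit 4) (nat_lit 501) (nat_lit 380) (nat_lit 319)) (XT.lf (nat_lit 0) (nat_lit 1384761963307) (nat_lit 76) (nat_lit 198125944345) (nat_lit 76) (nat_lit 196170938332) (nat_lit 1) (nat_lit 4) (nat_lit 2) (nat_lit 5) (nat_lit 2) (nat_lit 4) (nat_lit 502) (nat_lit 380) (nat_lit 318))))) (XT.nd (nat_lit 234) (nat_lit 0) (nat_lit 0) (XT.nd (nat_lit 78) (nat_lit 0) (nat_lit 0) (XT.lf (nat_lit 0) (nat_lit 1505480582312) (nat_lit 76) (nat_lit 208735352660) (nat_lit 76) (nat_lit 206779110033) (nat_lit 1) (nat_lit 4) (nat_lit 2) (nat_lit 5) (nat_lit 2) (nat_lit 4) (nat_lit 503) (nat_lit 380)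 (nat_lit 317)) (XT.nd (nat_lit 78) (nat_lit 0) (nat_lit 0) (XT.lf (nat_lit 0) (nat_lit 1635844879682) (nat_lit 76) (nat_lit 220199554829) (nat_lit 76) (nat_lit 218242167188) (nat_lit 1) (nat_lit 4) (nat_lit 2) (nat_lit 5) (nat_lit 2) (nat_lit 4) (nat_lit 504) (nat_lit 380) (nat_lit 316)) (XT.lf (nat_lit 0) (nat_lit 1776627384587) (nat_lit 76) (nat_lit 232586486865) (nat_lit 76) (nat_lit 230628039026) (nat_lit 1) (nat_lit 4) (nat_lit 2) (nat_lit 5) (nat_lit 2) (nat_lit 4) (nat_lit 505) (nat_lit 380) (nat_lit 315)))) (XT.nd (nat_lit 78) (nat_lit 0) (nat_lit 0) (XT.lf (nat_lit 0) (nat_lit 1928662363722) (nat_lit 76) (nat_lit 245969552809) (nat_lit 76) (nat_lit 244010123306) (nat_lit 1) (nat_lit 4) (nat_lit 2) (nat_lit 5) (nat_lit 2) (nat_lit 4) (nat_lit 506) (nat_lit 380) (nat_lit 314)) (XT.nd (nat_lit 78) (nat_lit 0) (nat_lit 0) (XT.lf (nat_lit 0) (nat_lit 2092850765111) (nat_lit 76) (nat_lit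 260428059719) (nat_lit 76) (nat_lit 258467721267) (nat_lit 1) (nat_lit 4) (nat_lit 2) (nat_lit 5) (nat_lit 2) (nat_lit 4) (nat_lit 507) (nat_lit 380) (nat_lit 313)) (XT.lf (nat_lit 0) (nat_lit 2270165557060) (nat_lit 76) (nat_lit 276047687636) (nat_lit 76) (nat_lit 274086507565) (nat_lit 1) (nat_lit 4) (nat_lit 2) (nat_lit 5) (nat_lit 2) (nat_lit 4) (nat_lit 508) (nat_lit 380) (nat_lit 312)))))) (XT.nd (nat_lit 390) (nat_lit 0) (nat_lit 0) (XT.nd (nat_lit 156) (nat_lit 0) (nat_lit 0) (XT.nd (nat_lit 78) (nat_lit 0) (nat_lit 0) (XT.lf (nat_lit 0) (nat_lit 2461657493890) (nat_lit 76) (nat_lit 292920997317) (nat_lit 76) (nat_lit 290959037970) (nat_lit 1) (nat_lit 4) (nat_lit 2) (nat_lit 5) (nat_lit 2) (nat_lit 4) (nat_lit 509) (nat_lit 380) (nat_lit 311)) (XT.lf (nat_lit 0) (nat_lit 2668461342635) (nat_lit 76) (nat_lit 311147978747) (nat_lit 76) (nat_lit 309185297848) (nat_lit 1) (nat_lit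 4) (nat_lit 2) (nat_lit 5) (nat_lit 2) (nat_lit 4) (nat_lit 510) (nat_lit 380) (nat_lit 310))) (XT.nd (nat_lit 78) (nat_lit 0) (nat_lit 0) (XT.lf (nat_lit 0) (nat_lit 2891802607585) (nat_lit 76) (nat_lit 330836643667) (nat_lit 76) (nat_lit 328873294663) (nat_lit 1) (nat_lit 4) (nat_lit 2) (nat_lit 5) (nat_lit 2) (nat_lit 4) (nat_lit 511) (nat_lit 380) (nat_lit 309)) (XT.nd (nat_lit 78) (nat_lit 0) (nat_lit 0) (XT.lf (nat_lit 0) (nat_lit 3133004792530) (nat_lit 76) (nat_lit 352103665647) (nat_lit 76) (nat_lit 350139698028) (nat_lit 1) (nat_lit 4) (nat_lit 2) (nat_lit 5) (nat_lit 2) (nat_lit 4) (nat_lit 512) (nat_lit 380) (nat_lit 308)) (XT.lf (nat_lit 0) (nat_lit 3393497243752) (nat_lit 76) (nat_lit 375075071484) (nat_lit 76) (nat_lit 373110531073) (nat_lit 1) (nat_lit 4) (nat_lit 2) (nat_lit 5) (nat_lit 2) (nat_lit 4) (nat_lit 513) (nat_lit 380) (nat_lit 307))))) (XT.nd (nat_lit 234) (nat_lit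 0) (nat_lit 0) (XT.nd (nat_lit 78) (nat_lit 0) (nat_lit 0) (XT.lf (nat_lit 0) (nat_lit 3674823620222) (nat_lit 76) (nat_lit 399886988026) (nat_lit 76) (nat_lit 397921917253) (nat_lit 1) (nat_lit 4) (nat_lit 2) (nat_lit 5) (nat_lit 2) (nat_lit 4) (nat_lit 514) (nat_lit 380) (nat_lit 306)) (XT.nd (nat_lit 78) (nat_lit 0) (nat_lit 0) (XT.lf (nat_lit 0) (nat_lit 3978651041208) (nat_lit 76) (nat_lit 426686448855) (nat_lit 76) (nat_lit 424720887005) (nat_lit 1) (nat_lit 4) (nat_lit 2) (nat_lit 5) (nat_lit 2) (nat_lit 4) (nat_lit 515) (nat_lit 380) (nat_lit 305)) (XT.lf (nat_lit 0) (nat_lit 4306779965500) (nat_lit 76) (nat_lit 455632265589) (nat_lit 76) (nat_lit 453666249038) (nat_lit 1) (nat_lit 4) (nat_lit 2) (nat_lit 5) (nat_lit 2) (nat_lit 4) (nat_lit 516) (nat_lit 380) (nat_lit 304)))) (XT.nd (nat_lit 78) (nat_lit 0) (nat_lit 0) (XT.lf (nat_lit 0) (nat_lit 4661154860797) (nat_lit 76) (nat_lit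 486895968994) (nat_lit 76) (nat_lit 484929531425) (nat_lit 1) (nat_lit 4) (nat_lit 2) (nat_lit 5) (nat_lit 2) (nat_lit 4) (nat_lit 517) (nat_lit 380) (nat_lit 303)) (XT.nd (nat_lit 78) (nat_lit 0) (nat_lit 0) (XT.lf (nat_lit 0) (nat_lit 5043875726481) (nat_lit 76) (nat_lit 520662825461) (nat_lit 76) (nat_lit 518695998059) (nat_lit 1) (nat_lit 4) (nat_lit 2) (nat_lit 5) (nat_lit 2) (nat_lit 4) (nat_lit 518) (nat_lit 380) (nat_lit 302)) (XT.lf (nat_lit 0) (nat_lit 5457210538050) (nat_lit 76) (nat_lit 557132934881) (nat_lit 76) (nat_lit 555165746522) (nat_lit 1) (nat_lit 4) (nat_lit 2) (nat_lit 5) (nat_lit 2) (nat_lit 4) (nat_lit 519) (nat_lit 380) (nat_lit 301))))))) (XT.nd (nat_lit 56160) (nat_lit 0) (nat_lit 456) (XT.nd (nat_lit 390) (nat_lit 0) (nat_lit 0) (XT.nd (nat_lit 156) (nat_lit 0) (nat_lit 0) (XT.nd (nat_lit 78) (nat_lit 0) (nat_lit 0) (XT.lf (nat_lit 0) (nat_lit 5903608686981)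 (nat_lit 76) (nat_lit 596522416419) (nat_lit 76) (nat_lit 594554893842) (nat_lit 1) (nat_lit 4) (nat_lit 2) (nat_lit 5) (nat_lit 2) (nat_lit 4) (nat_lit 520) (nat_lit 380) (nat_lit 300)) (XT.lf (nat_lit 0) (nat_lit 6385715495637) (nat_lit 76) (nat_lit 639064689225) (nat_lit 76) (nat_lit 637096857187) (nat_lit 1) (nat_lit 4) (nat_lit 2) (nat_lit 5) (nat_lit 2) (nat_lit 4) (nat_lit 521) (nat_lit 380) (nat_lit 299))) (XT.nd (nat_lit 78) (nat_lit 0) (nat_lit 0) (XT.lf (nat_lit 0) (nat_lit 6906387893256) (nat_lit 76) (nat_lit 685011855658) (nat_lit 76) (nat_lit 683043737082) (nat_lit 1) (nat_lit 4) (nat_lit 2) (nat_lit 5) (nat_lit 2) (nat_lit 4) (nat_lit 522) (nat_lit 380) (nat_lit 298)) (XT.nd (nat_lit 78) (nat_lit 0) (nat_lit 0) (XT.lf (nat_lit 0) (nat_lit 7468711345898) (nat_lit 76) (nat_lit 734636195222) (nat_lit 76) (nat_lit 732667811332) (nat_lit 1) (nat_lit 4) (nat_lit 2) (nat_lit 5)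 (nat_lit 2) (nat_lit 4) (nat_lit 523) (nat_lit 380) (nat_lit 297)) (XT.lf (nat_lit 0) (nat_lit 8076018140688) (nat_lit 76) (nat_lit 788231778078) (nat_lit 76) (nat_lit 786263148527) (nat_lit 1) (nat_lit 4) (nat_lit 2) (nat_lit 5) (nat_lit 2) (nat_lit 4) (nat_lit 524) (nat_lit 380) (nat_lit 296))))) (XT.nd (nat_lit 234) (nat_lit 0) (nat_lit 0) (XT.nd (nat_lit 78) (nat_lit 0) (nat_lit 0) (XT.lf (nat_lit 0) (nat_lit 8731907132708) (nat_lit 76) (nat_lit 846116207678) (nat_lit 76) (nat_lit 844147350664) (nat_lit 1) (nat_lit 4) (nat_lit 2) (nat_lit 5) (nat_lit 2) (nat_lit 4) (nat_lit 525) (nat_lit 380) (nat_lit 295)) (XT.nd (nat_lit 78) (nat_lit 0) (nat_lit 0) (XT.lf (nat_lit 0) (nat_lit 9440265071539) (nat_lit 76) (nat_lit 908632502866) (nat_lit 76) (nat_lit 906663435238) (nat_lit 1) (nat_lit 4) (nat_lit 2) (nat_lit 5) (nat_lit 2) (nat_lit 4) (nat_lit 526) (nat_lit 380) (nat_lit 294)) (XT.lf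 (nat_lit 0) (nat_lit 10205289633856) (nat_lit 76) (nat_lit 976151130576) (nat_lit 76) (nat_lit 974181867934) (nat_lit 1) (nat_lit 4) (nat_lit 2) (nat_lit 5) (nat_lit 2) (nat_lit 4) (nat_lit 527) (nat_lit 380) (nat_lit 293)))) (XT.nd (nat_lit 78) (nat_lit 0) (nat_lit 0) (XT.lf (nat_lit 0) (nat_lit 11031514298548) (nat_lit 76) (nat_lit 1049072201194) (nat_lit 76) (nat_lit 1047102757984) (nat_lit 1) (nat_lit 4) (nat_lit 2) (nat_lit 5) (nat_lit 2) (nat_lit 4) (nat_lit 528) (nat_lit 380) (nat_lit 292)) (XT.nd (nat_lit 55380) (nat_lit 0) (nat_lit 1140) (XT.lf (nat_lit 0) (nat_lit 11923835211775) (nat_lit 76) (nat_lit 1127827839583) (nat_lit 76) (nat_lit 1125858229181) (nat_lit 1) (nat_lit 4) (nat_lit 2) (nat_lit 5) (nat_lit 2) (nat_lit 4) (nat_lit 529) (nat_lit 380) (nat_lit 291)) (XT.lf (nat_lit 0) (nat_lit 1594472363) (nat_lit 76) (nat_lit 4119127492) (nat_lit 76) (nat_lit 4119127492) (nat_lit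 16) (nat_lit 4) (nat_lit 17) (nat_lit 5) (nat_lit 17) (nat_lit 4) (nat_lit 438) (nat_lit 381) (nat_lit 381)))))) (XT.nd (nat_lit 468) (nat_lit 304) (nat_lit 0) (XT.nd (nat_lit 234) (nat_lit 152) (nat_lit 0) (XT.nd (nat_lit 78) (nat_lit 228) (nat_lit 0) (XT.lf (nat_lit 0) (nat_lit 17581464204) (nat_lit 76) (nat_lit 1658253054) (nat_lit 76) (nat_lit 1426487084) (nat_lit 16) (nat_lit 4) (nat_lit 17) (nat_lit 5) (nat_lit 17) (nat_lit 4) (nat_lit 439) (nat_lit 381) (nat_lit 380)) (XT.nd (nat_lit 78) (nat_lit 76) (nat_lit 0) (XT.lf (nat_lit 0) (nat_lit 5675682585) (nat_lit 152) (nat_lit 10794196841) (nat_lit 0) (nat_lit 5262382502) (nat_lit 14) (nat_lit 5) (nat_lit 16) (nat_lit 4) (nat_lit 14) (nat_lit 4) (nat_lit 440) (nat_lit 381) (nat_lit 379)) (XT.lf (nat_lit 0) (nat_lit 2725449994) (nat_lit 76) (nat_lit 10382682174) (nat_lit 76) (nat_lit 9785398791) (nat_lit 13) (nat_lit 4) (nat_lit 14)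 (nat_lit 5) (nat_lit 14) (nat_lit 4) (nat_lit 441) (nat_lit 381) (nat_lit 378)))) (XT.nd (nat_lit 78) (nat_lit 152) (nat_lit 0) (XT.lf (nat_lit 0) (nat_lit 17248670730) (nat_lit 76) (nat_lit 3835390699) (nat_lit 76) (nat_lit 3067752410) (nat_lit 13) (nat_lit 4) (nat_lit 14) (nat_lit 5) (nat_lit 14) (nat_lit 4) (nat_lit 442) (nat_lit 381) (nat_lit 377)) (XT.nd (nat_lit 78) (nat_lit 0) (nat_lit 0) (XT.lf (nat_lit 0) (nat_lit 3894511792) (nat_lit 152) (nat_lit 18577193420) (nat_lit 0) (nat_lit 3037683724) (nat_lit 11) (nat_lit 5) (nat_lit 13) (nat_lit 4) (nat_lit 11) (nat_lit 4) (nat_lit 443) (nat_lit 381) (nat_lit 376)) (XT.lf (nat_lit 0) (nat_lit 11213553461) (nat_lit 152) (nat_lit 5536925359) (nat_lit 0) (nat_lit 10221492176) (nat_lit 11) (nat_lit 5) (nat_lit 13) (nat_lit 4) (nat_lit 11) (nat_lit 4) (nat_lit 444) (nat_lit 381) (nat_lit 375))))) (XT.nd (nat_lit 234) (nat_lit 76) (nat_lit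 0) (XT.nd (nat_lit 78) (nat_lit 152) (nat_lit 0) (XT.lf (nat_lit 0) (nat_lit 8354100565) (nat_lit 76) (nat_lit 10661478191) (nat_lit 76) (nat_lit 9544200964) (nat_lit 10) (nat_lit 4) (nat_lit 11) (nat_lit 5) (nat_lit 11) (nat_lit 4) (nat_lit 445) (nat_lit 381) (nat_lit 374)) (XT.nd (nat_lit 78) (nat_lit 152) (nat_lit 0) (XT.lf (nat_lit 0) (nat_lit 23076381284) (nat_lit 76) (nat_lit 4221488569) (nat_lit 76) (nat_lit 2988270655) (nat_lit 10) (nat_lit 4) (nat_lit 11) (nat_lit 5) (nat_lit 11) (nat_lit 4) (nat_lit 446) (nat_lit 381) (nat_lit 373)) (XT.lf (nat_lit 0) (nat_lit 3828392300) (nat_lit 152) (nat_lit 25731957541) (nat_lit 0) (nat_lit 2587123410) (nat_lit 8) (nat_lit 5) (nat_lit 10) (nat_lit 4) (nat_lit 8) (nat_lit 4) (nat_lit 447) (nat_lit 381) (nat_lit 372)))) (XT.nd (nat_lit 78) (nat_lit 76) (nat_lit 0) (XT.lf (nat_lit 0) (nat_lit 11061140339) (nat_lit 152) (nat_lit 13359965626) (nat_lit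 0) (nat_lit 9727833993) (nat_lit 8) (nat_lit 5) (nat_lit 10) (nat_lit 4) (nat_lit 8) (nat_lit 4) (nat_lit 448) (nat_lit 381) (nat_lit 371)) (XT.nd (nat_lit 78) (nat_lit 76) (nat_lit 0) (XT.lf (nat_lit 0) (nat_lit 18613526214) (nat_lit 152) (nat_lit 522727861) (nat_lit 0) (nat_lit 17195000002) (nat_lit 8) (nat_lit 5) (nat_lit 10) (nat_lit 4) (nat_lit 8) (nat_lit 4) (nat_lit 449) (nat_lit 381) (nat_lit 370)) (XT.lf (nat_lit 0) (nat_lit 13532793407) (nat_lit 76) (nat_lit 13322975406) (nat_lit 76) (nat_lit 11825541910) (nat_lit 7) (nat_lit 4) (nat_lit 8) (nat_lit 5) (nat_lit 8) (nat_lit 4) (nat_lit 450) (nat_lit 381) (nat_lit 369))))))))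
noncomputable def xc47 : XT := (XT.nd (nat_lit 1794) (nat_lit 0) (nat_lit 0) (XT.nd (nat_lit 858) (nat_lit 228) (nat_lit 0) (XT.nd (nat_lit 390) (nat_lit 76) (nat_lit 0) (XT.nd (nat_lit 156) (nat_lit 76) (nat_lit 0) (XT.nd (nat_lit 78) (nat_lit 76) (nat_lit 0) (XT.lf (nat_lit 0) (nat_lit 28269118929) (nat_lit 76) (nat_lit 7269144419) (nat_lit 76) (nat_lit 5698648624) (nat_lit 7) (nat_lit 4) (nat_lit 8) (nat_lit 5) (nat_lit 8) (nat_lit 4) (nat_lit 451) (nat_lit 381) (nat_lit 368)) (XT.lf (nat_lit 0) (nat_lit 650702370) (nat_lit 152) (nat_lit 284685140) (nat_lit 76) (nat_lit 43077555429) (nat_lit 6) (nat_lit 5) (nat_lit 8) (nat_lit 5) (nat_lit 7) (nat_lit 4) (nat_lit 452) (nat_lit 381) (nat_lit 367))) (XT.nd (nat_lit 78) (nat_lit 0) (nat_lit 0) (XT.lf (nat_lit 0) (nat_lit 7469304490) (nat_lit 152) (nat_lit 33613880776) (nat_lit 0) (nat_lit 5894503362) (nat_lit 5) (nat_lit 5) (nat_lit 7) (nat_lit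 4) (nat_lit 5) (nat_lit 4) (nat_lit 453) (nat_lit 381) (nat_lit 366)) (XT.nd (nat_lit 78) (nat_lit 0) (nat_lit 0) (XT.lf (nat_lit 0) (nat_lit 14660833519) (nat_lit 152) (nat_lit 22500263190) (nat_lit 0) (nat_lit 13032329421) (nat_lit 5) (nat_lit 5) (nat_lit 7) (nat_lit 4) (nat_lit 5) (nat_lit 4) (nat_lit 454) (nat_lit 381) (nat_lit 365)) (XT.lf (nat_lit 0) (nat_lit 22238015417) (nat_lit 152) (nat_lit 10883801147) (nat_lit 0) (nat_lit 20559786345) (nat_lit 5) (nat_lit 5) (nat_lit 7) (nat_lit 4) (nat_lit 5) (nat_lit 4) (nat_lit 455) (nat_lit 381) (nat_lit 364))))) (XT.nd (nat_lit 234) (nat_lit 0) (nat_lit 0) (XT.nd (nat_lit 78) (nat_lit 0) (nat_lit 0) (XT.lf (nat_lit 0) (nat_lit 1373028070) (nat_lit 76) (nat_lit 28905745288) (nat_lit 76) (nat_lit 27181474575) (nat_lit 4) (nat_lit 4) (nat_lit 5) (nat_lit 5) (nat_lit 5) (nat_lit 4) (nat_lit 456) (nat_lit 381) (nat_lit 363)) (XT.nd (nat_lit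 78) (nat_lit 0) (nat_lit 0) (XT.lf (nat_lit 0) (nat_lit 14880794858) (nat_lit 76) (nat_lit 24208585141) (nat_lit 76) (nat_lit 22441683277) (nat_lit 4) (nat_lit 4) (nat_lit 5) (nat_lit 5) (nat_lit 5) (nat_lit 4) (nat_lit 457) (nat_lit 381) (nat_lit 362)) (XT.lf (nat_lit 0) (nat_lit 29146423560) (nat_lit 76) (nat_lit 19300083510) (nat_lit 76) (nat_lit 17493708359) (nat_lit 4) (nat_lit 4) (nat_lit 5) (nat_lit 5) (nat_lit 5) (nat_lit 4) (nat_lit 458) (nat_lit 381) (nat_lit 361)))) (XT.nd (nat_lit 78) (nat_lit 0) (nat_lit 0) (XT.lf (nat_lit 0) (nat_lit 44254451236) (nat_lit 76) (nat_lit 14151152977) (nat_lit 76) (nat_lit 12308228487) (nat_lit 4) (nat_lit 4) (nat_lit 5) (nat_lit 5) (nat_lit 5) (nat_lit 4) (nat_lit 459) (nat_lit 381) (nat_lit 360)) (XT.nd (nat_lit 78) (nat_lit 0) (nat_lit 0) (XT.lf (nat_lit 0) (nat_lit 60294406938) (nat_lit 76) (nat_lit 8731281364) (nat_lit 76) (nat_lit 6854514892)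 (nat_lit 4) (nat_lit 4) (nat_lit 5) (nat_lit 5) (nat_lit 5) (nat_lit 4) (nat_lit 460) (nat_lit 381) (nat_lit 359)) (XT.lf (nat_lit 0) (nat_lit 77361342257) (nat_lit 76) (nat_lit 3008350910) (nat_lit 76) (nat_lit 1100249271) (nat_lit 4) (nat_lit 4) (nat_lit 5) (nat_lit 5) (nat_lit 5) (nat_lit 4) (nat_lit 461) (nat_lit 381) (nat_lit 358)))))) (XT.nd (nat_lit 468) (nat_lit 76) (nat_lit 0) (XT.nd (nat_lit 234) (nat_lit 0) (nat_lit 0) (XT.nd (nat_lit 78) (nat_lit 0) (nat_lit 0) (XT.lf (nat_lit 0) (nat_lit 5021341141) (nat_lit 152) (nat_lit 79234941816) (nat_lit 0) (nat_lit 3227715507) (nat_lit 2) (nat_lit 5) (nat_lit 4) (nat_lit 4) (nat_lit 2) (nat_lit 4) (nat_lit 462) (nat_lit 381) (nat_lit 357)) (XT.nd (nat_lit 78) (nat_lit 0) (nat_lit 0) (XT.lf (nat_lit 0) (nat_lit 11647431238) (nat_lit 152) (nat_lit 72494596966) (nat_lit 0) (nat_lit 9828930738) (nat_lit 2) (nat_lit 5) (nat_lit 4) (nat_lit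 4) (nat_lit 2) (nat_lit 4) (nat_lit 463) (nat_lit 381) (nat_lit 356)) (XT.lf (nat_lit 0) (nat_lit 18693257866) (nat_lit 152) (nat_lit 65440724479) (nat_lit 0) (nat_lit 16851725082) (nat_lit 2) (nat_lit 5) (nat_lit 4) (nat_lit 4) (nat_lit 2) (nat_lit 4) (nat_lit 464) (nat_lit 381) (nat_lit 355)))) (XT.nd (nat_lit 78) (nat_lit 0) (nat_lit 0) (XT.lf (nat_lit 0) (nat_lit 26200574070) (nat_lit 152) (nat_lit 58031523629) (nat_lit 0) (nat_lit 24337715097) (nat_lit 2) (nat_lit 5) (nat_lit 4) (nat_lit 4) (nat_lit 2) (nat_lit 4) (nat_lit 465) (nat_lit 381) (nat_lit 354)) (XT.nd (nat_lit 78) (nat_lit 0) (nat_lit 0) (XT.lf (nat_lit 0) (nat_lit 34213867650) (nat_lit 152) (nat_lit 50223088040) (nat_lit 0) (nat_lit 32331262206) (nat_lit 2) (nat_lit 5) (nat_lit 4) (nat_lit 4) (nat_lit 2) (nat_lit 4) (nat_lit 466) (nat_lit 381) (nat_lit 353)) (XT.lf (nat_lit 0) (nat_lit 42780624791) (nat_lit 152) (nat_lit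 41969145503) (nat_lit 0) (nat_lit 40879735578) (nat_lit 2) (nat_lit 5) (nat_lit 4) (nat_lit 4) (nat_lit 2) (nat_lit 4) (nat_lit 467) (nat_lit 381) (nat_lit 352))))) (XT.nd (nat_lit 234) (nat_lit 76) (nat_lit 0) (XT.nd (nat_lit 78) (nat_lit 0) (nat_lit 0) (XT.lf (nat_lit 0) (nat_lit 51951611460) (nat_lit 152) (nat_lit 33220783765) (nat_lit 0) (nat_lit 50033792830) (nat_lit 2) (nat_lit 5) (nat_lit 4) (nat_lit 4) (nat_lit 2) (nat_lit 4) (nat_lit 468) (nat_lit 381) (nat_lit 351)) (XT.nd (nat_lit 78) (nat_lit 0) (nat_lit 0) (XT.lf (nat_lit 0) (nat_lit 61781174245) (nat_lit 152) (nat_lit 23926160682) (nat_lit 0) (nat_lit 59847680230) (nat_lit 2) (nat_lit 5) (nat_lit 4) (nat_lit 4) (nat_lit 2) (nat_lit 4) (nat_lit 469) (nat_lit 381) (nat_lit 350)) (XT.lf (nat_lit 0) (nat_lit 72327562408) (nat_lit 152) (nat_lit 14030197006) (nat_lit 0) (nat_lit 70379554147) (nat_lit 2) (nat_lit 5) (nat_lit 4) (nat_lit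 4) (nat_lit 2) (nat_lit 4) (nat_lit 470) (nat_lit 381) (nat_lit 349)))) (XT.nd (nat_lit 78) (nat_lit 76) (nat_lit 0) (XT.lf (nat_lit 0) (nat_lit 83653273063) (nat_lit 152) (nat_lit 3474249990) (nat_lit 0) (nat_lit 81691825686) (nat_lit 2) (nat_lit 5) (nat_lit 4) (nat_lit 4) (nat_lit 2) (nat_lit 4) (nat_lit 471) (nat_lit 381) (nat_lit 348)) (XT.nd (nat_lit 78) (nat_lit 0) (nat_lit 0) (XT.lf (nat_lit 0) (nat_lit 8215191265) (nat_lit 76) (nat_lit 87807805814) (nat_lit 76) (nat_lit 85833914811) (nat_lit 1) (nat_lit 4) (nat_lit 2) (nat_lit 5) (nat_lit 2) (nat_lit 4) (nat_lit 472) (nat_lit 381) (nat_lit 347)) (XT.lf (nat_lit 0) (nat_lit 20918519890) (nat_lit 76) (nat_lit 88500710082) (nat_lit 76) (nat_lit 86515297203) (nat_lit 1) (nat_lit 4) (nat_lit 2) (nat_lit 5) (nat_lit 2) (nat_lit 4) (nat_lit 473) (nat_lit 381) (nat_lit 346))))))) (XT.nd (nat_lit 858) (nat_lit 0) (nat_lit 0) (XT.nd (nat_lit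 390) (nat_lit 0) (nat_lit 0) (XT.nd (nat_lit 156) (nat_lit 0) (nat_lit 0) (XT.nd (nat_lit 78) (nat_lit 0) (nat_lit 0) (XT.lf (nat_lit 0) (nat_lit 34528067022) (nat_lit 76) (nat_lit 89305334108) (nat_lit 76) (nat_lit 87309252824) (nat_lit 1) (nat_lit 4) (nat_lit 2) (nat_lit 5) (nat_lit 2) (nat_lit 4) (nat_lit 474) (nat_lit 381) (nat_lit 345)) (XT.lf (nat_lit 0) (nat_lit 49124481829) (nat_lit 76) (nat_lit 90226446033) (nat_lit 76) (nat_lit 88220486598) (nat_lit 1) (nat_lit 4) (nat_lit 2) (nat_lit 5) (nat_lit 2) (nat_lit 4) (nat_lit 475) (nat_lit 381) (nat_lit 344))) (XT.nd (nat_lit 78) (nat_lit 0) (nat_lit 0) (XT.lf (nat_lit 0) (nat_lit 64794261583) (nat_lit 76) (nat_lit 91269504299) (nat_lit 76) (nat_lit 89254398427) (nat_lit 1) (nat_lit 4) (nat_lit 2) (nat_lit 5) (nat_lit 2) (nat_lit 4) (nat_lit 476) (nat_lit 381) (nat_lit 343)) (XT.nd (nat_lit 78) (nat_lit 0) (nat_lit 0) (XT.lf (nat_lit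 0) (nat_lit 81630264239) (nat_lit 76) (nat_lit 92440689993) (nat_lit 76) (nat_lit 90417115198) (nat_lit 1) (nat_lit 4) (nat_lit 2) (nat_lit 5) (nat_lit 2) (nat_lit 4) (nat_lit 477) (nat_lit 381) (nat_lit 342)) (XT.lf (nat_lit 0) (nat_lit 99732258701) (nat_lit 76) (nat_lit 93746943473) (nat_lit 76) (nat_lit 91715527083) (nat_lit 1) (nat_lit 4) (nat_lit 2) (nat_lit 5) (nat_lit 2) (nat_lit 4) (nat_lit 478) (nat_lit 381) (nat_lit 341))))) (XT.nd (nat_lit 234) (nat_lit 0) (nat_lit 0) (XT.nd (nat_lit 78) (nat_lit 0) (nat_lit 0) (XT.lf (nat_lit 0) (nat_lit 119207516049) (nat_lit 76) (nat_lit 95196005501) (nat_lit 76) (nat_lit 93157328374) (nat_lit 1) (nat_lit 4) (nat_lit 2) (nat_lit 5) (nat_lit 2) (nat_lit 4) (nat_lit 479) (nat_lit 381) (nat_lit 340)) (XT.nd (nat_lit 78) (nat_lit 0) (nat_lit 0) (XT.lf (nat_lit 0) (nat_lit 140171445213) (nat_lit 76) (nat_lit 96796463111) (nat_lit 76) (nat_lit 94751063080)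 (nat_lit 1) (nat_lit 4) (nat_lit 2) (nat_lit 5) (nat_lit 2) (nat_lit 4) (nat_lit 480) (nat_lit 381) (nat_lit 339)) (XT.lf (nat_lit 0) (nat_lit 162748276886) (nat_lit 76) (nat_lit 98557800497) (nat_lit 76) (nat_lit 96506175555) (nat_lit 1) (nat_lit 4) (nat_lit 2) (nat_lit 5) (nat_lit 2) (nat_lit 4) (nat_lit 481) (nat_lit 381) (nat_lit 338)))) (XT.nd (nat_lit 78) (nat_lit 0) (nat_lit 0) (XT.lf (nat_lit 0) (nat_lit 187071799699) (nat_lit 76) (nat_lit 100490455213) (nat_lit 76) (nat_lit 98433066464) (nat_lit 1) (nat_lit 4) (nat_lit 2) (nat_lit 5) (nat_lit 2) (nat_lit 4) (nat_lit 482) (nat_lit 381) (nat_lit 337)) (XT.nd (nat_lit 78) (nat_lit 0) (nat_lit 0) (XT.lf (nat_lit 0) (nat_lit 213286153048) (nat_lit 76) (nat_lit 102605880028) (nat_lit 76) (nat_lit 100543154422) (nat_lit 1) (nat_lit 4) (nat_lit 2) (nat_lit 5) (nat_lit 2) (nat_lit 4) (nat_lit 483) (nat_lit 381) (nat_lit 336)) (XT.lf (nat_lit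 0) (nat_lit 241546681247) (nat_lit 76) (nat_lit 104916610793) (nat_lit 76) (nat_lit 102848943652) (nat_lit 1) (nat_lit 4) (nat_lit 2) (nat_lit 5) (nat_lit 2) (nat_lit 4) (nat_lit 484) (nat_lit 381) (nat_lit 335)))))) (XT.nd (nat_lit 468) (nat_lit 0) (nat_lit 0) (XT.nd (nat_lit 234) (nat_lit 0) (nat_lit 0) (XT.nd (nat_lit 78) (nat_lit 0) (nat_lit 0) (XT.lf (nat_lit 0) (nat_lit 272020854095) (nat_lit 76) (nat_lit 107436340728) (nat_lit 76) (nat_lit 105364098090) (nat_lit 1) (nat_lit 4) (nat_lit 2) (nat_lit 5) (nat_lit 2) (nat_lit 4) (nat_lit 485) (nat_lit 381) (nat_lit 334)) (XT.nd (nat_lit 78) (nat_lit 0) (nat_lit 0) (XT.lf (nat_lit 0) (nat_lit 304889259282) (nat_lit 76) (nat_lit 110180001564) (nat_lit 76) (nat_lit 108103522357) (nat_lit 1) (nat_lit 4) (nat_lit 2) (nat_lit 5) (nat_lit 2) (nat_lit 4) (nat_lit 486) (nat_lit 381) (nat_lit 333)) (XT.lf (nat_lit 0) (nat_lit 340346672542) (nat_lit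 76) (nat_lit 113163852033) (nat_lit 76) (nat_lit 111083450076) (nat_lit 1) (nat_lit 4) (nat_lit 2) (nat_lit 5) (nat_lit 2) (nat_lit 4) (nat_lit 487) (nat_lit 381) (nat_lit 332)))) (XT.nd (nat_lit 78) (nat_lit 0) (nat_lit 0) (XT.lf (nat_lit 0) (nat_lit 378603211879) (nat_lit 76) (nat_lit 116405574213) (nat_lit 76) (nat_lit 114321540079) (nat_lit 1) (nat_lit 4) (nat_lit 2) (nat_lit 5) (nat_lit 2) (nat_lit 4) (nat_lit 488) (nat_lit 381) (nat_lit 331)) (XT.nd (nat_lit 78) (nat_lit 0) (nat_lit 0) (XT.lf (nat_lit 0) (nat_lit 419885582713) (nat_lit 76) (nat_lit 119924378307) (nat_lit 76) (nat_lit 117836981048) (nat_lit 1) (nat_lit 4) (nat_lit 2) (nat_lit 5) (nat_lit 2) (nat_lit 4) (nat_lit 489) (nat_lit 381) (nat_lit 330)) (XT.lf (nat_lit 0) (nat_lit 464438421315) (nat_lit 76) (nat_lit 123741116490) (nat_lit 76) (nat_lit 121650605225) (nat_lit 1) (nat_lit 4) (nat_lit 2) (nat_lit 5) (nat_lit 2)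 (nat_lit 4) (nat_lit 490) (nat_lit 381) (nat_lit 329))))) (XT.nd (nat_lit 234) (nat_lit 0) (nat_lit 0) (XT.nd (nat_lit 78) (nat_lit 0) (nat_lit 0) (XT.lf (nat_lit 0) (nat_lit 512525744506) (nat_lit 76) (nat_lit 127878406467) (nat_lit 76) (nat_lit 125785011865) (nat_lit 1) (nat_lit 4) (nat_lit 2) (nat_lit 5) (nat_lit 2) (nat_lit 4) (nat_lit 491) (nat_lit 381) (nat_lit 328)) (XT.nd (nat_lit 78) (nat_lit 0) (nat_lit 0) (XT.lf (nat_lit 0) (nat_lit 564432514201) (nat_lit 76) (nat_lit 132360765515) (nat_lit 76) (nat_lit 130264701154) (nat_lit 1) (nat_lit 4) (nat_lit 2) (nat_lit 5) (nat_lit 2) (nat_lit 4) (nat_lit 492) (nat_lit 381) (nat_lit 327)) (XT.lf (nat_lit 0) (nat_lit 620466326072) (nat_lit 76) (nat_lit 137214755759) (nat_lit 76) (nat_lit 135116219401) (nat_lit 1) (nat_lit 4) (nat_lit 2) (nat_lit 5) (nat_lit 2) (nat_lit 4) (nat_lit 493) (nat_lit 381) (nat_lit 326)))) (XT.nd (nat_lit 78)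 (nat_lit 0) (nat_lit 0) (XT.lf (nat_lit 0) (nat_lit 680959232339) (nat_lit 76) (nat_lit 142469141588) (nat_lit 76) (nat_lit 140368316342) (nat_lit 1) (nat_lit 4) (nat_lit 2) (nat_lit 5) (nat_lit 2) (nat_lit 4) (nat_lit 494) (nat_lit 381) (nat_lit 325)) (XT.nd (nat_lit 78) (nat_lit 0) (nat_lit 0) (XT.lf (nat_lit 0) (nat_lit 746269709482) (nat_lit 76) (nat_lit 148155060101) (nat_lit 76) (nat_lit 146052115516) (nat_lit 1) (nat_lit 4) (nat_lit 2) (nat_lit 5) (nat_lit 2) (nat_lit 4) (nat_lit 495) (nat_lit 381) (nat_lit 324)) (XT.lf (nat_lit 0) (nat_lit 816784782552) (nat_lit 76) (nat_lit 154306205631) (nat_lit 76) (nat_lit 152201298694) (nat_lit 1) (nat_lit 4) (nat_lit 2) (nat_lit 5) (nat_lit 2) (nat_lit 4) (nat_lit 496) (nat_lit 381) (nat_lit 323))))))))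
noncomputable def xc48 : XT := (XT.nd (nat_lit 1716) (nat_lit 0) (nat_lit 0) (XT.nd (nat_lit 858) (nat_lit 0) (nat_lit 0) (XT.nd (nat_lit 390) (nat_lit 0) (nat_lit 0) (XT.nd (nat_lit 156) (nat_lit 0) (nat_lit 0) (XT.nd (nat_lit 78) (nat_lit 0) (nat_lit 0) (XT.lf (nat_lit 0) (nat_lit 892922318648) (nat_lit 76) (nat_lit 160959029411) (nat_lit 76) (nat_lit 158852305482) (nat_lit 1) (nat_lit 4) (nat_lit 2) (nat_lit 5) (nat_lit 2) (nat_lit 4) (nat_lit 497) (nat_lit 381) (nat_lit 322)) (XT.lf (nat_lit 0) (nat_lit 975133503169) (nat_lit 76) (nat_lit 168152955581) (nat_lit 76) (nat_lit 166044549252) (nat_lit 1) (nat_lit 4) (nat_lit 2) (nat_lit 5) (nat_lit 2) (nat_lit 4) (nat_lit 498) (nat_lit 381) (nat_lit 321))) (XT.nd (nat_lit 78) (nat_lit 0) (nat_lit 0) (XT.lf (nat_lit 0) (nat_lit 1063905513505) (nat_lit 76) (nat_lit 175930614816) (nat_lit 76) (nat_lit 173820650709) (nat_lit 1) (nat_lit 4) (nat_lit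 2) (nat_lit 5) (nat_lit 2) (nat_lit 4) (nat_lit 499) (nat_lit 381) (nat_lit 320)) (XT.nd (nat_lit 78) (nat_lit 0) (nat_lit 0) (XT.lf (nat_lit 0) (nat_lit 1159764406013) (nat_lit 76) (nat_lit 184338096947) (nat_lit 76) (nat_lit 182226690453) (nat_lit 1) (nat_lit 4) (nat_lit 2) (nat_lit 5) (nat_lit 2) (nat_lit 4) (nat_lit 500) (nat_lit 381) (nat_lit 319)) (XT.lf (nat_lit 0) (nat_lit 1263278233390) (nat_lit 76) (nat_lit 193425224092) (nat_lit 76) (nat_lit 191312482054) (nat_lit 1) (nat_lit 4) (nat_lit 2) (nat_lit 5) (nat_lit 2) (nat_lit 4) (nat_lit 501) (nat_lit 381) (nat_lit 318))))) (XT.nd (nat_lit 234) (nat_lit 0) (nat_lit 0) (XT.nd (nat_lit 78) (nat_lit 0) (nat_lit 0) (XT.lf (nat_lit 0) (nat_lit 1375060410909) (nat_lit 76) (nat_lit 203245845892) (nat_lit 76) (nat_lit 201131867240) (nat_lit 1) (nat_lit 4) (nat_lit 2) (nat_lit 5) (nat_lit 2) (nat_lit 4) (nat_lit 502) (nat_lit 381) (nat_lit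 317)) (XT.nd (nat_lit 78) (nat_lit 0) (nat_lit 0) (XT.lf (nat_lit 0) (nat_lit 1495773351474) (nat_lit 76) (nat_lit 213858158624) (nat_lit 76) (nat_lit 211743034959) (nat_lit 1) (nat_lit 4) (nat_lit 2) (nat_lit 5) (nat_lit 2) (nat_lit 4) (nat_lit 503) (nat_lit 381) (nat_lit 316)) (XT.lf (nat_lit 0) (nat_lit 1626132391029) (nat_lit 76) (nat_lit 225325050069) (nat_lit 76) (nat_lit 223208866206) (nat_lit 1) (nat_lit 4) (nat_lit 2) (nat_lit 5) (nat_lit 2) (nat_lit 4) (nat_lit 504) (nat_lit 381) (nat_lit 315)))) (XT.nd (nat_lit 78) (nat_lit 0) (nat_lit 0) (XT.lf (nat_lit 0) (nat_lit 1766910027587) (nat_lit 76) (nat_lit 237714472174) (nat_lit 76) (nat_lit 235597306647) (nat_lit 1) (nat_lit 4) (nat_lit 2) (nat_lit 5) (nat_lit 2) (nat_lit 4) (nat_lit 505) (nat_lit 381) (nat_lit 314)) (XT.nd (nat_lit 78) (nat_lit 0) (nat_lit 0) (XT.lf (nat_lit 0) (nat_lit 1918940498993) (nat_lit 76) (nat_lit 251099843739)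 (nat_lit 76) (nat_lit 248981769263) (nat_lit 1) (nat_lit 4) (nat_lit 2) (nat_lit 5) (nat_lit 2) (nat_lit 4) (nat_lit 506) (nat_lit 381) (nat_lit 313)) (XT.lf (nat_lit 0) (nat_lit 2083124726559) (nat_lit 76) (nat_lit 265560485482) (nat_lit 76) (nat_lit 263441569388) (nat_lit 1) (nat_lit 4) (nat_lit 2) (nat_lit 5) (nat_lit 2) (nat_lit 4) (nat_lit 507) (nat_lit 381) (nat_lit 312)))))) (XT.nd (nat_lit 390) (nat_lit 0) (nat_lit 0) (XT.nd (nat_lit 156) (nat_lit 0) (nat_lit 0) (XT.nd (nat_lit 78) (nat_lit 0) (nat_lit 0) (XT.lf (nat_lit 0) (nat_lit 2260435653857) (nat_lit 76) (nat_lit 281182090097) (nat_lit 76) (nat_lit 279062394726) (nat_lit 1) (nat_lit 4) (nat_lit 2) (nat_lit 5) (nat_lit 2) (nat_lit 4) (nat_lit 508) (nat_lit 381) (nat_lit 311)) (XT.lf (nat_lit 0) (nat_lit 2451924012306) (nat_lit 76) (nat_lit 298057230055) (nat_lit 76) (nat_lit 295936813130) (nat_lit 1) (nat_lit 4) (nat_lit 2)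 (nat_lit 5) (nat_lit 2) (nat_lit 4) (nat_lit 509) (nat_lit 381) (nat_lit 310))) (XT.nd (nat_lit 78) (nat_lit 0) (nat_lit 0) (XT.lf (nat_lit 0) (nat_lit 2658724547737) (nat_lit 76) (nat_lit 316285906184) (nat_lit 76) (nat_lit 314164821156) (nat_lit 1) (nat_lit 4) (nat_lit 2) (nat_lit 5) (nat_lit 2) (nat_lit 4) (nat_lit 510) (nat_lit 381) (nat_lit 309)) (XT.nd (nat_lit 78) (nat_lit 0) (nat_lit 0) (XT.lf (nat_lit 0) (nat_lit 2882062744801) (nat_lit 76) (nat_lit 335976140271) (nat_lit 76) (nat_lit 333854436627) (nat_lit 1) (nat_lit 4) (nat_lit 2) (nat_lit 5) (nat_lit 2) (nat_lit 4) (nat_lit 511) (nat_lit 381) (nat_lit 308)) (XT.lf (nat_lit 0) (nat_lit 3123262089113) (nat_lit 76) (nat_lit 357244615183) (nat_lit 76) (nat_lit 355122338747) (nat_lit 1) (nat_lit 4) (nat_lit 2) (nat_lit 5) (nat_lit 2) (nat_lit 4) (nat_lit 512) (nat_lit 381) (nat_lit 307))))) (XT.nd (nat_lit 234) (nat_lit 0) (nat_lit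 0) (XT.nd (nat_lit 78) (nat_lit 0) (nat_lit 0) (XT.lf (nat_lit 0) (nat_lit 3383751910119) (nat_lit 76) (nat_lit 380217366327) (nat_lit 76) (nat_lit 378094559529) (nat_lit 1) (nat_lit 4) (nat_lit 2) (nat_lit 5) (nat_lit 2) (nat_lit 4) (nat_lit 513) (nat_lit 381) (nat_lit 306)) (XT.nd (nat_lit 78) (nat_lit 0) (nat_lit 0) (XT.lf (nat_lit 0) (nat_lit 3665075851203) (nat_lit 76) (nat_lit 405030528524) (nat_lit 76) (nat_lit 402907230650) (nat_lit 1) (nat_lit 4) (nat_lit 2) (nat_lit 5) (nat_lit 2) (nat_lit 4) (nat_lit 514) (nat_lit 381) (nat_lit 305)) (XT.lf (nat_lit 0) (nat_lit 3968901017202) (nat_lit 76) (nat_lit 431831142737) (nat_lit 76) (nat_lit 429707390162) (nat_lit 1) (nat_lit 4) (nat_lit 2) (nat_lit 5) (nat_lit 2) (nat_lit 4) (nat_lit 515) (nat_lit 381) (nat_lit 304)))) (XT.nd (nat_lit 78) (nat_lit 0) (nat_lit 0) (XT.lf (nat_lit 0) (nat_lit 4297027853543) (nat_lit 76) (nat_lit 460778027420)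 (nat_lit 76) (nat_lit 458653853825) (nat_lit 1) (nat_lit 4) (nat_lit 2) (nat_lit 5) (nat_lit 2) (nat_lit 4) (nat_lit 516) (nat_lit 381) (nat_lit 303)) (XT.nd (nat_lit 78) (nat_lit 0) (nat_lit 0) (XT.lf (nat_lit 0) (nat_lit 4651400815553) (nat_lit 76) (nat_lit 492042719666) (nat_lit 76) (nat_lit 489918156239) (nat_lit 1) (nat_lit 4) (nat_lit 2) (nat_lit 5) (nat_lit 2) (nat_lit 4) (nat_lit 517) (nat_lit 381) (nat_lit 302)) (XT.lf (nat_lit 0) (nat_lit 5034119891155) (nat_lit 76) (nat_lit 525810491727) (nat_lit 76) (nat_lit 523685567344) (nat_lit 1) (nat_lit 4) (nat_lit 2) (nat_lit 5) (nat_lit 2) (nat_lit 4) (nat_lit 518) (nat_lit 381) (nat_lit 301))))))) (XT.nd (nat_lit 56004) (nat_lit 0) (nat_lit 532) (XT.nd (nat_lit 390) (nat_lit 0) (nat_lit 0) (XT.nd (nat_lit 156) (nat_lit 0) (nat_lit 0) (XT.nd (nat_lit 78) (nat_lit 0) (nat_lit 0) (XT.lf (nat_lit 0) (nat_lit 5447453045241) (nat_lit 76)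 (nat_lit 562281448918) (nat_lit 76) (nat_lit 560156190316) (nat_lit 1) (nat_lit 4) (nat_lit 2) (nat_lit 5) (nat_lit 2) (nat_lit 4) (nat_lit 519) (nat_lit 381) (nat_lit 300)) (XT.lf (nat_lit 0) (nat_lit 5893849659466) (nat_lit 76) (nat_lit 601671715430) (nat_lit 76) (nat_lit 599546147367) (nat_lit 1) (nat_lit 4) (nat_lit 2) (nat_lit 5) (nat_lit 2) (nat_lit 4) (nat_lit 520) (nat_lit 381) (nat_lit 299))) (XT.nd (nat_lit 78) (nat_lit 0) (nat_lit 0) (XT.lf (nat_lit 0) (nat_lit 6375955047099) (nat_lit 76) (nat_lit 644214715064) (nat_lit 76) (nat_lit 642088860463) (nat_lit 1) (nat_lit 4) (nat_lit 2) (nat_lit 5) (nat_lit 2) (nat_lit 4) (nat_lit 521) (nat_lit 381) (nat_lit 298)) (XT.nd (nat_lit 78) (nat_lit 0) (nat_lit 0) (XT.lf (nat_lit 0) (nat_lit 6896626128955) (nat_lit 76) (nat_lit 690162554486) (nat_lit 76) (nat_lit 688036434571) (nat_lit 1) (nat_lit 4) (nat_lit 2) (nat_lit 5) (nat_lit 2) (nat_lit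 4) (nat_lit 522) (nat_lit 381) (nat_lit 297)) (XT.lf (nat_lit 0) (nat_lit 7458948363297) (nat_lit 76) (nat_lit 739787517187) (nat_lit 76) (nat_lit 737661151612) (nat_lit 1) (nat_lit 4) (nat_lit 2) (nat_lit 5) (nat_lit 2) (nat_lit 4) (nat_lit 523) (nat_lit 381) (nat_lit 296))))) (XT.nd (nat_lit 234) (nat_lit 0) (nat_lit 0) (XT.nd (nat_lit 78) (nat_lit 0) (nat_lit 0) (XT.lf (nat_lit 0) (nat_lit 8066254030033) (nat_lit 76) (nat_lit 793383677022) (nat_lit 76) (nat_lit 791257083983) (nat_lit 1) (nat_lit 4) (nat_lit 2) (nat_lit 5) (nat_lit 2) (nat_lit 4) (nat_lit 524) (nat_lit 381) (nat_lit 295)) (XT.nd (nat_lit 78) (nat_lit 0) (nat_lit 0) (XT.lf (nat_lit 0) (nat_lit 8722141977557) (nat_lit 76) (nat_lit 851268640862) (nat_lit 76) (nat_lit 849141837210) (nat_lit 1) (nat_lit 4) (nat_lit 2) (nat_lit 5) (nat_lit 2) (nat_lit 4) (nat_lit 525) (nat_lit 381) (nat_lit 294)) (XT.lf (nat_lit 0) (nat_lit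 9430498949263) (nat_lit 76) (nat_lit 913785430717) (nat_lit 76) (nat_lit 911658432051) (nat_lit 1) (nat_lit 4) (nat_lit 2) (nat_lit 5) (nat_lit 2) (nat_lit 4) (nat_lit 526) (nat_lit 381) (nat_lit 293)))) (XT.nd (nat_lit 78) (nat_lit 0) (nat_lit 0) (XT.lf (nat_lit 0) (nat_lit 10195522616094) (nat_lit 76) (nat_lit 981304516452) (nat_lit 76) (nat_lit 979177337218) (nat_lit 1) (nat_lit 4) (nat_lit 2) (nat_lit 5) (nat_lit 2) (nat_lit 4) (nat_lit 527) (nat_lit 381) (nat_lit 292)) (XT.nd (nat_lit 78) (nat_lit 0) (nat_lit 0) (XT.lf (nat_lit 0) (nat_lit 11021746451632) (nat_lit 76) (nat_lit 1054226011167) (nat_lit 76) (nat_lit 1052098664740) (nat_lit 1) (nat_lit 4) (nat_lit 2) (nat_lit 5) (nat_lit 2) (nat_lit 4) (nat_lit 528) (nat_lit 381) (nat_lit 291)) (XT.lf (nat_lit 0) (nat_lit 11914066597123) (nat_lit 76) (nat_lit 1132982042238) (nat_lit 76) (nat_lit 1130854541004) (nat_lit 1) (nat_lit 4) (nat_lit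 2) (nat_lit 5) (nat_lit 2) (nat_lit 4) (nat_lit 529) (nat_lit 381) (nat_lit 290)))))) (XT.nd (nat_lit 468) (nat_lit 380) (nat_lit 0) (XT.nd (nat_lit 234) (nat_lit 228) (nat_lit 0) (XT.nd (nat_lit 78) (nat_lit 228) (nat_lit 0) (XT.lf (nat_lit 0) (nat_lit 6479951960) (nat_lit 76) (nat_lit 1230752870) (nat_lit 76) (nat_lit 1230752870) (nat_lit 19) (nat_lit 4) (nat_lit 20) (nat_lit 5) (nat_lit 20) (nat_lit 4) (nat_lit 436) (nat_lit 382) (nat_lit 382)) (XT.nd (nat_lit 78) (nat_lit 76) (nat_lit 0) (XT.lf (nat_lit 0) (nat_lit 4355527367) (nat_lit 152) (nat_lit 10285169538) (nat_lit 0) (nat_lit 4105220119) (nat_lit 17) (nat_lit 5) (nat_lit 19) (nat_lit 4) (nat_lit 17) (nat_lit 4) (nat_lit 437) (nat_lit 382) (nat_lit 381)) (XT.lf (nat_lit 0) (nat_lit 2831035768) (nat_lit 76) (nat_lit 8665492741) (nat_lit 76) (nat_lit 8183419524) (nat_lit 16) (nat_lit 4) (nat_lit 17) (nat_lit 5) (nat_lit 17) (nat_lit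 4) (nat_lit 438) (nat_lit 382) (nat_lit 380)))) (XT.nd (nat_lit 78) (nat_lit 228) (nat_lit 0) (XT.lf (nat_lit 0) (nat_lit 16892158060) (nat_lit 76) (nat_lit 2249315354) (nat_lit 76) (nat_lit 1552644017) (nat_lit 16) (nat_lit 4) (nat_lit 17) (nat_lit 5) (nat_lit 17) (nat_lit 4) (nat_lit 439) (nat_lit 382) (nat_lit 379)) (XT.nd (nat_lit 78) (nat_lit 76) (nat_lit 0) (XT.lf (nat_lit 0) (nat_lit 5351849167) (nat_lit 152) (nat_lit 11902099704) (nat_lit 0) (nat_lit 4522799815) (nat_lit 14) (nat_lit 5) (nat_lit 16) (nat_lit 4) (nat_lit 14) (nat_lit 4) (nat_lit 440) (nat_lit 382) (nat_lit 378)) (XT.lf (nat_lit 0) (nat_lit 1226575494) (nat_lit 76) (nat_lit 11363209332) (nat_lit 76) (nat_lit 10363805074) (nat_lit 13) (nat_lit 4) (nat_lit 14) (nat_lit 5) (nat_lit 14) (nat_lit 4) (nat_lit 441) (nat_lit 382) (nat_lit 377))))) (XT.nd (nat_lit 234) (nat_lit 228) (nat_lit 0) (XT.nd (nat_lit 78) (nat_lit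 152) (nat_lit 0) (XT.lf (nat_lit 0) (nat_lit 15441804161) (nat_lit 76) (nat_lit 4969774974) (nat_lit 76) (nat_lit 3812634691) (nat_lit 13) (nat_lit 4) (nat_lit 14) (nat_lit 5) (nat_lit 14) (nat_lit 4) (nat_lit 442) (nat_lit 382) (nat_lit 376)) (XT.nd (nat_lit 78) (nat_lit 0) (nat_lit 0) (XT.lf (nat_lit 0) (nat_lit 2953233746) (nat_lit 152) (nat_lit 20902115401) (nat_lit 0) (nat_lit 1746574341) (nat_lit 11) (nat_lit 5) (nat_lit 13) (nat_lit 4) (nat_lit 11) (nat_lit 4) (nat_lit 443) (nat_lit 382) (nat_lit 375)) (XT.lf (nat_lit 0) (nat_lit 10126383095) (nat_lit 152) (nat_lit 8155294227) (nat_lit 0) (nat_lit 8794507748) (nat_lit 11) (nat_lit 5) (nat_lit 13) (nat_lit 4) (nat_lit 11) (nat_lit 4) (nat_lit 444) (nat_lit 382) (nat_lit 374)))) (XT.nd (nat_lit 78) (nat_lit 152) (nat_lit 0) (XT.lf (nat_lit 0) (nat_lit 5311835181) (nat_lit 76) (nat_lit 12408321171) (nat_lit 76) (nat_lit 10960505137)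 (nat_lit 10) (nat_lit 4) (nat_lit 11) (nat_lit 5) (nat_lit 11) (nat_lit 4) (nat_lit 445) (nat_lit 382) (nat_lit 373)) (XT.nd (nat_lit 78) (nat_lit 152) (nat_lit 0) (XT.lf (nat_lit 0) (nat_lit 19769284556) (nat_lit 76) (nat_lit 6101714543) (nat_lit 76) (nat_lit 4546546021) (nat_lit 10) (nat_lit 4) (nat_lit 11) (nat_lit 5) (nat_lit 11) (nat_lit 4) (nat_lit 446) (nat_lit 382) (nat_lit 372)) (XT.lf (nat_lit 0) (nat_lit 2079065550) (nat_lit 152) (nat_lit 29677279389) (nat_lit 0) (nat_lit 547057241) (nat_lit 8) (nat_lit 5) (nat_lit 10) (nat_lit 4) (nat_lit 8) (nat_lit 4) (nat_lit 447) (nat_lit 382) (nat_lit 371))))))))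
noncomputable def xc49 : XT := (XT.nd (nat_lit 1716) (nat_lit 76) (nat_lit 0) (XT.nd (nat_lit 858) (nat_lit 152) (nat_lit 0) (XT.nd (nat_lit 390) (nat_lit 228) (nat_lit 0) (XT.nd (nat_lit 156) (nat_lit 76) (nat_lit 0) (XT.nd (nat_lit 78) (nat_lit 0) (nat_lit 0) (XT.lf (nat_lit 0) (nat_lit 9187303008) (nat_lit 152) (nat_lit 17557457427) (nat_lit 0) (nat_lit 7570074833) (nat_lit 8) (nat_lit 5) (nat_lit 10) (nat_lit 4) (nat_lit 8) (nat_lit 4) (nat_lit 448) (nat_lit 382) (nat_lit 370)) (XT.lf (nat_lit 0) (nat_lit 16624401310) (nat_lit 152) (nat_lit 4953710360) (nat_lit 0) (nat_lit 14928265852) (nat_lit 8) (nat_lit 5) (nat_lit 10) (nat_lit 4) (nat_lit 8) (nat_lit 4) (nat_lit 449) (nat_lit 382) (nat_lit 369))) (XT.nd (nat_lit 78) (nat_lit 0) (nat_lit 0) (XT.lf (nat_lit 0) (nat_lit 8640903681) (nat_lit 76) (nat_lit 16001342408) (nat_lit 76) (nat_lit 14232144651) (nat_lit 7) (nat_lit 4) (nat_lit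 8) (nat_lit 5) (nat_lit 8) (nat_lit 4) (nat_lit 450) (nat_lit 382) (nat_lit 368)) (XT.nd (nat_lit 78) (nat_lit 0) (nat_lit 0) (XT.lf (nat_lit 0) (nat_lit 23166507406) (nat_lit 76) (nat_lit 10054324842) (nat_lit 76) (nat_lit 8217476807) (nat_lit 7) (nat_lit 4) (nat_lit 8) (nat_lit 5) (nat_lit 8) (nat_lit 4) (nat_lit 451) (nat_lit 382) (nat_lit 367)) (XT.lf (nat_lit 0) (nat_lit 38448324857) (nat_lit 76) (nat_lit 3837260605) (nat_lit 76) (nat_lit 1937773425) (nat_lit 7) (nat_lit 4) (nat_lit 8) (nat_lit 5) (nat_lit 8) (nat_lit 4) (nat_lit 452) (nat_lit 382) (nat_lit 366))))) (XT.nd (nat_lit 234) (nat_lit 76) (nat_lit 0) (XT.nd (nat_lit 78) (nat_lit 0) (nat_lit 0) (XT.lf (nat_lit 0) (nat_lit 4666885169) (nat_lit 152) (nat_lit 39695423709) (nat_lit 0) (nat_lit 2854397771) (nat_lit 5) (nat_lit 5) (nat_lit 7) (nat_lit 4) (nat_lit 5) (nat_lit 4) (nat_lit 453) (nat_lit 382) (nat_lit 365)) (XT.nd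 (nat_lit 78) (nat_lit 0) (nat_lit 0) (XT.lf (nat_lit 0) (nat_lit 11767226961) (nat_lit 152) (nat_lit 28767500810) (nat_lit 0) (nat_lit 9905014590) (nat_lit 5) (nat_lit 5) (nat_lit 7) (nat_lit 4) (nat_lit 5) (nat_lit 4) (nat_lit 454) (nat_lit 382) (nat_lit 364)) (XT.lf (nat_lit 0) (nat_lit 19259976231) (nat_lit 152) (nat_lit 17322978292) (nat_lit 0) (nat_lit 17351722218) (nat_lit 5) (nat_lit 5) (nat_lit 7) (nat_lit 4) (nat_lit 5) (nat_lit 4) (nat_lit 455) (nat_lit 382) (nat_lit 363)))) (XT.nd (nat_lit 78) (nat_lit 76) (nat_lit 0) (XT.lf (nat_lit 0) (nat_lit 27189534456) (nat_lit 152) (nat_lit 5294036764) (nat_lit 0) (nat_lit 25238649293) (nat_lit 5) (nat_lit 5) (nat_lit 7) (nat_lit 4) (nat_lit 5) (nat_lit 4) (nat_lit 456) (nat_lit 382) (nat_lit 362)) (XT.nd (nat_lit 78) (nat_lit 0) (nat_lit 0) (XT.lf (nat_lit 0) (nat_lit 7779782627) (nat_lit 76) (nat_lit 28010212943) (nat_lit 76) (nat_lit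 26019854493) (nat_lit 4) (nat_lit 4) (nat_lit 5) (nat_lit 5) (nat_lit 5) (nat_lit 4) (nat_lit 457) (nat_lit 382) (nat_lit 361)) (XT.lf (nat_lit 0) (nat_lit 21901732808) (nat_lit 76) (nat_lit 23174909018) (nat_lit 76) (nat_lit 21148001228) (nat_lit 4) (nat_lit 4) (nat_lit 5) (nat_lit 5) (nat_lit 5) (nat_lit 4) (nat_lit 458) (nat_lit 382) (nat_lit 360)))))) (XT.nd (nat_lit 390) (nat_lit 0) (nat_lit 0) (XT.nd (nat_lit 156) (nat_lit 152) (nat_lit 0) (XT.nd (nat_lit 78) (nat_lit 0) (nat_lit 0) (XT.lf (nat_lit 0) (nat_lit 36876724817) (nat_lit 76) (nat_lit 18093754140) (nat_lit 76) (nat_lit 16033004369) (nat_lit 4) (nat_lit 4) (nat_lit 5) (nat_lit 5) (nat_lit 5) (nat_lit 4) (nat_lit 459) (nat_lit 382) (nat_lit 359)) (XT.lf (nat_lit 0) (nat_lit 52793499346) (nat_lit 76) (nat_lit 12736637762) (nat_lit 76) (nat_lit 10644552823) (nat_lit 4) (nat_lit 4) (nat_lit 5) (nat_lit 5) (nat_lit 5) (nat_lit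 4) (nat_lit 460) (nat_lit 382) (nat_lit 358))) (XT.nd (nat_lit 78) (nat_lit 152) (nat_lit 0) (XT.lf (nat_lit 0) (nat_lit 69746378022) (nat_lit 76) (nat_lit 7071814008) (nat_lit 76) (nat_lit 4950715025) (nat_lit 4) (nat_lit 4) (nat_lit 5) (nat_lit 5) (nat_lit 5) (nat_lit 4) (nat_lit 461) (nat_lit 382) (nat_lit 357)) (XT.nd (nat_lit 78) (nat_lit 76) (nat_lit 0) (XT.lf (nat_lit 0) (nat_lit 1028111743) (nat_lit 152) (nat_lit 9491413) (nat_lit 76) (nat_lit 86779600209) (nat_lit 3) (nat_lit 5) (nat_lit 5) (nat_lit 5) (nat_lit 4) (nat_lit 4) (nat_lit 462) (nat_lit 382) (nat_lit 356)) (XT.lf (nat_lit 0) (nat_lit 7575947719) (nat_lit 152) (nat_lit 81170417923) (nat_lit 0) (nat_lit 5564060028) (nat_lit 2) (nat_lit 5) (nat_lit 4) (nat_lit 4) (nat_lit 2) (nat_lit 4) (nat_lit 463) (nat_lit 382) (nat_lit 355))))) (XT.nd (nat_lit 234) (nat_lit 0) (nat_lit 0) (XT.nd (nat_lit 78) (nat_lit 0) (nat_lit 0)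 (XT.lf (nat_lit 0) (nat_lit 14572651003) (nat_lit 152) (nat_lit 74217017280) (nat_lit 0) (nat_lit 12539437124) (nat_lit 2) (nat_lit 5) (nat_lit 4) (nat_lit 4) (nat_lit 2) (nat_lit 4) (nat_lit 464) (nat_lit 382) (nat_lit 354)) (XT.nd (nat_lit 78) (nat_lit 0) (nat_lit 0) (XT.lf (nat_lit 0) (nat_lit 22034482630) (nat_lit 152) (nat_lit 66900845916) (nat_lit 0) (nat_lit 19981522280) (nat_lit 2) (nat_lit 5) (nat_lit 4) (nat_lit 4) (nat_lit 2) (nat_lit 4) (nat_lit 465) (nat_lit 382) (nat_lit 353)) (XT.lf (nat_lit 0) (nat_lit 30005660861) (nat_lit 152) (nat_lit 59178548740) (nat_lit 0) (nat_lit 27934416741) (nat_lit 2) (nat_lit 5) (nat_lit 4) (nat_lit 4) (nat_lit 2) (nat_lit 4) (nat_lit 466) (nat_lit 382) (nat_lit 352)))) (XT.nd (nat_lit 78) (nat_lit 0) (nat_lit 0) (XT.lf (nat_lit 0) (nat_lit 38533422308) (nat_lit 152) (nat_lit 51004363992) (nat_lit 0) (nat_lit 36445248772) (nat_lit 2) (nat_lit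 5) (nat_lit 4) (nat_lit 4) (nat_lit 2) (nat_lit 4) (nat_lit 467) (nat_lit 382) (nat_lit 351)) (XT.nd (nat_lit 78) (nat_lit 0) (nat_lit 0) (XT.lf (nat_lit 0) (nat_lit 47668301854) (nat_lit 152) (nat_lit 42329852059) (nat_lit 0) (nat_lit 45564452932) (nat_lit 2) (nat_lit 5) (nat_lit 4) (nat_lit 4) (nat_lit 2) (nat_lit 4) (nat_lit 468) (nat_lit 382) (nat_lit 350)) (XT.lf (nat_lit 0) (nat_lit 57464432117) (nat_lit 152) (nat_lit 33103608424) (nat_lit 0) (nat_lit 55346068950) (nat_lit 2) (nat_lit 5) (nat_lit 4) (nat_lit 4) (nat_lit 2) (nat_lit 4) (nat_lit 469) (nat_lit 382) (nat_lit 349))))))) (XT.nd (nat_lit 858) (nat_lit 0) (nat_lit 0) (XT.nd (nat_lit 390) (nat_lit 0) (nat_lit 0) (XT.nd (nat_lit 156) (nat_lit 76) (nat_lit 0) (XT.nd (nat_lit 78) (nat_lit 0) (nat_lit 0) (XT.lf (nat_lit 0) (nat_lit 67979864241) (nat_lit 152) (nat_lit 23270959053) (nat_lit 0) (nat_lit 65848061957) (nat_lit 2) (nat_lit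 5) (nat_lit 4) (nat_lit 4) (nat_lit 2) (nat_lit 4) (nat_lit 470) (nat_lit 382) (nat_lit 348)) (XT.lf (nat_lit 0) (nat_lit 79276911897) (nat_lit 152) (nat_lit 12773636393) (nat_lit 0) (nat_lit 77132665987) (nat_lit 2) (nat_lit 5) (nat_lit 4) (nat_lit 4) (nat_lit 2) (nat_lit 4) (nat_lit 471) (nat_lit 382) (nat_lit 347))) (XT.nd (nat_lit 78) (nat_lit 76) (nat_lit 0) (XT.lf (nat_lit 0) (nat_lit 91422520552) (nat_lit 152) (nat_lit 1549434088) (nat_lit 0) (nat_lit 89266752766) (nat_lit 2) (nat_lit 5) (nat_lit 4) (nat_lit 4) (nat_lit 2) (nat_lit 4) (nat_lit 472) (nat_lit 382) (nat_lit 346)) (XT.nd (nat_lit 78) (nat_lit 0) (nat_lit 0) (XT.lf (nat_lit 0) (nat_lit 11019396495) (nat_lit 76) (nat_lit 93734284440) (nat_lit 76) (nat_lit 91567848250) (nat_lit 1) (nat_lit 4) (nat_lit 2) (nat_lit 5) (nat_lit 2) (nat_lit 4) (nat_lit 473) (nat_lit 382) (nat_lit 345)) (XT.lf (nat_lit 0) (nat_lit 24579955119)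 (nat_lit 76) (nat_lit 94563965185) (nat_lit 76) (nat_lit 92387650844) (nat_lit 1) (nat_lit 4) (nat_lit 2) (nat_lit 5) (nat_lit 2) (nat_lit 4) (nat_lit 474) (nat_lit 382) (nat_lit 344))))) (XT.nd (nat_lit 234) (nat_lit 0) (nat_lit 0) (XT.nd (nat_lit 78) (nat_lit 0) (nat_lit 0) (XT.lf (nat_lit 0) (nat_lit 39131010197) (nat_lit 76) (nat_lit 95508277778) (nat_lit 76) (nat_lit 93322816999) (nat_lit 1) (nat_lit 4) (nat_lit 2) (nat_lit 5) (nat_lit 2) (nat_lit 4) (nat_lit 475) (nat_lit 382) (nat_lit 343)) (XT.nd (nat_lit 78) (nat_lit 0) (nat_lit 0) (XT.lf (nat_lit 0) (nat_lit 54758790202) (nat_lit 76) (nat_lit 96572818143) (nat_lit 76) (nat_lit 94378888442) (nat_lit 1) (nat_lit 4) (nat_lit 2) (nat_lit 5) (nat_lit 2) (nat_lit 4) (nat_lit 476) (nat_lit 382) (nat_lit 342)) (XT.lf (nat_lit 0) (nat_lit 71555904201) (nat_lit 76) (nat_lit 97763894669) (nat_lit 76) (nat_lit 95562123372) (nat_lit 1) (nat_lit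 4) (nat_lit 2) (nat_lit 5) (nat_lit 2) (nat_lit 4) (nat_lit 477) (nat_lit 382) (nat_lit 341)))) (XT.nd (nat_lit 78) (nat_lit 0) (nat_lit 0) (XT.lf (nat_lit 0) (nat_lit 89621890648) (nat_lit 76) (nat_lit 99088565586) (nat_lit 76) (nat_lit 96879533553) (nat_lit 1) (nat_lit 4) (nat_lit 2) (nat_lit 5) (nat_lit 2) (nat_lit 4) (nat_lit 478) (nat_lit 382) (nat_lit 340)) (XT.nd (nat_lit 78) (nat_lit 0) (nat_lit 0) (XT.lf (nat_lit 0) (nat_lit 109063807240) (nat_lit 76) (nat_lit 100554680797) (nat_lit 76) (nat_lit 98338925859) (nat_lit 1) (nat_lit 4) (nat_lit 2) (nat_lit 5) (nat_lit 2) (nat_lit 4) (nat_lit 479) (nat_lit 382) (nat_lit 339)) (XT.lf (nat_lit 0) (nat_lit 129996865335) (nat_lit 76) (nat_lit 102170928391) (nat_lit 76) (nat_lit 99948948543) (nat_lit 1) (nat_lit 4) (nat_lit 2) (nat_lit 5) (nat_lit 2) (nat_lit 4) (nat_lit 480) (nat_lit 382) (nat_lit 338)))))) (XT.nd (nat_lit 468) (nat_lit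 0) (nat_lit 0) (XT.nd (nat_lit 234) (nat_lit 0) (nat_lit 0) (XT.nd (nat_lit 78) (nat_lit 0) (nat_lit 0) (XT.lf (nat_lit 0) (nat_lit 152545112684) (nat_lit 76) (nat_lit 103946886132) (nat_lit 76) (nat_lit 101719142477) (nat_lit 1) (nat_lit 4) (nat_lit 2) (nat_lit 5) (nat_lit 2) (nat_lit 4) (nat_lit 481) (nat_lit 382) (nat_lit 337)) (XT.nd (nat_lit 78) (nat_lit 0) (nat_lit 0) (XT.lf (nat_lit 0) (nat_lit 176842168531) (nat_lit 76) (nat_lit 105893078215) (nat_lit 76) (nat_lit 103659997702) (nat_lit 1) (nat_lit 4) (nat_lit 2) (nat_lit 5) (nat_lit 2) (nat_lit 4) (nat_lit 482) (nat_lit 382) (nat_lit 336)) (XT.lf (nat_lit 0) (nat_lit 203032015429) (nat_lit 76) (nat_lit 108021037628) (nat_lit 76) (nat_lit 105783015580) (nat_lit 1) (nat_lit 4) (nat_lit 2) (nat_lit 5) (nat_lit 2) (nat_lit 4) (nat_lit 483) (nat_lit 382) (nat_lit 335)))) (XT.nd (nat_lit 78) (nat_lit 0) (nat_lit 0) (XT.lf (nat_lit 0)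 (nat_lit 231269852471) (nat_lit 76) (nat_lit 110343374503) (nat_lit 76) (nat_lit 108100776959) (nat_lit 1) (nat_lit 4) (nat_lit 2) (nat_lit 5) (nat_lit 2) (nat_lit 4) (nat_lit 484) (nat_lit 382) (nat_lit 334)) (XT.nd (nat_lit 78) (nat_lit 0) (nat_lit 0) (XT.lf (nat_lit 0) (nat_lit 261723014988) (nat_lit 76) (nat_lit 112873850835) (nat_lit 76) (nat_lit 110627016721) (nat_lit 1) (nat_lit 4) (nat_lit 2) (nat_lit 5) (nat_lit 2) (nat_lit 4) (nat_lit 485) (nat_lit 382) (nat_lit 333)) (XT.lf (nat_lit 0) (nat_lit 294571966164) (nat_lit 76) (nat_lit 115627462040) (nat_lit 76) (nat_lit 113376705176) (nat_lit 1) (nat_lit 4) (nat_lit 2) (nat_lit 5) (nat_lit 2) (nat_lit 4) (nat_lit 486) (nat_lit 382) (nat_lit 332))))) (XT.nd (nat_lit 234) (nat_lit 0) (nat_lit 0) (XT.nd (nat_lit 78) (nat_lit 0) (nat_lit 0) (XT.lf (nat_lit 0) (nat_lit 330011366451) (nat_lit 76) (nat_lit 118620525813) (nat_lit 76) (nat_lit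 116366136773) (nat_lit 1) (nat_lit 4) (nat_lit 2) (nat_lit 5) (nat_lit 2) (nat_lit 4) (nat_lit 487) (nat_lit 382) (nat_lit 331)) (XT.nd (nat_lit 78) (nat_lit 0) (nat_lit 0) (XT.lf (nat_lit 0) (nat_lit 368251227111) (nat_lit 76) (nat_lit 121870778829) (nat_lit 76) (nat_lit 119613026664) (nat_lit 1) (nat_lit 4) (nat_lit 2) (nat_lit 5) (nat_lit 2) (nat_lit 4) (nat_lit 488) (nat_lit 382) (nat_lit 330)) (XT.lf (nat_lit 0) (nat_lit 409518154724) (nat_lit 76) (nat_lit 125397481847) (nat_lit 76) (nat_lit 123136615676) (nat_lit 1) (nat_lit 4) (nat_lit 2) (nat_lit 5) (nat_lit 2) (nat_lit 4) (nat_lit 489) (nat_lit 382) (nat_lit 329)))) (XT.nd (nat_lit 78) (nat_lit 0) (nat_lit 0) (XT.lf (nat_lit 0) (nat_lit 454056694047) (nat_lit 76) (nat_lit 129221533847) (nat_lit 76) (nat_lit 126957784338) (nat_lit 1) (nat_lit 4) (nat_lit 2) (nat_lit 5) (nat_lit 2) (nat_lit 4) (nat_lit 490) (nat_lit 382) (nat_lit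 328)) (XT.nd (nat_lit 78) (nat_lit 0) (nat_lit 0) (XT.lf (nat_lit 0) (nat_lit 502130777165) (nat_lit 76) (nat_lit 133365595879) (nat_lit 76) (nat_lit 131099176611) (nat_lit 1) (nat_lit 4) (nat_lit 2) (nat_lit 5) (nat_lit 2) (nat_lit 4) (nat_lit 491) (nat_lit 382) (nat_lit 327)) (XT.lf (nat_lit 0) (nat_lit 554025287534) (nat_lit 76) (nat_lit 137854225346) (nat_lit 76) (nat_lit 135585334081) (nat_lit 1) (nat_lit 4) (nat_lit 2) (nat_lit 5) (nat_lit 2) (nat_lit 4) (nat_lit 492) (nat_lit 382) (nat_lit 326))))))))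
noncomputable def xc50 : XT := (XT.nd (nat_lit 1716) (nat_lit 0) (nat_lit 0) (XT.nd (nat_lit 858) (nat_lit 0) (nat_lit 0) (XT.nd (nat_lit 390) (nat_lit 0) (nat_lit 0) (XT.nd (nat_lit 156) (nat_lit 0) (nat_lit 0) (XT.nd (nat_lit 78) (nat_lit 0) (nat_lit 0) (XT.lf (nat_lit 0) (nat_lit 610047748177) (nat_lit 76) (nat_lit 142714021535) (nat_lit 76) (nat_lit 140442841383) (nat_lit 1) (nat_lit 4) (nat_lit 2) (nat_lit 5) (nat_lit 2) (nat_lit 4) (nat_lit 493) (nat_lit 382) (nat_lit 325)) (XT.lf (nat_lit 0) (nat_lit 670530144048) (nat_lit 76) (nat_lit 147973783237) (nat_lit 76) (nat_lit 145700483746) (nat_lit 1) (nat_lit 4) (nat_lit 2) (nat_lit 5) (nat_lit 2) (nat_lit 4) (nat_lit 494) (nat_lit 382) (nat_lit 324))) (XT.nd (nat_lit 78) (nat_lit 0) (nat_lit 0) (XT.lf (nat_lit 0) (nat_lit 735830889342) (nat_lit 76) (nat_lit 153664679412) (nat_lit 76) (nat_lit 151389417569) (nat_lit 1) (nat_lit 4) (nat_lit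 2) (nat_lit 5) (nat_lit 2) (nat_lit 4) (nat_lit 495) (nat_lit 382) (nat_lit 323)) (XT.nd (nat_lit 78) (nat_lit 0) (nat_lit 0) (XT.lf (nat_lit 0) (nat_lit 806336951441) (nat_lit 76) (nat_lit 159820433888) (nat_lit 76) (nat_lit 157543355053) (nat_lit 1) (nat_lit 4) (nat_lit 2) (nat_lit 5) (nat_lit 2) (nat_lit 4) (nat_lit 496) (nat_lit 382) (nat_lit 322)) (XT.lf (nat_lit 0) (nat_lit 882466144045) (nat_lit 76) (nat_lit 166477525210) (nat_lit 76) (nat_lit 164198763975) (nat_lit 1) (nat_lit 4) (nat_lit 2) (nat_lit 5) (nat_lit 2) (nat_lit 4) (nat_lit 497) (nat_lit 382) (nat_lit 321))))) (XT.nd (nat_lit 234) (nat_lit 0) (nat_lit 0) (XT.nd (nat_lit 78) (nat_lit 0) (nat_lit 0) (XT.lf (nat_lit 0) (nat_lit 964669603111) (nat_lit 76) (nat_lit 173675402809) (nat_lit 76) (nat_lit 171395083795) (nat_lit 1) (nat_lit 4) (nat_lit 2) (nat_lit 5) (nat_lit 2) (nat_lit 4) (nat_lit 498) (nat_lit 382) (nat_lit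 320)) (XT.nd (nat_lit 78) (nat_lit 0) (nat_lit 0) (XT.lf (nat_lit 0) (nat_lit 1053434460248) (nat_lit 76) (nat_lit 181456720773) (nat_lit 76) (nat_lit 179174959373) (nat_lit 1) (nat_lit 4) (nat_lit 2) (nat_lit 5) (nat_lit 2) (nat_lit 4) (nat_lit 499) (nat_lit 382) (nat_lit 319)) (XT.lf (nat_lit 0) (nat_lit 1149286729423) (nat_lit 76) (nat_lit 189867590618) (nat_lit 76) (nat_lit 187584493673) (nat_lit 1) (nat_lit 4) (nat_lit 2) (nat_lit 5) (nat_lit 2) (nat_lit 4) (nat_lit 500) (nat_lit 382) (nat_lit 318)))) (XT.nd (nat_lit 78) (nat_lit 0) (nat_lit 0) (XT.lf (nat_lit 0) (nat_lit 1252794424085) (nat_lit 76) (nat_lit 198957854533) (nat_lit 76) (nat_lit 196673520974) (nat_lit 1) (nat_lit 4) (nat_lit 2) (nat_lit 5) (nat_lit 2) (nat_lit 4) (nat_lit 501) (nat_lit 382) (nat_lit 317)) (XT.nd (nat_lit 78) (nat_lit 0) (nat_lit 0) (XT.lf (nat_lit 0) (nat_lit 1364570923164) (nat_lit 76) (nat_lit 208781380751)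 (nat_lit 76) (nat_lit 206495902179) (nat_lit 1) (nat_lit 4) (nat_lit 2) (nat_lit 5) (nat_lit 2) (nat_lit 4) (nat_lit 502) (nat_lit 382) (nat_lit 316)) (XT.lf (nat_lit 0) (nat_lit 1485278605914) (nat_lit 76) (nat_lit 219396382759) (nat_lit 76) (nat_lit 217109843989) (nat_lit 1) (nat_lit 4) (nat_lit 2) (nat_lit 5) (nat_lit 2) (nat_lit 4) (nat_lit 503) (nat_lit 382) (nat_lit 315)))))) (XT.nd (nat_lit 390) (nat_lit 0) (nat_lit 0) (XT.nd (nat_lit 156) (nat_lit 0) (nat_lit 0) (XT.nd (nat_lit 78) (nat_lit 0) (nat_lit 0) (XT.lf (nat_lit 0) (nat_lit 1615632777122) (nat_lit 76) (nat_lit 230865764273) (nat_lit 76) (nat_lit 228578243839) (nat_lit 1) (nat_lit 4) (nat_lit 2) (nat_lit 5) (nat_lit 2) (nat_lit 4) (nat_lit 504) (nat_lit 382) (nat_lit 314)) (XT.lf (nat_lit 0) (nat_lit 1756405905950) (nat_lit 76) (nat_lit 243257491999) (nat_lit 76) (nat_lit 240969062617) (nat_lit 1) (nat_lit 4) (nat_lit 2)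 (nat_lit 5) (nat_lit 2) (nat_lit 4) (nat_lit 505) (nat_lit 382) (nat_lit 313))) (XT.nd (nat_lit 78) (nat_lit 0) (nat_lit 0) (XT.lf (nat_lit 0) (nat_lit 1908432203533) (nat_lit 76) (nat_lit 256644998397) (nat_lit 76) (nat_lit 254355727396) (nat_lit 1) (nat_lit 4) (nat_lit 2) (nat_lit 5) (nat_lit 2) (nat_lit 4) (nat_lit 506) (nat_lit 382) (nat_lit 312)) (XT.nd (nat_lit 78) (nat_lit 0) (nat_lit 0) (XT.lf (nat_lit 0) (nat_lit 2072612566449) (nat_lit 76) (nat_lit 271107616839) (nat_lit 76) (nat_lit 268817566561) (nat_lit 1) (nat_lit 4) (nat_lit 2) (nat_lit 5) (nat_lit 2) (nat_lit 4) (nat_lit 507) (nat_lit 382) (nat_lit 311)) (XT.lf (nat_lit 0) (nat_lit 2249919915366) (nat_lit 76) (nat_lit 286731051729) (nat_lit 76) (nat_lit 284440279899) (nat_lit 1) (nat_lit 4) (nat_lit 2) (nat_lit 5) (nat_lit 2) (nat_lit 4) (nat_lit 508) (nat_lit 382) (nat_lit 310))))) (XT.nd (nat_lit 234) (nat_lit 0) (nat_lit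 0) (XT.nd (nat_lit 78) (nat_lit 0) (nat_lit 0) (XT.lf (nat_lit 0) (nat_lit 2441404960500) (nat_lit 76) (nat_lit 303607886387) (nat_lit 76) (nat_lit 301316446452) (nat_lit 1) (nat_lit 4) (nat_lit 2) (nat_lit 5) (nat_lit 2) (nat_lit 4) (nat_lit 509) (nat_lit 382) (nat_lit 309)) (XT.nd (nat_lit 78) (nat_lit 0) (nat_lit 0) (XT.lf (nat_lit 0) (nat_lit 2648202428046) (nat_lit 76) (nat_lit 321838131683) (nat_lit 76) (nat_lit 319546073133) (nat_lit 1) (nat_lit 4) (nat_lit 2) (nat_lit 5) (nat_lit 2) (nat_lit 4) (nat_lit 510) (nat_lit 382) (nat_lit 308)) (XT.lf (nat_lit 0) (nat_lit 2871537784477) (nat_lit 76) (nat_lit 341529818701) (nat_lit 76) (nat_lit 339237187359) (nat_lit 1) (nat_lit 4) (nat_lit 2) (nat_lit 5) (nat_lit 2) (nat_lit 4) (nat_lit 511) (nat_lit 382) (nat_lit 307)))) (XT.nd (nat_lit 78) (nat_lit 0) (nat_lit 0) (XT.lf (nat_lit 0) (nat_lit 3112734498572) (nat_lit 76) (nat_lit 362799638920)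 (nat_lit 76) (nat_lit 360506477216) (nat_lit 1) (nat_lit 4) (nat_lit 2) (nat_lit 5) (nat_lit 2) (nat_lit 4) (nat_lit 512) (nat_lit 382) (nat_lit 306)) (XT.nd (nat_lit 78) (nat_lit 0) (nat_lit 0) (XT.lf (nat_lit 0) (nat_lit 3373221884192) (nat_lit 76) (nat_lit 385773635719) (nat_lit 76) (nat_lit 383479982938) (nat_lit 1) (nat_lit 4) (nat_lit 2) (nat_lit 5) (nat_lit 2) (nat_lit 4) (nat_lit 513) (nat_lit 382) (nat_lit 305)) (XT.lf (nat_lit 0) (nat_lit 3654543570289) (nat_lit 76) (nat_lit 410587951301) (nat_lit 76) (nat_lit 408293843820) (nat_lit 1) (nat_lit 4) (nat_lit 2) (nat_lit 5) (nat_lit 2) (nat_lit 4) (nat_lit 514) (nat_lit 382) (nat_lit 304))))))) (XT.nd (nat_lit 858) (nat_lit 0) (nat_lit 0) (XT.nd (nat_lit 390) (nat_lit 0) (nat_lit 0) (XT.nd (nat_lit 156) (nat_lit 0) (nat_lit 0) (XT.nd (nat_lit 78) (nat_lit 0) (nat_lit 0) (XT.lf (nat_lit 0) (nat_lit 3958366648337) (nat_lit 76) (nat_lit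 437389633463) (nat_lit 76) (nat_lit 435095104962) (nat_lit 1) (nat_lit 4) (nat_lit 2) (nat_lit 5) (nat_lit 2) (nat_lit 4) (nat_lit 515) (nat_lit 382) (nat_lit 303)) (XT.lf (nat_lit 0) (nat_lit 4286491551391) (nat_lit 76) (nat_lit 466337506986) (nat_lit 76) (nat_lit 464042588653) (nat_lit 1) (nat_lit 4) (nat_lit 2) (nat_lit 5) (nat_lit 2) (nat_lit 4) (nat_lit 516) (nat_lit 382) (nat_lit 302))) (XT.nd (nat_lit 78) (nat_lit 0) (nat_lit 0) (XT.lf (nat_lit 0) (nat_lit 4640862723320) (nat_lit 76) (nat_lit 497603114826) (nat_lit 76) (nat_lit 495307835537) (nat_lit 1) (nat_lit 4) (nat_lit 2) (nat_lit 5) (nat_lit 2) (nat_lit 4) (nat_lit 517) (nat_lit 382) (nat_lit 301)) (XT.nd (nat_lit 78) (nat_lit 0) (nat_lit 0) (XT.lf (nat_lit 0) (nat_lit 5023580141439) (nat_lit 76) (nat_lit 531371734658) (nat_lit 76) (nat_lit 529076121151) (nat_lit 1) (nat_lit 4) (nat_lit 2) (nat_lit 5) (nat_lit 2) (nat_lit 4)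 (nat_lit 518) (nat_lit 382) (nat_lit 300)) (XT.lf (nat_lit 0) (nat_lit 5436911760820) (nat_lit 76) (nat_lit 567843476823) (nat_lit 76) (nat_lit 565547553854) (nat_lit 1) (nat_lit 4) (nat_lit 2) (nat_lit 5) (nat_lit 2) (nat_lit 4) (nat_lit 519) (nat_lit 382) (nat_lit 299))))) (XT.nd (nat_lit 234) (nat_lit 0) (nat_lit 0) (XT.nd (nat_lit 78) (nat_lit 0) (nat_lit 0) (XT.lf (nat_lit 0) (nat_lit 5883306954020) (nat_lit 76) (nat_lit 607234470163) (nat_lit 76) (nat_lit 604938260655) (nat_lit 1) (nat_lit 4) (nat_lit 2) (nat_lit 5) (nat_lit 2) (nat_lit 4) (nat_lit 520) (nat_lit 382) (nat_lit 298)) (XT.nd (nat_lit 78) (nat_lit 0) (nat_lit 0) (XT.lf (nat_lit 0) (nat_lit 6365411025890) (nat_lit 76) (nat_lit 649778142786) (nat_lit 76) (nat_lit 647481667965) (nat_lit 1) (nat_lit 4) (nat_lit 2) (nat_lit 5) (nat_lit 2) (nat_lit 4) (nat_lit 521) (nat_lit 382) (nat_lit 297)) (XT.lf (nat_lit 0) (nat_lit 6886080889447)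 (nat_lit 76) (nat_lit 695726605345) (nat_lit 76) (nat_lit 693429884864) (nat_lit 1) (nat_lit 4) (nat_lit 2) (nat_lit 5) (nat_lit 2) (nat_lit 4) (nat_lit 522) (nat_lit 382) (nat_lit 296)))) (XT.nd (nat_lit 78) (nat_lit 0) (nat_lit 0) (XT.lf (nat_lit 0) (nat_lit 7448401995734) (nat_lit 76) (nat_lit 745352145026) (nat_lit 76) (nat_lit 743055197081) (nat_lit 1) (nat_lit 4) (nat_lit 2) (nat_lit 5) (nat_lit 2) (nat_lit 4) (nat_lit 523) (nat_lit 382) (nat_lit 295)) (XT.nd (nat_lit 78) (nat_lit 0) (nat_lit 0) (XT.lf (nat_lit 0) (nat_lit 8055706617975) (nat_lit 76) (nat_lit 798948839101) (nat_lit 76) (nat_lit 796651680541) (nat_lit 1) (nat_lit 4) (nat_lit 2) (nat_lit 5) (nat_lit 2) (nat_lit 4) (nat_lit 524) (nat_lit 382) (nat_lit 294)) (XT.lf (nat_lit 0) (nat_lit 8711593598374) (nat_lit 76) (nat_lit 856834297608) (nat_lit 76) (nat_lit 854536944035) (nat_lit 1) (nat_lit 4) (nat_lit 2) (nat_lit 5)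 (nat_lit 2) (nat_lit 4) (nat_lit 525) (nat_lit 382) (nat_lit 293)))))) (XT.nd (nat_lit 55458) (nat_lit 0) (nat_lit 988) (XT.nd (nat_lit 234) (nat_lit 0) (nat_lit 0) (XT.nd (nat_lit 78) (nat_lit 0) (nat_lit 0) (XT.lf (nat_lit 0) (nat_lit 9419949674594) (nat_lit 76) (nat_lit 919351545487) (nat_lit 76) (nat_lit 917054011347) (nat_lit 1) (nat_lit 4) (nat_lit 2) (nat_lit 5) (nat_lit 2) (nat_lit 4) (nat_lit 526) (nat_lit 382) (nat_lit 292)) (XT.nd (nat_lit 78) (nat_lit 0) (nat_lit 0) (XT.lf (nat_lit 0) (nat_lit 10184972512271) (nat_lit 76) (nat_lit 986871055319) (nat_lit 76) (nat_lit 984573353986) (nat_lit 1) (nat_lit 4) (nat_lit 2) (nat_lit 5) (nat_lit 2) (nat_lit 4) (nat_lit 527) (nat_lit 382) (nat_lit 291)) (XT.lf (nat_lit 0) (nat_lit 11011195580073) (nat_lit 76) (nat_lit 1059792942716) (nat_lit 76) (nat_lit 1057495086575) (nat_lit 1) (nat_lit 4) (nat_lit 2) (nat_lit 5) (nat_lit 2) (nat_lit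 4) (nat_lit 528) (nat_lit 382) (nat_lit 290)))) (XT.nd (nat_lit 55068) (nat_lit 0) (nat_lit 1444) (XT.lf (nat_lit 0) (nat_lit 11903515014699) (nat_lit 76) (nat_lit 1138549337383) (nat_lit 76) (nat_lit 1136251337901) (nat_lit 1) (nat_lit 4) (nat_lit 2) (nat_lit 5) (nat_lit 2) (nat_lit 4) (nat_lit 529) (nat_lit 382) (nat_lit 289)) (XT.nd (nat_lit 78) (nat_lit 0) (nat_lit 0) (XT.lf (nat_lit 0) (nat_lit 832660867) (nat_lit 152) (nat_lit 6495942994) (nat_lit 0) (nat_lit 832660867) (nat_lit 20) (nat_lit 5) (nat_lit 22) (nat_lit 4) (nat_lit 20) (nat_lit 4) (nat_lit 434) (nat_lit 383) (nat_lit 383)) (XT.lf (nat_lit 0) (nat_lit 8352955065) (nat_lit 152) (nat_lit 664052937) (nat_lit 0) (nat_lit 8060996692) (nat_lit 20) (nat_lit 5) (nat_lit 22) (nat_lit 4) (nat_lit 20) (nat_lit 4) (nat_lit 435) (nat_lit 383) (nat_lit 382))))) (XT.nd (nat_lit 234) (nat_lit 152) (nat_lit 0) (XT.nd (nat_lit 78) (nat_lit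 228) (nat_lit 0) (XT.lf (nat_lit 0) (nat_lit 12630061535) (nat_lit 76) (nat_lit 2914339495) (nat_lit 76) (nat_lit 2352049294) (nat_lit 19) (nat_lit 4) (nat_lit 20) (nat_lit 5) (nat_lit 20) (nat_lit 4) (nat_lit 436) (nat_lit 383) (nat_lit 381)) (XT.nd (nat_lit 78) (nat_lit 76) (nat_lit 0) (XT.lf (nat_lit 0) (nat_lit 4267328071) (nat_lit 152) (nat_lit 10992379738) (nat_lit 0) (nat_lit 3514923027) (nat_lit 17) (nat_lit 5) (nat_lit 19) (nat_lit 4) (nat_lit 17) (nat_lit 4) (nat_lit 437) (nat_lit 383) (nat_lit 380)) (XT.lf (nat_lit 0) (nat_lit 1755187947) (nat_lit 76) (nat_lit 9467664570) (nat_lit 76) (nat_lit 8500661406) (nat_lit 16) (nat_lit 4) (nat_lit 17) (nat_lit 5) (nat_lit 17) (nat_lit 4) (nat_lit 438) (nat_lit 383) (nat_lit 379)))) (XT.nd (nat_lit 78) (nat_lit 152) (nat_lit 0) (XT.lf (nat_lit 0) (nat_lit 15509460994) (nat_lit 76) (nat_lit 3203176577) (nat_lit 76) (nat_lit 2037471450)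 (nat_lit 16) (nat_lit 4) (nat_lit 17) (nat_lit 5) (nat_lit 17) (nat_lit 4) (nat_lit 439) (nat_lit 383) (nat_lit 378)) (XT.nd (nat_lit 78) (nat_lit 0) (nat_lit 0) (XT.lf (nat_lit 0) (nat_lit 4672499889) (nat_lit 152) (nat_lit 13755897872) (nat_lit 0) (nat_lit 3422788383) (nat_lit 14) (nat_lit 5) (nat_lit 16) (nat_lit 4) (nat_lit 14) (nat_lit 4) (nat_lit 440) (nat_lit 383) (nat_lit 377)) (XT.lf (nat_lit 0) (nat_lit 11734208642) (nat_lit 152) (nat_lit 981166006) (nat_lit 0) (nat_lit 10326761112) (nat_lit 14) (nat_lit 5) (nat_lit 16) (nat_lit 4) (nat_lit 14) (nat_lit 4) (nat_lit 441) (nat_lit 383) (nat_lit 376))))))))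
noncomputable def xc51 : XT := (XT.nd (nat_lit 1716) (nat_lit 76) (nat_lit 0) (XT.nd (nat_lit 858) (nat_lit 380) (nat_lit 0) (XT.nd (nat_lit 390) (nat_lit 228) (nat_lit 0) (XT.nd (nat_lit 156) (nat_lit 76) (nat_lit 0) (XT.nd (nat_lit 78) (nat_lit 152) (nat_lit 0) (XT.lf (nat_lit 0) (nat_lit 12897218356) (nat_lit 76) (nat_lit 6491227400) (nat_lit 76) (nat_lit 4937727995) (nat_lit 13) (nat_lit 4) (nat_lit 14) (nat_lit 5) (nat_lit 14) (nat_lit 4) (nat_lit 442) (nat_lit 383) (nat_lit 375)) (XT.lf (nat_lit 0) (nat_lit 1633197431) (nat_lit 152) (nat_lit 24023400664) (nat_lit 0) (nat_lit 69556114) (nat_lit 11) (nat_lit 5) (nat_lit 13) (nat_lit 4) (nat_lit 11) (nat_lit 4) (nat_lit 443) (nat_lit 383) (nat_lit 374))) (XT.nd (nat_lit 78) (nat_lit 76) (nat_lit 0) (XT.lf (nat_lit 0) (nat_lit 8671261297) (nat_lit 152) (nat_lit 11548289571) (nat_lit 0) (nat_lit 6991679294) (nat_lit 11) (nat_lit 5) (nat_lit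 13) (nat_lit 4) (nat_lit 11) (nat_lit 4) (nat_lit 444) (nat_lit 383) (nat_lit 373)) (XT.nd (nat_lit 78) (nat_lit 0) (nat_lit 0) (XT.lf (nat_lit 0) (nat_lit 1475339371) (nat_lit 76) (nat_lit 14572348217) (nat_lit 76) (nat_lit 12785413726) (nat_lit 10) (nat_lit 4) (nat_lit 11) (nat_lit 5) (nat_lit 11) (nat_lit 4) (nat_lit 445) (nat_lit 383) (nat_lit 372)) (XT.lf (nat_lit 0) (nat_lit 15687574539) (nat_lit 76) (nat_lit 8389244362) (nat_lit 76) (nat_lit 6502909418) (nat_lit 10) (nat_lit 4) (nat_lit 11) (nat_lit 5) (nat_lit 11) (nat_lit 4) (nat_lit 446) (nat_lit 383) (nat_lit 371))))) (XT.nd (nat_lit 234) (nat_lit 76) (nat_lit 0) (XT.nd (nat_lit 78) (nat_lit 76) (nat_lit 0) (XT.lf (nat_lit 0) (nat_lit 27571160) (nat_lit 152) (nat_lit 1921024384) (nat_lit 76) (nat_lit 30536199115) (nat_lit 9) (nat_lit 5) (nat_lit 11) (nat_lit 5) (nat_lit 10) (nat_lit 4) (nat_lit 447) (nat_lit 383) (nat_lit 370))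 (XT.nd (nat_lit 78) (nat_lit 0) (nat_lit 0) (XT.lf (nat_lit 0) (nat_lit 6923760538) (nat_lit 152) (nat_lit 22576409224) (nat_lit 0) (nat_lit 5013026960) (nat_lit 8) (nat_lit 5) (nat_lit 10) (nat_lit 4) (nat_lit 8) (nat_lit 4) (nat_lit 448) (nat_lit 383) (nat_lit 369)) (XT.lf (nat_lit 0) (nat_lit 14254111086) (nat_lit 152) (nat_lit 10188857248) (nat_lit 0) (nat_lit 12270315208) (nat_lit 8) (nat_lit 5) (nat_lit 10) (nat_lit 4) (nat_lit 8) (nat_lit 4) (nat_lit 449) (nat_lit 383) (nat_lit 368)))) (XT.nd (nat_lit 78) (nat_lit 0) (nat_lit 0) (XT.lf (nat_lit 0) (nat_lit 2919361439) (nat_lit 76) (nat_lit 19116150686) (nat_lit 76) (nat_lit 17064704531) (nat_lit 7) (nat_lit 4) (nat_lit 8) (nat_lit 5) (nat_lit 8) (nat_lit 4) (nat_lit 450) (nat_lit 383) (nat_lit 367)) (XT.nd (nat_lit 78) (nat_lit 0) (nat_lit 0) (XT.lf (nat_lit 0) (nat_lit 17249852389) (nat_lit 76) (nat_lit 13268034434) (nat_lit 76)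 (nat_lit 11153949134) (nat_lit 7) (nat_lit 4) (nat_lit 8) (nat_lit 5) (nat_lit 8) (nat_lit 4) (nat_lit 451) (nat_lit 383) (nat_lit 366)) (XT.lf (nat_lit 0) (nat_lit 32351009863) (nat_lit 76) (nat_lit 7142545490) (nat_lit 76) (nat_lit 4970460980) (nat_lit 7) (nat_lit 4) (nat_lit 8) (nat_lit 5) (nat_lit 8) (nat_lit 4) (nat_lit 452) (nat_lit 383) (nat_lit 365)))))) (XT.nd (nat_lit 390) (nat_lit 228) (nat_lit 0) (XT.nd (nat_lit 156) (nat_lit 0) (nat_lit 0) (XT.nd (nat_lit 78) (nat_lit 0) (nat_lit 0) (XT.lf (nat_lit 0) (nat_lit 823604365) (nat_lit 76) (nat_lit 642449406) (nat_lit 152) (nat_lit 46022736543) (nat_lit 5) (nat_lit 5) (nat_lit 6) (nat_lit 5) (nat_lit 7) (nat_lit 4) (nat_lit 453) (nat_lit 383) (nat_lit 364)) (XT.lf (nat_lit 0) (nat_lit 8466512013) (nat_lit 152) (nat_lit 35893751653) (nat_lit 0) (nat_lit 6359556037) (nat_lit 5) (nat_lit 5) (nat_lit 7) (nat_lit 4) (nat_lit 5) (nat_lit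 4) (nat_lit 454) (nat_lit 383) (nat_lit 363))) (XT.nd (nat_lit 78) (nat_lit 0) (nat_lit 0) (XT.lf (nat_lit 0) (nat_lit 15881082924) (nat_lit 152) (nat_lit 24608432400) (nat_lit 0) (nat_lit 13731495798) (nat_lit 5) (nat_lit 5) (nat_lit 7) (nat_lit 4) (nat_lit 5) (nat_lit 4) (nat_lit 455) (nat_lit 383) (nat_lit 362)) (XT.nd (nat_lit 78) (nat_lit 0) (nat_lit 0) (XT.lf (nat_lit 0) (nat_lit 23738253779) (nat_lit 152) (nat_lit 12726901302) (nat_lit 0) (nat_lit 21549193366) (nat_lit 5) (nat_lit 5) (nat_lit 7) (nat_lit 4) (nat_lit 5) (nat_lit 4) (nat_lit 456) (nat_lit 383) (nat_lit 361)) (XT.lf (nat_lit 0) (nat_lit 32084585592) (nat_lit 152) (nat_lit 178749284) (nat_lit 0) (nat_lit 29858975839) (nat_lit 5) (nat_lit 5) (nat_lit 7) (nat_lit 4) (nat_lit 5) (nat_lit 4) (nat_lit 457) (nat_lit 383) (nat_lit 360))))) (XT.nd (nat_lit 234) (nat_lit 152) (nat_lit 0) (XT.nd (nat_lit 78) (nat_lit 0) (nat_lit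 0) (XT.lf (nat_lit 0) (nat_lit 13800752609) (nat_lit 76) (nat_lit 27500693929) (nat_lit 76) (nat_lit 25241242194) (nat_lit 4) (nat_lit 4) (nat_lit 5) (nat_lit 5) (nat_lit 5) (nat_lit 4) (nat_lit 458) (nat_lit 383) (nat_lit 359)) (XT.nd (nat_lit 78) (nat_lit 0) (nat_lit 0) (XT.lf (nat_lit 0) (nat_lit 28652563444) (nat_lit 76) (nat_lit 22482294286) (nat_lit 76) (nat_lit 20191507384) (nat_lit 4) (nat_lit 4) (nat_lit 5) (nat_lit 5) (nat_lit 5) (nat_lit 4) (nat_lit 459) (nat_lit 383) (nat_lit 358)) (XT.lf (nat_lit 0) (nat_lit 44455281331) (nat_lit 76) (nat_lit 17183284607) (nat_lit 76) (nat_lit 14863483661) (nat_lit 4) (nat_lit 4) (nat_lit 5) (nat_lit 5) (nat_lit 5) (nat_lit 4) (nat_lit 460) (nat_lit 383) (nat_lit 357)))) (XT.nd (nat_lit 78) (nat_lit 152) (nat_lit 0) (XT.lf (nat_lit 0) (nat_lit 61302552006) (nat_lit 76) (nat_lit 11572263353) (nat_lit 76) (nat_lit 9225597551) (nat_lit 4) (nat_lit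 4) (nat_lit 5) (nat_lit 5) (nat_lit 5) (nat_lit 4) (nat_lit 461) (nat_lit 383) (nat_lit 356)) (XT.nd (nat_lit 78) (nat_lit 152) (nat_lit 0) (XT.lf (nat_lit 0) (nat_lit 79294211146) (nat_lit 76) (nat_lit 5615980027) (nat_lit 76) (nat_lit 3244439358) (nat_lit 4) (nat_lit 4) (nat_lit 5) (nat_lit 5) (nat_lit 5) (nat_lit 4) (nat_lit 462) (nat_lit 383) (nat_lit 355)) (XT.lf (nat_lit 0) (nat_lit 3076568963) (nat_lit 152) (nat_lit 90749285993) (nat_lit 0) (nat_lit 859371785) (nat_lit 2) (nat_lit 5) (nat_lit 4) (nat_lit 4) (nat_lit 2) (nat_lit 4) (nat_lit 463) (nat_lit 383) (nat_lit 354))))))) (XT.nd (nat_lit 858) (nat_lit 0) (nat_lit 0) (XT.nd (nat_lit 390) (nat_lit 76) (nat_lit 0) (XT.nd (nat_lit 156) (nat_lit 0) (nat_lit 0) (XT.nd (nat_lit 78) (nat_lit 0) (nat_lit 0) (XT.lf (nat_lit 0) (nat_lit 10027787671) (nat_lit 152) (nat_lit 83888914836) (nat_lit 0) (nat_lit 7790844021) (nat_lit 2) (nat_lit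 5) (nat_lit 4) (nat_lit 4) (nat_lit 2) (nat_lit 4) (nat_lit 464) (nat_lit 383) (nat_lit 353)) (XT.lf (nat_lit 0) (nat_lit 17447503949) (nat_lit 152) (nat_lit 76658881883) (nat_lit 0) (nat_lit 15192276530) (nat_lit 2) (nat_lit 5) (nat_lit 4) (nat_lit 4) (nat_lit 2) (nat_lit 4) (nat_lit 465) (nat_lit 383) (nat_lit 352))) (XT.nd (nat_lit 78) (nat_lit 0) (nat_lit 0) (XT.lf (nat_lit 0) (nat_lit 25379686486) (nat_lit 152) (nat_lit 69016342497) (nat_lit 0) (nat_lit 23107529651) (nat_lit 2) (nat_lit 5) (nat_lit 4) (nat_lit 4) (nat_lit 2) (nat_lit 4) (nat_lit 466) (nat_lit 383) (nat_lit 351)) (XT.nd (nat_lit 78) (nat_lit 0) (nat_lit 0) (XT.lf (nat_lit 0) (nat_lit 33871340810) (nat_lit 152) (nat_lit 60916007554) (nat_lit 0) (nat_lit 31583508589) (nat_lit 2) (nat_lit 5) (nat_lit 4) (nat_lit 4) (nat_lit 2) (nat_lit 4) (nat_lit 467) (nat_lit 383) (nat_lit 350)) (XT.lf (nat_lit 0) (nat_lit 42972787833)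 (nat_lit 152) (nat_lit 52309875070) (nat_lit 0) (nat_lit 40670441367) (nat_lit 2) (nat_lit 5) (nat_lit 4) (nat_lit 4) (nat_lit 2) (nat_lit 4) (nat_lit 468) (nat_lit 383) (nat_lit 349))))) (XT.nd (nat_lit 234) (nat_lit 76) (nat_lit 0) (XT.nd (nat_lit 78) (nat_lit 0) (nat_lit 0) (XT.lf (nat_lit 0) (nat_lit 52737962058) (nat_lit 152) (nat_lit 43146945740) (nat_lit 0) (nat_lit 50422176475) (nat_lit 2) (nat_lit 5) (nat_lit 4) (nat_lit 4) (nat_lit 2) (nat_lit 4) (nat_lit 469) (nat_lit 383) (nat_lit 348)) (XT.nd (nat_lit 78) (nat_lit 0) (nat_lit 0) (XT.lf (nat_lit 0) (nat_lit 63224731182) (nat_lit 152) (nat_lit 33372920725) (nat_lit 0) (nat_lit 60896501974) (nat_lit 2) (nat_lit 5) (nat_lit 4) (nat_lit 4) (nat_lit 2) (nat_lit 4) (nat_lit 470) (nat_lit 383) (nat_lit 347)) (XT.lf (nat_lit 0) (nat_lit 74495239024) (nat_lit 152) (nat_lit 22929879876) (nat_lit 0) (nat_lit 72155487939) (nat_lit 2) (nat_lit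 5) (nat_lit 4) (nat_lit 4) (nat_lit 2) (nat_lit 4) (nat_lit 471) (nat_lit 383) (nat_lit 346)))) (XT.nd (nat_lit 78) (nat_lit 76) (nat_lit 0) (XT.lf (nat_lit 0) (nat_lit 86616273778) (nat_lit 152) (nat_lit 11755938507) (nat_lit 0) (nat_lit 84265854289) (nat_lit 2) (nat_lit 5) (nat_lit 4) (nat_lit 4) (nat_lit 2) (nat_lit 4) (nat_lit 472) (nat_lit 383) (nat_lit 345)) (XT.nd (nat_lit 78) (nat_lit 0) (nat_lit 0) (XT.lf (nat_lit 0) (nat_lit 226447133) (nat_lit 76) (nat_lit 99438662724) (nat_lit 76) (nat_lit 97078365083) (nat_lit 1) (nat_lit 4) (nat_lit 2) (nat_lit 5) (nat_lit 2) (nat_lit 4) (nat_lit 473) (nat_lit 383) (nat_lit 344)) (XT.lf (nat_lit 0) (nat_lit 13741646028) (nat_lit 76) (nat_lit 100291544137) (nat_lit 76) (nat_lit 97922100059) (nat_lit 1) (nat_lit 4) (nat_lit 2) (nat_lit 5) (nat_lit 2) (nat_lit 4) (nat_lit 474) (nat_lit 383) (nat_lit 343)))))) (XT.nd (nat_lit 468) (nat_lit 0)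 (nat_lit 0) (XT.nd (nat_lit 234) (nat_lit 0) (nat_lit 0) (XT.nd (nat_lit 78) (nat_lit 0) (nat_lit 0) (XT.lf (nat_lit 0) (nat_lit 28250701356) (nat_lit 76) (nat_lit 101257338828) (nat_lit 76) (nat_lit 98879425827) (nat_lit 1) (nat_lit 4) (nat_lit 2) (nat_lit 5) (nat_lit 2) (nat_lit 4) (nat_lit 475) (nat_lit 383) (nat_lit 342)) (XT.nd (nat_lit 78) (nat_lit 0) (nat_lit 0) (XT.lf (nat_lit 0) (nat_lit 43839592704) (nat_lit 76) (nat_lit 102341770025) (nat_lit 76) (nat_lit 99956015429) (nat_lit 1) (nat_lit 4) (nat_lit 2) (nat_lit 5) (nat_lit 2) (nat_lit 4) (nat_lit 476) (nat_lit 383) (nat_lit 341)) (XT.lf (nat_lit 0) (nat_lit 60600698688) (nat_lit 76) (nat_lit 103551263988) (nat_lit 76) (nat_lit 101158248656) (nat_lit 1) (nat_lit 4) (nat_lit 2) (nat_lit 5) (nat_lit 2) (nat_lit 4) (nat_lit 477) (nat_lit 383) (nat_lit 340)))) (XT.nd (nat_lit 78) (nat_lit 0) (nat_lit 0) (XT.lf (nat_lit 0) (nat_lit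 78633344379) (nat_lit 76) (nat_lit 104892988088) (nat_lit 76) (nat_lit 102493249852) (nat_lit 1) (nat_lit 4) (nat_lit 2) (nat_lit 5) (nat_lit 2) (nat_lit 4) (nat_lit 478) (nat_lit 383) (nat_lit 339)) (XT.nd (nat_lit 78) (nat_lit 0) (nat_lit 0) (XT.lf (nat_lit 0) (nat_lit 98044389902) (nat_lit 76) (nat_lit 106374893283) (nat_lit 76) (nat_lit 103968930135) (nat_lit 1) (nat_lit 4) (nat_lit 2) (nat_lit 5) (nat_lit 2) (nat_lit 4) (nat_lit 479) (nat_lit 383) (nat_lit 338)) (XT.lf (nat_lit 0) (nat_lit 118948863673) (nat_lit 76) (nat_lit 108005761233) (nat_lit 76) (nat_lit 105594034279) (nat_lit 1) (nat_lit 4) (nat_lit 2) (nat_lit 5) (nat_lit 2) (nat_lit 4) (nat_lit 480) (nat_lit 383) (nat_lit 337))))) (XT.nd (nat_lit 234) (nat_lit 0) (nat_lit 0) (XT.nd (nat_lit 78) (nat_lit 0) (nat_lit 0) (XT.lf (nat_lit 0) (nat_lit 141470644056) (nat_lit 76) (nat_lit 109795256340) (nat_lit 76) (nat_lit 107378192528)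 (nat_lit 1) (nat_lit 4) (nat_lit 2) (nat_lit 5) (nat_lit 2) (nat_lit 4) (nat_lit 481) (nat_lit 383) (nat_lit 336)) (XT.nd (nat_lit 78) (nat_lit 0) (nat_lit 0) (XT.lf (nat_lit 0) (nat_lit 165743193453) (nat_lit 76) (nat_lit 111753983021) (nat_lit 76) (nat_lit 109331977674) (nat_lit 1) (nat_lit 4) (nat_lit 2) (nat_lit 5) (nat_lit 2) (nat_lit 4) (nat_lit 482) (nat_lit 383) (nat_lit 335)) (XT.lf (nat_lit 0) (nat_lit 191910349193) (nat_lit 76) (nat_lit 113893548544) (nat_lit 76) (nat_lit 111466967701) (nat_lit 1) (nat_lit 4) (nat_lit 2) (nat_lit 5) (nat_lit 2) (nat_lit 4) (nat_lit 483) (nat_lit 383) (nat_lit 334)))) (XT.nd (nat_lit 78) (nat_lit 0) (nat_lit 0) (XT.lf (nat_lit 0) (nat_lit 220127175904) (nat_lit 76) (nat_lit 116226631817) (nat_lit 76) (nat_lit 113795814404) (nat_lit 1) (nat_lit 4) (nat_lit 2) (nat_lit 5) (nat_lit 2) (nat_lit 4) (nat_lit 484) (nat_lit 383) (nat_lit 333)) (XT.nd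 (nat_lit 78) (nat_lit 0) (nat_lit 0) (XT.lf (nat_lit 0) (nat_lit 250560884410) (nat_lit 76) (nat_lit 118767058517) (nat_lit 76) (nat_lit 116332318354) (nat_lit 1) (nat_lit 4) (nat_lit 2) (nat_lit 5) (nat_lit 2) (nat_lit 4) (nat_lit 485) (nat_lit 383) (nat_lit 332)) (XT.lf (nat_lit 0) (nat_lit 283391822614) (nat_lit 76) (nat_lit 121529883026) (nat_lit 76) (nat_lit 119091510687) (nat_lit 1) (nat_lit 4) (nat_lit 2) (nat_lit 5) (nat_lit 2) (nat_lit 4) (nat_lit 486) (nat_lit 383) (nat_lit 331))))))))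
noncomputable def xc52 : XT := (XT.nd (nat_lit 1716) (nat_lit 0) (nat_lit 0) (XT.nd (nat_lit 858) (nat_lit 0) (nat_lit 0) (XT.nd (nat_lit 390) (nat_lit 0) (nat_lit 0) (XT.nd (nat_lit 156) (nat_lit 0) (nat_lit 0) (XT.nd (nat_lit 78) (nat_lit 0) (nat_lit 0) (XT.lf (nat_lit 0) (nat_lit 318814544223) (nat_lit 76) (nat_lit 124531477636) (nat_lit 76) (nat_lit 122089742172) (nat_lit 1) (nat_lit 4) (nat_lit 2) (nat_lit 5) (nat_lit 2) (nat_lit 4) (nat_lit 487) (nat_lit 383) (nat_lit 330)) (XT.lf (nat_lit 0) (nat_lit 357038961662) (nat_lit 76) (nat_lit 127789629576) (nat_lit 76) (nat_lit 125344780106) (nat_lit 1) (nat_lit 4) (nat_lit 2) (nat_lit 5) (nat_lit 2) (nat_lit 4) (nat_lit 488) (nat_lit 383) (nat_lit 329))) (XT.nd (nat_lit 78) (nat_lit 0) (nat_lit 0) (XT.lf (nat_lit 0) (nat_lit 398291589997) (nat_lit 76) (nat_lit 131323646411) (nat_lit 76) (nat_lit 128875913603) (nat_lit 1) (nat_lit 4) (nat_lit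 2) (nat_lit 5) (nat_lit 2) (nat_lit 4) (nat_lit 489) (nat_lit 383) (nat_lit 328)) (XT.nd (nat_lit 78) (nat_lit 0) (nat_lit 0) (XT.lf (nat_lit 0) (nat_lit 442816889247) (nat_lit 76) (nat_lit 135154470465) (nat_lit 76) (nat_lit 132704067899) (nat_lit 1) (nat_lit 4) (nat_lit 2) (nat_lit 5) (nat_lit 2) (nat_lit 4) (nat_lit 490) (nat_lit 383) (nat_lit 327)) (XT.lf (nat_lit 0) (nat_lit 490878713039) (nat_lit 76) (nat_lit 139304802916) (nat_lit 76) (nat_lit 136851928352) (nat_lit 1) (nat_lit 4) (nat_lit 2) (nat_lit 5) (nat_lit 2) (nat_lit 4) (nat_lit 491) (nat_lit 383) (nat_lit 326))))) (XT.nd (nat_lit 234) (nat_lit 0) (nat_lit 0) (XT.nd (nat_lit 78) (nat_lit 0) (nat_lit 0) (XT.lf (nat_lit 0) (nat_lit 542761872179) (nat_lit 76) (nat_lit 143799238328) (nat_lit 76) (nat_lit 141344074877) (nat_lit 1) (nat_lit 4) (nat_lit 2) (nat_lit 5) (nat_lit 2) (nat_lit 4) (nat_lit 492) (nat_lit 383) (nat_lit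 325)) (XT.nd (nat_lit 78) (nat_lit 0) (nat_lit 0) (XT.lf (nat_lit 0) (nat_lit 598773822426) (nat_lit 76) (nat_lit 148664410391) (nat_lit 76) (nat_lit 146207127600) (nat_lit 1) (nat_lit 4) (nat_lit 2) (nat_lit 5) (nat_lit 2) (nat_lit 4) (nat_lit 493) (nat_lit 383) (nat_lit 324)) (XT.lf (nat_lit 0) (nat_lit 659246486448) (nat_lit 76) (nat_lit 153929149755) (nat_lit 76) (nat_lit 151469904613) (nat_lit 1) (nat_lit 4) (nat_lit 2) (nat_lit 5) (nat_lit 2) (nat_lit 4) (nat_lit 494) (nat_lit 383) (nat_lit 323)))) (XT.nd (nat_lit 78) (nat_lit 0) (nat_lit 0) (XT.lf (nat_lit 0) (nat_lit 724538220772) (nat_lit 76) (nat_lit 159624654876) (nat_lit 76) (nat_lit 157163592741) (nat_lit 1) (nat_lit 4) (nat_lit 2) (nat_lit 5) (nat_lit 2) (nat_lit 4) (nat_lit 495) (nat_lit 383) (nat_lit 322)) (XT.nd (nat_lit 78) (nat_lit 0) (nat_lit 0) (XT.lf (nat_lit 0) (nat_lit 795035939379) (nat_lit 76) (nat_lit 165784676894)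 (nat_lit 76) (nat_lit 163321932359) (nat_lit 1) (nat_lit 4) (nat_lit 2) (nat_lit 5) (nat_lit 2) (nat_lit 4) (nat_lit 496) (nat_lit 383) (nat_lit 321)) (XT.lf (nat_lit 0) (nat_lit 871157406528) (nat_lit 76) (nat_lit 172445719644) (nat_lit 76) (nat_lit 169981417332) (nat_lit 1) (nat_lit 4) (nat_lit 2) (nat_lit 5) (nat_lit 2) (nat_lit 4) (nat_lit 497) (nat_lit 383) (nat_lit 320)))))) (XT.nd (nat_lit 390) (nat_lit 0) (nat_lit 0) (XT.nd (nat_lit 156) (nat_lit 0) (nat_lit 0) (XT.nd (nat_lit 78) (nat_lit 0) (nat_lit 0) (XT.lf (nat_lit 0) (nat_lit 953353712394) (nat_lit 76) (nat_lit 179647255973) (nat_lit 76) (nat_lit 177181511273) (nat_lit 1) (nat_lit 4) (nat_lit 2) (nat_lit 5) (nat_lit 2) (nat_lit 4) (nat_lit 498) (nat_lit 383) (nat_lit 319)) (XT.lf (nat_lit 0) (nat_lit 1042111946198) (nat_lit 76) (nat_lit 187431961650) (nat_lit 76) (nat_lit 184964881407) (nat_lit 1) (nat_lit 4) (nat_lit 2) (nat_lit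 5) (nat_lit 2) (nat_lit 4) (nat_lit 499) (nat_lit 383) (nat_lit 318))) (XT.nd (nat_lit 78) (nat_lit 0) (nat_lit 0) (XT.lf (nat_lit 0) (nat_lit 1137958082658) (nat_lit 76) (nat_lit 195845968265) (nat_lit 76) (nat_lit 193377651407) (nat_lit 1) (nat_lit 4) (nat_lit 2) (nat_lit 5) (nat_lit 2) (nat_lit 4) (nat_lit 500) (nat_lit 383) (nat_lit 317)) (XT.nd (nat_lit 78) (nat_lit 0) (nat_lit 0) (XT.lf (nat_lit 0) (nat_lit 1241460098880) (nat_lit 76) (nat_lit 204939136598) (nat_lit 76) (nat_lit 202469674727) (nat_lit 1) (nat_lit 4) (nat_lit 2) (nat_lit 5) (nat_lit 2) (nat_lit 4) (nat_lit 501) (nat_lit 383) (nat_lit 316)) (XT.lf (nat_lit 0) (nat_lit 1353231340144) (nat_lit 76) (nat_lit 214765352092) (nat_lit 76) (nat_lit 212294830023) (nat_lit 1) (nat_lit 4) (nat_lit 2) (nat_lit 5) (nat_lit 2) (nat_lit 4) (nat_lit 502) (nat_lit 383) (nat_lit 315))))) (XT.nd (nat_lit 234) (nat_lit 0) (nat_lit 0) (XT.nd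 (nat_lit 78) (nat_lit 0) (nat_lit 0) (XT.lf (nat_lit 0) (nat_lit 1473934154547) (nat_lit 76) (nat_lit 225382844170) (nat_lit 76) (nat_lit 222911340437) (nat_lit 1) (nat_lit 4) (nat_lit 2) (nat_lit 5) (nat_lit 2) (nat_lit 4) (nat_lit 503) (nat_lit 383) (nat_lit 314)) (XT.nd (nat_lit 78) (nat_lit 0) (nat_lit 0) (XT.lf (nat_lit 0) (nat_lit 1604283818026) (nat_lit 76) (nat_lit 236854531305) (nat_lit 76) (nat_lit 234382118623) (nat_lit 1) (nat_lit 4) (nat_lit 2) (nat_lit 5) (nat_lit 2) (nat_lit 4) (nat_lit 504) (nat_lit 383) (nat_lit 313)) (XT.lf (nat_lit 0) (nat_lit 1745052773031) (nat_lit 76) (nat_lit 249248393864) (nat_lit 76) (nat_lit 246775139564) (nat_lit 1) (nat_lit 4) (nat_lit 2) (nat_lit 5) (nat_lit 2) (nat_lit 4) (nat_lit 505) (nat_lit 383) (nat_lit 312)))) (XT.nd (nat_lit 78) (nat_lit 0) (nat_lit 0) (XT.lf (nat_lit 0) (nat_lit 1897075205963) (nat_lit 76) (nat_lit 262637876960) (nat_lit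 76) (nat_lit 260163843383) (nat_lit 1) (nat_lit 4) (nat_lit 2) (nat_lit 5) (nat_lit 2) (nat_lit 4) (nat_lit 506) (nat_lit 383) (nat_lit 311)) (XT.nd (nat_lit 78) (nat_lit 0) (nat_lit 0) (XT.lf (nat_lit 0) (nat_lit 2061251990498) (nat_lit 76) (nat_lit 277102325678) (nat_lit 76) (nat_lit 274627570548) (nat_lit 1) (nat_lit 4) (nat_lit 2) (nat_lit 5) (nat_lit 2) (nat_lit 4) (nat_lit 507) (nat_lit 383) (nat_lit 310)) (XT.lf (nat_lit 0) (nat_lit 2238556026100) (nat_lit 76) (nat_lit 292727455268) (nat_lit 76) (nat_lit 290252032034) (nat_lit 1) (nat_lit 4) (nat_lit 2) (nat_lit 5) (nat_lit 2) (nat_lit 4) (nat_lit 508) (nat_lit 383) (nat_lit 309))))))) (XT.nd (nat_lit 858) (nat_lit 0) (nat_lit 0) (XT.nd (nat_lit 390) (nat_lit 0) (nat_lit 0) (XT.nd (nat_lit 156) (nat_lit 0) (nat_lit 0) (XT.nd (nat_lit 78) (nat_lit 0) (nat_lit 0) (XT.lf (nat_lit 0) (nat_lit 2430038003350) (nat_lit 76) (nat_lit 309605859092)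 (nat_lit 76) (nat_lit 307129817243) (nat_lit 1) (nat_lit 4) (nat_lit 2) (nat_lit 5) (nat_lit 2) (nat_lit 4) (nat_lit 509) (nat_lit 383) (nat_lit 308)) (XT.lf (nat_lit 0) (nat_lit 2636832630261) (nat_lit 76) (nat_lit 327837557320) (nat_lit 76) (nat_lit 325360942679) (nat_lit 1) (nat_lit 4) (nat_lit 2) (nat_lit 5) (nat_lit 2) (nat_lit 4) (nat_lit 510) (nat_lit 383) (nat_lit 307))) (XT.nd (nat_lit 78) (nat_lit 0) (nat_lit 0) (XT.lf (nat_lit 0) (nat_lit 2860165356476) (nat_lit 76) (nat_lit 347530589646) (nat_lit 76) (nat_lit 345053444642) (nat_lit 1) (nat_lit 4) (nat_lit 2) (nat_lit 5) (nat_lit 2) (nat_lit 4) (nat_lit 511) (nat_lit 383) (nat_lit 306)) (XT.nd (nat_lit 78) (nat_lit 0) (nat_lit 0) (XT.lf (nat_lit 0) (nat_lit 3101359635185) (nat_lit 76) (nat_lit 368801655520) (nat_lit 76) (nat_lit 366324019439) (nat_lit 1) (nat_lit 4) (nat_lit 2) (nat_lit 5) (nat_lit 2) (nat_lit 4) (nat_lit 512)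 (nat_lit 383) (nat_lit 305)) (XT.lf (nat_lit 0) (nat_lit 3361844765819) (nat_lit 76) (nat_lit 391776805703) (nat_lit 76) (nat_lit 389298714922) (nat_lit 1) (nat_lit 4) (nat_lit 2) (nat_lit 5) (nat_lit 2) (nat_lit 4) (nat_lit 513) (nat_lit 383) (nat_lit 304))))) (XT.nd (nat_lit 234) (nat_lit 0) (nat_lit 0) (XT.nd (nat_lit 78) (nat_lit 0) (nat_lit 0) (XT.lf (nat_lit 0) (nat_lit 3643164363965) (nat_lit 76) (nat_lit 416592189233) (nat_lit 76) (nat_lit 414113677433) (nat_lit 1) (nat_lit 4) (nat_lit 2) (nat_lit 5) (nat_lit 2) (nat_lit 4) (nat_lit 514) (nat_lit 383) (nat_lit 303)) (XT.nd (nat_lit 78) (nat_lit 0) (nat_lit 0) (XT.lf (nat_lit 0) (nat_lit 3946985508726) (nat_lit 76) (nat_lit 443394860235) (nat_lit 76) (nat_lit 440915958603) (nat_lit 1) (nat_lit 4) (nat_lit 2) (nat_lit 5) (nat_lit 2) (nat_lit 4) (nat_lit 515) (nat_lit 383) (nat_lit 302)) (XT.lf (nat_lit 0) (nat_lit 4275108621698) (nat_lit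 76) (nat_lit 472343649352) (nat_lit 76) (nat_lit 469864386764) (nat_lit 1) (nat_lit 4) (nat_lit 2) (nat_lit 5) (nat_lit 2) (nat_lit 4) (nat_lit 516) (nat_lit 383) (nat_lit 301)))) (XT.nd (nat_lit 78) (nat_lit 0) (nat_lit 0) (XT.lf (nat_lit 0) (nat_lit 4629478136145) (nat_lit 76) (nat_lit 503610104964) (nat_lit 76) (nat_lit 501130508157) (nat_lit 1) (nat_lit 4) (nat_lit 2) (nat_lit 5) (nat_lit 2) (nat_lit 4) (nat_lit 517) (nat_lit 383) (nat_lit 300)) (XT.nd (nat_lit 78) (nat_lit 0) (nat_lit 0) (XT.lf (nat_lit 0) (nat_lit 5012194019558) (nat_lit 76) (nat_lit 537379509771) (nat_lit 76) (nat_lit 534899603502) (nat_lit 1) (nat_lit 4) (nat_lit 2) (nat_lit 5) (nat_lit 2) (nat_lit 4) (nat_lit 518) (nat_lit 383) (nat_lit 299)) (XT.lf (nat_lit 0) (nat_lit 5425524217914) (nat_lit 76) (nat_lit 573851978763) (nat_lit 76) (nat_lit 571371785956) (nat_lit 1) (nat_lit 4) (nat_lit 2) (nat_lit 5) (nat_lit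 2) (nat_lit 4) (nat_lit 519) (nat_lit 383) (nat_lit 298)))))) (XT.nd (nat_lit 468) (nat_lit 0) (nat_lit 0) (XT.nd (nat_lit 234) (nat_lit 0) (nat_lit 0) (XT.nd (nat_lit 78) (nat_lit 0) (nat_lit 0) (XT.lf (nat_lit 0) (nat_lit 5871918095352) (nat_lit 76) (nat_lit 613243645091) (nat_lit 76) (nat_lit 610763186971) (nat_lit 1) (nat_lit 4) (nat_lit 2) (nat_lit 5) (nat_lit 2) (nat_lit 4) (nat_lit 520) (nat_lit 383) (nat_lit 297)) (XT.nd (nat_lit 78) (nat_lit 0) (nat_lit 0) (XT.lf (nat_lit 0) (nat_lit 6354020948922) (nat_lit 76) (nat_lit 655787940852) (nat_lit 76) (nat_lit 653307237071) (nat_lit 1) (nat_lit 4) (nat_lit 2) (nat_lit 5) (nat_lit 2) (nat_lit 4) (nat_lit 521) (nat_lit 383) (nat_lit 296)) (XT.lf (nat_lit 0) (nat_lit 6874689684424) (nat_lit 76) (nat_lit 701736980391) (nat_lit 76) (nat_lit 699256049146) (nat_lit 1) (nat_lit 4) (nat_lit 2) (nat_lit 5) (nat_lit 2) (nat_lit 4) (nat_lit 522)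 (nat_lit 383) (nat_lit 295)))) (XT.nd (nat_lit 78) (nat_lit 0) (nat_lit 0) (XT.lf (nat_lit 0) (nat_lit 7437009746216) (nat_lit 76) (nat_lit 751363054311) (nat_lit 76) (nat_lit 748881912453) (nat_lit 1) (nat_lit 4) (nat_lit 2) (nat_lit 5) (nat_lit 2) (nat_lit 4) (nat_lit 523) (nat_lit 383) (nat_lit 294)) (XT.nd (nat_lit 78) (nat_lit 0) (nat_lit 0) (XT.lf (nat_lit 0) (nat_lit 8044313401332) (nat_lit 76) (nat_lit 804960243053) (nat_lit 76) (nat_lit 802478906181) (nat_lit 1) (nat_lit 4) (nat_lit 2) (nat_lit 5) (nat_lit 2) (nat_lit 4) (nat_lit 524) (nat_lit 383) (nat_lit 293)) (XT.lf (nat_lit 0) (nat_lit 8700199486245) (nat_lit 76) (nat_lit 862846159585) (nat_lit 76) (nat_lit 860364642145) (nat_lit 1) (nat_lit 4) (nat_lit 2) (nat_lit 5) (nat_lit 2) (nat_lit 4) (nat_lit 525) (nat_lit 383) (nat_lit 292))))) (XT.nd (nat_lit 234) (nat_lit 0) (nat_lit 0) (XT.nd (nat_lit 78) (nat_lit 0) (nat_lit 0)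 (XT.lf (nat_lit 0) (nat_lit 9408554733311) (nat_lit 76) (nat_lit 925363831561) (nat_lit 76) (nat_lit 922882146929) (nat_lit 1) (nat_lit 4) (nat_lit 2) (nat_lit 5) (nat_lit 2) (nat_lit 4) (nat_lit 526) (nat_lit 383) (nat_lit 291)) (XT.nd (nat_lit 78) (nat_lit 0) (nat_lit 0) (XT.lf (nat_lit 0) (nat_lit 10173576803253) (nat_lit 76) (nat_lit 992883734075) (nat_lit 76) (nat_lit 990401894635) (nat_lit 1) (nat_lit 4) (nat_lit 2) (nat_lit 5) (nat_lit 2) (nat_lit 4) (nat_lit 527) (nat_lit 383) (nat_lit 290)) (XT.lf (nat_lit 0) (nat_lit 10999799160189) (nat_lit 76) (nat_lit 1065805985067) (nat_lit 76) (nat_lit 1063324002287) (nat_lit 1) (nat_lit 4) (nat_lit 2) (nat_lit 5) (nat_lit 2) (nat_lit 4) (nat_lit 528) (nat_lit 383) (nat_lit 289)))) (XT.nd (nat_lit 54912) (nat_lit 0) (nat_lit 1596) (XT.lf (nat_lit 0) (nat_lit 11892117936606) (nat_lit 76) (nat_lit 1144562716395) (nat_lit 76) (nat_lit 1142080600892)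 (nat_lit 1) (nat_lit 4) (nat_lit 2) (nat_lit 5) (nat_lit 2) (nat_lit 4) (nat_lit 529) (nat_lit 383) (nat_lit 288)) (XT.nd (nat_lit 78) (nat_lit 76) (nat_lit 0) (XT.lf (nat_lit 0) (nat_lit 2305103676) (nat_lit 152) (nat_lit 2862471881) (nat_lit 0) (nat_lit 2305103676) (nat_lit 23) (nat_lit 5) (nat_lit 25) (nat_lit 4) (nat_lit 23) (nat_lit 4) (nat_lit 432) (nat_lit 384) (nat_lit 384)) (XT.lf (nat_lit 0) (nat_lit 6442887633) (nat_lit 76) (nat_lit 4755400957) (nat_lit 76) (nat_lit 4414860710) (nat_lit 22) (nat_lit 4) (nat_lit 23) (nat_lit 5) (nat_lit 23) (nat_lit 4) (nat_lit 433) (nat_lit 384) (nat_lit 383))))))))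
noncomputable def xc53 : XT := (XT.nd (nat_lit 1716) (nat_lit 304) (nat_lit 0) (XT.nd (nat_lit 858) (nat_lit 456) (nat_lit 0) (XT.nd (nat_lit 390) (nat_lit 456) (nat_lit 0) (XT.nd (nat_lit 156) (nat_lit 228) (nat_lit 0) (XT.nd (nat_lit 78) (nat_lit 0) (nat_lit 0) (XT.lf (nat_lit 0) (nat_lit 1806719749) (nat_lit 152) (nat_lit 13330295708) (nat_lit 0) (nat_lit 1199446333) (nat_lit 20) (nat_lit 5) (nat_lit 22) (nat_lit 4) (nat_lit 20) (nat_lit 4) (nat_lit 434) (nat_lit 384) (nat_lit 382)) (XT.lf (nat_lit 0) (nat_lit 8333318793) (nat_lit 152) (nat_lit 1315804989) (nat_lit 0) (nat_lit 7455713550) (nat_lit 20) (nat_lit 5) (nat_lit 22) (nat_lit 4) (nat_lit 20) (nat_lit 4) (nat_lit 435) (nat_lit 384) (nat_lit 381))) (XT.nd (nat_lit 78) (nat_lit 152) (nat_lit 0) (XT.lf (nat_lit 0) (nat_lit 11638579758) (nat_lit 76) (nat_lit 3713234019) (nat_lit 76) (nat_lit 2585321529) (nat_lit 19) (nat_lit 4) (nat_lit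 20) (nat_lit 5) (nat_lit 20) (nat_lit 4) (nat_lit 436) (nat_lit 384) (nat_lit 380)) (XT.nd (nat_lit 78) (nat_lit 0) (nat_lit 0) (XT.lf (nat_lit 0) (nat_lit 3840099571) (nat_lit 152) (nat_lit 12410991013) (nat_lit 0) (nat_lit 2581138033) (nat_lit 17) (nat_lit 5) (nat_lit 19) (nat_lit 4) (nat_lit 17) (nat_lit 4) (nat_lit 437) (nat_lit 384) (nat_lit 379)) (XT.lf (nat_lit 0) (nat_lit 10605631585) (nat_lit 152) (nat_lit 42724339) (nat_lit 0) (nat_lit 9147968085) (nat_lit 17) (nat_lit 5) (nat_lit 19) (nat_lit 4) (nat_lit 17) (nat_lit 4) (nat_lit 438) (nat_lit 384) (nat_lit 378))))) (XT.nd (nat_lit 234) (nat_lit 228) (nat_lit 0) (XT.nd (nat_lit 78) (nat_lit 152) (nat_lit 0) (XT.lf (nat_lit 0) (nat_lit 13425179247) (nat_lit 76) (nat_lit 4525489233) (nat_lit 76) (nat_lit 2883842434) (nat_lit 16) (nat_lit 4) (nat_lit 17) (nat_lit 5) (nat_lit 17) (nat_lit 4) (nat_lit 439) (nat_lit 384) (nat_lit 377))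 (XT.nd (nat_lit 78) (nat_lit 0) (nat_lit 0) (XT.lf (nat_lit 0) (nat_lit 3633608977) (nat_lit 152) (nat_lit 16366576815) (nat_lit 0) (nat_lit 1955829619) (nat_lit 14) (nat_lit 5) (nat_lit 16) (nat_lit 4) (nat_lit 14) (nat_lit 4) (nat_lit 440) (nat_lit 384) (nat_lit 376)) (XT.lf (nat_lit 0) (nat_lit 10559458715) (nat_lit 152) (nat_lit 3862757040) (nat_lit 0) (nat_lit 8735627483) (nat_lit 14) (nat_lit 5) (nat_lit 16) (nat_lit 4) (nat_lit 14) (nat_lit 4) (nat_lit 441) (nat_lit 384) (nat_lit 375)))) (XT.nd (nat_lit 78) (nat_lit 152) (nat_lit 0) (XT.lf (nat_lit 0) (nat_lit 9599834287) (nat_lit 76) (nat_lit 8408763991) (nat_lit 76) (nat_lit 6449699542) (nat_lit 13) (nat_lit 4) (nat_lit 14) (nat_lit 5) (nat_lit 14) (nat_lit 4) (nat_lit 442) (nat_lit 384) (nat_lit 374)) (XT.nd (nat_lit 78) (nat_lit 76) (nat_lit 0) (XT.lf (nat_lit 0) (nat_lit 28559773) (nat_lit 152) (nat_lit 2024876063) (nat_lit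 76) (nat_lit 23821223097) (nat_lit 12) (nat_lit 5) (nat_lit 14) (nat_lit 5) (nat_lit 13) (nat_lit 4) (nat_lit 443) (nat_lit 384) (nat_lit 373)) (XT.lf (nat_lit 0) (nat_lit 6839565125) (nat_lit 152) (nat_lit 15736018031) (nat_lit 0) (nat_lit 4802323386) (nat_lit 11) (nat_lit 5) (nat_lit 13) (nat_lit 4) (nat_lit 11) (nat_lit 4) (nat_lit 444) (nat_lit 384) (nat_lit 372)))))) (XT.nd (nat_lit 390) (nat_lit 228) (nat_lit 0) (XT.nd (nat_lit 156) (nat_lit 152) (nat_lit 0) (XT.nd (nat_lit 78) (nat_lit 76) (nat_lit 0) (XT.lf (nat_lit 0) (nat_lit 14064695441) (nat_lit 152) (nat_lit 3019139138) (nat_lit 0) (nat_lit 11928053251) (nat_lit 11) (nat_lit 5) (nat_lit 13) (nat_lit 4) (nat_lit 11) (nat_lit 4) (nat_lit 445) (nat_lit 384) (nat_lit 371)) (XT.lf (nat_lit 0) (nat_lit 10807063320) (nat_lit 76) (nat_lit 11097633757) (nat_lit 76) (nat_lit 8868954111) (nat_lit 10) (nat_lit 4) (nat_lit 11) (nat_lit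 5) (nat_lit 11) (nat_lit 4) (nat_lit 446) (nat_lit 384) (nat_lit 370))) (XT.nd (nat_lit 78) (nat_lit 152) (nat_lit 0) (XT.lf (nat_lit 0) (nat_lit 25473781242) (nat_lit 76) (nat_lit 4763622506) (nat_lit 76) (nat_lit 2449722994) (nat_lit 10) (nat_lit 4) (nat_lit 11) (nat_lit 5) (nat_lit 11) (nat_lit 4) (nat_lit 447) (nat_lit 384) (nat_lit 369)) (XT.nd (nat_lit 78) (nat_lit 0) (nat_lit 0) (XT.lf (nat_lit 0) (nat_lit 4257099343) (nat_lit 152) (nat_lit 28446562953) (nat_lit 0) (nat_lit 2041537495) (nat_lit 8) (nat_lit 5) (nat_lit 10) (nat_lit 4) (nat_lit 8) (nat_lit 4) (nat_lit 448) (nat_lit 384) (nat_lit 368)) (XT.lf (nat_lit 0) (nat_lit 11488609379) (nat_lit 152) (nat_lit 16259191616) (nat_lit 0) (nat_lit 9205397254) (nat_lit 8) (nat_lit 5) (nat_lit 10) (nat_lit 4) (nat_lit 8) (nat_lit 4) (nat_lit 449) (nat_lit 384) (nat_lit 367))))) (XT.nd (nat_lit 234) (nat_lit 152) (nat_lit 0) (XT.nd (nat_lit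 78) (nat_lit 76) (nat_lit 0) (XT.lf (nat_lit 0) (nat_lit 19108280712) (nat_lit 152) (nat_lit 3482363655) (nat_lit 0) (nat_lit 16762429441) (nat_lit 8) (nat_lit 5) (nat_lit 10) (nat_lit 4) (nat_lit 8) (nat_lit 4) (nat_lit 450) (nat_lit 384) (nat_lit 366)) (XT.nd (nat_lit 78) (nat_lit 0) (nat_lit 0) (XT.lf (nat_lit 0) (nat_lit 10484092219) (nat_lit 76) (nat_lit 16929317401) (nat_lit 76) (nat_lit 14525466922) (nat_lit 7) (nat_lit 4) (nat_lit 8) (nat_lit 5) (nat_lit 8) (nat_lit 4) (nat_lit 451) (nat_lit 384) (nat_lit 365)) (XT.lf (nat_lit 0) (nat_lit 25417971936) (nat_lit 76) (nat_lit 10888620393) (nat_lit 76) (nat_lit 8431066943) (nat_lit 7) (nat_lit 4) (nat_lit 8) (nat_lit 5) (nat_lit 8) (nat_lit 4) (nat_lit 452) (nat_lit 384) (nat_lit 364)))) (XT.nd (nat_lit 78) (nat_lit 152) (nat_lit 0) (XT.lf (nat_lit 0) (nat_lit 41224397463) (nat_lit 76) (nat_lit 4527970614) (nat_lit 76) (nat_lit 2020692190)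 (nat_lit 7) (nat_lit 4) (nat_lit 8) (nat_lit 5) (nat_lit 8) (nat_lit 4) (nat_lit 453) (nat_lit 384) (nat_lit 363)) (XT.nd (nat_lit 78) (nat_lit 0) (nat_lit 0) (XT.lf (nat_lit 0) (nat_lit 4739128882) (nat_lit 152) (nat_lit 43921245353) (nat_lit 0) (nat_lit 2374943636) (nat_lit 5) (nat_lit 5) (nat_lit 7) (nat_lit 4) (nat_lit 5) (nat_lit 4) (nat_lit 454) (nat_lit 384) (nat_lit 362)) (XT.lf (nat_lit 0) (nat_lit 12081312423) (nat_lit 152) (nat_lit 32783336531) (nat_lit 0) (nat_lit 9677653890) (nat_lit 5) (nat_lit 5) (nat_lit 7) (nat_lit 4) (nat_lit 5) (nat_lit 4) (nat_lit 455) (nat_lit 384) (nat_lit 361))))))) (XT.nd (nat_lit 858) (nat_lit 76) (nat_lit 0) (XT.nd (nat_lit 390) (nat_lit 152) (nat_lit 0) (XT.nd (nat_lit 156) (nat_lit 76) (nat_lit 0) (XT.nd (nat_lit 78) (nat_lit 0) (nat_lit 0) (XT.lf (nat_lit 0) (nat_lit 19871457937) (nat_lit 152) (nat_lit 21038296571) (nat_lit 0) (nat_lit 17431250064)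 (nat_lit 5) (nat_lit 5) (nat_lit 7) (nat_lit 4) (nat_lit 5) (nat_lit 4) (nat_lit 456) (nat_lit 384) (nat_lit 360)) (XT.lf (nat_lit 0) (nat_lit 28155729248) (nat_lit 152) (nat_lit 8616525239) (nat_lit 0) (nat_lit 25681679393) (nat_lit 5) (nat_lit 5) (nat_lit 7) (nat_lit 4) (nat_lit 5) (nat_lit 4) (nat_lit 457) (nat_lit 384) (nat_lit 359))) (XT.nd (nat_lit 78) (nat_lit 0) (nat_lit 0) (XT.lf (nat_lit 0) (nat_lit 4795477153) (nat_lit 76) (nat_lit 32303072521) (nat_lit 76) (nat_lit 29797687499) (nat_lit 4) (nat_lit 4) (nat_lit 5) (nat_lit 5) (nat_lit 5) (nat_lit 4) (nat_lit 458) (nat_lit 384) (nat_lit 358)) (XT.nd (nat_lit 78) (nat_lit 0) (nat_lit 0) (XT.lf (nat_lit 0) (nat_lit 19533231346) (nat_lit 76) (nat_lit 27342779579) (nat_lit 76) (nat_lit 24808380512) (nat_lit 4) (nat_lit 4) (nat_lit 5) (nat_lit 5) (nat_lit 5) (nat_lit 4) (nat_lit 459) (nat_lit 384) (nat_lit 357)) (XT.lf (nat_lit 0)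 (nat_lit 35230341232) (nat_lit 76) (nat_lit 22097572399) (nat_lit 76) (nat_lit 19536308477) (nat_lit 4) (nat_lit 4) (nat_lit 5) (nat_lit 5) (nat_lit 5) (nat_lit 4) (nat_lit 460) (nat_lit 384) (nat_lit 356))))) (XT.nd (nat_lit 234) (nat_lit 152) (nat_lit 0) (XT.nd (nat_lit 78) (nat_lit 0) (nat_lit 0) (XT.lf (nat_lit 0) (nat_lit 51979826719) (nat_lit 76) (nat_lit 16536368274) (nat_lit 76) (nat_lit 13950229485) (nat_lit 4) (nat_lit 4) (nat_lit 5) (nat_lit 5) (nat_lit 5) (nat_lit 4) (nat_lit 461) (nat_lit 384) (nat_lit 355)) (XT.nd (nat_lit 78) (nat_lit 0) (nat_lit 0) (XT.lf (nat_lit 0) (nat_lit 69880944019) (nat_lit 76) (nat_lit 10626211920) (nat_lit 76) (nat_lit 8017040847) (nat_lit 4) (nat_lit 4) (nat_lit 5) (nat_lit 5) (nat_lit 5) (nat_lit 4) (nat_lit 462) (nat_lit 384) (nat_lit 354)) (XT.lf (nat_lit 0) (nat_lit 89039773827) (nat_lit 76) (nat_lit 4332080187) (nat_lit 76) (nat_lit 1701582926)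 (nat_lit 4) (nat_lit 4) (nat_lit 5) (nat_lit 5) (nat_lit 5) (nat_lit 4) (nat_lit 463) (nat_lit 384) (nat_lit 353)))) (XT.nd (nat_lit 78) (nat_lit 0) (nat_lit 0) (XT.lf (nat_lit 0) (nat_lit 5031735346) (nat_lit 152) (nat_lit 94513732093) (nat_lit 0) (nat_lit 2577805964) (nat_lit 2) (nat_lit 5) (nat_lit 4) (nat_lit 4) (nat_lit 2) (nat_lit 4) (nat_lit 464) (nat_lit 384) (nat_lit 352)) (XT.nd (nat_lit 78) (nat_lit 0) (nat_lit 0) (XT.lf (nat_lit 0) (nat_lit 12412455930) (nat_lit 152) (nat_lit 87363456931) (nat_lit 0) (nat_lit 9941597132) (nat_lit 2) (nat_lit 5) (nat_lit 4) (nat_lit 4) (nat_lit 2) (nat_lit 4) (nat_lit 465) (nat_lit 384) (nat_lit 351)) (XT.lf (nat_lit 0) (nat_lit 20308531344) (nat_lit 152) (nat_lit 79794767349) (nat_lit 0) (nat_lit 17821997161) (nat_lit 2) (nat_lit 5) (nat_lit 4) (nat_lit 4) (nat_lit 2) (nat_lit 4) (nat_lit 466) (nat_lit 384) (nat_lit 350)))))) (XT.nd (nat_lit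 468) (nat_lit 76) (nat_lit 0) (XT.nd (nat_lit 234) (nat_lit 0) (nat_lit 0) (XT.nd (nat_lit 78) (nat_lit 0) (nat_lit 0) (XT.lf (nat_lit 0) (nat_lit 28766753145) (nat_lit 152) (nat_lit 71762811855) (nat_lit 0) (nat_lit 26265704716) (nat_lit 2) (nat_lit 5) (nat_lit 4) (nat_lit 4) (nat_lit 2) (nat_lit 4) (nat_lit 467) (nat_lit 384) (nat_lit 349)) (XT.nd (nat_lit 78) (nat_lit 0) (nat_lit 0) (XT.lf (nat_lit 0) (nat_lit 37837244130) (nat_lit 152) (nat_lit 63219993676) (nat_lit 0) (nat_lit 35322756585) (nat_lit 2) (nat_lit 5) (nat_lit 4) (nat_lit 4) (nat_lit 2) (nat_lit 4) (nat_lit 468) (nat_lit 384) (nat_lit 348)) (XT.lf (nat_lit 0) (nat_lit 47573755356) (nat_lit 152) (nat_lit 54115688702) (nat_lit 0) (nat_lit 45046824184) (nat_lit 2) (nat_lit 5) (nat_lit 4) (nat_lit 4) (nat_lit 2) (nat_lit 4) (nat_lit 469) (nat_lit 384) (nat_lit 347)))) (XT.nd (nat_lit 78) (nat_lit 0) (nat_lit 0) (XT.lf (nat_lit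 0) (nat_lit 58033984667) (nat_lit 152) (nat_lit 44395945498) (nat_lit 0) (nat_lit 55495531619) (nat_lit 2) (nat_lit 5) (nat_lit 4) (nat_lit 4) (nat_lit 2) (nat_lit 4) (nat_lit 470) (nat_lit 384) (nat_lit 346)) (XT.nd (nat_lit 78) (nat_lit 0) (nat_lit 0) (XT.lf (nat_lit 0) (nat_lit 69279918607) (nat_lit 152) (nat_lit 34003165586) (nat_lit 0) (nat_lit 66730797155) (nat_lit 2) (nat_lit 5) (nat_lit 4) (nat_lit 4) (nat_lit 2) (nat_lit 4) (nat_lit 471) (nat_lit 384) (nat_lit 345)) (XT.lf (nat_lit 0) (nat_lit 81378199748) (nat_lit 152) (nat_lit 22875762121) (nat_lit 0) (nat_lit 78819200145) (nat_lit 2) (nat_lit 5) (nat_lit 4) (nat_lit 4) (nat_lit 2) (nat_lit 4) (nat_lit 472) (nat_lit 384) (nat_lit 344))))) (XT.nd (nat_lit 234) (nat_lit 0) (nat_lit 0) (XT.nd (nat_lit 78) (nat_lit 76) (nat_lit 0) (XT.lf (nat_lit 0) (nat_lit 94400521608) (nat_lit 152) (nat_lit 10947794935) (nat_lit 0) (nat_lit 91832375568)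 (nat_lit 2) (nat_lit 5) (nat_lit 4) (nat_lit 4) (nat_lit 2) (nat_lit 4) (nat_lit 473) (nat_lit 384) (nat_lit 343)) (XT.nd (nat_lit 78) (nat_lit 0) (nat_lit 0) (XT.lf (nat_lit 0) (nat_lit 1948912730) (nat_lit 76) (nat_lit 106522012170) (nat_lit 76) (nat_lit 103945397206) (nat_lit 1) (nat_lit 4) (nat_lit 2) (nat_lit 5) (nat_lit 2) (nat_lit 4) (nat_lit 474) (nat_lit 384) (nat_lit 342)) (XT.lf (nat_lit 0) (nat_lit 16419079401) (nat_lit 76) (nat_lit 107507697693) (nat_lit 76) (nat_lit 104923241134) (nat_lit 1) (nat_lit 4) (nat_lit 2) (nat_lit 5) (nat_lit 2) (nat_lit 4) (nat_lit 475) (nat_lit 384) (nat_lit 341)))) (XT.nd (nat_lit 78) (nat_lit 0) (nat_lit 0) (XT.lf (nat_lit 0) (nat_lit 31971962734) (nat_lit 76) (nat_lit 108610546328) (nat_lit 76) (nat_lit 106018829033) (nat_lit 1) (nat_lit 4) (nat_lit 2) (nat_lit 5) (nat_lit 2) (nat_lit 4) (nat_lit 476) (nat_lit 384) (nat_lit 340)) (XT.nd (nat_lit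 78) (nat_lit 0) (nat_lit 0) (XT.lf (nat_lit 0) (nat_lit 48699727963) (nat_lit 76) (nat_lit 109837093474) (nat_lit 76) (nat_lit 107238653274) (nat_lit 1) (nat_lit 4) (nat_lit 2) (nat_lit 5) (nat_lit 2) (nat_lit 4) (nat_lit 477) (nat_lit 384) (nat_lit 339)) (XT.lf (nat_lit 0) (nat_lit 66701502585) (nat_lit 76) (nat_lit 111194607558) (nat_lit 76) (nat_lit 108589942447) (nat_lit 1) (nat_lit 4) (nat_lit 2) (nat_lit 5) (nat_lit 2) (nat_lit 4) (nat_lit 478) (nat_lit 384) (nat_lit 338))))))))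
noncomputable def xc54 : XT := (XT.nd (nat_lit 1716) (nat_lit 0) (nat_lit 0) (XT.nd (nat_lit 858) (nat_lit 0) (nat_lit 0) (XT.nd (nat_lit 390) (nat_lit 0) (nat_lit 0) (XT.nd (nat_lit 156) (nat_lit 0) (nat_lit 0) (XT.nd (nat_lit 78) (nat_lit 0) (nat_lit 0) (XT.lf (nat_lit 0) (nat_lit 86083963784) (nat_lit 76) (nat_lit 112691133108) (nat_lit 76) (nat_lit 110080704191) (nat_lit 1) (nat_lit 4) (nat_lit 2) (nat_lit 5) (nat_lit 2) (nat_lit 4) (nat_lit 479) (nat_lit 384) (nat_lit 337)) (XT.lf (nat_lit 0) (nat_lit 106961970589) (nat_lit 76) (nat_lit 114335538424) (nat_lit 76) (nat_lit 111719772649) (nat_lit 1) (nat_lit 4) (nat_lit 2) (nat_lit 5) (nat_lit 2) (nat_lit 4) (nat_lit 480) (nat_lit 384) (nat_lit 336))) (XT.nd (nat_lit 78) (nat_lit 0) (nat_lit 0) (XT.lf (nat_lit 0) (nat_lit 129459244521) (nat_lit 76) (nat_lit 116137568130) (nat_lit 76) (nat_lit 113516860819) (nat_lit 1) (nat_lit 4) (nat_lit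 2) (nat_lit 5) (nat_lit 2) (nat_lit 4) (nat_lit 481) (nat_lit 384) (nat_lit 335)) (XT.nd (nat_lit 78) (nat_lit 0) (nat_lit 0) (XT.lf (nat_lit 0) (nat_lit 153709102760) (nat_lit 76) (nat_lit 118107900920) (nat_lit 76) (nat_lit 115482618114) (nat_lit 1) (nat_lit 4) (nat_lit 2) (nat_lit 5) (nat_lit 2) (nat_lit 4) (nat_lit 482) (nat_lit 384) (nat_lit 334)) (XT.lf (nat_lit 0) (nat_lit 179855248169) (nat_lit 76) (nat_lit 120258212841) (nat_lit 76) (nat_lit 117628693465) (nat_lit 1) (nat_lit 4) (nat_lit 2) (nat_lit 5) (nat_lit 2) (nat_lit 4) (nat_lit 483) (nat_lit 384) (nat_lit 333))))) (XT.nd (nat_lit 234) (nat_lit 0) (nat_lit 0) (XT.nd (nat_lit 78) (nat_lit 0) (nat_lit 0) (XT.lf (nat_lit 0) (nat_lit 208052620870) (nat_lit 76) (nat_lit 122601246482) (nat_lit 76) (nat_lit 119967804356) (nat_lit 1) (nat_lit 4) (nat_lit 2) (nat_lit 5) (nat_lit 2) (nat_lit 4) (nat_lit 484) (nat_lit 384) (nat_lit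 332)) (XT.nd (nat_lit 78) (nat_lit 0) (nat_lit 0) (XT.lf (nat_lit 0) (nat_lit 238468316403) (nat_lit 76) (nat_lit 125150886486) (nat_lit 76) (nat_lit 122513812184) (nat_lit 1) (nat_lit 4) (nat_lit 2) (nat_lit 5) (nat_lit 2) (nat_lit 4) (nat_lit 485) (nat_lit 384) (nat_lit 331)) (XT.lf (nat_lit 0) (nat_lit 271282575929) (nat_lit 76) (nat_lit 127922241832) (nat_lit 76) (nat_lit 125281804404) (nat_lit 1) (nat_lit 4) (nat_lit 2) (nat_lit 5) (nat_lit 2) (nat_lit 4) (nat_lit 486) (nat_lit 384) (nat_lit 330)))) (XT.nd (nat_lit 78) (nat_lit 0) (nat_lit 0) (XT.lf (nat_lit 0) (nat_lit 306689854317) (nat_lit 76) (nat_lit 130931735366) (nat_lit 76) (nat_lit 128288183932) (nat_lit 1) (nat_lit 4) (nat_lit 2) (nat_lit 5) (nat_lit 2) (nat_lit 4) (nat_lit 487) (nat_lit 384) (nat_lit 329)) (XT.nd (nat_lit 78) (nat_lit 0) (nat_lit 0) (XT.lf (nat_lit 0) (nat_lit 344899972478) (nat_lit 76) (nat_lit 134197201123)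 (nat_lit 76) (nat_lit 131550766351) (nat_lit 1) (nat_lit 4) (nat_lit 2) (nat_lit 5) (nat_lit 2) (nat_lit 4) (nat_lit 488) (nat_lit 384) (nat_lit 328)) (XT.lf (nat_lit 0) (nat_lit 386139360740) (nat_lit 76) (nat_lit 137737990012) (nat_lit 76) (nat_lit 135088885483) (nat_lit 1) (nat_lit 4) (nat_lit 2) (nat_lit 5) (nat_lit 2) (nat_lit 4) (nat_lit 489) (nat_lit 384) (nat_lit 327)))))) (XT.nd (nat_lit 390) (nat_lit 0) (nat_lit 0) (XT.nd (nat_lit 156) (nat_lit 0) (nat_lit 0) (XT.nd (nat_lit 78) (nat_lit 0) (nat_lit 0) (XT.lf (nat_lit 0) (nat_lit 430652400664) (nat_lit 76) (nat_lit 141575084485) (nat_lit 76) (nat_lit 138923507958) (nat_lit 1) (nat_lit 4) (nat_lit 2) (nat_lit 5) (nat_lit 2) (nat_lit 4) (nat_lit 490) (nat_lit 384) (nat_lit 326)) (XT.lf (nat_lit 0) (nat_lit 478702873228) (nat_lit 76) (nat_lit 145731222881) (nat_lit 76) (nat_lit 143077357467) (nat_lit 1) (nat_lit 4) (nat_lit 2) (nat_lit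 5) (nat_lit 2) (nat_lit 4) (nat_lit 491) (nat_lit 384) (nat_lit 325))) (XT.nd (nat_lit 78) (nat_lit 0) (nat_lit 0) (XT.lf (nat_lit 0) (nat_lit 530575521971) (nat_lit 76) (nat_lit 150231034167) (nat_lit 76) (nat_lit 147575049413) (nat_lit 1) (nat_lit 4) (nat_lit 2) (nat_lit 5) (nat_lit 2) (nat_lit 4) (nat_lit 492) (nat_lit 384) (nat_lit 324)) (XT.nd (nat_lit 78) (nat_lit 0) (nat_lit 0) (XT.lf (nat_lit 0) (nat_lit 586577740370) (nat_lit 76) (nat_lit 155101183891) (nat_lit 76) (nat_lit 152443236786) (nat_lit 1) (nat_lit 4) (nat_lit 2) (nat_lit 5) (nat_lit 2) (nat_lit 4) (nat_lit 493) (nat_lit 384) (nat_lit 323)) (XT.lf (nat_lit 0) (nat_lit 647041393421) (nat_lit 76) (nat_lit 160370532201) (nat_lit 76) (nat_lit 157710768104) (nat_lit 1) (nat_lit 4) (nat_lit 2) (nat_lit 5) (nat_lit 2) (nat_lit 4) (nat_lit 494) (nat_lit 384) (nat_lit 322))))) (XT.nd (nat_lit 234) (nat_lit 0) (nat_lit 0) (XT.nd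 (nat_lit 78) (nat_lit 0) (nat_lit 0) (XT.lf (nat_lit 0) (nat_lit 712324784253) (nat_lit 76) (nat_lit 166070304864) (nat_lit 76) (nat_lit 163408858366) (nat_lit 1) (nat_lit 4) (nat_lit 2) (nat_lit 5) (nat_lit 2) (nat_lit 4) (nat_lit 495) (nat_lit 384) (nat_lit 321)) (XT.nd (nat_lit 78) (nat_lit 0) (nat_lit 0) (XT.lf (nat_lit 0) (nat_lit 782814777405) (nat_lit 76) (nat_lit 172234278311) (nat_lit 76) (nat_lit 169571274035) (nat_lit 1) (nat_lit 4) (nat_lit 2) (nat_lit 5) (nat_lit 2) (nat_lit 4) (nat_lit 496) (nat_lit 384) (nat_lit 320)) (XT.lf (nat_lit 0) (nat_lit 858929091354) (nat_lit 76) (nat_lit 178898979791) (nat_lit 76) (nat_lit 176234533128) (nat_lit 1) (nat_lit 4) (nat_lit 2) (nat_lit 5) (nat_lit 2) (nat_lit 4) (nat_lit 497) (nat_lit 384) (nat_lit 319)))) (XT.nd (nat_lit 78) (nat_lit 0) (nat_lit 0) (XT.lf (nat_lit 0) (nat_lit 941118773888) (nat_lit 76) (nat_lit 186103903832) (nat_lit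 76) (nat_lit 183438121626) (nat_lit 1) (nat_lit 4) (nat_lit 2) (nat_lit 5) (nat_lit 2) (nat_lit 4) (nat_lit 498) (nat_lit 384) (nat_lit 318)) (XT.nd (nat_lit 78) (nat_lit 0) (nat_lit 0) (XT.lf (nat_lit 0) (nat_lit 1029870874977) (nat_lit 76) (nat_lit 193891746281) (nat_lit 76) (nat_lit 191224727460) (nat_lit 1) (nat_lit 4) (nat_lit 2) (nat_lit 5) (nat_lit 2) (nat_lit 4) (nat_lit 499) (nat_lit 384) (nat_lit 317)) (XT.lf (nat_lit 0) (nat_lit 1125711332997) (nat_lit 76) (nat_lit 202308657313) (nat_lit 76) (nat_lit 199640493479) (nat_lit 1) (nat_lit 4) (nat_lit 2) (nat_lit 5) (nat_lit 2) (nat_lit 4) (nat_lit 500) (nat_lit 384) (nat_lit 316))))))) (XT.nd (nat_lit 858) (nat_lit 0) (nat_lit 0) (XT.nd (nat_lit 390) (nat_lit 0) (nat_lit 0) (XT.nd (nat_lit 156) (nat_lit 0) (nat_lit 0) (XT.nd (nat_lit 78) (nat_lit 0) (nat_lit 0) (XT.lf (nat_lit 0) (nat_lit 1229208091403) (nat_lit 76) (nat_lit 211404514922)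 (nat_lit 76) (nat_lit 208735290891) (nat_lit 1) (nat_lit 4) (nat_lit 2) (nat_lit 5) (nat_lit 2) (nat_lit 4) (nat_lit 501) (nat_lit 384) (nat_lit 315)) (XT.lf (nat_lit 0) (nat_lit 1340974464320) (nat_lit 76) (nat_lit 221233220485) (nat_lit 76) (nat_lit 218563014789) (nat_lit 1) (nat_lit 4) (nat_lit 2) (nat_lit 5) (nat_lit 2) (nat_lit 4) (nat_lit 502) (nat_lit 384) (nat_lit 314))) (XT.nd (nat_lit 78) (nat_lit 0) (nat_lit 0) (XT.lf (nat_lit 0) (nat_lit 1461672770994) (nat_lit 76) (nat_lit 231853018184) (nat_lit 76) (nat_lit 229181903539) (nat_lit 1) (nat_lit 4) (nat_lit 2) (nat_lit 5) (nat_lit 2) (nat_lit 4) (nat_lit 503) (nat_lit 384) (nat_lit 313)) (XT.nd (nat_lit 78) (nat_lit 0) (nat_lit 0) (XT.lf (nat_lit 0) (nat_lit 1592018260650) (nat_lit 76) (nat_lit 243326840152) (nat_lit 76) (nat_lit 240654883889) (nat_lit 1) (nat_lit 4) (nat_lit 2) (nat_lit 5) (nat_lit 2) (nat_lit 4) (nat_lit 504)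 (nat_lit 384) (nat_lit 312)) (XT.lf (nat_lit 0) (nat_lit 1732783351005) (nat_lit 76) (nat_lit 255722679410) (nat_lit 76) (nat_lit 253049943870) (nat_lit 1) (nat_lit 4) (nat_lit 2) (nat_lit 5) (nat_lit 2) (nat_lit 4) (nat_lit 505) (nat_lit 384) (nat_lit 311))))) (XT.nd (nat_lit 234) (nat_lit 0) (nat_lit 0) (XT.nd (nat_lit 78) (nat_lit 0) (nat_lit 0) (XT.lf (nat_lit 0) (nat_lit 1884802205556) (nat_lit 76) (nat_lit 269113992782) (nat_lit 76) (nat_lit 266440535689) (nat_lit 1) (nat_lit 4) (nat_lit 2) (nat_lit 5) (nat_lit 2) (nat_lit 4) (nat_lit 506) (nat_lit 384) (nat_lit 310)) (XT.nd (nat_lit 78) (nat_lit 0) (nat_lit 0) (XT.lf (nat_lit 0) (nat_lit 2048975676775) (nat_lit 76) (nat_lit 283580136199) (nat_lit 76) (nat_lit 280906011002) (nat_lit 1) (nat_lit 4) (nat_lit 2) (nat_lit 5) (nat_lit 2) (nat_lit 4) (nat_lit 507) (nat_lit 384) (nat_lit 309)) (XT.lf (nat_lit 0) (nat_lit 2226276644493) (nat_lit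 76) (nat_lit 299206834956) (nat_lit 76) (nat_lit 296532091143) (nat_lit 1) (nat_lit 4) (nat_lit 2) (nat_lit 5) (nat_lit 2) (nat_lit 4) (nat_lit 508) (nat_lit 384) (nat_lit 308)))) (XT.nd (nat_lit 78) (nat_lit 0) (nat_lit 0) (XT.lf (nat_lit 0) (nat_lit 2417755781109) (nat_lit 76) (nat_lit 316086691712) (nat_lit 76) (nat_lit 313411375108) (nat_lit 1) (nat_lit 4) (nat_lit 2) (nat_lit 5) (nat_lit 2) (nat_lit 4) (nat_lit 509) (nat_lit 384) (nat_lit 307)) (XT.nd (nat_lit 78) (nat_lit 0) (nat_lit 0) (XT.lf (nat_lit 0) (nat_lit 2624547777804) (nat_lit 76) (nat_lit 334319735247) (nat_lit 76) (nat_lit 331643888280) (nat_lit 1) (nat_lit 4) (nat_lit 2) (nat_lit 5) (nat_lit 2) (nat_lit 4) (nat_lit 510) (nat_lit 384) (nat_lit 306)) (XT.lf (nat_lit 0) (nat_lit 2847878068633) (nat_lit 76) (nat_lit 354014013228) (nat_lit 76) (nat_lit 351337675184) (nat_lit 1) (nat_lit 4) (nat_lit 2) (nat_lit 5) (nat_lit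 2) (nat_lit 4) (nat_lit 511) (nat_lit 384) (nat_lit 305)))))) (XT.nd (nat_lit 468) (nat_lit 0) (nat_lit 0) (XT.nd (nat_lit 234) (nat_lit 0) (nat_lit 0) (XT.nd (nat_lit 78) (nat_lit 0) (nat_lit 0) (XT.lf (nat_lit 0) (nat_lit 3089070092355) (nat_lit 76) (nat_lit 375286232486) (nat_lit 76) (nat_lit 372609439742) (nat_lit 1) (nat_lit 4) (nat_lit 2) (nat_lit 5) (nat_lit 2) (nat_lit 4) (nat_lit 512) (nat_lit 384) (nat_lit 304)) (XT.nd (nat_lit 78) (nat_lit 0) (nat_lit 0) (XT.lf (nat_lit 0) (nat_lit 3349553135038) (nat_lit 76) (nat_lit 398262450617) (nat_lit 76) (nat_lit 395585236855) (nat_lit 1) (nat_lit 4) (nat_lit 2) (nat_lit 5) (nat_lit 2) (nat_lit 4) (nat_lit 513) (nat_lit 384) (nat_lit 303)) (XT.lf (nat_lit 0) (nat_lit 3630870799897) (nat_lit 76) (nat_lit 423078822989) (nat_lit 76) (nat_lit 420401219394) (nat_lit 1) (nat_lit 4) (nat_lit 2) (nat_lit 5) (nat_lit 2) (nat_lit 4) (nat_lit 514)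 (nat_lit 384) (nat_lit 302)))) (XT.nd (nat_lit 78) (nat_lit 0) (nat_lit 0) (XT.lf (nat_lit 0) (nat_lit 3934690154576) (nat_lit 76) (nat_lit 449882409585) (nat_lit 76) (nat_lit 447204445033) (nat_lit 1) (nat_lit 4) (nat_lit 2) (nat_lit 5) (nat_lit 2) (nat_lit 4) (nat_lit 515) (nat_lit 384) (nat_lit 301)) (XT.nd (nat_lit 78) (nat_lit 0) (nat_lit 0) (XT.lf (nat_lit 0) (nat_lit 4262811610066) (nat_lit 76) (nat_lit 478832046473) (nat_lit 76) (nat_lit 476153747704) (nat_lit 1) (nat_lit 4) (nat_lit 2) (nat_lit 5) (nat_lit 2) (nat_lit 4) (nat_lit 516) (nat_lit 384) (nat_lit 300)) (XT.lf (nat_lit 0) (nat_lit 4617179589807) (nat_lit 76) (nat_lit 510099287059) (nat_lit 76) (nat_lit 507420678828) (nat_lit 1) (nat_lit 4) (nat_lit 2) (nat_lit 5) (nat_lit 2) (nat_lit 4) (nat_lit 517) (nat_lit 384) (nat_lit 299))))) (XT.nd (nat_lit 234) (nat_lit 0) (nat_lit 0) (XT.nd (nat_lit 78) (nat_lit 0) (nat_lit 0)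 (XT.lf (nat_lit 0) (nat_lit 4999894052196) (nat_lit 76) (nat_lit 543869418693) (nat_lit 76) (nat_lit 541190523923) (nat_lit 1) (nat_lit 4) (nat_lit 2) (nat_lit 5) (nat_lit 2) (nat_lit 4) (nat_lit 518) (nat_lit 384) (nat_lit 298)) (XT.nd (nat_lit 78) (nat_lit 0) (nat_lit 0) (XT.lf (nat_lit 0) (nat_lit 5413222934789) (nat_lit 76) (nat_lit 580342560674) (nat_lit 76) (nat_lit 577663400591) (nat_lit 1) (nat_lit 4) (nat_lit 2) (nat_lit 5) (nat_lit 2) (nat_lit 4) (nat_lit 519) (nat_lit 384) (nat_lit 297)) (XT.lf (nat_lit 0) (nat_lit 5859615593927) (nat_lit 76) (nat_lit 619734850140) (nat_lit 76) (nat_lit 617055444397) (nat_lit 1) (nat_lit 4) (nat_lit 2) (nat_lit 5) (nat_lit 2) (nat_lit 4) (nat_lit 520) (nat_lit 384) (nat_lit 296)))) (XT.nd (nat_lit 78) (nat_lit 0) (nat_lit 0) (XT.lf (nat_lit 0) (nat_lit 6341717319443) (nat_lit 76) (nat_lit 662279722880) (nat_lit 76) (nat_lit 659600089673) (nat_lit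 1) (nat_lit 4) (nat_lit 2) (nat_lit 5) (nat_lit 2) (nat_lit 4) (nat_lit 521) (nat_lit 384) (nat_lit 295)) (XT.nd (nat_lit 78) (nat_lit 0) (nat_lit 0) (XT.lf (nat_lit 0) (nat_lit 6862385010450) (nat_lit 76) (nat_lit 708229296659) (nat_lit 76) (nat_lit 705549452837) (nat_lit 1) (nat_lit 4) (nat_lit 2) (nat_lit 5) (nat_lit 2) (nat_lit 4) (nat_lit 522) (nat_lit 384) (nat_lit 294)) (XT.lf (nat_lit 0) (nat_lit 7424704105117) (nat_lit 76) (nat_lit 757855865246) (nat_lit 76) (nat_lit 755175826412) (nat_lit 1) (nat_lit 4) (nat_lit 2) (nat_lit 5) (nat_lit 2) (nat_lit 4) (nat_lit 523) (nat_lit 384) (nat_lit 293))))))))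
noncomputable def xc55 : XT := (XT.nd (nat_lit 56472) (nat_lit 0) (nat_lit 76) (XT.nd (nat_lit 55614) (nat_lit 0) (nat_lit 684) (XT.nd (nat_lit 55146) (nat_lit 0) (nat_lit 1444) (XT.nd (nat_lit 156) (nat_lit 0) (nat_lit 0) (XT.nd (nat_lit 78) (nat_lit 0) (nat_lit 0) (XT.lf (nat_lit 0) (nat_lit 8032006864746) (nat_lit 76) (nat_lit 811453512012) (nat_lit 76) (nat_lit 808773292610) (nat_lit 1) (nat_lit 4) (nat_lit 2) (nat_lit 5) (nat_lit 2) (nat_lit 4) (nat_lit 524) (nat_lit 384) (nat_lit 292)) (XT.lf (nat_lit 0) (nat_lit 8687892120505) (nat_lit 76) (nat_lit 869339852642) (nat_lit 76) (nat_lit 866659466046) (nat_lit 1) (nat_lit 4) (nat_lit 2) (nat_lit 5) (nat_lit 2) (nat_lit 4) (nat_lit 525) (nat_lit 384) (nat_lit 291))) (XT.nd (nat_lit 78) (nat_lit 0) (nat_lit 0) (XT.lf (nat_lit 0) (nat_lit 9396246599836) (nat_lit 76) (nat_lit 931857917300) (nat_lit 76) (nat_lit 929177375897) (nat_lit 1)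 (nat_lit 4) (nat_lit 2) (nat_lit 5) (nat_lit 2) (nat_lit 4) (nat_lit 526) (nat_lit 384) (nat_lit 290)) (XT.nd (nat_lit 78) (nat_lit 0) (nat_lit 0) (XT.lf (nat_lit 0) (nat_lit 10161267958912) (nat_lit 76) (nat_lit 999378183409) (nat_lit 76) (nat_lit 996697498666) (nat_lit 1) (nat_lit 4) (nat_lit 2) (nat_lit 5) (nat_lit 2) (nat_lit 4) (nat_lit 527) (nat_lit 384) (nat_lit 289)) (XT.lf (nat_lit 0) (nat_lit 10987489657640) (nat_lit 76) (nat_lit 1072300771063) (nat_lit 76) (nat_lit 1069619953597) (nat_lit 1) (nat_lit 4) (nat_lit 2) (nat_lit 5) (nat_lit 2) (nat_lit 4) (nat_lit 528) (nat_lit 384) (nat_lit 288))))) (XT.nd (nat_lit 234) (nat_lit 228) (nat_lit 0) (XT.nd (nat_lit 78) (nat_lit 228) (nat_lit 0) (XT.lf (nat_lit 0) (nat_lit 3335118755) (nat_lit 152) (nat_lit 197967933) (nat_lit 0) (nat_lit 3335118755) (nat_lit 26) (nat_lit 5) (nat_lit 28) (nat_lit 4) (nat_lit 26) (nat_lit 4) (nat_lit 430)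 (nat_lit 385) (nat_lit 385)) (XT.nd (nat_lit 78) (nat_lit 152) (nat_lit 0) (XT.lf (nat_lit 0) (nat_lit 11451679719) (nat_lit 76) (nat_lit 1637349178) (nat_lit 76) (nat_lit 1240143034) (nat_lit 25) (nat_lit 4) (nat_lit 26) (nat_lit 5) (nat_lit 26) (nat_lit 4) (nat_lit 431) (nat_lit 385) (nat_lit 384)) (XT.lf (nat_lit 0) (nat_lit 4815152932) (nat_lit 152) (nat_lit 6036425473) (nat_lit 0) (nat_lit 4106829220) (nat_lit 23) (nat_lit 5) (nat_lit 25) (nat_lit 4) (nat_lit 23) (nat_lit 4) (nat_lit 432) (nat_lit 385) (nat_lit 383)))) (XT.nd (nat_lit 78) (nat_lit 152) (nat_lit 0) (XT.lf (nat_lit 0) (nat_lit 5811407750) (nat_lit 76) (nat_lit 5425863492) (nat_lit 76) (nat_lit 4402224737) (nat_lit 22) (nat_lit 4) (nat_lit 23) (nat_lit 5) (nat_lit 23) (nat_lit 4) (nat_lit 433) (nat_lit 385) (nat_lit 382)) (XT.nd (nat_lit 78) (nat_lit 0) (nat_lit 0) (XT.lf (nat_lit 0) (nat_lit 1624478290) (nat_lit 152)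 (nat_lit 14347530258) (nat_lit 0) (nat_lit 406332800) (nat_lit 20) (nat_lit 5) (nat_lit 22) (nat_lit 4) (nat_lit 20) (nat_lit 4) (nat_lit 434) (nat_lit 385) (nat_lit 381)) (XT.lf (nat_lit 0) (nat_lit 8001971514) (nat_lit 152) (nat_lit 2623171330) (nat_lit 0) (nat_lit 6533518777) (nat_lit 20) (nat_lit 5) (nat_lit 22) (nat_lit 4) (nat_lit 20) (nat_lit 4) (nat_lit 435) (nat_lit 385) (nat_lit 380)))))) (XT.nd (nat_lit 390) (nat_lit 304) (nat_lit 0) (XT.nd (nat_lit 156) (nat_lit 228) (nat_lit 0) (XT.nd (nat_lit 78) (nat_lit 152) (nat_lit 0) (XT.lf (nat_lit 0) (nat_lit 9979583142) (nat_lit 76) (nat_lit 4862923503) (nat_lit 76) (nat_lit 3162704796) (nat_lit 19) (nat_lit 4) (nat_lit 20) (nat_lit 5) (nat_lit 20) (nat_lit 4) (nat_lit 436) (nat_lit 385) (nat_lit 379)) (XT.lf (nat_lit 0) (nat_lit 3071310140) (nat_lit 152) (nat_lit 14549409948) (nat_lit 0) (nat_lit 1298331597) (nat_lit 17) (nat_lit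 5) (nat_lit 19) (nat_lit 4) (nat_lit 17) (nat_lit 4) (nat_lit 437) (nat_lit 385) (nat_lit 378))) (XT.nd (nat_lit 78) (nat_lit 228) (nat_lit 0) (XT.lf (nat_lit 0) (nat_lit 9700008711) (nat_lit 152) (nat_lit 2451050129) (nat_lit 0) (nat_lit 7743046869) (nat_lit 17) (nat_lit 5) (nat_lit 19) (nat_lit 4) (nat_lit 17) (nat_lit 4) (nat_lit 438) (nat_lit 385) (nat_lit 377)) (XT.nd (nat_lit 78) (nat_lit 152) (nat_lit 0) (XT.lf (nat_lit 0) (nat_lit 10626961519) (nat_lit 76) (nat_lit 6224089249) (nat_lit 76) (nat_lit 4096772500) (nat_lit 16) (nat_lit 4) (nat_lit 17) (nat_lit 5) (nat_lit 17) (nat_lit 4) (nat_lit 439) (nat_lit 385) (nat_lit 376)) (XT.lf (nat_lit 0) (nat_lit 2229020040) (nat_lit 152) (nat_lit 19749607224) (nat_lit 0) (nat_lit 113230435) (nat_lit 14) (nat_lit 5) (nat_lit 16) (nat_lit 4) (nat_lit 14) (nat_lit 4) (nat_lit 440) (nat_lit 385) (nat_lit 375))))) (XT.nd (nat_lit 234) (nat_lit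 228) (nat_lit 0) (XT.nd (nat_lit 78) (nat_lit 76) (nat_lit 0) (XT.lf (nat_lit 0) (nat_lit 9029074394) (nat_lit 152) (nat_lit 7496631977) (nat_lit 0) (nat_lit 6778051572) (nat_lit 14) (nat_lit 5) (nat_lit 16) (nat_lit 4) (nat_lit 14) (nat_lit 4) (nat_lit 441) (nat_lit 385) (nat_lit 374)) (XT.nd (nat_lit 78) (nat_lit 0) (nat_lit 0) (XT.lf (nat_lit 0) (nat_lit 5530111901) (nat_lit 76) (nat_lit 10733747927) (nat_lit 76) (nat_lit 8357509163) (nat_lit 13) (nat_lit 4) (nat_lit 14) (nat_lit 5) (nat_lit 14) (nat_lit 4) (nat_lit 442) (nat_lit 385) (nat_lit 373)) (XT.lf (nat_lit 0) (nat_lit 19554457993) (nat_lit 76) (nat_lit 4492290220) (nat_lit 76) (nat_lit 2000110769) (nat_lit 13) (nat_lit 4) (nat_lit 14) (nat_lit 5) (nat_lit 14) (nat_lit 4) (nat_lit 443) (nat_lit 385) (nat_lit 372)))) (XT.nd (nat_lit 78) (nat_lit 76) (nat_lit 0) (XT.lf (nat_lit 0) (nat_lit 4620440081) (nat_lit 152) (nat_lit 20743295775)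 (nat_lit 0) (nat_lit 2213466063) (nat_lit 11) (nat_lit 5) (nat_lit 13) (nat_lit 4) (nat_lit 11) (nat_lit 4) (nat_lit 444) (nat_lit 385) (nat_lit 371)) (XT.nd (nat_lit 78) (nat_lit 76) (nat_lit 0) (XT.lf (nat_lit 0) (nat_lit 11738335186) (nat_lit 152) (nat_lit 8242109104) (nat_lit 0) (nat_lit 9239323714) (nat_lit 11) (nat_lit 5) (nat_lit 13) (nat_lit 4) (nat_lit 11) (nat_lit 4) (nat_lit 445) (nat_lit 385) (nat_lit 370)) (XT.lf (nat_lit 0) (nat_lit 5098829352) (nat_lit 76) (nat_lit 14242932445) (nat_lit 76) (nat_lit 11658701106) (nat_lit 10) (nat_lit 4) (nat_lit 11) (nat_lit 5) (nat_lit 11) (nat_lit 4) (nat_lit 446) (nat_lit 385) (nat_lit 369))))))) (XT.nd (nat_lit 858) (nat_lit 228) (nat_lit 0) (XT.nd (nat_lit 390) (nat_lit 152) (nat_lit 0) (XT.nd (nat_lit 156) (nat_lit 152) (nat_lit 0) (XT.nd (nat_lit 78) (nat_lit 76) (nat_lit 0) (XT.lf (nat_lit 0) (nat_lit 19570888330) (nat_lit 76) (nat_lit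 8006961676) (nat_lit 76) (nat_lit 5343823053) (nat_lit 10) (nat_lit 4) (nat_lit 11) (nat_lit 5) (nat_lit 11) (nat_lit 4) (nat_lit 447) (nat_lit 385) (nat_lit 368)) (XT.lf (nat_lit 0) (nat_lit 1211474850) (nat_lit 152) (nat_lit 216333232) (nat_lit 76) (nat_lit 33581214599) (nat_lit 9) (nat_lit 5) (nat_lit 11) (nat_lit 5) (nat_lit 10) (nat_lit 4) (nat_lit 448) (nat_lit 385) (nat_lit 367))) (XT.nd (nat_lit 78) (nat_lit 76) (nat_lit 0) (XT.lf (nat_lit 0) (nat_lit 8311508029) (nat_lit 152) (nat_lit 23200685817) (nat_lit 0) (nat_lit 5715349511) (nat_lit 8) (nat_lit 5) (nat_lit 10) (nat_lit 4) (nat_lit 8) (nat_lit 4) (nat_lit 449) (nat_lit 385) (nat_lit 366)) (XT.nd (nat_lit 78) (nat_lit 76) (nat_lit 0) (XT.lf (nat_lit 0) (nat_lit 15846439554) (nat_lit 152) (nat_lit 10595480489) (nat_lit 0) (nat_lit 13192281827) (nat_lit 8) (nat_lit 5) (nat_lit 10) (nat_lit 4) (nat_lit 8) (nat_lit 4) (nat_lit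 450) (nat_lit 385) (nat_lit 365)) (XT.lf (nat_lit 0) (nat_lit 2829133501) (nat_lit 76) (nat_lit 21059870234) (nat_lit 76) (nat_lit 18352009536) (nat_lit 7) (nat_lit 4) (nat_lit 8) (nat_lit 5) (nat_lit 8) (nat_lit 4) (nat_lit 451) (nat_lit 385) (nat_lit 364))))) (XT.nd (nat_lit 234) (nat_lit 76) (nat_lit 0) (XT.nd (nat_lit 78) (nat_lit 76) (nat_lit 0) (XT.lf (nat_lit 0) (nat_lit 17608126407) (nat_lit 76) (nat_lit 15097684278) (nat_lit 76) (nat_lit 12340098607) (nat_lit 7) (nat_lit 4) (nat_lit 8) (nat_lit 5) (nat_lit 8) (nat_lit 4) (nat_lit 452) (nat_lit 385) (nat_lit 363)) (XT.nd (nat_lit 78) (nat_lit 76) (nat_lit 0) (XT.lf (nat_lit 0) (nat_lit 33271138220) (nat_lit 76) (nat_lit 8809729918) (nat_lit 76) (nat_lit 6006102605) (nat_lit 7) (nat_lit 4) (nat_lit 8) (nat_lit 5) (nat_lit 8) (nat_lit 4) (nat_lit 453) (nat_lit 385) (nat_lit 362)) (XT.lf (nat_lit 0) (nat_lit 653121063) (nat_lit 152)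 (nat_lit 1487766651) (nat_lit 76) (nat_lit 49240008237) (nat_lit 6) (nat_lit 5) (nat_lit 8) (nat_lit 5) (nat_lit 7) (nat_lit 4) (nat_lit 454) (nat_lit 385) (nat_lit 361)))) (XT.nd (nat_lit 78) (nat_lit 0) (nat_lit 0) (XT.lf (nat_lit 0) (nat_lit 7838147571) (nat_lit 152) (nat_lit 41896134561) (nat_lit 0) (nat_lit 5166173729) (nat_lit 5) (nat_lit 5) (nat_lit 7) (nat_lit 4) (nat_lit 5) (nat_lit 4) (nat_lit 455) (nat_lit 385) (nat_lit 360)) (XT.nd (nat_lit 78) (nat_lit 0) (nat_lit 0) (XT.lf (nat_lit 0) (nat_lit 15566232583) (nat_lit 152) (nat_lit 30277475286) (nat_lit 0) (nat_lit 12860416759) (nat_lit 5) (nat_lit 5) (nat_lit 7) (nat_lit 4) (nat_lit 5) (nat_lit 4) (nat_lit 456) (nat_lit 385) (nat_lit 359)) (XT.lf (nat_lit 0) (nat_lit 23793040466) (nat_lit 152) (nat_lit 17972723105) (nat_lit 0) (nat_lit 21055889475) (nat_lit 5) (nat_lit 5) (nat_lit 7) (nat_lit 4) (nat_lit 5) (nat_lit 4) (nat_lit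 457) (nat_lit 385) (nat_lit 358)))))) (XT.nd (nat_lit 468) (nat_lit 152) (nat_lit 0) (XT.nd (nat_lit 234) (nat_lit 0) (nat_lit 0) (XT.nd (nat_lit 78) (nat_lit 76) (nat_lit 0) (XT.lf (nat_lit 0) (nat_lit 32567322675) (nat_lit 152) (nat_lit 4908960969) (nat_lit 0) (nat_lit 29801157639) (nat_lit 5) (nat_lit 5) (nat_lit 7) (nat_lit 4) (nat_lit 5) (nat_lit 4) (nat_lit 458) (nat_lit 385) (nat_lit 357)) (XT.nd (nat_lit 78) (nat_lit 0) (nat_lit 0) (XT.lf (nat_lit 0) (nat_lit 9464688037) (nat_lit 76) (nat_lit 32704012893) (nat_lit 76) (nat_lit 29910983001) (nat_lit 4) (nat_lit 4) (nat_lit 5) (nat_lit 5) (nat_lit 5) (nat_lit 4) (nat_lit 459) (nat_lit 385) (nat_lit 356)) (XT.lf (nat_lit 0) (nat_lit 25064012735) (nat_lit 76) (nat_lit 27508622843) (nat_lit 76) (nat_lit 24690718084) (nat_lit 4) (nat_lit 4) (nat_lit 5) (nat_lit 5) (nat_lit 5) (nat_lit 4) (nat_lit 460) (nat_lit 385) (nat_lit 355)))) (XT.nd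 (nat_lit 78) (nat_lit 0) (nat_lit 0) (XT.lf (nat_lit 0) (nat_lit 41722956383) (nat_lit 76) (nat_lit 21993545689) (nat_lit 76) (nat_lit 19152608647) (nat_lit 4) (nat_lit 4) (nat_lit 5) (nat_lit 5) (nat_lit 5) (nat_lit 4) (nat_lit 461) (nat_lit 385) (nat_lit 354)) (XT.nd (nat_lit 78) (nat_lit 0) (nat_lit 0) (XT.lf (nat_lit 0) (nat_lit 59540238647) (nat_lit 76) (nat_lit 16126099494) (nat_lit 76) (nat_lit 13263836263) (nat_lit 4) (nat_lit 4) (nat_lit 5) (nat_lit 5) (nat_lit 5) (nat_lit 4) (nat_lit 462) (nat_lit 385) (nat_lit 353)) (XT.lf (nat_lit 0) (nat_lit 78621443421) (nat_lit 76) (nat_lit 9871514204) (nat_lit 76) (nat_lit 6989504502) (nat_lit 4) (nat_lit 4) (nat_lit 5) (nat_lit 5) (nat_lit 5) (nat_lit 4) (nat_lit 463) (nat_lit 385) (nat_lit 352))))) (XT.nd (nat_lit 234) (nat_lit 0) (nat_lit 0) (XT.nd (nat_lit 78) (nat_lit 152) (nat_lit 0) (XT.lf (nat_lit 0) (nat_lit 99079644511) (nat_lit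 76) (nat_lit 3192725612) (nat_lit 76) (nat_lit 292432141) (nat_lit 4) (nat_lit 4) (nat_lit 5) (nat_lit 5) (nat_lit 5) (nat_lit 4) (nat_lit 464) (nat_lit 385) (nat_lit 351)) (XT.nd (nat_lit 78) (nat_lit 0) (nat_lit 0) (XT.lf (nat_lit 0) (nat_lit 6899501253) (nat_lit 152) (nat_lit 99078005576) (nat_lit 0) (nat_lit 4198368950) (nat_lit 2) (nat_lit 5) (nat_lit 4) (nat_lit 4) (nat_lit 2) (nat_lit 4) (nat_lit 465) (nat_lit 385) (nat_lit 350)) (XT.lf (nat_lit 0) (nat_lit 14762144145) (nat_lit 152) (nat_lit 91577695443) (nat_lit 0) (nat_lit 12046497596) (nat_lit 2) (nat_lit 5) (nat_lit 4) (nat_lit 4) (nat_lit 2) (nat_lit 4) (nat_lit 466) (nat_lit 385) (nat_lit 349)))) (XT.nd (nat_lit 78) (nat_lit 0) (nat_lit 0) (XT.lf (nat_lit 0) (nat_lit 23189409908) (nat_lit 152) (nat_lit 83609054254) (nat_lit 0) (nat_lit 20460324242) (nat_lit 2) (nat_lit 5) (nat_lit 4) (nat_lit 4) (nat_lit 2) (nat_lit 4) (nat_lit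 467) (nat_lit 385) (nat_lit 348)) (XT.nd (nat_lit 78) (nat_lit 0) (nat_lit 0) (XT.lf (nat_lit 0) (nat_lit 32231237893) (nat_lit 152) (nat_lit 75124860431) (nat_lit 0) (nat_lit 29489708601) (nat_lit 2) (nat_lit 5) (nat_lit 4) (nat_lit 4) (nat_lit 2) (nat_lit 4) (nat_lit 468) (nat_lit 385) (nat_lit 347)) (XT.lf (nat_lit 0) (nat_lit 41941209305) (nat_lit 152) (nat_lit 66074837269) (nat_lit 0) (nat_lit 39188158137) (nat_lit 2) (nat_lit 5) (nat_lit 4) (nat_lit 4) (nat_lit 2) (nat_lit 4) (nat_lit 469) (nat_lit 385) (nat_lit 346))))))))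
noncomputable def xc56 : XT := (XT.nd (nat_lit 1716) (nat_lit 0) (nat_lit 0) (XT.nd (nat_lit 858) (nat_lit 0) (nat_lit 0) (XT.nd (nat_lit 390) (nat_lit 76) (nat_lit 0) (XT.nd (nat_lit 156) (nat_lit 0) (nat_lit 0) (XT.nd (nat_lit 78) (nat_lit 0) (nat_lit 0) (XT.lf (nat_lit 0) (nat_lit 52376864714) (nat_lit 152) (nat_lit 56405355001) (nat_lit 0) (nat_lit 49613145142) (nat_lit 2) (nat_lit 5) (nat_lit 4) (nat_lit 4) (nat_lit 2) (nat_lit 4) (nat_lit 470) (nat_lit 385) (nat_lit 345)) (XT.lf (nat_lit 0) (nat_lit 63600045042) (nat_lit 152) (nat_lit 46059112993) (nat_lit 0) (nat_lit 60826447318) (nat_lit 2) (nat_lit 5) (nat_lit 4) (nat_lit 4) (nat_lit 2) (nat_lit 4) (nat_lit 471) (nat_lit 385) (nat_lit 344))) (XT.nd (nat_lit 78) (nat_lit 0) (nat_lit 0) (XT.lf (nat_lit 0) (nat_lit 75677258024) (nat_lit 152) (nat_lit 34974800180) (nat_lit 0) (nat_lit 72894513863) (nat_lit 2) (nat_lit 5) (nat_lit 4)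 (nat_lit 4) (nat_lit 2) (nat_lit 4) (nat_lit 472) (nat_lit 385) (nat_lit 343)) (XT.nd (nat_lit 78) (nat_lit 0) (nat_lit 0) (XT.lf (nat_lit 0) (nat_lit 88680072328) (nat_lit 152) (nat_lit 23086731745) (nat_lit 0) (nat_lit 85888859244) (nat_lit 2) (nat_lit 5) (nat_lit 4) (nat_lit 4) (nat_lit 2) (nat_lit 4) (nat_lit 473) (nat_lit 385) (nat_lit 342)) (XT.lf (nat_lit 0) (nat_lit 102685541670) (nat_lit 152) (nat_lit 10324459876) (nat_lit 0) (nat_lit 99886486991) (nat_lit 2) (nat_lit 5) (nat_lit 4) (nat_lit 4) (nat_lit 2) (nat_lit 4) (nat_lit 474) (nat_lit 385) (nat_lit 341))))) (XT.nd (nat_lit 234) (nat_lit 0) (nat_lit 0) (XT.nd (nat_lit 78) (nat_lit 0) (nat_lit 0) (XT.lf (nat_lit 0) (nat_lit 3566031018) (nat_lit 76) (nat_lit 114296393537) (nat_lit 76) (nat_lit 111490078122) (nat_lit 1) (nat_lit 4) (nat_lit 2) (nat_lit 5) (nat_lit 2) (nat_lit 4) (nat_lit 475) (nat_lit 385) (nat_lit 340)) (XT.nd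 (nat_lit 78) (nat_lit 0) (nat_lit 0) (XT.lf (nat_lit 0) (nat_lit 19085573596) (nat_lit 76) (nat_lit 115416295355) (nat_lit 76) (nat_lit 112603257035) (nat_lit 1) (nat_lit 4) (nat_lit 2) (nat_lit 5) (nat_lit 2) (nat_lit 4) (nat_lit 476) (nat_lit 385) (nat_lit 339)) (XT.lf (nat_lit 0) (nat_lit 35782467755) (nat_lit 76) (nat_lit 116658632484) (nat_lit 76) (nat_lit 113839369254) (nat_lit 1) (nat_lit 4) (nat_lit 2) (nat_lit 5) (nat_lit 2) (nat_lit 4) (nat_lit 477) (nat_lit 385) (nat_lit 338)))) (XT.nd (nat_lit 78) (nat_lit 0) (nat_lit 0) (XT.lf (nat_lit 0) (nat_lit 53755658054) (nat_lit 76) (nat_lit 118030766924) (nat_lit 76) (nat_lit 115205739886) (nat_lit 1) (nat_lit 4) (nat_lit 2) (nat_lit 5) (nat_lit 2) (nat_lit 4) (nat_lit 478) (nat_lit 385) (nat_lit 337)) (XT.nd (nat_lit 78) (nat_lit 0) (nat_lit 0) (XT.lf (nat_lit 0) (nat_lit 73111652286) (nat_lit 76) (nat_lit 119540829840) (nat_lit 76)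 (nat_lit 116710465945) (nat_lit 1) (nat_lit 4) (nat_lit 2) (nat_lit 5) (nat_lit 2) (nat_lit 4) (nat_lit 479) (nat_lit 385) (nat_lit 336)) (XT.lf (nat_lit 0) (nat_lit 93965152641) (nat_lit 76) (nat_lit 121197769755) (nat_lit 76) (nat_lit 118362464324) (nat_lit 1) (nat_lit 4) (nat_lit 2) (nat_lit 5) (nat_lit 2) (nat_lit 4) (nat_lit 480) (nat_lit 385) (nat_lit 335)))))) (XT.nd (nat_lit 390) (nat_lit 0) (nat_lit 0) (XT.nd (nat_lit 156) (nat_lit 0) (nat_lit 0) (XT.nd (nat_lit 78) (nat_lit 0) (nat_lit 0) (XT.lf (nat_lit 0) (nat_lit 116439735415) (nat_lit 76) (nat_lit 123011405570) (nat_lit 76) (nat_lit 120171524644) (nat_lit 1) (nat_lit 4) (nat_lit 2) (nat_lit 5) (nat_lit 2) (nat_lit 4) (nat_lit 481) (nat_lit 385) (nat_lit 334)) (XT.lf (nat_lit 0) (nat_lit 140668583323) (nat_lit 76) (nat_lit 124992484758) (nat_lit 76) (nat_lit 122148367262) (nat_lit 1) (nat_lit 4) (nat_lit 2) (nat_lit 5) (nat_lit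 2) (nat_lit 4) (nat_lit 482) (nat_lit 385) (nat_lit 333))) (XT.nd (nat_lit 78) (nat_lit 0) (nat_lit 0) (XT.lf (nat_lit 0) (nat_lit 166795274722) (nat_lit 76) (nat_lit 127152747048) (nat_lit 76) (nat_lit 124304706802) (nat_lit 1) (nat_lit 4) (nat_lit 2) (nat_lit 5) (nat_lit 2) (nat_lit 4) (nat_lit 483) (nat_lit 385) (nat_lit 332)) (XT.nd (nat_lit 78) (nat_lit 0) (nat_lit 0) (XT.lf (nat_lit 0) (nat_lit 194974634450) (nat_lit 76) (nat_lit 129504993992) (nat_lit 76) (nat_lit 126653321570) (nat_lit 1) (nat_lit 4) (nat_lit 2) (nat_lit 5) (nat_lit 2) (nat_lit 4) (nat_lit 484) (nat_lit 385) (nat_lit 331)) (XT.lf (nat_lit 0) (nat_lit 225373651305) (nat_lit 76) (nat_lit 132063164834) (nat_lit 76) (nat_lit 129208129286) (nat_lit 1) (nat_lit 4) (nat_lit 2) (nat_lit 5) (nat_lit 2) (nat_lit 4) (nat_lit 485) (nat_lit 385) (nat_lit 330))))) (XT.nd (nat_lit 234) (nat_lit 0) (nat_lit 0) (XT.nd (nat_lit 78)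 (nat_lit 0) (nat_lit 0) (XT.lf (nat_lit 0) (nat_lit 258172467610) (nat_lit 76) (nat_lit 134842419103) (nat_lit 76) (nat_lit 131984269550) (nat_lit 1) (nat_lit 4) (nat_lit 2) (nat_lit 5) (nat_lit 2) (nat_lit 4) (nat_lit 486) (nat_lit 385) (nat_lit 329)) (XT.nd (nat_lit 78) (nat_lit 0) (nat_lit 0) (XT.lf (nat_lit 0) (nat_lit 293565446720) (nat_lit 76) (nat_lit 137859226454) (nat_lit 76) (nat_lit 134998193562) (nat_lit 1) (nat_lit 4) (nat_lit 2) (nat_lit 5) (nat_lit 2) (nat_lit 4) (nat_lit 487) (nat_lit 385) (nat_lit 328)) (XT.lf (nat_lit 0) (nat_lit 331762324808) (nat_lit 76) (nat_lit 141131464265) (nat_lit 76) (nat_lit 138267761615) (nat_lit 1) (nat_lit 4) (nat_lit 2) (nat_lit 5) (nat_lit 2) (nat_lit 4) (nat_lit 488) (nat_lit 385) (nat_lit 327)))) (XT.nd (nat_lit 78) (nat_lit 0) (nat_lit 0) (XT.lf (nat_lit 0) (nat_lit 372989453744) (nat_lit 76) (nat_lit 144678523574) (nat_lit 76) (nat_lit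 141812348926) (nat_lit 1) (nat_lit 4) (nat_lit 2) (nat_lit 5) (nat_lit 2) (nat_lit 4) (nat_lit 489) (nat_lit 385) (nat_lit 326)) (XT.nd (nat_lit 78) (nat_lit 0) (nat_lit 0) (XT.lf (nat_lit 0) (nat_lit 417491142440) (nat_lit 76) (nat_lit 148521423991) (nat_lit 76) (nat_lit 145652960457) (nat_lit 1) (nat_lit 4) (nat_lit 2) (nat_lit 5) (nat_lit 2) (nat_lit 4) (nat_lit 490) (nat_lit 385) (nat_lit 325)) (XT.lf (nat_lit 0) (nat_lit 465531104607) (nat_lit 76) (nat_lit 152682938261) (nat_lit 76) (nat_lit 149812355388) (nat_lit 1) (nat_lit 4) (nat_lit 2) (nat_lit 5) (nat_lit 2) (nat_lit 4) (nat_lit 491) (nat_lit 385) (nat_lit 324))))))) (XT.nd (nat_lit 858) (nat_lit 0) (nat_lit 0) (XT.nd (nat_lit 390) (nat_lit 0) (nat_lit 0) (XT.nd (nat_lit 156) (nat_lit 0) (nat_lit 0) (XT.nd (nat_lit 78) (nat_lit 0) (nat_lit 0) (XT.lf (nat_lit 0) (nat_lit 517394021502) (nat_lit 76) (nat_lit 157187727209) (nat_lit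 76) (nat_lit 154315181983) (nat_lit 1) (nat_lit 4) (nat_lit 2) (nat_lit 5) (nat_lit 2) (nat_lit 4) (nat_lit 492) (nat_lit 385) (nat_lit 323)) (XT.lf (nat_lit 0) (nat_lit 573387228929) (nat_lit 76) (nat_lit 162062485879) (nat_lit 76) (nat_lit 159188123662) (nat_lit 1) (nat_lit 4) (nat_lit 2) (nat_lit 5) (nat_lit 2) (nat_lit 4) (nat_lit 493) (nat_lit 385) (nat_lit 322))) (XT.nd (nat_lit 78) (nat_lit 0) (nat_lit 0) (XT.lf (nat_lit 0) (nat_lit 633842538488) (nat_lit 76) (nat_lit 167336101732) (nat_lit 76) (nat_lit 164460057114) (nat_lit 1) (nat_lit 4) (nat_lit 2) (nat_lit 5) (nat_lit 2) (nat_lit 4) (nat_lit 494) (nat_lit 385) (nat_lit 321)) (XT.nd (nat_lit 78) (nat_lit 0) (nat_lit 0) (XT.lf (nat_lit 0) (nat_lit 699118203865) (nat_lit 76) (nat_lit 173039825823) (nat_lit 76) (nat_lit 170162223427) (nat_lit 1) (nat_lit 4) (nat_lit 2) (nat_lit 5) (nat_lit 2) (nat_lit 4) (nat_lit 495) (nat_lit 385)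 (nat_lit 320)) (XT.lf (nat_lit 0) (nat_lit 769601043818) (nat_lit 76) (nat_lit 179207457999) (nat_lit 76) (nat_lit 176328413216) (nat_lit 1) (nat_lit 4) (nat_lit 2) (nat_lit 5) (nat_lit 2) (nat_lit 4) (nat_lit 496) (nat_lit 385) (nat_lit 319))))) (XT.nd (nat_lit 234) (nat_lit 0) (nat_lit 0) (XT.nd (nat_lit 78) (nat_lit 0) (nat_lit 0) (XT.lf (nat_lit 0) (nat_lit 845708734435) (nat_lit 76) (nat_lit 185875547192) (nat_lit 76) (nat_lit 182995166866) (nat_lit 1) (nat_lit 4) (nat_lit 2) (nat_lit 5) (nat_lit 2) (nat_lit 4) (nat_lit 497) (nat_lit 385) (nat_lit 318)) (XT.nd (nat_lit 78) (nat_lit 0) (nat_lit 0) (XT.lf (nat_lit 0) (nat_lit 927892284254) (nat_lit 76) (nat_lit 193083608004) (nat_lit 76) (nat_lit 190201991063) (nat_lit 1) (nat_lit 4) (nat_lit 2) (nat_lit 5) (nat_lit 2) (nat_lit 4) (nat_lit 498) (nat_lit 385) (nat_lit 317)) (XT.lf (nat_lit 0) (nat_lit 1016638706902) (nat_lit 76) (nat_lit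 200874354870) (nat_lit 76) (nat_lit 197991592916) (nat_lit 1) (nat_lit 4) (nat_lit 2) (nat_lit 5) (nat_lit 2) (nat_lit 4) (nat_lit 499) (nat_lit 385) (nat_lit 316)))) (XT.nd (nat_lit 78) (nat_lit 0) (nat_lit 0) (XT.lf (nat_lit 0) (nat_lit 1112473907107) (nat_lit 76) (nat_lit 209293955179) (nat_lit 76) (nat_lit 206410133027) (nat_lit 1) (nat_lit 4) (nat_lit 2) (nat_lit 5) (nat_lit 2) (nat_lit 4) (nat_lit 500) (nat_lit 385) (nat_lit 315)) (XT.nd (nat_lit 78) (nat_lit 0) (nat_lit 0) (XT.lf (nat_lit 0) (nat_lit 1215965797166) (nat_lit 76) (nat_lit 218392302858) (nat_lit 76) (nat_lit 215507499042) (nat_lit 1) (nat_lit 4) (nat_lit 2) (nat_lit 5) (nat_lit 2) (nat_lit 4) (nat_lit 501) (nat_lit 385) (nat_lit 314)) (XT.lf (nat_lit 0) (nat_lit 1327727662354) (nat_lit 76) (nat_lit 228223314041) (nat_lit 76) (nat_lit 225337601277) (nat_lit 1) (nat_lit 4) (nat_lit 2) (nat_lit 5) (nat_lit 2) (nat_lit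 4) (nat_lit 502) (nat_lit 385) (nat_lit 313)))))) (XT.nd (nat_lit 468) (nat_lit 0) (nat_lit 0) (XT.nd (nat_lit 234) (nat_lit 0) (nat_lit 0) (XT.nd (nat_lit 78) (nat_lit 0) (nat_lit 0) (XT.lf (nat_lit 0) (nat_lit 1448421795205) (nat_lit 76) (nat_lit 238845246573) (nat_lit 76) (nat_lit 235958692190) (nat_lit 1) (nat_lit 4) (nat_lit 2) (nat_lit 5) (nat_lit 2) (nat_lit 4) (nat_lit 503) (nat_lit 385) (nat_lit 312)) (XT.nd (nat_lit 78) (nat_lit 0) (nat_lit 0) (XT.lf (nat_lit 0) (nat_lit 1578763420210) (nat_lit 76) (nat_lit 250321045240) (nat_lit 76) (nat_lit 247433711579) (nat_lit 1) (nat_lit 4) (nat_lit 2) (nat_lit 5) (nat_lit 2) (nat_lit 4) (nat_lit 504) (nat_lit 385) (nat_lit 311)) (XT.lf (nat_lit 0) (nat_lit 1719524932184) (nat_lit 76) (nat_lit 262718714773) (nat_lit 76) (nat_lit 259830659560) (nat_lit 1) (nat_lit 4) (nat_lit 2) (nat_lit 5) (nat_lit 2) (nat_lit 4) (nat_lit 505) (nat_lit 385)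 (nat_lit 310)))) (XT.nd (nat_lit 78) (nat_lit 0) (nat_lit 0) (XT.lf (nat_lit 0) (nat_lit 1871540473420) (nat_lit 76) (nat_lit 276111722845) (nat_lit 76) (nat_lit 273222999527) (nat_lit 1) (nat_lit 4) (nat_lit 2) (nat_lit 5) (nat_lit 2) (nat_lit 4) (nat_lit 506) (nat_lit 385) (nat_lit 309)) (XT.nd (nat_lit 78) (nat_lit 0) (nat_lit 0) (XT.lf (nat_lit 0) (nat_lit 2035710876755) (nat_lit 76) (nat_lit 290579435428) (nat_lit 76) (nat_lit 287690093496) (nat_lit 1) (nat_lit 4) (nat_lit 2) (nat_lit 5) (nat_lit 2) (nat_lit 4) (nat_lit 507) (nat_lit 385) (nat_lit 308)) (XT.lf (nat_lit 0) (nat_lit 2213009003839) (nat_lit 76) (nat_lit 306207587117) (nat_lit 76) (nat_lit 303317672393) (nat_lit 1) (nat_lit 4) (nat_lit 2) (nat_lit 5) (nat_lit 2) (nat_lit 4) (nat_lit 508) (nat_lit 385) (nat_lit 307))))) (XT.nd (nat_lit 234) (nat_lit 0) (nat_lit 0) (XT.nd (nat_lit 78) (nat_lit 0) (nat_lit 0) (XT.lf (nat_lit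 0) (nat_lit 2404485510238) (nat_lit 76) (nat_lit 323088789180) (nat_lit 76) (nat_lit 320198344093) (nat_lit 1) (nat_lit 4) (nat_lit 2) (nat_lit 5) (nat_lit 2) (nat_lit 4) (nat_lit 509) (nat_lit 385) (nat_lit 306)) (XT.nd (nat_lit 78) (nat_lit 0) (nat_lit 0) (XT.lf (nat_lit 0) (nat_lit 2611275071548) (nat_lit 76) (nat_lit 341323078371) (nat_lit 76) (nat_lit 338432142207) (nat_lit 1) (nat_lit 4) (nat_lit 2) (nat_lit 5) (nat_lit 2) (nat_lit 4) (nat_lit 510) (nat_lit 385) (nat_lit 305)) (XT.lf (nat_lit 0) (nat_lit 2834603107390) (nat_lit 76) (nat_lit 361018509735) (nat_lit 76) (nat_lit 358127118872) (nat_lit 1) (nat_lit 4) (nat_lit 2) (nat_lit 5) (nat_lit 2) (nat_lit 4) (nat_lit 511) (nat_lit 385) (nat_lit 304)))) (XT.nd (nat_lit 78) (nat_lit 0) (nat_lit 0) (XT.lf (nat_lit 0) (nat_lit 3075793043162) (nat_lit 76) (nat_lit 382291796942) (nat_lit 76) (nat_lit 379399985059) (nat_lit 1) (nat_lit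 4) (nat_lit 2) (nat_lit 5) (nat_lit 2) (nat_lit 4) (nat_lit 512) (nat_lit 385) (nat_lit 303)) (XT.nd (nat_lit 78) (nat_lit 0) (nat_lit 0) (XT.lf (nat_lit 0) (nat_lit 3336274152557) (nat_lit 76) (nat_lit 405269003915) (nat_lit 76) (nat_lit 402376802199) (nat_lit 1) (nat_lit 4) (nat_lit 2) (nat_lit 5) (nat_lit 2) (nat_lit 4) (nat_lit 513) (nat_lit 385) (nat_lit 302)) (XT.lf (nat_lit 0) (nat_lit 3617590027335) (nat_lit 76) (nat_lit 430086291880) (nat_lit 76) (nat_lit 427193729208) (nat_lit 1) (nat_lit 4) (nat_lit 2) (nat_lit 5) (nat_lit 2) (nat_lit 4) (nat_lit 514) (nat_lit 385) (nat_lit 301))))))))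
noncomputable def xc57 : XT := (XT.nd (nat_lit 56316) (nat_lit 0) (nat_lit 304) (XT.nd (nat_lit 858) (nat_lit 0) (nat_lit 0) (XT.nd (nat_lit 390) (nat_lit 0) (nat_lit 0) (XT.nd (nat_lit 156) (nat_lit 0) (nat_lit 0) (XT.nd (nat_lit 78) (nat_lit 0) (nat_lit 0) (XT.lf (nat_lit 0) (nat_lit 3921407724531) (nat_lit 76) (nat_lit 456890726247) (nat_lit 76) (nat_lit 453997829357) (nat_lit 1) (nat_lit 4) (nat_lit 2) (nat_lit 5) (nat_lit 2) (nat_lit 4) (nat_lit 515) (nat_lit 385) (nat_lit 300)) (XT.lf (nat_lit 0) (nat_lit 4249527645315) (nat_lit 76) (nat_lit 485841148110) (nat_lit 76) (nat_lit 482947941759) (nat_lit 1) (nat_lit 4) (nat_lit 2) (nat_lit 5) (nat_lit 2) (nat_lit 4) (nat_lit 516) (nat_lit 385) (nat_lit 299))) (XT.nd (nat_lit 78) (nat_lit 0) (nat_lit 0) (XT.lf (nat_lit 0) (nat_lit 4603894204031) (nat_lit 76) (nat_lit 517109115523) (nat_lit 76) (nat_lit 514215622633) (nat_lit 1) (nat_lit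 4) (nat_lit 2) (nat_lit 5) (nat_lit 2) (nat_lit 4) (nat_lit 517) (nat_lit 385) (nat_lit 298)) (XT.nd (nat_lit 78) (nat_lit 0) (nat_lit 0) (XT.lf (nat_lit 0) (nat_lit 4986607350658) (nat_lit 76) (nat_lit 550879920146) (nat_lit 76) (nat_lit 547986161943) (nat_lit 1) (nat_lit 4) (nat_lit 2) (nat_lit 5) (nat_lit 2) (nat_lit 4) (nat_lit 518) (nat_lit 385) (nat_lit 297)) (XT.lf (nat_lit 0) (nat_lit 5399935014952) (nat_lit 76) (nat_lit 587353685265) (nat_lit 76) (nat_lit 584459681401) (nat_lit 1) (nat_lit 4) (nat_lit 2) (nat_lit 5) (nat_lit 2) (nat_lit 4) (nat_lit 519) (nat_lit 385) (nat_lit 296))))) (XT.nd (nat_lit 234) (nat_lit 0) (nat_lit 0) (XT.nd (nat_lit 78) (nat_lit 0) (nat_lit 0) (XT.lf (nat_lit 0) (nat_lit 5846326546035) (nat_lit 76) (nat_lit 626746551710) (nat_lit 76) (nat_lit 623852320383) (nat_lit 1) (nat_lit 4) (nat_lit 2) (nat_lit 5) (nat_lit 2) (nat_lit 4) (nat_lit 520) (nat_lit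 385) (nat_lit 295)) (XT.nd (nat_lit 78) (nat_lit 0) (nat_lit 0) (XT.lf (nat_lit 0) (nat_lit 6328427227056) (nat_lit 76) (nat_lit 669291958690) (nat_lit 76) (nat_lit 666397516748) (nat_lit 1) (nat_lit 4) (nat_lit 2) (nat_lit 5) (nat_lit 2) (nat_lit 4) (nat_lit 521) (nat_lit 385) (nat_lit 294)) (XT.lf (nat_lit 0) (nat_lit 6849093950937) (nat_lit 76) (nat_lit 715242027135) (nat_lit 76) (nat_lit 712347390180) (nat_lit 1) (nat_lit 4) (nat_lit 2) (nat_lit 5) (nat_lit 2) (nat_lit 4) (nat_lit 522) (nat_lit 385) (nat_lit 293)))) (XT.nd (nat_lit 78) (nat_lit 0) (nat_lit 0) (XT.lf (nat_lit 0) (nat_lit 7411412150118) (nat_lit 76) (nat_lit 764869053748) (nat_lit 76) (nat_lit 761974236225) (nat_lit 1) (nat_lit 4) (nat_lit 2) (nat_lit 5) (nat_lit 2) (nat_lit 4) (nat_lit 523) (nat_lit 385) (nat_lit 292)) (XT.nd (nat_lit 78) (nat_lit 0) (nat_lit 0) (XT.lf (nat_lit 0) (nat_lit 8018714080593) (nat_lit 76)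 (nat_lit 818467124611) (nat_lit 76) (nat_lit 815572139896) (nat_lit 1) (nat_lit 4) (nat_lit 2) (nat_lit 5) (nat_lit 2) (nat_lit 4) (nat_lit 524) (nat_lit 385) (nat_lit 291)) (XT.lf (nat_lit 0) (nat_lit 8674598568617) (nat_lit 76) (nat_lit 876353857922) (nat_lit 76) (nat_lit 873458718399) (nat_lit 1) (nat_lit 4) (nat_lit 2) (nat_lit 5) (nat_lit 2) (nat_lit 4) (nat_lit 525) (nat_lit 385) (nat_lit 290)))))) (XT.nd (nat_lit 54990) (nat_lit 0) (nat_lit 1444) (XT.nd (nat_lit 156) (nat_lit 0) (nat_lit 0) (XT.nd (nat_lit 78) (nat_lit 0) (nat_lit 0) (XT.lf (nat_lit 0) (nat_lit 9382952337082) (nat_lit 76) (nat_lit 938872286176) (nat_lit 76) (nat_lit 935977003312) (nat_lit 1) (nat_lit 4) (nat_lit 2) (nat_lit 5) (nat_lit 2) (nat_lit 4) (nat_lit 526) (nat_lit 385) (nat_lit 289)) (XT.lf (nat_lit 0) (nat_lit 10147973037949) (nat_lit 76) (nat_lit 1006392888946) (nat_lit 76) (nat_lit 1003497473360) (nat_lit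 1) (nat_lit 4) (nat_lit 2) (nat_lit 5) (nat_lit 2) (nat_lit 4) (nat_lit 527) (nat_lit 385) (nat_lit 288))) (XT.nd (nat_lit 54678) (nat_lit 0) (nat_lit 1900) (XT.lf (nat_lit 0) (nat_lit 10974194127224) (nat_lit 76) (nat_lit 1079315788324) (nat_lit 76) (nat_lit 1076420249846) (nat_lit 1) (nat_lit 4) (nat_lit 2) (nat_lit 5) (nat_lit 2) (nat_lit 4) (nat_lit 528) (nat_lit 385) (nat_lit 287)) (XT.nd (nat_lit 78) (nat_lit 152) (nat_lit 0) (XT.lf (nat_lit 0) (nat_lit 1870903569) (nat_lit 76) (nat_lit 2230070369) (nat_lit 76) (nat_lit 2230070369) (nat_lit 28) (nat_lit 4) (nat_lit 29) (nat_lit 5) (nat_lit 29) (nat_lit 4) (nat_lit 428) (nat_lit 386) (nat_lit 386)) (XT.lf (nat_lit 0) (nat_lit 1116472315) (nat_lit 152) (nat_lit 11386799581) (nat_lit 0) (nat_lit 687489680) (nat_lit 26) (nat_lit 5) (nat_lit 28) (nat_lit 4) (nat_lit 26) (nat_lit 4) (nat_lit 429) (nat_lit 386) (nat_lit 385))))) (XT.nd (nat_lit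 234) (nat_lit 228) (nat_lit 0) (XT.nd (nat_lit 78) (nat_lit 228) (nat_lit 0) (XT.lf (nat_lit 0) (nat_lit 6946340606) (nat_lit 152) (nat_lit 682174628) (nat_lit 0) (nat_lit 6120151827) (nat_lit 26) (nat_lit 5) (nat_lit 28) (nat_lit 4) (nat_lit 26) (nat_lit 4) (nat_lit 430) (nat_lit 386) (nat_lit 384)) (XT.nd (nat_lit 78) (nat_lit 152) (nat_lit 0) (XT.lf (nat_lit 0) (nat_lit 10871375922) (nat_lit 76) (nat_lit 2338244619) (nat_lit 76) (nat_lit 1144272374) (nat_lit 25) (nat_lit 4) (nat_lit 26) (nat_lit 5) (nat_lit 26) (nat_lit 4) (nat_lit 431) (nat_lit 386) (nat_lit 383)) (XT.lf (nat_lit 0) (nat_lit 4722880451) (nat_lit 152) (nat_lit 6972716422) (nat_lit 0) (nat_lit 3302035552) (nat_lit 23) (nat_lit 5) (nat_lit 25) (nat_lit 4) (nat_lit 23) (nat_lit 4) (nat_lit 432) (nat_lit 386) (nat_lit 382)))) (XT.nd (nat_lit 78) (nat_lit 152) (nat_lit 0) (XT.lf (nat_lit 0) (nat_lit 4544705881) (nat_lit 76)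 (nat_lit 6430221428) (nat_lit 76) (nat_lit 4717418156) (nat_lit 22) (nat_lit 4) (nat_lit 23) (nat_lit 5) (nat_lit 23) (nat_lit 4) (nat_lit 433) (nat_lit 386) (nat_lit 381)) (XT.nd (nat_lit 78) (nat_lit 0) (nat_lit 0) (XT.lf (nat_lit 0) (nat_lit 379147568) (nat_lit 76) (nat_lit 756565252) (nat_lit 152) (nat_lit 15311247855) (nat_lit 20) (nat_lit 5) (nat_lit 21) (nat_lit 5) (nat_lit 22) (nat_lit 4) (nat_lit 434) (nat_lit 386) (nat_lit 380)) (XT.lf (nat_lit 0) (nat_lit 7356949687) (nat_lit 152) (nat_lit 4593899313) (nat_lit 0) (nat_lit 5288947515) (nat_lit 20) (nat_lit 5) (nat_lit 22) (nat_lit 4) (nat_lit 20) (nat_lit 4) (nat_lit 435) (nat_lit 386) (nat_lit 379))))))) (XT.nd (nat_lit 858) (nat_lit 456) (nat_lit 0) (XT.nd (nat_lit 390) (nat_lit 304) (nat_lit 0) (XT.nd (nat_lit 156) (nat_lit 152) (nat_lit 0) (XT.nd (nat_lit 78) (nat_lit 152) (nat_lit 0) (XT.lf (nat_lit 0) (nat_lit 7643240596)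 (nat_lit 76) (nat_lit 6370220920) (nat_lit 76) (nat_lit 4087620627) (nat_lit 19) (nat_lit 4) (nat_lit 20) (nat_lit 5) (nat_lit 20) (nat_lit 4) (nat_lit 436) (nat_lit 386) (nat_lit 378)) (XT.lf (nat_lit 0) (nat_lit 1605979668) (nat_lit 76) (nat_lit 359059718) (nat_lit 152) (nat_lit 17069884333) (nat_lit 17) (nat_lit 5) (nat_lit 18) (nat_lit 5) (nat_lit 19) (nat_lit 4) (nat_lit 437) (nat_lit 386) (nat_lit 377))) (XT.nd (nat_lit 78) (nat_lit 152) (nat_lit 0) (XT.lf (nat_lit 0) (nat_lit 8458404928) (nat_lit 152) (nat_lit 5571862592) (nat_lit 0) (nat_lit 5990547933) (nat_lit 17) (nat_lit 5) (nat_lit 19) (nat_lit 4) (nat_lit 17) (nat_lit 4) (nat_lit 438) (nat_lit 386) (nat_lit 376)) (XT.nd (nat_lit 78) (nat_lit 76) (nat_lit 0) (XT.lf (nat_lit 0) (nat_lit 7098225779) (nat_lit 76) (nat_lit 8309042403) (nat_lit 76) (nat_lit 5683449383) (nat_lit 16) (nat_lit 4) (nat_lit 17) (nat_lit 5) (nat_lit 17)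 (nat_lit 4) (nat_lit 439) (nat_lit 386) (nat_lit 375)) (XT.lf (nat_lit 0) (nat_lit 545424530) (nat_lit 152) (nat_lit 1637161872) (nat_lit 76) (nat_lit 20069330401) (nat_lit 15) (nat_lit 5) (nat_lit 17) (nat_lit 5) (nat_lit 16) (nat_lit 4) (nat_lit 440) (nat_lit 386) (nat_lit 374))))) (XT.nd (nat_lit 234) (nat_lit 152) (nat_lit 0) (XT.nd (nat_lit 78) (nat_lit 76) (nat_lit 0) (XT.lf (nat_lit 0) (nat_lit 7133986735) (nat_lit 152) (nat_lit 11904324891) (nat_lit 0) (nat_lit 4442432928) (nat_lit 14) (nat_lit 5) (nat_lit 16) (nat_lit 4) (nat_lit 14) (nat_lit 4) (nat_lit 441) (nat_lit 386) (nat_lit 373)) (XT.nd (nat_lit 78) (nat_lit 0) (nat_lit 0) (XT.lf (nat_lit 0) (nat_lit 663934324) (nat_lit 76) (nat_lit 13479956891) (nat_lit 76) (nat_lit 10672462397) (nat_lit 13) (nat_lit 4) (nat_lit 14) (nat_lit 5) (nat_lit 14) (nat_lit 4) (nat_lit 442) (nat_lit 386) (nat_lit 372)) (XT.lf (nat_lit 0) (nat_lit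 14478666189) (nat_lit 76) (nat_lit 7343211752) (nat_lit 76) (nat_lit 4428364770) (nat_lit 13) (nat_lit 4) (nat_lit 14) (nat_lit 5) (nat_lit 14) (nat_lit 4) (nat_lit 443) (nat_lit 386) (nat_lit 371)))) (XT.nd (nat_lit 78) (nat_lit 0) (nat_lit 0) (XT.lf (nat_lit 0) (nat_lit 1188895344) (nat_lit 76) (nat_lit 831846375) (nat_lit 152) (nat_lit 25787955110) (nat_lit 11) (nat_lit 5) (nat_lit 12) (nat_lit 5) (nat_lit 13) (nat_lit 4) (nat_lit 444) (nat_lit 386) (nat_lit 370)) (XT.nd (nat_lit 78) (nat_lit 0) (nat_lit 0) (XT.lf (nat_lit 0) (nat_lit 9019339039) (nat_lit 152) (nat_lit 14298323910) (nat_lit 0) (nat_lit 6143149327) (nat_lit 11) (nat_lit 5) (nat_lit 13) (nat_lit 4) (nat_lit 11) (nat_lit 4) (nat_lit 445) (nat_lit 386) (nat_lit 369)) (XT.lf (nat_lit 0) (nat_lit 16408201772) (nat_lit 152) (nat_lit 1397370863) (nat_lit 0) (nat_lit 13453104776) (nat_lit 11) (nat_lit 5) (nat_lit 13) (nat_lit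 4) (nat_lit 11) (nat_lit 4) (nat_lit 446) (nat_lit 386) (nat_lit 368)))))) (XT.nd (nat_lit 468) (nat_lit 152) (nat_lit 0) (XT.nd (nat_lit 234) (nat_lit 76) (nat_lit 0) (XT.nd (nat_lit 78) (nat_lit 152) (nat_lit 0) (XT.lf (nat_lit 0) (nat_lit 12820865278) (nat_lit 76) (nat_lit 11698586686) (nat_lit 76) (nat_lit 8670427391) (nat_lit 10) (nat_lit 4) (nat_lit 11) (nat_lit 5) (nat_lit 11) (nat_lit 4) (nat_lit 447) (nat_lit 386) (nat_lit 367)) (XT.nd (nat_lit 78) (nat_lit 152) (nat_lit 0) (XT.lf (nat_lit 0) (nat_lit 27908901598) (nat_lit 76) (nat_lit 5236610874) (nat_lit 76) (nat_lit 2140801302) (nat_lit 10) (nat_lit 4) (nat_lit 11) (nat_lit 5) (nat_lit 11) (nat_lit 4) (nat_lit 448) (nat_lit 386) (nat_lit 366)) (XT.lf (nat_lit 0) (nat_lit 4703979770) (nat_lit 152) (nat_lit 31054474631) (nat_lit 0) (nat_lit 1779490216) (nat_lit 8) (nat_lit 5) (nat_lit 10) (nat_lit 4) (nat_lit 8) (nat_lit 4) (nat_lit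 449) (nat_lit 386) (nat_lit 365)))) (XT.nd (nat_lit 78) (nat_lit 76) (nat_lit 0) (XT.lf (nat_lit 0) (nat_lit 12160448509) (nat_lit 152) (nat_lit 18608179149) (nat_lit 0) (nat_lit 9182255984) (nat_lit 8) (nat_lit 5) (nat_lit 10) (nat_lit 4) (nat_lit 8) (nat_lit 4) (nat_lit 450) (nat_lit 386) (nat_lit 364)) (XT.nd (nat_lit 78) (nat_lit 76) (nat_lit 0) (XT.lf (nat_lit 0) (nat_lit 20062321234) (nat_lit 152) (nat_lit 5472228620) (nat_lit 0) (nat_lit 17034403736) (nat_lit 8) (nat_lit 5) (nat_lit 10) (nat_lit 4) (nat_lit 8) (nat_lit 4) (nat_lit 451) (nat_lit 386) (nat_lit 363)) (XT.lf (nat_lit 0) (nat_lit 8875192710) (nat_lit 76) (nat_lit 19794679746) (nat_lit 76) (nat_lit 16720720606) (nat_lit 7) (nat_lit 4) (nat_lit 8) (nat_lit 5) (nat_lit 8) (nat_lit 4) (nat_lit 452) (nat_lit 386) (nat_lit 362))))) (XT.nd (nat_lit 234) (nat_lit 0) (nat_lit 0) (XT.nd (nat_lit 78) (nat_lit 152) (nat_lit 0) (XT.lf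 (nat_lit 0) (nat_lit 24405414046) (nat_lit 76) (nat_lit 13574035959) (nat_lit 76) (nat_lit 10457445669) (nat_lit 7) (nat_lit 4) (nat_lit 8) (nat_lit 5) (nat_lit 8) (nat_lit 4) (nat_lit 453) (nat_lit 386) (nat_lit 361)) (XT.nd (nat_lit 78) (nat_lit 152) (nat_lit 0) (XT.lf (nat_lit 0) (nat_lit 40922308469) (nat_lit 76) (nat_lit 6985375847) (nat_lit 76) (nat_lit 3829312270) (nat_lit 7) (nat_lit 4) (nat_lit 8) (nat_lit 5) (nat_lit 8) (nat_lit 4) (nat_lit 454) (nat_lit 386) (nat_lit 360)) (XT.lf (nat_lit 0) (nat_lit 3126443688) (nat_lit 152) (nat_lit 52000828257) (nat_lit 0) (nat_lit 170320617) (nat_lit 5) (nat_lit 5) (nat_lit 7) (nat_lit 4) (nat_lit 5) (nat_lit 4) (nat_lit 455) (nat_lit 386) (nat_lit 359)))) (XT.nd (nat_lit 78) (nat_lit 0) (nat_lit 0) (XT.lf (nat_lit 0) (nat_lit 10797065272) (nat_lit 152) (nat_lit 40499188134) (nat_lit 0) (nat_lit 7809607033) (nat_lit 5) (nat_lit 5) (nat_lit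 7) (nat_lit 4) (nat_lit 5) (nat_lit 4) (nat_lit 456) (nat_lit 386) (nat_lit 358)) (XT.nd (nat_lit 78) (nat_lit 0) (nat_lit 0) (XT.lf (nat_lit 0) (nat_lit 18970666277) (nat_lit 152) (nat_lit 28302787020) (nat_lit 0) (nat_lit 15954193994) (nat_lit 5) (nat_lit 5) (nat_lit 7) (nat_lit 4) (nat_lit 5) (nat_lit 4) (nat_lit 457) (nat_lit 386) (nat_lit 357)) (XT.lf (nat_lit 0) (nat_lit 27695682859) (nat_lit 152) (nat_lit 15339349946) (nat_lit 0) (nat_lit 24652345719) (nat_lit 5) (nat_lit 5) (nat_lit 7) (nat_lit 4) (nat_lit 5) (nat_lit 4) (nat_lit 458) (nat_lit 386) (nat_lit 356))))))))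
noncomputable def xc58 : XT := (XT.nd (nat_lit 1716) (nat_lit 0) (nat_lit 0) (XT.nd (nat_lit 858) (nat_lit 76) (nat_lit 0) (XT.nd (nat_lit 390) (nat_lit 152) (nat_lit 0) (XT.nd (nat_lit 156) (nat_lit 0) (nat_lit 0) (XT.nd (nat_lit 78) (nat_lit 76) (nat_lit 0) (XT.lf (nat_lit 0) (nat_lit 37023818818) (nat_lit 152) (nat_lit 1532056543) (nat_lit 0) (nat_lit 33955606812) (nat_lit 5) (nat_lit 5) (nat_lit 7) (nat_lit 4) (nat_lit 5) (nat_lit 4) (nat_lit 459) (nat_lit 386) (nat_lit 355)) (XT.lf (nat_lit 0) (nat_lit 13896050933) (nat_lit 76) (nat_lit 33448501423) (nat_lit 76) (nat_lit 30357257133) (nat_lit 4) (nat_lit 4) (nat_lit 5) (nat_lit 5) (nat_lit 5) (nat_lit 4) (nat_lit 460) (nat_lit 386) (nat_lit 354))) (XT.nd (nat_lit 78) (nat_lit 0) (nat_lit 0) (XT.lf (nat_lit 0) (nat_lit 30471159544) (nat_lit 76) (nat_lit 27976134428) (nat_lit 76) (nat_lit 24863563950) (nat_lit 4) (nat_lit 4) (nat_lit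 5) (nat_lit 5) (nat_lit 5) (nat_lit 4) (nat_lit 461) (nat_lit 386) (nat_lit 353)) (XT.nd (nat_lit 78) (nat_lit 0) (nat_lit 0) (XT.lf (nat_lit 0) (nat_lit 48210816774) (nat_lit 76) (nat_lit 22148234676) (nat_lit 76) (nat_lit 19015917726) (nat_lit 4) (nat_lit 4) (nat_lit 5) (nat_lit 5) (nat_lit 5) (nat_lit 4) (nat_lit 462) (nat_lit 386) (nat_lit 352)) (XT.lf (nat_lit 0) (nat_lit 67220146516) (nat_lit 76) (nat_lit 15930266464) (nat_lit 76) (nat_lit 12779665745) (nat_lit 4) (nat_lit 4) (nat_lit 5) (nat_lit 5) (nat_lit 5) (nat_lit 4) (nat_lit 463) (nat_lit 386) (nat_lit 351))))) (XT.nd (nat_lit 234) (nat_lit 0) (nat_lit 0) (XT.nd (nat_lit 78) (nat_lit 152) (nat_lit 0) (XT.lf (nat_lit 0) (nat_lit 87611796651) (nat_lit 76) (nat_lit 9285382573) (nat_lit 76) (nat_lit 6117852438) (nat_lit 4) (nat_lit 4) (nat_lit 5) (nat_lit 5) (nat_lit 5) (nat_lit 4) (nat_lit 464) (nat_lit 386) (nat_lit 350)) (XT.nd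 (nat_lit 78) (nat_lit 76) (nat_lit 0) (XT.lf (nat_lit 0) (nat_lit 958525360) (nat_lit 152) (nat_lit 1189472771) (nat_lit 76) (nat_lit 108521873445) (nat_lit 3) (nat_lit 5) (nat_lit 5) (nat_lit 5) (nat_lit 4) (nat_lit 4) (nat_lit 465) (nat_lit 386) (nat_lit 349)) (XT.lf (nat_lit 0) (nat_lit 8707657409) (nat_lit 152) (nat_lit 104434951539) (nat_lit 0) (nat_lit 5746805774) (nat_lit 2) (nat_lit 5) (nat_lit 4) (nat_lit 4) (nat_lit 2) (nat_lit 4) (nat_lit 466) (nat_lit 386) (nat_lit 348)))) (XT.nd (nat_lit 78) (nat_lit 0) (nat_lit 0) (XT.lf (nat_lit 0) (nat_lit 17106260173) (nat_lit 152) (nat_lit 96524934706) (nat_lit 0) (nat_lit 14132964911) (nat_lit 2) (nat_lit 5) (nat_lit 4) (nat_lit 4) (nat_lit 2) (nat_lit 4) (nat_lit 467) (nat_lit 386) (nat_lit 347)) (XT.nd (nat_lit 78) (nat_lit 0) (nat_lit 0) (XT.lf (nat_lit 0) (nat_lit 26121548345) (nat_lit 152) (nat_lit 88095022693) (nat_lit 0) (nat_lit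 23136731207) (nat_lit 2) (nat_lit 5) (nat_lit 4) (nat_lit 4) (nat_lit 2) (nat_lit 4) (nat_lit 468) (nat_lit 386) (nat_lit 346)) (XT.lf (nat_lit 0) (nat_lit 35806945855) (nat_lit 152) (nat_lit 79095260468) (nat_lit 0) (nat_lit 32811460313) (nat_lit 2) (nat_lit 5) (nat_lit 4) (nat_lit 4) (nat_lit 2) (nat_lit 4) (nat_lit 469) (nat_lit 386) (nat_lit 345)))))) (XT.nd (nat_lit 390) (nat_lit 76) (nat_lit 0) (XT.nd (nat_lit 156) (nat_lit 0) (nat_lit 0) (XT.nd (nat_lit 78) (nat_lit 0) (nat_lit 0) (XT.lf (nat_lit 0) (nat_lit 46219847652) (nat_lit 152) (nat_lit 69472316104) (nat_lit 0) (nat_lit 43214483958) (nat_lit 2) (nat_lit 5) (nat_lit 4) (nat_lit 4) (nat_lit 2) (nat_lit 4) (nat_lit 470) (nat_lit 386) (nat_lit 344)) (XT.lf (nat_lit 0) (nat_lit 57421959819) (nat_lit 152) (nat_lit 59169164748) (nat_lit 0) (nat_lit 54407449689) (nat_lit 2) (nat_lit 5) (nat_lit 4) (nat_lit 4) (nat_lit 2) (nat_lit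 4) (nat_lit 471) (nat_lit 386) (nat_lit 343))) (XT.nd (nat_lit 78) (nat_lit 0) (nat_lit 0) (XT.lf (nat_lit 0) (nat_lit 69479665245) (nat_lit 152) (nat_lit 48124750686) (nat_lit 0) (nat_lit 66456686192) (nat_lit 2) (nat_lit 5) (nat_lit 4) (nat_lit 4) (nat_lit 2) (nat_lit 4) (nat_lit 472) (nat_lit 386) (nat_lit 342)) (XT.nd (nat_lit 78) (nat_lit 0) (nat_lit 0) (XT.lf (nat_lit 0) (nat_lit 82464416999) (nat_lit 152) (nat_lit 36273625540) (nat_lit 0) (nat_lit 79433596350) (nat_lit 2) (nat_lit 5) (nat_lit 4) (nat_lit 4) (nat_lit 2) (nat_lit 4) (nat_lit 473) (nat_lit 386) (nat_lit 341)) (XT.lf (nat_lit 0) (nat_lit 96453161756) (nat_lit 152) (nat_lit 23545560420) (nat_lit 0) (nat_lit 93415080371) (nat_lit 2) (nat_lit 5) (nat_lit 4) (nat_lit 4) (nat_lit 2) (nat_lit 4) (nat_lit 474) (nat_lit 386) (nat_lit 340))))) (XT.nd (nat_lit 234) (nat_lit 0) (nat_lit 0) (XT.nd (nat_lit 78) (nat_lit 76) (nat_lit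 0) (XT.lf (nat_lit 0) (nat_lit 111528795783) (nat_lit 152) (nat_lit 9865129755) (nat_lit 0) (nat_lit 108483991494) (nat_lit 2) (nat_lit 5) (nat_lit 4) (nat_lit 4) (nat_lit 2) (nat_lit 4) (nat_lit 475) (nat_lit 386) (nat_lit 339)) (XT.nd (nat_lit 78) (nat_lit 0) (nat_lit 0) (XT.lf (nat_lit 0) (nat_lit 5104061502) (nat_lit 76) (nat_lit 122799347470) (nat_lit 76) (nat_lit 119748318270) (nat_lit 1) (nat_lit 4) (nat_lit 2) (nat_lit 5) (nat_lit 2) (nat_lit 4) (nat_lit 476) (nat_lit 386) (nat_lit 338)) (XT.lf (nat_lit 0) (nat_lit 21772371337) (nat_lit 76) (nat_lit 124056304955) (nat_lit 76) (nat_lit 120999511948) (nat_lit 1) (nat_lit 4) (nat_lit 2) (nat_lit 5) (nat_lit 2) (nat_lit 4) (nat_lit 477) (nat_lit 386) (nat_lit 337)))) (XT.nd (nat_lit 78) (nat_lit 0) (nat_lit 0) (XT.lf (nat_lit 0) (nat_lit 39719094670) (nat_lit 76) (nat_lit 125441976761) (nat_lit 76) (nat_lit 122379846896) (nat_lit 1)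 (nat_lit 4) (nat_lit 2) (nat_lit 5) (nat_lit 2) (nat_lit 4) (nat_lit 478) (nat_lit 386) (nat_lit 336)) (XT.nd (nat_lit 78) (nat_lit 0) (nat_lit 0) (XT.lf (nat_lit 0) (nat_lit 59050582452) (nat_lit 76) (nat_lit 126964574276) (nat_lit 76) (nat_lit 123897502876) (nat_lit 1) (nat_lit 4) (nat_lit 2) (nat_lit 5) (nat_lit 2) (nat_lit 4) (nat_lit 479) (nat_lit 386) (nat_lit 335)) (XT.lf (nat_lit 0) (nat_lit 79881391649) (nat_lit 76) (nat_lit 128633120300) (nat_lit 76) (nat_lit 125561473404) (nat_lit 1) (nat_lit 4) (nat_lit 2) (nat_lit 5) (nat_lit 2) (nat_lit 4) (nat_lit 480) (nat_lit 386) (nat_lit 334))))))) (XT.nd (nat_lit 858) (nat_lit 0) (nat_lit 0) (XT.nd (nat_lit 390) (nat_lit 0) (nat_lit 0) (XT.nd (nat_lit 156) (nat_lit 0) (nat_lit 0) (XT.nd (nat_lit 78) (nat_lit 0) (nat_lit 0) (XT.lf (nat_lit 0) (nat_lit 102334964092) (nat_lit 76) (nat_lit 130457502513) (nat_lit 76) (nat_lit 127381619048)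 (nat_lit 1) (nat_lit 4) (nat_lit 2) (nat_lit 5) (nat_lit 2) (nat_lit 4) (nat_lit 481) (nat_lit 386) (nat_lit 333)) (XT.lf (nat_lit 0) (nat_lit 126544357990) (nat_lit 76) (nat_lit 132448532070) (nat_lit 76) (nat_lit 129368725854) (nat_lit 1) (nat_lit 4) (nat_lit 2) (nat_lit 5) (nat_lit 2) (nat_lit 4) (nat_lit 482) (nat_lit 386) (nat_lit 332))) (XT.nd (nat_lit 78) (nat_lit 0) (nat_lit 0) (XT.lf (nat_lit 0) (nat_lit 152653036416) (nat_lit 76) (nat_lit 134618007663) (nat_lit 76) (nat_lit 131534569271) (nat_lit 1) (nat_lit 4) (nat_lit 2) (nat_lit 5) (nat_lit 2) (nat_lit 4) (nat_lit 483) (nat_lit 386) (nat_lit 331)) (XT.nd (nat_lit 78) (nat_lit 0) (nat_lit 0) (XT.lf (nat_lit 0) (nat_lit 180815717466) (nat_lit 76) (nat_lit 136978785445) (nat_lit 76) (nat_lit 133891983927) (nat_lit 1) (nat_lit 4) (nat_lit 2) (nat_lit 5) (nat_lit 2) (nat_lit 4) (nat_lit 484) (nat_lit 386) (nat_lit 330)) (XT.lf (nat_lit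 0) (nat_lit 211199291100) (nat_lit 76) (nat_lit 139544855209) (nat_lit 76) (nat_lit 136454939687) (nat_lit 1) (nat_lit 4) (nat_lit 2) (nat_lit 5) (nat_lit 2) (nat_lit 4) (nat_lit 485) (nat_lit 386) (nat_lit 329))))) (XT.nd (nat_lit 234) (nat_lit 0) (nat_lit 0) (XT.nd (nat_lit 78) (nat_lit 0) (nat_lit 0) (XT.lf (nat_lit 0) (nat_lit 243983808127) (nat_lit 76) (nat_lit 142331423296) (nat_lit 76) (nat_lit 139238624435) (nat_lit 1) (nat_lit 4) (nat_lit 2) (nat_lit 5) (nat_lit 2) (nat_lit 4) (nat_lit 486) (nat_lit 386) (nat_lit 328)) (XT.nd (nat_lit 78) (nat_lit 0) (nat_lit 0) (XT.lf (nat_lit 0) (nat_lit 279363547164) (nat_lit 76) (nat_lit 145355002701) (nat_lit 76) (nat_lit 142259534082) (nat_lit 1) (nat_lit 4) (nat_lit 2) (nat_lit 5) (nat_lit 2) (nat_lit 4) (nat_lit 487) (nat_lit 386) (nat_lit 327)) (XT.lf (nat_lit 0) (nat_lit 317548165925) (nat_lit 76) (nat_lit 148633510931) (nat_lit 76) (nat_lit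 145535570315) (nat_lit 1) (nat_lit 4) (nat_lit 2) (nat_lit 5) (nat_lit 2) (nat_lit 4) (nat_lit 488) (nat_lit 386) (nat_lit 326)))) (XT.nd (nat_lit 78) (nat_lit 0) (nat_lit 0) (XT.lf (nat_lit 0) (nat_lit 358763943633) (nat_lit 76) (nat_lit 152186376185) (nat_lit 76) (nat_lit 149086146681) (nat_lit 1) (nat_lit 4) (nat_lit 2) (nat_lit 5) (nat_lit 2) (nat_lit 4) (nat_lit 489) (nat_lit 386) (nat_lit 325)) (XT.nd (nat_lit 78) (nat_lit 0) (nat_lit 0) (XT.lf (nat_lit 0) (nat_lit 403255121933) (nat_lit 76) (nat_lit 156034652477) (nat_lit 76) (nat_lit 152932303633) (nat_lit 1) (nat_lit 4) (nat_lit 2) (nat_lit 5) (nat_lit 2) (nat_lit 4) (nat_lit 490) (nat_lit 386) (nat_lit 324)) (XT.lf (nat_lit 0) (nat_lit 451285352251) (nat_lit 76) (nat_lit 160201144408) (nat_lit 76) (nat_lit 157096833213) (nat_lit 1) (nat_lit 4) (nat_lit 2) (nat_lit 5) (nat_lit 2) (nat_lit 4) (nat_lit 491) (nat_lit 386) (nat_lit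 323)))))) (XT.nd (nat_lit 468) (nat_lit 0) (nat_lit 0) (XT.nd (nat_lit 234) (nat_lit 0) (nat_lit 0) (XT.nd (nat_lit 78) (nat_lit 0) (nat_lit 0) (XT.lf (nat_lit 0) (nat_lit 503139258175) (nat_lit 76) (nat_lit 164710542301) (nat_lit 76) (nat_lit 161604414114) (nat_lit 1) (nat_lit 4) (nat_lit 2) (nat_lit 5) (nat_lit 2) (nat_lit 4) (nat_lit 492) (nat_lit 386) (nat_lit 322)) (XT.nd (nat_lit 78) (nat_lit 0) (nat_lit 0) (XT.lf (nat_lit 0) (nat_lit 559124122111) (nat_lit 76) (nat_lit 169589568514) (nat_lit 76) (nat_lit 166481757927) (nat_lit 1) (nat_lit 4) (nat_lit 2) (nat_lit 5) (nat_lit 2) (nat_lit 4) (nat_lit 493) (nat_lit 386) (nat_lit 321)) (XT.lf (nat_lit 0) (nat_lit 619571706215) (nat_lit 76) (nat_lit 174867135795) (nat_lit 76) (nat_lit 171757767429) (nat_lit 1) (nat_lit 4) (nat_lit 2) (nat_lit 5) (nat_lit 2) (nat_lit 4) (nat_lit 494) (nat_lit 386) (nat_lit 320)))) (XT.nd (nat_lit 78) (nat_lit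 0) (nat_lit 0) (XT.lf (nat_lit 0) (nat_lit 684840218393) (nat_lit 76) (nat_lit 180574518616) (nat_lit 76) (nat_lit 177463707863) (nat_lit 1) (nat_lit 4) (nat_lit 2) (nat_lit 5) (nat_lit 2) (nat_lit 4) (nat_lit 495) (nat_lit 386) (nat_lit 319)) (XT.nd (nat_lit 78) (nat_lit 0) (nat_lit 0) (XT.lf (nat_lit 0) (nat_lit 755316435013) (nat_lit 76) (nat_lit 186745538505) (nat_lit 76) (nat_lit 183633392209) (nat_lit 1) (nat_lit 4) (nat_lit 2) (nat_lit 5) (nat_lit 2) (nat_lit 4) (nat_lit 496) (nat_lit 386) (nat_lit 318)) (XT.lf (nat_lit 0) (nat_lit 831417992915) (nat_lit 76) (nat_lit 193416764469) (nat_lit 76) (nat_lit 190303381558) (nat_lit 1) (nat_lit 4) (nat_lit 2) (nat_lit 5) (nat_lit 2) (nat_lit 4) (nat_lit 497) (nat_lit 386) (nat_lit 317))))) (XT.nd (nat_lit 234) (nat_lit 0) (nat_lit 0) (XT.nd (nat_lit 78) (nat_lit 0) (nat_lit 0) (XT.lf (nat_lit 0) (nat_lit 913595864293) (nat_lit 76) (nat_lit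 200627729699) (nat_lit 76) (nat_lit 197513201775) (nat_lit 1) (nat_lit 4) (nat_lit 2) (nat_lit 5) (nat_lit 2) (nat_lit 4) (nat_lit 498) (nat_lit 386) (nat_lit 316)) (XT.nd (nat_lit 78) (nat_lit 0) (nat_lit 0) (XT.lf (nat_lit 0) (nat_lit 1002337029126) (nat_lit 76) (nat_lit 208421165840) (nat_lit 76) (nat_lit 205305577719) (nat_lit 1) (nat_lit 4) (nat_lit 2) (nat_lit 5) (nat_lit 2) (nat_lit 4) (nat_lit 499) (nat_lit 386) (nat_lit 315)) (XT.lf (nat_lit 0) (nat_lit 1098167360984) (nat_lit 76) (nat_lit 216843256219) (nat_lit 76) (nat_lit 213726686433) (nat_lit 1) (nat_lit 4) (nat_lit 2) (nat_lit 5) (nat_lit 2) (nat_lit 4) (nat_lit 500) (nat_lit 386) (nat_lit 314)))) (XT.nd (nat_lit 78) (nat_lit 0) (nat_lit 0) (XT.lf (nat_lit 0) (nat_lit 1201654743314) (nat_lit 76) (nat_lit 225943909518) (nat_lit 76) (nat_lit 222826430784) (nat_lit 1) (nat_lit 4) (nat_lit 2) (nat_lit 5) (nat_lit 2) (nat_lit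 4) (nat_lit 501) (nat_lit 386) (nat_lit 313)) (XT.nd (nat_lit 78) (nat_lit 0) (nat_lit 0) (XT.lf (nat_lit 0) (nat_lit 1313412434679) (nat_lit 76) (nat_lit 235777055535) (nat_lit 76) (nat_lit 232658735182) (nat_lit 1) (nat_lit 4) (nat_lit 2) (nat_lit 5) (nat_lit 2) (nat_lit 4) (nat_lit 502) (nat_lit 386) (nat_lit 312)) (XT.lf (nat_lit 0) (nat_lit 1434102702879) (nat_lit 76) (nat_lit 246400964765) (nat_lit 76) (nat_lit 243281865135) (nat_lit 1) (nat_lit 4) (nat_lit 2) (nat_lit 5) (nat_lit 2) (nat_lit 4) (nat_lit 503) (nat_lit 386) (nat_lit 311))))))))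
noncomputable def xc59 : XT := (XT.nd (nat_lit 1716) (nat_lit 0) (nat_lit 0) (XT.nd (nat_lit 858) (nat_lit 0) (nat_lit 0) (XT.nd (nat_lit 390) (nat_lit 0) (nat_lit 0) (XT.nd (nat_lit 156) (nat_lit 0) (nat_lit 0) (XT.nd (nat_lit 78) (nat_lit 0) (nat_lit 0) (XT.lf (nat_lit 0) (nat_lit 1564440749504) (nat_lit 76) (nat_lit 257878593708) (nat_lit 76) (nat_lit 254758772525) (nat_lit 1) (nat_lit 4) (nat_lit 2) (nat_lit 5) (nat_lit 2) (nat_lit 4) (nat_lit 504) (nat_lit 386) (nat_lit 310)) (XT.lf (nat_lit 0) (nat_lit 1705198948162) (nat_lit 76) (nat_lit 270277957941) (nat_lit 76) (nat_lit 267157468654) (nat_lit 1) (nat_lit 4) (nat_lit 2) (nat_lit 5) (nat_lit 2) (nat_lit 4) (nat_lit 505) (nat_lit 386) (nat_lit 309))) (XT.nd (nat_lit 78) (nat_lit 0) (nat_lit 0) (XT.lf (nat_lit 0) (nat_lit 1857211421514) (nat_lit 76) (nat_lit 283672535179) (nat_lit 76) (nat_lit 280551427277) (nat_lit 1) (nat_lit 4)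 (nat_lit 2) (nat_lit 5) (nat_lit 2) (nat_lit 4) (nat_lit 506) (nat_lit 386) (nat_lit 308)) (XT.nd (nat_lit 78) (nat_lit 0) (nat_lit 0) (XT.lf (nat_lit 0) (nat_lit 2021378984215) (nat_lit 76) (nat_lit 298141700694) (nat_lit 76) (nat_lit 295020020001) (nat_lit 1) (nat_lit 4) (nat_lit 2) (nat_lit 5) (nat_lit 2) (nat_lit 4) (nat_lit 507) (nat_lit 386) (nat_lit 307)) (XT.lf (nat_lit 0) (nat_lit 2198674481082) (nat_lit 76) (nat_lit 313771197690) (nat_lit 76) (nat_lit 310648986634) (nat_lit 1) (nat_lit 4) (nat_lit 2) (nat_lit 5) (nat_lit 2) (nat_lit 4) (nat_lit 508) (nat_lit 386) (nat_lit 306))))) (XT.nd (nat_lit 234) (nat_lit 0) (nat_lit 0) (XT.nd (nat_lit 78) (nat_lit 0) (nat_lit 0) (XT.lf (nat_lit 0) (nat_lit 2390148552096) (nat_lit 76) (nat_lit 330653645409) (nat_lit 76) (nat_lit 327530943276) (nat_lit 1) (nat_lit 4) (nat_lit 2) (nat_lit 5) (nat_lit 2) (nat_lit 4) (nat_lit 509) (nat_lit 386)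 (nat_lit 305)) (XT.nd (nat_lit 78) (nat_lit 0) (nat_lit 0) (XT.lf (nat_lit 0) (nat_lit 2596935858419) (nat_lit 76) (nat_lit 348889087983) (nat_lit 76) (nat_lit 345765931150) (nat_lit 1) (nat_lit 4) (nat_lit 2) (nat_lit 5) (nat_lit 2) (nat_lit 4) (nat_lit 510) (nat_lit 386) (nat_lit 304)) (XT.lf (nat_lit 0) (nat_lit 2820261806310) (nat_lit 76) (nat_lit 368585587296) (nat_lit 76) (nat_lit 365462009444) (nat_lit 1) (nat_lit 4) (nat_lit 2) (nat_lit 5) (nat_lit 2) (nat_lit 4) (nat_lit 511) (nat_lit 386) (nat_lit 303)))) (XT.nd (nat_lit 78) (nat_lit 0) (nat_lit 0) (XT.lf (nat_lit 0) (nat_lit 3061449808794) (nat_lit 76) (nat_lit 389859863344) (nat_lit 76) (nat_lit 386735895659) (nat_lit 1) (nat_lit 4) (nat_lit 2) (nat_lit 5) (nat_lit 2) (nat_lit 4) (nat_lit 512) (nat_lit 386) (nat_lit 302)) (XT.nd (nat_lit 78) (nat_lit 0) (nat_lit 0) (XT.lf (nat_lit 0) (nat_lit 3321929128108) (nat_lit 76) (nat_lit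 412837985910) (nat_lit 76) (nat_lit 409713657269) (nat_lit 1) (nat_lit 4) (nat_lit 2) (nat_lit 5) (nat_lit 2) (nat_lit 4) (nat_lit 513) (nat_lit 386) (nat_lit 301)) (XT.lf (nat_lit 0) (nat_lit 3603243345404) (nat_lit 76) (nat_lit 437656121647) (nat_lit 76) (nat_lit 434531458788) (nat_lit 1) (nat_lit 4) (nat_lit 2) (nat_lit 5) (nat_lit 2) (nat_lit 4) (nat_lit 514) (nat_lit 386) (nat_lit 300)))))) (XT.nd (nat_lit 390) (nat_lit 0) (nat_lit 0) (XT.nd (nat_lit 156) (nat_lit 0) (nat_lit 0) (XT.nd (nat_lit 78) (nat_lit 0) (nat_lit 0) (XT.lf (nat_lit 0) (nat_lit 3907059507894) (nat_lit 76) (nat_lit 464461340989) (nat_lit 76) (nat_lit 461336368668) (nat_lit 1) (nat_lit 4) (nat_lit 2) (nat_lit 5) (nat_lit 2) (nat_lit 4) (nat_lit 515) (nat_lit 386) (nat_lit 299)) (XT.lf (nat_lit 0) (nat_lit 4235178007654) (nat_lit 76) (nat_lit 493412489679) (nat_lit 76) (nat_lit 490287230819) (nat_lit 1) (nat_lit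 4) (nat_lit 2) (nat_lit 5) (nat_lit 2) (nat_lit 4) (nat_lit 516) (nat_lit 386) (nat_lit 298))) (XT.nd (nat_lit 78) (nat_lit 0) (nat_lit 0) (XT.lf (nat_lit 0) (nat_lit 4589543250607) (nat_lit 76) (nat_lit 524681130081) (nat_lit 76) (nat_lit 521555605908) (nat_lit 1) (nat_lit 4) (nat_lit 2) (nat_lit 5) (nat_lit 2) (nat_lit 4) (nat_lit 517) (nat_lit 386) (nat_lit 297)) (XT.nd (nat_lit 78) (nat_lit 0) (nat_lit 0) (XT.lf (nat_lit 0) (nat_lit 4972255178934) (nat_lit 76) (nat_lit 558452557841) (nat_lit 76) (nat_lit 555326788008) (nat_lit 1) (nat_lit 4) (nat_lit 2) (nat_lit 5) (nat_lit 2) (nat_lit 4) (nat_lit 518) (nat_lit 386) (nat_lit 296)) (XT.lf (nat_lit 0) (nat_lit 5385581715173) (nat_lit 76) (nat_lit 594926899939) (nat_lit 76) (nat_lit 591800902642) (nat_lit 1) (nat_lit 4) (nat_lit 2) (nat_lit 5) (nat_lit 2) (nat_lit 4) (nat_lit 519) (nat_lit 386) (nat_lit 295))))) (XT.nd (nat_lit 234) (nat_lit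 0) (nat_lit 0) (XT.nd (nat_lit 78) (nat_lit 0) (nat_lit 0) (XT.lf (nat_lit 0) (nat_lit 5831972201762) (nat_lit 76) (nat_lit 634320300624) (nat_lit 76) (nat_lit 631194092713) (nat_lit 1) (nat_lit 4) (nat_lit 2) (nat_lit 5) (nat_lit 2) (nat_lit 4) (nat_lit 520) (nat_lit 386) (nat_lit 294)) (XT.nd (nat_lit 78) (nat_lit 0) (nat_lit 0) (XT.lf (nat_lit 0) (nat_lit 6314071915657) (nat_lit 76) (nat_lit 676866202271) (nat_lit 76) (nat_lit 673739799347) (nat_lit 1) (nat_lit 4) (nat_lit 2) (nat_lit 5) (nat_lit 2) (nat_lit 4) (nat_lit 521) (nat_lit 386) (nat_lit 293)) (XT.lf (nat_lit 0) (nat_lit 6834737744052) (nat_lit 76) (nat_lit 722816728741) (nat_lit 76) (nat_lit 719690145249) (nat_lit 1) (nat_lit 4) (nat_lit 2) (nat_lit 5) (nat_lit 2) (nat_lit 4) (nat_lit 522) (nat_lit 386) (nat_lit 292)))) (XT.nd (nat_lit 78) (nat_lit 0) (nat_lit 0) (XT.lf (nat_lit 0) (nat_lit 7397055114079) (nat_lit 76) (nat_lit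 772444179451) (nat_lit 76) (nat_lit 769317428766) (nat_lit 1) (nat_lit 4) (nat_lit 2) (nat_lit 5) (nat_lit 2) (nat_lit 4) (nat_lit 523) (nat_lit 386) (nat_lit 291)) (XT.nd (nat_lit 78) (nat_lit 0) (nat_lit 0) (XT.lf (nat_lit 0) (nat_lit 8004356276819) (nat_lit 76) (nat_lit 826042642996) (nat_lit 76) (nat_lit 822915737503) (nat_lit 1) (nat_lit 4) (nat_lit 2) (nat_lit 5) (nat_lit 2) (nat_lit 4) (nat_lit 524) (nat_lit 386) (nat_lit 290)) (XT.lf (nat_lit 0) (nat_lit 8660240053977) (nat_lit 76) (nat_lit 883929739902) (nat_lit 76) (nat_lit 880802691069) (nat_lit 1) (nat_lit 4) (nat_lit 2) (nat_lit 5) (nat_lit 2) (nat_lit 4) (nat_lit 525) (nat_lit 386) (nat_lit 289))))))) (XT.nd (nat_lit 55302) (nat_lit 0) (nat_lit 760) (XT.nd (nat_lit 54834) (nat_lit 0) (nat_lit 1596) (XT.nd (nat_lit 156) (nat_lit 0) (nat_lit 0) (XT.nd (nat_lit 78) (nat_lit 0) (nat_lit 0) (XT.lf (nat_lit 0) (nat_lit 9368593164233)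 (nat_lit 76) (nat_lit 946448504818) (nat_lit 76) (nat_lit 943321323262) (nat_lit 1) (nat_lit 4) (nat_lit 2) (nat_lit 5) (nat_lit 2) (nat_lit 4) (nat_lit 526) (nat_lit 386) (nat_lit 288)) (XT.lf (nat_lit 0) (nat_lit 10133613255647) (nat_lit 76) (nat_lit 1013969419312) (nat_lit 76) (nat_lit 1010842114865) (nat_lit 1) (nat_lit 4) (nat_lit 2) (nat_lit 5) (nat_lit 2) (nat_lit 4) (nat_lit 527) (nat_lit 386) (nat_lit 287))) (XT.nd (nat_lit 54522) (nat_lit 0) (nat_lit 2128) (XT.lf (nat_lit 0) (nat_lit 10959833780614) (nat_lit 76) (nat_lit 1086892607323) (nat_lit 76) (nat_lit 1083765189088) (nat_lit 1) (nat_lit 4) (nat_lit 2) (nat_lit 5) (nat_lit 2) (nat_lit 4) (nat_lit 528) (nat_lit 386) (nat_lit 286)) (XT.nd (nat_lit 78) (nat_lit 152) (nat_lit 0) (XT.lf (nat_lit 0) (nat_lit 3443286585) (nat_lit 152) (nat_lit 1206004046) (nat_lit 152) (nat_lit 1206004046) (nat_lit 31) (nat_lit 4) (nat_lit 33) (nat_lit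 5) (nat_lit 33) (nat_lit 4) (nat_lit 426) (nat_lit 387) (nat_lit 387)) (XT.lf (nat_lit 0) (nat_lit 2930395204) (nat_lit 152) (nat_lit 6815103425) (nat_lit 0) (nat_lit 2430029859) (nat_lit 29) (nat_lit 5) (nat_lit 31) (nat_lit 4) (nat_lit 29) (nat_lit 4) (nat_lit 427) (nat_lit 387) (nat_lit 386))))) (XT.nd (nat_lit 234) (nat_lit 304) (nat_lit 0) (XT.nd (nat_lit 78) (nat_lit 152) (nat_lit 0) (XT.lf (nat_lit 0) (nat_lit 3465479582) (nat_lit 76) (nat_lit 5086179047) (nat_lit 76) (nat_lit 4122512456) (nat_lit 28) (nat_lit 4) (nat_lit 29) (nat_lit 5) (nat_lit 29) (nat_lit 4) (nat_lit 428) (nat_lit 387) (nat_lit 385)) (XT.nd (nat_lit 78) (nat_lit 0) (nat_lit 0) (XT.lf (nat_lit 0) (nat_lit 1233320682) (nat_lit 76) (nat_lit 29164850) (nat_lit 152) (nat_lit 11953712769) (nat_lit 26) (nat_lit 5) (nat_lit 27) (nat_lit 5) (nat_lit 28) (nat_lit 4) (nat_lit 429) (nat_lit 387) (nat_lit 384)) (XT.lf (nat_lit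 0) (nat_lit 6950097278) (nat_lit 152) (nat_lit 1542587141) (nat_lit 0) (nat_lit 5292823787) (nat_lit 26) (nat_lit 5) (nat_lit 28) (nat_lit 4) (nat_lit 26) (nat_lit 4) (nat_lit 430) (nat_lit 387) (nat_lit 383)))) (XT.nd (nat_lit 78) (nat_lit 228) (nat_lit 0) (XT.lf (nat_lit 0) (nat_lit 9707329491) (nat_lit 76) (nat_lit 3346982812) (nat_lit 76) (nat_lit 1349169075) (nat_lit 25) (nat_lit 4) (nat_lit 26) (nat_lit 5) (nat_lit 26) (nat_lit 4) (nat_lit 431) (nat_lit 387) (nat_lit 382)) (XT.nd (nat_lit 78) (nat_lit 76) (nat_lit 0) (XT.lf (nat_lit 0) (nat_lit 4332843110) (nat_lit 152) (nat_lit 8539365000) (nat_lit 0) (nat_lit 2191057202) (nat_lit 23) (nat_lit 5) (nat_lit 25) (nat_lit 4) (nat_lit 23) (nat_lit 4) (nat_lit 432) (nat_lit 387) (nat_lit 381)) (XT.lf (nat_lit 0) (nat_lit 2635275645) (nat_lit 76) (nat_lit 7774426515) (nat_lit 76) (nat_lit 5362308781) (nat_lit 22) (nat_lit 4) (nat_lit 23)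 (nat_lit 5) (nat_lit 23) (nat_lit 4) (nat_lit 433) (nat_lit 387) (nat_lit 380)))))) (XT.nd (nat_lit 468) (nat_lit 380) (nat_lit 0) (XT.nd (nat_lit 234) (nat_lit 228) (nat_lit 0) (XT.nd (nat_lit 78) (nat_lit 152) (nat_lit 0) (XT.lf (nat_lit 0) (nat_lit 385202010) (nat_lit 152) (nat_lit 1861204799) (nat_lit 76) (nat_lit 14292505590) (nat_lit 21) (nat_lit 5) (nat_lit 23) (nat_lit 5) (nat_lit 22) (nat_lit 4) (nat_lit 434) (nat_lit 387) (nat_lit 379)) (XT.nd (nat_lit 78) (nat_lit 76) (nat_lit 0) (XT.lf (nat_lit 0) (nat_lit 6394430962) (nat_lit 152) (nat_lit 7239667328) (nat_lit 0) (nat_lit 3714624526) (nat_lit 20) (nat_lit 5) (nat_lit 22) (nat_lit 4) (nat_lit 20) (nat_lit 4) (nat_lit 435) (nat_lit 387) (nat_lit 378)) (XT.lf (nat_lit 0) (nat_lit 4615707126) (nat_lit 76) (nat_lit 8244058404) (nat_lit 76) (nat_lit 5365550005) (nat_lit 19) (nat_lit 4) (nat_lit 20) (nat_lit 5) (nat_lit 20) (nat_lit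 4) (nat_lit 436) (nat_lit 387) (nat_lit 377)))) (XT.nd (nat_lit 78) (nat_lit 152) (nat_lit 0) (XT.lf (nat_lit 0) (nat_lit 594418991) (nat_lit 152) (nat_lit 1826100196) (nat_lit 76) (nat_lit 16753637189) (nat_lit 18) (nat_lit 5) (nat_lit 20) (nat_lit 5) (nat_lit 19) (nat_lit 4) (nat_lit 437) (nat_lit 387) (nat_lit 376)) (XT.nd (nat_lit 78) (nat_lit 76) (nat_lit 0) (XT.lf (nat_lit 0) (nat_lit 6873462585) (nat_lit 152) (nat_lit 9423655430) (nat_lit 0) (nat_lit 3880086099) (nat_lit 17) (nat_lit 5) (nat_lit 19) (nat_lit 4) (nat_lit 17) (nat_lit 4) (nat_lit 438) (nat_lit 387) (nat_lit 375)) (XT.lf (nat_lit 0) (nat_lit 2818061001) (nat_lit 76) (nat_lit 10792703973) (nat_lit 76) (nat_lit 7653275612) (nat_lit 16) (nat_lit 4) (nat_lit 17) (nat_lit 5) (nat_lit 17) (nat_lit 4) (nat_lit 439) (nat_lit 387) (nat_lit 374))))) (XT.nd (nat_lit 234) (nat_lit 228) (nat_lit 0) (XT.nd (nat_lit 78) (nat_lit 152)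 (nat_lit 0) (XT.lf (nat_lit 0) (nat_lit 16140666586) (nat_lit 76) (nat_lit 4784398097) (nat_lit 76) (nat_lit 1509736519) (nat_lit 16) (nat_lit 4) (nat_lit 17) (nat_lit 5) (nat_lit 17) (nat_lit 4) (nat_lit 440) (nat_lit 387) (nat_lit 373)) (XT.nd (nat_lit 78) (nat_lit 0) (nat_lit 0) (XT.lf (nat_lit 0) (nat_lit 4862965589) (nat_lit 152) (nat_lit 17111955443) (nat_lit 0) (nat_lit 1714930849) (nat_lit 14) (nat_lit 5) (nat_lit 16) (nat_lit 4) (nat_lit 14) (nat_lit 4) (nat_lit 441) (nat_lit 387) (nat_lit 372)) (XT.lf (nat_lit 0) (nat_lit 11757042001) (nat_lit 152) (nat_lit 4776037386) (nat_lit 0) (nat_lit 8501654773) (nat_lit 14) (nat_lit 5) (nat_lit 16) (nat_lit 4) (nat_lit 14) (nat_lit 4) (nat_lit 442) (nat_lit 387) (nat_lit 371)))) (XT.nd (nat_lit 78) (nat_lit 152) (nat_lit 0) (XT.lf (nat_lit 0) (nat_lit 8593109566) (nat_lit 76) (nat_lit 10623875656) (nat_lit 76) (nat_lit 7269087976) (nat_lit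 13) (nat_lit 4) (nat_lit 14) (nat_lit 5) (nat_lit 14) (nat_lit 4) (nat_lit 443) (nat_lit 387) (nat_lit 370)) (XT.nd (nat_lit 78) (nat_lit 152) (nat_lit 0) (XT.lf (nat_lit 0) (nat_lit 22929608092) (nat_lit 76) (nat_lit 4287633705) (nat_lit 76) (nat_lit 840808569) (nat_lit 13) (nat_lit 4) (nat_lit 14) (nat_lit 5) (nat_lit 14) (nat_lit 4) (nat_lit 444) (nat_lit 387) (nat_lit 369)) (XT.lf (nat_lit 0) (nat_lit 5891594428) (nat_lit 152) (nat_lit 21223672235) (nat_lit 0) (nat_lit 2621182390) (nat_lit 11) (nat_lit 5) (nat_lit 13) (nat_lit 4) (nat_lit 11) (nat_lit 4) (nat_lit 445) (nat_lit 387) (nat_lit 368))))))))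
noncomputable def xc60 : XT := (XT.nd (nat_lit 1716) (nat_lit 76) (nat_lit 0) (XT.nd (nat_lit 858) (nat_lit 228) (nat_lit 0) (XT.nd (nat_lit 390) (nat_lit 228) (nat_lit 0) (XT.nd (nat_lit 156) (nat_lit 152) (nat_lit 0) (XT.nd (nat_lit 78) (nat_lit 76) (nat_lit 0) (XT.lf (nat_lit 0) (nat_lit 13195330393) (nat_lit 152) (nat_lit 8493942628) (nat_lit 0) (nat_lit 9851856056) (nat_lit 11) (nat_lit 5) (nat_lit 13) (nat_lit 4) (nat_lit 11) (nat_lit 4) (nat_lit 446) (nat_lit 387) (nat_lit 367)) (XT.lf (nat_lit 0) (nat_lit 5183711950) (nat_lit 76) (nat_lit 15860373834) (nat_lit 76) (nat_lit 12449249218) (nat_lit 10) (nat_lit 4) (nat_lit 11) (nat_lit 5) (nat_lit 11) (nat_lit 4) (nat_lit 447) (nat_lit 387) (nat_lit 366))) (XT.nd (nat_lit 78) (nat_lit 152) (nat_lit 0) (XT.lf (nat_lit 0) (nat_lit 20117221724) (nat_lit 76) (nat_lit 9476225718) (nat_lit 76) (nat_lit 6002461957) (nat_lit 10) (nat_lit 4)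 (nat_lit 11) (nat_lit 5) (nat_lit 11) (nat_lit 4) (nat_lit 448) (nat_lit 387) (nat_lit 365)) (XT.nd (nat_lit 78) (nat_lit 76) (nat_lit 0) (XT.lf (nat_lit 0) (nat_lit 760481244) (nat_lit 152) (nat_lit 1949961981) (nat_lit 76) (nat_lit 35166531451) (nat_lit 9) (nat_lit 5) (nat_lit 11) (nat_lit 5) (nat_lit 10) (nat_lit 4) (nat_lit 449) (nat_lit 387) (nat_lit 364)) (XT.lf (nat_lit 0) (nat_lit 8028464667) (nat_lit 152) (nat_lit 27567942293) (nat_lit 0) (nat_lit 4708588796) (nat_lit 8) (nat_lit 5) (nat_lit 10) (nat_lit 4) (nat_lit 8) (nat_lit 4) (nat_lit 450) (nat_lit 387) (nat_lit 363))))) (XT.nd (nat_lit 234) (nat_lit 152) (nat_lit 0) (XT.nd (nat_lit 78) (nat_lit 76) (nat_lit 0) (XT.lf (nat_lit 0) (nat_lit 15863068201) (nat_lit 152) (nat_lit 14568231343) (nat_lit 0) (nat_lit 12497150688) (nat_lit 8) (nat_lit 5) (nat_lit 10) (nat_lit 4) (nat_lit 8) (nat_lit 4) (nat_lit 451) (nat_lit 387) (nat_lit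 362)) (XT.nd (nat_lit 78) (nat_lit 76) (nat_lit 0) (XT.lf (nat_lit 0) (nat_lit 24194884536) (nat_lit 152) (nat_lit 790930856) (nat_lit 0) (nat_lit 20786335873) (nat_lit 8) (nat_lit 5) (nat_lit 10) (nat_lit 4) (nat_lit 8) (nat_lit 4) (nat_lit 452) (nat_lit 387) (nat_lit 361)) (XT.lf (nat_lit 0) (nat_lit 14574687318) (nat_lit 76) (nat_lit 18849121661) (nat_lit 76) (nat_lit 15401099711) (nat_lit 7) (nat_lit 4) (nat_lit 8) (nat_lit 5) (nat_lit 8) (nat_lit 4) (nat_lit 453) (nat_lit 387) (nat_lit 360)))) (XT.nd (nat_lit 78) (nat_lit 152) (nat_lit 0) (XT.lf (nat_lit 0) (nat_lit 30977735310) (nat_lit 76) (nat_lit 12318169517) (nat_lit 76) (nat_lit 8833598227) (nat_lit 7) (nat_lit 4) (nat_lit 8) (nat_lit 5) (nat_lit 8) (nat_lit 4) (nat_lit 454) (nat_lit 387) (nat_lit 359)) (XT.nd (nat_lit 78) (nat_lit 152) (nat_lit 0) (XT.lf (nat_lit 0) (nat_lit 48473767350) (nat_lit 76) (nat_lit 5375882472) (nat_lit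 76) (nat_lit 1857469201) (nat_lit 7) (nat_lit 4) (nat_lit 8) (nat_lit 5) (nat_lit 8) (nat_lit 4) (nat_lit 455) (nat_lit 387) (nat_lit 358)) (XT.lf (nat_lit 0) (nat_lit 5535694270) (nat_lit 152) (nat_lit 51764008229) (nat_lit 0) (nat_lit 2248890160) (nat_lit 5) (nat_lit 5) (nat_lit 7) (nat_lit 4) (nat_lit 5) (nat_lit 4) (nat_lit 456) (nat_lit 387) (nat_lit 357)))))) (XT.nd (nat_lit 390) (nat_lit 152) (nat_lit 0) (XT.nd (nat_lit 156) (nat_lit 76) (nat_lit 0) (XT.nd (nat_lit 78) (nat_lit 0) (nat_lit 0) (XT.lf (nat_lit 0) (nat_lit 13660029648) (nat_lit 152) (nat_lit 39667932177) (nat_lit 0) (nat_lit 10346360682) (nat_lit 5) (nat_lit 5) (nat_lit 7) (nat_lit 4) (nat_lit 5) (nat_lit 4) (nat_lit 457) (nat_lit 387) (nat_lit 356)) (XT.lf (nat_lit 0) (nat_lit 22339429908) (nat_lit 152) (nat_lit 26797388678) (nat_lit 0) (nat_lit 19000886076) (nat_lit 5) (nat_lit 5) (nat_lit 7) (nat_lit 4) (nat_lit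 5) (nat_lit 4) (nat_lit 458) (nat_lit 387) (nat_lit 355))) (XT.nd (nat_lit 78) (nat_lit 76) (nat_lit 0) (XT.lf (nat_lit 0) (nat_lit 31625328533) (nat_lit 152) (nat_lit 13076107845) (nat_lit 0) (nat_lit 28263752416) (nat_lit 5) (nat_lit 5) (nat_lit 7) (nat_lit 4) (nat_lit 5) (nat_lit 4) (nat_lit 459) (nat_lit 387) (nat_lit 354)) (XT.nd (nat_lit 78) (nat_lit 0) (nat_lit 0) (XT.lf (nat_lit 0) (nat_lit 1660275310) (nat_lit 76) (nat_lit 39952407420) (nat_lit 76) (nat_lit 36569505114) (nat_lit 4) (nat_lit 4) (nat_lit 5) (nat_lit 5) (nat_lit 5) (nat_lit 4) (nat_lit 460) (nat_lit 387) (nat_lit 353)) (XT.lf (nat_lit 0) (nat_lit 18157758887) (nat_lit 76) (nat_lit 34519586868) (nat_lit 76) (nat_lit 31116938092) (nat_lit 4) (nat_lit 4) (nat_lit 5) (nat_lit 5) (nat_lit 5) (nat_lit 4) (nat_lit 461) (nat_lit 387) (nat_lit 352))))) (XT.nd (nat_lit 234) (nat_lit 152) (nat_lit 0) (XT.nd (nat_lit 78) (nat_lit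 0) (nat_lit 0) (XT.lf (nat_lit 0) (nat_lit 35825541085) (nat_lit 76) (nat_lit 28728304193) (nat_lit 76) (nat_lit 25307371647) (nat_lit 4) (nat_lit 4) (nat_lit 5) (nat_lit 5) (nat_lit 5) (nat_lit 4) (nat_lit 462) (nat_lit 387) (nat_lit 351)) (XT.nd (nat_lit 78) (nat_lit 0) (nat_lit 0) (XT.lf (nat_lit 0) (nat_lit 54768319872) (nat_lit 76) (nat_lit 22544240682) (nat_lit 76) (nat_lit 19106378720) (nat_lit 4) (nat_lit 4) (nat_lit 5) (nat_lit 5) (nat_lit 5) (nat_lit 4) (nat_lit 463) (nat_lit 387) (nat_lit 350)) (XT.lf (nat_lit 0) (nat_lit 75098348753) (nat_lit 76) (nat_lit 15930750032) (nat_lit 76) (nat_lit 12477212685) (nat_lit 4) (nat_lit 4) (nat_lit 5) (nat_lit 5) (nat_lit 5) (nat_lit 4) (nat_lit 464) (nat_lit 387) (nat_lit 349)))) (XT.nd (nat_lit 78) (nat_lit 152) (nat_lit 0) (XT.lf (nat_lit 0) (nat_lit 96936101972) (nat_lit 76) (nat_lit 8848641189) (nat_lit 76) (nat_lit 5380589596) (nat_lit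 4) (nat_lit 4) (nat_lit 5) (nat_lit 5) (nat_lit 5) (nat_lit 4) (nat_lit 465) (nat_lit 387) (nat_lit 348)) (XT.nd (nat_lit 78) (nat_lit 0) (nat_lit 0) (XT.lf (nat_lit 0) (nat_lit 964312946) (nat_lit 76) (nat_lit 1173092657) (nat_lit 152) (nat_lit 117297847032) (nat_lit 2) (nat_lit 5) (nat_lit 3) (nat_lit 5) (nat_lit 4) (nat_lit 4) (nat_lit 466) (nat_lit 387) (nat_lit 347)) (XT.lf (nat_lit 0) (nat_lit 10481255647) (nat_lit 152) (nat_lit 110586991761) (nat_lit 0) (nat_lit 7246131261) (nat_lit 2) (nat_lit 5) (nat_lit 4) (nat_lit 4) (nat_lit 2) (nat_lit 4) (nat_lit 467) (nat_lit 387) (nat_lit 346))))))) (XT.nd (nat_lit 858) (nat_lit 0) (nat_lit 0) (XT.nd (nat_lit 390) (nat_lit 76) (nat_lit 0) (XT.nd (nat_lit 156) (nat_lit 0) (nat_lit 0) (XT.nd (nat_lit 78) (nat_lit 0) (nat_lit 0) (XT.lf (nat_lit 0) (nat_lit 19471969917) (nat_lit 152) (nat_lit 102207340685) (nat_lit 0) (nat_lit 16226177128) (nat_lit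 2) (nat_lit 5) (nat_lit 4) (nat_lit 4) (nat_lit 2) (nat_lit 4) (nat_lit 468) (nat_lit 387) (nat_lit 345)) (XT.lf (nat_lit 0) (nat_lit 29134613814) (nat_lit 152) (nat_lit 93254116363) (nat_lit 0) (nat_lit 25878942874) (nat_lit 2) (nat_lit 5) (nat_lit 4) (nat_lit 4) (nat_lit 2) (nat_lit 4) (nat_lit 469) (nat_lit 387) (nat_lit 344))) (XT.nd (nat_lit 78) (nat_lit 0) (nat_lit 0) (XT.lf (nat_lit 0) (nat_lit 39526447451) (nat_lit 152) (nat_lit 83674262652) (nat_lit 0) (nat_lit 36261630073) (nat_lit 2) (nat_lit 5) (nat_lit 4) (nat_lit 4) (nat_lit 2) (nat_lit 4) (nat_lit 470) (nat_lit 387) (nat_lit 343)) (XT.nd (nat_lit 78) (nat_lit 0) (nat_lit 0) (XT.lf (nat_lit 0) (nat_lit 50709052063) (nat_lit 152) (nat_lit 73411010047) (nat_lit 0) (nat_lit 47435765763) (nat_lit 2) (nat_lit 5) (nat_lit 4) (nat_lit 4) (nat_lit 2) (nat_lit 4) (nat_lit 471) (nat_lit 387) (nat_lit 342)) (XT.lf (nat_lit 0) (nat_lit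 62748694938) (nat_lit 152) (nat_lit 62403539274) (nat_lit 0) (nat_lit 59467567042) (nat_lit 2) (nat_lit 5) (nat_lit 4) (nat_lit 4) (nat_lit 2) (nat_lit 4) (nat_lit 472) (nat_lit 387) (nat_lit 341))))) (XT.nd (nat_lit 234) (nat_lit 76) (nat_lit 0) (XT.nd (nat_lit 78) (nat_lit 0) (nat_lit 0) (XT.lf (nat_lit 0) (nat_lit 75716722107) (nat_lit 152) (nat_lit 50586620877) (nat_lit 0) (nat_lit 72428333474) (nat_lit 2) (nat_lit 5) (nat_lit 4) (nat_lit 4) (nat_lit 2) (nat_lit 4) (nat_lit 473) (nat_lit 387) (nat_lit 340)) (XT.nd (nat_lit 78) (nat_lit 0) (nat_lit 0) (XT.lf (nat_lit 0) (nat_lit 89689981138) (nat_lit 152) (nat_lit 37890228672) (nat_lit 0) (nat_lit 86394869602) (nat_lit 2) (nat_lit 5) (nat_lit 4) (nat_lit 4) (nat_lit 2) (nat_lit 4) (nat_lit 474) (nat_lit 387) (nat_lit 339)) (XT.lf (nat_lit 0) (nat_lit 104751276529) (nat_lit 152) (nat_lit 24239124780) (nat_lit 0) (nat_lit 101449940082)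 (nat_lit 2) (nat_lit 5) (nat_lit 4) (nat_lit 4) (nat_lit 2) (nat_lit 4) (nat_lit 475) (nat_lit 387) (nat_lit 338)))) (XT.nd (nat_lit 78) (nat_lit 76) (nat_lit 0) (XT.lf (nat_lit 0) (nat_lit 120989860402) (nat_lit 152) (nat_lit 9552413771) (nat_lit 0) (nat_lit 117682760148) (nat_lit 2) (nat_lit 5) (nat_lit 4) (nat_lit 4) (nat_lit 2) (nat_lit 4) (nat_lit 476) (nat_lit 387) (nat_lit 337)) (XT.nd (nat_lit 78) (nat_lit 0) (nat_lit 0) (XT.lf (nat_lit 0) (nat_lit 6586415916) (nat_lit 76) (nat_lit 132073948946) (nat_lit 76) (nat_lit 128761511834) (nat_lit 1) (nat_lit 4) (nat_lit 2) (nat_lit 5) (nat_lit 2) (nat_lit 4) (nat_lit 477) (nat_lit 387) (nat_lit 336)) (XT.lf (nat_lit 0) (nat_lit 24508632798) (nat_lit 76) (nat_lit 133472155350) (nat_lit 76) (nat_lit 130154776703) (nat_lit 1) (nat_lit 4) (nat_lit 2) (nat_lit 5) (nat_lit 2) (nat_lit 4) (nat_lit 478) (nat_lit 387) (nat_lit 335)))))) (XT.nd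 (nat_lit 468) (nat_lit 0) (nat_lit 0) (XT.nd (nat_lit 234) (nat_lit 0) (nat_lit 0) (XT.nd (nat_lit 78) (nat_lit 0) (nat_lit 0) (XT.lf (nat_lit 0) (nat_lit 43817429423) (nat_lit 76) (nat_lit 135006358974) (nat_lit 76) (nat_lit 131684404831) (nat_lit 1) (nat_lit 4) (nat_lit 2) (nat_lit 5) (nat_lit 2) (nat_lit 4) (nat_lit 479) (nat_lit 387) (nat_lit 334)) (XT.nd (nat_lit 78) (nat_lit 0) (nat_lit 0) (XT.lf (nat_lit 0) (nat_lit 64627228289) (nat_lit 76) (nat_lit 136685651396) (nat_lit 76) (nat_lit 133359460683) (nat_lit 1) (nat_lit 4) (nat_lit 2) (nat_lit 5) (nat_lit 2) (nat_lit 4) (nat_lit 480) (nat_lit 387) (nat_lit 333)) (XT.lf (nat_lit 0) (nat_lit 87061346722) (nat_lit 76) (nat_lit 138519983978) (nat_lit 76) (nat_lit 135189870515) (nat_lit 1) (nat_lit 4) (nat_lit 2) (nat_lit 5) (nat_lit 2) (nat_lit 4) (nat_lit 481) (nat_lit 387) (nat_lit 332)))) (XT.nd (nat_lit 78) (nat_lit 0) (nat_lit 0)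 (XT.lf (nat_lit 0) (nat_lit 111252727647) (nat_lit 76) (nat_lit 140520226838) (nat_lit 76) (nat_lit 137186481200) (nat_lit 1) (nat_lit 4) (nat_lit 2) (nat_lit 5) (nat_lit 2) (nat_lit 4) (nat_lit 482) (nat_lit 387) (nat_lit 331)) (XT.nd (nat_lit 78) (nat_lit 0) (nat_lit 0) (XT.lf (nat_lit 0) (nat_lit 137344727395) (nat_lit 76) (nat_lit 142698233269) (nat_lit 76) (nat_lit 139361124504) (nat_lit 1) (nat_lit 4) (nat_lit 2) (nat_lit 5) (nat_lit 2) (nat_lit 4) (nat_lit 483) (nat_lit 387) (nat_lit 330)) (XT.lf (nat_lit 0) (nat_lit 165491965224) (nat_lit 76) (nat_lit 145066909974) (nat_lit 76) (nat_lit 141726687204) (nat_lit 1) (nat_lit 4) (nat_lit 2) (nat_lit 5) (nat_lit 2) (nat_lit 4) (nat_lit 484) (nat_lit 387) (nat_lit 329))))) (XT.nd (nat_lit 234) (nat_lit 0) (nat_lit 0) (XT.nd (nat_lit 78) (nat_lit 0) (nat_lit 0) (XT.lf (nat_lit 0) (nat_lit 195861239580) (nat_lit 76) (nat_lit 147640293556)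 (nat_lit 76) (nat_lit 144297187448) (nat_lit 1) (nat_lit 4) (nat_lit 2) (nat_lit 5) (nat_lit 2) (nat_lit 4) (nat_lit 485) (nat_lit 387) (nat_lit 328)) (XT.nd (nat_lit 78) (nat_lit 0) (nat_lit 0) (XT.lf (nat_lit 0) (nat_lit 228632516533) (nat_lit 76) (nat_lit 150433633696) (nat_lit 76) (nat_lit 147087857830) (nat_lit 1) (nat_lit 4) (nat_lit 2) (nat_lit 5) (nat_lit 2) (nat_lit 4) (nat_lit 486) (nat_lit 387) (nat_lit 327)) (XT.lf (nat_lit 0) (nat_lit 263999996244) (nat_lit 76) (nat_lit 153463483521) (nat_lit 76) (nat_lit 150115235657) (nat_lit 1) (nat_lit 4) (nat_lit 2) (nat_lit 5) (nat_lit 2) (nat_lit 4) (nat_lit 487) (nat_lit 387) (nat_lit 326)))) (XT.nd (nat_lit 78) (nat_lit 0) (nat_lit 0) (XT.lf (nat_lit 0) (nat_lit 302173263778) (nat_lit 76) (nat_lit 156747797696) (nat_lit 76) (nat_lit 153397260945) (nat_lit 1) (nat_lit 4) (nat_lit 2) (nat_lit 5) (nat_lit 2) (nat_lit 4) (nat_lit 488)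 (nat_lit 387) (nat_lit 325)) (XT.nd (nat_lit 78) (nat_lit 0) (nat_lit 0) (XT.lf (nat_lit 0) (nat_lit 343378531089) (nat_lit 76) (nat_lit 160306038823) (nat_lit 76) (nat_lit 156953382733) (nat_lit 1) (nat_lit 4) (nat_lit 2) (nat_lit 5) (nat_lit 2) (nat_lit 4) (nat_lit 489) (nat_lit 387) (nat_lit 324)) (XT.lf (nat_lit 0) (nat_lit 387859977540) (nat_lit 76) (nat_lit 164159292777) (nat_lit 76) (nat_lit 160804674335) (nat_lit 1) (nat_lit 4) (nat_lit 2) (nat_lit 5) (nat_lit 2) (nat_lit 4) (nat_lit 490) (nat_lit 387) (nat_lit 323))))))))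
noncomputable def xc61 : XT := (XT.nd (nat_lit 1716) (nat_lit 0) (nat_lit 0) (XT.nd (nat_lit 858) (nat_lit 0) (nat_lit 0) (XT.nd (nat_lit 390) (nat_lit 0) (nat_lit 0) (XT.nd (nat_lit 156) (nat_lit 0) (nat_lit 0) (XT.nd (nat_lit 78) (nat_lit 0) (nat_lit 0) (XT.lf (nat_lit 0) (nat_lit 435881196887) (nat_lit 76) (nat_lit 168330393654) (nat_lit 76) (nat_lit 164973958220) (nat_lit 1) (nat_lit 4) (nat_lit 2) (nat_lit 5) (nat_lit 2) (nat_lit 4) (nat_lit 491) (nat_lit 387) (nat_lit 322)) (XT.lf (nat_lit 0) (nat_lit 487726759320) (nat_lit 76) (nat_lit 172844059090) (nat_lit 76) (nat_lit 169485941255) (nat_lit 1) (nat_lit 4) (nat_lit 2) (nat_lit 5) (nat_lit 2) (nat_lit 4) (nat_lit 492) (nat_lit 387) (nat_lit 321))) (XT.nd (nat_lit 78) (nat_lit 0) (nat_lit 0) (XT.lf (nat_lit 0) (nat_lit 543703897801) (nat_lit 76) (nat_lit 177727036731) (nat_lit 76) (nat_lit 174367361118) (nat_lit 1) (nat_lit 4) (nat_lit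 2) (nat_lit 5) (nat_lit 2) (nat_lit 4) (nat_lit 493) (nat_lit 387) (nat_lit 320)) (XT.nd (nat_lit 78) (nat_lit 0) (nat_lit 0) (XT.lf (nat_lit 0) (nat_lit 604144328705) (nat_lit 76) (nat_lit 183008262741) (nat_lit 76) (nat_lit 179647144741) (nat_lit 1) (nat_lit 4) (nat_lit 2) (nat_lit 5) (nat_lit 2) (nat_lit 4) (nat_lit 494) (nat_lit 387) (nat_lit 319)) (XT.lf (nat_lit 0) (nat_lit 669406217550) (nat_lit 76) (nat_lit 188719033275) (nat_lit 76) (nat_lit 185356579731) (nat_lit 1) (nat_lit 4) (nat_lit 2) (nat_lit 5) (nat_lit 2) (nat_lit 4) (nat_lit 495) (nat_lit 387) (nat_lit 318))))) (XT.nd (nat_lit 234) (nat_lit 0) (nat_lit 0) (XT.nd (nat_lit 78) (nat_lit 0) (nat_lit 0) (XT.lf (nat_lit 0) (nat_lit 739876301455) (nat_lit 76) (nat_lit 194893189935) (nat_lit 76) (nat_lit 191529499777) (nat_lit 1) (nat_lit 4) (nat_lit 2) (nat_lit 5) (nat_lit 2) (nat_lit 4) (nat_lit 496) (nat_lit 387) (nat_lit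 317)) (XT.nd (nat_lit 78) (nat_lit 0) (nat_lit 0) (XT.lf (nat_lit 0) (nat_lit 815972180917) (nat_lit 76) (nat_lit 201567320317) (nat_lit 76) (nat_lit 198202485146) (nat_lit 1) (nat_lit 4) (nat_lit 2) (nat_lit 5) (nat_lit 2) (nat_lit 4) (nat_lit 497) (nat_lit 387) (nat_lit 316)) (XT.lf (nat_lit 0) (nat_lit 898144794480) (nat_lit 76) (nat_lit 208780974822) (nat_lit 76) (nat_lit 205415079454) (nat_lit 1) (nat_lit 4) (nat_lit 2) (nat_lit 5) (nat_lit 2) (nat_lit 4) (nat_lit 498) (nat_lit 387) (nat_lit 315)))) (XT.nd (nat_lit 78) (nat_lit 0) (nat_lit 0) (XT.lf (nat_lit 0) (nat_lit 986881090966) (nat_lit 76) (nat_lit 216576901034) (nat_lit 76) (nat_lit 213210024001) (nat_lit 1) (nat_lit 4) (nat_lit 2) (nat_lit 5) (nat_lit 2) (nat_lit 4) (nat_lit 499) (nat_lit 387) (nat_lit 314)) (XT.nd (nat_lit 78) (nat_lit 0) (nat_lit 0) (XT.lf (nat_lit 0) (nat_lit 1082706915095) (nat_lit 76) (nat_lit 225001297033)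 (nat_lit 76) (nat_lit 221633511051) (nat_lit 1) (nat_lit 4) (nat_lit 2) (nat_lit 5) (nat_lit 2) (nat_lit 4) (nat_lit 500) (nat_lit 387) (nat_lit 313)) (XT.lf (nat_lit 0) (nat_lit 1186190123602) (nat_lit 76) (nat_lit 234104085166) (nat_lit 76) (nat_lit 230735457565) (nat_lit 1) (nat_lit 4) (nat_lit 2) (nat_lit 5) (nat_lit 2) (nat_lit 4) (nat_lit 501) (nat_lit 387) (nat_lit 312)))))) (XT.nd (nat_lit 390) (nat_lit 0) (nat_lit 0) (XT.nd (nat_lit 156) (nat_lit 0) (nat_lit 0) (XT.nd (nat_lit 78) (nat_lit 0) (nat_lit 0) (XT.lf (nat_lit 0) (nat_lit 1297943950316) (nat_lit 76) (nat_lit 243939207881) (nat_lit 76) (nat_lit 240569801003) (nat_lit 1) (nat_lit 4) (nat_lit 2) (nat_lit 5) (nat_lit 2) (nat_lit 4) (nat_lit 502) (nat_lit 387) (nat_lit 311)) (XT.lf (nat_lit 0) (nat_lit 1418630640136) (nat_lit 76) (nat_lit 254564947387) (nat_lit 76) (nat_lit 251194818957) (nat_lit 1) (nat_lit 4) (nat_lit 2)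 (nat_lit 5) (nat_lit 2) (nat_lit 4) (nat_lit 503) (nat_lit 387) (nat_lit 310))) (XT.nd (nat_lit 78) (nat_lit 0) (nat_lit 0) (XT.lf (nat_lit 0) (nat_lit 1548965373445) (nat_lit 76) (nat_lit 266044271029) (nat_lit 76) (nat_lit 262673474494) (nat_lit 1) (nat_lit 4) (nat_lit 2) (nat_lit 5) (nat_lit 2) (nat_lit 4) (nat_lit 504) (nat_lit 387) (nat_lit 309)) (XT.nd (nat_lit 78) (nat_lit 0) (nat_lit 0) (XT.lf (nat_lit 0) (nat_lit 1689720504219) (nat_lit 76) (nat_lit 278445204428) (nat_lit 76) (nat_lit 275073789279) (nat_lit 1) (nat_lit 4) (nat_lit 2) (nat_lit 5) (nat_lit 2) (nat_lit 4) (nat_lit 505) (nat_lit 387) (nat_lit 308)) (XT.lf (nat_lit 0) (nat_lit 1841730136936) (nat_lit 76) (nat_lit 291841234598) (nat_lit 76) (nat_lit 288469246657) (nat_lit 1) (nat_lit 4) (nat_lit 2) (nat_lit 5) (nat_lit 2) (nat_lit 4) (nat_lit 506) (nat_lit 387) (nat_lit 307))))) (XT.nd (nat_lit 234) (nat_lit 0) (nat_lit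 0) (XT.nd (nat_lit 78) (nat_lit 0) (nat_lit 0) (XT.lf (nat_lit 0) (nat_lit 2005895069421) (nat_lit 76) (nat_lit 306311745421) (nat_lit 76) (nat_lit 302939227117) (nat_lit 1) (nat_lit 4) (nat_lit 2) (nat_lit 5) (nat_lit 2) (nat_lit 4) (nat_lit 507) (nat_lit 387) (nat_lit 306)) (XT.nd (nat_lit 78) (nat_lit 0) (nat_lit 0) (XT.lf (nat_lit 0) (nat_lit 2183188130902) (nat_lit 76) (nat_lit 321942488072) (nat_lit 76) (nat_lit 318569478692) (nat_lit 1) (nat_lit 4) (nat_lit 2) (nat_lit 5) (nat_lit 2) (nat_lit 4) (nat_lit 508) (nat_lit 387) (nat_lit 305)) (XT.lf (nat_lit 0) (nat_lit 2374659946930) (nat_lit 76) (nat_lit 338826089174) (nat_lit 76) (nat_lit 335452625094) (nat_lit 1) (nat_lit 4) (nat_lit 2) (nat_lit 5) (nat_lit 2) (nat_lit 4) (nat_lit 509) (nat_lit 387) (nat_lit 304)))) (XT.nd (nat_lit 78) (nat_lit 0) (nat_lit 0) (XT.lf (nat_lit 0) (nat_lit 2581445165302) (nat_lit 76) (nat_lit 357062599697)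 (nat_lit 76) (nat_lit 353688714598) (nat_lit 1) (nat_lit 4) (nat_lit 2) (nat_lit 5) (nat_lit 2) (nat_lit 4) (nat_lit 510) (nat_lit 387) (nat_lit 303)) (XT.nd (nat_lit 78) (nat_lit 0) (nat_lit 0) (XT.lf (nat_lit 0) (nat_lit 2804769179905) (nat_lit 76) (nat_lit 376760087852) (nat_lit 76) (nat_lit 373385812919) (nat_lit 1) (nat_lit 4) (nat_lit 2) (nat_lit 5) (nat_lit 2) (nat_lit 4) (nat_lit 511) (nat_lit 387) (nat_lit 302)) (XT.lf (nat_lit 0) (nat_lit 3045955392308) (nat_lit 76) (nat_lit 398035279493) (nat_lit 76) (nat_lit 394660643605) (nat_lit 1) (nat_lit 4) (nat_lit 2) (nat_lit 5) (nat_lit 2) (nat_lit 4) (nat_lit 512) (nat_lit 387) (nat_lit 301))))))) (XT.nd (nat_lit 858) (nat_lit 0) (nat_lit 0) (XT.nd (nat_lit 390) (nat_lit 0) (nat_lit 0) (XT.nd (nat_lit 156) (nat_lit 0) (nat_lit 0) (XT.nd (nat_lit 78) (nat_lit 0) (nat_lit 0) (XT.lf (nat_lit 0) (nat_lit 3306433054140) (nat_lit 76) (nat_lit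 421014249831) (nat_lit 76) (nat_lit 417639279724) (nat_lit 1) (nat_lit 4) (nat_lit 2) (nat_lit 5) (nat_lit 2) (nat_lit 4) (nat_lit 513) (nat_lit 387) (nat_lit 300)) (XT.lf (nat_lit 0) (nat_lit 3587745736729) (nat_lit 76) (nat_lit 445833170542) (nat_lit 76) (nat_lit 442457890973) (nat_lit 1) (nat_lit 4) (nat_lit 2) (nat_lit 5) (nat_lit 2) (nat_lit 4) (nat_lit 514) (nat_lit 387) (nat_lit 299))) (XT.nd (nat_lit 78) (nat_lit 0) (nat_lit 0) (XT.lf (nat_lit 0) (nat_lit 3891560478196) (nat_lit 76) (nat_lit 472639116711) (nat_lit 76) (nat_lit 469263550604) (nat_lit 1) (nat_lit 4) (nat_lit 2) (nat_lit 5) (nat_lit 2) (nat_lit 4) (nat_lit 515) (nat_lit 387) (nat_lit 298)) (XT.nd (nat_lit 78) (nat_lit 0) (nat_lit 0) (XT.lf (nat_lit 0) (nat_lit 4219677662192) (nat_lit 76) (nat_lit 501590938390) (nat_lit 76) (nat_lit 498215106970) (nat_lit 1) (nat_lit 4) (nat_lit 2) (nat_lit 5) (nat_lit 2) (nat_lit 4)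 (nat_lit 516) (nat_lit 387) (nat_lit 297)) (XT.lf (nat_lit 0) (nat_lit 4574041686846) (nat_lit 76) (nat_lit 532860201929) (nat_lit 76) (nat_lit 529484124849) (nat_lit 1) (nat_lit 4) (nat_lit 2) (nat_lit 5) (nat_lit 2) (nat_lit 4) (nat_lit 517) (nat_lit 387) (nat_lit 296))))) (XT.nd (nat_lit 234) (nat_lit 0) (nat_lit 0) (XT.nd (nat_lit 78) (nat_lit 0) (nat_lit 0) (XT.lf (nat_lit 0) (nat_lit 4956752487118) (nat_lit 76) (nat_lit 566632206669) (nat_lit 76) (nat_lit 563255902125) (nat_lit 1) (nat_lit 4) (nat_lit 2) (nat_lit 5) (nat_lit 2) (nat_lit 4) (nat_lit 518) (nat_lit 387) (nat_lit 295)) (XT.nd (nat_lit 78) (nat_lit 0) (nat_lit 0) (XT.lf (nat_lit 0) (nat_lit 5370077978862) (nat_lit 76) (nat_lit 603107083007) (nat_lit 76) (nat_lit 599730567849) (nat_lit 1) (nat_lit 4) (nat_lit 2) (nat_lit 5) (nat_lit 2) (nat_lit 4) (nat_lit 519) (nat_lit 387) (nat_lit 294)) (XT.lf (nat_lit 0) (nat_lit 5816467498326)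 (nat_lit 76) (nat_lit 642500978359) (nat_lit 76) (nat_lit 639124268187) (nat_lit 1) (nat_lit 4) (nat_lit 2) (nat_lit 5) (nat_lit 2) (nat_lit 4) (nat_lit 520) (nat_lit 387) (nat_lit 293)))) (XT.nd (nat_lit 78) (nat_lit 0) (nat_lit 0) (XT.lf (nat_lit 0) (nat_lit 6298566316735) (nat_lit 76) (nat_lit 685047338031) (nat_lit 76) (nat_lit 681670447291) (nat_lit 1) (nat_lit 4) (nat_lit 2) (nat_lit 5) (nat_lit 2) (nat_lit 4) (nat_lit 521) (nat_lit 387) (nat_lit 292)) (XT.nd (nat_lit 78) (nat_lit 0) (nat_lit 0) (XT.lf (nat_lit 0) (nat_lit 6819231315976) (nat_lit 76) (nat_lit 730998288598) (nat_lit 76) (nat_lit 727621230666) (nat_lit 1) (nat_lit 4) (nat_lit 2) (nat_lit 5) (nat_lit 2) (nat_lit 4) (nat_lit 522) (nat_lit 387) (nat_lit 291)) (XT.lf (nat_lit 0) (nat_lit 7381547918268) (nat_lit 76) (nat_lit 780626131989) (nat_lit 76) (nat_lit 777248919249) (nat_lit 1) (nat_lit 4) (nat_lit 2) (nat_lit 5)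 (nat_lit 2) (nat_lit 4) (nat_lit 523) (nat_lit 387) (nat_lit 290)))))) (XT.nd (nat_lit 54756) (nat_lit 0) (nat_lit 1900) (XT.nd (nat_lit 234) (nat_lit 0) (nat_lit 0) (XT.nd (nat_lit 78) (nat_lit 0) (nat_lit 0) (XT.lf (nat_lit 0) (nat_lit 7988848370142) (nat_lit 76) (nat_lit 834224959129) (nat_lit 76) (nat_lit 830847603049) (nat_lit 1) (nat_lit 4) (nat_lit 2) (nat_lit 5) (nat_lit 2) (nat_lit 4) (nat_lit 524) (nat_lit 387) (nat_lit 289)) (XT.nd (nat_lit 78) (nat_lit 0) (nat_lit 0) (XT.lf (nat_lit 0) (nat_lit 8644731489091) (nat_lit 76) (nat_lit 892112392698) (nat_lit 76) (nat_lit 888734903894) (nat_lit 1) (nat_lit 4) (nat_lit 2) (nat_lit 5) (nat_lit 2) (nat_lit 4) (nat_lit 525) (nat_lit 387) (nat_lit 288)) (XT.lf (nat_lit 0) (nat_lit 9353083989894) (nat_lit 76) (nat_lit 954631469337) (nat_lit 76) (nat_lit 951253857642) (nat_lit 1) (nat_lit 4) (nat_lit 2) (nat_lit 5) (nat_lit 2) (nat_lit 4)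 (nat_lit 526) (nat_lit 387) (nat_lit 287)))) (XT.nd (nat_lit 78) (nat_lit 0) (nat_lit 0) (XT.lf (nat_lit 0) (nat_lit 10118103517000) (nat_lit 76) (nat_lit 1022152672465) (nat_lit 76) (nat_lit 1018774946982) (nat_lit 1) (nat_lit 4) (nat_lit 2) (nat_lit 5) (nat_lit 2) (nat_lit 4) (nat_lit 527) (nat_lit 387) (nat_lit 286)) (XT.nd (nat_lit 54366) (nat_lit 0) (nat_lit 2584) (XT.lf (nat_lit 0) (nat_lit 10944323519459) (nat_lit 76) (nat_lit 1095076127729) (nat_lit 76) (nat_lit 1091698296886) (nat_lit 1) (nat_lit 4) (nat_lit 2) (nat_lit 5) (nat_lit 2) (nat_lit 4) (nat_lit 528) (nat_lit 387) (nat_lit 285)) (XT.lf (nat_lit 0) (nat_lit 4672087832) (nat_lit 152) (nat_lit 380627166) (nat_lit 152) (nat_lit 380627166) (nat_lit 35) (nat_lit 4) (nat_lit 37) (nat_lit 5) (nat_lit 37) (nat_lit 4) (nat_lit 424) (nat_lit 388) (nat_lit 388))))) (XT.nd (nat_lit 234) (nat_lit 228) (nat_lit 0) (XT.nd (nat_lit 78)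 (nat_lit 304) (nat_lit 0) (XT.lf (nat_lit 0) (nat_lit 4336622965) (nat_lit 152) (nat_lit 3186645927) (nat_lit 0) (nat_lit 3752996827) (nat_lit 33) (nat_lit 5) (nat_lit 35) (nat_lit 4) (nat_lit 33) (nat_lit 4) (nat_lit 425) (nat_lit 388) (nat_lit 387)) (XT.nd (nat_lit 78) (nat_lit 152) (nat_lit 0) (XT.lf (nat_lit 0) (nat_lit 6633822373) (nat_lit 152) (nat_lit 3106102697) (nat_lit 152) (nat_lit 1982081985) (nat_lit 31) (nat_lit 4) (nat_lit 33) (nat_lit 5) (nat_lit 33) (nat_lit 4) (nat_lit 426) (nat_lit 388) (nat_lit 386)) (XT.lf (nat_lit 0) (nat_lit 3171251247) (nat_lit 152) (nat_lit 7361112854) (nat_lit 0) (nat_lit 1667190083) (nat_lit 29) (nat_lit 5) (nat_lit 31) (nat_lit 4) (nat_lit 29) (nat_lit 4) (nat_lit 427) (nat_lit 388) (nat_lit 385)))) (XT.nd (nat_lit 78) (nat_lit 152) (nat_lit 0) (XT.lf (nat_lit 0) (nat_lit 2634859415) (nat_lit 76) (nat_lit 6004337240) (nat_lit 76) (nat_lit 4071293440)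 (nat_lit 28) (nat_lit 4) (nat_lit 29) (nat_lit 5) (nat_lit 29) (nat_lit 4) (nat_lit 428) (nat_lit 388) (nat_lit 384)) (XT.nd (nat_lit 78) (nat_lit 0) (nat_lit 0) (XT.lf (nat_lit 0) (nat_lit 62679857) (nat_lit 76) (nat_lit 1087767161) (nat_lit 152) (nat_lit 12114851272) (nat_lit 26) (nat_lit 5) (nat_lit 27) (nat_lit 5) (nat_lit 28) (nat_lit 4) (nat_lit 429) (nat_lit 388) (nat_lit 383)) (XT.lf (nat_lit 0) (nat_lit 6681529788) (nat_lit 152) (nat_lit 2982272146) (nat_lit 0) (nat_lit 4183350706) (nat_lit 26) (nat_lit 5) (nat_lit 28) (nat_lit 4) (nat_lit 26) (nat_lit 4) (nat_lit 430) (nat_lit 388) (nat_lit 382))))))))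
noncomputable def xc62 : XT := (XT.nd (nat_lit 1716) (nat_lit 456) (nat_lit 0) (XT.nd (nat_lit 858) (nat_lit 456) (nat_lit 0) (XT.nd (nat_lit 390) (nat_lit 456) (nat_lit 0) (XT.nd (nat_lit 156) (nat_lit 228) (nat_lit 0) (XT.nd (nat_lit 78) (nat_lit 152) (nat_lit 0) (XT.lf (nat_lit 0) (nat_lit 7952642373) (nat_lit 76) (nat_lit 4669541465) (nat_lit 76) (nat_lit 1856047340) (nat_lit 25) (nat_lit 4) (nat_lit 26) (nat_lit 5) (nat_lit 26) (nat_lit 4) (nat_lit 431) (nat_lit 388) (nat_lit 381)) (XT.lf (nat_lit 0) (nat_lit 3642729575) (nat_lit 152) (nat_lit 10745655051) (nat_lit 0) (nat_lit 767310595) (nat_lit 23) (nat_lit 5) (nat_lit 25) (nat_lit 4) (nat_lit 23) (nat_lit 4) (nat_lit 432) (nat_lit 388) (nat_lit 380))) (XT.nd (nat_lit 78) (nat_lit 152) (nat_lit 0) (XT.lf (nat_lit 0) (nat_lit 71801899) (nat_lit 76) (nat_lit 9466444413) (nat_lit 76) (nat_lit 6340718186) (nat_lit 22) (nat_lit 4) (nat_lit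 23) (nat_lit 5) (nat_lit 23) (nat_lit 4) (nat_lit 433) (nat_lit 388) (nat_lit 379)) (XT.nd (nat_lit 78) (nat_lit 152) (nat_lit 0) (XT.lf (nat_lit 0) (nat_lit 11901613766) (nat_lit 76) (nat_lit 4055917463) (nat_lit 76) (nat_lit 698425266) (nat_lit 22) (nat_lit 4) (nat_lit 23) (nat_lit 5) (nat_lit 23) (nat_lit 4) (nat_lit 434) (nat_lit 388) (nat_lit 378)) (XT.lf (nat_lit 0) (nat_lit 5108711523) (nat_lit 152) (nat_lit 10576153999) (nat_lit 0) (nat_lit 1801220489) (nat_lit 20) (nat_lit 5) (nat_lit 22) (nat_lit 4) (nat_lit 20) (nat_lit 4) (nat_lit 435) (nat_lit 388) (nat_lit 377))))) (XT.nd (nat_lit 234) (nat_lit 228) (nat_lit 0) (XT.nd (nat_lit 78) (nat_lit 152) (nat_lit 0) (XT.lf (nat_lit 0) (nat_lit 879041794) (nat_lit 76) (nat_lit 10495540177) (nat_lit 76) (nat_lit 7004065844) (nat_lit 19) (nat_lit 4) (nat_lit 20) (nat_lit 5) (nat_lit 20) (nat_lit 4) (nat_lit 436) (nat_lit 388) (nat_lit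 376)) (XT.nd (nat_lit 78) (nat_lit 152) (nat_lit 0) (XT.lf (nat_lit 0) (nat_lit 13419786664) (nat_lit 76) (nat_lit 4789632208) (nat_lit 76) (nat_lit 1127802968) (nat_lit 19) (nat_lit 4) (nat_lit 20) (nat_lit 5) (nat_lit 20) (nat_lit 4) (nat_lit 437) (nat_lit 388) (nat_lit 375)) (XT.lf (nat_lit 0) (nat_lit 4935789431) (nat_lit 152) (nat_lit 14029254083) (nat_lit 0) (nat_lit 1399154927) (nat_lit 17) (nat_lit 5) (nat_lit 19) (nat_lit 4) (nat_lit 17) (nat_lit 4) (nat_lit 438) (nat_lit 388) (nat_lit 374)))) (XT.nd (nat_lit 78) (nat_lit 228) (nat_lit 0) (XT.lf (nat_lit 0) (nat_lit 11504740719) (nat_lit 152) (nat_lit 2126898071) (nat_lit 0) (nat_lit 7832872998) (nat_lit 17) (nat_lit 5) (nat_lit 19) (nat_lit 4) (nat_lit 17) (nat_lit 4) (nat_lit 439) (nat_lit 388) (nat_lit 373)) (XT.nd (nat_lit 78) (nat_lit 152) (nat_lit 0) (XT.lf (nat_lit 0) (nat_lit 10890341755) (nat_lit 76) (nat_lit 7777076126)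 (nat_lit 76) (nat_lit 3979992462) (nat_lit 16) (nat_lit 4) (nat_lit 17) (nat_lit 5) (nat_lit 17) (nat_lit 4) (nat_lit 440) (nat_lit 388) (nat_lit 372)) (XT.lf (nat_lit 0) (nat_lit 743093209) (nat_lit 76) (nat_lit 1495424847) (nat_lit 152) (nat_lit 21690923822) (nat_lit 14) (nat_lit 5) (nat_lit 15) (nat_lit 5) (nat_lit 16) (nat_lit 4) (nat_lit 441) (nat_lit 388) (nat_lit 371)))))) (XT.nd (nat_lit 390) (nat_lit 228) (nat_lit 0) (XT.nd (nat_lit 156) (nat_lit 152) (nat_lit 0) (XT.nd (nat_lit 78) (nat_lit 76) (nat_lit 0) (XT.lf (nat_lit 0) (nat_lit 9004166102) (nat_lit 152) (nat_lit 10998843827) (nat_lit 0) (nat_lit 5281594956) (nat_lit 14) (nat_lit 5) (nat_lit 16) (nat_lit 4) (nat_lit 14) (nat_lit 4) (nat_lit 442) (nat_lit 388) (nat_lit 370)) (XT.lf (nat_lit 0) (nat_lit 1862910752) (nat_lit 76) (nat_lit 14353722903) (nat_lit 76) (nat_lit 10539114301) (nat_lit 13) (nat_lit 4) (nat_lit 14) (nat_lit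 5) (nat_lit 14) (nat_lit 4) (nat_lit 443) (nat_lit 388) (nat_lit 369))) (XT.nd (nat_lit 78) (nat_lit 152) (nat_lit 0) (XT.lf (nat_lit 0) (nat_lit 16033010746) (nat_lit 76) (nat_lit 8100605164) (nat_lit 76) (nat_lit 4200776697) (nat_lit 13) (nat_lit 4) (nat_lit 14) (nat_lit 5) (nat_lit 14) (nat_lit 4) (nat_lit 444) (nat_lit 388) (nat_lit 368)) (XT.nd (nat_lit 78) (nat_lit 0) (nat_lit 0) (XT.lf (nat_lit 0) (nat_lit 952276944) (nat_lit 76) (nat_lit 1418402235) (nat_lit 152) (nat_lit 27674903554) (nat_lit 11) (nat_lit 5) (nat_lit 12) (nat_lit 5) (nat_lit 13) (nat_lit 4) (nat_lit 445) (nat_lit 388) (nat_lit 367)) (XT.lf (nat_lit 0) (nat_lit 9561481456) (nat_lit 152) (nat_lit 16488003798) (nat_lit 0) (nat_lit 5809816595) (nat_lit 11) (nat_lit 5) (nat_lit 13) (nat_lit 4) (nat_lit 11) (nat_lit 4) (nat_lit 446) (nat_lit 388) (nat_lit 366))))) (XT.nd (nat_lit 234) (nat_lit 152) (nat_lit 0) (XT.nd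 (nat_lit 78) (nat_lit 76) (nat_lit 0) (XT.lf (nat_lit 0) (nat_lit 17212585967) (nat_lit 152) (nat_lit 3216455986) (nat_lit 0) (nat_lit 13398281960) (nat_lit 11) (nat_lit 5) (nat_lit 13) (nat_lit 4) (nat_lit 11) (nat_lit 4) (nat_lit 447) (nat_lit 388) (nat_lit 365)) (XT.nd (nat_lit 78) (nat_lit 0) (nat_lit 0) (XT.lf (nat_lit 0) (nat_lit 11404600780) (nat_lit 76) (nat_lit 14204900126) (nat_lit 76) (nat_lit 10332596910) (nat_lit 10) (nat_lit 4) (nat_lit 11) (nat_lit 5) (nat_lit 11) (nat_lit 4) (nat_lit 448) (nat_lit 388) (nat_lit 364)) (XT.lf (nat_lit 0) (nat_lit 27102703049) (nat_lit 76) (nat_lit 7526635244) (nat_lit 76) (nat_lit 3600629057) (nat_lit 10) (nat_lit 4) (nat_lit 11) (nat_lit 5) (nat_lit 11) (nat_lit 4) (nat_lit 449) (nat_lit 388) (nat_lit 363)))) (XT.nd (nat_lit 78) (nat_lit 0) (nat_lit 0) (XT.lf (nat_lit 0) (nat_lit 3163793393) (nat_lit 76) (nat_lit 268670334) (nat_lit 152)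 (nat_lit 37265656007) (nat_lit 8) (nat_lit 5) (nat_lit 9) (nat_lit 5) (nat_lit 10) (nat_lit 4) (nat_lit 450) (nat_lit 388) (nat_lit 362)) (XT.nd (nat_lit 78) (nat_lit 0) (nat_lit 0) (XT.lf (nat_lit 0) (nat_lit 11198319444) (nat_lit 152) (nat_lit 24654301623) (nat_lit 0) (nat_lit 7474455738) (nat_lit 8) (nat_lit 5) (nat_lit 10) (nat_lit 4) (nat_lit 8) (nat_lit 4) (nat_lit 451) (nat_lit 388) (nat_lit 361)) (XT.lf (nat_lit 0) (nat_lit 19472463289) (nat_lit 152) (nat_lit 10993804616) (nat_lit 0) (nat_lit 15709126296) (nat_lit 8) (nat_lit 5) (nat_lit 10) (nat_lit 4) (nat_lit 8) (nat_lit 4) (nat_lit 452) (nat_lit 388) (nat_lit 360))))))) (XT.nd (nat_lit 858) (nat_lit 152) (nat_lit 0) (XT.nd (nat_lit 390) (nat_lit 76) (nat_lit 0) (XT.nd (nat_lit 156) (nat_lit 152) (nat_lit 0) (XT.nd (nat_lit 78) (nat_lit 0) (nat_lit 0) (XT.lf (nat_lit 0) (nat_lit 3720701876) (nat_lit 76) (nat_lit 24666246792)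 (nat_lit 76) (nat_lit 20866360459) (nat_lit 7) (nat_lit 4) (nat_lit 8) (nat_lit 5) (nat_lit 8) (nat_lit 4) (nat_lit 453) (nat_lit 388) (nat_lit 359)) (XT.lf (nat_lit 0) (nat_lit 20018336507) (nat_lit 76) (nat_lit 18188727951) (nat_lit 76) (nat_lit 14354999637) (nat_lit 7) (nat_lit 4) (nat_lit 8) (nat_lit 5) (nat_lit 8) (nat_lit 4) (nat_lit 454) (nat_lit 388) (nat_lit 358))) (XT.nd (nat_lit 78) (nat_lit 152) (nat_lit 0) (XT.lf (nat_lit 0) (nat_lit 37416763583) (nat_lit 76) (nat_lit 11295916187) (nat_lit 76) (nat_lit 7430852704) (nat_lit 7) (nat_lit 4) (nat_lit 8) (nat_lit 5) (nat_lit 8) (nat_lit 4) (nat_lit 455) (nat_lit 388) (nat_lit 357)) (XT.nd (nat_lit 78) (nat_lit 152) (nat_lit 0) (XT.lf (nat_lit 0) (nat_lit 56019084894) (nat_lit 76) (nat_lit 3946965207) (nat_lit 76) (nat_lit 52887680) (nat_lit 7) (nat_lit 4) (nat_lit 8) (nat_lit 5) (nat_lit 8) (nat_lit 4) (nat_lit 456) (nat_lit 388)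 (nat_lit 356)) (XT.lf (nat_lit 0) (nat_lit 7829660141) (nat_lit 152) (nat_lit 52135507584) (nat_lit 0) (nat_lit 4199157935) (nat_lit 5) (nat_lit 5) (nat_lit 7) (nat_lit 4) (nat_lit 5) (nat_lit 4) (nat_lit 457) (nat_lit 388) (nat_lit 355))))) (XT.nd (nat_lit 234) (nat_lit 76) (nat_lit 0) (XT.nd (nat_lit 78) (nat_lit 0) (nat_lit 0) (XT.lf (nat_lit 0) (nat_lit 16466823066) (nat_lit 152) (nat_lit 39350976655) (nat_lit 0) (nat_lit 12813288576) (nat_lit 5) (nat_lit 5) (nat_lit 7) (nat_lit 4) (nat_lit 5) (nat_lit 4) (nat_lit 458) (nat_lit 388) (nat_lit 354)) (XT.nd (nat_lit 78) (nat_lit 0) (nat_lit 0) (XT.lf (nat_lit 0) (nat_lit 25713613046) (nat_lit 152) (nat_lit 25709337091) (nat_lit 0) (nat_lit 22038752368) (nat_lit 5) (nat_lit 5) (nat_lit 7) (nat_lit 4) (nat_lit 5) (nat_lit 4) (nat_lit 459) (nat_lit 388) (nat_lit 353)) (XT.lf (nat_lit 0) (nat_lit 35624825876) (nat_lit 152) (nat_lit 11129749545)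 (nat_lit 0) (nat_lit 31930218726) (nat_lit 5) (nat_lit 5) (nat_lit 7) (nat_lit 4) (nat_lit 5) (nat_lit 4) (nat_lit 460) (nat_lit 388) (nat_lit 352)))) (XT.nd (nat_lit 78) (nat_lit 0) (nat_lit 0) (XT.lf (nat_lit 0) (nat_lit 4709786112) (nat_lit 76) (nat_lit 41662679023) (nat_lit 76) (nat_lit 37949788104) (nat_lit 4) (nat_lit 4) (nat_lit 5) (nat_lit 5) (nat_lit 5) (nat_lit 4) (nat_lit 461) (nat_lit 388) (nat_lit 351)) (XT.nd (nat_lit 78) (nat_lit 0) (nat_lit 0) (XT.lf (nat_lit 0) (nat_lit 22311017355) (nat_lit 76) (nat_lit 35905301049) (nat_lit 76) (nat_lit 32175480714) (nat_lit 4) (nat_lit 4) (nat_lit 5) (nat_lit 5) (nat_lit 5) (nat_lit 4) (nat_lit 462) (nat_lit 388) (nat_lit 350)) (XT.lf (nat_lit 0) (nat_lit 41192174887) (nat_lit 76) (nat_lit 29752630780) (nat_lit 76) (nat_lit 26007135059) (nat_lit 4) (nat_lit 4) (nat_lit 5) (nat_lit 5) (nat_lit 5) (nat_lit 4) (nat_lit 463) (nat_lit 388)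 (nat_lit 349)))))) (XT.nd (nat_lit 468) (nat_lit 0) (nat_lit 0) (XT.nd (nat_lit 234) (nat_lit 152) (nat_lit 0) (XT.nd (nat_lit 78) (nat_lit 0) (nat_lit 0) (XT.lf (nat_lit 0) (nat_lit 61465147051) (nat_lit 76) (nat_lit 23168207947) (nat_lit 76) (nat_lit 19408197981) (nat_lit 4) (nat_lit 4) (nat_lit 5) (nat_lit 5) (nat_lit 5) (nat_lit 4) (nat_lit 464) (nat_lit 388) (nat_lit 348)) (XT.nd (nat_lit 78) (nat_lit 0) (nat_lit 0) (XT.lf (nat_lit 0) (nat_lit 83250069976) (nat_lit 76) (nat_lit 16113013749) (nat_lit 76) (nat_lit 12339564666) (nat_lit 4) (nat_lit 4) (nat_lit 5) (nat_lit 5) (nat_lit 5) (nat_lit 4) (nat_lit 465) (nat_lit 388) (nat_lit 347)) (XT.lf (nat_lit 0) (nat_lit 106676039502) (nat_lit 76) (nat_lit 8545239627) (nat_lit 76) (nat_lit 4759346918) (nat_lit 4) (nat_lit 4) (nat_lit 5) (nat_lit 5) (nat_lit 5) (nat_lit 4) (nat_lit 466) (nat_lit 388) (nat_lit 346)))) (XT.nd (nat_lit 78) (nat_lit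 0) (nat_lit 0) (XT.lf (nat_lit 0) (nat_lit 3027560443) (nat_lit 76) (nat_lit 253677551) (nat_lit 152) (nat_lit 125630979528) (nat_lit 2) (nat_lit 5) (nat_lit 3) (nat_lit 5) (nat_lit 4) (nat_lit 4) (nat_lit 467) (nat_lit 388) (nat_lit 345)) (XT.nd (nat_lit 78) (nat_lit 0) (nat_lit 0) (XT.lf (nat_lit 0) (nat_lit 12243097700) (nat_lit 152) (nat_lit 117545442956) (nat_lit 0) (nat_lit 8717094932) (nat_lit 2) (nat_lit 5) (nat_lit 4) (nat_lit 4) (nat_lit 2) (nat_lit 4) (nat_lit 468) (nat_lit 388) (nat_lit 344)) (XT.lf (nat_lit 0) (nat_lit 21884673438) (nat_lit 152) (nat_lit 108635309287) (nat_lit 0) (nat_lit 18349524233) (nat_lit 2) (nat_lit 5) (nat_lit 4) (nat_lit 4) (nat_lit 2) (nat_lit 4) (nat_lit 469) (nat_lit 388) (nat_lit 343))))) (XT.nd (nat_lit 234) (nat_lit 0) (nat_lit 0) (XT.nd (nat_lit 78) (nat_lit 0) (nat_lit 0) (XT.lf (nat_lit 0) (nat_lit 32256999519) (nat_lit 152) (nat_lit 99095354327)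 (nat_lit 0) (nat_lit 28713381392) (nat_lit 2) (nat_lit 5) (nat_lit 4) (nat_lit 4) (nat_lit 2) (nat_lit 4) (nat_lit 470) (nat_lit 388) (nat_lit 342)) (XT.nd (nat_lit 78) (nat_lit 0) (nat_lit 0) (XT.lf (nat_lit 0) (nat_lit 43421541580) (nat_lit 152) (nat_lit 88869045011) (nat_lit 0) (nat_lit 39870081857) (nat_lit 2) (nat_lit 5) (nat_lit 4) (nat_lit 4) (nat_lit 2) (nat_lit 4) (nat_lit 471) (nat_lit 388) (nat_lit 341)) (XT.lf (nat_lit 0) (nat_lit 55444459870) (nat_lit 152) (nat_lit 77895780987) (nat_lit 0) (nat_lit 51885739411) (nat_lit 2) (nat_lit 5) (nat_lit 4) (nat_lit 4) (nat_lit 2) (nat_lit 4) (nat_lit 472) (nat_lit 388) (nat_lit 340)))) (XT.nd (nat_lit 78) (nat_lit 0) (nat_lit 0) (XT.lf (nat_lit 0) (nat_lit 68397001313) (nat_lit 152) (nat_lit 66110535505) (nat_lit 0) (nat_lit 64831557949) (nat_lit 2) (nat_lit 5) (nat_lit 4) (nat_lit 4) (nat_lit 2) (nat_lit 4) (nat_lit 473) (nat_lit 388)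 (nat_lit 339)) (XT.nd (nat_lit 78) (nat_lit 0) (nat_lit 0) (XT.lf (nat_lit 0) (nat_lit 82355921708) (nat_lit 152) (nat_lit 53443470074) (nat_lit 0) (nat_lit 78784253434) (nat_lit 2) (nat_lit 5) (nat_lit 4) (nat_lit 4) (nat_lit 2) (nat_lit 4) (nat_lit 474) (nat_lit 388) (nat_lit 338)) (XT.lf (nat_lit 0) (nat_lit 97403940585) (nat_lit 152) (nat_lit 39819520602) (nat_lit 0) (nat_lit 93826508504) (nat_lit 2) (nat_lit 5) (nat_lit 4) (nat_lit 4) (nat_lit 2) (nat_lit 4) (nat_lit 475) (nat_lit 388) (nat_lit 337))))))))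
noncomputable def xc63 : XT := (XT.nd (nat_lit 1794) (nat_lit 0) (nat_lit 0) (XT.nd (nat_lit 858) (nat_lit 0) (nat_lit 0) (XT.nd (nat_lit 390) (nat_lit 0) (nat_lit 0) (XT.nd (nat_lit 156) (nat_lit 76) (nat_lit 0) (XT.nd (nat_lit 78) (nat_lit 0) (nat_lit 0) (XT.lf (nat_lit 0) (nat_lit 113630231389) (nat_lit 152) (nat_lit 25157952574) (nat_lit 0) (nat_lit 110047462450) (nat_lit 2) (nat_lit 5) (nat_lit 4) (nat_lit 4) (nat_lit 2) (nat_lit 4) (nat_lit 476) (nat_lit 388) (nat_lit 336)) (XT.lf (nat_lit 0) (nat_lit 131130949917) (nat_lit 152) (nat_lit 9371882623) (nat_lit 0) (nat_lit 127543239443) (nat_lit 2) (nat_lit 5) (nat_lit 4) (nat_lit 4) (nat_lit 2) (nat_lit 4) (nat_lit 477) (nat_lit 388) (nat_lit 335))) (XT.nd (nat_lit 78) (nat_lit 0) (nat_lit 0) (XT.lf (nat_lit 0) (nat_lit 8034136370) (nat_lit 76) (nat_lit 142168888934) (nat_lit 76) (nat_lit 138576602964) (nat_lit 1) (nat_lit 4) (nat_lit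 2) (nat_lit 5) (nat_lit 2) (nat_lit 4) (nat_lit 478) (nat_lit 388) (nat_lit 334)) (XT.nd (nat_lit 78) (nat_lit 0) (nat_lit 0) (XT.lf (nat_lit 0) (nat_lit 27321922663) (nat_lit 76) (nat_lit 143713838956) (nat_lit 76) (nat_lit 140117316416) (nat_lit 1) (nat_lit 4) (nat_lit 2) (nat_lit 5) (nat_lit 2) (nat_lit 4) (nat_lit 479) (nat_lit 388) (nat_lit 333)) (XT.lf (nat_lit 0) (nat_lit 48112267518) (nat_lit 76) (nat_lit 145403081746) (nat_lit 76) (nat_lit 141802636456) (nat_lit 1) (nat_lit 4) (nat_lit 2) (nat_lit 5) (nat_lit 2) (nat_lit 4) (nat_lit 480) (nat_lit 388) (nat_lit 332))))) (XT.nd (nat_lit 234) (nat_lit 0) (nat_lit 0) (XT.nd (nat_lit 78) (nat_lit 0) (nat_lit 0) (XT.lf (nat_lit 0) (nat_lit 70528372979) (nat_lit 76) (nat_lit 147246627632) (nat_lit 76) (nat_lit 143642550166) (nat_lit 1) (nat_lit 4) (nat_lit 2) (nat_lit 5) (nat_lit 2) (nat_lit 4) (nat_lit 481) (nat_lit 388) (nat_lit 331))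 (XT.nd (nat_lit 78) (nat_lit 0) (nat_lit 0) (XT.lf (nat_lit 0) (nat_lit 94703075225) (nat_lit 76) (nat_lit 149255401329) (nat_lit 76) (nat_lit 145647960738) (nat_lit 1) (nat_lit 4) (nat_lit 2) (nat_lit 5) (nat_lit 2) (nat_lit 4) (nat_lit 482) (nat_lit 388) (nat_lit 330)) (XT.lf (nat_lit 0) (nat_lit 120779631753) (nat_lit 76) (nat_lit 151441306683) (nat_lit 76) (nat_lit 147830752086) (nat_lit 1) (nat_lit 4) (nat_lit 2) (nat_lit 5) (nat_lit 2) (nat_lit 4) (nat_lit 483) (nat_lit 388) (nat_lit 329)))) (XT.nd (nat_lit 78) (nat_lit 0) (nat_lit 0) (XT.lf (nat_lit 0) (nat_lit 148912570303) (nat_lit 76) (nat_lit 153817297206) (nat_lit 76) (nat_lit 150203859270) (nat_lit 1) (nat_lit 4) (nat_lit 2) (nat_lit 5) (nat_lit 2) (nat_lit 4) (nat_lit 484) (nat_lit 388) (nat_lit 328)) (XT.nd (nat_lit 78) (nat_lit 0) (nat_lit 0) (XT.lf (nat_lit 0) (nat_lit 179268604587) (nat_lit 76) (nat_lit 156397452841) (nat_lit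 76) (nat_lit 152781345148) (nat_lit 1) (nat_lit 4) (nat_lit 2) (nat_lit 5) (nat_lit 2) (nat_lit 4) (nat_lit 485) (nat_lit 388) (nat_lit 327)) (XT.lf (nat_lit 0) (nat_lit 212027622214) (nat_lit 76) (nat_lit 159197063401) (nat_lit 76) (nat_lit 155578483710) (nat_lit 1) (nat_lit 4) (nat_lit 2) (nat_lit 5) (nat_lit 2) (nat_lit 4) (nat_lit 486) (nat_lit 388) (nat_lit 326)))))) (XT.nd (nat_lit 468) (nat_lit 0) (nat_lit 0) (XT.nd (nat_lit 234) (nat_lit 0) (nat_lit 0) (XT.nd (nat_lit 78) (nat_lit 0) (nat_lit 0) (XT.lf (nat_lit 0) (nat_lit 247383750697) (nat_lit 76) (nat_lit 162232719171) (nat_lit 76) (nat_lit 158611850593) (nat_lit 1) (nat_lit 4) (nat_lit 2) (nat_lit 5) (nat_lit 2) (nat_lit 4) (nat_lit 487) (nat_lit 388) (nat_lit 325)) (XT.nd (nat_lit 78) (nat_lit 0) (nat_lit 0) (XT.lf (nat_lit 0) (nat_lit 285546507833) (nat_lit 76) (nat_lit 165522409220) (nat_lit 76) (nat_lit 161899421302) (nat_lit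 1) (nat_lit 4) (nat_lit 2) (nat_lit 5) (nat_lit 2) (nat_lit 4) (nat_lit 488) (nat_lit 388) (nat_lit 324)) (XT.lf (nat_lit 0) (nat_lit 326742043296) (nat_lit 76) (nat_lit 169085628009) (nat_lit 76) (nat_lit 165460677740) (nat_lit 1) (nat_lit 4) (nat_lit 2) (nat_lit 5) (nat_lit 2) (nat_lit 4) (nat_lit 489) (nat_lit 388) (nat_lit 323)))) (XT.nd (nat_lit 78) (nat_lit 0) (nat_lit 0) (XT.lf (nat_lit 0) (nat_lit 371214478776) (nat_lit 76) (nat_lit 172943490908) (nat_lit 76) (nat_lit 169316723647) (nat_lit 1) (nat_lit 4) (nat_lit 2) (nat_lit 5) (nat_lit 2) (nat_lit 4) (nat_lit 490) (nat_lit 388) (nat_lit 322)) (XT.nd (nat_lit 78) (nat_lit 0) (nat_lit 0) (XT.lf (nat_lit 0) (nat_lit 419227354632) (nat_lit 76) (nat_lit 177118859328) (nat_lit 76) (nat_lit 173490409666) (nat_lit 1) (nat_lit 4) (nat_lit 2) (nat_lit 5) (nat_lit 2) (nat_lit 4) (nat_lit 491) (nat_lit 388) (nat_lit 321)) (XT.lf (nat_lit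 0) (nat_lit 471065191610) (nat_lit 76) (nat_lit 181636476192) (nat_lit 76) (nat_lit 178006468752) (nat_lit 1) (nat_lit 4) (nat_lit 2) (nat_lit 5) (nat_lit 2) (nat_lit 4) (nat_lit 492) (nat_lit 388) (nat_lit 320))))) (XT.nd (nat_lit 234) (nat_lit 0) (nat_lit 0) (XT.nd (nat_lit 78) (nat_lit 0) (nat_lit 0) (XT.lf (nat_lit 0) (nat_lit 527035176891) (nat_lit 76) (nat_lit 186523112563) (nat_lit 76) (nat_lit 182891662736) (nat_lit 1) (nat_lit 4) (nat_lit 2) (nat_lit 5) (nat_lit 2) (nat_lit 4) (nat_lit 493) (nat_lit 388) (nat_lit 319)) (XT.nd (nat_lit 78) (nat_lit 0) (nat_lit 0) (XT.lf (nat_lit 0) (nat_lit 587468984463) (nat_lit 76) (nat_lit 191807726286) (nat_lit 76) (nat_lit 188174940915) (nat_lit 1) (nat_lit 4) (nat_lit 2) (nat_lit 5) (nat_lit 2) (nat_lit 4) (nat_lit 494) (nat_lit 388) (nat_lit 318)) (XT.lf (nat_lit 0) (nat_lit 652724740593) (nat_lit 76) (nat_lit 197521633590) (nat_lit 76) (nat_lit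 193887611606) (nat_lit 1) (nat_lit 4) (nat_lit 2) (nat_lit 5) (nat_lit 2) (nat_lit 4) (nat_lit 495) (nat_lit 388) (nat_lit 317)))) (XT.nd (nat_lit 78) (nat_lit 0) (nat_lit 0) (XT.lf (nat_lit 0) (nat_lit 723189146057) (nat_lit 76) (nat_lit 203698694668) (nat_lit 76) (nat_lit 200063527670) (nat_lit 1) (nat_lit 4) (nat_lit 2) (nat_lit 5) (nat_lit 2) (nat_lit 4) (nat_lit 496) (nat_lit 388) (nat_lit 316)) (XT.nd (nat_lit 78) (nat_lit 0) (nat_lit 0) (XT.lf (nat_lit 0) (nat_lit 799279767704) (nat_lit 76) (nat_lit 210375514326) (nat_lit 76) (nat_lit 206739287130) (nat_lit 1) (nat_lit 4) (nat_lit 2) (nat_lit 5) (nat_lit 2) (nat_lit 4) (nat_lit 497) (nat_lit 388) (nat_lit 315)) (XT.lf (nat_lit 0) (nat_lit 881447512920) (nat_lit 76) (nat_lit 217591658901) (nat_lit 76) (nat_lit 213954450041) (nat_lit 1) (nat_lit 4) (nat_lit 2) (nat_lit 5) (nat_lit 2) (nat_lit 4) (nat_lit 498) (nat_lit 388) (nat_lit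 314))))))) (XT.nd (nat_lit 858) (nat_lit 0) (nat_lit 0) (XT.nd (nat_lit 390) (nat_lit 0) (nat_lit 0) (XT.nd (nat_lit 156) (nat_lit 0) (nat_lit 0) (XT.nd (nat_lit 78) (nat_lit 0) (nat_lit 0) (XT.lf (nat_lit 0) (nat_lit 970179301677) (nat_lit 76) (nat_lit 225389890733) (nat_lit 76) (nat_lit 221751772925) (nat_lit 1) (nat_lit 4) (nat_lit 2) (nat_lit 5) (nat_lit 2) (nat_lit 4) (nat_lit 499) (nat_lit 388) (nat_lit 313)) (XT.lf (nat_lit 0) (nat_lit 1066000951983) (nat_lit 76) (nat_lit 233816421566) (nat_lit 76) (nat_lit 230177462138) (nat_lit 1) (nat_lit 4) (nat_lit 2) (nat_lit 5) (nat_lit 2) (nat_lit 4) (nat_lit 500) (nat_lit 388) (nat_lit 312))) (XT.nd (nat_lit 78) (nat_lit 0) (nat_lit 0) (XT.lf (nat_lit 0) (nat_lit 1169480295839) (nat_lit 76) (nat_lit 242921186396) (nat_lit 76) (nat_lit 239281447692) (nat_lit 1) (nat_lit 4) (nat_lit 2) (nat_lit 5) (nat_lit 2) (nat_lit 4) (nat_lit 501) (nat_lit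 388) (nat_lit 311)) (XT.nd (nat_lit 78) (nat_lit 0) (nat_lit 0) (XT.lf (nat_lit 0) (nat_lit 1281230544173) (nat_lit 76) (nat_lit 252758139387) (nat_lit 76) (nat_lit 249117679130) (nat_lit 1) (nat_lit 4) (nat_lit 2) (nat_lit 5) (nat_lit 2) (nat_lit 4) (nat_lit 502) (nat_lit 388) (nat_lit 310)) (XT.lf (nat_lit 0) (nat_lit 1401913920677) (nat_lit 76) (nat_lit 263385573593) (nat_lit 76) (nat_lit 259744445232) (nat_lit 1) (nat_lit 4) (nat_lit 2) (nat_lit 5) (nat_lit 2) (nat_lit 4) (nat_lit 503) (nat_lit 388) (nat_lit 309))))) (XT.nd (nat_lit 234) (nat_lit 0) (nat_lit 0) (XT.nd (nat_lit 78) (nat_lit 0) (nat_lit 0) (XT.lf (nat_lit 0) (nat_lit 1532245586101) (nat_lit 76) (nat_lit 274866466401) (nat_lit 76) (nat_lit 271224719425) (nat_lit 1) (nat_lit 4) (nat_lit 2) (nat_lit 5) (nat_lit 2) (nat_lit 4) (nat_lit 504) (nat_lit 388) (nat_lit 308)) (XT.nd (nat_lit 78) (nat_lit 0) (nat_lit 0) (XT.lf (nat_lit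 0) (nat_lit 1672997876242) (nat_lit 76) (nat_lit 287268852733) (nat_lit 76) (nat_lit 283626532965) (nat_lit 1) (nat_lit 4) (nat_lit 2) (nat_lit 5) (nat_lit 2) (nat_lit 4) (nat_lit 505) (nat_lit 388) (nat_lit 307)) (XT.lf (nat_lit 0) (nat_lit 1825004878743) (nat_lit 76) (nat_lit 300666228210) (nat_lit 76) (nat_lit 297023378080) (nat_lit 1) (nat_lit 4) (nat_lit 2) (nat_lit 5) (nat_lit 2) (nat_lit 4) (nat_lit 506) (nat_lit 388) (nat_lit 306)))) (XT.nd (nat_lit 78) (nat_lit 0) (nat_lit 0) (XT.lf (nat_lit 0) (nat_lit 1989167375842) (nat_lit 76) (nat_lit 315137984688) (nat_lit 76) (nat_lit 311494643481) (nat_lit 1) (nat_lit 4) (nat_lit 2) (nat_lit 5) (nat_lit 2) (nat_lit 4) (nat_lit 507) (nat_lit 388) (nat_lit 305)) (XT.nd (nat_lit 78) (nat_lit 0) (nat_lit 0) (XT.lf (nat_lit 0) (nat_lit 2166458182336) (nat_lit 76) (nat_lit 330769880723) (nat_lit 76) (nat_lit 327126084816) (nat_lit 1) (nat_lit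 4) (nat_lit 2) (nat_lit 5) (nat_lit 2) (nat_lit 4) (nat_lit 508) (nat_lit 388) (nat_lit 304)) (XT.lf (nat_lit 0) (nat_lit 2357927910413) (nat_lit 76) (nat_lit 347654549774) (nat_lit 76) (nat_lit 344010332847) (nat_lit 1) (nat_lit 4) (nat_lit 2) (nat_lit 5) (nat_lit 2) (nat_lit 4) (nat_lit 509) (nat_lit 388) (nat_lit 303)))))) (XT.nd (nat_lit 468) (nat_lit 0) (nat_lit 0) (XT.nd (nat_lit 234) (nat_lit 0) (nat_lit 0) (XT.nd (nat_lit 78) (nat_lit 0) (nat_lit 0) (XT.lf (nat_lit 0) (nat_lit 2564711195497) (nat_lit 76) (nat_lit 365892049138) (nat_lit 76) (nat_lit 362247442379) (nat_lit 1) (nat_lit 4) (nat_lit 2) (nat_lit 5) (nat_lit 2) (nat_lit 4) (nat_lit 510) (nat_lit 388) (nat_lit 302)) (XT.nd (nat_lit 78) (nat_lit 0) (nat_lit 0) (XT.lf (nat_lit 0) (nat_lit 2788033420020) (nat_lit 76) (nat_lit 385590452886) (nat_lit 76) (nat_lit 381945485171) (nat_lit 1) (nat_lit 4) (nat_lit 2) (nat_lit 5)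 (nat_lit 2) (nat_lit 4) (nat_lit 511) (nat_lit 388) (nat_lit 301)) (XT.lf (nat_lit 0) (nat_lit 3029217974940) (nat_lit 76) (nat_lit 406866492299) (nat_lit 76) (nat_lit 403221190365) (nat_lit 1) (nat_lit 4) (nat_lit 2) (nat_lit 5) (nat_lit 2) (nat_lit 4) (nat_lit 512) (nat_lit 388) (nat_lit 300)))) (XT.nd (nat_lit 78) (nat_lit 0) (nat_lit 0) (XT.lf (nat_lit 0) (nat_lit 3289694102066) (nat_lit 76) (nat_lit 429846247611) (nat_lit 76) (nat_lit 426200636216) (nat_lit 1) (nat_lit 4) (nat_lit 2) (nat_lit 5) (nat_lit 2) (nat_lit 4) (nat_lit 513) (nat_lit 388) (nat_lit 299)) (XT.nd (nat_lit 78) (nat_lit 0) (nat_lit 0) (XT.lf (nat_lit 0) (nat_lit 3571005363631) (nat_lit 76) (nat_lit 454665895149) (nat_lit 76) (nat_lit 451019997216) (nat_lit 1) (nat_lit 4) (nat_lit 2) (nat_lit 5) (nat_lit 2) (nat_lit 4) (nat_lit 514) (nat_lit 388) (nat_lit 298)) (XT.lf (nat_lit 0) (nat_lit 3874818789334) (nat_lit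 76) (nat_lit 481472514307) (nat_lit 76) (nat_lit 477826351060) (nat_lit 1) (nat_lit 4) (nat_lit 2) (nat_lit 5) (nat_lit 2) (nat_lit 4) (nat_lit 515) (nat_lit 388) (nat_lit 297))))) (XT.nd (nat_lit 234) (nat_lit 0) (nat_lit 0) (XT.nd (nat_lit 78) (nat_lit 0) (nat_lit 0) (XT.lf (nat_lit 0) (nat_lit 4202934755031) (nat_lit 76) (nat_lit 510424959124) (nat_lit 76) (nat_lit 506778550216) (nat_lit 1) (nat_lit 4) (nat_lit 2) (nat_lit 5) (nat_lit 2) (nat_lit 4) (nat_lit 516) (nat_lit 388) (nat_lit 296)) (XT.nd (nat_lit 78) (nat_lit 0) (nat_lit 0) (XT.lf (nat_lit 0) (nat_lit 4557297651631) (nat_lit 76) (nat_lit 541694799643) (nat_lit 76) (nat_lit 538048163271) (nat_lit 1) (nat_lit 4) (nat_lit 2) (nat_lit 5) (nat_lit 2) (nat_lit 4) (nat_lit 517) (nat_lit 388) (nat_lit 295)) (XT.lf (nat_lit 0) (nat_lit 4940007407408) (nat_lit 76) (nat_lit 575467338622) (nat_lit 76) (nat_lit 571820491637) (nat_lit 1)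 (nat_lit 4) (nat_lit 2) (nat_lit 5) (nat_lit 2) (nat_lit 4) (nat_lit 518) (nat_lit 388) (nat_lit 294)))) (XT.nd (nat_lit 78) (nat_lit 0) (nat_lit 0) (XT.lf (nat_lit 0) (nat_lit 5353331932027) (nat_lit 76) (nat_lit 611942709627) (nat_lit 76) (nat_lit 608295667628) (nat_lit 1) (nat_lit 4) (nat_lit 2) (nat_lit 5) (nat_lit 2) (nat_lit 4) (nat_lit 519) (nat_lit 388) (nat_lit 293)) (XT.nd (nat_lit 78) (nat_lit 0) (nat_lit 0) (XT.lf (nat_lit 0) (nat_lit 5799720556004) (nat_lit 76) (nat_lit 651337063004) (nat_lit 76) (nat_lit 647689840437) (nat_lit 1) (nat_lit 4) (nat_lit 2) (nat_lit 5) (nat_lit 2) (nat_lit 4) (nat_lit 520) (nat_lit 388) (nat_lit 292)) (XT.lf (nat_lit 0) (nat_lit 6281818545259) (nat_lit 76) (nat_lit 693883846772) (nat_lit 76) (nat_lit 690236457013) (nat_lit 1) (nat_lit 4) (nat_lit 2) (nat_lit 5) (nat_lit 2) (nat_lit 4) (nat_lit 521) (nat_lit 388) (nat_lit 291))))))))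
noncomputable def xc64 : XT := (XT.nd (nat_lit 55848) (nat_lit 0) (nat_lit 304) (XT.nd (nat_lit 54990) (nat_lit 0) (nat_lit 1444) (XT.nd (nat_lit 390) (nat_lit 0) (nat_lit 0) (XT.nd (nat_lit 156) (nat_lit 0) (nat_lit 0) (XT.nd (nat_lit 78) (nat_lit 0) (nat_lit 0) (XT.lf (nat_lit 0) (nat_lit 6802482776765) (nat_lit 76) (nat_lit 739835190022) (nat_lit 76) (nat_lit 736187645455) (nat_lit 1) (nat_lit 4) (nat_lit 2) (nat_lit 5) (nat_lit 2) (nat_lit 4) (nat_lit 522) (nat_lit 388) (nat_lit 290)) (XT.lf (nat_lit 0) (nat_lit 7364798668191) (nat_lit 76) (nat_lit 789463397008) (nat_lit 76) (nat_lit 785815709101) (nat_lit 1) (nat_lit 4) (nat_lit 2) (nat_lit 5) (nat_lit 2) (nat_lit 4) (nat_lit 523) (nat_lit 388) (nat_lit 289))) (XT.nd (nat_lit 78) (nat_lit 0) (nat_lit 0) (XT.lf (nat_lit 0) (nat_lit 7972098461856) (nat_lit 76) (nat_lit 843062560810) (nat_lit 76) (nat_lit 839414740180) (nat_lit 1) (nat_lit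 4) (nat_lit 2) (nat_lit 5) (nat_lit 2) (nat_lit 4) (nat_lit 524) (nat_lit 388) (nat_lit 288)) (XT.nd (nat_lit 78) (nat_lit 0) (nat_lit 0) (XT.lf (nat_lit 0) (nat_lit 8627980971352) (nat_lit 76) (nat_lit 900950306102) (nat_lit 76) (nat_lit 897302362581) (nat_lit 1) (nat_lit 4) (nat_lit 2) (nat_lit 5) (nat_lit 2) (nat_lit 4) (nat_lit 525) (nat_lit 388) (nat_lit 287)) (XT.lf (nat_lit 0) (nat_lit 9336332907847) (nat_lit 76) (nat_lit 963469671375) (nat_lit 76) (nat_lit 959821614065) (nat_lit 1) (nat_lit 4) (nat_lit 2) (nat_lit 5) (nat_lit 2) (nat_lit 4) (nat_lit 526) (nat_lit 388) (nat_lit 286))))) (XT.nd (nat_lit 54366) (nat_lit 0) (nat_lit 2432) (XT.nd (nat_lit 78) (nat_lit 0) (nat_lit 0) (XT.lf (nat_lit 0) (nat_lit 10101351912445) (nat_lit 76) (nat_lit 1030991141756) (nat_lit 76) (nat_lit 1027342979086) (nat_lit 1) (nat_lit 4) (nat_lit 2) (nat_lit 5) (nat_lit 2) (nat_lit 4) (nat_lit 527)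 (nat_lit 388) (nat_lit 285)) (XT.nd (nat_lit 54210) (nat_lit 0) (nat_lit 2736) (XT.lf (nat_lit 0) (nat_lit 10927571431100) (nat_lit 76) (nat_lit 1103914844477) (nat_lit 76) (nat_lit 1100266584252) (nat_lit 1) (nat_lit 4) (nat_lit 2) (nat_lit 5) (nat_lit 2) (nat_lit 4) (nat_lit 528) (nat_lit 388) (nat_lit 284)) (XT.lf (nat_lit 0) (nat_lit 318825911) (nat_lit 152) (nat_lit 4418934548) (nat_lit 0) (nat_lit 318825911) (nat_lit 37) (nat_lit 5) (nat_lit 39) (nat_lit 4) (nat_lit 37) (nat_lit 4) (nat_lit 422) (nat_lit 389) (nat_lit 389)))) (XT.nd (nat_lit 78) (nat_lit 304) (nat_lit 0) (XT.lf (nat_lit 0) (nat_lit 5475921597) (nat_lit 152) (nat_lit 207581098) (nat_lit 0) (nat_lit 4795180068) (nat_lit 37) (nat_lit 5) (nat_lit 39) (nat_lit 4) (nat_lit 37) (nat_lit 4) (nat_lit 423) (nat_lit 389) (nat_lit 388)) (XT.nd (nat_lit 78) (nat_lit 152) (nat_lit 0) (XT.lf (nat_lit 0) (nat_lit 9113772381) (nat_lit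 152) (nat_lit 1537405093) (nat_lit 152) (nat_lit 226347335) (nat_lit 35) (nat_lit 4) (nat_lit 37) (nat_lit 5) (nat_lit 37) (nat_lit 4) (nat_lit 424) (nat_lit 389) (nat_lit 387)) (XT.lf (nat_lit 0) (nat_lit 4683635563) (nat_lit 152) (nat_lit 3686068859) (nat_lit 0) (nat_lit 2929298621) (nat_lit 33) (nat_lit 5) (nat_lit 35) (nat_lit 4) (nat_lit 33) (nat_lit 4) (nat_lit 425) (nat_lit 389) (nat_lit 386)))))) (XT.nd (nat_lit 390) (nat_lit 456) (nat_lit 0) (XT.nd (nat_lit 156) (nat_lit 228) (nat_lit 0) (XT.nd (nat_lit 78) (nat_lit 152) (nat_lit 0) (XT.lf (nat_lit 0) (nat_lit 5874072199) (nat_lit 152) (nat_lit 4068478950) (nat_lit 152) (nat_lit 1813776662) (nat_lit 31) (nat_lit 4) (nat_lit 33) (nat_lit 5) (nat_lit 33) (nat_lit 4) (nat_lit 426) (nat_lit 389) (nat_lit 385)) (XT.lf (nat_lit 0) (nat_lit 3154025283) (nat_lit 152) (nat_lit 8456367324) (nat_lit 0) (nat_lit 637355345) (nat_lit 29) (nat_lit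 5) (nat_lit 31) (nat_lit 4) (nat_lit 29) (nat_lit 4) (nat_lit 427) (nat_lit 389) (nat_lit 384))) (XT.nd (nat_lit 78) (nat_lit 152) (nat_lit 0) (XT.lf (nat_lit 0) (nat_lit 1245024445) (nat_lit 76) (nat_lit 7220056253) (nat_lit 76) (nat_lit 4306180172) (nat_lit 28) (nat_lit 4) (nat_lit 29) (nat_lit 5) (nat_lit 29) (nat_lit 4) (nat_lit 428) (nat_lit 389) (nat_lit 383)) (XT.nd (nat_lit 78) (nat_lit 76) (nat_lit 0) (XT.lf (nat_lit 0) (nat_lit 803079296) (nat_lit 152) (nat_lit 1611254610) (nat_lit 76) (nat_lit 10922147686) (nat_lit 27) (nat_lit 5) (nat_lit 29) (nat_lit 5) (nat_lit 28) (nat_lit 4) (nat_lit 429) (nat_lit 389) (nat_lit 382)) (XT.lf (nat_lit 0) (nat_lit 6139046626) (nat_lit 152) (nat_lit 5009761110) (nat_lit 0) (nat_lit 2785157928) (nat_lit 26) (nat_lit 5) (nat_lit 28) (nat_lit 4) (nat_lit 26) (nat_lit 4) (nat_lit 430) (nat_lit 389) (nat_lit 381))))) (XT.nd (nat_lit 234) (nat_lit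 228) (nat_lit 0) (XT.nd (nat_lit 78) (nat_lit 152) (nat_lit 0) (XT.lf (nat_lit 0) (nat_lit 5596916422) (nat_lit 76) (nat_lit 6313757963) (nat_lit 76) (nat_lit 2667910891) (nat_lit 25) (nat_lit 4) (nat_lit 26) (nat_lit 5) (nat_lit 26) (nat_lit 4) (nat_lit 431) (nat_lit 389) (nat_lit 380)) (XT.nd (nat_lit 78) (nat_lit 0) (nat_lit 0) (XT.lf (nat_lit 0) (nat_lit 1644078553) (nat_lit 76) (nat_lit 1029122144) (nat_lit 152) (nat_lit 12600289154) (nat_lit 23) (nat_lit 5) (nat_lit 24) (nat_lit 5) (nat_lit 25) (nat_lit 4) (nat_lit 432) (nat_lit 389) (nat_lit 379)) (XT.lf (nat_lit 0) (nat_lit 8431415457) (nat_lit 152) (nat_lit 3002784975) (nat_lit 0) (nat_lit 4573557915) (nat_lit 23) (nat_lit 5) (nat_lit 25) (nat_lit 4) (nat_lit 23) (nat_lit 4) (nat_lit 433) (nat_lit 389) (nat_lit 378)))) (XT.nd (nat_lit 78) (nat_lit 152) (nat_lit 0) (XT.lf (nat_lit 0) (nat_lit 8462283152) (nat_lit 76) (nat_lit 6204812584)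 (nat_lit 76) (nat_lit 2132356921) (nat_lit 22) (nat_lit 4) (nat_lit 23) (nat_lit 5) (nat_lit 23) (nat_lit 4) (nat_lit 434) (nat_lit 389) (nat_lit 377)) (XT.nd (nat_lit 78) (nat_lit 0) (nat_lit 0) (XT.lf (nat_lit 0) (nat_lit 3016920613) (nat_lit 76) (nat_lit 486963155) (nat_lit 152) (nat_lit 14147879421) (nat_lit 20) (nat_lit 5) (nat_lit 21) (nat_lit 5) (nat_lit 22) (nat_lit 4) (nat_lit 435) (nat_lit 389) (nat_lit 376)) (XT.lf (nat_lit 0) (nat_lit 9635422849) (nat_lit 152) (nat_lit 3409367357) (nat_lit 0) (nat_lit 5510292364) (nat_lit 20) (nat_lit 5) (nat_lit 22) (nat_lit 4) (nat_lit 20) (nat_lit 4) (nat_lit 436) (nat_lit 389) (nat_lit 375))))))) (XT.nd (nat_lit 858) (nat_lit 456) (nat_lit 0) (XT.nd (nat_lit 390) (nat_lit 380) (nat_lit 0) (XT.nd (nat_lit 156) (nat_lit 76) (nat_lit 0) (XT.nd (nat_lit 78) (nat_lit 152) (nat_lit 0) (XT.lf (nat_lit 0) (nat_lit 8759386405) (nat_lit 76) (nat_lit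 7525969624) (nat_lit 76) (nat_lit 3243103114) (nat_lit 19) (nat_lit 4) (nat_lit 20) (nat_lit 5) (nat_lit 20) (nat_lit 4) (nat_lit 437) (nat_lit 389) (nat_lit 374)) (XT.lf (nat_lit 0) (nat_lit 1126846620) (nat_lit 76) (nat_lit 1544194247) (nat_lit 152) (nat_lit 17908894648) (nat_lit 17) (nat_lit 5) (nat_lit 18) (nat_lit 5) (nat_lit 19) (nat_lit 4) (nat_lit 438) (nat_lit 389) (nat_lit 373))) (XT.nd (nat_lit 78) (nat_lit 76) (nat_lit 0) (XT.lf (nat_lit 0) (nat_lit 9109727704) (nat_lit 152) (nat_lit 7697289045) (nat_lit 0) (nat_lit 4883661405) (nat_lit 17) (nat_lit 5) (nat_lit 19) (nat_lit 4) (nat_lit 17) (nat_lit 4) (nat_lit 439) (nat_lit 389) (nat_lit 372)) (XT.nd (nat_lit 78) (nat_lit 0) (nat_lit 0) (XT.lf (nat_lit 0) (nat_lit 4847580277) (nat_lit 76) (nat_lit 11193267749) (nat_lit 76) (nat_lit 6851260764) (nat_lit 16) (nat_lit 4) (nat_lit 17) (nat_lit 5) (nat_lit 17) (nat_lit 4) (nat_lit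 440) (nat_lit 389) (nat_lit 371)) (XT.lf (nat_lit 0) (nat_lit 18488966107) (nat_lit 76) (nat_lit 5073587067) (nat_lit 76) (nat_lit 624227594) (nat_lit 16) (nat_lit 4) (nat_lit 17) (nat_lit 5) (nat_lit 17) (nat_lit 4) (nat_lit 441) (nat_lit 389) (nat_lit 370))))) (XT.nd (nat_lit 234) (nat_lit 152) (nat_lit 0) (XT.nd (nat_lit 78) (nat_lit 76) (nat_lit 0) (XT.lf (nat_lit 0) (nat_lit 5852982544) (nat_lit 152) (nat_lit 18074573571) (nat_lit 0) (nat_lit 1641167799) (nat_lit 14) (nat_lit 5) (nat_lit 16) (nat_lit 4) (nat_lit 14) (nat_lit 4) (nat_lit 442) (nat_lit 389) (nat_lit 369)) (XT.nd (nat_lit 78) (nat_lit 76) (nat_lit 0) (XT.lf (nat_lit 0) (nat_lit 12941374618) (nat_lit 152) (nat_lit 5464083935) (nat_lit 0) (nat_lit 8644340007) (nat_lit 14) (nat_lit 5) (nat_lit 16) (nat_lit 4) (nat_lit 14) (nat_lit 4) (nat_lit 443) (nat_lit 389) (nat_lit 368)) (XT.lf (nat_lit 0) (nat_lit 8264214367) (nat_lit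 76) (nat_lit 12378705417) (nat_lit 76) (nat_lit 8002763522) (nat_lit 13) (nat_lit 4) (nat_lit 14) (nat_lit 5) (nat_lit 14) (nat_lit 4) (nat_lit 444) (nat_lit 389) (nat_lit 367)))) (XT.nd (nat_lit 78) (nat_lit 152) (nat_lit 0) (XT.lf (nat_lit 0) (nat_lit 23104791194) (nat_lit 76) (nat_lit 5856694949) (nat_lit 76) (nat_lit 1407690755) (nat_lit 13) (nat_lit 4) (nat_lit 14) (nat_lit 5) (nat_lit 14) (nat_lit 4) (nat_lit 445) (nat_lit 389) (nat_lit 366)) (XT.nd (nat_lit 78) (nat_lit 0) (nat_lit 0) (XT.lf (nat_lit 0) (nat_lit 5485121041) (nat_lit 152) (nat_lit 25426926584) (nat_lit 0) (nat_lit 1303033567) (nat_lit 11) (nat_lit 5) (nat_lit 13) (nat_lit 4) (nat_lit 11) (nat_lit 4) (nat_lit 446) (nat_lit 389) (nat_lit 365)) (XT.lf (nat_lit 0) (nat_lit 13068649179) (nat_lit 152) (nat_lit 12291301460) (nat_lit 0) (nat_lit 8828562496) (nat_lit 11) (nat_lit 5) (nat_lit 13) (nat_lit 4) (nat_lit 11) (nat_lit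 4) (nat_lit 447) (nat_lit 389) (nat_lit 364)))))) (XT.nd (nat_lit 468) (nat_lit 228) (nat_lit 0) (XT.nd (nat_lit 234) (nat_lit 152) (nat_lit 0) (XT.nd (nat_lit 78) (nat_lit 0) (nat_lit 0) (XT.lf (nat_lit 0) (nat_lit 1719408419) (nat_lit 76) (nat_lit 19450655874) (nat_lit 76) (nat_lit 15156866221) (nat_lit 10) (nat_lit 4) (nat_lit 11) (nat_lit 5) (nat_lit 11) (nat_lit 4) (nat_lit 448) (nat_lit 389) (nat_lit 363)) (XT.nd (nat_lit 78) (nat_lit 0) (nat_lit 0) (XT.lf (nat_lit 0) (nat_lit 17294842534) (nat_lit 76) (nat_lit 12834173126) (nat_lit 76) (nat_lit 8490658499) (nat_lit 10) (nat_lit 4) (nat_lit 11) (nat_lit 5) (nat_lit 11) (nat_lit 4) (nat_lit 449) (nat_lit 389) (nat_lit 362)) (XT.lf (nat_lit 0) (nat_lit 33880061600) (nat_lit 76) (nat_lit 5807359572) (nat_lit 76) (nat_lit 1417803304) (nat_lit 10) (nat_lit 4) (nat_lit 11) (nat_lit 5) (nat_lit 11) (nat_lit 4) (nat_lit 450) (nat_lit 389)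 (nat_lit 361)))) (XT.nd (nat_lit 78) (nat_lit 0) (nat_lit 0) (XT.lf (nat_lit 0) (nat_lit 6040432008) (nat_lit 152) (nat_lit 35790208764) (nat_lit 0) (nat_lit 1936554768) (nat_lit 8) (nat_lit 5) (nat_lit 10) (nat_lit 4) (nat_lit 8) (nat_lit 4) (nat_lit 451) (nat_lit 389) (nat_lit 360)) (XT.nd (nat_lit 78) (nat_lit 0) (nat_lit 0) (XT.lf (nat_lit 0) (nat_lit 14261175400) (nat_lit 152) (nat_lit 22237863128) (nat_lit 0) (nat_lit 10120748821) (nat_lit 8) (nat_lit 5) (nat_lit 10) (nat_lit 4) (nat_lit 8) (nat_lit 4) (nat_lit 452) (nat_lit 389) (nat_lit 359)) (XT.lf (nat_lit 0) (nat_lit 23036732946) (nat_lit 152) (nat_lit 7809621370) (nat_lit 0) (nat_lit 18862464385) (nat_lit 8) (nat_lit 5) (nat_lit 10) (nat_lit 4) (nat_lit 8) (nat_lit 4) (nat_lit 453) (nat_lit 389) (nat_lit 358))))) (XT.nd (nat_lit 234) (nat_lit 152) (nat_lit 0) (XT.nd (nat_lit 78) (nat_lit 0) (nat_lit 0) (XT.lf (nat_lit 0) (nat_lit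 7979167474) (nat_lit 76) (nat_lit 24631839644) (nat_lit 76) (nat_lit 20426235915) (nat_lit 7) (nat_lit 4) (nat_lit 8) (nat_lit 5) (nat_lit 8) (nat_lit 4) (nat_lit 454) (nat_lit 389) (nat_lit 357)) (XT.nd (nat_lit 78) (nat_lit 0) (nat_lit 0) (XT.lf (nat_lit 0) (nat_lit 25287219583) (nat_lit 76) (nat_lit 17784838324) (nat_lit 76) (nat_lit 13550220551) (nat_lit 7) (nat_lit 4) (nat_lit 8) (nat_lit 5) (nat_lit 8) (nat_lit 4) (nat_lit 455) (nat_lit 389) (nat_lit 356)) (XT.lf (nat_lit 0) (nat_lit 43805860369) (nat_lit 76) (nat_lit 10478304423) (nat_lit 76) (nat_lit 6216821794) (nat_lit 7) (nat_lit 4) (nat_lit 8) (nat_lit 5) (nat_lit 8) (nat_lit 4) (nat_lit 456) (nat_lit 389) (nat_lit 355)))) (XT.nd (nat_lit 78) (nat_lit 76) (nat_lit 0) (XT.lf (nat_lit 0) (nat_lit 1536507757) (nat_lit 152) (nat_lit 1090421360) (nat_lit 76) (nat_lit 62066311323) (nat_lit 6) (nat_lit 5) (nat_lit 8) (nat_lit 5) (nat_lit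 7) (nat_lit 4) (nat_lit 457) (nat_lit 389) (nat_lit 354)) (XT.nd (nat_lit 78) (nat_lit 0) (nat_lit 0) (XT.lf (nat_lit 0) (nat_lit 10043061697) (nat_lit 152) (nat_lit 53074505509) (nat_lit 0) (nat_lit 6052885976) (nat_lit 5) (nat_lit 5) (nat_lit 7) (nat_lit 4) (nat_lit 5) (nat_lit 4) (nat_lit 458) (nat_lit 389) (nat_lit 353)) (XT.lf (nat_lit 0) (nat_lit 19253639971) (nat_lit 152) (nat_lit 39506607860) (nat_lit 0) (nat_lit 15243717779) (nat_lit 5) (nat_lit 5) (nat_lit 7) (nat_lit 4) (nat_lit 5) (nat_lit 4) (nat_lit 459) (nat_lit 389) (nat_lit 352))))))))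
noncomputable def xc65 : XT := (XT.nd (nat_lit 1716) (nat_lit 0) (nat_lit 0) (XT.nd (nat_lit 858) (nat_lit 76) (nat_lit 0) (XT.nd (nat_lit 390) (nat_lit 152) (nat_lit 0) (XT.nd (nat_lit 156) (nat_lit 76) (nat_lit 0) (XT.nd (nat_lit 78) (nat_lit 0) (nat_lit 0) (XT.lf (nat_lit 0) (nat_lit 29131323443) (nat_lit 152) (nat_lit 24995299866) (nat_lit 0) (nat_lit 25103117481) (nat_lit 5) (nat_lit 5) (nat_lit 7) (nat_lit 4) (nat_lit 5) (nat_lit 4) (nat_lit 460) (nat_lit 389) (nat_lit 351)) (XT.lf (nat_lit 0) (nat_lit 39734646532) (nat_lit 152) (nat_lit 9454588590) (nat_lit 0) (nat_lit 35689511153) (nat_lit 5) (nat_lit 5) (nat_lit 7) (nat_lit 4) (nat_lit 5) (nat_lit 4) (nat_lit 461) (nat_lit 389) (nat_lit 350))) (XT.nd (nat_lit 78) (nat_lit 0) (nat_lit 0) (XT.lf (nat_lit 0) (nat_lit 7587159516) (nat_lit 76) (nat_lit 43721755597) (nat_lit 76) (nat_lit 39660944833) (nat_lit 4) (nat_lit 4) (nat_lit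 5) (nat_lit 5) (nat_lit 5) (nat_lit 4) (nat_lit 462) (nat_lit 389) (nat_lit 349)) (XT.nd (nat_lit 78) (nat_lit 0) (nat_lit 0) (XT.lf (nat_lit 0) (nat_lit 26411260332) (nat_lit 76) (nat_lit 37598153144) (nat_lit 76) (nat_lit 33522828135) (nat_lit 4) (nat_lit 4) (nat_lit 5) (nat_lit 5) (nat_lit 5) (nat_lit 4) (nat_lit 463) (nat_lit 389) (nat_lit 348)) (XT.lf (nat_lit 0) (nat_lit 46631402201) (nat_lit 76) (nat_lit 31040644956) (nat_lit 76) (nat_lit 26951880830) (nat_lit 4) (nat_lit 4) (nat_lit 5) (nat_lit 5) (nat_lit 5) (nat_lit 4) (nat_lit 464) (nat_lit 389) (nat_lit 347))))) (XT.nd (nat_lit 234) (nat_lit 152) (nat_lit 0) (XT.nd (nat_lit 78) (nat_lit 0) (nat_lit 0) (XT.lf (nat_lit 0) (nat_lit 68367408187) (nat_lit 76) (nat_lit 24010371725) (nat_lit 76) (nat_lit 19909163973) (nat_lit 4) (nat_lit 4) (nat_lit 5) (nat_lit 5) (nat_lit 5) (nat_lit 4) (nat_lit 465) (nat_lit 389) (nat_lit 346)) (XT.nd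 (nat_lit 78) (nat_lit 0) (nat_lit 0) (XT.lf (nat_lit 0) (nat_lit 91748084252) (nat_lit 76) (nat_lit 16465672573) (nat_lit 76) (nat_lit 12352942945) (nat_lit 4) (nat_lit 4) (nat_lit 5) (nat_lit 5) (nat_lit 5) (nat_lit 4) (nat_lit 466) (nat_lit 389) (nat_lit 345)) (XT.lf (nat_lit 0) (nat_lit 116911982550) (nat_lit 76) (nat_lit 8361838171) (nat_lit 76) (nat_lit 4238440139) (nat_lit 4) (nat_lit 4) (nat_lit 5) (nat_lit 5) (nat_lit 5) (nat_lit 4) (nat_lit 467) (nat_lit 389) (nat_lit 344)))) (XT.nd (nat_lit 78) (nat_lit 0) (nat_lit 0) (XT.lf (nat_lit 0) (nat_lit 4392093934) (nat_lit 152) (nat_lit 134200221965) (nat_lit 0) (nat_lit 564986356) (nat_lit 2) (nat_lit 5) (nat_lit 4) (nat_lit 4) (nat_lit 2) (nat_lit 4) (nat_lit 468) (nat_lit 389) (nat_lit 343)) (XT.nd (nat_lit 78) (nat_lit 0) (nat_lit 0) (XT.lf (nat_lit 0) (nat_lit 14014162116) (nat_lit 152) (nat_lit 125329987047) (nat_lit 0) (nat_lit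 10178585615) (nat_lit 2) (nat_lit 5) (nat_lit 4) (nat_lit 4) (nat_lit 2) (nat_lit 4) (nat_lit 469) (nat_lit 389) (nat_lit 342)) (XT.lf (nat_lit 0) (nat_lit 24368425646) (nat_lit 152) (nat_lit 115826975376) (nat_lit 0) (nat_lit 20525007550) (nat_lit 2) (nat_lit 5) (nat_lit 4) (nat_lit 4) (nat_lit 2) (nat_lit 4) (nat_lit 470) (nat_lit 389) (nat_lit 341)))))) (XT.nd (nat_lit 390) (nat_lit 76) (nat_lit 0) (XT.nd (nat_lit 156) (nat_lit 0) (nat_lit 0) (XT.nd (nat_lit 78) (nat_lit 0) (nat_lit 0) (XT.lf (nat_lit 0) (nat_lit 35516243123) (nat_lit 152) (nat_lit 105634872809) (nat_lit 0) (nat_lit 31665564290) (nat_lit 2) (nat_lit 5) (nat_lit 4) (nat_lit 4) (nat_lit 2) (nat_lit 4) (nat_lit 471) (nat_lit 389) (nat_lit 340)) (XT.lf (nat_lit 0) (nat_lit 47523675686) (nat_lit 152) (nat_lit 94693281700) (nat_lit 0) (nat_lit 43666273950) (nat_lit 2) (nat_lit 5) (nat_lit 4) (nat_lit 4) (nat_lit 2) (nat_lit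 4) (nat_lit 472) (nat_lit 389) (nat_lit 339))) (XT.nd (nat_lit 78) (nat_lit 0) (nat_lit 0) (XT.lf (nat_lit 0) (nat_lit 60461878493) (nat_lit 152) (nat_lit 82937362992) (nat_lit 0) (nat_lit 56598251845) (nat_lit 2) (nat_lit 5) (nat_lit 4) (nat_lit 4) (nat_lit 2) (nat_lit 4) (nat_lit 473) (nat_lit 389) (nat_lit 338)) (XT.nd (nat_lit 78) (nat_lit 0) (nat_lit 0) (XT.lf (nat_lit 0) (nat_lit 74407522374) (nat_lit 152) (nat_lit 70297451981) (nat_lit 0) (nat_lit 70538131919) (nat_lit 2) (nat_lit 5) (nat_lit 4) (nat_lit 4) (nat_lit 2) (nat_lit 4) (nat_lit 474) (nat_lit 389) (nat_lit 337)) (XT.lf (nat_lit 0) (nat_lit 89443248182) (nat_lit 152) (nat_lit 56698645491) (nat_lit 0) (nat_lit 85568520870) (nat_lit 2) (nat_lit 5) (nat_lit 4) (nat_lit 4) (nat_lit 2) (nat_lit 4) (nat_lit 475) (nat_lit 389) (nat_lit 336))))) (XT.nd (nat_lit 234) (nat_lit 76) (nat_lit 0) (XT.nd (nat_lit 78) (nat_lit 0) (nat_lit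 0) (XT.lf (nat_lit 0) (nat_lit 105658156515) (nat_lit 152) (nat_lit 42060358001) (nat_lit 0) (nat_lit 101778487667) (nat_lit 2) (nat_lit 5) (nat_lit 4) (nat_lit 4) (nat_lit 2) (nat_lit 4) (nat_lit 476) (nat_lit 389) (nat_lit 335)) (XT.nd (nat_lit 78) (nat_lit 0) (nat_lit 0) (XT.lf (nat_lit 0) (nat_lit 123148335718) (nat_lit 152) (nat_lit 26295844104) (nat_lit 0) (nat_lit 119264091374) (nat_lit 2) (nat_lit 5) (nat_lit 4) (nat_lit 4) (nat_lit 2) (nat_lit 4) (nat_lit 477) (nat_lit 389) (nat_lit 334)) (XT.lf (nat_lit 0) (nat_lit 142017431297) (nat_lit 152) (nat_lit 9311684460) (nat_lit 0) (nat_lit 138128950384) (nat_lit 2) (nat_lit 5) (nat_lit 4) (nat_lit 4) (nat_lit 2) (nat_lit 4) (nat_lit 478) (nat_lit 389) (nat_lit 333)))) (XT.nd (nat_lit 78) (nat_lit 0) (nat_lit 0) (XT.lf (nat_lit 0) (nat_lit 9466311020) (nat_lit 76) (nat_lit 153138614103) (nat_lit 76) (nat_lit 149246210440) (nat_lit 1)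 (nat_lit 4) (nat_lit 2) (nat_lit 5) (nat_lit 2) (nat_lit 4) (nat_lit 479) (nat_lit 389) (nat_lit 332)) (XT.nd (nat_lit 78) (nat_lit 0) (nat_lit 0) (XT.lf (nat_lit 0) (nat_lit 30238642903) (nat_lit 76) (nat_lit 154837070197) (nat_lit 76) (nat_lit 150941034358) (nat_lit 1) (nat_lit 4) (nat_lit 2) (nat_lit 5) (nat_lit 2) (nat_lit 4) (nat_lit 480) (nat_lit 389) (nat_lit 331)) (XT.lf (nat_lit 0) (nat_lit 52638069685) (nat_lit 76) (nat_lit 156689146919) (nat_lit 76) (nat_lit 152789747955) (nat_lit 1) (nat_lit 4) (nat_lit 2) (nat_lit 5) (nat_lit 2) (nat_lit 4) (nat_lit 481) (nat_lit 389) (nat_lit 330))))))) (XT.nd (nat_lit 858) (nat_lit 0) (nat_lit 0) (XT.nd (nat_lit 390) (nat_lit 0) (nat_lit 0) (XT.nd (nat_lit 156) (nat_lit 0) (nat_lit 0) (XT.nd (nat_lit 78) (nat_lit 0) (nat_lit 0) (XT.lf (nat_lit 0) (nat_lit 76797328711) (nat_lit 76) (nat_lit 158705819540) (nat_lit 76) (nat_lit 154803306570)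 (nat_lit 1) (nat_lit 4) (nat_lit 2) (nat_lit 5) (nat_lit 2) (nat_lit 4) (nat_lit 482) (nat_lit 389) (nat_lit 329)) (XT.lf (nat_lit 0) (nat_lit 102859585960) (nat_lit 76) (nat_lit 160899038711) (nat_lit 76) (nat_lit 156993642403) (nat_lit 1) (nat_lit 4) (nat_lit 2) (nat_lit 5) (nat_lit 2) (nat_lit 4) (nat_lit 483) (nat_lit 389) (nat_lit 328))) (XT.nd (nat_lit 78) (nat_lit 0) (nat_lit 0) (XT.lf (nat_lit 0) (nat_lit 130979284438) (nat_lit 76) (nat_lit 163281801288) (nat_lit 76) (nat_lit 159373735221) (nat_lit 1) (nat_lit 4) (nat_lit 2) (nat_lit 5) (nat_lit 2) (nat_lit 4) (nat_lit 484) (nat_lit 389) (nat_lit 327)) (XT.nd (nat_lit 78) (nat_lit 0) (nat_lit 0) (XT.lf (nat_lit 0) (nat_lit 161323059395) (nat_lit 76) (nat_lit 165868227343) (nat_lit 76) (nat_lit 161957689279) (nat_lit 1) (nat_lit 4) (nat_lit 2) (nat_lit 5) (nat_lit 2) (nat_lit 4) (nat_lit 485) (nat_lit 389) (nat_lit 326)) (XT.lf (nat_lit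 0) (nat_lit 194070725794) (nat_lit 76) (nat_lit 168673643848) (nat_lit 76) (nat_lit 164760816896) (nat_lit 1) (nat_lit 4) (nat_lit 2) (nat_lit 5) (nat_lit 2) (nat_lit 4) (nat_lit 486) (nat_lit 389) (nat_lit 325))))) (XT.nd (nat_lit 234) (nat_lit 0) (nat_lit 0) (XT.nd (nat_lit 78) (nat_lit 0) (nat_lit 0) (XT.lf (nat_lit 0) (nat_lit 229416343881) (nat_lit 76) (nat_lit 171714675491) (nat_lit 76) (nat_lit 167799729200) (nat_lit 1) (nat_lit 4) (nat_lit 2) (nat_lit 5) (nat_lit 2) (nat_lit 4) (nat_lit 487) (nat_lit 389) (nat_lit 324)) (XT.nd (nat_lit 78) (nat_lit 0) (nat_lit 0) (XT.lf (nat_lit 0) (nat_lit 267569369169) (nat_lit 76) (nat_lit 175009343202) (nat_lit 76) (nat_lit 171092434559) (nat_lit 1) (nat_lit 4) (nat_lit 2) (nat_lit 5) (nat_lit 2) (nat_lit 4) (nat_lit 488) (nat_lit 389) (nat_lit 323)) (XT.lf (nat_lit 0) (nat_lit 308755893660) (nat_lit 76) (nat_lit 178577170937) (nat_lit 76) (nat_lit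 174658445302) (nat_lit 1) (nat_lit 4) (nat_lit 2) (nat_lit 5) (nat_lit 2) (nat_lit 4) (nat_lit 489) (nat_lit 389) (nat_lit 322)))) (XT.nd (nat_lit 78) (nat_lit 0) (nat_lit 0) (XT.lf (nat_lit 0) (nat_lit 353219985649) (nat_lit 76) (nat_lit 182439301378) (nat_lit 76) (nat_lit 178518893343) (nat_lit 1) (nat_lit 4) (nat_lit 2) (nat_lit 5) (nat_lit 2) (nat_lit 4) (nat_lit 490) (nat_lit 389) (nat_lit 321)) (XT.nd (nat_lit 78) (nat_lit 0) (nat_lit 0) (XT.lf (nat_lit 0) (nat_lit 401225136049) (nat_lit 76) (nat_lit 186618621226) (nat_lit 76) (nat_lit 182696655413) (nat_lit 1) (nat_lit 4) (nat_lit 2) (nat_lit 5) (nat_lit 2) (nat_lit 4) (nat_lit 491) (nat_lit 389) (nat_lit 320)) (XT.lf (nat_lit 0) (nat_lit 453055819828) (nat_lit 76) (nat_lit 191139896820) (nat_lit 76) (nat_lit 187216488620) (nat_lit 1) (nat_lit 4) (nat_lit 2) (nat_lit 5) (nat_lit 2) (nat_lit 4) (nat_lit 492) (nat_lit 389) (nat_lit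 319)))))) (XT.nd (nat_lit 468) (nat_lit 0) (nat_lit 0) (XT.nd (nat_lit 234) (nat_lit 0) (nat_lit 0) (XT.nd (nat_lit 78) (nat_lit 0) (nat_lit 0) (XT.lf (nat_lit 0) (nat_lit 509019181777) (nat_lit 76) (nat_lit 196029920903) (nat_lit 76) (nat_lit 192105177160) (nat_lit 1) (nat_lit 4) (nat_lit 2) (nat_lit 5) (nat_lit 2) (nat_lit 4) (nat_lit 493) (nat_lit 389) (nat_lit 318)) (XT.nd (nat_lit 78) (nat_lit 0) (nat_lit 0) (XT.lf (nat_lit 0) (nat_lit 569446856633) (nat_lit 76) (nat_lit 201317671398) (nat_lit 76) (nat_lit 197391691040) (nat_lit 1) (nat_lit 4) (nat_lit 2) (nat_lit 5) (nat_lit 2) (nat_lit 4) (nat_lit 494) (nat_lit 389) (nat_lit 317)) (XT.lf (nat_lit 0) (nat_lit 634696934323) (nat_lit 76) (nat_lit 207034483120) (nat_lit 76) (nat_lit 203107357749) (nat_lit 1) (nat_lit 4) (nat_lit 2) (nat_lit 5) (nat_lit 2) (nat_lit 4) (nat_lit 495) (nat_lit 389) (nat_lit 316)))) (XT.nd (nat_lit 78) (nat_lit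 0) (nat_lit 0) (XT.lf (nat_lit 0) (nat_lit 705156081972) (nat_lit 76) (nat_lit 213214233473) (nat_lit 76) (nat_lit 209286047905) (nat_lit 1) (nat_lit 4) (nat_lit 2) (nat_lit 5) (nat_lit 2) (nat_lit 4) (nat_lit 496) (nat_lit 389) (nat_lit 315)) (XT.nd (nat_lit 78) (nat_lit 0) (nat_lit 0) (XT.lf (nat_lit 0) (nat_lit 781241835272) (nat_lit 76) (nat_lit 219893543201) (nat_lit 76) (nat_lit 215964375968) (nat_lit 1) (nat_lit 4) (nat_lit 2) (nat_lit 5) (nat_lit 2) (nat_lit 4) (nat_lit 497) (nat_lit 389) (nat_lit 314)) (XT.lf (nat_lit 0) (nat_lit 863405072759) (nat_lit 76) (nat_lit 227111993397) (nat_lit 76) (nat_lit 223181917215) (nat_lit 1) (nat_lit 4) (nat_lit 2) (nat_lit 5) (nat_lit 2) (nat_lit 4) (nat_lit 498) (nat_lit 389) (nat_lit 313))))) (XT.nd (nat_lit 234) (nat_lit 0) (nat_lit 0) (XT.nd (nat_lit 78) (nat_lit 0) (nat_lit 0) (XT.lf (nat_lit 0) (nat_lit 952132687693) (nat_lit 76) (nat_lit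 234912360062) (nat_lit 76) (nat_lit 230981442262) (nat_lit 1) (nat_lit 4) (nat_lit 2) (nat_lit 5) (nat_lit 2) (nat_lit 4) (nat_lit 499) (nat_lit 389) (nat_lit 312)) (XT.nd (nat_lit 78) (nat_lit 0) (nat_lit 0) (XT.lf (nat_lit 0) (nat_lit 1047950473348) (nat_lit 76) (nat_lit 243340867593) (nat_lit 76) (nat_lit 239409170515) (nat_lit 1) (nat_lit 4) (nat_lit 2) (nat_lit 5) (nat_lit 2) (nat_lit 4) (nat_lit 500) (nat_lit 389) (nat_lit 311)) (XT.lf (nat_lit 0) (nat_lit 1151426238824) (nat_lit 76) (nat_lit 252447462699) (nat_lit 76) (nat_lit 248515044069) (nat_lit 1) (nat_lit 4) (nat_lit 2) (nat_lit 5) (nat_lit 2) (nat_lit 4) (nat_lit 501) (nat_lit 389) (nat_lit 310)))) (XT.nd (nat_lit 78) (nat_lit 0) (nat_lit 0) (XT.lf (nat_lit 0) (nat_lit 1263173173842) (nat_lit 76) (nat_lit 262286110390) (nat_lit 76) (nat_lit 258353023656) (nat_lit 1) (nat_lit 4) (nat_lit 2) (nat_lit 5) (nat_lit 2) (nat_lit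 4) (nat_lit 502) (nat_lit 389) (nat_lit 309)) (XT.nd (nat_lit 78) (nat_lit 0) (nat_lit 0) (XT.lf (nat_lit 0) (nat_lit 1383853482461) (nat_lit 76) (nat_lit 272915113762) (nat_lit 76) (nat_lit 268981408413) (nat_lit 1) (nat_lit 4) (nat_lit 2) (nat_lit 5) (nat_lit 2) (nat_lit 4) (nat_lit 503) (nat_lit 389) (nat_lit 308)) (XT.lf (nat_lit 0) (nat_lit 1514182307252) (nat_lit 76) (nat_lit 284397459503) (nat_lit 76) (nat_lit 280463181361) (nat_lit 1) (nat_lit 4) (nat_lit 2) (nat_lit 5) (nat_lit 2) (nat_lit 4) (nat_lit 504) (nat_lit 389) (nat_lit 307))))))))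
noncomputable def xc66 : XT := (XT.nd (nat_lit 1716) (nat_lit 0) (nat_lit 0) (XT.nd (nat_lit 858) (nat_lit 0) (nat_lit 0) (XT.nd (nat_lit 390) (nat_lit 0) (nat_lit 0) (XT.nd (nat_lit 156) (nat_lit 0) (nat_lit 0) (XT.nd (nat_lit 78) (nat_lit 0) (nat_lit 0) (XT.lf (nat_lit 0) (nat_lit 1654931967176) (nat_lit 76) (nat_lit 296801191141) (nat_lit 76) (nat_lit 292866382638) (nat_lit 1) (nat_lit 4) (nat_lit 2) (nat_lit 5) (nat_lit 2) (nat_lit 4) (nat_lit 505) (nat_lit 389) (nat_lit 306)) (XT.lf (nat_lit 0) (nat_lit 1806936534291) (nat_lit 76) (nat_lit 310199812274) (nat_lit 76) (nat_lit 306264512693) (nat_lit 1) (nat_lit 4) (nat_lit 2) (nat_lit 5) (nat_lit 2) (nat_lit 4) (nat_lit 506) (nat_lit 389) (nat_lit 305))) (XT.nd (nat_lit 78) (nat_lit 0) (nat_lit 0) (XT.lf (nat_lit 0) (nat_lit 1971096776403) (nat_lit 76) (nat_lit 324672722136) (nat_lit 76) (nat_lit 320736967855) (nat_lit 1) (nat_lit 4)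 (nat_lit 2) (nat_lit 5) (nat_lit 2) (nat_lit 4) (nat_lit 507) (nat_lit 389) (nat_lit 304)) (XT.nd (nat_lit 78) (nat_lit 0) (nat_lit 0) (XT.lf (nat_lit 0) (nat_lit 2148385494947) (nat_lit 76) (nat_lit 340305686119) (nat_lit 76) (nat_lit 336369510819) (nat_lit 1) (nat_lit 4) (nat_lit 2) (nat_lit 5) (nat_lit 2) (nat_lit 4) (nat_lit 508) (nat_lit 389) (nat_lit 303)) (XT.lf (nat_lit 0) (nat_lit 2339853289736) (nat_lit 76) (nat_lit 357191344011) (nat_lit 76) (nat_lit 353254778879) (nat_lit 1) (nat_lit 4) (nat_lit 2) (nat_lit 5) (nat_lit 2) (nat_lit 4) (nat_lit 509) (nat_lit 389) (nat_lit 302))))) (XT.nd (nat_lit 234) (nat_lit 0) (nat_lit 0) (XT.nd (nat_lit 78) (nat_lit 0) (nat_lit 0) (XT.lf (nat_lit 0) (nat_lit 2546634784740) (nat_lit 76) (nat_lit 375429758969) (nat_lit 76) (nat_lit 371492832880) (nat_lit 1) (nat_lit 4) (nat_lit 2) (nat_lit 5) (nat_lit 2) (nat_lit 4) (nat_lit 510) (nat_lit 389)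 (nat_lit 301)) (XT.nd (nat_lit 78) (nat_lit 0) (nat_lit 0) (XT.lf (nat_lit 0) (nat_lit 2769955351779) (nat_lit 76) (nat_lit 395129010488) (nat_lit 76) (nat_lit 391191750182) (nat_lit 1) (nat_lit 4) (nat_lit 2) (nat_lit 5) (nat_lit 2) (nat_lit 4) (nat_lit 511) (nat_lit 389) (nat_lit 300)) (XT.lf (nat_lit 0) (nat_lit 3011138371994) (nat_lit 76) (nat_lit 416405834875) (nat_lit 76) (nat_lit 412468265107) (nat_lit 1) (nat_lit 4) (nat_lit 2) (nat_lit 5) (nat_lit 2) (nat_lit 4) (nat_lit 512) (nat_lit 389) (nat_lit 299)))) (XT.nd (nat_lit 78) (nat_lit 0) (nat_lit 0) (XT.lf (nat_lit 0) (nat_lit 3271613078095) (nat_lit 76) (nat_lit 439386317015) (nat_lit 76) (nat_lit 435448460708) (nat_lit 1) (nat_lit 4) (nat_lit 2) (nat_lit 5) (nat_lit 2) (nat_lit 4) (nat_lit 513) (nat_lit 389) (nat_lit 298)) (XT.nd (nat_lit 78) (nat_lit 0) (nat_lit 0) (XT.lf (nat_lit 0) (nat_lit 3552923023897) (nat_lit 76) (nat_lit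 464206637542) (nat_lit 76) (nat_lit 460268515922) (nat_lit 1) (nat_lit 4) (nat_lit 2) (nat_lit 5) (nat_lit 2) (nat_lit 4) (nat_lit 514) (nat_lit 389) (nat_lit 297)) (XT.lf (nat_lit 0) (nat_lit 3856735231301) (nat_lit 76) (nat_lit 491013879837) (nat_lit 76) (nat_lit 487075512557) (nat_lit 1) (nat_lit 4) (nat_lit 2) (nat_lit 5) (nat_lit 2) (nat_lit 4) (nat_lit 515) (nat_lit 389) (nat_lit 296)))))) (XT.nd (nat_lit 390) (nat_lit 0) (nat_lit 0) (XT.nd (nat_lit 156) (nat_lit 0) (nat_lit 0) (XT.nd (nat_lit 78) (nat_lit 0) (nat_lit 0) (XT.lf (nat_lit 0) (nat_lit 4184850068944) (nat_lit 76) (nat_lit 519966901633) (nat_lit 76) (nat_lit 516028306889) (nat_lit 1) (nat_lit 4) (nat_lit 2) (nat_lit 5) (nat_lit 2) (nat_lit 4) (nat_lit 516) (nat_lit 389) (nat_lit 295)) (XT.lf (nat_lit 0) (nat_lit 4539211921048) (nat_lit 76) (nat_lit 551237276392) (nat_lit 76) (nat_lit 547298471034) (nat_lit 1) (nat_lit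 4) (nat_lit 2) (nat_lit 5) (nat_lit 2) (nat_lit 4) (nat_lit 517) (nat_lit 389) (nat_lit 294))) (XT.nd (nat_lit 78) (nat_lit 0) (nat_lit 0) (XT.lf (nat_lit 0) (nat_lit 4921920709700) (nat_lit 76) (nat_lit 585010310039) (nat_lit 76) (nat_lit 581071309667) (nat_lit 1) (nat_lit 4) (nat_lit 2) (nat_lit 5) (nat_lit 2) (nat_lit 4) (nat_lit 518) (nat_lit 389) (nat_lit 293)) (XT.nd (nat_lit 78) (nat_lit 0) (nat_lit 0) (XT.lf (nat_lit 0) (nat_lit 5335244338833) (nat_lit 76) (nat_lit 621486139068) (nat_lit 76) (nat_lit 617546958128) (nat_lit 1) (nat_lit 4) (nat_lit 2) (nat_lit 5) (nat_lit 2) (nat_lit 4) (nat_lit 519) (nat_lit 389) (nat_lit 292)) (XT.lf (nat_lit 0) (nat_lit 5781632133656) (nat_lit 76) (nat_lit 660880916542) (nat_lit 76) (nat_lit 656941568410) (nat_lit 1) (nat_lit 4) (nat_lit 2) (nat_lit 5) (nat_lit 2) (nat_lit 4) (nat_lit 520) (nat_lit 389) (nat_lit 291))))) (XT.nd (nat_lit 234) (nat_lit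 0) (nat_lit 0) (XT.nd (nat_lit 78) (nat_lit 0) (nat_lit 0) (XT.lf (nat_lit 0) (nat_lit 6263729355176) (nat_lit 76) (nat_lit 703428092993) (nat_lit 76) (nat_lit 699488590053) (nat_lit 1) (nat_lit 4) (nat_lit 2) (nat_lit 5) (nat_lit 2) (nat_lit 4) (nat_lit 521) (nat_lit 389) (nat_lit 290)) (XT.nd (nat_lit 78) (nat_lit 0) (nat_lit 0) (XT.lf (nat_lit 0) (nat_lit 6784392875816) (nat_lit 76) (nat_lit 749379799837) (nat_lit 76) (nat_lit 745440153556) (nat_lit 1) (nat_lit 4) (nat_lit 2) (nat_lit 5) (nat_lit 2) (nat_lit 4) (nat_lit 522) (nat_lit 389) (nat_lit 289)) (XT.lf (nat_lit 0) (nat_lit 7346708109033) (nat_lit 76) (nat_lit 799008343485) (nat_lit 76) (nat_lit 795068564482) (nat_lit 1) (nat_lit 4) (nat_lit 2) (nat_lit 5) (nat_lit 2) (nat_lit 4) (nat_lit 523) (nat_lit 389) (nat_lit 288)))) (XT.nd (nat_lit 78) (nat_lit 0) (nat_lit 0) (XT.lf (nat_lit 0) (nat_lit 7954007293245) (nat_lit 76) (nat_lit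 852607819011) (nat_lit 76) (nat_lit 848667917116) (nat_lit 1) (nat_lit 4) (nat_lit 2) (nat_lit 5) (nat_lit 2) (nat_lit 4) (nat_lit 524) (nat_lit 389) (nat_lit 287)) (XT.nd (nat_lit 78) (nat_lit 0) (nat_lit 0) (XT.lf (nat_lit 0) (nat_lit 8609889238433) (nat_lit 76) (nat_lit 910495852937) (nat_lit 76) (nat_lit 906555837253) (nat_lit 1) (nat_lit 4) (nat_lit 2) (nat_lit 5) (nat_lit 2) (nat_lit 4) (nat_lit 525) (nat_lit 389) (nat_lit 286)) (XT.lf (nat_lit 0) (nat_lit 9318240652420) (nat_lit 76) (nat_lit 973015485462) (nat_lit 76) (nat_lit 969075364420) (nat_lit 1) (nat_lit 4) (nat_lit 2) (nat_lit 5) (nat_lit 2) (nat_lit 4) (nat_lit 526) (nat_lit 389) (nat_lit 285))))))) (XT.nd (nat_lit 54834) (nat_lit 0) (nat_lit 1216) (XT.nd (nat_lit 54366) (nat_lit 0) (nat_lit 2128) (XT.nd (nat_lit 54132) (nat_lit 0) (nat_lit 2736) (XT.nd (nat_lit 78) (nat_lit 0) (nat_lit 0) (XT.lf (nat_lit 0) (nat_lit 10083259173215)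 (nat_lit 76) (nat_lit 1040537203300) (nat_lit 76) (nat_lit 1036596984702) (nat_lit 1) (nat_lit 4) (nat_lit 2) (nat_lit 5) (nat_lit 2) (nat_lit 4) (nat_lit 527) (nat_lit 389) (nat_lit 284)) (XT.lf (nat_lit 0) (nat_lit 10909478243904) (nat_lit 76) (nat_lit 1113461135147) (nat_lit 76) (nat_lit 1109520826220) (nat_lit 1) (nat_lit 4) (nat_lit 2) (nat_lit 5) (nat_lit 2) (nat_lit 4) (nat_lit 528) (nat_lit 389) (nat_lit 283))) (XT.nd (nat_lit 78) (nat_lit 304) (nat_lit 0) (XT.lf (nat_lit 0) (nat_lit 941536884) (nat_lit 228) (nat_lit 2837437696) (nat_lit 0) (nat_lit 941536884) (nat_lit 41) (nat_lit 5) (nat_lit 44) (nat_lit 4) (nat_lit 41) (nat_lit 4) (nat_lit 420) (nat_lit 390) (nat_lit 390)) (XT.nd (nat_lit 78) (nat_lit 152) (nat_lit 0) (XT.lf (nat_lit 0) (nat_lit 2468942599) (nat_lit 152) (nat_lit 4046115550) (nat_lit 152) (nat_lit 3252098632) (nat_lit 39) (nat_lit 4) (nat_lit 41) (nat_lit 5)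 (nat_lit 41) (nat_lit 4) (nat_lit 421) (nat_lit 390) (nat_lit 389)) (XT.lf (nat_lit 0) (nat_lit 1045144042) (nat_lit 76) (nat_lit 192529905) (nat_lit 152) (nat_lit 8886357325) (nat_lit 37) (nat_lit 5) (nat_lit 38) (nat_lit 5) (nat_lit 39) (nat_lit 4) (nat_lit 422) (nat_lit 390) (nat_lit 388))))) (XT.nd (nat_lit 234) (nat_lit 304) (nat_lit 0) (XT.nd (nat_lit 78) (nat_lit 304) (nat_lit 0) (XT.lf (nat_lit 0) (nat_lit 5941860524) (nat_lit 152) (nat_lit 662846463) (nat_lit 0) (nat_lit 3895601915) (nat_lit 37) (nat_lit 5) (nat_lit 39) (nat_lit 4) (nat_lit 37) (nat_lit 4) (nat_lit 423) (nat_lit 390) (nat_lit 387)) (XT.nd (nat_lit 78) (nat_lit 76) (nat_lit 0) (XT.lf (nat_lit 0) (nat_lit 66959737) (nat_lit 228) (nat_lit 2490608494) (nat_lit 76) (nat_lit 8352406639) (nat_lit 34) (nat_lit 5) (nat_lit 37) (nat_lit 5) (nat_lit 35) (nat_lit 4) (nat_lit 424) (nat_lit 390) (nat_lit 386)) (XT.lf (nat_lit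 0) (nat_lit 4796090990) (nat_lit 152) (nat_lit 4687874265) (nat_lit 0) (nat_lit 1860647174) (nat_lit 33) (nat_lit 5) (nat_lit 35) (nat_lit 4) (nat_lit 33) (nat_lit 4) (nat_lit 425) (nat_lit 390) (nat_lit 385)))) (XT.nd (nat_lit 78) (nat_lit 152) (nat_lit 0) (XT.lf (nat_lit 0) (nat_lit 4602820424) (nat_lit 152) (nat_lit 5304839822) (nat_lit 152) (nat_lit 1906094760) (nat_lit 31) (nat_lit 4) (nat_lit 33) (nat_lit 5) (nat_lit 33) (nat_lit 4) (nat_lit 426) (nat_lit 390) (nat_lit 384)) (XT.nd (nat_lit 78) (nat_lit 0) (nat_lit 0) (XT.lf (nat_lit 0) (nat_lit 2194840095) (nat_lit 76) (nat_lit 700625189) (nat_lit 152) (nat_lit 9423582095) (nat_lit 29) (nat_lit 5) (nat_lit 30) (nat_lit 5) (nat_lit 31) (nat_lit 4) (nat_lit 427) (nat_lit 390) (nat_lit 383)) (XT.lf (nat_lit 0) (nat_lit 8045408865) (nat_lit 152) (nat_lit 676631188) (nat_lit 0) (nat_lit 4133433087) (nat_lit 29) (nat_lit 5) (nat_lit 31)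 (nat_lit 4) (nat_lit 29) (nat_lit 4) (nat_lit 428) (nat_lit 390) (nat_lit 382)))))) (XT.nd (nat_lit 468) (nat_lit 380) (nat_lit 0) (XT.nd (nat_lit 234) (nat_lit 228) (nat_lit 0) (XT.nd (nat_lit 78) (nat_lit 152) (nat_lit 0) (XT.lf (nat_lit 0) (nat_lit 193193787) (nat_lit 152) (nat_lit 3850672945) (nat_lit 76) (nat_lit 9388313709) (nat_lit 27) (nat_lit 5) (nat_lit 29) (nat_lit 5) (nat_lit 28) (nat_lit 4) (nat_lit 429) (nat_lit 390) (nat_lit 381)) (XT.nd (nat_lit 78) (nat_lit 76) (nat_lit 0) (XT.lf (nat_lit 0) (nat_lit 5319433077) (nat_lit 152) (nat_lit 7637068782) (nat_lit 0) (nat_lit 1089959867) (nat_lit 26) (nat_lit 5) (nat_lit 28) (nat_lit 4) (nat_lit 26) (nat_lit 4) (nat_lit 430) (nat_lit 390) (nat_lit 380)) (XT.lf (nat_lit 0) (nat_lit 2626191780) (nat_lit 76) (nat_lit 8289375810) (nat_lit 76) (nat_lit 3789570773) (nat_lit 25) (nat_lit 4) (nat_lit 26) (nat_lit 5) (nat_lit 26) (nat_lit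 4) (nat_lit 431) (nat_lit 390) (nat_lit 379)))) (XT.nd (nat_lit 78) (nat_lit 152) (nat_lit 0) (XT.lf (nat_lit 0) (nat_lit 1464567658) (nat_lit 152) (nat_lit 1703811555) (nat_lit 76) (nat_lit 12245283511) (nat_lit 24) (nat_lit 5) (nat_lit 26) (nat_lit 5) (nat_lit 25) (nat_lit 4) (nat_lit 432) (nat_lit 390) (nat_lit 378)) (XT.nd (nat_lit 78) (nat_lit 76) (nat_lit 0) (XT.lf (nat_lit 0) (nat_lit 7024462897) (nat_lit 152) (nat_lit 6727735165) (nat_lit 0) (nat_lit 2411612662) (nat_lit 23) (nat_lit 5) (nat_lit 25) (nat_lit 4) (nat_lit 23) (nat_lit 4) (nat_lit 433) (nat_lit 390) (nat_lit 377)) (XT.lf (nat_lit 0) (nat_lit 4349866647) (nat_lit 76) (nat_lit 8716358470) (nat_lit 76) (nat_lit 3904806272) (nat_lit 22) (nat_lit 4) (nat_lit 23) (nat_lit 5) (nat_lit 23) (nat_lit 4) (nat_lit 434) (nat_lit 390) (nat_lit 376))))) (XT.nd (nat_lit 234) (nat_lit 152) (nat_lit 0) (XT.nd (nat_lit 78) (nat_lit 152)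 (nat_lit 0) (XT.lf (nat_lit 0) (nat_lit 1652898793) (nat_lit 152) (nat_lit 1557506007) (nat_lit 76) (nat_lit 14629734443) (nat_lit 21) (nat_lit 5) (nat_lit 23) (nat_lit 5) (nat_lit 22) (nat_lit 4) (nat_lit 435) (nat_lit 390) (nat_lit 375)) (XT.nd (nat_lit 78) (nat_lit 76) (nat_lit 0) (XT.lf (nat_lit 0) (nat_lit 7584522376) (nat_lit 152) (nat_lit 8373649216) (nat_lit 0) (nat_lit 2801290521) (nat_lit 20) (nat_lit 5) (nat_lit 22) (nat_lit 4) (nat_lit 20) (nat_lit 4) (nat_lit 436) (nat_lit 390) (nat_lit 374)) (XT.lf (nat_lit 0) (nat_lit 3355490683) (nat_lit 76) (nat_lit 10661999237) (nat_lit 76) (nat_lit 5732715506) (nat_lit 19) (nat_lit 4) (nat_lit 20) (nat_lit 5) (nat_lit 20) (nat_lit 4) (nat_lit 437) (nat_lit 390) (nat_lit 373)))) (XT.nd (nat_lit 78) (nat_lit 76) (nat_lit 0) (XT.lf (nat_lit 0) (nat_lit 192138896) (nat_lit 152) (nat_lit 4664868042) (nat_lit 76) (nat_lit 15958579422) (nat_lit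 18) (nat_lit 5) (nat_lit 20) (nat_lit 5) (nat_lit 19) (nat_lit 4) (nat_lit 438) (nat_lit 390) (nat_lit 372)) (XT.nd (nat_lit 78) (nat_lit 0) (nat_lit 0) (XT.lf (nat_lit 0) (nat_lit 6343758823) (nat_lit 152) (nat_lit 14067092470) (nat_lit 0) (nat_lit 1538450592) (nat_lit 17) (nat_lit 5) (nat_lit 19) (nat_lit 4) (nat_lit 17) (nat_lit 4) (nat_lit 439) (nat_lit 390) (nat_lit 371)) (XT.lf (nat_lit 0) (nat_lit 13078453723) (nat_lit 152) (nat_lit 1922206802) (nat_lit 0) (nat_lit 8165793004) (nat_lit 17) (nat_lit 5) (nat_lit 19) (nat_lit 4) (nat_lit 17) (nat_lit 4) (nat_lit 440) (nat_lit 390) (nat_lit 370))))))))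
noncomputable def xc67 : XT := (XT.nd (nat_lit 1716) (nat_lit 304) (nat_lit 0) (XT.nd (nat_lit 858) (nat_lit 304) (nat_lit 0) (XT.nd (nat_lit 390) (nat_lit 304) (nat_lit 0) (XT.nd (nat_lit 156) (nat_lit 152) (nat_lit 0) (XT.nd (nat_lit 78) (nat_lit 76) (nat_lit 0) (XT.lf (nat_lit 0) (nat_lit 11464458006) (nat_lit 76) (nat_lit 9009418847) (nat_lit 76) (nat_lit 3997357676) (nat_lit 16) (nat_lit 4) (nat_lit 17) (nat_lit 5) (nat_lit 17) (nat_lit 4) (nat_lit 441) (nat_lit 390) (nat_lit 369)) (XT.lf (nat_lit 0) (nat_lit 2351986417) (nat_lit 152) (nat_lit 211966877) (nat_lit 76) (nat_lit 23319448119) (nat_lit 15) (nat_lit 5) (nat_lit 17) (nat_lit 5) (nat_lit 16) (nat_lit 4) (nat_lit 442) (nat_lit 390) (nat_lit 368))) (XT.nd (nat_lit 78) (nat_lit 76) (nat_lit 0) (XT.lf (nat_lit 0) (nat_lit 9299809322) (nat_lit 152) (nat_lit 13581032607) (nat_lit 0) (nat_lit 4494884792) (nat_lit 14) (nat_lit 5)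 (nat_lit 16) (nat_lit 4) (nat_lit 14) (nat_lit 4) (nat_lit 443) (nat_lit 390) (nat_lit 367)) (XT.nd (nat_lit 78) (nat_lit 76) (nat_lit 0) (XT.lf (nat_lit 0) (nat_lit 16734636601) (nat_lit 152) (nat_lit 401667271) (nat_lit 0) (nat_lit 11856649772) (nat_lit 14) (nat_lit 5) (nat_lit 16) (nat_lit 4) (nat_lit 14) (nat_lit 4) (nat_lit 444) (nat_lit 390) (nat_lit 366)) (XT.lf (nat_lit 0) (nat_lit 14285665949) (nat_lit 76) (nat_lit 10691262380) (nat_lit 76) (nat_lit 5745625273) (nat_lit 13) (nat_lit 4) (nat_lit 14) (nat_lit 5) (nat_lit 14) (nat_lit 4) (nat_lit 445) (nat_lit 390) (nat_lit 365))))) (XT.nd (nat_lit 234) (nat_lit 152) (nat_lit 0) (XT.nd (nat_lit 78) (nat_lit 76) (nat_lit 0) (XT.lf (nat_lit 0) (nat_lit 1104284442) (nat_lit 152) (nat_lit 2711364610) (nat_lit 76) (nat_lit 28781951057) (nat_lit 12) (nat_lit 5) (nat_lit 14) (nat_lit 5) (nat_lit 13) (nat_lit 4) (nat_lit 446) (nat_lit 390)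 (nat_lit 364)) (XT.nd (nat_lit 78) (nat_lit 0) (nat_lit 0) (XT.lf (nat_lit 0) (nat_lit 8463050359) (nat_lit 152) (nat_lit 22353911599) (nat_lit 0) (nat_lit 3772054562) (nat_lit 11) (nat_lit 5) (nat_lit 13) (nat_lit 4) (nat_lit 11) (nat_lit 4) (nat_lit 447) (nat_lit 390) (nat_lit 363)) (XT.lf (nat_lit 0) (nat_lit 16465177812) (nat_lit 152) (nat_lit 8545745288) (nat_lit 0) (nat_lit 11724457042) (nat_lit 11) (nat_lit 5) (nat_lit 13) (nat_lit 4) (nat_lit 11) (nat_lit 4) (nat_lit 448) (nat_lit 390) (nat_lit 362)))) (XT.nd (nat_lit 78) (nat_lit 76) (nat_lit 0) (XT.lf (nat_lit 0) (nat_lit 6466103400) (nat_lit 76) (nat_lit 18685301853) (nat_lit 76) (nat_lit 13898539441) (nat_lit 10) (nat_lit 4) (nat_lit 11) (nat_lit 5) (nat_lit 11) (nat_lit 4) (nat_lit 449) (nat_lit 390) (nat_lit 361)) (XT.nd (nat_lit 78) (nat_lit 76) (nat_lit 0) (XT.lf (nat_lit 0) (nat_lit 22946154295) (nat_lit 76) (nat_lit 11711456521)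 (nat_lit 76) (nat_lit 6882062959) (nat_lit 10) (nat_lit 4) (nat_lit 11) (nat_lit 5) (nat_lit 11) (nat_lit 4) (nat_lit 450) (nat_lit 390) (nat_lit 360)) (XT.lf (nat_lit 0) (nat_lit 557778771) (nat_lit 152) (nat_lit 3708687004) (nat_lit 76) (nat_lit 39969033725) (nat_lit 9) (nat_lit 5) (nat_lit 11) (nat_lit 5) (nat_lit 10) (nat_lit 4) (nat_lit 451) (nat_lit 390) (nat_lit 359)))))) (XT.nd (nat_lit 390) (nat_lit 152) (nat_lit 0) (XT.nd (nat_lit 156) (nat_lit 76) (nat_lit 0) (XT.nd (nat_lit 78) (nat_lit 0) (nat_lit 0) (XT.lf (nat_lit 0) (nat_lit 8530139162) (nat_lit 152) (nat_lit 34589737850) (nat_lit 0) (nat_lit 3988087135) (nat_lit 8) (nat_lit 5) (nat_lit 10) (nat_lit 4) (nat_lit 8) (nat_lit 4) (nat_lit 452) (nat_lit 390) (nat_lit 358)) (XT.lf (nat_lit 0) (nat_lit 17259914426) (nat_lit 152) (nat_lit 20254218460) (nat_lit 0) (nat_lit 12686527231) (nat_lit 8) (nat_lit 5) (nat_lit 10) (nat_lit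 4) (nat_lit 8) (nat_lit 4) (nat_lit 453) (nat_lit 390) (nat_lit 357))) (XT.nd (nat_lit 78) (nat_lit 76) (nat_lit 0) (XT.lf (nat_lit 0) (nat_lit 26599898427) (nat_lit 152) (nat_lit 4950433933) (nat_lit 0) (nat_lit 21997497188) (nat_lit 8) (nat_lit 5) (nat_lit 10) (nat_lit 4) (nat_lit 8) (nat_lit 4) (nat_lit 454) (nat_lit 390) (nat_lit 356)) (XT.nd (nat_lit 78) (nat_lit 0) (nat_lit 0) (XT.lf (nat_lit 0) (nat_lit 12013256572) (nat_lit 76) (nat_lit 24881101757) (nat_lit 76) (nat_lit 20251835662) (nat_lit 7) (nat_lit 4) (nat_lit 8) (nat_lit 5) (nat_lit 8) (nat_lit 4) (nat_lit 455) (nat_lit 390) (nat_lit 355)) (XT.lf (nat_lit 0) (nat_lit 30454415390) (nat_lit 76) (nat_lit 17613842929) (nat_lit 76) (nat_lit 12959701967) (nat_lit 7) (nat_lit 4) (nat_lit 8) (nat_lit 5) (nat_lit 8) (nat_lit 4) (nat_lit 456) (nat_lit 390) (nat_lit 354))))) (XT.nd (nat_lit 234) (nat_lit 0) (nat_lit 0) (XT.nd (nat_lit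 78) (nat_lit 152) (nat_lit 0) (XT.lf (nat_lit 0) (nat_lit 50221642384) (nat_lit 76) (nat_lit 9840844276) (nat_lit 76) (nat_lit 5163671031) (nat_lit 7) (nat_lit 4) (nat_lit 8) (nat_lit 5) (nat_lit 8) (nat_lit 4) (nat_lit 457) (nat_lit 390) (nat_lit 353)) (XT.nd (nat_lit 78) (nat_lit 0) (nat_lit 0) (XT.lf (nat_lit 0) (nat_lit 1673594079) (nat_lit 76) (nat_lit 1389912417) (nat_lit 152) (nat_lit 66692814865) (nat_lit 5) (nat_lit 5) (nat_lit 6) (nat_lit 5) (nat_lit 7) (nat_lit 4) (nat_lit 458) (nat_lit 390) (nat_lit 352)) (XT.lf (nat_lit 0) (nat_lit 12207127986) (nat_lit 152) (nat_lit 54549681757) (nat_lit 0) (nat_lit 7838381777) (nat_lit 5) (nat_lit 5) (nat_lit 7) (nat_lit 4) (nat_lit 5) (nat_lit 4) (nat_lit 459) (nat_lit 390) (nat_lit 351)))) (XT.nd (nat_lit 78) (nat_lit 0) (nat_lit 0) (XT.lf (nat_lit 0) (nat_lit 22053765755) (nat_lit 152) (nat_lit 40101595570) (nat_lit 0) (nat_lit 17668090130)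 (nat_lit 5) (nat_lit 5) (nat_lit 7) (nat_lit 4) (nat_lit 5) (nat_lit 4) (nat_lit 460) (nat_lit 390) (nat_lit 350)) (XT.nd (nat_lit 78) (nat_lit 0) (nat_lit 0) (XT.lf (nat_lit 0) (nat_lit 32628342823) (nat_lit 152) (nat_lit 24619423005) (nat_lit 0) (nat_lit 28226991813) (nat_lit 5) (nat_lit 5) (nat_lit 7) (nat_lit 4) (nat_lit 5) (nat_lit 4) (nat_lit 461) (nat_lit 390) (nat_lit 349)) (XT.lf (nat_lit 0) (nat_lit 43993523351) (nat_lit 152) (nat_lit 8011417853) (nat_lit 0) (nat_lit 39577658096) (nat_lit 5) (nat_lit 5) (nat_lit 7) (nat_lit 4) (nat_lit 5) (nat_lit 4) (nat_lit 462) (nat_lit 390) (nat_lit 348))))))) (XT.nd (nat_lit 858) (nat_lit 76) (nat_lit 0) (XT.nd (nat_lit 390) (nat_lit 152) (nat_lit 0) (XT.nd (nat_lit 156) (nat_lit 0) (nat_lit 0) (XT.nd (nat_lit 78) (nat_lit 0) (nat_lit 0) (XT.lf (nat_lit 0) (nat_lit 10337985601) (nat_lit 76) (nat_lit 46127299759) (nat_lit 76) (nat_lit 41697995386)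 (nat_lit 4) (nat_lit 4) (nat_lit 5) (nat_lit 5) (nat_lit 5) (nat_lit 4) (nat_lit 463) (nat_lit 390) (nat_lit 347)) (XT.lf (nat_lit 0) (nat_lit 30509210531) (nat_lit 76) (nat_lit 39594712538) (nat_lit 76) (nat_lit 35152964539) (nat_lit 4) (nat_lit 4) (nat_lit 5) (nat_lit 5) (nat_lit 5) (nat_lit 4) (nat_lit 464) (nat_lit 390) (nat_lit 346))) (XT.nd (nat_lit 78) (nat_lit 0) (nat_lit 0) (XT.lf (nat_lit 0) (nat_lit 52199923056) (nat_lit 76) (nat_lit 32587514277) (nat_lit 76) (nat_lit 28134244402) (nat_lit 4) (nat_lit 4) (nat_lit 5) (nat_lit 5) (nat_lit 5) (nat_lit 4) (nat_lit 465) (nat_lit 390) (nat_lit 345)) (XT.nd (nat_lit 78) (nat_lit 0) (nat_lit 0) (XT.lf (nat_lit 0) (nat_lit 75538660730) (nat_lit 76) (nat_lit 25064180838) (nat_lit 76) (nat_lit 20600242559) (nat_lit 4) (nat_lit 4) (nat_lit 5) (nat_lit 5) (nat_lit 5) (nat_lit 4) (nat_lit 466) (nat_lit 390) (nat_lit 344)) (XT.lf (nat_lit 0)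 (nat_lit 100663727185) (nat_lit 76) (nat_lit 16980129503) (nat_lit 76) (nat_lit 12506313073) (nat_lit 4) (nat_lit 4) (nat_lit 5) (nat_lit 5) (nat_lit 5) (nat_lit 4) (nat_lit 467) (nat_lit 390) (nat_lit 343))))) (XT.nd (nat_lit 234) (nat_lit 0) (nat_lit 0) (XT.nd (nat_lit 78) (nat_lit 152) (nat_lit 0) (XT.lf (nat_lit 0) (nat_lit 127724011702) (nat_lit 76) (nat_lit 8287454785) (nat_lit 76) (nat_lit 3804491918) (nat_lit 4) (nat_lit 4) (nat_lit 5) (nat_lit 5) (nat_lit 5) (nat_lit 4) (nat_lit 468) (nat_lit 390) (nat_lit 342)) (XT.nd (nat_lit 78) (nat_lit 0) (nat_lit 0) (XT.lf (nat_lit 0) (nat_lit 5476439782) (nat_lit 152) (nat_lit 143437081069) (nat_lit 0) (nat_lit 1317706643) (nat_lit 2) (nat_lit 5) (nat_lit 4) (nat_lit 4) (nat_lit 2) (nat_lit 4) (nat_lit 469) (nat_lit 390) (nat_lit 341)) (XT.lf (nat_lit 0) (nat_lit 15813978727) (nat_lit 152) (nat_lit 133968276147) (nat_lit 0) (nat_lit 11647984852)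 (nat_lit 2) (nat_lit 5) (nat_lit 4) (nat_lit 4) (nat_lit 2) (nat_lit 4) (nat_lit 470) (nat_lit 390) (nat_lit 340)))) (XT.nd (nat_lit 78) (nat_lit 0) (nat_lit 0) (XT.lf (nat_lit 0) (nat_lit 26946310477) (nat_lit 152) (nat_lit 123807846495) (nat_lit 0) (nat_lit 22773593698) (nat_lit 2) (nat_lit 5) (nat_lit 4) (nat_lit 4) (nat_lit 2) (nat_lit 4) (nat_lit 471) (nat_lit 390) (nat_lit 339)) (XT.nd (nat_lit 78) (nat_lit 0) (nat_lit 0) (XT.lf (nat_lit 0) (nat_lit 38939404405) (nat_lit 152) (nat_lit 112895582160) (nat_lit 0) (nat_lit 34760462714) (nat_lit 2) (nat_lit 5) (nat_lit 4) (nat_lit 4) (nat_lit 2) (nat_lit 4) (nat_lit 472) (nat_lit 390) (nat_lit 338)) (XT.lf (nat_lit 0) (nat_lit 51864330697) (nat_lit 152) (nat_lit 101166817872) (nat_lit 0) (nat_lit 47679625200) (nat_lit 2) (nat_lit 5) (nat_lit 4) (nat_lit 4) (nat_lit 2) (nat_lit 4) (nat_lit 473) (nat_lit 390) (nat_lit 337)))))) (XT.nd (nat_lit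 468) (nat_lit 76) (nat_lit 0) (XT.nd (nat_lit 234) (nat_lit 0) (nat_lit 0) (XT.nd (nat_lit 78) (nat_lit 0) (nat_lit 0) (XT.lf (nat_lit 0) (nat_lit 65797681509) (nat_lit 152) (nat_lit 88552049842) (nat_lit 0) (nat_lit 61607639154) (nat_lit 2) (nat_lit 5) (nat_lit 4) (nat_lit 4) (nat_lit 2) (nat_lit 4) (nat_lit 474) (nat_lit 390) (nat_lit 336)) (XT.nd (nat_lit 78) (nat_lit 0) (nat_lit 0) (XT.lf (nat_lit 0) (nat_lit 80822024846) (nat_lit 152) (nat_lit 74976523890) (nat_lit 0) (nat_lit 76627040956) (nat_lit 2) (nat_lit 5) (nat_lit 4) (nat_lit 4) (nat_lit 2) (nat_lit 4) (nat_lit 475) (nat_lit 390) (nat_lit 335)) (XT.lf (nat_lit 0) (nat_lit 97026393854) (nat_lit 152) (nat_lit 60359792455) (nat_lit 0) (nat_lit 92826834468) (nat_lit 2) (nat_lit 5) (nat_lit 4) (nat_lit 4) (nat_lit 2) (nat_lit 4) (nat_lit 476) (nat_lit 390) (nat_lit 334)))) (XT.nd (nat_lit 78) (nat_lit 0) (nat_lit 0) (XT.lf (nat_lit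 0) (nat_lit 114506814422) (nat_lit 152) (nat_lit 44615237868) (nat_lit 0) (nat_lit 110303018466) (nat_lit 2) (nat_lit 5) (nat_lit 4) (nat_lit 4) (nat_lit 2) (nat_lit 4) (nat_lit 477) (nat_lit 390) (nat_lit 333)) (XT.nd (nat_lit 78) (nat_lit 0) (nat_lit 0) (XT.lf (nat_lit 0) (nat_lit 133366874229) (nat_lit 152) (nat_lit 27649559065) (nat_lit 0) (nat_lit 129159155523) (nat_lit 2) (nat_lit 5) (nat_lit 4) (nat_lit 4) (nat_lit 2) (nat_lit 4) (nat_lit 478) (nat_lit 390) (nat_lit 332)) (XT.lf (nat_lit 0) (nat_lit 153718336592) (nat_lit 152) (nat_lit 9362218691) (nat_lit 0) (nat_lit 149506985710) (nat_lit 2) (nat_lit 5) (nat_lit 4) (nat_lit 4) (nat_lit 2) (nat_lit 4) (nat_lit 479) (nat_lit 390) (nat_lit 331))))) (XT.nd (nat_lit 234) (nat_lit 0) (nat_lit 0) (XT.nd (nat_lit 78) (nat_lit 0) (nat_lit 0) (XT.lf (nat_lit 0) (nat_lit 10900436668) (nat_lit 76) (nat_lit 165043521864) (nat_lit 76) (nat_lit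 160828807856) (nat_lit 1) (nat_lit 4) (nat_lit 2) (nat_lit 5) (nat_lit 2) (nat_lit 4) (nat_lit 480) (nat_lit 390) (nat_lit 330)) (XT.nd (nat_lit 78) (nat_lit 0) (nat_lit 0) (XT.lf (nat_lit 0) (nat_lit 33284420229) (nat_lit 76) (nat_lit 166903497510) (nat_lit 76) (nat_lit 162685669497) (nat_lit 1) (nat_lit 4) (nat_lit 2) (nat_lit 5) (nat_lit 2) (nat_lit 4) (nat_lit 481) (nat_lit 390) (nat_lit 329)) (XT.lf (nat_lit 0) (nat_lit 57429379977) (nat_lit 76) (nat_lit 168927483948) (nat_lit 76) (nat_lit 164706772597) (nat_lit 1) (nat_lit 4) (nat_lit 2) (nat_lit 5) (nat_lit 2) (nat_lit 4) (nat_lit 482) (nat_lit 390) (nat_lit 328)))) (XT.nd (nat_lit 78) (nat_lit 0) (nat_lit 0) (XT.lf (nat_lit 0) (nat_lit 83478397153) (nat_lit 76) (nat_lit 171127475173) (nat_lit 76) (nat_lit 166904094064) (nat_lit 1) (nat_lit 4) (nat_lit 2) (nat_lit 5) (nat_lit 2) (nat_lit 4) (nat_lit 483) (nat_lit 390) (nat_lit 327))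 (XT.nd (nat_lit 78) (nat_lit 0) (nat_lit 0) (XT.lf (nat_lit 0) (nat_lit 111585836305) (nat_lit 76) (nat_lit 173516508169) (nat_lit 76) (nat_lit 169290655062) (nat_lit 1) (nat_lit 4) (nat_lit 2) (nat_lit 5) (nat_lit 2) (nat_lit 4) (nat_lit 484) (nat_lit 390) (nat_lit 326)) (XT.lf (nat_lit 0) (nat_lit 141918260034) (nat_lit 76) (nat_lit 176108740169) (nat_lit 76) (nat_lit 171880598175) (nat_lit 1) (nat_lit 4) (nat_lit 2) (nat_lit 5) (nat_lit 2) (nat_lit 4) (nat_lit 485) (nat_lit 390) (nat_lit 325))))))))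
noncomputable def xc68 : XT := (XT.nd (nat_lit 1716) (nat_lit 0) (nat_lit 0) (XT.nd (nat_lit 858) (nat_lit 0) (nat_lit 0) (XT.nd (nat_lit 390) (nat_lit 0) (nat_lit 0) (XT.nd (nat_lit 156) (nat_lit 0) (nat_lit 0) (XT.nd (nat_lit 78) (nat_lit 0) (nat_lit 0) (XT.lf (nat_lit 0) (nat_lit 174655416036) (nat_lit 76) (nat_lit 178919532548) (nat_lit 76) (nat_lit 174689271214) (nat_lit 1) (nat_lit 4) (nat_lit 2) (nat_lit 5) (nat_lit 2) (nat_lit 4) (nat_lit 486) (nat_lit 390) (nat_lit 324)) (XT.lf (nat_lit 0) (nat_lit 209991302274) (nat_lit 76) (nat_lit 181965541853) (nat_lit 76) (nat_lit 177733318167) (nat_lit 1) (nat_lit 4) (nat_lit 2) (nat_lit 5) (nat_lit 2) (nat_lit 4) (nat_lit 487) (nat_lit 390) (nat_lit 323))) (XT.nd (nat_lit 78) (nat_lit 0) (nat_lit 0) (XT.lf (nat_lit 0) (nat_lit 248135316591) (nat_lit 76) (nat_lit 185264818509) (nat_lit 76) (nat_lit 181030777832) (nat_lit 1) (nat_lit 4) (nat_lit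 2) (nat_lit 5) (nat_lit 2) (nat_lit 4) (nat_lit 488) (nat_lit 390) (nat_lit 322)) (XT.nd (nat_lit 78) (nat_lit 0) (nat_lit 0) (XT.lf (nat_lit 0) (nat_lit 289313497591) (nat_lit 76) (nat_lit 188836913787) (nat_lit 76) (nat_lit 184601190709) (nat_lit 1) (nat_lit 4) (nat_lit 2) (nat_lit 5) (nat_lit 2) (nat_lit 4) (nat_lit 489) (nat_lit 390) (nat_lit 321)) (XT.lf (nat_lit 0) (nat_lit 333769864124) (nat_lit 76) (nat_lit 192702995657) (nat_lit 76) (nat_lit 188465714801) (nat_lit 1) (nat_lit 4) (nat_lit 2) (nat_lit 5) (nat_lit 2) (nat_lit 4) (nat_lit 490) (nat_lit 390) (nat_lit 320))))) (XT.nd (nat_lit 234) (nat_lit 0) (nat_lit 0) (XT.nd (nat_lit 78) (nat_lit 0) (nat_lit 0) (XT.lf (nat_lit 0) (nat_lit 381767861326) (nat_lit 76) (nat_lit 196885974234) (nat_lit 76) (nat_lit 192647250991) (nat_lit 1) (nat_lit 4) (nat_lit 2) (nat_lit 5) (nat_lit 2) (nat_lit 4) (nat_lit 491) (nat_lit 390) (nat_lit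 319)) (XT.nd (nat_lit 78) (nat_lit 0) (nat_lit 0) (XT.lf (nat_lit 0) (nat_lit 433591921772) (nat_lit 76) (nat_lit 201410637541) (nat_lit 76) (nat_lit 197170578754) (nat_lit 1) (nat_lit 4) (nat_lit 2) (nat_lit 5) (nat_lit 2) (nat_lit 4) (nat_lit 492) (nat_lit 390) (nat_lit 318)) (XT.lf (nat_lit 0) (nat_lit 489549151005) (nat_lit 76) (nat_lit 206303798395) (nat_lit 76) (nat_lit 202062502994) (nat_lit 1) (nat_lit 4) (nat_lit 2) (nat_lit 5) (nat_lit 2) (nat_lit 4) (nat_lit 493) (nat_lit 390) (nat_lit 317)))) (XT.nd (nat_lit 78) (nat_lit 0) (nat_lit 0) (XT.lf (nat_lit 0) (nat_lit 549971147421) (nat_lit 76) (nat_lit 211594453307) (nat_lit 76) (nat_lit 207352012893) (nat_lit 1) (nat_lit 4) (nat_lit 2) (nat_lit 5) (nat_lit 2) (nat_lit 4) (nat_lit 494) (nat_lit 390) (nat_lit 316)) (XT.nd (nat_lit 78) (nat_lit 0) (nat_lit 0) (XT.lf (nat_lit 0) (nat_lit 615215967296) (nat_lit 76) (nat_lit 217313954305)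 (nat_lit 76) (nat_lit 213070453693) (nat_lit 1) (nat_lit 4) (nat_lit 2) (nat_lit 5) (nat_lit 2) (nat_lit 4) (nat_lit 495) (nat_lit 390) (nat_lit 315)) (XT.lf (nat_lit 0) (nat_lit 685670246598) (nat_lit 76) (nat_lit 223496194729) (nat_lit 76) (nat_lit 219251712452) (nat_lit 1) (nat_lit 4) (nat_lit 2) (nat_lit 5) (nat_lit 2) (nat_lit 4) (nat_lit 496) (nat_lit 390) (nat_lit 314)))))) (XT.nd (nat_lit 390) (nat_lit 0) (nat_lit 0) (XT.nd (nat_lit 156) (nat_lit 0) (nat_lit 0) (XT.nd (nat_lit 78) (nat_lit 0) (nat_lit 0) (XT.lf (nat_lit 0) (nat_lit 761751492169) (nat_lit 76) (nat_lit 230177810076) (nat_lit 76) (nat_lit 225932418852) (nat_lit 1) (nat_lit 4) (nat_lit 2) (nat_lit 5) (nat_lit 2) (nat_lit 4) (nat_lit 497) (nat_lit 390) (nat_lit 313)) (XT.lf (nat_lit 0) (nat_lit 843910555833) (nat_lit 76) (nat_lit 237398395106) (nat_lit 76) (nat_lit 233152162262) (nat_lit 1) (nat_lit 4) (nat_lit 2) (nat_lit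 5) (nat_lit 2) (nat_lit 4) (nat_lit 498) (nat_lit 390) (nat_lit 312))) (XT.nd (nat_lit 78) (nat_lit 0) (nat_lit 0) (XT.lf (nat_lit 0) (nat_lit 932634306116) (nat_lit 76) (nat_lit 245200738469) (nat_lit 76) (nat_lit 240953726349) (nat_lit 1) (nat_lit 4) (nat_lit 2) (nat_lit 5) (nat_lit 2) (nat_lit 4) (nat_lit 499) (nat_lit 390) (nat_lit 311)) (XT.nd (nat_lit 78) (nat_lit 0) (nat_lit 0) (XT.lf (nat_lit 0) (nat_lit 1028448513391) (nat_lit 76) (nat_lit 253631076276) (nat_lit 76) (nat_lit 249383342603) (nat_lit 1) (nat_lit 4) (nat_lit 2) (nat_lit 5) (nat_lit 2) (nat_lit 4) (nat_lit 500) (nat_lit 390) (nat_lit 310)) (XT.lf (nat_lit 0) (nat_lit 1131920965551) (nat_lit 76) (nat_lit 262739366082) (nat_lit 76) (nat_lit 258490964305) (nat_lit 1) (nat_lit 4) (nat_lit 2) (nat_lit 5) (nat_lit 2) (nat_lit 4) (nat_lit 501) (nat_lit 390) (nat_lit 309))))) (XT.nd (nat_lit 234) (nat_lit 0) (nat_lit 0) (XT.nd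 (nat_lit 78) (nat_lit 0) (nat_lit 0) (XT.lf (nat_lit 0) (nat_lit 1243664832684) (nat_lit 76) (nat_lit 272579582939) (nat_lit 76) (nat_lit 268330562547) (nat_lit 1) (nat_lit 4) (nat_lit 2) (nat_lit 5) (nat_lit 2) (nat_lit 4) (nat_lit 502) (nat_lit 390) (nat_lit 308)) (XT.nd (nat_lit 78) (nat_lit 0) (nat_lit 0) (XT.lf (nat_lit 0) (nat_lit 1364342300670) (nat_lit 76) (nat_lit 283210039243) (nat_lit 76) (nat_lit 278960446059) (nat_lit 1) (nat_lit 4) (nat_lit 2) (nat_lit 5) (nat_lit 2) (nat_lit 4) (nat_lit 503) (nat_lit 390) (nat_lit 307)) (XT.lf (nat_lit 0) (nat_lit 1494668495244) (nat_lit 76) (nat_lit 294693730291) (nat_lit 76) (nat_lit 290443606744) (nat_lit 1) (nat_lit 4) (nat_lit 2) (nat_lit 5) (nat_lit 2) (nat_lit 4) (nat_lit 504) (nat_lit 390) (nat_lit 306)))) (XT.nd (nat_lit 78) (nat_lit 0) (nat_lit 0) (XT.lf (nat_lit 0) (nat_lit 1635415719783) (nat_lit 76) (nat_lit 307098707585) (nat_lit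 76) (nat_lit 302848092961) (nat_lit 1) (nat_lit 4) (nat_lit 2) (nat_lit 5) (nat_lit 2) (nat_lit 4) (nat_lit 505) (nat_lit 390) (nat_lit 305)) (XT.nd (nat_lit 78) (nat_lit 0) (nat_lit 0) (XT.lf (nat_lit 0) (nat_lit 1787418031911) (nat_lit 76) (nat_lit 320498482101) (nat_lit 76) (nat_lit 316247412777) (nat_lit 1) (nat_lit 4) (nat_lit 2) (nat_lit 5) (nat_lit 2) (nat_lit 4) (nat_lit 506) (nat_lit 390) (nat_lit 304)) (XT.lf (nat_lit 0) (nat_lit 1951576186073) (nat_lit 76) (nat_lit 334972459912) (nat_lit 76) (nat_lit 330720969569) (nat_lit 1) (nat_lit 4) (nat_lit 2) (nat_lit 5) (nat_lit 2) (nat_lit 4) (nat_lit 507) (nat_lit 390) (nat_lit 303))))))) (XT.nd (nat_lit 858) (nat_lit 0) (nat_lit 0) (XT.nd (nat_lit 390) (nat_lit 0) (nat_lit 0) (XT.nd (nat_lit 156) (nat_lit 0) (nat_lit 0) (XT.nd (nat_lit 78) (nat_lit 0) (nat_lit 0) (XT.lf (nat_lit 0) (nat_lit 2128862971329) (nat_lit 76) (nat_lit 350606412736)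 (nat_lit 76) (nat_lit 346354532561) (nat_lit 1) (nat_lit 4) (nat_lit 2) (nat_lit 5) (nat_lit 2) (nat_lit 4) (nat_lit 508) (nat_lit 390) (nat_lit 302)) (XT.lf (nat_lit 0) (nat_lit 2320328976037) (nat_lit 76) (nat_lit 367492986222) (nat_lit 76) (nat_lit 363240745090) (nat_lit 1) (nat_lit 4) (nat_lit 2) (nat_lit 5) (nat_lit 2) (nat_lit 4) (nat_lit 509) (nat_lit 390) (nat_lit 301))) (XT.nd (nat_lit 78) (nat_lit 0) (nat_lit 0) (XT.lf (nat_lit 0) (nat_lit 2527108813558) (nat_lit 76) (nat_lit 385732248951) (nat_lit 76) (nat_lit 381479673601) (nat_lit 1) (nat_lit 4) (nat_lit 2) (nat_lit 5) (nat_lit 2) (nat_lit 4) (nat_lit 510) (nat_lit 390) (nat_lit 300)) (XT.nd (nat_lit 78) (nat_lit 0) (nat_lit 0) (XT.lf (nat_lit 0) (nat_lit 2750427845891) (nat_lit 76) (nat_lit 405432285445) (nat_lit 76) (nat_lit 401179400633) (nat_lit 1) (nat_lit 4) (nat_lit 2) (nat_lit 5) (nat_lit 2) (nat_lit 4) (nat_lit 511)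 (nat_lit 390) (nat_lit 299)) (XT.lf (nat_lit 0) (nat_lit 2991609445082) (nat_lit 76) (nat_lit 426709836659) (nat_lit 76) (nat_lit 422456665310) (nat_lit 1) (nat_lit 4) (nat_lit 2) (nat_lit 5) (nat_lit 2) (nat_lit 4) (nat_lit 512) (nat_lit 390) (nat_lit 298))))) (XT.nd (nat_lit 234) (nat_lit 0) (nat_lit 0) (XT.nd (nat_lit 78) (nat_lit 0) (nat_lit 0) (XT.lf (nat_lit 0) (nat_lit 3252082835420) (nat_lit 76) (nat_lit 449690991788) (nat_lit 76) (nat_lit 445437555124) (nat_lit 1) (nat_lit 4) (nat_lit 2) (nat_lit 5) (nat_lit 2) (nat_lit 4) (nat_lit 513) (nat_lit 390) (nat_lit 297)) (XT.nd (nat_lit 78) (nat_lit 0) (nat_lit 0) (XT.lf (nat_lit 0) (nat_lit 3533391562923) (nat_lit 76) (nat_lit 474511935452) (nat_lit 76) (nat_lit 470258253128) (nat_lit 1) (nat_lit 4) (nat_lit 2) (nat_lit 5) (nat_lit 2) (nat_lit 4) (nat_lit 514) (nat_lit 390) (nat_lit 296)) (XT.lf (nat_lit 0) (nat_lit 3837202642272) (nat_lit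 76) (nat_lit 501319754727) (nat_lit 76) (nat_lit 497065844940) (nat_lit 1) (nat_lit 4) (nat_lit 2) (nat_lit 5) (nat_lit 2) (nat_lit 4) (nat_lit 515) (nat_lit 390) (nat_lit 295)))) (XT.nd (nat_lit 78) (nat_lit 0) (nat_lit 0) (XT.lf (nat_lit 0) (nat_lit 4165316435419) (nat_lit 76) (nat_lit 530273310763) (nat_lit 76) (nat_lit 526019190361) (nat_lit 1) (nat_lit 4) (nat_lit 2) (nat_lit 5) (nat_lit 2) (nat_lit 4) (nat_lit 516) (nat_lit 390) (nat_lit 294)) (XT.nd (nat_lit 78) (nat_lit 0) (nat_lit 0) (XT.lf (nat_lit 0) (nat_lit 4519677320398) (nat_lit 76) (nat_lit 561544180189) (nat_lit 76) (nat_lit 557289864774) (nat_lit 1) (nat_lit 4) (nat_lit 2) (nat_lit 5) (nat_lit 2) (nat_lit 4) (nat_lit 517) (nat_lit 390) (nat_lit 293)) (XT.lf (nat_lit 0) (nat_lit 4902385213564) (nat_lit 76) (nat_lit 595317671860) (nat_lit 76) (nat_lit 591063175877) (nat_lit 1) (nat_lit 4) (nat_lit 2) (nat_lit 5) (nat_lit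 2) (nat_lit 4) (nat_lit 518) (nat_lit 390) (nat_lit 292)))))) (XT.nd (nat_lit 468) (nat_lit 0) (nat_lit 0) (XT.nd (nat_lit 234) (nat_lit 0) (nat_lit 0) (XT.nd (nat_lit 78) (nat_lit 0) (nat_lit 0) (XT.lf (nat_lit 0) (nat_lit 5315708013543) (nat_lit 76) (nat_lit 631793924986) (nat_lit 76) (nat_lit 627539261811) (nat_lit 1) (nat_lit 4) (nat_lit 2) (nat_lit 5) (nat_lit 2) (nat_lit 4) (nat_lit 519) (nat_lit 390) (nat_lit 291)) (XT.nd (nat_lit 78) (nat_lit 0) (nat_lit 0) (XT.lf (nat_lit 0) (nat_lit 5762095040631) (nat_lit 76) (nat_lit 671189095142) (nat_lit 76) (nat_lit 666934277159) (nat_lit 1) (nat_lit 4) (nat_lit 2) (nat_lit 5) (nat_lit 2) (nat_lit 4) (nat_lit 520) (nat_lit 390) (nat_lit 290)) (XT.lf (nat_lit 0) (nat_lit 6244191551285) (nat_lit 76) (nat_lit 713736635188) (nat_lit 76) (nat_lit 709481673864) (nat_lit 1) (nat_lit 4) (nat_lit 2) (nat_lit 5) (nat_lit 2) (nat_lit 4) (nat_lit 521)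 (nat_lit 390) (nat_lit 289)))) (XT.nd (nat_lit 78) (nat_lit 0) (nat_lit 0) (XT.lf (nat_lit 0) (nat_lit 6764854413716) (nat_lit 76) (nat_lit 759688678694) (nat_lit 76) (nat_lit 755433584648) (nat_lit 1) (nat_lit 4) (nat_lit 2) (nat_lit 5) (nat_lit 2) (nat_lit 4) (nat_lit 522) (nat_lit 390) (nat_lit 288)) (XT.nd (nat_lit 78) (nat_lit 0) (nat_lit 0) (XT.lf (nat_lit 0) (nat_lit 7327169037480) (nat_lit 76) (nat_lit 809317534066) (nat_lit 76) (nat_lit 805062317128) (nat_lit 1) (nat_lit 4) (nat_lit 2) (nat_lit 5) (nat_lit 2) (nat_lit 4) (nat_lit 523) (nat_lit 390) (nat_lit 287)) (XT.lf (nat_lit 0) (nat_lit 7934467657384) (nat_lit 76) (nat_lit 862917298226) (nat_lit 76) (nat_lit 858661967499) (nat_lit 1) (nat_lit 4) (nat_lit 2) (nat_lit 5) (nat_lit 2) (nat_lit 4) (nat_lit 524) (nat_lit 390) (nat_lit 286))))) (XT.nd (nat_lit 234) (nat_lit 0) (nat_lit 0) (XT.nd (nat_lit 78) (nat_lit 0) (nat_lit 0)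 (XT.lf (nat_lit 0) (nat_lit 8590349080064) (nat_lit 76) (nat_lit 920805599404) (nat_lit 76) (nat_lit 916550163318) (nat_lit 1) (nat_lit 4) (nat_lit 2) (nat_lit 5) (nat_lit 2) (nat_lit 4) (nat_lit 525) (nat_lit 390) (nat_lit 285)) (XT.nd (nat_lit 78) (nat_lit 0) (nat_lit 0) (XT.lf (nat_lit 0) (nat_lit 9298700010248) (nat_lit 76) (nat_lit 983325479386) (nat_lit 76) (nat_lit 979069945745) (nat_lit 1) (nat_lit 4) (nat_lit 2) (nat_lit 5) (nat_lit 2) (nat_lit 4) (nat_lit 526) (nat_lit 390) (nat_lit 284)) (XT.lf (nat_lit 0) (nat_lit 10063718083077) (nat_lit 76) (nat_lit 1050847426350) (nat_lit 76) (nat_lit 1046591802380) (nat_lit 1) (nat_lit 4) (nat_lit 2) (nat_lit 5) (nat_lit 2) (nat_lit 4) (nat_lit 527) (nat_lit 390) (nat_lit 283)))) (XT.nd (nat_lit 53898) (nat_lit 0) (nat_lit 3268) (XT.lf (nat_lit 0) (nat_lit 10889936738983) (nat_lit 76) (nat_lit 1123771570351) (nat_lit 76) (nat_lit 1119515862743)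 (nat_lit 1) (nat_lit 4) (nat_lit 2) (nat_lit 5) (nat_lit 2) (nat_lit 4) (nat_lit 528) (nat_lit 390) (nat_lit 282)) (XT.nd (nat_lit 78) (nat_lit 152) (nat_lit 0) (XT.lf (nat_lit 0) (nat_lit 1517396100) (nat_lit 228) (nat_lit 1389604954) (nat_lit 0) (nat_lit 1517396100) (nat_lit 46) (nat_lit 5) (nat_lit 49) (nat_lit 4) (nat_lit 46) (nat_lit 4) (nat_lit 418) (nat_lit 391) (nat_lit 391)) (XT.lf (nat_lit 0) (nat_lit 4889756562) (nat_lit 152) (nat_lit 2587361825) (nat_lit 152) (nat_lit 1661220491) (nat_lit 44) (nat_lit 4) (nat_lit 46) (nat_lit 5) (nat_lit 46) (nat_lit 4) (nat_lit 419) (nat_lit 391) (nat_lit 390))))))))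
noncomputable def xc69 : XT := (XT.nd (nat_lit 1716) (nat_lit 912) (nat_lit 0) (XT.nd (nat_lit 858) (nat_lit 760) (nat_lit 0) (XT.nd (nat_lit 390) (nat_lit 608) (nat_lit 0) (XT.nd (nat_lit 156) (nat_lit 380) (nat_lit 0) (XT.nd (nat_lit 78) (nat_lit 152) (nat_lit 0) (XT.lf (nat_lit 0) (nat_lit 2606953847) (nat_lit 228) (nat_lit 5889414671) (nat_lit 0) (nat_lit 955398656) (nat_lit 41) (nat_lit 5) (nat_lit 44) (nat_lit 4) (nat_lit 41) (nat_lit 4) (nat_lit 420) (nat_lit 391) (nat_lit 389)) (XT.lf (nat_lit 0) (nat_lit 2033998157) (nat_lit 152) (nat_lit 5070722061) (nat_lit 152) (nat_lit 2683966019) (nat_lit 39) (nat_lit 4) (nat_lit 41) (nat_lit 5) (nat_lit 41) (nat_lit 4) (nat_lit 421) (nat_lit 391) (nat_lit 388))) (XT.nd (nat_lit 78) (nat_lit 228) (nat_lit 0) (XT.lf (nat_lit 0) (nat_lit 339608783) (nat_lit 76) (nat_lit 1298423117) (nat_lit 152) (nat_lit 8517625045) (nat_lit 37) (nat_lit 5)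 (nat_lit 38) (nat_lit 5) (nat_lit 39) (nat_lit 4) (nat_lit 422) (nat_lit 391) (nat_lit 387)) (XT.nd (nat_lit 78) (nat_lit 228) (nat_lit 0) (XT.lf (nat_lit 0) (nat_lit 6195757971) (nat_lit 152) (nat_lit 1576075061) (nat_lit 0) (nat_lit 2771856304) (nat_lit 37) (nat_lit 5) (nat_lit 39) (nat_lit 4) (nat_lit 37) (nat_lit 4) (nat_lit 423) (nat_lit 391) (nat_lit 386)) (XT.lf (nat_lit 0) (nat_lit 124450495) (nat_lit 228) (nat_lit 3705439208) (nat_lit 76) (nat_lit 7134492703) (nat_lit 34) (nat_lit 5) (nat_lit 37) (nat_lit 5) (nat_lit 35) (nat_lit 4) (nat_lit 424) (nat_lit 391) (nat_lit 385))))) (XT.nd (nat_lit 234) (nat_lit 228) (nat_lit 0) (XT.nd (nat_lit 78) (nat_lit 304) (nat_lit 0) (XT.lf (nat_lit 0) (nat_lit 4674655648) (nat_lit 152) (nat_lit 6197998772) (nat_lit 0) (nat_lit 540709736) (nat_lit 33) (nat_lit 5) (nat_lit 35) (nat_lit 4) (nat_lit 33) (nat_lit 4) (nat_lit 425) (nat_lit 391) (nat_lit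 384)) (XT.nd (nat_lit 78) (nat_lit 152) (nat_lit 0) (XT.lf (nat_lit 0) (nat_lit 2812533705) (nat_lit 152) (nat_lit 6822511896) (nat_lit 152) (nat_lit 2259583349) (nat_lit 31) (nat_lit 4) (nat_lit 33) (nat_lit 5) (nat_lit 33) (nat_lit 4) (nat_lit 426) (nat_lit 391) (nat_lit 383)) (XT.lf (nat_lit 0) (nat_lit 32560139) (nat_lit 76) (nat_lit 2367773913) (nat_lit 152) (nat_lit 10013037326) (nat_lit 29) (nat_lit 5) (nat_lit 30) (nat_lit 5) (nat_lit 31) (nat_lit 4) (nat_lit 427) (nat_lit 391) (nat_lit 382)))) (XT.nd (nat_lit 78) (nat_lit 228) (nat_lit 0) (XT.lf (nat_lit 0) (nat_lit 7404331819) (nat_lit 152) (nat_lit 3086088845) (nat_lit 0) (nat_lit 2471074267) (nat_lit 29) (nat_lit 5) (nat_lit 31) (nat_lit 4) (nat_lit 29) (nat_lit 4) (nat_lit 428) (nat_lit 391) (nat_lit 381)) (XT.nd (nat_lit 78) (nat_lit 152) (nat_lit 0) (XT.lf (nat_lit 0) (nat_lit 6862390438) (nat_lit 76) (nat_lit 5968939355)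 (nat_lit 76) (nat_lit 720366759) (nat_lit 28) (nat_lit 4) (nat_lit 29) (nat_lit 5) (nat_lit 29) (nat_lit 4) (nat_lit 429) (nat_lit 391) (nat_lit 380)) (XT.lf (nat_lit 0) (nat_lit 3280599476) (nat_lit 76) (nat_lit 960328622) (nat_lit 152) (nat_lit 9942531699) (nat_lit 26) (nat_lit 5) (nat_lit 27) (nat_lit 5) (nat_lit 28) (nat_lit 4) (nat_lit 430) (nat_lit 391) (nat_lit 379)))))) (XT.nd (nat_lit 390) (nat_lit 456) (nat_lit 0) (XT.nd (nat_lit 156) (nat_lit 152) (nat_lit 0) (XT.nd (nat_lit 78) (nat_lit 152) (nat_lit 0) (XT.lf (nat_lit 0) (nat_lit 9654466667) (nat_lit 152) (nat_lit 928255553) (nat_lit 0) (nat_lit 4274038152) (nat_lit 26) (nat_lit 5) (nat_lit 28) (nat_lit 4) (nat_lit 26) (nat_lit 4) (nat_lit 431) (nat_lit 391) (nat_lit 378)) (XT.lf (nat_lit 0) (nat_lit 2531166) (nat_lit 152) (nat_lit 5606929658) (nat_lit 76) (nat_lit 9968154628) (nat_lit 24) (nat_lit 5) (nat_lit 26) (nat_lit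 5) (nat_lit 25) (nat_lit 4) (nat_lit 432) (nat_lit 391) (nat_lit 377))) (XT.nd (nat_lit 78) (nat_lit 76) (nat_lit 0) (XT.lf (nat_lit 0) (nat_lit 5217068178) (nat_lit 76) (nat_lit 92480274) (nat_lit 152) (nat_lit 11038458147) (nat_lit 23) (nat_lit 5) (nat_lit 24) (nat_lit 5) (nat_lit 25) (nat_lit 4) (nat_lit 433) (nat_lit 391) (nat_lit 376)) (XT.nd (nat_lit 78) (nat_lit 76) (nat_lit 0) (XT.lf (nat_lit 0) (nat_lit 11156495880) (nat_lit 152) (nat_lit 436994279) (nat_lit 0) (nat_lit 5577334244) (nat_lit 23) (nat_lit 5) (nat_lit 25) (nat_lit 4) (nat_lit 23) (nat_lit 4) (nat_lit 434) (nat_lit 391) (nat_lit 375)) (XT.lf (nat_lit 0) (nat_lit 11353930622) (nat_lit 76) (nat_lit 6223297140) (nat_lit 76) (nat_lit 473780597) (nat_lit 22) (nat_lit 4) (nat_lit 23) (nat_lit 5) (nat_lit 23) (nat_lit 4) (nat_lit 435) (nat_lit 391) (nat_lit 374))))) (XT.nd (nat_lit 234) (nat_lit 228) (nat_lit 0) (XT.nd (nat_lit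 78) (nat_lit 76) (nat_lit 0) (XT.lf (nat_lit 0) (nat_lit 4899808323) (nat_lit 76) (nat_lit 295894027) (nat_lit 152) (nat_lit 13798417209) (nat_lit 20) (nat_lit 5) (nat_lit 21) (nat_lit 5) (nat_lit 22) (nat_lit 4) (nat_lit 436) (nat_lit 391) (nat_lit 373)) (XT.nd (nat_lit 78) (nat_lit 76) (nat_lit 0) (XT.lf (nat_lit 0) (nat_lit 11460296770) (nat_lit 152) (nat_lit 2682659490) (nat_lit 0) (nat_lit 5855385249) (nat_lit 20) (nat_lit 5) (nat_lit 22) (nat_lit 4) (nat_lit 20) (nat_lit 4) (nat_lit 437) (nat_lit 391) (nat_lit 372)) (XT.lf (nat_lit 0) (nat_lit 9823776622) (nat_lit 76) (nat_lit 8491082474) (nat_lit 76) (nat_lit 2760955012) (nat_lit 19) (nat_lit 4) (nat_lit 20) (nat_lit 5) (nat_lit 20) (nat_lit 4) (nat_lit 438) (nat_lit 391) (nat_lit 371)))) (XT.nd (nat_lit 78) (nat_lit 76) (nat_lit 0) (XT.lf (nat_lit 0) (nat_lit 907090882) (nat_lit 76) (nat_lit 2339620190) (nat_lit 152) (nat_lit 18990703058)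 (nat_lit 17) (nat_lit 5) (nat_lit 18) (nat_lit 5) (nat_lit 19) (nat_lit 4) (nat_lit 439) (nat_lit 391) (nat_lit 370)) (XT.nd (nat_lit 78) (nat_lit 76) (nat_lit 0) (XT.lf (nat_lit 0) (nat_lit 9851211198) (nat_lit 152) (nat_lit 9274991935) (nat_lit 0) (nat_lit 4338784682) (nat_lit 17) (nat_lit 5) (nat_lit 19) (nat_lit 4) (nat_lit 17) (nat_lit 4) (nat_lit 440) (nat_lit 391) (nat_lit 369)) (XT.lf (nat_lit 0) (nat_lit 3582357666) (nat_lit 76) (nat_lit 13406261170) (nat_lit 76) (nat_lit 7801797198) (nat_lit 16) (nat_lit 4) (nat_lit 17) (nat_lit 5) (nat_lit 17) (nat_lit 4) (nat_lit 441) (nat_lit 391) (nat_lit 368))))))) (XT.nd (nat_lit 858) (nat_lit 380) (nat_lit 0) (XT.nd (nat_lit 390) (nat_lit 304) (nat_lit 0) (XT.nd (nat_lit 156) (nat_lit 76) (nat_lit 0) (XT.nd (nat_lit 78) (nat_lit 152) (nat_lit 0) (XT.lf (nat_lit 0) (nat_lit 17722039292) (nat_lit 76) (nat_lit 7090160075) (nat_lit 76) (nat_lit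 1400476238) (nat_lit 16) (nat_lit 4) (nat_lit 17) (nat_lit 5) (nat_lit 17) (nat_lit 4) (nat_lit 442) (nat_lit 391) (nat_lit 367)) (XT.lf (nat_lit 0) (nat_lit 5106657721) (nat_lit 76) (nat_lit 121827298) (nat_lit 152) (nat_lit 22510328691) (nat_lit 14) (nat_lit 5) (nat_lit 15) (nat_lit 5) (nat_lit 16) (nat_lit 4) (nat_lit 443) (nat_lit 391) (nat_lit 366))) (XT.nd (nat_lit 78) (nat_lit 76) (nat_lit 0) (XT.lf (nat_lit 0) (nat_lit 12597453338) (nat_lit 152) (nat_lit 9575345420) (nat_lit 0) (nat_lit 7188514986) (nat_lit 14) (nat_lit 5) (nat_lit 16) (nat_lit 4) (nat_lit 14) (nat_lit 4) (nat_lit 444) (nat_lit 391) (nat_lit 365)) (XT.nd (nat_lit 78) (nat_lit 0) (nat_lit 0) (XT.lf (nat_lit 0) (nat_lit 4506610277) (nat_lit 76) (nat_lit 16039680662) (nat_lit 76) (nat_lit 10568103164) (nat_lit 13) (nat_lit 4) (nat_lit 14) (nat_lit 5) (nat_lit 14) (nat_lit 4) (nat_lit 445) (nat_lit 391) (nat_lit 364))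 (XT.lf (nat_lit 0) (nat_lit 20024124877) (nat_lit 76) (nat_lit 9250833371) (nat_lit 76) (nat_lit 3721256665) (nat_lit 13) (nat_lit 4) (nat_lit 14) (nat_lit 5) (nat_lit 14) (nat_lit 4) (nat_lit 446) (nat_lit 391) (nat_lit 363))))) (XT.nd (nat_lit 234) (nat_lit 152) (nat_lit 0) (XT.nd (nat_lit 78) (nat_lit 0) (nat_lit 0) (XT.lf (nat_lit 0) (nat_lit 1518042562) (nat_lit 76) (nat_lit 1896054668) (nat_lit 152) (nat_lit 31613462177) (nat_lit 11) (nat_lit 5) (nat_lit 12) (nat_lit 5) (nat_lit 13) (nat_lit 4) (nat_lit 447) (nat_lit 391) (nat_lit 362)) (XT.nd (nat_lit 78) (nat_lit 0) (nat_lit 0) (XT.lf (nat_lit 0) (nat_lit 11316980220) (nat_lit 152) (nat_lit 19763650185) (nat_lit 0) (nat_lit 6101235173) (nat_lit 11) (nat_lit 5) (nat_lit 13) (nat_lit 4) (nat_lit 11) (nat_lit 4) (nat_lit 448) (nat_lit 391) (nat_lit 361)) (XT.lf (nat_lit 0) (nat_lit 19798027067) (nat_lit 152) (nat_lit 5175169409) (nat_lit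 0) (nat_lit 14539650870) (nat_lit 11) (nat_lit 5) (nat_lit 13) (nat_lit 4) (nat_lit 11) (nat_lit 4) (nat_lit 449) (nat_lit 391) (nat_lit 360)))) (XT.nd (nat_lit 78) (nat_lit 76) (nat_lit 0) (XT.lf (nat_lit 0) (nat_lit 10934988300) (nat_lit 76) (nat_lit 18189894099) (nat_lit 76) (nat_lit 12892044614) (nat_lit 10) (nat_lit 4) (nat_lit 11) (nat_lit 5) (nat_lit 11) (nat_lit 4) (nat_lit 450) (nat_lit 391) (nat_lit 359)) (XT.nd (nat_lit 78) (nat_lit 76) (nat_lit 0) (XT.lf (nat_lit 0) (nat_lit 28440732406) (nat_lit 76) (nat_lit 10805565726) (nat_lit 76) (nat_lit 5471166902) (nat_lit 10) (nat_lit 4) (nat_lit 11) (nat_lit 5) (nat_lit 11) (nat_lit 4) (nat_lit 451) (nat_lit 391) (nat_lit 358)) (XT.lf (nat_lit 0) (nat_lit 2327716690) (nat_lit 152) (nat_lit 526590089) (nat_lit 76) (nat_lit 44781924811) (nat_lit 9) (nat_lit 5) (nat_lit 11) (nat_lit 5) (nat_lit 10) (nat_lit 4) (nat_lit 452) (nat_lit 391)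 (nat_lit 357)))))) (XT.nd (nat_lit 468) (nat_lit 228) (nat_lit 0) (XT.nd (nat_lit 234) (nat_lit 76) (nat_lit 0) (XT.nd (nat_lit 78) (nat_lit 0) (nat_lit 0) (XT.lf (nat_lit 0) (nat_lit 10932777141) (nat_lit 152) (nat_lit 33872959732) (nat_lit 0) (nat_lit 5933169758) (nat_lit 8) (nat_lit 5) (nat_lit 10) (nat_lit 4) (nat_lit 8) (nat_lit 4) (nat_lit 453) (nat_lit 391) (nat_lit 356)) (XT.nd (nat_lit 78) (nat_lit 0) (nat_lit 0) (XT.lf (nat_lit 0) (nat_lit 20233510215) (nat_lit 152) (nat_lit 18648669691) (nat_lit 0) (nat_lit 15207037976) (nat_lit 8) (nat_lit 5) (nat_lit 10) (nat_lit 4) (nat_lit 8) (nat_lit 4) (nat_lit 454) (nat_lit 391) (nat_lit 355)) (XT.lf (nat_lit 0) (nat_lit 30202707556) (nat_lit 152) (nat_lit 2359536938) (nat_lit 0) (nat_lit 25151360451) (nat_lit 8) (nat_lit 5) (nat_lit 10) (nat_lit 4) (nat_lit 8) (nat_lit 4) (nat_lit 455) (nat_lit 391) (nat_lit 354)))) (XT.nd (nat_lit 78)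 (nat_lit 0) (nat_lit 0) (XT.lf (nat_lit 0) (nat_lit 15885630283) (nat_lit 76) (nat_lit 25395865396) (nat_lit 76) (nat_lit 20321486007) (nat_lit 7) (nat_lit 4) (nat_lit 8) (nat_lit 5) (nat_lit 8) (nat_lit 4) (nat_lit 456) (nat_lit 391) (nat_lit 353)) (XT.nd (nat_lit 78) (nat_lit 0) (nat_lit 0) (XT.lf (nat_lit 0) (nat_lit 35586428979) (nat_lit 76) (nat_lit 17656538788) (nat_lit 76) (nat_lit 12560833210) (nat_lit 7) (nat_lit 4) (nat_lit 8) (nat_lit 5) (nat_lit 8) (nat_lit 4) (nat_lit 457) (nat_lit 391) (nat_lit 352)) (XT.lf (nat_lit 0) (nat_lit 56735355587) (nat_lit 76) (nat_lit 9362915915) (nat_lit 76) (nat_lit 4247463866) (nat_lit 7) (nat_lit 4) (nat_lit 8) (nat_lit 5) (nat_lit 8) (nat_lit 4) (nat_lit 458) (nat_lit 391) (nat_lit 351))))) (XT.nd (nat_lit 234) (nat_lit 76) (nat_lit 0) (XT.nd (nat_lit 78) (nat_lit 0) (nat_lit 0) (XT.lf (nat_lit 0) (nat_lit 4305134536) (nat_lit 76) (nat_lit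 232783903) (nat_lit 152) (nat_lit 70700517480) (nat_lit 5) (nat_lit 5) (nat_lit 6) (nat_lit 5) (nat_lit 7) (nat_lit 4) (nat_lit 459) (nat_lit 391) (nat_lit 350)) (XT.nd (nat_lit 78) (nat_lit 0) (nat_lit 0) (XT.lf (nat_lit 0) (nat_lit 14350211730) (nat_lit 152) (nat_lit 56538155448) (nat_lit 0) (nat_lit 9581077253) (nat_lit 5) (nat_lit 5) (nat_lit 7) (nat_lit 4) (nat_lit 5) (nat_lit 4) (nat_lit 460) (nat_lit 391) (nat_lit 349)) (XT.lf (nat_lit 0) (nat_lit 24898172113) (nat_lit 152) (nat_lit 41110185391) (nat_lit 0) (nat_lit 20114523391) (nat_lit 5) (nat_lit 5) (nat_lit 7) (nat_lit 4) (nat_lit 5) (nat_lit 4) (nat_lit 461) (nat_lit 391) (nat_lit 348)))) (XT.nd (nat_lit 78) (nat_lit 76) (nat_lit 0) (XT.lf (nat_lit 0) (nat_lit 36238707562) (nat_lit 152) (nat_lit 24552367748) (nat_lit 0) (nat_lit 31441619723) (nat_lit 5) (nat_lit 5) (nat_lit 7) (nat_lit 4) (nat_lit 5) (nat_lit 4) (nat_lit 462)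 (nat_lit 391) (nat_lit 347)) (XT.nd (nat_lit 78) (nat_lit 76) (nat_lit 0) (XT.lf (nat_lit 0) (nat_lit 48439021250) (nat_lit 152) (nat_lit 6766582118) (nat_lit 0) (nat_lit 43629489785) (nat_lit 5) (nat_lit 5) (nat_lit 7) (nat_lit 4) (nat_lit 5) (nat_lit 4) (nat_lit 463) (nat_lit 391) (nat_lit 346)) (XT.lf (nat_lit 0) (nat_lit 13003033127) (nat_lit 76) (nat_lit 48881101464) (nat_lit 76) (nat_lit 44060048123) (nat_lit 4) (nat_lit 4) (nat_lit 5) (nat_lit 5) (nat_lit 5) (nat_lit 4) (nat_lit 464) (nat_lit 391) (nat_lit 345))))))))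
noncomputable def xc70 : XT := (XT.nd (nat_lit 1716) (nat_lit 0) (nat_lit 0) (XT.nd (nat_lit 858) (nat_lit 76) (nat_lit 0) (XT.nd (nat_lit 390) (nat_lit 152) (nat_lit 0) (XT.nd (nat_lit 156) (nat_lit 0) (nat_lit 0) (XT.nd (nat_lit 78) (nat_lit 0) (nat_lit 0) (XT.lf (nat_lit 0) (nat_lit 34651807261) (nat_lit 76) (nat_lit 41895268915) (nat_lit 76) (nat_lit 37063547171) (nat_lit 4) (nat_lit 4) (nat_lit 5) (nat_lit 5) (nat_lit 5) (nat_lit 4) (nat_lit 465) (nat_lit 391) (nat_lit 344)) (XT.lf (nat_lit 0) (nat_lit 57951713092) (nat_lit 76) (nat_lit 34391718543) (nat_lit 76) (nat_lit 29550118647) (nat_lit 4) (nat_lit 4) (nat_lit 5) (nat_lit 5) (nat_lit 5) (nat_lit 4) (nat_lit 466) (nat_lit 391) (nat_lit 343))) (XT.nd (nat_lit 78) (nat_lit 0) (nat_lit 0) (XT.lf (nat_lit 0) (nat_lit 83040824137) (nat_lit 76) (nat_lit 26325984864) (nat_lit 76) (nat_lit 21475238531) (nat_lit 4) (nat_lit 4) (nat_lit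 5) (nat_lit 5) (nat_lit 5) (nat_lit 4) (nat_lit 467) (nat_lit 391) (nat_lit 342)) (XT.nd (nat_lit 78) (nat_lit 0) (nat_lit 0) (XT.lf (nat_lit 0) (nat_lit 110067816608) (nat_lit 76) (nat_lit 17650270937) (nat_lit 76) (nat_lit 12791055681) (nat_lit 4) (nat_lit 4) (nat_lit 5) (nat_lit 5) (nat_lit 5) (nat_lit 4) (nat_lit 468) (nat_lit 391) (nat_lit 341)) (XT.lf (nat_lit 0) (nat_lit 139192850461) (nat_lit 76) (nat_lit 8313165125) (nat_lit 76) (nat_lit 3446108273) (nat_lit 4) (nat_lit 4) (nat_lit 5) (nat_lit 5) (nat_lit 5) (nat_lit 4) (nat_lit 469) (nat_lit 391) (nat_lit 340))))) (XT.nd (nat_lit 234) (nat_lit 0) (nat_lit 0) (XT.nd (nat_lit 78) (nat_lit 0) (nat_lit 0) (XT.lf (nat_lit 0) (nat_lit 6542965744) (nat_lit 152) (nat_lit 153626760643) (nat_lit 0) (nat_lit 2029708718) (nat_lit 2) (nat_lit 5) (nat_lit 4) (nat_lit 4) (nat_lit 2) (nat_lit 4) (nat_lit 470) (nat_lit 391) (nat_lit 339)) (XT.nd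 (nat_lit 78) (nat_lit 0) (nat_lit 0) (XT.lf (nat_lit 0) (nat_lit 17660958858) (nat_lit 152) (nat_lit 143495657765) (nat_lit 0) (nat_lit 13141476921) (nat_lit 2) (nat_lit 5) (nat_lit 4) (nat_lit 4) (nat_lit 2) (nat_lit 4) (nat_lit 471) (nat_lit 391) (nat_lit 338)) (XT.lf (nat_lit 0) (nat_lit 29640776272) (nat_lit 152) (nat_lit 132610547850) (nat_lit 0) (nat_lit 25115530528) (nat_lit 2) (nat_lit 5) (nat_lit 4) (nat_lit 4) (nat_lit 2) (nat_lit 4) (nat_lit 472) (nat_lit 391) (nat_lit 337)))) (XT.nd (nat_lit 78) (nat_lit 0) (nat_lit 0) (XT.lf (nat_lit 0) (nat_lit 42553409495) (nat_lit 152) (nat_lit 120906926543) (nat_lit 0) (nat_lit 38022826893) (nat_lit 2) (nat_lit 5) (nat_lit 4) (nat_lit 4) (nat_lit 2) (nat_lit 4) (nat_lit 473) (nat_lit 391) (nat_lit 336)) (XT.nd (nat_lit 78) (nat_lit 0) (nat_lit 0) (XT.lf (nat_lit 0) (nat_lit 56475377836) (nat_lit 152) (nat_lit 108315439052) (nat_lit 0) (nat_lit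 51939853699) (nat_lit 2) (nat_lit 5) (nat_lit 4) (nat_lit 4) (nat_lit 2) (nat_lit 4) (nat_lit 474) (nat_lit 391) (nat_lit 335)) (XT.lf (nat_lit 0) (nat_lit 71489181848) (nat_lit 152) (nat_lit 94761469154) (nat_lit 0) (nat_lit 66949082215) (nat_lit 2) (nat_lit 5) (nat_lit 4) (nat_lit 4) (nat_lit 2) (nat_lit 4) (nat_lit 475) (nat_lit 391) (nat_lit 334)))))) (XT.nd (nat_lit 390) (nat_lit 76) (nat_lit 0) (XT.nd (nat_lit 156) (nat_lit 0) (nat_lit 0) (XT.nd (nat_lit 78) (nat_lit 0) (nat_lit 0) (XT.lf (nat_lit 0) (nat_lit 87683792221) (nat_lit 152) (nat_lit 80164697028) (nat_lit 0) (nat_lit 83139456018) (nat_lit 2) (nat_lit 5) (nat_lit 4) (nat_lit 4) (nat_lit 2) (nat_lit 4) (nat_lit 476) (nat_lit 391) (nat_lit 333)) (XT.lf (nat_lit 0) (nat_lit 105155177016) (nat_lit 152) (nat_lit 64438623283) (nat_lit 0) (nat_lit 100606918064) (nat_lit 2) (nat_lit 5) (nat_lit 4) (nat_lit 4) (nat_lit 2) (nat_lit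 4) (nat_lit 477) (nat_lit 391) (nat_lit 332))) (XT.nd (nat_lit 78) (nat_lit 0) (nat_lit 0) (XT.lf (nat_lit 0) (nat_lit 124006870367) (nat_lit 152) (nat_lit 47490056371) (nat_lit 0) (nat_lit 119454979238) (nat_lit 2) (nat_lit 5) (nat_lit 4) (nat_lit 4) (nat_lit 2) (nat_lit 4) (nat_lit 478) (nat_lit 391) (nat_lit 331)) (XT.nd (nat_lit 78) (nat_lit 0) (nat_lit 0) (XT.lf (nat_lit 0) (nat_lit 144350586011) (nat_lit 152) (nat_lit 29218560340) (nat_lit 0) (nat_lit 139795331756) (nat_lit 2) (nat_lit 5) (nat_lit 4) (nat_lit 4) (nat_lit 2) (nat_lit 4) (nat_lit 479) (nat_lit 391) (nat_lit 330)) (XT.lf (nat_lit 0) (nat_lit 166306879300) (nat_lit 152) (nat_lit 9515859658) (nat_lit 0) (nat_lit 161748511040) (nat_lit 2) (nat_lit 5) (nat_lit 4) (nat_lit 4) (nat_lit 2) (nat_lit 4) (nat_lit 480) (nat_lit 391) (nat_lit 329))))) (XT.nd (nat_lit 234) (nat_lit 0) (nat_lit 0) (XT.nd (nat_lit 78) (nat_lit 0) (nat_lit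 0) (XT.lf (nat_lit 0) (nat_lit 12352736318) (nat_lit 76) (nat_lit 177950208889) (nat_lit 76) (nat_lit 173388957291) (nat_lit 1) (nat_lit 4) (nat_lit 2) (nat_lit 5) (nat_lit 2) (nat_lit 4) (nat_lit 481) (nat_lit 391) (nat_lit 328)) (XT.nd (nat_lit 78) (nat_lit 0) (nat_lit 0) (XT.lf (nat_lit 0) (nat_lit 36484455993) (nat_lit 76) (nat_lit 179980967381) (nat_lit 76) (nat_lit 175417046025) (nat_lit 1) (nat_lit 4) (nat_lit 2) (nat_lit 5) (nat_lit 2) (nat_lit 4) (nat_lit 482) (nat_lit 391) (nat_lit 327)) (XT.lf (nat_lit 0) (nat_lit 62521213843) (nat_lit 76) (nat_lit 182187229025) (nat_lit 76) (nat_lit 177620835672) (nat_lit 1) (nat_lit 4) (nat_lit 2) (nat_lit 5) (nat_lit 2) (nat_lit 4) (nat_lit 483) (nat_lit 391) (nat_lit 326)))) (XT.nd (nat_lit 78) (nat_lit 0) (nat_lit 0) (XT.lf (nat_lit 0) (nat_lit 90617301766) (nat_lit 76) (nat_lit 184582067966) (nat_lit 76) (nat_lit 180013385725) (nat_lit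 1) (nat_lit 4) (nat_lit 2) (nat_lit 5) (nat_lit 2) (nat_lit 4) (nat_lit 484) (nat_lit 391) (nat_lit 325)) (XT.nd (nat_lit 78) (nat_lit 0) (nat_lit 0) (XT.lf (nat_lit 0) (nat_lit 120939215099) (nat_lit 76) (nat_lit 187179675840) (nat_lit 76) (nat_lit 182608874260) (nat_lit 1) (nat_lit 4) (nat_lit 2) (nat_lit 5) (nat_lit 2) (nat_lit 4) (nat_lit 485) (nat_lit 391) (nat_lit 324)) (XT.lf (nat_lit 0) (nat_lit 153666639253) (nat_lit 76) (nat_lit 189995445880) (nat_lit 76) (nat_lit 185422681948) (nat_lit 1) (nat_lit 4) (nat_lit 2) (nat_lit 5) (nat_lit 2) (nat_lit 4) (nat_lit 486) (nat_lit 391) (nat_lit 323))))))) (XT.nd (nat_lit 858) (nat_lit 0) (nat_lit 0) (XT.nd (nat_lit 390) (nat_lit 0) (nat_lit 0) (XT.nd (nat_lit 156) (nat_lit 0) (nat_lit 0) (XT.nd (nat_lit 78) (nat_lit 0) (nat_lit 0) (XT.lf (nat_lit 0) (nat_lit 188993514519) (nat_lit 76) (nat_lit 193046064131) (nat_lit 76) (nat_lit 188471483207)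 (nat_lit 1) (nat_lit 4) (nat_lit 2) (nat_lit 5) (nat_lit 2) (nat_lit 4) (nat_lit 487) (nat_lit 391) (nat_lit 322)) (XT.lf (nat_lit 0) (nat_lit 227129185345) (nat_lit 76) (nat_lit 196349608330) (nat_lit 76) (nat_lit 191773345006) (nat_lit 1) (nat_lit 4) (nat_lit 2) (nat_lit 5) (nat_lit 2) (nat_lit 4) (nat_lit 488) (nat_lit 391) (nat_lit 321))) (XT.nd (nat_lit 78) (nat_lit 0) (nat_lit 0) (XT.lf (nat_lit 0) (nat_lit 268299640890) (nat_lit 76) (nat_lit 199925655035) (nat_lit 76) (nat_lit 195347833933) (nat_lit 1) (nat_lit 4) (nat_lit 2) (nat_lit 5) (nat_lit 2) (nat_lit 4) (nat_lit 489) (nat_lit 391) (nat_lit 320)) (XT.nd (nat_lit 78) (nat_lit 0) (nat_lit 0) (XT.lf (nat_lit 0) (nat_lit 312748854224) (nat_lit 76) (nat_lit 203795395635) (nat_lit 76) (nat_lit 199216132146) (nat_lit 1) (nat_lit 4) (nat_lit 2) (nat_lit 5) (nat_lit 2) (nat_lit 4) (nat_lit 490) (nat_lit 391) (nat_lit 319)) (XT.lf (nat_lit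 0) (nat_lit 360740228093) (nat_lit 76) (nat_lit 207981761926) (nat_lit 76) (nat_lit 203401162893) (nat_lit 1) (nat_lit 4) (nat_lit 2) (nat_lit 5) (nat_lit 2) (nat_lit 4) (nat_lit 491) (nat_lit 391) (nat_lit 318))))) (XT.nd (nat_lit 234) (nat_lit 0) (nat_lit 0) (XT.nd (nat_lit 78) (nat_lit 0) (nat_lit 0) (XT.lf (nat_lit 0) (nat_lit 412558155823) (nat_lit 76) (nat_lit 212509562003) (nat_lit 76) (nat_lit 207927726356) (nat_lit 1) (nat_lit 4) (nat_lit 2) (nat_lit 5) (nat_lit 2) (nat_lit 4) (nat_lit 492) (nat_lit 391) (nat_lit 317)) (XT.nd (nat_lit 78) (nat_lit 0) (nat_lit 0) (XT.lf (nat_lit 0) (nat_lit 468509706616) (nat_lit 76) (nat_lit 217405627275) (nat_lit 76) (nat_lit 212822646615) (nat_lit 1) (nat_lit 4) (nat_lit 2) (nat_lit 5) (nat_lit 2) (nat_lit 4) (nat_lit 493) (nat_lit 391) (nat_lit 316)) (XT.lf (nat_lit 0) (nat_lit 528926445218) (nat_lit 76) (nat_lit 222698971463) (nat_lit 76) (nat_lit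 218114930605) (nat_lit 1) (nat_lit 4) (nat_lit 2) (nat_lit 5) (nat_lit 2) (nat_lit 4) (nat_lit 494) (nat_lit 391) (nat_lit 315)))) (XT.nd (nat_lit 78) (nat_lit 0) (nat_lit 0) (XT.lf (nat_lit 0) (nat_lit 594166396745) (nat_lit 76) (nat_lit 228420962531) (nat_lit 76) (nat_lit 223835940008) (nat_lit 1) (nat_lit 4) (nat_lit 2) (nat_lit 5) (nat_lit 2) (nat_lit 4) (nat_lit 495) (nat_lit 391) (nat_lit 314)) (XT.nd (nat_lit 78) (nat_lit 0) (nat_lit 0) (XT.lf (nat_lit 0) (nat_lit 664616168318) (nat_lit 76) (nat_lit 234605508575) (nat_lit 76) (nat_lit 230019577104) (nat_lit 1) (nat_lit 4) (nat_lit 2) (nat_lit 5) (nat_lit 2) (nat_lit 4) (nat_lit 496) (nat_lit 391) (nat_lit 313)) (XT.lf (nat_lit 0) (nat_lit 740693240066) (nat_lit 76) (nat_lit 241289258756) (nat_lit 76) (nat_lit 236702485666) (nat_lit 1) (nat_lit 4) (nat_lit 2) (nat_lit 5) (nat_lit 2) (nat_lit 4) (nat_lit 497) (nat_lit 391) (nat_lit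 312)))))) (XT.nd (nat_lit 468) (nat_lit 0) (nat_lit 0) (XT.nd (nat_lit 234) (nat_lit 0) (nat_lit 0) (XT.nd (nat_lit 78) (nat_lit 0) (nat_lit 0) (XT.lf (nat_lit 0) (nat_lit 822848439079) (nat_lit 76) (nat_lit 248511820483) (nat_lit 76) (nat_lit 243924268117) (nat_lit 1) (nat_lit 4) (nat_lit 2) (nat_lit 5) (nat_lit 2) (nat_lit 4) (nat_lit 498) (nat_lit 391) (nat_lit 311)) (XT.nd (nat_lit 78) (nat_lit 0) (nat_lit 0) (XT.lf (nat_lit 0) (nat_lit 911568610982) (nat_lit 76) (nat_lit 256315994123) (nat_lit 76) (nat_lit 251727720203) (nat_lit 1) (nat_lit 4) (nat_lit 2) (nat_lit 5) (nat_lit 2) (nat_lit 4) (nat_lit 499) (nat_lit 391) (nat_lit 310)) (XT.lf (nat_lit 0) (nat_lit 1007379504941) (nat_lit 76) (nat_lit 264748026629) (nat_lit 76) (nat_lit 260159084605) (nat_lit 1) (nat_lit 4) (nat_lit 2) (nat_lit 5) (nat_lit 2) (nat_lit 4) (nat_lit 500) (nat_lit 391) (nat_lit 309)))) (XT.nd (nat_lit 78) (nat_lit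 0) (nat_lit 0) (XT.lf (nat_lit 0) (nat_lit 1110848889217) (nat_lit 76) (nat_lit 273857885602) (nat_lit 76) (nat_lit 269268324963) (nat_lit 1) (nat_lit 4) (nat_lit 2) (nat_lit 5) (nat_lit 2) (nat_lit 4) (nat_lit 501) (nat_lit 391) (nat_lit 308)) (XT.nd (nat_lit 78) (nat_lit 0) (nat_lit 0) (XT.lf (nat_lit 0) (nat_lit 1222589915716) (nat_lit 76) (nat_lit 283699555391) (nat_lit 76) (nat_lit 279109421960) (nat_lit 1) (nat_lit 4) (nat_lit 2) (nat_lit 5) (nat_lit 2) (nat_lit 4) (nat_lit 502) (nat_lit 391) (nat_lit 307)) (XT.lf (nat_lit 0) (nat_lit 1343264753486) (nat_lit 76) (nat_lit 294331357002) (nat_lit 76) (nat_lit 289740693209) (nat_lit 1) (nat_lit 4) (nat_lit 2) (nat_lit 5) (nat_lit 2) (nat_lit 4) (nat_lit 503) (nat_lit 391) (nat_lit 306))))) (XT.nd (nat_lit 234) (nat_lit 0) (nat_lit 0) (XT.nd (nat_lit 78) (nat_lit 0) (nat_lit 0) (XT.lf (nat_lit 0) (nat_lit 1473588512674) (nat_lit 76) (nat_lit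 305816293705) (nat_lit 76) (nat_lit 301225138835) (nat_lit 1) (nat_lit 4) (nat_lit 2) (nat_lit 5) (nat_lit 2) (nat_lit 4) (nat_lit 504) (nat_lit 391) (nat_lit 305)) (XT.nd (nat_lit 78) (nat_lit 0) (nat_lit 0) (XT.lf (nat_lit 0) (nat_lit 1614333482225) (nat_lit 76) (nat_lit 318222424383) (nat_lit 76) (nat_lit 313630814813) (nat_lit 1) (nat_lit 4) (nat_lit 2) (nat_lit 5) (nat_lit 2) (nat_lit 4) (nat_lit 505) (nat_lit 391) (nat_lit 304)) (XT.lf (nat_lit 0) (nat_lit 1766333706403) (nat_lit 76) (nat_lit 331623266848) (nat_lit 76) (nat_lit 327031236258) (nat_lit 1) (nat_lit 4) (nat_lit 2) (nat_lit 5) (nat_lit 2) (nat_lit 4) (nat_lit 506) (nat_lit 391) (nat_lit 303)))) (XT.nd (nat_lit 78) (nat_lit 0) (nat_lit 0) (XT.lf (nat_lit 0) (nat_lit 1930489927277) (nat_lit 76) (nat_lit 346098233499) (nat_lit 76) (nat_lit 341505813077) (nat_lit 1) (nat_lit 4) (nat_lit 2) (nat_lit 5) (nat_lit 2) (nat_lit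 4) (nat_lit 507) (nat_lit 391) (nat_lit 302)) (XT.nd (nat_lit 78) (nat_lit 0) (nat_lit 0) (XT.lf (nat_lit 0) (nat_lit 2107774922452) (nat_lit 76) (nat_lit 361733101918) (nat_lit 76) (nat_lit 357140320540) (nat_lit 1) (nat_lit 4) (nat_lit 2) (nat_lit 5) (nat_lit 2) (nat_lit 4) (nat_lit 508) (nat_lit 391) (nat_lit 301)) (XT.lf (nat_lit 0) (nat_lit 2299239269678) (nat_lit 76) (nat_lit 378620523175) (nat_lit 76) (nat_lit 374027407578) (nat_lit 1) (nat_lit 4) (nat_lit 2) (nat_lit 5) (nat_lit 2) (nat_lit 4) (nat_lit 509) (nat_lit 391) (nat_lit 300))))))))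
noncomputable def xc71 : XT := (XT.nd (nat_lit 55380) (nat_lit 0) (nat_lit 1216) (XT.nd (nat_lit 858) (nat_lit 0) (nat_lit 0) (XT.nd (nat_lit 390) (nat_lit 0) (nat_lit 0) (XT.nd (nat_lit 156) (nat_lit 0) (nat_lit 0) (XT.nd (nat_lit 78) (nat_lit 0) (nat_lit 0) (XT.lf (nat_lit 0) (nat_lit 2506017572492) (nat_lit 76) (nat_lit 396860570878) (nat_lit 76) (nat_lit 392267145820) (nat_lit 1) (nat_lit 4) (nat_lit 2) (nat_lit 5) (nat_lit 2) (nat_lit 4) (nat_lit 510) (nat_lit 391) (nat_lit 299)) (XT.lf (nat_lit 0) (nat_lit 2729335183802) (nat_lit 76) (nat_lit 416561334199) (nat_lit 76) (nat_lit 411967622603) (nat_lit 1) (nat_lit 4) (nat_lit 2) (nat_lit 5) (nat_lit 2) (nat_lit 4) (nat_lit 511) (nat_lit 391) (nat_lit 298))) (XT.nd (nat_lit 78) (nat_lit 0) (nat_lit 0) (XT.lf (nat_lit 0) (nat_lit 2970515467229) (nat_lit 76) (nat_lit 437839558403) (nat_lit 76) (nat_lit 433245581493) (nat_lit 1) (nat_lit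 4) (nat_lit 2) (nat_lit 5) (nat_lit 2) (nat_lit 4) (nat_lit 512) (nat_lit 391) (nat_lit 297)) (XT.nd (nat_lit 78) (nat_lit 0) (nat_lit 0) (XT.lf (nat_lit 0) (nat_lit 3230987639268) (nat_lit 76) (nat_lit 460821336668) (nat_lit 76) (nat_lit 456227114098) (nat_lit 1) (nat_lit 4) (nat_lit 2) (nat_lit 5) (nat_lit 2) (nat_lit 4) (nat_lit 513) (nat_lit 391) (nat_lit 296)) (XT.lf (nat_lit 0) (nat_lit 3512295238716) (nat_lit 76) (nat_lit 485642857312) (nat_lit 76) (nat_lit 481048407278) (nat_lit 1) (nat_lit 4) (nat_lit 2) (nat_lit 5) (nat_lit 2) (nat_lit 4) (nat_lit 514) (nat_lit 391) (nat_lit 295))))) (XT.nd (nat_lit 234) (nat_lit 0) (nat_lit 0) (XT.nd (nat_lit 78) (nat_lit 0) (nat_lit 0) (XT.lf (nat_lit 0) (nat_lit 3816105273571) (nat_lit 76) (nat_lit 512451210827) (nat_lit 76) (nat_lit 507856550179) (nat_lit 1) (nat_lit 4) (nat_lit 2) (nat_lit 5) (nat_lit 2) (nat_lit 4) (nat_lit 515) (nat_lit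 391) (nat_lit 294)) (XT.nd (nat_lit 78) (nat_lit 0) (nat_lit 0) (XT.lf (nat_lit 0) (nat_lit 4144218099593) (nat_lit 76) (nat_lit 541405261530) (nat_lit 76) (nat_lit 536810405868) (nat_lit 1) (nat_lit 4) (nat_lit 2) (nat_lit 5) (nat_lit 2) (nat_lit 4) (nat_lit 516) (nat_lit 391) (nat_lit 293)) (XT.lf (nat_lit 0) (nat_lit 4498578089085) (nat_lit 76) (nat_lit 572676588980) (nat_lit 76) (nat_lit 568081552751) (nat_lit 1) (nat_lit 4) (nat_lit 2) (nat_lit 5) (nat_lit 2) (nat_lit 4) (nat_lit 517) (nat_lit 391) (nat_lit 292)))) (XT.nd (nat_lit 78) (nat_lit 0) (nat_lit 0) (XT.lf (nat_lit 0) (nat_lit 4881285153097) (nat_lit 76) (nat_lit 606450504748) (nat_lit 76) (nat_lit 601855301326) (nat_lit 1) (nat_lit 4) (nat_lit 2) (nat_lit 5) (nat_lit 2) (nat_lit 4) (nat_lit 518) (nat_lit 391) (nat_lit 291)) (XT.nd (nat_lit 78) (nat_lit 0) (nat_lit 0) (XT.lf (nat_lit 0) (nat_lit 5294607185341) (nat_lit 76)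 (nat_lit 642927150557) (nat_lit 76) (nat_lit 638331792328) (nat_lit 1) (nat_lit 4) (nat_lit 2) (nat_lit 5) (nat_lit 2) (nat_lit 4) (nat_lit 519) (nat_lit 391) (nat_lit 290)) (XT.lf (nat_lit 0) (nat_lit 5740993501563) (nat_lit 76) (nat_lit 682322684308) (nat_lit 76) (nat_lit 677727182738) (nat_lit 1) (nat_lit 4) (nat_lit 2) (nat_lit 5) (nat_lit 2) (nat_lit 4) (nat_lit 520) (nat_lit 391) (nat_lit 289)))))) (XT.nd (nat_lit 390) (nat_lit 0) (nat_lit 0) (XT.nd (nat_lit 156) (nat_lit 0) (nat_lit 0) (XT.nd (nat_lit 78) (nat_lit 0) (nat_lit 0) (XT.lf (nat_lit 0) (nat_lit 6223089354008) (nat_lit 76) (nat_lit 724870561015) (nat_lit 76) (nat_lit 720274926723) (nat_lit 1) (nat_lit 4) (nat_lit 2) (nat_lit 5) (nat_lit 2) (nat_lit 4) (nat_lit 521) (nat_lit 391) (nat_lit 288)) (XT.lf (nat_lit 0) (nat_lit 6743751606986) (nat_lit 76) (nat_lit 770822916245) (nat_lit 76) (nat_lit 766227159061) (nat_lit 1)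 (nat_lit 4) (nat_lit 2) (nat_lit 5) (nat_lit 2) (nat_lit 4) (nat_lit 522) (nat_lit 391) (nat_lit 287))) (XT.nd (nat_lit 78) (nat_lit 0) (nat_lit 0) (XT.lf (nat_lit 0) (nat_lit 7306065666442) (nat_lit 76) (nat_lit 820452060251) (nat_lit 76) (nat_lit 815856189278) (nat_lit 1) (nat_lit 4) (nat_lit 2) (nat_lit 5) (nat_lit 2) (nat_lit 4) (nat_lit 523) (nat_lit 391) (nat_lit 286)) (XT.nd (nat_lit 78) (nat_lit 0) (nat_lit 0) (XT.lf (nat_lit 0) (nat_lit 7913363763838) (nat_lit 76) (nat_lit 874052091663) (nat_lit 76) (nat_lit 869456115331) (nat_lit 1) (nat_lit 4) (nat_lit 2) (nat_lit 5) (nat_lit 2) (nat_lit 4) (nat_lit 524) (nat_lit 391) (nat_lit 285)) (XT.lf (nat_lit 0) (nat_lit 8569244702715) (nat_lit 76) (nat_lit 931940640298) (nat_lit 76) (nat_lit 927344566411) (nat_lit 1) (nat_lit 4) (nat_lit 2) (nat_lit 5) (nat_lit 2) (nat_lit 4) (nat_lit 525) (nat_lit 391) (nat_lit 284))))) (XT.nd (nat_lit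 53898) (nat_lit 0) (nat_lit 3420) (XT.nd (nat_lit 78) (nat_lit 0) (nat_lit 0) (XT.lf (nat_lit 0) (nat_lit 9277595184933) (nat_lit 76) (nat_lit 994460749407) (nat_lit 76) (nat_lit 989864585191) (nat_lit 1) (nat_lit 4) (nat_lit 2) (nat_lit 5) (nat_lit 2) (nat_lit 4) (nat_lit 526) (nat_lit 391) (nat_lit 283)) (XT.nd (nat_lit 78) (nat_lit 0) (nat_lit 0) (XT.lf (nat_lit 0) (nat_lit 10042612842978) (nat_lit 76) (nat_lit 1061982908525) (nat_lit 76) (nat_lit 1057386660671) (nat_lit 1) (nat_lit 4) (nat_lit 2) (nat_lit 5) (nat_lit 2) (nat_lit 4) (nat_lit 527) (nat_lit 391) (nat_lit 282)) (XT.lf (nat_lit 0) (nat_lit 10868831114825) (nat_lit 76) (nat_lit 1134907248965) (nat_lit 76) (nat_lit 1130310923668) (nat_lit 1) (nat_lit 4) (nat_lit 2) (nat_lit 5) (nat_lit 2) (nat_lit 4) (nat_lit 528) (nat_lit 391) (nat_lit 281)))) (XT.nd (nat_lit 78) (nat_lit 456) (nat_lit 0) (XT.lf (nat_lit 0) (nat_lit 2078442782)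 (nat_lit 228) (nat_lit 8609693) (nat_lit 0) (nat_lit 2078442782) (nat_lit 52) (nat_lit 5) (nat_lit 55) (nat_lit 4) (nat_lit 52) (nat_lit 4) (nat_lit 416) (nat_lit 392) (nat_lit 392)) (XT.nd (nat_lit 78) (nat_lit 228) (nat_lit 0) (XT.lf (nat_lit 0) (nat_lit 7188120452) (nat_lit 228) (nat_lit 1239230609) (nat_lit 228) (nat_lit 158979357) (nat_lit 49) (nat_lit 4) (nat_lit 52) (nat_lit 5) (nat_lit 52) (nat_lit 4) (nat_lit 417) (nat_lit 392) (nat_lit 391)) (XT.lf (nat_lit 0) (nat_lit 3906362141) (nat_lit 228) (nat_lit 2972797195) (nat_lit 0) (nat_lit 1979988166) (nat_lit 46) (nat_lit 5) (nat_lit 49) (nat_lit 4) (nat_lit 46) (nat_lit 4) (nat_lit 418) (nat_lit 392) (nat_lit 390))))))) (XT.nd (nat_lit 858) (nat_lit 836) (nat_lit 0) (XT.nd (nat_lit 390) (nat_lit 684) (nat_lit 0) (XT.nd (nat_lit 156) (nat_lit 304) (nat_lit 0) (XT.nd (nat_lit 78) (nat_lit 228) (nat_lit 0) (XT.lf (nat_lit 0) (nat_lit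 4497288969) (nat_lit 152) (nat_lit 3722828373) (nat_lit 152) (nat_lit 938916126) (nat_lit 44) (nat_lit 4) (nat_lit 46) (nat_lit 5) (nat_lit 46) (nat_lit 4) (nat_lit 419) (nat_lit 392) (nat_lit 389)) (XT.lf (nat_lit 0) (nat_lit 2944795319) (nat_lit 152) (nat_lit 191129913) (nat_lit 228) (nat_lit 6347770617) (nat_lit 41) (nat_lit 5) (nat_lit 43) (nat_lit 5) (nat_lit 44) (nat_lit 4) (nat_lit 420) (nat_lit 392) (nat_lit 388))) (XT.nd (nat_lit 78) (nat_lit 152) (nat_lit 0) (XT.lf (nat_lit 0) (nat_lit 1161531825) (nat_lit 152) (nat_lit 6331989906) (nat_lit 152) (nat_lit 2338351002) (nat_lit 39) (nat_lit 4) (nat_lit 41) (nat_lit 5) (nat_lit 41) (nat_lit 4) (nat_lit 421) (nat_lit 392) (nat_lit 387)) (XT.nd (nat_lit 78) (nat_lit 76) (nat_lit 0) (XT.lf (nat_lit 0) (nat_lit 1844869676) (nat_lit 228) (nat_lit 786626206) (nat_lit 76) (nat_lit 7576439569) (nat_lit 38) (nat_lit 5) (nat_lit 41) (nat_lit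 5) (nat_lit 39) (nat_lit 4) (nat_lit 422) (nat_lit 392) (nat_lit 386)) (XT.lf (nat_lit 0) (nat_lit 6239118514) (nat_lit 152) (nat_lit 2952678617) (nat_lit 0) (nat_lit 1417284002) (nat_lit 37) (nat_lit 5) (nat_lit 39) (nat_lit 4) (nat_lit 37) (nat_lit 4) (nat_lit 423) (nat_lit 392) (nat_lit 385))))) (XT.nd (nat_lit 234) (nat_lit 228) (nat_lit 0) (XT.nd (nat_lit 78) (nat_lit 304) (nat_lit 0) (XT.lf (nat_lit 0) (nat_lit 5630351280) (nat_lit 152) (nat_lit 5366634206) (nat_lit 152) (nat_lit 44434349) (nat_lit 35) (nat_lit 4) (nat_lit 37) (nat_lit 5) (nat_lit 37) (nat_lit 4) (nat_lit 424) (nat_lit 392) (nat_lit 384)) (XT.nd (nat_lit 78) (nat_lit 152) (nat_lit 0) (XT.lf (nat_lit 0) (nat_lit 3251884445) (nat_lit 76) (nat_lit 1093012452) (nat_lit 152) (nat_lit 7158665787) (nat_lit 33) (nat_lit 5) (nat_lit 34) (nat_lit 5) (nat_lit 35) (nat_lit 4) (nat_lit 425) (nat_lit 392) (nat_lit 383)) (XT.lf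 (nat_lit 0) (nat_lit 492602936) (nat_lit 152) (nat_lit 8630488785) (nat_lit 152) (nat_lit 2876337176) (nat_lit 31) (nat_lit 4) (nat_lit 33) (nat_lit 5) (nat_lit 33) (nat_lit 4) (nat_lit 426) (nat_lit 392) (nat_lit 382)))) (XT.nd (nat_lit 78) (nat_lit 152) (nat_lit 0) (XT.lf (nat_lit 0) (nat_lit 1714276818) (nat_lit 228) (nat_lit 2556239292) (nat_lit 76) (nat_lit 8256876451) (nat_lit 30) (nat_lit 5) (nat_lit 33) (nat_lit 5) (nat_lit 31) (nat_lit 4) (nat_lit 427) (nat_lit 392) (nat_lit 381)) (XT.nd (nat_lit 78) (nat_lit 76) (nat_lit 0) (XT.lf (nat_lit 0) (nat_lit 6508107720) (nat_lit 152) (nat_lit 6059907957) (nat_lit 0) (nat_lit 524334274) (nat_lit 29) (nat_lit 5) (nat_lit 31) (nat_lit 4) (nat_lit 29) (nat_lit 4) (nat_lit 428) (nat_lit 392) (nat_lit 380)) (XT.lf (nat_lit 0) (nat_lit 3557842048) (nat_lit 76) (nat_lit 8207039137) (nat_lit 76) (nat_lit 1931307318) (nat_lit 28) (nat_lit 4) (nat_lit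 29) (nat_lit 5) (nat_lit 29) (nat_lit 4) (nat_lit 429) (nat_lit 392) (nat_lit 379)))))) (XT.nd (nat_lit 468) (nat_lit 380) (nat_lit 0) (XT.nd (nat_lit 234) (nat_lit 228) (nat_lit 0) (XT.nd (nat_lit 78) (nat_lit 152) (nat_lit 0) (XT.lf (nat_lit 0) (nat_lit 2921459741) (nat_lit 152) (nat_lit 469427385) (nat_lit 76) (nat_lit 10952939053) (nat_lit 27) (nat_lit 5) (nat_lit 29) (nat_lit 5) (nat_lit 28) (nat_lit 4) (nat_lit 430) (nat_lit 392) (nat_lit 378)) (XT.nd (nat_lit 78) (nat_lit 76) (nat_lit 0) (XT.lf (nat_lit 0) (nat_lit 8175146656) (nat_lit 152) (nat_lit 4972572646) (nat_lit 0) (nat_lit 1882210643) (nat_lit 26) (nat_lit 5) (nat_lit 28) (nat_lit 4) (nat_lit 26) (nat_lit 4) (nat_lit 431) (nat_lit 392) (nat_lit 377)) (XT.lf (nat_lit 0) (nat_lit 5550682062) (nat_lit 76) (nat_lit 8361384040) (nat_lit 76) (nat_lit 1853849907) (nat_lit 25) (nat_lit 4) (nat_lit 26) (nat_lit 5) (nat_lit 26) (nat_lit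 4) (nat_lit 432) (nat_lit 392) (nat_lit 376)))) (XT.nd (nat_lit 78) (nat_lit 76) (nat_lit 0) (XT.lf (nat_lit 0) (nat_lit 249794847) (nat_lit 76) (nat_lit 3094450798) (nat_lit 152) (nat_lit 13211772982) (nat_lit 23) (nat_lit 5) (nat_lit 24) (nat_lit 5) (nat_lit 25) (nat_lit 4) (nat_lit 433) (nat_lit 392) (nat_lit 375)) (XT.nd (nat_lit 78) (nat_lit 76) (nat_lit 0) (XT.lf (nat_lit 0) (nat_lit 9037536124) (nat_lit 152) (nat_lit 5695900578) (nat_lit 0) (nat_lit 2657703351) (nat_lit 23) (nat_lit 5) (nat_lit 25) (nat_lit 4) (nat_lit 23) (nat_lit 4) (nat_lit 434) (nat_lit 392) (nat_lit 374)) (XT.lf (nat_lit 0) (nat_lit 5666226003) (nat_lit 76) (nat_lit 9579827123) (nat_lit 76) (nat_lit 3042258325) (nat_lit 22) (nat_lit 4) (nat_lit 23) (nat_lit 5) (nat_lit 23) (nat_lit 4) (nat_lit 435) (nat_lit 392) (nat_lit 373))))) (XT.nd (nat_lit 234) (nat_lit 152) (nat_lit 0) (XT.nd (nat_lit 78) (nat_lit 152)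 (nat_lit 0) (XT.lf (nat_lit 0) (nat_lit 2562738548) (nat_lit 152) (nat_lit 1353124491) (nat_lit 76) (nat_lit 15335947893) (nat_lit 21) (nat_lit 5) (nat_lit 23) (nat_lit 5) (nat_lit 22) (nat_lit 4) (nat_lit 436) (nat_lit 392) (nat_lit 372)) (XT.nd (nat_lit 78) (nat_lit 76) (nat_lit 0) (XT.lf (nat_lit 0) (nat_lit 8630536501) (nat_lit 152) (nat_lit 9324465333) (nat_lit 0) (nat_lit 2316782900) (nat_lit 20) (nat_lit 5) (nat_lit 22) (nat_lit 4) (nat_lit 20) (nat_lit 4) (nat_lit 437) (nat_lit 392) (nat_lit 371)) (XT.lf (nat_lit 0) (nat_lit 2690761309) (nat_lit 76) (nat_lit 12553723484) (nat_lit 76) (nat_lit 6124029196) (nat_lit 19) (nat_lit 4) (nat_lit 20) (nat_lit 5) (nat_lit 20) (nat_lit 4) (nat_lit 438) (nat_lit 392) (nat_lit 370)))) (XT.nd (nat_lit 78) (nat_lit 152) (nat_lit 0) (XT.lf (nat_lit 0) (nat_lit 15925047995) (nat_lit 76) (nat_lit 6577882188) (nat_lit 76) (nat_lit 40835412) (nat_lit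 19) (nat_lit 4) (nat_lit 20) (nat_lit 5) (nat_lit 20) (nat_lit 4) (nat_lit 439) (nat_lit 392) (nat_lit 369)) (XT.nd (nat_lit 78) (nat_lit 0) (nat_lit 0) (XT.lf (nat_lit 0) (nat_lit 6223411630) (nat_lit 152) (nat_lit 17496842779) (nat_lit 0) (nat_lit 78553086) (nat_lit 17) (nat_lit 5) (nat_lit 19) (nat_lit 4) (nat_lit 17) (nat_lit 4) (nat_lit 440) (nat_lit 392) (nat_lit 368)) (XT.lf (nat_lit 0) (nat_lit 13211283120) (nat_lit 152) (nat_lit 4943716313) (nat_lit 0) (nat_lit 6981204709) (nat_lit 17) (nat_lit 5) (nat_lit 19) (nat_lit 4) (nat_lit 17) (nat_lit 4) (nat_lit 441) (nat_lit 392) (nat_lit 367))))))))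
noncomputable def xc72 : XT := (XT.nd (nat_lit 1716) (nat_lit 304) (nat_lit 0) (XT.nd (nat_lit 858) (nat_lit 380) (nat_lit 0) (XT.nd (nat_lit 390) (nat_lit 228) (nat_lit 0) (XT.nd (nat_lit 156) (nat_lit 152) (nat_lit 0) (XT.nd (nat_lit 78) (nat_lit 76) (nat_lit 0) (XT.lf (nat_lit 0) (nat_lit 8813783915) (nat_lit 76) (nat_lit 12034306249) (nat_lit 76) (nat_lit 5725320555) (nat_lit 16) (nat_lit 4) (nat_lit 17) (nat_lit 5) (nat_lit 17) (nat_lit 4) (nat_lit 442) (nat_lit 392) (nat_lit 366)) (XT.lf (nat_lit 0) (nat_lit 938633355) (nat_lit 152) (nat_lit 4429690613) (nat_lit 76) (nat_lit 22754058546) (nat_lit 15) (nat_lit 5) (nat_lit 17) (nat_lit 5) (nat_lit 16) (nat_lit 4) (nat_lit 443) (nat_lit 392) (nat_lit 365))) (XT.nd (nat_lit 78) (nat_lit 76) (nat_lit 0) (XT.lf (nat_lit 0) (nat_lit 8008098801) (nat_lit 152) (nat_lit 19724592090) (nat_lit 0) (nat_lit 2036155958) (nat_lit 14) (nat_lit 5)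 (nat_lit 16) (nat_lit 4) (nat_lit 14) (nat_lit 4) (nat_lit 444) (nat_lit 392) (nat_lit 364)) (XT.nd (nat_lit 78) (nat_lit 76) (nat_lit 0) (XT.lf (nat_lit 0) (nat_lit 15794600833) (nat_lit 152) (nat_lit 5975658209) (nat_lit 0) (nat_lit 9764658781) (nat_lit 14) (nat_lit 5) (nat_lit 16) (nat_lit 4) (nat_lit 14) (nat_lit 4) (nat_lit 445) (nat_lit 392) (nat_lit 363)) (XT.lf (nat_lit 0) (nat_lit 9122329518) (nat_lit 76) (nat_lit 15197179190) (nat_lit 76) (nat_lit 9113534167) (nat_lit 13) (nat_lit 4) (nat_lit 14) (nat_lit 5) (nat_lit 14) (nat_lit 4) (nat_lit 446) (nat_lit 392) (nat_lit 362))))) (XT.nd (nat_lit 234) (nat_lit 76) (nat_lit 0) (XT.nd (nat_lit 78) (nat_lit 152) (nat_lit 0) (XT.lf (nat_lit 0) (nat_lit 25566045996) (nat_lit 76) (nat_lit 8022681592) (nat_lit 76) (nat_lit 1889311596) (nat_lit 13) (nat_lit 4) (nat_lit 14) (nat_lit 5) (nat_lit 14) (nat_lit 4) (nat_lit 447) (nat_lit 392)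 (nat_lit 361)) (XT.nd (nat_lit 78) (nat_lit 0) (nat_lit 0) (XT.lf (nat_lit 0) (nat_lit 5583685256) (nat_lit 76) (nat_lit 71649789) (nat_lit 152) (nat_lit 32016867908) (nat_lit 11) (nat_lit 5) (nat_lit 12) (nat_lit 5) (nat_lit 13) (nat_lit 4) (nat_lit 448) (nat_lit 392) (nat_lit 360)) (XT.lf (nat_lit 0) (nat_lit 14088667369) (nat_lit 152) (nat_lit 17590820439) (nat_lit 0) (nat_lit 8327516639) (nat_lit 11) (nat_lit 5) (nat_lit 13) (nat_lit 4) (nat_lit 11) (nat_lit 4) (nat_lit 449) (nat_lit 392) (nat_lit 359)))) (XT.nd (nat_lit 78) (nat_lit 76) (nat_lit 0) (XT.lf (nat_lit 0) (nat_lit 23109951392) (nat_lit 152) (nat_lit 2113329480) (nat_lit 0) (nat_lit 17312251322) (nat_lit 11) (nat_lit 5) (nat_lit 13) (nat_lit 4) (nat_lit 11) (nat_lit 4) (nat_lit 450) (nat_lit 392) (nat_lit 358)) (XT.nd (nat_lit 78) (nat_lit 0) (nat_lit 0) (XT.lf (nat_lit 0) (nat_lit 15197644555) (nat_lit 76) (nat_lit 17938782555)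 (nat_lit 76) (nat_lit 12107240504) (nat_lit 10) (nat_lit 4) (nat_lit 11) (nat_lit 5) (nat_lit 11) (nat_lit 4) (nat_lit 451) (nat_lit 392) (nat_lit 357)) (XT.lf (nat_lit 0) (nat_lit 33852895805) (nat_lit 76) (nat_lit 10090100733) (nat_lit 76) (nat_lit 4227223514) (nat_lit 10) (nat_lit 4) (nat_lit 11) (nat_lit 5) (nat_lit 11) (nat_lit 4) (nat_lit 452) (nat_lit 392) (nat_lit 356)))))) (XT.nd (nat_lit 390) (nat_lit 152) (nat_lit 0) (XT.nd (nat_lit 156) (nat_lit 76) (nat_lit 0) (XT.nd (nat_lit 78) (nat_lit 0) (nat_lit 0) (XT.lf (nat_lit 0) (nat_lit 2540891719) (nat_lit 76) (nat_lit 1513330868) (nat_lit 152) (nat_lit 47269613611) (nat_lit 8) (nat_lit 5) (nat_lit 9) (nat_lit 5) (nat_lit 10) (nat_lit 4) (nat_lit 453) (nat_lit 392) (nat_lit 355)) (XT.lf (nat_lit 0) (nat_lit 13282216566) (nat_lit 152) (nat_lit 33595864801) (nat_lit 0) (nat_lit 7801886826) (nat_lit 8) (nat_lit 5) (nat_lit 10) (nat_lit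 4) (nat_lit 8) (nat_lit 4) (nat_lit 454) (nat_lit 392) (nat_lit 354))) (XT.nd (nat_lit 78) (nat_lit 76) (nat_lit 0) (XT.lf (nat_lit 0) (nat_lit 23217762564) (nat_lit 152) (nat_lit 17374885757) (nat_lit 0) (nat_lit 17714400540) (nat_lit 8) (nat_lit 5) (nat_lit 10) (nat_lit 4) (nat_lit 8) (nat_lit 4) (nat_lit 455) (nat_lit 392) (nat_lit 353)) (XT.nd (nat_lit 78) (nat_lit 0) (nat_lit 0) (XT.lf (nat_lit 0) (nat_lit 13171506) (nat_lit 76) (nat_lit 33870487514) (nat_lit 76) (nat_lit 28345799301) (nat_lit 7) (nat_lit 4) (nat_lit 8) (nat_lit 5) (nat_lit 8) (nat_lit 4) (nat_lit 456) (nat_lit 392) (nat_lit 352)) (XT.lf (nat_lit 0) (nat_lit 19652462518) (nat_lit 76) (nat_lit 26162338725) (nat_lit 76) (nat_lit 20617904041) (nat_lit 7) (nat_lit 4) (nat_lit 8) (nat_lit 5) (nat_lit 8) (nat_lit 4) (nat_lit 457) (nat_lit 392) (nat_lit 351))))) (XT.nd (nat_lit 234) (nat_lit 0) (nat_lit 0) (XT.nd (nat_lit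 78) (nat_lit 152) (nat_lit 0) (XT.lf (nat_lit 0) (nat_lit 40744437567) (nat_lit 76) (nat_lit 17897584203) (nat_lit 76) (nat_lit 12334865750) (nat_lit 7) (nat_lit 4) (nat_lit 8) (nat_lit 5) (nat_lit 8) (nat_lit 4) (nat_lit 458) (nat_lit 392) (nat_lit 350)) (XT.nd (nat_lit 78) (nat_lit 152) (nat_lit 0) (XT.lf (nat_lit 0) (nat_lit 63414086136) (nat_lit 76) (nat_lit 9027247625) (nat_lit 76) (nat_lit 3447599756) (nat_lit 7) (nat_lit 4) (nat_lit 8) (nat_lit 5) (nat_lit 8) (nat_lit 4) (nat_lit 459) (nat_lit 392) (nat_lit 349)) (XT.lf (nat_lit 0) (nat_lit 5975010677) (nat_lit 152) (nat_lit 74402381334) (nat_lit 0) (nat_lit 794155811) (nat_lit 5) (nat_lit 5) (nat_lit 7) (nat_lit 4) (nat_lit 5) (nat_lit 4) (nat_lit 460) (nat_lit 392) (nat_lit 348)))) (XT.nd (nat_lit 78) (nat_lit 0) (nat_lit 0) (XT.lf (nat_lit 0) (nat_lit 16498325980) (nat_lit 152) (nat_lit 59024598787) (nat_lit 0) (nat_lit 11304031999)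 (nat_lit 5) (nat_lit 5) (nat_lit 7) (nat_lit 4) (nat_lit 5) (nat_lit 4) (nat_lit 461) (nat_lit 392) (nat_lit 347)) (XT.nd (nat_lit 78) (nat_lit 0) (nat_lit 0) (XT.lf (nat_lit 0) (nat_lit 27816041912) (nat_lit 152) (nat_lit 42513251059) (nat_lit 0) (nat_lit 22609304303) (nat_lit 5) (nat_lit 5) (nat_lit 7) (nat_lit 4) (nat_lit 5) (nat_lit 4) (nat_lit 462) (nat_lit 392) (nat_lit 346)) (XT.lf (nat_lit 0) (nat_lit 39995226417) (nat_lit 152) (nat_lit 24770493128) (nat_lit 0) (nat_lit 34776966932) (nat_lit 5) (nat_lit 5) (nat_lit 7) (nat_lit 4) (nat_lit 5) (nat_lit 4) (nat_lit 463) (nat_lit 392) (nat_lit 345))))))) (XT.nd (nat_lit 858) (nat_lit 76) (nat_lit 0) (XT.nd (nat_lit 390) (nat_lit 152) (nat_lit 0) (XT.nd (nat_lit 156) (nat_lit 0) (nat_lit 0) (XT.nd (nat_lit 78) (nat_lit 76) (nat_lit 0) (XT.lf (nat_lit 0) (nat_lit 53108052440) (nat_lit 152) (nat_lit 5691182724) (nat_lit 0) (nat_lit 47879124552)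 (nat_lit 5) (nat_lit 5) (nat_lit 7) (nat_lit 4) (nat_lit 5) (nat_lit 4) (nat_lit 464) (nat_lit 392) (nat_lit 344)) (XT.lf (nat_lit 0) (nat_lit 15619071970) (nat_lit 76) (nat_lit 51988792705) (nat_lit 76) (nat_lit 46749986665) (nat_lit 4) (nat_lit 4) (nat_lit 5) (nat_lit 5) (nat_lit 5) (nat_lit 4) (nat_lit 465) (nat_lit 392) (nat_lit 343))) (XT.nd (nat_lit 78) (nat_lit 0) (nat_lit 0) (XT.lf (nat_lit 0) (nat_lit 38883022391) (nat_lit 76) (nat_lit 44503559988) (nat_lit 76) (nat_lit 39255607511) (nat_lit 4) (nat_lit 4) (nat_lit 5) (nat_lit 5) (nat_lit 5) (nat_lit 4) (nat_lit 466) (nat_lit 392) (nat_lit 342)) (XT.nd (nat_lit 78) (nat_lit 0) (nat_lit 0) (XT.lf (nat_lit 0) (nat_lit 63938841388) (nat_lit 76) (nat_lit 36454787101) (nat_lit 76) (nat_lit 31198365701) (nat_lit 4) (nat_lit 4) (nat_lit 5) (nat_lit 5) (nat_lit 5) (nat_lit 4) (nat_lit 467) (nat_lit 392) (nat_lit 341)) (XT.lf (nat_lit 0)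 (nat_lit 90935007890) (nat_lit 76) (nat_lit 27794777611) (nat_lit 76) (nat_lit 22530514615) (nat_lit 4) (nat_lit 4) (nat_lit 5) (nat_lit 5) (nat_lit 5) (nat_lit 4) (nat_lit 468) (nat_lit 392) (nat_lit 340))))) (XT.nd (nat_lit 234) (nat_lit 0) (nat_lit 0) (XT.nd (nat_lit 78) (nat_lit 152) (nat_lit 0) (XT.lf (nat_lit 0) (nat_lit 120031499180) (nat_lit 76) (nat_lit 18472212943) (nat_lit 76) (nat_lit 13200689212) (nat_lit 4) (nat_lit 4) (nat_lit 5) (nat_lit 5) (nat_lit 5) (nat_lit 4) (nat_lit 469) (nat_lit 392) (nat_lit 339)) (XT.nd (nat_lit 78) (nat_lit 152) (nat_lit 0) (XT.lf (nat_lit 0) (nat_lit 151400738908) (nat_lit 76) (nat_lit 8431848271) (nat_lit 76) (nat_lit 3153601635) (nat_lit 4) (nat_lit 4) (nat_lit 5) (nat_lit 5) (nat_lit 5) (nat_lit 4) (nat_lit 470) (nat_lit 392) (nat_lit 338)) (XT.lf (nat_lit 0) (nat_lit 7605163959) (nat_lit 152) (nat_lit 164814975130) (nat_lit 0) (nat_lit 2712134749)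 (nat_lit 2) (nat_lit 5) (nat_lit 4) (nat_lit 4) (nat_lit 2) (nat_lit 4) (nat_lit 471) (nat_lit 392) (nat_lit 337)))) (XT.nd (nat_lit 78) (nat_lit 0) (nat_lit 0) (XT.lf (nat_lit 0) (nat_lit 19572688304) (nat_lit 152) (nat_lit 153955008197) (nat_lit 0) (nat_lit 14674322236) (nat_lit 2) (nat_lit 5) (nat_lit 4) (nat_lit 4) (nat_lit 2) (nat_lit 4) (nat_lit 472) (nat_lit 392) (nat_lit 336)) (XT.nd (nat_lit 78) (nat_lit 0) (nat_lit 0) (XT.lf (nat_lit 0) (nat_lit 32473939056) (nat_lit 152) (nat_lit 142274667429) (nat_lit 0) (nat_lit 27570631453) (nat_lit 2) (nat_lit 5) (nat_lit 4) (nat_lit 4) (nat_lit 2) (nat_lit 4) (nat_lit 473) (nat_lit 392) (nat_lit 335)) (XT.lf (nat_lit 0) (nat_lit 46385368072) (nat_lit 152) (nat_lit 129704735992) (nat_lit 0) (nat_lit 41477484973) (nat_lit 2) (nat_lit 5) (nat_lit 4) (nat_lit 4) (nat_lit 2) (nat_lit 4) (nat_lit 474) (nat_lit 392) (nat_lit 334)))))) (XT.nd (nat_lit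 468) (nat_lit 76) (nat_lit 0) (XT.nd (nat_lit 234) (nat_lit 0) (nat_lit 0) (XT.nd (nat_lit 78) (nat_lit 0) (nat_lit 0) (XT.lf (nat_lit 0) (nat_lit 61389413449) (nat_lit 152) (nat_lit 116170725403) (nat_lit 0) (nat_lit 56477293780) (nat_lit 2) (nat_lit 5) (nat_lit 4) (nat_lit 4) (nat_lit 2) (nat_lit 4) (nat_lit 475) (nat_lit 392) (nat_lit 333)) (XT.nd (nat_lit 78) (nat_lit 0) (nat_lit 0) (XT.lf (nat_lit 0) (nat_lit 77574988050) (nat_lit 152) (nat_lit 101592434119) (nat_lit 0) (nat_lit 72658945631) (nat_lit 2) (nat_lit 5) (nat_lit 4) (nat_lit 4) (nat_lit 2) (nat_lit 4) (nat_lit 476) (nat_lit 392) (nat_lit 332)) (XT.lf (nat_lit 0) (nat_lit 95038006389) (nat_lit 152) (nat_lit 85883472265) (nat_lit 0) (nat_lit 90118331794) (nat_lit 2) (nat_lit 5) (nat_lit 4) (nat_lit 4) (nat_lit 2) (nat_lit 4) (nat_lit 477) (nat_lit 392) (nat_lit 331)))) (XT.nd (nat_lit 78) (nat_lit 0) (nat_lit 0) (XT.lf (nat_lit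 0) (nat_lit 113881953021) (nat_lit 152) (nat_lit 68950749696) (nat_lit 0) (nat_lit 108958915301) (nat_lit 2) (nat_lit 5) (nat_lit 4) (nat_lit 4) (nat_lit 2) (nat_lit 4) (nat_lit 478) (nat_lit 392) (nat_lit 330)) (XT.nd (nat_lit 78) (nat_lit 0) (nat_lit 0) (XT.lf (nat_lit 0) (nat_lit 134218495777) (nat_lit 152) (nat_lit 50693924353) (nat_lit 0) (nat_lit 129292344051) (nat_lit 2) (nat_lit 5) (nat_lit 4) (nat_lit 4) (nat_lit 2) (nat_lit 4) (nat_lit 479) (nat_lit 392) (nat_lit 329)) (XT.lf (nat_lit 0) (nat_lit 156168147504) (nat_lit 152) (nat_lit 31004807642) (nat_lit 0) (nat_lit 151239112439) (nat_lit 2) (nat_lit 5) (nat_lit 4) (nat_lit 4) (nat_lit 2) (nat_lit 4) (nat_lit 480) (nat_lit 392) (nat_lit 328))))) (XT.nd (nat_lit 234) (nat_lit 0) (nat_lit 0) (XT.nd (nat_lit 78) (nat_lit 76) (nat_lit 0) (XT.lf (nat_lit 0) (nat_lit 179860980210) (nat_lit 152) (nat_lit 9766723315) (nat_lit 0) (nat_lit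 174929275389) (nat_lit 2) (nat_lit 5) (nat_lit 4) (nat_lit 4) (nat_lit 2) (nat_lit 4) (nat_lit 481) (nat_lit 392) (nat_lit 327)) (XT.nd (nat_lit 78) (nat_lit 0) (nat_lit 0) (XT.lf (nat_lit 0) (nat_lit 13838438691) (nat_lit 76) (nat_lit 191931771961) (nat_lit 76) (nat_lit 186997595141) (nat_lit 1) (nat_lit 4) (nat_lit 2) (nat_lit 5) (nat_lit 2) (nat_lit 4) (nat_lit 482) (nat_lit 392) (nat_lit 326)) (XT.lf (nat_lit 0) (nat_lit 39863845313) (nat_lit 76) (nat_lit 194143839550) (nat_lit 76) (nat_lit 189207373843) (nat_lit 1) (nat_lit 4) (nat_lit 2) (nat_lit 5) (nat_lit 2) (nat_lit 4) (nat_lit 483) (nat_lit 392) (nat_lit 325)))) (XT.nd (nat_lit 78) (nat_lit 0) (nat_lit 0) (XT.lf (nat_lit 0) (nat_lit 67949422840) (nat_lit 76) (nat_lit 196544054365) (nat_lit 76) (nat_lit 191605469318) (nat_lit 1) (nat_lit 4) (nat_lit 2) (nat_lit 5) (nat_lit 2) (nat_lit 4) (nat_lit 484) (nat_lit 392) (nat_lit 324))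 (XT.nd (nat_lit 78) (nat_lit 0) (nat_lit 0) (XT.lf (nat_lit 0) (nat_lit 98261604324) (nat_lit 76) (nat_lit 199146639901) (nat_lit 76) (nat_lit 194206092502) (nat_lit 1) (nat_lit 4) (nat_lit 2) (nat_lit 5) (nat_lit 2) (nat_lit 4) (nat_lit 485) (nat_lit 392) (nat_lit 323)) (XT.lf (nat_lit 0) (nat_lit 130980017507) (nat_lit 76) (nat_lit 201967018887) (nat_lit 76) (nat_lit 197024654496) (nat_lit 1) (nat_lit 4) (nat_lit 2) (nat_lit 5) (nat_lit 2) (nat_lit 4) (nat_lit 486) (nat_lit 392) (nat_lit 322))))))))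
noncomputable def xc73 : XT := (XT.nd (nat_lit 1716) (nat_lit 0) (nat_lit 0) (XT.nd (nat_lit 858) (nat_lit 0) (nat_lit 0) (XT.nd (nat_lit 390) (nat_lit 0) (nat_lit 0) (XT.nd (nat_lit 156) (nat_lit 0) (nat_lit 0) (XT.nd (nat_lit 78) (nat_lit 0) (nat_lit 0) (XT.lf (nat_lit 0) (nat_lit 166298549282) (nat_lit 76) (nat_lit 205021904680) (nat_lit 76) (nat_lit 200077857889) (nat_lit 1) (nat_lit 4) (nat_lit 2) (nat_lit 5) (nat_lit 2) (nat_lit 4) (nat_lit 487) (nat_lit 392) (nat_lit 321)) (XT.lf (nat_lit 0) (nat_lit 204426494652) (nat_lit 76) (nat_lit 208329400307) (nat_lit 76) (nat_lit 203383795738) (nat_lit 1) (nat_lit 4) (nat_lit 2) (nat_lit 5) (nat_lit 2) (nat_lit 4) (nat_lit 488) (nat_lit 392) (nat_lit 320))) (XT.nd (nat_lit 78) (nat_lit 0) (nat_lit 0) (XT.lf (nat_lit 0) (nat_lit 245589796998) (nat_lit 76) (nat_lit 211909105742) (nat_lit 76) (nat_lit 206962058786) (nat_lit 1) (nat_lit 4) (nat_lit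 2) (nat_lit 5) (nat_lit 2) (nat_lit 4) (nat_lit 489) (nat_lit 392) (nat_lit 319)) (XT.nd (nat_lit 78) (nat_lit 0) (nat_lit 0) (XT.lf (nat_lit 0) (nat_lit 290032386999) (nat_lit 76) (nat_lit 215782234055) (nat_lit 76) (nat_lit 210833851555) (nat_lit 1) (nat_lit 4) (nat_lit 2) (nat_lit 5) (nat_lit 2) (nat_lit 4) (nat_lit 490) (nat_lit 392) (nat_lit 318)) (XT.lf (nat_lit 0) (nat_lit 338017628153) (nat_lit 76) (nat_lit 219971737116) (nat_lit 76) (nat_lit 215022118003) (nat_lit 1) (nat_lit 4) (nat_lit 2) (nat_lit 5) (nat_lit 2) (nat_lit 4) (nat_lit 491) (nat_lit 392) (nat_lit 317))))) (XT.nd (nat_lit 234) (nat_lit 0) (nat_lit 0) (XT.nd (nat_lit 78) (nat_lit 0) (nat_lit 0) (XT.lf (nat_lit 0) (nat_lit 389829877443) (nat_lit 76) (nat_lit 224502441611) (nat_lit 76) (nat_lit 219551677484) (nat_lit 1) (nat_lit 4) (nat_lit 2) (nat_lit 5) (nat_lit 2) (nat_lit 4) (nat_lit 492) (nat_lit 392) (nat_lit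 316)) (XT.nd (nat_lit 78) (nat_lit 0) (nat_lit 0) (XT.lf (nat_lit 0) (nat_lit 445776170421) (nat_lit 76) (nat_lit 229401196159) (nat_lit 76) (nat_lit 224449371835) (nat_lit 1) (nat_lit 4) (nat_lit 2) (nat_lit 5) (nat_lit 2) (nat_lit 4) (nat_lit 493) (nat_lit 392) (nat_lit 315)) (XT.lf (nat_lit 0) (nat_lit 506188040675) (nat_lit 76) (nat_lit 234697030416) (nat_lit 76) (nat_lit 229744224428) (nat_lit 1) (nat_lit 4) (nat_lit 2) (nat_lit 5) (nat_lit 2) (nat_lit 4) (nat_lit 494) (nat_lit 392) (nat_lit 314)))) (XT.nd (nat_lit 78) (nat_lit 0) (nat_lit 0) (XT.lf (nat_lit 0) (nat_lit 571423484474) (nat_lit 76) (nat_lit 240421327105) (nat_lit 76) (nat_lit 235467612168) (nat_lit 1) (nat_lit 4) (nat_lit 2) (nat_lit 5) (nat_lit 2) (nat_lit 4) (nat_lit 495) (nat_lit 392) (nat_lit 313)) (XT.nd (nat_lit 78) (nat_lit 0) (nat_lit 0) (XT.lf (nat_lit 0) (nat_lit 641869082224) (nat_lit 76) (nat_lit 246608007982)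 (nat_lit 76) (nat_lit 241653451426) (nat_lit 1) (nat_lit 4) (nat_lit 2) (nat_lit 5) (nat_lit 2) (nat_lit 4) (nat_lit 496) (nat_lit 392) (nat_lit 312)) (XT.lf (nat_lit 0) (nat_lit 717942289321) (nat_lit 76) (nat_lit 253293734862) (nat_lit 76) (nat_lit 248338399029) (nat_lit 1) (nat_lit 4) (nat_lit 2) (nat_lit 5) (nat_lit 2) (nat_lit 4) (nat_lit 497) (nat_lit 392) (nat_lit 311)))))) (XT.nd (nat_lit 390) (nat_lit 0) (nat_lit 0) (XT.nd (nat_lit 156) (nat_lit 0) (nat_lit 0) (XT.nd (nat_lit 78) (nat_lit 0) (nat_lit 0) (XT.lf (nat_lit 0) (nat_lit 800093909953) (nat_lit 76) (nat_lit 260518126865) (nat_lit 76) (nat_lit 255562069479) (nat_lit 1) (nat_lit 4) (nat_lit 2) (nat_lit 5) (nat_lit 2) (nat_lit 4) (nat_lit 498) (nat_lit 392) (nat_lit 310)) (XT.lf (nat_lit 0) (nat_lit 888810768541) (nat_lit 76) (nat_lit 268323995204) (nat_lit 76) (nat_lit 263367269714) (nat_lit 1) (nat_lit 4) (nat_lit 2) (nat_lit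 5) (nat_lit 2) (nat_lit 4) (nat_lit 499) (nat_lit 392) (nat_lit 309))) (XT.nd (nat_lit 78) (nat_lit 0) (nat_lit 0) (XT.lf (nat_lit 0) (nat_lit 984618594615) (nat_lit 76) (nat_lit 276757596877) (nat_lit 76) (nat_lit 271800252771) (nat_lit 1) (nat_lit 4) (nat_lit 2) (nat_lit 5) (nat_lit 2) (nat_lit 4) (nat_lit 500) (nat_lit 392) (nat_lit 308)) (XT.nd (nat_lit 78) (nat_lit 0) (nat_lit 0) (XT.lf (nat_lit 0) (nat_lit 1088085138257) (nat_lit 76) (nat_lit 285868908781) (nat_lit 76) (nat_lit 280910991885) (nat_lit 1) (nat_lit 4) (nat_lit 2) (nat_lit 5) (nat_lit 2) (nat_lit 4) (nat_lit 501) (nat_lit 392) (nat_lit 307)) (XT.lf (nat_lit 0) (nat_lit 1199823534540) (nat_lit 76) (nat_lit 295711923878) (nat_lit 76) (nat_lit 290753476618) (nat_lit 1) (nat_lit 4) (nat_lit 2) (nat_lit 5) (nat_lit 2) (nat_lit 4) (nat_lit 502) (nat_lit 392) (nat_lit 306))))) (XT.nd (nat_lit 234) (nat_lit 0) (nat_lit 0) (XT.nd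 (nat_lit 78) (nat_lit 0) (nat_lit 0) (XT.lf (nat_lit 0) (nat_lit 1320495936924) (nat_lit 76) (nat_lit 306344971144) (nat_lit 76) (nat_lit 301386032808) (nat_lit 1) (nat_lit 4) (nat_lit 2) (nat_lit 5) (nat_lit 2) (nat_lit 4) (nat_lit 503) (nat_lit 392) (nat_lit 305)) (XT.nd (nat_lit 78) (nat_lit 0) (nat_lit 0) (XT.lf (nat_lit 0) (nat_lit 1450817441126) (nat_lit 76) (nat_lit 317831061231) (nat_lit 76) (nat_lit 312871668194) (nat_lit 1) (nat_lit 4) (nat_lit 2) (nat_lit 5) (nat_lit 2) (nat_lit 4) (nat_lit 504) (nat_lit 392) (nat_lit 304)) (XT.lf (nat_lit 0) (nat_lit 1591560322726) (nat_lit 76) (nat_lit 330238259857) (nat_lit 76) (nat_lit 325278445802) (nat_lit 1) (nat_lit 4) (nat_lit 2) (nat_lit 5) (nat_lit 2) (nat_lit 4) (nat_lit 505) (nat_lit 392) (nat_lit 303)))) (XT.nd (nat_lit 78) (nat_lit 0) (nat_lit 0) (XT.lf (nat_lit 0) (nat_lit 1743558613617) (nat_lit 76) (nat_lit 343640091163) (nat_lit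 76) (nat_lit 338679887275) (nat_lit 1) (nat_lit 4) (nat_lit 2) (nat_lit 5) (nat_lit 2) (nat_lit 4) (nat_lit 506) (nat_lit 392) (nat_lit 302)) (XT.nd (nat_lit 78) (nat_lit 0) (nat_lit 0) (XT.lf (nat_lit 0) (nat_lit 1907713044409) (nat_lit 76) (nat_lit 358115973408) (nat_lit 76) (nat_lit 353155408564) (nat_lit 1) (nat_lit 4) (nat_lit 2) (nat_lit 5) (nat_lit 2) (nat_lit 4) (nat_lit 507) (nat_lit 392) (nat_lit 301)) (XT.lf (nat_lit 0) (nat_lit 2084996382102) (nat_lit 76) (nat_lit 373751689598) (nat_lit 76) (nat_lit 368790790536) (nat_lit 1) (nat_lit 4) (nat_lit 2) (nat_lit 5) (nat_lit 2) (nat_lit 4) (nat_lit 508) (nat_lit 392) (nat_lit 300))))))) (XT.nd (nat_lit 858) (nat_lit 0) (nat_lit 0) (XT.nd (nat_lit 390) (nat_lit 0) (nat_lit 0) (XT.nd (nat_lit 156) (nat_lit 0) (nat_lit 0) (XT.nd (nat_lit 78) (nat_lit 0) (nat_lit 0) (XT.lf (nat_lit 0) (nat_lit 2276459194621) (nat_lit 76) (nat_lit 390639895829)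 (nat_lit 76) (nat_lit 385678687305) (nat_lit 1) (nat_lit 4) (nat_lit 2) (nat_lit 5) (nat_lit 2) (nat_lit 4) (nat_lit 509) (nat_lit 392) (nat_lit 299)) (XT.lf (nat_lit 0) (nat_lit 2483236076412) (nat_lit 76) (nat_lit 408880670361) (nat_lit 76) (nat_lit 403919175298) (nat_lit 1) (nat_lit 4) (nat_lit 2) (nat_lit 5) (nat_lit 2) (nat_lit 4) (nat_lit 510) (nat_lit 392) (nat_lit 298))) (XT.nd (nat_lit 78) (nat_lit 0) (nat_lit 0) (XT.lf (nat_lit 0) (nat_lit 2706552371958) (nat_lit 76) (nat_lit 428582106670) (nat_lit 76) (nat_lit 423620346295) (nat_lit 1) (nat_lit 4) (nat_lit 2) (nat_lit 5) (nat_lit 2) (nat_lit 4) (nat_lit 511) (nat_lit 392) (nat_lit 297)) (XT.nd (nat_lit 78) (nat_lit 0) (nat_lit 0) (XT.lf (nat_lit 0) (nat_lit 2947731437086) (nat_lit 76) (nat_lit 449860954011) (nat_lit 76) (nat_lit 444898947975) (nat_lit 1) (nat_lit 4) (nat_lit 2) (nat_lit 5) (nat_lit 2) (nat_lit 4) (nat_lit 512)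 (nat_lit 392) (nat_lit 296)) (XT.lf (nat_lit 0) (nat_lit 3208202481070) (nat_lit 76) (nat_lit 472843309256) (nat_lit 76) (nat_lit 467881075756) (nat_lit 1) (nat_lit 4) (nat_lit 2) (nat_lit 5) (nat_lit 2) (nat_lit 4) (nat_lit 513) (nat_lit 392) (nat_lit 295))))) (XT.nd (nat_lit 234) (nat_lit 0) (nat_lit 0) (XT.nd (nat_lit 78) (nat_lit 0) (nat_lit 0) (XT.lf (nat_lit 0) (nat_lit 3489509036024) (nat_lit 76) (nat_lit 497665364140) (nat_lit 76) (nat_lit 492702920026) (nat_lit 1) (nat_lit 4) (nat_lit 2) (nat_lit 5) (nat_lit 2) (nat_lit 4) (nat_lit 514) (nat_lit 392) (nat_lit 294)) (XT.nd (nat_lit 78) (nat_lit 0) (nat_lit 0) (XT.lf (nat_lit 0) (nat_lit 3793318103753) (nat_lit 76) (nat_lit 524474212322) (nat_lit 76) (nat_lit 519511573194) (nat_lit 1) (nat_lit 4) (nat_lit 2) (nat_lit 5) (nat_lit 2) (nat_lit 4) (nat_lit 515) (nat_lit 392) (nat_lit 293)) (XT.lf (nat_lit 0) (nat_lit 4121430034288) (nat_lit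 76) (nat_lit 553428721049) (nat_lit 76) (nat_lit 548465901354) (nat_lit 1) (nat_lit 4) (nat_lit 2) (nat_lit 5) (nat_lit 2) (nat_lit 4) (nat_lit 516) (nat_lit 392) (nat_lit 292)))) (XT.nd (nat_lit 78) (nat_lit 0) (nat_lit 0) (XT.lf (nat_lit 0) (nat_lit 4475789194627) (nat_lit 76) (nat_lit 584700472597) (nat_lit 76) (nat_lit 579737485709) (nat_lit 1) (nat_lit 4) (nat_lit 2) (nat_lit 5) (nat_lit 2) (nat_lit 4) (nat_lit 517) (nat_lit 392) (nat_lit 291)) (XT.nd (nat_lit 78) (nat_lit 0) (nat_lit 0) (XT.lf (nat_lit 0) (nat_lit 4858495490904) (nat_lit 76) (nat_lit 618474781047) (nat_lit 76) (nat_lit 613511639351) (nat_lit 1) (nat_lit 4) (nat_lit 2) (nat_lit 5) (nat_lit 2) (nat_lit 4) (nat_lit 518) (nat_lit 392) (nat_lit 290)) (XT.lf (nat_lit 0) (nat_lit 5271816812281) (nat_lit 76) (nat_lit 654951790451) (nat_lit 76) (nat_lit 649988505415) (nat_lit 1) (nat_lit 4) (nat_lit 2) (nat_lit 5) (nat_lit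 2) (nat_lit 4) (nat_lit 519) (nat_lit 392) (nat_lit 289)))))) (XT.nd (nat_lit 468) (nat_lit 0) (nat_lit 0) (XT.nd (nat_lit 234) (nat_lit 0) (nat_lit 0) (XT.nd (nat_lit 78) (nat_lit 0) (nat_lit 0) (XT.lf (nat_lit 0) (nat_lit 5718202470294) (nat_lit 76) (nat_lit 694347660864) (nat_lit 76) (nat_lit 689384243105) (nat_lit 1) (nat_lit 4) (nat_lit 2) (nat_lit 5) (nat_lit 2) (nat_lit 4) (nat_lit 520) (nat_lit 392) (nat_lit 288)) (XT.nd (nat_lit 78) (nat_lit 0) (nat_lit 0) (XT.lf (nat_lit 0) (nat_lit 6200297713286) (nat_lit 76) (nat_lit 736895849295) (nat_lit 76) (nat_lit 731932308645) (nat_lit 1) (nat_lit 4) (nat_lit 2) (nat_lit 5) (nat_lit 2) (nat_lit 4) (nat_lit 521) (nat_lit 392) (nat_lit 287)) (XT.lf (nat_lit 0) (nat_lit 6720959401957) (nat_lit 76) (nat_lit 782848493158) (nat_lit 76) (nat_lit 777884838719) (nat_lit 1) (nat_lit 4) (nat_lit 2) (nat_lit 5) (nat_lit 2) (nat_lit 4) (nat_lit 522)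 (nat_lit 392) (nat_lit 286)))) (XT.nd (nat_lit 78) (nat_lit 0) (nat_lit 0) (XT.lf (nat_lit 0) (nat_lit 7283272938905) (nat_lit 76) (nat_lit 832477904417) (nat_lit 76) (nat_lit 827514144618) (nat_lit 1) (nat_lit 4) (nat_lit 2) (nat_lit 5) (nat_lit 2) (nat_lit 4) (nat_lit 523) (nat_lit 392) (nat_lit 285)) (XT.nd (nat_lit 78) (nat_lit 0) (nat_lit 0) (XT.lf (nat_lit 0) (nat_lit 7890570552498) (nat_lit 76) (nat_lit 886078183286) (nat_lit 76) (nat_lit 881114325932) (nat_lit 1) (nat_lit 4) (nat_lit 2) (nat_lit 5) (nat_lit 2) (nat_lit 4) (nat_lit 524) (nat_lit 392) (nat_lit 284)) (XT.lf (nat_lit 0) (nat_lit 8546451043408) (nat_lit 76) (nat_lit 943966961047) (nat_lit 76) (nat_lit 939003013365) (nat_lit 1) (nat_lit 4) (nat_lit 2) (nat_lit 5) (nat_lit 2) (nat_lit 4) (nat_lit 525) (nat_lit 392) (nat_lit 283))))) (XT.nd (nat_lit 53742) (nat_lit 0) (nat_lit 3876) (XT.nd (nat_lit 78) (nat_lit 0) (nat_lit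 0) (XT.lf (nat_lit 0) (nat_lit 9254801110843) (nat_lit 76) (nat_lit 1006487282310) (nat_lit 76) (nat_lit 1001523250989) (nat_lit 1) (nat_lit 4) (nat_lit 2) (nat_lit 5) (nat_lit 2) (nat_lit 4) (nat_lit 526) (nat_lit 392) (nat_lit 282)) (XT.nd (nat_lit 78) (nat_lit 0) (nat_lit 0) (XT.lf (nat_lit 0) (nat_lit 10019818384829) (nat_lit 76) (nat_lit 1074009637867) (nat_lit 76) (nat_lit 1069045529104) (nat_lit 1) (nat_lit 4) (nat_lit 2) (nat_lit 5) (nat_lit 2) (nat_lit 4) (nat_lit 527) (nat_lit 392) (nat_lit 281)) (XT.lf (nat_lit 0) (nat_lit 10846036301067) (nat_lit 76) (nat_lit 1146934160195) (nat_lit 76) (nat_lit 1141969979726) (nat_lit 1) (nat_lit 4) (nat_lit 2) (nat_lit 5) (nat_lit 2) (nat_lit 4) (nat_lit 528) (nat_lit 392) (nat_lit 280)))) (XT.nd (nat_lit 78) (nat_lit 228) (nat_lit 0) (XT.lf (nat_lit 0) (nat_lit 1432757546) (nat_lit 228) (nat_lit 1253195193) (nat_lit 228) (nat_lit 1253195193)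 (nat_lit 55) (nat_lit 4) (nat_lit 58) (nat_lit 5) (nat_lit 58) (nat_lit 4) (nat_lit 414) (nat_lit 393) (nat_lit 393)) (XT.nd (nat_lit 78) (nat_lit 0) (nat_lit 0) (XT.lf (nat_lit 0) (nat_lit 1289032644) (nat_lit 228) (nat_lit 6689737093) (nat_lit 0) (nat_lit 122361292) (nat_lit 52) (nat_lit 5) (nat_lit 55) (nat_lit 4) (nat_lit 52) (nat_lit 4) (nat_lit 415) (nat_lit 393) (nat_lit 392)) (XT.lf (nat_lit 0) (nat_lit 5198703461) (nat_lit 228) (nat_lit 190564666) (nat_lit 0) (nat_lit 2951780857) (nat_lit 52) (nat_lit 5) (nat_lit 55) (nat_lit 4) (nat_lit 52) (nat_lit 4) (nat_lit 416) (nat_lit 393) (nat_lit 391))))))))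
noncomputable def xc74 : XT := (XT.nd (nat_lit 1716) (nat_lit 1140) (nat_lit 0) (XT.nd (nat_lit 858) (nat_lit 760) (nat_lit 0) (XT.nd (nat_lit 390) (nat_lit 836) (nat_lit 0) (XT.nd (nat_lit 156) (nat_lit 380) (nat_lit 0) (XT.nd (nat_lit 78) (nat_lit 152) (nat_lit 0) (XT.lf (nat_lit 0) (nat_lit 701779126) (nat_lit 304) (nat_lit 1787454661) (nat_lit 76) (nat_lit 6115723317) (nat_lit 48) (nat_lit 5) (nat_lit 52) (nat_lit 5) (nat_lit 49) (nat_lit 4) (nat_lit 417) (nat_lit 393) (nat_lit 390)) (XT.lf (nat_lit 0) (nat_lit 4599862844) (nat_lit 228) (nat_lit 3554706239) (nat_lit 0) (nat_lit 735699345) (nat_lit 46) (nat_lit 5) (nat_lit 49) (nat_lit 4) (nat_lit 46) (nat_lit 4) (nat_lit 418) (nat_lit 393) (nat_lit 389))) (XT.nd (nat_lit 78) (nat_lit 228) (nat_lit 0) (XT.lf (nat_lit 0) (nat_lit 3710028048) (nat_lit 152) (nat_lit 5074348825) (nat_lit 152) (nat_lit 416168407) (nat_lit 44) (nat_lit 4)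 (nat_lit 46) (nat_lit 5) (nat_lit 46) (nat_lit 4) (nat_lit 419) (nat_lit 393) (nat_lit 388)) (XT.nd (nat_lit 78) (nat_lit 0) (nat_lit 0) (XT.lf (nat_lit 0) (nat_lit 1882781281) (nat_lit 152) (nat_lit 1615373790) (nat_lit 228) (nat_lit 6036840488) (nat_lit 41) (nat_lit 5) (nat_lit 43) (nat_lit 5) (nat_lit 44) (nat_lit 4) (nat_lit 420) (nat_lit 393) (nat_lit 387)) (XT.lf (nat_lit 0) (nat_lit 7687461419) (nat_lit 228) (nat_lit 145941545) (nat_lit 0) (nat_lit 2063273644) (nat_lit 41) (nat_lit 5) (nat_lit 44) (nat_lit 4) (nat_lit 41) (nat_lit 4) (nat_lit 421) (nat_lit 393) (nat_lit 386))))) (XT.nd (nat_lit 234) (nat_lit 380) (nat_lit 0) (XT.nd (nat_lit 78) (nat_lit 228) (nat_lit 0) (XT.lf (nat_lit 0) (nat_lit 1858828440) (nat_lit 228) (nat_lit 2341450756) (nat_lit 76) (nat_lit 6080944157) (nat_lit 38) (nat_lit 5) (nat_lit 41) (nat_lit 5) (nat_lit 39) (nat_lit 4) (nat_lit 422) (nat_lit 393) (nat_lit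 385)) (XT.nd (nat_lit 78) (nat_lit 152) (nat_lit 0) (XT.lf (nat_lit 0) (nat_lit 5891240981) (nat_lit 76) (nat_lit 185417416) (nat_lit 152) (nat_lit 4619856660) (nat_lit 37) (nat_lit 5) (nat_lit 38) (nat_lit 5) (nat_lit 39) (nat_lit 4) (nat_lit 423) (nat_lit 393) (nat_lit 384)) (XT.lf (nat_lit 0) (nat_lit 3515542247) (nat_lit 152) (nat_lit 7168510914) (nat_lit 152) (nat_lit 456868477) (nat_lit 35) (nat_lit 4) (nat_lit 37) (nat_lit 5) (nat_lit 37) (nat_lit 4) (nat_lit 424) (nat_lit 393) (nat_lit 383)))) (XT.nd (nat_lit 78) (nat_lit 228) (nat_lit 0) (XT.lf (nat_lit 0) (nat_lit 761093797) (nat_lit 76) (nat_lit 3037809505) (nat_lit 152) (nat_lit 7817315806) (nat_lit 33) (nat_lit 5) (nat_lit 34) (nat_lit 5) (nat_lit 35) (nat_lit 4) (nat_lit 425) (nat_lit 393) (nat_lit 382)) (XT.nd (nat_lit 78) (nat_lit 228) (nat_lit 0) (XT.lf (nat_lit 0) (nat_lit 8425780669) (nat_lit 152) (nat_lit 2252126623)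 (nat_lit 0) (nat_lit 1446307322) (nat_lit 33) (nat_lit 5) (nat_lit 35) (nat_lit 4) (nat_lit 33) (nat_lit 4) (nat_lit 426) (nat_lit 393) (nat_lit 381)) (XT.lf (nat_lit 0) (nat_lit 782795956) (nat_lit 228) (nat_lit 5691798004) (nat_lit 76) (nat_lit 6191227217) (nat_lit 30) (nat_lit 5) (nat_lit 33) (nat_lit 5) (nat_lit 31) (nat_lit 4) (nat_lit 427) (nat_lit 393) (nat_lit 380)))))) (XT.nd (nat_lit 390) (nat_lit 380) (nat_lit 0) (XT.nd (nat_lit 156) (nat_lit 304) (nat_lit 0) (XT.nd (nat_lit 78) (nat_lit 0) (nat_lit 0) (XT.lf (nat_lit 0) (nat_lit 3586120481) (nat_lit 76) (nat_lit 1808806979) (nat_lit 152) (nat_lit 7850406029) (nat_lit 29) (nat_lit 5) (nat_lit 30) (nat_lit 5) (nat_lit 31) (nat_lit 4) (nat_lit 428) (nat_lit 393) (nat_lit 379)) (XT.lf (nat_lit 0) (nat_lit 10438605072) (nat_lit 152) (nat_lit 329107693) (nat_lit 0) (nat_lit 3098524507) (nat_lit 29) (nat_lit 5) (nat_lit 31) (nat_lit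 4) (nat_lit 29) (nat_lit 4) (nat_lit 429) (nat_lit 393) (nat_lit 378))) (XT.nd (nat_lit 78) (nat_lit 152) (nat_lit 0) (XT.lf (nat_lit 0) (nat_lit 1407915268) (nat_lit 152) (nat_lit 4661924054) (nat_lit 76) (nat_lit 8454295364) (nat_lit 27) (nat_lit 5) (nat_lit 29) (nat_lit 5) (nat_lit 28) (nat_lit 4) (nat_lit 430) (nat_lit 393) (nat_lit 377)) (XT.nd (nat_lit 78) (nat_lit 76) (nat_lit 0) (XT.lf (nat_lit 0) (nat_lit 5545740969) (nat_lit 76) (nat_lit 881131507) (nat_lit 152) (nat_lit 8802158296) (nat_lit 26) (nat_lit 5) (nat_lit 27) (nat_lit 5) (nat_lit 28) (nat_lit 4) (nat_lit 431) (nat_lit 393) (nat_lit 376)) (XT.lf (nat_lit 0) (nat_lit 463483203) (nat_lit 76) (nat_lit 11480292398) (nat_lit 76) (nat_lit 4038855451) (nat_lit 25) (nat_lit 4) (nat_lit 26) (nat_lit 5) (nat_lit 26) (nat_lit 4) (nat_lit 432) (nat_lit 393) (nat_lit 375))))) (XT.nd (nat_lit 234) (nat_lit 228) (nat_lit 0) (XT.nd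 (nat_lit 78) (nat_lit 76) (nat_lit 0) (XT.lf (nat_lit 0) (nat_lit 1186428159) (nat_lit 152) (nat_lit 5157649672) (nat_lit 76) (nat_lit 10439440043) (nat_lit 24) (nat_lit 5) (nat_lit 26) (nat_lit 5) (nat_lit 25) (nat_lit 4) (nat_lit 433) (nat_lit 393) (nat_lit 374)) (XT.nd (nat_lit 78) (nat_lit 0) (nat_lit 0) (XT.lf (nat_lit 0) (nat_lit 5948919326) (nat_lit 76) (nat_lit 659106864) (nat_lit 152) (nat_lit 11032358756) (nat_lit 23) (nat_lit 5) (nat_lit 24) (nat_lit 5) (nat_lit 25) (nat_lit 4) (nat_lit 434) (nat_lit 393) (nat_lit 373)) (XT.lf (nat_lit 0) (nat_lit 12594580407) (nat_lit 152) (nat_lit 730524243) (nat_lit 0) (nat_lit 5230218207) (nat_lit 23) (nat_lit 5) (nat_lit 25) (nat_lit 4) (nat_lit 23) (nat_lit 4) (nat_lit 435) (nat_lit 393) (nat_lit 372)))) (XT.nd (nat_lit 78) (nat_lit 152) (nat_lit 0) (XT.lf (nat_lit 0) (nat_lit 11403330734) (nat_lit 76) (nat_lit 7813594720) (nat_lit 76)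 (nat_lit 313999302) (nat_lit 22) (nat_lit 4) (nat_lit 23) (nat_lit 5) (nat_lit 23) (nat_lit 4) (nat_lit 436) (nat_lit 393) (nat_lit 371)) (XT.nd (nat_lit 78) (nat_lit 0) (nat_lit 0) (XT.lf (nat_lit 0) (nat_lit 3756923422) (nat_lit 76) (nat_lit 1715064453) (nat_lit 152) (nat_lit 15103323815) (nat_lit 20) (nat_lit 5) (nat_lit 21) (nat_lit 5) (nat_lit 22) (nat_lit 4) (nat_lit 437) (nat_lit 393) (nat_lit 370)) (XT.lf (nat_lit 0) (nat_lit 11916027022) (nat_lit 152) (nat_lit 5020949614) (nat_lit 0) (nat_lit 4748664016) (nat_lit 20) (nat_lit 5) (nat_lit 22) (nat_lit 4) (nat_lit 20) (nat_lit 4) (nat_lit 438) (nat_lit 393) (nat_lit 369))))))) (XT.nd (nat_lit 858) (nat_lit 456) (nat_lit 0) (XT.nd (nat_lit 390) (nat_lit 380) (nat_lit 0) (XT.nd (nat_lit 156) (nat_lit 152) (nat_lit 0) (XT.nd (nat_lit 78) (nat_lit 76) (nat_lit 0) (XT.lf (nat_lit 0) (nat_lit 7827660401) (nat_lit 76) (nat_lit 11157570545)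 (nat_lit 76) (nat_lit 3890807087) (nat_lit 19) (nat_lit 4) (nat_lit 20) (nat_lit 5) (nat_lit 20) (nat_lit 4) (nat_lit 439) (nat_lit 393) (nat_lit 368)) (XT.lf (nat_lit 0) (nat_lit 2353401826) (nat_lit 152) (nat_lit 2463725114) (nat_lit 76) (nat_lit 19338376228) (nat_lit 18) (nat_lit 5) (nat_lit 20) (nat_lit 5) (nat_lit 19) (nat_lit 4) (nat_lit 440) (nat_lit 393) (nat_lit 367))) (XT.nd (nat_lit 78) (nat_lit 76) (nat_lit 0) (XT.lf (nat_lit 0) (nat_lit 9102742917) (nat_lit 152) (nat_lit 14199113371) (nat_lit 0) (nat_lit 2210131085) (nat_lit 17) (nat_lit 5) (nat_lit 19) (nat_lit 4) (nat_lit 17) (nat_lit 4) (nat_lit 441) (nat_lit 393) (nat_lit 366)) (XT.nd (nat_lit 78) (nat_lit 76) (nat_lit 0) (XT.lf (nat_lit 0) (nat_lit 16473239803) (nat_lit 152) (nat_lit 989698035) (nat_lit 0) (nat_lit 9507565671) (nat_lit 17) (nat_lit 5) (nat_lit 19) (nat_lit 4) (nat_lit 17) (nat_lit 4) (nat_lit 442) (nat_lit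 393) (nat_lit 365)) (XT.lf (nat_lit 0) (nat_lit 13758287892) (nat_lit 76) (nat_lit 10901323885) (nat_lit 76) (nat_lit 3867999476) (nat_lit 16) (nat_lit 4) (nat_lit 17) (nat_lit 5) (nat_lit 17) (nat_lit 4) (nat_lit 443) (nat_lit 393) (nat_lit 364))))) (XT.nd (nat_lit 234) (nat_lit 228) (nat_lit 0) (XT.nd (nat_lit 78) (nat_lit 76) (nat_lit 0) (XT.lf (nat_lit 0) (nat_lit 3050320046) (nat_lit 152) (nat_lit 751297858) (nat_lit 76) (nat_lit 26407474605) (nat_lit 15) (nat_lit 5) (nat_lit 17) (nat_lit 5) (nat_lit 16) (nat_lit 4) (nat_lit 444) (nat_lit 393) (nat_lit 363)) (XT.nd (nat_lit 78) (nat_lit 0) (nat_lit 0) (XT.lf (nat_lit 0) (nat_lit 10675923767) (nat_lit 152) (nat_lit 17260230897) (nat_lit 0) (nat_lit 4051884171) (nat_lit 14) (nat_lit 5) (nat_lit 16) (nat_lit 4) (nat_lit 14) (nat_lit 4) (nat_lit 445) (nat_lit 393) (nat_lit 362)) (XT.lf (nat_lit 0) (nat_lit 18935184697) (nat_lit 152) (nat_lit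 2710814050) (nat_lit 0) (nat_lit 12261420128) (nat_lit 14) (nat_lit 5) (nat_lit 16) (nat_lit 4) (nat_lit 14) (nat_lit 4) (nat_lit 446) (nat_lit 393) (nat_lit 361)))) (XT.nd (nat_lit 78) (nat_lit 152) (nat_lit 0) (XT.lf (nat_lit 0) (nat_lit 13500255814) (nat_lit 76) (nat_lit 14590529036) (nat_lit 76) (nat_lit 7870722824) (nat_lit 13) (nat_lit 4) (nat_lit 14) (nat_lit 5) (nat_lit 14) (nat_lit 4) (nat_lit 447) (nat_lit 393) (nat_lit 360)) (XT.nd (nat_lit 78) (nat_lit 152) (nat_lit 0) (XT.lf (nat_lit 0) (nat_lit 30989237022) (nat_lit 76) (nat_lit 6977066036) (nat_lit 76) (nat_lit 214628675) (nat_lit 13) (nat_lit 4) (nat_lit 14) (nat_lit 5) (nat_lit 14) (nat_lit 4) (nat_lit 448) (nat_lit 393) (nat_lit 359)) (XT.lf (nat_lit 0) (nat_lit 7833982974) (nat_lit 152) (nat_lit 31177884598) (nat_lit 0) (nat_lit 1535917559) (nat_lit 11) (nat_lit 5) (nat_lit 13) (nat_lit 4) (nat_lit 11) (nat_lit 4) (nat_lit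 449) (nat_lit 393) (nat_lit 358)))))) (XT.nd (nat_lit 468) (nat_lit 228) (nat_lit 0) (XT.nd (nat_lit 234) (nat_lit 152) (nat_lit 0) (XT.nd (nat_lit 78) (nat_lit 76) (nat_lit 0) (XT.lf (nat_lit 0) (nat_lit 16815836832) (nat_lit 152) (nat_lit 15779703221) (nat_lit 0) (nat_lit 10483929435) (nat_lit 11) (nat_lit 5) (nat_lit 13) (nat_lit 4) (nat_lit 11) (nat_lit 4) (nat_lit 450) (nat_lit 393) (nat_lit 357)) (XT.nd (nat_lit 78) (nat_lit 0) (nat_lit 0) (XT.lf (nat_lit 0) (nat_lit 734322047) (nat_lit 76) (nat_lit 25723637837) (nat_lit 76) (nat_lit 19360395273) (nat_lit 10) (nat_lit 4) (nat_lit 11) (nat_lit 5) (nat_lit 11) (nat_lit 4) (nat_lit 451) (nat_lit 393) (nat_lit 356)) (XT.lf (nat_lit 0) (nat_lit 19317997608) (nat_lit 76) (nat_lit 17911005297) (nat_lit 76) (nat_lit 11518748688) (nat_lit 10) (nat_lit 4) (nat_lit 11) (nat_lit 5) (nat_lit 11) (nat_lit 4) (nat_lit 452) (nat_lit 393) (nat_lit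 355)))) (XT.nd (nat_lit 78) (nat_lit 152) (nat_lit 0) (XT.lf (nat_lit 0) (nat_lit 39250517736) (nat_lit 76) (nat_lit 9542790400) (nat_lit 76) (nat_lit 3123668935) (nat_lit 10) (nat_lit 4) (nat_lit 11) (nat_lit 5) (nat_lit 11) (nat_lit 4) (nat_lit 453) (nat_lit 393) (nat_lit 354)) (XT.nd (nat_lit 78) (nat_lit 0) (nat_lit 0) (XT.lf (nat_lit 0) (nat_lit 5435826861) (nat_lit 76) (nat_lit 275626596) (nat_lit 152) (nat_lit 49611597464) (nat_lit 8) (nat_lit 5) (nat_lit 9) (nat_lit 5) (nat_lit 10) (nat_lit 4) (nat_lit 454) (nat_lit 393) (nat_lit 353)) (XT.lf (nat_lit 0) (nat_lit 15609211977) (nat_lit 152) (nat_lit 33722721476) (nat_lit 0) (nat_lit 9621222519) (nat_lit 8) (nat_lit 5) (nat_lit 10) (nat_lit 4) (nat_lit 8) (nat_lit 4) (nat_lit 455) (nat_lit 393) (nat_lit 352))))) (XT.nd (nat_lit 234) (nat_lit 152) (nat_lit 0) (XT.nd (nat_lit 78) (nat_lit 76) (nat_lit 0) (XT.lf (nat_lit 0) (nat_lit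 26245941056) (nat_lit 152) (nat_lit 16393753925) (nat_lit 0) (nat_lit 20238205126) (nat_lit 8) (nat_lit 5) (nat_lit 10) (nat_lit 4) (nat_lit 8) (nat_lit 4) (nat_lit 456) (nat_lit 393) (nat_lit 351)) (XT.nd (nat_lit 78) (nat_lit 0) (nat_lit 0) (XT.lf (nat_lit 0) (nat_lit 2325319497) (nat_lit 76) (nat_lit 35408648827) (nat_lit 76) (nat_lit 29382629128) (nat_lit 7) (nat_lit 4) (nat_lit 8) (nat_lit 5) (nat_lit 8) (nat_lit 4) (nat_lit 457) (nat_lit 393) (nat_lit 350)) (XT.lf (nat_lit 0) (nat_lit 23364561622) (nat_lit 76) (nat_lit 27170624260) (nat_lit 76) (nat_lit 21127675145) (nat_lit 7) (nat_lit 4) (nat_lit 8) (nat_lit 5) (nat_lit 8) (nat_lit 4) (nat_lit 458) (nat_lit 393) (nat_lit 349)))) (XT.nd (nat_lit 78) (nat_lit 152) (nat_lit 0) (XT.lf (nat_lit 0) (nat_lit 45985383408) (nat_lit 76) (nat_lit 18325037640) (nat_lit 76) (nat_lit 12266413140) (nat_lit 7) (nat_lit 4) (nat_lit 8) (nat_lit 5)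 (nat_lit 8) (nat_lit 4) (nat_lit 459) (nat_lit 393) (nat_lit 348)) (XT.nd (nat_lit 78) (nat_lit 152) (nat_lit 0) (XT.lf (nat_lit 0) (nat_lit 70321834171) (nat_lit 76) (nat_lit 8819470677) (nat_lit 76) (nat_lit 2746331931) (nat_lit 7) (nat_lit 4) (nat_lit 8) (nat_lit 5) (nat_lit 8) (nat_lit 4) (nat_lit 460) (nat_lit 393) (nat_lit 347)) (XT.lf (nat_lit 0) (nat_lit 7379027561) (nat_lit 152) (nat_lit 78468822677) (nat_lit 0) (nat_lit 1743307318) (nat_lit 5) (nat_lit 5) (nat_lit 7) (nat_lit 4) (nat_lit 5) (nat_lit 4) (nat_lit 461) (nat_lit 393) (nat_lit 346))))))))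
noncomputable def xc75 : XT := (XT.nd (nat_lit 1716) (nat_lit 0) (nat_lit 0) (XT.nd (nat_lit 858) (nat_lit 76) (nat_lit 0) (XT.nd (nat_lit 390) (nat_lit 152) (nat_lit 0) (XT.nd (nat_lit 156) (nat_lit 76) (nat_lit 0) (XT.nd (nat_lit 78) (nat_lit 0) (nat_lit 0) (XT.lf (nat_lit 0) (nat_lit 18675614309) (nat_lit 152) (nat_lit 62000502649) (nat_lit 0) (nat_lit 13028372190) (nat_lit 5) (nat_lit 5) (nat_lit 7) (nat_lit 4) (nat_lit 5) (nat_lit 4) (nat_lit 462) (nat_lit 393) (nat_lit 345)) (XT.lf (nat_lit 0) (nat_lit 30835234755) (nat_lit 152) (nat_lit 44297585180) (nat_lit 0) (nat_lit 25177324232) (nat_lit 5) (nat_lit 5) (nat_lit 7) (nat_lit 4) (nat_lit 5) (nat_lit 4) (nat_lit 463) (nat_lit 393) (nat_lit 344))) (XT.nd (nat_lit 78) (nat_lit 76) (nat_lit 0) (XT.lf (nat_lit 0) (nat_lit 43929945910) (nat_lit 152) (nat_lit 25255164093) (nat_lit 0) (nat_lit 38262157235) (nat_lit 5) (nat_lit 5) (nat_lit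 7) (nat_lit 4) (nat_lit 5) (nat_lit 4) (nat_lit 464) (nat_lit 393) (nat_lit 343)) (XT.nd (nat_lit 78) (nat_lit 76) (nat_lit 0) (XT.lf (nat_lit 0) (nat_lit 58037346062) (nat_lit 152) (nat_lit 4760395412) (nat_lit 0) (nat_lit 52360410950) (nat_lit 5) (nat_lit 5) (nat_lit 7) (nat_lit 4) (nat_lit 5) (nat_lit 4) (nat_lit 465) (nat_lit 393) (nat_lit 342)) (XT.lf (nat_lit 0) (nat_lit 18219588976) (nat_lit 76) (nat_lit 55459627195) (nat_lit 76) (nat_lit 49774223161) (nat_lit 4) (nat_lit 4) (nat_lit 5) (nat_lit 5) (nat_lit 5) (nat_lit 4) (nat_lit 466) (nat_lit 393) (nat_lit 341))))) (XT.nd (nat_lit 234) (nat_lit 152) (nat_lit 0) (XT.nd (nat_lit 78) (nat_lit 0) (nat_lit 0) (XT.lf (nat_lit 0) (nat_lit 43244582004) (nat_lit 76) (nat_lit 47426558745) (nat_lit 76) (nat_lit 41733313114) (nat_lit 4) (nat_lit 4) (nat_lit 5) (nat_lit 5) (nat_lit 5) (nat_lit 4) (nat_lit 467) (nat_lit 393) (nat_lit 340)) (XT.nd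 (nat_lit 78) (nat_lit 0) (nat_lit 0) (XT.lf (nat_lit 0) (nat_lit 70212205943) (nat_lit 76) (nat_lit 38781090400) (nat_lit 76) (nat_lit 33080584033) (nat_lit 4) (nat_lit 4) (nat_lit 5) (nat_lit 5) (nat_lit 5) (nat_lit 4) (nat_lit 468) (nat_lit 393) (nat_lit 339)) (XT.lf (nat_lit 0) (nat_lit 99282268932) (nat_lit 76) (nat_lit 29471989755) (nat_lit 76) (nat_lit 23764760485) (nat_lit 4) (nat_lit 4) (nat_lit 5) (nat_lit 5) (nat_lit 5) (nat_lit 4) (nat_lit 469) (nat_lit 393) (nat_lit 338)))) (XT.nd (nat_lit 78) (nat_lit 152) (nat_lit 0) (XT.lf (nat_lit 0) (nat_lit 130627038013) (nat_lit 76) (nat_lit 19444091771) (nat_lit 76) (nat_lit 13730637589) (nat_lit 4) (nat_lit 4) (nat_lit 5) (nat_lit 5) (nat_lit 5) (nat_lit 4) (nat_lit 470) (nat_lit 393) (nat_lit 337)) (XT.nd (nat_lit 78) (nat_lit 152) (nat_lit 0) (XT.lf (nat_lit 0) (nat_lit 164432259964) (nat_lit 76) (nat_lit 8637971866) (nat_lit 76)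 (nat_lit 2918753878) (nat_lit 4) (nat_lit 4) (nat_lit 5) (nat_lit 5) (nat_lit 5) (nat_lit 4) (nat_lit 471) (nat_lit 393) (nat_lit 336)) (XT.lf (nat_lit 0) (nat_lit 8675477759) (nat_lit 152) (nat_lit 177055448892) (nat_lit 0) (nat_lit 3374964012) (nat_lit 2) (nat_lit 5) (nat_lit 4) (nat_lit 4) (nat_lit 2) (nat_lit 4) (nat_lit 472) (nat_lit 393) (nat_lit 335)))))) (XT.nd (nat_lit 390) (nat_lit 76) (nat_lit 0) (XT.nd (nat_lit 156) (nat_lit 0) (nat_lit 0) (XT.nd (nat_lit 78) (nat_lit 0) (nat_lit 0) (XT.lf (nat_lit 0) (nat_lit 21566189186) (nat_lit 152) (nat_lit 165396664177) (nat_lit 0) (nat_lit 16261099943) (nat_lit 2) (nat_lit 5) (nat_lit 4) (nat_lit 4) (nat_lit 2) (nat_lit 4) (nat_lit 473) (nat_lit 393) (nat_lit 334)) (XT.lf (nat_lit 0) (nat_lit 35467859567) (nat_lit 152) (nat_lit 152846692050) (nat_lit 0) (nat_lit 30158533755) (nat_lit 2) (nat_lit 5) (nat_lit 4) (nat_lit 4) (nat_lit 2)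 (nat_lit 4) (nat_lit 474) (nat_lit 393) (nat_lit 333))) (XT.nd (nat_lit 78) (nat_lit 0) (nat_lit 0) (XT.lf (nat_lit 0) (nat_lit 50462869172) (nat_lit 152) (nat_lit 139331162303) (nat_lit 0) (nat_lit 45149620609) (nat_lit 2) (nat_lit 5) (nat_lit 4) (nat_lit 4) (nat_lit 2) (nat_lit 4) (nat_lit 475) (nat_lit 393) (nat_lit 332)) (XT.nd (nat_lit 78) (nat_lit 0) (nat_lit 0) (XT.lf (nat_lit 0) (nat_lit 66640077316) (nat_lit 152) (nat_lit 124769982910) (nat_lit 0) (nat_lit 61323196578) (nat_lit 2) (nat_lit 5) (nat_lit 4) (nat_lit 4) (nat_lit 2) (nat_lit 4) (nat_lit 476) (nat_lit 393) (nat_lit 331)) (XT.lf (nat_lit 0) (nat_lit 84095348937) (nat_lit 152) (nat_lit 109076865399) (nat_lit 0) (nat_lit 78775105073) (nat_lit 2) (nat_lit 5) (nat_lit 4) (nat_lit 4) (nat_lit 2) (nat_lit 4) (nat_lit 477) (nat_lit 393) (nat_lit 330))))) (XT.nd (nat_lit 234) (nat_lit 76) (nat_lit 0) (XT.nd (nat_lit 78) (nat_lit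 0) (nat_lit 0) (XT.lf (nat_lit 0) (nat_lit 102932122681) (nat_lit 152) (nat_lit 92158813518) (nat_lit 0) (nat_lit 97608764812) (nat_lit 2) (nat_lit 5) (nat_lit 4) (nat_lit 4) (nat_lit 2) (nat_lit 4) (nat_lit 478) (nat_lit 393) (nat_lit 329)) (XT.nd (nat_lit 78) (nat_lit 0) (nat_lit 0) (XT.lf (nat_lit 0) (nat_lit 123262023875) (nat_lit 152) (nat_lit 73915572146) (nat_lit 0) (nat_lit 117935782667) (nat_lit 2) (nat_lit 5) (nat_lit 4) (nat_lit 4) (nat_lit 2) (nat_lit 4) (nat_lit 479) (nat_lit 393) (nat_lit 328)) (XT.lf (nat_lit 0) (nat_lit 145205526006) (nat_lit 152) (nat_lit 54239033185) (nat_lit 0) (nat_lit 139876615041) (nat_lit 2) (nat_lit 5) (nat_lit 4) (nat_lit 4) (nat_lit 2) (nat_lit 4) (nat_lit 480) (nat_lit 393) (nat_lit 327)))) (XT.nd (nat_lit 78) (nat_lit 76) (nat_lit 0) (XT.lf (nat_lit 0) (nat_lit 168892664643) (nat_lit 152) (nat_lit 33012594923) (nat_lit 0) (nat_lit 163561281680)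 (nat_lit 2) (nat_lit 5) (nat_lit 4) (nat_lit 4) (nat_lit 2) (nat_lit 4) (nat_lit 481) (nat_lit 393) (nat_lit 326)) (XT.nd (nat_lit 78) (nat_lit 76) (nat_lit 0) (XT.lf (nat_lit 0) (nat_lit 194463808016) (nat_lit 152) (nat_lit 10110471060) (nat_lit 0) (nat_lit 189130136165) (nat_lit 2) (nat_lit 5) (nat_lit 4) (nat_lit 4) (nat_lit 2) (nat_lit 4) (nat_lit 482) (nat_lit 393) (nat_lit 325)) (XT.lf (nat_lit 0) (nat_lit 15372025676) (nat_lit 76) (nat_lit 207068160735) (nat_lit 76) (nat_lit 201732369545) (nat_lit 1) (nat_lit 4) (nat_lit 2) (nat_lit 5) (nat_lit 2) (nat_lit 4) (nat_lit 483) (nat_lit 393) (nat_lit 324))))))) (XT.nd (nat_lit 858) (nat_lit 0) (nat_lit 0) (XT.nd (nat_lit 390) (nat_lit 0) (nat_lit 0) (XT.nd (nat_lit 156) (nat_lit 0) (nat_lit 0) (XT.nd (nat_lit 78) (nat_lit 0) (nat_lit 0) (XT.lf (nat_lit 0) (nat_lit 43447871354) (nat_lit 76) (nat_lit 209473353211) (nat_lit 76) (nat_lit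 204135599670) (nat_lit 1) (nat_lit 4) (nat_lit 2) (nat_lit 5) (nat_lit 2) (nat_lit 4) (nat_lit 484) (nat_lit 393) (nat_lit 323)) (XT.lf (nat_lit 0) (nat_lit 73751041867) (nat_lit 76) (nat_lit 212080547693) (nat_lit 76) (nat_lit 206740977159) (nat_lit 1) (nat_lit 4) (nat_lit 2) (nat_lit 5) (nat_lit 2) (nat_lit 4) (nat_lit 485) (nat_lit 393) (nat_lit 322))) (XT.nd (nat_lit 78) (nat_lit 0) (nat_lit 0) (XT.lf (nat_lit 0) (nat_lit 106461111559) (nat_lit 76) (nat_lit 214905194222) (nat_lit 76) (nat_lit 209563941287) (nat_lit 1) (nat_lit 4) (nat_lit 2) (nat_lit 5) (nat_lit 2) (nat_lit 4) (nat_lit 486) (nat_lit 393) (nat_lit 321)) (XT.nd (nat_lit 78) (nat_lit 0) (nat_lit 0) (XT.lf (nat_lit 0) (nat_lit 141771917879) (nat_lit 76) (nat_lit 217964031443) (nat_lit 76) (nat_lit 212621220731) (nat_lit 1) (nat_lit 4) (nat_lit 2) (nat_lit 5) (nat_lit 2) (nat_lit 4) (nat_lit 487) (nat_lit 393) (nat_lit 320))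 (XT.lf (nat_lit 0) (nat_lit 179892710050) (nat_lit 76) (nat_lit 221275185800) (nat_lit 76) (nat_lit 215930932701) (nat_lit 1) (nat_lit 4) (nat_lit 2) (nat_lit 5) (nat_lit 2) (nat_lit 4) (nat_lit 488) (nat_lit 393) (nat_lit 319))))) (XT.nd (nat_lit 234) (nat_lit 0) (nat_lit 0) (XT.nd (nat_lit 78) (nat_lit 0) (nat_lit 0) (XT.lf (nat_lit 0) (nat_lit 221049389063) (nat_lit 76) (nat_lit 224858278948) (nat_lit 76) (nat_lit 219512690305) (nat_lit 1) (nat_lit 4) (nat_lit 2) (nat_lit 5) (nat_lit 2) (nat_lit 4) (nat_lit 489) (nat_lit 393) (nat_lit 318)) (XT.nd (nat_lit 78) (nat_lit 0) (nat_lit 0) (XT.lf (nat_lit 0) (nat_lit 265485846349) (nat_lit 76) (nat_lit 228734544031) (nat_lit 76) (nat_lit 223387718774) (nat_lit 1) (nat_lit 4) (nat_lit 2) (nat_lit 5) (nat_lit 2) (nat_lit 4) (nat_lit 490) (nat_lit 393) (nat_lit 317)) (XT.lf (nat_lit 0) (nat_lit 313465409062) (nat_lit 76) (nat_lit 232926951510)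 (nat_lit 76) (nat_lit 227578981240) (nat_lit 1) (nat_lit 4) (nat_lit 2) (nat_lit 5) (nat_lit 2) (nat_lit 4) (nat_lit 491) (nat_lit 393) (nat_lit 316)))) (XT.nd (nat_lit 78) (nat_lit 0) (nat_lit 0) (XT.lf (nat_lit 0) (nat_lit 365272400537) (nat_lit 76) (nat_lit 237460345281) (nat_lit 76) (nat_lit 232111314813) (nat_lit 1) (nat_lit 4) (nat_lit 2) (nat_lit 5) (nat_lit 2) (nat_lit 4) (nat_lit 492) (nat_lit 393) (nat_lit 315)) (XT.nd (nat_lit 78) (nat_lit 0) (nat_lit 0) (XT.lf (nat_lit 0) (nat_lit 421213825168) (nat_lit 76) (nat_lit 242361589899) (nat_lit 76) (nat_lit 237011577767) (nat_lit 1) (nat_lit 4) (nat_lit 2) (nat_lit 5) (nat_lit 2) (nat_lit 4) (nat_lit 493) (nat_lit 393) (nat_lit 314)) (XT.lf (nat_lit 0) (nat_lit 481621187693) (nat_lit 76) (nat_lit 247659729777) (nat_lit 76) (nat_lit 242308808696) (nat_lit 1) (nat_lit 4) (nat_lit 2) (nat_lit 5) (nat_lit 2) (nat_lit 4) (nat_lit 494)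 (nat_lit 393) (nat_lit 313)))))) (XT.nd (nat_lit 468) (nat_lit 0) (nat_lit 0) (XT.nd (nat_lit 234) (nat_lit 0) (nat_lit 0) (XT.nd (nat_lit 78) (nat_lit 0) (nat_lit 0) (XT.lf (nat_lit 0) (nat_lit 546852457669) (nat_lit 76) (nat_lit 253386161299) (nat_lit 76) (nat_lit 248034398599) (nat_lit 1) (nat_lit 4) (nat_lit 2) (nat_lit 5) (nat_lit 2) (nat_lit 4) (nat_lit 495) (nat_lit 393) (nat_lit 312)) (XT.nd (nat_lit 78) (nat_lit 0) (nat_lit 0) (XT.lf (nat_lit 0) (nat_lit 617294190768) (nat_lit 76) (nat_lit 259574818874) (nat_lit 76) (nat_lit 254222276898) (nat_lit 1) (nat_lit 4) (nat_lit 2) (nat_lit 5) (nat_lit 2) (nat_lit 4) (nat_lit 496) (nat_lit 393) (nat_lit 311)) (XT.lf (nat_lit 0) (nat_lit 693363819484) (nat_lit 76) (nat_lit 266262376029) (nat_lit 76) (nat_lit 260909112500) (nat_lit 1) (nat_lit 4) (nat_lit 2) (nat_lit 5) (nat_lit 2) (nat_lit 4) (nat_lit 497) (nat_lit 393) (nat_lit 310))))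 (XT.nd (nat_lit 78) (nat_lit 0) (nat_lit 0) (XT.lf (nat_lit 0) (nat_lit 775512126801) (nat_lit 76) (nat_lit 273488462732) (nat_lit 76) (nat_lit 268134531099) (nat_lit 1) (nat_lit 4) (nat_lit 2) (nat_lit 5) (nat_lit 2) (nat_lit 4) (nat_lit 498) (nat_lit 393) (nat_lit 309)) (XT.nd (nat_lit 78) (nat_lit 0) (nat_lit 0) (XT.lf (nat_lit 0) (nat_lit 864225917504) (nat_lit 76) (nat_lit 281295900238) (nat_lit 76) (nat_lit 275941349989) (nat_lit 1) (nat_lit 4) (nat_lit 2) (nat_lit 5) (nat_lit 2) (nat_lit 4) (nat_lit 499) (nat_lit 393) (nat_lit 308)) (XT.lf (nat_lit 0) (nat_lit 960030902945) (nat_lit 76) (nat_lit 289730954842) (nat_lit 76) (nat_lit 284375831802) (nat_lit 1) (nat_lit 4) (nat_lit 2) (nat_lit 5) (nat_lit 2) (nat_lit 4) (nat_lit 500) (nat_lit 393) (nat_lit 307))))) (XT.nd (nat_lit 234) (nat_lit 0) (nat_lit 0) (XT.nd (nat_lit 78) (nat_lit 0) (nat_lit 0) (XT.lf (nat_lit 0) (nat_lit 1063494816371)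 (nat_lit 76) (nat_lit 298843612055) (nat_lit 76) (nat_lit 293487958652) (nat_lit 1) (nat_lit 4) (nat_lit 2) (nat_lit 5) (nat_lit 2) (nat_lit 4) (nat_lit 501) (nat_lit 393) (nat_lit 306)) (XT.nd (nat_lit 78) (nat_lit 0) (nat_lit 0) (XT.lf (nat_lit 0) (nat_lit 1175230777268) (nat_lit 76) (nat_lit 308687872806) (nat_lit 76) (nat_lit 303331728326) (nat_lit 1) (nat_lit 4) (nat_lit 2) (nat_lit 5) (nat_lit 2) (nat_lit 4) (nat_lit 502) (nat_lit 393) (nat_lit 305)) (XT.lf (nat_lit 0) (nat_lit 1295900924665) (nat_lit 76) (nat_lit 319322073457) (nat_lit 76) (nat_lit 313965474276) (nat_lit 1) (nat_lit 4) (nat_lit 2) (nat_lit 5) (nat_lit 2) (nat_lit 4) (nat_lit 503) (nat_lit 393) (nat_lit 304)))) (XT.nd (nat_lit 78) (nat_lit 0) (nat_lit 0) (XT.lf (nat_lit 0) (nat_lit 1426220340916) (nat_lit 76) (nat_lit 330809231492) (nat_lit 76) (nat_lit 325452211293) (nat_lit 1) (nat_lit 4) (nat_lit 2) (nat_lit 5)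 (nat_lit 2) (nat_lit 4) (nat_lit 504) (nat_lit 393) (nat_lit 303)) (XT.nd (nat_lit 78) (nat_lit 0) (nat_lit 0) (XT.lf (nat_lit 0) (nat_lit 1566961289229) (nat_lit 76) (nat_lit 343217418959) (nat_lit 76) (nat_lit 337860008928) (nat_lit 1) (nat_lit 4) (nat_lit 2) (nat_lit 5) (nat_lit 2) (nat_lit 4) (nat_lit 505) (nat_lit 393) (nat_lit 302)) (XT.lf (nat_lit 0) (nat_lit 1718957790038) (nat_lit 76) (nat_lit 356620165859) (nat_lit 76) (nat_lit 351262394871) (nat_lit 1) (nat_lit 4) (nat_lit 2) (nat_lit 5) (nat_lit 2) (nat_lit 4) (nat_lit 506) (nat_lit 393) (nat_lit 301))))))))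
noncomputable def xc76 : XT := (XT.nd (nat_lit 55068) (nat_lit 0) (nat_lit 1748) (XT.nd (nat_lit 858) (nat_lit 0) (nat_lit 0) (XT.nd (nat_lit 390) (nat_lit 0) (nat_lit 0) (XT.nd (nat_lit 156) (nat_lit 0) (nat_lit 0) (XT.nd (nat_lit 78) (nat_lit 0) (nat_lit 0) (XT.lf (nat_lit 0) (nat_lit 1883110563348) (nat_lit 76) (nat_lit 371096895876) (nat_lit 76) (nat_lit 365738790670) (nat_lit 1) (nat_lit 4) (nat_lit 2) (nat_lit 5) (nat_lit 2) (nat_lit 4) (nat_lit 507) (nat_lit 393) (nat_lit 300)) (XT.lf (nat_lit 0) (nat_lit 2060392366335) (nat_lit 76) (nat_lit 386733397040) (nat_lit 76) (nat_lit 381374982372) (nat_lit 1) (nat_lit 4) (nat_lit 2) (nat_lit 5) (nat_lit 2) (nat_lit 4) (nat_lit 508) (nat_lit 393) (nat_lit 299))) (XT.nd (nat_lit 78) (nat_lit 0) (nat_lit 0) (XT.lf (nat_lit 0) (nat_lit 2251853757830) (nat_lit 76) (nat_lit 403622330098) (nat_lit 76) (nat_lit 398263628892) (nat_lit 1) (nat_lit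 4) (nat_lit 2) (nat_lit 5) (nat_lit 2) (nat_lit 4) (nat_lit 509) (nat_lit 393) (nat_lit 298)) (XT.nd (nat_lit 78) (nat_lit 0) (nat_lit 0) (XT.lf (nat_lit 0) (nat_lit 2458629323857) (nat_lit 76) (nat_lit 421863777618) (nat_lit 76) (nat_lit 416504811099) (nat_lit 1) (nat_lit 4) (nat_lit 2) (nat_lit 5) (nat_lit 2) (nat_lit 4) (nat_lit 510) (nat_lit 393) (nat_lit 297)) (XT.lf (nat_lit 0) (nat_lit 2681944401105) (nat_lit 76) (nat_lit 441565837066) (nat_lit 76) (nat_lit 436206624886) (nat_lit 1) (nat_lit 4) (nat_lit 2) (nat_lit 5) (nat_lit 2) (nat_lit 4) (nat_lit 511) (nat_lit 393) (nat_lit 296))))) (XT.nd (nat_lit 234) (nat_lit 0) (nat_lit 0) (XT.nd (nat_lit 78) (nat_lit 0) (nat_lit 0) (XT.lf (nat_lit 0) (nat_lit 2923122338178) (nat_lit 76) (nat_lit 462845261386) (nat_lit 76) (nat_lit 457485821742) (nat_lit 1) (nat_lit 4) (nat_lit 2) (nat_lit 5) (nat_lit 2) (nat_lit 4) (nat_lit 512) (nat_lit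 393) (nat_lit 295)) (XT.nd (nat_lit 78) (nat_lit 0) (nat_lit 0) (XT.lf (nat_lit 0) (nat_lit 3183592337667) (nat_lit 76) (nat_lit 485828150871) (nat_lit 76) (nat_lit 480468500613) (nat_lit 1) (nat_lit 4) (nat_lit 2) (nat_lit 5) (nat_lit 2) (nat_lit 4) (nat_lit 513) (nat_lit 393) (nat_lit 294)) (XT.lf (nat_lit 0) (nat_lit 3464897925495) (nat_lit 76) (nat_lit 510650700421) (nat_lit 76) (nat_lit 505290855150) (nat_lit 1) (nat_lit 4) (nat_lit 2) (nat_lit 5) (nat_lit 2) (nat_lit 4) (nat_lit 514) (nat_lit 393) (nat_lit 293)))) (XT.nd (nat_lit 78) (nat_lit 0) (nat_lit 0) (XT.lf (nat_lit 0) (nat_lit 3768706097738) (nat_lit 76) (nat_lit 537460006628) (nat_lit 76) (nat_lit 532099980789) (nat_lit 1) (nat_lit 4) (nat_lit 2) (nat_lit 5) (nat_lit 2) (nat_lit 4) (nat_lit 515) (nat_lit 393) (nat_lit 292)) (XT.nd (nat_lit 78) (nat_lit 0) (nat_lit 0) (XT.lf (nat_lit 0) (nat_lit 4096817199120) (nat_lit 76)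 (nat_lit 566414939452) (nat_lit 76) (nat_lit 561054746421) (nat_lit 1) (nat_lit 4) (nat_lit 2) (nat_lit 5) (nat_lit 2) (nat_lit 4) (nat_lit 516) (nat_lit 393) (nat_lit 291)) (XT.lf (nat_lit 0) (nat_lit 4451175591723) (nat_lit 76) (nat_lit 597687083682) (nat_lit 76) (nat_lit 592326735843) (nat_lit 1) (nat_lit 4) (nat_lit 2) (nat_lit 5) (nat_lit 2) (nat_lit 4) (nat_lit 517) (nat_lit 393) (nat_lit 290)))))) (XT.nd (nat_lit 390) (nat_lit 0) (nat_lit 0) (XT.nd (nat_lit 156) (nat_lit 0) (nat_lit 0) (XT.nd (nat_lit 78) (nat_lit 0) (nat_lit 0) (XT.lf (nat_lit 0) (nat_lit 4833881177134) (nat_lit 76) (nat_lit 631461755727) (nat_lit 76) (nat_lit 626101264547) (nat_lit 1) (nat_lit 4) (nat_lit 2) (nat_lit 5) (nat_lit 2) (nat_lit 4) (nat_lit 518) (nat_lit 393) (nat_lit 289)) (XT.lf (nat_lit 0) (nat_lit 5247201840302) (nat_lit 76) (nat_lit 667939101793) (nat_lit 76) (nat_lit 662578477890) (nat_lit 1)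 (nat_lit 4) (nat_lit 2) (nat_lit 5) (nat_lit 2) (nat_lit 4) (nat_lit 519) (nat_lit 393) (nat_lit 288))) (XT.nd (nat_lit 78) (nat_lit 0) (nat_lit 0) (XT.lf (nat_lit 0) (nat_lit 5693586888863) (nat_lit 76) (nat_lit 707335283929) (nat_lit 76) (nat_lit 701974537135) (nat_lit 1) (nat_lit 4) (nat_lit 2) (nat_lit 5) (nat_lit 2) (nat_lit 4) (nat_lit 520) (nat_lit 393) (nat_lit 287)) (XT.nd (nat_lit 78) (nat_lit 0) (nat_lit 0) (XT.lf (nat_lit 0) (nat_lit 6175681567546) (nat_lit 76) (nat_lit 749883760994) (nat_lit 76) (nat_lit 744522900412) (nat_lit 1) (nat_lit 4) (nat_lit 2) (nat_lit 5) (nat_lit 2) (nat_lit 4) (nat_lit 521) (nat_lit 393) (nat_lit 286)) (XT.lf (nat_lit 0) (nat_lit 6696342733709) (nat_lit 76) (nat_lit 795836672110) (nat_lit 76) (nat_lit 790475706169) (nat_lit 1) (nat_lit 4) (nat_lit 2) (nat_lit 5) (nat_lit 2) (nat_lit 4) (nat_lit 522) (nat_lit 393) (nat_lit 285))))) (XT.nd (nat_lit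 234) (nat_lit 0) (nat_lit 0) (XT.nd (nat_lit 78) (nat_lit 0) (nat_lit 0) (XT.lf (nat_lit 0) (nat_lit 7258655786854) (nat_lit 76) (nat_lit 845466330826) (nat_lit 76) (nat_lit 840105267329) (nat_lit 1) (nat_lit 4) (nat_lit 2) (nat_lit 5) (nat_lit 2) (nat_lit 4) (nat_lit 523) (nat_lit 393) (nat_lit 284)) (XT.nd (nat_lit 78) (nat_lit 0) (nat_lit 0) (XT.lf (nat_lit 0) (nat_lit 7865952952480) (nat_lit 76) (nat_lit 899066838821) (nat_lit 76) (nat_lit 893705684995) (nat_lit 1) (nat_lit 4) (nat_lit 2) (nat_lit 5) (nat_lit 2) (nat_lit 4) (nat_lit 524) (nat_lit 393) (nat_lit 283)) (XT.lf (nat_lit 0) (nat_lit 8521833028608) (nat_lit 76) (nat_lit 956955828736) (nat_lit 76) (nat_lit 951594591272) (nat_lit 1) (nat_lit 4) (nat_lit 2) (nat_lit 5) (nat_lit 2) (nat_lit 4) (nat_lit 525) (nat_lit 393) (nat_lit 282)))) (XT.nd (nat_lit 78) (nat_lit 0) (nat_lit 0) (XT.lf (nat_lit 0) (nat_lit 9230182711983) (nat_lit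 76) (nat_lit 1019476346438) (nat_lit 76) (nat_lit 1014115031532) (nat_lit 1) (nat_lit 4) (nat_lit 2) (nat_lit 5) (nat_lit 2) (nat_lit 4) (nat_lit 526) (nat_lit 393) (nat_lit 281)) (XT.nd (nat_lit 78) (nat_lit 0) (nat_lit 0) (XT.lf (nat_lit 0) (nat_lit 9995199630360) (nat_lit 76) (nat_lit 1086998883883) (nat_lit 76) (nat_lit 1081637497270) (nat_lit 1) (nat_lit 4) (nat_lit 2) (nat_lit 5) (nat_lit 2) (nat_lit 4) (nat_lit 527) (nat_lit 393) (nat_lit 280)) (XT.lf (nat_lit 0) (nat_lit 10821417217329) (nat_lit 76) (nat_lit 1159923574625) (nat_lit 76) (nat_lit 1154562121619) (nat_lit 1) (nat_lit 4) (nat_lit 2) (nat_lit 5) (nat_lit 2) (nat_lit 4) (nat_lit 528) (nat_lit 393) (nat_lit 279))))))) (XT.nd (nat_lit 858) (nat_lit 1064) (nat_lit 0) (XT.nd (nat_lit 390) (nat_lit 1064) (nat_lit 0) (XT.nd (nat_lit 156) (nat_lit 456) (nat_lit 0) (XT.nd (nat_lit 78) (nat_lit 304) (nat_lit 0) (XT.lf (nat_lit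 0) (nat_lit 2913440524) (nat_lit 456) (nat_lit 416704003) (nat_lit 456) (nat_lit 416704003) (nat_lit 62) (nat_lit 4) (nat_lit 68) (nat_lit 5) (nat_lit 68) (nat_lit 4) (nat_lit 412) (nat_lit 394) (nat_lit 394)) (XT.lf (nat_lit 0) (nat_lit 2823267572) (nat_lit 304) (nat_lit 3393863007) (nat_lit 0) (nat_lit 1462462107) (nat_lit 58) (nat_lit 5) (nat_lit 62) (nat_lit 4) (nat_lit 58) (nat_lit 4) (nat_lit 413) (nat_lit 394) (nat_lit 393))) (XT.nd (nat_lit 78) (nat_lit 228) (nat_lit 0) (XT.lf (nat_lit 0) (nat_lit 2703805156) (nat_lit 228) (nat_lit 3902738253) (nat_lit 228) (nat_lit 1281927727) (nat_lit 55) (nat_lit 4) (nat_lit 58) (nat_lit 5) (nat_lit 58) (nat_lit 4) (nat_lit 414) (nat_lit 394) (nat_lit 392)) (XT.nd (nat_lit 78) (nat_lit 0) (nat_lit 0) (XT.lf (nat_lit 0) (nat_lit 1038466429) (nat_lit 152) (nat_lit 1281701025) (nat_lit 228) (nat_lit 5799419187) (nat_lit 52) (nat_lit 5) (nat_lit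 54) (nat_lit 5) (nat_lit 55) (nat_lit 4) (nat_lit 415) (nat_lit 394) (nat_lit 391)) (XT.lf (nat_lit 0) (nat_lit 6083408279) (nat_lit 228) (nat_lit 711627732) (nat_lit 0) (nat_lit 1576247974) (nat_lit 52) (nat_lit 5) (nat_lit 55) (nat_lit 4) (nat_lit 52) (nat_lit 4) (nat_lit 416) (nat_lit 394) (nat_lit 390))))) (XT.nd (nat_lit 234) (nat_lit 456) (nat_lit 0) (XT.nd (nat_lit 78) (nat_lit 304) (nat_lit 0) (XT.lf (nat_lit 0) (nat_lit 1386231465) (nat_lit 304) (nat_lit 2549940191) (nat_lit 76) (nat_lit 4707614042) (nat_lit 48) (nat_lit 5) (nat_lit 52) (nat_lit 5) (nat_lit 49) (nat_lit 4) (nat_lit 417) (nat_lit 394) (nat_lit 389)) (XT.nd (nat_lit 78) (nat_lit 152) (nat_lit 0) (XT.lf (nat_lit 0) (nat_lit 4394667927) (nat_lit 152) (nat_lit 742595456) (nat_lit 228) (nat_lit 3803649374) (nat_lit 46) (nat_lit 5) (nat_lit 48) (nat_lit 5) (nat_lit 49) (nat_lit 4) (nat_lit 418) (nat_lit 394) (nat_lit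 388)) (XT.lf (nat_lit 0) (nat_lit 2523308550) (nat_lit 152) (nat_lit 6649932191) (nat_lit 152) (nat_lit 89879571) (nat_lit 44) (nat_lit 4) (nat_lit 46) (nat_lit 5) (nat_lit 46) (nat_lit 4) (nat_lit 419) (nat_lit 394) (nat_lit 387)))) (XT.nd (nat_lit 78) (nat_lit 228) (nat_lit 0) (XT.lf (nat_lit 0) (nat_lit 396139266) (nat_lit 152) (nat_lit 3275463336) (nat_lit 228) (nat_lit 5936302683) (nat_lit 41) (nat_lit 5) (nat_lit 43) (nat_lit 5) (nat_lit 44) (nat_lit 4) (nat_lit 420) (nat_lit 394) (nat_lit 386)) (XT.nd (nat_lit 78) (nat_lit 228) (nat_lit 0) (XT.lf (nat_lit 0) (nat_lit 7722740995) (nat_lit 228) (nat_lit 1823260868) (nat_lit 0) (nat_lit 434675830) (nat_lit 41) (nat_lit 5) (nat_lit 44) (nat_lit 4) (nat_lit 41) (nat_lit 4) (nat_lit 421) (nat_lit 394) (nat_lit 385)) (XT.lf (nat_lit 0) (nat_lit 1671823312) (nat_lit 228) (nat_lit 4351067248) (nat_lit 76) (nat_lit 4353717799) (nat_lit 38)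 (nat_lit 5) (nat_lit 41) (nat_lit 5) (nat_lit 39) (nat_lit 4) (nat_lit 422) (nat_lit 394) (nat_lit 384)))))) (XT.nd (nat_lit 468) (nat_lit 456) (nat_lit 0) (XT.nd (nat_lit 234) (nat_lit 304) (nat_lit 0) (XT.nd (nat_lit 78) (nat_lit 228) (nat_lit 0) (XT.lf (nat_lit 0) (nat_lit 3620974113) (nat_lit 76) (nat_lit 2124121654) (nat_lit 152) (nat_lit 5058398998) (nat_lit 37) (nat_lit 5) (nat_lit 38) (nat_lit 5) (nat_lit 39) (nat_lit 4) (nat_lit 423) (nat_lit 394) (nat_lit 383)) (XT.nd (nat_lit 78) (nat_lit 76) (nat_lit 0) (XT.lf (nat_lit 0) (nat_lit 905386594) (nat_lit 152) (nat_lit 9249600314) (nat_lit 152) (nat_lit 1108742601) (nat_lit 35) (nat_lit 4) (nat_lit 37) (nat_lit 5) (nat_lit 37) (nat_lit 4) (nat_lit 424) (nat_lit 394) (nat_lit 382)) (XT.lf (nat_lit 0) (nat_lit 3074030981) (nat_lit 228) (nat_lit 2144079414) (nat_lit 76) (nat_lit 6530643294) (nat_lit 34) (nat_lit 5) (nat_lit 37) (nat_lit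 5) (nat_lit 35) (nat_lit 4) (nat_lit 425) (nat_lit 394) (nat_lit 381)))) (XT.nd (nat_lit 78) (nat_lit 228) (nat_lit 0) (XT.lf (nat_lit 0) (nat_lit 6747534445) (nat_lit 76) (nat_lit 778129865) (nat_lit 152) (nat_lit 4745126534) (nat_lit 33) (nat_lit 5) (nat_lit 34) (nat_lit 5) (nat_lit 35) (nat_lit 4) (nat_lit 426) (nat_lit 394) (nat_lit 380)) (XT.nd (nat_lit 78) (nat_lit 76) (nat_lit 0) (XT.lf (nat_lit 0) (nat_lit 3424266357) (nat_lit 152) (nat_lit 8982966422) (nat_lit 152) (nat_lit 421496451) (nat_lit 31) (nat_lit 4) (nat_lit 33) (nat_lit 5) (nat_lit 33) (nat_lit 4) (nat_lit 427) (nat_lit 394) (nat_lit 379)) (XT.lf (nat_lit 0) (nat_lit 4046588348) (nat_lit 228) (nat_lit 436524578) (nat_lit 76) (nat_lit 8939167672) (nat_lit 30) (nat_lit 5) (nat_lit 33) (nat_lit 5) (nat_lit 31) (nat_lit 4) (nat_lit 428) (nat_lit 394) (nat_lit 378))))) (XT.nd (nat_lit 234) (nat_lit 152) (nat_lit 0) (XT.nd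 (nat_lit 78) (nat_lit 228) (nat_lit 0) (XT.lf (nat_lit 0) (nat_lit 8936807005) (nat_lit 152) (nat_lit 4629789438) (nat_lit 0) (nat_lit 488880920) (nat_lit 29) (nat_lit 5) (nat_lit 31) (nat_lit 4) (nat_lit 29) (nat_lit 4) (nat_lit 429) (nat_lit 394) (nat_lit 377)) (XT.nd (nat_lit 78) (nat_lit 152) (nat_lit 0) (XT.lf (nat_lit 0) (nat_lit 5235324932) (nat_lit 76) (nat_lit 9087673928) (nat_lit 76) (nat_lit 407981874) (nat_lit 28) (nat_lit 4) (nat_lit 29) (nat_lit 5) (nat_lit 29) (nat_lit 4) (nat_lit 430) (nat_lit 394) (nat_lit 376)) (XT.lf (nat_lit 0) (nat_lit 329086210) (nat_lit 76) (nat_lit 4105229359) (nat_lit 152) (nat_lit 11018124614) (nat_lit 26) (nat_lit 5) (nat_lit 27) (nat_lit 5) (nat_lit 28) (nat_lit 4) (nat_lit 431) (nat_lit 394) (nat_lit 375)))) (XT.nd (nat_lit 78) (nat_lit 152) (nat_lit 0) (XT.lf (nat_lit 0) (nat_lit 9791719474) (nat_lit 152) (nat_lit 5054810571) (nat_lit 0) (nat_lit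 1372282309) (nat_lit 26) (nat_lit 5) (nat_lit 28) (nat_lit 4) (nat_lit 26) (nat_lit 4) (nat_lit 432) (nat_lit 394) (nat_lit 374)) (XT.nd (nat_lit 78) (nat_lit 76) (nat_lit 0) (XT.lf (nat_lit 0) (nat_lit 5744608734) (nat_lit 76) (nat_lit 9941514047) (nat_lit 76) (nat_lit 1351721976) (nat_lit 25) (nat_lit 4) (nat_lit 26) (nat_lit 5) (nat_lit 26) (nat_lit 4) (nat_lit 433) (nat_lit 394) (nat_lit 373)) (XT.lf (nat_lit 0) (nat_lit 3929173356) (nat_lit 152) (nat_lit 574847513) (nat_lit 76) (nat_lit 13409966869) (nat_lit 24) (nat_lit 5) (nat_lit 26) (nat_lit 5) (nat_lit 25) (nat_lit 4) (nat_lit 434) (nat_lit 394) (nat_lit 372))))))))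
noncomputable def xc77 : XT := (XT.nd (nat_lit 1716) (nat_lit 456) (nat_lit 0) (XT.nd (nat_lit 858) (nat_lit 456) (nat_lit 0) (XT.nd (nat_lit 390) (nat_lit 456) (nat_lit 0) (XT.nd (nat_lit 156) (nat_lit 152) (nat_lit 0) (XT.nd (nat_lit 78) (nat_lit 76) (nat_lit 0) (XT.lf (nat_lit 0) (nat_lit 9743661028) (nat_lit 152) (nat_lit 7590173970) (nat_lit 0) (nat_lit 1508864760) (nat_lit 23) (nat_lit 5) (nat_lit 25) (nat_lit 4) (nat_lit 23) (nat_lit 4) (nat_lit 435) (nat_lit 394) (nat_lit 371)) (XT.lf (nat_lit 0) (nat_lit 4061901821) (nat_lit 76) (nat_lit 12067667559) (nat_lit 76) (nat_lit 3707655349) (nat_lit 22) (nat_lit 4) (nat_lit 23) (nat_lit 5) (nat_lit 23) (nat_lit 4) (nat_lit 436) (nat_lit 394) (nat_lit 370))) (XT.nd (nat_lit 78) (nat_lit 76) (nat_lit 0) (XT.lf (nat_lit 0) (nat_lit 2098100561) (nat_lit 152) (nat_lit 4111903729) (nat_lit 76) (nat_lit 14690143404) (nat_lit 21) (nat_lit 5)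 (nat_lit 23) (nat_lit 5) (nat_lit 22) (nat_lit 4) (nat_lit 437) (nat_lit 394) (nat_lit 369)) (XT.nd (nat_lit 78) (nat_lit 0) (nat_lit 0) (XT.lf (nat_lit 0) (nat_lit 8268021629) (nat_lit 152) (nat_lit 13443874289) (nat_lit 0) (nat_lit 320516643) (nat_lit 20) (nat_lit 5) (nat_lit 22) (nat_lit 4) (nat_lit 20) (nat_lit 4) (nat_lit 438) (nat_lit 394) (nat_lit 368)) (XT.lf (nat_lit 0) (nat_lit 15094144232) (nat_lit 152) (nat_lit 1093516405) (nat_lit 0) (nat_lit 7054601791) (nat_lit 20) (nat_lit 5) (nat_lit 22) (nat_lit 4) (nat_lit 20) (nat_lit 4) (nat_lit 439) (nat_lit 394) (nat_lit 367))))) (XT.nd (nat_lit 234) (nat_lit 228) (nat_lit 0) (XT.nd (nat_lit 78) (nat_lit 152) (nat_lit 0) (XT.lf (nat_lit 0) (nat_lit 12673384711) (nat_lit 76) (nat_lit 9992176516) (nat_lit 76) (nat_lit 1867414208) (nat_lit 19) (nat_lit 4) (nat_lit 20) (nat_lit 5) (nat_lit 20) (nat_lit 4) (nat_lit 440) (nat_lit 394) (nat_lit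 366)) (XT.nd (nat_lit 78) (nat_lit 0) (nat_lit 0) (XT.lf (nat_lit 0) (nat_lit 1425786170) (nat_lit 76) (nat_lit 3203759868) (nat_lit 152) (nat_lit 21291174976) (nat_lit 17) (nat_lit 5) (nat_lit 18) (nat_lit 5) (nat_lit 19) (nat_lit 4) (nat_lit 441) (nat_lit 394) (nat_lit 365)) (XT.lf (nat_lit 0) (nat_lit 11872679049) (nat_lit 152) (nat_lit 11307713197) (nat_lit 0) (nat_lit 4209038410) (nat_lit 17) (nat_lit 5) (nat_lit 19) (nat_lit 4) (nat_lit 17) (nat_lit 4) (nat_lit 442) (nat_lit 394) (nat_lit 364)))) (XT.nd (nat_lit 78) (nat_lit 152) (nat_lit 0) (XT.lf (nat_lit 0) (nat_lit 2800212658) (nat_lit 76) (nat_lit 16948709935) (nat_lit 76) (nat_lit 9222430150) (nat_lit 16) (nat_lit 4) (nat_lit 17) (nat_lit 5) (nat_lit 17) (nat_lit 4) (nat_lit 443) (nat_lit 394) (nat_lit 363)) (XT.nd (nat_lit 78) (nat_lit 152) (nat_lit 0) (XT.lf (nat_lit 0) (nat_lit 18493554203) (nat_lit 76) (nat_lit 9976681798)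 (nat_lit 76) (nat_lit 2192402805) (nat_lit 16) (nat_lit 4) (nat_lit 17) (nat_lit 5) (nat_lit 17) (nat_lit 4) (nat_lit 444) (nat_lit 394) (nat_lit 362)) (XT.lf (nat_lit 0) (nat_lit 2785383014) (nat_lit 76) (nat_lit 2322003994) (nat_lit 152) (nat_lit 27373258484) (nat_lit 14) (nat_lit 5) (nat_lit 15) (nat_lit 5) (nat_lit 16) (nat_lit 4) (nat_lit 445) (nat_lit 394) (nat_lit 361)))))) (XT.nd (nat_lit 390) (nat_lit 228) (nat_lit 0) (XT.nd (nat_lit 156) (nat_lit 152) (nat_lit 0) (XT.nd (nat_lit 78) (nat_lit 76) (nat_lit 0) (XT.lf (nat_lit 0) (nat_lit 13267975260) (nat_lit 152) (nat_lit 15175404170) (nat_lit 0) (nat_lit 5964542909) (nat_lit 14) (nat_lit 5) (nat_lit 16) (nat_lit 4) (nat_lit 14) (nat_lit 4) (nat_lit 446) (nat_lit 394) (nat_lit 360)) (XT.lf (nat_lit 0) (nat_lit 296061774) (nat_lit 76) (nat_lit 21770296502) (nat_lit 76) (nat_lit 14424233002) (nat_lit 13) (nat_lit 4) (nat_lit 14) (nat_lit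 5) (nat_lit 14) (nat_lit 4) (nat_lit 447) (nat_lit 394) (nat_lit 359))) (XT.nd (nat_lit 78) (nat_lit 152) (nat_lit 0) (XT.lf (nat_lit 0) (nat_lit 17707968266) (nat_lit 76) (nat_lit 14195336097) (nat_lit 76) (nat_lit 6809799309) (nat_lit 13) (nat_lit 4) (nat_lit 14) (nat_lit 5) (nat_lit 14) (nat_lit 4) (nat_lit 448) (nat_lit 394) (nat_lit 358)) (XT.nd (nat_lit 78) (nat_lit 76) (nat_lit 0) (XT.lf (nat_lit 0) (nat_lit 1266844345) (nat_lit 152) (nat_lit 4787049887) (nat_lit 76) (nat_lit 35062904967) (nat_lit 12) (nat_lit 5) (nat_lit 14) (nat_lit 5) (nat_lit 13) (nat_lit 4) (nat_lit 449) (nat_lit 394) (nat_lit 357)) (XT.lf (nat_lit 0) (nat_lit 9942253532) (nat_lit 152) (nat_lit 30692131241) (nat_lit 0) (nat_lit 3038616394) (nat_lit 11) (nat_lit 5) (nat_lit 13) (nat_lit 4) (nat_lit 11) (nat_lit 4) (nat_lit 450) (nat_lit 394) (nat_lit 356))))) (XT.nd (nat_lit 234) (nat_lit 152) (nat_lit 0) (XT.nd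 (nat_lit 78) (nat_lit 76) (nat_lit 0) (XT.lf (nat_lit 0) (nat_lit 19532911111) (nat_lit 152) (nat_lit 14282834919) (nat_lit 0) (nat_lit 12600259930) (nat_lit 11) (nat_lit 5) (nat_lit 13) (nat_lit 4) (nat_lit 11) (nat_lit 4) (nat_lit 451) (nat_lit 394) (nat_lit 355)) (XT.nd (nat_lit 78) (nat_lit 0) (nat_lit 0) (XT.lf (nat_lit 0) (nat_lit 3482458078) (nat_lit 76) (nat_lit 26427010473) (nat_lit 76) (nat_lit 19467494436) (nat_lit 10) (nat_lit 4) (nat_lit 11) (nat_lit 5) (nat_lit 11) (nat_lit 4) (nat_lit 452) (nat_lit 394) (nat_lit 354)) (XT.lf (nat_lit 0) (nat_lit 23353613589) (nat_lit 76) (nat_lit 18089702025) (nat_lit 76) (nat_lit 11105311121) (nat_lit 10) (nat_lit 4) (nat_lit 11) (nat_lit 5) (nat_lit 11) (nat_lit 4) (nat_lit 453) (nat_lit 394) (nat_lit 353)))) (XT.nd (nat_lit 78) (nat_lit 152) (nat_lit 0) (XT.lf (nat_lit 0) (nat_lit 44696277833) (nat_lit 76) (nat_lit 9144932433) (nat_lit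 76) (nat_lit 2137509244) (nat_lit 10) (nat_lit 4) (nat_lit 11) (nat_lit 5) (nat_lit 11) (nat_lit 4) (nat_lit 454) (nat_lit 394) (nat_lit 352)) (XT.nd (nat_lit 78) (nat_lit 0) (nat_lit 0) (XT.lf (nat_lit 0) (nat_lit 7331968088) (nat_lit 152) (nat_lit 51499920160) (nat_lit 0) (nat_lit 823866813) (nat_lit 8) (nat_lit 5) (nat_lit 10) (nat_lit 4) (nat_lit 8) (nat_lit 4) (nat_lit 455) (nat_lit 394) (nat_lit 351)) (XT.lf (nat_lit 0) (nat_lit 17941983645) (nat_lit 152) (nat_lit 34225055219) (nat_lit 0) (nat_lit 11415598601) (nat_lit 8) (nat_lit 5) (nat_lit 10) (nat_lit 4) (nat_lit 8) (nat_lit 4) (nat_lit 456) (nat_lit 394) (nat_lit 350))))))) (XT.nd (nat_lit 858) (nat_lit 152) (nat_lit 0) (XT.nd (nat_lit 390) (nat_lit 228) (nat_lit 0) (XT.nd (nat_lit 156) (nat_lit 0) (nat_lit 0) (XT.nd (nat_lit 78) (nat_lit 76) (nat_lit 0) (XT.lf (nat_lit 0) (nat_lit 29349352182) (nat_lit 152) (nat_lit 15672398706)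 (nat_lit 0) (nat_lit 22806037722) (nat_lit 8) (nat_lit 5) (nat_lit 10) (nat_lit 4) (nat_lit 8) (nat_lit 4) (nat_lit 457) (nat_lit 394) (nat_lit 349)) (XT.lf (nat_lit 0) (nat_lit 4492735892) (nat_lit 76) (nat_lit 37236987434) (nat_lit 76) (nat_lit 30677997589) (nat_lit 7) (nat_lit 4) (nat_lit 8) (nat_lit 5) (nat_lit 8) (nat_lit 4) (nat_lit 458) (nat_lit 394) (nat_lit 348))) (XT.nd (nat_lit 78) (nat_lit 0) (nat_lit 0) (XT.lf (nat_lit 0) (nat_lit 27068347695) (nat_lit 76) (nat_lit 28414317443) (nat_lit 76) (nat_lit 21840813351) (nat_lit 7) (nat_lit 4) (nat_lit 8) (nat_lit 5) (nat_lit 8) (nat_lit 4) (nat_lit 459) (nat_lit 394) (nat_lit 347)) (XT.nd (nat_lit 78) (nat_lit 0) (nat_lit 0) (XT.lf (nat_lit 0) (nat_lit 51362937362) (nat_lit 76) (nat_lit 18929969579) (nat_lit 76) (nat_lit 12343026371) (nat_lit 7) (nat_lit 4) (nat_lit 8) (nat_lit 5) (nat_lit 8) (nat_lit 4) (nat_lit 460) (nat_lit 394)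 (nat_lit 346)) (XT.lf (nat_lit 0) (nat_lit 77520472832) (nat_lit 76) (nat_lit 8727740301) (nat_lit 76) (nat_lit 2128353467) (nat_lit 7) (nat_lit 4) (nat_lit 8) (nat_lit 5) (nat_lit 8) (nat_lit 4) (nat_lit 461) (nat_lit 394) (nat_lit 345))))) (XT.nd (nat_lit 234) (nat_lit 76) (nat_lit 0) (XT.nd (nat_lit 78) (nat_lit 0) (nat_lit 0) (XT.lf (nat_lit 0) (nat_lit 8763259256) (nat_lit 152) (nat_lit 83129602528) (nat_lit 0) (nat_lit 2642047487) (nat_lit 5) (nat_lit 5) (nat_lit 7) (nat_lit 4) (nat_lit 5) (nat_lit 4) (nat_lit 462) (nat_lit 394) (nat_lit 344)) (XT.nd (nat_lit 78) (nat_lit 0) (nat_lit 0) (XT.lf (nat_lit 0) (nat_lit 20904764834) (nat_lit 152) (nat_lit 65463574376) (nat_lit 0) (nat_lit 14773674913) (nat_lit 5) (nat_lit 5) (nat_lit 7) (nat_lit 4) (nat_lit 5) (nat_lit 4) (nat_lit 463) (nat_lit 394) (nat_lit 343)) (XT.lf (nat_lit 0) (nat_lit 33982702962) (nat_lit 152) (nat_lit 46455310064)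 (nat_lit 0) (nat_lit 27842466605) (nat_lit 5) (nat_lit 5) (nat_lit 7) (nat_lit 4) (nat_lit 5) (nat_lit 4) (nat_lit 464) (nat_lit 394) (nat_lit 342)))) (XT.nd (nat_lit 78) (nat_lit 76) (nat_lit 0) (XT.lf (nat_lit 0) (nat_lit 48074572533) (nat_lit 152) (nat_lit 25992168026) (nat_lit 0) (nat_lit 41925867253) (nat_lit 5) (nat_lit 5) (nat_lit 7) (nat_lit 4) (nat_lit 5) (nat_lit 4) (nat_lit 465) (nat_lit 394) (nat_lit 341)) (XT.nd (nat_lit 78) (nat_lit 76) (nat_lit 0) (XT.lf (nat_lit 0) (nat_lit 63263880923) (nat_lit 152) (nat_lit 3952885198) (nat_lit 0) (nat_lit 57107334047) (nat_lit 5) (nat_lit 5) (nat_lit 7) (nat_lit 4) (nat_lit 5) (nat_lit 4) (nat_lit 466) (nat_lit 394) (nat_lit 340)) (XT.lf (nat_lit 0) (nat_lit 20835413337) (nat_lit 76) (nat_lit 59306317702) (nat_lit 76) (nat_lit 53142510090) (nat_lit 4) (nat_lit 4) (nat_lit 5) (nat_lit 5) (nat_lit 5) (nat_lit 4) (nat_lit 467) (nat_lit 394)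 (nat_lit 339)))))) (XT.nd (nat_lit 468) (nat_lit 0) (nat_lit 0) (XT.nd (nat_lit 234) (nat_lit 152) (nat_lit 0) (XT.nd (nat_lit 78) (nat_lit 0) (nat_lit 0) (XT.lf (nat_lit 0) (nat_lit 47776608975) (nat_lit 76) (nat_lit 50674313380) (nat_lit 76) (nat_lit 44503782864) (nat_lit 4) (nat_lit 4) (nat_lit 5) (nat_lit 5) (nat_lit 5) (nat_lit 4) (nat_lit 468) (nat_lit 394) (nat_lit 338)) (XT.nd (nat_lit 78) (nat_lit 0) (nat_lit 0) (XT.lf (nat_lit 0) (nat_lit 76822201317) (nat_lit 76) (nat_lit 41377679424) (nat_lit 76) (nat_lit 35200923996) (nat_lit 4) (nat_lit 4) (nat_lit 5) (nat_lit 5) (nat_lit 5) (nat_lit 4) (nat_lit 469) (nat_lit 394) (nat_lit 337)) (XT.lf (nat_lit 0) (nat_lit 108144312390) (nat_lit 76) (nat_lit 31361324670) (nat_lit 76) (nat_lit 25178805435) (nat_lit 4) (nat_lit 4) (nat_lit 5) (nat_lit 5) (nat_lit 5) (nat_lit 4) (nat_lit 470) (nat_lit 394) (nat_lit 336)))) (XT.nd (nat_lit 78)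 (nat_lit 152) (nat_lit 0) (XT.lf (nat_lit 0) (nat_lit 141928554705) (nat_lit 76) (nat_lit 20565892940) (nat_lit 76) (nat_lit 14378036848) (nat_lit 4) (nat_lit 4) (nat_lit 5) (nat_lit 5) (nat_lit 5) (nat_lit 4) (nat_lit 471) (nat_lit 394) (nat_lit 335)) (XT.nd (nat_lit 78) (nat_lit 152) (nat_lit 0) (XT.lf (nat_lit 0) (nat_lit 178375131179) (nat_lit 76) (nat_lit 8927411308) (nat_lit 76) (nat_lit 2734613680) (nat_lit 4) (nat_lit 4) (nat_lit 5) (nat_lit 5) (nat_lit 5) (nat_lit 4) (nat_lit 472) (nat_lit 394) (nat_lit 334)) (XT.lf (nat_lit 0) (nat_lit 9765521366) (nat_lit 152) (nat_lit 190409936029) (nat_lit 0) (nat_lit 4027212919) (nat_lit 2) (nat_lit 5) (nat_lit 4) (nat_lit 4) (nat_lit 2) (nat_lit 4) (nat_lit 473) (nat_lit 394) (nat_lit 333))))) (XT.nd (nat_lit 234) (nat_lit 0) (nat_lit 0) (XT.nd (nat_lit 78) (nat_lit 0) (nat_lit 0) (XT.lf (nat_lit 0) (nat_lit 23658155975) (nat_lit 152) (nat_lit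 177878444744) (nat_lit 0) (nat_lit 17915924777) (nat_lit 2) (nat_lit 5) (nat_lit 4) (nat_lit 4) (nat_lit 2) (nat_lit 4) (nat_lit 474) (nat_lit 394) (nat_lit 332)) (XT.nd (nat_lit 78) (nat_lit 0) (nat_lit 0) (XT.lf (nat_lit 0) (nat_lit 38644799123) (nat_lit 152) (nat_lit 164380026888) (nat_lit 0) (nat_lit 32898935750) (nat_lit 2) (nat_lit 5) (nat_lit 4) (nat_lit 4) (nat_lit 2) (nat_lit 4) (nat_lit 475) (nat_lit 394) (nat_lit 331)) (XT.lf (nat_lit 0) (nat_lit 54814260549) (nat_lit 152) (nat_lit 149834691838) (nat_lit 0) (nat_lit 49065034050) (nat_lit 2) (nat_lit 5) (nat_lit 4) (nat_lit 4) (nat_lit 2) (nat_lit 4) (nat_lit 476) (nat_lit 394) (nat_lit 330)))) (XT.nd (nat_lit 78) (nat_lit 0) (nat_lit 0) (XT.lf (nat_lit 0) (nat_lit 72262359282) (nat_lit 152) (nat_lit 134156245015) (nat_lit 0) (nat_lit 66510018778) (nat_lit 2) (nat_lit 5) (nat_lit 4) (nat_lit 4) (nat_lit 2) (nat_lit 4) (nat_lit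 477) (nat_lit 394) (nat_lit 329)) (XT.nd (nat_lit 78) (nat_lit 0) (nat_lit 0) (XT.lf (nat_lit 0) (nat_lit 91092491464) (nat_lit 152) (nat_lit 117251777105) (nat_lit 0) (nat_lit 85337267621) (nat_lit 2) (nat_lit 5) (nat_lit 4) (nat_lit 4) (nat_lit 2) (nat_lit 4) (nat_lit 478) (nat_lit 394) (nat_lit 328)) (XT.lf (nat_lit 0) (nat_lit 111416243062) (nat_lit 152) (nat_lit 99021113483) (nat_lit 0) (nat_lit 105658349462) (nat_lit 2) (nat_lit 5) (nat_lit 4) (nat_lit 4) (nat_lit 2) (nat_lit 4) (nat_lit 479) (nat_lit 394) (nat_lit 327))))))))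
noncomputable def xc78 : XT := (XT.nd (nat_lit 1716) (nat_lit 0) (nat_lit 0) (XT.nd (nat_lit 858) (nat_lit 0) (nat_lit 0) (XT.nd (nat_lit 390) (nat_lit 0) (nat_lit 0) (XT.nd (nat_lit 156) (nat_lit 76) (nat_lit 0) (XT.nd (nat_lit 78) (nat_lit 0) (nat_lit 0) (XT.lf (nat_lit 0) (nat_lit 133354051124) (nat_lit 152) (nat_lit 79356220588) (nat_lit 0) (nat_lit 127593685526) (nat_lit 2) (nat_lit 5) (nat_lit 4) (nat_lit 4) (nat_lit 2) (nat_lit 4) (nat_lit 480) (nat_lit 394) (nat_lit 326)) (XT.lf (nat_lit 0) (nat_lit 157035917475) (nat_lit 152) (nat_lit 58140565720) (nat_lit 0) (nat_lit 151273262990) (nat_lit 2) (nat_lit 5) (nat_lit 4) (nat_lit 4) (nat_lit 2) (nat_lit 4) (nat_lit 481) (nat_lit 394) (nat_lit 325))) (XT.nd (nat_lit 78) (nat_lit 76) (nat_lit 0) (XT.lf (nat_lit 0) (nat_lit 182602179100) (nat_lit 152) (nat_lit 35248426480) (nat_lit 0) (nat_lit 176837405275) (nat_lit 2) (nat_lit 5) (nat_lit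 4) (nat_lit 4) (nat_lit 2) (nat_lit 4) (nat_lit 482) (nat_lit 394) (nat_lit 324)) (XT.nd (nat_lit 78) (nat_lit 76) (nat_lit 0) (XT.lf (nat_lit 0) (nat_lit 210204339773) (nat_lit 152) (nat_lit 10544145747) (nat_lit 0) (nat_lit 204437603597) (nat_lit 2) (nat_lit 5) (nat_lit 4) (nat_lit 4) (nat_lit 2) (nat_lit 4) (nat_lit 483) (nat_lit 394) (nat_lit 323)) (XT.lf (nat_lit 0) (nat_lit 16967452930) (nat_lit 76) (nat_lit 223446582573) (nat_lit 76) (nat_lit 217678029404) (nat_lit 1) (nat_lit 4) (nat_lit 2) (nat_lit 5) (nat_lit 2) (nat_lit 4) (nat_lit 484) (nat_lit 394) (nat_lit 322))))) (XT.nd (nat_lit 234) (nat_lit 0) (nat_lit 0) (XT.nd (nat_lit 78) (nat_lit 0) (nat_lit 0) (XT.lf (nat_lit 0) (nat_lit 47262279952) (nat_lit 76) (nat_lit 226058044597) (nat_lit 76) (nat_lit 220287809028) (nat_lit 1) (nat_lit 4) (nat_lit 2) (nat_lit 5) (nat_lit 2) (nat_lit 4) (nat_lit 485) (nat_lit 394) (nat_lit 321))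 (XT.nd (nat_lit 78) (nat_lit 0) (nat_lit 0) (XT.lf (nat_lit 0) (nat_lit 79964624188) (nat_lit 76) (nat_lit 228886642554) (nat_lit 76) (nat_lit 223114849207) (nat_lit 1) (nat_lit 4) (nat_lit 2) (nat_lit 5) (nat_lit 2) (nat_lit 4) (nat_lit 486) (nat_lit 394) (nat_lit 320)) (XT.lf (nat_lit 0) (nat_lit 115268277309) (nat_lit 76) (nat_lit 231949138505) (nat_lit 76) (nat_lit 226175902771) (nat_lit 1) (nat_lit 4) (nat_lit 2) (nat_lit 5) (nat_lit 2) (nat_lit 4) (nat_lit 487) (nat_lit 394) (nat_lit 319)))) (XT.nd (nat_lit 78) (nat_lit 0) (nat_lit 0) (XT.lf (nat_lit 0) (nat_lit 153382446147) (nat_lit 76) (nat_lit 235263680575) (nat_lit 76) (nat_lit 229489109297) (nat_lit 1) (nat_lit 4) (nat_lit 2) (nat_lit 5) (nat_lit 2) (nat_lit 4) (nat_lit 488) (nat_lit 394) (nat_lit 318)) (XT.nd (nat_lit 78) (nat_lit 0) (nat_lit 0) (XT.lf (nat_lit 0) (nat_lit 194532992445) (nat_lit 76) (nat_lit 238849910494) (nat_lit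 76) (nat_lit 233074102602) (nat_lit 1) (nat_lit 4) (nat_lit 2) (nat_lit 5) (nat_lit 2) (nat_lit 4) (nat_lit 489) (nat_lit 394) (nat_lit 317)) (XT.lf (nat_lit 0) (nat_lit 238963771290) (nat_lit 76) (nat_lit 242729079995) (nat_lit 76) (nat_lit 236952127090) (nat_lit 1) (nat_lit 4) (nat_lit 2) (nat_lit 5) (nat_lit 2) (nat_lit 4) (nat_lit 490) (nat_lit 394) (nat_lit 316)))))) (XT.nd (nat_lit 390) (nat_lit 0) (nat_lit 0) (XT.nd (nat_lit 156) (nat_lit 0) (nat_lit 0) (XT.nd (nat_lit 78) (nat_lit 0) (nat_lit 0) (XT.lf (nat_lit 0) (nat_lit 286938076189) (nat_lit 76) (nat_lit 246924176750) (nat_lit 76) (nat_lit 241146163647) (nat_lit 1) (nat_lit 4) (nat_lit 2) (nat_lit 5) (nat_lit 2) (nat_lit 4) (nat_lit 491) (nat_lit 394) (nat_lit 315)) (XT.lf (nat_lit 0) (nat_lit 338740199317) (nat_lit 76) (nat_lit 251460060590) (nat_lit 76) (nat_lit 245681065823) (nat_lit 1) (nat_lit 4) (nat_lit 2) (nat_lit 5)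 (nat_lit 2) (nat_lit 4) (nat_lit 492) (nat_lit 394) (nat_lit 314))) (XT.nd (nat_lit 78) (nat_lit 0) (nat_lit 0) (XT.lf (nat_lit 0) (nat_lit 394677116219) (nat_lit 76) (nat_lit 256363610829) (nat_lit 76) (nat_lit 250583707113) (nat_lit 1) (nat_lit 4) (nat_lit 2) (nat_lit 5) (nat_lit 2) (nat_lit 4) (nat_lit 493) (nat_lit 394) (nat_lit 313)) (XT.nd (nat_lit 78) (nat_lit 0) (nat_lit 0) (XT.lf (nat_lit 0) (nat_lit 455080304921) (nat_lit 76) (nat_lit 261663885540) (nat_lit 76) (nat_lit 255883140205) (nat_lit 1) (nat_lit 4) (nat_lit 2) (nat_lit 5) (nat_lit 2) (nat_lit 4) (nat_lit 494) (nat_lit 394) (nat_lit 312)) (XT.lf (nat_lit 0) (nat_lit 520307710245) (nat_lit 76) (nat_lit 267392293760) (nat_lit 76) (nat_lit 261610769149) (nat_lit 1) (nat_lit 4) (nat_lit 2) (nat_lit 5) (nat_lit 2) (nat_lit 4) (nat_lit 495) (nat_lit 394) (nat_lit 311))))) (XT.nd (nat_lit 234) (nat_lit 0) (nat_lit 0) (XT.nd (nat_lit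 78) (nat_lit 0) (nat_lit 0) (XT.lf (nat_lit 0) (nat_lit 590745864964) (nat_lit 76) (nat_lit 273582781611) (nat_lit 76) (nat_lit 267800535447) (nat_lit 1) (nat_lit 4) (nat_lit 2) (nat_lit 5) (nat_lit 2) (nat_lit 4) (nat_lit 496) (nat_lit 394) (nat_lit 310)) (XT.nd (nat_lit 78) (nat_lit 0) (nat_lit 0) (XT.lf (nat_lit 0) (nat_lit 666812180365) (nat_lit 76) (nat_lit 280272033466) (nat_lit 76) (nat_lit 274489119198) (nat_lit 1) (nat_lit 4) (nat_lit 2) (nat_lit 5) (nat_lit 2) (nat_lit 4) (nat_lit 497) (nat_lit 394) (nat_lit 309)) (XT.lf (nat_lit 0) (nat_lit 748957419798) (nat_lit 76) (nat_lit 287499689336) (nat_lit 76) (nat_lit 281716156452) (nat_lit 1) (nat_lit 4) (nat_lit 2) (nat_lit 5) (nat_lit 2) (nat_lit 4) (nat_lit 498) (nat_lit 394) (nat_lit 308)))) (XT.nd (nat_lit 78) (nat_lit 0) (nat_lit 0) (XT.lf (nat_lit 0) (nat_lit 837668369867) (nat_lit 76) (nat_lit 295308579773) (nat_lit 76) (nat_lit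 289524474098) (nat_lit 1) (nat_lit 4) (nat_lit 2) (nat_lit 5) (nat_lit 2) (nat_lit 4) (nat_lit 499) (nat_lit 394) (nat_lit 307)) (XT.nd (nat_lit 78) (nat_lit 0) (nat_lit 0) (XT.lf (nat_lit 0) (nat_lit 933470725091) (nat_lit 76) (nat_lit 303744979685) (nat_lit 76) (nat_lit 297960343647) (nat_lit 1) (nat_lit 4) (nat_lit 2) (nat_lit 5) (nat_lit 2) (nat_lit 4) (nat_lit 500) (nat_lit 394) (nat_lit 306)) (XT.lf (nat_lit 0) (nat_lit 1036932203131) (nat_lit 76) (nat_lit 312858882552) (nat_lit 76) (nat_lit 307073755438) (nat_lit 1) (nat_lit 4) (nat_lit 2) (nat_lit 5) (nat_lit 2) (nat_lit 4) (nat_lit 501) (nat_lit 394) (nat_lit 305))))))) (XT.nd (nat_lit 858) (nat_lit 0) (nat_lit 0) (XT.nd (nat_lit 390) (nat_lit 0) (nat_lit 0) (XT.nd (nat_lit 156) (nat_lit 0) (nat_lit 0) (XT.nd (nat_lit 78) (nat_lit 0) (nat_lit 0) (XT.lf (nat_lit 0) (nat_lit 1148665909041) (nat_lit 76) (nat_lit 322704296688) (nat_lit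 76) (nat_lit 316918714873) (nat_lit 1) (nat_lit 4) (nat_lit 2) (nat_lit 5) (nat_lit 2) (nat_lit 4) (nat_lit 502) (nat_lit 394) (nat_lit 304)) (XT.lf (nat_lit 0) (nat_lit 1269333968488) (nat_lit 76) (nat_lit 333339565287) (nat_lit 76) (nat_lit 327553562453) (nat_lit 1) (nat_lit 4) (nat_lit 2) (nat_lit 5) (nat_lit 2) (nat_lit 4) (nat_lit 503) (nat_lit 394) (nat_lit 303))) (XT.nd (nat_lit 78) (nat_lit 0) (nat_lit 0) (XT.lf (nat_lit 0) (nat_lit 1399651451451) (nat_lit 76) (nat_lit 344827712163) (nat_lit 76) (nat_lit 339041319496) (nat_lit 1) (nat_lit 4) (nat_lit 2) (nat_lit 5) (nat_lit 2) (nat_lit 4) (nat_lit 504) (nat_lit 394) (nat_lit 302)) (XT.nd (nat_lit 78) (nat_lit 0) (nat_lit 0) (XT.lf (nat_lit 0) (nat_lit 1540390609683) (nat_lit 76) (nat_lit 357236815224) (nat_lit 76) (nat_lit 351450061601) (nat_lit 1) (nat_lit 4) (nat_lit 2) (nat_lit 5) (nat_lit 2) (nat_lit 4) (nat_lit 505) (nat_lit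 394) (nat_lit 301)) (XT.lf (nat_lit 0) (nat_lit 1692385453010) (nat_lit 76) (nat_lit 370640409895) (nat_lit 76) (nat_lit 364853322054) (nat_lit 1) (nat_lit 4) (nat_lit 2) (nat_lit 5) (nat_lit 2) (nat_lit 4) (nat_lit 506) (nat_lit 394) (nat_lit 300))))) (XT.nd (nat_lit 234) (nat_lit 0) (nat_lit 0) (XT.nd (nat_lit 78) (nat_lit 0) (nat_lit 0) (XT.lf (nat_lit 0) (nat_lit 1856536691614) (nat_lit 76) (nat_lit 385117924886) (nat_lit 76) (nat_lit 379330527584) (nat_lit 1) (nat_lit 4) (nat_lit 2) (nat_lit 5) (nat_lit 2) (nat_lit 4) (nat_lit 507) (nat_lit 394) (nat_lit 299)) (XT.nd (nat_lit 78) (nat_lit 0) (nat_lit 0) (XT.lf (nat_lit 0) (nat_lit 2033817073576) (nat_lit 76) (nat_lit 400755152878) (nat_lit 76) (nat_lit 394967469037) (nat_lit 1) (nat_lit 4) (nat_lit 2) (nat_lit 5) (nat_lit 2) (nat_lit 4) (nat_lit 508) (nat_lit 394) (nat_lit 298)) (XT.lf (nat_lit 0) (nat_lit 2225277149308) (nat_lit 76)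 (nat_lit 417644758925) (nat_lit 76) (nat_lit 411856809771) (nat_lit 1) (nat_lit 4) (nat_lit 2) (nat_lit 5) (nat_lit 2) (nat_lit 4) (nat_lit 509) (nat_lit 394) (nat_lit 297)))) (XT.nd (nat_lit 78) (nat_lit 0) (nat_lit 0) (XT.lf (nat_lit 0) (nat_lit 2432051497036) (nat_lit 76) (nat_lit 435886829582) (nat_lit 76) (nat_lit 430098634767) (nat_lit 1) (nat_lit 4) (nat_lit 2) (nat_lit 5) (nat_lit 2) (nat_lit 4) (nat_lit 510) (nat_lit 394) (nat_lit 296)) (XT.nd (nat_lit 78) (nat_lit 0) (nat_lit 0) (XT.lf (nat_lit 0) (nat_lit 2655365446229) (nat_lit 76) (nat_lit 455589466009) (nat_lit 76) (nat_lit 449801043731) (nat_lit 1) (nat_lit 4) (nat_lit 2) (nat_lit 5) (nat_lit 2) (nat_lit 4) (nat_lit 511) (nat_lit 394) (nat_lit 295)) (XT.lf (nat_lit 0) (nat_lit 2896542338807) (nat_lit 76) (nat_lit 476869424569) (nat_lit 76) (nat_lit 471080791677) (nat_lit 1) (nat_lit 4) (nat_lit 2) (nat_lit 5) (nat_lit 2)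 (nat_lit 4) (nat_lit 512) (nat_lit 394) (nat_lit 294)))))) (XT.nd (nat_lit 468) (nat_lit 0) (nat_lit 0) (XT.nd (nat_lit 234) (nat_lit 0) (nat_lit 0) (XT.nd (nat_lit 78) (nat_lit 0) (nat_lit 0) (XT.lf (nat_lit 0) (nat_lit 3157011371171) (nat_lit 76) (nat_lit 499852808721) (nat_lit 76) (nat_lit 494063980815) (nat_lit 1) (nat_lit 4) (nat_lit 2) (nat_lit 5) (nat_lit 2) (nat_lit 4) (nat_lit 513) (nat_lit 394) (nat_lit 293)) (XT.nd (nat_lit 78) (nat_lit 0) (nat_lit 0) (XT.lf (nat_lit 0) (nat_lit 3438316063513) (nat_lit 76) (nat_lit 524675816297) (nat_lit 76) (nat_lit 518886807823) (nat_lit 1) (nat_lit 4) (nat_lit 2) (nat_lit 5) (nat_lit 2) (nat_lit 4) (nat_lit 514) (nat_lit 394) (nat_lit 292)) (XT.lf (nat_lit 0) (nat_lit 3742123406601) (nat_lit 76) (nat_lit 551485546600) (nat_lit 76) (nat_lit 545696370933) (nat_lit 1) (nat_lit 4) (nat_lit 2) (nat_lit 5) (nat_lit 2) (nat_lit 4) (nat_lit 515) (nat_lit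 394) (nat_lit 291)))) (XT.nd (nat_lit 78) (nat_lit 0) (nat_lit 0) (XT.lf (nat_lit 0) (nat_lit 4070233740248) (nat_lit 76) (nat_lit 580440872107) (nat_lit 76) (nat_lit 574651541632) (nat_lit 1) (nat_lit 4) (nat_lit 2) (nat_lit 5) (nat_lit 2) (nat_lit 4) (nat_lit 516) (nat_lit 394) (nat_lit 290)) (XT.nd (nat_lit 78) (nat_lit 0) (nat_lit 0) (XT.lf (nat_lit 0) (nat_lit 4424591421986) (nat_lit 76) (nat_lit 611713379931) (nat_lit 76) (nat_lit 605923906116) (nat_lit 1) (nat_lit 4) (nat_lit 2) (nat_lit 5) (nat_lit 2) (nat_lit 4) (nat_lit 517) (nat_lit 394) (nat_lit 289)) (XT.lf (nat_lit 0) (nat_lit 4807296349187) (nat_lit 76) (nat_lit 645488388638) (nat_lit 76) (nat_lit 639698782101) (nat_lit 1) (nat_lit 4) (nat_lit 2) (nat_lit 5) (nat_lit 2) (nat_lit 4) (nat_lit 518) (nat_lit 394) (nat_lit 288))))) (XT.nd (nat_lit 234) (nat_lit 0) (nat_lit 0) (XT.nd (nat_lit 78) (nat_lit 0) (nat_lit 0) (XT.lf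 (nat_lit 0) (nat_lit 5220616402903) (nat_lit 76) (nat_lit 681966046428) (nat_lit 76) (nat_lit 676176316999) (nat_lit 1) (nat_lit 4) (nat_lit 2) (nat_lit 5) (nat_lit 2) (nat_lit 4) (nat_lit 519) (nat_lit 394) (nat_lit 287)) (XT.nd (nat_lit 78) (nat_lit 0) (nat_lit 0) (XT.lf (nat_lit 0) (nat_lit 5667000887155) (nat_lit 76) (nat_lit 721362517198) (nat_lit 76) (nat_lit 715572673980) (nat_lit 1) (nat_lit 4) (nat_lit 2) (nat_lit 5) (nat_lit 2) (nat_lit 4) (nat_lit 520) (nat_lit 394) (nat_lit 286)) (XT.lf (nat_lit 0) (nat_lit 6149095043331) (nat_lit 76) (nat_lit 763911261516) (nat_lit 76) (nat_lit 758121312939) (nat_lit 1) (nat_lit 4) (nat_lit 2) (nat_lit 5) (nat_lit 2) (nat_lit 4) (nat_lit 521) (nat_lit 394) (nat_lit 285)))) (XT.nd (nat_lit 78) (nat_lit 0) (nat_lit 0) (XT.lf (nat_lit 0) (nat_lit 6669755725690) (nat_lit 76) (nat_lit 809864420088) (nat_lit 76) (nat_lit 804074373956) (nat_lit 1)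 (nat_lit 4) (nat_lit 2) (nat_lit 5) (nat_lit 2) (nat_lit 4) (nat_lit 522) (nat_lit 394) (nat_lit 284)) (XT.nd (nat_lit 78) (nat_lit 0) (nat_lit 0) (XT.lf (nat_lit 0) (nat_lit 7232068330869) (nat_lit 76) (nat_lit 859494307930) (nat_lit 76) (nat_lit 853704171469) (nat_lit 1) (nat_lit 4) (nat_lit 2) (nat_lit 5) (nat_lit 2) (nat_lit 4) (nat_lit 523) (nat_lit 394) (nat_lit 283)) (XT.lf (nat_lit 0) (nat_lit 7839365081712) (nat_lit 76) (nat_lit 913095028079) (nat_lit 76) (nat_lit 907304807980) (nat_lit 1) (nat_lit 4) (nat_lit 2) (nat_lit 5) (nat_lit 2) (nat_lit 4) (nat_lit 524) (nat_lit 394) (nat_lit 282))))))))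
noncomputable def xc79 : XT := (XT.nd (nat_lit 54990) (nat_lit 0) (nat_lit 760) (XT.nd (nat_lit 54054) (nat_lit 0) (nat_lit 2204) (XT.nd (nat_lit 53586) (nat_lit 0) (nat_lit 3876) (XT.nd (nat_lit 156) (nat_lit 0) (nat_lit 0) (XT.nd (nat_lit 78) (nat_lit 0) (nat_lit 0) (XT.lf (nat_lit 0) (nat_lit 8495244773781) (nat_lit 76) (nat_lit 970984214434) (nat_lit 76) (nat_lit 965193916892) (nat_lit 1) (nat_lit 4) (nat_lit 2) (nat_lit 5) (nat_lit 2) (nat_lit 4) (nat_lit 525) (nat_lit 394) (nat_lit 281)) (XT.lf (nat_lit 0) (nat_lit 9203594101547) (nat_lit 76) (nat_lit 1033504914023) (nat_lit 76) (nat_lit 1027714544776) (nat_lit 1) (nat_lit 4) (nat_lit 2) (nat_lit 5) (nat_lit 2) (nat_lit 4) (nat_lit 526) (nat_lit 394) (nat_lit 280))) (XT.nd (nat_lit 78) (nat_lit 0) (nat_lit 0) (XT.lf (nat_lit 0) (nat_lit 9968610690655) (nat_lit 76) (nat_lit 1101027619883) (nat_lit 76) (nat_lit 1095237184241) (nat_lit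 1) (nat_lit 4) (nat_lit 2) (nat_lit 5) (nat_lit 2) (nat_lit 4) (nat_lit 527) (nat_lit 394) (nat_lit 279)) (XT.nd (nat_lit 53274) (nat_lit 0) (nat_lit 5092) (XT.lf (nat_lit 0) (nat_lit 10794827972746) (nat_lit 76) (nat_lit 1173952466565) (nat_lit 76) (nat_lit 1168161969447) (nat_lit 1) (nat_lit 4) (nat_lit 2) (nat_lit 5) (nat_lit 2) (nat_lit 4) (nat_lit 528) (nat_lit 394) (nat_lit 278)) (XT.lf (nat_lit 0) (nat_lit 457215474) (nat_lit 532) (nat_lit 2670012237) (nat_lit 0) (nat_lit 457215474) (nat_lit 68) (nat_lit 5) (nat_lit 75) (nat_lit 4) (nat_lit 68) (nat_lit 4) (nat_lit 410) (nat_lit 395) (nat_lit 395))))) (XT.nd (nat_lit 234) (nat_lit 456) (nat_lit 0) (XT.nd (nat_lit 78) (nat_lit 760) (nat_lit 0) (XT.lf (nat_lit 0) (nat_lit 4435416470) (nat_lit 532) (nat_lit 41769858) (nat_lit 0) (nat_lit 2848172975) (nat_lit 68) (nat_lit 5) (nat_lit 75) (nat_lit 4) (nat_lit 68) (nat_lit 4) (nat_lit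 411) (nat_lit 395) (nat_lit 394)) (XT.nd (nat_lit 78) (nat_lit 228) (nat_lit 0) (XT.lf (nat_lit 0) (nat_lit 588401335) (nat_lit 532) (nat_lit 1833038619) (nat_lit 76) (nat_lit 5081113086) (nat_lit 61) (nat_lit 5) (nat_lit 68) (nat_lit 5) (nat_lit 62) (nat_lit 4) (nat_lit 412) (nat_lit 395) (nat_lit 393)) (XT.lf (nat_lit 0) (nat_lit 3985297802) (nat_lit 228) (nat_lit 54614055) (nat_lit 304) (nat_lit 3660093165) (nat_lit 58) (nat_lit 5) (nat_lit 61) (nat_lit 5) (nat_lit 62) (nat_lit 4) (nat_lit 413) (nat_lit 395) (nat_lit 392)))) (XT.nd (nat_lit 78) (nat_lit 228) (nat_lit 0) (XT.lf (nat_lit 0) (nat_lit 2217717067) (nat_lit 228) (nat_lit 5479245980) (nat_lit 228) (nat_lit 222094200) (nat_lit 55) (nat_lit 4) (nat_lit 58) (nat_lit 5) (nat_lit 58) (nat_lit 4) (nat_lit 414) (nat_lit 395) (nat_lit 391)) (XT.nd (nat_lit 78) (nat_lit 0) (nat_lit 0) (XT.lf (nat_lit 0) (nat_lit 315589363) (nat_lit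 152) (nat_lit 2882964672) (nat_lit 228) (nat_lit 4959918968) (nat_lit 52) (nat_lit 5) (nat_lit 54) (nat_lit 5) (nat_lit 55) (nat_lit 4) (nat_lit 415) (nat_lit 395) (nat_lit 390)) (XT.lf (nat_lit 0) (nat_lit 6816242716) (nat_lit 228) (nat_lit 1583496367) (nat_lit 0) (nat_lit 22135611) (nat_lit 52) (nat_lit 5) (nat_lit 55) (nat_lit 4) (nat_lit 52) (nat_lit 4) (nat_lit 416) (nat_lit 395) (nat_lit 389)))))) (XT.nd (nat_lit 468) (nat_lit 608) (nat_lit 0) (XT.nd (nat_lit 234) (nat_lit 380) (nat_lit 0) (XT.nd (nat_lit 78) (nat_lit 380) (nat_lit 0) (XT.lf (nat_lit 0) (nat_lit 1906386463) (nat_lit 304) (nat_lit 3686361531) (nat_lit 76) (nat_lit 3110604176) (nat_lit 48) (nat_lit 5) (nat_lit 52) (nat_lit 5) (nat_lit 49) (nat_lit 4) (nat_lit 417) (nat_lit 395) (nat_lit 388)) (XT.nd (nat_lit 78) (nat_lit 228) (nat_lit 0) (XT.lf (nat_lit 0) (nat_lit 3051763061) (nat_lit 152) (nat_lit 2475845283) (nat_lit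 228) (nat_lit 3483303459) (nat_lit 46) (nat_lit 5) (nat_lit 48) (nat_lit 5) (nat_lit 49) (nat_lit 4) (nat_lit 418) (nat_lit 395) (nat_lit 387)) (XT.lf (nat_lit 0) (nat_lit 39788741) (nat_lit 228) (nat_lit 8418038626) (nat_lit 76) (nat_lit 889221426) (nat_lit 43) (nat_lit 5) (nat_lit 46) (nat_lit 5) (nat_lit 44) (nat_lit 4) (nat_lit 419) (nat_lit 395) (nat_lit 386)))) (XT.nd (nat_lit 78) (nat_lit 380) (nat_lit 0) (XT.lf (nat_lit 0) (nat_lit 3693946470) (nat_lit 228) (nat_lit 1447706781) (nat_lit 76) (nat_lit 4558271774) (nat_lit 43) (nat_lit 5) (nat_lit 46) (nat_lit 5) (nat_lit 44) (nat_lit 4) (nat_lit 420) (nat_lit 395) (nat_lit 385)) (XT.nd (nat_lit 78) (nat_lit 228) (nat_lit 0) (XT.lf (nat_lit 0) (nat_lit 6109217305) (nat_lit 152) (nat_lit 1498455234) (nat_lit 228) (nat_lit 2476052989) (nat_lit 41) (nat_lit 5) (nat_lit 43) (nat_lit 5) (nat_lit 44) (nat_lit 4) (nat_lit 421) (nat_lit 395)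 (nat_lit 384)) (XT.lf (nat_lit 0) (nat_lit 1282746113) (nat_lit 228) (nat_lit 6827384520) (nat_lit 76) (nat_lit 2384525078) (nat_lit 38) (nat_lit 5) (nat_lit 41) (nat_lit 5) (nat_lit 39) (nat_lit 4) (nat_lit 422) (nat_lit 395) (nat_lit 383))))) (XT.nd (nat_lit 234) (nat_lit 304) (nat_lit 0) (XT.nd (nat_lit 78) (nat_lit 228) (nat_lit 0) (XT.lf (nat_lit 0) (nat_lit 870899534) (nat_lit 76) (nat_lit 4335685665) (nat_lit 152) (nat_lit 5726939461) (nat_lit 37) (nat_lit 5) (nat_lit 38) (nat_lit 5) (nat_lit 39) (nat_lit 4) (nat_lit 423) (nat_lit 395) (nat_lit 382)) (XT.nd (nat_lit 78) (nat_lit 228) (nat_lit 0) (XT.lf (nat_lit 0) (nat_lit 9297227238) (nat_lit 76) (nat_lit 166718701) (nat_lit 152) (nat_lit 1942041705) (nat_lit 37) (nat_lit 5) (nat_lit 38) (nat_lit 5) (nat_lit 39) (nat_lit 4) (nat_lit 424) (nat_lit 395) (nat_lit 381)) (XT.lf (nat_lit 0) (nat_lit 2142797938) (nat_lit 228) (nat_lit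 5529078862) (nat_lit 76) (nat_lit 4231929934) (nat_lit 34) (nat_lit 5) (nat_lit 37) (nat_lit 5) (nat_lit 35) (nat_lit 4) (nat_lit 425) (nat_lit 395) (nat_lit 380)))) (XT.nd (nat_lit 78) (nat_lit 228) (nat_lit 0) (XT.lf (nat_lit 0) (nat_lit 3049081817) (nat_lit 76) (nat_lit 3381553104) (nat_lit 152) (nat_lit 6008333164) (nat_lit 33) (nat_lit 5) (nat_lit 34) (nat_lit 5) (nat_lit 35) (nat_lit 4) (nat_lit 426) (nat_lit 395) (nat_lit 379)) (XT.nd (nat_lit 78) (nat_lit 228) (nat_lit 0) (XT.lf (nat_lit 0) (nat_lit 11093650705) (nat_lit 152) (nat_lit 680769229) (nat_lit 0) (nat_lit 1239989720) (nat_lit 33) (nat_lit 5) (nat_lit 35) (nat_lit 4) (nat_lit 33) (nat_lit 4) (nat_lit 427) (nat_lit 395) (nat_lit 378)) (XT.lf (nat_lit 0) (nat_lit 2531600696) (nat_lit 228) (nat_lit 4858263364) (nat_lit 76) (nat_lit 6228255759) (nat_lit 30) (nat_lit 5) (nat_lit 33) (nat_lit 5) (nat_lit 31) (nat_lit 4) (nat_lit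 428) (nat_lit 395) (nat_lit 377))))))) (XT.nd (nat_lit 858) (nat_lit 684) (nat_lit 0) (XT.nd (nat_lit 390) (nat_lit 456) (nat_lit 0) (XT.nd (nat_lit 156) (nat_lit 228) (nat_lit 0) (XT.nd (nat_lit 78) (nat_lit 0) (nat_lit 0) (XT.lf (nat_lit 0) (nat_lit 4657472986) (nat_lit 76) (nat_lit 2569340977) (nat_lit 152) (nat_lit 7040118109) (nat_lit 29) (nat_lit 5) (nat_lit 30) (nat_lit 5) (nat_lit 31) (nat_lit 4) (nat_lit 429) (nat_lit 395) (nat_lit 376)) (XT.lf (nat_lit 0) (nat_lit 12358599428) (nat_lit 152) (nat_lit 66034551) (nat_lit 0) (nat_lit 2538167920) (nat_lit 29) (nat_lit 5) (nat_lit 31) (nat_lit 4) (nat_lit 29) (nat_lit 4) (nat_lit 430) (nat_lit 395) (nat_lit 375))) (XT.nd (nat_lit 78) (nat_lit 76) (nat_lit 0) (XT.lf (nat_lit 0) (nat_lit 2272025405) (nat_lit 152) (nat_lit 5293320627) (nat_lit 76) (nat_lit 8129227475) (nat_lit 27) (nat_lit 5) (nat_lit 29) (nat_lit 5) (nat_lit 28) (nat_lit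 4) (nat_lit 431) (nat_lit 395) (nat_lit 374)) (XT.nd (nat_lit 78) (nat_lit 0) (nat_lit 0) (XT.lf (nat_lit 0) (nat_lit 5181452151) (nat_lit 76) (nat_lit 2214975214) (nat_lit 152) (nat_lit 9083169538) (nat_lit 26) (nat_lit 5) (nat_lit 27) (nat_lit 5) (nat_lit 28) (nat_lit 4) (nat_lit 432) (nat_lit 395) (nat_lit 373)) (XT.lf (nat_lit 0) (nat_lit 13038691918) (nat_lit 152) (nat_lit 846493185) (nat_lit 0) (nat_lit 3433625551) (nat_lit 26) (nat_lit 5) (nat_lit 28) (nat_lit 4) (nat_lit 26) (nat_lit 4) (nat_lit 433) (nat_lit 395) (nat_lit 372))))) (XT.nd (nat_lit 234) (nat_lit 228) (nat_lit 0) (XT.nd (nat_lit 78) (nat_lit 76) (nat_lit 0) (XT.lf (nat_lit 0) (nat_lit 1064863680) (nat_lit 152) (nat_lit 7536201786) (nat_lit 76) (nat_lit 9606123453) (nat_lit 24) (nat_lit 5) (nat_lit 26) (nat_lit 5) (nat_lit 25) (nat_lit 4) (nat_lit 434) (nat_lit 395) (nat_lit 371)) (XT.nd (nat_lit 78) (nat_lit 0) (nat_lit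 0) (XT.lf (nat_lit 0) (nat_lit 3854757739) (nat_lit 76) (nat_lit 2751544759) (nat_lit 152) (nat_lit 12551450484) (nat_lit 23) (nat_lit 5) (nat_lit 24) (nat_lit 5) (nat_lit 25) (nat_lit 4) (nat_lit 435) (nat_lit 395) (nat_lit 370)) (XT.lf (nat_lit 0) (nat_lit 12772907341) (nat_lit 152) (nat_lit 3893984902) (nat_lit 0) (nat_lit 3502937525) (nat_lit 23) (nat_lit 5) (nat_lit 25) (nat_lit 4) (nat_lit 23) (nat_lit 4) (nat_lit 436) (nat_lit 395) (nat_lit 369)))) (XT.nd (nat_lit 78) (nat_lit 152) (nat_lit 0) (XT.lf (nat_lit 0) (nat_lit 8581310041) (nat_lit 76) (nat_lit 11022606687) (nat_lit 76) (nat_lit 1645284383) (nat_lit 22) (nat_lit 4) (nat_lit 23) (nat_lit 5) (nat_lit 23) (nat_lit 4) (nat_lit 437) (nat_lit 395) (nat_lit 368)) (XT.nd (nat_lit 78) (nat_lit 76) (nat_lit 0) (XT.lf (nat_lit 0) (nat_lit 4340927764) (nat_lit 152) (nat_lit 447593006) (nat_lit 76) (nat_lit 17617397735) (nat_lit 21)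 (nat_lit 5) (nat_lit 23) (nat_lit 5) (nat_lit 22) (nat_lit 4) (nat_lit 438) (nat_lit 395) (nat_lit 367)) (XT.lf (nat_lit 0) (nat_lit 10989495812) (nat_lit 152) (nat_lit 10510949807) (nat_lit 0) (nat_lit 2129532654) (nat_lit 20) (nat_lit 5) (nat_lit 22) (nat_lit 4) (nat_lit 20) (nat_lit 4) (nat_lit 439) (nat_lit 395) (nat_lit 366)))))) (XT.nd (nat_lit 468) (nat_lit 380) (nat_lit 0) (XT.nd (nat_lit 234) (nat_lit 76) (nat_lit 0) (XT.nd (nat_lit 78) (nat_lit 152) (nat_lit 0) (XT.lf (nat_lit 0) (nat_lit 2663768107) (nat_lit 76) (nat_lit 15609408807) (nat_lit 76) (nat_lit 6670538365) (nat_lit 19) (nat_lit 4) (nat_lit 20) (nat_lit 5) (nat_lit 20) (nat_lit 4) (nat_lit 440) (nat_lit 395) (nat_lit 365)) (XT.nd (nat_lit 78) (nat_lit 152) (nat_lit 0) (XT.lf (nat_lit 0) (nat_lit 17304806481) (nat_lit 76) (nat_lit 9027147625) (nat_lit 76) (nat_lit 15214884) (nat_lit 19) (nat_lit 4) (nat_lit 20) (nat_lit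 5) (nat_lit 20) (nat_lit 4) (nat_lit 441) (nat_lit 395) (nat_lit 364)) (XT.lf (nat_lit 0) (nat_lit 5163583224) (nat_lit 76) (nat_lit 1684092853) (nat_lit 152) (nat_lit 20998716151) (nat_lit 17) (nat_lit 5) (nat_lit 18) (nat_lit 5) (nat_lit 19) (nat_lit 4) (nat_lit 442) (nat_lit 395) (nat_lit 363)))) (XT.nd (nat_lit 78) (nat_lit 76) (nat_lit 0) (XT.lf (nat_lit 0) (nat_lit 14572936359) (nat_lit 152) (nat_lit 8759544550) (nat_lit 0) (nat_lit 6107915836) (nat_lit 17) (nat_lit 5) (nat_lit 19) (nat_lit 4) (nat_lit 17) (nat_lit 4) (nat_lit 443) (nat_lit 395) (nat_lit 362)) (XT.nd (nat_lit 78) (nat_lit 0) (nat_lit 0) (XT.lf (nat_lit 0) (nat_lit 6389603077) (nat_lit 76) (nat_lit 16640951177) (nat_lit 76) (nat_lit 8122227684) (nat_lit 16) (nat_lit 4) (nat_lit 17) (nat_lit 5) (nat_lit 17) (nat_lit 4) (nat_lit 444) (nat_lit 395) (nat_lit 361)) (XT.lf (nat_lit 0) (nat_lit 23089125027) (nat_lit 76) (nat_lit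 9234394534) (nat_lit 76) (nat_lit 665946067) (nat_lit 16) (nat_lit 4) (nat_lit 17) (nat_lit 5) (nat_lit 17) (nat_lit 4) (nat_lit 445) (nat_lit 395) (nat_lit 360))))) (XT.nd (nat_lit 234) (nat_lit 152) (nat_lit 0) (XT.nd (nat_lit 78) (nat_lit 76) (nat_lit 0) (XT.lf (nat_lit 0) (nat_lit 6128508303) (nat_lit 76) (nat_lit 959471702) (nat_lit 152) (nat_lit 27865244560) (nat_lit 14) (nat_lit 5) (nat_lit 15) (nat_lit 5) (nat_lit 16) (nat_lit 4) (nat_lit 446) (nat_lit 395) (nat_lit 359)) (XT.nd (nat_lit 78) (nat_lit 76) (nat_lit 0) (XT.lf (nat_lit 0) (nat_lit 15819448938) (nat_lit 152) (nat_lit 13418204337) (nat_lit 0) (nat_lit 7803595921) (nat_lit 14) (nat_lit 5) (nat_lit 16) (nat_lit 4) (nat_lit 14) (nat_lit 4) (nat_lit 447) (nat_lit 395) (nat_lit 358)) (XT.lf (nat_lit 0) (nat_lit 3215757815) (nat_lit 76) (nat_lit 22065220905) (nat_lit 76) (nat_lit 14012818548) (nat_lit 13) (nat_lit 4) (nat_lit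 14) (nat_lit 5) (nat_lit 14) (nat_lit 4) (nat_lit 448) (nat_lit 395) (nat_lit 357)))) (XT.nd (nat_lit 78) (nat_lit 152) (nat_lit 0) (XT.lf (nat_lit 0) (nat_lit 21806097486) (nat_lit 76) (nat_lit 13991426580) (nat_lit 76) (nat_lit 5905182241) (nat_lit 13) (nat_lit 4) (nat_lit 14) (nat_lit 5) (nat_lit 14) (nat_lit 4) (nat_lit 449) (nat_lit 395) (nat_lit 356)) (XT.nd (nat_lit 78) (nat_lit 76) (nat_lit 0) (XT.lf (nat_lit 0) (nat_lit 2643095693) (nat_lit 152) (nat_lit 2619940464) (nat_lit 76) (nat_lit 39041038175) (nat_lit 12) (nat_lit 5) (nat_lit 14) (nat_lit 5) (nat_lit 13) (nat_lit 4) (nat_lit 450) (nat_lit 395) (nat_lit 355)) (XT.lf (nat_lit 0) (nat_lit 12007825789) (nat_lit 152) (nat_lit 30592645667) (nat_lit 0) (nat_lit 4464683612) (nat_lit 11) (nat_lit 5) (nat_lit 13) (nat_lit 4) (nat_lit 11) (nat_lit 4) (nat_lit 451) (nat_lit 395) (nat_lit 354))))))))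
noncomputable def xc80 : XT := (XT.nd (nat_lit 1716) (nat_lit 228) (nat_lit 0) (XT.nd (nat_lit 858) (nat_lit 228) (nat_lit 0) (XT.nd (nat_lit 390) (nat_lit 76) (nat_lit 0) (XT.nd (nat_lit 156) (nat_lit 152) (nat_lit 0) (XT.nd (nat_lit 78) (nat_lit 76) (nat_lit 0) (XT.lf (nat_lit 0) (nat_lit 22271647681) (nat_lit 152) (nat_lit 13059854237) (nat_lit 0) (nat_lit 14703630638) (nat_lit 11) (nat_lit 5) (nat_lit 13) (nat_lit 4) (nat_lit 11) (nat_lit 4) (nat_lit 452) (nat_lit 395) (nat_lit 353)) (XT.lf (nat_lit 0) (nat_lit 6066773403) (nat_lit 76) (nat_lit 27379890112) (nat_lit 76) (nat_lit 19788840785) (nat_lit 10) (nat_lit 4) (nat_lit 11) (nat_lit 5) (nat_lit 11) (nat_lit 4) (nat_lit 453) (nat_lit 395) (nat_lit 352))) (XT.nd (nat_lit 78) (nat_lit 152) (nat_lit 0) (XT.lf (nat_lit 0) (nat_lit 27356827378) (nat_lit 76) (nat_lit 18461617817) (nat_lit 76) (nat_lit 10849242302) (nat_lit 10) (nat_lit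 4) (nat_lit 11) (nat_lit 5) (nat_lit 11) (nat_lit 4) (nat_lit 454) (nat_lit 395) (nat_lit 351)) (XT.nd (nat_lit 78) (nat_lit 152) (nat_lit 0) (XT.lf (nat_lit 0) (nat_lit 50248762192) (nat_lit 76) (nat_lit 8880915574) (nat_lit 76) (nat_lit 1248793587) (nat_lit 10) (nat_lit 4) (nat_lit 11) (nat_lit 5) (nat_lit 11) (nat_lit 4) (nat_lit 455) (nat_lit 395) (nat_lit 350)) (XT.lf (nat_lit 0) (nat_lit 8922261378) (nat_lit 152) (nat_lit 53587058240) (nat_lit 0) (nat_lit 1838552344) (nat_lit 8) (nat_lit 5) (nat_lit 10) (nat_lit 4) (nat_lit 8) (nat_lit 4) (nat_lit 456) (nat_lit 395) (nat_lit 349))))) (XT.nd (nat_lit 234) (nat_lit 0) (nat_lit 0) (XT.nd (nat_lit 78) (nat_lit 76) (nat_lit 0) (XT.lf (nat_lit 0) (nat_lit 20306727376) (nat_lit 152) (nat_lit 35080785996) (nat_lit 0) (nat_lit 13207342957) (nat_lit 8) (nat_lit 5) (nat_lit 10) (nat_lit 4) (nat_lit 8) (nat_lit 4) (nat_lit 457) (nat_lit 395)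 (nat_lit 348)) (XT.nd (nat_lit 78) (nat_lit 76) (nat_lit 0) (XT.lf (nat_lit 0) (nat_lit 32557842060) (nat_lit 152) (nat_lit 15183344639) (nat_lit 0) (nat_lit 25443943395) (nat_lit 8) (nat_lit 5) (nat_lit 10) (nat_lit 4) (nat_lit 8) (nat_lit 4) (nat_lit 458) (nat_lit 395) (nat_lit 347)) (XT.lf (nat_lit 0) (nat_lit 6550878045) (nat_lit 76) (nat_lit 39354875357) (nat_lit 76) (nat_lit 32227537576) (nat_lit 7) (nat_lit 4) (nat_lit 8) (nat_lit 5) (nat_lit 8) (nat_lit 4) (nat_lit 459) (nat_lit 395) (nat_lit 346)))) (XT.nd (nat_lit 78) (nat_lit 0) (nat_lit 0) (XT.lf (nat_lit 0) (nat_lit 30806707438) (nat_lit 76) (nat_lit 29890174808) (nat_lit 76) (nat_lit 22750393401) (nat_lit 7) (nat_lit 4) (nat_lit 8) (nat_lit 5) (nat_lit 8) (nat_lit 4) (nat_lit 460) (nat_lit 395) (nat_lit 345)) (XT.nd (nat_lit 78) (nat_lit 0) (nat_lit 0) (XT.lf (nat_lit 0) (nat_lit 56928353765) (nat_lit 76) (nat_lit 19706137488)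 (nat_lit 76) (nat_lit 12554834205) (nat_lit 7) (nat_lit 4) (nat_lit 8) (nat_lit 5) (nat_lit 8) (nat_lit 4) (nat_lit 461) (nat_lit 395) (nat_lit 344)) (XT.lf (nat_lit 0) (nat_lit 85070611968) (nat_lit 76) (nat_lit 8742413546) (nat_lit 76) (nat_lit 1580441859) (nat_lit 7) (nat_lit 4) (nat_lit 8) (nat_lit 5) (nat_lit 8) (nat_lit 4) (nat_lit 462) (nat_lit 395) (nat_lit 343)))))) (XT.nd (nat_lit 390) (nat_lit 76) (nat_lit 0) (XT.nd (nat_lit 156) (nat_lit 0) (nat_lit 0) (XT.nd (nat_lit 78) (nat_lit 0) (nat_lit 0) (XT.lf (nat_lit 0) (nat_lit 10144969423) (nat_lit 152) (nat_lit 88393888800) (nat_lit 0) (nat_lit 3504367720) (nat_lit 5) (nat_lit 5) (nat_lit 7) (nat_lit 4) (nat_lit 5) (nat_lit 4) (nat_lit 463) (nat_lit 395) (nat_lit 342)) (XT.lf (nat_lit 0) (nat_lit 23207376971) (nat_lit 152) (nat_lit 69417251132) (nat_lit 0) (nat_lit 16558306345) (nat_lit 5) (nat_lit 5) (nat_lit 7) (nat_lit 4) (nat_lit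 5) (nat_lit 4) (nat_lit 464) (nat_lit 395) (nat_lit 341))) (XT.nd (nat_lit 78) (nat_lit 0) (nat_lit 0) (XT.lf (nat_lit 0) (nat_lit 37284866375) (nat_lit 152) (nat_lit 48983393023) (nat_lit 0) (nat_lit 30627954154) (nat_lit 5) (nat_lit 5) (nat_lit 7) (nat_lit 4) (nat_lit 5) (nat_lit 4) (nat_lit 465) (nat_lit 395) (nat_lit 340)) (XT.nd (nat_lit 78) (nat_lit 0) (nat_lit 0) (XT.lf (nat_lit 0) (nat_lit 52460859795) (nat_lit 152) (nat_lit 26971224943) (nat_lit 0) (nat_lit 45796686838) (nat_lit 5) (nat_lit 5) (nat_lit 7) (nat_lit 4) (nat_lit 5) (nat_lit 4) (nat_lit 466) (nat_lit 395) (nat_lit 339)) (XT.lf (nat_lit 0) (nat_lit 68825289044) (nat_lit 152) (nat_lit 3250304416) (nat_lit 0) (nat_lit 62154393183) (nat_lit 5) (nat_lit 5) (nat_lit 7) (nat_lit 4) (nat_lit 5) (nat_lit 4) (nat_lit 467) (nat_lit 395) (nat_lit 338))))) (XT.nd (nat_lit 234) (nat_lit 0) (nat_lit 0) (XT.nd (nat_lit 78) (nat_lit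 0) (nat_lit 0) (XT.lf (nat_lit 0) (nat_lit 23495265302) (nat_lit 76) (nat_lit 63544924910) (nat_lit 76) (nat_lit 56867804137) (nat_lit 4) (nat_lit 4) (nat_lit 5) (nat_lit 5) (nat_lit 5) (nat_lit 4) (nat_lit 468) (nat_lit 395) (nat_lit 337)) (XT.nd (nat_lit 78) (nat_lit 0) (nat_lit 0) (XT.lf (nat_lit 0) (nat_lit 52518199636) (nat_lit 76) (nat_lit 54259834184) (nat_lit 76) (nat_lit 47576949605) (nat_lit 4) (nat_lit 4) (nat_lit 5) (nat_lit 5) (nat_lit 5) (nat_lit 4) (nat_lit 469) (nat_lit 395) (nat_lit 336)) (XT.lf (nat_lit 0) (nat_lit 83819331073) (nat_lit 76) (nat_lit 44254167606) (nat_lit 76) (nat_lit 37565946168) (nat_lit 4) (nat_lit 4) (nat_lit 5) (nat_lit 5) (nat_lit 5) (nat_lit 4) (nat_lit 470) (nat_lit 395) (nat_lit 335)))) (XT.nd (nat_lit 78) (nat_lit 0) (nat_lit 0) (XT.lf (nat_lit 0) (nat_lit 117584147798) (nat_lit 76) (nat_lit 33468632335) (nat_lit 76) (nat_lit 26775469363) (nat_lit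 4) (nat_lit 4) (nat_lit 5) (nat_lit 5) (nat_lit 5) (nat_lit 4) (nat_lit 471) (nat_lit 395) (nat_lit 334)) (XT.nd (nat_lit 78) (nat_lit 0) (nat_lit 0) (XT.lf (nat_lit 0) (nat_lit 154012737616) (nat_lit 76) (nat_lit 21839314091) (nat_lit 76) (nat_lit 15141575622) (nat_lit 4) (nat_lit 4) (nat_lit 5) (nat_lit 5) (nat_lit 5) (nat_lit 4) (nat_lit 472) (nat_lit 395) (nat_lit 333)) (XT.lf (nat_lit 0) (nat_lit 193320973650) (nat_lit 76) (nat_lit 9297298393) (nat_lit 76) (nat_lit 2595323354) (nat_lit 4) (nat_lit 4) (nat_lit 5) (nat_lit 5) (nat_lit 5) (nat_lit 4) (nat_lit 473) (nat_lit 395) (nat_lit 332))))))) (XT.nd (nat_lit 858) (nat_lit 76) (nat_lit 0) (XT.nd (nat_lit 390) (nat_lit 0) (nat_lit 0) (XT.nd (nat_lit 156) (nat_lit 0) (nat_lit 0) (XT.nd (nat_lit 78) (nat_lit 0) (nat_lit 0) (XT.lf (nat_lit 0) (nat_lit 10886273866) (nat_lit 152) (nat_lit 204948330386) (nat_lit 0) (nat_lit 4677109247) (nat_lit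 2) (nat_lit 5) (nat_lit 4) (nat_lit 4) (nat_lit 2) (nat_lit 4) (nat_lit 474) (nat_lit 395) (nat_lit 331)) (XT.lf (nat_lit 0) (nat_lit 25865170296) (nat_lit 152) (nat_lit 191465756873) (nat_lit 0) (nat_lit 19652642551) (nat_lit 2) (nat_lit 5) (nat_lit 4) (nat_lit 4) (nat_lit 2) (nat_lit 4) (nat_lit 475) (nat_lit 395) (nat_lit 330))) (XT.nd (nat_lit 78) (nat_lit 0) (nat_lit 0) (XT.lf (nat_lit 0) (nat_lit 42027458834) (nat_lit 152) (nat_lit 176935092511) (nat_lit 0) (nat_lit 35811817084) (nat_lit 2) (nat_lit 5) (nat_lit 4) (nat_lit 4) (nat_lit 2) (nat_lit 4) (nat_lit 476) (nat_lit 395) (nat_lit 329)) (XT.nd (nat_lit 78) (nat_lit 0) (nat_lit 0) (XT.lf (nat_lit 0) (nat_lit 59468916005) (nat_lit 152) (nat_lit 161270229659) (nat_lit 0) (nat_lit 53250390916) (nat_lit 2) (nat_lit 5) (nat_lit 4) (nat_lit 4) (nat_lit 2) (nat_lit 4) (nat_lit 477) (nat_lit 395) (nat_lit 328)) (XT.lf (nat_lit 0) (nat_lit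 78292898591) (nat_lit 152) (nat_lit 144378339500) (nat_lit 0) (nat_lit 72071703745) (nat_lit 2) (nat_lit 5) (nat_lit 4) (nat_lit 4) (nat_lit 2) (nat_lit 4) (nat_lit 478) (nat_lit 395) (nat_lit 327))))) (XT.nd (nat_lit 234) (nat_lit 0) (nat_lit 0) (XT.nd (nat_lit 78) (nat_lit 0) (nat_lit 0) (XT.lf (nat_lit 0) (nat_lit 98610956120) (nat_lit 152) (nat_lit 126159321943) (nat_lit 0) (nat_lit 92387289276) (nat_lit 2) (nat_lit 5) (nat_lit 4) (nat_lit 4) (nat_lit 2) (nat_lit 4) (nat_lit 479) (nat_lit 395) (nat_lit 326)) (XT.nd (nat_lit 78) (nat_lit 0) (nat_lit 0) (XT.lf (nat_lit 0) (nat_lit 120543491896) (nat_lit 152) (nat_lit 106505212442) (nat_lit 0) (nat_lit 114317536165) (nat_lit 2) (nat_lit 5) (nat_lit 4) (nat_lit 4) (nat_lit 2) (nat_lit 4) (nat_lit 480) (nat_lit 395) (nat_lit 325)) (XT.lf (nat_lit 0) (nat_lit 144220476500) (nat_lit 152) (nat_lit 85299542197) (nat_lit 0) (nat_lit 137992401429)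 (nat_lit 2) (nat_lit 5) (nat_lit 4) (nat_lit 4) (nat_lit 2) (nat_lit 4) (nat_lit 481) (nat_lit 395) (nat_lit 324)))) (XT.nd (nat_lit 78) (nat_lit 0) (nat_lit 0) (XT.lf (nat_lit 0) (nat_lit 169782217989) (nat_lit 152) (nat_lit 62416647980) (nat_lit 0) (nat_lit 163552180567) (nat_lit 2) (nat_lit 5) (nat_lit 4) (nat_lit 4) (nat_lit 2) (nat_lit 4) (nat_lit 482) (nat_lit 395) (nat_lit 323)) (XT.nd (nat_lit 78) (nat_lit 0) (nat_lit 0) (XT.lf (nat_lit 0) (nat_lit 197380193351) (nat_lit 152) (nat_lit 37720927452) (nat_lit 0) (nat_lit 191148338936) (nat_lit 2) (nat_lit 5) (nat_lit 4) (nat_lit 4) (nat_lit 2) (nat_lit 4) (nat_lit 483) (nat_lit 395) (nat_lit 322)) (XT.lf (nat_lit 0) (nat_lit 227177946143) (nat_lit 152) (nat_lit 11066035605) (nat_lit 0) (nat_lit 220944409328) (nat_lit 2) (nat_lit 5) (nat_lit 4) (nat_lit 4) (nat_lit 2) (nat_lit 4) (nat_lit 484) (nat_lit 395) (nat_lit 321)))))) (XT.nd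 (nat_lit 468) (nat_lit 0) (nat_lit 0) (XT.nd (nat_lit 234) (nat_lit 0) (nat_lit 0) (XT.nd (nat_lit 78) (nat_lit 0) (nat_lit 0) (XT.lf (nat_lit 0) (nat_lit 18638348136) (nat_lit 76) (nat_lit 241161960224) (nat_lit 76) (nat_lit 234926865632) (nat_lit 1) (nat_lit 4) (nat_lit 2) (nat_lit 5) (nat_lit 2) (nat_lit 4) (nat_lit 485) (nat_lit 395) (nat_lit 320)) (XT.nd (nat_lit 78) (nat_lit 0) (nat_lit 0) (XT.lf (nat_lit 0) (nat_lit 51333539173) (nat_lit 76) (nat_lit 243994216911) (nat_lit 76) (nat_lit 237757679931) (nat_lit 1) (nat_lit 4) (nat_lit 2) (nat_lit 5) (nat_lit 2) (nat_lit 4) (nat_lit 486) (nat_lit 395) (nat_lit 319)) (XT.lf (nat_lit 0) (nat_lit 86630568961) (nat_lit 76) (nat_lit 247060100575) (nat_lit 76) (nat_lit 240822228051) (nat_lit 1) (nat_lit 4) (nat_lit 2) (nat_lit 5) (nat_lit 2) (nat_lit 4) (nat_lit 487) (nat_lit 395) (nat_lit 318)))) (XT.nd (nat_lit 78) (nat_lit 0) (nat_lit 0)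 (XT.lf (nat_lit 0) (nat_lit 124738605084) (nat_lit 76) (nat_lit 250377779415) (nat_lit 76) (nat_lit 244138670278) (nat_lit 1) (nat_lit 4) (nat_lit 2) (nat_lit 5) (nat_lit 2) (nat_lit 4) (nat_lit 488) (nat_lit 395) (nat_lit 317)) (XT.nd (nat_lit 78) (nat_lit 0) (nat_lit 0) (XT.lf (nat_lit 0) (nat_lit 165883472942) (nat_lit 76) (nat_lit 253966913752) (nat_lit 76) (nat_lit 247726659601) (nat_lit 1) (nat_lit 4) (nat_lit 2) (nat_lit 5) (nat_lit 2) (nat_lit 4) (nat_lit 489) (nat_lit 395) (nat_lit 316)) (XT.lf (nat_lit 0) (nat_lit 210308993972) (nat_lit 76) (nat_lit 257848772529) (nat_lit 76) (nat_lit 251607458180) (nat_lit 1) (nat_lit 4) (nat_lit 2) (nat_lit 5) (nat_lit 2) (nat_lit 4) (nat_lit 490) (nat_lit 395) (nat_lit 315))))) (XT.nd (nat_lit 234) (nat_lit 0) (nat_lit 0) (XT.nd (nat_lit 78) (nat_lit 0) (nat_lit 0) (XT.lf (nat_lit 0) (nat_lit 258278430523) (nat_lit 76) (nat_lit 262046359354)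 (nat_lit 76) (nat_lit 255804063341) (nat_lit 1) (nat_lit 4) (nat_lit 2) (nat_lit 5) (nat_lit 2) (nat_lit 4) (nat_lit 491) (nat_lit 395) (nat_lit 314)) (XT.nd (nat_lit 78) (nat_lit 0) (nat_lit 0) (XT.lf (nat_lit 0) (nat_lit 310076045923) (nat_lit 76) (nat_lit 266584548815) (nat_lit 76) (nat_lit 260341343853) (nat_lit 1) (nat_lit 4) (nat_lit 2) (nat_lit 5) (nat_lit 2) (nat_lit 4) (nat_lit 492) (nat_lit 395) (nat_lit 313)) (XT.lf (nat_lit 0) (nat_lit 366008789002) (nat_lit 76) (nat_lit 271490233887) (nat_lit 76) (nat_lit 265246187306) (nat_lit 1) (nat_lit 4) (nat_lit 2) (nat_lit 5) (nat_lit 2) (nat_lit 4) (nat_lit 493) (nat_lit 395) (nat_lit 312)))) (XT.nd (nat_lit 78) (nat_lit 0) (nat_lit 0) (XT.lf (nat_lit 0) (nat_lit 426408113053) (nat_lit 76) (nat_lit 276792485296) (nat_lit 76) (nat_lit 270547659439) (nat_lit 1) (nat_lit 4) (nat_lit 2) (nat_lit 5) (nat_lit 2) (nat_lit 4) (nat_lit 494)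 (nat_lit 395) (nat_lit 311)) (XT.nd (nat_lit 78) (nat_lit 0) (nat_lit 0) (XT.lf (nat_lit 0) (nat_lit 491631939997) (nat_lit 76) (nat_lit 282522723792) (nat_lit 76) (nat_lit 276277176382) (nat_lit 1) (nat_lit 4) (nat_lit 2) (nat_lit 5) (nat_lit 2) (nat_lit 4) (nat_lit 495) (nat_lit 395) (nat_lit 310)) (XT.lf (nat_lit 0) (nat_lit 562066781400) (nat_lit 76) (nat_lit 288714906343) (nat_lit 76) (nat_lit 282468690829) (nat_lit 1) (nat_lit 4) (nat_lit 2) (nat_lit 5) (nat_lit 2) (nat_lit 4) (nat_lit 496) (nat_lit 395) (nat_lit 309))))))))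
noncomputable def xc81 : XT := (XT.nd (nat_lit 1716) (nat_lit 0) (nat_lit 0) (XT.nd (nat_lit 858) (nat_lit 0) (nat_lit 0) (XT.nd (nat_lit 390) (nat_lit 0) (nat_lit 0) (XT.nd (nat_lit 156) (nat_lit 0) (nat_lit 0) (XT.nd (nat_lit 78) (nat_lit 0) (nat_lit 0) (XT.lf (nat_lit 0) (nat_lit 638130028916) (nat_lit 76) (nat_lit 295405727364) (nat_lit 76) (nat_lit 289158893235) (nat_lit 1) (nat_lit 4) (nat_lit 2) (nat_lit 5) (nat_lit 2) (nat_lit 4) (nat_lit 497) (nat_lit 395) (nat_lit 308)) (XT.lf (nat_lit 0) (nat_lit 720272427715) (nat_lit 76) (nat_lit 302634836166) (nat_lit 76) (nat_lit 296387429245) (nat_lit 1) (nat_lit 4) (nat_lit 2) (nat_lit 5) (nat_lit 2) (nat_lit 4) (nat_lit 498) (nat_lit 395) (nat_lit 307))) (XT.nd (nat_lit 78) (nat_lit 0) (nat_lit 0) (XT.lf (nat_lit 0) (nat_lit 808980747568) (nat_lit 76) (nat_lit 310445071910) (nat_lit 76) (nat_lit 304197134627) (nat_lit 1) (nat_lit 4) (nat_lit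 2) (nat_lit 5) (nat_lit 2) (nat_lit 4) (nat_lit 499) (nat_lit 395) (nat_lit 306)) (XT.nd (nat_lit 78) (nat_lit 0) (nat_lit 0) (XT.lf (nat_lit 0) (nat_lit 904780667406) (nat_lit 76) (nat_lit 318882717477) (nat_lit 76) (nat_lit 312634289117) (nat_lit 1) (nat_lit 4) (nat_lit 2) (nat_lit 5) (nat_lit 2) (nat_lit 4) (nat_lit 500) (nat_lit 395) (nat_lit 305)) (XT.lf (nat_lit 0) (nat_lit 1008239890459) (nat_lit 76) (nat_lit 327997773728) (nat_lit 76) (nat_lit 321748890668) (nat_lit 1) (nat_lit 4) (nat_lit 2) (nat_lit 5) (nat_lit 2) (nat_lit 4) (nat_lit 501) (nat_lit 395) (nat_lit 304))))) (XT.nd (nat_lit 234) (nat_lit 0) (nat_lit 0) (XT.nd (nat_lit 78) (nat_lit 0) (nat_lit 0) (XT.lf (nat_lit 0) (nat_lit 1119971508420) (nat_lit 76) (nat_lit 337844255812) (nat_lit 76) (nat_lit 331594951733) (nat_lit 1) (nat_lit 4) (nat_lit 2) (nat_lit 5) (nat_lit 2) (nat_lit 4) (nat_lit 502) (nat_lit 395) (nat_lit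 303)) (XT.nd (nat_lit 78) (nat_lit 0) (nat_lit 0) (XT.lf (nat_lit 0) (nat_lit 1240637634578) (nat_lit 76) (nat_lit 348480513252) (nat_lit 76) (nat_lit 342230819340) (nat_lit 1) (nat_lit 4) (nat_lit 2) (nat_lit 5) (nat_lit 2) (nat_lit 4) (nat_lit 503) (nat_lit 395) (nat_lit 302)) (XT.lf (nat_lit 0) (nat_lit 1370953327460) (nat_lit 76) (nat_lit 359969575722) (nat_lit 76) (nat_lit 353719520854) (nat_lit 1) (nat_lit 4) (nat_lit 2) (nat_lit 5) (nat_lit 2) (nat_lit 4) (nat_lit 504) (nat_lit 395) (nat_lit 301)))) (XT.nd (nat_lit 78) (nat_lit 0) (nat_lit 0) (XT.lf (nat_lit 0) (nat_lit 1511690828210) (nat_lit 76) (nat_lit 372379526555) (nat_lit 76) (nat_lit 366129137468) (nat_lit 1) (nat_lit 4) (nat_lit 2) (nat_lit 5) (nat_lit 2) (nat_lit 4) (nat_lit 505) (nat_lit 395) (nat_lit 300)) (XT.nd (nat_lit 78) (nat_lit 0) (nat_lit 0) (XT.lf (nat_lit 0) (nat_lit 1663684136830) (nat_lit 76) (nat_lit 385783906200)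 (nat_lit 76) (nat_lit 379533207652) (nat_lit 1) (nat_lit 4) (nat_lit 2) (nat_lit 5) (nat_lit 2) (nat_lit 4) (nat_lit 506) (nat_lit 395) (nat_lit 299)) (XT.lf (nat_lit 0) (nat_lit 1827833954410) (nat_lit 76) (nat_lit 400262148019) (nat_lit 76) (nat_lit 394011162932) (nat_lit 1) (nat_lit 4) (nat_lit 2) (nat_lit 5) (nat_lit 2) (nat_lit 4) (nat_lit 507) (nat_lit 395) (nat_lit 298)))))) (XT.nd (nat_lit 390) (nat_lit 0) (nat_lit 0) (XT.nd (nat_lit 156) (nat_lit 0) (nat_lit 0) (XT.nd (nat_lit 78) (nat_lit 0) (nat_lit 0) (XT.lf (nat_lit 0) (nat_lit 2005113020609) (nat_lit 76) (nat_lit 415900048999) (nat_lit 76) (nat_lit 409648798599) (nat_lit 1) (nat_lit 4) (nat_lit 2) (nat_lit 5) (nat_lit 2) (nat_lit 4) (nat_lit 508) (nat_lit 395) (nat_lit 297)) (XT.lf (nat_lit 0) (nat_lit 2196571878042) (nat_lit 76) (nat_lit 432790278184) (nat_lit 76) (nat_lit 426538782123) (nat_lit 1) (nat_lit 4) (nat_lit 2)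 (nat_lit 5) (nat_lit 2) (nat_lit 4) (nat_lit 509) (nat_lit 395) (nat_lit 296))) (XT.nd (nat_lit 78) (nat_lit 0) (nat_lit 0) (XT.lf (nat_lit 0) (nat_lit 2403345097716) (nat_lit 76) (nat_lit 451032925821) (nat_lit 76) (nat_lit 444781202297) (nat_lit 1) (nat_lit 4) (nat_lit 2) (nat_lit 5) (nat_lit 2) (nat_lit 4) (nat_lit 510) (nat_lit 395) (nat_lit 295)) (XT.nd (nat_lit 78) (nat_lit 0) (nat_lit 0) (XT.lf (nat_lit 0) (nat_lit 2626658002413) (nat_lit 76) (nat_lit 470736096487) (nat_lit 76) (nat_lit 464484162349) (nat_lit 1) (nat_lit 4) (nat_lit 2) (nat_lit 5) (nat_lit 2) (nat_lit 4) (nat_lit 511) (nat_lit 395) (nat_lit 294)) (XT.lf (nat_lit 0) (nat_lit 2867833927866) (nat_lit 76) (nat_lit 492016549714) (nat_lit 76) (nat_lit 485764420563) (nat_lit 1) (nat_lit 4) (nat_lit 2) (nat_lit 5) (nat_lit 2) (nat_lit 4) (nat_lit 512) (nat_lit 395) (nat_lit 293))))) (XT.nd (nat_lit 234) (nat_lit 0) (nat_lit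 0) (XT.nd (nat_lit 78) (nat_lit 0) (nat_lit 0) (XT.lf (nat_lit 0) (nat_lit 3128302064744) (nat_lit 76) (nat_lit 515000391891) (nat_lit 76) (nat_lit 508748082171) (nat_lit 1) (nat_lit 4) (nat_lit 2) (nat_lit 5) (nat_lit 2) (nat_lit 4) (nat_lit 513) (nat_lit 395) (nat_lit 292)) (XT.nd (nat_lit 78) (nat_lit 0) (nat_lit 0) (XT.lf (nat_lit 0) (nat_lit 3409605927931) (nat_lit 76) (nat_lit 539823823563) (nat_lit 76) (nat_lit 533571346651) (nat_lit 1) (nat_lit 4) (nat_lit 2) (nat_lit 5) (nat_lit 2) (nat_lit 4) (nat_lit 514) (nat_lit 395) (nat_lit 291)) (XT.lf (nat_lit 0) (nat_lit 3713412503285) (nat_lit 76) (nat_lit 566633946549) (nat_lit 76) (nat_lit 560381314829) (nat_lit 1) (nat_lit 4) (nat_lit 2) (nat_lit 5) (nat_lit 2) (nat_lit 4) (nat_lit 515) (nat_lit 395) (nat_lit 290)))) (XT.nd (nat_lit 78) (nat_lit 0) (nat_lit 0) (XT.lf (nat_lit 0) (nat_lit 4041522126066) (nat_lit 76) (nat_lit 595589635651)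 (nat_lit 76) (nat_lit 589336860590) (nat_lit 1) (nat_lit 4) (nat_lit 2) (nat_lit 5) (nat_lit 2) (nat_lit 4) (nat_lit 516) (nat_lit 395) (nat_lit 289)) (XT.nd (nat_lit 78) (nat_lit 0) (nat_lit 0) (XT.lf (nat_lit 0) (nat_lit 4395879149595) (nat_lit 76) (nat_lit 626862480137) (nat_lit 76) (nat_lit 620609572354) (nat_lit 1) (nat_lit 4) (nat_lit 2) (nat_lit 5) (nat_lit 2) (nat_lit 4) (nat_lit 517) (nat_lit 395) (nat_lit 288)) (XT.lf (nat_lit 0) (nat_lit 4778583467343) (nat_lit 76) (nat_lit 660637800568) (nat_lit 76) (nat_lit 654384769893) (nat_lit 1) (nat_lit 4) (nat_lit 2) (nat_lit 5) (nat_lit 2) (nat_lit 4) (nat_lit 518) (nat_lit 395) (nat_lit 287))))))) (XT.nd (nat_lit 53898) (nat_lit 0) (nat_lit 3192) (XT.nd (nat_lit 390) (nat_lit 0) (nat_lit 0) (XT.nd (nat_lit 156) (nat_lit 0) (nat_lit 0) (XT.nd (nat_lit 78) (nat_lit 0) (nat_lit 0) (XT.lf (nat_lit 0) (nat_lit 5191902956751) (nat_lit 76)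 (nat_lit 697115746991) (nat_lit 76) (nat_lit 690862602528) (nat_lit 1) (nat_lit 4) (nat_lit 2) (nat_lit 5) (nat_lit 2) (nat_lit 4) (nat_lit 519) (nat_lit 395) (nat_lit 286)) (XT.lf (nat_lit 0) (nat_lit 5638286918495) (nat_lit 76) (nat_lit 736512485014) (nat_lit 76) (nat_lit 730259235191) (nat_lit 1) (nat_lit 4) (nat_lit 2) (nat_lit 5) (nat_lit 2) (nat_lit 4) (nat_lit 520) (nat_lit 395) (nat_lit 285))) (XT.nd (nat_lit 78) (nat_lit 0) (nat_lit 0) (XT.lf (nat_lit 0) (nat_lit 6120380590868) (nat_lit 76) (nat_lit 779061476788) (nat_lit 76) (nat_lit 772808129410) (nat_lit 1) (nat_lit 4) (nat_lit 2) (nat_lit 5) (nat_lit 2) (nat_lit 4) (nat_lit 521) (nat_lit 395) (nat_lit 284)) (XT.nd (nat_lit 78) (nat_lit 0) (nat_lit 0) (XT.lf (nat_lit 0) (nat_lit 6641040825261) (nat_lit 76) (nat_lit 825014864487) (nat_lit 76) (nat_lit 818761426781) (nat_lit 1) (nat_lit 4) (nat_lit 2) (nat_lit 5) (nat_lit 2) (nat_lit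 4) (nat_lit 522) (nat_lit 395) (nat_lit 283)) (XT.lf (nat_lit 0) (nat_lit 7203353015656) (nat_lit 76) (nat_lit 874644964483) (nat_lit 76) (nat_lit 868391443138) (nat_lit 1) (nat_lit 4) (nat_lit 2) (nat_lit 5) (nat_lit 2) (nat_lit 4) (nat_lit 523) (nat_lit 395) (nat_lit 282))))) (XT.nd (nat_lit 234) (nat_lit 0) (nat_lit 0) (XT.nd (nat_lit 78) (nat_lit 0) (nat_lit 0) (XT.lf (nat_lit 0) (nat_lit 7810649382441) (nat_lit 76) (nat_lit 928245881071) (nat_lit 76) (nat_lit 921992282284) (nat_lit 1) (nat_lit 4) (nat_lit 2) (nat_lit 5) (nat_lit 2) (nat_lit 4) (nat_lit 524) (nat_lit 395) (nat_lit 281)) (XT.nd (nat_lit 78) (nat_lit 0) (nat_lit 0) (XT.lf (nat_lit 0) (nat_lit 8466528718900) (nat_lit 76) (nat_lit 986135249314) (nat_lit 76) (nat_lit 979881578821) (nat_lit 1) (nat_lit 4) (nat_lit 2) (nat_lit 5) (nat_lit 2) (nat_lit 4) (nat_lit 525) (nat_lit 395) (nat_lit 280)) (XT.lf (nat_lit 0) (nat_lit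 9174877717397) (nat_lit 76) (nat_lit 1048656117318) (nat_lit 76) (nat_lit 1042402380431) (nat_lit 1) (nat_lit 4) (nat_lit 2) (nat_lit 5) (nat_lit 2) (nat_lit 4) (nat_lit 526) (nat_lit 395) (nat_lit 279)))) (XT.nd (nat_lit 78) (nat_lit 0) (nat_lit 0) (XT.lf (nat_lit 0) (nat_lit 9939894001627) (nat_lit 76) (nat_lit 1116178979117) (nat_lit 76) (nat_lit 1109925180753) (nat_lit 1) (nat_lit 4) (nat_lit 2) (nat_lit 5) (nat_lit 2) (nat_lit 4) (nat_lit 527) (nat_lit 395) (nat_lit 278)) (XT.nd (nat_lit 53118) (nat_lit 0) (nat_lit 6004) (XT.lf (nat_lit 0) (nat_lit 10766111001423) (nat_lit 76) (nat_lit 1189103970188) (nat_lit 76) (nat_lit 1182850114902) (nat_lit 1) (nat_lit 4) (nat_lit 2) (nat_lit 5) (nat_lit 2) (nat_lit 4) (nat_lit 528) (nat_lit 395) (nat_lit 277)) (XT.lf (nat_lit 0) (nat_lit 1391278024) (nat_lit 380) (nat_lit 669236527) (nat_lit 0) (nat_lit 1391278024) (nat_lit 80) (nat_lit 5) (nat_lit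 85) (nat_lit 4) (nat_lit 80) (nat_lit 4) (nat_lit 408) (nat_lit 396) (nat_lit 396)))))) (XT.nd (nat_lit 468) (nat_lit 836) (nat_lit 0) (XT.nd (nat_lit 234) (nat_lit 1064) (nat_lit 0) (XT.nd (nat_lit 78) (nat_lit 532) (nat_lit 0) (XT.lf (nat_lit 0) (nat_lit 3638241000) (nat_lit 380) (nat_lit 2621940505) (nat_lit 380) (nat_lit 770579693) (nat_lit 75) (nat_lit 4) (nat_lit 80) (nat_lit 5) (nat_lit 80) (nat_lit 4) (nat_lit 409) (nat_lit 396) (nat_lit 395)) (XT.nd (nat_lit 78) (nat_lit 0) (nat_lit 0) (XT.lf (nat_lit 0) (nat_lit 1672502509) (nat_lit 456) (nat_lit 845808209) (nat_lit 532) (nat_lit 4659506241) (nat_lit 68) (nat_lit 5) (nat_lit 74) (nat_lit 5) (nat_lit 75) (nat_lit 4) (nat_lit 410) (nat_lit 396) (nat_lit 394)) (XT.lf (nat_lit 0) (nat_lit 5897949984) (nat_lit 532) (nat_lit 320929485) (nat_lit 0) (nat_lit 1126813613) (nat_lit 68) (nat_lit 5) (nat_lit 75) (nat_lit 4) (nat_lit 68) (nat_lit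 4) (nat_lit 411) (nat_lit 396) (nat_lit 393)))) (XT.nd (nat_lit 78) (nat_lit 532) (nat_lit 0) (XT.lf (nat_lit 0) (nat_lit 1832942308) (nat_lit 532) (nat_lit 2319421834) (nat_lit 76) (nat_lit 3377870877) (nat_lit 61) (nat_lit 5) (nat_lit 68) (nat_lit 5) (nat_lit 62) (nat_lit 4) (nat_lit 412) (nat_lit 396) (nat_lit 392)) (XT.nd (nat_lit 78) (nat_lit 304) (nat_lit 0) (XT.lf (nat_lit 0) (nat_lit 3339650974) (nat_lit 228) (nat_lit 1819771078) (nat_lit 304) (nat_lit 2578343214) (nat_lit 58) (nat_lit 5) (nat_lit 61) (nat_lit 5) (nat_lit 62) (nat_lit 4) (nat_lit 413) (nat_lit 396) (nat_lit 391)) (XT.lf (nat_lit 0) (nat_lit 645404815) (nat_lit 304) (nat_lit 6582204510) (nat_lit 76) (nat_lit 741318977) (nat_lit 54) (nat_lit 5) (nat_lit 58) (nat_lit 5) (nat_lit 55) (nat_lit 4) (nat_lit 414) (nat_lit 396) (nat_lit 390))))) (XT.nd (nat_lit 234) (nat_lit 380) (nat_lit 0) (XT.nd (nat_lit 78) (nat_lit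 456) (nat_lit 0) (XT.lf (nat_lit 0) (nat_lit 3944534022) (nat_lit 304) (nat_lit 720248399) (nat_lit 76) (nat_lit 3552027219) (nat_lit 54) (nat_lit 5) (nat_lit 58) (nat_lit 5) (nat_lit 55) (nat_lit 4) (nat_lit 415) (nat_lit 396) (nat_lit 389)) (XT.nd (nat_lit 78) (nat_lit 304) (nat_lit 0) (XT.lf (nat_lit 0) (nat_lit 5634762263) (nat_lit 152) (nat_lit 1810325604) (nat_lit 228) (nat_lit 1044549971) (nat_lit 52) (nat_lit 5) (nat_lit 54) (nat_lit 5) (nat_lit 55) (nat_lit 4) (nat_lit 416) (nat_lit 396) (nat_lit 388)) (XT.lf (nat_lit 0) (nat_lit 2265326522) (nat_lit 304) (nat_lit 5203453029) (nat_lit 76) (nat_lit 1315229956) (nat_lit 48) (nat_lit 5) (nat_lit 52) (nat_lit 5) (nat_lit 49) (nat_lit 4) (nat_lit 417) (nat_lit 396) (nat_lit 387)))) (XT.nd (nat_lit 78) (nat_lit 228) (nat_lit 0) (XT.lf (nat_lit 0) (nat_lit 1319004961) (nat_lit 152) (nat_lit 4435580620) (nat_lit 228) (nat_lit 3347584817)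 (nat_lit 46) (nat_lit 5) (nat_lit 48) (nat_lit 5) (nat_lit 49) (nat_lit 4) (nat_lit 418) (nat_lit 396) (nat_lit 386)) (XT.nd (nat_lit 78) (nat_lit 152) (nat_lit 0) (XT.lf (nat_lit 0) (nat_lit 34364484) (nat_lit 228) (nat_lit 1052088275) (nat_lit 76) (nat_lit 8362379723) (nat_lit 45) (nat_lit 5) (nat_lit 48) (nat_lit 5) (nat_lit 46) (nat_lit 5) (nat_lit 419) (nat_lit 396) (nat_lit 385)) (XT.lf (nat_lit 0) (nat_lit 3548676077) (nat_lit 228) (nat_lit 3694300801) (nat_lit 76) (nat_lit 2569954637) (nat_lit 43) (nat_lit 5) (nat_lit 46) (nat_lit 5) (nat_lit 44) (nat_lit 4) (nat_lit 420) (nat_lit 396) (nat_lit 384))))))))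
noncomputable def xc82 : XT := (XT.nd (nat_lit 1716) (nat_lit 988) (nat_lit 0) (XT.nd (nat_lit 858) (nat_lit 760) (nat_lit 0) (XT.nd (nat_lit 390) (nat_lit 456) (nat_lit 0) (XT.nd (nat_lit 156) (nat_lit 304) (nat_lit 0) (XT.nd (nat_lit 78) (nat_lit 228) (nat_lit 0) (XT.lf (nat_lit 0) (nat_lit 3614687732) (nat_lit 152) (nat_lit 3707730223) (nat_lit 228) (nat_lit 2885545311) (nat_lit 41) (nat_lit 5) (nat_lit 43) (nat_lit 5) (nat_lit 44) (nat_lit 4) (nat_lit 421) (nat_lit 396) (nat_lit 383)) (XT.lf (nat_lit 0) (nat_lit 689291200) (nat_lit 228) (nat_lit 9785077045) (nat_lit 76) (nat_lit 161696705) (nat_lit 38) (nat_lit 5) (nat_lit 41) (nat_lit 5) (nat_lit 39) (nat_lit 4) (nat_lit 422) (nat_lit 396) (nat_lit 382))) (XT.nd (nat_lit 78) (nat_lit 304) (nat_lit 0) (XT.lf (nat_lit 0) (nat_lit 4515061050) (nat_lit 228) (nat_lit 2256458392) (nat_lit 76) (nat_lit 4311285804) (nat_lit 38) (nat_lit 5)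 (nat_lit 41) (nat_lit 5) (nat_lit 39) (nat_lit 4) (nat_lit 423) (nat_lit 396) (nat_lit 381)) (XT.nd (nat_lit 78) (nat_lit 228) (nat_lit 0) (XT.lf (nat_lit 0) (nat_lit 5928141123) (nat_lit 76) (nat_lit 2712788032) (nat_lit 152) (nat_lit 2924882383) (nat_lit 37) (nat_lit 5) (nat_lit 38) (nat_lit 5) (nat_lit 39) (nat_lit 4) (nat_lit 424) (nat_lit 396) (nat_lit 380)) (XT.lf (nat_lit 0) (nat_lit 981381431) (nat_lit 228) (nat_lit 9452036796) (nat_lit 76) (nat_lit 1650343197) (nat_lit 34) (nat_lit 5) (nat_lit 37) (nat_lit 5) (nat_lit 35) (nat_lit 4) (nat_lit 425) (nat_lit 396) (nat_lit 379))))) (XT.nd (nat_lit 234) (nat_lit 152) (nat_lit 0) (XT.nd (nat_lit 78) (nat_lit 304) (nat_lit 0) (XT.lf (nat_lit 0) (nat_lit 5126583783) (nat_lit 228) (nat_lit 1145330945) (nat_lit 76) (nat_lit 6358437786) (nat_lit 34) (nat_lit 5) (nat_lit 37) (nat_lit 5) (nat_lit 35) (nat_lit 4) (nat_lit 426) (nat_lit 396)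 (nat_lit 378)) (XT.nd (nat_lit 78) (nat_lit 228) (nat_lit 0) (XT.lf (nat_lit 0) (nat_lit 7996903494) (nat_lit 76) (nat_lit 1665349911) (nat_lit 152) (nat_lit 3553745937) (nat_lit 33) (nat_lit 5) (nat_lit 34) (nat_lit 5) (nat_lit 35) (nat_lit 4) (nat_lit 427) (nat_lit 396) (nat_lit 377)) (XT.lf (nat_lit 0) (nat_lit 754740514) (nat_lit 228) (nat_lit 9884691041) (nat_lit 76) (nat_lit 3201479825) (nat_lit 30) (nat_lit 5) (nat_lit 33) (nat_lit 5) (nat_lit 31) (nat_lit 4) (nat_lit 428) (nat_lit 396) (nat_lit 376)))) (XT.nd (nat_lit 78) (nat_lit 152) (nat_lit 0) (XT.lf (nat_lit 0) (nat_lit 5275319687) (nat_lit 228) (nat_lit 713652331) (nat_lit 76) (nat_lit 8514736287) (nat_lit 30) (nat_lit 5) (nat_lit 33) (nat_lit 5) (nat_lit 31) (nat_lit 4) (nat_lit 429) (nat_lit 396) (nat_lit 375)) (XT.nd (nat_lit 78) (nat_lit 76) (nat_lit 0) (XT.lf (nat_lit 0) (nat_lit 9448576544) (nat_lit 76) (nat_lit 815602275)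 (nat_lit 152) (nat_lit 4946846328) (nat_lit 29) (nat_lit 5) (nat_lit 30) (nat_lit 5) (nat_lit 31) (nat_lit 4) (nat_lit 430) (nat_lit 396) (nat_lit 374)) (XT.lf (nat_lit 0) (nat_lit 4377911643) (nat_lit 76) (nat_lit 11395350372) (nat_lit 76) (nat_lit 192000961) (nat_lit 28) (nat_lit 4) (nat_lit 29) (nat_lit 5) (nat_lit 29) (nat_lit 4) (nat_lit 431) (nat_lit 396) (nat_lit 373)))))) (XT.nd (nat_lit 390) (nat_lit 380) (nat_lit 0) (XT.nd (nat_lit 156) (nat_lit 228) (nat_lit 0) (XT.nd (nat_lit 78) (nat_lit 76) (nat_lit 0) (XT.lf (nat_lit 0) (nat_lit 4760546878) (nat_lit 152) (nat_lit 1471766809) (nat_lit 76) (nat_lit 10532869047) (nat_lit 27) (nat_lit 5) (nat_lit 29) (nat_lit 5) (nat_lit 28) (nat_lit 4) (nat_lit 432) (nat_lit 396) (nat_lit 372)) (XT.lf (nat_lit 0) (nat_lit 9733518944) (nat_lit 76) (nat_lit 490019174) (nat_lit 152) (nat_lit 7395209723) (nat_lit 26) (nat_lit 5) (nat_lit 27) (nat_lit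 5) (nat_lit 28) (nat_lit 4) (nat_lit 433) (nat_lit 396) (nat_lit 371))) (XT.nd (nat_lit 78) (nat_lit 152) (nat_lit 0) (XT.lf (nat_lit 0) (nat_lit 3200540024) (nat_lit 76) (nat_lit 13070390140) (nat_lit 76) (nat_lit 2257897346) (nat_lit 25) (nat_lit 4) (nat_lit 26) (nat_lit 5) (nat_lit 26) (nat_lit 4) (nat_lit 434) (nat_lit 396) (nat_lit 370)) (XT.nd (nat_lit 78) (nat_lit 76) (nat_lit 0) (XT.lf (nat_lit 0) (nat_lit 3251986347) (nat_lit 152) (nat_lit 4173577133) (nat_lit 76) (nat_lit 12069740170) (nat_lit 24) (nat_lit 5) (nat_lit 26) (nat_lit 5) (nat_lit 25) (nat_lit 4) (nat_lit 435) (nat_lit 396) (nat_lit 369)) (XT.lf (nat_lit 0) (nat_lit 8028266223) (nat_lit 76) (nat_lit 1145731682) (nat_lit 152) (nat_lit 11352956966) (nat_lit 23) (nat_lit 5) (nat_lit 24) (nat_lit 5) (nat_lit 25) (nat_lit 4) (nat_lit 436) (nat_lit 396) (nat_lit 368))))) (XT.nd (nat_lit 234) (nat_lit 152) (nat_lit 0) (XT.nd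 (nat_lit 78) (nat_lit 228) (nat_lit 0) (XT.lf (nat_lit 0) (nat_lit 15723540879) (nat_lit 152) (nat_lit 516029255) (nat_lit 0) (nat_lit 5389279852) (nat_lit 23) (nat_lit 5) (nat_lit 25) (nat_lit 4) (nat_lit 23) (nat_lit 4) (nat_lit 437) (nat_lit 396) (nat_lit 367)) (XT.nd (nat_lit 78) (nat_lit 76) (nat_lit 0) (XT.lf (nat_lit 0) (nat_lit 233257955) (nat_lit 152) (nat_lit 9941121935) (nat_lit 76) (nat_lit 12624249225) (nat_lit 21) (nat_lit 5) (nat_lit 23) (nat_lit 5) (nat_lit 22) (nat_lit 4) (nat_lit 438) (nat_lit 396) (nat_lit 366)) (XT.lf (nat_lit 0) (nat_lit 3095003575) (nat_lit 76) (nat_lit 3446593503) (nat_lit 152) (nat_lit 17508315247) (nat_lit 20) (nat_lit 5) (nat_lit 21) (nat_lit 5) (nat_lit 22) (nat_lit 4) (nat_lit 439) (nat_lit 396) (nat_lit 365)))) (XT.nd (nat_lit 78) (nat_lit 152) (nat_lit 0) (XT.lf (nat_lit 0) (nat_lit 13634801270) (nat_lit 152) (nat_lit 7915239351) (nat_lit 0)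 (nat_lit 3828851610) (nat_lit 20) (nat_lit 5) (nat_lit 22) (nat_lit 4) (nat_lit 20) (nat_lit 4) (nat_lit 440) (nat_lit 396) (nat_lit 364)) (XT.nd (nat_lit 78) (nat_lit 76) (nat_lit 0) (XT.lf (nat_lit 0) (nat_lit 6226453808) (nat_lit 76) (nat_lit 15224455019) (nat_lit 76) (nat_lit 5350855082) (nat_lit 19) (nat_lit 4) (nat_lit 20) (nat_lit 5) (nat_lit 20) (nat_lit 4) (nat_lit 441) (nat_lit 396) (nat_lit 363)) (XT.lf (nat_lit 0) (nat_lit 1614589425) (nat_lit 152) (nat_lit 6577893077) (nat_lit 76) (nat_lit 20131922738) (nat_lit 18) (nat_lit 5) (nat_lit 20) (nat_lit 5) (nat_lit 19) (nat_lit 4) (nat_lit 442) (nat_lit 396) (nat_lit 362))))))) (XT.nd (nat_lit 858) (nat_lit 456) (nat_lit 0) (XT.nd (nat_lit 390) (nat_lit 228) (nat_lit 0) (XT.nd (nat_lit 156) (nat_lit 228) (nat_lit 0) (XT.nd (nat_lit 78) (nat_lit 0) (nat_lit 0) (XT.lf (nat_lit 0) (nat_lit 8683437852) (nat_lit 76) (nat_lit 296214140)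 (nat_lit 152) (nat_lit 20967577072) (nat_lit 17) (nat_lit 5) (nat_lit 18) (nat_lit 5) (nat_lit 19) (nat_lit 4) (nat_lit 443) (nat_lit 396) (nat_lit 361)) (XT.lf (nat_lit 0) (nat_lit 17239493991) (nat_lit 152) (nat_lit 6500100893) (nat_lit 0) (nat_lit 7935844674) (nat_lit 17) (nat_lit 5) (nat_lit 19) (nat_lit 4) (nat_lit 17) (nat_lit 4) (nat_lit 444) (nat_lit 396) (nat_lit 360))) (XT.nd (nat_lit 78) (nat_lit 152) (nat_lit 0) (XT.lf (nat_lit 0) (nat_lit 9786036589) (nat_lit 76) (nat_lit 16545910782) (nat_lit 76) (nat_lit 7196219823) (nat_lit 16) (nat_lit 4) (nat_lit 17) (nat_lit 5) (nat_lit 17) (nat_lit 4) (nat_lit 445) (nat_lit 396) (nat_lit 359)) (XT.nd (nat_lit 78) (nat_lit 76) (nat_lit 0) (XT.lf (nat_lit 0) (nat_lit 702829663) (nat_lit 152) (nat_lit 7930436409) (nat_lit 76) (nat_lit 26885750670) (nat_lit 15) (nat_lit 5) (nat_lit 17) (nat_lit 5) (nat_lit 16) (nat_lit 4) (nat_lit 446) (nat_lit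 396) (nat_lit 358)) (XT.lf (nat_lit 0) (nat_lit 9009759709) (nat_lit 152) (nat_lit 28354631326) (nat_lit 0) (nat_lit 276615823) (nat_lit 14) (nat_lit 5) (nat_lit 16) (nat_lit 4) (nat_lit 14) (nat_lit 4) (nat_lit 447) (nat_lit 396) (nat_lit 357))))) (XT.nd (nat_lit 234) (nat_lit 152) (nat_lit 0) (XT.nd (nat_lit 78) (nat_lit 76) (nat_lit 0) (XT.lf (nat_lit 0) (nat_lit 18362470266) (nat_lit 152) (nat_lit 11944308003) (nat_lit 0) (nat_lit 9595484399) (nat_lit 14) (nat_lit 5) (nat_lit 16) (nat_lit 4) (nat_lit 14) (nat_lit 4) (nat_lit 448) (nat_lit 396) (nat_lit 356)) (XT.nd (nat_lit 78) (nat_lit 0) (nat_lit 0) (XT.lf (nat_lit 0) (nat_lit 5955881180) (nat_lit 76) (nat_lit 22590127092) (nat_lit 76) (nat_lit 13791806057) (nat_lit 13) (nat_lit 4) (nat_lit 14) (nat_lit 5) (nat_lit 14) (nat_lit 4) (nat_lit 449) (nat_lit 396) (nat_lit 355)) (XT.lf (nat_lit 0) (nat_lit 25849532265) (nat_lit 76) (nat_lit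 13962304146) (nat_lit 76) (nat_lit 5134969067) (nat_lit 13) (nat_lit 4) (nat_lit 14) (nat_lit 5) (nat_lit 14) (nat_lit 4) (nat_lit 450) (nat_lit 396) (nat_lit 354)))) (XT.nd (nat_lit 78) (nat_lit 76) (nat_lit 0) (XT.lf (nat_lit 0) (nat_lit 3947567868) (nat_lit 152) (nat_lit 643258768) (nat_lit 76) (nat_lit 43170066094) (nat_lit 12) (nat_lit 5) (nat_lit 14) (nat_lit 5) (nat_lit 13) (nat_lit 4) (nat_lit 451) (nat_lit 396) (nat_lit 353)) (XT.nd (nat_lit 78) (nat_lit 0) (nat_lit 0) (XT.lf (nat_lit 0) (nat_lit 14057436741) (nat_lit 152) (nat_lit 30849680029) (nat_lit 0) (nat_lit 5836071185) (nat_lit 11) (nat_lit 5) (nat_lit 13) (nat_lit 4) (nat_lit 11) (nat_lit 4) (nat_lit 452) (nat_lit 396) (nat_lit 352)) (XT.lf (nat_lit 0) (nat_lit 25061698837) (nat_lit 152) (nat_lit 12076515454) (nat_lit 0) (nat_lit 16819007092) (nat_lit 11) (nat_lit 5) (nat_lit 13) (nat_lit 4) (nat_lit 11) (nat_lit 4) (nat_lit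 453) (nat_lit 396) (nat_lit 351)))))) (XT.nd (nat_lit 468) (nat_lit 228) (nat_lit 0) (XT.nd (nat_lit 234) (nat_lit 152) (nat_lit 0) (XT.nd (nat_lit 78) (nat_lit 0) (nat_lit 0) (XT.lf (nat_lit 0) (nat_lit 8528897407) (nat_lit 76) (nat_lit 28574669867) (nat_lit 76) (nat_lit 20312231650) (nat_lit 10) (nat_lit 4) (nat_lit 11) (nat_lit 5) (nat_lit 11) (nat_lit 4) (nat_lit 454) (nat_lit 396) (nat_lit 350)) (XT.nd (nat_lit 78) (nat_lit 0) (nat_lit 0) (XT.lf (nat_lit 0) (nat_lit 31375727394) (nat_lit 76) (nat_lit 19016684786) (nat_lit 76) (nat_lit 10735962800) (nat_lit 10) (nat_lit 4) (nat_lit 11) (nat_lit 5) (nat_lit 11) (nat_lit 4) (nat_lit 455) (nat_lit 396) (nat_lit 349)) (XT.lf (nat_lit 0) (nat_lit 55963435228) (nat_lit 76) (nat_lit 8737812470) (nat_lit 76) (nat_lit 440161068) (nat_lit 10) (nat_lit 4) (nat_lit 11) (nat_lit 5) (nat_lit 11) (nat_lit 4) (nat_lit 456) (nat_lit 396) (nat_lit 348))))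 (XT.nd (nat_lit 78) (nat_lit 0) (nat_lit 0) (XT.lf (nat_lit 0) (nat_lit 10496583991) (nat_lit 152) (nat_lit 56131176935) (nat_lit 0) (nat_lit 2799059187) (nat_lit 8) (nat_lit 5) (nat_lit 10) (nat_lit 4) (nat_lit 8) (nat_lit 4) (nat_lit 457) (nat_lit 396) (nat_lit 347)) (XT.nd (nat_lit 78) (nat_lit 0) (nat_lit 0) (XT.lf (nat_lit 0) (nat_lit 22728063439) (nat_lit 152) (nat_lit 36273502613) (nat_lit 0) (nat_lit 15017099519) (nat_lit 8) (nat_lit 5) (nat_lit 10) (nat_lit 4) (nat_lit 8) (nat_lit 4) (nat_lit 458) (nat_lit 396) (nat_lit 346)) (XT.lf (nat_lit 0) (nat_lit 35900245233) (nat_lit 152) (nat_lit 14903802707) (nat_lit 0) (nat_lit 28176837687) (nat_lit 8) (nat_lit 5) (nat_lit 10) (nat_lit 4) (nat_lit 8) (nat_lit 4) (nat_lit 459) (nat_lit 396) (nat_lit 345))))) (XT.nd (nat_lit 234) (nat_lit 152) (nat_lit 0) (XT.nd (nat_lit 78) (nat_lit 0) (nat_lit 0) (XT.lf (nat_lit 0) (nat_lit 8531329703)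 (nat_lit 76) (nat_lit 41765035728) (nat_lit 76) (nat_lit 34030106305) (nat_lit 7) (nat_lit 4) (nat_lit 8) (nat_lit 5) (nat_lit 8) (nat_lit 4) (nat_lit 460) (nat_lit 396) (nat_lit 344)) (XT.nd (nat_lit 78) (nat_lit 0) (nat_lit 0) (XT.lf (nat_lit 0) (nat_lit 34619745342) (nat_lit 76) (nat_lit 31597842813) (nat_lit 76) (nat_lit 23852244987) (nat_lit 7) (nat_lit 4) (nat_lit 8) (nat_lit 5) (nat_lit 8) (nat_lit 4) (nat_lit 461) (nat_lit 396) (nat_lit 343)) (XT.lf (nat_lit 0) (nat_lit 62731234390) (nat_lit 76) (nat_lit 20649715543) (nat_lit 76) (nat_lit 12894239565) (nat_lit 7) (nat_lit 4) (nat_lit 8) (nat_lit 5) (nat_lit 8) (nat_lit 4) (nat_lit 462) (nat_lit 396) (nat_lit 342)))) (XT.nd (nat_lit 78) (nat_lit 152) (nat_lit 0) (XT.lf (nat_lit 0) (nat_lit 93032383447) (nat_lit 76) (nat_lit 8855776127) (nat_lit 76) (nat_lit 1091153712) (nat_lit 7) (nat_lit 4) (nat_lit 8) (nat_lit 5) (nat_lit 8) (nat_lit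 4) (nat_lit 463) (nat_lit 396) (nat_lit 341)) (XT.nd (nat_lit 78) (nat_lit 0) (nat_lit 0) (XT.lf (nat_lit 0) (nat_lit 11540114153) (nat_lit 152) (nat_lit 94277058057) (nat_lit 0) (nat_lit 4342807359) (nat_lit 5) (nat_lit 5) (nat_lit 7) (nat_lit 4) (nat_lit 5) (nat_lit 4) (nat_lit 464) (nat_lit 396) (nat_lit 340)) (XT.lf (nat_lit 0) (nat_lit 25604288588) (nat_lit 152) (nat_lit 73870314698) (nat_lit 0) (nat_lit 18399721057) (nat_lit 5) (nat_lit 5) (nat_lit 7) (nat_lit 4) (nat_lit 5) (nat_lit 4) (nat_lit 465) (nat_lit 396) (nat_lit 339))))))))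
noncomputable def xc83 : XT := (XT.nd (nat_lit 1716) (nat_lit 0) (nat_lit 0) (XT.nd (nat_lit 858) (nat_lit 76) (nat_lit 0) (XT.nd (nat_lit 390) (nat_lit 152) (nat_lit 0) (XT.nd (nat_lit 156) (nat_lit 76) (nat_lit 0) (XT.nd (nat_lit 78) (nat_lit 0) (nat_lit 0) (XT.lf (nat_lit 0) (nat_lit 40767953333) (nat_lit 152) (nat_lit 51883252868) (nat_lit 0) (nat_lit 33556662898) (nat_lit 5) (nat_lit 5) (nat_lit 7) (nat_lit 4) (nat_lit 5) (nat_lit 4) (nat_lit 466) (nat_lit 396) (nat_lit 338)) (XT.lf (nat_lit 0) (nat_lit 57120967142) (nat_lit 152) (nat_lit 28185578868) (nat_lit 0) (nat_lit 49903451796) (nat_lit 5) (nat_lit 5) (nat_lit 7) (nat_lit 4) (nat_lit 5) (nat_lit 4) (nat_lit 467) (nat_lit 396) (nat_lit 337))) (XT.nd (nat_lit 78) (nat_lit 76) (nat_lit 0) (XT.lf (nat_lit 0) (nat_lit 74760236763) (nat_lit 152) (nat_lit 2636862037) (nat_lit 0) (nat_lit 67536957610) (nat_lit 5) (nat_lit 5) (nat_lit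 7) (nat_lit 4) (nat_lit 5) (nat_lit 4) (nat_lit 468) (nat_lit 396) (nat_lit 336)) (XT.nd (nat_lit 78) (nat_lit 0) (nat_lit 0) (XT.lf (nat_lit 0) (nat_lit 26226240178) (nat_lit 76) (nat_lit 68194792731) (nat_lit 76) (nat_lit 60966176720) (nat_lit 4) (nat_lit 4) (nat_lit 5) (nat_lit 5) (nat_lit 5) (nat_lit 4) (nat_lit 469) (nat_lit 396) (nat_lit 335)) (XT.lf (nat_lit 0) (nat_lit 57507946025) (nat_lit 76) (nat_lit 58199022611) (nat_lit 76) (nat_lit 50965465065) (nat_lit 4) (nat_lit 4) (nat_lit 5) (nat_lit 5) (nat_lit 5) (nat_lit 4) (nat_lit 470) (nat_lit 396) (nat_lit 334))))) (XT.nd (nat_lit 234) (nat_lit 152) (nat_lit 0) (XT.nd (nat_lit 78) (nat_lit 0) (nat_lit 0) (XT.lf (nat_lit 0) (nat_lit 91254776093) (nat_lit 76) (nat_lit 47422650729) (nat_lit 76) (nat_lit 40184517688) (nat_lit 4) (nat_lit 4) (nat_lit 5) (nat_lit 5) (nat_lit 5) (nat_lit 4) (nat_lit 471) (nat_lit 396) (nat_lit 333)) (XT.nd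 (nat_lit 78) (nat_lit 0) (nat_lit 0) (XT.lf (nat_lit 0) (nat_lit 127666711599) (nat_lit 76) (nat_lit 35801817103) (nat_lit 76) (nat_lit 28559447491) (nat_lit 4) (nat_lit 4) (nat_lit 5) (nat_lit 5) (nat_lit 5) (nat_lit 4) (nat_lit 472) (nat_lit 396) (nat_lit 332)) (XT.lf (nat_lit 0) (nat_lit 166959526974) (nat_lit 76) (nat_lit 23267657533) (nat_lit 76) (nat_lit 16021365172) (nat_lit 4) (nat_lit 4) (nat_lit 5) (nat_lit 5) (nat_lit 5) (nat_lit 4) (nat_lit 473) (nat_lit 396) (nat_lit 331)))) (XT.nd (nat_lit 78) (nat_lit 152) (nat_lit 0) (XT.lf (nat_lit 0) (nat_lit 209366068532) (nat_lit 76) (nat_lit 9745895519) (nat_lit 76) (nat_lit 2495970982) (nat_lit 4) (nat_lit 4) (nat_lit 5) (nat_lit 5) (nat_lit 5) (nat_lit 4) (nat_lit 474) (nat_lit 396) (nat_lit 330)) (XT.nd (nat_lit 78) (nat_lit 0) (nat_lit 0) (XT.lf (nat_lit 0) (nat_lit 12048251556) (nat_lit 152) (nat_lit 220748860289) (nat_lit 0) (nat_lit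 5332244461) (nat_lit 2) (nat_lit 5) (nat_lit 4) (nat_lit 4) (nat_lit 2) (nat_lit 4) (nat_lit 475) (nat_lit 396) (nat_lit 329)) (XT.lf (nat_lit 0) (nat_lit 28203898532) (nat_lit 152) (nat_lit 206231779898) (nat_lit 0) (nat_lit 21485008098) (nat_lit 2) (nat_lit 5) (nat_lit 4) (nat_lit 4) (nat_lit 2) (nat_lit 4) (nat_lit 476) (nat_lit 396) (nat_lit 328)))))) (XT.nd (nat_lit 390) (nat_lit 76) (nat_lit 0) (XT.nd (nat_lit 156) (nat_lit 0) (nat_lit 0) (XT.nd (nat_lit 78) (nat_lit 0) (nat_lit 0) (XT.lf (nat_lit 0) (nat_lit 45639206107) (nat_lit 152) (nat_lit 190579494796) (nat_lit 0) (nat_lit 38917645916) (nat_lit 2) (nat_lit 5) (nat_lit 4) (nat_lit 4) (nat_lit 2) (nat_lit 4) (nat_lit 477) (nat_lit 396) (nat_lit 327)) (XT.lf (nat_lit 0) (nat_lit 64457494624) (nat_lit 152) (nat_lit 173699250702) (nat_lit 0) (nat_lit 57733462435) (nat_lit 2) (nat_lit 5) (nat_lit 4) (nat_lit 4) (nat_lit 2) (nat_lit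 4) (nat_lit 478) (nat_lit 396) (nat_lit 326))) (XT.nd (nat_lit 78) (nat_lit 0) (nat_lit 0) (XT.lf (nat_lit 0) (nat_lit 84770279867) (nat_lit 152) (nat_lit 155491016539) (nat_lit 0) (nat_lit 78043958791) (nat_lit 2) (nat_lit 5) (nat_lit 4) (nat_lit 4) (nat_lit 2) (nat_lit 4) (nat_lit 479) (nat_lit 396) (nat_lit 325)) (XT.nd (nat_lit 78) (nat_lit 0) (nat_lit 0) (XT.lf (nat_lit 0) (nat_lit 106697933895) (nat_lit 152) (nat_lit 135846891662) (nat_lit 0) (nat_lit 99969493479) (nat_lit 2) (nat_lit 5) (nat_lit 4) (nat_lit 4) (nat_lit 2) (nat_lit 4) (nat_lit 480) (nat_lit 396) (nat_lit 324)) (XT.lf (nat_lit 0) (nat_lit 130370398364) (nat_lit 152) (nat_lit 114650466439) (nat_lit 0) (nat_lit 123639995596) (nat_lit 2) (nat_lit 5) (nat_lit 4) (nat_lit 4) (nat_lit 2) (nat_lit 4) (nat_lit 481) (nat_lit 396) (nat_lit 323))))) (XT.nd (nat_lit 234) (nat_lit 76) (nat_lit 0) (XT.nd (nat_lit 78) (nat_lit 0)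 (nat_lit 0) (XT.lf (nat_lit 0) (nat_lit 155927954542) (nat_lit 152) (nat_lit 91776132427) (nat_lit 0) (nat_lit 149195734782) (nat_lit 2) (nat_lit 5) (nat_lit 4) (nat_lit 4) (nat_lit 2) (nat_lit 4) (nat_lit 482) (nat_lit 396) (nat_lit 322)) (XT.nd (nat_lit 78) (nat_lit 0) (nat_lit 0) (XT.lf (nat_lit 0) (nat_lit 183522054616) (nat_lit 152) (nat_lit 67088338016) (nat_lit 0) (nat_lit 176788152456) (nat_lit 2) (nat_lit 5) (nat_lit 4) (nat_lit 4) (nat_lit 2) (nat_lit 4) (nat_lit 483) (nat_lit 396) (nat_lit 321)) (XT.lf (nat_lit 0) (nat_lit 213316219178) (nat_lit 152) (nat_lit 40440785166) (nat_lit 0) (nat_lit 206580759240) (nat_lit 2) (nat_lit 5) (nat_lit 4) (nat_lit 4) (nat_lit 2) (nat_lit 4) (nat_lit 484) (nat_lit 396) (nat_lit 320)))) (XT.nd (nat_lit 78) (nat_lit 76) (nat_lit 0) (XT.lf (nat_lit 0) (nat_lit 245487006240) (nat_lit 152) (nat_lit 11675562450) (nat_lit 0) (nat_lit 238750103915)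 (nat_lit 2) (nat_lit 5) (nat_lit 4) (nat_lit 4) (nat_lit 2) (nat_lit 4) (nat_lit 485) (nat_lit 396) (nat_lit 319)) (XT.nd (nat_lit 78) (nat_lit 0) (nat_lit 0) (XT.lf (nat_lit 0) (nat_lit 20398190825) (nat_lit 76) (nat_lit 260317443659) (nat_lit 76) (nat_lit 253579205790) (nat_lit 1) (nat_lit 4) (nat_lit 2) (nat_lit 5) (nat_lit 2) (nat_lit 4) (nat_lit 486) (nat_lit 396) (nat_lit 318)) (XT.lf (nat_lit 0) (nat_lit 55689087898) (nat_lit 76) (nat_lit 263386464094) (nat_lit 76) (nat_lit 256646989610) (nat_lit 1) (nat_lit 4) (nat_lit 2) (nat_lit 5) (nat_lit 2) (nat_lit 4) (nat_lit 487) (nat_lit 396) (nat_lit 317))))))) (XT.nd (nat_lit 858) (nat_lit 0) (nat_lit 0) (XT.nd (nat_lit 390) (nat_lit 0) (nat_lit 0) (XT.nd (nat_lit 156) (nat_lit 0) (nat_lit 0) (XT.nd (nat_lit 78) (nat_lit 0) (nat_lit 0) (XT.lf (nat_lit 0) (nat_lit 93791445581) (nat_lit 76) (nat_lit 266707047352) (nat_lit 76) (nat_lit 259966427855)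 (nat_lit 1) (nat_lit 4) (nat_lit 2) (nat_lit 5) (nat_lit 2) (nat_lit 4) (nat_lit 488) (nat_lit 396) (nat_lit 316)) (XT.lf (nat_lit 0) (nat_lit 134931055623) (nat_lit 76) (nat_lit 270298870964) (nat_lit 76) (nat_lit 263557191270) (nat_lit 1) (nat_lit 4) (nat_lit 2) (nat_lit 5) (nat_lit 2) (nat_lit 4) (nat_lit 489) (nat_lit 396) (nat_lit 315))) (XT.nd (nat_lit 78) (nat_lit 0) (nat_lit 0) (XT.lf (nat_lit 0) (nat_lit 179351708307) (nat_lit 76) (nat_lit 274183219811) (nat_lit 76) (nat_lit 267440558453) (nat_lit 1) (nat_lit 4) (nat_lit 2) (nat_lit 5) (nat_lit 2) (nat_lit 4) (nat_lit 490) (nat_lit 396) (nat_lit 314)) (XT.nd (nat_lit 78) (nat_lit 0) (nat_lit 0) (XT.lf (nat_lit 0) (nat_lit 227316637129) (nat_lit 76) (nat_lit 278383112256) (nat_lit 76) (nat_lit 271639541949) (nat_lit 1) (nat_lit 4) (nat_lit 2) (nat_lit 5) (nat_lit 2) (nat_lit 4) (nat_lit 491) (nat_lit 396) (nat_lit 313)) (XT.lf (nat_lit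 0) (nat_lit 279110078705) (nat_lit 76) (nat_lit 282923436551) (nat_lit 76) (nat_lit 276179024625) (nat_lit 1) (nat_lit 4) (nat_lit 2) (nat_lit 5) (nat_lit 2) (nat_lit 4) (nat_lit 492) (nat_lit 396) (nat_lit 312))))) (XT.nd (nat_lit 234) (nat_lit 0) (nat_lit 0) (XT.nd (nat_lit 78) (nat_lit 0) (nat_lit 0) (XT.lf (nat_lit 0) (nat_lit 335038957133) (nat_lit 76) (nat_lit 287831098321) (nat_lit 76) (nat_lit 281085907118) (nat_lit 1) (nat_lit 4) (nat_lit 2) (nat_lit 5) (nat_lit 2) (nat_lit 4) (nat_lit 493) (nat_lit 396) (nat_lit 311)) (XT.nd (nat_lit 78) (nat_lit 0) (nat_lit 0) (XT.lf (nat_lit 0) (nat_lit 395434702804) (nat_lit 76) (nat_lit 293135180006) (nat_lit 76) (nat_lit 286389267251) (nat_lit 1) (nat_lit 4) (nat_lit 2) (nat_lit 5) (nat_lit 2) (nat_lit 4) (nat_lit 494) (nat_lit 396) (nat_lit 310)) (XT.lf (nat_lit 0) (nat_lit 460655216432) (nat_lit 76) (nat_lit 298867113202) (nat_lit 76) (nat_lit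 292120532342) (nat_lit 1) (nat_lit 4) (nat_lit 2) (nat_lit 5) (nat_lit 2) (nat_lit 4) (nat_lit 495) (nat_lit 396) (nat_lit 309)))) (XT.nd (nat_lit 78) (nat_lit 0) (nat_lit 0) (XT.lf (nat_lit 0) (nat_lit 531086989951) (nat_lit 76) (nat_lit 305060864919) (nat_lit 76) (nat_lit 298313665444) (nat_lit 1) (nat_lit 4) (nat_lit 2) (nat_lit 5) (nat_lit 2) (nat_lit 4) (nat_lit 496) (nat_lit 396) (nat_lit 308)) (XT.nd (nat_lit 78) (nat_lit 0) (nat_lit 0) (XT.lf (nat_lit 0) (nat_lit 607147396834) (nat_lit 76) (nat_lit 311753138872) (nat_lit 76) (nat_lit 305005366606) (nat_lit 1) (nat_lit 4) (nat_lit 2) (nat_lit 5) (nat_lit 2) (nat_lit 4) (nat_lit 497) (nat_lit 396) (nat_lit 307)) (XT.lf (nat_lit 0) (nat_lit 689287165416) (nat_lit 76) (nat_lit 318983592981) (nat_lit 76) (nat_lit 312235290352) (nat_lit 1) (nat_lit 4) (nat_lit 2) (nat_lit 5) (nat_lit 2) (nat_lit 4) (nat_lit 498) (nat_lit 396) (nat_lit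 306)))))) (XT.nd (nat_lit 468) (nat_lit 0) (nat_lit 0) (XT.nd (nat_lit 234) (nat_lit 0) (nat_lit 0) (XT.nd (nat_lit 78) (nat_lit 0) (nat_lit 0) (XT.lf (nat_lit 0) (nat_lit 777993049883) (nat_lit 76) (nat_lit 326795074381) (nat_lit 76) (nat_lit 320046280675) (nat_lit 1) (nat_lit 4) (nat_lit 2) (nat_lit 5) (nat_lit 2) (nat_lit 4) (nat_lit 499) (nat_lit 396) (nat_lit 305)) (XT.nd (nat_lit 78) (nat_lit 0) (nat_lit 0) (XT.lf (nat_lit 0) (nat_lit 873790714735) (nat_lit 76) (nat_lit 335233873332) (nat_lit 76) (nat_lit 328484624926) (nat_lit 1) (nat_lit 4) (nat_lit 2) (nat_lit 5) (nat_lit 2) (nat_lit 4) (nat_lit 500) (nat_lit 396) (nat_lit 304)) (XT.lf (nat_lit 0) (nat_lit 977247849837) (nat_lit 76) (nat_lit 344349997532) (nat_lit 76) (nat_lit 337600328106) (nat_lit 1) (nat_lit 4) (nat_lit 2) (nat_lit 5) (nat_lit 2) (nat_lit 4) (nat_lit 501) (nat_lit 396) (nat_lit 303)))) (XT.nd (nat_lit 78) (nat_lit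 0) (nat_lit 0) (XT.lf (nat_lit 0) (nat_lit 1088977534509) (nat_lit 76) (nat_lit 354197468456) (nat_lit 76) (nat_lit 347447409199) (nat_lit 1) (nat_lit 4) (nat_lit 2) (nat_lit 5) (nat_lit 2) (nat_lit 4) (nat_lit 502) (nat_lit 396) (nat_lit 302)) (XT.nd (nat_lit 78) (nat_lit 0) (nat_lit 0) (XT.lf (nat_lit 0) (nat_lit 1209641870587) (nat_lit 76) (nat_lit 364834641490) (nat_lit 76) (nat_lit 358084221277) (nat_lit 1) (nat_lit 4) (nat_lit 2) (nat_lit 5) (nat_lit 2) (nat_lit 4) (nat_lit 503) (nat_lit 396) (nat_lit 301)) (XT.lf (nat_lit 0) (nat_lit 1339955905987) (nat_lit 76) (nat_lit 376324551732) (nat_lit 76) (nat_lit 369573797300) (nat_lit 1) (nat_lit 4) (nat_lit 2) (nat_lit 5) (nat_lit 2) (nat_lit 4) (nat_lit 504) (nat_lit 396) (nat_lit 300))))) (XT.nd (nat_lit 234) (nat_lit 0) (nat_lit 0) (XT.nd (nat_lit 78) (nat_lit 0) (nat_lit 0) (XT.lf (nat_lit 0) (nat_lit 1480691872030) (nat_lit 76) (nat_lit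 388735287539) (nat_lit 76) (nat_lit 381984223645) (nat_lit 1) (nat_lit 4) (nat_lit 2) (nat_lit 5) (nat_lit 2) (nat_lit 4) (nat_lit 505) (nat_lit 396) (nat_lit 299)) (XT.nd (nat_lit 78) (nat_lit 0) (nat_lit 0) (XT.lf (nat_lit 0) (nat_lit 1632683759626) (nat_lit 76) (nat_lit 402140394012) (nat_lit 76) (nat_lit 395389043579) (nat_lit 1) (nat_lit 4) (nat_lit 2) (nat_lit 5) (nat_lit 2) (nat_lit 4) (nat_lit 506) (nat_lit 396) (nat_lit 298)) (XT.lf (nat_lit 0) (nat_lit 1796832261443) (nat_lit 76) (nat_lit 416619308819) (nat_lit 76) (nat_lit 409867693073) (nat_lit 1) (nat_lit 4) (nat_lit 2) (nat_lit 5) (nat_lit 2) (nat_lit 4) (nat_lit 507) (nat_lit 396) (nat_lit 297)))) (XT.nd (nat_lit 78) (nat_lit 0) (nat_lit 0) (XT.lf (nat_lit 0) (nat_lit 1974110109343) (nat_lit 76) (nat_lit 432257832937) (nat_lit 76) (nat_lit 425505971530) (nat_lit 1) (nat_lit 4) (nat_lit 2) (nat_lit 5) (nat_lit 2) (nat_lit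 4) (nat_lit 508) (nat_lit 396) (nat_lit 296)) (XT.nd (nat_lit 78) (nat_lit 0) (nat_lit 0) (XT.lf (nat_lit 0) (nat_lit 2165567838721) (nat_lit 76) (nat_lit 449148639101) (nat_lit 76) (nat_lit 442396550231) (nat_lit 1) (nat_lit 4) (nat_lit 2) (nat_lit 5) (nat_lit 2) (nat_lit 4) (nat_lit 509) (nat_lit 396) (nat_lit 295)) (XT.lf (nat_lit 0) (nat_lit 2372340013899) (nat_lit 76) (nat_lit 467391820977) (nat_lit 76) (nat_lit 460639521493) (nat_lit 1) (nat_lit 4) (nat_lit 2) (nat_lit 5) (nat_lit 2) (nat_lit 4) (nat_lit 510) (nat_lit 396) (nat_lit 294))))))))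
noncomputable def xc84 : XT := (XT.nd (nat_lit 54600) (nat_lit 0) (nat_lit 1976) (XT.nd (nat_lit 858) (nat_lit 0) (nat_lit 0) (XT.nd (nat_lit 390) (nat_lit 0) (nat_lit 0) (XT.nd (nat_lit 156) (nat_lit 0) (nat_lit 0) (XT.nd (nat_lit 78) (nat_lit 0) (nat_lit 0) (XT.lf (nat_lit 0) (nat_lit 2595651951472) (nat_lit 76) (nat_lit 487095486311) (nat_lit 76) (nat_lit 480342991814) (nat_lit 1) (nat_lit 4) (nat_lit 2) (nat_lit 5) (nat_lit 2) (nat_lit 4) (nat_lit 511) (nat_lit 396) (nat_lit 293)) (XT.lf (nat_lit 0) (nat_lit 2836826981438) (nat_lit 76) (nat_lit 508376397563) (nat_lit 76) (nat_lit 501623722498) (nat_lit 1) (nat_lit 4) (nat_lit 2) (nat_lit 5) (nat_lit 2) (nat_lit 4) (nat_lit 512) (nat_lit 396) (nat_lit 292))) (XT.nd (nat_lit 78) (nat_lit 0) (nat_lit 0) (XT.lf (nat_lit 0) (nat_lit 3097294289162) (nat_lit 76) (nat_lit 531360663836) (nat_lit 76) (nat_lit 524607821579) (nat_lit 1) (nat_lit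 4) (nat_lit 2) (nat_lit 5) (nat_lit 2) (nat_lit 4) (nat_lit 513) (nat_lit 396) (nat_lit 291)) (XT.nd (nat_lit 78) (nat_lit 0) (nat_lit 0) (XT.lf (nat_lit 0) (nat_lit 3378597384615) (nat_lit 76) (nat_lit 556184488191) (nat_lit 76) (nat_lit 549431491126) (nat_lit 1) (nat_lit 4) (nat_lit 2) (nat_lit 5) (nat_lit 2) (nat_lit 4) (nat_lit 514) (nat_lit 396) (nat_lit 290)) (XT.lf (nat_lit 0) (nat_lit 3682403249103) (nat_lit 76) (nat_lit 582994974771) (nat_lit 76) (nat_lit 576241834365) (nat_lit 1) (nat_lit 4) (nat_lit 2) (nat_lit 5) (nat_lit 2) (nat_lit 4) (nat_lit 515) (nat_lit 396) (nat_lit 289))))) (XT.nd (nat_lit 234) (nat_lit 0) (nat_lit 0) (XT.nd (nat_lit 78) (nat_lit 0) (nat_lit 0) (XT.lf (nat_lit 0) (nat_lit 4010512213674) (nat_lit 76) (nat_lit 611951000535) (nat_lit 76) (nat_lit 605197727406) (nat_lit 1) (nat_lit 4) (nat_lit 2) (nat_lit 5) (nat_lit 2) (nat_lit 4) (nat_lit 516) (nat_lit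 396) (nat_lit 288)) (XT.nd (nat_lit 78) (nat_lit 0) (nat_lit 0) (XT.lf (nat_lit 0) (nat_lit 4364868627750) (nat_lit 76) (nat_lit 643224156745) (nat_lit 76) (nat_lit 636470760725) (nat_lit 1) (nat_lit 4) (nat_lit 2) (nat_lit 5) (nat_lit 2) (nat_lit 4) (nat_lit 517) (nat_lit 396) (nat_lit 287)) (XT.lf (nat_lit 0) (nat_lit 4747572381190) (nat_lit 76) (nat_lit 676999765809) (nat_lit 76) (nat_lit 670246256001) (nat_lit 1) (nat_lit 4) (nat_lit 2) (nat_lit 5) (nat_lit 2) (nat_lit 4) (nat_lit 518) (nat_lit 396) (nat_lit 286)))) (XT.nd (nat_lit 78) (nat_lit 0) (nat_lit 0) (XT.lf (nat_lit 0) (nat_lit 5160891348090) (nat_lit 76) (nat_lit 713477979485) (nat_lit 76) (nat_lit 706724364317) (nat_lit 1) (nat_lit 4) (nat_lit 2) (nat_lit 5) (nat_lit 2) (nat_lit 4) (nat_lit 519) (nat_lit 396) (nat_lit 285)) (XT.nd (nat_lit 78) (nat_lit 0) (nat_lit 0) (XT.lf (nat_lit 0) (nat_lit 5607274826031) (nat_lit 76)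 (nat_lit 752874964965) (nat_lit 76) (nat_lit 746121252242) (nat_lit 1) (nat_lit 4) (nat_lit 2) (nat_lit 5) (nat_lit 2) (nat_lit 4) (nat_lit 520) (nat_lit 396) (nat_lit 284)) (XT.lf (nat_lit 0) (nat_lit 6089368050438) (nat_lit 76) (nat_lit 795424185865) (nat_lit 76) (nat_lit 788670382813) (nat_lit 1) (nat_lit 4) (nat_lit 2) (nat_lit 5) (nat_lit 2) (nat_lit 4) (nat_lit 521) (nat_lit 396) (nat_lit 283)))))) (XT.nd (nat_lit 390) (nat_lit 0) (nat_lit 0) (XT.nd (nat_lit 156) (nat_lit 0) (nat_lit 0) (XT.nd (nat_lit 78) (nat_lit 0) (nat_lit 0) (XT.lf (nat_lit 0) (nat_lit 6610027870048) (nat_lit 76) (nat_lit 841377785719) (nat_lit 76) (nat_lit 834623899029) (nat_lit 1) (nat_lit 4) (nat_lit 2) (nat_lit 5) (nat_lit 2) (nat_lit 4) (nat_lit 522) (nat_lit 396) (nat_lit 282)) (XT.lf (nat_lit 0) (nat_lit 7172339676384) (nat_lit 76) (nat_lit 891008082153) (nat_lit 76) (nat_lit 884254118021) (nat_lit 1)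 (nat_lit 4) (nat_lit 2) (nat_lit 5) (nat_lit 2) (nat_lit 4) (nat_lit 523) (nat_lit 396) (nat_lit 281))) (XT.nd (nat_lit 78) (nat_lit 0) (nat_lit 0) (XT.lf (nat_lit 0) (nat_lit 7779635687559) (nat_lit 76) (nat_lit 944609180630) (nat_lit 76) (nat_lit 937855144791) (nat_lit 1) (nat_lit 4) (nat_lit 2) (nat_lit 5) (nat_lit 2) (nat_lit 4) (nat_lit 524) (nat_lit 396) (nat_lit 280)) (XT.nd (nat_lit 78) (nat_lit 0) (nat_lit 0) (XT.lf (nat_lit 0) (nat_lit 8435514694749) (nat_lit 76) (nat_lit 1002498717287) (nat_lit 76) (nat_lit 995744615054) (nat_lit 1) (nat_lit 4) (nat_lit 2) (nat_lit 5) (nat_lit 2) (nat_lit 4) (nat_lit 525) (nat_lit 396) (nat_lit 279)) (XT.lf (nat_lit 0) (nat_lit 9143863388368) (nat_lit 76) (nat_lit 1065019741231) (nat_lit 76) (nat_lit 1058265577521) (nat_lit 1) (nat_lit 4) (nat_lit 2) (nat_lit 5) (nat_lit 2) (nat_lit 4) (nat_lit 526) (nat_lit 396) (nat_lit 278))))) (XT.nd (nat_lit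 53118) (nat_lit 0) (nat_lit 5548) (XT.nd (nat_lit 78) (nat_lit 0) (nat_lit 0) (XT.lf (nat_lit 0) (nat_lit 9908879390304) (nat_lit 76) (nat_lit 1132542747418) (nat_lit 76) (nat_lit 1125788526786) (nat_lit 1) (nat_lit 4) (nat_lit 2) (nat_lit 5) (nat_lit 2) (nat_lit 4) (nat_lit 527) (nat_lit 396) (nat_lit 277)) (XT.nd (nat_lit 52962) (nat_lit 0) (nat_lit 6384) (XT.lf (nat_lit 0) (nat_lit 10735096128716) (nat_lit 76) (nat_lit 1205467872182) (nat_lit 76) (nat_lit 1198713598844) (nat_lit 1) (nat_lit 4) (nat_lit 2) (nat_lit 5) (nat_lit 2) (nat_lit 4) (nat_lit 528) (nat_lit 396) (nat_lit 276)) (XT.lf (nat_lit 0) (nat_lit 1517856396) (nat_lit 228) (nat_lit 915946489) (nat_lit 228) (nat_lit 915946489) (nat_lit 85) (nat_lit 4) (nat_lit 88) (nat_lit 5) (nat_lit 88) (nat_lit 4) (nat_lit 406) (nat_lit 397) (nat_lit 397)))) (XT.nd (nat_lit 78) (nat_lit 456) (nat_lit 0) (XT.lf (nat_lit 0) (nat_lit 766076757)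 (nat_lit 304) (nat_lit 640415554) (nat_lit 380) (nat_lit 5392009700) (nat_lit 80) (nat_lit 5) (nat_lit 84) (nat_lit 5) (nat_lit 85) (nat_lit 4) (nat_lit 407) (nat_lit 397) (nat_lit 396)) (XT.nd (nat_lit 78) (nat_lit 456) (nat_lit 0) (XT.lf (nat_lit 0) (nat_lit 4651215829) (nat_lit 380) (nat_lit 1462569064) (nat_lit 0) (nat_lit 800385340) (nat_lit 80) (nat_lit 5) (nat_lit 85) (nat_lit 4) (nat_lit 80) (nat_lit 4) (nat_lit 408) (nat_lit 397) (nat_lit 395)) (XT.lf (nat_lit 0) (nat_lit 902514251) (nat_lit 456) (nat_lit 3687823819) (nat_lit 76) (nat_lit 2459465387) (nat_lit 74) (nat_lit 5) (nat_lit 80) (nat_lit 5) (nat_lit 75) (nat_lit 4) (nat_lit 409) (nat_lit 397) (nat_lit 394))))))) (XT.nd (nat_lit 858) (nat_lit 1216) (nat_lit 0) (XT.nd (nat_lit 390) (nat_lit 836) (nat_lit 0) (XT.nd (nat_lit 156) (nat_lit 1064) (nat_lit 0) (XT.nd (nat_lit 78) (nat_lit 0) (nat_lit 0) (XT.lf (nat_lit 0) (nat_lit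 1217611064) (nat_lit 456) (nat_lit 2806383176) (nat_lit 532) (nat_lit 3181786904) (nat_lit 68) (nat_lit 5) (nat_lit 74) (nat_lit 5) (nat_lit 75) (nat_lit 4) (nat_lit 410) (nat_lit 397) (nat_lit 393)) (XT.lf (nat_lit 0) (nat_lit 6485376315) (nat_lit 456) (nat_lit 777769441) (nat_lit 532) (nat_lit 121838949) (nat_lit 68) (nat_lit 5) (nat_lit 74) (nat_lit 5) (nat_lit 75) (nat_lit 4) (nat_lit 411) (nat_lit 397) (nat_lit 392))) (XT.nd (nat_lit 78) (nat_lit 532) (nat_lit 0) (XT.lf (nat_lit 0) (nat_lit 2949280411) (nat_lit 532) (nat_lit 3108804451) (nat_lit 76) (nat_lit 1520425658) (nat_lit 61) (nat_lit 5) (nat_lit 68) (nat_lit 5) (nat_lit 62) (nat_lit 4) (nat_lit 412) (nat_lit 397) (nat_lit 391)) (XT.nd (nat_lit 78) (nat_lit 304) (nat_lit 0) (XT.lf (nat_lit 0) (nat_lit 2384949448) (nat_lit 228) (nat_lit 3766458488) (nat_lit 304) (nat_lit 1644651199) (nat_lit 58) (nat_lit 5) (nat_lit 61) (nat_lit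 5) (nat_lit 62) (nat_lit 4) (nat_lit 413) (nat_lit 397) (nat_lit 390)) (XT.lf (nat_lit 0) (nat_lit 190835993) (nat_lit 228) (nat_lit 1194328927) (nat_lit 304) (nat_lit 6652098989) (nat_lit 54) (nat_lit 5) (nat_lit 57) (nat_lit 5) (nat_lit 58) (nat_lit 5) (nat_lit 414) (nat_lit 397) (nat_lit 389))))) (XT.nd (nat_lit 234) (nat_lit 380) (nat_lit 0) (XT.nd (nat_lit 78) (nat_lit 456) (nat_lit 0) (XT.lf (nat_lit 0) (nat_lit 4560367667) (nat_lit 304) (nat_lit 2079678727) (nat_lit 76) (nat_lit 1655068689) (nat_lit 54) (nat_lit 5) (nat_lit 58) (nat_lit 5) (nat_lit 55) (nat_lit 4) (nat_lit 415) (nat_lit 397) (nat_lit 388)) (XT.nd (nat_lit 78) (nat_lit 304) (nat_lit 0) (XT.lf (nat_lit 0) (nat_lit 4082953665) (nat_lit 152) (nat_lit 3852496052) (nat_lit 228) (nat_lit 642582897) (nat_lit 52) (nat_lit 5) (nat_lit 54) (nat_lit 5) (nat_lit 55) (nat_lit 4) (nat_lit 416) (nat_lit 397) (nat_lit 387)) (XT.lf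 (nat_lit 0) (nat_lit 1757188299) (nat_lit 228) (nat_lit 725437176) (nat_lit 304) (nat_lit 6402214463) (nat_lit 48) (nat_lit 5) (nat_lit 51) (nat_lit 5) (nat_lit 52) (nat_lit 5) (nat_lit 417) (nat_lit 397) (nat_lit 386)))) (XT.nd (nat_lit 78) (nat_lit 380) (nat_lit 0) (XT.lf (nat_lit 0) (nat_lit 5839113847) (nat_lit 304) (nat_lit 773161267) (nat_lit 76) (nat_lit 2601388322) (nat_lit 48) (nat_lit 5) (nat_lit 52) (nat_lit 5) (nat_lit 49) (nat_lit 4) (nat_lit 418) (nat_lit 397) (nat_lit 385)) (XT.nd (nat_lit 78) (nat_lit 228) (nat_lit 0) (XT.lf (nat_lit 0) (nat_lit 6148395438) (nat_lit 152) (nat_lit 3321426551) (nat_lit 228) (nat_lit 98593645) (nat_lit 46) (nat_lit 5) (nat_lit 48) (nat_lit 5) (nat_lit 49) (nat_lit 4) (nat_lit 419) (nat_lit 397) (nat_lit 384)) (XT.lf (nat_lit 0) (nat_lit 3225403406) (nat_lit 228) (nat_lit 6376772432) (nat_lit 76) (nat_lit 346180763) (nat_lit 43) (nat_lit 5)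 (nat_lit 46) (nat_lit 5) (nat_lit 44) (nat_lit 4) (nat_lit 420) (nat_lit 397) (nat_lit 383)))))) (XT.nd (nat_lit 468) (nat_lit 532) (nat_lit 0) (XT.nd (nat_lit 234) (nat_lit 304) (nat_lit 0) (XT.nd (nat_lit 78) (nat_lit 228) (nat_lit 0) (XT.lf (nat_lit 0) (nat_lit 670930515) (nat_lit 152) (nat_lit 6183351878) (nat_lit 228) (nat_lit 3500725093) (nat_lit 41) (nat_lit 5) (nat_lit 43) (nat_lit 5) (nat_lit 44) (nat_lit 4) (nat_lit 421) (nat_lit 397) (nat_lit 382)) (XT.nd (nat_lit 78) (nat_lit 152) (nat_lit 0) (XT.lf (nat_lit 0) (nat_lit 7089774) (nat_lit 228) (nat_lit 2378405223) (nat_lit 76) (nat_lit 8406647222) (nat_lit 40) (nat_lit 5) (nat_lit 43) (nat_lit 5) (nat_lit 41) (nat_lit 5) (nat_lit 422) (nat_lit 397) (nat_lit 381)) (XT.lf (nat_lit 0) (nat_lit 3642300466) (nat_lit 228) (nat_lit 5829812015) (nat_lit 76) (nat_lit 1782038664) (nat_lit 38) (nat_lit 5) (nat_lit 41) (nat_lit 5) (nat_lit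 39) (nat_lit 4) (nat_lit 423) (nat_lit 397) (nat_lit 380)))) (XT.nd (nat_lit 78) (nat_lit 228) (nat_lit 0) (XT.lf (nat_lit 0) (nat_lit 2052818172) (nat_lit 76) (nat_lit 5556027320) (nat_lit 152) (nat_lit 4141079918) (nat_lit 37) (nat_lit 5) (nat_lit 38) (nat_lit 5) (nat_lit 39) (nat_lit 4) (nat_lit 424) (nat_lit 397) (nat_lit 379)) (XT.nd (nat_lit 78) (nat_lit 228) (nat_lit 0) (XT.lf (nat_lit 0) (nat_lit 10678429473) (nat_lit 76) (nat_lit 1241065801) (nat_lit 152) (nat_lit 363766462) (nat_lit 37) (nat_lit 5) (nat_lit 38) (nat_lit 5) (nat_lit 39) (nat_lit 4) (nat_lit 425) (nat_lit 397) (nat_lit 378)) (XT.lf (nat_lit 0) (nat_lit 3663930843) (nat_lit 228) (nat_lit 5739612493) (nat_lit 76) (nat_lit 3437883112) (nat_lit 34) (nat_lit 5) (nat_lit 37) (nat_lit 5) (nat_lit 35) (nat_lit 4) (nat_lit 426) (nat_lit 397) (nat_lit 377))))) (XT.nd (nat_lit 234) (nat_lit 228) (nat_lit 0) (XT.nd (nat_lit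 78) (nat_lit 228) (nat_lit 0) (XT.lf (nat_lit 0) (nat_lit 3053365047) (nat_lit 76) (nat_lit 4967926069) (nat_lit 152) (nat_lit 5420063171) (nat_lit 33) (nat_lit 5) (nat_lit 34) (nat_lit 5) (nat_lit 35) (nat_lit 4) (nat_lit 427) (nat_lit 397) (nat_lit 376)) (XT.nd (nat_lit 78) (nat_lit 228) (nat_lit 0) (XT.lf (nat_lit 0) (nat_lit 12669487676) (nat_lit 76) (nat_lit 95279342) (nat_lit 152) (nat_lit 1321538512) (nat_lit 33) (nat_lit 5) (nat_lit 34) (nat_lit 5) (nat_lit 35) (nat_lit 4) (nat_lit 428) (nat_lit 397) (nat_lit 375)) (XT.lf (nat_lit 0) (nat_lit 3168074325) (nat_lit 228) (nat_lit 6477992156) (nat_lit 76) (nat_lit 5113357532) (nat_lit 30) (nat_lit 5) (nat_lit 33) (nat_lit 5) (nat_lit 31) (nat_lit 4) (nat_lit 429) (nat_lit 397) (nat_lit 374)))) (XT.nd (nat_lit 78) (nat_lit 152) (nat_lit 0) (XT.lf (nat_lit 0) (nat_lit 3279878441) (nat_lit 76) (nat_lit 4675009615) (nat_lit 152) (nat_lit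 7528028387) (nat_lit 29) (nat_lit 5) (nat_lit 30) (nat_lit 5) (nat_lit 31) (nat_lit 4) (nat_lit 430) (nat_lit 397) (nat_lit 373)) (XT.nd (nat_lit 78) (nat_lit 152) (nat_lit 0) (XT.lf (nat_lit 0) (nat_lit 13212911755) (nat_lit 152) (nat_lit 2285382158) (nat_lit 0) (nat_lit 758956186) (nat_lit 29) (nat_lit 5) (nat_lit 31) (nat_lit 4) (nat_lit 29) (nat_lit 4) (nat_lit 431) (nat_lit 397) (nat_lit 372)) (XT.lf (nat_lit 0) (nat_lit 1938900371) (nat_lit 152) (nat_lit 8578778821) (nat_lit 76) (nat_lit 6553947625) (nat_lit 27) (nat_lit 5) (nat_lit 29) (nat_lit 5) (nat_lit 28) (nat_lit 4) (nat_lit 432) (nat_lit 397) (nat_lit 371))))))))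
noncomputable def xc85 : XT := (XT.nd (nat_lit 1716) (nat_lit 684) (nat_lit 0) (XT.nd (nat_lit 858) (nat_lit 532) (nat_lit 0) (XT.nd (nat_lit 390) (nat_lit 380) (nat_lit 0) (XT.nd (nat_lit 156) (nat_lit 228) (nat_lit 0) (XT.nd (nat_lit 78) (nat_lit 0) (nat_lit 0) (XT.lf (nat_lit 0) (nat_lit 2157856552) (nat_lit 76) (nat_lit 5013104996) (nat_lit 152) (nat_lit 10772713567) (nat_lit 26) (nat_lit 5) (nat_lit 27) (nat_lit 5) (nat_lit 28) (nat_lit 4) (nat_lit 433) (nat_lit 397) (nat_lit 370)) (XT.lf (nat_lit 0) (nat_lit 12984406200) (nat_lit 152) (nat_lit 4841607688) (nat_lit 0) (nat_lit 1046464824) (nat_lit 26) (nat_lit 5) (nat_lit 28) (nat_lit 4) (nat_lit 26) (nat_lit 4) (nat_lit 434) (nat_lit 397) (nat_lit 369))) (XT.nd (nat_lit 78) (nat_lit 152) (nat_lit 0) (XT.lf (nat_lit 0) (nat_lit 7025593413) (nat_lit 76) (nat_lit 12443691133) (nat_lit 76) (nat_lit 389809070) (nat_lit 25) (nat_lit 4)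 (nat_lit 26) (nat_lit 5) (nat_lit 26) (nat_lit 4) (nat_lit 435) (nat_lit 397) (nat_lit 368)) (XT.nd (nat_lit 78) (nat_lit 76) (nat_lit 0) (XT.lf (nat_lit 0) (nat_lit 5314214504) (nat_lit 152) (nat_lit 1107668382) (nat_lit 76) (nat_lit 14488617430) (nat_lit 24) (nat_lit 5) (nat_lit 26) (nat_lit 5) (nat_lit 25) (nat_lit 4) (nat_lit 436) (nat_lit 397) (nat_lit 367)) (XT.lf (nat_lit 0) (nat_lit 11664085281) (nat_lit 152) (nat_lit 10052644440) (nat_lit 0) (nat_lit 311645464) (nat_lit 23) (nat_lit 5) (nat_lit 25) (nat_lit 4) (nat_lit 23) (nat_lit 4) (nat_lit 437) (nat_lit 397) (nat_lit 366))))) (XT.nd (nat_lit 234) (nat_lit 152) (nat_lit 0) (XT.nd (nat_lit 78) (nat_lit 152) (nat_lit 0) (XT.lf (nat_lit 0) (nat_lit 2743035828) (nat_lit 76) (nat_lit 15957994332) (nat_lit 76) (nat_lit 4520334648) (nat_lit 22) (nat_lit 4) (nat_lit 23) (nat_lit 5) (nat_lit 23) (nat_lit 4) (nat_lit 438) (nat_lit 397)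 (nat_lit 365)) (XT.nd (nat_lit 78) (nat_lit 76) (nat_lit 0) (XT.lf (nat_lit 0) (nat_lit 1899103947) (nat_lit 152) (nat_lit 7566430756) (nat_lit 76) (nat_lit 15025017273) (nat_lit 21) (nat_lit 5) (nat_lit 23) (nat_lit 5) (nat_lit 22) (nat_lit 4) (nat_lit 439) (nat_lit 397) (nat_lit 364)) (XT.lf (nat_lit 0) (nat_lit 6432332113) (nat_lit 76) (nat_lit 2232072395) (nat_lit 152) (nat_lit 17181364058) (nat_lit 20) (nat_lit 5) (nat_lit 21) (nat_lit 5) (nat_lit 22) (nat_lit 4) (nat_lit 440) (nat_lit 397) (nat_lit 363)))) (XT.nd (nat_lit 78) (nat_lit 152) (nat_lit 0) (XT.lf (nat_lit 0) (nat_lit 16239770721) (nat_lit 152) (nat_lit 5602139534) (nat_lit 0) (nat_lit 5445993366) (nat_lit 20) (nat_lit 5) (nat_lit 22) (nat_lit 4) (nat_lit 20) (nat_lit 4) (nat_lit 441) (nat_lit 397) (nat_lit 362)) (XT.nd (nat_lit 78) (nat_lit 76) (nat_lit 0) (XT.lf (nat_lit 0) (nat_lit 9596298724) (nat_lit 76) (nat_lit 15041771424)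 (nat_lit 76) (nat_lit 4189994860) (nat_lit 19) (nat_lit 4) (nat_lit 20) (nat_lit 5) (nat_lit 20) (nat_lit 4) (nat_lit 442) (nat_lit 397) (nat_lit 361)) (XT.lf (nat_lit 0) (nat_lit 3141389897) (nat_lit 152) (nat_lit 4371388548) (nat_lit 76) (nat_lit 22965637441) (nat_lit 18) (nat_lit 5) (nat_lit 20) (nat_lit 5) (nat_lit 19) (nat_lit 4) (nat_lit 443) (nat_lit 397) (nat_lit 360)))))) (XT.nd (nat_lit 390) (nat_lit 228) (nat_lit 0) (XT.nd (nat_lit 156) (nat_lit 228) (nat_lit 0) (XT.nd (nat_lit 78) (nat_lit 0) (nat_lit 0) (XT.lf (nat_lit 0) (nat_lit 11079888355) (nat_lit 152) (nat_lit 20216268023) (nat_lit 0) (nat_lit 936180477) (nat_lit 17) (nat_lit 5) (nat_lit 19) (nat_lit 4) (nat_lit 17) (nat_lit 4) (nat_lit 444) (nat_lit 397) (nat_lit 359)) (XT.lf (nat_lit 0) (nat_lit 19905281361) (nat_lit 152) (nat_lit 4482208398) (nat_lit 0) (nat_lit 9718942333) (nat_lit 17) (nat_lit 5) (nat_lit 19) (nat_lit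 4) (nat_lit 17) (nat_lit 4) (nat_lit 445) (nat_lit 397) (nat_lit 358))) (XT.nd (nat_lit 78) (nat_lit 152) (nat_lit 0) (XT.lf (nat_lit 0) (nat_lit 13042569436) (nat_lit 76) (nat_lit 16646747148) (nat_lit 76) (nat_lit 6420934833) (nat_lit 16) (nat_lit 4) (nat_lit 17) (nat_lit 5) (nat_lit 17) (nat_lit 4) (nat_lit 446) (nat_lit 397) (nat_lit 357)) (XT.nd (nat_lit 78) (nat_lit 76) (nat_lit 0) (XT.lf (nat_lit 0) (nat_lit 1947390254) (nat_lit 152) (nat_lit 6211789925) (nat_lit 76) (nat_lit 30106201934) (nat_lit 15) (nat_lit 5) (nat_lit 17) (nat_lit 5) (nat_lit 16) (nat_lit 4) (nat_lit 447) (nat_lit 397) (nat_lit 356)) (XT.lf (nat_lit 0) (nat_lit 10913378831) (nat_lit 152) (nat_lit 28264341943) (nat_lit 0) (nat_lit 1379856945) (nat_lit 14) (nat_lit 5) (nat_lit 16) (nat_lit 4) (nat_lit 14) (nat_lit 4) (nat_lit 448) (nat_lit 397) (nat_lit 355))))) (XT.nd (nat_lit 234) (nat_lit 152) (nat_lit 0) (XT.nd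 (nat_lit 78) (nat_lit 76) (nat_lit 0) (XT.lf (nat_lit 0) (nat_lit 20926688577) (nat_lit 152) (nat_lit 10715908301) (nat_lit 0) (nat_lit 11364152647) (nat_lit 14) (nat_lit 5) (nat_lit 16) (nat_lit 4) (nat_lit 14) (nat_lit 4) (nat_lit 449) (nat_lit 397) (nat_lit 354)) (XT.nd (nat_lit 78) (nat_lit 0) (nat_lit 0) (XT.lf (nat_lit 0) (nat_lit 8561006286) (nat_lit 76) (nat_lit 23333970074) (nat_lit 76) (nat_lit 13744569288) (nat_lit 13) (nat_lit 4) (nat_lit 14) (nat_lit 5) (nat_lit 14) (nat_lit 4) (nat_lit 450) (nat_lit 397) (nat_lit 353)) (XT.lf (nat_lit 0) (nat_lit 29888471339) (nat_lit 76) (nat_lit 14094689231) (nat_lit 76) (nat_lit 4480413579) (nat_lit 13) (nat_lit 4) (nat_lit 14) (nat_lit 5) (nat_lit 14) (nat_lit 4) (nat_lit 451) (nat_lit 397) (nat_lit 352)))) (XT.nd (nat_lit 78) (nat_lit 0) (nat_lit 0) (XT.lf (nat_lit 0) (nat_lit 1241779454) (nat_lit 76) (nat_lit 3988551021) (nat_lit 152)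 (nat_lit 46274020869) (nat_lit 11) (nat_lit 5) (nat_lit 12) (nat_lit 5) (nat_lit 13) (nat_lit 4) (nat_lit 452) (nat_lit 397) (nat_lit 351)) (XT.nd (nat_lit 78) (nat_lit 0) (nat_lit 0) (XT.lf (nat_lit 0) (nat_lit 16115660701) (nat_lit 152) (nat_lit 31439758948) (nat_lit 0) (nat_lit 7172480956) (nat_lit 11) (nat_lit 5) (nat_lit 13) (nat_lit 4) (nat_lit 11) (nat_lit 4) (nat_lit 453) (nat_lit 397) (nat_lit 350)) (XT.lf (nat_lit 0) (nat_lit 27931106059) (nat_lit 152) (nat_lit 11303844576) (nat_lit 0) (nat_lit 18969642545) (nat_lit 11) (nat_lit 5) (nat_lit 13) (nat_lit 4) (nat_lit 11) (nat_lit 4) (nat_lit 454) (nat_lit 397) (nat_lit 349))))))) (XT.nd (nat_lit 858) (nat_lit 228) (nat_lit 0) (XT.nd (nat_lit 390) (nat_lit 228) (nat_lit 0) (XT.nd (nat_lit 156) (nat_lit 152) (nat_lit 0) (XT.nd (nat_lit 78) (nat_lit 0) (nat_lit 0) (XT.lf (nat_lit 0) (nat_lit 10905981260) (nat_lit 76) (nat_lit 30007067107)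 (nat_lit 76) (nat_lit 21028674177) (nat_lit 10) (nat_lit 4) (nat_lit 11) (nat_lit 5) (nat_lit 11) (nat_lit 4) (nat_lit 455) (nat_lit 397) (nat_lit 348)) (XT.lf (nat_lit 0) (nat_lit 35455018976) (nat_lit 76) (nat_lit 19747671097) (nat_lit 76) (nat_lit 10753602781) (nat_lit 10) (nat_lit 4) (nat_lit 11) (nat_lit 5) (nat_lit 11) (nat_lit 4) (nat_lit 456) (nat_lit 397) (nat_lit 347))) (XT.nd (nat_lit 78) (nat_lit 76) (nat_lit 0) (XT.lf (nat_lit 0) (nat_lit 288364471) (nat_lit 152) (nat_lit 8408784460) (nat_lit 76) (nat_lit 61597255059) (nat_lit 9) (nat_lit 5) (nat_lit 11) (nat_lit 5) (nat_lit 10) (nat_lit 4) (nat_lit 457) (nat_lit 397) (nat_lit 346)) (XT.nd (nat_lit 78) (nat_lit 0) (nat_lit 0) (XT.lf (nat_lit 0) (nat_lit 12074086518) (nat_lit 152) (nat_lit 59127461588) (nat_lit 0) (nat_lit 3720362742) (nat_lit 8) (nat_lit 5) (nat_lit 10) (nat_lit 4) (nat_lit 8) (nat_lit 4) (nat_lit 458) (nat_lit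 397) (nat_lit 345)) (XT.lf (nat_lit 0) (nat_lit 25229434262) (nat_lit 152) (nat_lit 37791855505) (nat_lit 0) (nat_lit 16864188610) (nat_lit 8) (nat_lit 5) (nat_lit 10) (nat_lit 4) (nat_lit 8) (nat_lit 4) (nat_lit 459) (nat_lit 397) (nat_lit 344))))) (XT.nd (nat_lit 234) (nat_lit 152) (nat_lit 0) (XT.nd (nat_lit 78) (nat_lit 76) (nat_lit 0) (XT.lf (nat_lit 0) (nat_lit 39404788693) (nat_lit 152) (nat_lit 14815063111) (nat_lit 0) (nat_lit 31028874637) (nat_lit 8) (nat_lit 5) (nat_lit 10) (nat_lit 4) (nat_lit 8) (nat_lit 4) (nat_lit 460) (nat_lit 397) (nat_lit 343)) (XT.nd (nat_lit 78) (nat_lit 0) (nat_lit 0) (XT.lf (nat_lit 0) (nat_lit 10462448403) (nat_lit 76) (nat_lit 44473325642) (nat_lit 76) (nat_lit 36087533434) (nat_lit 7) (nat_lit 4) (nat_lit 8) (nat_lit 5) (nat_lit 8) (nat_lit 4) (nat_lit 461) (nat_lit 397) (nat_lit 342)) (XT.lf (nat_lit 0) (nat_lit 38545447491) (nat_lit 76) (nat_lit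 33539639735) (nat_lit 76) (nat_lit 25144701090) (nat_lit 7) (nat_lit 4) (nat_lit 8) (nat_lit 5) (nat_lit 8) (nat_lit 4) (nat_lit 462) (nat_lit 397) (nat_lit 341)))) (XT.nd (nat_lit 78) (nat_lit 152) (nat_lit 0) (XT.lf (nat_lit 0) (nat_lit 68820216957) (nat_lit 76) (nat_lit 21759071950) (nat_lit 76) (nat_lit 13355664383) (nat_lit 7) (nat_lit 4) (nat_lit 8) (nat_lit 5) (nat_lit 8) (nat_lit 4) (nat_lit 463) (nat_lit 397) (nat_lit 340)) (XT.nd (nat_lit 78) (nat_lit 152) (nat_lit 0) (XT.lf (nat_lit 0) (nat_lit 101466162842) (nat_lit 76) (nat_lit 9061811516) (nat_lit 76) (nat_lit 650562353) (nat_lit 7) (nat_lit 4) (nat_lit 8) (nat_lit 5) (nat_lit 8) (nat_lit 4) (nat_lit 464) (nat_lit 397) (nat_lit 339)) (XT.lf (nat_lit 0) (nat_lit 12963620933) (nat_lit 152) (nat_lit 100800411105) (nat_lit 0) (nat_lit 5168704359) (nat_lit 5) (nat_lit 5) (nat_lit 7) (nat_lit 4) (nat_lit 5) (nat_lit 4) (nat_lit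 465) (nat_lit 397) (nat_lit 338)))))) (XT.nd (nat_lit 468) (nat_lit 152) (nat_lit 0) (XT.nd (nat_lit 234) (nat_lit 76) (nat_lit 0) (XT.nd (nat_lit 78) (nat_lit 0) (nat_lit 0) (XT.lf (nat_lit 0) (nat_lit 28115870238) (nat_lit 152) (nat_lit 78836595802) (nat_lit 0) (nat_lit 20314728753) (nat_lit 5) (nat_lit 5) (nat_lit 7) (nat_lit 4) (nat_lit 5) (nat_lit 4) (nat_lit 466) (nat_lit 397) (nat_lit 337)) (XT.nd (nat_lit 78) (nat_lit 0) (nat_lit 0) (XT.lf (nat_lit 0) (nat_lit 44458314194) (nat_lit 152) (nat_lit 55160446364) (nat_lit 0) (nat_lit 36651408903) (nat_lit 5) (nat_lit 5) (nat_lit 7) (nat_lit 4) (nat_lit 5) (nat_lit 4) (nat_lit 467) (nat_lit 397) (nat_lit 336)) (XT.lf (nat_lit 0) (nat_lit 62087796916) (nat_lit 152) (nat_lit 29631659684) (nat_lit 0) (nat_lit 54275554766) (nat_lit 5) (nat_lit 5) (nat_lit 7) (nat_lit 4) (nat_lit 5) (nat_lit 4) (nat_lit 468) (nat_lit 397) (nat_lit 335))))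 (XT.nd (nat_lit 78) (nat_lit 76) (nat_lit 0) (XT.lf (nat_lit 0) (nat_lit 81108789410) (nat_lit 152) (nat_lit 2098954062) (nat_lit 0) (nat_lit 73291605725) (nat_lit 5) (nat_lit 5) (nat_lit 7) (nat_lit 4) (nat_lit 5) (nat_lit 4) (nat_lit 469) (nat_lit 397) (nat_lit 334)) (XT.nd (nat_lit 78) (nat_lit 0) (nat_lit 0) (XT.lf (nat_lit 0) (nat_lit 29054237927) (nat_lit 76) (nat_lit 73278525864) (nat_lit 76) (nat_lit 65456766684) (nat_lit 4) (nat_lit 4) (nat_lit 5) (nat_lit 5) (nat_lit 5) (nat_lit 4) (nat_lit 470) (nat_lit 397) (nat_lit 333)) (XT.lf (nat_lit 0) (nat_lit 62784413683) (nat_lit 76) (nat_lit 62510638601) (nat_lit 76) (nat_lit 54684642850) (nat_lit 4) (nat_lit 4) (nat_lit 5) (nat_lit 5) (nat_lit 5) (nat_lit 4) (nat_lit 471) (nat_lit 397) (nat_lit 332))))) (XT.nd (nat_lit 234) (nat_lit 152) (nat_lit 0) (XT.nd (nat_lit 78) (nat_lit 0) (nat_lit 0) (XT.lf (nat_lit 0) (nat_lit 99180928530)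 (nat_lit 76) (nat_lit 50897661103) (nat_lit 76) (nat_lit 43067742602) (nat_lit 4) (nat_lit 4) (nat_lit 5) (nat_lit 5) (nat_lit 5) (nat_lit 4) (nat_lit 472) (nat_lit 397) (nat_lit 331)) (XT.nd (nat_lit 78) (nat_lit 0) (nat_lit 0) (XT.lf (nat_lit 0) (nat_lit 138459465517) (nat_lit 76) (nat_lit 38370775726) (nat_lit 76) (nat_lit 30537225050) (nat_lit 4) (nat_lit 4) (nat_lit 5) (nat_lit 5) (nat_lit 5) (nat_lit 4) (nat_lit 473) (nat_lit 397) (nat_lit 330)) (XT.lf (nat_lit 0) (nat_lit 180852786344) (nat_lit 76) (nat_lit 24855749076) (nat_lit 76) (nat_lit 17018835274) (nat_lit 4) (nat_lit 4) (nat_lit 5) (nat_lit 5) (nat_lit 5) (nat_lit 4) (nat_lit 474) (nat_lit 397) (nat_lit 329)))) (XT.nd (nat_lit 78) (nat_lit 152) (nat_lit 0) (XT.lf (nat_lit 0) (nat_lit 226612110692) (nat_lit 76) (nat_lit 10272492105) (nat_lit 76) (nat_lit 2432464298) (nat_lit 4) (nat_lit 4) (nat_lit 5) (nat_lit 5) (nat_lit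 5) (nat_lit 4) (nat_lit 475) (nat_lit 397) (nat_lit 328)) (XT.nd (nat_lit 78) (nat_lit 0) (nat_lit 0) (XT.lf (nat_lit 0) (nat_lit 13261662248) (nat_lit 152) (nat_lit 237898363996) (nat_lit 0) (nat_lit 5999707483) (nat_lit 2) (nat_lit 5) (nat_lit 4) (nat_lit 4) (nat_lit 2) (nat_lit 4) (nat_lit 476) (nat_lit 397) (nat_lit 327)) (XT.lf (nat_lit 0) (nat_lit 30691275754) (nat_lit 152) (nat_lit 222257724960) (nat_lit 0) (nat_lit 23426848991) (nat_lit 2) (nat_lit 5) (nat_lit 4) (nat_lit 4) (nat_lit 2) (nat_lit 4) (nat_lit 477) (nat_lit 397) (nat_lit 326))))))))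
noncomputable def xc86 : XT := (XT.nd (nat_lit 1716) (nat_lit 0) (nat_lit 0) (XT.nd (nat_lit 858) (nat_lit 0) (nat_lit 0) (XT.nd (nat_lit 390) (nat_lit 76) (nat_lit 0) (XT.nd (nat_lit 156) (nat_lit 0) (nat_lit 0) (XT.nd (nat_lit 78) (nat_lit 0) (nat_lit 0) (XT.lf (nat_lit 0) (nat_lit 49504291984) (nat_lit 152) (nat_lit 205388264259) (nat_lit 0) (nat_lit 42237576335) (nat_lit 2) (nat_lit 5) (nat_lit 4) (nat_lit 4) (nat_lit 2) (nat_lit 4) (nat_lit 478) (nat_lit 397) (nat_lit 325)) (XT.lf (nat_lit 0) (nat_lit 69812195480) (nat_lit 152) (nat_lit 187190014721) (nat_lit 0) (nat_lit 62543360491) (nat_lit 2) (nat_lit 5) (nat_lit 4) (nat_lit 4) (nat_lit 2) (nat_lit 4) (nat_lit 479) (nat_lit 397) (nat_lit 324))) (XT.nd (nat_lit 78) (nat_lit 0) (nat_lit 0) (XT.lf (nat_lit 0) (nat_lit 91735329373) (nat_lit 152) (nat_lit 167555134865) (nat_lit 0) (nat_lit 84464532032) (nat_lit 2) (nat_lit 5) (nat_lit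 4) (nat_lit 4) (nat_lit 2) (nat_lit 4) (nat_lit 480) (nat_lit 397) (nat_lit 323)) (XT.nd (nat_lit 78) (nat_lit 0) (nat_lit 0) (XT.lf (nat_lit 0) (nat_lit 115403608530) (nat_lit 152) (nat_lit 146367269849) (nat_lit 0) (nat_lit 108130994197) (nat_lit 2) (nat_lit 5) (nat_lit 4) (nat_lit 4) (nat_lit 2) (nat_lit 4) (nat_lit 481) (nat_lit 397) (nat_lit 322)) (XT.lf (nat_lit 0) (nat_lit 140957289420) (nat_lit 152) (nat_lit 123500861953) (nat_lit 0) (nat_lit 133682992687) (nat_lit 2) (nat_lit 5) (nat_lit 4) (nat_lit 4) (nat_lit 2) (nat_lit 4) (nat_lit 482) (nat_lit 397) (nat_lit 321))))) (XT.nd (nat_lit 234) (nat_lit 76) (nat_lit 0) (XT.nd (nat_lit 78) (nat_lit 0) (nat_lit 0) (XT.lf (nat_lit 0) (nat_lit 168547801264) (nat_lit 152) (nat_lit 98820406539) (nat_lit 0) (nat_lit 161271946753) (nat_lit 2) (nat_lit 5) (nat_lit 4) (nat_lit 4) (nat_lit 2) (nat_lit 4) (nat_lit 483) (nat_lit 397) (nat_lit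 320)) (XT.nd (nat_lit 78) (nat_lit 0) (nat_lit 0) (XT.lf (nat_lit 0) (nat_lit 198338643391) (nat_lit 152) (nat_lit 72179649055) (nat_lit 0) (nat_lit 191061346493) (nat_lit 2) (nat_lit 5) (nat_lit 4) (nat_lit 4) (nat_lit 2) (nat_lit 4) (nat_lit 484) (nat_lit 397) (nat_lit 319)) (XT.lf (nat_lit 0) (nat_lit 230506354125) (nat_lit 152) (nat_lit 43420718347) (nat_lit 0) (nat_lit 223227721683) (nat_lit 2) (nat_lit 5) (nat_lit 4) (nat_lit 4) (nat_lit 2) (nat_lit 4) (nat_lit 485) (nat_lit 397) (nat_lit 318)))) (XT.nd (nat_lit 78) (nat_lit 76) (nat_lit 0) (XT.lf (nat_lit 0) (nat_lit 265241556937) (nat_lit 152) (nat_lit 12373191120) (nat_lit 0) (nat_lit 257961687881) (nat_lit 2) (nat_lit 5) (nat_lit 4) (nat_lit 4) (nat_lit 2) (nat_lit 4) (nat_lit 486) (nat_lit 397) (nat_lit 317)) (XT.nd (nat_lit 78) (nat_lit 0) (nat_lit 0) (XT.lf (nat_lit 0) (nat_lit 22260477194) (nat_lit 76) (nat_lit 281024977883)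 (nat_lit 76) (nat_lit 273743963813) (nat_lit 1) (nat_lit 4) (nat_lit 2) (nat_lit 5) (nat_lit 2) (nat_lit 4) (nat_lit 487) (nat_lit 397) (nat_lit 316)) (XT.lf (nat_lit 0) (nat_lit 60357577062) (nat_lit 76) (nat_lit 284348250417) (nat_lit 76) (nat_lit 277066176150) (nat_lit 1) (nat_lit 4) (nat_lit 2) (nat_lit 5) (nat_lit 2) (nat_lit 4) (nat_lit 488) (nat_lit 397) (nat_lit 315)))))) (XT.nd (nat_lit 390) (nat_lit 0) (nat_lit 0) (XT.nd (nat_lit 156) (nat_lit 0) (nat_lit 0) (XT.nd (nat_lit 78) (nat_lit 0) (nat_lit 0) (XT.lf (nat_lit 0) (nat_lit 101492318757) (nat_lit 76) (nat_lit 287942564099) (nat_lit 76) (nat_lit 280659508168) (nat_lit 1) (nat_lit 4) (nat_lit 2) (nat_lit 5) (nat_lit 2) (nat_lit 4) (nat_lit 489) (nat_lit 397) (nat_lit 314)) (XT.lf (nat_lit 0) (nat_lit 145908463712) (nat_lit 76) (nat_lit 291829218566) (nat_lit 76) (nat_lit 284545253687) (nat_lit 1) (nat_lit 4) (nat_lit 2) (nat_lit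 5) (nat_lit 2) (nat_lit 4) (nat_lit 490) (nat_lit 397) (nat_lit 313))) (XT.nd (nat_lit 78) (nat_lit 0) (nat_lit 0) (XT.lf (nat_lit 0) (nat_lit 193869218711) (nat_lit 76) (nat_lit 296031245845) (nat_lit 76) (nat_lit 288746439346) (nat_lit 1) (nat_lit 4) (nat_lit 2) (nat_lit 5) (nat_lit 2) (nat_lit 4) (nat_lit 491) (nat_lit 397) (nat_lit 312)) (XT.nd (nat_lit 78) (nat_lit 0) (nat_lit 0) (XT.lf (nat_lit 0) (nat_lit 245658795636) (nat_lit 76) (nat_lit 300573546838) (nat_lit 76) (nat_lit 293287961062) (nat_lit 1) (nat_lit 4) (nat_lit 2) (nat_lit 5) (nat_lit 2) (nat_lit 4) (nat_lit 492) (nat_lit 397) (nat_lit 311)) (XT.lf (nat_lit 0) (nat_lit 301584095683) (nat_lit 76) (nat_lit 305483038883) (nat_lit 76) (nat_lit 298196731555) (nat_lit 1) (nat_lit 4) (nat_lit 2) (nat_lit 5) (nat_lit 2) (nat_lit 4) (nat_lit 493) (nat_lit 397) (nat_lit 310))))) (XT.nd (nat_lit 234) (nat_lit 0) (nat_lit 0) (XT.nd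 (nat_lit 78) (nat_lit 0) (nat_lit 0) (XT.lf (nat_lit 0) (nat_lit 361976528039) (nat_lit 76) (nat_lit 310788815268) (nat_lit 76) (nat_lit 303501839836) (nat_lit 1) (nat_lit 4) (nat_lit 2) (nat_lit 5) (nat_lit 2) (nat_lit 4) (nat_lit 494) (nat_lit 397) (nat_lit 309)) (XT.nd (nat_lit 78) (nat_lit 0) (nat_lit 0) (XT.lf (nat_lit 0) (nat_lit 427193973783) (nat_lit 76) (nat_lit 316522317630) (nat_lit 76) (nat_lit 309234723583) (nat_lit 1) (nat_lit 4) (nat_lit 2) (nat_lit 5) (nat_lit 2) (nat_lit 4) (nat_lit 495) (nat_lit 397) (nat_lit 308)) (XT.lf (nat_lit 0) (nat_lit 497622906668) (nat_lit 76) (nat_lit 322717522280) (nat_lit 76) (nat_lit 315429355440) (nat_lit 1) (nat_lit 4) (nat_lit 2) (nat_lit 5) (nat_lit 2) (nat_lit 4) (nat_lit 496) (nat_lit 397) (nat_lit 307)))) (XT.nd (nat_lit 78) (nat_lit 0) (nat_lit 0) (XT.lf (nat_lit 0) (nat_lit 573680683334) (nat_lit 76) (nat_lit 329411141540) (nat_lit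 76) (nat_lit 322122444338) (nat_lit 1) (nat_lit 4) (nat_lit 2) (nat_lit 5) (nat_lit 2) (nat_lit 4) (nat_lit 497) (nat_lit 397) (nat_lit 306)) (XT.nd (nat_lit 78) (nat_lit 0) (nat_lit 0) (XT.lf (nat_lit 0) (nat_lit 655818016531) (nat_lit 76) (nat_lit 336642841304) (nat_lit 76) (nat_lit 329353653026) (nat_lit 1) (nat_lit 4) (nat_lit 2) (nat_lit 5) (nat_lit 2) (nat_lit 4) (nat_lit 498) (nat_lit 397) (nat_lit 305)) (XT.lf (nat_lit 0) (nat_lit 744521646011) (nat_lit 76) (nat_lit 344455476088) (nat_lit 76) (nat_lit 337165833109) (nat_lit 1) (nat_lit 4) (nat_lit 2) (nat_lit 5) (nat_lit 2) (nat_lit 4) (nat_lit 499) (nat_lit 397) (nat_lit 304))))))) (XT.nd (nat_lit 858) (nat_lit 0) (nat_lit 0) (XT.nd (nat_lit 390) (nat_lit 0) (nat_lit 0) (XT.nd (nat_lit 156) (nat_lit 0) (nat_lit 0) (XT.nd (nat_lit 78) (nat_lit 0) (nat_lit 0) (XT.lf (nat_lit 0) (nat_lit 840317222912) (nat_lit 76) (nat_lit 352895342988)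 (nat_lit 76) (nat_lit 345605278989) (nat_lit 1) (nat_lit 4) (nat_lit 2) (nat_lit 5) (nat_lit 2) (nat_lit 4) (nat_lit 500) (nat_lit 397) (nat_lit 303)) (XT.lf (nat_lit 0) (nat_lit 943772424727) (nat_lit 76) (nat_lit 362012456028) (nat_lit 76) (nat_lit 354722002198) (nat_lit 1) (nat_lit 4) (nat_lit 2) (nat_lit 5) (nat_lit 2) (nat_lit 4) (nat_lit 501) (nat_lit 397) (nat_lit 302))) (XT.nd (nat_lit 78) (nat_lit 0) (nat_lit 0) (XT.lf (nat_lit 0) (nat_lit 1055500319318) (nat_lit 76) (nat_lit 371860842547) (nat_lit 76) (nat_lit 364570027760) (nat_lit 1) (nat_lit 4) (nat_lit 2) (nat_lit 5) (nat_lit 2) (nat_lit 4) (nat_lit 502) (nat_lit 397) (nat_lit 301)) (XT.nd (nat_lit 78) (nat_lit 0) (nat_lit 0) (XT.lf (nat_lit 0) (nat_lit 1176162997913) (nat_lit 76) (nat_lit 382498863352) (nat_lit 76) (nat_lit 375207714347) (nat_lit 1) (nat_lit 4) (nat_lit 2) (nat_lit 5) (nat_lit 2) (nat_lit 4) (nat_lit 503)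 (nat_lit 397) (nat_lit 300)) (XT.lf (nat_lit 0) (nat_lit 1306475498606) (nat_lit 76) (nat_lit 393989558568) (nat_lit 76) (nat_lit 386698100101) (nat_lit 1) (nat_lit 4) (nat_lit 2) (nat_lit 5) (nat_lit 2) (nat_lit 4) (nat_lit 504) (nat_lit 397) (nat_lit 299))))) (XT.nd (nat_lit 234) (nat_lit 0) (nat_lit 0) (XT.nd (nat_lit 78) (nat_lit 0) (nat_lit 0) (XT.lf (nat_lit 0) (nat_lit 1447210043625) (nat_lit 76) (nat_lit 406401021202) (nat_lit 76) (nat_lit 399109276197) (nat_lit 1) (nat_lit 4) (nat_lit 2) (nat_lit 5) (nat_lit 2) (nat_lit 4) (nat_lit 505) (nat_lit 397) (nat_lit 298)) (XT.nd (nat_lit 78) (nat_lit 0) (nat_lit 0) (XT.lf (nat_lit 0) (nat_lit 1599200615459) (nat_lit 76) (nat_lit 419806800664) (nat_lit 76) (nat_lit 412514790345) (nat_lit 1) (nat_lit 4) (nat_lit 2) (nat_lit 5) (nat_lit 2) (nat_lit 4) (nat_lit 506) (nat_lit 397) (nat_lit 297)) (XT.lf (nat_lit 0) (nat_lit 1763347898976) (nat_lit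 76) (nat_lit 434286338609) (nat_lit 76) (nat_lit 426994082630) (nat_lit 1) (nat_lit 4) (nat_lit 2) (nat_lit 5) (nat_lit 2) (nat_lit 4) (nat_lit 507) (nat_lit 397) (nat_lit 296)))) (XT.nd (nat_lit 78) (nat_lit 0) (nat_lit 0) (XT.lf (nat_lit 0) (nat_lit 1940624618822) (nat_lit 76) (nat_lit 449925439706) (nat_lit 76) (nat_lit 442632956263) (nat_lit 1) (nat_lit 4) (nat_lit 2) (nat_lit 5) (nat_lit 2) (nat_lit 4) (nat_lit 508) (nat_lit 397) (nat_lit 295)) (XT.nd (nat_lit 78) (nat_lit 0) (nat_lit 0) (XT.lf (nat_lit 0) (nat_lit 2132081303704) (nat_lit 76) (nat_lit 466816780110) (nat_lit 76) (nat_lit 459524086053) (nat_lit 1) (nat_lit 4) (nat_lit 2) (nat_lit 5) (nat_lit 2) (nat_lit 4) (nat_lit 509) (nat_lit 397) (nat_lit 294)) (XT.lf (nat_lit 0) (nat_lit 2338852511758) (nat_lit 76) (nat_lit 485060456653) (nat_lit 76) (nat_lit 477767567583) (nat_lit 1) (nat_lit 4) (nat_lit 2) (nat_lit 5) (nat_lit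 2) (nat_lit 4) (nat_lit 510) (nat_lit 397) (nat_lit 293)))))) (XT.nd (nat_lit 468) (nat_lit 0) (nat_lit 0) (XT.nd (nat_lit 234) (nat_lit 0) (nat_lit 0) (XT.nd (nat_lit 78) (nat_lit 0) (nat_lit 0) (XT.lf (nat_lit 0) (nat_lit 2562163553844) (nat_lit 76) (nat_lit 504764580012) (nat_lit 76) (nat_lit 497471510374) (nat_lit 1) (nat_lit 4) (nat_lit 2) (nat_lit 5) (nat_lit 2) (nat_lit 4) (nat_lit 511) (nat_lit 397) (nat_lit 292)) (XT.nd (nat_lit 78) (nat_lit 0) (nat_lit 0) (XT.lf (nat_lit 0) (nat_lit 2803337754656) (nat_lit 76) (nat_lit 526045915360) (nat_lit 76) (nat_lit 518752678530) (nat_lit 1) (nat_lit 4) (nat_lit 2) (nat_lit 5) (nat_lit 2) (nat_lit 4) (nat_lit 512) (nat_lit 397) (nat_lit 291)) (XT.lf (nat_lit 0) (nat_lit 3063804294645) (nat_lit 76) (nat_lit 549030574316) (nat_lit 76) (nat_lit 541737182678) (nat_lit 1) (nat_lit 4) (nat_lit 2) (nat_lit 5) (nat_lit 2) (nat_lit 4) (nat_lit 513)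 (nat_lit 397) (nat_lit 290)))) (XT.nd (nat_lit 78) (nat_lit 0) (nat_lit 0) (XT.lf (nat_lit 0) (nat_lit 3345106679232) (nat_lit 76) (nat_lit 573854762266) (nat_lit 76) (nat_lit 566561227287) (nat_lit 1) (nat_lit 4) (nat_lit 2) (nat_lit 5) (nat_lit 2) (nat_lit 4) (nat_lit 514) (nat_lit 397) (nat_lit 289)) (XT.nd (nat_lit 78) (nat_lit 0) (nat_lit 0) (XT.lf (nat_lit 0) (nat_lit 3648911885510) (nat_lit 76) (nat_lit 600665585508) (nat_lit 76) (nat_lit 593371917806) (nat_lit 1) (nat_lit 4) (nat_lit 2) (nat_lit 5) (nat_lit 2) (nat_lit 4) (nat_lit 515) (nat_lit 397) (nat_lit 288)) (XT.lf (nat_lit 0) (nat_lit 3977020240629) (nat_lit 76) (nat_lit 629621922995) (nat_lit 76) (nat_lit 622328132402) (nat_lit 1) (nat_lit 4) (nat_lit 2) (nat_lit 5) (nat_lit 2) (nat_lit 4) (nat_lit 516) (nat_lit 397) (nat_lit 287))))) (XT.nd (nat_lit 234) (nat_lit 0) (nat_lit 0) (XT.nd (nat_lit 78) (nat_lit 0) (nat_lit 0)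 (XT.lf (nat_lit 0) (nat_lit 4331376090397) (nat_lit 76) (nat_lit 660895367839) (nat_lit 76) (nat_lit 653601463458) (nat_lit 1) (nat_lit 4) (nat_lit 2) (nat_lit 5) (nat_lit 2) (nat_lit 4) (nat_lit 517) (nat_lit 397) (nat_lit 286)) (XT.nd (nat_lit 78) (nat_lit 0) (nat_lit 0) (XT.lf (nat_lit 0) (nat_lit 4714079321330) (nat_lit 76) (nat_lit 694671244156) (nat_lit 76) (nat_lit 687377234415) (nat_lit 1) (nat_lit 4) (nat_lit 2) (nat_lit 5) (nat_lit 2) (nat_lit 4) (nat_lit 518) (nat_lit 397) (nat_lit 285)) (XT.lf (nat_lit 0) (nat_lit 5127397804426) (nat_lit 76) (nat_lit 731149705289) (nat_lit 76) (nat_lit 723855597993) (nat_lit 1) (nat_lit 4) (nat_lit 2) (nat_lit 5) (nat_lit 2) (nat_lit 4) (nat_lit 519) (nat_lit 397) (nat_lit 284)))) (XT.nd (nat_lit 78) (nat_lit 0) (nat_lit 0) (XT.lf (nat_lit 0) (nat_lit 5573780834401) (nat_lit 76) (nat_lit 770546919895) (nat_lit 76) (nat_lit 763252722270) (nat_lit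 1) (nat_lit 4) (nat_lit 2) (nat_lit 5) (nat_lit 2) (nat_lit 4) (nat_lit 520) (nat_lit 397) (nat_lit 283)) (XT.nd (nat_lit 78) (nat_lit 0) (nat_lit 0) (XT.lf (nat_lit 0) (nat_lit 6055873644024) (nat_lit 76) (nat_lit 813096352950) (nat_lit 76) (nat_lit 805802071687) (nat_lit 1) (nat_lit 4) (nat_lit 2) (nat_lit 5) (nat_lit 2) (nat_lit 4) (nat_lit 521) (nat_lit 397) (nat_lit 282)) (XT.lf (nat_lit 0) (nat_lit 6576533079575) (nat_lit 76) (nat_lit 859050149242) (nat_lit 76) (nat_lit 851755790536) (nat_lit 1) (nat_lit 4) (nat_lit 2) (nat_lit 5) (nat_lit 2) (nat_lit 4) (nat_lit 522) (nat_lit 397) (nat_lit 281))))))))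
noncomputable def xc87 : XT := (XT.nd (nat_lit 54444) (nat_lit 0) (nat_lit 1444) (XT.nd (nat_lit 53586) (nat_lit 0) (nat_lit 3420) (XT.nd (nat_lit 390) (nat_lit 0) (nat_lit 0) (XT.nd (nat_lit 156) (nat_lit 0) (nat_lit 0) (XT.nd (nat_lit 78) (nat_lit 0) (nat_lit 0) (XT.lf (nat_lit 0) (nat_lit 7138844530302) (nat_lit 76) (nat_lit 908680627564) (nat_lit 76) (nat_lit 901386197153) (nat_lit 1) (nat_lit 4) (nat_lit 2) (nat_lit 5) (nat_lit 2) (nat_lit 4) (nat_lit 523) (nat_lit 397) (nat_lit 280)) (XT.lf (nat_lit 0) (nat_lit 7746140212208) (nat_lit 76) (nat_lit 962281894455) (nat_lit 76) (nat_lit 954987397649) (nat_lit 1) (nat_lit 4) (nat_lit 2) (nat_lit 5) (nat_lit 2) (nat_lit 4) (nat_lit 524) (nat_lit 397) (nat_lit 279))) (XT.nd (nat_lit 78) (nat_lit 0) (nat_lit 0) (XT.lf (nat_lit 0) (nat_lit 8402018914520) (nat_lit 76) (nat_lit 1020171587052) (nat_lit 76) (nat_lit 1012877028770) (nat_lit 1)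 (nat_lit 4) (nat_lit 2) (nat_lit 5) (nat_lit 2) (nat_lit 4) (nat_lit 525) (nat_lit 397) (nat_lit 278)) (XT.nd (nat_lit 78) (nat_lit 0) (nat_lit 0) (XT.lf (nat_lit 0) (nat_lit 9110367325845) (nat_lit 76) (nat_lit 1082692755384) (nat_lit 76) (nat_lit 1075398140180) (nat_lit 1) (nat_lit 4) (nat_lit 2) (nat_lit 5) (nat_lit 2) (nat_lit 4) (nat_lit 526) (nat_lit 397) (nat_lit 277)) (XT.lf (nat_lit 0) (nat_lit 9875383066396) (nat_lit 76) (nat_lit 1150215895265) (nat_lit 76) (nat_lit 1142921227354) (nat_lit 1) (nat_lit 4) (nat_lit 2) (nat_lit 5) (nat_lit 2) (nat_lit 4) (nat_lit 527) (nat_lit 397) (nat_lit 276))))) (XT.nd (nat_lit 52962) (nat_lit 0) (nat_lit 6004) (XT.nd (nat_lit 52806) (nat_lit 0) (nat_lit 6612) (XT.lf (nat_lit 0) (nat_lit 10701599562786) (nat_lit 76) (nat_lit 1223141143819) (nat_lit 76) (nat_lit 1215846427106) (nat_lit 1) (nat_lit 4) (nat_lit 2) (nat_lit 5) (nat_lit 2) (nat_lit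 4) (nat_lit 528) (nat_lit 397) (nat_lit 275)) (XT.nd (nat_lit 78) (nat_lit 0) (nat_lit 0) (XT.lf (nat_lit 0) (nat_lit 320120961) (nat_lit 228) (nat_lit 2637861149) (nat_lit 0) (nat_lit 320120961) (nat_lit 88) (nat_lit 5) (nat_lit 91) (nat_lit 4) (nat_lit 88) (nat_lit 4) (nat_lit 404) (nat_lit 398) (nat_lit 398)) (XT.lf (nat_lit 0) (nat_lit 3827596789) (nat_lit 228) (nat_lit 1299313633) (nat_lit 0) (nat_lit 1495415358) (nat_lit 88) (nat_lit 5) (nat_lit 91) (nat_lit 4) (nat_lit 88) (nat_lit 4) (nat_lit 405) (nat_lit 398) (nat_lit 397)))) (XT.nd (nat_lit 78) (nat_lit 304) (nat_lit 0) (XT.lf (nat_lit 0) (nat_lit 336450377) (nat_lit 304) (nat_lit 3791791897) (nat_lit 76) (nat_lit 2581528763) (nat_lit 84) (nat_lit 5) (nat_lit 88) (nat_lit 5) (nat_lit 85) (nat_lit 4) (nat_lit 406) (nat_lit 398) (nat_lit 396)) (XT.nd (nat_lit 78) (nat_lit 0) (nat_lit 0) (XT.lf (nat_lit 0) (nat_lit 471915271) (nat_lit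 304) (nat_lit 2875677820) (nat_lit 380) (nat_lit 3468625244) (nat_lit 80) (nat_lit 5) (nat_lit 84) (nat_lit 5) (nat_lit 85) (nat_lit 4) (nat_lit 407) (nat_lit 398) (nat_lit 395)) (XT.lf (nat_lit 0) (nat_lit 5074658878) (nat_lit 304) (nat_lit 1375869030) (nat_lit 380) (nat_lit 492813127) (nat_lit 80) (nat_lit 5) (nat_lit 84) (nat_lit 5) (nat_lit 85) (nat_lit 4) (nat_lit 408) (nat_lit 398) (nat_lit 394)))))) (XT.nd (nat_lit 390) (nat_lit 912) (nat_lit 0) (XT.nd (nat_lit 156) (nat_lit 760) (nat_lit 0) (XT.nd (nat_lit 78) (nat_lit 456) (nat_lit 0) (XT.lf (nat_lit 0) (nat_lit 2422545062) (nat_lit 456) (nat_lit 4272830478) (nat_lit 76) (nat_lit 393213321) (nat_lit 74) (nat_lit 5) (nat_lit 80) (nat_lit 5) (nat_lit 75) (nat_lit 4) (nat_lit 409) (nat_lit 398) (nat_lit 393)) (XT.lf (nat_lit 0) (nat_lit 486494072) (nat_lit 456) (nat_lit 4930759861) (nat_lit 532) (nat_lit 1837542722) (nat_lit 68) (nat_lit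 5) (nat_lit 74) (nat_lit 5) (nat_lit 75) (nat_lit 4) (nat_lit 410) (nat_lit 398) (nat_lit 392))) (XT.nd (nat_lit 78) (nat_lit 684) (nat_lit 0) (XT.lf (nat_lit 0) (nat_lit 1054817710) (nat_lit 532) (nat_lit 1821584216) (nat_lit 76) (nat_lit 4563837214) (nat_lit 67) (nat_lit 5) (nat_lit 74) (nat_lit 5) (nat_lit 68) (nat_lit 5) (nat_lit 411) (nat_lit 398) (nat_lit 391)) (XT.nd (nat_lit 78) (nat_lit 228) (nat_lit 0) (XT.lf (nat_lit 0) (nat_lit 3428069482) (nat_lit 456) (nat_lit 528676175) (nat_lit 532) (nat_lit 3689902791) (nat_lit 61) (nat_lit 5) (nat_lit 67) (nat_lit 5) (nat_lit 68) (nat_lit 5) (nat_lit 412) (nat_lit 398) (nat_lit 390)) (XT.lf (nat_lit 0) (nat_lit 1115535733) (nat_lit 228) (nat_lit 5906212210) (nat_lit 304) (nat_lit 853484128) (nat_lit 58) (nat_lit 5) (nat_lit 61) (nat_lit 5) (nat_lit 62) (nat_lit 4) (nat_lit 413) (nat_lit 398) (nat_lit 389))))) (XT.nd (nat_lit 234) (nat_lit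 456) (nat_lit 0) (XT.nd (nat_lit 78) (nat_lit 380) (nat_lit 0) (XT.lf (nat_lit 0) (nat_lit 2040305104) (nat_lit 304) (nat_lit 1297314428) (nat_lit 76) (nat_lit 4785066784) (nat_lit 57) (nat_lit 5) (nat_lit 61) (nat_lit 5) (nat_lit 58) (nat_lit 5) (nat_lit 414) (nat_lit 398) (nat_lit 388)) (XT.nd (nat_lit 78) (nat_lit 152) (nat_lit 0) (XT.lf (nat_lit 0) (nat_lit 4596044242) (nat_lit 228) (nat_lit 457062545) (nat_lit 304) (nat_lit 3340474380) (nat_lit 54) (nat_lit 5) (nat_lit 57) (nat_lit 5) (nat_lit 58) (nat_lit 5) (nat_lit 415) (nat_lit 398) (nat_lit 387)) (XT.lf (nat_lit 0) (nat_lit 2174361860) (nat_lit 152) (nat_lit 6115311859) (nat_lit 228) (nat_lit 397953957) (nat_lit 52) (nat_lit 5) (nat_lit 54) (nat_lit 5) (nat_lit 55) (nat_lit 4) (nat_lit 416) (nat_lit 398) (nat_lit 386)))) (XT.nd (nat_lit 78) (nat_lit 380) (nat_lit 0) (XT.lf (nat_lit 0) (nat_lit 2592621262) (nat_lit 228) (nat_lit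 462604913) (nat_lit 76) (nat_lit 5948570779) (nat_lit 51) (nat_lit 5) (nat_lit 54) (nat_lit 5) (nat_lit 52) (nat_lit 5) (nat_lit 417) (nat_lit 398) (nat_lit 385)) (XT.nd (nat_lit 78) (nat_lit 152) (nat_lit 0) (XT.lf (nat_lit 0) (nat_lit 5803653363) (nat_lit 304) (nat_lit 3191458279) (nat_lit 76) (nat_lit 349183233) (nat_lit 48) (nat_lit 5) (nat_lit 52) (nat_lit 5) (nat_lit 49) (nat_lit 4) (nat_lit 418) (nat_lit 398) (nat_lit 384)) (XT.lf (nat_lit 0) (nat_lit 3494969242) (nat_lit 152) (nat_lit 5803902226) (nat_lit 228) (nat_lit 411049919) (nat_lit 46) (nat_lit 5) (nat_lit 48) (nat_lit 5) (nat_lit 49) (nat_lit 4) (nat_lit 419) (nat_lit 398) (nat_lit 383))))))) (XT.nd (nat_lit 858) (nat_lit 760) (nat_lit 0) (XT.nd (nat_lit 390) (nat_lit 608) (nat_lit 0) (XT.nd (nat_lit 156) (nat_lit 380) (nat_lit 0) (XT.nd (nat_lit 78) (nat_lit 0) (nat_lit 0) (XT.lf (nat_lit 0) (nat_lit 537850162) (nat_lit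 152) (nat_lit 2238191155) (nat_lit 228) (nat_lit 7326655199) (nat_lit 43) (nat_lit 5) (nat_lit 45) (nat_lit 5) (nat_lit 46) (nat_lit 5) (nat_lit 420) (nat_lit 398) (nat_lit 382)) (XT.lf (nat_lit 0) (nat_lit 6266376729) (nat_lit 228) (nat_lit 2602458006) (nat_lit 76) (nat_lit 1651624025) (nat_lit 43) (nat_lit 5) (nat_lit 46) (nat_lit 5) (nat_lit 44) (nat_lit 4) (nat_lit 421) (nat_lit 398) (nat_lit 381))) (XT.nd (nat_lit 78) (nat_lit 228) (nat_lit 0) (XT.lf (nat_lit 0) (nat_lit 4900593931) (nat_lit 152) (nat_lit 5179260958) (nat_lit 228) (nat_lit 888327502) (nat_lit 41) (nat_lit 5) (nat_lit 43) (nat_lit 5) (nat_lit 44) (nat_lit 4) (nat_lit 422) (nat_lit 398) (nat_lit 380)) (XT.nd (nat_lit 78) (nat_lit 0) (nat_lit 0) (XT.lf (nat_lit 0) (nat_lit 1508302500) (nat_lit 152) (nat_lit 1079854402) (nat_lit 228) (nat_lit 8860018806) (nat_lit 38) (nat_lit 5) (nat_lit 40) (nat_lit 5) (nat_lit 41) (nat_lit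 5) (nat_lit 423) (nat_lit 398) (nat_lit 379)) (XT.lf (nat_lit 0) (nat_lit 6418137496) (nat_lit 228) (nat_lit 2234064608) (nat_lit 76) (nat_lit 3302693511) (nat_lit 38) (nat_lit 5) (nat_lit 41) (nat_lit 5) (nat_lit 39) (nat_lit 4) (nat_lit 424) (nat_lit 398) (nat_lit 378))))) (XT.nd (nat_lit 234) (nat_lit 304) (nat_lit 0) (XT.nd (nat_lit 78) (nat_lit 228) (nat_lit 0) (XT.lf (nat_lit 0) (nat_lit 6176337200) (nat_lit 76) (nat_lit 4436856474) (nat_lit 152) (nat_lit 1884304727) (nat_lit 37) (nat_lit 5) (nat_lit 38) (nat_lit 5) (nat_lit 39) (nat_lit 4) (nat_lit 425) (nat_lit 398) (nat_lit 377)) (XT.nd (nat_lit 78) (nat_lit 0) (nat_lit 0) (XT.lf (nat_lit 0) (nat_lit 1960678039) (nat_lit 228) (nat_lit 10913515620) (nat_lit 76) (nat_lit 205113479) (nat_lit 34) (nat_lit 5) (nat_lit 37) (nat_lit 5) (nat_lit 35) (nat_lit 4) (nat_lit 426) (nat_lit 398) (nat_lit 376)) (XT.lf (nat_lit 0) (nat_lit 6189588948)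 (nat_lit 228) (nat_lit 2367688175) (nat_lit 76) (nat_lit 5132248861) (nat_lit 34) (nat_lit 5) (nat_lit 37) (nat_lit 5) (nat_lit 35) (nat_lit 4) (nat_lit 427) (nat_lit 398) (nat_lit 375)))) (XT.nd (nat_lit 78) (nat_lit 228) (nat_lit 0) (XT.lf (nat_lit 0) (nat_lit 7031737865) (nat_lit 76) (nat_lit 3788231857) (nat_lit 152) (nat_lit 3523569059) (nat_lit 33) (nat_lit 5) (nat_lit 34) (nat_lit 5) (nat_lit 35) (nat_lit 4) (nat_lit 428) (nat_lit 398) (nat_lit 374)) (XT.nd (nat_lit 78) (nat_lit 0) (nat_lit 0) (XT.lf (nat_lit 0) (nat_lit 780578161) (nat_lit 228) (nat_lit 12902691201) (nat_lit 76) (nat_lit 1361286175) (nat_lit 30) (nat_lit 5) (nat_lit 33) (nat_lit 5) (nat_lit 31) (nat_lit 4) (nat_lit 429) (nat_lit 398) (nat_lit 373)) (XT.lf (nat_lit 0) (nat_lit 5438799566) (nat_lit 228) (nat_lit 3397573977) (nat_lit 76) (nat_lit 6941972878) (nat_lit 30) (nat_lit 5) (nat_lit 33) (nat_lit 5) (nat_lit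 31) (nat_lit 4) (nat_lit 430) (nat_lit 398) (nat_lit 372)))))) (XT.nd (nat_lit 468) (nat_lit 304) (nat_lit 0) (XT.nd (nat_lit 234) (nat_lit 228) (nat_lit 0) (XT.nd (nat_lit 78) (nat_lit 152) (nat_lit 0) (XT.lf (nat_lit 0) (nat_lit 7049821013) (nat_lit 76) (nat_lit 3493666003) (nat_lit 152) (nat_lit 6021470210) (nat_lit 29) (nat_lit 5) (nat_lit 30) (nat_lit 5) (nat_lit 31) (nat_lit 4) (nat_lit 431) (nat_lit 398) (nat_lit 371)) (XT.nd (nat_lit 78) (nat_lit 76) (nat_lit 0) (XT.lf (nat_lit 0) (nat_lit 936738147) (nat_lit 76) (nat_lit 15197970295) (nat_lit 76) (nat_lit 1273555474) (nat_lit 28) (nat_lit 4) (nat_lit 29) (nat_lit 5) (nat_lit 29) (nat_lit 4) (nat_lit 432) (nat_lit 398) (nat_lit 370)) (XT.lf (nat_lit 0) (nat_lit 3925192417) (nat_lit 152) (nat_lit 5895247809) (nat_lit 76) (nat_lit 8470092182) (nat_lit 27) (nat_lit 5) (nat_lit 29) (nat_lit 5) (nat_lit 28) (nat_lit 4) (nat_lit 433)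 (nat_lit 398) (nat_lit 369)))) (XT.nd (nat_lit 78) (nat_lit 152) (nat_lit 0) (XT.lf (nat_lit 0) (nat_lit 5615006158) (nat_lit 76) (nat_lit 3904162177) (nat_lit 152) (nat_lit 9717732703) (nat_lit 26) (nat_lit 5) (nat_lit 27) (nat_lit 5) (nat_lit 28) (nat_lit 4) (nat_lit 434) (nat_lit 398) (nat_lit 368)) (XT.nd (nat_lit 78) (nat_lit 152) (nat_lit 0) (XT.lf (nat_lit 0) (nat_lit 15699867204) (nat_lit 152) (nat_lit 2089608670) (nat_lit 0) (nat_lit 2458381401) (nat_lit 26) (nat_lit 5) (nat_lit 28) (nat_lit 4) (nat_lit 26) (nat_lit 4) (nat_lit 435) (nat_lit 398) (nat_lit 367)) (XT.lf (nat_lit 0) (nat_lit 1268648656) (nat_lit 152) (nat_lit 10702097048) (nat_lit 76) (nat_lit 9344156110) (nat_lit 24) (nat_lit 5) (nat_lit 26) (nat_lit 5) (nat_lit 25) (nat_lit 4) (nat_lit 436) (nat_lit 398) (nat_lit 366))))) (XT.nd (nat_lit 234) (nat_lit 152) (nat_lit 0) (XT.nd (nat_lit 78) (nat_lit 76) (nat_lit 0)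 (XT.lf (nat_lit 0) (nat_lit 1808987179) (nat_lit 76) (nat_lit 5518854594) (nat_lit 152) (nat_lit 15128194663) (nat_lit 23) (nat_lit 5) (nat_lit 24) (nat_lit 5) (nat_lit 25) (nat_lit 4) (nat_lit 437) (nat_lit 398) (nat_lit 365)) (XT.nd (nat_lit 78) (nat_lit 76) (nat_lit 0) (XT.lf (nat_lit 0) (nat_lit 14128356486) (nat_lit 152) (nat_lit 7928032234) (nat_lit 0) (nat_lit 1611556878) (nat_lit 23) (nat_lit 5) (nat_lit 25) (nat_lit 4) (nat_lit 23) (nat_lit 4) (nat_lit 438) (nat_lit 398) (nat_lit 364)) (XT.lf (nat_lit 0) (nat_lit 5817155019) (nat_lit 76) (nat_lit 15866338867) (nat_lit 76) (nat_lit 3276476960) (nat_lit 22) (nat_lit 4) (nat_lit 23) (nat_lit 5) (nat_lit 23) (nat_lit 4) (nat_lit 439) (nat_lit 398) (nat_lit 363)))) (XT.nd (nat_lit 78) (nat_lit 76) (nat_lit 0) (XT.lf (nat_lit 0) (nat_lit 3463228212) (nat_lit 152) (nat_lit 5453997502) (nat_lit 76) (nat_lit 17419429585) (nat_lit 21) (nat_lit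 5) (nat_lit 23) (nat_lit 5) (nat_lit 22) (nat_lit 4) (nat_lit 440) (nat_lit 398) (nat_lit 362)) (XT.nd (nat_lit 78) (nat_lit 0) (nat_lit 0) (XT.lf (nat_lit 0) (nat_lit 9595862657) (nat_lit 76) (nat_lit 1132990220) (nat_lit 152) (nat_lit 17074720569) (nat_lit 20) (nat_lit 5) (nat_lit 21) (nat_lit 5) (nat_lit 22) (nat_lit 4) (nat_lit 441) (nat_lit 398) (nat_lit 361)) (XT.lf (nat_lit 0) (nat_lit 18837122261) (nat_lit 152) (nat_lit 3524317072) (nat_lit 0) (nat_lit 7005501392) (nat_lit 20) (nat_lit 5) (nat_lit 22) (nat_lit 4) (nat_lit 20) (nat_lit 4) (nat_lit 442) (nat_lit 398) (nat_lit 360))))))))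
noncomputable def xc88 : XT := (XT.nd (nat_lit 1716) (nat_lit 380) (nat_lit 0) (XT.nd (nat_lit 858) (nat_lit 304) (nat_lit 0) (XT.nd (nat_lit 390) (nat_lit 380) (nat_lit 0) (XT.nd (nat_lit 156) (nat_lit 152) (nat_lit 0) (XT.nd (nat_lit 78) (nat_lit 76) (nat_lit 0) (XT.lf (nat_lit 0) (nat_lit 12826047042) (nat_lit 76) (nat_lit 15044290095) (nat_lit 76) (nat_lit 3162944253) (nat_lit 19) (nat_lit 4) (nat_lit 20) (nat_lit 5) (nat_lit 20) (nat_lit 4) (nat_lit 443) (nat_lit 398) (nat_lit 359)) (XT.lf (nat_lit 0) (nat_lit 4590946389) (nat_lit 152) (nat_lit 2378218994) (nat_lit 76) (nat_lit 25851551745) (nat_lit 18) (nat_lit 5) (nat_lit 20) (nat_lit 5) (nat_lit 19) (nat_lit 4) (nat_lit 444) (nat_lit 398) (nat_lit 358))) (XT.nd (nat_lit 78) (nat_lit 76) (nat_lit 0) (XT.lf (nat_lit 0) (nat_lit 13157601507) (nat_lit 152) (nat_lit 19483661533) (nat_lit 0) (nat_lit 2074250920) (nat_lit 17) (nat_lit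 5) (nat_lit 19) (nat_lit 4) (nat_lit 17) (nat_lit 4) (nat_lit 445) (nat_lit 398) (nat_lit 357)) (XT.nd (nat_lit 78) (nat_lit 76) (nat_lit 0) (XT.lf (nat_lit 0) (nat_lit 22600779873) (nat_lit 152) (nat_lit 2664944392) (nat_lit 0) (nat_lit 11480879946) (nat_lit 17) (nat_lit 5) (nat_lit 19) (nat_lit 4) (nat_lit 17) (nat_lit 4) (nat_lit 446) (nat_lit 398) (nat_lit 356)) (XT.lf (nat_lit 0) (nat_lit 16206731095) (nat_lit 76) (nat_lit 16930101721) (nat_lit 76) (nat_lit 5776359813) (nat_lit 16) (nat_lit 4) (nat_lit 17) (nat_lit 5) (nat_lit 17) (nat_lit 4) (nat_lit 447) (nat_lit 398) (nat_lit 355))))) (XT.nd (nat_lit 234) (nat_lit 228) (nat_lit 0) (XT.nd (nat_lit 78) (nat_lit 76) (nat_lit 0) (XT.lf (nat_lit 0) (nat_lit 3121986531) (nat_lit 152) (nat_lit 4691345091) (nat_lit 76) (nat_lit 33431700156) (nat_lit 15) (nat_lit 5) (nat_lit 17) (nat_lit 5) (nat_lit 16) (nat_lit 4) (nat_lit 448) (nat_lit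 398) (nat_lit 354)) (XT.nd (nat_lit 78) (nat_lit 0) (nat_lit 0) (XT.lf (nat_lit 0) (nat_lit 12800542369) (nat_lit 152) (nat_lit 28503318611) (nat_lit 0) (nat_lit 2417124664) (nat_lit 14) (nat_lit 5) (nat_lit 16) (nat_lit 4) (nat_lit 14) (nat_lit 4) (nat_lit 449) (nat_lit 398) (nat_lit 353)) (XT.lf (nat_lit 0) (nat_lit 23539798878) (nat_lit 152) (nat_lit 9700800699) (nat_lit 0) (nat_lit 13131506307) (nat_lit 14) (nat_lit 5) (nat_lit 16) (nat_lit 4) (nat_lit 14) (nat_lit 4) (nat_lit 450) (nat_lit 398) (nat_lit 352)))) (XT.nd (nat_lit 78) (nat_lit 152) (nat_lit 0) (XT.lf (nat_lit 0) (nat_lit 11070865023) (nat_lit 76) (nat_lit 24289021711) (nat_lit 76) (nat_lit 13857696856) (nat_lit 13) (nat_lit 4) (nat_lit 14) (nat_lit 5) (nat_lit 14) (nat_lit 4) (nat_lit 451) (nat_lit 398) (nat_lit 351)) (XT.nd (nat_lit 78) (nat_lit 152) (nat_lit 0) (XT.lf (nat_lit 0) (nat_lit 33969343707) (nat_lit 76) (nat_lit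 14378129213) (nat_lit 76) (nat_lit 3925478170) (nat_lit 13) (nat_lit 4) (nat_lit 14) (nat_lit 5) (nat_lit 14) (nat_lit 4) (nat_lit 452) (nat_lit 398) (nat_lit 350)) (XT.lf (nat_lit 0) (nat_lit 3032721279) (nat_lit 76) (nat_lit 3460124294) (nat_lit 152) (nat_lit 49064278578) (nat_lit 11) (nat_lit 5) (nat_lit 12) (nat_lit 5) (nat_lit 13) (nat_lit 4) (nat_lit 453) (nat_lit 398) (nat_lit 349)))))) (XT.nd (nat_lit 390) (nat_lit 152) (nat_lit 0) (XT.nd (nat_lit 156) (nat_lit 152) (nat_lit 0) (XT.nd (nat_lit 78) (nat_lit 0) (nat_lit 0) (XT.lf (nat_lit 0) (nat_lit 18205349960) (nat_lit 152) (nat_lit 32344946965) (nat_lit 0) (nat_lit 8491756179) (nat_lit 11) (nat_lit 5) (nat_lit 13) (nat_lit 4) (nat_lit 11) (nat_lit 4) (nat_lit 454) (nat_lit 398) (nat_lit 348)) (XT.lf (nat_lit 0) (nat_lit 30906739362) (nat_lit 152) (nat_lit 10717418162) (nat_lit 0) (nat_lit 21177470195) (nat_lit 11) (nat_lit 5)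 (nat_lit 13) (nat_lit 4) (nat_lit 11) (nat_lit 4) (nat_lit 455) (nat_lit 398) (nat_lit 347))) (XT.nd (nat_lit 78) (nat_lit 76) (nat_lit 0) (XT.lf (nat_lit 0) (nat_lit 13231453640) (nat_lit 76) (nat_lit 31675828336) (nat_lit 76) (nat_lit 21932044923) (nat_lit 10) (nat_lit 4) (nat_lit 11) (nat_lit 5) (nat_lit 11) (nat_lit 4) (nat_lit 456) (nat_lit 398) (nat_lit 346)) (XT.nd (nat_lit 78) (nat_lit 76) (nat_lit 0) (XT.lf (nat_lit 0) (nat_lit 39636785197) (nat_lit 76) (nat_lit 20649888359) (nat_lit 76) (nat_lit 10892665830) (nat_lit 10) (nat_lit 4) (nat_lit 11) (nat_lit 5) (nat_lit 11) (nat_lit 4) (nat_lit 457) (nat_lit 398) (nat_lit 345)) (XT.lf (nat_lit 0) (nat_lit 945828601) (nat_lit 152) (nat_lit 7802342665) (nat_lit 76) (nat_lit 67119003067) (nat_lit 9) (nat_lit 5) (nat_lit 11) (nat_lit 5) (nat_lit 10) (nat_lit 4) (nat_lit 458) (nat_lit 398) (nat_lit 344))))) (XT.nd (nat_lit 234) (nat_lit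 76) (nat_lit 0) (XT.nd (nat_lit 78) (nat_lit 0) (nat_lit 0) (XT.lf (nat_lit 0) (nat_lit 13672537281) (nat_lit 152) (nat_lit 62576614702) (nat_lit 0) (nat_lit 4615881696) (nat_lit 8) (nat_lit 5) (nat_lit 10) (nat_lit 4) (nat_lit 8) (nat_lit 4) (nat_lit 459) (nat_lit 398) (nat_lit 343)) (XT.nd (nat_lit 78) (nat_lit 0) (nat_lit 0) (XT.lf (nat_lit 0) (nat_lit 27833459227) (nat_lit 152) (nat_lit 39629052267) (nat_lit 0) (nat_lit 18766925490) (nat_lit 8) (nat_lit 5) (nat_lit 10) (nat_lit 4) (nat_lit 8) (nat_lit 4) (nat_lit 460) (nat_lit 398) (nat_lit 342)) (XT.lf (nat_lit 0) (nat_lit 43099459032) (nat_lit 152) (nat_lit 14901979570) (nat_lit 0) (nat_lit 34023778859) (nat_lit 8) (nat_lit 5) (nat_lit 10) (nat_lit 4) (nat_lit 8) (nat_lit 4) (nat_lit 461) (nat_lit 398) (nat_lit 341)))) (XT.nd (nat_lit 78) (nat_lit 0) (nat_lit 0) (XT.lf (nat_lit 0) (nat_lit 12369928091) (nat_lit 76) (nat_lit 47488570857)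 (nat_lit 76) (nat_lit 38404421761) (nat_lit 7) (nat_lit 4) (nat_lit 8) (nat_lit 5) (nat_lit 8) (nat_lit 4) (nat_lit 462) (nat_lit 398) (nat_lit 340)) (XT.nd (nat_lit 78) (nat_lit 0) (nat_lit 0) (XT.lf (nat_lit 0) (nat_lit 42620272010) (nat_lit 76) (nat_lit 35720384214) (nat_lit 76) (nat_lit 26628393522) (nat_lit 7) (nat_lit 4) (nat_lit 8) (nat_lit 5) (nat_lit 8) (nat_lit 4) (nat_lit 463) (nat_lit 398) (nat_lit 339)) (XT.lf (nat_lit 0) (nat_lit 75243601646) (nat_lit 76) (nat_lit 23034587799) (nat_lit 76) (nat_lit 13935336371) (nat_lit 7) (nat_lit 4) (nat_lit 8) (nat_lit 5) (nat_lit 8) (nat_lit 4) (nat_lit 464) (nat_lit 398) (nat_lit 338))))))) (XT.nd (nat_lit 858) (nat_lit 152) (nat_lit 0) (XT.nd (nat_lit 390) (nat_lit 76) (nat_lit 0) (XT.nd (nat_lit 156) (nat_lit 0) (nat_lit 0) (XT.nd (nat_lit 78) (nat_lit 152) (nat_lit 0) (XT.lf (nat_lit 0) (nat_lit 110433240436) (nat_lit 76) (nat_lit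 9356006523) (nat_lit 76) (nat_lit 250032191) (nat_lit 7) (nat_lit 4) (nat_lit 8) (nat_lit 5) (nat_lit 8) (nat_lit 4) (nat_lit 465) (nat_lit 398) (nat_lit 337)) (XT.lf (nat_lit 0) (nat_lit 14429635203) (nat_lit 152) (nat_lit 107990977260) (nat_lit 0) (nat_lit 5992413681) (nat_lit 5) (nat_lit 5) (nat_lit 7) (nat_lit 4) (nat_lit 5) (nat_lit 4) (nat_lit 466) (nat_lit 398) (nat_lit 336))) (XT.nd (nat_lit 78) (nat_lit 0) (nat_lit 0) (XT.lf (nat_lit 0) (nat_lit 30762292259) (nat_lit 152) (nat_lit 84334757973) (nat_lit 0) (nat_lit 22319733880) (nat_lit 5) (nat_lit 5) (nat_lit 7) (nat_lit 4) (nat_lit 5) (nat_lit 4) (nat_lit 467) (nat_lit 398) (nat_lit 335)) (XT.nd (nat_lit 78) (nat_lit 0) (nat_lit 0) (XT.lf (nat_lit 0) (nat_lit 48382713036) (nat_lit 152) (nat_lit 58824425135) (nat_lit 0) (nat_lit 39935213121) (nat_lit 5) (nat_lit 5) (nat_lit 7) (nat_lit 4) (nat_lit 5) (nat_lit 4) (nat_lit 468) (nat_lit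 398) (nat_lit 334)) (XT.lf (nat_lit 0) (nat_lit 67395314841) (nat_lit 152) (nat_lit 31308806404) (nat_lit 0) (nat_lit 58943239431) (nat_lit 5) (nat_lit 5) (nat_lit 7) (nat_lit 4) (nat_lit 5) (nat_lit 4) (nat_lit 469) (nat_lit 398) (nat_lit 333))))) (XT.nd (nat_lit 234) (nat_lit 0) (nat_lit 0) (XT.nd (nat_lit 78) (nat_lit 76) (nat_lit 0) (XT.lf (nat_lit 0) (nat_lit 87912764945) (nat_lit 152) (nat_lit 1624846263) (nat_lit 0) (nat_lit 79456452965) (nat_lit 5) (nat_lit 5) (nat_lit 7) (nat_lit 4) (nat_lit 5) (nat_lit 4) (nat_lit 470) (nat_lit 398) (nat_lit 332)) (XT.nd (nat_lit 78) (nat_lit 0) (nat_lit 0) (XT.lf (nat_lit 0) (nat_lit 32004347309) (nat_lit 76) (nat_lit 78822006249) (nat_lit 76) (nat_lit 70361771519) (nat_lit 4) (nat_lit 4) (nat_lit 5) (nat_lit 5) (nat_lit 5) (nat_lit 4) (nat_lit 471) (nat_lit 398) (nat_lit 331)) (XT.lf (nat_lit 0) (nat_lit 68386583768) (nat_lit 76) (nat_lit 67216302944)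 (nat_lit 76) (nat_lit 58752436038) (nat_lit 4) (nat_lit 4) (nat_lit 5) (nat_lit 5) (nat_lit 5) (nat_lit 4) (nat_lit 472) (nat_lit 398) (nat_lit 330)))) (XT.nd (nat_lit 78) (nat_lit 0) (nat_lit 0) (XT.lf (nat_lit 0) (nat_lit 107651900025) (nat_lit 76) (nat_lit 54696152931) (nat_lit 76) (nat_lit 46228922899) (nat_lit 4) (nat_lit 4) (nat_lit 5) (nat_lit 5) (nat_lit 5) (nat_lit 4) (nat_lit 473) (nat_lit 398) (nat_lit 329)) (XT.nd (nat_lit 78) (nat_lit 0) (nat_lit 0) (XT.lf (nat_lit 0) (nat_lit 150032979436) (nat_lit 76) (nat_lit 41187362728) (nat_lit 76) (nat_lit 32717018691) (nat_lit 4) (nat_lit 4) (nat_lit 5) (nat_lit 5) (nat_lit 5) (nat_lit 4) (nat_lit 474) (nat_lit 398) (nat_lit 328)) (XT.lf (nat_lit 0) (nat_lit 195780969139) (nat_lit 76) (nat_lit 26609880246) (nat_lit 76) (nat_lit 18136652871) (nat_lit 4) (nat_lit 4) (nat_lit 5) (nat_lit 5) (nat_lit 5) (nat_lit 4) (nat_lit 475) (nat_lit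 398) (nat_lit 327)))))) (XT.nd (nat_lit 468) (nat_lit 0) (nat_lit 0) (XT.nd (nat_lit 234) (nat_lit 0) (nat_lit 0) (XT.nd (nat_lit 78) (nat_lit 152) (nat_lit 0) (XT.lf (nat_lit 0) (nat_lit 245166968332) (nat_lit 76) (nat_lit 10877320404) (nat_lit 76) (nat_lit 2401423270) (nat_lit 4) (nat_lit 4) (nat_lit 5) (nat_lit 5) (nat_lit 5) (nat_lit 4) (nat_lit 476) (nat_lit 398) (nat_lit 326)) (XT.nd (nat_lit 78) (nat_lit 0) (nat_lit 0) (XT.lf (nat_lit 0) (nat_lit 14536544616) (nat_lit 152) (nat_lit 256492642996) (nat_lit 0) (nat_lit 6686202827) (nat_lit 2) (nat_lit 5) (nat_lit 4) (nat_lit 4) (nat_lit 2) (nat_lit 4) (nat_lit 477) (nat_lit 398) (nat_lit 325)) (XT.lf (nat_lit 0) (nat_lit 33344679100) (nat_lit 152) (nat_lit 239633166919) (nat_lit 0) (nat_lit 25492217972) (nat_lit 2) (nat_lit 5) (nat_lit 4) (nat_lit 4) (nat_lit 2) (nat_lit 4) (nat_lit 478) (nat_lit 398) (nat_lit 324)))) (XT.nd (nat_lit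 78) (nat_lit 0) (nat_lit 0) (XT.lf (nat_lit 0) (nat_lit 53648062459) (nat_lit 152) (nat_lit 221444162403) (nat_lit 0) (nat_lit 45793638980) (nat_lit 2) (nat_lit 5) (nat_lit 4) (nat_lit 4) (nat_lit 2) (nat_lit 4) (nat_lit 479) (nat_lit 398) (nat_lit 323)) (XT.nd (nat_lit 78) (nat_lit 0) (nat_lit 0) (XT.lf (nat_lit 0) (nat_lit 75567011041) (nat_lit 152) (nat_lit 201817842753) (nat_lit 0) (nat_lit 67710770569) (nat_lit 2) (nat_lit 5) (nat_lit 4) (nat_lit 4) (nat_lit 2) (nat_lit 4) (nat_lit 480) (nat_lit 398) (nat_lit 322)) (XT.lf (nat_lit 0) (nat_lit 99231414910) (nat_lit 152) (nat_lit 180637903853) (nat_lit 0) (nat_lit 91373492038) (nat_lit 2) (nat_lit 5) (nat_lit 4) (nat_lit 4) (nat_lit 2) (nat_lit 4) (nat_lit 481) (nat_lit 398) (nat_lit 321))))) (XT.nd (nat_lit 234) (nat_lit 0) (nat_lit 0) (XT.nd (nat_lit 78) (nat_lit 0) (nat_lit 0) (XT.lf (nat_lit 0) (nat_lit 124781507571) (nat_lit 152)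 (nat_lit 157778834953) (nat_lit 0) (nat_lit 116922026921) (nat_lit 2) (nat_lit 5) (nat_lit 4) (nat_lit 4) (nat_lit 2) (nat_lit 4) (nat_lit 482) (nat_lit 398) (nat_lit 320)) (XT.nd (nat_lit 78) (nat_lit 0) (nat_lit 0) (XT.lf (nat_lit 0) (nat_lit 152368696980) (nat_lit 152) (nat_lit 133105174906) (nat_lit 0) (nat_lit 144507773943) (nat_lit 2) (nat_lit 5) (nat_lit 4) (nat_lit 4) (nat_lit 2) (nat_lit 4) (nat_lit 483) (nat_lit 398) (nat_lit 319)) (XT.lf (nat_lit 0) (nat_lit 182156462779) (nat_lit 152) (nat_lit 106470709429) (nat_lit 0) (nat_lit 174294204198) (nat_lit 2) (nat_lit 5) (nat_lit 4) (nat_lit 4) (nat_lit 2) (nat_lit 4) (nat_lit 484) (nat_lit 398) (nat_lit 318)))) (XT.nd (nat_lit 78) (nat_lit 0) (nat_lit 0) (XT.lf (nat_lit 0) (nat_lit 214321325060) (nat_lit 152) (nat_lit 77717604653) (nat_lit 0) (nat_lit 206457829865) (nat_lit 2) (nat_lit 5) (nat_lit 4) (nat_lit 4) (nat_lit 2) (nat_lit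 4) (nat_lit 485) (nat_lit 398) (nat_lit 317)) (XT.nd (nat_lit 78) (nat_lit 0) (nat_lit 0) (XT.lf (nat_lit 0) (nat_lit 249053890416) (nat_lit 152) (nat_lit 46675471809) (nat_lit 0) (nat_lit 241189250207) (nat_lit 2) (nat_lit 5) (nat_lit 4) (nat_lit 4) (nat_lit 2) (nat_lit 4) (nat_lit 486) (nat_lit 398) (nat_lit 316)) (XT.lf (nat_lit 0) (nat_lit 286559981455) (nat_lit 152) (nat_lit 13160357516) (nat_lit 0) (nat_lit 278694281049) (nat_lit 2) (nat_lit 5) (nat_lit 4) (nat_lit 4) (nat_lit 2) (nat_lit 4) (nat_lit 487) (nat_lit 398) (nat_lit 315))))))))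
noncomputable def xc89 : XT := (XT.nd (nat_lit 1716) (nat_lit 0) (nat_lit 0) (XT.nd (nat_lit 858) (nat_lit 0) (nat_lit 0) (XT.nd (nat_lit 390) (nat_lit 0) (nat_lit 0) (XT.nd (nat_lit 156) (nat_lit 0) (nat_lit 0) (XT.nd (nat_lit 78) (nat_lit 0) (nat_lit 0) (XT.lf (nat_lit 0) (nat_lit 24238872899) (nat_lit 76) (nat_lit 303405929072) (nat_lit 76) (nat_lit 295539247002) (nat_lit 1) (nat_lit 4) (nat_lit 2) (nat_lit 5) (nat_lit 2) (nat_lit 4) (nat_lit 488) (nat_lit 398) (nat_lit 314)) (XT.lf (nat_lit 0) (nat_lit 65369106865) (nat_lit 76) (nat_lit 307002548375) (nat_lit 76) (nat_lit 299134957356) (nat_lit 1) (nat_lit 4) (nat_lit 2) (nat_lit 5) (nat_lit 2) (nat_lit 4) (nat_lit 489) (nat_lit 398) (nat_lit 313))) (XT.nd (nat_lit 78) (nat_lit 0) (nat_lit 0) (XT.lf (nat_lit 0) (nat_lit 109781077997) (nat_lit 76) (nat_lit 310891337676) (nat_lit 76) (nat_lit 303022905038) (nat_lit 1) (nat_lit 4) (nat_lit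 2) (nat_lit 5) (nat_lit 2) (nat_lit 4) (nat_lit 490) (nat_lit 398) (nat_lit 312)) (XT.nd (nat_lit 78) (nat_lit 0) (nat_lit 0) (XT.lf (nat_lit 0) (nat_lit 157737968345) (nat_lit 76) (nat_lit 315095341653) (nat_lit 76) (nat_lit 307226129738) (nat_lit 1) (nat_lit 4) (nat_lit 2) (nat_lit 5) (nat_lit 2) (nat_lit 4) (nat_lit 491) (nat_lit 398) (nat_lit 311)) (XT.lf (nat_lit 0) (nat_lit 209523966890) (nat_lit 76) (nat_lit 319639472921) (nat_lit 76) (nat_lit 311769539454) (nat_lit 1) (nat_lit 4) (nat_lit 2) (nat_lit 5) (nat_lit 2) (nat_lit 4) (nat_lit 492) (nat_lit 398) (nat_lit 310))))) (XT.nd (nat_lit 234) (nat_lit 0) (nat_lit 0) (XT.nd (nat_lit 78) (nat_lit 0) (nat_lit 0) (XT.lf (nat_lit 0) (nat_lit 265445953622) (nat_lit 76) (nat_lit 324550659667) (nat_lit 76) (nat_lit 316680058095) (nat_lit 1) (nat_lit 4) (nat_lit 2) (nat_lit 5) (nat_lit 2) (nat_lit 4) (nat_lit 493) (nat_lit 398) (nat_lit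 309)) (XT.nd (nat_lit 78) (nat_lit 0) (nat_lit 0) (XT.lf (nat_lit 0) (nat_lit 325835318093) (nat_lit 76) (nat_lit 329858005218) (nat_lit 76) (nat_lit 321986785032) (nat_lit 1) (nat_lit 4) (nat_lit 2) (nat_lit 5) (nat_lit 2) (nat_lit 4) (nat_lit 494) (nat_lit 398) (nat_lit 308)) (XT.lf (nat_lit 0) (nat_lit 391049923203) (nat_lit 76) (nat_lit 335592960512) (nat_lit 76) (nat_lit 327721167534) (nat_lit 1) (nat_lit 4) (nat_lit 2) (nat_lit 5) (nat_lit 2) (nat_lit 4) (nat_lit 495) (nat_lit 398) (nat_lit 307)))) (XT.nd (nat_lit 78) (nat_lit 0) (nat_lit 0) (XT.lf (nat_lit 0) (nat_lit 461476225872) (nat_lit 76) (nat_lit 341789510469) (nat_lit 76) (nat_lit 333917187128) (nat_lit 1) (nat_lit 4) (nat_lit 2) (nat_lit 5) (nat_lit 2) (nat_lit 4) (nat_lit 496) (nat_lit 398) (nat_lit 306)) (XT.nd (nat_lit 78) (nat_lit 0) (nat_lit 0) (XT.lf (nat_lit 0) (nat_lit 537531567152) (nat_lit 76) (nat_lit 348484375384)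 (nat_lit 76) (nat_lit 340611560967) (nat_lit 1) (nat_lit 4) (nat_lit 2) (nat_lit 5) (nat_lit 2) (nat_lit 4) (nat_lit 497) (nat_lit 398) (nat_lit 305)) (XT.lf (nat_lit 0) (nat_lit 619666645362) (nat_lit 76) (nat_lit 355717228532) (nat_lit 76) (nat_lit 347843959414) (nat_lit 1) (nat_lit 4) (nat_lit 2) (nat_lit 5) (nat_lit 2) (nat_lit 4) (nat_lit 498) (nat_lit 398) (nat_lit 304)))))) (XT.nd (nat_lit 390) (nat_lit 0) (nat_lit 0) (XT.nd (nat_lit 156) (nat_lit 0) (nat_lit 0) (XT.nd (nat_lit 78) (nat_lit 0) (nat_lit 0) (XT.lf (nat_lit 0) (nat_lit 708368186891) (nat_lit 76) (nat_lit 363530931265) (nat_lit 76) (nat_lit 355657241128) (nat_lit 1) (nat_lit 4) (nat_lit 2) (nat_lit 5) (nat_lit 2) (nat_lit 4) (nat_lit 499) (nat_lit 398) (nat_lit 303)) (XT.lf (nat_lit 0) (nat_lit 804161830505) (nat_lit 76) (nat_lit 371971787005) (nat_lit 76) (nat_lit 364097707036) (nat_lit 1) (nat_lit 4) (nat_lit 2) (nat_lit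 5) (nat_lit 2) (nat_lit 4) (nat_lit 500) (nat_lit 398) (nat_lit 302))) (XT.nd (nat_lit 78) (nat_lit 0) (nat_lit 0) (XT.lf (nat_lit 0) (nat_lit 907615242238) (nat_lit 76) (nat_lit 381089815639) (nat_lit 76) (nat_lit 373215374714) (nat_lit 1) (nat_lit 4) (nat_lit 2) (nat_lit 5) (nat_lit 2) (nat_lit 4) (nat_lit 501) (nat_lit 398) (nat_lit 301)) (XT.nd (nat_lit 78) (nat_lit 0) (nat_lit 0) (XT.lf (nat_lit 0) (nat_lit 1019341479347) (nat_lit 76) (nat_lit 390939049930) (nat_lit 76) (nat_lit 383064274786) (nat_lit 1) (nat_lit 4) (nat_lit 2) (nat_lit 5) (nat_lit 2) (nat_lit 4) (nat_lit 502) (nat_lit 398) (nat_lit 300)) (XT.lf (nat_lit 0) (nat_lit 1140002623236) (nat_lit 76) (nat_lit 401577855709) (nat_lit 76) (nat_lit 393702771104) (nat_lit 1) (nat_lit 4) (nat_lit 2) (nat_lit 5) (nat_lit 2) (nat_lit 4) (nat_lit 503) (nat_lit 398) (nat_lit 299))))) (XT.nd (nat_lit 234) (nat_lit 0) (nat_lit 0) (XT.nd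 (nat_lit 78) (nat_lit 0) (nat_lit 0) (XT.lf (nat_lit 0) (nat_lit 1270313702905) (nat_lit 76) (nat_lit 413069277752) (nat_lit 76) (nat_lit 405193906608) (nat_lit 1) (nat_lit 4) (nat_lit 2) (nat_lit 5) (nat_lit 2) (nat_lit 4) (nat_lit 504) (nat_lit 398) (nat_lit 298)) (XT.nd (nat_lit 78) (nat_lit 0) (nat_lit 0) (XT.lf (nat_lit 0) (nat_lit 1411046932161) (nat_lit 76) (nat_lit 425481413376) (nat_lit 76) (nat_lit 417605776918) (nat_lit 1) (nat_lit 4) (nat_lit 2) (nat_lit 5) (nat_lit 2) (nat_lit 4) (nat_lit 505) (nat_lit 398) (nat_lit 297)) (XT.lf (nat_lit 0) (nat_lit 1563036285695) (nat_lit 76) (nat_lit 438887815975) (nat_lit 76) (nat_lit 431011933857) (nat_lit 1) (nat_lit 4) (nat_lit 2) (nat_lit 5) (nat_lit 2) (nat_lit 4) (nat_lit 506) (nat_lit 398) (nat_lit 296)))) (XT.nd (nat_lit 78) (nat_lit 0) (nat_lit 0) (XT.lf (nat_lit 0) (nat_lit 1727182441158) (nat_lit 76) (nat_lit 453367930899) (nat_lit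 76) (nat_lit 445491821317) (nat_lit 1) (nat_lit 4) (nat_lit 2) (nat_lit 5) (nat_lit 2) (nat_lit 4) (nat_lit 507) (nat_lit 398) (nat_lit 295)) (XT.nd (nat_lit 78) (nat_lit 0) (nat_lit 0) (XT.lf (nat_lit 0) (nat_lit 1904458116508) (nat_lit 76) (nat_lit 469007566236) (nat_lit 76) (nat_lit 461131246040) (nat_lit 1) (nat_lit 4) (nat_lit 2) (nat_lit 5) (nat_lit 2) (nat_lit 4) (nat_lit 508) (nat_lit 398) (nat_lit 294)) (XT.lf (nat_lit 0) (nat_lit 2095913834266) (nat_lit 76) (nat_lit 485899401307) (nat_lit 76) (nat_lit 478022886098) (nat_lit 1) (nat_lit 4) (nat_lit 2) (nat_lit 5) (nat_lit 2) (nat_lit 4) (nat_lit 509) (nat_lit 398) (nat_lit 293))))))) (XT.nd (nat_lit 858) (nat_lit 0) (nat_lit 0) (XT.nd (nat_lit 390) (nat_lit 0) (nat_lit 0) (XT.nd (nat_lit 156) (nat_lit 0) (nat_lit 0) (XT.nd (nat_lit 78) (nat_lit 0) (nat_lit 0) (XT.lf (nat_lit 0) (nat_lit 2302684146833) (nat_lit 76) (nat_lit 504143535875)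 (nat_lit 76) (nat_lit 496266840098) (nat_lit 1) (nat_lit 4) (nat_lit 2) (nat_lit 5) (nat_lit 2) (nat_lit 4) (nat_lit 510) (nat_lit 398) (nat_lit 292)) (XT.lf (nat_lit 0) (nat_lit 2525994359765) (nat_lit 76) (nat_lit 523848083330) (nat_lit 76) (nat_lit 515971220361) (nat_lit 1) (nat_lit 4) (nat_lit 2) (nat_lit 5) (nat_lit 2) (nat_lit 4) (nat_lit 511) (nat_lit 398) (nat_lit 291))) (XT.nd (nat_lit 78) (nat_lit 0) (nat_lit 0) (XT.lf (nat_lit 0) (nat_lit 2767167792843) (nat_lit 76) (nat_lit 545129811361) (nat_lit 76) (nat_lit 537252793584) (nat_lit 1) (nat_lit 4) (nat_lit 2) (nat_lit 5) (nat_lit 2) (nat_lit 4) (nat_lit 512) (nat_lit 398) (nat_lit 290)) (XT.nd (nat_lit 78) (nat_lit 0) (nat_lit 0) (XT.lf (nat_lit 0) (nat_lit 3027633621965) (nat_lit 76) (nat_lit 568114833912) (nat_lit 76) (nat_lit 560237672794) (nat_lit 1) (nat_lit 4) (nat_lit 2) (nat_lit 5) (nat_lit 2) (nat_lit 4) (nat_lit 513)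 (nat_lit 398) (nat_lit 289)) (XT.lf (nat_lit 0) (nat_lit 3308935348343) (nat_lit 76) (nat_lit 592939358523) (nat_lit 76) (nat_lit 585062064683) (nat_lit 1) (nat_lit 4) (nat_lit 2) (nat_lit 5) (nat_lit 2) (nat_lit 4) (nat_lit 514) (nat_lit 398) (nat_lit 288))))) (XT.nd (nat_lit 234) (nat_lit 0) (nat_lit 0) (XT.nd (nat_lit 78) (nat_lit 0) (nat_lit 0) (XT.lf (nat_lit 0) (nat_lit 3612739945169) (nat_lit 76) (nat_lit 619750493490) (nat_lit 76) (nat_lit 611873076758) (nat_lit 1) (nat_lit 4) (nat_lit 2) (nat_lit 5) (nat_lit 2) (nat_lit 4) (nat_lit 515) (nat_lit 398) (nat_lit 287)) (XT.nd (nat_lit 78) (nat_lit 0) (nat_lit 0) (XT.lf (nat_lit 0) (nat_lit 3940847735980) (nat_lit 76) (nat_lit 648707119610) (nat_lit 76) (nat_lit 640829589090) (nat_lit 1) (nat_lit 4) (nat_lit 2) (nat_lit 5) (nat_lit 2) (nat_lit 4) (nat_lit 516) (nat_lit 398) (nat_lit 286)) (XT.lf (nat_lit 0) (nat_lit 4295203063239) (nat_lit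 76) (nat_lit 679980831707) (nat_lit 76) (nat_lit 672103195827) (nat_lit 1) (nat_lit 4) (nat_lit 2) (nat_lit 5) (nat_lit 2) (nat_lit 4) (nat_lit 517) (nat_lit 398) (nat_lit 285)))) (XT.nd (nat_lit 78) (nat_lit 0) (nat_lit 0) (XT.lf (nat_lit 0) (nat_lit 4677905810369) (nat_lit 76) (nat_lit 713756955481) (nat_lit 76) (nat_lit 705879222046) (nat_lit 1) (nat_lit 4) (nat_lit 2) (nat_lit 5) (nat_lit 2) (nat_lit 4) (nat_lit 518) (nat_lit 398) (nat_lit 284)) (XT.nd (nat_lit 78) (nat_lit 0) (nat_lit 0) (XT.lf (nat_lit 0) (nat_lit 5091223845499) (nat_lit 76) (nat_lit 750235645740) (nat_lit 76) (nat_lit 742357821976) (nat_lit 1) (nat_lit 4) (nat_lit 2) (nat_lit 5) (nat_lit 2) (nat_lit 4) (nat_lit 519) (nat_lit 398) (nat_lit 283)) (XT.lf (nat_lit 0) (nat_lit 5537606460691) (nat_lit 76) (nat_lit 789633072500) (nat_lit 76) (nat_lit 781755165098) (nat_lit 1) (nat_lit 4) (nat_lit 2) (nat_lit 5) (nat_lit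 2) (nat_lit 4) (nat_lit 520) (nat_lit 398) (nat_lit 282)))))) (XT.nd (nat_lit 468) (nat_lit 0) (nat_lit 0) (XT.nd (nat_lit 234) (nat_lit 0) (nat_lit 0) (XT.nd (nat_lit 78) (nat_lit 0) (nat_lit 0) (XT.lf (nat_lit 0) (nat_lit 6019698886255) (nat_lit 76) (nat_lit 832182701993) (nat_lit 76) (nat_lit 824304717149) (nat_lit 1) (nat_lit 4) (nat_lit 2) (nat_lit 5) (nat_lit 2) (nat_lit 4) (nat_lit 521) (nat_lit 398) (nat_lit 281)) (XT.nd (nat_lit 78) (nat_lit 0) (nat_lit 0) (XT.lf (nat_lit 0) (nat_lit 6540357966196) (nat_lit 76) (nat_lit 878136680174) (nat_lit 76) (nat_lit 870258623623) (nat_lit 1) (nat_lit 4) (nat_lit 2) (nat_lit 5) (nat_lit 2) (nat_lit 4) (nat_lit 522) (nat_lit 398) (nat_lit 280)) (XT.lf (nat_lit 0) (nat_lit 7102669087655) (nat_lit 76) (nat_lit 927767326911) (nat_lit 76) (nat_lit 919889203966) (nat_lit 1) (nat_lit 4) (nat_lit 2) (nat_lit 5) (nat_lit 2) (nat_lit 4) (nat_lit 523)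 (nat_lit 398) (nat_lit 279)))) (XT.nd (nat_lit 78) (nat_lit 0) (nat_lit 0) (XT.lf (nat_lit 0) (nat_lit 7709964464683) (nat_lit 76) (nat_lit 981368749741) (nat_lit 76) (nat_lit 973490565320) (nat_lit 1) (nat_lit 4) (nat_lit 2) (nat_lit 5) (nat_lit 2) (nat_lit 4) (nat_lit 524) (nat_lit 398) (nat_lit 278)) (XT.nd (nat_lit 78) (nat_lit 0) (nat_lit 0) (XT.lf (nat_lit 0) (nat_lit 8365842884700) (nat_lit 76) (nat_lit 1039258586726) (nat_lit 76) (nat_lit 1031380345383) (nat_lit 1) (nat_lit 4) (nat_lit 2) (nat_lit 5) (nat_lit 2) (nat_lit 4) (nat_lit 525) (nat_lit 398) (nat_lit 277)) (XT.lf (nat_lit 0) (nat_lit 9074191034641) (nat_lit 76) (nat_lit 1101779888752) (nat_lit 76) (nat_lit 1093901594702) (nat_lit 1) (nat_lit 4) (nat_lit 2) (nat_lit 5) (nat_lit 2) (nat_lit 4) (nat_lit 526) (nat_lit 398) (nat_lit 276))))) (XT.nd (nat_lit 52806) (nat_lit 0) (nat_lit 6612) (XT.nd (nat_lit 78) (nat_lit 0) (nat_lit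 0) (XT.lf (nat_lit 0) (nat_lit 9839206533170) (nat_lit 76) (nat_lit 1169303152422) (nat_lit 76) (nat_lit 1161424809571) (nat_lit 1) (nat_lit 4) (nat_lit 2) (nat_lit 5) (nat_lit 2) (nat_lit 4) (nat_lit 527) (nat_lit 398) (nat_lit 275)) (XT.nd (nat_lit 52650) (nat_lit 0) (nat_lit 6840) (XT.lf (nat_lit 0) (nat_lit 10665422805466) (nat_lit 76) (nat_lit 1242228515596) (nat_lit 76) (nat_lit 1234350127558) (nat_lit 1) (nat_lit 4) (nat_lit 2) (nat_lit 5) (nat_lit 2) (nat_lit 4) (nat_lit 528) (nat_lit 398) (nat_lit 274)) (XT.lf (nat_lit 0) (nat_lit 115907475) (nat_lit 76) (nat_lit 1559043344) (nat_lit 76) (nat_lit 1559043344) (nat_lit 91) (nat_lit 4) (nat_lit 92) (nat_lit 5) (nat_lit 92) (nat_lit 4) (nat_lit 402) (nat_lit 399) (nat_lit 399)))) (XT.nd (nat_lit 78) (nat_lit 152) (nat_lit 0) (XT.lf (nat_lit 0) (nat_lit 63057931) (nat_lit 152) (nat_lit 2589095923) (nat_lit 76) (nat_lit 3854697078) (nat_lit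 90) (nat_lit 5) (nat_lit 92) (nat_lit 5) (nat_lit 91) (nat_lit 4) (nat_lit 403) (nat_lit 399) (nat_lit 398)) (XT.nd (nat_lit 78) (nat_lit 0) (nat_lit 0) (XT.lf (nat_lit 0) (nat_lit 1130559820) (nat_lit 152) (nat_lit 1931734500) (nat_lit 228) (nat_lit 3501799639) (nat_lit 88) (nat_lit 5) (nat_lit 90) (nat_lit 5) (nat_lit 91) (nat_lit 4) (nat_lit 404) (nat_lit 399) (nat_lit 397)) (XT.lf (nat_lit 0) (nat_lit 5105208854) (nat_lit 152) (nat_lit 989215497) (nat_lit 228) (nat_lit 548347540) (nat_lit 88) (nat_lit 5) (nat_lit 90) (nat_lit 5) (nat_lit 91) (nat_lit 4) (nat_lit 405) (nat_lit 399) (nat_lit 396))))))))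
noncomputable def xc90 : XT := (XT.nd (nat_lit 1716) (nat_lit 1520) (nat_lit 0) (XT.nd (nat_lit 858) (nat_lit 1520) (nat_lit 0) (XT.nd (nat_lit 390) (nat_lit 1520) (nat_lit 0) (XT.nd (nat_lit 156) (nat_lit 760) (nat_lit 0) (XT.nd (nat_lit 78) (nat_lit 0) (nat_lit 0) (XT.lf (nat_lit 0) (nat_lit 2311950498) (nat_lit 304) (nat_lit 4200977267) (nat_lit 76) (nat_lit 225768290) (nat_lit 84) (nat_lit 5) (nat_lit 88) (nat_lit 5) (nat_lit 85) (nat_lit 4) (nat_lit 406) (nat_lit 399) (nat_lit 395)) (XT.lf (nat_lit 0) (nat_lit 5192735048) (nat_lit 304) (nat_lit 60306216) (nat_lit 76) (nat_lit 1602642124) (nat_lit 84) (nat_lit 5) (nat_lit 88) (nat_lit 5) (nat_lit 85) (nat_lit 4) (nat_lit 407) (nat_lit 399) (nat_lit 394))) (XT.nd (nat_lit 78) (nat_lit 380) (nat_lit 0) (XT.lf (nat_lit 0) (nat_lit 1130078075) (nat_lit 380) (nat_lit 2578292884) (nat_lit 76) (nat_lit 3281373543) (nat_lit 79) (nat_lit 5)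 (nat_lit 84) (nat_lit 5) (nat_lit 80) (nat_lit 5) (nat_lit 408) (nat_lit 399) (nat_lit 393)) (XT.nd (nat_lit 78) (nat_lit 0) (nat_lit 0) (XT.lf (nat_lit 0) (nat_lit 1966573920) (nat_lit 380) (nat_lit 1916587911) (nat_lit 456) (nat_lit 3261980495) (nat_lit 74) (nat_lit 5) (nat_lit 79) (nat_lit 5) (nat_lit 80) (nat_lit 5) (nat_lit 409) (nat_lit 399) (nat_lit 392)) (XT.lf (nat_lit 0) (nat_lit 6718976768) (nat_lit 456) (nat_lit 498909329) (nat_lit 76) (nat_lit 106257407) (nat_lit 74) (nat_lit 5) (nat_lit 80) (nat_lit 5) (nat_lit 75) (nat_lit 4) (nat_lit 410) (nat_lit 399) (nat_lit 391))))) (XT.nd (nat_lit 234) (nat_lit 532) (nat_lit 0) (XT.nd (nat_lit 78) (nat_lit 456) (nat_lit 0) (XT.lf (nat_lit 0) (nat_lit 2114032997) (nat_lit 532) (nat_lit 3037042430) (nat_lit 76) (nat_lit 2365130637) (nat_lit 67) (nat_lit 5) (nat_lit 74) (nat_lit 5) (nat_lit 68) (nat_lit 5) (nat_lit 411) (nat_lit 399) (nat_lit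 390)) (XT.nd (nat_lit 78) (nat_lit 0) (nat_lit 0) (XT.lf (nat_lit 0) (nat_lit 2047127992) (nat_lit 456) (nat_lit 2844367966) (nat_lit 532) (nat_lit 2841141603) (nat_lit 61) (nat_lit 5) (nat_lit 67) (nat_lit 5) (nat_lit 68) (nat_lit 5) (nat_lit 412) (nat_lit 399) (nat_lit 389)) (XT.lf (nat_lit 0) (nat_lit 7515309535) (nat_lit 456) (nat_lit 278437045) (nat_lit 532) (nat_lit 180554913) (nat_lit 61) (nat_lit 5) (nat_lit 67) (nat_lit 5) (nat_lit 68) (nat_lit 5) (nat_lit 413) (nat_lit 399) (nat_lit 388)))) (XT.nd (nat_lit 78) (nat_lit 228) (nat_lit 0) (XT.lf (nat_lit 0) (nat_lit 2575897931) (nat_lit 304) (nat_lit 3107964903) (nat_lit 76) (nat_lit 2544943678) (nat_lit 57) (nat_lit 5) (nat_lit 61) (nat_lit 5) (nat_lit 58) (nat_lit 5) (nat_lit 414) (nat_lit 399) (nat_lit 387)) (XT.nd (nat_lit 78) (nat_lit 0) (nat_lit 0) (XT.lf (nat_lit 0) (nat_lit 2589881524) (nat_lit 228) (nat_lit 2871814774) (nat_lit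 304) (nat_lit 3048213098) (nat_lit 54) (nat_lit 5) (nat_lit 57) (nat_lit 5) (nat_lit 58) (nat_lit 5) (nat_lit 415) (nat_lit 399) (nat_lit 386)) (XT.lf (nat_lit 0) (nat_lit 8512319858) (nat_lit 304) (nat_lit 97204699) (nat_lit 76) (nat_lit 209351050) (nat_lit 54) (nat_lit 5) (nat_lit 58) (nat_lit 5) (nat_lit 55) (nat_lit 4) (nat_lit 416) (nat_lit 399) (nat_lit 385)))))) (XT.nd (nat_lit 390) (nat_lit 684) (nat_lit 0) (XT.nd (nat_lit 156) (nat_lit 380) (nat_lit 0) (XT.nd (nat_lit 78) (nat_lit 228) (nat_lit 0) (XT.lf (nat_lit 0) (nat_lit 2602723117) (nat_lit 228) (nat_lit 2972703684) (nat_lit 76) (nat_lit 3565618094) (nat_lit 51) (nat_lit 5) (nat_lit 54) (nat_lit 5) (nat_lit 52) (nat_lit 5) (nat_lit 417) (nat_lit 399) (nat_lit 384)) (XT.lf (nat_lit 0) (nat_lit 3422800647) (nat_lit 228) (nat_lit 2247524254) (nat_lit 304) (nat_lit 3822727452) (nat_lit 48) (nat_lit 5) (nat_lit 51) (nat_lit 5)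 (nat_lit 52) (nat_lit 5) (nat_lit 418) (nat_lit 399) (nat_lit 383))) (XT.nd (nat_lit 78) (nat_lit 228) (nat_lit 0) (XT.lf (nat_lit 0) (nat_lit 421681199) (nat_lit 152) (nat_lit 8549530338) (nat_lit 228) (nat_lit 903046358) (nat_lit 46) (nat_lit 5) (nat_lit 48) (nat_lit 5) (nat_lit 49) (nat_lit 4) (nat_lit 419) (nat_lit 399) (nat_lit 382)) (XT.nd (nat_lit 78) (nat_lit 152) (nat_lit 0) (XT.lf (nat_lit 0) (nat_lit 2230366540) (nat_lit 228) (nat_lit 2810725717) (nat_lit 76) (nat_lit 5233178440) (nat_lit 45) (nat_lit 5) (nat_lit 48) (nat_lit 5) (nat_lit 46) (nat_lit 5) (nat_lit 420) (nat_lit 399) (nat_lit 381)) (XT.lf (nat_lit 0) (nat_lit 4373124256) (nat_lit 152) (nat_lit 1171845718) (nat_lit 228) (nat_lit 5161147333) (nat_lit 43) (nat_lit 5) (nat_lit 45) (nat_lit 5) (nat_lit 46) (nat_lit 5) (nat_lit 421) (nat_lit 399) (nat_lit 380))))) (XT.nd (nat_lit 234) (nat_lit 304) (nat_lit 0) (XT.nd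 (nat_lit 78) (nat_lit 228) (nat_lit 0) (XT.lf (nat_lit 0) (nat_lit 907997719) (nat_lit 152) (nat_lit 8267449913) (nat_lit 228) (nat_lit 1993057244) (nat_lit 41) (nat_lit 5) (nat_lit 43) (nat_lit 5) (nat_lit 44) (nat_lit 4) (nat_lit 422) (nat_lit 399) (nat_lit 379)) (XT.nd (nat_lit 78) (nat_lit 152) (nat_lit 0) (XT.lf (nat_lit 0) (nat_lit 1444363162) (nat_lit 228) (nat_lit 2824802890) (nat_lit 76) (nat_lit 7389024295) (nat_lit 40) (nat_lit 5) (nat_lit 43) (nat_lit 5) (nat_lit 41) (nat_lit 5) (nat_lit 423) (nat_lit 399) (nat_lit 378)) (XT.lf (nat_lit 0) (nat_lit 5067580727) (nat_lit 228) (nat_lit 6945781225) (nat_lit 76) (nat_lit 168108314) (nat_lit 38) (nat_lit 5) (nat_lit 41) (nat_lit 5) (nat_lit 39) (nat_lit 4) (nat_lit 424) (nat_lit 399) (nat_lit 377)))) (XT.nd (nat_lit 78) (nat_lit 228) (nat_lit 0) (XT.lf (nat_lit 0) (nat_lit 1126169557) (nat_lit 76) (nat_lit 7962521341) (nat_lit 152)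 (nat_lit 3649315399) (nat_lit 37) (nat_lit 5) (nat_lit 38) (nat_lit 5) (nat_lit 39) (nat_lit 4) (nat_lit 425) (nat_lit 399) (nat_lit 376)) (XT.nd (nat_lit 78) (nat_lit 152) (nat_lit 0) (XT.lf (nat_lit 0) (nat_lit 174602311) (nat_lit 152) (nat_lit 3271848299) (nat_lit 76) (nat_lit 9885524009) (nat_lit 36) (nat_lit 5) (nat_lit 38) (nat_lit 5) (nat_lit 37) (nat_lit 5) (nat_lit 426) (nat_lit 399) (nat_lit 375)) (XT.lf (nat_lit 0) (nat_lit 4184702316) (nat_lit 228) (nat_lit 8239288242) (nat_lit 76) (nat_lit 1535721724) (nat_lit 34) (nat_lit 5) (nat_lit 37) (nat_lit 5) (nat_lit 35) (nat_lit 4) (nat_lit 427) (nat_lit 399) (nat_lit 374))))))) (XT.nd (nat_lit 858) (nat_lit 684) (nat_lit 0) (XT.nd (nat_lit 390) (nat_lit 456) (nat_lit 0) (XT.nd (nat_lit 156) (nat_lit 304) (nat_lit 0) (XT.nd (nat_lit 78) (nat_lit 0) (nat_lit 0) (XT.lf (nat_lit 0) (nat_lit 765747592) (nat_lit 76) (nat_lit 7851471048)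 (nat_lit 152) (nat_lit 6012348505) (nat_lit 33) (nat_lit 5) (nat_lit 34) (nat_lit 5) (nat_lit 35) (nat_lit 4) (nat_lit 428) (nat_lit 399) (nat_lit 373)) (XT.lf (nat_lit 0) (nat_lit 10795668881) (nat_lit 76) (nat_lit 2739157092) (nat_lit 152) (nat_lit 1807770114) (nat_lit 33) (nat_lit 5) (nat_lit 34) (nat_lit 5) (nat_lit 35) (nat_lit 4) (nat_lit 429) (nat_lit 399) (nat_lit 372))) (XT.nd (nat_lit 78) (nat_lit 76) (nat_lit 0) (XT.lf (nat_lit 0) (nat_lit 2710875613) (nat_lit 228) (nat_lit 10602816171) (nat_lit 76) (nat_lit 2784584202) (nat_lit 30) (nat_lit 5) (nat_lit 33) (nat_lit 5) (nat_lit 31) (nat_lit 4) (nat_lit 430) (nat_lit 399) (nat_lit 371)) (XT.nd (nat_lit 78) (nat_lit 76) (nat_lit 0) (XT.lf (nat_lit 0) (nat_lit 7603395382) (nat_lit 228) (nat_lit 584111075) (nat_lit 76) (nat_lit 8714363238) (nat_lit 30) (nat_lit 5) (nat_lit 33) (nat_lit 5) (nat_lit 31) (nat_lit 4) (nat_lit 431) (nat_lit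 399) (nat_lit 370)) (XT.lf (nat_lit 0) (nat_lit 10620967443) (nat_lit 76) (nat_lit 2439702167) (nat_lit 152) (nat_lit 4695231339) (nat_lit 29) (nat_lit 5) (nat_lit 30) (nat_lit 5) (nat_lit 31) (nat_lit 4) (nat_lit 432) (nat_lit 399) (nat_lit 369))))) (XT.nd (nat_lit 234) (nat_lit 228) (nat_lit 0) (XT.nd (nat_lit 78) (nat_lit 76) (nat_lit 0) (XT.lf (nat_lit 0) (nat_lit 388902214) (nat_lit 152) (nat_lit 14635952434) (nat_lit 76) (nat_lit 3642768070) (nat_lit 27) (nat_lit 5) (nat_lit 29) (nat_lit 5) (nat_lit 28) (nat_lit 4) (nat_lit 433) (nat_lit 399) (nat_lit 368)) (XT.nd (nat_lit 78) (nat_lit 76) (nat_lit 0) (XT.lf (nat_lit 0) (nat_lit 5809149526) (nat_lit 152) (nat_lit 3477778713) (nat_lit 76) (nat_lit 10340968373) (nat_lit 27) (nat_lit 5) (nat_lit 29) (nat_lit 5) (nat_lit 28) (nat_lit 4) (nat_lit 434) (nat_lit 399) (nat_lit 367)) (XT.lf (nat_lit 0) (nat_lit 8880154080) (nat_lit 76) (nat_lit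 2921921061) (nat_lit 152) (nat_lit 8851806026) (nat_lit 26) (nat_lit 5) (nat_lit 27) (nat_lit 5) (nat_lit 28) (nat_lit 4) (nat_lit 435) (nat_lit 399) (nat_lit 366)))) (XT.nd (nat_lit 78) (nat_lit 152) (nat_lit 0) (XT.lf (nat_lit 0) (nat_lit 457580093) (nat_lit 76) (nat_lit 17946788593) (nat_lit 76) (nat_lit 3347193530) (nat_lit 25) (nat_lit 4) (nat_lit 26) (nat_lit 5) (nat_lit 26) (nat_lit 4) (nat_lit 436) (nat_lit 399) (nat_lit 365)) (XT.nd (nat_lit 78) (nat_lit 76) (nat_lit 0) (XT.lf (nat_lit 0) (nat_lit 2800681219) (nat_lit 152) (nat_lit 8859397990) (nat_lit 76) (nat_lit 11245363444) (nat_lit 24) (nat_lit 5) (nat_lit 26) (nat_lit 5) (nat_lit 25) (nat_lit 4) (nat_lit 437) (nat_lit 399) (nat_lit 364)) (XT.lf (nat_lit 0) (nat_lit 4584247232) (nat_lit 76) (nat_lit 4717661153) (nat_lit 152) (nat_lit 14839391182) (nat_lit 23) (nat_lit 5) (nat_lit 24) (nat_lit 5) (nat_lit 25) (nat_lit 4) (nat_lit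 438) (nat_lit 399) (nat_lit 363)))))) (XT.nd (nat_lit 468) (nat_lit 380) (nat_lit 0) (XT.nd (nat_lit 234) (nat_lit 152) (nat_lit 0) (XT.nd (nat_lit 78) (nat_lit 152) (nat_lit 0) (XT.lf (nat_lit 0) (nat_lit 16571334523) (nat_lit 152) (nat_lit 6051280504) (nat_lit 0) (nat_lit 2833571087) (nat_lit 23) (nat_lit 5) (nat_lit 25) (nat_lit 4) (nat_lit 23) (nat_lit 4) (nat_lit 439) (nat_lit 399) (nat_lit 362)) (XT.nd (nat_lit 78) (nat_lit 76) (nat_lit 0) (XT.lf (nat_lit 0) (nat_lit 8729952253) (nat_lit 76) (nat_lit 15962553546) (nat_lit 76) (nat_lit 2162150964) (nat_lit 22) (nat_lit 4) (nat_lit 23) (nat_lit 5) (nat_lit 23) (nat_lit 4) (nat_lit 440) (nat_lit 399) (nat_lit 361)) (XT.lf (nat_lit 0) (nat_lit 4951016878) (nat_lit 152) (nat_lit 3560286683) (nat_lit 76) (nat_lit 19835284132) (nat_lit 21) (nat_lit 5) (nat_lit 23) (nat_lit 5) (nat_lit 22) (nat_lit 4) (nat_lit 441) (nat_lit 399) (nat_lit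 360)))) (XT.nd (nat_lit 78) (nat_lit 76) (nat_lit 0) (XT.lf (nat_lit 0) (nat_lit 12634574172) (nat_lit 76) (nat_lit 128252238) (nat_lit 152) (nat_lit 17170848580) (nat_lit 20) (nat_lit 5) (nat_lit 21) (nat_lit 5) (nat_lit 22) (nat_lit 4) (nat_lit 442) (nat_lit 399) (nat_lit 359)) (XT.nd (nat_lit 78) (nat_lit 76) (nat_lit 0) (XT.lf (nat_lit 0) (nat_lit 21457063477) (nat_lit 152) (nat_lit 1640630042) (nat_lit 0) (nat_lit 8529443352) (nat_lit 20) (nat_lit 5) (nat_lit 22) (nat_lit 4) (nat_lit 20) (nat_lit 4) (nat_lit 443) (nat_lit 399) (nat_lit 358)) (XT.lf (nat_lit 0) (nat_lit 15962937064) (nat_lit 76) (nat_lit 15218321092) (nat_lit 76) (nat_lit 2248069817) (nat_lit 19) (nat_lit 4) (nat_lit 20) (nat_lit 5) (nat_lit 20) (nat_lit 4) (nat_lit 444) (nat_lit 399) (nat_lit 357))))) (XT.nd (nat_lit 234) (nat_lit 228) (nat_lit 0) (XT.nd (nat_lit 78) (nat_lit 76) (nat_lit 0) (XT.lf (nat_lit 0) (nat_lit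 5985524312) (nat_lit 152) (nat_lit 559833992) (nat_lit 76) (nat_lit 28818735649) (nat_lit 18) (nat_lit 5) (nat_lit 20) (nat_lit 5) (nat_lit 19) (nat_lit 4) (nat_lit 445) (nat_lit 399) (nat_lit 356)) (XT.nd (nat_lit 78) (nat_lit 0) (nat_lit 0) (XT.lf (nat_lit 0) (nat_lit 15231576297) (nat_lit 152) (nat_lit 19027687161) (nat_lit 0) (nat_lit 3151693055) (nat_lit 17) (nat_lit 5) (nat_lit 19) (nat_lit 4) (nat_lit 17) (nat_lit 4) (nat_lit 446) (nat_lit 399) (nat_lit 355)) (XT.lf (nat_lit 0) (nat_lit 25354552142) (nat_lit 152) (nat_lit 1012707263) (nat_lit 0) (nat_lit 13243333731) (nat_lit 17) (nat_lit 5) (nat_lit 19) (nat_lit 4) (nat_lit 17) (nat_lit 4) (nat_lit 447) (nat_lit 399) (nat_lit 354)))) (XT.nd (nat_lit 78) (nat_lit 152) (nat_lit 0) (XT.lf (nat_lit 0) (nat_lit 19321476119) (nat_lit 76) (nat_lit 17385688529) (nat_lit 76) (nat_lit 5245456074) (nat_lit 16) (nat_lit 4) (nat_lit 17) (nat_lit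 5) (nat_lit 17) (nat_lit 4) (nat_lit 448) (nat_lit 399) (nat_lit 353)) (XT.nd (nat_lit 78) (nat_lit 76) (nat_lit 0) (XT.lf (nat_lit 0) (nat_lit 4245206578) (nat_lit 152) (nat_lit 3337067626) (nat_lit 76) (nat_lit 36892417639) (nat_lit 15) (nat_lit 5) (nat_lit 17) (nat_lit 5) (nat_lit 16) (nat_lit 4) (nat_lit 449) (nat_lit 399) (nat_lit 352)) (XT.lf (nat_lit 0) (nat_lit 14694007253) (nat_lit 152) (nat_lit 29049898668) (nat_lit 0) (nat_lit 3405144126) (nat_lit 14) (nat_lit 5) (nat_lit 16) (nat_lit 4) (nat_lit 14) (nat_lit 4) (nat_lit 450) (nat_lit 399) (nat_lit 351))))))))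
noncomputable def xc91 : XT := (XT.nd (nat_lit 1716) (nat_lit 228) (nat_lit 0) (XT.nd (nat_lit 858) (nat_lit 304) (nat_lit 0) (XT.nd (nat_lit 390) (nat_lit 228) (nat_lit 0) (XT.nd (nat_lit 156) (nat_lit 152) (nat_lit 0) (XT.nd (nat_lit 78) (nat_lit 76) (nat_lit 0) (XT.lf (nat_lit 0) (nat_lit 26228002691) (nat_lit 152) (nat_lit 8871600467) (nat_lit 0) (nat_lit 14917813375) (nat_lit 14) (nat_lit 5) (nat_lit 16) (nat_lit 4) (nat_lit 14) (nat_lit 4) (nat_lit 451) (nat_lit 399) (nat_lit 350)) (XT.lf (nat_lit 0) (nat_lit 13521158911) (nat_lit 76) (nat_lit 25450536822) (nat_lit 76) (nat_lit 14120601035) (nat_lit 13) (nat_lit 4) (nat_lit 14) (nat_lit 5) (nat_lit 14) (nat_lit 4) (nat_lit 452) (nat_lit 399) (nat_lit 349))) (XT.nd (nat_lit 78) (nat_lit 152) (nat_lit 0) (XT.lf (nat_lit 0) (nat_lit 38135617765) (nat_lit 76) (nat_lit 14804669712) (nat_lit 76) (nat_lit 3456450155) (nat_lit 13) (nat_lit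 4) (nat_lit 14) (nat_lit 5) (nat_lit 14) (nat_lit 4) (nat_lit 453) (nat_lit 399) (nat_lit 348)) (XT.nd (nat_lit 78) (nat_lit 0) (nat_lit 0) (XT.lf (nat_lit 0) (nat_lit 4725612874) (nat_lit 76) (nat_lit 3010330321) (nat_lit 152) (nat_lit 52207815960) (nat_lit 11) (nat_lit 5) (nat_lit 12) (nat_lit 5) (nat_lit 13) (nat_lit 4) (nat_lit 454) (nat_lit 399) (nat_lit 347)) (XT.lf (nat_lit 0) (nat_lit 20348023158) (nat_lit 152) (nat_lit 33552233482) (nat_lit 0) (nat_lit 9810222827) (nat_lit 11) (nat_lit 5) (nat_lit 13) (nat_lit 4) (nat_lit 11) (nat_lit 4) (nat_lit 455) (nat_lit 399) (nat_lit 346))))) (XT.nd (nat_lit 234) (nat_lit 152) (nat_lit 0) (XT.nd (nat_lit 78) (nat_lit 76) (nat_lit 0) (XT.lf (nat_lit 0) (nat_lit 34014690734) (nat_lit 152) (nat_lit 10296747503) (nat_lit 0) (nat_lit 23463451286) (nat_lit 11) (nat_lit 5) (nat_lit 13) (nat_lit 4) (nat_lit 11) (nat_lit 4) (nat_lit 456) (nat_lit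 399) (nat_lit 345)) (XT.nd (nat_lit 78) (nat_lit 0) (nat_lit 0) (XT.lf (nat_lit 0) (nat_lit 15535677990) (nat_lit 76) (nat_lit 33582490504) (nat_lit 76) (nat_lit 23018807430) (nat_lit 10) (nat_lit 4) (nat_lit 11) (nat_lit 5) (nat_lit 11) (nat_lit 4) (nat_lit 457) (nat_lit 399) (nat_lit 344)) (XT.lf (nat_lit 0) (nat_lit 43961161400) (nat_lit 76) (nat_lit 21720949707) (nat_lit 76) (nat_lit 11145744757) (nat_lit 10) (nat_lit 4) (nat_lit 11) (nat_lit 5) (nat_lit 11) (nat_lit 4) (nat_lit 458) (nat_lit 399) (nat_lit 343)))) (XT.nd (nat_lit 78) (nat_lit 76) (nat_lit 0) (XT.lf (nat_lit 0) (nat_lit 1565386325) (nat_lit 152) (nat_lit 7329869796) (nat_lit 76) (nat_lit 72997754797) (nat_lit 9) (nat_lit 5) (nat_lit 11) (nat_lit 5) (nat_lit 10) (nat_lit 4) (nat_lit 459) (nat_lit 399) (nat_lit 342)) (XT.nd (nat_lit 78) (nat_lit 0) (nat_lit 0) (XT.lf (nat_lit 0) (nat_lit 15308627507) (nat_lit 152) (nat_lit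 66484455288) (nat_lit 0) (nat_lit 5497746483) (nat_lit 8) (nat_lit 5) (nat_lit 10) (nat_lit 4) (nat_lit 8) (nat_lit 4) (nat_lit 460) (nat_lit 399) (nat_lit 341)) (XT.lf (nat_lit 0) (nat_lit 30562253783) (nat_lit 152) (nat_lit 41782442568) (nat_lit 0) (nat_lit 20742903836) (nat_lit 8) (nat_lit 5) (nat_lit 10) (nat_lit 4) (nat_lit 8) (nat_lit 4) (nat_lit 461) (nat_lit 399) (nat_lit 340)))))) (XT.nd (nat_lit 390) (nat_lit 152) (nat_lit 0) (XT.nd (nat_lit 156) (nat_lit 76) (nat_lit 0) (XT.nd (nat_lit 78) (nat_lit 76) (nat_lit 0) (XT.lf (nat_lit 0) (nat_lit 47012339661) (nat_lit 152) (nat_lit 15152532490) (nat_lit 0) (nat_lit 37185148118) (nat_lit 8) (nat_lit 5) (nat_lit 10) (nat_lit 4) (nat_lit 8) (nat_lit 4) (nat_lit 462) (nat_lit 399) (nat_lit 339)) (XT.lf (nat_lit 0) (nat_lit 14277289671) (nat_lit 76) (nat_lit 50822446618) (nat_lit 76) (nat_lit 40987994339) (nat_lit 7) (nat_lit 4) (nat_lit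 8) (nat_lit 5) (nat_lit 8) (nat_lit 4) (nat_lit 463) (nat_lit 399) (nat_lit 338))) (XT.nd (nat_lit 78) (nat_lit 76) (nat_lit 0) (XT.lf (nat_lit 0) (nat_lit 46879678337) (nat_lit 76) (nat_lit 38147265036) (nat_lit 76) (nat_lit 28306089853) (nat_lit 7) (nat_lit 4) (nat_lit 8) (nat_lit 5) (nat_lit 8) (nat_lit 4) (nat_lit 464) (nat_lit 399) (nat_lit 337)) (XT.nd (nat_lit 78) (nat_lit 76) (nat_lit 0) (XT.lf (nat_lit 0) (nat_lit 82049927340) (nat_lit 76) (nat_lit 24478512309) (nat_lit 76) (nat_lit 14631112215) (nat_lit 7) (nat_lit 4) (nat_lit 8) (nat_lit 5) (nat_lit 8) (nat_lit 4) (nat_lit 465) (nat_lit 399) (nat_lit 336)) (XT.lf (nat_lit 0) (nat_lit 112073867) (nat_lit 152) (nat_lit 9620050255) (nat_lit 76) (nat_lit 119881314803) (nat_lit 6) (nat_lit 5) (nat_lit 8) (nat_lit 5) (nat_lit 7) (nat_lit 4) (nat_lit 466) (nat_lit 399) (nat_lit 335))))) (XT.nd (nat_lit 234) (nat_lit 76) (nat_lit 0)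 (XT.nd (nat_lit 78) (nat_lit 0) (nat_lit 0) (XT.lf (nat_lit 0) (nat_lit 15951739725) (nat_lit 152) (nat_lit 115881398503) (nat_lit 0) (nat_lit 6823498282) (nat_lit 5) (nat_lit 5) (nat_lit 7) (nat_lit 4) (nat_lit 5) (nat_lit 4) (nat_lit 467) (nat_lit 399) (nat_lit 334)) (XT.nd (nat_lit 78) (nat_lit 0) (nat_lit 0) (XT.lf (nat_lit 0) (nat_lit 33563769813) (nat_lit 152) (nat_lit 90388152557) (nat_lit 0) (nat_lit 24430952874) (nat_lit 5) (nat_lit 5) (nat_lit 7) (nat_lit 4) (nat_lit 5) (nat_lit 4) (nat_lit 468) (nat_lit 399) (nat_lit 333)) (XT.lf (nat_lit 0) (nat_lit 52568602461) (nat_lit 152) (nat_lit 62888355022) (nat_lit 0) (nat_lit 43431548952) (nat_lit 5) (nat_lit 5) (nat_lit 7) (nat_lit 4) (nat_lit 5) (nat_lit 4) (nat_lit 469) (nat_lit 399) (nat_lit 332)))) (XT.nd (nat_lit 78) (nat_lit 76) (nat_lit 0) (XT.lf (nat_lit 0) (nat_lit 73078858901) (nat_lit 152) (nat_lit 33219044135) (nat_lit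 0) (nat_lit 63937882642) (nat_lit 5) (nat_lit 5) (nat_lit 7) (nat_lit 4) (nat_lit 5) (nat_lit 4) (nat_lit 470) (nat_lit 399) (nat_lit 331)) (XT.nd (nat_lit 78) (nat_lit 76) (nat_lit 0) (XT.lf (nat_lit 0) (nat_lit 95216081393) (nat_lit 152) (nat_lit 1204401758) (nat_lit 0) (nat_lit 86071472958) (nat_lit 5) (nat_lit 5) (nat_lit 7) (nat_lit 4) (nat_lit 5) (nat_lit 4) (nat_lit 471) (nat_lit 399) (nat_lit 330)) (XT.lf (nat_lit 0) (nat_lit 35101192307) (nat_lit 76) (nat_lit 84854445689) (nat_lit 76) (nat_lit 75706474128) (nat_lit 4) (nat_lit 4) (nat_lit 5) (nat_lit 5) (nat_lit 5) (nat_lit 4) (nat_lit 472) (nat_lit 399) (nat_lit 329))))))) (XT.nd (nat_lit 858) (nat_lit 76) (nat_lit 0) (XT.nd (nat_lit 390) (nat_lit 152) (nat_lit 0) (XT.nd (nat_lit 156) (nat_lit 0) (nat_lit 0) (XT.nd (nat_lit 78) (nat_lit 0) (nat_lit 0) (XT.lf (nat_lit 0) (nat_lit 74354267147) (nat_lit 76) (nat_lit 72340532124)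 (nat_lit 76) (nat_lit 63189446558) (nat_lit 4) (nat_lit 4) (nat_lit 5) (nat_lit 5) (nat_lit 5) (nat_lit 4) (nat_lit 473) (nat_lit 399) (nat_lit 328)) (XT.lf (nat_lit 0) (nat_lit 116724011914) (nat_lit 76) (nat_lit 58837516410) (nat_lit 76) (nat_lit 49683547506) (nat_lit 4) (nat_lit 4) (nat_lit 5) (nat_lit 5) (nat_lit 5) (nat_lit 4) (nat_lit 474) (nat_lit 399) (nat_lit 327))) (XT.nd (nat_lit 78) (nat_lit 0) (nat_lit 0) (XT.lf (nat_lit 0) (nat_lit 162461506576) (nat_lit 76) (nat_lit 44265380677) (nat_lit 76) (nat_lit 35108742015) (nat_lit 4) (nat_lit 4) (nat_lit 5) (nat_lit 5) (nat_lit 5) (nat_lit 4) (nat_lit 475) (nat_lit 399) (nat_lit 326)) (XT.nd (nat_lit 78) (nat_lit 0) (nat_lit 0) (XT.lf (nat_lit 0) (nat_lit 211837788138) (nat_lit 76) (nat_lit 28537771528) (nat_lit 76) (nat_lit 19378660868) (nat_lit 4) (nat_lit 4) (nat_lit 5) (nat_lit 5) (nat_lit 5) (nat_lit 4) (nat_lit 476) (nat_lit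 399) (nat_lit 325)) (XT.lf (nat_lit 0) (nat_lit 265145456787) (nat_lit 76) (nat_lit 11561488315) (nat_lit 76) (nat_lit 2400088768) (nat_lit 4) (nat_lit 4) (nat_lit 5) (nat_lit 5) (nat_lit 5) (nat_lit 4) (nat_lit 477) (nat_lit 399) (nat_lit 324))))) (XT.nd (nat_lit 234) (nat_lit 0) (nat_lit 0) (XT.nd (nat_lit 78) (nat_lit 0) (nat_lit 0) (XT.lf (nat_lit 0) (nat_lit 15882895301) (nat_lit 152) (nat_lit 276636891438) (nat_lit 0) (nat_lit 7398155592) (nat_lit 2) (nat_lit 5) (nat_lit 4) (nat_lit 4) (nat_lit 2) (nat_lit 4) (nat_lit 478) (nat_lit 399) (nat_lit 323)) (XT.nd (nat_lit 78) (nat_lit 0) (nat_lit 0) (XT.lf (nat_lit 0) (nat_lit 36182093350) (nat_lit 152) (nat_lit 258456447127) (nat_lit 0) (nat_lit 27695536648) (nat_lit 2) (nat_lit 5) (nat_lit 4) (nat_lit 4) (nat_lit 2) (nat_lit 4) (nat_lit 479) (nat_lit 399) (nat_lit 322)) (XT.lf (nat_lit 0) (nat_lit 58097166644) (nat_lit 152) (nat_lit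 238838053593) (nat_lit 0) (nat_lit 49608927541) (nat_lit 2) (nat_lit 5) (nat_lit 4) (nat_lit 4) (nat_lit 2) (nat_lit 4) (nat_lit 480) (nat_lit 399) (nat_lit 321)))) (XT.nd (nat_lit 78) (nat_lit 0) (nat_lit 0) (XT.lf (nat_lit 0) (nat_lit 81757982283) (nat_lit 152) (nat_lit 217665453690) (nat_lit 0) (nat_lit 73268185403) (nat_lit 2) (nat_lit 5) (nat_lit 4) (nat_lit 4) (nat_lit 2) (nat_lit 4) (nat_lit 481) (nat_lit 399) (nat_lit 320)) (XT.nd (nat_lit 78) (nat_lit 0) (nat_lit 0) (XT.lf (nat_lit 0) (nat_lit 107304752509) (nat_lit 152) (nat_lit 194813180158) (nat_lit 0) (nat_lit 98813513242) (nat_lit 2) (nat_lit 5) (nat_lit 4) (nat_lit 4) (nat_lit 2) (nat_lit 4) (nat_lit 482) (nat_lit 399) (nat_lit 319)) (XT.lf (nat_lit 0) (nat_lit 134888865590) (nat_lit 152) (nat_lit 170145812118) (nat_lit 0) (nat_lit 126396290779) (nat_lit 2) (nat_lit 5) (nat_lit 4) (nat_lit 4) (nat_lit 2) (nat_lit 4) (nat_lit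 483) (nat_lit 399) (nat_lit 318)))))) (XT.nd (nat_lit 468) (nat_lit 0) (nat_lit 0) (XT.nd (nat_lit 234) (nat_lit 76) (nat_lit 0) (XT.nd (nat_lit 78) (nat_lit 0) (nat_lit 0) (XT.lf (nat_lit 0) (nat_lit 164673782936) (nat_lit 152) (nat_lit 143517172573) (nat_lit 0) (nat_lit 156179971511) (nat_lit 2) (nat_lit 5) (nat_lit 4) (nat_lit 4) (nat_lit 2) (nat_lit 4) (nat_lit 484) (nat_lit 399) (nat_lit 317)) (XT.nd (nat_lit 78) (nat_lit 0) (nat_lit 0) (XT.lf (nat_lit 0) (nat_lit 196836007761) (nat_lit 152) (nat_lit 114769462178) (nat_lit 0) (nat_lit 188341051323) (nat_lit 2) (nat_lit 5) (nat_lit 4) (nat_lit 4) (nat_lit 2) (nat_lit 4) (nat_lit 485) (nat_lit 399) (nat_lit 316)) (XT.lf (nat_lit 0) (nat_lit 231566131028) (nat_lit 152) (nat_lit 83732324131) (nat_lit 0) (nat_lit 223070114392) (nat_lit 2) (nat_lit 5) (nat_lit 4) (nat_lit 4) (nat_lit 2) (nat_lit 4) (nat_lit 486) (nat_lit 399) (nat_lit 315))))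 (XT.nd (nat_lit 78) (nat_lit 76) (nat_lit 0) (XT.lf (nat_lit 0) (nat_lit 269069960875) (nat_lit 152) (nat_lit 50221834651) (nat_lit 0) (nat_lit 260572962574) (nat_lit 2) (nat_lit 5) (nat_lit 4) (nat_lit 4) (nat_lit 2) (nat_lit 4) (nat_lit 487) (nat_lit 399) (nat_lit 314)) (XT.nd (nat_lit 78) (nat_lit 76) (nat_lit 0) (XT.lf (nat_lit 0) (nat_lit 309569742218) (nat_lit 152) (nat_lit 14039413060) (nat_lit 0) (nat_lit 301071834969) (nat_lit 2) (nat_lit 5) (nat_lit 4) (nat_lit 4) (nat_lit 2) (nat_lit 4) (nat_lit 488) (nat_lit 399) (nat_lit 313)) (XT.lf (nat_lit 0) (nat_lit 26347356471) (nat_lit 76) (nat_lit 327591771847) (nat_lit 76) (nat_lit 319093022980) (nat_lit 1) (nat_lit 4) (nat_lit 2) (nat_lit 5) (nat_lit 2) (nat_lit 4) (nat_lit 489) (nat_lit 399) (nat_lit 312))))) (XT.nd (nat_lit 234) (nat_lit 0) (nat_lit 0) (XT.nd (nat_lit 78) (nat_lit 0) (nat_lit 0) (XT.lf (nat_lit 0) (nat_lit 70755462951)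 (nat_lit 76) (nat_lit 331482537846) (nat_lit 76) (nat_lit 322983009702) (nat_lit 1) (nat_lit 4) (nat_lit 2) (nat_lit 5) (nat_lit 2) (nat_lit 4) (nat_lit 490) (nat_lit 399) (nat_lit 311)) (XT.nd (nat_lit 78) (nat_lit 0) (nat_lit 0) (XT.lf (nat_lit 0) (nat_lit 118708774919) (nat_lit 76) (nat_lit 335688372099) (nat_lit 76) (nat_lit 327188122401) (nat_lit 1) (nat_lit 4) (nat_lit 2) (nat_lit 5) (nat_lit 2) (nat_lit 4) (nat_lit 491) (nat_lit 399) (nat_lit 310)) (XT.lf (nat_lit 0) (nat_lit 170491460148) (nat_lit 76) (nat_lit 340234198067) (nat_lit 76) (nat_lit 331733280265) (nat_lit 1) (nat_lit 4) (nat_lit 2) (nat_lit 5) (nat_lit 2) (nat_lit 4) (nat_lit 492) (nat_lit 399) (nat_lit 309)))) (XT.nd (nat_lit 78) (nat_lit 0) (nat_lit 0) (XT.lf (nat_lit 0) (nat_lit 226410378996) (nat_lit 76) (nat_lit 345146953979) (nat_lit 76) (nat_lit 336645417562) (nat_lit 1) (nat_lit 4) (nat_lit 2) (nat_lit 5) (nat_lit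 2) (nat_lit 4) (nat_lit 493) (nat_lit 399) (nat_lit 308)) (XT.nd (nat_lit 78) (nat_lit 0) (nat_lit 0) (XT.lf (nat_lit 0) (nat_lit 286796902833) (nat_lit 76) (nat_lit 350455752462) (nat_lit 76) (nat_lit 341953643254) (nat_lit 1) (nat_lit 4) (nat_lit 2) (nat_lit 5) (nat_lit 2) (nat_lit 4) (nat_lit 494) (nat_lit 399) (nat_lit 307)) (XT.lf (nat_lit 0) (nat_lit 352008877727) (nat_lit 76) (nat_lit 356192053063) (nat_lit 76) (nat_lit 347689413492) (nat_lit 1) (nat_lit 4) (nat_lit 2) (nat_lit 5) (nat_lit 2) (nat_lit 4) (nat_lit 495) (nat_lit 399) (nat_lit 306))))))))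
noncomputable def xc92 : XT := (XT.nd (nat_lit 1716) (nat_lit 0) (nat_lit 0) (XT.nd (nat_lit 858) (nat_lit 0) (nat_lit 0) (XT.nd (nat_lit 390) (nat_lit 0) (nat_lit 0) (XT.nd (nat_lit 156) (nat_lit 0) (nat_lit 0) (XT.nd (nat_lit 78) (nat_lit 0) (nat_lit 0) (XT.lf (nat_lit 0) (nat_lit 422432745010) (nat_lit 76) (nat_lit 362389848675) (nat_lit 76) (nat_lit 353886718028) (nat_lit 1) (nat_lit 4) (nat_lit 2) (nat_lit 5) (nat_lit 2) (nat_lit 4) (nat_lit 496) (nat_lit 399) (nat_lit 305)) (XT.lf (nat_lit 0) (nat_lit 498485831303) (nat_lit 76) (nat_lit 369085866975) (nat_lit 76) (nat_lit 360582281627) (nat_lit 1) (nat_lit 4) (nat_lit 2) (nat_lit 5) (nat_lit 2) (nat_lit 4) (nat_lit 497) (nat_lit 399) (nat_lit 304))) (XT.nd (nat_lit 78) (nat_lit 0) (nat_lit 0) (XT.lf (nat_lit 0) (nat_lit 580618821562) (nat_lit 76) (nat_lit 376319788071) (nat_lit 76) (nat_lit 367815781704) (nat_lit 1) (nat_lit 4) (nat_lit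 2) (nat_lit 5) (nat_lit 2) (nat_lit 4) (nat_lit 498) (nat_lit 399) (nat_lit 303)) (XT.nd (nat_lit 78) (nat_lit 0) (nat_lit 0) (XT.lf (nat_lit 0) (nat_lit 669318429804) (nat_lit 76) (nat_lit 384134479645) (nat_lit 76) (nat_lit 375630083445) (nat_lit 1) (nat_lit 4) (nat_lit 2) (nat_lit 5) (nat_lit 2) (nat_lit 4) (nat_lit 499) (nat_lit 399) (nat_lit 302)) (XT.lf (nat_lit 0) (nat_lit 765110283336) (nat_lit 76) (nat_lit 392576250979) (nat_lit 76) (nat_lit 384071493823) (nat_lit 1) (nat_lit 4) (nat_lit 2) (nat_lit 5) (nat_lit 2) (nat_lit 4) (nat_lit 500) (nat_lit 399) (nat_lit 301))))) (XT.nd (nat_lit 234) (nat_lit 0) (nat_lit 0) (XT.nd (nat_lit 78) (nat_lit 0) (nat_lit 0) (XT.lf (nat_lit 0) (nat_lit 868562037587) (nat_lit 76) (nat_lit 401695127385) (nat_lit 76) (nat_lit 393190036011) (nat_lit 1) (nat_lit 4) (nat_lit 2) (nat_lit 5) (nat_lit 2) (nat_lit 4) (nat_lit 501) (nat_lit 399) (nat_lit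 300)) (XT.nd (nat_lit 78) (nat_lit 0) (nat_lit 0) (XT.lf (nat_lit 0) (nat_lit 980286739990) (nat_lit 76) (nat_lit 411545146649) (nat_lit 76) (nat_lit 403039745813) (nat_lit 1) (nat_lit 4) (nat_lit 2) (nat_lit 5) (nat_lit 2) (nat_lit 4) (nat_lit 502) (nat_lit 399) (nat_lit 299)) (XT.lf (nat_lit 0) (nat_lit 1100946462855) (nat_lit 76) (nat_lit 422184679256) (nat_lit 76) (nat_lit 413678991882) (nat_lit 1) (nat_lit 4) (nat_lit 2) (nat_lit 5) (nat_lit 2) (nat_lit 4) (nat_lit 503) (nat_lit 399) (nat_lit 298)))) (XT.nd (nat_lit 78) (nat_lit 0) (nat_lit 0) (XT.lf (nat_lit 0) (nat_lit 1231256226761) (nat_lit 76) (nat_lit 433676774288) (nat_lit 76) (nat_lit 425170821601) (nat_lit 1) (nat_lit 4) (nat_lit 2) (nat_lit 5) (nat_lit 2) (nat_lit 4) (nat_lit 504) (nat_lit 399) (nat_lit 297)) (XT.nd (nat_lit 78) (nat_lit 0) (nat_lit 0) (XT.lf (nat_lit 0) (nat_lit 1371988237718) (nat_lit 76) (nat_lit 446089533049)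 (nat_lit 76) (nat_lit 437583334701) (nat_lit 1) (nat_lit 4) (nat_lit 2) (nat_lit 5) (nat_lit 2) (nat_lit 4) (nat_lit 505) (nat_lit 399) (nat_lit 296)) (XT.lf (nat_lit 0) (nat_lit 1523976463197) (nat_lit 76) (nat_lit 459496512627) (nat_lit 76) (nat_lit 450990086816) (nat_lit 1) (nat_lit 4) (nat_lit 2) (nat_lit 5) (nat_lit 2) (nat_lit 4) (nat_lit 506) (nat_lit 399) (nat_lit 295)))))) (XT.nd (nat_lit 390) (nat_lit 0) (nat_lit 0) (XT.nd (nat_lit 156) (nat_lit 0) (nat_lit 0) (XT.nd (nat_lit 78) (nat_lit 0) (nat_lit 0) (XT.lf (nat_lit 0) (nat_lit 1688121574165) (nat_lit 76) (nat_lit 473977161791) (nat_lit 76) (nat_lit 465470525365) (nat_lit 1) (nat_lit 4) (nat_lit 2) (nat_lit 5) (nat_lit 2) (nat_lit 4) (nat_lit 507) (nat_lit 399) (nat_lit 294)) (XT.lf (nat_lit 0) (nat_lit 1865396282390) (nat_lit 76) (nat_lit 489617291795) (nat_lit 76) (nat_lit 481110460356) (nat_lit 1) (nat_lit 4) (nat_lit 2)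 (nat_lit 5) (nat_lit 2) (nat_lit 4) (nat_lit 508) (nat_lit 399) (nat_lit 293))) (XT.nd (nat_lit 78) (nat_lit 0) (nat_lit 0) (XT.lf (nat_lit 0) (nat_lit 2056851104661) (nat_lit 76) (nat_lit 506509584891) (nat_lit 76) (nat_lit 498002572884) (nat_lit 1) (nat_lit 4) (nat_lit 2) (nat_lit 5) (nat_lit 2) (nat_lit 4) (nat_lit 509) (nat_lit 399) (nat_lit 292)) (XT.nd (nat_lit 78) (nat_lit 0) (nat_lit 0) (XT.lf (nat_lit 0) (nat_lit 2263620588074) (nat_lit 76) (nat_lit 524754143556) (nat_lit 76) (nat_lit 516246964357) (nat_lit 1) (nat_lit 4) (nat_lit 2) (nat_lit 5) (nat_lit 2) (nat_lit 4) (nat_lit 510) (nat_lit 399) (nat_lit 291)) (XT.lf (nat_lit 0) (nat_lit 2486930033271) (nat_lit 76) (nat_lit 544459083694) (nat_lit 76) (nat_lit 535951749686) (nat_lit 1) (nat_lit 4) (nat_lit 2) (nat_lit 5) (nat_lit 2) (nat_lit 4) (nat_lit 511) (nat_lit 399) (nat_lit 290))))) (XT.nd (nat_lit 234) (nat_lit 0) (nat_lit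 0) (XT.nd (nat_lit 78) (nat_lit 0) (nat_lit 0) (XT.lf (nat_lit 0) (nat_lit 2728102755483) (nat_lit 76) (nat_lit 565741175319) (nat_lit 76) (nat_lit 557233697972) (nat_lit 1) (nat_lit 4) (nat_lit 2) (nat_lit 5) (nat_lit 2) (nat_lit 4) (nat_lit 512) (nat_lit 399) (nat_lit 289)) (XT.nd (nat_lit 78) (nat_lit 0) (nat_lit 0) (XT.lf (nat_lit 0) (nat_lit 2988567926397) (nat_lit 76) (nat_lit 588726534532) (nat_lit 76) (nat_lit 580218924461) (nat_lit 1) (nat_lit 4) (nat_lit 2) (nat_lit 5) (nat_lit 2) (nat_lit 4) (nat_lit 513) (nat_lit 399) (nat_lit 288)) (XT.lf (nat_lit 0) (nat_lit 3269869043321) (nat_lit 76) (nat_lit 613551370867) (nat_lit 76) (nat_lit 605043637905) (nat_lit 1) (nat_lit 4) (nat_lit 2) (nat_lit 5) (nat_lit 2) (nat_lit 4) (nat_lit 514) (nat_lit 399) (nat_lit 287)))) (XT.nd (nat_lit 78) (nat_lit 0) (nat_lit 0) (XT.lf (nat_lit 0) (nat_lit 3573673075839) (nat_lit 76) (nat_lit 640362794467)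 (nat_lit 76) (nat_lit 631854947717) (nat_lit 1) (nat_lit 4) (nat_lit 2) (nat_lit 5) (nat_lit 2) (nat_lit 4) (nat_lit 515) (nat_lit 399) (nat_lit 286)) (XT.nd (nat_lit 78) (nat_lit 0) (nat_lit 0) (XT.lf (nat_lit 0) (nat_lit 3901780344142) (nat_lit 76) (nat_lit 669319687841) (nat_lit 76) (nat_lit 660811735731) (nat_lit 1) (nat_lit 4) (nat_lit 2) (nat_lit 5) (nat_lit 2) (nat_lit 4) (nat_lit 516) (nat_lit 399) (nat_lit 285)) (XT.lf (nat_lit 0) (nat_lit 4256135187598) (nat_lit 76) (nat_lit 700593647394) (nat_lit 76) (nat_lit 692085597729) (nat_lit 1) (nat_lit 4) (nat_lit 2) (nat_lit 5) (nat_lit 2) (nat_lit 4) (nat_lit 517) (nat_lit 399) (nat_lit 284))))))) (XT.nd (nat_lit 53274) (nat_lit 0) (nat_lit 5016) (XT.nd (nat_lit 390) (nat_lit 0) (nat_lit 0) (XT.nd (nat_lit 156) (nat_lit 0) (nat_lit 0) (XT.nd (nat_lit 78) (nat_lit 0) (nat_lit 0) (XT.lf (nat_lit 0) (nat_lit 4638837486762) (nat_lit 76)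 (nat_lit 734370000294) (nat_lit 76) (nat_lit 725861860300) (nat_lit 1) (nat_lit 4) (nat_lit 2) (nat_lit 5) (nat_lit 2) (nat_lit 4) (nat_lit 518) (nat_lit 399) (nat_lit 283)) (XT.lf (nat_lit 0) (nat_lit 5052155107109) (nat_lit 76) (nat_lit 770848902707) (nat_lit 76) (nat_lit 762340679075) (nat_lit 1) (nat_lit 4) (nat_lit 2) (nat_lit 5) (nat_lit 2) (nat_lit 4) (nat_lit 519) (nat_lit 399) (nat_lit 282))) (XT.nd (nat_lit 78) (nat_lit 0) (nat_lit 0) (XT.lf (nat_lit 0) (nat_lit 5498537338242) (nat_lit 76) (nat_lit 810246525906) (nat_lit 76) (nat_lit 801738224832) (nat_lit 1) (nat_lit 4) (nat_lit 2) (nat_lit 5) (nat_lit 2) (nat_lit 4) (nat_lit 520) (nat_lit 399) (nat_lit 281)) (XT.nd (nat_lit 78) (nat_lit 0) (nat_lit 0) (XT.lf (nat_lit 0) (nat_lit 5980629408196) (nat_lit 76) (nat_lit 852796337288) (nat_lit 76) (nat_lit 844287964507) (nat_lit 1) (nat_lit 4) (nat_lit 2) (nat_lit 5) (nat_lit 2) (nat_lit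 4) (nat_lit 521) (nat_lit 399) (nat_lit 280)) (XT.lf (nat_lit 0) (nat_lit 6501288158869) (nat_lit 76) (nat_lit 898750483882) (nat_lit 76) (nat_lit 890242044708) (nat_lit 1) (nat_lit 4) (nat_lit 2) (nat_lit 5) (nat_lit 2) (nat_lit 4) (nat_lit 522) (nat_lit 399) (nat_lit 279))))) (XT.nd (nat_lit 234) (nat_lit 0) (nat_lit 0) (XT.nd (nat_lit 78) (nat_lit 0) (nat_lit 0) (XT.lf (nat_lit 0) (nat_lit 7063598975449) (nat_lit 76) (nat_lit 948381286559) (nat_lit 76) (nat_lit 939872785908) (nat_lit 1) (nat_lit 4) (nat_lit 2) (nat_lit 5) (nat_lit 2) (nat_lit 4) (nat_lit 523) (nat_lit 399) (nat_lit 278)) (XT.nd (nat_lit 78) (nat_lit 0) (nat_lit 0) (XT.lf (nat_lit 0) (nat_lit 7670894070182) (nat_lit 76) (nat_lit 1001982853778) (nat_lit 76) (nat_lit 993474296205) (nat_lit 1) (nat_lit 4) (nat_lit 2) (nat_lit 5) (nat_lit 2) (nat_lit 4) (nat_lit 524) (nat_lit 399) (nat_lit 277)) (XT.lf (nat_lit 0) (nat_lit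 8326772228816) (nat_lit 76) (nat_lit 1059872824456) (nat_lit 76) (nat_lit 1051364214177) (nat_lit 1) (nat_lit 4) (nat_lit 2) (nat_lit 5) (nat_lit 2) (nat_lit 4) (nat_lit 525) (nat_lit 399) (nat_lit 276)))) (XT.nd (nat_lit 78) (nat_lit 0) (nat_lit 0) (XT.lf (nat_lit 0) (nat_lit 9035120136734) (nat_lit 76) (nat_lit 1122394250272) (nat_lit 76) (nat_lit 1113885591190) (nat_lit 1) (nat_lit 4) (nat_lit 2) (nat_lit 5) (nat_lit 2) (nat_lit 4) (nat_lit 526) (nat_lit 399) (nat_lit 275)) (XT.nd (nat_lit 78) (nat_lit 0) (nat_lit 0) (XT.lf (nat_lit 0) (nat_lit 9800135411170) (nat_lit 76) (nat_lit 1189917628562) (nat_lit 76) (nat_lit 1181408924294) (nat_lit 1) (nat_lit 4) (nat_lit 2) (nat_lit 5) (nat_lit 2) (nat_lit 4) (nat_lit 527) (nat_lit 399) (nat_lit 274)) (XT.lf (nat_lit 0) (nat_lit 10626351475970) (nat_lit 76) (nat_lit 1262843097866) (nat_lit 76) (nat_lit 1254334351758) (nat_lit 1) (nat_lit 4)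 (nat_lit 2) (nat_lit 5) (nat_lit 2) (nat_lit 4) (nat_lit 528) (nat_lit 399) (nat_lit 273)))))) (XT.nd (nat_lit 468) (nat_lit 1520) (nat_lit 0) (XT.nd (nat_lit 234) (nat_lit 304) (nat_lit 0) (XT.nd (nat_lit 78) (nat_lit 152) (nat_lit 0) (XT.lf (nat_lit 0) (nat_lit 1073741823) (nat_lit 0) (nat_lit 0) (nat_lit 0) (nat_lit 0) (nat_lit 93) (nat_lit 0) (nat_lit 1) (nat_lit 0) (nat_lit 1) (nat_lit 0) (nat_lit 400) (nat_lit 400) (nat_lit 400)) (XT.nd (nat_lit 78) (nat_lit 76) (nat_lit 0) (XT.lf (nat_lit 0) (nat_lit 3096598598) (nat_lit 76) (nat_lit 3193426249) (nat_lit 0) (nat_lit 158721662) (nat_lit 92) (nat_lit 5) (nat_lit 93) (nat_lit 0) (nat_lit 92) (nat_lit 4) (nat_lit 401) (nat_lit 400) (nat_lit 399)) (XT.lf (nat_lit 0) (nat_lit 138925863) (nat_lit 76) (nat_lit 5999654225) (nat_lit 76) (nat_lit 341520868) (nat_lit 91) (nat_lit 4) (nat_lit 92) (nat_lit 5) (nat_lit 92) (nat_lit 4) (nat_lit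 402) (nat_lit 400) (nat_lit 398)))) (XT.nd (nat_lit 78) (nat_lit 228) (nat_lit 0) (XT.lf (nat_lit 0) (nat_lit 2558838241) (nat_lit 152) (nat_lit 2854505759) (nat_lit 76) (nat_lit 1111780208) (nat_lit 90) (nat_lit 5) (nat_lit 92) (nat_lit 5) (nat_lit 91) (nat_lit 4) (nat_lit 403) (nat_lit 400) (nat_lit 397)) (XT.nd (nat_lit 78) (nat_lit 76) (nat_lit 0) (XT.lf (nat_lit 0) (nat_lit 759912747) (nat_lit 152) (nat_lit 4657867772) (nat_lit 228) (nat_lit 1175950554) (nat_lit 88) (nat_lit 5) (nat_lit 90) (nat_lit 5) (nat_lit 91) (nat_lit 4) (nat_lit 404) (nat_lit 400) (nat_lit 396)) (XT.lf (nat_lit 0) (nat_lit 1561567383) (nat_lit 228) (nat_lit 2071906060) (nat_lit 76) (nat_lit 3045797243) (nat_lit 87) (nat_lit 5) (nat_lit 90) (nat_lit 5) (nat_lit 88) (nat_lit 5) (nat_lit 405) (nat_lit 400) (nat_lit 395))))) (XT.nd (nat_lit 234) (nat_lit 912) (nat_lit 0) (XT.nd (nat_lit 78) (nat_lit 380) (nat_lit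 0) (XT.lf (nat_lit 0) (nat_lit 1878530660) (nat_lit 228) (nat_lit 2376578878) (nat_lit 304) (nat_lit 2530287698) (nat_lit 84) (nat_lit 5) (nat_lit 87) (nat_lit 5) (nat_lit 88) (nat_lit 5) (nat_lit 406) (nat_lit 400) (nat_lit 394)) (XT.nd (nat_lit 78) (nat_lit 304) (nat_lit 0) (XT.lf (nat_lit 0) (nat_lit 72209658) (nat_lit 304) (nat_lit 824545191) (nat_lit 76) (nat_lit 6017245440) (nat_lit 83) (nat_lit 5) (nat_lit 87) (nat_lit 5) (nat_lit 84) (nat_lit 5) (nat_lit 407) (nat_lit 400) (nat_lit 393)) (XT.lf (nat_lit 0) (nat_lit 2633645639) (nat_lit 380) (nat_lit 3556019742) (nat_lit 76) (nat_lit 867157165) (nat_lit 79) (nat_lit 5) (nat_lit 84) (nat_lit 5) (nat_lit 80) (nat_lit 5) (nat_lit 408) (nat_lit 400) (nat_lit 392)))) (XT.nd (nat_lit 78) (nat_lit 532) (nat_lit 0) (XT.lf (nat_lit 0) (nat_lit 844323030) (nat_lit 380) (nat_lit 4416355383) (nat_lit 456) (nat_lit 1961707904) (nat_lit 74) (nat_lit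 5) (nat_lit 79) (nat_lit 5) (nat_lit 80) (nat_lit 5) (nat_lit 409) (nat_lit 400) (nat_lit 391)) (XT.nd (nat_lit 78) (nat_lit 456) (nat_lit 0) (XT.lf (nat_lit 0) (nat_lit 561270852) (nat_lit 456) (nat_lit 1803649843) (nat_lit 76) (nat_lit 5043124643) (nat_lit 73) (nat_lit 5) (nat_lit 79) (nat_lit 5) (nat_lit 74) (nat_lit 5) (nat_lit 410) (nat_lit 400) (nat_lit 390)) (XT.lf (nat_lit 0) (nat_lit 3063181561) (nat_lit 456) (nat_lit 5120201) (nat_lit 532) (nat_lit 4545258459) (nat_lit 67) (nat_lit 5) (nat_lit 73) (nat_lit 5) (nat_lit 74) (nat_lit 5) (nat_lit 411) (nat_lit 400) (nat_lit 389))))))))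
noncomputable def xc93 : XT := (XT.nd (nat_lit 1716) (nat_lit 1368) (nat_lit 0) (XT.nd (nat_lit 858) (nat_lit 1064) (nat_lit 0) (XT.nd (nat_lit 390) (nat_lit 836) (nat_lit 0) (XT.nd (nat_lit 156) (nat_lit 456) (nat_lit 0) (XT.nd (nat_lit 78) (nat_lit 76) (nat_lit 0) (XT.lf (nat_lit 0) (nat_lit 360269375) (nat_lit 456) (nat_lit 5360309410) (nat_lit 532) (nat_lit 2119487983) (nat_lit 61) (nat_lit 5) (nat_lit 67) (nat_lit 5) (nat_lit 68) (nat_lit 5) (nat_lit 412) (nat_lit 400) (nat_lit 388)) (XT.lf (nat_lit 0) (nat_lit 431563989) (nat_lit 532) (nat_lit 2357689593) (nat_lit 76) (nat_lit 5298084976) (nat_lit 60) (nat_lit 5) (nat_lit 67) (nat_lit 5) (nat_lit 61) (nat_lit 5) (nat_lit 413) (nat_lit 400) (nat_lit 387))) (XT.nd (nat_lit 78) (nat_lit 228) (nat_lit 0) (XT.lf (nat_lit 0) (nat_lit 2990527671) (nat_lit 304) (nat_lit 5261391603) (nat_lit 76) (nat_lit 104701249) (nat_lit 57) (nat_lit 5)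 (nat_lit 61) (nat_lit 5) (nat_lit 58) (nat_lit 5) (nat_lit 414) (nat_lit 400) (nat_lit 386)) (XT.nd (nat_lit 78) (nat_lit 0) (nat_lit 0) (XT.lf (nat_lit 0) (nat_lit 230312341) (nat_lit 228) (nat_lit 5516344656) (nat_lit 304) (nat_lit 2901484165) (nat_lit 54) (nat_lit 5) (nat_lit 57) (nat_lit 5) (nat_lit 58) (nat_lit 5) (nat_lit 415) (nat_lit 400) (nat_lit 385)) (XT.lf (nat_lit 0) (nat_lit 6281949042) (nat_lit 228) (nat_lit 2440446387) (nat_lit 304) (nat_lit 240743709) (nat_lit 54) (nat_lit 5) (nat_lit 57) (nat_lit 5) (nat_lit 58) (nat_lit 5) (nat_lit 416) (nat_lit 400) (nat_lit 384))))) (XT.nd (nat_lit 234) (nat_lit 380) (nat_lit 0) (XT.nd (nat_lit 78) (nat_lit 228) (nat_lit 0) (XT.lf (nat_lit 0) (nat_lit 2470730483) (nat_lit 228) (nat_lit 5875884346) (nat_lit 76) (nat_lit 954163086) (nat_lit 51) (nat_lit 5) (nat_lit 54) (nat_lit 5) (nat_lit 52) (nat_lit 5) (nat_lit 417) (nat_lit 400) (nat_lit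 383)) (XT.nd (nat_lit 78) (nat_lit 0) (nat_lit 0) (XT.lf (nat_lit 0) (nat_lit 276644455) (nat_lit 228) (nat_lit 5122408614) (nat_lit 304) (nat_lit 4264907151) (nat_lit 48) (nat_lit 5) (nat_lit 51) (nat_lit 5) (nat_lit 52) (nat_lit 5) (nat_lit 418) (nat_lit 400) (nat_lit 382)) (XT.lf (nat_lit 0) (nat_lit 7082017965) (nat_lit 228) (nat_lit 1513591345) (nat_lit 304) (nat_lit 1457932986) (nat_lit 48) (nat_lit 5) (nat_lit 51) (nat_lit 5) (nat_lit 52) (nat_lit 5) (nat_lit 419) (nat_lit 400) (nat_lit 381)))) (XT.nd (nat_lit 78) (nat_lit 152) (nat_lit 0) (XT.lf (nat_lit 0) (nat_lit 1529139634) (nat_lit 228) (nat_lit 6582784509) (nat_lit 76) (nat_lit 2356652203) (nat_lit 45) (nat_lit 5) (nat_lit 48) (nat_lit 5) (nat_lit 46) (nat_lit 5) (nat_lit 420) (nat_lit 400) (nat_lit 380)) (XT.nd (nat_lit 78) (nat_lit 0) (nat_lit 0) (XT.lf (nat_lit 0) (nat_lit 315906727) (nat_lit 152) (nat_lit 4374229054) (nat_lit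 228) (nat_lit 6222599655) (nat_lit 43) (nat_lit 5) (nat_lit 45) (nat_lit 5) (nat_lit 46) (nat_lit 5) (nat_lit 421) (nat_lit 400) (nat_lit 379)) (XT.lf (nat_lit 0) (nat_lit 7974213979) (nat_lit 152) (nat_lit 197862983) (nat_lit 228) (nat_lit 3214951087) (nat_lit 43) (nat_lit 5) (nat_lit 45) (nat_lit 5) (nat_lit 46) (nat_lit 5) (nat_lit 422) (nat_lit 400) (nat_lit 378)))))) (XT.nd (nat_lit 390) (nat_lit 532) (nat_lit 0) (XT.nd (nat_lit 156) (nat_lit 152) (nat_lit 0) (XT.nd (nat_lit 78) (nat_lit 152) (nat_lit 0) (XT.lf (nat_lit 0) (nat_lit 136438097) (nat_lit 228) (nat_lit 7598914078) (nat_lit 76) (nat_lit 4155503666) (nat_lit 40) (nat_lit 5) (nat_lit 43) (nat_lit 5) (nat_lit 41) (nat_lit 5) (nat_lit 423) (nat_lit 400) (nat_lit 377)) (XT.lf (nat_lit 0) (nat_lit 132377465) (nat_lit 152) (nat_lit 3450406452) (nat_lit 228) (nat_lit 8845519147) (nat_lit 38) (nat_lit 5) (nat_lit 40) (nat_lit 5)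 (nat_lit 41) (nat_lit 5) (nat_lit 424) (nat_lit 400) (nat_lit 376))) (XT.nd (nat_lit 78) (nat_lit 152) (nat_lit 0) (XT.lf (nat_lit 0) (nat_lit 7445226071) (nat_lit 228) (nat_lit 4276792083) (nat_lit 76) (nat_lit 1275530645) (nat_lit 38) (nat_lit 5) (nat_lit 41) (nat_lit 5) (nat_lit 39) (nat_lit 4) (nat_lit 425) (nat_lit 400) (nat_lit 375)) (XT.nd (nat_lit 78) (nat_lit 76) (nat_lit 0) (XT.lf (nat_lit 0) (nat_lit 4359278012) (nat_lit 76) (nat_lit 7358244858) (nat_lit 152) (nat_lit 1886773904) (nat_lit 37) (nat_lit 5) (nat_lit 38) (nat_lit 5) (nat_lit 39) (nat_lit 4) (nat_lit 426) (nat_lit 400) (nat_lit 374)) (XT.lf (nat_lit 0) (nat_lit 1995712145) (nat_lit 152) (nat_lit 527712402) (nat_lit 76) (nat_lit 11730012799) (nat_lit 36) (nat_lit 5) (nat_lit 38) (nat_lit 5) (nat_lit 37) (nat_lit 5) (nat_lit 427) (nat_lit 400) (nat_lit 373))))) (XT.nd (nat_lit 234) (nat_lit 304) (nat_lit 0) (XT.nd (nat_lit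 78) (nat_lit 76) (nat_lit 0) (XT.lf (nat_lit 0) (nat_lit 6291743620) (nat_lit 228) (nat_lit 5857185907) (nat_lit 76) (nat_lit 2785293424) (nat_lit 34) (nat_lit 5) (nat_lit 37) (nat_lit 5) (nat_lit 35) (nat_lit 4) (nat_lit 428) (nat_lit 400) (nat_lit 372)) (XT.nd (nat_lit 78) (nat_lit 0) (nat_lit 0) (XT.lf (nat_lit 0) (nat_lit 3791259239) (nat_lit 76) (nat_lit 7227613441) (nat_lit 152) (nat_lit 4643628543) (nat_lit 33) (nat_lit 5) (nat_lit 34) (nat_lit 5) (nat_lit 35) (nat_lit 4) (nat_lit 429) (nat_lit 400) (nat_lit 371)) (XT.lf (nat_lit 0) (nat_lit 14404000021) (nat_lit 76) (nat_lit 1799053279) (nat_lit 152) (nat_lit 239699276) (nat_lit 33) (nat_lit 5) (nat_lit 34) (nat_lit 5) (nat_lit 35) (nat_lit 4) (nat_lit 430) (nat_lit 400) (nat_lit 370)))) (XT.nd (nat_lit 78) (nat_lit 76) (nat_lit 0) (XT.lf (nat_lit 0) (nat_lit 4529127005) (nat_lit 228) (nat_lit 8594311076) (nat_lit 76) (nat_lit 4134232910)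 (nat_lit 30) (nat_lit 5) (nat_lit 33) (nat_lit 5) (nat_lit 31) (nat_lit 4) (nat_lit 431) (nat_lit 400) (nat_lit 369)) (XT.nd (nat_lit 78) (nat_lit 0) (nat_lit 0) (XT.lf (nat_lit 0) (nat_lit 2120349224) (nat_lit 76) (nat_lit 7625072742) (nat_lit 152) (nat_lit 8385566757) (nat_lit 29) (nat_lit 5) (nat_lit 30) (nat_lit 5) (nat_lit 31) (nat_lit 4) (nat_lit 432) (nat_lit 400) (nat_lit 368)) (XT.lf (nat_lit 0) (nat_lit 14048800487) (nat_lit 76) (nat_lit 1491653789) (nat_lit 152) (nat_lit 3520818564) (nat_lit 29) (nat_lit 5) (nat_lit 30) (nat_lit 5) (nat_lit 31) (nat_lit 4) (nat_lit 433) (nat_lit 400) (nat_lit 367))))))) (XT.nd (nat_lit 858) (nat_lit 608) (nat_lit 0) (XT.nd (nat_lit 390) (nat_lit 380) (nat_lit 0) (XT.nd (nat_lit 156) (nat_lit 228) (nat_lit 0) (XT.nd (nat_lit 78) (nat_lit 0) (nat_lit 0) (XT.lf (nat_lit 0) (nat_lit 1873664127) (nat_lit 152) (nat_lit 13131746295) (nat_lit 76) (nat_lit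 5039068049) (nat_lit 27) (nat_lit 5) (nat_lit 29) (nat_lit 5) (nat_lit 28) (nat_lit 4) (nat_lit 434) (nat_lit 400) (nat_lit 366)) (XT.lf (nat_lit 0) (nat_lit 7619853466) (nat_lit 152) (nat_lit 1279072922) (nat_lit 76) (nat_lit 12191281521) (nat_lit 27) (nat_lit 5) (nat_lit 29) (nat_lit 5) (nat_lit 28) (nat_lit 4) (nat_lit 435) (nat_lit 400) (nat_lit 365))) (XT.nd (nat_lit 78) (nat_lit 152) (nat_lit 0) (XT.lf (nat_lit 0) (nat_lit 12004787453) (nat_lit 76) (nat_lit 2045786123) (nat_lit 152) (nat_lit 8151046794) (nat_lit 26) (nat_lit 5) (nat_lit 27) (nat_lit 5) (nat_lit 28) (nat_lit 4) (nat_lit 436) (nat_lit 400) (nat_lit 364)) (XT.nd (nat_lit 78) (nat_lit 76) (nat_lit 0) (XT.lf (nat_lit 0) (nat_lit 2923194864) (nat_lit 76) (nat_lit 18244371834) (nat_lit 76) (nat_lit 2220644562) (nat_lit 25) (nat_lit 4) (nat_lit 26) (nat_lit 5) (nat_lit 26) (nat_lit 4) (nat_lit 437) (nat_lit 400) (nat_lit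 363)) (XT.lf (nat_lit 0) (nat_lit 4251193768) (nat_lit 152) (nat_lit 7254306533) (nat_lit 76) (nat_lit 13134082750) (nat_lit 24) (nat_lit 5) (nat_lit 26) (nat_lit 5) (nat_lit 25) (nat_lit 4) (nat_lit 438) (nat_lit 400) (nat_lit 362))))) (XT.nd (nat_lit 234) (nat_lit 228) (nat_lit 0) (XT.nd (nat_lit 78) (nat_lit 76) (nat_lit 0) (XT.lf (nat_lit 0) (nat_lit 7206251996) (nat_lit 76) (nat_lit 4029657544) (nat_lit 152) (nat_lit 14741340955) (nat_lit 23) (nat_lit 5) (nat_lit 24) (nat_lit 5) (nat_lit 25) (nat_lit 4) (nat_lit 439) (nat_lit 400) (nat_lit 361)) (XT.nd (nat_lit 78) (nat_lit 76) (nat_lit 0) (XT.lf (nat_lit 0) (nat_lit 19022478114) (nat_lit 152) (nat_lit 4382610045) (nat_lit 0) (nat_lit 3997404971) (nat_lit 23) (nat_lit 5) (nat_lit 25) (nat_lit 4) (nat_lit 23) (nat_lit 4) (nat_lit 440) (nat_lit 400) (nat_lit 360)) (XT.lf (nat_lit 0) (nat_lit 11526620752) (nat_lit 76) (nat_lit 16233820149)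 (nat_lit 76) (nat_lit 1155044035) (nat_lit 22) (nat_lit 4) (nat_lit 23) (nat_lit 5) (nat_lit 23) (nat_lit 4) (nat_lit 441) (nat_lit 400) (nat_lit 359)))) (XT.nd (nat_lit 78) (nat_lit 152) (nat_lit 0) (XT.lf (nat_lit 0) (nat_lit 6385104409) (nat_lit 152) (nat_lit 1847483916) (nat_lit 76) (nat_lit 22298564493) (nat_lit 21) (nat_lit 5) (nat_lit 23) (nat_lit 5) (nat_lit 22) (nat_lit 4) (nat_lit 442) (nat_lit 400) (nat_lit 358)) (XT.nd (nat_lit 78) (nat_lit 76) (nat_lit 0) (XT.lf (nat_lit 0) (nat_lit 14811050402) (nat_lit 152) (nat_lit 16674482476) (nat_lit 0) (nat_lit 760547876) (nat_lit 20) (nat_lit 5) (nat_lit 22) (nat_lit 4) (nat_lit 20) (nat_lit 4) (nat_lit 443) (nat_lit 400) (nat_lit 357)) (XT.lf (nat_lit 0) (nat_lit 89265708) (nat_lit 76) (nat_lit 24040703306) (nat_lit 76) (nat_lit 9950727492) (nat_lit 19) (nat_lit 4) (nat_lit 20) (nat_lit 5) (nat_lit 20) (nat_lit 4) (nat_lit 444) (nat_lit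 400) (nat_lit 356)))))) (XT.nd (nat_lit 468) (nat_lit 304) (nat_lit 0) (XT.nd (nat_lit 234) (nat_lit 152) (nat_lit 0) (XT.nd (nat_lit 78) (nat_lit 152) (nat_lit 0) (XT.lf (nat_lit 0) (nat_lit 19049648176) (nat_lit 76) (nat_lit 15553145995) (nat_lit 76) (nat_lit 1426620842) (nat_lit 19) (nat_lit 4) (nat_lit 20) (nat_lit 5) (nat_lit 20) (nat_lit 4) (nat_lit 445) (nat_lit 400) (nat_lit 355)) (XT.nd (nat_lit 78) (nat_lit 0) (nat_lit 0) (XT.lf (nat_lit 0) (nat_lit 1176310303) (nat_lit 76) (nat_lit 6197092311) (nat_lit 152) (nat_lit 30747013327) (nat_lit 17) (nat_lit 5) (nat_lit 18) (nat_lit 5) (nat_lit 19) (nat_lit 4) (nat_lit 446) (nat_lit 400) (nat_lit 354)) (XT.lf (nat_lit 0) (nat_lit 17325759696) (nat_lit 152) (nat_lit 18822649653) (nat_lit 0) (nat_lit 4185294601) (nat_lit 17) (nat_lit 5) (nat_lit 19) (nat_lit 4) (nat_lit 17) (nat_lit 4) (nat_lit 447) (nat_lit 400) (nat_lit 353)))) (XT.nd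 (nat_lit 78) (nat_lit 76) (nat_lit 0) (XT.lf (nat_lit 0) (nat_lit 532207166) (nat_lit 76) (nat_lit 27674302534) (nat_lit 76) (nat_lit 14506972582) (nat_lit 16) (nat_lit 4) (nat_lit 17) (nat_lit 5) (nat_lit 17) (nat_lit 4) (nat_lit 448) (nat_lit 400) (nat_lit 352)) (XT.nd (nat_lit 78) (nat_lit 76) (nat_lit 0) (XT.lf (nat_lit 0) (nat_lit 22426013255) (nat_lit 76) (nat_lit 18005949193) (nat_lit 76) (nat_lit 4813744375) (nat_lit 16) (nat_lit 4) (nat_lit 17) (nat_lit 5) (nat_lit 17) (nat_lit 4) (nat_lit 449) (nat_lit 400) (nat_lit 351)) (XT.lf (nat_lit 0) (nat_lit 5333675235) (nat_lit 152) (nat_lit 2121192610) (nat_lit 76) (nat_lit 40517834945) (nat_lit 15) (nat_lit 5) (nat_lit 17) (nat_lit 5) (nat_lit 16) (nat_lit 4) (nat_lit 450) (nat_lit 400) (nat_lit 350))))) (XT.nd (nat_lit 234) (nat_lit 152) (nat_lit 0) (XT.nd (nat_lit 78) (nat_lit 76) (nat_lit 0) (XT.lf (nat_lit 0) (nat_lit 16614916632)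 (nat_lit 152) (nat_lit 29887534739) (nat_lit 0) (nat_lit 4358839511) (nat_lit 14) (nat_lit 5) (nat_lit 16) (nat_lit 4) (nat_lit 14) (nat_lit 4) (nat_lit 451) (nat_lit 400) (nat_lit 349)) (XT.nd (nat_lit 78) (nat_lit 76) (nat_lit 0) (XT.lf (nat_lit 0) (nat_lit 29016417719) (nat_lit 152) (nat_lit 8205073113) (nat_lit 0) (nat_lit 16742056829) (nat_lit 14) (nat_lit 5) (nat_lit 16) (nat_lit 4) (nat_lit 14) (nat_lit 4) (nat_lit 452) (nat_lit 400) (nat_lit 348)) (XT.lf (nat_lit 0) (nat_lit 15944265106) (nat_lit 76) (nat_lit 26816478065) (nat_lit 76) (nat_lit 14525187759) (nat_lit 13) (nat_lit 4) (nat_lit 14) (nat_lit 5) (nat_lit 14) (nat_lit 4) (nat_lit 453) (nat_lit 400) (nat_lit 347)))) (XT.nd (nat_lit 78) (nat_lit 152) (nat_lit 0) (XT.lf (nat_lit 0) (nat_lit 42428516707) (nat_lit 76) (nat_lit 15368578749) (nat_lit 76) (nat_lit 3061613057) (nat_lit 13) (nat_lit 4) (nat_lit 14) (nat_lit 5) (nat_lit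 14) (nat_lit 4) (nat_lit 454) (nat_lit 400) (nat_lit 346)) (XT.nd (nat_lit 78) (nat_lit 0) (nat_lit 0) (XT.lf (nat_lit 0) (nat_lit 6347038012) (nat_lit 76) (nat_lit 2628211001) (nat_lit 152) (nat_lit 55714341009) (nat_lit 11) (nat_lit 5) (nat_lit 12) (nat_lit 5) (nat_lit 13) (nat_lit 4) (nat_lit 455) (nat_lit 400) (nat_lit 345)) (XT.lf (nat_lit 0) (nat_lit 22564209662) (nat_lit 152) (nat_lit 35053019464) (nat_lit 0) (nat_lit 11142988316) (nat_lit 11) (nat_lit 5) (nat_lit 13) (nat_lit 4) (nat_lit 11) (nat_lit 4) (nat_lit 456) (nat_lit 400) (nat_lit 344))))))))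
noncomputable def xc94 : XT := (XT.nd (nat_lit 1716) (nat_lit 228) (nat_lit 0) (XT.nd (nat_lit 858) (nat_lit 152) (nat_lit 0) (XT.nd (nat_lit 390) (nat_lit 152) (nat_lit 0) (XT.nd (nat_lit 156) (nat_lit 152) (nat_lit 0) (XT.nd (nat_lit 78) (nat_lit 76) (nat_lit 0) (XT.lf (nat_lit 0) (nat_lit 37280629559) (nat_lit 152) (nat_lit 10024753326) (nat_lit 0) (nat_lit 25847886336) (nat_lit 11) (nat_lit 5) (nat_lit 13) (nat_lit 4) (nat_lit 11) (nat_lit 4) (nat_lit 457) (nat_lit 400) (nat_lit 343)) (XT.lf (nat_lit 0) (nat_lit 17846526106) (nat_lit 76) (nat_lit 35731191855) (nat_lit 76) (nat_lit 24287780229) (nat_lit 10) (nat_lit 4) (nat_lit 11) (nat_lit 5) (nat_lit 11) (nat_lit 4) (nat_lit 458) (nat_lit 400) (nat_lit 342))) (XT.nd (nat_lit 78) (nat_lit 152) (nat_lit 0) (XT.lf (nat_lit 0) (nat_lit 48466937532) (nat_lit 76) (nat_lit 22960572082) (nat_lit 76) (nat_lit 11507282304) (nat_lit 10) (nat_lit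 4) (nat_lit 11) (nat_lit 5) (nat_lit 11) (nat_lit 4) (nat_lit 459) (nat_lit 400) (nat_lit 341)) (XT.nd (nat_lit 78) (nat_lit 76) (nat_lit 0) (XT.lf (nat_lit 0) (nat_lit 2156916474) (nat_lit 152) (nat_lit 6976049947) (nat_lit 76) (nat_lit 79274159102) (nat_lit 9) (nat_lit 5) (nat_lit 11) (nat_lit 5) (nat_lit 10) (nat_lit 4) (nat_lit 460) (nat_lit 400) (nat_lit 340)) (XT.lf (nat_lit 0) (nat_lit 16998241614) (nat_lit 152) (nat_lit 70861606266) (nat_lit 0) (nat_lit 6377033153) (nat_lit 8) (nat_lit 5) (nat_lit 10) (nat_lit 4) (nat_lit 8) (nat_lit 4) (nat_lit 461) (nat_lit 400) (nat_lit 339))))) (XT.nd (nat_lit 234) (nat_lit 76) (nat_lit 0) (XT.nd (nat_lit 78) (nat_lit 76) (nat_lit 0) (XT.lf (nat_lit 0) (nat_lit 33437719184) (nat_lit 152) (nat_lit 44253181080) (nat_lit 0) (nat_lit 22809249987) (nat_lit 8) (nat_lit 5) (nat_lit 10) (nat_lit 4) (nat_lit 8) (nat_lit 4) (nat_lit 462) (nat_lit 400)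 (nat_lit 338)) (XT.nd (nat_lit 78) (nat_lit 76) (nat_lit 0) (XT.lf (nat_lit 0) (nat_lit 51171924146) (nat_lit 152) (nat_lit 15557460188) (nat_lit 0) (nat_lit 40536732045) (nat_lit 8) (nat_lit 5) (nat_lit 10) (nat_lit 4) (nat_lit 8) (nat_lit 4) (nat_lit 463) (nat_lit 400) (nat_lit 337)) (XT.lf (nat_lit 0) (nat_lit 16206310407) (nat_lit 76) (nat_lit 54489399834) (nat_lit 76) (nat_lit 43847982821) (nat_lit 7) (nat_lit 4) (nat_lit 8) (nat_lit 5) (nat_lit 8) (nat_lit 4) (nat_lit 464) (nat_lit 400) (nat_lit 336)))) (XT.nd (nat_lit 78) (nat_lit 76) (nat_lit 0) (XT.lf (nat_lit 0) (nat_lit 51358605903) (nat_lit 76) (nat_lit 40829747615) (nat_lit 76) (nat_lit 30182566796) (nat_lit 7) (nat_lit 4) (nat_lit 8) (nat_lit 5) (nat_lit 8) (nat_lit 4) (nat_lit 465) (nat_lit 400) (nat_lit 335)) (XT.nd (nat_lit 78) (nat_lit 76) (nat_lit 0) (XT.lf (nat_lit 0) (nat_lit 89288507914) (nat_lit 76) (nat_lit 26094850124)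 (nat_lit 76) (nat_lit 15442332446) (nat_lit 7) (nat_lit 4) (nat_lit 8) (nat_lit 5) (nat_lit 8) (nat_lit 4) (nat_lit 466) (nat_lit 400) (nat_lit 334)) (XT.lf (nat_lit 0) (nat_lit 437055210) (nat_lit 152) (nat_lit 9748384374) (nat_lit 76) (nat_lit 129771781157) (nat_lit 6) (nat_lit 5) (nat_lit 8) (nat_lit 5) (nat_lit 7) (nat_lit 4) (nat_lit 467) (nat_lit 400) (nat_lit 333)))))) (XT.nd (nat_lit 390) (nat_lit 76) (nat_lit 0) (XT.nd (nat_lit 156) (nat_lit 0) (nat_lit 0) (XT.nd (nat_lit 78) (nat_lit 0) (nat_lit 0) (XT.lf (nat_lit 0) (nat_lit 17543151285) (nat_lit 152) (nat_lit 124509886259) (nat_lit 0) (nat_lit 7670896926) (nat_lit 5) (nat_lit 5) (nat_lit 7) (nat_lit 4) (nat_lit 5) (nat_lit 4) (nat_lit 468) (nat_lit 400) (nat_lit 332)) (XT.lf (nat_lit 0) (nat_lit 36540790270) (nat_lit 152) (nat_lit 97024737980) (nat_lit 0) (nat_lit 26664613160) (nat_lit 5) (nat_lit 5) (nat_lit 7) (nat_lit 4)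 (nat_lit 5) (nat_lit 4) (nat_lit 469) (nat_lit 400) (nat_lit 331))) (XT.nd (nat_lit 78) (nat_lit 0) (nat_lit 0) (XT.lf (nat_lit 0) (nat_lit 57044385910) (nat_lit 152) (nat_lit 67368991219) (nat_lit 0) (nat_lit 47164576625) (nat_lit 5) (nat_lit 5) (nat_lit 7) (nat_lit 4) (nat_lit 5) (nat_lit 4) (nat_lit 470) (nat_lit 400) (nat_lit 330)) (XT.nd (nat_lit 78) (nat_lit 0) (nat_lit 0) (XT.lf (nat_lit 0) (nat_lit 79175440995) (nat_lit 152) (nat_lit 35366908217) (nat_lit 0) (nat_lit 69292268583) (nat_lit 5) (nat_lit 5) (nat_lit 7) (nat_lit 4) (nat_lit 5) (nat_lit 4) (nat_lit 471) (nat_lit 400) (nat_lit 329)) (XT.lf (nat_lit 0) (nat_lit 103065102516) (nat_lit 152) (nat_lit 828847002) (nat_lit 0) (nat_lit 93178816100) (nat_lit 5) (nat_lit 5) (nat_lit 7) (nat_lit 4) (nat_lit 5) (nat_lit 4) (nat_lit 472) (nat_lit 400) (nat_lit 328))))) (XT.nd (nat_lit 234) (nat_lit 0) (nat_lit 0) (XT.nd (nat_lit 78)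 (nat_lit 0) (nat_lit 0) (XT.lf (nat_lit 0) (nat_lit 38369247579) (nat_lit 76) (nat_lit 91408472588) (nat_lit 76) (nat_lit 81519302834) (nat_lit 4) (nat_lit 4) (nat_lit 5) (nat_lit 5) (nat_lit 5) (nat_lit 4) (nat_lit 473) (nat_lit 400) (nat_lit 327)) (XT.nd (nat_lit 78) (nat_lit 0) (nat_lit 0) (XT.lf (nat_lit 0) (nat_lit 80728497304) (nat_lit 76) (nat_lit 77910803624) (nat_lit 76) (nat_lit 68018964111) (nat_lit 4) (nat_lit 4) (nat_lit 5) (nat_lit 5) (nat_lit 5) (nat_lit 4) (nat_lit 474) (nat_lit 400) (nat_lit 326)) (XT.lf (nat_lit 0) (nat_lit 126456274334) (nat_lit 76) (nat_lit 63343618584) (nat_lit 76) (nat_lit 53449307074) (nat_lit 4) (nat_lit 4) (nat_lit 5) (nat_lit 5) (nat_lit 5) (nat_lit 4) (nat_lit 475) (nat_lit 400) (nat_lit 325)))) (XT.nd (nat_lit 78) (nat_lit 0) (nat_lit 0) (XT.lf (nat_lit 0) (nat_lit 175823558090) (nat_lit 76) (nat_lit 47620593410) (nat_lit 76) (nat_lit 37723993013)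 (nat_lit 4) (nat_lit 4) (nat_lit 5) (nat_lit 5) (nat_lit 5) (nat_lit 4) (nat_lit 476) (nat_lit 400) (nat_lit 324)) (XT.nd (nat_lit 78) (nat_lit 0) (nat_lit 0) (XT.lf (nat_lit 0) (nat_lit 229122895437) (nat_lit 76) (nat_lit 30648554619) (nat_lit 76) (nat_lit 20749834882) (nat_lit 4) (nat_lit 4) (nat_lit 5) (nat_lit 5) (nat_lit 5) (nat_lit 4) (nat_lit 477) (nat_lit 400) (nat_lit 323)) (XT.lf (nat_lit 0) (nat_lit 286670134301) (nat_lit 76) (nat_lit 12326927167) (nat_lit 76) (nat_lit 2426245078) (nat_lit 4) (nat_lit 4) (nat_lit 5) (nat_lit 5) (nat_lit 5) (nat_lit 4) (nat_lit 478) (nat_lit 400) (nat_lit 322))))))) (XT.nd (nat_lit 858) (nat_lit 76) (nat_lit 0) (XT.nd (nat_lit 390) (nat_lit 0) (nat_lit 0) (XT.nd (nat_lit 156) (nat_lit 0) (nat_lit 0) (XT.nd (nat_lit 78) (nat_lit 0) (nat_lit 0) (XT.lf (nat_lit 0) (nat_lit 17310786113) (nat_lit 152) (nat_lit 298446200951) (nat_lit 0) (nat_lit 8141805482)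 (nat_lit 2) (nat_lit 5) (nat_lit 4) (nat_lit 4) (nat_lit 2) (nat_lit 4) (nat_lit 479) (nat_lit 400) (nat_lit 321)) (XT.lf (nat_lit 0) (nat_lit 39222271177) (nat_lit 152) (nat_lit 278835146414) (nat_lit 0) (nat_lit 30051732768) (nat_lit 2) (nat_lit 5) (nat_lit 4) (nat_lit 4) (nat_lit 2) (nat_lit 4) (nat_lit 480) (nat_lit 400) (nat_lit 320))) (XT.nd (nat_lit 78) (nat_lit 0) (nat_lit 0) (XT.lf (nat_lit 0) (nat_lit 62879764381) (nat_lit 152) (nat_lit 257669341878) (nat_lit 0) (nat_lit 53707783586) (nat_lit 2) (nat_lit 5) (nat_lit 4) (nat_lit 4) (nat_lit 2) (nat_lit 4) (nat_lit 481) (nat_lit 400) (nat_lit 319)) (XT.nd (nat_lit 78) (nat_lit 0) (nat_lit 0) (XT.lf (nat_lit 0) (nat_lit 88423458279) (nat_lit 152) (nat_lit 234823360353) (nat_lit 0) (nat_lit 79250141940) (nat_lit 2) (nat_lit 5) (nat_lit 4) (nat_lit 4) (nat_lit 2) (nat_lit 4) (nat_lit 482) (nat_lit 400) (nat_lit 318)) (XT.lf (nat_lit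 0) (nat_lit 116004722907) (nat_lit 152) (nat_lit 210161818244) (nat_lit 0) (nat_lit 106830169954) (nat_lit 2) (nat_lit 5) (nat_lit 4) (nat_lit 4) (nat_lit 2) (nat_lit 4) (nat_lit 483) (nat_lit 400) (nat_lit 317))))) (XT.nd (nat_lit 234) (nat_lit 0) (nat_lit 0) (XT.nd (nat_lit 78) (nat_lit 0) (nat_lit 0) (XT.lf (nat_lit 0) (nat_lit 145787002797) (nat_lit 152) (nat_lit 183538573081) (nat_lit 0) (nat_lit 136611304831) (nat_lit 2) (nat_lit 5) (nat_lit 4) (nat_lit 4) (nat_lit 2) (nat_lit 4) (nat_lit 484) (nat_lit 400) (nat_lit 316)) (XT.nd (nat_lit 78) (nat_lit 0) (nat_lit 0) (XT.lf (nat_lit 0) (nat_lit 177946785534) (nat_lit 152) (nat_lit 154795857484) (nat_lit 0) (nat_lit 168770027370) (nat_lit 2) (nat_lit 5) (nat_lit 4) (nat_lit 4) (nat_lit 2) (nat_lit 4) (nat_lit 485) (nat_lit 400) (nat_lit 315)) (XT.lf (nat_lit 0) (nat_lit 212674647608) (nat_lit 152) (nat_lit 123763344250) (nat_lit 0) (nat_lit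 203496907779) (nat_lit 2) (nat_lit 5) (nat_lit 4) (nat_lit 4) (nat_lit 2) (nat_lit 4) (nat_lit 486) (nat_lit 400) (nat_lit 314)))) (XT.nd (nat_lit 78) (nat_lit 0) (nat_lit 0) (XT.lf (nat_lit 0) (nat_lit 250176383757) (nat_lit 152) (nat_lit 90257137004) (nat_lit 0) (nat_lit 240997734979) (nat_lit 2) (nat_lit 5) (nat_lit 4) (nat_lit 4) (nat_lit 2) (nat_lit 4) (nat_lit 487) (nat_lit 400) (nat_lit 313)) (XT.nd (nat_lit 78) (nat_lit 0) (nat_lit 0) (XT.lf (nat_lit 0) (nat_lit 290674226491) (nat_lit 152) (nat_lit 54078680444) (nat_lit 0) (nat_lit 281494736095) (nat_lit 2) (nat_lit 5) (nat_lit 4) (nat_lit 4) (nat_lit 2) (nat_lit 4) (nat_lit 488) (nat_lit 400) (nat_lit 312)) (XT.lf (nat_lit 0) (nat_lit 334408163027) (nat_lit 152) (nat_lit 15013583717) (nat_lit 0) (nat_lit 325227893354) (nat_lit 2) (nat_lit 5) (nat_lit 4) (nat_lit 4) (nat_lit 2) (nat_lit 4) (nat_lit 489) (nat_lit 400) (nat_lit 311))))))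 (XT.nd (nat_lit 468) (nat_lit 0) (nat_lit 0) (XT.nd (nat_lit 234) (nat_lit 0) (nat_lit 0) (XT.nd (nat_lit 78) (nat_lit 0) (nat_lit 0) (XT.lf (nat_lit 0) (nat_lit 28600355670) (nat_lit 76) (nat_lit 353724841004) (nat_lit 76) (nat_lit 344543849778) (nat_lit 1) (nat_lit 4) (nat_lit 2) (nat_lit 5) (nat_lit 2) (nat_lit 4) (nat_lit 490) (nat_lit 400) (nat_lit 310)) (XT.nd (nat_lit 78) (nat_lit 0) (nat_lit 0) (XT.lf (nat_lit 0) (nat_lit 76550354323) (nat_lit 76) (nat_lit 357932369956) (nat_lit 76) (nat_lit 348750710626) (nat_lit 1) (nat_lit 4) (nat_lit 2) (nat_lit 5) (nat_lit 2) (nat_lit 4) (nat_lit 491) (nat_lit 400) (nat_lit 309)) (XT.lf (nat_lit 0) (nat_lit 128329971667) (nat_lit 76) (nat_lit 362479765090) (nat_lit 76) (nat_lit 353297487146) (nat_lit 1) (nat_lit 4) (nat_lit 2) (nat_lit 5) (nat_lit 2) (nat_lit 4) (nat_lit 492) (nat_lit 400) (nat_lit 308)))) (XT.nd (nat_lit 78) (nat_lit 0) (nat_lit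 0) (XT.lf (nat_lit 0) (nat_lit 184246049881) (nat_lit 76) (nat_lit 367393973934) (nat_lit 76) (nat_lit 358211123198) (nat_lit 1) (nat_lit 4) (nat_lit 2) (nat_lit 5) (nat_lit 2) (nat_lit 4) (nat_lit 493) (nat_lit 400) (nat_lit 307)) (XT.nd (nat_lit 78) (nat_lit 0) (nat_lit 0) (XT.lf (nat_lit 0) (nat_lit 244629943502) (nat_lit 76) (nat_lit 372704117725) (nat_lit 76) (nat_lit 363520736626) (nat_lit 1) (nat_lit 4) (nat_lit 2) (nat_lit 5) (nat_lit 2) (nat_lit 4) (nat_lit 494) (nat_lit 400) (nat_lit 306)) (XT.lf (nat_lit 0) (nat_lit 309839483010) (nat_lit 76) (nat_lit 378441663981) (nat_lit 76) (nat_lit 369257791805) (nat_lit 1) (nat_lit 4) (nat_lit 2) (nat_lit 5) (nat_lit 2) (nat_lit 4) (nat_lit 495) (nat_lit 400) (nat_lit 305))))) (XT.nd (nat_lit 234) (nat_lit 0) (nat_lit 0) (XT.nd (nat_lit 78) (nat_lit 0) (nat_lit 0) (XT.lf (nat_lit 0) (nat_lit 380261095306) (nat_lit 76) (nat_lit 384640612977)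 (nat_lit 76) (nat_lit 375456286101) (nat_lit 1) (nat_lit 4) (nat_lit 2) (nat_lit 5) (nat_lit 2) (nat_lit 4) (nat_lit 496) (nat_lit 400) (nat_lit 304)) (XT.nd (nat_lit 78) (nat_lit 0) (nat_lit 0) (XT.lf (nat_lit 0) (nat_lit 456312093649) (nat_lit 76) (nat_lit 391337699225) (nat_lit 76) (nat_lit 382152951330) (nat_lit 1) (nat_lit 4) (nat_lit 2) (nat_lit 5) (nat_lit 2) (nat_lit 4) (nat_lit 497) (nat_lit 400) (nat_lit 303)) (XT.lf (nat_lit 0) (nat_lit 538443150620) (nat_lit 76) (nat_lit 398572609163) (nat_lit 76) (nat_lit 389387471435) (nat_lit 1) (nat_lit 4) (nat_lit 2) (nat_lit 5) (nat_lit 2) (nat_lit 4) (nat_lit 498) (nat_lit 400) (nat_lit 302)))) (XT.nd (nat_lit 78) (nat_lit 0) (nat_lit 0) (XT.lf (nat_lit 0) (nat_lit 627140968781) (nat_lit 76) (nat_lit 406388216330) (nat_lit 76) (nat_lit 397202717646) (nat_lit 1) (nat_lit 4) (nat_lit 2) (nat_lit 5) (nat_lit 2) (nat_lit 4) (nat_lit 499)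 (nat_lit 400) (nat_lit 301)) (XT.nd (nat_lit 78) (nat_lit 0) (nat_lit 0) (XT.lf (nat_lit 0) (nat_lit 722931164831) (nat_lit 76) (nat_lit 414830835436) (nat_lit 76) (nat_lit 405645002533) (nat_lit 1) (nat_lit 4) (nat_lit 2) (nat_lit 5) (nat_lit 2) (nat_lit 4) (nat_lit 500) (nat_lit 400) (nat_lit 300)) (XT.lf (nat_lit 0) (nat_lit 826381384376) (nat_lit 76) (nat_lit 423950496816) (nat_lit 76) (nat_lit 414764354452) (nat_lit 1) (nat_lit 4) (nat_lit 2) (nat_lit 5) (nat_lit 2) (nat_lit 4) (nat_lit 501) (nat_lit 400) (nat_lit 299))))))))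
noncomputable def xc95 : XT := (XT.nd (nat_lit 1794) (nat_lit 0) (nat_lit 0) (XT.nd (nat_lit 858) (nat_lit 0) (nat_lit 0) (XT.nd (nat_lit 390) (nat_lit 0) (nat_lit 0) (XT.nd (nat_lit 156) (nat_lit 0) (nat_lit 0) (XT.nd (nat_lit 78) (nat_lit 0) (nat_lit 0) (XT.lf (nat_lit 0) (nat_lit 938104665754) (nat_lit 76) (nat_lit 433801242908) (nat_lit 76) (nat_lit 424614814005) (nat_lit 1) (nat_lit 4) (nat_lit 2) (nat_lit 5) (nat_lit 2) (nat_lit 4) (nat_lit 502) (nat_lit 400) (nat_lit 298)) (XT.lf (nat_lit 0) (nat_lit 1058763072856) (nat_lit 76) (nat_lit 444441448503) (nat_lit 76) (nat_lit 435254754287) (nat_lit 1) (nat_lit 4) (nat_lit 2) (nat_lit 5) (nat_lit 2) (nat_lit 4) (nat_lit 503) (nat_lit 400) (nat_lit 297))) (XT.nd (nat_lit 78) (nat_lit 0) (nat_lit 0) (XT.lf (nat_lit 0) (nat_lit 1189071618463) (nat_lit 76) (nat_lit 455934166673) (nat_lit 76) (nat_lit 446747226796) (nat_lit 1) (nat_lit 4)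 (nat_lit 2) (nat_lit 5) (nat_lit 2) (nat_lit 4) (nat_lit 504) (nat_lit 400) (nat_lit 296)) (XT.nd (nat_lit 78) (nat_lit 0) (nat_lit 0) (XT.lf (nat_lit 0) (nat_lit 1329802501365) (nat_lit 76) (nat_lit 468347502413) (nat_lit 76) (nat_lit 459160335073) (nat_lit 1) (nat_lit 4) (nat_lit 2) (nat_lit 5) (nat_lit 2) (nat_lit 4) (nat_lit 505) (nat_lit 400) (nat_lit 295)) (XT.lf (nat_lit 0) (nat_lit 1481789682349) (nat_lit 76) (nat_lit 481755016231) (nat_lit 76) (nat_lit 472567638277) (nat_lit 1) (nat_lit 4) (nat_lit 2) (nat_lit 5) (nat_lit 2) (nat_lit 4) (nat_lit 506) (nat_lit 400) (nat_lit 294))))) (XT.nd (nat_lit 234) (nat_lit 0) (nat_lit 0) (XT.nd (nat_lit 78) (nat_lit 0) (nat_lit 0) (XT.lf (nat_lit 0) (nat_lit 1645933826192) (nat_lit 76) (nat_lit 496236160062) (nat_lit 76) (nat_lit 487048587094) (nat_lit 1) (nat_lit 4) (nat_lit 2) (nat_lit 5) (nat_lit 2) (nat_lit 4) (nat_lit 507) (nat_lit 400)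 (nat_lit 293)) (XT.nd (nat_lit 78) (nat_lit 0) (nat_lit 0) (XT.lf (nat_lit 0) (nat_lit 1823207638930) (nat_lit 76) (nat_lit 511876748091) (nat_lit 76) (nat_lit 502688994555) (nat_lit 1) (nat_lit 4) (nat_lit 2) (nat_lit 5) (nat_lit 2) (nat_lit 4) (nat_lit 508) (nat_lit 400) (nat_lit 292)) (XT.lf (nat_lit 0) (nat_lit 2014661632048) (nat_lit 76) (nat_lit 528769465283) (nat_lit 76) (nat_lit 519581544556) (nat_lit 1) (nat_lit 4) (nat_lit 2) (nat_lit 5) (nat_lit 2) (nat_lit 4) (nat_lit 509) (nat_lit 400) (nat_lit 291)))) (XT.nd (nat_lit 78) (nat_lit 0) (nat_lit 0) (XT.lf (nat_lit 0) (nat_lit 2221430347726) (nat_lit 76) (nat_lit 547014416631) (nat_lit 76) (nat_lit 537826341095) (nat_lit 1) (nat_lit 4) (nat_lit 2) (nat_lit 5) (nat_lit 2) (nat_lit 4) (nat_lit 510) (nat_lit 400) (nat_lit 290)) (XT.nd (nat_lit 78) (nat_lit 0) (nat_lit 0) (XT.lf (nat_lit 0) (nat_lit 2444739082057) (nat_lit 76) (nat_lit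 566719720363) (nat_lit 76) (nat_lit 557531501487) (nat_lit 1) (nat_lit 4) (nat_lit 2) (nat_lit 5) (nat_lit 2) (nat_lit 4) (nat_lit 511) (nat_lit 400) (nat_lit 289)) (XT.lf (nat_lit 0) (nat_lit 2685911146059) (nat_lit 76) (nat_lit 588002148651) (nat_lit 76) (nat_lit 578813797052) (nat_lit 1) (nat_lit 4) (nat_lit 2) (nat_lit 5) (nat_lit 2) (nat_lit 4) (nat_lit 512) (nat_lit 400) (nat_lit 288)))))) (XT.nd (nat_lit 468) (nat_lit 0) (nat_lit 0) (XT.nd (nat_lit 234) (nat_lit 0) (nat_lit 0) (XT.nd (nat_lit 78) (nat_lit 0) (nat_lit 0) (XT.lf (nat_lit 0) (nat_lit 2946375707520) (nat_lit 76) (nat_lit 610987819587) (nat_lit 76) (nat_lit 601799345097) (nat_lit 1) (nat_lit 4) (nat_lit 2) (nat_lit 5) (nat_lit 2) (nat_lit 4) (nat_lit 513) (nat_lit 400) (nat_lit 287)) (XT.nd (nat_lit 78) (nat_lit 0) (nat_lit 0) (XT.lf (nat_lit 0) (nat_lit 3227676260137) (nat_lit 76) (nat_lit 635812944556) (nat_lit 76)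 (nat_lit 626624356277) (nat_lit 1) (nat_lit 4) (nat_lit 2) (nat_lit 5) (nat_lit 2) (nat_lit 4) (nat_lit 514) (nat_lit 400) (nat_lit 286)) (XT.lf (nat_lit 0) (nat_lit 3531479770147) (nat_lit 76) (nat_lit 662624635409) (nat_lit 76) (nat_lit 653435941770) (nat_lit 1) (nat_lit 4) (nat_lit 2) (nat_lit 5) (nat_lit 2) (nat_lit 4) (nat_lit 515) (nat_lit 400) (nat_lit 285)))) (XT.nd (nat_lit 78) (nat_lit 0) (nat_lit 0) (XT.lf (nat_lit 0) (nat_lit 3859586554646) (nat_lit 76) (nat_lit 691581776239) (nat_lit 76) (nat_lit 682392985045) (nat_lit 1) (nat_lit 4) (nat_lit 2) (nat_lit 5) (nat_lit 2) (nat_lit 4) (nat_lit 516) (nat_lit 400) (nat_lit 284)) (XT.nd (nat_lit 78) (nat_lit 0) (nat_lit 0) (XT.lf (nat_lit 0) (nat_lit 4213940950137) (nat_lit 76) (nat_lit 722855964918) (nat_lit 76) (nat_lit 713667083396) (nat_lit 1) (nat_lit 4) (nat_lit 2) (nat_lit 5) (nat_lit 2) (nat_lit 4) (nat_lit 517) (nat_lit 400)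 (nat_lit 283)) (XT.lf (nat_lit 0) (nat_lit 4596642834517) (nat_lit 76) (nat_lit 756632529973) (nat_lit 76) (nat_lit 747443564813) (nat_lit 1) (nat_lit 4) (nat_lit 2) (nat_lit 5) (nat_lit 2) (nat_lit 4) (nat_lit 518) (nat_lit 400) (nat_lit 282))))) (XT.nd (nat_lit 234) (nat_lit 0) (nat_lit 0) (XT.nd (nat_lit 78) (nat_lit 0) (nat_lit 0) (XT.lf (nat_lit 0) (nat_lit 5009960070805) (nat_lit 76) (nat_lit 793111628825) (nat_lit 76) (nat_lit 783922586222) (nat_lit 1) (nat_lit 4) (nat_lit 2) (nat_lit 5) (nat_lit 2) (nat_lit 4) (nat_lit 519) (nat_lit 400) (nat_lit 281)) (XT.nd (nat_lit 78) (nat_lit 0) (nat_lit 0) (XT.lf (nat_lit 0) (nat_lit 5456341946328) (nat_lit 76) (nat_lit 832509433911) (nat_lit 76) (nat_lit 823320319603) (nat_lit 1) (nat_lit 4) (nat_lit 2) (nat_lit 5) (nat_lit 2) (nat_lit 4) (nat_lit 520) (nat_lit 400) (nat_lit 280)) (XT.lf (nat_lit 0) (nat_lit 5938433687014) (nat_lit 76) (nat_lit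 875059413708) (nat_lit 76) (nat_lit 865870233005) (nat_lit 1) (nat_lit 4) (nat_lit 2) (nat_lit 5) (nat_lit 2) (nat_lit 4) (nat_lit 521) (nat_lit 400) (nat_lit 279)))) (XT.nd (nat_lit 78) (nat_lit 0) (nat_lit 0) (XT.lf (nat_lit 0) (nat_lit 6459092132809) (nat_lit 76) (nat_lit 921013716242) (nat_lit 76) (nat_lit 911824474063) (nat_lit 1) (nat_lit 4) (nat_lit 2) (nat_lit 5) (nat_lit 2) (nat_lit 4) (nat_lit 522) (nat_lit 400) (nat_lit 278)) (XT.nd (nat_lit 78) (nat_lit 0) (nat_lit 0) (XT.lf (nat_lit 0) (nat_lit 7021402667094) (nat_lit 76) (nat_lit 970644663308) (nat_lit 76) (nat_lit 961455364206) (nat_lit 1) (nat_lit 4) (nat_lit 2) (nat_lit 5) (nat_lit 2) (nat_lit 4) (nat_lit 523) (nat_lit 400) (nat_lit 277)) (XT.lf (nat_lit 0) (nat_lit 7628697500444) (nat_lit 76) (nat_lit 1024246364220) (nat_lit 76) (nat_lit 1015057012412) (nat_lit 1) (nat_lit 4) (nat_lit 2) (nat_lit 5) (nat_lit 2) (nat_lit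 4) (nat_lit 524) (nat_lit 400) (nat_lit 276))))))) (XT.nd (nat_lit 53352) (nat_lit 0) (nat_lit 3572) (XT.nd (nat_lit 52884) (nat_lit 0) (nat_lit 6232) (XT.nd (nat_lit 156) (nat_lit 0) (nat_lit 0) (XT.nd (nat_lit 78) (nat_lit 0) (nat_lit 0) (XT.lf (nat_lit 0) (nat_lit 8284575417055) (nat_lit 76) (nat_lit 1082136458688) (nat_lit 76) (nat_lit 1072947058078) (nat_lit 1) (nat_lit 4) (nat_lit 2) (nat_lit 5) (nat_lit 2) (nat_lit 4) (nat_lit 525) (nat_lit 400) (nat_lit 275)) (XT.lf (nat_lit 0) (nat_lit 8992923100879) (nat_lit 76) (nat_lit 1144657999123) (nat_lit 76) (nat_lit 1135468553327) (nat_lit 1) (nat_lit 4) (nat_lit 2) (nat_lit 5) (nat_lit 2) (nat_lit 4) (nat_lit 526) (nat_lit 400) (nat_lit 274))) (XT.nd (nat_lit 78) (nat_lit 0) (nat_lit 0) (XT.lf (nat_lit 0) (nat_lit 9757938167819) (nat_lit 76) (nat_lit 1212181483544) (nat_lit 76) (nat_lit 1202991995907) (nat_lit 1) (nat_lit 4) (nat_lit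 2) (nat_lit 5) (nat_lit 2) (nat_lit 4) (nat_lit 527) (nat_lit 400) (nat_lit 273)) (XT.nd (nat_lit 52572) (nat_lit 0) (nat_lit 6916) (XT.lf (nat_lit 0) (nat_lit 10584154040494) (nat_lit 76) (nat_lit 1285107051116) (nat_lit 76) (nat_lit 1275917524739) (nat_lit 1) (nat_lit 4) (nat_lit 2) (nat_lit 5) (nat_lit 2) (nat_lit 4) (nat_lit 528) (nat_lit 400) (nat_lit 272)) (XT.lf (nat_lit 0) (nat_lit 1509101848) (nat_lit 0) (nat_lit 1509101848) (nat_lit 76) (nat_lit 215677307) (nat_lit 92) (nat_lit 5) (nat_lit 92) (nat_lit 3) (nat_lit 93) (nat_lit 0) (nat_lit 401) (nat_lit 401) (nat_lit 398))))) (XT.nd (nat_lit 234) (nat_lit 228) (nat_lit 0) (XT.nd (nat_lit 78) (nat_lit 228) (nat_lit 0) (XT.lf (nat_lit 0) (nat_lit 2297081619) (nat_lit 228) (nat_lit 254299113) (nat_lit 228) (nat_lit 3955177943) (nat_lit 89) (nat_lit 3) (nat_lit 92) (nat_lit 3) (nat_lit 92) (nat_lit 5) (nat_lit 402) (nat_lit 401) (nat_lit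 397)) (XT.nd (nat_lit 78) (nat_lit 228) (nat_lit 0) (XT.lf (nat_lit 76) (nat_lit 3198085903) (nat_lit 0) (nat_lit 1826860630) (nat_lit 228) (nat_lit 1538551409) (nat_lit 90) (nat_lit 5) (nat_lit 89) (nat_lit 3) (nat_lit 92) (nat_lit 5) (nat_lit 403) (nat_lit 401) (nat_lit 396)) (XT.lf (nat_lit 76) (nat_lit 133173316) (nat_lit 0) (nat_lit 893251429) (nat_lit 304) (nat_lit 5616411115) (nat_lit 87) (nat_lit 5) (nat_lit 86) (nat_lit 5) (nat_lit 90) (nat_lit 5) (nat_lit 404) (nat_lit 401) (nat_lit 395)))) (XT.nd (nat_lit 78) (nat_lit 304) (nat_lit 0) (XT.lf (nat_lit 0) (nat_lit 3566026440) (nat_lit 228) (nat_lit 2839095386) (nat_lit 76) (nat_lit 332229734) (nat_lit 87) (nat_lit 5) (nat_lit 90) (nat_lit 5) (nat_lit 88) (nat_lit 5) (nat_lit 405) (nat_lit 401) (nat_lit 394)) (XT.nd (nat_lit 78) (nat_lit 76) (nat_lit 0) (XT.lf (nat_lit 0) (nat_lit 988536728) (nat_lit 228) (nat_lit 5140731456) (nat_lit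 304) (nat_lit 724737087) (nat_lit 84) (nat_lit 5) (nat_lit 87) (nat_lit 5) (nat_lit 88) (nat_lit 5) (nat_lit 406) (nat_lit 401) (nat_lit 393)) (XT.lf (nat_lit 0) (nat_lit 1682017266) (nat_lit 304) (nat_lit 1908512095) (nat_lit 76) (nat_lit 3397127262) (nat_lit 83) (nat_lit 5) (nat_lit 87) (nat_lit 5) (nat_lit 84) (nat_lit 5) (nat_lit 407) (nat_lit 401) (nat_lit 392)))))) (XT.nd (nat_lit 468) (nat_lit 912) (nat_lit 0) (XT.nd (nat_lit 234) (nat_lit 988) (nat_lit 0) (XT.nd (nat_lit 78) (nat_lit 456) (nat_lit 0) (XT.lf (nat_lit 0) (nat_lit 2303598802) (nat_lit 304) (nat_lit 1790925089) (nat_lit 380) (nat_lit 3047951206) (nat_lit 79) (nat_lit 5) (nat_lit 83) (nat_lit 5) (nat_lit 84) (nat_lit 5) (nat_lit 408) (nat_lit 401) (nat_lit 391)) (XT.nd (nat_lit 78) (nat_lit 456) (nat_lit 0) (XT.lf (nat_lit 0) (nat_lit 6566455903) (nat_lit 380) (nat_lit 519535686) (nat_lit 76) (nat_lit 234531144) (nat_lit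 79) (nat_lit 5) (nat_lit 84) (nat_lit 5) (nat_lit 80) (nat_lit 5) (nat_lit 409) (nat_lit 401) (nat_lit 390)) (XT.lf (nat_lit 0) (nat_lit 1605836896) (nat_lit 456) (nat_lit 3407283353) (nat_lit 76) (nat_lit 2499016106) (nat_lit 73) (nat_lit 5) (nat_lit 79) (nat_lit 5) (nat_lit 74) (nat_lit 5) (nat_lit 410) (nat_lit 401) (nat_lit 389)))) (XT.nd (nat_lit 78) (nat_lit 532) (nat_lit 0) (XT.lf (nat_lit 0) (nat_lit 1292717295) (nat_lit 456) (nat_lit 2695006452) (nat_lit 532) (nat_lit 3739999191) (nat_lit 67) (nat_lit 5) (nat_lit 73) (nat_lit 5) (nat_lit 74) (nat_lit 5) (nat_lit 411) (nat_lit 401) (nat_lit 388)) (XT.nd (nat_lit 78) (nat_lit 532) (nat_lit 0) (XT.lf (nat_lit 0) (nat_lit 6403823393) (nat_lit 456) (nat_lit 86670483) (nat_lit 532) (nat_lit 1475751879) (nat_lit 67) (nat_lit 5) (nat_lit 73) (nat_lit 5) (nat_lit 74) (nat_lit 5) (nat_lit 412) (nat_lit 401) (nat_lit 387)) (XT.lf (nat_lit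 0) (nat_lit 924072860) (nat_lit 532) (nat_lit 4588995423) (nat_lit 76) (nat_lit 2708780477) (nat_lit 60) (nat_lit 5) (nat_lit 67) (nat_lit 5) (nat_lit 61) (nat_lit 5) (nat_lit 413) (nat_lit 401) (nat_lit 386))))) (XT.nd (nat_lit 234) (nat_lit 456) (nat_lit 0) (XT.nd (nat_lit 78) (nat_lit 228) (nat_lit 0) (XT.lf (nat_lit 0) (nat_lit 666805363) (nat_lit 228) (nat_lit 2684406059) (nat_lit 304) (nat_lit 5150509545) (nat_lit 57) (nat_lit 5) (nat_lit 60) (nat_lit 5) (nat_lit 61) (nat_lit 5) (nat_lit 414) (nat_lit 401) (nat_lit 385)) (XT.nd (nat_lit 78) (nat_lit 228) (nat_lit 0) (XT.lf (nat_lit 0) (nat_lit 5969721937) (nat_lit 304) (nat_lit 2371753596) (nat_lit 76) (nat_lit 462816532) (nat_lit 57) (nat_lit 5) (nat_lit 61) (nat_lit 5) (nat_lit 58) (nat_lit 5) (nat_lit 415) (nat_lit 401) (nat_lit 384)) (XT.lf (nat_lit 0) (nat_lit 3475475287) (nat_lit 228) (nat_lit 5345510036) (nat_lit 304) (nat_lit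 308300642) (nat_lit 54) (nat_lit 5) (nat_lit 57) (nat_lit 5) (nat_lit 58) (nat_lit 5) (nat_lit 416) (nat_lit 401) (nat_lit 383)))) (XT.nd (nat_lit 78) (nat_lit 228) (nat_lit 0) (XT.lf (nat_lit 0) (nat_lit 242607567) (nat_lit 152) (nat_lit 2001387019) (nat_lit 228) (nat_lit 7236097321) (nat_lit 51) (nat_lit 5) (nat_lit 53) (nat_lit 5) (nat_lit 54) (nat_lit 5) (nat_lit 417) (nat_lit 401) (nat_lit 382)) (XT.nd (nat_lit 78) (nat_lit 228) (nat_lit 0) (XT.lf (nat_lit 0) (nat_lit 5058628548) (nat_lit 228) (nat_lit 3129912910) (nat_lit 76) (nat_lit 1663857947) (nat_lit 51) (nat_lit 5) (nat_lit 54) (nat_lit 5) (nat_lit 52) (nat_lit 5) (nat_lit 418) (nat_lit 401) (nat_lit 381)) (XT.lf (nat_lit 0) (nat_lit 3433399407) (nat_lit 228) (nat_lit 4686150516) (nat_lit 304) (nat_lit 2133310221) (nat_lit 48) (nat_lit 5) (nat_lit 51) (nat_lit 5) (nat_lit 52) (nat_lit 5) (nat_lit 419) (nat_lit 401) (nat_lit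 380))))))))
noncomputable def xc96 : XT := (XT.nd (nat_lit 1716) (nat_lit 1140) (nat_lit 0) (XT.nd (nat_lit 858) (nat_lit 760) (nat_lit 0) (XT.nd (nat_lit 390) (nat_lit 532) (nat_lit 0) (XT.nd (nat_lit 156) (nat_lit 380) (nat_lit 0) (XT.nd (nat_lit 78) (nat_lit 152) (nat_lit 0) (XT.lf (nat_lit 0) (nat_lit 679282473) (nat_lit 304) (nat_lit 153443035) (nat_lit 76) (nat_lit 9853153212) (nat_lit 47) (nat_lit 5) (nat_lit 51) (nat_lit 5) (nat_lit 48) (nat_lit 5) (nat_lit 420) (nat_lit 401) (nat_lit 379)) (XT.lf (nat_lit 0) (nat_lit 3756787799) (nat_lit 228) (nat_lit 4020807669) (nat_lit 76) (nat_lit 3359143734) (nat_lit 45) (nat_lit 5) (nat_lit 48) (nat_lit 5) (nat_lit 46) (nat_lit 5) (nat_lit 421) (nat_lit 401) (nat_lit 378))) (XT.nd (nat_lit 78) (nat_lit 228) (nat_lit 0) (XT.lf (nat_lit 0) (nat_lit 3351586470) (nat_lit 152) (nat_lit 3735528126) (nat_lit 228) (nat_lit 4536066856) (nat_lit 43)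 (nat_lit 5) (nat_lit 45) (nat_lit 5) (nat_lit 46) (nat_lit 5) (nat_lit 422) (nat_lit 401) (nat_lit 377)) (XT.nd (nat_lit 78) (nat_lit 228) (nat_lit 0) (XT.lf (nat_lit 0) (nat_lit 10714726738) (nat_lit 228) (nat_lit 764770985) (nat_lit 76) (nat_lit 666612082) (nat_lit 43) (nat_lit 5) (nat_lit 46) (nat_lit 5) (nat_lit 44) (nat_lit 4) (nat_lit 423) (nat_lit 401) (nat_lit 376)) (XT.lf (nat_lit 0) (nat_lit 2017434645) (nat_lit 228) (nat_lit 5265584121) (nat_lit 76) (nat_lit 5408839044) (nat_lit 40) (nat_lit 5) (nat_lit 43) (nat_lit 5) (nat_lit 41) (nat_lit 5) (nat_lit 424) (nat_lit 401) (nat_lit 375))))) (XT.nd (nat_lit 234) (nat_lit 304) (nat_lit 0) (XT.nd (nat_lit 78) (nat_lit 76) (nat_lit 0) (XT.lf (nat_lit 0) (nat_lit 3009748894) (nat_lit 152) (nat_lit 2660160838) (nat_lit 228) (nat_lit 7608006237) (nat_lit 38) (nat_lit 5) (nat_lit 40) (nat_lit 5) (nat_lit 41) (nat_lit 5) (nat_lit 425) (nat_lit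 401) (nat_lit 374)) (XT.nd (nat_lit 78) (nat_lit 76) (nat_lit 0) (XT.lf (nat_lit 0) (nat_lit 9731721118) (nat_lit 228) (nat_lit 1854316415) (nat_lit 76) (nat_lit 2315479189) (nat_lit 38) (nat_lit 5) (nat_lit 41) (nat_lit 5) (nat_lit 39) (nat_lit 4) (nat_lit 426) (nat_lit 401) (nat_lit 373)) (XT.lf (nat_lit 0) (nat_lit 7402648931) (nat_lit 76) (nat_lit 6882708468) (nat_lit 152) (nat_lit 276324589) (nat_lit 37) (nat_lit 5) (nat_lit 38) (nat_lit 5) (nat_lit 39) (nat_lit 4) (nat_lit 427) (nat_lit 401) (nat_lit 372)))) (XT.nd (nat_lit 78) (nat_lit 76) (nat_lit 0) (XT.lf (nat_lit 0) (nat_lit 2112823427) (nat_lit 152) (nat_lit 1642691832) (nat_lit 228) (nat_lit 11509736213) (nat_lit 34) (nat_lit 5) (nat_lit 36) (nat_lit 5) (nat_lit 37) (nat_lit 5) (nat_lit 428) (nat_lit 401) (nat_lit 371)) (XT.nd (nat_lit 78) (nat_lit 76) (nat_lit 0) (XT.lf (nat_lit 0) (nat_lit 8314514796) (nat_lit 228) (nat_lit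 3718383041) (nat_lit 76) (nat_lit 3974092518) (nat_lit 34) (nat_lit 5) (nat_lit 37) (nat_lit 5) (nat_lit 35) (nat_lit 4) (nat_lit 429) (nat_lit 401) (nat_lit 370)) (XT.lf (nat_lit 0) (nat_lit 6635928154) (nat_lit 76) (nat_lit 6732455498) (nat_lit 152) (nat_lit 3429292487) (nat_lit 33) (nat_lit 5) (nat_lit 34) (nat_lit 5) (nat_lit 35) (nat_lit 4) (nat_lit 430) (nat_lit 401) (nat_lit 369)))))) (XT.nd (nat_lit 390) (nat_lit 304) (nat_lit 0) (XT.nd (nat_lit 156) (nat_lit 228) (nat_lit 0) (XT.nd (nat_lit 78) (nat_lit 0) (nat_lit 0) (XT.lf (nat_lit 0) (nat_lit 243453773) (nat_lit 152) (nat_lit 911380585) (nat_lit 228) (nat_lit 16491445579) (nat_lit 30) (nat_lit 5) (nat_lit 32) (nat_lit 5) (nat_lit 33) (nat_lit 5) (nat_lit 431) (nat_lit 401) (nat_lit 368)) (XT.lf (nat_lit 0) (nat_lit 6264383558) (nat_lit 228) (nat_lit 6832670101) (nat_lit 76) (nat_lit 5431091204) (nat_lit 30) (nat_lit 5) (nat_lit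 33) (nat_lit 5) (nat_lit 31) (nat_lit 4) (nat_lit 432) (nat_lit 401) (nat_lit 367))) (XT.nd (nat_lit 78) (nat_lit 152) (nat_lit 0) (XT.lf (nat_lit 0) (nat_lit 4677158318) (nat_lit 76) (nat_lit 7176537310) (nat_lit 152) (nat_lit 7621197947) (nat_lit 29) (nat_lit 5) (nat_lit 30) (nat_lit 5) (nat_lit 31) (nat_lit 4) (nat_lit 433) (nat_lit 401) (nat_lit 366)) (XT.nd (nat_lit 78) (nat_lit 152) (nat_lit 0) (XT.lf (nat_lit 0) (nat_lit 17383057448) (nat_lit 76) (nat_lit 630855304) (nat_lit 152) (nat_lit 2473582058) (nat_lit 29) (nat_lit 5) (nat_lit 30) (nat_lit 5) (nat_lit 31) (nat_lit 4) (nat_lit 434) (nat_lit 401) (nat_lit 365)) (XT.lf (nat_lit 0) (nat_lit 3269827607) (nat_lit 152) (nat_lit 11888834066) (nat_lit 76) (nat_lit 6389448751) (nat_lit 27) (nat_lit 5) (nat_lit 29) (nat_lit 5) (nat_lit 28) (nat_lit 4) (nat_lit 435) (nat_lit 401) (nat_lit 364))))) (XT.nd (nat_lit 234) (nat_lit 152) (nat_lit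 0) (XT.nd (nat_lit 78) (nat_lit 76) (nat_lit 0) (XT.lf (nat_lit 0) (nat_lit 781249091) (nat_lit 76) (nat_lit 8620935739) (nat_lit 152) (nat_lit 13281212213) (nat_lit 26) (nat_lit 5) (nat_lit 27) (nat_lit 5) (nat_lit 28) (nat_lit 4) (nat_lit 436) (nat_lit 401) (nat_lit 363)) (XT.nd (nat_lit 78) (nat_lit 76) (nat_lit 0) (XT.lf (nat_lit 0) (nat_lit 15034975874) (nat_lit 76) (nat_lit 1257898410) (nat_lit 152) (nat_lit 7595222688) (nat_lit 26) (nat_lit 5) (nat_lit 27) (nat_lit 5) (nat_lit 28) (nat_lit 4) (nat_lit 437) (nat_lit 401) (nat_lit 362)) (XT.lf (nat_lit 0) (nat_lit 5239533618) (nat_lit 76) (nat_lit 18728132961) (nat_lit 76) (nat_lit 1202887647) (nat_lit 25) (nat_lit 4) (nat_lit 26) (nat_lit 5) (nat_lit 26) (nat_lit 4) (nat_lit 438) (nat_lit 401) (nat_lit 361)))) (XT.nd (nat_lit 78) (nat_lit 76) (nat_lit 0) (XT.lf (nat_lit 0) (nat_lit 5642779368) (nat_lit 152) (nat_lit 5850903373) (nat_lit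 76) (nat_lit 15032794822) (nat_lit 24) (nat_lit 5) (nat_lit 26) (nat_lit 5) (nat_lit 25) (nat_lit 4) (nat_lit 439) (nat_lit 401) (nat_lit 360)) (XT.nd (nat_lit 78) (nat_lit 0) (nat_lit 0) (XT.lf (nat_lit 0) (nat_lit 9716278378) (nat_lit 76) (nat_lit 3438607220) (nat_lit 152) (nat_lit 14818795076) (nat_lit 23) (nat_lit 5) (nat_lit 24) (nat_lit 5) (nat_lit 25) (nat_lit 4) (nat_lit 440) (nat_lit 401) (nat_lit 359)) (XT.lf (nat_lit 0) (nat_lit 21509157047) (nat_lit 152) (nat_lit 2887563072) (nat_lit 0) (nat_lit 5120650900) (nat_lit 23) (nat_lit 5) (nat_lit 25) (nat_lit 4) (nat_lit 23) (nat_lit 4) (nat_lit 441) (nat_lit 401) (nat_lit 358))))))) (XT.nd (nat_lit 858) (nat_lit 456) (nat_lit 0) (XT.nd (nat_lit 390) (nat_lit 380) (nat_lit 0) (XT.nd (nat_lit 156) (nat_lit 152) (nat_lit 0) (XT.nd (nat_lit 78) (nat_lit 76) (nat_lit 0) (XT.lf (nat_lit 0) (nat_lit 14247680727) (nat_lit 76) (nat_lit 16670267804)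 (nat_lit 76) (nat_lit 235720015) (nat_lit 22) (nat_lit 4) (nat_lit 23) (nat_lit 5) (nat_lit 23) (nat_lit 4) (nat_lit 442) (nat_lit 401) (nat_lit 357)) (XT.lf (nat_lit 0) (nat_lit 7785835756) (nat_lit 152) (nat_lit 282640566) (nat_lit 76) (nat_lit 24833870804) (nat_lit 21) (nat_lit 5) (nat_lit 23) (nat_lit 5) (nat_lit 22) (nat_lit 4) (nat_lit 443) (nat_lit 401) (nat_lit 356))) (XT.nd (nat_lit 78) (nat_lit 76) (nat_lit 0) (XT.lf (nat_lit 0) (nat_lit 16879447043) (nat_lit 152) (nat_lit 16289292257) (nat_lit 0) (nat_lit 1586250537) (nat_lit 20) (nat_lit 5) (nat_lit 22) (nat_lit 4) (nat_lit 20) (nat_lit 4) (nat_lit 444) (nat_lit 401) (nat_lit 355)) (XT.nd (nat_lit 78) (nat_lit 0) (nat_lit 0) (XT.lf (nat_lit 0) (nat_lit 1772033028) (nat_lit 76) (nat_lit 25146699585) (nat_lit 76) (nat_lit 9819661098) (nat_lit 19) (nat_lit 4) (nat_lit 20) (nat_lit 5) (nat_lit 20) (nat_lit 4) (nat_lit 445) (nat_lit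 401) (nat_lit 354)) (XT.lf (nat_lit 0) (nat_lit 22125125644) (nat_lit 76) (nat_lit 16040675466) (nat_lit 76) (nat_lit 682301811) (nat_lit 19) (nat_lit 4) (nat_lit 20) (nat_lit 5) (nat_lit 20) (nat_lit 4) (nat_lit 446) (nat_lit 401) (nat_lit 353))))) (XT.nd (nat_lit 234) (nat_lit 152) (nat_lit 0) (XT.nd (nat_lit 78) (nat_lit 76) (nat_lit 0) (XT.lf (nat_lit 0) (nat_lit 2824572596) (nat_lit 76) (nat_lit 5931177545) (nat_lit 152) (nat_lit 32350830215) (nat_lit 17) (nat_lit 5) (nat_lit 18) (nat_lit 5) (nat_lit 19) (nat_lit 4) (nat_lit 447) (nat_lit 401) (nat_lit 352)) (XT.nd (nat_lit 78) (nat_lit 76) (nat_lit 0) (XT.lf (nat_lit 0) (nat_lit 19462555465) (nat_lit 152) (nat_lit 18847621020) (nat_lit 0) (nat_lit 5190099395) (nat_lit 17) (nat_lit 5) (nat_lit 19) (nat_lit 4) (nat_lit 17) (nat_lit 4) (nat_lit 448) (nat_lit 401) (nat_lit 351)) (XT.lf (nat_lit 0) (nat_lit 2018134709) (nat_lit 76) (nat_lit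 29174733386) (nat_lit 76) (nat_lit 14879245032) (nat_lit 16) (nat_lit 4) (nat_lit 17) (nat_lit 5) (nat_lit 17) (nat_lit 4) (nat_lit 449) (nat_lit 401) (nat_lit 350)))) (XT.nd (nat_lit 78) (nat_lit 152) (nat_lit 0) (XT.lf (nat_lit 0) (nat_lit 25556530399) (nat_lit 76) (nat_lit 18785764619) (nat_lit 76) (nat_lit 4468950076) (nat_lit 16) (nat_lit 4) (nat_lit 17) (nat_lit 5) (nat_lit 17) (nat_lit 4) (nat_lit 450) (nat_lit 401) (nat_lit 349)) (XT.nd (nat_lit 78) (nat_lit 76) (nat_lit 0) (XT.lf (nat_lit 0) (nat_lit 6402389257) (nat_lit 152) (nat_lit 1019591358) (nat_lit 76) (nat_lit 44337128591) (nat_lit 15) (nat_lit 5) (nat_lit 17) (nat_lit 5) (nat_lit 16) (nat_lit 4) (nat_lit 451) (nat_lit 401) (nat_lit 348)) (XT.lf (nat_lit 0) (nat_lit 18583160716) (nat_lit 152) (nat_lit 31004226971) (nat_lit 0) (nat_lit 5291637768) (nat_lit 14) (nat_lit 5) (nat_lit 16) (nat_lit 4) (nat_lit 14) (nat_lit 4)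 (nat_lit 452) (nat_lit 401) (nat_lit 347)))))) (XT.nd (nat_lit 468) (nat_lit 228) (nat_lit 0) (XT.nd (nat_lit 234) (nat_lit 152) (nat_lit 0) (XT.nd (nat_lit 78) (nat_lit 76) (nat_lit 0) (XT.lf (nat_lit 0) (nat_lit 31929444797) (nat_lit 152) (nat_lit 7681561789) (nat_lit 0) (nat_lit 18622246465) (nat_lit 14) (nat_lit 5) (nat_lit 16) (nat_lit 4) (nat_lit 14) (nat_lit 4) (nat_lit 453) (nat_lit 401) (nat_lit 346)) (XT.nd (nat_lit 78) (nat_lit 0) (nat_lit 0) (XT.lf (nat_lit 0) (nat_lit 18369852167) (nat_lit 76) (nat_lit 28387292107) (nat_lit 76) (nat_lit 15065579529) (nat_lit 13) (nat_lit 4) (nat_lit 14) (nat_lit 5) (nat_lit 14) (nat_lit 4) (nat_lit 454) (nat_lit 401) (nat_lit 345)) (XT.lf (nat_lit 0) (nat_lit 46887655315) (nat_lit 76) (nat_lit 16066116713) (nat_lit 76) (nat_lit 2730965018) (nat_lit 13) (nat_lit 4) (nat_lit 14) (nat_lit 5) (nat_lit 14) (nat_lit 4) (nat_lit 455) (nat_lit 401)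 (nat_lit 344)))) (XT.nd (nat_lit 78) (nat_lit 0) (nat_lit 0) (XT.lf (nat_lit 0) (nat_lit 7920795659) (nat_lit 76) (nat_lit 2304392311) (nat_lit 152) (nat_lit 59596985352) (nat_lit 11) (nat_lit 5) (nat_lit 12) (nat_lit 5) (nat_lit 13) (nat_lit 4) (nat_lit 456) (nat_lit 401) (nat_lit 343)) (XT.nd (nat_lit 78) (nat_lit 0) (nat_lit 0) (XT.lf (nat_lit 0) (nat_lit 24873757145) (nat_lit 152) (nat_lit 36842692523) (nat_lit 0) (nat_lit 12504204184) (nat_lit 11) (nat_lit 5) (nat_lit 13) (nat_lit 4) (nat_lit 11) (nat_lit 4) (nat_lit 457) (nat_lit 401) (nat_lit 342)) (XT.lf (nat_lit 0) (nat_lit 40730126877) (nat_lit 152) (nat_lit 9887318316) (nat_lit 0) (nat_lit 28350695765) (nat_lit 11) (nat_lit 5) (nat_lit 13) (nat_lit 4) (nat_lit 11) (nat_lit 4) (nat_lit 458) (nat_lit 401) (nat_lit 341))))) (XT.nd (nat_lit 234) (nat_lit 76) (nat_lit 0) (XT.nd (nat_lit 78) (nat_lit 76) (nat_lit 0) (XT.lf (nat_lit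 0) (nat_lit 20189880805) (nat_lit 76) (nat_lit 38128526462) (nat_lit 76) (nat_lit 25739948913) (nat_lit 10) (nat_lit 4) (nat_lit 11) (nat_lit 5) (nat_lit 11) (nat_lit 4) (nat_lit 459) (nat_lit 401) (nat_lit 340)) (XT.nd (nat_lit 78) (nat_lit 76) (nat_lit 0) (XT.lf (nat_lit 0) (nat_lit 53192100507) (nat_lit 76) (nat_lit 24370417162) (nat_lit 76) (nat_lit 11973370690) (nat_lit 10) (nat_lit 4) (nat_lit 11) (nat_lit 5) (nat_lit 11) (nat_lit 4) (nat_lit 460) (nat_lit 401) (nat_lit 339)) (XT.lf (nat_lit 0) (nat_lit 2729246235) (nat_lit 152) (nat_lit 6728055898) (nat_lit 76) (nat_lit 85990392173) (nat_lit 9) (nat_lit 5) (nat_lit 11) (nat_lit 5) (nat_lit 10) (nat_lit 4) (nat_lit 461) (nat_lit 401) (nat_lit 338)))) (XT.nd (nat_lit 78) (nat_lit 0) (nat_lit 0) (XT.lf (nat_lit 0) (nat_lit 18756698256) (nat_lit 152) (nat_lit 75723259866) (nat_lit 0) (nat_lit 7263967882) (nat_lit 8) (nat_lit 5) (nat_lit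 10) (nat_lit 4) (nat_lit 8) (nat_lit 4) (nat_lit 462) (nat_lit 401) (nat_lit 337)) (XT.nd (nat_lit 78) (nat_lit 0) (nat_lit 0) (XT.lf (nat_lit 0) (nat_lit 36481808305) (nat_lit 152) (nat_lit 47045958806) (nat_lit 0) (nat_lit 24982853020) (nat_lit 8) (nat_lit 5) (nat_lit 10) (nat_lit 4) (nat_lit 8) (nat_lit 4) (nat_lit 463) (nat_lit 401) (nat_lit 336)) (XT.lf (nat_lit 0) (nat_lit 55607411028) (nat_lit 152) (nat_lit 16109948892) (nat_lit 0) (nat_lit 44102691937) (nat_lit 8) (nat_lit 5) (nat_lit 10) (nat_lit 4) (nat_lit 8) (nat_lit 4) (nat_lit 464) (nat_lit 401) (nat_lit 335))))))))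
noncomputable def xc97 : XT := (XT.nd (nat_lit 1716) (nat_lit 76) (nat_lit 0) (XT.nd (nat_lit 858) (nat_lit 152) (nat_lit 0) (XT.nd (nat_lit 390) (nat_lit 76) (nat_lit 0) (XT.nd (nat_lit 156) (nat_lit 152) (nat_lit 0) (XT.nd (nat_lit 78) (nat_lit 0) (nat_lit 0) (XT.lf (nat_lit 0) (nat_lit 18177401626) (nat_lit 76) (nat_lit 58506608651) (nat_lit 76) (nat_lit 46996552701) (nat_lit 7) (nat_lit 4) (nat_lit 8) (nat_lit 5) (nat_lit 8) (nat_lit 4) (nat_lit 465) (nat_lit 401) (nat_lit 334)) (XT.lf (nat_lit 0) (nat_lit 56091911400) (nat_lit 76) (nat_lit 43779513378) (nat_lit 76) (nat_lit 32264515893) (nat_lit 7) (nat_lit 4) (nat_lit 8) (nat_lit 5) (nat_lit 8) (nat_lit 4) (nat_lit 466) (nat_lit 401) (nat_lit 333))) (XT.nd (nat_lit 78) (nat_lit 152) (nat_lit 0) (XT.lf (nat_lit 0) (nat_lit 97009937645) (nat_lit 76) (nat_lit 27889276980) (nat_lit 76) (nat_lit 16369703999) (nat_lit 7) (nat_lit 4) (nat_lit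 8) (nat_lit 5) (nat_lit 8) (nat_lit 4) (nat_lit 467) (nat_lit 401) (nat_lit 332)) (XT.nd (nat_lit 78) (nat_lit 76) (nat_lit 0) (XT.lf (nat_lit 0) (nat_lit 742951926) (nat_lit 152) (nat_lit 9978469542) (nat_lit 76) (nat_lit 140410692005) (nat_lit 6) (nat_lit 5) (nat_lit 8) (nat_lit 5) (nat_lit 7) (nat_lit 4) (nat_lit 468) (nat_lit 401) (nat_lit 331)) (XT.lf (nat_lit 0) (nat_lit 19216898640) (nat_lit 152) (nat_lit 133920244955) (nat_lit 0) (nat_lit 8543072436) (nat_lit 5) (nat_lit 5) (nat_lit 7) (nat_lit 4) (nat_lit 5) (nat_lit 4) (nat_lit 469) (nat_lit 401) (nat_lit 330))))) (XT.nd (nat_lit 234) (nat_lit 76) (nat_lit 0) (XT.nd (nat_lit 78) (nat_lit 0) (nat_lit 0) (XT.lf (nat_lit 0) (nat_lit 39714326873) (nat_lit 152) (nat_lit 104277057569) (nat_lit 0) (nat_lit 29037137543) (nat_lit 5) (nat_lit 5) (nat_lit 7) (nat_lit 4) (nat_lit 5) (nat_lit 4) (nat_lit 470) (nat_lit 401) (nat_lit 329)) (XT.nd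 (nat_lit 78) (nat_lit 0) (nat_lit 0) (XT.lf (nat_lit 0) (nat_lit 61839671395) (nat_lit 152) (nat_lit 72286603619) (nat_lit 0) (nat_lit 51159368060) (nat_lit 5) (nat_lit 5) (nat_lit 7) (nat_lit 4) (nat_lit 5) (nat_lit 4) (nat_lit 471) (nat_lit 401) (nat_lit 328)) (XT.lf (nat_lit 0) (nat_lit 85724045360) (nat_lit 152) (nat_lit 37759310044) (nat_lit 0) (nat_lit 75040858686) (nat_lit 5) (nat_lit 5) (nat_lit 7) (nat_lit 4) (nat_lit 5) (nat_lit 4) (nat_lit 472) (nat_lit 401) (nat_lit 327)))) (XT.nd (nat_lit 78) (nat_lit 76) (nat_lit 0) (XT.lf (nat_lit 0) (nat_lit 111508985797) (nat_lit 152) (nat_lit 490570659) (nat_lit 0) (nat_lit 100823129366) (nat_lit 5) (nat_lit 5) (nat_lit 7) (nat_lit 4) (nat_lit 5) (nat_lit 4) (nat_lit 473) (nat_lit 401) (nat_lit 326)) (XT.nd (nat_lit 78) (nat_lit 0) (nat_lit 0) (XT.lf (nat_lit 0) (nat_lit 41833128852) (nat_lit 76) (nat_lit 98520251257) (nat_lit 76) (nat_lit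 87831922828) (nat_lit 4) (nat_lit 4) (nat_lit 5) (nat_lit 5) (nat_lit 5) (nat_lit 4) (nat_lit 474) (nat_lit 401) (nat_lit 325)) (XT.lf (nat_lit 0) (nat_lit 87551908076) (nat_lit 76) (nat_lit 83957650193) (nat_lit 76) (nat_lit 73267032877) (nat_lit 4) (nat_lit 4) (nat_lit 5) (nat_lit 5) (nat_lit 5) (nat_lit 4) (nat_lit 475) (nat_lit 401) (nat_lit 324)))))) (XT.nd (nat_lit 390) (nat_lit 0) (nat_lit 0) (XT.nd (nat_lit 156) (nat_lit 152) (nat_lit 0) (XT.nd (nat_lit 78) (nat_lit 0) (nat_lit 0) (XT.lf (nat_lit 0) (nat_lit 136910860529) (nat_lit 76) (nat_lit 68238869440) (nat_lit 76) (nat_lit 57546132784) (nat_lit 4) (nat_lit 4) (nat_lit 5) (nat_lit 5) (nat_lit 5) (nat_lit 4) (nat_lit 476) (nat_lit 401) (nat_lit 323)) (XT.lf (nat_lit 0) (nat_lit 190202483708) (nat_lit 76) (nat_lit 51270760669) (nat_lit 76) (nat_lit 40576061662) (nat_lit 4) (nat_lit 4) (nat_lit 5) (nat_lit 5) (nat_lit 5) (nat_lit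 4) (nat_lit 477) (nat_lit 401) (nat_lit 322))) (XT.nd (nat_lit 78) (nat_lit 152) (nat_lit 0) (XT.lf (nat_lit 0) (nat_lit 247742579823) (nat_lit 76) (nat_lit 32952772124) (nat_lit 76) (nat_lit 22256256125) (nat_lit 4) (nat_lit 4) (nat_lit 5) (nat_lit 5) (nat_lit 5) (nat_lit 4) (nat_lit 478) (nat_lit 401) (nat_lit 321)) (XT.nd (nat_lit 78) (nat_lit 152) (nat_lit 0) (XT.lf (nat_lit 0) (nat_lit 309872127221) (nat_lit 76) (nat_lit 13176352762) (nat_lit 76) (nat_lit 2478154362) (nat_lit 4) (nat_lit 4) (nat_lit 5) (nat_lit 5) (nat_lit 5) (nat_lit 4) (nat_lit 479) (nat_lit 401) (nat_lit 320)) (XT.lf (nat_lit 0) (nat_lit 18830473408) (nat_lit 152) (nat_lit 322046141024) (nat_lit 0) (nat_lit 8923291762) (nat_lit 2) (nat_lit 5) (nat_lit 4) (nat_lit 4) (nat_lit 2) (nat_lit 4) (nat_lit 480) (nat_lit 401) (nat_lit 319))))) (XT.nd (nat_lit 234) (nat_lit 0) (nat_lit 0) (XT.nd (nat_lit 78) (nat_lit 0) (nat_lit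 0) (XT.lf (nat_lit 0) (nat_lit 42484890284) (nat_lit 152) (nat_lit 300886628495) (nat_lit 0) (nat_lit 32576373094) (nat_lit 2) (nat_lit 5) (nat_lit 4) (nat_lit 4) (nat_lit 2) (nat_lit 4) (nat_lit 481) (nat_lit 401) (nat_lit 318)) (XT.nd (nat_lit 78) (nat_lit 0) (nat_lit 0) (XT.lf (nat_lit 0) (nat_lit 68025735729) (nat_lit 152) (nat_lit 278046472902) (nat_lit 0) (nat_lit 58115981925) (nat_lit 2) (nat_lit 5) (nat_lit 4) (nat_lit 4) (nat_lit 2) (nat_lit 4) (nat_lit 482) (nat_lit 401) (nat_lit 317)) (XT.lf (nat_lit 0) (nat_lit 95604362902) (nat_lit 152) (nat_lit 253390325175) (nat_lit 0) (nat_lit 85693464084) (nat_lit 2) (nat_lit 5) (nat_lit 4) (nat_lit 4) (nat_lit 2) (nat_lit 4) (nat_lit 483) (nat_lit 401) (nat_lit 316)))) (XT.nd (nat_lit 78) (nat_lit 0) (nat_lit 0) (XT.lf (nat_lit 0) (nat_lit 125384200703) (nat_lit 152) (nat_lit 226772074810) (nat_lit 0) (nat_lit 115472241688) (nat_lit 2)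 (nat_lit 5) (nat_lit 4) (nat_lit 4) (nat_lit 2) (nat_lit 4) (nat_lit 484) (nat_lit 401) (nat_lit 315)) (XT.nd (nat_lit 78) (nat_lit 0) (nat_lit 0) (XT.lf (nat_lit 0) (nat_lit 157541722247) (nat_lit 152) (nat_lit 198033984026) (nat_lit 0) (nat_lit 147628781567) (nat_lit 2) (nat_lit 5) (nat_lit 4) (nat_lit 4) (nat_lit 2) (nat_lit 4) (nat_lit 485) (nat_lit 401) (nat_lit 314)) (XT.lf (nat_lit 0) (nat_lit 192267490623) (nat_lit 152) (nat_lit 167005753026) (nat_lit 0) (nat_lit 182353640995) (nat_lit 2) (nat_lit 5) (nat_lit 4) (nat_lit 4) (nat_lit 2) (nat_lit 4) (nat_lit 486) (nat_lit 401) (nat_lit 313))))))) (XT.nd (nat_lit 858) (nat_lit 0) (nat_lit 0) (XT.nd (nat_lit 390) (nat_lit 0) (nat_lit 0) (XT.nd (nat_lit 156) (nat_lit 76) (nat_lit 0) (XT.nd (nat_lit 78) (nat_lit 0) (nat_lit 0) (XT.lf (nat_lit 0) (nat_lit 229767288163) (nat_lit 152) (nat_lit 133503510811) (nat_lit 0) (nat_lit 219852596916)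 (nat_lit 2) (nat_lit 5) (nat_lit 4) (nat_lit 4) (nat_lit 2) (nat_lit 4) (nat_lit 487) (nat_lit 401) (nat_lit 312)) (XT.lf (nat_lit 0) (nat_lit 270263335889) (nat_lit 152) (nat_lit 97328725577) (nat_lit 0) (nat_lit 260347865365) (nat_lit 2) (nat_lit 5) (nat_lit 4) (nat_lit 4) (nat_lit 2) (nat_lit 4) (nat_lit 488) (nat_lit 401) (nat_lit 311))) (XT.nd (nat_lit 78) (nat_lit 76) (nat_lit 0) (XT.lf (nat_lit 0) (nat_lit 313995610380) (nat_lit 152) (nat_lit 58267028224) (nat_lit 0) (nat_lit 304079418304) (nat_lit 2) (nat_lit 5) (nat_lit 4) (nat_lit 4) (nat_lit 2) (nat_lit 4) (nat_lit 489) (nat_lit 401) (nat_lit 310)) (XT.nd (nat_lit 78) (nat_lit 76) (nat_lit 0) (XT.lf (nat_lit 0) (nat_lit 361223265856) (nat_lit 152) (nat_lit 16086942029) (nat_lit 0) (nat_lit 351306405675) (nat_lit 2) (nat_lit 5) (nat_lit 4) (nat_lit 4) (nat_lit 2) (nat_lit 4) (nat_lit 490) (nat_lit 401) (nat_lit 309)) (XT.lf (nat_lit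 0) (nat_lit 31012878879) (nat_lit 76) (nat_lit 381959151508) (nat_lit 76) (nat_lit 372041672712) (nat_lit 1) (nat_lit 4) (nat_lit 2) (nat_lit 5) (nat_lit 2) (nat_lit 4) (nat_lit 491) (nat_lit 401) (nat_lit 308))))) (XT.nd (nat_lit 234) (nat_lit 0) (nat_lit 0) (XT.nd (nat_lit 78) (nat_lit 0) (nat_lit 0) (XT.lf (nat_lit 0) (nat_lit 82789655590) (nat_lit 76) (nat_lit 386507999574) (nat_lit 76) (nat_lit 376589947987) (nat_lit 1) (nat_lit 4) (nat_lit 2) (nat_lit 5) (nat_lit 2) (nat_lit 4) (nat_lit 492) (nat_lit 401) (nat_lit 307)) (XT.nd (nat_lit 78) (nat_lit 0) (nat_lit 0) (XT.lf (nat_lit 0) (nat_lit 138703103587) (nat_lit 76) (nat_lit 391423553726) (nat_lit 76) (nat_lit 381504971776) (nat_lit 1) (nat_lit 4) (nat_lit 2) (nat_lit 5) (nat_lit 2) (nat_lit 4) (nat_lit 493) (nat_lit 401) (nat_lit 306)) (XT.lf (nat_lit 0) (nat_lit 199084561822) (nat_lit 76) (nat_lit 396734943171) (nat_lit 76) (nat_lit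 386815870145) (nat_lit 1) (nat_lit 4) (nat_lit 2) (nat_lit 5) (nat_lit 2) (nat_lit 4) (nat_lit 494) (nat_lit 401) (nat_lit 305)))) (XT.nd (nat_lit 78) (nat_lit 0) (nat_lit 0) (XT.lf (nat_lit 0) (nat_lit 264291846343) (nat_lit 76) (nat_lit 402473642812) (nat_lit 76) (nat_lit 392554115085) (nat_lit 1) (nat_lit 4) (nat_lit 2) (nat_lit 5) (nat_lit 2) (nat_lit 4) (nat_lit 495) (nat_lit 401) (nat_lit 304)) (XT.nd (nat_lit 78) (nat_lit 0) (nat_lit 0) (XT.lf (nat_lit 0) (nat_lit 334711370689) (nat_lit 76) (nat_lit 408673659756) (nat_lit 76) (nat_lit 398753711010) (nat_lit 1) (nat_lit 4) (nat_lit 2) (nat_lit 5) (nat_lit 2) (nat_lit 4) (nat_lit 496) (nat_lit 401) (nat_lit 303)) (XT.lf (nat_lit 0) (nat_lit 410760435744) (nat_lit 76) (nat_lit 415371734845) (nat_lit 76) (nat_lit 405451396267) (nat_lit 1) (nat_lit 4) (nat_lit 2) (nat_lit 5) (nat_lit 2) (nat_lit 4) (nat_lit 497) (nat_lit 401) (nat_lit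 302)))))) (XT.nd (nat_lit 468) (nat_lit 0) (nat_lit 0) (XT.nd (nat_lit 234) (nat_lit 0) (nat_lit 0) (XT.nd (nat_lit 78) (nat_lit 0) (nat_lit 0) (XT.lf (nat_lit 0) (nat_lit 492889702634) (nat_lit 76) (nat_lit 422607560376) (nat_lit 76) (nat_lit 412686860842) (nat_lit 1) (nat_lit 4) (nat_lit 2) (nat_lit 5) (nat_lit 2) (nat_lit 4) (nat_lit 498) (nat_lit 401) (nat_lit 301)) (XT.nd (nat_lit 78) (nat_lit 0) (nat_lit 0) (XT.lf (nat_lit 0) (nat_lit 581585863312) (nat_lit 76) (nat_lit 430424015315) (nat_lit 76) (nat_lit 420502981562) (nat_lit 1) (nat_lit 4) (nat_lit 2) (nat_lit 5) (nat_lit 2) (nat_lit 4) (nat_lit 499) (nat_lit 401) (nat_lit 300)) (XT.lf (nat_lit 0) (nat_lit 677374524656) (nat_lit 76) (nat_lit 438867419395) (nat_lit 76) (nat_lit 428946076180) (nat_lit 1) (nat_lit 4) (nat_lit 2) (nat_lit 5) (nat_lit 2) (nat_lit 4) (nat_lit 500) (nat_lit 401) (nat_lit 299)))) (XT.nd (nat_lit 78) (nat_lit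 0) (nat_lit 0) (XT.lf (nat_lit 0) (nat_lit 780823323177) (nat_lit 76) (nat_lit 447987807602) (nat_lit 76) (nat_lit 438066177849) (nat_lit 1) (nat_lit 4) (nat_lit 2) (nat_lit 5) (nat_lit 2) (nat_lit 4) (nat_lit 501) (nat_lit 401) (nat_lit 298)) (XT.nd (nat_lit 78) (nat_lit 0) (nat_lit 0) (XT.lf (nat_lit 0) (nat_lit 892545288792) (nat_lit 76) (nat_lit 457839226683) (nat_lit 76) (nat_lit 447917331616) (nat_lit 1) (nat_lit 4) (nat_lit 2) (nat_lit 5) (nat_lit 2) (nat_lit 4) (nat_lit 502) (nat_lit 401) (nat_lit 297)) (XT.lf (nat_lit 0) (nat_lit 1013202477595) (nat_lit 76) (nat_lit 468480055416) (nat_lit 76) (nat_lit 458557914689) (nat_lit 1) (nat_lit 4) (nat_lit 2) (nat_lit 5) (nat_lit 2) (nat_lit 4) (nat_lit 503) (nat_lit 401) (nat_lit 296))))) (XT.nd (nat_lit 234) (nat_lit 0) (nat_lit 0) (XT.nd (nat_lit 78) (nat_lit 0) (nat_lit 0) (XT.lf (nat_lit 0) (nat_lit 1143509895147) (nat_lit 76) (nat_lit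 479973350565) (nat_lit 76) (nat_lit 470050982375) (nat_lit 1) (nat_lit 4) (nat_lit 2) (nat_lit 5) (nat_lit 2) (nat_lit 4) (nat_lit 504) (nat_lit 401) (nat_lit 295)) (XT.nd (nat_lit 78) (nat_lit 0) (nat_lit 0) (XT.lf (nat_lit 0) (nat_lit 1284239733554) (nat_lit 76) (nat_lit 492387220545) (nat_lit 76) (nat_lit 482464641740) (nat_lit 1) (nat_lit 4) (nat_lit 2) (nat_lit 5) (nat_lit 2) (nat_lit 4) (nat_lit 505) (nat_lit 401) (nat_lit 294)) (XT.lf (nat_lit 0) (nat_lit 1436225947413) (nat_lit 76) (nat_lit 505795229030) (nat_lit 76) (nat_lit 495872455212) (nat_lit 1) (nat_lit 4) (nat_lit 2) (nat_lit 5) (nat_lit 2) (nat_lit 4) (nat_lit 506) (nat_lit 401) (nat_lit 293)))) (XT.nd (nat_lit 78) (nat_lit 0) (nat_lit 0) (XT.lf (nat_lit 0) (nat_lit 1600369195769) (nat_lit 76) (nat_lit 520276830886) (nat_lit 76) (nat_lit 510353876500) (nat_lit 1) (nat_lit 4) (nat_lit 2) (nat_lit 5) (nat_lit 2) (nat_lit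 4) (nat_lit 507) (nat_lit 401) (nat_lit 292)) (XT.nd (nat_lit 78) (nat_lit 0) (nat_lit 0) (XT.lf (nat_lit 0) (nat_lit 1777642179354) (nat_lit 76) (nat_lit 535917843011) (nat_lit 76) (nat_lit 525994721433) (nat_lit 1) (nat_lit 4) (nat_lit 2) (nat_lit 5) (nat_lit 2) (nat_lit 4) (nat_lit 508) (nat_lit 401) (nat_lit 291)) (XT.lf (nat_lit 0) (nat_lit 1969095404736) (nat_lit 76) (nat_lit 552810952886) (nat_lit 76) (nat_lit 542887676500) (nat_lit 1) (nat_lit 4) (nat_lit 2) (nat_lit 5) (nat_lit 2) (nat_lit 4) (nat_lit 509) (nat_lit 401) (nat_lit 290))))))))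
noncomputable def xc98 : XT := (XT.nd (nat_lit 54288) (nat_lit 0) (nat_lit 2736) (XT.nd (nat_lit 858) (nat_lit 0) (nat_lit 0) (XT.nd (nat_lit 390) (nat_lit 0) (nat_lit 0) (XT.nd (nat_lit 156) (nat_lit 0) (nat_lit 0) (XT.nd (nat_lit 78) (nat_lit 0) (nat_lit 0) (XT.lf (nat_lit 0) (nat_lit 2175863409548) (nat_lit 76) (nat_lit 571056267829) (nat_lit 76) (nat_lit 561132848102) (nat_lit 1) (nat_lit 4) (nat_lit 2) (nat_lit 5) (nat_lit 2) (nat_lit 4) (nat_lit 510) (nat_lit 401) (nat_lit 289)) (XT.lf (nat_lit 0) (nat_lit 2399171485670) (nat_lit 76) (nat_lit 590761908223) (nat_lit 76) (nat_lit 580838355773) (nat_lit 1) (nat_lit 4) (nat_lit 2) (nat_lit 5) (nat_lit 2) (nat_lit 4) (nat_lit 511) (nat_lit 401) (nat_lit 288))) (XT.nd (nat_lit 78) (nat_lit 0) (nat_lit 0) (XT.lf (nat_lit 0) (nat_lit 2640342940220) (nat_lit 76) (nat_lit 612044648235) (nat_lit 76) (nat_lit 602120972894) (nat_lit 1) (nat_lit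 4) (nat_lit 2) (nat_lit 5) (nat_lit 2) (nat_lit 4) (nat_lit 512) (nat_lit 401) (nat_lit 287)) (XT.nd (nat_lit 78) (nat_lit 0) (nat_lit 0) (XT.lf (nat_lit 0) (nat_lit 2900806937373) (nat_lit 76) (nat_lit 635030607805) (nat_lit 76) (nat_lit 625106818675) (nat_lit 1) (nat_lit 4) (nat_lit 2) (nat_lit 5) (nat_lit 2) (nat_lit 4) (nat_lit 513) (nat_lit 401) (nat_lit 286)) (XT.lf (nat_lit 0) (nat_lit 3182106967481) (nat_lit 76) (nat_lit 659856000026) (nat_lit 76) (nat_lit 649932105537) (nat_lit 1) (nat_lit 4) (nat_lit 2) (nat_lit 5) (nat_lit 2) (nat_lit 4) (nat_lit 514) (nat_lit 401) (nat_lit 285))))) (XT.nd (nat_lit 234) (nat_lit 0) (nat_lit 0) (XT.nd (nat_lit 78) (nat_lit 0) (nat_lit 0) (XT.lf (nat_lit 0) (nat_lit 3485909993688) (nat_lit 76) (nat_lit 686667938335) (nat_lit 76) (nat_lit 676743946291) (nat_lit 1) (nat_lit 4) (nat_lit 2) (nat_lit 5) (nat_lit 2) (nat_lit 4) (nat_lit 515) (nat_lit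 401) (nat_lit 284)) (XT.nd (nat_lit 78) (nat_lit 0) (nat_lit 0) (XT.lf (nat_lit 0) (nat_lit 3814016330222) (nat_lit 76) (nat_lit 715625308292) (nat_lit 76) (nat_lit 705701225919) (nat_lit 1) (nat_lit 4) (nat_lit 2) (nat_lit 5) (nat_lit 2) (nat_lit 4) (nat_lit 516) (nat_lit 401) (nat_lit 283)) (XT.lf (nat_lit 0) (nat_lit 4168370310929) (nat_lit 76) (nat_lit 746899709126) (nat_lit 76) (nat_lit 736975543115) (nat_lit 1) (nat_lit 4) (nat_lit 2) (nat_lit 5) (nat_lit 2) (nat_lit 4) (nat_lit 517) (nat_lit 401) (nat_lit 282)))) (XT.nd (nat_lit 78) (nat_lit 0) (nat_lit 0) (XT.lf (nat_lit 0) (nat_lit 4551071811250) (nat_lit 76) (nat_lit 780676470619) (nat_lit 76) (nat_lit 770752227166) (nat_lit 1) (nat_lit 4) (nat_lit 2) (nat_lit 5) (nat_lit 2) (nat_lit 4) (nat_lit 518) (nat_lit 401) (nat_lit 281)) (XT.nd (nat_lit 78) (nat_lit 0) (nat_lit 0) (XT.lf (nat_lit 0) (nat_lit 4964388691928) (nat_lit 76)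 (nat_lit 817155751359) (nat_lit 76) (nat_lit 807231436199) (nat_lit 1) (nat_lit 4) (nat_lit 2) (nat_lit 5) (nat_lit 2) (nat_lit 4) (nat_lit 519) (nat_lit 401) (nat_lit 280)) (XT.lf (nat_lit 0) (nat_lit 5410770238183) (nat_lit 76) (nat_lit 856553724860) (nat_lit 76) (nat_lit 846629343306) (nat_lit 1) (nat_lit 4) (nat_lit 2) (nat_lit 5) (nat_lit 2) (nat_lit 4) (nat_lit 520) (nat_lit 401) (nat_lit 279)))))) (XT.nd (nat_lit 390) (nat_lit 0) (nat_lit 0) (XT.nd (nat_lit 156) (nat_lit 0) (nat_lit 0) (XT.nd (nat_lit 78) (nat_lit 0) (nat_lit 0) (XT.lf (nat_lit 0) (nat_lit 5892861673991) (nat_lit 76) (nat_lit 899103860596) (nat_lit 76) (nat_lit 889179417566) (nat_lit 1) (nat_lit 4) (nat_lit 2) (nat_lit 5) (nat_lit 2) (nat_lit 4) (nat_lit 521) (nat_lit 401) (nat_lit 278)) (XT.lf (nat_lit 0) (nat_lit 6413519837491) (nat_lit 76) (nat_lit 945058307519) (nat_lit 76) (nat_lit 935133807567) (nat_lit 1)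 (nat_lit 4) (nat_lit 2) (nat_lit 5) (nat_lit 2) (nat_lit 4) (nat_lit 522) (nat_lit 401) (nat_lit 277))) (XT.nd (nat_lit 78) (nat_lit 0) (nat_lit 0) (XT.lf (nat_lit 0) (nat_lit 6975830110392) (nat_lit 76) (nat_lit 994689388278) (nat_lit 76) (nat_lit 984764835619) (nat_lit 1) (nat_lit 4) (nat_lit 2) (nat_lit 5) (nat_lit 2) (nat_lit 4) (nat_lit 523) (nat_lit 401) (nat_lit 276)) (XT.nd (nat_lit 78) (nat_lit 0) (nat_lit 0) (XT.lf (nat_lit 0) (nat_lit 7583124701720) (nat_lit 76) (nat_lit 1048291212980) (nat_lit 76) (nat_lit 1038366611519) (nat_lit 1) (nat_lit 4) (nat_lit 2) (nat_lit 5) (nat_lit 2) (nat_lit 4) (nat_lit 524) (nat_lit 401) (nat_lit 275)) (XT.lf (nat_lit 0) (nat_lit 8239002394237) (nat_lit 76) (nat_lit 1106181422068) (nat_lit 76) (nat_lit 1096256775420) (nat_lit 1) (nat_lit 4) (nat_lit 2) (nat_lit 5) (nat_lit 2) (nat_lit 4) (nat_lit 525) (nat_lit 401) (nat_lit 274))))) (XT.nd (nat_lit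 52806) (nat_lit 0) (nat_lit 6460) (XT.nd (nat_lit 78) (nat_lit 0) (nat_lit 0) (XT.lf (nat_lit 0) (nat_lit 8947349870565) (nat_lit 76) (nat_lit 1168703068633) (nat_lit 76) (nat_lit 1158778380146) (nat_lit 1) (nat_lit 4) (nat_lit 2) (nat_lit 5) (nat_lit 2) (nat_lit 4) (nat_lit 526) (nat_lit 401) (nat_lit 273)) (XT.nd (nat_lit 78) (nat_lit 0) (nat_lit 0) (XT.lf (nat_lit 0) (nat_lit 9712364745381) (nat_lit 76) (nat_lit 1236226651322) (nat_lit 76) (nat_lit 1226301924095) (nat_lit 1) (nat_lit 4) (nat_lit 2) (nat_lit 5) (nat_lit 2) (nat_lit 4) (nat_lit 527) (nat_lit 401) (nat_lit 272)) (XT.lf (nat_lit 0) (nat_lit 10538580440162) (nat_lit 76) (nat_lit 1309152309884) (nat_lit 76) (nat_lit 1299227546785) (nat_lit 1) (nat_lit 4) (nat_lit 2) (nat_lit 5) (nat_lit 2) (nat_lit 4) (nat_lit 528) (nat_lit 401) (nat_lit 271)))) (XT.nd (nat_lit 78) (nat_lit 228) (nat_lit 0) (XT.lf (nat_lit 0) (nat_lit 2436475665)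 (nat_lit 228) (nat_lit 420548366) (nat_lit 228) (nat_lit 420548366) (nat_lit 89) (nat_lit 3) (nat_lit 92) (nat_lit 3) (nat_lit 92) (nat_lit 5) (nat_lit 402) (nat_lit 402) (nat_lit 396)) (XT.nd (nat_lit 78) (nat_lit 0) (nat_lit 0) (XT.lf (nat_lit 0) (nat_lit 797768199) (nat_lit 228) (nat_lit 4132057551) (nat_lit 304) (nat_lit 1691796570) (nat_lit 86) (nat_lit 5) (nat_lit 89) (nat_lit 3) (nat_lit 90) (nat_lit 5) (nat_lit 403) (nat_lit 402) (nat_lit 395)) (XT.lf (nat_lit 0) (nat_lit 3165667612) (nat_lit 228) (nat_lit 747303321) (nat_lit 304) (nat_lit 2794749483) (nat_lit 86) (nat_lit 5) (nat_lit 89) (nat_lit 3) (nat_lit 90) (nat_lit 5) (nat_lit 404) (nat_lit 402) (nat_lit 394))))))) (XT.nd (nat_lit 858) (nat_lit 1520) (nat_lit 0) (XT.nd (nat_lit 390) (nat_lit 1596) (nat_lit 0) (XT.nd (nat_lit 156) (nat_lit 304) (nat_lit 0) (XT.nd (nat_lit 78) (nat_lit 304) (nat_lit 0) (XT.lf (nat_lit 76) (nat_lit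 2919120938) (nat_lit 0) (nat_lit 2648924222) (nat_lit 304) (nat_lit 1245272018) (nat_lit 87) (nat_lit 5) (nat_lit 86) (nat_lit 5) (nat_lit 90) (nat_lit 5) (nat_lit 405) (nat_lit 402) (nat_lit 393)) (XT.lf (nat_lit 0) (nat_lit 977088158) (nat_lit 304) (nat_lit 177950390) (nat_lit 380) (nat_lit 5785840078) (nat_lit 82) (nat_lit 5) (nat_lit 86) (nat_lit 5) (nat_lit 87) (nat_lit 5) (nat_lit 406) (nat_lit 402) (nat_lit 392))) (XT.nd (nat_lit 78) (nat_lit 380) (nat_lit 0) (XT.lf (nat_lit 0) (nat_lit 3217574427) (nat_lit 304) (nat_lit 3237009420) (nat_lit 76) (nat_lit 629034708) (nat_lit 83) (nat_lit 5) (nat_lit 87) (nat_lit 5) (nat_lit 84) (nat_lit 5) (nat_lit 407) (nat_lit 402) (nat_lit 391)) (XT.nd (nat_lit 78) (nat_lit 76) (nat_lit 0) (XT.lf (nat_lit 0) (nat_lit 831194297) (nat_lit 304) (nat_lit 4673092977) (nat_lit 380) (nat_lit 1744289061) (nat_lit 79) (nat_lit 5) (nat_lit 83) (nat_lit 5)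 (nat_lit 84) (nat_lit 5) (nat_lit 408) (nat_lit 402) (nat_lit 390)) (XT.lf (nat_lit 0) (nat_lit 428393262) (nat_lit 380) (nat_lit 2178319279) (nat_lit 76) (nat_lit 4826415722) (nat_lit 78) (nat_lit 5) (nat_lit 83) (nat_lit 5) (nat_lit 79) (nat_lit 5) (nat_lit 409) (nat_lit 402) (nat_lit 389))))) (XT.nd (nat_lit 234) (nat_lit 760) (nat_lit 0) (XT.nd (nat_lit 78) (nat_lit 456) (nat_lit 0) (XT.lf (nat_lit 0) (nat_lit 2330245692) (nat_lit 380) (nat_lit 237705505) (nat_lit 456) (nat_lit 5070009983) (nat_lit 73) (nat_lit 5) (nat_lit 78) (nat_lit 5) (nat_lit 79) (nat_lit 5) (nat_lit 410) (nat_lit 402) (nat_lit 388)) (XT.nd (nat_lit 78) (nat_lit 456) (nat_lit 0) (XT.lf (nat_lit 0) (nat_lit 4836582872) (nat_lit 456) (nat_lit 739132528) (nat_lit 76) (nat_lit 2286948496) (nat_lit 73) (nat_lit 5) (nat_lit 79) (nat_lit 5) (nat_lit 74) (nat_lit 5) (nat_lit 411) (nat_lit 402) (nat_lit 387)) (XT.lf (nat_lit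 0) (nat_lit 4262419223) (nat_lit 456) (nat_lit 2985737214) (nat_lit 532) (nat_lit 860377592) (nat_lit 67) (nat_lit 5) (nat_lit 73) (nat_lit 5) (nat_lit 74) (nat_lit 5) (nat_lit 412) (nat_lit 402) (nat_lit 386)))) (XT.nd (nat_lit 78) (nat_lit 228) (nat_lit 0) (XT.lf (nat_lit 0) (nat_lit 1214678726) (nat_lit 456) (nat_lit 96566049) (nat_lit 532) (nat_lit 7067546018) (nat_lit 60) (nat_lit 5) (nat_lit 66) (nat_lit 5) (nat_lit 67) (nat_lit 5) (nat_lit 413) (nat_lit 402) (nat_lit 385)) (XT.nd (nat_lit 78) (nat_lit 228) (nat_lit 0) (XT.lf (nat_lit 0) (nat_lit 3654559457) (nat_lit 532) (nat_lit 2011898557) (nat_lit 76) (nat_lit 2998951850) (nat_lit 60) (nat_lit 5) (nat_lit 67) (nat_lit 5) (nat_lit 61) (nat_lit 5) (nat_lit 414) (nat_lit 402) (nat_lit 384)) (XT.lf (nat_lit 0) (nat_lit 3589829166) (nat_lit 228) (nat_lit 2558273517) (nat_lit 304) (nat_lit 2829913584) (nat_lit 57) (nat_lit 5) (nat_lit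 60) (nat_lit 5) (nat_lit 61) (nat_lit 5) (nat_lit 415) (nat_lit 402) (nat_lit 383)))))) (XT.nd (nat_lit 468) (nat_lit 608) (nat_lit 0) (XT.nd (nat_lit 234) (nat_lit 456) (nat_lit 0) (XT.nd (nat_lit 78) (nat_lit 228) (nat_lit 0) (XT.lf (nat_lit 0) (nat_lit 291342719) (nat_lit 228) (nat_lit 8512031031) (nat_lit 304) (nat_lit 515350914) (nat_lit 54) (nat_lit 5) (nat_lit 57) (nat_lit 5) (nat_lit 58) (nat_lit 5) (nat_lit 416) (nat_lit 402) (nat_lit 382)) (XT.nd (nat_lit 78) (nat_lit 152) (nat_lit 0) (XT.lf (nat_lit 0) (nat_lit 1984762531) (nat_lit 304) (nat_lit 3209308116) (nat_lit 76) (nat_lit 4480891569) (nat_lit 53) (nat_lit 5) (nat_lit 57) (nat_lit 5) (nat_lit 54) (nat_lit 5) (nat_lit 417) (nat_lit 402) (nat_lit 381)) (XT.lf (nat_lit 0) (nat_lit 3077681613) (nat_lit 152) (nat_lit 1544170642) (nat_lit 228) (nat_lit 5439648871) (nat_lit 51) (nat_lit 5) (nat_lit 53) (nat_lit 5) (nat_lit 54)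 (nat_lit 5) (nat_lit 418) (nat_lit 402) (nat_lit 380)))) (XT.nd (nat_lit 78) (nat_lit 456) (nat_lit 0) (XT.lf (nat_lit 0) (nat_lit 7512564055) (nat_lit 228) (nat_lit 623068131) (nat_lit 76) (nat_lit 2339972253) (nat_lit 51) (nat_lit 5) (nat_lit 54) (nat_lit 5) (nat_lit 52) (nat_lit 5) (nat_lit 419) (nat_lit 402) (nat_lit 379)) (XT.nd (nat_lit 78) (nat_lit 228) (nat_lit 0) (XT.lf (nat_lit 0) (nat_lit 6395505683) (nat_lit 228) (nat_lit 4335690374) (nat_lit 304) (nat_lit 183956604) (nat_lit 48) (nat_lit 5) (nat_lit 51) (nat_lit 5) (nat_lit 52) (nat_lit 5) (nat_lit 420) (nat_lit 402) (nat_lit 378)) (XT.lf (nat_lit 0) (nat_lit 2549195302) (nat_lit 152) (nat_lit 110521797) (nat_lit 228) (nat_lit 8726113174) (nat_lit 45) (nat_lit 5) (nat_lit 47) (nat_lit 5) (nat_lit 48) (nat_lit 5) (nat_lit 421) (nat_lit 402) (nat_lit 377))))) (XT.nd (nat_lit 234) (nat_lit 228) (nat_lit 0) (XT.nd (nat_lit 78)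 (nat_lit 380) (nat_lit 0) (XT.lf (nat_lit 0) (nat_lit 5862300811) (nat_lit 228) (nat_lit 1694495945) (nat_lit 76) (nat_lit 4325714185) (nat_lit 45) (nat_lit 5) (nat_lit 48) (nat_lit 5) (nat_lit 46) (nat_lit 5) (nat_lit 422) (nat_lit 402) (nat_lit 376)) (XT.nd (nat_lit 78) (nat_lit 228) (nat_lit 0) (XT.lf (nat_lit 0) (nat_lit 6200652350) (nat_lit 152) (nat_lit 3186771566) (nat_lit 228) (nat_lit 3026232065) (nat_lit 43) (nat_lit 5) (nat_lit 45) (nat_lit 5) (nat_lit 46) (nat_lit 5) (nat_lit 423) (nat_lit 402) (nat_lit 375)) (XT.lf (nat_lit 0) (nat_lit 241541779) (nat_lit 228) (nat_lit 11227822147) (nat_lit 76) (nat_lit 1513989585) (nat_lit 40) (nat_lit 5) (nat_lit 43) (nat_lit 5) (nat_lit 41) (nat_lit 5) (nat_lit 424) (nat_lit 402) (nat_lit 374)))) (XT.nd (nat_lit 78) (nat_lit 228) (nat_lit 0) (XT.lf (nat_lit 0) (nat_lit 3782122884) (nat_lit 228) (nat_lit 3165188976) (nat_lit 76) (nat_lit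 6631065273) (nat_lit 40) (nat_lit 5) (nat_lit 43) (nat_lit 5) (nat_lit 41) (nat_lit 5) (nat_lit 425) (nat_lit 402) (nat_lit 373)) (XT.nd (nat_lit 78) (nat_lit 76) (nat_lit 0) (XT.lf (nat_lit 0) (nat_lit 5708331646) (nat_lit 152) (nat_lit 1958812072) (nat_lit 228) (nat_lit 6548990322) (nat_lit 38) (nat_lit 5) (nat_lit 40) (nat_lit 5) (nat_lit 41) (nat_lit 5) (nat_lit 426) (nat_lit 402) (nat_lit 372)) (XT.lf (nat_lit 0) (nat_lit 386908207) (nat_lit 76) (nat_lit 11582310210) (nat_lit 152) (nat_lit 2927217771) (nat_lit 37) (nat_lit 5) (nat_lit 38) (nat_lit 5) (nat_lit 39) (nat_lit 4) (nat_lit 427) (nat_lit 402) (nat_lit 371))))))))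
noncomputable def xc99 : XT := (XT.nd (nat_lit 1716) (nat_lit 912) (nat_lit 0) (XT.nd (nat_lit 858) (nat_lit 684) (nat_lit 0) (XT.nd (nat_lit 390) (nat_lit 304) (nat_lit 0) (XT.nd (nat_lit 156) (nat_lit 304) (nat_lit 0) (XT.nd (nat_lit 78) (nat_lit 152) (nat_lit 0) (XT.lf (nat_lit 0) (nat_lit 1151065453) (nat_lit 152) (nat_lit 5338410998) (nat_lit 76) (nat_lit 9122532996) (nat_lit 36) (nat_lit 5) (nat_lit 38) (nat_lit 5) (nat_lit 37) (nat_lit 5) (nat_lit 428) (nat_lit 402) (nat_lit 370)) (XT.lf (nat_lit 0) (nat_lit 4607607441) (nat_lit 152) (nat_lit 832586638) (nat_lit 228) (nat_lit 10935153412) (nat_lit 34) (nat_lit 5) (nat_lit 36) (nat_lit 5) (nat_lit 37) (nat_lit 5) (nat_lit 429) (nat_lit 402) (nat_lit 369))) (XT.nd (nat_lit 78) (nat_lit 304) (nat_lit 0) (XT.lf (nat_lit 0) (nat_lit 10282343749) (nat_lit 228) (nat_lit 1780447530) (nat_lit 76) (nat_lit 5120188318) (nat_lit 34) (nat_lit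 5) (nat_lit 37) (nat_lit 5) (nat_lit 35) (nat_lit 4) (nat_lit 430) (nat_lit 402) (nat_lit 368)) (XT.nd (nat_lit 78) (nat_lit 228) (nat_lit 0) (XT.lf (nat_lit 0) (nat_lit 9345616000) (nat_lit 76) (nat_lit 6350812724) (nat_lit 152) (nat_lit 2344045402) (nat_lit 33) (nat_lit 5) (nat_lit 34) (nat_lit 5) (nat_lit 35) (nat_lit 4) (nat_lit 431) (nat_lit 402) (nat_lit 367)) (XT.lf (nat_lit 0) (nat_lit 2453172183) (nat_lit 152) (nat_lit 42630097) (nat_lit 228) (nat_lit 16462010506) (nat_lit 30) (nat_lit 5) (nat_lit 32) (nat_lit 5) (nat_lit 33) (nat_lit 5) (nat_lit 432) (nat_lit 402) (nat_lit 366))))) (XT.nd (nat_lit 234) (nat_lit 228) (nat_lit 0) (XT.nd (nat_lit 78) (nat_lit 76) (nat_lit 0) (XT.lf (nat_lit 0) (nat_lit 7942597336) (nat_lit 228) (nat_lit 5279501592) (nat_lit 76) (nat_lit 6693870391) (nat_lit 30) (nat_lit 5) (nat_lit 33) (nat_lit 5) (nat_lit 31) (nat_lit 4) (nat_lit 433) (nat_lit 402)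 (nat_lit 365)) (XT.nd (nat_lit 78) (nat_lit 0) (nat_lit 0) (XT.lf (nat_lit 0) (nat_lit 7097954060) (nat_lit 76) (nat_lit 6843131787) (nat_lit 152) (nat_lit 7000428976) (nat_lit 29) (nat_lit 5) (nat_lit 30) (nat_lit 5) (nat_lit 31) (nat_lit 4) (nat_lit 434) (nat_lit 402) (nat_lit 364)) (XT.lf (nat_lit 0) (nat_lit 20513566449) (nat_lit 152) (nat_lit 1376992396) (nat_lit 0) (nat_lit 151027599) (nat_lit 29) (nat_lit 5) (nat_lit 31) (nat_lit 4) (nat_lit 29) (nat_lit 4) (nat_lit 435) (nat_lit 402) (nat_lit 363)))) (XT.nd (nat_lit 78) (nat_lit 76) (nat_lit 0) (XT.lf (nat_lit 0) (nat_lit 4599889767) (nat_lit 152) (nat_lit 10873675416) (nat_lit 76) (nat_lit 7712723357) (nat_lit 27) (nat_lit 5) (nat_lit 29) (nat_lit 5) (nat_lit 28) (nat_lit 4) (nat_lit 436) (nat_lit 402) (nat_lit 362)) (XT.nd (nat_lit 78) (nat_lit 0) (nat_lit 0) (XT.lf (nat_lit 0) (nat_lit 2760235522) (nat_lit 76) (nat_lit 8429545225)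 (nat_lit 152) (nat_lit 13225275997) (nat_lit 26) (nat_lit 5) (nat_lit 27) (nat_lit 5) (nat_lit 28) (nat_lit 4) (nat_lit 437) (nat_lit 402) (nat_lit 361)) (XT.lf (nat_lit 0) (nat_lit 18012298485) (nat_lit 76) (nat_lit 542729012) (nat_lit 152) (nat_lit 7167254214) (nat_lit 26) (nat_lit 5) (nat_lit 27) (nat_lit 5) (nat_lit 28) (nat_lit 4) (nat_lit 438) (nat_lit 402) (nat_lit 360)))))) (XT.nd (nat_lit 390) (nat_lit 304) (nat_lit 0) (XT.nd (nat_lit 156) (nat_lit 228) (nat_lit 0) (XT.nd (nat_lit 78) (nat_lit 76) (nat_lit 0) (XT.lf (nat_lit 0) (nat_lit 7444089967) (nat_lit 76) (nat_lit 19389802133) (nat_lit 76) (nat_lit 274248563) (nat_lit 25) (nat_lit 4) (nat_lit 26) (nat_lit 5) (nat_lit 26) (nat_lit 4) (nat_lit 439) (nat_lit 402) (nat_lit 359)) (XT.lf (nat_lit 0) (nat_lit 6995684998) (nat_lit 152) (nat_lit 4618231745) (nat_lit 76) (nat_lit 16962429254) (nat_lit 24) (nat_lit 5) (nat_lit 26) (nat_lit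 5) (nat_lit 25) (nat_lit 4) (nat_lit 440) (nat_lit 402) (nat_lit 358))) (XT.nd (nat_lit 78) (nat_lit 152) (nat_lit 0) (XT.lf (nat_lit 0) (nat_lit 12151267739) (nat_lit 76) (nat_lit 2930582863) (nat_lit 152) (nat_lit 15059637197) (nat_lit 23) (nat_lit 5) (nat_lit 24) (nat_lit 5) (nat_lit 25) (nat_lit 4) (nat_lit 441) (nat_lit 402) (nat_lit 357)) (XT.nd (nat_lit 78) (nat_lit 152) (nat_lit 0) (XT.lf (nat_lit 0) (nat_lit 24057119278) (nat_lit 152) (nat_lit 1536215771) (nat_lit 0) (nat_lit 6219134873) (nat_lit 23) (nat_lit 5) (nat_lit 25) (nat_lit 4) (nat_lit 23) (nat_lit 4) (nat_lit 442) (nat_lit 402) (nat_lit 356)) (XT.lf (nat_lit 0) (nat_lit 582160159) (nat_lit 152) (nat_lit 16666564559) (nat_lit 76) (nat_lit 16331710529) (nat_lit 21) (nat_lit 5) (nat_lit 23) (nat_lit 5) (nat_lit 22) (nat_lit 4) (nat_lit 443) (nat_lit 402) (nat_lit 355))))) (XT.nd (nat_lit 234) (nat_lit 152) (nat_lit 0) (XT.nd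 (nat_lit 78) (nat_lit 76) (nat_lit 0) (XT.lf (nat_lit 0) (nat_lit 1224307535) (nat_lit 76) (nat_lit 7976805236) (nat_lit 152) (nat_lit 26269940081) (nat_lit 20) (nat_lit 5) (nat_lit 21) (nat_lit 5) (nat_lit 22) (nat_lit 4) (nat_lit 444) (nat_lit 402) (nat_lit 354)) (XT.nd (nat_lit 78) (nat_lit 76) (nat_lit 0) (XT.lf (nat_lit 0) (nat_lit 18987272464) (nat_lit 152) (nat_lit 16118542619) (nat_lit 0) (nat_lit 2368893749) (nat_lit 20) (nat_lit 5) (nat_lit 22) (nat_lit 4) (nat_lit 20) (nat_lit 4) (nat_lit 445) (nat_lit 402) (nat_lit 353)) (XT.lf (nat_lit 0) (nat_lit 3350374942) (nat_lit 76) (nat_lit 26457766840) (nat_lit 76) (nat_lit 9810374080) (nat_lit 19) (nat_lit 4) (nat_lit 20) (nat_lit 5) (nat_lit 20) (nat_lit 4) (nat_lit 446) (nat_lit 402) (nat_lit 352)))) (XT.nd (nat_lit 78) (nat_lit 152) (nat_lit 0) (XT.lf (nat_lit 0) (nat_lit 25225301688) (nat_lit 76) (nat_lit 16675162178) (nat_lit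 76) (nat_lit 904562) (nat_lit 19) (nat_lit 4) (nat_lit 20) (nat_lit 5) (nat_lit 20) (nat_lit 4) (nat_lit 447) (nat_lit 402) (nat_lit 351)) (XT.nd (nat_lit 78) (nat_lit 0) (nat_lit 0) (XT.lf (nat_lit 0) (nat_lit 4382977934) (nat_lit 76) (nat_lit 5752652073) (nat_lit 152) (nat_lit 34205062462) (nat_lit 17) (nat_lit 5) (nat_lit 18) (nat_lit 5) (nat_lit 19) (nat_lit 4) (nat_lit 448) (nat_lit 402) (nat_lit 350)) (XT.lf (nat_lit 0) (nat_lit 21663194155) (nat_lit 152) (nat_lit 19085848564) (nat_lit 0) (nat_lit 6179708261) (nat_lit 17) (nat_lit 5) (nat_lit 19) (nat_lit 4) (nat_lit 17) (nat_lit 4) (nat_lit 449) (nat_lit 402) (nat_lit 349))))))) (XT.nd (nat_lit 858) (nat_lit 380) (nat_lit 0) (XT.nd (nat_lit 390) (nat_lit 304) (nat_lit 0) (XT.nd (nat_lit 156) (nat_lit 152) (nat_lit 0) (XT.nd (nat_lit 78) (nat_lit 0) (nat_lit 0) (XT.lf (nat_lit 0) (nat_lit 3417026303) (nat_lit 76) (nat_lit 30896989363)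 (nat_lit 76) (nat_lit 15393756997) (nat_lit 16) (nat_lit 4) (nat_lit 17) (nat_lit 5) (nat_lit 17) (nat_lit 4) (nat_lit 450) (nat_lit 402) (nat_lit 348)) (XT.lf (nat_lit 0) (nat_lit 28746831365) (nat_lit 76) (nat_lit 19722215886) (nat_lit 76) (nat_lit 4200699751) (nat_lit 16) (nat_lit 4) (nat_lit 17) (nat_lit 5) (nat_lit 17) (nat_lit 4) (nat_lit 451) (nat_lit 402) (nat_lit 347))) (XT.nd (nat_lit 78) (nat_lit 76) (nat_lit 0) (XT.lf (nat_lit 0) (nat_lit 7465009069) (nat_lit 152) (nat_lit 11226687) (nat_lit 76) (nat_lit 48379526562) (nat_lit 15) (nat_lit 5) (nat_lit 17) (nat_lit 5) (nat_lit 16) (nat_lit 4) (nat_lit 452) (nat_lit 402) (nat_lit 346)) (XT.nd (nat_lit 78) (nat_lit 0) (nat_lit 0) (XT.lf (nat_lit 0) (nat_lit 20617696592) (nat_lit 152) (nat_lit 32392049227) (nat_lit 0) (nat_lit 6215732762) (nat_lit 14) (nat_lit 5) (nat_lit 16) (nat_lit 4) (nat_lit 14) (nat_lit 4) (nat_lit 453) (nat_lit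 402) (nat_lit 345)) (XT.lf (nat_lit 0) (nat_lit 34991099473) (nat_lit 152) (nat_lit 7284497934) (nat_lit 0) (nat_lit 20575696526) (nat_lit 14) (nat_lit 5) (nat_lit 16) (nat_lit 4) (nat_lit 14) (nat_lit 4) (nat_lit 454) (nat_lit 402) (nat_lit 344))))) (XT.nd (nat_lit 234) (nat_lit 76) (nat_lit 0) (XT.nd (nat_lit 78) (nat_lit 152) (nat_lit 0) (XT.lf (nat_lit 0) (nat_lit 20825419295) (nat_lit 76) (nat_lit 30165730720) (nat_lit 76) (nat_lit 15737884147) (nat_lit 13) (nat_lit 4) (nat_lit 14) (nat_lit 5) (nat_lit 14) (nat_lit 4) (nat_lit 455) (nat_lit 402) (nat_lit 343)) (XT.nd (nat_lit 78) (nat_lit 152) (nat_lit 0) (XT.lf (nat_lit 0) (nat_lit 51551611217) (nat_lit 76) (nat_lit 16895346090) (nat_lit 76) (nat_lit 2455977641) (nat_lit 13) (nat_lit 4) (nat_lit 14) (nat_lit 5) (nat_lit 14) (nat_lit 4) (nat_lit 456) (nat_lit 402) (nat_lit 342)) (XT.lf (nat_lit 0) (nat_lit 9468377870) (nat_lit 76)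 (nat_lit 2030859977) (nat_lit 152) (nat_lit 63872200509) (nat_lit 11) (nat_lit 5) (nat_lit 12) (nat_lit 5) (nat_lit 13) (nat_lit 4) (nat_lit 457) (nat_lit 402) (nat_lit 341)))) (XT.nd (nat_lit 78) (nat_lit 76) (nat_lit 0) (XT.lf (nat_lit 0) (nat_lit 27296108599) (nat_lit 152) (nat_lit 38920278966) (nat_lit 0) (nat_lit 13907298409) (nat_lit 11) (nat_lit 5) (nat_lit 13) (nat_lit 4) (nat_lit 11) (nat_lit 4) (nat_lit 458) (nat_lit 402) (nat_lit 340)) (XT.nd (nat_lit 78) (nat_lit 76) (nat_lit 0) (XT.lf (nat_lit 0) (nat_lit 44388954511) (nat_lit 152) (nat_lit 9872906597) (nat_lit 0) (nat_lit 30991675398) (nat_lit 11) (nat_lit 5) (nat_lit 13) (nat_lit 4) (nat_lit 11) (nat_lit 4) (nat_lit 459) (nat_lit 402) (nat_lit 339)) (XT.lf (nat_lit 0) (nat_lit 22590078652) (nat_lit 76) (nat_lit 40783437572) (nat_lit 76) (nat_lit 27378316864) (nat_lit 10) (nat_lit 4) (nat_lit 11) (nat_lit 5) (nat_lit 11) (nat_lit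 4) (nat_lit 460) (nat_lit 402) (nat_lit 338)))))) (XT.nd (nat_lit 468) (nat_lit 152) (nat_lit 0) (XT.nd (nat_lit 234) (nat_lit 76) (nat_lit 0) (XT.nd (nat_lit 78) (nat_lit 152) (nat_lit 0) (XT.lf (nat_lit 0) (nat_lit 58174327235) (nat_lit 76) (nat_lit 25953966270) (nat_lit 76) (nat_lit 12541584825) (nat_lit 10) (nat_lit 4) (nat_lit 11) (nat_lit 5) (nat_lit 11) (nat_lit 4) (nat_lit 461) (nat_lit 402) (nat_lit 337)) (XT.nd (nat_lit 78) (nat_lit 76) (nat_lit 0) (XT.lf (nat_lit 0) (nat_lit 3290329797) (nat_lit 152) (nat_lit 6575218369) (nat_lit 76) (nat_lit 93190525762) (nat_lit 9) (nat_lit 5) (nat_lit 11) (nat_lit 5) (nat_lit 10) (nat_lit 4) (nat_lit 462) (nat_lit 402) (nat_lit 336)) (XT.lf (nat_lit 0) (nat_lit 20598967067) (nat_lit 152) (nat_lit 81089012544) (nat_lit 0) (nat_lit 8168106641) (nat_lit 8) (nat_lit 5) (nat_lit 10) (nat_lit 4) (nat_lit 8) (nat_lit 4) (nat_lit 463) (nat_lit 402)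 (nat_lit 335)))) (XT.nd (nat_lit 78) (nat_lit 76) (nat_lit 0) (XT.lf (nat_lit 0) (nat_lit 39716772368) (nat_lit 152) (nat_lit 50168794667) (nat_lit 0) (nat_lit 27280575084) (nat_lit 8) (nat_lit 5) (nat_lit 10) (nat_lit 4) (nat_lit 8) (nat_lit 4) (nat_lit 464) (nat_lit 402) (nat_lit 334)) (XT.nd (nat_lit 78) (nat_lit 76) (nat_lit 0) (XT.lf (nat_lit 0) (nat_lit 60348984835) (nat_lit 152) (nat_lit 16805373652) (nat_lit 0) (nat_lit 47907846016) (nat_lit 8) (nat_lit 5) (nat_lit 10) (nat_lit 4) (nat_lit 8) (nat_lit 4) (nat_lit 465) (nat_lit 402) (nat_lit 333)) (XT.lf (nat_lit 0) (nat_lit 20209942854) (nat_lit 76) (nat_lit 62893976189) (nat_lit 76) (nat_lit 50448261874) (nat_lit 7) (nat_lit 4) (nat_lit 8) (nat_lit 5) (nat_lit 8) (nat_lit 4) (nat_lit 466) (nat_lit 402) (nat_lit 332))))) (XT.nd (nat_lit 234) (nat_lit 76) (nat_lit 0) (XT.nd (nat_lit 78) (nat_lit 76) (nat_lit 0) (XT.lf (nat_lit 0)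 (nat_lit 61114772735) (nat_lit 76) (nat_lit 47010428935) (nat_lit 76) (nat_lit 34560478051) (nat_lit 7) (nat_lit 4) (nat_lit 8) (nat_lit 5) (nat_lit 8) (nat_lit 4) (nat_lit 467) (nat_lit 402) (nat_lit 331)) (XT.nd (nat_lit 78) (nat_lit 76) (nat_lit 0) (XT.lf (nat_lit 0) (nat_lit 105266573789) (nat_lit 76) (nat_lit 29869080700) (nat_lit 76) (nat_lit 17415207066) (nat_lit 7) (nat_lit 4) (nat_lit 8) (nat_lit 5) (nat_lit 8) (nat_lit 4) (nat_lit 468) (nat_lit 402) (nat_lit 330)) (XT.lf (nat_lit 0) (nat_lit 1034668858) (nat_lit 152) (nat_lit 10305394584) (nat_lit 76) (nat_lit 151864027779) (nat_lit 6) (nat_lit 5) (nat_lit 8) (nat_lit 5) (nat_lit 7) (nat_lit 4) (nat_lit 469) (nat_lit 402) (nat_lit 329)))) (XT.nd (nat_lit 78) (nat_lit 0) (nat_lit 0) (XT.lf (nat_lit 0) (nat_lit 20985985144) (nat_lit 152) (nat_lit 144161957654) (nat_lit 0) (nat_lit 9448143536) (nat_lit 5) (nat_lit 5) (nat_lit 7)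 (nat_lit 4) (nat_lit 5) (nat_lit 4) (nat_lit 470) (nat_lit 402) (nat_lit 328)) (XT.nd (nat_lit 78) (nat_lit 0) (nat_lit 0) (XT.lf (nat_lit 0) (nat_lit 43106042108) (nat_lit 152) (nat_lit 112182271344) (nat_lit 0) (nat_lit 31565317163) (nat_lit 5) (nat_lit 5) (nat_lit 7) (nat_lit 4) (nat_lit 5) (nat_lit 4) (nat_lit 471) (nat_lit 402) (nat_lit 327)) (XT.lf (nat_lit 0) (nat_lit 66985520186) (nat_lit 152) (nat_lit 77664947806) (nat_lit 0) (nat_lit 55442125483) (nat_lit 5) (nat_lit 5) (nat_lit 7) (nat_lit 4) (nat_lit 5) (nat_lit 4) (nat_lit 472) (nat_lit 402) (nat_lit 326))))))))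
noncomputable def xc100 : XT := (XT.nd (nat_lit 1716) (nat_lit 0) (nat_lit 0) (XT.nd (nat_lit 858) (nat_lit 76) (nat_lit 0) (XT.nd (nat_lit 390) (nat_lit 152) (nat_lit 0) (XT.nd (nat_lit 156) (nat_lit 76) (nat_lit 0) (XT.nd (nat_lit 78) (nat_lit 0) (nat_lit 0) (XT.lf (nat_lit 0) (nat_lit 92765927395) (nat_lit 152) (nat_lit 40405439937) (nat_lit 0) (nat_lit 81220060694) (nat_lit 5) (nat_lit 5) (nat_lit 7) (nat_lit 4) (nat_lit 5) (nat_lit 4) (nat_lit 473) (nat_lit 402) (nat_lit 325)) (XT.lf (nat_lit 0) (nat_lit 120600036519) (nat_lit 152) (nat_lit 182950655) (nat_lit 0) (nat_lit 109051880931) (nat_lit 5) (nat_lit 5) (nat_lit 7) (nat_lit 4) (nat_lit 5) (nat_lit 4) (nat_lit 474) (nat_lit 402) (nat_lit 324))) (XT.nd (nat_lit 78) (nat_lit 0) (nat_lit 0) (XT.lf (nat_lit 0) (nat_lit 45517863409) (nat_lit 76) (nat_lit 106229632727) (nat_lit 76) (nat_lit 94679357799) (nat_lit 4) (nat_lit 4) (nat_lit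 5) (nat_lit 5) (nat_lit 5) (nat_lit 4) (nat_lit 475) (nat_lit 402) (nat_lit 323)) (XT.nd (nat_lit 78) (nat_lit 0) (nat_lit 0) (XT.lf (nat_lit 0) (nat_lit 94869101693) (nat_lit 76) (nat_lit 90514781995) (nat_lit 76) (nat_lit 78962544715) (nat_lit 4) (nat_lit 4) (nat_lit 5) (nat_lit 5) (nat_lit 5) (nat_lit 4) (nat_lit 476) (nat_lit 402) (nat_lit 322)) (XT.lf (nat_lit 0) (nat_lit 148153582122) (nat_lit 76) (nat_lit 73550312131) (nat_lit 76) (nat_lit 61996257859) (nat_lit 4) (nat_lit 4) (nat_lit 5) (nat_lit 5) (nat_lit 5) (nat_lit 4) (nat_lit 477) (nat_lit 402) (nat_lit 321))))) (XT.nd (nat_lit 234) (nat_lit 152) (nat_lit 0) (XT.nd (nat_lit 78) (nat_lit 0) (nat_lit 0) (XT.lf (nat_lit 0) (nat_lit 205687064581) (nat_lit 76) (nat_lit 55235692945) (nat_lit 76) (nat_lit 43679956273) (nat_lit 4) (nat_lit 4) (nat_lit 5) (nat_lit 5) (nat_lit 5) (nat_lit 4) (nat_lit 478) (nat_lit 402) (nat_lit 320))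 (XT.nd (nat_lit 78) (nat_lit 0) (nat_lit 0) (XT.lf (nat_lit 0) (nat_lit 267810488224) (nat_lit 76) (nat_lit 35462393359) (nat_lit 76) (nat_lit 23905098909) (nat_lit 4) (nat_lit 4) (nat_lit 5) (nat_lit 5) (nat_lit 5) (nat_lit 4) (nat_lit 479) (nat_lit 402) (nat_lit 319)) (XT.lf (nat_lit 0) (nat_lit 334891991858) (nat_lit 76) (nat_lit 14113238265) (nat_lit 76) (nat_lit 2554501428) (nat_lit 4) (nat_lit 4) (nat_lit 5) (nat_lit 5) (nat_lit 5) (nat_lit 4) (nat_lit 480) (nat_lit 402) (nat_lit 318)))) (XT.nd (nat_lit 78) (nat_lit 0) (nat_lit 0) (XT.lf (nat_lit 0) (nat_lit 20452501478) (nat_lit 152) (nat_lit 347573415980) (nat_lit 0) (nat_lit 9748730755) (nat_lit 2) (nat_lit 5) (nat_lit 4) (nat_lit 4) (nat_lit 2) (nat_lit 4) (nat_lit 481) (nat_lit 402) (nat_lit 317)) (XT.nd (nat_lit 78) (nat_lit 0) (nat_lit 0) (XT.lf (nat_lit 0) (nat_lit 45990709467) (nat_lit 152) (nat_lit 324738654769) (nat_lit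 0) (nat_lit 35285793731) (nat_lit 2) (nat_lit 5) (nat_lit 4) (nat_lit 4) (nat_lit 2) (nat_lit 4) (nat_lit 482) (nat_lit 402) (nat_lit 316)) (XT.lf (nat_lit 0) (nat_lit 73566894551) (nat_lit 152) (nat_lit 300087501840) (nat_lit 0) (nat_lit 62860918617) (nat_lit 2) (nat_lit 5) (nat_lit 4) (nat_lit 4) (nat_lit 2) (nat_lit 4) (nat_lit 483) (nat_lit 402) (nat_lit 315)))))) (XT.nd (nat_lit 390) (nat_lit 76) (nat_lit 0) (XT.nd (nat_lit 156) (nat_lit 0) (nat_lit 0) (XT.nd (nat_lit 78) (nat_lit 0) (nat_lit 0) (XT.lf (nat_lit 0) (nat_lit 103344471159) (nat_lit 152) (nat_lit 273473876287) (nat_lit 0) (nat_lit 92637513561) (nat_lit 2) (nat_lit 5) (nat_lit 4) (nat_lit 4) (nat_lit 2) (nat_lit 4) (nat_lit 484) (nat_lit 402) (nat_lit 314)) (XT.lf (nat_lit 0) (nat_lit 135499899005) (nat_lit 152) (nat_lit 244740067737) (nat_lit 0) (nat_lit 124792032459) (nat_lit 2) (nat_lit 5) (nat_lit 4) (nat_lit 4) (nat_lit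 2) (nat_lit 4) (nat_lit 485) (nat_lit 402) (nat_lit 313))) (XT.nd (nat_lit 78) (nat_lit 0) (nat_lit 0) (XT.lf (nat_lit 0) (nat_lit 170223728772) (nat_lit 152) (nat_lit 213715801769) (nat_lit 0) (nat_lit 159515020607) (nat_lit 2) (nat_lit 5) (nat_lit 4) (nat_lit 4) (nat_lit 2) (nat_lit 4) (nat_lit 486) (nat_lit 402) (nat_lit 312)) (XT.nd (nat_lit 78) (nat_lit 0) (nat_lit 0) (XT.lf (nat_lit 0) (nat_lit 207721731304) (nat_lit 152) (nat_lit 180217230880) (nat_lit 0) (nat_lit 197012243862) (nat_lit 2) (nat_lit 5) (nat_lit 4) (nat_lit 4) (nat_lit 2) (nat_lit 4) (nat_lit 487) (nat_lit 402) (nat_lit 311)) (XT.lf (nat_lit 0) (nat_lit 248216116986) (nat_lit 152) (nat_lit 144045845021) (nat_lit 0) (nat_lit 237505907991) (nat_lit 2) (nat_lit 5) (nat_lit 4) (nat_lit 4) (nat_lit 2) (nat_lit 4) (nat_lit 488) (nat_lit 402) (nat_lit 310))))) (XT.nd (nat_lit 234) (nat_lit 76) (nat_lit 0) (XT.nd (nat_lit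 78) (nat_lit 0) (nat_lit 0) (XT.lf (nat_lit 0) (nat_lit 291946852547) (nat_lit 152) (nat_lit 104987295238) (nat_lit 0) (nat_lit 281235975447) (nat_lit 2) (nat_lit 5) (nat_lit 4) (nat_lit 4) (nat_lit 2) (nat_lit 4) (nat_lit 489) (nat_lit 402) (nat_lit 309)) (XT.nd (nat_lit 78) (nat_lit 0) (nat_lit 0) (XT.lf (nat_lit 0) (nat_lit 339173083087) (nat_lit 152) (nat_lit 62810123459) (nat_lit 0) (nat_lit 328461587373) (nat_lit 2) (nat_lit 5) (nat_lit 4) (nat_lit 4) (nat_lit 2) (nat_lit 4) (nat_lit 490) (nat_lit 402) (nat_lit 308)) (XT.lf (nat_lit 0) (nat_lit 390174667751) (nat_lit 152) (nat_lit 17264390889) (nat_lit 0) (nat_lit 379462599245) (nat_lit 2) (nat_lit 5) (nat_lit 4) (nat_lit 4) (nat_lit 2) (nat_lit 4) (nat_lit 491) (nat_lit 402) (nat_lit 307)))) (XT.nd (nat_lit 78) (nat_lit 0) (nat_lit 0) (XT.lf (nat_lit 0) (nat_lit 33600643375) (nat_lit 76) (nat_lit 412461291056) (nat_lit 76) (nat_lit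 401748692188) (nat_lit 1) (nat_lit 4) (nat_lit 2) (nat_lit 5) (nat_lit 2) (nat_lit 4) (nat_lit 492) (nat_lit 402) (nat_lit 306)) (XT.nd (nat_lit 78) (nat_lit 0) (nat_lit 0) (XT.lf (nat_lit 0) (nat_lit 89511655987) (nat_lit 76) (nat_lit 417378090862) (nat_lit 76) (nat_lit 406665000917) (nat_lit 1) (nat_lit 4) (nat_lit 2) (nat_lit 5) (nat_lit 2) (nat_lit 4) (nat_lit 493) (nat_lit 402) (nat_lit 305)) (XT.lf (nat_lit 0) (nat_lit 149890859235) (nat_lit 76) (nat_lit 422690633692) (nat_lit 76) (nat_lit 411977089046) (nat_lit 1) (nat_lit 4) (nat_lit 2) (nat_lit 5) (nat_lit 2) (nat_lit 4) (nat_lit 494) (nat_lit 402) (nat_lit 304))))))) (XT.nd (nat_lit 858) (nat_lit 0) (nat_lit 0) (XT.nd (nat_lit 390) (nat_lit 0) (nat_lit 0) (XT.nd (nat_lit 156) (nat_lit 0) (nat_lit 0) (XT.nd (nat_lit 78) (nat_lit 0) (nat_lit 0) (XT.lf (nat_lit 0) (nat_lit 215096055806) (nat_lit 76) (nat_lit 428430401281) (nat_lit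 76) (nat_lit 417716435616) (nat_lit 1) (nat_lit 4) (nat_lit 2) (nat_lit 5) (nat_lit 2) (nat_lit 4) (nat_lit 495) (nat_lit 402) (nat_lit 303)) (XT.lf (nat_lit 0) (nat_lit 285513646864) (nat_lit 76) (nat_lit 434631407066) (nat_lit 76) (nat_lit 423917051569) (nat_lit 1) (nat_lit 4) (nat_lit 2) (nat_lit 5) (nat_lit 2) (nat_lit 4) (nat_lit 496) (nat_lit 402) (nat_lit 302))) (XT.nd (nat_lit 78) (nat_lit 0) (nat_lit 0) (XT.lf (nat_lit 0) (nat_lit 361560921838) (nat_lit 76) (nat_lit 441330397749) (nat_lit 76) (nat_lit 430615681296) (nat_lit 1) (nat_lit 4) (nat_lit 2) (nat_lit 5) (nat_lit 2) (nat_lit 4) (nat_lit 497) (nat_lit 402) (nat_lit 301)) (XT.nd (nat_lit 78) (nat_lit 0) (nat_lit 0) (XT.lf (nat_lit 0) (nat_lit 443688531246) (nat_lit 76) (nat_lit 448567071052) (nat_lit 76) (nat_lit 437852020380) (nat_lit 1) (nat_lit 4) (nat_lit 2) (nat_lit 5) (nat_lit 2) (nat_lit 4) (nat_lit 498) (nat_lit 402)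 (nat_lit 300)) (XT.lf (nat_lit 0) (nat_lit 532383157218) (nat_lit 76) (nat_lit 456384310965) (nat_lit 76) (nat_lit 445668950831) (nat_lit 1) (nat_lit 4) (nat_lit 2) (nat_lit 5) (nat_lit 2) (nat_lit 4) (nat_lit 499) (nat_lit 402) (nat_lit 299))))) (XT.nd (nat_lit 234) (nat_lit 0) (nat_lit 0) (XT.nd (nat_lit 78) (nat_lit 0) (nat_lit 0) (XT.lf (nat_lit 0) (nat_lit 628170397537) (nat_lit 76) (nat_lit 464828441872) (nat_lit 76) (nat_lit 454112795200) (nat_lit 1) (nat_lit 4) (nat_lit 2) (nat_lit 5) (nat_lit 2) (nat_lit 4) (nat_lit 500) (nat_lit 402) (nat_lit 298)) (XT.nd (nat_lit 78) (nat_lit 0) (nat_lit 0) (XT.lf (nat_lit 0) (nat_lit 731617880295) (nat_lit 76) (nat_lit 473949503068) (nat_lit 76) (nat_lit 463233591083) (nat_lit 1) (nat_lit 4) (nat_lit 2) (nat_lit 5) (nat_lit 2) (nat_lit 4) (nat_lit 501) (nat_lit 402) (nat_lit 297)) (XT.lf (nat_lit 0) (nat_lit 843338627611) (nat_lit 76) (nat_lit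 483801545287) (nat_lit 76) (nat_lit 473085387641) (nat_lit 1) (nat_lit 4) (nat_lit 2) (nat_lit 5) (nat_lit 2) (nat_lit 4) (nat_lit 502) (nat_lit 402) (nat_lit 296)))) (XT.nd (nat_lit 78) (nat_lit 0) (nat_lit 0) (XT.lf (nat_lit 0) (nat_lit 963994688359) (nat_lit 76) (nat_lit 494442950999) (nat_lit 76) (nat_lit 483726565890) (nat_lit 1) (nat_lit 4) (nat_lit 2) (nat_lit 5) (nat_lit 2) (nat_lit 4) (nat_lit 503) (nat_lit 402) (nat_lit 295)) (XT.nd (nat_lit 78) (nat_lit 0) (nat_lit 0) (XT.lf (nat_lit 0) (nat_lit 1094301061416) (nat_lit 76) (nat_lit 505936780388) (nat_lit 76) (nat_lit 495220184665) (nat_lit 1) (nat_lit 4) (nat_lit 2) (nat_lit 5) (nat_lit 2) (nat_lit 4) (nat_lit 504) (nat_lit 402) (nat_lit 294)) (XT.lf (nat_lit 0) (nat_lit 1235029932698) (nat_lit 76) (nat_lit 518351145035) (nat_lit 76) (nat_lit 507634354298) (nat_lit 1) (nat_lit 4) (nat_lit 2) (nat_lit 5) (nat_lit 2) (nat_lit 4)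 (nat_lit 505) (nat_lit 402) (nat_lit 293)))))) (XT.nd (nat_lit 468) (nat_lit 0) (nat_lit 0) (XT.nd (nat_lit 234) (nat_lit 0) (nat_lit 0) (XT.nd (nat_lit 78) (nat_lit 0) (nat_lit 0) (XT.lf (nat_lit 0) (nat_lit 1387015251070) (nat_lit 76) (nat_lit 531759611545) (nat_lit 76) (nat_lit 521042640240) (nat_lit 1) (nat_lit 4) (nat_lit 2) (nat_lit 5) (nat_lit 2) (nat_lit 4) (nat_lit 506) (nat_lit 402) (nat_lit 292)) (XT.nd (nat_lit 78) (nat_lit 0) (nat_lit 0) (XT.lf (nat_lit 0) (nat_lit 1551157670273) (nat_lit 76) (nat_lit 546241637497) (nat_lit 76) (nat_lit 535524499000) (nat_lit 1) (nat_lit 4) (nat_lit 2) (nat_lit 5) (nat_lit 2) (nat_lit 4) (nat_lit 507) (nat_lit 402) (nat_lit 291)) (XT.lf (nat_lit 0) (nat_lit 1728429886122) (nat_lit 76) (nat_lit 561883042305) (nat_lit 76) (nat_lit 551165749000) (nat_lit 1) (nat_lit 4) (nat_lit 2) (nat_lit 5) (nat_lit 2) (nat_lit 4) (nat_lit 508) (nat_lit 402)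 (nat_lit 290)))) (XT.nd (nat_lit 78) (nat_lit 0) (nat_lit 0) (XT.lf (nat_lit 0) (nat_lit 1919882400639) (nat_lit 76) (nat_lit 578776515775) (nat_lit 76) (nat_lit 568059079130) (nat_lit 1) (nat_lit 4) (nat_lit 2) (nat_lit 5) (nat_lit 2) (nat_lit 4) (nat_lit 509) (nat_lit 402) (nat_lit 289)) (XT.nd (nat_lit 78) (nat_lit 0) (nat_lit 0) (XT.lf (nat_lit 0) (nat_lit 2126649747242) (nat_lit 76) (nat_lit 597022167379) (nat_lit 76) (nat_lit 586304598011) (nat_lit 1) (nat_lit 4) (nat_lit 2) (nat_lit 5) (nat_lit 2) (nat_lit 4) (nat_lit 510) (nat_lit 402) (nat_lit 288)) (XT.lf (nat_lit 0) (nat_lit 2349957213911) (nat_lit 76) (nat_lit 616728119498) (nat_lit 76) (nat_lit 606010427238) (nat_lit 1) (nat_lit 4) (nat_lit 2) (nat_lit 5) (nat_lit 2) (nat_lit 4) (nat_lit 511) (nat_lit 402) (nat_lit 287))))) (XT.nd (nat_lit 234) (nat_lit 0) (nat_lit 0) (XT.nd (nat_lit 78) (nat_lit 0) (nat_lit 0) (XT.lf (nat_lit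 0) (nat_lit 2591128104152) (nat_lit 76) (nat_lit 638011148142) (nat_lit 76) (nat_lit 627293342094) (nat_lit 1) (nat_lit 4) (nat_lit 2) (nat_lit 5) (nat_lit 2) (nat_lit 4) (nat_lit 512) (nat_lit 402) (nat_lit 286)) (XT.nd (nat_lit 78) (nat_lit 0) (nat_lit 0) (XT.lf (nat_lit 0) (nat_lit 2851591578797) (nat_lit 76) (nat_lit 660997374965) (nat_lit 76) (nat_lit 650279463558) (nat_lit 1) (nat_lit 4) (nat_lit 2) (nat_lit 5) (nat_lit 2) (nat_lit 4) (nat_lit 513) (nat_lit 402) (nat_lit 285)) (XT.lf (nat_lit 0) (nat_lit 3132891125103) (nat_lit 76) (nat_lit 685823014644) (nat_lit 76) (nat_lit 675105005681) (nat_lit 1) (nat_lit 4) (nat_lit 2) (nat_lit 5) (nat_lit 2) (nat_lit 4) (nat_lit 514) (nat_lit 402) (nat_lit 284)))) (XT.nd (nat_lit 78) (nat_lit 0) (nat_lit 0) (XT.lf (nat_lit 0) (nat_lit 3436693703343) (nat_lit 76) (nat_lit 712635182079) (nat_lit 76) (nat_lit 701917082787) (nat_lit 1) (nat_lit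 4) (nat_lit 2) (nat_lit 5) (nat_lit 2) (nat_lit 4) (nat_lit 515) (nat_lit 402) (nat_lit 283)) (XT.nd (nat_lit 78) (nat_lit 0) (nat_lit 0) (XT.lf (nat_lit 0) (nat_lit 3764799625094) (nat_lit 76) (nat_lit 741592764190) (nat_lit 76) (nat_lit 730874581260) (nat_lit 1) (nat_lit 4) (nat_lit 2) (nat_lit 5) (nat_lit 2) (nat_lit 4) (nat_lit 516) (nat_lit 402) (nat_lit 282)) (XT.lf (nat_lit 0) (nat_lit 4119153221742) (nat_lit 76) (nat_lit 772867361462) (nat_lit 76) (nat_lit 762149101090) (nat_lit 1) (nat_lit 4) (nat_lit 2) (nat_lit 5) (nat_lit 2) (nat_lit 4) (nat_lit 517) (nat_lit 402) (nat_lit 281))))))))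
noncomputable def xc101 : XT := (XT.nd (nat_lit 54444) (nat_lit 0) (nat_lit 1976) (XT.nd (nat_lit 53586) (nat_lit 0) (nat_lit 4484) (XT.nd (nat_lit 390) (nat_lit 0) (nat_lit 0) (XT.nd (nat_lit 156) (nat_lit 0) (nat_lit 0) (XT.nd (nat_lit 78) (nat_lit 0) (nat_lit 0) (XT.lf (nat_lit 0) (nat_lit 4501854366453) (nat_lit 76) (nat_lit 806644304844) (nat_lit 76) (nat_lit 795925972766) (nat_lit 1) (nat_lit 4) (nat_lit 2) (nat_lit 5) (nat_lit 2) (nat_lit 4) (nat_lit 518) (nat_lit 402) (nat_lit 280)) (XT.lf (nat_lit 0) (nat_lit 4915170917863) (nat_lit 76) (nat_lit 843123753998) (nat_lit 76) (nat_lit 832405355526) (nat_lit 1) (nat_lit 4) (nat_lit 2) (nat_lit 5) (nat_lit 2) (nat_lit 4) (nat_lit 519) (nat_lit 402) (nat_lit 279))) (XT.nd (nat_lit 78) (nat_lit 0) (nat_lit 0) (XT.lf (nat_lit 0) (nat_lit 5361552159239) (nat_lit 76) (nat_lit 882521883439) (nat_lit 76) (nat_lit 871803423490) (nat_lit 1) (nat_lit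 4) (nat_lit 2) (nat_lit 5) (nat_lit 2) (nat_lit 4) (nat_lit 520) (nat_lit 402) (nat_lit 278)) (XT.nd (nat_lit 78) (nat_lit 0) (nat_lit 0) (XT.lf (nat_lit 0) (nat_lit 5843643312753) (nat_lit 76) (nat_lit 925072163564) (nat_lit 76) (nat_lit 914353646692) (nat_lit 1) (nat_lit 4) (nat_lit 2) (nat_lit 5) (nat_lit 2) (nat_lit 4) (nat_lit 521) (nat_lit 402) (nat_lit 277)) (XT.lf (nat_lit 0) (nat_lit 6364301214869) (nat_lit 76) (nat_lit 971026744180) (nat_lit 76) (nat_lit 960308174602) (nat_lit 1) (nat_lit 4) (nat_lit 2) (nat_lit 5) (nat_lit 2) (nat_lit 4) (nat_lit 522) (nat_lit 402) (nat_lit 276))))) (XT.nd (nat_lit 234) (nat_lit 0) (nat_lit 0) (XT.nd (nat_lit 78) (nat_lit 0) (nat_lit 0) (XT.lf (nat_lit 0) (nat_lit 6926611245748) (nat_lit 76) (nat_lit 1020657948728) (nat_lit 76) (nat_lit 1009939330349) (nat_lit 1) (nat_lit 4) (nat_lit 2) (nat_lit 5) (nat_lit 2) (nat_lit 4) (nat_lit 523) (nat_lit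 402) (nat_lit 275)) (XT.nd (nat_lit 78) (nat_lit 0) (nat_lit 0) (XT.lf (nat_lit 0) (nat_lit 7533905612981) (nat_lit 76) (nat_lit 1074259888050) (nat_lit 76) (nat_lit 1063541224484) (nat_lit 1) (nat_lit 4) (nat_lit 2) (nat_lit 5) (nat_lit 2) (nat_lit 4) (nat_lit 524) (nat_lit 402) (nat_lit 274)) (XT.lf (nat_lit 0) (nat_lit 8189783098003) (nat_lit 76) (nat_lit 1132150203268) (nat_lit 76) (nat_lit 1121431497862) (nat_lit 1) (nat_lit 4) (nat_lit 2) (nat_lit 5) (nat_lit 2) (nat_lit 4) (nat_lit 525) (nat_lit 402) (nat_lit 273)))) (XT.nd (nat_lit 78) (nat_lit 0) (nat_lit 0) (XT.lf (nat_lit 0) (nat_lit 8898130382207) (nat_lit 76) (nat_lit 1194671948102) (nat_lit 76) (nat_lit 1183953203956) (nat_lit 1) (nat_lit 4) (nat_lit 2) (nat_lit 5) (nat_lit 2) (nat_lit 4) (nat_lit 526) (nat_lit 402) (nat_lit 272)) (XT.nd (nat_lit 52806) (nat_lit 0) (nat_lit 6460) (XT.lf (nat_lit 0) (nat_lit 9663145079128)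 (nat_lit 76) (nat_lit 1262195621780) (nat_lit 76) (nat_lit 1251476841763) (nat_lit 1) (nat_lit 4) (nat_lit 2) (nat_lit 5) (nat_lit 2) (nat_lit 4) (nat_lit 527) (nat_lit 402) (nat_lit 271)) (XT.lf (nat_lit 0) (nat_lit 757787451) (nat_lit 0) (nat_lit 757787451) (nat_lit 228) (nat_lit 1833409636) (nat_lit 86) (nat_lit 5) (nat_lit 86) (nat_lit 3) (nat_lit 89) (nat_lit 3) (nat_lit 403) (nat_lit 403) (nat_lit 394)))))) (XT.nd (nat_lit 390) (nat_lit 1672) (nat_lit 0) (XT.nd (nat_lit 156) (nat_lit 0) (nat_lit 0) (XT.nd (nat_lit 78) (nat_lit 304) (nat_lit 0) (XT.lf (nat_lit 0) (nat_lit 4961800445) (nat_lit 0) (nat_lit 299758973) (nat_lit 228) (nat_lit 1533610070) (nat_lit 86) (nat_lit 5) (nat_lit 86) (nat_lit 3) (nat_lit 89) (nat_lit 3) (nat_lit 404) (nat_lit 403) (nat_lit 393)) (XT.lf (nat_lit 0) (nat_lit 585087560) (nat_lit 304) (nat_lit 5206447106) (nat_lit 380) (nat_lit 1119044160) (nat_lit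 82) (nat_lit 5) (nat_lit 86) (nat_lit 5) (nat_lit 87) (nat_lit 5) (nat_lit 405) (nat_lit 403) (nat_lit 392))) (XT.nd (nat_lit 78) (nat_lit 0) (nat_lit 0) (XT.lf (nat_lit 0) (nat_lit 2648406449) (nat_lit 304) (nat_lit 1583960495) (nat_lit 380) (nat_lit 2811199112) (nat_lit 82) (nat_lit 5) (nat_lit 86) (nat_lit 5) (nat_lit 87) (nat_lit 5) (nat_lit 406) (nat_lit 403) (nat_lit 391)) (XT.nd (nat_lit 78) (nat_lit 0) (nat_lit 0) (XT.lf (nat_lit 76) (nat_lit 2321564991) (nat_lit 0) (nat_lit 2424730576) (nat_lit 380) (nat_lit 2451493994) (nat_lit 83) (nat_lit 5) (nat_lit 82) (nat_lit 5) (nat_lit 87) (nat_lit 5) (nat_lit 407) (nat_lit 403) (nat_lit 390)) (XT.lf (nat_lit 76) (nat_lit 6509830861) (nat_lit 0) (nat_lit 370085629) (nat_lit 380) (nat_lit 495148394) (nat_lit 83) (nat_lit 5) (nat_lit 82) (nat_lit 5) (nat_lit 87) (nat_lit 5) (nat_lit 408) (nat_lit 403) (nat_lit 389))))) (XT.nd (nat_lit 234)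 (nat_lit 988) (nat_lit 0) (XT.nd (nat_lit 78) (nat_lit 380) (nat_lit 0) (XT.lf (nat_lit 0) (nat_lit 1502545500) (nat_lit 380) (nat_lit 4136855693) (nat_lit 76) (nat_lit 1926872556) (nat_lit 78) (nat_lit 5) (nat_lit 83) (nat_lit 5) (nat_lit 79) (nat_lit 5) (nat_lit 409) (nat_lit 403) (nat_lit 388)) (XT.nd (nat_lit 78) (nat_lit 0) (nat_lit 0) (XT.lf (nat_lit 0) (nat_lit 202557848) (nat_lit 380) (nat_lit 3313256888) (nat_lit 456) (nat_lit 4265450742) (nat_lit 73) (nat_lit 5) (nat_lit 78) (nat_lit 5) (nat_lit 79) (nat_lit 5) (nat_lit 410) (nat_lit 403) (nat_lit 387)) (XT.lf (nat_lit 0) (nat_lit 4997244625) (nat_lit 380) (nat_lit 658280745) (nat_lit 456) (nat_lit 2360808098) (nat_lit 73) (nat_lit 5) (nat_lit 78) (nat_lit 5) (nat_lit 79) (nat_lit 5) (nat_lit 411) (nat_lit 403) (nat_lit 386)))) (XT.nd (nat_lit 78) (nat_lit 532) (nat_lit 0) (XT.lf (nat_lit 0) (nat_lit 1813668916) (nat_lit 456)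 (nat_lit 6113163604) (nat_lit 532) (nat_lit 346640163) (nat_lit 67) (nat_lit 5) (nat_lit 73) (nat_lit 5) (nat_lit 74) (nat_lit 5) (nat_lit 412) (nat_lit 403) (nat_lit 385)) (XT.nd (nat_lit 78) (nat_lit 456) (nat_lit 0) (XT.lf (nat_lit 0) (nat_lit 1706270141) (nat_lit 532) (nat_lit 1536085677) (nat_lit 76) (nat_lit 5307867179) (nat_lit 66) (nat_lit 5) (nat_lit 73) (nat_lit 5) (nat_lit 67) (nat_lit 5) (nat_lit 413) (nat_lit 403) (nat_lit 384)) (XT.lf (nat_lit 0) (nat_lit 3841518278) (nat_lit 456) (nat_lit 32682371) (nat_lit 532) (nat_lit 4976710075) (nat_lit 60) (nat_lit 5) (nat_lit 66) (nat_lit 5) (nat_lit 67) (nat_lit 5) (nat_lit 414) (nat_lit 403) (nat_lit 383))))))) (XT.nd (nat_lit 858) (nat_lit 988) (nat_lit 0) (XT.nd (nat_lit 390) (nat_lit 836) (nat_lit 0) (XT.nd (nat_lit 156) (nat_lit 456) (nat_lit 0) (XT.nd (nat_lit 78) (nat_lit 0) (nat_lit 0) (XT.lf (nat_lit 0) (nat_lit 369841635)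 (nat_lit 228) (nat_lit 5863549953) (nat_lit 304) (nat_lit 2940908832) (nat_lit 57) (nat_lit 5) (nat_lit 60) (nat_lit 5) (nat_lit 61) (nat_lit 5) (nat_lit 415) (nat_lit 403) (nat_lit 382)) (XT.lf (nat_lit 0) (nat_lit 6337303029) (nat_lit 228) (nat_lit 2470681432) (nat_lit 304) (nat_lit 713511125) (nat_lit 57) (nat_lit 5) (nat_lit 60) (nat_lit 5) (nat_lit 61) (nat_lit 5) (nat_lit 416) (nat_lit 403) (nat_lit 381))) (XT.nd (nat_lit 78) (nat_lit 152) (nat_lit 0) (XT.lf (nat_lit 0) (nat_lit 1601884628) (nat_lit 304) (nat_lit 7061372311) (nat_lit 76) (nat_lit 1230455768) (nat_lit 53) (nat_lit 5) (nat_lit 57) (nat_lit 5) (nat_lit 54) (nat_lit 5) (nat_lit 417) (nat_lit 403) (nat_lit 380)) (XT.nd (nat_lit 78) (nat_lit 152) (nat_lit 0) (XT.lf (nat_lit 0) (nat_lit 4116341016) (nat_lit 304) (nat_lit 989372717) (nat_lit 76) (nat_lit 5184374360) (nat_lit 53) (nat_lit 5) (nat_lit 57) (nat_lit 5) (nat_lit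 54) (nat_lit 5) (nat_lit 418) (nat_lit 403) (nat_lit 379)) (XT.lf (nat_lit 0) (nat_lit 5737875430) (nat_lit 152) (nat_lit 1138445602) (nat_lit 228) (nat_lit 3838352814) (nat_lit 51) (nat_lit 5) (nat_lit 53) (nat_lit 5) (nat_lit 54) (nat_lit 5) (nat_lit 419) (nat_lit 403) (nat_lit 378))))) (XT.nd (nat_lit 234) (nat_lit 380) (nat_lit 0) (XT.nd (nat_lit 78) (nat_lit 228) (nat_lit 0) (XT.lf (nat_lit 0) (nat_lit 1780017095) (nat_lit 228) (nat_lit 8133259018) (nat_lit 304) (nat_lit 1255502233) (nat_lit 48) (nat_lit 5) (nat_lit 51) (nat_lit 5) (nat_lit 52) (nat_lit 5) (nat_lit 420) (nat_lit 403) (nat_lit 377)) (XT.nd (nat_lit 78) (nat_lit 152) (nat_lit 0) (XT.lf (nat_lit 0) (nat_lit 1537916987) (nat_lit 304) (nat_lit 2480706655) (nat_lit 76) (nat_lit 7631221546) (nat_lit 47) (nat_lit 5) (nat_lit 51) (nat_lit 5) (nat_lit 48) (nat_lit 5) (nat_lit 421) (nat_lit 403) (nat_lit 376)) (XT.lf (nat_lit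 0) (nat_lit 4540892279) (nat_lit 228) (nat_lit 7088865131) (nat_lit 76) (nat_lit 532754684) (nat_lit 45) (nat_lit 5) (nat_lit 48) (nat_lit 5) (nat_lit 46) (nat_lit 5) (nat_lit 422) (nat_lit 403) (nat_lit 375)))) (XT.nd (nat_lit 78) (nat_lit 228) (nat_lit 0) (XT.lf (nat_lit 0) (nat_lit 463335191) (nat_lit 152) (nat_lit 7426563747) (nat_lit 228) (nat_lit 4817863775) (nat_lit 43) (nat_lit 5) (nat_lit 45) (nat_lit 5) (nat_lit 46) (nat_lit 5) (nat_lit 423) (nat_lit 403) (nat_lit 374)) (XT.nd (nat_lit 78) (nat_lit 228) (nat_lit 0) (XT.lf (nat_lit 0) (nat_lit 8909443703) (nat_lit 152) (nat_lit 2715033927) (nat_lit 228) (nat_lit 1662774955) (nat_lit 43) (nat_lit 5) (nat_lit 45) (nat_lit 5) (nat_lit 46) (nat_lit 5) (nat_lit 424) (nat_lit 403) (nat_lit 373)) (XT.lf (nat_lit 0) (nat_lit 1745396110) (nat_lit 228) (nat_lit 9791194331) (nat_lit 76) (nat_lit 2366144961) (nat_lit 40) (nat_lit 5) (nat_lit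 43) (nat_lit 5) (nat_lit 41) (nat_lit 5) (nat_lit 425) (nat_lit 403) (nat_lit 372)))))) (XT.nd (nat_lit 468) (nat_lit 532) (nat_lit 0) (XT.nd (nat_lit 234) (nat_lit 228) (nat_lit 0) (XT.nd (nat_lit 78) (nat_lit 228) (nat_lit 0) (XT.lf (nat_lit 0) (nat_lit 5459258445) (nat_lit 228) (nat_lit 1256502624) (nat_lit 76) (nat_lit 7838435873) (nat_lit 40) (nat_lit 5) (nat_lit 43) (nat_lit 5) (nat_lit 41) (nat_lit 5) (nat_lit 426) (nat_lit 403) (nat_lit 371)) (XT.nd (nat_lit 78) (nat_lit 76) (nat_lit 0) (XT.lf (nat_lit 0) (nat_lit 8272167965) (nat_lit 152) (nat_lit 1331770780) (nat_lit 228) (nat_lit 5643162966) (nat_lit 38) (nat_lit 5) (nat_lit 40) (nat_lit 5) (nat_lit 41) (nat_lit 5) (nat_lit 427) (nat_lit 403) (nat_lit 370)) (XT.lf (nat_lit 0) (nat_lit 2556943986) (nat_lit 76) (nat_lit 11664101948) (nat_lit 152) (nat_lit 1763146047) (nat_lit 37) (nat_lit 5) (nat_lit 38) (nat_lit 5) (nat_lit 39)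 (nat_lit 4) (nat_lit 428) (nat_lit 403) (nat_lit 369)))) (XT.nd (nat_lit 78) (nat_lit 152) (nat_lit 0) (XT.lf (nat_lit 0) (nat_lit 2473060930) (nat_lit 152) (nat_lit 3719729898) (nat_lit 76) (nat_lit 10569429990) (nat_lit 36) (nat_lit 5) (nat_lit 38) (nat_lit 5) (nat_lit 37) (nat_lit 5) (nat_lit 429) (nat_lit 403) (nat_lit 368)) (XT.nd (nat_lit 78) (nat_lit 0) (nat_lit 0) (XT.lf (nat_lit 0) (nat_lit 6970178777) (nat_lit 152) (nat_lit 91991460) (nat_lit 228) (nat_lit 10527934051) (nat_lit 34) (nat_lit 5) (nat_lit 36) (nat_lit 5) (nat_lit 37) (nat_lit 5) (nat_lit 430) (nat_lit 403) (nat_lit 367)) (XT.lf (nat_lit 0) (nat_lit 12221758898) (nat_lit 228) (nat_lit 6382857) (nat_lit 76) (nat_lit 6239824301) (nat_lit 34) (nat_lit 5) (nat_lit 37) (nat_lit 5) (nat_lit 35) (nat_lit 4) (nat_lit 431) (nat_lit 403) (nat_lit 366))))) (XT.nd (nat_lit 234) (nat_lit 228) (nat_lit 0) (XT.nd (nat_lit 78) (nat_lit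 228) (nat_lit 0) (XT.lf (nat_lit 0) (nat_lit 11961246756) (nat_lit 76) (nat_lit 6069920940) (nat_lit 152) (nat_lit 1365939334) (nat_lit 33) (nat_lit 5) (nat_lit 34) (nat_lit 5) (nat_lit 35) (nat_lit 4) (nat_lit 432) (nat_lit 403) (nat_lit 365)) (XT.nd (nat_lit 78) (nat_lit 0) (nat_lit 0) (XT.lf (nat_lit 0) (nat_lit 3784232422) (nat_lit 228) (nat_lit 15879661876) (nat_lit 76) (nat_lit 723199562) (nat_lit 30) (nat_lit 5) (nat_lit 33) (nat_lit 5) (nat_lit 31) (nat_lit 4) (nat_lit 433) (nat_lit 403) (nat_lit 364)) (XT.lf (nat_lit 0) (nat_lit 9587147006) (nat_lit 228) (nat_lit 3901636996) (nat_lit 76) (nat_lit 7939506814) (nat_lit 30) (nat_lit 5) (nat_lit 33) (nat_lit 5) (nat_lit 31) (nat_lit 4) (nat_lit 434) (nat_lit 403) (nat_lit 363)))) (XT.nd (nat_lit 78) (nat_lit 152) (nat_lit 0) (XT.lf (nat_lit 0) (nat_lit 9420439798) (nat_lit 76) (nat_lit 6612522910) (nat_lit 152) (nat_lit 6505538048)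 (nat_lit 29) (nat_lit 5) (nat_lit 30) (nat_lit 5) (nat_lit 31) (nat_lit 4) (nat_lit 435) (nat_lit 403) (nat_lit 362)) (XT.nd (nat_lit 78) (nat_lit 76) (nat_lit 0) (XT.lf (nat_lit 0) (nat_lit 202878807) (nat_lit 76) (nat_lit 22878228440) (nat_lit 76) (nat_lit 649497033) (nat_lit 28) (nat_lit 4) (nat_lit 29) (nat_lit 5) (nat_lit 29) (nat_lit 4) (nat_lit 436) (nat_lit 403) (nat_lit 361)) (XT.lf (nat_lit 0) (nat_lit 5883926860) (nat_lit 152) (nat_lit 10057813813) (nat_lit 76) (nat_lit 9026002118) (nat_lit 27) (nat_lit 5) (nat_lit 29) (nat_lit 5) (nat_lit 28) (nat_lit 4) (nat_lit 437) (nat_lit 403) (nat_lit 360))))))))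
noncomputable def xc102 : XT := (XT.nd (nat_lit 1716) (nat_lit 684) (nat_lit 0) (XT.nd (nat_lit 858) (nat_lit 532) (nat_lit 0) (XT.nd (nat_lit 390) (nat_lit 380) (nat_lit 0) (XT.nd (nat_lit 156) (nat_lit 228) (nat_lit 0) (XT.nd (nat_lit 78) (nat_lit 0) (nat_lit 0) (XT.lf (nat_lit 0) (nat_lit 4624132643) (nat_lit 76) (nat_lit 8348537295) (nat_lit 152) (nat_lit 13324421882) (nat_lit 26) (nat_lit 5) (nat_lit 27) (nat_lit 5) (nat_lit 28) (nat_lit 4) (nat_lit 438) (nat_lit 403) (nat_lit 359)) (XT.lf (nat_lit 0) (nat_lit 20864104539) (nat_lit 152) (nat_lit 6742239621) (nat_lit 0) (nat_lit 107604503) (nat_lit 26) (nat_lit 5) (nat_lit 28) (nat_lit 4) (nat_lit 26) (nat_lit 4) (nat_lit 439) (nat_lit 403) (nat_lit 358))) (XT.nd (nat_lit 78) (nat_lit 76) (nat_lit 0) (XT.lf (nat_lit 0) (nat_lit 553334838) (nat_lit 152) (nat_lit 19655288545) (nat_lit 76) (nat_lit 9001840465) (nat_lit 24) (nat_lit 5)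 (nat_lit 26) (nat_lit 5) (nat_lit 25) (nat_lit 4) (nat_lit 440) (nat_lit 403) (nat_lit 357)) (XT.nd (nat_lit 78) (nat_lit 76) (nat_lit 0) (XT.lf (nat_lit 0) (nat_lit 8328216410) (nat_lit 152) (nat_lit 3529576518) (nat_lit 76) (nat_lit 18942718216) (nat_lit 24) (nat_lit 5) (nat_lit 26) (nat_lit 5) (nat_lit 25) (nat_lit 4) (nat_lit 441) (nat_lit 403) (nat_lit 356)) (XT.lf (nat_lit 0) (nat_lit 14544568653) (nat_lit 76) (nat_lit 2493636373) (nat_lit 152) (nat_lit 15454513210) (nat_lit 23) (nat_lit 5) (nat_lit 24) (nat_lit 5) (nat_lit 25) (nat_lit 4) (nat_lit 442) (nat_lit 403) (nat_lit 355))))) (XT.nd (nat_lit 234) (nat_lit 152) (nat_lit 0) (XT.nd (nat_lit 78) (nat_lit 228) (nat_lit 0) (XT.lf (nat_lit 0) (nat_lit 26690904927) (nat_lit 152) (nat_lit 302500938) (nat_lit 0) (nat_lit 7307227994) (nat_lit 23) (nat_lit 5) (nat_lit 25) (nat_lit 4) (nat_lit 23) (nat_lit 4) (nat_lit 443) (nat_lit 403)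 (nat_lit 354)) (XT.nd (nat_lit 78) (nat_lit 76) (nat_lit 0) (XT.lf (nat_lit 0) (nat_lit 1335182537) (nat_lit 152) (nat_lit 16640339237) (nat_lit 76) (nat_lit 18234749708) (nat_lit 21) (nat_lit 5) (nat_lit 23) (nat_lit 5) (nat_lit 22) (nat_lit 4) (nat_lit 444) (nat_lit 403) (nat_lit 353)) (XT.lf (nat_lit 0) (nat_lit 2647383625) (nat_lit 76) (nat_lit 7975807580) (nat_lit 152) (nat_lit 27630590223) (nat_lit 20) (nat_lit 5) (nat_lit 21) (nat_lit 5) (nat_lit 22) (nat_lit 4) (nat_lit 445) (nat_lit 403) (nat_lit 352)))) (XT.nd (nat_lit 78) (nat_lit 152) (nat_lit 0) (XT.lf (nat_lit 0) (nat_lit 21155662404) (nat_lit 152) (nat_lit 16144400326) (nat_lit 0) (nat_lit 3120599323) (nat_lit 20) (nat_lit 5) (nat_lit 22) (nat_lit 4) (nat_lit 20) (nat_lit 4) (nat_lit 446) (nat_lit 403) (nat_lit 351)) (XT.nd (nat_lit 78) (nat_lit 76) (nat_lit 0) (XT.lf (nat_lit 0) (nat_lit 4850040115) (nat_lit 76) (nat_lit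 27973677701) (nat_lit 76) (nat_lit 9913739753) (nat_lit 19) (nat_lit 4) (nat_lit 20) (nat_lit 5) (nat_lit 20) (nat_lit 4) (nat_lit 447) (nat_lit 403) (nat_lit 350)) (XT.lf (nat_lit 0) (nat_lit 598492915) (nat_lit 152) (nat_lit 16838104966) (nat_lit 76) (nat_lit 27768871993) (nat_lit 18) (nat_lit 5) (nat_lit 20) (nat_lit 5) (nat_lit 19) (nat_lit 4) (nat_lit 448) (nat_lit 403) (nat_lit 349)))))) (XT.nd (nat_lit 390) (nat_lit 228) (nat_lit 0) (XT.nd (nat_lit 156) (nat_lit 228) (nat_lit 0) (XT.nd (nat_lit 78) (nat_lit 0) (nat_lit 0) (XT.lf (nat_lit 0) (nat_lit 5875968303) (nat_lit 76) (nat_lit 5653005121) (nat_lit 152) (nat_lit 36312322936) (nat_lit 17) (nat_lit 5) (nat_lit 18) (nat_lit 5) (nat_lit 19) (nat_lit 4) (nat_lit 449) (nat_lit 403) (nat_lit 348)) (XT.lf (nat_lit 0) (nat_lit 23948062319) (nat_lit 152) (nat_lit 19524254398) (nat_lit 0) (nat_lit 7166541123) (nat_lit 17) (nat_lit 5) (nat_lit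 19) (nat_lit 4) (nat_lit 17) (nat_lit 4) (nat_lit 450) (nat_lit 403) (nat_lit 347))) (XT.nd (nat_lit 78) (nat_lit 152) (nat_lit 0) (XT.lf (nat_lit 0) (nat_lit 4751294457) (nat_lit 76) (nat_lit 32844294899) (nat_lit 76) (nat_lit 16045844287) (nat_lit 16) (nat_lit 4) (nat_lit 17) (nat_lit 5) (nat_lit 17) (nat_lit 4) (nat_lit 451) (nat_lit 403) (nat_lit 346)) (XT.nd (nat_lit 78) (nat_lit 152) (nat_lit 0) (XT.lf (nat_lit 0) (nat_lit 32028898291) (nat_lit 76) (nat_lit 20814387960) (nat_lit 76) (nat_lit 4000261963) (nat_lit 16) (nat_lit 4) (nat_lit 17) (nat_lit 5) (nat_lit 17) (nat_lit 4) (nat_lit 452) (nat_lit 403) (nat_lit 345)) (XT.lf (nat_lit 0) (nat_lit 970883710) (nat_lit 76) (nat_lit 7586579728) (nat_lit 152) (nat_lit 51727104139) (nat_lit 14) (nat_lit 5) (nat_lit 15) (nat_lit 5) (nat_lit 16) (nat_lit 4) (nat_lit 453) (nat_lit 403) (nat_lit 344))))) (XT.nd (nat_lit 234) (nat_lit 152) (nat_lit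 0) (XT.nd (nat_lit 78) (nat_lit 76) (nat_lit 0) (XT.lf (nat_lit 0) (nat_lit 22736833700) (nat_lit 152) (nat_lit 34046756872) (nat_lit 0) (nat_lit 7142315775) (nat_lit 14) (nat_lit 5) (nat_lit 16) (nat_lit 4) (nat_lit 14) (nat_lit 4) (nat_lit 454) (nat_lit 403) (nat_lit 343)) (XT.nd (nat_lit 78) (nat_lit 76) (nat_lit 0) (XT.lf (nat_lit 0) (nat_lit 38225314636) (nat_lit 152) (nat_lit 6999983423) (nat_lit 0) (nat_lit 22619274834) (nat_lit 14) (nat_lit 5) (nat_lit 16) (nat_lit 4) (nat_lit 14) (nat_lit 4) (nat_lit 455) (nat_lit 403) (nat_lit 342)) (XT.lf (nat_lit 0) (nat_lit 23336770873) (nat_lit 76) (nat_lit 32156711437) (nat_lit 76) (nat_lit 16540003232) (nat_lit 13) (nat_lit 4) (nat_lit 14) (nat_lit 5) (nat_lit 14) (nat_lit 4) (nat_lit 456) (nat_lit 403) (nat_lit 341)))) (XT.nd (nat_lit 78) (nat_lit 152) (nat_lit 0) (XT.lf (nat_lit 0) (nat_lit 56458441997) (nat_lit 76) (nat_lit 17855975870)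 (nat_lit 76) (nat_lit 2229389513) (nat_lit 13) (nat_lit 4) (nat_lit 14) (nat_lit 5) (nat_lit 14) (nat_lit 4) (nat_lit 457) (nat_lit 403) (nat_lit 340)) (XT.nd (nat_lit 78) (nat_lit 0) (nat_lit 0) (XT.lf (nat_lit 0) (nat_lit 11009385958) (nat_lit 76) (nat_lit 1800767287) (nat_lit 152) (nat_lit 68559699740) (nat_lit 11) (nat_lit 5) (nat_lit 12) (nat_lit 5) (nat_lit 13) (nat_lit 4) (nat_lit 458) (nat_lit 403) (nat_lit 339)) (XT.lf (nat_lit 0) (nat_lit 29850554216) (nat_lit 152) (nat_lit 41288163149) (nat_lit 0) (nat_lit 15365182256) (nat_lit 11) (nat_lit 5) (nat_lit 13) (nat_lit 4) (nat_lit 11) (nat_lit 4) (nat_lit 459) (nat_lit 403) (nat_lit 338))))))) (XT.nd (nat_lit 858) (nat_lit 304) (nat_lit 0) (XT.nd (nat_lit 390) (nat_lit 152) (nat_lit 0) (XT.nd (nat_lit 156) (nat_lit 152) (nat_lit 0) (XT.nd (nat_lit 78) (nat_lit 76) (nat_lit 0) (XT.lf (nat_lit 0) (nat_lit 48283364325) (nat_lit 152)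 (nat_lit 9972240852) (nat_lit 0) (nat_lit 33790731628) (nat_lit 11) (nat_lit 5) (nat_lit 13) (nat_lit 4) (nat_lit 11) (nat_lit 4) (nat_lit 460) (nat_lit 403) (nat_lit 337)) (XT.lf (nat_lit 0) (nat_lit 25070302248) (nat_lit 76) (nat_lit 43707145666) (nat_lit 76) (nat_lit 29207790065) (nat_lit 10) (nat_lit 4) (nat_lit 11) (nat_lit 5) (nat_lit 11) (nat_lit 4) (nat_lit 461) (nat_lit 403) (nat_lit 336))) (XT.nd (nat_lit 78) (nat_lit 152) (nat_lit 0) (XT.lf (nat_lit 0) (nat_lit 63451437584) (nat_lit 76) (nat_lit 27716425319) (nat_lit 76) (nat_lit 13210844808) (nat_lit 10) (nat_lit 4) (nat_lit 11) (nat_lit 5) (nat_lit 11) (nat_lit 4) (nat_lit 462) (nat_lit 403) (nat_lit 335)) (XT.nd (nat_lit 78) (nat_lit 76) (nat_lit 0) (XT.lf (nat_lit 0) (nat_lit 3847403801) (nat_lit 152) (nat_lit 6508744411) (nat_lit 76) (nat_lit 100920889749) (nat_lit 9) (nat_lit 5) (nat_lit 11) (nat_lit 5) (nat_lit 10) (nat_lit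 4) (nat_lit 463) (nat_lit 403) (nat_lit 334)) (XT.lf (nat_lit 0) (nat_lit 22539865356) (nat_lit 152) (nat_lit 86982762396) (nat_lit 0) (nat_lit 9098493897) (nat_lit 8) (nat_lit 5) (nat_lit 10) (nat_lit 4) (nat_lit 8) (nat_lit 4) (nat_lit 464) (nat_lit 403) (nat_lit 333))))) (XT.nd (nat_lit 234) (nat_lit 76) (nat_lit 0) (XT.nd (nat_lit 78) (nat_lit 76) (nat_lit 0) (XT.lf (nat_lit 0) (nat_lit 43165392791) (nat_lit 152) (nat_lit 53632880507) (nat_lit 0) (nat_lit 29719445836) (nat_lit 8) (nat_lit 5) (nat_lit 10) (nat_lit 4) (nat_lit 8) (nat_lit 4) (nat_lit 465) (nat_lit 403) (nat_lit 332)) (XT.nd (nat_lit 78) (nat_lit 76) (nat_lit 0) (XT.lf (nat_lit 0) (nat_lit 65428087542) (nat_lit 152) (nat_lit 17641083420) (nat_lit 0) (nat_lit 51977904017) (nat_lit 8) (nat_lit 5) (nat_lit 10) (nat_lit 4) (nat_lit 8) (nat_lit 4) (nat_lit 466) (nat_lit 403) (nat_lit 331)) (XT.lf (nat_lit 0) (nat_lit 22322579415)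 (nat_lit 76) (nat_lit 67674155846) (nat_lit 76) (nat_lit 54220049571) (nat_lit 7) (nat_lit 4) (nat_lit 8) (nat_lit 5) (nat_lit 8) (nat_lit 4) (nat_lit 467) (nat_lit 403) (nat_lit 330)))) (XT.nd (nat_lit 78) (nat_lit 76) (nat_lit 0) (XT.lf (nat_lit 0) (nat_lit 66463066714) (nat_lit 76) (nat_lit 50538542474) (nat_lit 76) (nat_lit 37080804023) (nat_lit 7) (nat_lit 4) (nat_lit 8) (nat_lit 5) (nat_lit 8) (nat_lit 4) (nat_lit 468) (nat_lit 403) (nat_lit 329)) (XT.nd (nat_lit 78) (nat_lit 76) (nat_lit 0) (XT.lf (nat_lit 0) (nat_lit 114113003544) (nat_lit 76) (nat_lit 32043124956) (nat_lit 76) (nat_lit 18582023379) (nat_lit 7) (nat_lit 4) (nat_lit 8) (nat_lit 5) (nat_lit 8) (nat_lit 4) (nat_lit 469) (nat_lit 403) (nat_lit 328)) (XT.lf (nat_lit 0) (nat_lit 1316585694) (nat_lit 152) (nat_lit 10725717336) (nat_lit 76) (nat_lit 164202176420) (nat_lit 6) (nat_lit 5) (nat_lit 8) (nat_lit 5) (nat_lit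 7) (nat_lit 4) (nat_lit 470) (nat_lit 403) (nat_lit 327)))))) (XT.nd (nat_lit 468) (nat_lit 152) (nat_lit 0) (XT.nd (nat_lit 234) (nat_lit 76) (nat_lit 0) (XT.nd (nat_lit 78) (nat_lit 0) (nat_lit 0) (XT.lf (nat_lit 0) (nat_lit 22863539034) (nat_lit 152) (nat_lit 155290330164) (nat_lit 0) (nat_lit 10394002997) (nat_lit 5) (nat_lit 5) (nat_lit 7) (nat_lit 4) (nat_lit 5) (nat_lit 4) (nat_lit 471) (nat_lit 403) (nat_lit 326)) (XT.nd (nat_lit 78) (nat_lit 0) (nat_lit 0) (XT.lf (nat_lit 0) (nat_lit 46738483884) (nat_lit 152) (nat_lit 120782238141) (nat_lit 0) (nat_lit 34266475848) (nat_lit 5) (nat_lit 5) (nat_lit 7) (nat_lit 4) (nat_lit 5) (nat_lit 4) (nat_lit 472) (nat_lit 403) (nat_lit 325)) (XT.lf (nat_lit 0) (nat_lit 72514693659) (nat_lit 152) (nat_lit 83531277973) (nat_lit 0) (nat_lit 60040396737) (nat_lit 5) (nat_lit 5) (nat_lit 7) (nat_lit 4) (nat_lit 5) (nat_lit 4) (nat_lit 473) (nat_lit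 403) (nat_lit 324)))) (XT.nd (nat_lit 78) (nat_lit 76) (nat_lit 0) (XT.lf (nat_lit 0) (nat_lit 100344916270) (nat_lit 152) (nat_lit 43316703227) (nat_lit 0) (nat_lit 87868500008) (nat_lit 5) (nat_lit 5) (nat_lit 7) (nat_lit 4) (nat_lit 5) (nat_lit 4) (nat_lit 474) (nat_lit 403) (nat_lit 323)) (XT.nd (nat_lit 78) (nat_lit 0) (nat_lit 0) (XT.lf (nat_lit 0) (nat_lit 105049697) (nat_lit 76) (nat_lit 130291548306) (nat_lit 76) (nat_lit 117813169692) (nat_lit 4) (nat_lit 4) (nat_lit 5) (nat_lit 5) (nat_lit 5) (nat_lit 4) (nat_lit 475) (nat_lit 403) (nat_lit 322)) (XT.lf (nat_lit 0) (nat_lit 49449145232) (nat_lit 76) (nat_lit 114580336481) (nat_lit 76) (nat_lit 102100140875) (nat_lit 4) (nat_lit 4) (nat_lit 5) (nat_lit 5) (nat_lit 5) (nat_lit 4) (nat_lit 476) (nat_lit 403) (nat_lit 321))))) (XT.nd (nat_lit 234) (nat_lit 152) (nat_lit 0) (XT.nd (nat_lit 78) (nat_lit 0) (nat_lit 0) (XT.lf (nat_lit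 0) (nat_lit 102727012005) (nat_lit 76) (nat_lit 97619235976) (nat_lit 76) (nat_lit 85137357970) (nat_lit 4) (nat_lit 4) (nat_lit 5) (nat_lit 5) (nat_lit 5) (nat_lit 4) (nat_lit 477) (nat_lit 403) (nat_lit 320)) (XT.nd (nat_lit 78) (nat_lit 0) (nat_lit 0) (XT.lf (nat_lit 0) (nat_lit 160254370708) (nat_lit 76) (nat_lit 79307736566) (nat_lit 76) (nat_lit 66824300782) (nat_lit 4) (nat_lit 4) (nat_lit 5) (nat_lit 5) (nat_lit 5) (nat_lit 4) (nat_lit 478) (nat_lit 403) (nat_lit 319)) (XT.lf (nat_lit 0) (nat_lit 222372124206) (nat_lit 76) (nat_lit 59537325663) (nat_lit 76) (nat_lit 47052447492) (nat_lit 4) (nat_lit 4) (nat_lit 5) (nat_lit 5) (nat_lit 5) (nat_lit 4) (nat_lit 479) (nat_lit 403) (nat_lit 318)))) (XT.nd (nat_lit 78) (nat_lit 152) (nat_lit 0) (XT.lf (nat_lit 0) (nat_lit 289448377706) (nat_lit 76) (nat_lit 38190845274) (nat_lit 76) (nat_lit 25704631560) (nat_lit 4) (nat_lit 4) (nat_lit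 5) (nat_lit 5) (nat_lit 5) (nat_lit 4) (nat_lit 480) (nat_lit 403) (nat_lit 317)) (XT.nd (nat_lit 78) (nat_lit 152) (nat_lit 0) (XT.lf (nat_lit 0) (nat_lit 361880620118) (nat_lit 76) (nat_lit 15141797740) (nat_lit 76) (nat_lit 2654347411) (nat_lit 4) (nat_lit 4) (nat_lit 5) (nat_lit 5) (nat_lit 5) (nat_lit 4) (nat_lit 481) (nat_lit 403) (nat_lit 316)) (XT.lf (nat_lit 0) (nat_lit 22187801560) (nat_lit 152) (nat_lit 375176600364) (nat_lit 0) (nat_lit 10624287354) (nat_lit 2) (nat_lit 5) (nat_lit 4) (nat_lit 4) (nat_lit 2) (nat_lit 4) (nat_lit 482) (nat_lit 403) (nat_lit 315))))))))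
noncomputable def xc103 : XT := (XT.nd (nat_lit 1716) (nat_lit 0) (nat_lit 0) (XT.nd (nat_lit 858) (nat_lit 0) (nat_lit 0) (XT.nd (nat_lit 390) (nat_lit 76) (nat_lit 0) (XT.nd (nat_lit 156) (nat_lit 0) (nat_lit 0) (XT.nd (nat_lit 78) (nat_lit 0) (nat_lit 0) (XT.lf (nat_lit 0) (nat_lit 49761725450) (nat_lit 152) (nat_lit 350530072248) (nat_lit 0) (nat_lit 38197229580) (nat_lit 2) (nat_lit 5) (nat_lit 4) (nat_lit 4) (nat_lit 2) (nat_lit 4) (nat_lit 483) (nat_lit 403) (nat_lit 314)) (XT.lf (nat_lit 0) (nat_lit 79537208361) (nat_lit 152) (nat_lit 323920728930) (nat_lit 0) (nat_lit 67971803542) (nat_lit 2) (nat_lit 5) (nat_lit 4) (nat_lit 4) (nat_lit 2) (nat_lit 4) (nat_lit 484) (nat_lit 403) (nat_lit 313))) (XT.nd (nat_lit 78) (nat_lit 0) (nat_lit 0) (XT.lf (nat_lit 0) (nat_lit 111690697598) (nat_lit 152) (nat_lit 295190885411) (nat_lit 0) (nat_lit 100124451160) (nat_lit 2) (nat_lit 5) (nat_lit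 4) (nat_lit 4) (nat_lit 2) (nat_lit 4) (nat_lit 485) (nat_lit 403) (nat_lit 312)) (XT.nd (nat_lit 78) (nat_lit 0) (nat_lit 0) (XT.lf (nat_lit 0) (nat_lit 146412732357) (nat_lit 152) (nat_lit 264170290768) (nat_lit 0) (nat_lit 134845706643) (nat_lit 2) (nat_lit 5) (nat_lit 4) (nat_lit 4) (nat_lit 2) (nat_lit 4) (nat_lit 486) (nat_lit 403) (nat_lit 311)) (XT.lf (nat_lit 0) (nat_lit 183909072844) (nat_lit 152) (nat_lit 230675119255) (nat_lit 0) (nat_lit 172341325577) (nat_lit 2) (nat_lit 5) (nat_lit 4) (nat_lit 4) (nat_lit 2) (nat_lit 4) (nat_lit 487) (nat_lit 403) (nat_lit 310))))) (XT.nd (nat_lit 234) (nat_lit 76) (nat_lit 0) (XT.nd (nat_lit 78) (nat_lit 0) (nat_lit 0) (XT.lf (nat_lit 0) (nat_lit 224401919596) (nat_lit 152) (nat_lit 194506880966) (nat_lit 0) (nat_lit 212833504224) (nat_lit 2) (nat_lit 5) (nat_lit 4) (nat_lit 4) (nat_lit 2) (nat_lit 4) (nat_lit 488) (nat_lit 403) (nat_lit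 309)) (XT.nd (nat_lit 78) (nat_lit 0) (nat_lit 0) (XT.lf (nat_lit 0) (nat_lit 268131230221) (nat_lit 152) (nat_lit 155451245599) (nat_lit 0) (nat_lit 256562196235) (nat_lit 2) (nat_lit 5) (nat_lit 4) (nat_lit 4) (nat_lit 2) (nat_lit 4) (nat_lit 489) (nat_lit 403) (nat_lit 308)) (XT.lf (nat_lit 0) (nat_lit 315356141377) (nat_lit 152) (nat_lit 113276772355) (nat_lit 0) (nat_lit 303786534599) (nat_lit 2) (nat_lit 5) (nat_lit 4) (nat_lit 4) (nat_lit 2) (nat_lit 4) (nat_lit 490) (nat_lit 403) (nat_lit 307)))) (XT.nd (nat_lit 78) (nat_lit 76) (nat_lit 0) (XT.lf (nat_lit 0) (nat_lit 366356504389) (nat_lit 152) (nat_lit 67733538426) (nat_lit 0) (nat_lit 354786367248) (nat_lit 2) (nat_lit 5) (nat_lit 4) (nat_lit 4) (nat_lit 2) (nat_lit 4) (nat_lit 491) (nat_lit 403) (nat_lit 306)) (XT.nd (nat_lit 78) (nat_lit 76) (nat_lit 0) (XT.lf (nat_lit 0) (nat_lit 421434543629) (nat_lit 152) (nat_lit 18551657984)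 (nat_lit 0) (nat_lit 409863915411) (nat_lit 2) (nat_lit 5) (nat_lit 4) (nat_lit 4) (nat_lit 2) (nat_lit 4) (nat_lit 492) (nat_lit 403) (nat_lit 305)) (XT.lf (nat_lit 0) (nat_lit 36380202207) (nat_lit 76) (nat_lit 445411390009) (nat_lit 76) (nat_lit 433840307091) (nat_lit 1) (nat_lit 4) (nat_lit 2) (nat_lit 5) (nat_lit 2) (nat_lit 4) (nat_lit 493) (nat_lit 403) (nat_lit 304)))))) (XT.nd (nat_lit 390) (nat_lit 0) (nat_lit 0) (XT.nd (nat_lit 156) (nat_lit 0) (nat_lit 0) (XT.nd (nat_lit 78) (nat_lit 0) (nat_lit 0) (XT.lf (nat_lit 0) (nat_lit 96757317504) (nat_lit 76) (nat_lit 450725000788) (nat_lit 76) (nat_lit 439153496851) (nat_lit 1) (nat_lit 4) (nat_lit 2) (nat_lit 5) (nat_lit 2) (nat_lit 4) (nat_lit 494) (nat_lit 403) (nat_lit 303)) (XT.lf (nat_lit 0) (nat_lit 161960580787) (nat_lit 76) (nat_lit 456465757218) (nat_lit 76) (nat_lit 444893863448) (nat_lit 1) (nat_lit 4) (nat_lit 2) (nat_lit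 5) (nat_lit 2) (nat_lit 4) (nat_lit 495) (nat_lit 403) (nat_lit 302))) (XT.nd (nat_lit 78) (nat_lit 0) (nat_lit 0) (XT.lf (nat_lit 0) (nat_lit 232376381764) (nat_lit 76) (nat_lit 462667678596) (nat_lit 76) (nat_lit 451095423871) (nat_lit 1) (nat_lit 4) (nat_lit 2) (nat_lit 5) (nat_lit 2) (nat_lit 4) (nat_lit 496) (nat_lit 403) (nat_lit 301)) (XT.nd (nat_lit 78) (nat_lit 0) (nat_lit 0) (XT.lf (nat_lit 0) (nat_lit 308421999255) (nat_lit 76) (nat_lit 469367517051) (nat_lit 76) (nat_lit 457794928107) (nat_lit 1) (nat_lit 4) (nat_lit 2) (nat_lit 5) (nat_lit 2) (nat_lit 4) (nat_lit 497) (nat_lit 403) (nat_lit 300)) (XT.lf (nat_lit 0) (nat_lit 390548073957) (nat_lit 76) (nat_lit 476604975328) (nat_lit 76) (nat_lit 465032076922) (nat_lit 1) (nat_lit 4) (nat_lit 2) (nat_lit 5) (nat_lit 2) (nat_lit 4) (nat_lit 498) (nat_lit 403) (nat_lit 299))))) (XT.nd (nat_lit 234) (nat_lit 0) (nat_lit 0) (XT.nd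 (nat_lit 78) (nat_lit 0) (nat_lit 0) (XT.lf (nat_lit 0) (nat_lit 479241278905) (nat_lit 76) (nat_lit 484422942068) (nat_lit 76) (nat_lit 472849757124) (nat_lit 1) (nat_lit 4) (nat_lit 2) (nat_lit 5) (nat_lit 2) (nat_lit 4) (nat_lit 499) (nat_lit 403) (nat_lit 298)) (XT.nd (nat_lit 78) (nat_lit 0) (nat_lit 0) (XT.lf (nat_lit 0) (nat_lit 575027203461) (nat_lit 76) (nat_lit 492867745964) (nat_lit 76) (nat_lit 481294295707) (nat_lit 1) (nat_lit 4) (nat_lit 2) (nat_lit 5) (nat_lit 2) (nat_lit 4) (nat_lit 500) (nat_lit 403) (nat_lit 297)) (XT.lf (nat_lit 0) (nat_lit 678473467920) (nat_lit 76) (nat_lit 501989430298) (nat_lit 76) (nat_lit 490415734380) (nat_lit 1) (nat_lit 4) (nat_lit 2) (nat_lit 5) (nat_lit 2) (nat_lit 4) (nat_lit 501) (nat_lit 403) (nat_lit 296)))) (XT.nd (nat_lit 78) (nat_lit 0) (nat_lit 0) (XT.lf (nat_lit 0) (nat_lit 790193087182) (nat_lit 76) (nat_lit 511842049496) (nat_lit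 76) (nat_lit 500268126114) (nat_lit 1) (nat_lit 4) (nat_lit 2) (nat_lit 5) (nat_lit 2) (nat_lit 4) (nat_lit 502) (nat_lit 403) (nat_lit 295)) (XT.nd (nat_lit 78) (nat_lit 0) (nat_lit 0) (XT.lf (nat_lit 0) (nat_lit 910848103434) (nat_lit 76) (nat_lit 522483989448) (nat_lit 76) (nat_lit 510909855452) (nat_lit 1) (nat_lit 4) (nat_lit 2) (nat_lit 5) (nat_lit 2) (nat_lit 4) (nat_lit 503) (nat_lit 403) (nat_lit 294)) (XT.lf (nat_lit 0) (nat_lit 1041153509366) (nat_lit 76) (nat_lit 533978313504) (nat_lit 76) (nat_lit 522403984495) (nat_lit 1) (nat_lit 4) (nat_lit 2) (nat_lit 5) (nat_lit 2) (nat_lit 4) (nat_lit 504) (nat_lit 403) (nat_lit 293))))))) (XT.nd (nat_lit 858) (nat_lit 0) (nat_lit 0) (XT.nd (nat_lit 390) (nat_lit 0) (nat_lit 0) (XT.nd (nat_lit 156) (nat_lit 0) (nat_lit 0) (XT.nd (nat_lit 78) (nat_lit 0) (nat_lit 0) (XT.lf (nat_lit 0) (nat_lit 1181881485162) (nat_lit 76) (nat_lit 546393136175)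 (nat_lit 76) (nat_lit 534818626598) (nat_lit 1) (nat_lit 4) (nat_lit 2) (nat_lit 5) (nat_lit 2) (nat_lit 4) (nat_lit 505) (nat_lit 403) (nat_lit 292)) (XT.lf (nat_lit 0) (nat_lit 1333865974380) (nat_lit 76) (nat_lit 559802026782) (nat_lit 76) (nat_lit 548227350013) (nat_lit 1) (nat_lit 4) (nat_lit 2) (nat_lit 5) (nat_lit 2) (nat_lit 4) (nat_lit 506) (nat_lit 403) (nat_lit 291))) (XT.nd (nat_lit 78) (nat_lit 0) (nat_lit 0) (XT.lf (nat_lit 0) (nat_lit 1498007625848) (nat_lit 76) (nat_lit 574284445417) (nat_lit 76) (nat_lit 562709613840) (nat_lit 1) (nat_lit 4) (nat_lit 2) (nat_lit 5) (nat_lit 2) (nat_lit 4) (nat_lit 507) (nat_lit 403) (nat_lit 290)) (XT.nd (nat_lit 78) (nat_lit 0) (nat_lit 0) (XT.lf (nat_lit 0) (nat_lit 1675279130831) (nat_lit 76) (nat_lit 589926213820) (nat_lit 76) (nat_lit 578351238902) (nat_lit 1) (nat_lit 4) (nat_lit 2) (nat_lit 5) (nat_lit 2) (nat_lit 4) (nat_lit 508)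 (nat_lit 403) (nat_lit 289)) (XT.lf (nat_lit 0) (nat_lit 1866730987139) (nat_lit 76) (nat_lit 606820023952) (nat_lit 76) (nat_lit 595244916311) (nat_lit 1) (nat_lit 4) (nat_lit 2) (nat_lit 5) (nat_lit 2) (nat_lit 4) (nat_lit 509) (nat_lit 403) (nat_lit 288))))) (XT.nd (nat_lit 234) (nat_lit 0) (nat_lit 0) (XT.nd (nat_lit 78) (nat_lit 0) (nat_lit 0) (XT.lf (nat_lit 0) (nat_lit 2073497724289) (nat_lit 76) (nat_lit 625065987280) (nat_lit 76) (nat_lit 613490756748) (nat_lit 1) (nat_lit 4) (nat_lit 2) (nat_lit 5) (nat_lit 2) (nat_lit 4) (nat_lit 510) (nat_lit 403) (nat_lit 287)) (XT.nd (nat_lit 78) (nat_lit 0) (nat_lit 0) (XT.lf (nat_lit 0) (nat_lit 2296804626650) (nat_lit 76) (nat_lit 644772228031) (nat_lit 76) (nat_lit 633196883711) (nat_lit 1) (nat_lit 4) (nat_lit 2) (nat_lit 5) (nat_lit 2) (nat_lit 4) (nat_lit 511) (nat_lit 403) (nat_lit 286)) (XT.lf (nat_lit 0) (nat_lit 2537974994383) (nat_lit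 76) (nat_lit 666055523929) (nat_lit 76) (nat_lit 654480074249) (nat_lit 1) (nat_lit 4) (nat_lit 2) (nat_lit 5) (nat_lit 2) (nat_lit 4) (nat_lit 512) (nat_lit 403) (nat_lit 285)))) (XT.nd (nat_lit 78) (nat_lit 0) (nat_lit 0) (XT.lf (nat_lit 0) (nat_lit 2798437985225) (nat_lit 76) (nat_lit 689041998209) (nat_lit 76) (nat_lit 677466450973) (nat_lit 1) (nat_lit 4) (nat_lit 2) (nat_lit 5) (nat_lit 2) (nat_lit 4) (nat_lit 513) (nat_lit 403) (nat_lit 284)) (XT.nd (nat_lit 78) (nat_lit 0) (nat_lit 0) (XT.lf (nat_lit 0) (nat_lit 3079737083564) (nat_lit 76) (nat_lit 713867867013) (nat_lit 76) (nat_lit 702292229449) (nat_lit 1) (nat_lit 4) (nat_lit 2) (nat_lit 5) (nat_lit 2) (nat_lit 4) (nat_lit 514) (nat_lit 403) (nat_lit 283)) (XT.lf (nat_lit 0) (nat_lit 3383539247021) (nat_lit 76) (nat_lit 740680246603) (nat_lit 76) (nat_lit 729104525401) (nat_lit 1) (nat_lit 4) (nat_lit 2) (nat_lit 5) (nat_lit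 2) (nat_lit 4) (nat_lit 515) (nat_lit 403) (nat_lit 282)))))) (XT.nd (nat_lit 468) (nat_lit 0) (nat_lit 0) (XT.nd (nat_lit 234) (nat_lit 0) (nat_lit 0) (XT.nd (nat_lit 78) (nat_lit 0) (nat_lit 0) (XT.lf (nat_lit 0) (nat_lit 3711644784713) (nat_lit 76) (nat_lit 769638025152) (nat_lit 76) (nat_lit 758062226508) (nat_lit 1) (nat_lit 4) (nat_lit 2) (nat_lit 5) (nat_lit 2) (nat_lit 4) (nat_lit 516) (nat_lit 403) (nat_lit 281)) (XT.nd (nat_lit 78) (nat_lit 0) (nat_lit 0) (XT.lf (nat_lit 0) (nat_lit 4065998025751) (nat_lit 76) (nat_lit 800912804313) (nat_lit 76) (nat_lit 789336933963) (nat_lit 1) (nat_lit 4) (nat_lit 2) (nat_lit 5) (nat_lit 2) (nat_lit 4) (nat_lit 517) (nat_lit 403) (nat_lit 280)) (XT.lf (nat_lit 0) (nat_lit 4448698841194) (nat_lit 76) (nat_lit 834689916109) (nat_lit 76) (nat_lit 823113979364) (nat_lit 1) (nat_lit 4) (nat_lit 2) (nat_lit 5) (nat_lit 2) (nat_lit 4) (nat_lit 518)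 (nat_lit 403) (nat_lit 279)))) (XT.nd (nat_lit 78) (nat_lit 0) (nat_lit 0) (XT.lf (nat_lit 0) (nat_lit 4862015087726) (nat_lit 76) (nat_lit 871169521203) (nat_lit 76) (nat_lit 859593522982) (nat_lit 1) (nat_lit 4) (nat_lit 2) (nat_lit 5) (nat_lit 2) (nat_lit 4) (nat_lit 519) (nat_lit 403) (nat_lit 278)) (XT.nd (nat_lit 78) (nat_lit 0) (nat_lit 0) (XT.lf (nat_lit 0) (nat_lit 5308396046808) (nat_lit 76) (nat_lit 910567795033) (nat_lit 76) (nat_lit 898991739889) (nat_lit 1) (nat_lit 4) (nat_lit 2) (nat_lit 5) (nat_lit 2) (nat_lit 4) (nat_lit 520) (nat_lit 403) (nat_lit 277)) (XT.lf (nat_lit 0) (nat_lit 5790486938937) (nat_lit 76) (nat_lit 953118208850) (nat_lit 76) (nat_lit 941542101001) (nat_lit 1) (nat_lit 4) (nat_lit 2) (nat_lit 5) (nat_lit 2) (nat_lit 4) (nat_lit 521) (nat_lit 403) (nat_lit 276))))) (XT.nd (nat_lit 234) (nat_lit 0) (nat_lit 0) (XT.nd (nat_lit 78) (nat_lit 0) (nat_lit 0)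 (XT.lf (nat_lit 0) (nat_lit 6311144599031) (nat_lit 76) (nat_lit 999072913256) (nat_lit 76) (nat_lit 987496756605) (nat_lit 1) (nat_lit 4) (nat_lit 2) (nat_lit 5) (nat_lit 2) (nat_lit 4) (nat_lit 522) (nat_lit 403) (nat_lit 275)) (XT.nd (nat_lit 78) (nat_lit 0) (nat_lit 0) (XT.lf (nat_lit 0) (nat_lit 6873454405816) (nat_lit 76) (nat_lit 1048704232425) (nat_lit 76) (nat_lit 1037128030586) (nat_lit 1) (nat_lit 4) (nat_lit 2) (nat_lit 5) (nat_lit 2) (nat_lit 4) (nat_lit 523) (nat_lit 403) (nat_lit 274)) (XT.lf (nat_lit 0) (nat_lit 7480748565554) (nat_lit 76) (nat_lit 1102306277877) (nat_lit 76) (nat_lit 1090730034199) (nat_lit 1) (nat_lit 4) (nat_lit 2) (nat_lit 5) (nat_lit 2) (nat_lit 4) (nat_lit 524) (nat_lit 403) (nat_lit 273)))) (XT.nd (nat_lit 78) (nat_lit 0) (nat_lit 0) (XT.lf (nat_lit 0) (nat_lit 8136625858451) (nat_lit 76) (nat_lit 1160196691363) (nat_lit 76) (nat_lit 1148620408945)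 (nat_lit 1) (nat_lit 4) (nat_lit 2) (nat_lit 5) (nat_lit 2) (nat_lit 4) (nat_lit 525) (nat_lit 403) (nat_lit 272)) (XT.nd (nat_lit 78) (nat_lit 0) (nat_lit 0) (XT.lf (nat_lit 0) (nat_lit 8844972964761) (nat_lit 76) (nat_lit 1222718527186) (nat_lit 76) (nat_lit 1211142208897) (nat_lit 1) (nat_lit 4) (nat_lit 2) (nat_lit 5) (nat_lit 2) (nat_lit 4) (nat_lit 526) (nat_lit 403) (nat_lit 271)) (XT.lf (nat_lit 0) (nat_lit 9609987496967) (nat_lit 76) (nat_lit 1290242285114) (nat_lit 76) (nat_lit 1278665933611) (nat_lit 1) (nat_lit 4) (nat_lit 2) (nat_lit 5) (nat_lit 2) (nat_lit 4) (nat_lit 527) (nat_lit 403) (nat_lit 270))))))))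
noncomputable def xc104 : XT := (XT.nd (nat_lit 1716) (nat_lit 1824) (nat_lit 0) (XT.nd (nat_lit 858) (nat_lit 1292) (nat_lit 0) (XT.nd (nat_lit 390) (nat_lit 1292) (nat_lit 0) (XT.nd (nat_lit 156) (nat_lit 304) (nat_lit 0) (XT.nd (nat_lit 78) (nat_lit 0) (nat_lit 0) (XT.lf (nat_lit 0) (nat_lit 232714040) (nat_lit 380) (nat_lit 1608552685) (nat_lit 380) (nat_lit 1608552685) (nat_lit 81) (nat_lit 3) (nat_lit 86) (nat_lit 3) (nat_lit 86) (nat_lit 5) (nat_lit 404) (nat_lit 404) (nat_lit 392)) (XT.lf (nat_lit 76) (nat_lit 184427064) (nat_lit 0) (nat_lit 2160906361) (nat_lit 380) (nat_lit 4679811924) (nat_lit 82) (nat_lit 5) (nat_lit 81) (nat_lit 3) (nat_lit 86) (nat_lit 5) (nat_lit 405) (nat_lit 404) (nat_lit 391))) (XT.nd (nat_lit 78) (nat_lit 304) (nat_lit 0) (XT.lf (nat_lit 76) (nat_lit 3935357878) (nat_lit 0) (nat_lit 339918394) (nat_lit 380) (nat_lit 2893602196) (nat_lit 82) (nat_lit 5)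 (nat_lit 81) (nat_lit 3) (nat_lit 86) (nat_lit 5) (nat_lit 406) (nat_lit 404) (nat_lit 390)) (XT.nd (nat_lit 78) (nat_lit 380) (nat_lit 0) (XT.lf (nat_lit 76) (nat_lit 536159585) (nat_lit 0) (nat_lit 5702946126) (nat_lit 380) (nat_lit 1094791225) (nat_lit 83) (nat_lit 5) (nat_lit 82) (nat_lit 5) (nat_lit 87) (nat_lit 5) (nat_lit 407) (nat_lit 404) (nat_lit 389)) (XT.lf (nat_lit 0) (nat_lit 738282171) (nat_lit 380) (nat_lit 2865071348) (nat_lit 456) (nat_lit 3912635184) (nat_lit 77) (nat_lit 5) (nat_lit 82) (nat_lit 5) (nat_lit 83) (nat_lit 5) (nat_lit 408) (nat_lit 404) (nat_lit 388))))) (XT.nd (nat_lit 234) (nat_lit 988) (nat_lit 0) (XT.nd (nat_lit 78) (nat_lit 304) (nat_lit 0) (XT.lf (nat_lit 76) (nat_lit 1308275742) (nat_lit 0) (nat_lit 1227633867) (nat_lit 456) (nat_lit 5184414780) (nat_lit 78) (nat_lit 5) (nat_lit 77) (nat_lit 5) (nat_lit 83) (nat_lit 5) (nat_lit 409) (nat_lit 404)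 (nat_lit 387)) (XT.nd (nat_lit 78) (nat_lit 380) (nat_lit 0) (XT.lf (nat_lit 0) (nat_lit 4445229225) (nat_lit 380) (nat_lit 2111313493) (nat_lit 76) (nat_lit 1387140962) (nat_lit 78) (nat_lit 5) (nat_lit 83) (nat_lit 5) (nat_lit 79) (nat_lit 5) (nat_lit 410) (nat_lit 404) (nat_lit 386)) (XT.lf (nat_lit 0) (nat_lit 2515595140) (nat_lit 380) (nat_lit 3950131142) (nat_lit 456) (nat_lit 1722610243) (nat_lit 73) (nat_lit 5) (nat_lit 78) (nat_lit 5) (nat_lit 79) (nat_lit 5) (nat_lit 411) (nat_lit 404) (nat_lit 385)))) (XT.nd (nat_lit 78) (nat_lit 912) (nat_lit 0) (XT.lf (nat_lit 0) (nat_lit 114727181) (nat_lit 456) (nat_lit 937351127) (nat_lit 76) (nat_lit 7405857080) (nat_lit 72) (nat_lit 5) (nat_lit 78) (nat_lit 5) (nat_lit 73) (nat_lit 5) (nat_lit 412) (nat_lit 404) (nat_lit 384)) (XT.nd (nat_lit 78) (nat_lit 456) (nat_lit 0) (XT.lf (nat_lit 0) (nat_lit 2041573977) (nat_lit 532) (nat_lit 4564463277)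 (nat_lit 76) (nat_lit 2136717285) (nat_lit 66) (nat_lit 5) (nat_lit 73) (nat_lit 5) (nat_lit 67) (nat_lit 5) (nat_lit 413) (nat_lit 404) (nat_lit 383)) (XT.lf (nat_lit 0) (nat_lit 595951556) (nat_lit 456) (nat_lit 3480798939) (nat_lit 532) (nat_lit 4977347200) (nat_lit 60) (nat_lit 5) (nat_lit 66) (nat_lit 5) (nat_lit 67) (nat_lit 5) (nat_lit 414) (nat_lit 404) (nat_lit 382)))))) (XT.nd (nat_lit 390) (nat_lit 608) (nat_lit 0) (XT.nd (nat_lit 156) (nat_lit 456) (nat_lit 0) (XT.nd (nat_lit 78) (nat_lit 228) (nat_lit 0) (XT.lf (nat_lit 0) (nat_lit 6292151396) (nat_lit 532) (nat_lit 3072080966) (nat_lit 76) (nat_lit 24790744) (nat_lit 60) (nat_lit 5) (nat_lit 67) (nat_lit 5) (nat_lit 61) (nat_lit 5) (nat_lit 415) (nat_lit 404) (nat_lit 381)) (XT.lf (nat_lit 0) (nat_lit 2677472974) (nat_lit 228) (nat_lit 6062028425) (nat_lit 304) (nat_lit 1006926404) (nat_lit 57) (nat_lit 5) (nat_lit 60) (nat_lit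 5) (nat_lit 61) (nat_lit 5) (nat_lit 416) (nat_lit 404) (nat_lit 380))) (XT.nd (nat_lit 78) (nat_lit 380) (nat_lit 0) (XT.lf (nat_lit 0) (nat_lit 1176048903) (nat_lit 304) (nat_lit 1209571111) (nat_lit 76) (nat_lit 7745383114) (nat_lit 56) (nat_lit 5) (nat_lit 60) (nat_lit 5) (nat_lit 57) (nat_lit 5) (nat_lit 417) (nat_lit 404) (nat_lit 379)) (XT.nd (nat_lit 78) (nat_lit 152) (nat_lit 0) (XT.lf (nat_lit 0) (nat_lit 3556699734) (nat_lit 304) (nat_lit 5333059830) (nat_lit 76) (nat_lit 1648347290) (nat_lit 53) (nat_lit 5) (nat_lit 57) (nat_lit 5) (nat_lit 54) (nat_lit 5) (nat_lit 418) (nat_lit 404) (nat_lit 378)) (XT.lf (nat_lit 0) (nat_lit 1110376968) (nat_lit 152) (nat_lit 5053331788) (nat_lit 228) (nat_lit 4811243655) (nat_lit 51) (nat_lit 5) (nat_lit 53) (nat_lit 5) (nat_lit 54) (nat_lit 5) (nat_lit 419) (nat_lit 404) (nat_lit 377))))) (XT.nd (nat_lit 234) (nat_lit 304) (nat_lit 0) (XT.nd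 (nat_lit 78) (nat_lit 304) (nat_lit 0) (XT.lf (nat_lit 0) (nat_lit 8266503618) (nat_lit 152) (nat_lit 775767228) (nat_lit 228) (nat_lit 2399477994) (nat_lit 51) (nat_lit 5) (nat_lit 53) (nat_lit 5) (nat_lit 54) (nat_lit 5) (nat_lit 420) (nat_lit 404) (nat_lit 376)) (XT.nd (nat_lit 78) (nat_lit 0) (nat_lit 0) (XT.lf (nat_lit 0) (nat_lit 310638879) (nat_lit 304) (nat_lit 7888979493) (nat_lit 76) (nat_lit 3736658177) (nat_lit 47) (nat_lit 5) (nat_lit 51) (nat_lit 5) (nat_lit 48) (nat_lit 5) (nat_lit 421) (nat_lit 404) (nat_lit 375)) (XT.lf (nat_lit 0) (nat_lit 3141275866) (nat_lit 304) (nat_lit 625207436) (nat_lit 76) (nat_lit 8696263482) (nat_lit 47) (nat_lit 5) (nat_lit 51) (nat_lit 5) (nat_lit 48) (nat_lit 5) (nat_lit 422) (nat_lit 404) (nat_lit 374)))) (XT.nd (nat_lit 78) (nat_lit 152) (nat_lit 0) (XT.lf (nat_lit 0) (nat_lit 6337007032) (nat_lit 228) (nat_lit 5553925351) (nat_lit 76) (nat_lit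 1129342118) (nat_lit 45) (nat_lit 5) (nat_lit 48) (nat_lit 5) (nat_lit 46) (nat_lit 5) (nat_lit 423) (nat_lit 404) (nat_lit 373)) (XT.nd (nat_lit 78) (nat_lit 0) (nat_lit 0) (XT.lf (nat_lit 0) (nat_lit 2549234566) (nat_lit 152) (nat_lit 7347837584) (nat_lit 228) (nat_lit 3716667252) (nat_lit 43) (nat_lit 5) (nat_lit 45) (nat_lit 5) (nat_lit 46) (nat_lit 5) (nat_lit 424) (nat_lit 404) (nat_lit 372)) (XT.lf (nat_lit 0) (nat_lit 11519266385) (nat_lit 152) (nat_lit 2309226212) (nat_lit 228) (nat_lit 419291743) (nat_lit 43) (nat_lit 5) (nat_lit 45) (nat_lit 5) (nat_lit 46) (nat_lit 5) (nat_lit 425) (nat_lit 404) (nat_lit 371))))))) (XT.nd (nat_lit 858) (nat_lit 760) (nat_lit 0) (XT.nd (nat_lit 390) (nat_lit 532) (nat_lit 0) (XT.nd (nat_lit 156) (nat_lit 152) (nat_lit 0) (XT.nd (nat_lit 78) (nat_lit 152) (nat_lit 0) (XT.lf (nat_lit 0) (nat_lit 3157773845) (nat_lit 228) (nat_lit 8572729257) (nat_lit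 76) (nat_lit 3182182279) (nat_lit 40) (nat_lit 5) (nat_lit 43) (nat_lit 5) (nat_lit 41) (nat_lit 5) (nat_lit 426) (nat_lit 404) (nat_lit 370)) (XT.lf (nat_lit 0) (nat_lit 522601884) (nat_lit 152) (nat_lit 6564434386) (nat_lit 228) (nat_lit 8535797558) (nat_lit 38) (nat_lit 5) (nat_lit 40) (nat_lit 5) (nat_lit 41) (nat_lit 5) (nat_lit 427) (nat_lit 404) (nat_lit 369))) (XT.nd (nat_lit 78) (nat_lit 152) (nat_lit 0) (XT.lf (nat_lit 0) (nat_lit 10740499862) (nat_lit 152) (nat_lit 766376351) (nat_lit 228) (nat_lit 4868838754) (nat_lit 38) (nat_lit 5) (nat_lit 40) (nat_lit 5) (nat_lit 41) (nat_lit 5) (nat_lit 428) (nat_lit 404) (nat_lit 368)) (XT.nd (nat_lit 78) (nat_lit 76) (nat_lit 0) (XT.lf (nat_lit 0) (nat_lit 4595418506) (nat_lit 76) (nat_lit 11872956202) (nat_lit 152) (nat_lit 705424458) (nat_lit 37) (nat_lit 5) (nat_lit 38) (nat_lit 5) (nat_lit 39) (nat_lit 4) (nat_lit 429) (nat_lit 404)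 (nat_lit 367)) (XT.lf (nat_lit 0) (nat_lit 3725355599) (nat_lit 152) (nat_lit 2263403986) (nat_lit 76) (nat_lit 12029777217) (nat_lit 36) (nat_lit 5) (nat_lit 38) (nat_lit 5) (nat_lit 37) (nat_lit 5) (nat_lit 430) (nat_lit 404) (nat_lit 366))))) (XT.nd (nat_lit 234) (nat_lit 304) (nat_lit 0) (XT.nd (nat_lit 78) (nat_lit 76) (nat_lit 0) (XT.lf (nat_lit 0) (nat_lit 8658854142) (nat_lit 228) (nat_lit 9692592687) (nat_lit 76) (nat_lit 563045926) (nat_lit 34) (nat_lit 5) (nat_lit 37) (nat_lit 5) (nat_lit 35) (nat_lit 4) (nat_lit 431) (nat_lit 404) (nat_lit 365)) (XT.nd (nat_lit 78) (nat_lit 0) (nat_lit 0) (XT.lf (nat_lit 0) (nat_lit 1722355993) (nat_lit 76) (nat_lit 12476066018) (nat_lit 152) (nat_lit 5666805450) (nat_lit 33) (nat_lit 5) (nat_lit 34) (nat_lit 5) (nat_lit 35) (nat_lit 4) (nat_lit 432) (nat_lit 404) (nat_lit 364)) (XT.lf (nat_lit 0) (nat_lit 14519639531) (nat_lit 76) (nat_lit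 5879111321) (nat_lit 152) (nat_lit 475874887) (nat_lit 33) (nat_lit 5) (nat_lit 34) (nat_lit 5) (nat_lit 35) (nat_lit 4) (nat_lit 433) (nat_lit 404) (nat_lit 363)))) (XT.nd (nat_lit 78) (nat_lit 76) (nat_lit 0) (XT.lf (nat_lit 0) (nat_lit 5021361649) (nat_lit 228) (nat_lit 15483160082) (nat_lit 76) (nat_lit 1438580335) (nat_lit 30) (nat_lit 5) (nat_lit 33) (nat_lit 5) (nat_lit 31) (nat_lit 4) (nat_lit 434) (nat_lit 404) (nat_lit 362)) (XT.nd (nat_lit 78) (nat_lit 76) (nat_lit 0) (XT.lf (nat_lit 0) (nat_lit 11219295279) (nat_lit 228) (nat_lit 2670365415) (nat_lit 76) (nat_lit 9183486625) (nat_lit 30) (nat_lit 5) (nat_lit 33) (nat_lit 5) (nat_lit 31) (nat_lit 4) (nat_lit 435) (nat_lit 404) (nat_lit 361)) (XT.lf (nat_lit 0) (nat_lit 11678404041) (nat_lit 76) (nat_lit 6474464197) (nat_lit 152) (nat_lit 6121552727) (nat_lit 29) (nat_lit 5) (nat_lit 30) (nat_lit 5) (nat_lit 31) (nat_lit 4) (nat_lit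 436) (nat_lit 404) (nat_lit 360)))))) (XT.nd (nat_lit 468) (nat_lit 380) (nat_lit 0) (XT.nd (nat_lit 234) (nat_lit 152) (nat_lit 0) (XT.nd (nat_lit 78) (nat_lit 76) (nat_lit 0) (XT.lf (nat_lit 0) (nat_lit 181823572) (nat_lit 152) (nat_lit 23832188610) (nat_lit 76) (nat_lit 1548381867) (nat_lit 27) (nat_lit 5) (nat_lit 29) (nat_lit 5) (nat_lit 28) (nat_lit 4) (nat_lit 437) (nat_lit 404) (nat_lit 359)) (XT.nd (nat_lit 78) (nat_lit 76) (nat_lit 0) (XT.lf (nat_lit 0) (nat_lit 7140002731) (nat_lit 152) (nat_lit 9417175170) (nat_lit 76) (nat_lit 10345013781) (nat_lit 27) (nat_lit 5) (nat_lit 29) (nat_lit 5) (nat_lit 28) (nat_lit 4) (nat_lit 438) (nat_lit 404) (nat_lit 358)) (XT.lf (nat_lit 0) (nat_lit 6402738047) (nat_lit 76) (nat_lit 8368810928) (nat_lit 152) (nat_lit 13568293848) (nat_lit 26) (nat_lit 5) (nat_lit 27) (nat_lit 5) (nat_lit 28) (nat_lit 4) (nat_lit 439) (nat_lit 404) (nat_lit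 357)))) (XT.nd (nat_lit 78) (nat_lit 152) (nat_lit 0) (XT.lf (nat_lit 0) (nat_lit 23252344441) (nat_lit 152) (nat_lit 5935214980) (nat_lit 0) (nat_lit 685854816) (nat_lit 26) (nat_lit 5) (nat_lit 28) (nat_lit 4) (nat_lit 26) (nat_lit 4) (nat_lit 440) (nat_lit 404) (nat_lit 356)) (XT.nd (nat_lit 78) (nat_lit 0) (nat_lit 0) (XT.lf (nat_lit 0) (nat_lit 1313228118) (nat_lit 152) (nat_lit 19877606288) (nat_lit 76) (nat_lit 10299112352) (nat_lit 24) (nat_lit 5) (nat_lit 26) (nat_lit 5) (nat_lit 25) (nat_lit 4) (nat_lit 441) (nat_lit 404) (nat_lit 355)) (XT.lf (nat_lit 0) (nat_lit 9657090846) (nat_lit 152) (nat_lit 2561845102) (nat_lit 76) (nat_lit 20992510349) (nat_lit 24) (nat_lit 5) (nat_lit 26) (nat_lit 5) (nat_lit 25) (nat_lit 4) (nat_lit 442) (nat_lit 404) (nat_lit 354))))) (XT.nd (nat_lit 234) (nat_lit 152) (nat_lit 0) (XT.nd (nat_lit 78) (nat_lit 152) (nat_lit 0) (XT.lf (nat_lit 0) (nat_lit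 16926583643) (nat_lit 76) (nat_lit 2117515897) (nat_lit 152) (nat_lit 15996519875) (nat_lit 23) (nat_lit 5) (nat_lit 24) (nat_lit 5) (nat_lit 25) (nat_lit 4) (nat_lit 443) (nat_lit 404) (nat_lit 353)) (XT.nd (nat_lit 78) (nat_lit 76) (nat_lit 0) (XT.lf (nat_lit 0) (nat_lit 880417234) (nat_lit 76) (nat_lit 28574972643) (nat_lit 76) (nat_lit 7538875066) (nat_lit 22) (nat_lit 4) (nat_lit 23) (nat_lit 5) (nat_lit 23) (nat_lit 4) (nat_lit 444) (nat_lit 404) (nat_lit 352)) (XT.lf (nat_lit 0) (nat_lit 2047663776) (nat_lit 152) (nat_lit 16805970966) (nat_lit 76) (nat_lit 20204934294) (nat_lit 21) (nat_lit 5) (nat_lit 23) (nat_lit 5) (nat_lit 22) (nat_lit 4) (nat_lit 445) (nat_lit 404) (nat_lit 351)))) (XT.nd (nat_lit 78) (nat_lit 76) (nat_lit 0) (XT.lf (nat_lit 0) (nat_lit 3995260981) (nat_lit 76) (nat_lit 8065910873) (nat_lit 152) (nat_lit 29205796472) (nat_lit 20) (nat_lit 5) (nat_lit 21) (nat_lit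 5) (nat_lit 22) (nat_lit 4) (nat_lit 446) (nat_lit 404) (nat_lit 350)) (XT.nd (nat_lit 78) (nat_lit 76) (nat_lit 0) (XT.lf (nat_lit 0) (nat_lit 23404878207) (nat_lit 152) (nat_lit 16352596983) (nat_lit 0) (nat_lit 3852238074) (nat_lit 20) (nat_lit 5) (nat_lit 22) (nat_lit 4) (nat_lit 20) (nat_lit 4) (nat_lit 447) (nat_lit 404) (nat_lit 349)) (XT.lf (nat_lit 0) (nat_lit 6293971975) (nat_lit 76) (nat_lit 29696559497) (nat_lit 76) (nat_lit 10122593174) (nat_lit 19) (nat_lit 4) (nat_lit 20) (nat_lit 5) (nat_lit 20) (nat_lit 4) (nat_lit 448) (nat_lit 404) (nat_lit 348))))))))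
noncomputable def xc105 : XT := (XT.nd (nat_lit 1716) (nat_lit 380) (nat_lit 0) (XT.nd (nat_lit 858) (nat_lit 304) (nat_lit 0) (XT.nd (nat_lit 390) (nat_lit 380) (nat_lit 0) (XT.nd (nat_lit 156) (nat_lit 76) (nat_lit 0) (XT.nd (nat_lit 78) (nat_lit 76) (nat_lit 0) (XT.lf (nat_lit 0) (nat_lit 1160279219) (nat_lit 152) (nat_lit 17180332016) (nat_lit 76) (nat_lit 30440135471) (nat_lit 18) (nat_lit 5) (nat_lit 20) (nat_lit 5) (nat_lit 19) (nat_lit 4) (nat_lit 449) (nat_lit 404) (nat_lit 347)) (XT.lf (nat_lit 0) (nat_lit 7325428599) (nat_lit 76) (nat_lit 5625256574) (nat_lit 152) (nat_lit 38677918748) (nat_lit 17) (nat_lit 5) (nat_lit 18) (nat_lit 5) (nat_lit 19) (nat_lit 4) (nat_lit 450) (nat_lit 404) (nat_lit 346))) (XT.nd (nat_lit 78) (nat_lit 76) (nat_lit 0) (XT.lf (nat_lit 0) (nat_lit 26336997694) (nat_lit 152) (nat_lit 20153013978) (nat_lit 0) (nat_lit 8162066232) (nat_lit 17) (nat_lit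 5) (nat_lit 19) (nat_lit 4) (nat_lit 17) (nat_lit 4) (nat_lit 451) (nat_lit 404) (nat_lit 345)) (XT.nd (nat_lit 78) (nat_lit 0) (nat_lit 0) (XT.lf (nat_lit 0) (nat_lit 6040953956) (nat_lit 76) (nat_lit 35022204049) (nat_lit 76) (nat_lit 16832758341) (nat_lit 16) (nat_lit 4) (nat_lit 17) (nat_lit 5) (nat_lit 17) (nat_lit 4) (nat_lit 452) (nat_lit 404) (nat_lit 344)) (XT.lf (nat_lit 0) (nat_lit 35433391582) (nat_lit 76) (nat_lit 22063210810) (nat_lit 76) (nat_lit 3860325986) (nat_lit 16) (nat_lit 4) (nat_lit 17) (nat_lit 5) (nat_lit 17) (nat_lit 4) (nat_lit 453) (nat_lit 404) (nat_lit 343))))) (XT.nd (nat_lit 234) (nat_lit 228) (nat_lit 0) (XT.nd (nat_lit 78) (nat_lit 0) (nat_lit 0) (XT.lf (nat_lit 0) (nat_lit 1891873169) (nat_lit 76) (nat_lit 7775050686) (nat_lit 152) (nat_lit 55406389681) (nat_lit 14) (nat_lit 5) (nat_lit 15) (nat_lit 5) (nat_lit 16) (nat_lit 4) (nat_lit 454) (nat_lit 404)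 (nat_lit 342)) (XT.nd (nat_lit 78) (nat_lit 0) (nat_lit 0) (XT.lf (nat_lit 0) (nat_lit 24958490771) (nat_lit 152) (nat_lit 35967465619) (nat_lit 0) (nat_lit 8081777506) (nat_lit 14) (nat_lit 5) (nat_lit 16) (nat_lit 4) (nat_lit 14) (nat_lit 4) (nat_lit 455) (nat_lit 404) (nat_lit 341)) (XT.lf (nat_lit 0) (nat_lit 41656219783) (nat_lit 152) (nat_lit 6816434132) (nat_lit 0) (nat_lit 24769628366) (nat_lit 14) (nat_lit 5) (nat_lit 16) (nat_lit 4) (nat_lit 14) (nat_lit 4) (nat_lit 456) (nat_lit 404) (nat_lit 340)))) (XT.nd (nat_lit 78) (nat_lit 152) (nat_lit 0) (XT.lf (nat_lit 0) (nat_lit 25928436509) (nat_lit 76) (nat_lit 34367213253) (nat_lit 76) (nat_lit 17471475399) (nat_lit 13) (nat_lit 4) (nat_lit 14) (nat_lit 5) (nat_lit 14) (nat_lit 4) (nat_lit 457) (nat_lit 404) (nat_lit 339)) (XT.nd (nat_lit 78) (nat_lit 152) (nat_lit 0) (XT.lf (nat_lit 0) (nat_lit 61646158066) (nat_lit 76) (nat_lit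 18949236255) (nat_lit 76) (nat_lit 2045029478) (nat_lit 13) (nat_lit 4) (nat_lit 14) (nat_lit 5) (nat_lit 14) (nat_lit 4) (nat_lit 458) (nat_lit 404) (nat_lit 338)) (XT.lf (nat_lit 0) (nat_lit 12561894258) (nat_lit 76) (nat_lit 1608270467) (nat_lit 152) (nat_lit 73682441417) (nat_lit 11) (nat_lit 5) (nat_lit 12) (nat_lit 5) (nat_lit 13) (nat_lit 4) (nat_lit 459) (nat_lit 404) (nat_lit 337)))))) (XT.nd (nat_lit 390) (nat_lit 152) (nat_lit 0) (XT.nd (nat_lit 156) (nat_lit 152) (nat_lit 0) (XT.nd (nat_lit 78) (nat_lit 0) (nat_lit 0) (XT.lf (nat_lit 0) (nat_lit 32556462862) (nat_lit 152) (nat_lit 43951865949) (nat_lit 0) (nat_lit 16890435910) (nat_lit 11) (nat_lit 5) (nat_lit 13) (nat_lit 4) (nat_lit 11) (nat_lit 4) (nat_lit 460) (nat_lit 404) (nat_lit 336)) (XT.lf (nat_lit 0) (nat_lit 52440352275) (nat_lit 152) (nat_lit 10178029147) (nat_lit 0) (nat_lit 36768100411) (nat_lit 11) (nat_lit 5)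 (nat_lit 13) (nat_lit 4) (nat_lit 11) (nat_lit 4) (nat_lit 461) (nat_lit 404) (nat_lit 335))) (XT.nd (nat_lit 78) (nat_lit 76) (nat_lit 0) (XT.lf (nat_lit 0) (nat_lit 27652930288) (nat_lit 76) (nat_lit 46913107826) (nat_lit 76) (nat_lit 31235092156) (nat_lit 10) (nat_lit 4) (nat_lit 11) (nat_lit 5) (nat_lit 11) (nat_lit 4) (nat_lit 462) (nat_lit 404) (nat_lit 334)) (XT.nd (nat_lit 78) (nat_lit 76) (nat_lit 0) (XT.lf (nat_lit 0) (nat_lit 69061815424) (nat_lit 76) (nat_lit 29664656481) (nat_lit 76) (nat_lit 13981303953) (nat_lit 10) (nat_lit 4) (nat_lit 11) (nat_lit 5) (nat_lit 11) (nat_lit 4) (nat_lit 463) (nat_lit 404) (nat_lit 333)) (XT.lf (nat_lit 0) (nat_lit 4407123076) (nat_lit 152) (nat_lit 6521478063) (nat_lit 76) (nat_lit 109230433637) (nat_lit 9) (nat_lit 5) (nat_lit 11) (nat_lit 5) (nat_lit 10) (nat_lit 4) (nat_lit 464) (nat_lit 404) (nat_lit 332))))) (XT.nd (nat_lit 234) (nat_lit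 76) (nat_lit 0) (XT.nd (nat_lit 78) (nat_lit 0) (nat_lit 0) (XT.lf (nat_lit 0) (nat_lit 24594238505) (nat_lit 152) (nat_lit 93432663264) (nat_lit 0) (nat_lit 10063803728) (nat_lit 8) (nat_lit 5) (nat_lit 10) (nat_lit 4) (nat_lit 8) (nat_lit 4) (nat_lit 465) (nat_lit 404) (nat_lit 331)) (XT.nd (nat_lit 78) (nat_lit 0) (nat_lit 0) (XT.lf (nat_lit 0) (nat_lit 46851201918) (nat_lit 152) (nat_lit 57452473796) (nat_lit 0) (nat_lit 32316844391) (nat_lit 8) (nat_lit 5) (nat_lit 10) (nat_lit 4) (nat_lit 8) (nat_lit 4) (nat_lit 466) (nat_lit 404) (nat_lit 330)) (XT.lf (nat_lit 0) (nat_lit 70877684271) (nat_lit 152) (nat_lit 18616224584) (nat_lit 0) (nat_lit 56339694568) (nat_lit 8) (nat_lit 5) (nat_lit 10) (nat_lit 4) (nat_lit 8) (nat_lit 4) (nat_lit 467) (nat_lit 404) (nat_lit 329)))) (XT.nd (nat_lit 78) (nat_lit 0) (nat_lit 0) (XT.lf (nat_lit 0) (nat_lit 24533489620) (nat_lit 76) (nat_lit 72872606114)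 (nat_lit 76) (nat_lit 58331253285) (nat_lit 7) (nat_lit 4) (nat_lit 8) (nat_lit 5) (nat_lit 8) (nat_lit 4) (nat_lit 468) (nat_lit 404) (nat_lit 328)) (XT.nd (nat_lit 78) (nat_lit 0) (nat_lit 0) (XT.lf (nat_lit 0) (nat_lit 72173726729) (nat_lit 76) (nat_lit 54382105317) (nat_lit 76) (nat_lit 39837638483) (nat_lit 7) (nat_lit 4) (nat_lit 8) (nat_lit 5) (nat_lit 8) (nat_lit 4) (nat_lit 469) (nat_lit 404) (nat_lit 327)) (XT.lf (nat_lit 0) (nat_lit 123606501863) (nat_lit 76) (nat_lit 34421833698) (nat_lit 76) (nat_lit 19874483525) (nat_lit 7) (nat_lit 4) (nat_lit 8) (nat_lit 5) (nat_lit 8) (nat_lit 4) (nat_lit 470) (nat_lit 404) (nat_lit 326))))))) (XT.nd (nat_lit 858) (nat_lit 152) (nat_lit 0) (XT.nd (nat_lit 390) (nat_lit 76) (nat_lit 0) (XT.nd (nat_lit 156) (nat_lit 0) (nat_lit 0) (XT.nd (nat_lit 78) (nat_lit 76) (nat_lit 0) (XT.lf (nat_lit 0) (nat_lit 1592645856) (nat_lit 152) (nat_lit 11237316549)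 (nat_lit 76) (nat_lit 177500410220) (nat_lit 6) (nat_lit 5) (nat_lit 8) (nat_lit 5) (nat_lit 7) (nat_lit 4) (nat_lit 471) (nat_lit 404) (nat_lit 325)) (XT.lf (nat_lit 0) (nat_lit 24862954015) (nat_lit 152) (nat_lit 167366690920) (nat_lit 0) (nat_lit 11388424452) (nat_lit 5) (nat_lit 5) (nat_lit 7) (nat_lit 4) (nat_lit 5) (nat_lit 4) (nat_lit 472) (nat_lit 404) (nat_lit 324))) (XT.nd (nat_lit 78) (nat_lit 0) (nat_lit 0) (XT.lf (nat_lit 0) (nat_lit 50635277278) (nat_lit 152) (nat_lit 130123645288) (nat_lit 0) (nat_lit 37158628375) (nat_lit 5) (nat_lit 5) (nat_lit 7) (nat_lit 4) (nat_lit 5) (nat_lit 4) (nat_lit 473) (nat_lit 404) (nat_lit 323)) (XT.nd (nat_lit 78) (nat_lit 0) (nat_lit 0) (XT.lf (nat_lit 0) (nat_lit 78461901266) (nat_lit 152) (nat_lit 89916398817) (nat_lit 0) (nat_lit 64983290012) (nat_lit 5) (nat_lit 5) (nat_lit 7) (nat_lit 4) (nat_lit 5) (nat_lit 4) (nat_lit 474) (nat_lit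 404) (nat_lit 322)) (XT.lf (nat_lit 0) (nat_lit 108507724493) (nat_lit 152) (nat_lit 46506686343) (nat_lit 0) (nat_lit 95027296246) (nat_lit 5) (nat_lit 5) (nat_lit 7) (nat_lit 4) (nat_lit 5) (nat_lit 4) (nat_lit 475) (nat_lit 404) (nat_lit 321))))) (XT.nd (nat_lit 234) (nat_lit 0) (nat_lit 0) (XT.nd (nat_lit 78) (nat_lit 0) (nat_lit 0) (XT.lf (nat_lit 0) (nat_lit 381835849) (nat_lit 76) (nat_lit 140578143592) (nat_lit 76) (nat_lit 127096032945) (nat_lit 4) (nat_lit 4) (nat_lit 5) (nat_lit 5) (nat_lit 5) (nat_lit 4) (nat_lit 476) (nat_lit 404) (nat_lit 320)) (XT.nd (nat_lit 78) (nat_lit 0) (nat_lit 0) (XT.lf (nat_lit 0) (nat_lit 53653578866) (nat_lit 76) (nat_lit 123620162864) (nat_lit 76) (nat_lit 110136494439) (nat_lit 4) (nat_lit 4) (nat_lit 5) (nat_lit 5) (nat_lit 5) (nat_lit 4) (nat_lit 477) (nat_lit 404) (nat_lit 319)) (XT.lf (nat_lit 0) (nat_lit 111175267424) (nat_lit 76) (nat_lit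 105311552136) (nat_lit 76) (nat_lit 91826441325) (nat_lit 4) (nat_lit 4) (nat_lit 5) (nat_lit 5) (nat_lit 5) (nat_lit 4) (nat_lit 478) (nat_lit 404) (nat_lit 318)))) (XT.nd (nat_lit 78) (nat_lit 0) (nat_lit 0) (XT.lf (nat_lit 0) (nat_lit 173287770789) (nat_lit 76) (nat_lit 85543815938) (nat_lit 76) (nat_lit 72057369583) (nat_lit 4) (nat_lit 4) (nat_lit 5) (nat_lit 5) (nat_lit 5) (nat_lit 4) (nat_lit 479) (nat_lit 404) (nat_lit 317)) (XT.nd (nat_lit 78) (nat_lit 0) (nat_lit 0) (XT.lf (nat_lit 0) (nat_lit 240359163054) (nat_lit 76) (nat_lit 64199812129) (nat_lit 76) (nat_lit 50712129159) (nat_lit 4) (nat_lit 4) (nat_lit 5) (nat_lit 5) (nat_lit 5) (nat_lit 4) (nat_lit 480) (nat_lit 404) (nat_lit 316)) (XT.lf (nat_lit 0) (nat_lit 312786904322) (nat_lit 76) (nat_lit 41153057724) (nat_lit 76) (nat_lit 27664229740) (nat_lit 4) (nat_lit 4) (nat_lit 5) (nat_lit 5) (nat_lit 5) (nat_lit 4) (nat_lit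 481) (nat_lit 404) (nat_lit 315)))))) (XT.nd (nat_lit 468) (nat_lit 0) (nat_lit 0) (XT.nd (nat_lit 234) (nat_lit 0) (nat_lit 0) (XT.nd (nat_lit 78) (nat_lit 152) (nat_lit 0) (XT.lf (nat_lit 0) (nat_lit 391000196023) (nat_lit 76) (nat_lit 16266979362) (nat_lit 76) (nat_lit 2777091181) (nat_lit 4) (nat_lit 4) (nat_lit 5) (nat_lit 5) (nat_lit 5) (nat_lit 4) (nat_lit 482) (nat_lit 404) (nat_lit 314)) (XT.nd (nat_lit 78) (nat_lit 0) (nat_lit 0) (XT.lf (nat_lit 0) (nat_lit 24047787931) (nat_lit 152) (nat_lit 405016955336) (nat_lit 0) (nat_lit 11556241778) (nat_lit 2) (nat_lit 5) (nat_lit 4) (nat_lit 4) (nat_lit 2) (nat_lit 4) (nat_lit 483) (nat_lit 404) (nat_lit 313)) (XT.lf (nat_lit 0) (nat_lit 53821332233) (nat_lit 152) (nat_lit 378411577049) (nat_lit 0) (nat_lit 41328944461) (nat_lit 2) (nat_lit 5) (nat_lit 4) (nat_lit 4) (nat_lit 2) (nat_lit 4) (nat_lit 484) (nat_lit 404) (nat_lit 312))))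 (XT.nd (nat_lit 78) (nat_lit 0) (nat_lit 0) (XT.lf (nat_lit 0) (nat_lit 85973026461) (nat_lit 152) (nat_lit 349685404856) (nat_lit 0) (nat_lit 73479859413) (nat_lit 2) (nat_lit 5) (nat_lit 4) (nat_lit 4) (nat_lit 2) (nat_lit 4) (nat_lit 485) (nat_lit 404) (nat_lit 311)) (XT.nd (nat_lit 78) (nat_lit 0) (nat_lit 0) (XT.lf (nat_lit 0) (nat_lit 120693399176) (nat_lit 152) (nat_lit 318668209589) (nat_lit 0) (nat_lit 108199510575) (nat_lit 2) (nat_lit 5) (nat_lit 4) (nat_lit 4) (nat_lit 2) (nat_lit 4) (nat_lit 486) (nat_lit 404) (nat_lit 310)) (XT.lf (nat_lit 0) (nat_lit 158188200733) (nat_lit 152) (nat_lit 285176185645) (nat_lit 0) (nat_lit 145693644027) (nat_lit 2) (nat_lit 5) (nat_lit 4) (nat_lit 4) (nat_lit 2) (nat_lit 4) (nat_lit 487) (nat_lit 404) (nat_lit 309))))) (XT.nd (nat_lit 234) (nat_lit 0) (nat_lit 0) (XT.nd (nat_lit 78) (nat_lit 0) (nat_lit 0) (XT.lf (nat_lit 0) (nat_lit 198679622549)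 (nat_lit 152) (nat_lit 249010861772) (nat_lit 0) (nat_lit 186184447228) (nat_lit 2) (nat_lit 5) (nat_lit 4) (nat_lit 4) (nat_lit 2) (nat_lit 4) (nat_lit 488) (nat_lit 404) (nat_lit 308)) (XT.nd (nat_lit 78) (nat_lit 0) (nat_lit 0) (XT.lf (nat_lit 0) (nat_lit 242407613790) (nat_lit 152) (nat_lit 209957924940) (nat_lit 0) (nat_lit 229911865678) (nat_lit 2) (nat_lit 5) (nat_lit 4) (nat_lit 4) (nat_lit 2) (nat_lit 4) (nat_lit 489) (nat_lit 404) (nat_lit 307)) (XT.lf (nat_lit 0) (nat_lit 289631303293) (nat_lit 152) (nat_lit 167785950338) (nat_lit 0) (nat_lit 277135024818) (nat_lit 2) (nat_lit 5) (nat_lit 4) (nat_lit 4) (nat_lit 2) (nat_lit 4) (nat_lit 490) (nat_lit 404) (nat_lit 306)))) (XT.nd (nat_lit 78) (nat_lit 0) (nat_lit 0) (XT.lf (nat_lit 0) (nat_lit 340630535145) (nat_lit 152) (nat_lit 122245029967) (nat_lit 0) (nat_lit 328133765594) (nat_lit 2) (nat_lit 5) (nat_lit 4) (nat_lit 4) (nat_lit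 2) (nat_lit 4) (nat_lit 491) (nat_lit 404) (nat_lit 305)) (XT.nd (nat_lit 78) (nat_lit 0) (nat_lit 0) (XT.lf (nat_lit 0) (nat_lit 395707527015) (nat_lit 152) (nat_lit 73065291708) (nat_lit 0) (nat_lit 383210302763) (nat_lit 2) (nat_lit 5) (nat_lit 4) (nat_lit 4) (nat_lit 2) (nat_lit 4) (nat_lit 492) (nat_lit 404) (nat_lit 304)) (XT.lf (nat_lit 0) (nat_lit 455188661078) (nat_lit 152) (nat_lit 19955300074) (nat_lit 0) (nat_lit 442691015807) (nat_lit 2) (nat_lit 5) (nat_lit 4) (nat_lit 4) (nat_lit 2) (nat_lit 4) (nat_lit 493) (nat_lit 404) (nat_lit 303))))))))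
noncomputable def xc106 : XT := (XT.nd (nat_lit 1716) (nat_lit 0) (nat_lit 0) (XT.nd (nat_lit 858) (nat_lit 0) (nat_lit 0) (XT.nd (nat_lit 390) (nat_lit 0) (nat_lit 0) (XT.nd (nat_lit 156) (nat_lit 0) (nat_lit 0) (XT.nd (nat_lit 78) (nat_lit 0) (nat_lit 0) (XT.lf (nat_lit 0) (nat_lit 39369071197) (nat_lit 76) (nat_lit 481004174040) (nat_lit 76) (nat_lit 468506138936) (nat_lit 1) (nat_lit 4) (nat_lit 2) (nat_lit 5) (nat_lit 2) (nat_lit 4) (nat_lit 494) (nat_lit 404) (nat_lit 302)) (XT.lf (nat_lit 0) (nat_lit 104570544398) (nat_lit 76) (nat_lit 486745846063) (nat_lit 76) (nat_lit 474247450004) (nat_lit 1) (nat_lit 4) (nat_lit 2) (nat_lit 5) (nat_lit 2) (nat_lit 4) (nat_lit 495) (nat_lit 404) (nat_lit 301))) (XT.nd (nat_lit 78) (nat_lit 0) (nat_lit 0) (XT.lf (nat_lit 0) (nat_lit 174984687893) (nat_lit 76) (nat_lit 492948615214) (nat_lit 76) (nat_lit 480449884936) (nat_lit 1) (nat_lit 4) (nat_lit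 2) (nat_lit 5) (nat_lit 2) (nat_lit 4) (nat_lit 496) (nat_lit 404) (nat_lit 300)) (XT.nd (nat_lit 78) (nat_lit 0) (nat_lit 0) (XT.lf (nat_lit 0) (nat_lit 251028770678) (nat_lit 76) (nat_lit 499649238643) (nat_lit 76) (nat_lit 487150198903) (nat_lit 1) (nat_lit 4) (nat_lit 2) (nat_lit 5) (nat_lit 2) (nat_lit 4) (nat_lit 497) (nat_lit 404) (nat_lit 299)) (XT.lf (nat_lit 0) (nat_lit 333153424356) (nat_lit 76) (nat_lit 506887423747) (nat_lit 76) (nat_lit 494388097469) (nat_lit 1) (nat_lit 4) (nat_lit 2) (nat_lit 5) (nat_lit 2) (nat_lit 4) (nat_lit 498) (nat_lit 404) (nat_lit 298))))) (XT.nd (nat_lit 234) (nat_lit 0) (nat_lit 0) (XT.nd (nat_lit 78) (nat_lit 0) (nat_lit 0) (XT.lf (nat_lit 0) (nat_lit 421845313540) (nat_lit 76) (nat_lit 514706063476) (nat_lit 76) (nat_lit 502206471885) (nat_lit 1) (nat_lit 4) (nat_lit 2) (nat_lit 5) (nat_lit 2) (nat_lit 4) (nat_lit 499) (nat_lit 404) (nat_lit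 297)) (XT.nd (nat_lit 78) (nat_lit 0) (nat_lit 0) (XT.lf (nat_lit 0) (nat_lit 517630019798) (nat_lit 76) (nat_lit 523151490510) (nat_lit 76) (nat_lit 510651653258) (nat_lit 1) (nat_lit 4) (nat_lit 2) (nat_lit 5) (nat_lit 2) (nat_lit 4) (nat_lit 500) (nat_lit 404) (nat_lit 296)) (XT.lf (nat_lit 0) (nat_lit 621075156201) (nat_lit 76) (nat_lit 532273751823) (nat_lit 76) (nat_lit 519773687107) (nat_lit 1) (nat_lit 4) (nat_lit 2) (nat_lit 5) (nat_lit 2) (nat_lit 4) (nat_lit 501) (nat_lit 404) (nat_lit 295)))) (XT.nd (nat_lit 78) (nat_lit 0) (nat_lit 0) (XT.lf (nat_lit 0) (nat_lit 732793730968) (nat_lit 76) (nat_lit 542126905260) (nat_lit 76) (nat_lit 529626629931) (nat_lit 1) (nat_lit 4) (nat_lit 2) (nat_lit 5) (nat_lit 2) (nat_lit 4) (nat_lit 502) (nat_lit 404) (nat_lit 294)) (XT.nd (nat_lit 78) (nat_lit 0) (nat_lit 0) (XT.lf (nat_lit 0) (nat_lit 853447780095) (nat_lit 76) (nat_lit 552769339880)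 (nat_lit 76) (nat_lit 540268869537) (nat_lit 1) (nat_lit 4) (nat_lit 2) (nat_lit 5) (nat_lit 2) (nat_lit 4) (nat_lit 503) (nat_lit 404) (nat_lit 293)) (XT.lf (nat_lit 0) (nat_lit 983752290541) (nat_lit 76) (nat_lit 564264121960) (nat_lit 76) (nat_lit 551763471049) (nat_lit 1) (nat_lit 4) (nat_lit 2) (nat_lit 5) (nat_lit 2) (nat_lit 4) (nat_lit 504) (nat_lit 404) (nat_lit 292)))))) (XT.nd (nat_lit 390) (nat_lit 0) (nat_lit 0) (XT.nd (nat_lit 156) (nat_lit 0) (nat_lit 0) (XT.nd (nat_lit 78) (nat_lit 0) (nat_lit 0) (XT.lf (nat_lit 0) (nat_lit 1124479437182) (nat_lit 76) (nat_lit 576679368729) (nat_lit 76) (nat_lit 564178550625) (nat_lit 1) (nat_lit 4) (nat_lit 2) (nat_lit 5) (nat_lit 2) (nat_lit 4) (nat_lit 505) (nat_lit 404) (nat_lit 291)) (XT.lf (nat_lit 0) (nat_lit 1276463158666) (nat_lit 76) (nat_lit 590088652018) (nat_lit 76) (nat_lit 577587679107) (nat_lit 1) (nat_lit 4) (nat_lit 2)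 (nat_lit 5) (nat_lit 2) (nat_lit 4) (nat_lit 506) (nat_lit 404) (nat_lit 290))) (XT.nd (nat_lit 78) (nat_lit 0) (nat_lit 0) (XT.lf (nat_lit 0) (nat_lit 1440604099267) (nat_lit 76) (nat_lit 604571434248) (nat_lit 76) (nat_lit 592070317996) (nat_lit 1) (nat_lit 4) (nat_lit 2) (nat_lit 5) (nat_lit 2) (nat_lit 4) (nat_lit 507) (nat_lit 404) (nat_lit 289)) (XT.nd (nat_lit 78) (nat_lit 0) (nat_lit 0) (XT.lf (nat_lit 0) (nat_lit 1617874946042) (nat_lit 76) (nat_lit 620213539312) (nat_lit 76) (nat_lit 607712290338) (nat_lit 1) (nat_lit 4) (nat_lit 2) (nat_lit 5) (nat_lit 2) (nat_lit 4) (nat_lit 508) (nat_lit 404) (nat_lit 288)) (XT.lf (nat_lit 0) (nat_lit 1809326192897) (nat_lit 76) (nat_lit 637107661168) (nat_lit 76) (nat_lit 624606289302) (nat_lit 1) (nat_lit 4) (nat_lit 2) (nat_lit 5) (nat_lit 2) (nat_lit 4) (nat_lit 509) (nat_lit 404) (nat_lit 287))))) (XT.nd (nat_lit 234) (nat_lit 0) (nat_lit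 0) (XT.nd (nat_lit 78) (nat_lit 0) (nat_lit 0) (XT.lf (nat_lit 0) (nat_lit 2016092365738) (nat_lit 76) (nat_lit 655353913129) (nat_lit 76) (nat_lit 642852427475) (nat_lit 1) (nat_lit 4) (nat_lit 2) (nat_lit 5) (nat_lit 2) (nat_lit 4) (nat_lit 510) (nat_lit 404) (nat_lit 286)) (XT.nd (nat_lit 78) (nat_lit 0) (nat_lit 0) (XT.lf (nat_lit 0) (nat_lit 2239398745591) (nat_lit 76) (nat_lit 675060421134) (nat_lit 76) (nat_lit 662558830120) (nat_lit 1) (nat_lit 4) (nat_lit 2) (nat_lit 5) (nat_lit 2) (nat_lit 4) (nat_lit 511) (nat_lit 404) (nat_lit 285)) (XT.lf (nat_lit 0) (nat_lit 2480568629522) (nat_lit 76) (nat_lit 696343964488) (nat_lit 76) (nat_lit 683842275919) (nat_lit 1) (nat_lit 4) (nat_lit 2) (nat_lit 5) (nat_lit 2) (nat_lit 4) (nat_lit 512) (nat_lit 404) (nat_lit 284)))) (XT.nd (nat_lit 78) (nat_lit 0) (nat_lit 0) (XT.lf (nat_lit 0) (nat_lit 2741031172397) (nat_lit 76) (nat_lit 719330667894)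 (nat_lit 76) (nat_lit 706828888996) (nat_lit 1) (nat_lit 4) (nat_lit 2) (nat_lit 5) (nat_lit 2) (nat_lit 4) (nat_lit 513) (nat_lit 404) (nat_lit 283)) (XT.nd (nat_lit 78) (nat_lit 0) (nat_lit 0) (XT.lf (nat_lit 0) (nat_lit 3022329855953) (nat_lit 76) (nat_lit 744156748853) (nat_lit 76) (nat_lit 731654886317) (nat_lit 1) (nat_lit 4) (nat_lit 2) (nat_lit 5) (nat_lit 2) (nat_lit 4) (nat_lit 514) (nat_lit 404) (nat_lit 282)) (XT.lf (nat_lit 0) (nat_lit 3326131635352) (nat_lit 76) (nat_lit 770969324881) (nat_lit 76) (nat_lit 758467384903) (nat_lit 1) (nat_lit 4) (nat_lit 2) (nat_lit 5) (nat_lit 2) (nat_lit 4) (nat_lit 515) (nat_lit 404) (nat_lit 281))))))) (XT.nd (nat_lit 858) (nat_lit 0) (nat_lit 0) (XT.nd (nat_lit 390) (nat_lit 0) (nat_lit 0) (XT.nd (nat_lit 156) (nat_lit 0) (nat_lit 0) (XT.nd (nat_lit 78) (nat_lit 0) (nat_lit 0) (XT.lf (nat_lit 0) (nat_lit 3654236817433) (nat_lit 76) (nat_lit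 799927285319) (nat_lit 76) (nat_lit 787425273635) (nat_lit 1) (nat_lit 4) (nat_lit 2) (nat_lit 5) (nat_lit 2) (nat_lit 4) (nat_lit 516) (nat_lit 404) (nat_lit 280)) (XT.lf (nat_lit 0) (nat_lit 4008589729203) (nat_lit 76) (nat_lit 831202232894) (nat_lit 76) (nat_lit 818700154815) (nat_lit 1) (nat_lit 4) (nat_lit 2) (nat_lit 5) (nat_lit 2) (nat_lit 4) (nat_lit 517) (nat_lit 404) (nat_lit 279))) (XT.nd (nat_lit 78) (nat_lit 0) (nat_lit 0) (XT.lf (nat_lit 0) (nat_lit 4391290239768) (nat_lit 76) (nat_lit 864979500630) (nat_lit 76) (nat_lit 852477361075) (nat_lit 1) (nat_lit 4) (nat_lit 2) (nat_lit 5) (nat_lit 2) (nat_lit 4) (nat_lit 518) (nat_lit 404) (nat_lit 278)) (XT.nd (nat_lit 78) (nat_lit 0) (nat_lit 0) (XT.lf (nat_lit 0) (nat_lit 4804606204005) (nat_lit 76) (nat_lit 901459250112) (nat_lit 76) (nat_lit 888957053635) (nat_lit 1) (nat_lit 4) (nat_lit 2) (nat_lit 5) (nat_lit 2) (nat_lit 4)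 (nat_lit 519) (nat_lit 404) (nat_lit 277)) (XT.lf (nat_lit 0) (nat_lit 5250986901703) (nat_lit 76) (nat_lit 940857657635) (nat_lit 76) (nat_lit 928355408451) (nat_lit 1) (nat_lit 4) (nat_lit 2) (nat_lit 5) (nat_lit 2) (nat_lit 4) (nat_lit 520) (nat_lit 404) (nat_lit 276))))) (XT.nd (nat_lit 234) (nat_lit 0) (nat_lit 0) (XT.nd (nat_lit 78) (nat_lit 0) (nat_lit 0) (XT.lf (nat_lit 0) (nat_lit 5733077551810) (nat_lit 76) (nat_lit 983408195242) (nat_lit 76) (nat_lit 970905897257) (nat_lit 1) (nat_lit 4) (nat_lit 2) (nat_lit 5) (nat_lit 2) (nat_lit 4) (nat_lit 521) (nat_lit 404) (nat_lit 275)) (XT.nd (nat_lit 78) (nat_lit 0) (nat_lit 0) (XT.lf (nat_lit 0) (nat_lit 6253734987810) (nat_lit 76) (nat_lit 1029363014269) (nat_lit 76) (nat_lit 1016860671096) (nat_lit 1) (nat_lit 4) (nat_lit 2) (nat_lit 5) (nat_lit 2) (nat_lit 4) (nat_lit 522) (nat_lit 404) (nat_lit 274)) (XT.lf (nat_lit 0) (nat_lit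 6816044587099) (nat_lit 76) (nat_lit 1078994439567) (nat_lit 76) (nat_lit 1066492054555) (nat_lit 1) (nat_lit 4) (nat_lit 2) (nat_lit 5) (nat_lit 2) (nat_lit 4) (nat_lit 523) (nat_lit 404) (nat_lit 273)))) (XT.nd (nat_lit 78) (nat_lit 0) (nat_lit 0) (XT.lf (nat_lit 0) (nat_lit 7423338554712) (nat_lit 76) (nat_lit 1132596583287) (nat_lit 76) (nat_lit 1120094159535) (nat_lit 1) (nat_lit 4) (nat_lit 2) (nat_lit 5) (nat_lit 2) (nat_lit 4) (nat_lit 524) (nat_lit 404) (nat_lit 272)) (XT.nd (nat_lit 78) (nat_lit 0) (nat_lit 0) (XT.lf (nat_lit 0) (nat_lit 8079215669716) (nat_lit 76) (nat_lit 1190487087763) (nat_lit 76) (nat_lit 1177984628140) (nat_lit 1) (nat_lit 4) (nat_lit 2) (nat_lit 5) (nat_lit 2) (nat_lit 4) (nat_lit 525) (nat_lit 404) (nat_lit 271)) (XT.lf (nat_lit 0) (nat_lit 8787562611310) (nat_lit 76) (nat_lit 1253009007836) (nat_lit 76) (nat_lit 1240506514998) (nat_lit 1) (nat_lit 4)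 (nat_lit 2) (nat_lit 5) (nat_lit 2) (nat_lit 4) (nat_lit 526) (nat_lit 404) (nat_lit 270)))))) (XT.nd (nat_lit 53352) (nat_lit 0) (nat_lit 4484) (XT.nd (nat_lit 53118) (nat_lit 0) (nat_lit 5700) (XT.nd (nat_lit 52962) (nat_lit 0) (nat_lit 6080) (XT.lf (nat_lit 0) (nat_lit 9552576991001) (nat_lit 76) (nat_lit 1320532843772) (nat_lit 76) (nat_lit 1308030320181) (nat_lit 1) (nat_lit 4) (nat_lit 2) (nat_lit 5) (nat_lit 2) (nat_lit 4) (nat_lit 527) (nat_lit 404) (nat_lit 269)) (XT.nd (nat_lit 78) (nat_lit 0) (nat_lit 0) (XT.lf (nat_lit 0) (nat_lit 2063526557) (nat_lit 380) (nat_lit 757882355) (nat_lit 380) (nat_lit 757882355) (nat_lit 81) (nat_lit 3) (nat_lit 86) (nat_lit 3) (nat_lit 86) (nat_lit 5) (nat_lit 405) (nat_lit 405) (nat_lit 390)) (XT.lf (nat_lit 76) (nat_lit 2108302746) (nat_lit 0) (nat_lit 3826489167) (nat_lit 380) (nat_lit 1377370253) (nat_lit 82) (nat_lit 5) (nat_lit 81) (nat_lit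 3) (nat_lit 86) (nat_lit 5) (nat_lit 406) (nat_lit 405) (nat_lit 389)))) (XT.nd (nat_lit 78) (nat_lit 0) (nat_lit 76) (XT.lf (nat_lit 0) (nat_lit 265403069) (nat_lit 380) (nat_lit 1476591369) (nat_lit 456) (nat_lit 5745231957) (nat_lit 76) (nat_lit 5) (nat_lit 81) (nat_lit 3) (nat_lit 82) (nat_lit 5) (nat_lit 407) (nat_lit 405) (nat_lit 388)) (XT.nd (nat_lit 78) (nat_lit 0) (nat_lit 0) (XT.lf (nat_lit 0) (nat_lit 1889227578) (nat_lit 380) (nat_lit 5148697964) (nat_lit 456) (nat_lit 641700599) (nat_lit 77) (nat_lit 5) (nat_lit 82) (nat_lit 5) (nat_lit 83) (nat_lit 5) (nat_lit 408) (nat_lit 405) (nat_lit 387)) (XT.lf (nat_lit 0) (nat_lit 3586654873) (nat_lit 380) (nat_lit 1090182390) (nat_lit 456) (nat_lit 3215192166) (nat_lit 77) (nat_lit 5) (nat_lit 82) (nat_lit 5) (nat_lit 83) (nat_lit 5) (nat_lit 409) (nat_lit 405) (nat_lit 386))))) (XT.nd (nat_lit 234) (nat_lit 912) (nat_lit 0) (XT.nd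 (nat_lit 78) (nat_lit 380) (nat_lit 0) (XT.lf (nat_lit 76) (nat_lit 3366295894) (nat_lit 0) (nat_lit 2002159357) (nat_lit 456) (nat_lit 2757182777) (nat_lit 78) (nat_lit 5) (nat_lit 77) (nat_lit 5) (nat_lit 83) (nat_lit 5) (nat_lit 410) (nat_lit 405) (nat_lit 385)) (XT.nd (nat_lit 78) (nat_lit 456) (nat_lit 0) (XT.lf (nat_lit 0) (nat_lit 7220669309) (nat_lit 380) (nat_lit 259907655) (nat_lit 76) (nat_lit 903220780) (nat_lit 78) (nat_lit 5) (nat_lit 83) (nat_lit 5) (nat_lit 79) (nat_lit 5) (nat_lit 411) (nat_lit 405) (nat_lit 384)) (XT.lf (nat_lit 0) (nat_lit 581586420) (nat_lit 456) (nat_lit 3987423932) (nat_lit 76) (nat_lit 4088518533) (nat_lit 72) (nat_lit 5) (nat_lit 78) (nat_lit 5) (nat_lit 73) (nat_lit 5) (nat_lit 412) (nat_lit 405) (nat_lit 383)))) (XT.nd (nat_lit 78) (nat_lit 456) (nat_lit 0) (XT.lf (nat_lit 0) (nat_lit 975723811) (nat_lit 456) (nat_lit 1346591973) (nat_lit 532)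 (nat_lit 6634956758) (nat_lit 66) (nat_lit 5) (nat_lit 72) (nat_lit 5) (nat_lit 73) (nat_lit 5) (nat_lit 413) (nat_lit 405) (nat_lit 382)) (XT.nd (nat_lit 78) (nat_lit 456) (nat_lit 0) (XT.lf (nat_lit 0) (nat_lit 4260127760) (nat_lit 532) (nat_lit 2869331285) (nat_lit 76) (nat_lit 2146978329) (nat_lit 66) (nat_lit 5) (nat_lit 73) (nat_lit 5) (nat_lit 67) (nat_lit 5) (nat_lit 414) (nat_lit 405) (nat_lit 381)) (XT.lf (nat_lit 0) (nat_lit 2651757518) (nat_lit 456) (nat_lit 3702417352) (nat_lit 532) (nat_lit 3266926322) (nat_lit 60) (nat_lit 5) (nat_lit 66) (nat_lit 5) (nat_lit 67) (nat_lit 5) (nat_lit 415) (nat_lit 405) (nat_lit 380))))))))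
noncomputable def xc107 : XT := (XT.nd (nat_lit 1716) (nat_lit 1368) (nat_lit 0) (XT.nd (nat_lit 858) (nat_lit 988) (nat_lit 0) (XT.nd (nat_lit 390) (nat_lit 684) (nat_lit 0) (XT.nd (nat_lit 156) (nat_lit 380) (nat_lit 0) (XT.nd (nat_lit 78) (nat_lit 304) (nat_lit 0) (XT.lf (nat_lit 0) (nat_lit 8603534129) (nat_lit 532) (nat_lit 1314063165) (nat_lit 76) (nat_lit 76775726) (nat_lit 60) (nat_lit 5) (nat_lit 67) (nat_lit 5) (nat_lit 61) (nat_lit 5) (nat_lit 416) (nat_lit 405) (nat_lit 379)) (XT.lf (nat_lit 0) (nat_lit 733672241) (nat_lit 304) (nat_lit 5561257937) (nat_lit 76) (nat_lit 4090994234) (nat_lit 56) (nat_lit 5) (nat_lit 60) (nat_lit 5) (nat_lit 57) (nat_lit 5) (nat_lit 417) (nat_lit 405) (nat_lit 378))) (XT.nd (nat_lit 78) (nat_lit 152) (nat_lit 0) (XT.lf (nat_lit 0) (nat_lit 620108877) (nat_lit 228) (nat_lit 2300819588) (nat_lit 304) (nat_lit 7887593369) (nat_lit 53) (nat_lit 5)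 (nat_lit 56) (nat_lit 5) (nat_lit 57) (nat_lit 5) (nat_lit 418) (nat_lit 405) (nat_lit 377)) (XT.nd (nat_lit 78) (nat_lit 152) (nat_lit 0) (XT.lf (nat_lit 0) (nat_lit 5407305959) (nat_lit 304) (nat_lit 3793636144) (nat_lit 76) (nat_lit 2054096298) (nat_lit 53) (nat_lit 5) (nat_lit 57) (nat_lit 5) (nat_lit 54) (nat_lit 5) (nat_lit 419) (nat_lit 405) (nat_lit 376)) (XT.lf (nat_lit 0) (nat_lit 3115501713) (nat_lit 152) (nat_lit 5037455718) (nat_lit 228) (nat_lit 3579529218) (nat_lit 51) (nat_lit 5) (nat_lit 53) (nat_lit 5) (nat_lit 54) (nat_lit 5) (nat_lit 420) (nat_lit 405) (nat_lit 375))))) (XT.nd (nat_lit 234) (nat_lit 228) (nat_lit 0) (XT.nd (nat_lit 78) (nat_lit 456) (nat_lit 0) (XT.lf (nat_lit 0) (nat_lit 10702170748) (nat_lit 152) (nat_lit 448807668) (nat_lit 228) (nat_lit 1094571484) (nat_lit 51) (nat_lit 5) (nat_lit 53) (nat_lit 5) (nat_lit 54) (nat_lit 5) (nat_lit 421) (nat_lit 405)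 (nat_lit 374)) (XT.nd (nat_lit 78) (nat_lit 152) (nat_lit 0) (XT.lf (nat_lit 0) (nat_lit 1706161767) (nat_lit 304) (nat_lit 6618286972) (nat_lit 76) (nat_lit 4456465102) (nat_lit 47) (nat_lit 5) (nat_lit 51) (nat_lit 5) (nat_lit 48) (nat_lit 5) (nat_lit 422) (nat_lit 405) (nat_lit 373)) (XT.lf (nat_lit 0) (nat_lit 1142883637) (nat_lit 152) (nat_lit 3546321211) (nat_lit 228) (nat_lit 8666265701) (nat_lit 45) (nat_lit 5) (nat_lit 47) (nat_lit 5) (nat_lit 48) (nat_lit 5) (nat_lit 423) (nat_lit 405) (nat_lit 372)))) (XT.nd (nat_lit 78) (nat_lit 228) (nat_lit 0) (XT.lf (nat_lit 0) (nat_lit 8072399840) (nat_lit 228) (nat_lit 4196071178) (nat_lit 76) (nat_lit 1694626953) (nat_lit 45) (nat_lit 5) (nat_lit 48) (nat_lit 5) (nat_lit 46) (nat_lit 5) (nat_lit 424) (nat_lit 405) (nat_lit 371)) (XT.nd (nat_lit 78) (nat_lit 76) (nat_lit 0) (XT.lf (nat_lit 0) (nat_lit 4509717022) (nat_lit 152) (nat_lit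 7358803083) (nat_lit 228) (nat_lit 2739458772) (nat_lit 43) (nat_lit 5) (nat_lit 45) (nat_lit 5) (nat_lit 46) (nat_lit 5) (nat_lit 425) (nat_lit 405) (nat_lit 370)) (XT.lf (nat_lit 0) (nat_lit 690913964) (nat_lit 228) (nat_lit 1250028507) (nat_lit 76) (nat_lit 13357432262) (nat_lit 42) (nat_lit 5) (nat_lit 45) (nat_lit 5) (nat_lit 43) (nat_lit 5) (nat_lit 426) (nat_lit 405) (nat_lit 369)))))) (XT.nd (nat_lit 390) (nat_lit 532) (nat_lit 0) (XT.nd (nat_lit 156) (nat_lit 152) (nat_lit 0) (XT.nd (nat_lit 78) (nat_lit 152) (nat_lit 0) (XT.lf (nat_lit 0) (nat_lit 4501570347) (nat_lit 228) (nat_lit 7542360508) (nat_lit 76) (nat_lit 3974090298) (nat_lit 40) (nat_lit 5) (nat_lit 43) (nat_lit 5) (nat_lit 41) (nat_lit 5) (nat_lit 427) (nat_lit 405) (nat_lit 368)) (XT.lf (nat_lit 0) (nat_lit 2237149349) (nat_lit 152) (nat_lit 6467426089) (nat_lit 228) (nat_lit 8083682429) (nat_lit 38) (nat_lit 5) (nat_lit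 40) (nat_lit 5) (nat_lit 41) (nat_lit 5) (nat_lit 428) (nat_lit 405) (nat_lit 367))) (XT.nd (nat_lit 78) (nat_lit 152) (nat_lit 0) (XT.lf (nat_lit 0) (nat_lit 13148572549) (nat_lit 152) (nat_lit 251609564) (nat_lit 228) (nat_lit 4207439435) (nat_lit 38) (nat_lit 5) (nat_lit 40) (nat_lit 5) (nat_lit 41) (nat_lit 5) (nat_lit 429) (nat_lit 405) (nat_lit 366)) (XT.nd (nat_lit 78) (nat_lit 0) (nat_lit 0) (XT.lf (nat_lit 0) (nat_lit 252595230) (nat_lit 152) (nat_lit 11942342934) (nat_lit 76) (nat_lit 6275840307) (nat_lit 36) (nat_lit 5) (nat_lit 38) (nat_lit 5) (nat_lit 37) (nat_lit 5) (nat_lit 430) (nat_lit 405) (nat_lit 365)) (XT.lf (nat_lit 0) (nat_lit 4927404790) (nat_lit 152) (nat_lit 940786059) (nat_lit 76) (nat_lit 13519245152) (nat_lit 36) (nat_lit 5) (nat_lit 38) (nat_lit 5) (nat_lit 37) (nat_lit 5) (nat_lit 431) (nat_lit 405) (nat_lit 364))))) (XT.nd (nat_lit 234) (nat_lit 228) (nat_lit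 0) (XT.nd (nat_lit 78) (nat_lit 152) (nat_lit 0) (XT.lf (nat_lit 0) (nat_lit 10238136269) (nat_lit 228) (nat_lit 8946620234) (nat_lit 76) (nat_lit 1171727096) (nat_lit 34) (nat_lit 5) (nat_lit 37) (nat_lit 5) (nat_lit 35) (nat_lit 4) (nat_lit 432) (nat_lit 405) (nat_lit 363)) (XT.nd (nat_lit 78) (nat_lit 76) (nat_lit 0) (XT.lf (nat_lit 0) (nat_lit 3343008393) (nat_lit 76) (nat_lit 12847851953) (nat_lit 152) (nat_lit 5194835449) (nat_lit 33) (nat_lit 5) (nat_lit 34) (nat_lit 5) (nat_lit 35) (nat_lit 4) (nat_lit 433) (nat_lit 405) (nat_lit 362)) (XT.lf (nat_lit 0) (nat_lit 325678116) (nat_lit 152) (nat_lit 5434950692) (nat_lit 76) (nat_lit 16719650110) (nat_lit 32) (nat_lit 5) (nat_lit 34) (nat_lit 5) (nat_lit 33) (nat_lit 5) (nat_lit 434) (nat_lit 405) (nat_lit 361)))) (XT.nd (nat_lit 78) (nat_lit 76) (nat_lit 0) (XT.lf (nat_lit 0) (nat_lit 6224159944) (nat_lit 228) (nat_lit 15292736462)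 (nat_lit 76) (nat_lit 2117388304) (nat_lit 30) (nat_lit 5) (nat_lit 33) (nat_lit 5) (nat_lit 31) (nat_lit 4) (nat_lit 435) (nat_lit 405) (nat_lit 360)) (XT.nd (nat_lit 78) (nat_lit 76) (nat_lit 0) (XT.lf (nat_lit 0) (nat_lit 12858588312) (nat_lit 228) (nat_lit 1560775735) (nat_lit 76) (nat_lit 10440129947) (nat_lit 30) (nat_lit 5) (nat_lit 33) (nat_lit 5) (nat_lit 31) (nat_lit 4) (nat_lit 436) (nat_lit 405) (nat_lit 359)) (XT.lf (nat_lit 0) (nat_lit 13902396065) (nat_lit 76) (nat_lit 6420524432) (nat_lit 152) (nat_lit 5835875397) (nat_lit 29) (nat_lit 5) (nat_lit 30) (nat_lit 5) (nat_lit 31) (nat_lit 4) (nat_lit 437) (nat_lit 405) (nat_lit 358))))))) (XT.nd (nat_lit 858) (nat_lit 684) (nat_lit 0) (XT.nd (nat_lit 390) (nat_lit 304) (nat_lit 0) (XT.nd (nat_lit 156) (nat_lit 228) (nat_lit 0) (XT.nd (nat_lit 78) (nat_lit 0) (nat_lit 0) (XT.lf (nat_lit 0) (nat_lit 923556237) (nat_lit 152) (nat_lit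 24400556524) (nat_lit 76) (nat_lit 2224966761) (nat_lit 27) (nat_lit 5) (nat_lit 29) (nat_lit 5) (nat_lit 28) (nat_lit 4) (nat_lit 438) (nat_lit 405) (nat_lit 357)) (XT.lf (nat_lit 0) (nat_lit 8384524041) (nat_lit 152) (nat_lit 8931468466) (nat_lit 76) (nat_lit 11684387425) (nat_lit 27) (nat_lit 5) (nat_lit 29) (nat_lit 5) (nat_lit 28) (nat_lit 4) (nat_lit 439) (nat_lit 405) (nat_lit 356))) (XT.nd (nat_lit 78) (nat_lit 152) (nat_lit 0) (XT.lf (nat_lit 0) (nat_lit 8122668676) (nat_lit 76) (nat_lit 8483095165) (nat_lit 152) (nat_lit 13948954728) (nat_lit 26) (nat_lit 5) (nat_lit 27) (nat_lit 5) (nat_lit 28) (nat_lit 4) (nat_lit 440) (nat_lit 405) (nat_lit 355)) (XT.nd (nat_lit 78) (nat_lit 152) (nat_lit 0) (XT.lf (nat_lit 0) (nat_lit 25729054235) (nat_lit 152) (nat_lit 5255707923) (nat_lit 0) (nat_lit 1229099361) (nat_lit 26) (nat_lit 5) (nat_lit 28) (nat_lit 4) (nat_lit 26) (nat_lit 4) (nat_lit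 441) (nat_lit 405) (nat_lit 354)) (XT.lf (nat_lit 0) (nat_lit 2031820741) (nat_lit 152) (nat_lit 20310317072) (nat_lit 76) (nat_lit 11617832706) (nat_lit 24) (nat_lit 5) (nat_lit 26) (nat_lit 5) (nat_lit 25) (nat_lit 4) (nat_lit 442) (nat_lit 405) (nat_lit 353))))) (XT.nd (nat_lit 234) (nat_lit 152) (nat_lit 0) (XT.nd (nat_lit 78) (nat_lit 152) (nat_lit 0) (XT.lf (nat_lit 0) (nat_lit 10997745496) (nat_lit 152) (nat_lit 1695035563) (nat_lit 76) (nat_lit 23130051331) (nat_lit 24) (nat_lit 5) (nat_lit 26) (nat_lit 5) (nat_lit 25) (nat_lit 4) (nat_lit 443) (nat_lit 405) (nat_lit 352)) (XT.nd (nat_lit 78) (nat_lit 76) (nat_lit 0) (XT.lf (nat_lit 0) (nat_lit 19325334389) (nat_lit 76) (nat_lit 1793423183) (nat_lit 152) (nat_lit 16680944490) (nat_lit 23) (nat_lit 5) (nat_lit 24) (nat_lit 5) (nat_lit 25) (nat_lit 4) (nat_lit 444) (nat_lit 405) (nat_lit 351)) (XT.lf (nat_lit 0) (nat_lit 2000509173)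 (nat_lit 76) (nat_lit 30357851219) (nat_lit 76) (nat_lit 7551651767) (nat_lit 22) (nat_lit 4) (nat_lit 23) (nat_lit 5) (nat_lit 23) (nat_lit 4) (nat_lit 445) (nat_lit 405) (nat_lit 350)))) (XT.nd (nat_lit 78) (nat_lit 76) (nat_lit 0) (XT.lf (nat_lit 0) (nat_lit 2730738398) (nat_lit 152) (nat_lit 17151138449) (nat_lit 76) (nat_lit 22259776062) (nat_lit 21) (nat_lit 5) (nat_lit 23) (nat_lit 5) (nat_lit 22) (nat_lit 4) (nat_lit 446) (nat_lit 405) (nat_lit 349)) (XT.nd (nat_lit 78) (nat_lit 0) (nat_lit 0) (XT.lf (nat_lit 0) (nat_lit 5288893062) (nat_lit 76) (nat_lit 8241395237) (nat_lit 152) (nat_lit 30997643448) (nat_lit 20) (nat_lit 5) (nat_lit 21) (nat_lit 5) (nat_lit 22) (nat_lit 4) (nat_lit 447) (nat_lit 405) (nat_lit 348)) (XT.lf (nat_lit 0) (nat_lit 25754602835) (nat_lit 152) (nat_lit 16732002128) (nat_lit 0) (nat_lit 4573646547) (nat_lit 20) (nat_lit 5) (nat_lit 22) (nat_lit 4) (nat_lit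 20) (nat_lit 4) (nat_lit 448) (nat_lit 405) (nat_lit 347)))))) (XT.nd (nat_lit 468) (nat_lit 380) (nat_lit 0) (XT.nd (nat_lit 234) (nat_lit 76) (nat_lit 0) (XT.nd (nat_lit 78) (nat_lit 152) (nat_lit 0) (XT.lf (nat_lit 0) (nat_lit 7702778357) (nat_lit 76) (nat_lit 31630744116) (nat_lit 76) (nat_lit 10431504059) (nat_lit 19) (nat_lit 4) (nat_lit 20) (nat_lit 5) (nat_lit 20) (nat_lit 4) (nat_lit 449) (nat_lit 405) (nat_lit 346)) (XT.nd (nat_lit 78) (nat_lit 76) (nat_lit 0) (XT.lf (nat_lit 0) (nat_lit 1693693867) (nat_lit 152) (nat_lit 17693286230) (nat_lit 76) (nat_lit 33260937631) (nat_lit 18) (nat_lit 5) (nat_lit 20) (nat_lit 5) (nat_lit 19) (nat_lit 4) (nat_lit 450) (nat_lit 405) (nat_lit 345)) (XT.lf (nat_lit 0) (nat_lit 8751125809) (nat_lit 76) (nat_lit 5663763934) (nat_lit 152) (nat_lit 41309712242) (nat_lit 17) (nat_lit 5) (nat_lit 18) (nat_lit 5) (nat_lit 19) (nat_lit 4) (nat_lit 451)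 (nat_lit 405) (nat_lit 344)))) (XT.nd (nat_lit 78) (nat_lit 76) (nat_lit 0) (XT.lf (nat_lit 0) (nat_lit 28849556267) (nat_lit 152) (nat_lit 20965202995) (nat_lit 0) (nat_lit 9177001541) (nat_lit 17) (nat_lit 5) (nat_lit 19) (nat_lit 4) (nat_lit 17) (nat_lit 4) (nat_lit 452) (nat_lit 405) (nat_lit 343)) (XT.nd (nat_lit 78) (nat_lit 0) (nat_lit 0) (XT.lf (nat_lit 0) (nat_lit 7304027891) (nat_lit 76) (nat_lit 37438491311) (nat_lit 76) (nat_lit 17753492958) (nat_lit 16) (nat_lit 4) (nat_lit 17) (nat_lit 5) (nat_lit 17) (nat_lit 4) (nat_lit 453) (nat_lit 405) (nat_lit 342)) (XT.lf (nat_lit 0) (nat_lit 38990097741) (nat_lit 76) (nat_lit 23471333358) (nat_lit 76) (nat_lit 3774813129) (nat_lit 16) (nat_lit 4) (nat_lit 17) (nat_lit 5) (nat_lit 17) (nat_lit 4) (nat_lit 454) (nat_lit 405) (nat_lit 341))))) (XT.nd (nat_lit 234) (nat_lit 228) (nat_lit 0) (XT.nd (nat_lit 78) (nat_lit 0) (nat_lit 0) (XT.lf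 (nat_lit 0) (nat_lit 2766232936) (nat_lit 76) (nat_lit 8038296664) (nat_lit 152) (nat_lit 59445482827) (nat_lit 14) (nat_lit 5) (nat_lit 15) (nat_lit 5) (nat_lit 16) (nat_lit 4) (nat_lit 455) (nat_lit 405) (nat_lit 340)) (XT.nd (nat_lit 78) (nat_lit 0) (nat_lit 0) (XT.lf (nat_lit 0) (nat_lit 27300429271) (nat_lit 152) (nat_lit 38156392531) (nat_lit 0) (nat_lit 9043885952) (nat_lit 14) (nat_lit 5) (nat_lit 16) (nat_lit 4) (nat_lit 14) (nat_lit 4) (nat_lit 456) (nat_lit 405) (nat_lit 339)) (XT.lf (nat_lit 0) (nat_lit 45308401845) (nat_lit 152) (nat_lit 6724276327) (nat_lit 0) (nat_lit 27043389603) (nat_lit 14) (nat_lit 5) (nat_lit 16) (nat_lit 4) (nat_lit 14) (nat_lit 4) (nat_lit 457) (nat_lit 405) (nat_lit 338)))) (XT.nd (nat_lit 78) (nat_lit 152) (nat_lit 0) (XT.lf (nat_lit 0) (nat_lit 28624045419) (nat_lit 76) (nat_lit 36806203568) (nat_lit 76) (nat_lit 18533349730) (nat_lit 13) (nat_lit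 4) (nat_lit 14) (nat_lit 5) (nat_lit 14) (nat_lit 4) (nat_lit 458) (nat_lit 405) (nat_lit 337)) (XT.nd (nat_lit 78) (nat_lit 152) (nat_lit 0) (XT.lf (nat_lit 0) (nat_lit 67153159962) (nat_lit 76) (nat_lit 20177780021) (nat_lit 76) (nat_lit 1897665448) (nat_lit 13) (nat_lit 4) (nat_lit 14) (nat_lit 5) (nat_lit 14) (nat_lit 4) (nat_lit 459) (nat_lit 405) (nat_lit 336)) (XT.lf (nat_lit 0) (nat_lit 14142769515) (nat_lit 76) (nat_lit 1448387692) (nat_lit 152) (nat_lit 79266650669) (nat_lit 11) (nat_lit 5) (nat_lit 12) (nat_lit 5) (nat_lit 13) (nat_lit 4) (nat_lit 460) (nat_lit 405) (nat_lit 335))))))))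
noncomputable def xc108 : XT := (XT.nd (nat_lit 1716) (nat_lit 228) (nat_lit 0) (XT.nd (nat_lit 858) (nat_lit 228) (nat_lit 0) (XT.nd (nat_lit 390) (nat_lit 152) (nat_lit 0) (XT.nd (nat_lit 156) (nat_lit 152) (nat_lit 0) (XT.nd (nat_lit 78) (nat_lit 0) (nat_lit 0) (XT.lf (nat_lit 0) (nat_lit 35433497302) (nat_lit 152) (nat_lit 46919875435) (nat_lit 0) (nat_lit 18495476572) (nat_lit 11) (nat_lit 5) (nat_lit 13) (nat_lit 4) (nat_lit 11) (nat_lit 4) (nat_lit 461) (nat_lit 405) (nat_lit 334)) (XT.lf (nat_lit 0) (nat_lit 56887911393) (nat_lit 152) (nat_lit 10484734635) (nat_lit 0) (nat_lit 39944553805) (nat_lit 11) (nat_lit 5) (nat_lit 13) (nat_lit 4) (nat_lit 11) (nat_lit 4) (nat_lit 462) (nat_lit 405) (nat_lit 333))) (XT.nd (nat_lit 78) (nat_lit 76) (nat_lit 0) (XT.lf (nat_lit 0) (nat_lit 30359852521) (nat_lit 76) (nat_lit 50417005653) (nat_lit 76) (nat_lit 33468706529) (nat_lit 10) (nat_lit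 4) (nat_lit 11) (nat_lit 5) (nat_lit 11) (nat_lit 4) (nat_lit 463) (nat_lit 405) (nat_lit 332)) (XT.nd (nat_lit 78) (nat_lit 76) (nat_lit 0) (XT.lf (nat_lit 0) (nat_lit 75044804926) (nat_lit 76) (nat_lit 31807133815) (nat_lit 76) (nat_lit 14854259195) (nat_lit 10) (nat_lit 4) (nat_lit 11) (nat_lit 5) (nat_lit 11) (nat_lit 4) (nat_lit 464) (nat_lit 405) (nat_lit 331)) (XT.lf (nat_lit 0) (nat_lit 4975679695) (nat_lit 152) (nat_lit 6607697422) (nat_lit 76) (nat_lit 118171091157) (nat_lit 9) (nat_lit 5) (nat_lit 11) (nat_lit 5) (nat_lit 10) (nat_lit 4) (nat_lit 465) (nat_lit 405) (nat_lit 330))))) (XT.nd (nat_lit 234) (nat_lit 76) (nat_lit 0) (XT.nd (nat_lit 78) (nat_lit 0) (nat_lit 0) (XT.lf (nat_lit 0) (nat_lit 26777127311) (nat_lit 152) (nat_lit 100471130815) (nat_lit 0) (nat_lit 11072466256) (nat_lit 8) (nat_lit 5) (nat_lit 10) (nat_lit 4) (nat_lit 8) (nat_lit 4) (nat_lit 466) (nat_lit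 405) (nat_lit 329)) (XT.nd (nat_lit 78) (nat_lit 0) (nat_lit 0) (XT.lf (nat_lit 0) (nat_lit 50798695965) (nat_lit 152) (nat_lit 61644833264) (nat_lit 0) (nat_lit 35090671784) (nat_lit 8) (nat_lit 5) (nat_lit 10) (nat_lit 4) (nat_lit 8) (nat_lit 4) (nat_lit 467) (nat_lit 405) (nat_lit 328)) (XT.lf (nat_lit 0) (nat_lit 76732526692) (nat_lit 152) (nat_lit 19731598073) (nat_lit 0) (nat_lit 61021388506) (nat_lit 8) (nat_lit 5) (nat_lit 10) (nat_lit 4) (nat_lit 8) (nat_lit 4) (nat_lit 468) (nat_lit 405) (nat_lit 327)))) (XT.nd (nat_lit 78) (nat_lit 0) (nat_lit 0) (XT.lf (nat_lit 0) (nat_lit 26860626825) (nat_lit 76) (nat_lit 78517673348) (nat_lit 76) (nat_lit 62803651823) (nat_lit 7) (nat_lit 4) (nat_lit 8) (nat_lit 5) (nat_lit 8) (nat_lit 4) (nat_lit 469) (nat_lit 405) (nat_lit 326)) (XT.nd (nat_lit 78) (nat_lit 0) (nat_lit 0) (XT.lf (nat_lit 0) (nat_lit 78285086011) (nat_lit 76) (nat_lit 58561617025)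 (nat_lit 76) (nat_lit 42844925742) (nat_lit 7) (nat_lit 4) (nat_lit 8) (nat_lit 5) (nat_lit 8) (nat_lit 4) (nat_lit 470) (nat_lit 405) (nat_lit 325)) (XT.lf (nat_lit 0) (nat_lit 133807486034) (nat_lit 76) (nat_lit 37017194544) (nat_lit 76) (nat_lit 21298031264) (nat_lit 7) (nat_lit 4) (nat_lit 8) (nat_lit 5) (nat_lit 8) (nat_lit 4) (nat_lit 471) (nat_lit 405) (nat_lit 324)))))) (XT.nd (nat_lit 390) (nat_lit 76) (nat_lit 0) (XT.nd (nat_lit 156) (nat_lit 0) (nat_lit 0) (XT.nd (nat_lit 78) (nat_lit 76) (nat_lit 0) (XT.lf (nat_lit 0) (nat_lit 1866433815) (nat_lit 152) (nat_lit 11839269830) (nat_lit 76) (nat_lit 191839383098) (nat_lit 6) (nat_lit 5) (nat_lit 8) (nat_lit 5) (nat_lit 7) (nat_lit 4) (nat_lit 472) (nat_lit 405) (nat_lit 323)) (XT.lf (nat_lit 0) (nat_lit 26998022451) (nat_lit 152) (nat_lit 180458644800) (nat_lit 0) (nat_lit 12439159944) (nat_lit 5) (nat_lit 5) (nat_lit 7) (nat_lit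 4) (nat_lit 5) (nat_lit 4) (nat_lit 473) (nat_lit 405) (nat_lit 322))) (XT.nd (nat_lit 78) (nat_lit 0) (nat_lit 0) (XT.lf (nat_lit 0) (nat_lit 54821314381) (nat_lit 152) (nat_lit 140258183769) (nat_lit 0) (nat_lit 40260634882) (nat_lit 5) (nat_lit 5) (nat_lit 7) (nat_lit 4) (nat_lit 5) (nat_lit 4) (nat_lit 474) (nat_lit 405) (nat_lit 321)) (XT.nd (nat_lit 78) (nat_lit 0) (nat_lit 0) (XT.lf (nat_lit 0) (nat_lit 84864052368) (nat_lit 152) (nat_lit 96854754110) (nat_lit 0) (nat_lit 70301690469) (nat_lit 5) (nat_lit 5) (nat_lit 7) (nat_lit 4) (nat_lit 5) (nat_lit 4) (nat_lit 475) (nat_lit 405) (nat_lit 320)) (XT.lf (nat_lit 0) (nat_lit 117304267453) (nat_lit 152) (nat_lit 49991150313) (nat_lit 0) (nat_lit 102740347776) (nat_lit 5) (nat_lit 5) (nat_lit 7) (nat_lit 4) (nat_lit 5) (nat_lit 4) (nat_lit 476) (nat_lit 405) (nat_lit 319))))) (XT.nd (nat_lit 234) (nat_lit 0) (nat_lit 0) (XT.nd (nat_lit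 78) (nat_lit 0) (nat_lit 0) (XT.lf (nat_lit 0) (nat_lit 642477175) (nat_lit 76) (nat_lit 151707172362) (nat_lit 76) (nat_lit 137141810298) (nat_lit 4) (nat_lit 4) (nat_lit 5) (nat_lit 5) (nat_lit 5) (nat_lit 4) (nat_lit 477) (nat_lit 405) (nat_lit 318)) (XT.nd (nat_lit 78) (nat_lit 0) (nat_lit 0) (XT.lf (nat_lit 0) (nat_lit 58158915600) (nat_lit 76) (nat_lit 133401236340) (nat_lit 76) (nat_lit 118834538732) (nat_lit 4) (nat_lit 4) (nat_lit 5) (nat_lit 5) (nat_lit 5) (nat_lit 4) (nat_lit 478) (nat_lit 405) (nat_lit 317)) (XT.lf (nat_lit 0) (nat_lit 120266557730) (nat_lit 76) (nat_lit 113635976721) (nat_lit 76) (nat_lit 99068042499) (nat_lit 4) (nat_lit 4) (nat_lit 5) (nat_lit 5) (nat_lit 5) (nat_lit 4) (nat_lit 479) (nat_lit 405) (nat_lit 316)))) (XT.nd (nat_lit 78) (nat_lit 0) (nat_lit 0) (XT.lf (nat_lit 0) (nat_lit 187333448852) (nat_lit 76) (nat_lit 92294266041) (nat_lit 76) (nat_lit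 77725186805) (nat_lit 4) (nat_lit 4) (nat_lit 5) (nat_lit 5) (nat_lit 5) (nat_lit 4) (nat_lit 480) (nat_lit 405) (nat_lit 315)) (XT.nd (nat_lit 78) (nat_lit 0) (nat_lit 0) (XT.lf (nat_lit 0) (nat_lit 259757022394) (nat_lit 76) (nat_lit 69249634903) (nat_lit 76) (nat_lit 54679495470) (nat_lit 4) (nat_lit 4) (nat_lit 5) (nat_lit 5) (nat_lit 5) (nat_lit 4) (nat_lit 481) (nat_lit 405) (nat_lit 314)) (XT.lf (nat_lit 0) (nat_lit 337966455090) (nat_lit 76) (nat_lit 44365522529) (nat_lit 76) (nat_lit 29794401432) (nat_lit 4) (nat_lit 4) (nat_lit 5) (nat_lit 5) (nat_lit 5) (nat_lit 4) (nat_lit 482) (nat_lit 405) (nat_lit 313))))))) (XT.nd (nat_lit 858) (nat_lit 76) (nat_lit 0) (XT.nd (nat_lit 390) (nat_lit 0) (nat_lit 0) (XT.nd (nat_lit 156) (nat_lit 0) (nat_lit 0) (XT.nd (nat_lit 78) (nat_lit 152) (nat_lit 0) (XT.lf (nat_lit 0) (nat_lit 422425210244) (nat_lit 76) (nat_lit 17494467515) (nat_lit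 76) (nat_lit 2922437469) (nat_lit 4) (nat_lit 4) (nat_lit 5) (nat_lit 5) (nat_lit 5) (nat_lit 4) (nat_lit 483) (nat_lit 405) (nat_lit 312)) (XT.lf (nat_lit 0) (nat_lit 26044452397) (nat_lit 152) (nat_lit 437269329375) (nat_lit 0) (nat_lit 12551052707) (nat_lit 2) (nat_lit 5) (nat_lit 4) (nat_lit 4) (nat_lit 2) (nat_lit 4) (nat_lit 484) (nat_lit 405) (nat_lit 311))) (XT.nd (nat_lit 78) (nat_lit 0) (nat_lit 0) (XT.lf (nat_lit 0) (nat_lit 58194484581) (nat_lit 152) (nat_lit 408546556558) (nat_lit 0) (nat_lit 44700363339) (nat_lit 2) (nat_lit 5) (nat_lit 4) (nat_lit 4) (nat_lit 2) (nat_lit 4) (nat_lit 485) (nat_lit 405) (nat_lit 310)) (XT.nd (nat_lit 78) (nat_lit 0) (nat_lit 0) (XT.lf (nat_lit 0) (nat_lit 92913318365) (nat_lit 152) (nat_lit 377532508860) (nat_lit 0) (nat_lit 79418529019) (nat_lit 2) (nat_lit 5) (nat_lit 4) (nat_lit 4) (nat_lit 2) (nat_lit 4) (nat_lit 486) (nat_lit 405) (nat_lit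 309)) (XT.lf (nat_lit 0) (nat_lit 130406694987) (nat_lit 152) (nat_lit 344043399333) (nat_lit 0) (nat_lit 116911287026) (nat_lit 2) (nat_lit 5) (nat_lit 4) (nat_lit 4) (nat_lit 2) (nat_lit 4) (nat_lit 487) (nat_lit 405) (nat_lit 308))))) (XT.nd (nat_lit 234) (nat_lit 0) (nat_lit 0) (XT.nd (nat_lit 78) (nat_lit 0) (nat_lit 0) (XT.lf (nat_lit 0) (nat_lit 170896797418) (nat_lit 152) (nat_lit 307880773994) (nat_lit 0) (nat_lit 157400816665) (nat_lit 2) (nat_lit 5) (nat_lit 4) (nat_lit 4) (nat_lit 2) (nat_lit 4) (nat_lit 488) (nat_lit 405) (nat_lit 307)) (XT.nd (nat_lit 78) (nat_lit 0) (nat_lit 0) (XT.lf (nat_lit 0) (nat_lit 214623567007) (nat_lit 152) (nat_lit 268830335804) (nat_lit 0) (nat_lit 201127055891) (nat_lit 2) (nat_lit 5) (nat_lit 4) (nat_lit 4) (nat_lit 2) (nat_lit 4) (nat_lit 489) (nat_lit 405) (nat_lit 306)) (XT.lf (nat_lit 0) (nat_lit 261846125351) (nat_lit 152) (nat_lit 226660674759)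 (nat_lit 0) (nat_lit 248349123159) (nat_lit 2) (nat_lit 5) (nat_lit 4) (nat_lit 4) (nat_lit 2) (nat_lit 4) (nat_lit 490) (nat_lit 405) (nat_lit 305)))) (XT.nd (nat_lit 78) (nat_lit 0) (nat_lit 0) (XT.lf (nat_lit 0) (nat_lit 312844309833) (nat_lit 152) (nat_lit 181121896572) (nat_lit 0) (nat_lit 299346852940) (nat_lit 2) (nat_lit 5) (nat_lit 4) (nat_lit 4) (nat_lit 2) (nat_lit 4) (nat_lit 491) (nat_lit 405) (nat_lit 304)) (XT.nd (nat_lit 78) (nat_lit 0) (nat_lit 0) (XT.lf (nat_lit 0) (nat_lit 367920331916) (nat_lit 152) (nat_lit 131944141816) (nat_lit 0) (nat_lit 354422454004) (nat_lit 2) (nat_lit 5) (nat_lit 4) (nat_lit 4) (nat_lit 2) (nat_lit 4) (nat_lit 492) (nat_lit 405) (nat_lit 303)) (XT.lf (nat_lit 0) (nat_lit 427400568028) (nat_lit 152) (nat_lit 78835986759) (nat_lit 0) (nat_lit 413902300283) (nat_lit 2) (nat_lit 5) (nat_lit 4) (nat_lit 4) (nat_lit 2) (nat_lit 4) (nat_lit 493) (nat_lit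 405) (nat_lit 302)))))) (XT.nd (nat_lit 468) (nat_lit 0) (nat_lit 0) (XT.nd (nat_lit 234) (nat_lit 0) (nat_lit 0) (XT.nd (nat_lit 78) (nat_lit 76) (nat_lit 0) (XT.lf (nat_lit 0) (nat_lit 491637493641) (nat_lit 152) (nat_lit 21482716408) (nat_lit 0) (nat_lit 478138864941) (nat_lit 2) (nat_lit 5) (nat_lit 4) (nat_lit 4) (nat_lit 2) (nat_lit 4) (nat_lit 494) (nat_lit 405) (nat_lit 301)) (XT.nd (nat_lit 78) (nat_lit 0) (nat_lit 0) (XT.lf (nat_lit 0) (nat_lit 42585857535) (nat_lit 76) (nat_lit 519450105382) (nat_lit 76) (nat_lit 505951142464) (nat_lit 1) (nat_lit 4) (nat_lit 2) (nat_lit 5) (nat_lit 2) (nat_lit 4) (nat_lit 495) (nat_lit 405) (nat_lit 300)) (XT.lf (nat_lit 0) (nat_lit 112998466323) (nat_lit 76) (nat_lit 525653659507) (nat_lit 76) (nat_lit 512154387127) (nat_lit 1) (nat_lit 4) (nat_lit 2) (nat_lit 5) (nat_lit 2) (nat_lit 4) (nat_lit 496) (nat_lit 405) (nat_lit 299)))) (XT.nd (nat_lit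 78) (nat_lit 0) (nat_lit 0) (XT.lf (nat_lit 0) (nat_lit 189041128084) (nat_lit 76) (nat_lit 532355009763) (nat_lit 76) (nat_lit 518855450845) (nat_lit 1) (nat_lit 4) (nat_lit 2) (nat_lit 5) (nat_lit 2) (nat_lit 4) (nat_lit 497) (nat_lit 405) (nat_lit 298)) (XT.nd (nat_lit 78) (nat_lit 0) (nat_lit 0) (XT.lf (nat_lit 0) (nat_lit 271164465999) (nat_lit 76) (nat_lit 539593867856) (nat_lit 76) (nat_lit 526094043624) (nat_lit 1) (nat_lit 4) (nat_lit 2) (nat_lit 5) (nat_lit 2) (nat_lit 4) (nat_lit 498) (nat_lit 405) (nat_lit 297)) (XT.lf (nat_lit 0) (nat_lit 359855136884) (nat_lit 76) (nat_lit 547413130723) (nat_lit 76) (nat_lit 533913060830) (nat_lit 1) (nat_lit 4) (nat_lit 2) (nat_lit 5) (nat_lit 2) (nat_lit 4) (nat_lit 499) (nat_lit 405) (nat_lit 296))))) (XT.nd (nat_lit 234) (nat_lit 0) (nat_lit 0) (XT.nd (nat_lit 78) (nat_lit 0) (nat_lit 0) (XT.lf (nat_lit 0) (nat_lit 455638715087) (nat_lit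 76) (nat_lit 555859134736) (nat_lit 76) (nat_lit 542358837380) (nat_lit 1) (nat_lit 4) (nat_lit 2) (nat_lit 5) (nat_lit 2) (nat_lit 4) (nat_lit 500) (nat_lit 405) (nat_lit 295)) (XT.nd (nat_lit 78) (nat_lit 0) (nat_lit 0) (XT.lf (nat_lit 0) (nat_lit 559082806995) (nat_lit 76) (nat_lit 564981930289) (nat_lit 76) (nat_lit 551481422319) (nat_lit 1) (nat_lit 4) (nat_lit 2) (nat_lit 5) (nat_lit 2) (nat_lit 4) (nat_lit 501) (nat_lit 405) (nat_lit 294)) (XT.lf (nat_lit 0) (nat_lit 670800414636) (nat_lit 76) (nat_lit 574835578393) (nat_lit 76) (nat_lit 561334875410) (nat_lit 1) (nat_lit 4) (nat_lit 2) (nat_lit 5) (nat_lit 2) (nat_lit 4) (nat_lit 502) (nat_lit 405) (nat_lit 293)))) (XT.nd (nat_lit 78) (nat_lit 0) (nat_lit 0) (XT.lf (nat_lit 0) (nat_lit 791453568277) (nat_lit 76) (nat_lit 585478471037) (nat_lit 76) (nat_lit 571977587486) (nat_lit 1) (nat_lit 4) (nat_lit 2) (nat_lit 5) (nat_lit 2)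 (nat_lit 4) (nat_lit 503) (nat_lit 405) (nat_lit 292)) (XT.nd (nat_lit 78) (nat_lit 0) (nat_lit 0) (XT.lf (nat_lit 0) (nat_lit 921757249569) (nat_lit 76) (nat_lit 596973677215) (nat_lit 76) (nat_lit 583472626471) (nat_lit 1) (nat_lit 4) (nat_lit 2) (nat_lit 5) (nat_lit 2) (nat_lit 4) (nat_lit 504) (nat_lit 405) (nat_lit 291)) (XT.lf (nat_lit 0) (nat_lit 1062483628476) (nat_lit 76) (nat_lit 609389316666) (nat_lit 76) (nat_lit 595888111114) (nat_lit 1) (nat_lit 4) (nat_lit 2) (nat_lit 5) (nat_lit 2) (nat_lit 4) (nat_lit 505) (nat_lit 405) (nat_lit 290))))))))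
noncomputable def xc109 : XT := (XT.nd (nat_lit 54678) (nat_lit 0) (nat_lit 2964) (XT.nd (nat_lit 858) (nat_lit 0) (nat_lit 0) (XT.nd (nat_lit 390) (nat_lit 0) (nat_lit 0) (XT.nd (nat_lit 156) (nat_lit 0) (nat_lit 0) (XT.nd (nat_lit 78) (nat_lit 0) (nat_lit 0) (XT.lf (nat_lit 0) (nat_lit 1214466639094) (nat_lit 76) (nat_lit 622798963550) (nat_lit 76) (nat_lit 609297614657) (nat_lit 1) (nat_lit 4) (nat_lit 2) (nat_lit 5) (nat_lit 2) (nat_lit 4) (nat_lit 506) (nat_lit 405) (nat_lit 289)) (XT.lf (nat_lit 0) (nat_lit 1378606921486) (nat_lit 76) (nat_lit 637282082441) (nat_lit 76) (nat_lit 623780600826) (nat_lit 1) (nat_lit 4) (nat_lit 2) (nat_lit 5) (nat_lit 2) (nat_lit 4) (nat_lit 507) (nat_lit 405) (nat_lit 288))) (XT.nd (nat_lit 78) (nat_lit 0) (nat_lit 0) (XT.lf (nat_lit 0) (nat_lit 1555877158808) (nat_lit 76) (nat_lit 652924499230) (nat_lit 76) (nat_lit 639422894723) (nat_lit 1) (nat_lit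 4) (nat_lit 2) (nat_lit 5) (nat_lit 2) (nat_lit 4) (nat_lit 508) (nat_lit 405) (nat_lit 287)) (XT.nd (nat_lit 78) (nat_lit 0) (nat_lit 0) (XT.lf (nat_lit 0) (nat_lit 1747327841354) (nat_lit 76) (nat_lit 669818909719) (nat_lit 76) (nat_lit 656317191424) (nat_lit 1) (nat_lit 4) (nat_lit 2) (nat_lit 5) (nat_lit 2) (nat_lit 4) (nat_lit 509) (nat_lit 405) (nat_lit 286)) (XT.lf (nat_lit 0) (nat_lit 1954093491688) (nat_lit 76) (nat_lit 688065428933) (nat_lit 76) (nat_lit 674563605279) (nat_lit 1) (nat_lit 4) (nat_lit 2) (nat_lit 5) (nat_lit 2) (nat_lit 4) (nat_lit 510) (nat_lit 405) (nat_lit 285))))) (XT.nd (nat_lit 234) (nat_lit 0) (nat_lit 0) (XT.nd (nat_lit 78) (nat_lit 0) (nat_lit 0) (XT.lf (nat_lit 0) (nat_lit 2177399387738) (nat_lit 76) (nat_lit 707772184394) (nat_lit 76) (nat_lit 694270263184) (nat_lit 1) (nat_lit 4) (nat_lit 2) (nat_lit 5) (nat_lit 2) (nat_lit 4) (nat_lit 511) (nat_lit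 405) (nat_lit 284)) (XT.nd (nat_lit 78) (nat_lit 0) (nat_lit 0) (XT.lf (nat_lit 0) (nat_lit 2418568823702) (nat_lit 76) (nat_lit 729055956875) (nat_lit 76) (nat_lit 715553945336) (nat_lit 1) (nat_lit 4) (nat_lit 2) (nat_lit 5) (nat_lit 2) (nat_lit 4) (nat_lit 512) (nat_lit 405) (nat_lit 283)) (XT.lf (nat_lit 0) (nat_lit 2679030951794) (nat_lit 76) (nat_lit 752042872435) (nat_lit 76) (nat_lit 738540777258) (nat_lit 1) (nat_lit 4) (nat_lit 2) (nat_lit 5) (nat_lit 2) (nat_lit 4) (nat_lit 513) (nat_lit 405) (nat_lit 282)))) (XT.nd (nat_lit 78) (nat_lit 0) (nat_lit 0) (XT.lf (nat_lit 0) (nat_lit 2960329251291) (nat_lit 76) (nat_lit 776869149833) (nat_lit 76) (nat_lit 763366977214) (nat_lit 1) (nat_lit 4) (nat_lit 2) (nat_lit 5) (nat_lit 2) (nat_lit 4) (nat_lit 514) (nat_lit 405) (nat_lit 281)) (XT.nd (nat_lit 78) (nat_lit 0) (nat_lit 0) (XT.lf (nat_lit 0) (nat_lit 3264130675080) (nat_lit 76)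 (nat_lit 803681907749) (nat_lit 76) (nat_lit 790179663424) (nat_lit 1) (nat_lit 4) (nat_lit 2) (nat_lit 5) (nat_lit 2) (nat_lit 4) (nat_lit 515) (nat_lit 405) (nat_lit 280)) (XT.lf (nat_lit 0) (nat_lit 3592235527893) (nat_lit 76) (nat_lit 832640036601) (nat_lit 76) (nat_lit 819137725882) (nat_lit 1) (nat_lit 4) (nat_lit 2) (nat_lit 5) (nat_lit 2) (nat_lit 4) (nat_lit 516) (nat_lit 405) (nat_lit 279)))))) (XT.nd (nat_lit 390) (nat_lit 0) (nat_lit 0) (XT.nd (nat_lit 156) (nat_lit 0) (nat_lit 0) (XT.nd (nat_lit 78) (nat_lit 0) (nat_lit 0) (XT.lf (nat_lit 0) (nat_lit 3946588134785) (nat_lit 76) (nat_lit 863915140116) (nat_lit 76) (nat_lit 850412767921) (nat_lit 1) (nat_lit 4) (nat_lit 2) (nat_lit 5) (nat_lit 2) (nat_lit 4) (nat_lit 517) (nat_lit 405) (nat_lit 278)) (XT.lf (nat_lit 0) (nat_lit 4329288363055) (nat_lit 76) (nat_lit 897692552240) (nat_lit 76) (nat_lit 884190123122) (nat_lit 1)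 (nat_lit 4) (nat_lit 2) (nat_lit 5) (nat_lit 2) (nat_lit 4) (nat_lit 518) (nat_lit 405) (nat_lit 277))) (XT.nd (nat_lit 78) (nat_lit 0) (nat_lit 0) (XT.lf (nat_lit 0) (nat_lit 4742604065908) (nat_lit 76) (nat_lit 934172435416) (nat_lit 76) (nat_lit 920669953592) (nat_lit 1) (nat_lit 4) (nat_lit 2) (nat_lit 5) (nat_lit 2) (nat_lit 4) (nat_lit 519) (nat_lit 405) (nat_lit 276)) (XT.nd (nat_lit 78) (nat_lit 0) (nat_lit 0) (XT.lf (nat_lit 0) (nat_lit 5188984521584) (nat_lit 76) (nat_lit 973570966729) (nat_lit 76) (nat_lit 960068436102) (nat_lit 1) (nat_lit 4) (nat_lit 2) (nat_lit 5) (nat_lit 2) (nat_lit 4) (nat_lit 520) (nat_lit 405) (nat_lit 275)) (XT.lf (nat_lit 0) (nat_lit 5671074947597) (nat_lit 76) (nat_lit 1016121618956) (nat_lit 76) (nat_lit 1002619043143) (nat_lit 1) (nat_lit 4) (nat_lit 2) (nat_lit 5) (nat_lit 2) (nat_lit 4) (nat_lit 521) (nat_lit 405) (nat_lit 274))))) (XT.nd (nat_lit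 234) (nat_lit 0) (nat_lit 0) (XT.nd (nat_lit 78) (nat_lit 0) (nat_lit 0) (XT.lf (nat_lit 0) (nat_lit 6191732176101) (nat_lit 76) (nat_lit 1062076544112) (nat_lit 76) (nat_lit 1048573926459) (nat_lit 1) (nat_lit 4) (nat_lit 2) (nat_lit 5) (nat_lit 2) (nat_lit 4) (nat_lit 522) (nat_lit 405) (nat_lit 273)) (XT.nd (nat_lit 78) (nat_lit 0) (nat_lit 0) (XT.lf (nat_lit 0) (nat_lit 6754041583266) (nat_lit 76) (nat_lit 1111708067679) (nat_lit 76) (nat_lit 1098205411286) (nat_lit 1) (nat_lit 4) (nat_lit 2) (nat_lit 5) (nat_lit 2) (nat_lit 4) (nat_lit 523) (nat_lit 405) (nat_lit 272)) (XT.lf (nat_lit 0) (nat_lit 7361335372985) (nat_lit 76) (nat_lit 1165310302389) (nat_lit 76) (nat_lit 1151807610125) (nat_lit 1) (nat_lit 4) (nat_lit 2) (nat_lit 5) (nat_lit 2) (nat_lit 4) (nat_lit 524) (nat_lit 405) (nat_lit 271)))) (XT.nd (nat_lit 78) (nat_lit 0) (nat_lit 0) (XT.lf (nat_lit 0) (nat_lit 8017212323273)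 (nat_lit 76) (nat_lit 1223200891114) (nat_lit 76) (nat_lit 1209698165636) (nat_lit 1) (nat_lit 4) (nat_lit 2) (nat_lit 5) (nat_lit 2) (nat_lit 4) (nat_lit 525) (nat_lit 405) (nat_lit 270)) (XT.nd (nat_lit 78) (nat_lit 0) (nat_lit 0) (XT.lf (nat_lit 0) (nat_lit 8725559112352) (nat_lit 76) (nat_lit 1285722889195) (nat_lit 76) (nat_lit 1272220132963) (nat_lit 1) (nat_lit 4) (nat_lit 2) (nat_lit 5) (nat_lit 2) (nat_lit 4) (nat_lit 526) (nat_lit 405) (nat_lit 269)) (XT.lf (nat_lit 0) (nat_lit 9490573350825) (nat_lit 76) (nat_lit 1353246797361) (nat_lit 76) (nat_lit 1339744012654) (nat_lit 1) (nat_lit 4) (nat_lit 2) (nat_lit 5) (nat_lit 2) (nat_lit 4) (nat_lit 527) (nat_lit 405) (nat_lit 268))))))) (XT.nd (nat_lit 858) (nat_lit 1520) (nat_lit 0) (XT.nd (nat_lit 390) (nat_lit 1216) (nat_lit 0) (XT.nd (nat_lit 156) (nat_lit 0) (nat_lit 0) (XT.nd (nat_lit 78) (nat_lit 0) (nat_lit 0) (XT.lf (nat_lit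 0) (nat_lit 20590897) (nat_lit 0) (nat_lit 20590897) (nat_lit 380) (nat_lit 3698676090) (nat_lit 76) (nat_lit 5) (nat_lit 76) (nat_lit 3) (nat_lit 81) (nat_lit 3) (nat_lit 406) (nat_lit 406) (nat_lit 388)) (XT.lf (nat_lit 0) (nat_lit 1581449973) (nat_lit 380) (nat_lit 3787677167) (nat_lit 456) (nat_lit 2289041336) (nat_lit 76) (nat_lit 5) (nat_lit 81) (nat_lit 3) (nat_lit 82) (nat_lit 5) (nat_lit 407) (nat_lit 406) (nat_lit 387))) (XT.nd (nat_lit 78) (nat_lit 0) (nat_lit 0) (XT.lf (nat_lit 76) (nat_lit 72534958) (nat_lit 0) (nat_lit 2988618970) (nat_lit 456) (nat_lit 4800995529) (nat_lit 77) (nat_lit 5) (nat_lit 76) (nat_lit 5) (nat_lit 82) (nat_lit 5) (nat_lit 408) (nat_lit 406) (nat_lit 386)) (XT.nd (nat_lit 78) (nat_lit 0) (nat_lit 76) (XT.lf (nat_lit 76) (nat_lit 4373859335) (nat_lit 0) (nat_lit 255341994) (nat_lit 456) (nat_lit 3455749578) (nat_lit 77) (nat_lit 5) (nat_lit 76) (nat_lit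 5) (nat_lit 82) (nat_lit 5) (nat_lit 409) (nat_lit 406) (nat_lit 385)) (XT.lf (nat_lit 76) (nat_lit 569268281) (nat_lit 0) (nat_lit 5709393754) (nat_lit 456) (nat_lit 2050528876) (nat_lit 78) (nat_lit 5) (nat_lit 77) (nat_lit 5) (nat_lit 83) (nat_lit 5) (nat_lit 410) (nat_lit 406) (nat_lit 384))))) (XT.nd (nat_lit 234) (nat_lit 912) (nat_lit 0) (XT.nd (nat_lit 78) (nat_lit 380) (nat_lit 0) (XT.lf (nat_lit 76) (nat_lit 5310289289) (nat_lit 0) (nat_lit 2742163021) (nat_lit 456) (nat_lit 541213174) (nat_lit 78) (nat_lit 5) (nat_lit 77) (nat_lit 5) (nat_lit 83) (nat_lit 5) (nat_lit 411) (nat_lit 406) (nat_lit 383)) (XT.nd (nat_lit 78) (nat_lit 0) (nat_lit 0) (XT.lf (nat_lit 0) (nat_lit 974313767) (nat_lit 456) (nat_lit 7380902438) (nat_lit 76) (nat_lit 526865141) (nat_lit 72) (nat_lit 5) (nat_lit 78) (nat_lit 5) (nat_lit 73) (nat_lit 5) (nat_lit 412) (nat_lit 406) (nat_lit 382)) (XT.lf (nat_lit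 0) (nat_lit 2641950601) (nat_lit 456) (nat_lit 2510812872) (nat_lit 76) (nat_lit 4034941444) (nat_lit 72) (nat_lit 5) (nat_lit 78) (nat_lit 5) (nat_lit 73) (nat_lit 5) (nat_lit 413) (nat_lit 406) (nat_lit 381)))) (XT.nd (nat_lit 78) (nat_lit 456) (nat_lit 0) (XT.lf (nat_lit 0) (nat_lit 2803928337) (nat_lit 456) (nat_lit 1610927914) (nat_lit 532) (nat_lit 5105236106) (nat_lit 66) (nat_lit 5) (nat_lit 72) (nat_lit 5) (nat_lit 73) (nat_lit 5) (nat_lit 414) (nat_lit 406) (nat_lit 380)) (XT.nd (nat_lit 78) (nat_lit 456) (nat_lit 0) (XT.lf (nat_lit 0) (nat_lit 6362964614) (nat_lit 532) (nat_lit 1332512001) (nat_lit 76) (nat_lit 2180982532) (nat_lit 66) (nat_lit 5) (nat_lit 73) (nat_lit 5) (nat_lit 67) (nat_lit 5) (nat_lit 415) (nat_lit 406) (nat_lit 379)) (XT.lf (nat_lit 0) (nat_lit 4585545785) (nat_lit 456) (nat_lit 3949874884) (nat_lit 532) (nat_lit 1720488371) (nat_lit 60) (nat_lit 5) (nat_lit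 66) (nat_lit 5) (nat_lit 67) (nat_lit 5) (nat_lit 416) (nat_lit 406) (nat_lit 378)))))) (XT.nd (nat_lit 468) (nat_lit 760) (nat_lit 0) (XT.nd (nat_lit 234) (nat_lit 228) (nat_lit 0) (XT.nd (nat_lit 78) (nat_lit 228) (nat_lit 0) (XT.lf (nat_lit 0) (nat_lit 172055407) (nat_lit 304) (nat_lit 10358233102) (nat_lit 76) (nat_lit 137704917) (nat_lit 56) (nat_lit 5) (nat_lit 60) (nat_lit 5) (nat_lit 57) (nat_lit 5) (nat_lit 417) (nat_lit 406) (nat_lit 377)) (XT.nd (nat_lit 78) (nat_lit 228) (nat_lit 0) (XT.lf (nat_lit 0) (nat_lit 2307071592) (nat_lit 304) (nat_lit 4251135127) (nat_lit 76) (nat_lit 4536583819) (nat_lit 56) (nat_lit 5) (nat_lit 60) (nat_lit 5) (nat_lit 57) (nat_lit 5) (nat_lit 418) (nat_lit 406) (nat_lit 376)) (XT.lf (nat_lit 0) (nat_lit 2380310059) (nat_lit 228) (nat_lit 2217937632) (nat_lit 304) (nat_lit 6958694496) (nat_lit 53) (nat_lit 5) (nat_lit 56) (nat_lit 5) (nat_lit 57)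 (nat_lit 5) (nat_lit 419) (nat_lit 406) (nat_lit 375)))) (XT.nd (nat_lit 78) (nat_lit 228) (nat_lit 0) (XT.lf (nat_lit 0) (nat_lit 7182543254) (nat_lit 304) (nat_lit 2411540210) (nat_lit 76) (nat_lit 2453233009) (nat_lit 53) (nat_lit 5) (nat_lit 57) (nat_lit 5) (nat_lit 54) (nat_lit 5) (nat_lit 420) (nat_lit 406) (nat_lit 374)) (XT.nd (nat_lit 78) (nat_lit 76) (nat_lit 0) (XT.lf (nat_lit 0) (nat_lit 5007655591) (nat_lit 152) (nat_lit 5080247603) (nat_lit 228) (nat_lit 2479905676) (nat_lit 51) (nat_lit 5) (nat_lit 53) (nat_lit 5) (nat_lit 54) (nat_lit 5) (nat_lit 421) (nat_lit 406) (nat_lit 373)) (XT.lf (nat_lit 0) (nat_lit 96121469) (nat_lit 228) (nat_lit 52439928) (nat_lit 76) (nat_lit 12980811234) (nat_lit 50) (nat_lit 5) (nat_lit 53) (nat_lit 5) (nat_lit 51) (nat_lit 5) (nat_lit 422) (nat_lit 406) (nat_lit 372))))) (XT.nd (nat_lit 234) (nat_lit 380) (nat_lit 0) (XT.nd (nat_lit 78) (nat_lit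 152) (nat_lit 0) (XT.lf (nat_lit 0) (nat_lit 3017784833) (nat_lit 304) (nat_lit 5517253633) (nat_lit 76) (nat_lit 5173814161) (nat_lit 47) (nat_lit 5) (nat_lit 51) (nat_lit 5) (nat_lit 48) (nat_lit 5) (nat_lit 423) (nat_lit 406) (nat_lit 371)) (XT.nd (nat_lit 78) (nat_lit 0) (nat_lit 0) (XT.lf (nat_lit 0) (nat_lit 2823532238) (nat_lit 152) (nat_lit 3367113176) (nat_lit 228) (nat_lit 8142673342) (nat_lit 45) (nat_lit 5) (nat_lit 47) (nat_lit 5) (nat_lit 48) (nat_lit 5) (nat_lit 424) (nat_lit 406) (nat_lit 370)) (XT.lf (nat_lit 0) (nat_lit 9771374479) (nat_lit 228) (nat_lit 2986688112) (nat_lit 76) (nat_lit 2237379435) (nat_lit 45) (nat_lit 5) (nat_lit 48) (nat_lit 5) (nat_lit 46) (nat_lit 5) (nat_lit 425) (nat_lit 406) (nat_lit 369)))) (XT.nd (nat_lit 78) (nat_lit 228) (nat_lit 0) (XT.lf (nat_lit 0) (nat_lit 6376447479) (nat_lit 152) (nat_lit 7452941565) (nat_lit 228) (nat_lit 1865901260)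 (nat_lit 43) (nat_lit 5) (nat_lit 45) (nat_lit 5) (nat_lit 46) (nat_lit 5) (nat_lit 426) (nat_lit 406) (nat_lit 368)) (XT.nd (nat_lit 78) (nat_lit 0) (nat_lit 0) (XT.lf (nat_lit 0) (nat_lit 100360167) (nat_lit 152) (nat_lit 1609400044) (nat_lit 228) (nat_lit 14735042084) (nat_lit 40) (nat_lit 5) (nat_lit 42) (nat_lit 5) (nat_lit 43) (nat_lit 5) (nat_lit 427) (nat_lit 406) (nat_lit 367)) (XT.lf (nat_lit 0) (nat_lit 5797202314) (nat_lit 228) (nat_lit 6674395535) (nat_lit 76) (nat_lit 4752694336) (nat_lit 40) (nat_lit 5) (nat_lit 43) (nat_lit 5) (nat_lit 41) (nat_lit 5) (nat_lit 428) (nat_lit 406) (nat_lit 366))))))))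
noncomputable def xc110 : XT := (XT.nd (nat_lit 1716) (nat_lit 988) (nat_lit 0) (XT.nd (nat_lit 858) (nat_lit 608) (nat_lit 0) (XT.nd (nat_lit 390) (nat_lit 532) (nat_lit 0) (XT.nd (nat_lit 156) (nat_lit 304) (nat_lit 0) (XT.nd (nat_lit 78) (nat_lit 0) (nat_lit 0) (XT.lf (nat_lit 0) (nat_lit 3850225648) (nat_lit 152) (nat_lit 6451415643) (nat_lit 228) (nat_lit 7757315523) (nat_lit 38) (nat_lit 5) (nat_lit 40) (nat_lit 5) (nat_lit 41) (nat_lit 5) (nat_lit 429) (nat_lit 406) (nat_lit 365)) (XT.lf (nat_lit 0) (nat_lit 15311520823) (nat_lit 228) (nat_lit 3426239789) (nat_lit 76) (nat_lit 211041676) (nat_lit 38) (nat_lit 5) (nat_lit 41) (nat_lit 5) (nat_lit 39) (nat_lit 4) (nat_lit 430) (nat_lit 406) (nat_lit 364))) (XT.nd (nat_lit 78) (nat_lit 152) (nat_lit 0) (XT.lf (nat_lit 0) (nat_lit 1109859092) (nat_lit 152) (nat_lit 11505424585) (nat_lit 76) (nat_lit 7265949900) (nat_lit 36) (nat_lit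 5) (nat_lit 38) (nat_lit 5) (nat_lit 37) (nat_lit 5) (nat_lit 431) (nat_lit 406) (nat_lit 363)) (XT.nd (nat_lit 78) (nat_lit 0) (nat_lit 0) (XT.lf (nat_lit 0) (nat_lit 287505255) (nat_lit 152) (nat_lit 5816058504) (nat_lit 228) (nat_lit 14772085099) (nat_lit 34) (nat_lit 5) (nat_lit 36) (nat_lit 5) (nat_lit 37) (nat_lit 5) (nat_lit 432) (nat_lit 406) (nat_lit 362)) (XT.lf (nat_lit 0) (nat_lit 11817281302) (nat_lit 228) (nat_lit 8358011832) (nat_lit 76) (nat_lit 1748693570) (nat_lit 34) (nat_lit 5) (nat_lit 37) (nat_lit 5) (nat_lit 35) (nat_lit 4) (nat_lit 433) (nat_lit 406) (nat_lit 361))))) (XT.nd (nat_lit 234) (nat_lit 228) (nat_lit 0) (XT.nd (nat_lit 78) (nat_lit 228) (nat_lit 0) (XT.lf (nat_lit 0) (nat_lit 4881765870) (nat_lit 76) (nat_lit 13338729367) (nat_lit 152) (nat_lit 4817114296) (nat_lit 33) (nat_lit 5) (nat_lit 34) (nat_lit 5) (nat_lit 35) (nat_lit 4) (nat_lit 434) (nat_lit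 406) (nat_lit 360)) (XT.nd (nat_lit 78) (nat_lit 152) (nat_lit 0) (XT.lf (nat_lit 0) (nat_lit 1049531911) (nat_lit 152) (nat_lit 4655691511) (nat_lit 76) (nat_lit 18517488686) (nat_lit 32) (nat_lit 5) (nat_lit 34) (nat_lit 5) (nat_lit 33) (nat_lit 5) (nat_lit 435) (nat_lit 406) (nat_lit 359)) (XT.lf (nat_lit 0) (nat_lit 7408897749) (nat_lit 228) (nat_lit 15290952682) (nat_lit 76) (nat_lit 2770079731) (nat_lit 30) (nat_lit 5) (nat_lit 33) (nat_lit 5) (nat_lit 31) (nat_lit 4) (nat_lit 436) (nat_lit 406) (nat_lit 358)))) (XT.nd (nat_lit 78) (nat_lit 228) (nat_lit 0) (XT.lf (nat_lit 0) (nat_lit 14523205941) (nat_lit 228) (nat_lit 551190852) (nat_lit 76) (nat_lit 11722840678) (nat_lit 30) (nat_lit 5) (nat_lit 33) (nat_lit 5) (nat_lit 31) (nat_lit 4) (nat_lit 437) (nat_lit 406) (nat_lit 357)) (XT.nd (nat_lit 78) (nat_lit 152) (nat_lit 0) (XT.lf (nat_lit 0) (nat_lit 16120314516) (nat_lit 76) (nat_lit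 6443856972) (nat_lit 152) (nat_lit 5637963580) (nat_lit 29) (nat_lit 5) (nat_lit 30) (nat_lit 5) (nat_lit 31) (nat_lit 4) (nat_lit 438) (nat_lit 406) (nat_lit 356)) (XT.lf (nat_lit 0) (nat_lit 1620886191) (nat_lit 152) (nat_lit 25205304086) (nat_lit 76) (nat_lit 2876827567) (nat_lit 27) (nat_lit 5) (nat_lit 29) (nat_lit 5) (nat_lit 28) (nat_lit 4) (nat_lit 439) (nat_lit 406) (nat_lit 355)))))) (XT.nd (nat_lit 390) (nat_lit 380) (nat_lit 0) (XT.nd (nat_lit 156) (nat_lit 152) (nat_lit 0) (XT.nd (nat_lit 78) (nat_lit 76) (nat_lit 0) (XT.lf (nat_lit 0) (nat_lit 9632550275) (nat_lit 152) (nat_lit 8583673943) (nat_lit 76) (nat_lit 13057900886) (nat_lit 27) (nat_lit 5) (nat_lit 29) (nat_lit 5) (nat_lit 28) (nat_lit 4) (nat_lit 440) (nat_lit 406) (nat_lit 354)) (XT.lf (nat_lit 0) (nat_lit 9807900196) (nat_lit 76) (nat_lit 8685730572) (nat_lit 152) (nat_lit 14460616452) (nat_lit 26) (nat_lit 5)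 (nat_lit 27) (nat_lit 5) (nat_lit 28) (nat_lit 4) (nat_lit 441) (nat_lit 406) (nat_lit 353))) (XT.nd (nat_lit 78) (nat_lit 152) (nat_lit 0) (XT.lf (nat_lit 0) (nat_lit 28315947023) (nat_lit 152) (nat_lit 4686517561) (nat_lit 0) (nat_lit 1746131150) (nat_lit 26) (nat_lit 5) (nat_lit 28) (nat_lit 4) (nat_lit 26) (nat_lit 4) (nat_lit 442) (nat_lit 406) (nat_lit 352)) (XT.nd (nat_lit 78) (nat_lit 0) (nat_lit 0) (XT.lf (nat_lit 0) (nat_lit 2720373236) (nat_lit 152) (nat_lit 20942774709) (nat_lit 76) (nat_lit 12971463169) (nat_lit 24) (nat_lit 5) (nat_lit 26) (nat_lit 5) (nat_lit 25) (nat_lit 4) (nat_lit 443) (nat_lit 406) (nat_lit 351)) (XT.lf (nat_lit 0) (nat_lit 12364608502) (nat_lit 152) (nat_lit 911779399) (nat_lit 76) (nat_lit 25373236776) (nat_lit 24) (nat_lit 5) (nat_lit 26) (nat_lit 5) (nat_lit 25) (nat_lit 4) (nat_lit 444) (nat_lit 406) (nat_lit 350))))) (XT.nd (nat_lit 234) (nat_lit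 152) (nat_lit 0) (XT.nd (nat_lit 78) (nat_lit 152) (nat_lit 0) (XT.lf (nat_lit 0) (nat_lit 21766957896) (nat_lit 76) (nat_lit 1513805486) (nat_lit 152) (nat_lit 17505048842) (nat_lit 23) (nat_lit 5) (nat_lit 24) (nat_lit 5) (nat_lit 25) (nat_lit 4) (nat_lit 445) (nat_lit 406) (nat_lit 349)) (XT.nd (nat_lit 78) (nat_lit 76) (nat_lit 0) (XT.lf (nat_lit 0) (nat_lit 3060462939) (nat_lit 76) (nat_lit 32355135664) (nat_lit 76) (nat_lit 7649668250) (nat_lit 22) (nat_lit 4) (nat_lit 23) (nat_lit 5) (nat_lit 23) (nat_lit 4) (nat_lit 446) (nat_lit 406) (nat_lit 348)) (XT.lf (nat_lit 0) (nat_lit 3394380529) (nat_lit 152) (nat_lit 17666482102) (nat_lit 76) (nat_lit 24416455801) (nat_lit 21) (nat_lit 5) (nat_lit 23) (nat_lit 5) (nat_lit 22) (nat_lit 4) (nat_lit 447) (nat_lit 406) (nat_lit 347)))) (XT.nd (nat_lit 78) (nat_lit 76) (nat_lit 0) (XT.lf (nat_lit 0) (nat_lit 6547062122) (nat_lit 76) (nat_lit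 8497938933) (nat_lit 152) (nat_lit 33010533849) (nat_lit 20) (nat_lit 5) (nat_lit 21) (nat_lit 5) (nat_lit 22) (nat_lit 4) (nat_lit 448) (nat_lit 406) (nat_lit 346)) (XT.nd (nat_lit 78) (nat_lit 76) (nat_lit 0) (XT.lf (nat_lit 0) (nat_lit 28224208349) (nat_lit 152) (nat_lit 17274263761) (nat_lit 0) (nat_lit 5293815901) (nat_lit 20) (nat_lit 5) (nat_lit 22) (nat_lit 4) (nat_lit 20) (nat_lit 4) (nat_lit 449) (nat_lit 406) (nat_lit 345)) (XT.lf (nat_lit 0) (nat_lit 9095139706) (nat_lit 76) (nat_lit 33782654142) (nat_lit 76) (nat_lit 10836586309) (nat_lit 19) (nat_lit 4) (nat_lit 20) (nat_lit 5) (nat_lit 20) (nat_lit 4) (nat_lit 450) (nat_lit 406) (nat_lit 344))))))) (XT.nd (nat_lit 858) (nat_lit 380) (nat_lit 0) (XT.nd (nat_lit 390) (nat_lit 380) (nat_lit 0) (XT.nd (nat_lit 156) (nat_lit 76) (nat_lit 0) (XT.nd (nat_lit 78) (nat_lit 76) (nat_lit 0) (XT.lf (nat_lit 0) (nat_lit 2206926267) (nat_lit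 152) (nat_lit 18370175441) (nat_lit 76) (nat_lit 36252395051) (nat_lit 18) (nat_lit 5) (nat_lit 20) (nat_lit 5) (nat_lit 19) (nat_lit 4) (nat_lit 451) (nat_lit 406) (nat_lit 343)) (XT.lf (nat_lit 0) (nat_lit 10171091493) (nat_lit 76) (nat_lit 5764058837) (nat_lit 152) (nat_lit 44218021452) (nat_lit 17) (nat_lit 5) (nat_lit 18) (nat_lit 5) (nat_lit 19) (nat_lit 4) (nat_lit 452) (nat_lit 406) (nat_lit 342))) (XT.nd (nat_lit 78) (nat_lit 76) (nat_lit 0) (XT.lf (nat_lit 0) (nat_lit 31505256328) (nat_lit 152) (nat_lit 21956503509) (nat_lit 0) (nat_lit 10221492605) (nat_lit 17) (nat_lit 5) (nat_lit 19) (nat_lit 4) (nat_lit 17) (nat_lit 4) (nat_lit 453) (nat_lit 406) (nat_lit 341)) (XT.nd (nat_lit 78) (nat_lit 0) (nat_lit 0) (XT.lf (nat_lit 0) (nat_lit 8556900892) (nat_lit 76) (nat_lit 40103075878) (nat_lit 76) (nat_lit 18808643750) (nat_lit 16) (nat_lit 4) (nat_lit 17) (nat_lit 5) (nat_lit 17)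 (nat_lit 4) (nat_lit 454) (nat_lit 406) (nat_lit 340)) (XT.lf (nat_lit 0) (nat_lit 42728334051) (nat_lit 76) (nat_lit 25043026381) (nat_lit 76) (nat_lit 3738716101) (nat_lit 16) (nat_lit 4) (nat_lit 17) (nat_lit 5) (nat_lit 17) (nat_lit 4) (nat_lit 455) (nat_lit 406) (nat_lit 339))))) (XT.nd (nat_lit 234) (nat_lit 228) (nat_lit 0) (XT.nd (nat_lit 78) (nat_lit 0) (nat_lit 0) (XT.lf (nat_lit 0) (nat_lit 3607396037) (nat_lit 76) (nat_lit 8373783170) (nat_lit 152) (nat_lit 63863828905) (nat_lit 14) (nat_lit 5) (nat_lit 15) (nat_lit 5) (nat_lit 16) (nat_lit 4) (nat_lit 456) (nat_lit 406) (nat_lit 338)) (XT.nd (nat_lit 78) (nat_lit 0) (nat_lit 0) (XT.lf (nat_lit 0) (nat_lit 29780467760) (nat_lit 152) (nat_lit 40618651586) (nat_lit 0) (nat_lit 10037944020) (nat_lit 14) (nat_lit 5) (nat_lit 16) (nat_lit 4) (nat_lit 14) (nat_lit 4) (nat_lit 457) (nat_lit 406) (nat_lit 337)) (XT.lf (nat_lit 0) (nat_lit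 49207151907) (nat_lit 152) (nat_lit 6715688482) (nat_lit 0) (nat_lit 29457367431) (nat_lit 14) (nat_lit 5) (nat_lit 16) (nat_lit 4) (nat_lit 14) (nat_lit 4) (nat_lit 458) (nat_lit 406) (nat_lit 336)))) (XT.nd (nat_lit 78) (nat_lit 152) (nat_lit 0) (XT.lf (nat_lit 0) (nat_lit 31446662803) (nat_lit 76) (nat_lit 39484593248) (nat_lit 76) (nat_lit 19728085867) (nat_lit 13) (nat_lit 4) (nat_lit 14) (nat_lit 5) (nat_lit 14) (nat_lit 4) (nat_lit 459) (nat_lit 406) (nat_lit 335)) (XT.nd (nat_lit 78) (nat_lit 152) (nat_lit 0) (XT.lf (nat_lit 0) (nat_lit 73018647712) (nat_lit 76) (nat_lit 21545607418) (nat_lit 76) (nat_lit 1782875126) (nat_lit 13) (nat_lit 4) (nat_lit 14) (nat_lit 5) (nat_lit 14) (nat_lit 4) (nat_lit 460) (nat_lit 406) (nat_lit 334)) (XT.lf (nat_lit 0) (nat_lit 15767952836) (nat_lit 76) (nat_lit 1316878381) (nat_lit 152) (nat_lit 85341876703) (nat_lit 11) (nat_lit 5) (nat_lit 12)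 (nat_lit 5) (nat_lit 13) (nat_lit 4) (nat_lit 461) (nat_lit 406) (nat_lit 333)))))) (XT.nd (nat_lit 468) (nat_lit 152) (nat_lit 0) (XT.nd (nat_lit 234) (nat_lit 152) (nat_lit 0) (XT.nd (nat_lit 78) (nat_lit 76) (nat_lit 0) (XT.lf (nat_lit 0) (nat_lit 38501816842) (nat_lit 152) (nat_lit 50203523948) (nat_lit 0) (nat_lit 20192712253) (nat_lit 11) (nat_lit 5) (nat_lit 13) (nat_lit 4) (nat_lit 11) (nat_lit 4) (nat_lit 462) (nat_lit 406) (nat_lit 332)) (XT.nd (nat_lit 78) (nat_lit 76) (nat_lit 0) (XT.lf (nat_lit 0) (nat_lit 61655277412) (nat_lit 152) (nat_lit 10888382368) (nat_lit 0) (nat_lit 43341597327) (nat_lit 11) (nat_lit 5) (nat_lit 13) (nat_lit 4) (nat_lit 11) (nat_lit 4) (nat_lit 463) (nat_lit 406) (nat_lit 331)) (XT.lf (nat_lit 0) (nat_lit 33212755785) (nat_lit 76) (nat_lit 54236759453) (nat_lit 76) (nat_lit 35918842798) (nat_lit 10) (nat_lit 4) (nat_lit 11) (nat_lit 5) (nat_lit 11)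 (nat_lit 4) (nat_lit 464) (nat_lit 406) (nat_lit 330)))) (XT.nd (nat_lit 78) (nat_lit 152) (nat_lit 0) (XT.lf (nat_lit 0) (nat_lit 81441088453) (nat_lit 76) (nat_lit 34153920582) (nat_lit 76) (nat_lit 15832081178) (nat_lit 10) (nat_lit 4) (nat_lit 11) (nat_lit 5) (nat_lit 11) (nat_lit 4) (nat_lit 465) (nat_lit 406) (nat_lit 329)) (XT.nd (nat_lit 78) (nat_lit 76) (nat_lit 0) (XT.lf (nat_lit 0) (nat_lit 5558907916) (nat_lit 152) (nat_lit 6762943114) (nat_lit 76) (nat_lit 127798151931) (nat_lit 9) (nat_lit 5) (nat_lit 11) (nat_lit 5) (nat_lit 10) (nat_lit 4) (nat_lit 466) (nat_lit 406) (nat_lit 328)) (XT.lf (nat_lit 0) (nat_lit 29103925176) (nat_lit 152) (nat_lit 108134896803) (nat_lit 0) (nat_lit 12132781929) (nat_lit 8) (nat_lit 5) (nat_lit 10) (nat_lit 4) (nat_lit 8) (nat_lit 4) (nat_lit 467) (nat_lit 406) (nat_lit 327))))) (XT.nd (nat_lit 234) (nat_lit 76) (nat_lit 0) (XT.nd (nat_lit 78)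 (nat_lit 76) (nat_lit 0) (XT.lf (nat_lit 0) (nat_lit 55033543198) (nat_lit 152) (nat_lit 66230193558) (nat_lit 0) (nat_lit 38059516613) (nat_lit 8) (nat_lit 5) (nat_lit 10) (nat_lit 4) (nat_lit 8) (nat_lit 4) (nat_lit 468) (nat_lit 406) (nat_lit 326)) (XT.nd (nat_lit 78) (nat_lit 76) (nat_lit 0) (XT.lf (nat_lit 0) (nat_lit 83029417305) (nat_lit 152) (nat_lit 20989545949) (nat_lit 0) (nat_lit 66052720962) (nat_lit 8) (nat_lit 5) (nat_lit 10) (nat_lit 4) (nat_lit 8) (nat_lit 4) (nat_lit 469) (nat_lit 406) (nat_lit 325)) (XT.lf (nat_lit 0) (nat_lit 29321940992) (nat_lit 76) (nat_lit 84640701366) (nat_lit 76) (nat_lit 67661533025) (nat_lit 7) (nat_lit 4) (nat_lit 8) (nat_lit 5) (nat_lit 8) (nat_lit 4) (nat_lit 470) (nat_lit 406) (nat_lit 324)))) (XT.nd (nat_lit 78) (nat_lit 76) (nat_lit 0) (XT.lf (nat_lit 0) (nat_lit 84837211430) (nat_lit 76) (nat_lit 63099892822) (nat_lit 76) (nat_lit 46118435595)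 (nat_lit 7) (nat_lit 4) (nat_lit 8) (nat_lit 5) (nat_lit 8) (nat_lit 4) (nat_lit 471) (nat_lit 406) (nat_lit 323)) (XT.nd (nat_lit 78) (nat_lit 76) (nat_lit 0) (XT.lf (nat_lit 0) (nat_lit 144779972452) (nat_lit 76) (nat_lit 39842779770) (nat_lit 76) (nat_lit 22859203203) (nat_lit 7) (nat_lit 4) (nat_lit 8) (nat_lit 5) (nat_lit 8) (nat_lit 4) (nat_lit 472) (nat_lit 406) (nat_lit 322)) (XT.lf (nat_lit 0) (nat_lit 2141242597) (nat_lit 152) (nat_lit 12531754315) (nat_lit 76) (nat_lit 207305652454) (nat_lit 6) (nat_lit 5) (nat_lit 8) (nat_lit 5) (nat_lit 7) (nat_lit 4) (nat_lit 473) (nat_lit 406) (nat_lit 321))))))))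
noncomputable def xc111 : XT := (XT.nd (nat_lit 1794) (nat_lit 0) (nat_lit 0) (XT.nd (nat_lit 858) (nat_lit 228) (nat_lit 0) (XT.nd (nat_lit 390) (nat_lit 0) (nat_lit 0) (XT.nd (nat_lit 156) (nat_lit 76) (nat_lit 0) (XT.nd (nat_lit 78) (nat_lit 0) (nat_lit 0) (XT.lf (nat_lit 0) (nat_lit 29283063247) (nat_lit 152) (nat_lit 194640379771) (nat_lit 0) (nat_lit 13554029997) (nat_lit 5) (nat_lit 5) (nat_lit 7) (nat_lit 4) (nat_lit 5) (nat_lit 4) (nat_lit 474) (nat_lit 406) (nat_lit 320)) (XT.lf (nat_lit 0) (nat_lit 59322944532) (nat_lit 152) (nat_lit 151242767532) (nat_lit 0) (nat_lit 43592353503) (nat_lit 5) (nat_lit 5) (nat_lit 7) (nat_lit 4) (nat_lit 5) (nat_lit 4) (nat_lit 475) (nat_lit 406) (nat_lit 319))) (XT.nd (nat_lit 78) (nat_lit 76) (nat_lit 0) (XT.lf (nat_lit 0) (nat_lit 91760514521) (nat_lit 152) (nat_lit 104384550237) (nat_lit 0) (nat_lit 76028481105) (nat_lit 5) (nat_lit 5) (nat_lit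 7) (nat_lit 4) (nat_lit 5) (nat_lit 4) (nat_lit 476) (nat_lit 406) (nat_lit 318)) (XT.nd (nat_lit 78) (nat_lit 76) (nat_lit 0) (XT.lf (nat_lit 0) (nat_lit 126787995852) (nat_lit 152) (nat_lit 53788049558) (nat_lit 0) (nat_lit 111054626893) (nat_lit 5) (nat_lit 5) (nat_lit 7) (nat_lit 4) (nat_lit 5) (nat_lit 4) (nat_lit 477) (nat_lit 406) (nat_lit 317)) (XT.lf (nat_lit 0) (nat_lit 891144261) (nat_lit 76) (nat_lit 163743246564) (nat_lit 76) (nat_lit 148008640990) (nat_lit 4) (nat_lit 4) (nat_lit 5) (nat_lit 5) (nat_lit 5) (nat_lit 4) (nat_lit 478) (nat_lit 406) (nat_lit 316))))) (XT.nd (nat_lit 234) (nat_lit 0) (nat_lit 0) (XT.nd (nat_lit 78) (nat_lit 0) (nat_lit 0) (XT.lf (nat_lit 0) (nat_lit 62994285247) (nat_lit 76) (nat_lit 143980280074) (nat_lit 76) (nat_lit 128244529487) (nat_lit 4) (nat_lit 4) (nat_lit 5) (nat_lit 5) (nat_lit 5) (nat_lit 4) (nat_lit 479) (nat_lit 406) (nat_lit 315))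 (XT.nd (nat_lit 78) (nat_lit 0) (nat_lit 0) (XT.lf (nat_lit 0) (nat_lit 130057008644) (nat_lit 76) (nat_lit 122640692661) (nat_lit 76) (nat_lit 106903881877) (nat_lit 4) (nat_lit 4) (nat_lit 5) (nat_lit 5) (nat_lit 5) (nat_lit 4) (nat_lit 480) (nat_lit 406) (nat_lit 314)) (XT.lf (nat_lit 0) (nat_lit 202476723182) (nat_lit 76) (nat_lit 99598027512) (nat_lit 76) (nat_lit 83860235063) (nat_lit 4) (nat_lit 4) (nat_lit 5) (nat_lit 5) (nat_lit 5) (nat_lit 4) (nat_lit 481) (nat_lit 406) (nat_lit 313)))) (XT.nd (nat_lit 78) (nat_lit 0) (nat_lit 0) (XT.lf (nat_lit 0) (nat_lit 280682582725) (nat_lit 76) (nat_lit 74715735498) (nat_lit 76) (nat_lit 58977034101) (nat_lit 4) (nat_lit 4) (nat_lit 5) (nat_lit 5) (nat_lit 5) (nat_lit 4) (nat_lit 482) (nat_lit 406) (nat_lit 312)) (XT.nd (nat_lit 78) (nat_lit 0) (nat_lit 0) (XT.lf (nat_lit 0) (nat_lit 365138029404) (nat_lit 76) (nat_lit 47846366002) (nat_lit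 76) (nat_lit 32106822985) (nat_lit 4) (nat_lit 4) (nat_lit 5) (nat_lit 5) (nat_lit 5) (nat_lit 4) (nat_lit 483) (nat_lit 406) (nat_lit 311)) (XT.lf (nat_lit 0) (nat_lit 456343539940) (nat_lit 76) (nat_lit 18830693129) (nat_lit 76) (nat_lit 3090370835) (nat_lit 4) (nat_lit 4) (nat_lit 5) (nat_lit 5) (nat_lit 5) (nat_lit 4) (nat_lit 484) (nat_lit 406) (nat_lit 310)))))) (XT.nd (nat_lit 468) (nat_lit 76) (nat_lit 0) (XT.nd (nat_lit 234) (nat_lit 0) (nat_lit 0) (XT.nd (nat_lit 78) (nat_lit 0) (nat_lit 0) (XT.lf (nat_lit 0) (nat_lit 28190458376) (nat_lit 152) (nat_lit 472123147340) (nat_lit 0) (nat_lit 13615417777) (nat_lit 2) (nat_lit 5) (nat_lit 4) (nat_lit 4) (nat_lit 2) (nat_lit 4) (nat_lit 485) (nat_lit 406) (nat_lit 309)) (XT.nd (nat_lit 78) (nat_lit 0) (nat_lit 0) (XT.lf (nat_lit 0) (nat_lit 62907867224) (nat_lit 152) (nat_lit 441112014059) (nat_lit 0) (nat_lit 48332208011) (nat_lit 2)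 (nat_lit 5) (nat_lit 4) (nat_lit 4) (nat_lit 2) (nat_lit 4) (nat_lit 486) (nat_lit 406) (nat_lit 308)) (XT.lf (nat_lit 0) (nat_lit 100399924461) (nat_lit 152) (nat_lit 407625603066) (nat_lit 0) (nat_lit 85823692456) (nat_lit 2) (nat_lit 5) (nat_lit 4) (nat_lit 4) (nat_lit 2) (nat_lit 4) (nat_lit 487) (nat_lit 406) (nat_lit 307)))) (XT.nd (nat_lit 78) (nat_lit 0) (nat_lit 0) (XT.lf (nat_lit 0) (nat_lit 140888805240) (nat_lit 152) (nat_lit 371465476369) (nat_lit 0) (nat_lit 126312042873) (nat_lit 2) (nat_lit 5) (nat_lit 4) (nat_lit 4) (nat_lit 2) (nat_lit 4) (nat_lit 488) (nat_lit 406) (nat_lit 306)) (XT.nd (nat_lit 78) (nat_lit 0) (nat_lit 0) (XT.lf (nat_lit 0) (nat_lit 184614443669) (nat_lit 152) (nat_lit 332417351738) (nat_lit 0) (nat_lit 170037190225) (nat_lit 2) (nat_lit 5) (nat_lit 4) (nat_lit 4) (nat_lit 2) (nat_lit 4) (nat_lit 489) (nat_lit 406) (nat_lit 305)) (XT.lf (nat_lit 0) (nat_lit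 231835954643) (nat_lit 152) (nat_lit 290249832876) (nat_lit 0) (nat_lit 217258246499) (nat_lit 2) (nat_lit 5) (nat_lit 4) (nat_lit 4) (nat_lit 2) (nat_lit 4) (nat_lit 490) (nat_lit 406) (nat_lit 304))))) (XT.nd (nat_lit 234) (nat_lit 76) (nat_lit 0) (XT.nd (nat_lit 78) (nat_lit 0) (nat_lit 0) (XT.lf (nat_lit 0) (nat_lit 282833169338) (nat_lit 152) (nat_lit 244713038192) (nat_lit 0) (nat_lit 268255040174) (nat_lit 2) (nat_lit 5) (nat_lit 4) (nat_lit 4) (nat_lit 2) (nat_lit 4) (nat_lit 491) (nat_lit 406) (nat_lit 303)) (XT.nd (nat_lit 78) (nat_lit 0) (nat_lit 0) (XT.lf (nat_lit 0) (nat_lit 337908293470) (nat_lit 152) (nat_lit 195537120012) (nat_lit 0) (nat_lit 323329774474) (nat_lit 2) (nat_lit 5) (nat_lit 4) (nat_lit 4) (nat_lit 2) (nat_lit 4) (nat_lit 492) (nat_lit 406) (nat_lit 302)) (XT.lf (nat_lit 0) (nat_lit 397387698146) (nat_lit 152) (nat_lit 142430665489) (nat_lit 0) (nat_lit 382808818194)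 (nat_lit 2) (nat_lit 5) (nat_lit 4) (nat_lit 4) (nat_lit 2) (nat_lit 4) (nat_lit 493) (nat_lit 406) (nat_lit 301)))) (XT.nd (nat_lit 78) (nat_lit 76) (nat_lit 0) (XT.lf (nat_lit 0) (nat_lit 461623853911) (nat_lit 152) (nat_lit 85078969707) (nat_lit 0) (nat_lit 447044639741) (nat_lit 2) (nat_lit 5) (nat_lit 4) (nat_lit 4) (nat_lit 2) (nat_lit 4) (nat_lit 494) (nat_lit 406) (nat_lit 300)) (XT.nd (nat_lit 78) (nat_lit 76) (nat_lit 0) (XT.lf (nat_lit 0) (nat_lit 530997419467) (nat_lit 152) (nat_lit 23142170765) (nat_lit 0) (nat_lit 516417895835) (nat_lit 2) (nat_lit 5) (nat_lit 4) (nat_lit 4) (nat_lit 2) (nat_lit 4) (nat_lit 495) (nat_lit 406) (nat_lit 299)) (XT.lf (nat_lit 0) (nat_lit 46050391297) (nat_lit 76) (nat_lit 560976619145) (nat_lit 76) (nat_lit 546396808974) (nat_lit 1) (nat_lit 4) (nat_lit 2) (nat_lit 5) (nat_lit 2) (nat_lit 4) (nat_lit 496) (nat_lit 406) (nat_lit 298))))))) (XT.nd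 (nat_lit 858) (nat_lit 0) (nat_lit 0) (XT.nd (nat_lit 390) (nat_lit 0) (nat_lit 0) (XT.nd (nat_lit 156) (nat_lit 0) (nat_lit 0) (XT.nd (nat_lit 78) (nat_lit 0) (nat_lit 0) (XT.lf (nat_lit 0) (nat_lit 122091737295) (nat_lit 76) (nat_lit 567678642390) (nat_lit 76) (nat_lit 553098566906) (nat_lit 1) (nat_lit 4) (nat_lit 2) (nat_lit 5) (nat_lit 2) (nat_lit 4) (nat_lit 497) (nat_lit 406) (nat_lit 297)) (XT.lf (nat_lit 0) (nat_lit 204213856911) (nat_lit 76) (nat_lit 574918123621) (nat_lit 76) (nat_lit 560337802476) (nat_lit 1) (nat_lit 4) (nat_lit 2) (nat_lit 5) (nat_lit 2) (nat_lit 4) (nat_lit 498) (nat_lit 406) (nat_lit 296))) (XT.nd (nat_lit 78) (nat_lit 0) (nat_lit 0) (XT.lf (nat_lit 0) (nat_lit 292903399741) (nat_lit 76) (nat_lit 582737963466) (nat_lit 76) (nat_lit 568157414858) (nat_lit 1) (nat_lit 4) (nat_lit 2) (nat_lit 5) (nat_lit 2) (nat_lit 4) (nat_lit 499) (nat_lit 406) (nat_lit 295))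 (XT.nd (nat_lit 78) (nat_lit 0) (nat_lit 0) (XT.lf (nat_lit 0) (nat_lit 388685933449) (nat_lit 76) (nat_lit 591184501719) (nat_lit 76) (nat_lit 576603742497) (nat_lit 1) (nat_lit 4) (nat_lit 2) (nat_lit 5) (nat_lit 2) (nat_lit 4) (nat_lit 500) (nat_lit 406) (nat_lit 294)) (XT.lf (nat_lit 0) (nat_lit 492129058232) (nat_lit 76) (nat_lit 600307791939) (nat_lit 76) (nat_lit 585726837704) (nat_lit 1) (nat_lit 4) (nat_lit 2) (nat_lit 5) (nat_lit 2) (nat_lit 4) (nat_lit 501) (nat_lit 406) (nat_lit 293))))) (XT.nd (nat_lit 234) (nat_lit 0) (nat_lit 0) (XT.nd (nat_lit 78) (nat_lit 0) (nat_lit 0) (XT.lf (nat_lit 0) (nat_lit 603845770387) (nat_lit 76) (nat_lit 610161898068) (nat_lit 76) (nat_lit 595580763265) (nat_lit 1) (nat_lit 4) (nat_lit 2) (nat_lit 5) (nat_lit 2) (nat_lit 4) (nat_lit 502) (nat_lit 406) (nat_lit 292)) (XT.nd (nat_lit 78) (nat_lit 0) (nat_lit 0) (XT.lf (nat_lit 0) (nat_lit 724498094874)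 (nat_lit 76) (nat_lit 620805214809) (nat_lit 76) (nat_lit 606223912813) (nat_lit 1) (nat_lit 4) (nat_lit 2) (nat_lit 5) (nat_lit 2) (nat_lit 4) (nat_lit 503) (nat_lit 406) (nat_lit 291)) (XT.lf (nat_lit 0) (nat_lit 854801008431) (nat_lit 76) (nat_lit 632300813669) (nat_lit 76) (nat_lit 617719356865) (nat_lit 1) (nat_lit 4) (nat_lit 2) (nat_lit 5) (nat_lit 2) (nat_lit 4) (nat_lit 504) (nat_lit 406) (nat_lit 290)))) (XT.nd (nat_lit 78) (nat_lit 0) (nat_lit 0) (XT.lf (nat_lit 0) (nat_lit 995526676472) (nat_lit 76) (nat_lit 644716816715) (nat_lit 76) (nat_lit 630135216570) (nat_lit 1) (nat_lit 4) (nat_lit 2) (nat_lit 5) (nat_lit 2) (nat_lit 4) (nat_lit 505) (nat_lit 406) (nat_lit 289)) (XT.nd (nat_lit 78) (nat_lit 0) (nat_lit 0) (XT.lf (nat_lit 0) (nat_lit 1147509028880) (nat_lit 76) (nat_lit 658126800261) (nat_lit 76) (nat_lit 643545067393) (nat_lit 1) (nat_lit 4) (nat_lit 2) (nat_lit 5) (nat_lit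 2) (nat_lit 4) (nat_lit 506) (nat_lit 406) (nat_lit 288)) (XT.lf (nat_lit 0) (nat_lit 1311648701820) (nat_lit 76) (nat_lit 672610230876) (nat_lit 76) (nat_lit 658028375118) (nat_lit 1) (nat_lit 4) (nat_lit 2) (nat_lit 5) (nat_lit 2) (nat_lit 4) (nat_lit 507) (nat_lit 406) (nat_lit 287)))))) (XT.nd (nat_lit 468) (nat_lit 0) (nat_lit 0) (XT.nd (nat_lit 234) (nat_lit 0) (nat_lit 0) (XT.nd (nat_lit 78) (nat_lit 0) (nat_lit 0) (XT.lf (nat_lit 0) (nat_lit 1488918374833) (nat_lit 76) (nat_lit 688252936298) (nat_lit 76) (nat_lit 673670966751) (nat_lit 1) (nat_lit 4) (nat_lit 2) (nat_lit 5) (nat_lit 2) (nat_lit 4) (nat_lit 508) (nat_lit 406) (nat_lit 286)) (XT.nd (nat_lit 78) (nat_lit 0) (nat_lit 0) (XT.lf (nat_lit 0) (nat_lit 1680368534872) (nat_lit 76) (nat_lit 705147614040) (nat_lit 76) (nat_lit 690565539133) (nat_lit 1) (nat_lit 4) (nat_lit 2) (nat_lit 5) (nat_lit 2) (nat_lit 4) (nat_lit 509)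 (nat_lit 406) (nat_lit 285)) (XT.lf (nat_lit 0) (nat_lit 1887133701402) (nat_lit 76) (nat_lit 723394380711) (nat_lit 76) (nat_lit 708812208249) (nat_lit 1) (nat_lit 4) (nat_lit 2) (nat_lit 5) (nat_lit 2) (nat_lit 4) (nat_lit 510) (nat_lit 406) (nat_lit 284)))) (XT.nd (nat_lit 78) (nat_lit 0) (nat_lit 0) (XT.lf (nat_lit 0) (nat_lit 2110439149486) (nat_lit 76) (nat_lit 743101365298) (nat_lit 76) (nat_lit 728519102508) (nat_lit 1) (nat_lit 4) (nat_lit 2) (nat_lit 5) (nat_lit 2) (nat_lit 4) (nat_lit 511) (nat_lit 406) (nat_lit 283)) (XT.nd (nat_lit 78) (nat_lit 0) (nat_lit 0) (XT.lf (nat_lit 0) (nat_lit 2351608170667) (nat_lit 76) (nat_lit 764385349933) (nat_lit 76) (nat_lit 749803003505) (nat_lit 1) (nat_lit 4) (nat_lit 2) (nat_lit 5) (nat_lit 2) (nat_lit 4) (nat_lit 512) (nat_lit 406) (nat_lit 282)) (XT.lf (nat_lit 0) (nat_lit 2612069914701) (nat_lit 76) (nat_lit 787372461932) (nat_lit 76)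 (nat_lit 772790038061) (nat_lit 1) (nat_lit 4) (nat_lit 2) (nat_lit 5) (nat_lit 2) (nat_lit 4) (nat_lit 513) (nat_lit 406) (nat_lit 281))))) (XT.nd (nat_lit 234) (nat_lit 0) (nat_lit 0) (XT.nd (nat_lit 78) (nat_lit 0) (nat_lit 0) (XT.lf (nat_lit 0) (nat_lit 2893367858588) (nat_lit 76) (nat_lit 812198921218) (nat_lit 76) (nat_lit 797616425641) (nat_lit 1) (nat_lit 4) (nat_lit 2) (nat_lit 5) (nat_lit 2) (nat_lit 4) (nat_lit 514) (nat_lit 406) (nat_lit 280)) (XT.nd (nat_lit 78) (nat_lit 0) (nat_lit 0) (XT.lf (nat_lit 0) (nat_lit 3197168953108) (nat_lit 76) (nat_lit 839011847549) (nat_lit 76) (nat_lit 824429285578) (nat_lit 1) (nat_lit 4) (nat_lit 2) (nat_lit 5) (nat_lit 2) (nat_lit 4) (nat_lit 515) (nat_lit 406) (nat_lit 279)) (XT.lf (nat_lit 0) (nat_lit 3525273501043) (nat_lit 76) (nat_lit 867970132341) (nat_lit 76) (nat_lit 853387508893) (nat_lit 1) (nat_lit 4) (nat_lit 2) (nat_lit 5) (nat_lit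 2) (nat_lit 4) (nat_lit 516) (nat_lit 406) (nat_lit 278)))) (XT.nd (nat_lit 78) (nat_lit 0) (nat_lit 0) (XT.lf (nat_lit 0) (nat_lit 3879625825640) (nat_lit 76) (nat_lit 899245380244) (nat_lit 76) (nat_lit 884662699874) (nat_lit 1) (nat_lit 4) (nat_lit 2) (nat_lit 5) (nat_lit 2) (nat_lit 4) (nat_lit 517) (nat_lit 406) (nat_lit 277)) (XT.nd (nat_lit 78) (nat_lit 0) (nat_lit 0) (XT.lf (nat_lit 0) (nat_lit 4262325792526) (nat_lit 76) (nat_lit 933022926061) (nat_lit 76) (nat_lit 918440192985) (nat_lit 1) (nat_lit 4) (nat_lit 2) (nat_lit 5) (nat_lit 2) (nat_lit 4) (nat_lit 518) (nat_lit 406) (nat_lit 276)) (XT.lf (nat_lit 0) (nat_lit 4675641253357) (nat_lit 76) (nat_lit 969502933027) (nat_lit 76) (nat_lit 954920151149) (nat_lit 1) (nat_lit 4) (nat_lit 2) (nat_lit 5) (nat_lit 2) (nat_lit 4) (nat_lit 519) (nat_lit 406) (nat_lit 275))))))))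
noncomputable def xc112 : XT := (XT.nd (nat_lit 54756) (nat_lit 0) (nat_lit 1900) (XT.nd (nat_lit 53898) (nat_lit 0) (nat_lit 3952) (XT.nd (nat_lit 390) (nat_lit 0) (nat_lit 0) (XT.nd (nat_lit 156) (nat_lit 0) (nat_lit 0) (XT.nd (nat_lit 78) (nat_lit 0) (nat_lit 0) (XT.lf (nat_lit 0) (nat_lit 5122021484938) (nat_lit 76) (nat_lit 1008901578960) (nat_lit 76) (nat_lit 994318751895) (nat_lit 1) (nat_lit 4) (nat_lit 2) (nat_lit 5) (nat_lit 2) (nat_lit 4) (nat_lit 520) (nat_lit 406) (nat_lit 274)) (XT.lf (nat_lit 0) (nat_lit 5604111703456) (nat_lit 76) (nat_lit 1051452337317) (nat_lit 76) (nat_lit 1036869468412) (nat_lit 1) (nat_lit 4) (nat_lit 2) (nat_lit 5) (nat_lit 2) (nat_lit 4) (nat_lit 521) (nat_lit 406) (nat_lit 273))) (XT.nd (nat_lit 78) (nat_lit 0) (nat_lit 0) (XT.lf (nat_lit 0) (nat_lit 6124768739836) (nat_lit 76) (nat_lit 1097407360742) (nat_lit 76) (nat_lit 1082824453096) (nat_lit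 1) (nat_lit 4) (nat_lit 2) (nat_lit 5) (nat_lit 2) (nat_lit 4) (nat_lit 522) (nat_lit 406) (nat_lit 272)) (XT.nd (nat_lit 78) (nat_lit 0) (nat_lit 0) (XT.lf (nat_lit 0) (nat_lit 6687077969107) (nat_lit 76) (nat_lit 1147038975298) (nat_lit 76) (nat_lit 1132456031782) (nat_lit 1) (nat_lit 4) (nat_lit 2) (nat_lit 5) (nat_lit 2) (nat_lit 4) (nat_lit 523) (nat_lit 406) (nat_lit 271)) (XT.lf (nat_lit 0) (nat_lit 7294371594110) (nat_lit 76) (nat_lit 1200641294257) (nat_lit 76) (nat_lit 1186058317527) (nat_lit 1) (nat_lit 4) (nat_lit 2) (nat_lit 5) (nat_lit 2) (nat_lit 4) (nat_lit 524) (nat_lit 406) (nat_lit 270))))) (XT.nd (nat_lit 53274) (nat_lit 0) (nat_lit 5700) (XT.nd (nat_lit 78) (nat_lit 0) (nat_lit 0) (XT.lf (nat_lit 0) (nat_lit 7950248391883) (nat_lit 76) (nat_lit 1258531960990) (nat_lit 76) (nat_lit 1243948953507) (nat_lit 1) (nat_lit 4) (nat_lit 2) (nat_lit 5) (nat_lit 2) (nat_lit 4)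 (nat_lit 525) (nat_lit 406) (nat_lit 269)) (XT.nd (nat_lit 78) (nat_lit 0) (nat_lit 0) (XT.lf (nat_lit 0) (nat_lit 8658595039744) (nat_lit 76) (nat_lit 1321054031302) (nat_lit 76) (nat_lit 1306470995343) (nat_lit 1) (nat_lit 4) (nat_lit 2) (nat_lit 5) (nat_lit 2) (nat_lit 4) (nat_lit 526) (nat_lit 406) (nat_lit 268)) (XT.lf (nat_lit 0) (nat_lit 9423609147460) (nat_lit 76) (nat_lit 1388578006348) (nat_lit 76) (nat_lit 1373994944023) (nat_lit 1) (nat_lit 4) (nat_lit 2) (nat_lit 5) (nat_lit 2) (nat_lit 4) (nat_lit 527) (nat_lit 406) (nat_lit 267)))) (XT.nd (nat_lit 78) (nat_lit 0) (nat_lit 0) (XT.lf (nat_lit 0) (nat_lit 723868822) (nat_lit 0) (nat_lit 723868822) (nat_lit 380) (nat_lit 2478001185) (nat_lit 76) (nat_lit 5) (nat_lit 76) (nat_lit 3) (nat_lit 81) (nat_lit 3) (nat_lit 407) (nat_lit 407) (nat_lit 386)) (XT.nd (nat_lit 78) (nat_lit 0) (nat_lit 0) (XT.lf (nat_lit 0) (nat_lit 4275349440)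 (nat_lit 380) (nat_lit 2550297687) (nat_lit 456) (nat_lit 1237845668) (nat_lit 76) (nat_lit 5) (nat_lit 81) (nat_lit 3) (nat_lit 82) (nat_lit 5) (nat_lit 408) (nat_lit 407) (nat_lit 385)) (XT.lf (nat_lit 76) (nat_lit 1579734100) (nat_lit 0) (nat_lit 4139627676) (nat_lit 456) (nat_lit 2576899504) (nat_lit 77) (nat_lit 5) (nat_lit 76) (nat_lit 5) (nat_lit 82) (nat_lit 5) (nat_lit 409) (nat_lit 407) (nat_lit 384)))))) (XT.nd (nat_lit 390) (nat_lit 1368) (nat_lit 0) (XT.nd (nat_lit 156) (nat_lit 0) (nat_lit 0) (XT.nd (nat_lit 78) (nat_lit 380) (nat_lit 0) (XT.lf (nat_lit 76) (nat_lit 6113949883) (nat_lit 0) (nat_lit 1120138972) (nat_lit 456) (nat_lit 1317232074) (nat_lit 77) (nat_lit 5) (nat_lit 76) (nat_lit 5) (nat_lit 82) (nat_lit 5) (nat_lit 410) (nat_lit 407) (nat_lit 383)) (XT.lf (nat_lit 0) (nat_lit 39412869) (nat_lit 456) (nat_lit 6662535245) (nat_lit 532) (nat_lit 2124957888) (nat_lit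 71) (nat_lit 5) (nat_lit 77) (nat_lit 5) (nat_lit 78) (nat_lit 5) (nat_lit 411) (nat_lit 407) (nat_lit 382))) (XT.nd (nat_lit 78) (nat_lit 0) (nat_lit 76) (XT.lf (nat_lit 0) (nat_lit 1429175856) (nat_lit 456) (nat_lit 1990395560) (nat_lit 532) (nat_lit 5702636887) (nat_lit 71) (nat_lit 5) (nat_lit 77) (nat_lit 5) (nat_lit 78) (nat_lit 5) (nat_lit 412) (nat_lit 407) (nat_lit 381)) (XT.nd (nat_lit 78) (nat_lit 0) (nat_lit 0) (XT.lf (nat_lit 0) (nat_lit 2916923004) (nat_lit 456) (nat_lit 6308777434) (nat_lit 76) (nat_lit 216552712) (nat_lit 72) (nat_lit 5) (nat_lit 78) (nat_lit 5) (nat_lit 73) (nat_lit 5) (nat_lit 413) (nat_lit 407) (nat_lit 380)) (XT.lf (nat_lit 0) (nat_lit 4579847515) (nat_lit 456) (nat_lit 1172236051) (nat_lit 76) (nat_lit 4031383389) (nat_lit 72) (nat_lit 5) (nat_lit 78) (nat_lit 5) (nat_lit 73) (nat_lit 5) (nat_lit 414) (nat_lit 407) (nat_lit 379))))) (XT.nd (nat_lit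 234) (nat_lit 532) (nat_lit 0) (XT.nd (nat_lit 78) (nat_lit 456) (nat_lit 0) (XT.lf (nat_lit 0) (nat_lit 4528711243) (nat_lit 456) (nat_lit 1874068765) (nat_lit 532) (nat_lit 3747093615) (nat_lit 66) (nat_lit 5) (nat_lit 72) (nat_lit 5) (nat_lit 73) (nat_lit 5) (nat_lit 415) (nat_lit 407) (nat_lit 378)) (XT.nd (nat_lit 78) (nat_lit 0) (nat_lit 0) (XT.lf (nat_lit 0) (nat_lit 79224108) (nat_lit 456) (nat_lit 8305336851) (nat_lit 532) (nat_lit 2160040462) (nat_lit 60) (nat_lit 5) (nat_lit 66) (nat_lit 5) (nat_lit 67) (nat_lit 5) (nat_lit 416) (nat_lit 407) (nat_lit 377)) (XT.lf (nat_lit 0) (nat_lit 6428424827) (nat_lit 456) (nat_lit 4224081734) (nat_lit 532) (nat_lit 308237132) (nat_lit 60) (nat_lit 5) (nat_lit 66) (nat_lit 5) (nat_lit 67) (nat_lit 5) (nat_lit 417) (nat_lit 407) (nat_lit 376)))) (XT.nd (nat_lit 78) (nat_lit 228) (nat_lit 0) (XT.lf (nat_lit 0) (nat_lit 1588324998) (nat_lit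 304) (nat_lit 9561870042) (nat_lit 76) (nat_lit 258267649) (nat_lit 56) (nat_lit 5) (nat_lit 60) (nat_lit 5) (nat_lit 57) (nat_lit 5) (nat_lit 418) (nat_lit 407) (nat_lit 375)) (XT.nd (nat_lit 78) (nat_lit 228) (nat_lit 0) (XT.lf (nat_lit 0) (nat_lit 3790253207) (nat_lit 304) (nat_lit 3086576208) (nat_lit 76) (nat_lit 5000942320) (nat_lit 56) (nat_lit 5) (nat_lit 60) (nat_lit 5) (nat_lit 57) (nat_lit 5) (nat_lit 419) (nat_lit 407) (nat_lit 374)) (XT.lf (nat_lit 0) (nat_lit 4037292195) (nat_lit 228) (nat_lit 2166508168) (nat_lit 304) (nat_lit 6178021792) (nat_lit 53) (nat_lit 5) (nat_lit 56) (nat_lit 5) (nat_lit 57) (nat_lit 5) (nat_lit 420) (nat_lit 407) (nat_lit 373))))))) (XT.nd (nat_lit 858) (nat_lit 912) (nat_lit 0) (XT.nd (nat_lit 390) (nat_lit 532) (nat_lit 0) (XT.nd (nat_lit 156) (nat_lit 456) (nat_lit 0) (XT.nd (nat_lit 78) (nat_lit 152) (nat_lit 0) (XT.lf (nat_lit 0) (nat_lit 8908255097)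 (nat_lit 304) (nat_lit 1159344407) (nat_lit 76) (nat_lit 2850802526) (nat_lit 53) (nat_lit 5) (nat_lit 57) (nat_lit 5) (nat_lit 54) (nat_lit 5) (nat_lit 421) (nat_lit 407) (nat_lit 372)) (XT.lf (nat_lit 0) (nat_lit 6816801767) (nat_lit 152) (nat_lit 5177850048) (nat_lit 228) (nat_lit 1490038631) (nat_lit 51) (nat_lit 5) (nat_lit 53) (nat_lit 5) (nat_lit 54) (nat_lit 5) (nat_lit 422) (nat_lit 407) (nat_lit 371))) (XT.nd (nat_lit 78) (nat_lit 152) (nat_lit 0) (XT.lf (nat_lit 0) (nat_lit 1186564855) (nat_lit 304) (nat_lit 12725839803) (nat_lit 76) (nat_lit 180212387) (nat_lit 47) (nat_lit 5) (nat_lit 51) (nat_lit 5) (nat_lit 48) (nat_lit 5) (nat_lit 423) (nat_lit 407) (nat_lit 370)) (XT.nd (nat_lit 78) (nat_lit 152) (nat_lit 0) (XT.lf (nat_lit 0) (nat_lit 4266692294) (nat_lit 304) (nat_lit 4560746152) (nat_lit 76) (nat_lit 5897074447) (nat_lit 47) (nat_lit 5) (nat_lit 51) (nat_lit 5) (nat_lit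 48) (nat_lit 5) (nat_lit 424) (nat_lit 407) (nat_lit 369)) (XT.lf (nat_lit 0) (nat_lit 4411913025) (nat_lit 152) (nat_lit 3239608317) (nat_lit 228) (nat_lit 7750797073) (nat_lit 45) (nat_lit 5) (nat_lit 47) (nat_lit 5) (nat_lit 48) (nat_lit 5) (nat_lit 425) (nat_lit 407) (nat_lit 368))))) (XT.nd (nat_lit 234) (nat_lit 152) (nat_lit 0) (XT.nd (nat_lit 78) (nat_lit 380) (nat_lit 0) (XT.lf (nat_lit 0) (nat_lit 11456018810) (nat_lit 228) (nat_lit 1900975733) (nat_lit 76) (nat_lit 2765463006) (nat_lit 45) (nat_lit 5) (nat_lit 48) (nat_lit 5) (nat_lit 46) (nat_lit 5) (nat_lit 426) (nat_lit 407) (nat_lit 367)) (XT.nd (nat_lit 78) (nat_lit 228) (nat_lit 0) (XT.lf (nat_lit 0) (nat_lit 8177675327) (nat_lit 152) (nat_lit 7625166460) (nat_lit 228) (nat_lit 1078347045) (nat_lit 43) (nat_lit 5) (nat_lit 45) (nat_lit 5) (nat_lit 46) (nat_lit 5) (nat_lit 427) (nat_lit 407) (nat_lit 366)) (XT.lf (nat_lit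 0) (nat_lit 1412813864) (nat_lit 152) (nat_lit 1289137937) (nat_lit 228) (nat_lit 14989696119) (nat_lit 40) (nat_lit 5) (nat_lit 42) (nat_lit 5) (nat_lit 43) (nat_lit 5) (nat_lit 428) (nat_lit 407) (nat_lit 365)))) (XT.nd (nat_lit 78) (nat_lit 152) (nat_lit 0) (XT.lf (nat_lit 0) (nat_lit 7063024400) (nat_lit 228) (nat_lit 5946898434) (nat_lit 76) (nat_lit 5527866000) (nat_lit 40) (nat_lit 5) (nat_lit 43) (nat_lit 5) (nat_lit 41) (nat_lit 5) (nat_lit 429) (nat_lit 407) (nat_lit 364)) (XT.nd (nat_lit 78) (nat_lit 0) (nat_lit 0) (XT.lf (nat_lit 0) (nat_lit 5387757032) (nat_lit 152) (nat_lit 6510220482) (nat_lit 228) (nat_lit 7543657367) (nat_lit 38) (nat_lit 5) (nat_lit 40) (nat_lit 5) (nat_lit 41) (nat_lit 5) (nat_lit 430) (nat_lit 407) (nat_lit 363)) (XT.lf (nat_lit 0) (nat_lit 17261630634) (nat_lit 228) (nat_lit 2514641256) (nat_lit 76) (nat_lit 630176856) (nat_lit 38) (nat_lit 5) (nat_lit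 41) (nat_lit 5) (nat_lit 39) (nat_lit 4) (nat_lit 431) (nat_lit 407) (nat_lit 362)))))) (XT.nd (nat_lit 468) (nat_lit 304) (nat_lit 0) (XT.nd (nat_lit 234) (nat_lit 304) (nat_lit 0) (XT.nd (nat_lit 78) (nat_lit 152) (nat_lit 0) (XT.lf (nat_lit 0) (nat_lit 1916288632) (nat_lit 152) (nat_lit 11232180754) (nat_lit 76) (nat_lit 8265643561) (nat_lit 36) (nat_lit 5) (nat_lit 38) (nat_lit 5) (nat_lit 37) (nat_lit 5) (nat_lit 432) (nat_lit 407) (nat_lit 361)) (XT.nd (nat_lit 78) (nat_lit 0) (nat_lit 0) (XT.lf (nat_lit 0) (nat_lit 1473963783) (nat_lit 152) (nat_lit 5810348506) (nat_lit 228) (nat_lit 15205798762) (nat_lit 34) (nat_lit 5) (nat_lit 36) (nat_lit 5) (nat_lit 37) (nat_lit 5) (nat_lit 433) (nat_lit 407) (nat_lit 360)) (XT.lf (nat_lit 0) (nat_lit 13414322012) (nat_lit 228) (nat_lit 7908393159) (nat_lit 76) (nat_lit 2302879441) (nat_lit 34) (nat_lit 5) (nat_lit 37) (nat_lit 5) (nat_lit 35)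 (nat_lit 4) (nat_lit 434) (nat_lit 407) (nat_lit 359)))) (XT.nd (nat_lit 78) (nat_lit 228) (nat_lit 0) (XT.lf (nat_lit 0) (nat_lit 6362256389) (nat_lit 76) (nat_lit 13945479000) (nat_lit 152) (nat_lit 4522349705) (nat_lit 33) (nat_lit 5) (nat_lit 34) (nat_lit 5) (nat_lit 35) (nat_lit 4) (nat_lit 435) (nat_lit 407) (nat_lit 358)) (XT.nd (nat_lit 78) (nat_lit 152) (nat_lit 0) (XT.lf (nat_lit 0) (nat_lit 1731745104) (nat_lit 152) (nat_lit 3987290149) (nat_lit 76) (nat_lit 20393492177) (nat_lit 32) (nat_lit 5) (nat_lit 34) (nat_lit 5) (nat_lit 33) (nat_lit 5) (nat_lit 436) (nat_lit 407) (nat_lit 357)) (XT.lf (nat_lit 0) (nat_lit 8590434166) (nat_lit 228) (nat_lit 15463815061) (nat_lit 76) (nat_lit 3406038272) (nat_lit 30) (nat_lit 5) (nat_lit 33) (nat_lit 5) (nat_lit 31) (nat_lit 4) (nat_lit 437) (nat_lit 407) (nat_lit 356))))) (XT.nd (nat_lit 234) (nat_lit 76) (nat_lit 0) (XT.nd (nat_lit 78)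 (nat_lit 152) (nat_lit 0) (XT.lf (nat_lit 0) (nat_lit 397188247) (nat_lit 76) (nat_lit 15842634515) (nat_lit 152) (nat_lit 12656691482) (nat_lit 29) (nat_lit 5) (nat_lit 30) (nat_lit 5) (nat_lit 31) (nat_lit 4) (nat_lit 438) (nat_lit 407) (nat_lit 355)) (XT.nd (nat_lit 78) (nat_lit 152) (nat_lit 0) (XT.lf (nat_lit 0) (nat_lit 18357922159) (nat_lit 76) (nat_lit 6539004235) (nat_lit 152) (nat_lit 5519057381) (nat_lit 29) (nat_lit 5) (nat_lit 30) (nat_lit 5) (nat_lit 31) (nat_lit 4) (nat_lit 439) (nat_lit 407) (nat_lit 354)) (XT.lf (nat_lit 0) (nat_lit 2285061078) (nat_lit 152) (nat_lit 26238106190) (nat_lit 76) (nat_lit 3513235316) (nat_lit 27) (nat_lit 5) (nat_lit 29) (nat_lit 5) (nat_lit 28) (nat_lit 4) (nat_lit 440) (nat_lit 407) (nat_lit 353)))) (XT.nd (nat_lit 78) (nat_lit 76) (nat_lit 0) (XT.lf (nat_lit 0) (nat_lit 10898065400) (nat_lit 152) (nat_lit 8359606541) (nat_lit 76) (nat_lit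 14478701053) (nat_lit 27) (nat_lit 5) (nat_lit 29) (nat_lit 5) (nat_lit 28) (nat_lit 4) (nat_lit 441) (nat_lit 407) (nat_lit 352)) (XT.nd (nat_lit 78) (nat_lit 0) (nat_lit 0) (XT.lf (nat_lit 0) (nat_lit 11480236281) (nat_lit 76) (nat_lit 8972485274) (nat_lit 152) (nat_lit 15099414796) (nat_lit 26) (nat_lit 5) (nat_lit 27) (nat_lit 5) (nat_lit 28) (nat_lit 4) (nat_lit 442) (nat_lit 407) (nat_lit 351)) (XT.lf (nat_lit 0) (nat_lit 31034385035) (nat_lit 152) (nat_lit 4212976179) (nat_lit 0) (nat_lit 2244792699) (nat_lit 26) (nat_lit 5) (nat_lit 28) (nat_lit 4) (nat_lit 26) (nat_lit 4) (nat_lit 443) (nat_lit 407) (nat_lit 350))))))))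
noncomputable def xc113 : XT := (XT.nd (nat_lit 1716) (nat_lit 608) (nat_lit 0) (XT.nd (nat_lit 858) (nat_lit 532) (nat_lit 0) (XT.nd (nat_lit 390) (nat_lit 304) (nat_lit 0) (XT.nd (nat_lit 156) (nat_lit 228) (nat_lit 0) (XT.nd (nat_lit 78) (nat_lit 0) (nat_lit 0) (XT.lf (nat_lit 0) (nat_lit 3388969175) (nat_lit 152) (nat_lit 21767401307) (nat_lit 76) (nat_lit 14372866648) (nat_lit 24) (nat_lit 5) (nat_lit 26) (nat_lit 5) (nat_lit 25) (nat_lit 4) (nat_lit 444) (nat_lit 407) (nat_lit 349)) (XT.lf (nat_lit 0) (nat_lit 13771338367) (nat_lit 152) (nat_lit 196948253) (nat_lit 76) (nat_lit 27739842408) (nat_lit 24) (nat_lit 5) (nat_lit 26) (nat_lit 5) (nat_lit 25) (nat_lit 4) (nat_lit 445) (nat_lit 407) (nat_lit 348))) (XT.nd (nat_lit 78) (nat_lit 152) (nat_lit 0) (XT.lf (nat_lit 0) (nat_lit 24276144393) (nat_lit 76) (nat_lit 1272177114) (nat_lit 152) (nat_lit 18467891702) (nat_lit 23) (nat_lit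 5) (nat_lit 24) (nat_lit 5) (nat_lit 25) (nat_lit 4) (nat_lit 446) (nat_lit 407) (nat_lit 347)) (XT.nd (nat_lit 78) (nat_lit 76) (nat_lit 0) (XT.lf (nat_lit 0) (nat_lit 4076830351) (nat_lit 76) (nat_lit 34573738859) (nat_lit 76) (nat_lit 7827729108) (nat_lit 22) (nat_lit 4) (nat_lit 23) (nat_lit 5) (nat_lit 23) (nat_lit 4) (nat_lit 447) (nat_lit 407) (nat_lit 346)) (XT.lf (nat_lit 0) (nat_lit 4047603689) (nat_lit 152) (nat_lit 18345277845) (nat_lit 76) (nat_lit 26692043917) (nat_lit 21) (nat_lit 5) (nat_lit 23) (nat_lit 5) (nat_lit 22) (nat_lit 4) (nat_lit 448) (nat_lit 407) (nat_lit 345))))) (XT.nd (nat_lit 234) (nat_lit 152) (nat_lit 0) (XT.nd (nat_lit 78) (nat_lit 76) (nat_lit 0) (XT.lf (nat_lit 0) (nat_lit 7786754402) (nat_lit 76) (nat_lit 8832465471) (nat_lit 152) (nat_lit 35251066993) (nat_lit 20) (nat_lit 5) (nat_lit 21) (nat_lit 5) (nat_lit 22) (nat_lit 4) (nat_lit 449) (nat_lit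 407) (nat_lit 344)) (XT.nd (nat_lit 78) (nat_lit 76) (nat_lit 0) (XT.lf (nat_lit 0) (nat_lit 30833000030) (nat_lit 152) (nat_lit 17973507214) (nat_lit 0) (nat_lit 6021057139) (nat_lit 20) (nat_lit 5) (nat_lit 22) (nat_lit 4) (nat_lit 20) (nat_lit 4) (nat_lit 450) (nat_lit 407) (nat_lit 343)) (XT.lf (nat_lit 0) (nat_lit 10488165046) (nat_lit 76) (nat_lit 36160721289) (nat_lit 76) (nat_lit 11335339282) (nat_lit 19) (nat_lit 4) (nat_lit 20) (nat_lit 5) (nat_lit 20) (nat_lit 4) (nat_lit 451) (nat_lit 407) (nat_lit 342)))) (XT.nd (nat_lit 78) (nat_lit 76) (nat_lit 0) (XT.lf (nat_lit 0) (nat_lit 2707328869) (nat_lit 152) (nat_lit 19206581583) (nat_lit 76) (nat_lit 39436007788) (nat_lit 18) (nat_lit 5) (nat_lit 20) (nat_lit 5) (nat_lit 19) (nat_lit 4) (nat_lit 452) (nat_lit 407) (nat_lit 341)) (XT.nd (nat_lit 78) (nat_lit 0) (nat_lit 0) (XT.lf (nat_lit 0) (nat_lit 11601956126) (nat_lit 76) (nat_lit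 5922709083) (nat_lit 152) (nat_lit 47415555959) (nat_lit 17) (nat_lit 5) (nat_lit 18) (nat_lit 5) (nat_lit 19) (nat_lit 4) (nat_lit 453) (nat_lit 407) (nat_lit 340)) (XT.lf (nat_lit 0) (nat_lit 34323804029) (nat_lit 152) (nat_lit 23124961611) (nat_lit 0) (nat_lit 11305270776) (nat_lit 17) (nat_lit 5) (nat_lit 19) (nat_lit 4) (nat_lit 17) (nat_lit 4) (nat_lit 454) (nat_lit 407) (nat_lit 339)))))) (XT.nd (nat_lit 390) (nat_lit 304) (nat_lit 0) (XT.nd (nat_lit 156) (nat_lit 152) (nat_lit 0) (XT.nd (nat_lit 78) (nat_lit 0) (nat_lit 0) (XT.lf (nat_lit 0) (nat_lit 9814627492) (nat_lit 76) (nat_lit 43027975980) (nat_lit 76) (nat_lit 20000296290) (nat_lit 16) (nat_lit 4) (nat_lit 17) (nat_lit 5) (nat_lit 17) (nat_lit 4) (nat_lit 455) (nat_lit 407) (nat_lit 338)) (XT.lf (nat_lit 0) (nat_lit 46677317931) (nat_lit 76) (nat_lit 26784111113) (nat_lit 76) (nat_lit 3747962500) (nat_lit 16) (nat_lit 4)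 (nat_lit 17) (nat_lit 5) (nat_lit 17) (nat_lit 4) (nat_lit 456) (nat_lit 407) (nat_lit 337))) (XT.nd (nat_lit 78) (nat_lit 0) (nat_lit 0) (XT.lf (nat_lit 0) (nat_lit 4427421590) (nat_lit 76) (nat_lit 8779987928) (nat_lit 152) (nat_lit 68683761222) (nat_lit 14) (nat_lit 5) (nat_lit 15) (nat_lit 5) (nat_lit 16) (nat_lit 4) (nat_lit 457) (nat_lit 407) (nat_lit 336)) (XT.nd (nat_lit 78) (nat_lit 0) (nat_lit 0) (XT.lf (nat_lit 0) (nat_lit 32416681027) (nat_lit 152) (nat_lit 43362097462) (nat_lit 0) (nat_lit 11072930152) (nat_lit 14) (nat_lit 5) (nat_lit 16) (nat_lit 4) (nat_lit 14) (nat_lit 4) (nat_lit 458) (nat_lit 407) (nat_lit 335)) (XT.lf (nat_lit 0) (nat_lit 53378701695) (nat_lit 152) (nat_lit 6784382217) (nat_lit 0) (nat_lit 32028725909) (nat_lit 14) (nat_lit 5) (nat_lit 16) (nat_lit 4) (nat_lit 14) (nat_lit 4) (nat_lit 459) (nat_lit 407) (nat_lit 334))))) (XT.nd (nat_lit 234) (nat_lit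 76) (nat_lit 0) (XT.nd (nat_lit 78) (nat_lit 152) (nat_lit 0) (XT.lf (nat_lit 0) (nat_lit 34419094858) (nat_lit 76) (nat_lit 42415217184) (nat_lit 76) (nat_lit 21059477591) (nat_lit 13) (nat_lit 4) (nat_lit 14) (nat_lit 5) (nat_lit 14) (nat_lit 4) (nat_lit 460) (nat_lit 407) (nat_lit 333)) (XT.nd (nat_lit 78) (nat_lit 152) (nat_lit 0) (XT.lf (nat_lit 0) (nat_lit 79283009002) (nat_lit 76) (nat_lit 23058012008) (nat_lit 76) (nat_lit 1696935557) (nat_lit 13) (nat_lit 4) (nat_lit 14) (nat_lit 5) (nat_lit 14) (nat_lit 4) (nat_lit 461) (nat_lit 407) (nat_lit 332)) (XT.lf (nat_lit 0) (nat_lit 17452710188) (nat_lit 76) (nat_lit 1210139895) (nat_lit 152) (nat_lit 91941083818) (nat_lit 11) (nat_lit 5) (nat_lit 12) (nat_lit 5) (nat_lit 13) (nat_lit 4) (nat_lit 462) (nat_lit 407) (nat_lit 331)))) (XT.nd (nat_lit 78) (nat_lit 76) (nat_lit 0) (XT.lf (nat_lit 0) (nat_lit 41782270623) (nat_lit 152) (nat_lit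 53816906754) (nat_lit 0) (nat_lit 21994684066) (nat_lit 11) (nat_lit 5) (nat_lit 13) (nat_lit 4) (nat_lit 11) (nat_lit 4) (nat_lit 463) (nat_lit 407) (nat_lit 330)) (XT.nd (nat_lit 78) (nat_lit 76) (nat_lit 0) (XT.lf (nat_lit 0) (nat_lit 66773170376) (nat_lit 152) (nat_lit 11386398226) (nat_lit 0) (nat_lit 46981661069) (nat_lit 11) (nat_lit 5) (nat_lit 13) (nat_lit 4) (nat_lit 11) (nat_lit 4) (nat_lit 464) (nat_lit 407) (nat_lit 329)) (XT.lf (nat_lit 0) (nat_lit 36233386556) (nat_lit 76) (nat_lit 58392566933) (nat_lit 76) (nat_lit 38597425450) (nat_lit 10) (nat_lit 4) (nat_lit 11) (nat_lit 5) (nat_lit 11) (nat_lit 4) (nat_lit 465) (nat_lit 407) (nat_lit 328))))))) (XT.nd (nat_lit 858) (nat_lit 228) (nat_lit 0) (XT.nd (nat_lit 390) (nat_lit 228) (nat_lit 0) (XT.nd (nat_lit 156) (nat_lit 76) (nat_lit 0) (XT.nd (nat_lit 78) (nat_lit 76) (nat_lit 0) (XT.lf (nat_lit 0) (nat_lit 88293051740)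 (nat_lit 76) (nat_lit 36716666381) (nat_lit 76) (nat_lit 16918161773) (nat_lit 10) (nat_lit 4) (nat_lit 11) (nat_lit 5) (nat_lit 11) (nat_lit 4) (nat_lit 466) (nat_lit 407) (nat_lit 327)) (XT.lf (nat_lit 0) (nat_lit 6162377275) (nat_lit 152) (nat_lit 6983873881) (nat_lit 76) (nat_lit 138170643902) (nat_lit 9) (nat_lit 5) (nat_lit 11) (nat_lit 5) (nat_lit 10) (nat_lit 4) (nat_lit 467) (nat_lit 407) (nat_lit 326))) (XT.nd (nat_lit 78) (nat_lit 0) (nat_lit 0) (XT.lf (nat_lit 0) (nat_lit 31590527667) (nat_lit 152) (nat_lit 116465108577) (nat_lit 0) (nat_lit 13253025859) (nat_lit 8) (nat_lit 5) (nat_lit 10) (nat_lit 4) (nat_lit 8) (nat_lit 4) (nat_lit 468) (nat_lit 407) (nat_lit 325)) (XT.nd (nat_lit 78) (nat_lit 0) (nat_lit 0) (XT.lf (nat_lit 0) (nat_lit 59582790058) (nat_lit 152) (nat_lit 71231775736) (nat_lit 0) (nat_lit 41242816253) (nat_lit 8) (nat_lit 5) (nat_lit 10) (nat_lit 4) (nat_lit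 8) (nat_lit 4) (nat_lit 469) (nat_lit 407) (nat_lit 324)) (XT.lf (nat_lit 0) (nat_lit 89807477546) (nat_lit 152) (nat_lit 22393863971) (nat_lit 0) (nat_lit 71465214853) (nat_lit 8) (nat_lit 5) (nat_lit 10) (nat_lit 4) (nat_lit 8) (nat_lit 4) (nat_lit 470) (nat_lit 407) (nat_lit 323))))) (XT.nd (nat_lit 234) (nat_lit 152) (nat_lit 0) (XT.nd (nat_lit 78) (nat_lit 0) (nat_lit 0) (XT.lf (nat_lit 0) (nat_lit 31935583807) (nat_lit 76) (nat_lit 91276167138) (nat_lit 76) (nat_lit 72931785105) (nat_lit 7) (nat_lit 4) (nat_lit 8) (nat_lit 5) (nat_lit 8) (nat_lit 4) (nat_lit 471) (nat_lit 407) (nat_lit 322)) (XT.nd (nat_lit 78) (nat_lit 0) (nat_lit 0) (XT.lf (nat_lit 0) (nat_lit 91872232360) (nat_lit 76) (nat_lit 68022152454) (nat_lit 76) (nat_lit 49675808070) (nat_lit 7) (nat_lit 4) (nat_lit 8) (nat_lit 5) (nat_lit 8) (nat_lit 4) (nat_lit 472) (nat_lit 407) (nat_lit 321)) (XT.lf (nat_lit 0) (nat_lit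 156592040632) (nat_lit 76) (nat_lit 42913783824) (nat_lit 76) (nat_lit 24565622448) (nat_lit 7) (nat_lit 4) (nat_lit 8) (nat_lit 5) (nat_lit 8) (nat_lit 4) (nat_lit 473) (nat_lit 407) (nat_lit 320)))) (XT.nd (nat_lit 78) (nat_lit 76) (nat_lit 0) (XT.lf (nat_lit 0) (nat_lit 2420132949) (nat_lit 152) (nat_lit 13315967242) (nat_lit 76) (nat_lit 223992229742) (nat_lit 6) (nat_lit 5) (nat_lit 8) (nat_lit 5) (nat_lit 7) (nat_lit 4) (nat_lit 474) (nat_lit 407) (nat_lit 319)) (XT.nd (nat_lit 78) (nat_lit 0) (nat_lit 0) (XT.lf (nat_lit 0) (nat_lit 31733046271) (nat_lit 152) (nat_lit 209993025951) (nat_lit 0) (nat_lit 14741007794) (nat_lit 5) (nat_lit 5) (nat_lit 7) (nat_lit 4) (nat_lit 5) (nat_lit 4) (nat_lit 475) (nat_lit 407) (nat_lit 318)) (XT.lf (nat_lit 0) (nat_lit 64168167098) (nat_lit 152) (nat_lit 163139796155) (nat_lit 0) (nat_lit 47174793078) (nat_lit 5) (nat_lit 5) (nat_lit 7) (nat_lit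 4) (nat_lit 5) (nat_lit 4) (nat_lit 476) (nat_lit 407) (nat_lit 317)))))) (XT.nd (nat_lit 468) (nat_lit 152) (nat_lit 0) (XT.nd (nat_lit 234) (nat_lit 0) (nat_lit 0) (XT.nd (nat_lit 78) (nat_lit 76) (nat_lit 0) (XT.lf (nat_lit 0) (nat_lit 99193380686) (nat_lit 152) (nat_lit 112547913534) (nat_lit 0) (nat_lit 82198770052) (nat_lit 5) (nat_lit 5) (nat_lit 7) (nat_lit 4) (nat_lit 5) (nat_lit 4) (nat_lit 477) (nat_lit 407) (nat_lit 316)) (XT.nd (nat_lit 78) (nat_lit 76) (nat_lit 0) (XT.lf (nat_lit 0) (nat_lit 137016243856) (nat_lit 152) (nat_lit 57917574336) (nat_lit 0) (nat_lit 120020488209) (nat_lit 5) (nat_lit 5) (nat_lit 7) (nat_lit 4) (nat_lit 5) (nat_lit 4) (nat_lit 478) (nat_lit 407) (nat_lit 315)) (XT.lf (nat_lit 0) (nat_lit 1131562098) (nat_lit 76) (nat_lit 176756544092) (nat_lit 76) (nat_lit 159759728247) (nat_lit 4) (nat_lit 4) (nat_lit 5) (nat_lit 5) (nat_lit 5) (nat_lit 4) (nat_lit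 479) (nat_lit 407) (nat_lit 314)))) (XT.nd (nat_lit 78) (nat_lit 0) (nat_lit 0) (XT.lf (nat_lit 0) (nat_lit 68190426489) (nat_lit 76) (nat_lit 155418922668) (nat_lit 76) (nat_lit 138421125158) (nat_lit 4) (nat_lit 4) (nat_lit 5) (nat_lit 5) (nat_lit 5) (nat_lit 4) (nat_lit 480) (nat_lit 407) (nat_lit 313)) (XT.nd (nat_lit 78) (nat_lit 0) (nat_lit 0) (XT.lf (nat_lit 0) (nat_lit 140606567875) (nat_lit 76) (nat_lit 132378077878) (nat_lit 76) (nat_lit 115379371420) (nat_lit 4) (nat_lit 4) (nat_lit 5) (nat_lit 5) (nat_lit 5) (nat_lit 4) (nat_lit 481) (nat_lit 407) (nat_lit 312)) (XT.lf (nat_lit 0) (nat_lit 218809118943) (nat_lit 76) (nat_lit 107497471383) (nat_lit 76) (nat_lit 90497923306) (nat_lit 4) (nat_lit 4) (nat_lit 5) (nat_lit 5) (nat_lit 5) (nat_lit 4) (nat_lit 482) (nat_lit 407) (nat_lit 311))))) (XT.nd (nat_lit 234) (nat_lit 152) (nat_lit 0) (XT.nd (nat_lit 78) (nat_lit 0) (nat_lit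 0) (XT.lf (nat_lit 0) (nat_lit 303261502220) (nat_lit 76) (nat_lit 80629662551) (nat_lit 76) (nat_lit 63629335198) (nat_lit 4) (nat_lit 4) (nat_lit 5) (nat_lit 5) (nat_lit 5) (nat_lit 4) (nat_lit 483) (nat_lit 407) (nat_lit 310)) (XT.nd (nat_lit 78) (nat_lit 0) (nat_lit 0) (XT.lf (nat_lit 0) (nat_lit 394464176272) (nat_lit 76) (nat_lit 51615434739) (nat_lit 76) (nat_lit 34614385832) (nat_lit 4) (nat_lit 4) (nat_lit 5) (nat_lit 5) (nat_lit 5) (nat_lit 4) (nat_lit 484) (nat_lit 407) (nat_lit 309)) (XT.lf (nat_lit 0) (nat_lit 492957601391) (nat_lit 76) (nat_lit 20282851780) (nat_lit 76) (nat_lit 3281134769) (nat_lit 4) (nat_lit 4) (nat_lit 5) (nat_lit 5) (nat_lit 5) (nat_lit 4) (nat_lit 485) (nat_lit 407) (nat_lit 308)))) (XT.nd (nat_lit 78) (nat_lit 0) (nat_lit 0) (XT.lf (nat_lit 0) (nat_lit 30499235672) (nat_lit 152) (nat_lit 509783492625) (nat_lit 0) (nat_lit 14756332315) (nat_lit 2) (nat_lit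 5) (nat_lit 4) (nat_lit 4) (nat_lit 2) (nat_lit 4) (nat_lit 486) (nat_lit 407) (nat_lit 307)) (XT.nd (nat_lit 78) (nat_lit 0) (nat_lit 0) (XT.lf (nat_lit 0) (nat_lit 67990071257) (nat_lit 152) (nat_lit 476299580274) (nat_lit 0) (nat_lit 52246637537) (nat_lit 2) (nat_lit 5) (nat_lit 4) (nat_lit 4) (nat_lit 2) (nat_lit 4) (nat_lit 487) (nat_lit 407) (nat_lit 306)) (XT.lf (nat_lit 0) (nat_lit 108477820876) (nat_lit 152) (nat_lit 440141767135) (nat_lit 0) (nat_lit 92733896080) (nat_lit 2) (nat_lit 5) (nat_lit 4) (nat_lit 4) (nat_lit 2) (nat_lit 4) (nat_lit 488) (nat_lit 407) (nat_lit 305))))))))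
noncomputable def xc114 : XT := (XT.nd (nat_lit 1716) (nat_lit 0) (nat_lit 0) (XT.nd (nat_lit 858) (nat_lit 0) (nat_lit 0) (XT.nd (nat_lit 390) (nat_lit 76) (nat_lit 0) (XT.nd (nat_lit 156) (nat_lit 0) (nat_lit 0) (XT.nd (nat_lit 78) (nat_lit 0) (nat_lit 0) (XT.lf (nat_lit 0) (nat_lit 152202411935) (nat_lit 152) (nat_lit 401095784687) (nat_lit 0) (nat_lit 136458032438) (nat_lit 2) (nat_lit 5) (nat_lit 4) (nat_lit 4) (nat_lit 2) (nat_lit 4) (nat_lit 489) (nat_lit 407) (nat_lit 304)) (XT.lf (nat_lit 0) (nat_lit 199422953122) (nat_lit 152) (nat_lit 358930249328) (nat_lit 0) (nat_lit 183678152606) (nat_lit 2) (nat_lit 5) (nat_lit 4) (nat_lit 4) (nat_lit 2) (nat_lit 4) (nat_lit 490) (nat_lit 407) (nat_lit 303))) (XT.nd (nat_lit 78) (nat_lit 0) (nat_lit 0) (XT.lf (nat_lit 0) (nat_lit 250419269866) (nat_lit 152) (nat_lit 313395291220) (nat_lit 0) (nat_lit 234674079517) (nat_lit 2) (nat_lit 5)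 (nat_lit 4) (nat_lit 4) (nat_lit 2) (nat_lit 4) (nat_lit 491) (nat_lit 407) (nat_lit 302)) (XT.nd (nat_lit 78) (nat_lit 0) (nat_lit 0) (XT.lf (nat_lit 0) (nat_lit 305493562562) (nat_lit 152) (nat_lit 264221073575) (nat_lit 0) (nat_lit 289748011258) (nat_lit 2) (nat_lit 5) (nat_lit 4) (nat_lit 4) (nat_lit 2) (nat_lit 4) (nat_lit 492) (nat_lit 407) (nat_lit 301)) (XT.lf (nat_lit 0) (nat_lit 364972197389) (nat_lit 152) (nat_lit 211116193621) (nat_lit 0) (nat_lit 349226311867) (nat_lit 2) (nat_lit 5) (nat_lit 4) (nat_lit 4) (nat_lit 2) (nat_lit 4) (nat_lit 493) (nat_lit 407) (nat_lit 300))))) (XT.nd (nat_lit 234) (nat_lit 76) (nat_lit 0) (XT.nd (nat_lit 78) (nat_lit 0) (nat_lit 0) (XT.lf (nat_lit 0) (nat_lit 429207640332) (nat_lit 152) (nat_lit 153765955772) (nat_lit 0) (nat_lit 413461445348) (nat_lit 2) (nat_lit 5) (nat_lit 4) (nat_lit 4) (nat_lit 2) (nat_lit 4) (nat_lit 494) (nat_lit 407)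 (nat_lit 299)) (XT.nd (nat_lit 78) (nat_lit 0) (nat_lit 0) (XT.lf (nat_lit 0) (nat_lit 498580545868) (nat_lit 152) (nat_lit 91830506769) (nat_lit 0) (nat_lit 482834064345) (nat_lit 2) (nat_lit 5) (nat_lit 4) (nat_lit 4) (nat_lit 2) (nat_lit 4) (nat_lit 495) (nat_lit 407) (nat_lit 298)) (XT.lf (nat_lit 0) (nat_lit 573502012694) (nat_lit 152) (nat_lit 24942821727) (nat_lit 0) (nat_lit 557755265858) (nat_lit 2) (nat_lit 5) (nat_lit 4) (nat_lit 4) (nat_lit 2) (nat_lit 4) (nat_lit 496) (nat_lit 407) (nat_lit 297)))) (XT.nd (nat_lit 78) (nat_lit 0) (nat_lit 0) (XT.lf (nat_lit 0) (nat_lit 49783861181) (nat_lit 76) (nat_lit 605829461753) (nat_lit 76) (nat_lit 590082469256) (nat_lit 1) (nat_lit 4) (nat_lit 2) (nat_lit 5) (nat_lit 2) (nat_lit 4) (nat_lit 497) (nat_lit 407) (nat_lit 296)) (XT.nd (nat_lit 78) (nat_lit 0) (nat_lit 0) (XT.lf (nat_lit 0) (nat_lit 131904852742) (nat_lit 76) (nat_lit 613069519963)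 (nat_lit 76) (nat_lit 597322300002) (nat_lit 1) (nat_lit 4) (nat_lit 2) (nat_lit 5) (nat_lit 2) (nat_lit 4) (nat_lit 498) (nat_lit 407) (nat_lit 295)) (XT.lf (nat_lit 0) (nat_lit 220593351077) (nat_lit 76) (nat_lit 620889894049) (nat_lit 76) (nat_lit 605142463474) (nat_lit 1) (nat_lit 4) (nat_lit 2) (nat_lit 5) (nat_lit 2) (nat_lit 4) (nat_lit 499) (nat_lit 407) (nat_lit 294)))))) (XT.nd (nat_lit 390) (nat_lit 0) (nat_lit 0) (XT.nd (nat_lit 156) (nat_lit 0) (nat_lit 0) (XT.nd (nat_lit 78) (nat_lit 0) (nat_lit 0) (XT.lf (nat_lit 0) (nat_lit 316374917660) (nat_lit 76) (nat_lit 629336926968) (nat_lit 76) (nat_lit 613589301380) (nat_lit 1) (nat_lit 4) (nat_lit 2) (nat_lit 5) (nat_lit 2) (nat_lit 4) (nat_lit 500) (nat_lit 407) (nat_lit 293)) (XT.lf (nat_lit 0) (nat_lit 419817146957) (nat_lit 76) (nat_lit 638460675213) (nat_lit 76) (nat_lit 622712869057) (nat_lit 1) (nat_lit 4) (nat_lit 2) (nat_lit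 5) (nat_lit 2) (nat_lit 4) (nat_lit 501) (nat_lit 407) (nat_lit 292))) (XT.nd (nat_lit 78) (nat_lit 0) (nat_lit 0) (XT.lf (nat_lit 0) (nat_lit 531533029958) (nat_lit 76) (nat_lit 648315205439) (nat_lit 76) (nat_lit 632567232091) (nat_lit 1) (nat_lit 4) (nat_lit 2) (nat_lit 5) (nat_lit 2) (nat_lit 4) (nat_lit 502) (nat_lit 407) (nat_lit 291)) (XT.nd (nat_lit 78) (nat_lit 0) (nat_lit 0) (XT.lf (nat_lit 0) (nat_lit 652184586710) (nat_lit 76) (nat_lit 658958914862) (nat_lit 76) (nat_lit 643210786706) (nat_lit 1) (nat_lit 4) (nat_lit 2) (nat_lit 5) (nat_lit 2) (nat_lit 4) (nat_lit 503) (nat_lit 407) (nat_lit 290)) (XT.lf (nat_lit 0) (nat_lit 782486789401) (nat_lit 76) (nat_lit 670454877317) (nat_lit 76) (nat_lit 654706605820) (nat_lit 1) (nat_lit 4) (nat_lit 2) (nat_lit 5) (nat_lit 2) (nat_lit 4) (nat_lit 504) (nat_lit 407) (nat_lit 289))))) (XT.nd (nat_lit 234) (nat_lit 0) (nat_lit 0) (XT.nd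 (nat_lit 78) (nat_lit 0) (nat_lit 0) (XT.lf (nat_lit 0) (nat_lit 923211799232) (nat_lit 76) (nat_lit 682871217024) (nat_lit 76) (nat_lit 667122812805) (nat_lit 1) (nat_lit 4) (nat_lit 2) (nat_lit 5) (nat_lit 2) (nat_lit 4) (nat_lit 505) (nat_lit 407) (nat_lit 288)) (XT.nd (nat_lit 78) (nat_lit 0) (nat_lit 0) (XT.lf (nat_lit 0) (nat_lit 1075193542188) (nat_lit 76) (nat_lit 696281512294) (nat_lit 76) (nat_lit 680532985184) (nat_lit 1) (nat_lit 4) (nat_lit 2) (nat_lit 5) (nat_lit 2) (nat_lit 4) (nat_lit 506) (nat_lit 407) (nat_lit 287)) (XT.lf (nat_lit 0) (nat_lit 1239332650819) (nat_lit 76) (nat_lit 710765231543) (nat_lit 76) (nat_lit 695016590644) (nat_lit 1) (nat_lit 4) (nat_lit 2) (nat_lit 5) (nat_lit 2) (nat_lit 4) (nat_lit 507) (nat_lit 407) (nat_lit 286)))) (XT.nd (nat_lit 78) (nat_lit 0) (nat_lit 0) (XT.lf (nat_lit 0) (nat_lit 1416601801325) (nat_lit 76) (nat_lit 726408204218) (nat_lit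 76) (nat_lit 710659457959) (nat_lit 1) (nat_lit 4) (nat_lit 2) (nat_lit 5) (nat_lit 2) (nat_lit 4) (nat_lit 508) (nat_lit 407) (nat_lit 285)) (XT.nd (nat_lit 78) (nat_lit 0) (nat_lit 0) (XT.lf (nat_lit 0) (nat_lit 1608051477560) (nat_lit 76) (nat_lit 743303129417) (nat_lit 76) (nat_lit 727554285603) (nat_lit 1) (nat_lit 4) (nat_lit 2) (nat_lit 5) (nat_lit 2) (nat_lit 4) (nat_lit 509) (nat_lit 407) (nat_lit 284)) (XT.lf (nat_lit 0) (nat_lit 1814816196125) (nat_lit 76) (nat_lit 761550125214) (nat_lit 76) (nat_lit 745801191071) (nat_lit 1) (nat_lit 4) (nat_lit 2) (nat_lit 5) (nat_lit 2) (nat_lit 4) (nat_lit 510) (nat_lit 407) (nat_lit 283))))))) (XT.nd (nat_lit 858) (nat_lit 0) (nat_lit 0) (XT.nd (nat_lit 390) (nat_lit 0) (nat_lit 0) (XT.nd (nat_lit 156) (nat_lit 0) (nat_lit 0) (XT.nd (nat_lit 78) (nat_lit 0) (nat_lit 0) (XT.lf (nat_lit 0) (nat_lit 2038121229425) (nat_lit 76) (nat_lit 781257321955)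 (nat_lit 76) (nat_lit 765508304175) (nat_lit 1) (nat_lit 4) (nat_lit 2) (nat_lit 5) (nat_lit 2) (nat_lit 4) (nat_lit 511) (nat_lit 407) (nat_lit 282)) (XT.lf (nat_lit 0) (nat_lit 2279289866547) (nat_lit 76) (nat_lit 802541503029) (nat_lit 76) (nat_lit 786792407806) (nat_lit 1) (nat_lit 4) (nat_lit 2) (nat_lit 5) (nat_lit 2) (nat_lit 4) (nat_lit 512) (nat_lit 407) (nat_lit 281))) (XT.nd (nat_lit 78) (nat_lit 0) (nat_lit 0) (XT.lf (nat_lit 0) (nat_lit 2539751254971) (nat_lit 76) (nat_lit 825528796916) (nat_lit 76) (nat_lit 809779629987) (nat_lit 1) (nat_lit 4) (nat_lit 2) (nat_lit 5) (nat_lit 2) (nat_lit 4) (nat_lit 513) (nat_lit 407) (nat_lit 280)) (XT.nd (nat_lit 78) (nat_lit 0) (nat_lit 0) (XT.lf (nat_lit 0) (nat_lit 2821048869590) (nat_lit 76) (nat_lit 850355424616) (nat_lit 76) (nat_lit 834606191293) (nat_lit 1) (nat_lit 4) (nat_lit 2) (nat_lit 5) (nat_lit 2) (nat_lit 4) (nat_lit 514)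 (nat_lit 407) (nat_lit 279)) (XT.lf (nat_lit 0) (nat_lit 3124849659232) (nat_lit 76) (nat_lit 877168506887) (nat_lit 76) (nat_lit 861419212087) (nat_lit 1) (nat_lit 4) (nat_lit 2) (nat_lit 5) (nat_lit 2) (nat_lit 4) (nat_lit 515) (nat_lit 407) (nat_lit 278))))) (XT.nd (nat_lit 234) (nat_lit 0) (nat_lit 0) (XT.nd (nat_lit 78) (nat_lit 0) (nat_lit 0) (XT.lf (nat_lit 0) (nat_lit 3452953924872) (nat_lit 76) (nat_lit 906126936068) (nat_lit 76) (nat_lit 890377584345) (nat_lit 1) (nat_lit 4) (nat_lit 2) (nat_lit 5) (nat_lit 2) (nat_lit 4) (nat_lit 516) (nat_lit 407) (nat_lit 277)) (XT.nd (nat_lit 78) (nat_lit 0) (nat_lit 0) (XT.lf (nat_lit 0) (nat_lit 3807305988085) (nat_lit 76) (nat_lit 937402317664) (nat_lit 76) (nat_lit 921652913236) (nat_lit 1) (nat_lit 4) (nat_lit 2) (nat_lit 5) (nat_lit 2) (nat_lit 4) (nat_lit 517) (nat_lit 407) (nat_lit 276)) (XT.lf (nat_lit 0) (nat_lit 4190005712949) (nat_lit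 76) (nat_lit 971179987271) (nat_lit 76) (nat_lit 955430534041) (nat_lit 1) (nat_lit 4) (nat_lit 2) (nat_lit 5) (nat_lit 2) (nat_lit 4) (nat_lit 518) (nat_lit 407) (nat_lit 275)))) (XT.nd (nat_lit 78) (nat_lit 0) (nat_lit 0) (XT.lf (nat_lit 0) (nat_lit 4603320949686) (nat_lit 76) (nat_lit 1007660108857) (nat_lit 76) (nat_lit 991910610440) (nat_lit 1) (nat_lit 4) (nat_lit 2) (nat_lit 5) (nat_lit 2) (nat_lit 4) (nat_lit 519) (nat_lit 407) (nat_lit 274)) (XT.nd (nat_lit 78) (nat_lit 0) (nat_lit 0) (XT.lf (nat_lit 0) (nat_lit 5049700973772) (nat_lit 76) (nat_lit 1047058860919) (nat_lit 76) (nat_lit 1031309320662) (nat_lit 1) (nat_lit 4) (nat_lit 2) (nat_lit 5) (nat_lit 2) (nat_lit 4) (nat_lit 520) (nat_lit 407) (nat_lit 273)) (XT.lf (nat_lit 0) (nat_lit 5531791000165) (nat_lit 76) (nat_lit 1089609717545) (nat_lit 76) (nat_lit 1073860138548) (nat_lit 1) (nat_lit 4) (nat_lit 2) (nat_lit 5) (nat_lit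 2) (nat_lit 4) (nat_lit 521) (nat_lit 407) (nat_lit 272)))))) (XT.nd (nat_lit 53586) (nat_lit 0) (nat_lit 5244) (XT.nd (nat_lit 234) (nat_lit 0) (nat_lit 0) (XT.nd (nat_lit 78) (nat_lit 0) (nat_lit 0) (XT.lf (nat_lit 0) (nat_lit 6052447858651) (nat_lit 76) (nat_lit 1135564831959) (nat_lit 76) (nat_lit 1119815217091) (nat_lit 1) (nat_lit 4) (nat_lit 2) (nat_lit 5) (nat_lit 2) (nat_lit 4) (nat_lit 522) (nat_lit 407) (nat_lit 271)) (XT.nd (nat_lit 78) (nat_lit 0) (nat_lit 0) (XT.lf (nat_lit 0) (nat_lit 6614756923206) (nat_lit 76) (nat_lit 1185196530764) (nat_lit 76) (nat_lit 1169446882682) (nat_lit 1) (nat_lit 4) (nat_lit 2) (nat_lit 5) (nat_lit 2) (nat_lit 4) (nat_lit 523) (nat_lit 407) (nat_lit 270)) (XT.lf (nat_lit 0) (nat_lit 7222050395694) (nat_lit 76) (nat_lit 1238798927732) (nat_lit 76) (nat_lit 1223049248896) (nat_lit 1) (nat_lit 4) (nat_lit 2) (nat_lit 5) (nat_lit 2) (nat_lit 4) (nat_lit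 524) (nat_lit 407) (nat_lit 269)))) (XT.nd (nat_lit 78) (nat_lit 0) (nat_lit 0) (XT.lf (nat_lit 0) (nat_lit 7877927052249) (nat_lit 76) (nat_lit 1296689666696) (nat_lit 76) (nat_lit 1280939959385) (nat_lit 1) (nat_lit 4) (nat_lit 2) (nat_lit 5) (nat_lit 2) (nat_lit 4) (nat_lit 525) (nat_lit 407) (nat_lit 268)) (XT.nd (nat_lit 78) (nat_lit 0) (nat_lit 0) (XT.lf (nat_lit 0) (nat_lit 8586273569353) (nat_lit 76) (nat_lit 1359211803887) (nat_lit 76) (nat_lit 1343462070210) (nat_lit 1) (nat_lit 4) (nat_lit 2) (nat_lit 5) (nat_lit 2) (nat_lit 4) (nat_lit 526) (nat_lit 407) (nat_lit 267)) (XT.lf (nat_lit 0) (nat_lit 9351287555998) (nat_lit 76) (nat_lit 1426735840859) (nat_lit 76) (nat_lit 1410986082769) (nat_lit 1) (nat_lit 4) (nat_lit 2) (nat_lit 5) (nat_lit 2) (nat_lit 4) (nat_lit 527) (nat_lit 407) (nat_lit 266))))) (XT.nd (nat_lit 234) (nat_lit 456) (nat_lit 0) (XT.nd (nat_lit 78) (nat_lit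 0) (nat_lit 0) (XT.lf (nat_lit 0) (nat_lit 1383313525) (nat_lit 0) (nat_lit 1383313525) (nat_lit 380) (nat_lit 1376027810) (nat_lit 76) (nat_lit 5) (nat_lit 76) (nat_lit 3) (nat_lit 81) (nat_lit 3) (nat_lit 408) (nat_lit 408) (nat_lit 384)) (XT.nd (nat_lit 78) (nat_lit 0) (nat_lit 0) (XT.lf (nat_lit 0) (nat_lit 6818494910) (nat_lit 380) (nat_lit 1433682225) (nat_lit 456) (nat_lit 278643747) (nat_lit 76) (nat_lit 5) (nat_lit 81) (nat_lit 3) (nat_lit 82) (nat_lit 5) (nat_lit 409) (nat_lit 408) (nat_lit 383)) (XT.lf (nat_lit 76) (nat_lit 2993318200) (nat_lit 0) (nat_lit 5252621611) (nat_lit 456) (nat_lit 546961214) (nat_lit 77) (nat_lit 5) (nat_lit 76) (nat_lit 5) (nat_lit 82) (nat_lit 5) (nat_lit 410) (nat_lit 408) (nat_lit 382)))) (XT.nd (nat_lit 78) (nat_lit 0) (nat_lit 76) (XT.lf (nat_lit 0) (nat_lit 615435548) (nat_lit 456) (nat_lit 1301398296) (nat_lit 532) (nat_lit 7162660052) (nat_lit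 70) (nat_lit 5) (nat_lit 76) (nat_lit 5) (nat_lit 77) (nat_lit 5) (nat_lit 411) (nat_lit 408) (nat_lit 381)) (XT.nd (nat_lit 78) (nat_lit 0) (nat_lit 0) (XT.lf (nat_lit 0) (nat_lit 1880016376) (nat_lit 456) (nat_lit 5768136910) (nat_lit 532) (nat_lit 1736687586) (nat_lit 71) (nat_lit 5) (nat_lit 77) (nat_lit 5) (nat_lit 78) (nat_lit 5) (nat_lit 412) (nat_lit 408) (nat_lit 380)) (XT.lf (nat_lit 0) (nat_lit 3244852958) (nat_lit 456) (nat_lit 827959469) (nat_lit 532) (nat_lit 5641934010) (nat_lit 71) (nat_lit 5) (nat_lit 77) (nat_lit 5) (nat_lit 78) (nat_lit 5) (nat_lit 413) (nat_lit 408) (nat_lit 379))))))))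
noncomputable def xc115 : XT := (XT.nd (nat_lit 1716) (nat_lit 1520) (nat_lit 0) (XT.nd (nat_lit 858) (nat_lit 988) (nat_lit 0) (XT.nd (nat_lit 390) (nat_lit 912) (nat_lit 0) (XT.nd (nat_lit 156) (nat_lit 532) (nat_lit 0) (XT.nd (nat_lit 78) (nat_lit 380) (nat_lit 0) (XT.lf (nat_lit 76) (nat_lit 4678756176) (nat_lit 0) (nat_lit 71898786) (nat_lit 532) (nat_lit 5317900889) (nat_lit 72) (nat_lit 5) (nat_lit 71) (nat_lit 5) (nat_lit 78) (nat_lit 5) (nat_lit 414) (nat_lit 408) (nat_lit 378)) (XT.lf (nat_lit 0) (nat_lit 56641775) (nat_lit 456) (nat_lit 6371186286) (nat_lit 532) (nat_lit 4018819106) (nat_lit 66) (nat_lit 5) (nat_lit 72) (nat_lit 5) (nat_lit 73) (nat_lit 5) (nat_lit 415) (nat_lit 408) (nat_lit 377))) (XT.nd (nat_lit 78) (nat_lit 532) (nat_lit 0) (XT.lf (nat_lit 0) (nat_lit 6177418155) (nat_lit 456) (nat_lit 2139106251) (nat_lit 532) (nat_lit 2532319455) (nat_lit 66) (nat_lit 5)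 (nat_lit 72) (nat_lit 5) (nat_lit 73) (nat_lit 5) (nat_lit 416) (nat_lit 408) (nat_lit 376)) (XT.nd (nat_lit 78) (nat_lit 76) (nat_lit 0) (XT.lf (nat_lit 0) (nat_lit 1452261462) (nat_lit 456) (nat_lit 8931075705) (nat_lit 532) (nat_lit 897760080) (nat_lit 60) (nat_lit 5) (nat_lit 66) (nat_lit 5) (nat_lit 67) (nat_lit 5) (nat_lit 417) (nat_lit 408) (nat_lit 375)) (XT.lf (nat_lit 0) (nat_lit 946066822) (nat_lit 532) (nat_lit 3554251997) (nat_lit 76) (nat_lit 7236227277) (nat_lit 59) (nat_lit 5) (nat_lit 66) (nat_lit 5) (nat_lit 60) (nat_lit 5) (nat_lit 418) (nat_lit 408) (nat_lit 374))))) (XT.nd (nat_lit 234) (nat_lit 456) (nat_lit 0) (XT.nd (nat_lit 78) (nat_lit 228) (nat_lit 0) (XT.lf (nat_lit 0) (nat_lit 2917813116) (nat_lit 304) (nat_lit 8933625451) (nat_lit 76) (nat_lit 372847390) (nat_lit 56) (nat_lit 5) (nat_lit 60) (nat_lit 5) (nat_lit 57) (nat_lit 5) (nat_lit 419) (nat_lit 408) (nat_lit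 373)) (XT.nd (nat_lit 78) (nat_lit 228) (nat_lit 0) (XT.lf (nat_lit 0) (nat_lit 5206827276) (nat_lit 304) (nat_lit 2043507680) (nat_lit 76) (nat_lit 5487979122) (nat_lit 56) (nat_lit 5) (nat_lit 60) (nat_lit 5) (nat_lit 57) (nat_lit 5) (nat_lit 420) (nat_lit 408) (nat_lit 372)) (XT.lf (nat_lit 0) (nat_lit 5617612104) (nat_lit 228) (nat_lit 2143614423) (nat_lit 304) (nat_lit 5525685806) (nat_lit 53) (nat_lit 5) (nat_lit 56) (nat_lit 5) (nat_lit 57) (nat_lit 5) (nat_lit 421) (nat_lit 408) (nat_lit 371)))) (XT.nd (nat_lit 78) (nat_lit 456) (nat_lit 0) (XT.lf (nat_lit 0) (nat_lit 10607805408) (nat_lit 304) (nat_lit 13135323) (nat_lit 76) (nat_lit 3251458357) (nat_lit 53) (nat_lit 5) (nat_lit 57) (nat_lit 5) (nat_lit 54) (nat_lit 5) (nat_lit 422) (nat_lit 408) (nat_lit 370)) (XT.nd (nat_lit 78) (nat_lit 304) (nat_lit 0) (XT.lf (nat_lit 0) (nat_lit 8569736553) (nat_lit 152) (nat_lit 5327316938)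 (nat_lit 228) (nat_lit 590500725) (nat_lit 51) (nat_lit 5) (nat_lit 53) (nat_lit 5) (nat_lit 54) (nat_lit 5) (nat_lit 423) (nat_lit 408) (nat_lit 369)) (XT.lf (nat_lit 0) (nat_lit 2214346224) (nat_lit 304) (nat_lit 12449566458) (nat_lit 76) (nat_lit 481069335) (nat_lit 47) (nat_lit 5) (nat_lit 51) (nat_lit 5) (nat_lit 48) (nat_lit 5) (nat_lit 424) (nat_lit 408) (nat_lit 368)))))) (XT.nd (nat_lit 390) (nat_lit 456) (nat_lit 0) (XT.nd (nat_lit 156) (nat_lit 380) (nat_lit 0) (XT.nd (nat_lit 78) (nat_lit 152) (nat_lit 0) (XT.lf (nat_lit 0) (nat_lit 5471783401) (nat_lit 304) (nat_lit 3727142391) (nat_lit 76) (nat_lit 6634062586) (nat_lit 47) (nat_lit 5) (nat_lit 51) (nat_lit 5) (nat_lit 48) (nat_lit 5) (nat_lit 425) (nat_lit 408) (nat_lit 367)) (XT.lf (nat_lit 0) (nat_lit 5932988673) (nat_lit 152) (nat_lit 3158521571) (nat_lit 228) (nat_lit 7476407704) (nat_lit 45) (nat_lit 5) (nat_lit 47) (nat_lit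 5) (nat_lit 48) (nat_lit 5) (nat_lit 426) (nat_lit 408) (nat_lit 366))) (XT.nd (nat_lit 78) (nat_lit 380) (nat_lit 0) (XT.lf (nat_lit 0) (nat_lit 13146621004) (nat_lit 228) (nat_lit 917382129) (nat_lit 76) (nat_lit 3285991211) (nat_lit 45) (nat_lit 5) (nat_lit 48) (nat_lit 5) (nat_lit 46) (nat_lit 5) (nat_lit 427) (nat_lit 408) (nat_lit 365)) (XT.nd (nat_lit 78) (nat_lit 228) (nat_lit 0) (XT.lf (nat_lit 0) (nat_lit 9938809835) (nat_lit 152) (nat_lit 7871659176) (nat_lit 228) (nat_lit 361437240) (nat_lit 43) (nat_lit 5) (nat_lit 45) (nat_lit 5) (nat_lit 46) (nat_lit 5) (nat_lit 428) (nat_lit 408) (nat_lit 364)) (XT.lf (nat_lit 0) (nat_lit 2644173064) (nat_lit 152) (nat_lit 1007311744) (nat_lit 228) (nat_lit 15396562710) (nat_lit 40) (nat_lit 5) (nat_lit 42) (nat_lit 5) (nat_lit 43) (nat_lit 5) (nat_lit 429) (nat_lit 408) (nat_lit 363))))) (XT.nd (nat_lit 234) (nat_lit 304) (nat_lit 0) (XT.nd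 (nat_lit 78) (nat_lit 152) (nat_lit 0) (XT.lf (nat_lit 0) (nat_lit 8315691439) (nat_lit 228) (nat_lit 5341161332) (nat_lit 76) (nat_lit 6308706492) (nat_lit 40) (nat_lit 5) (nat_lit 43) (nat_lit 5) (nat_lit 41) (nat_lit 5) (nat_lit 430) (nat_lit 408) (nat_lit 362)) (XT.nd (nat_lit 78) (nat_lit 0) (nat_lit 0) (XT.lf (nat_lit 0) (nat_lit 6872887104) (nat_lit 152) (nat_lit 6638969865) (nat_lit 228) (nat_lit 7431920705) (nat_lit 38) (nat_lit 5) (nat_lit 40) (nat_lit 5) (nat_lit 41) (nat_lit 5) (nat_lit 431) (nat_lit 408) (nat_lit 361)) (XT.lf (nat_lit 0) (nat_lit 19264293034) (nat_lit 228) (nat_lit 1699267876) (nat_lit 76) (nat_lit 1025457128) (nat_lit 38) (nat_lit 5) (nat_lit 41) (nat_lit 5) (nat_lit 39) (nat_lit 4) (nat_lit 432) (nat_lit 408) (nat_lit 360)))) (XT.nd (nat_lit 78) (nat_lit 152) (nat_lit 0) (XT.lf (nat_lit 0) (nat_lit 2684853050) (nat_lit 152) (nat_lit 11107368899) (nat_lit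 76) (nat_lit 9285620756) (nat_lit 36) (nat_lit 5) (nat_lit 38) (nat_lit 5) (nat_lit 37) (nat_lit 5) (nat_lit 433) (nat_lit 408) (nat_lit 359)) (XT.nd (nat_lit 78) (nat_lit 0) (nat_lit 0) (XT.lf (nat_lit 0) (nat_lit 2589358687) (nat_lit 152) (nat_lit 5871374365) (nat_lit 228) (nat_lit 15780927662) (nat_lit 34) (nat_lit 5) (nat_lit 36) (nat_lit 5) (nat_lit 37) (nat_lit 5) (nat_lit 434) (nat_lit 408) (nat_lit 358)) (XT.lf (nat_lit 0) (nat_lit 15046159651) (nat_lit 228) (nat_lit 7582337229) (nat_lit 76) (nat_lit 2842297027) (nat_lit 34) (nat_lit 5) (nat_lit 37) (nat_lit 5) (nat_lit 35) (nat_lit 4) (nat_lit 435) (nat_lit 408) (nat_lit 357))))))) (XT.nd (nat_lit 858) (nat_lit 684) (nat_lit 0) (XT.nd (nat_lit 390) (nat_lit 456) (nat_lit 0) (XT.nd (nat_lit 156) (nat_lit 228) (nat_lit 0) (XT.nd (nat_lit 78) (nat_lit 76) (nat_lit 0) (XT.lf (nat_lit 0) (nat_lit 7805692704) (nat_lit 76) (nat_lit 14666442495)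 (nat_lit 152) (nat_lit 4301032627) (nat_lit 33) (nat_lit 5) (nat_lit 34) (nat_lit 5) (nat_lit 35) (nat_lit 4) (nat_lit 436) (nat_lit 408) (nat_lit 356)) (XT.lf (nat_lit 0) (nat_lit 2383188210) (nat_lit 152) (nat_lit 3413906519) (nat_lit 76) (nat_lit 22363281218) (nat_lit 32) (nat_lit 5) (nat_lit 34) (nat_lit 5) (nat_lit 33) (nat_lit 5) (nat_lit 437) (nat_lit 408) (nat_lit 355))) (XT.nd (nat_lit 78) (nat_lit 76) (nat_lit 0) (XT.lf (nat_lit 0) (nat_lit 9782491084) (nat_lit 228) (nat_lit 15800359707) (nat_lit 76) (nat_lit 4033761529) (nat_lit 30) (nat_lit 5) (nat_lit 33) (nat_lit 5) (nat_lit 31) (nat_lit 4) (nat_lit 438) (nat_lit 408) (nat_lit 354)) (XT.nd (nat_lit 78) (nat_lit 0) (nat_lit 0) (XT.lf (nat_lit 0) (nat_lit 1306724864) (nat_lit 76) (nat_lit 16720821855) (nat_lit 152) (nat_lit 13141501536) (nat_lit 29) (nat_lit 5) (nat_lit 30) (nat_lit 5) (nat_lit 31) (nat_lit 4) (nat_lit 439)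 (nat_lit 408) (nat_lit 353)) (XT.lf (nat_lit 0) (nat_lit 20639298114) (nat_lit 76) (nat_lit 6701732517) (nat_lit 152) (nat_lit 5471947467) (nat_lit 29) (nat_lit 5) (nat_lit 30) (nat_lit 5) (nat_lit 31) (nat_lit 4) (nat_lit 440) (nat_lit 408) (nat_lit 352))))) (XT.nd (nat_lit 234) (nat_lit 228) (nat_lit 0) (XT.nd (nat_lit 78) (nat_lit 76) (nat_lit 0) (XT.lf (nat_lit 0) (nat_lit 2926116985) (nat_lit 152) (nat_lit 27493857169) (nat_lit 76) (nat_lit 4142597934) (nat_lit 27) (nat_lit 5) (nat_lit 29) (nat_lit 5) (nat_lit 28) (nat_lit 4) (nat_lit 441) (nat_lit 408) (nat_lit 351)) (XT.nd (nat_lit 78) (nat_lit 76) (nat_lit 0) (XT.lf (nat_lit 0) (nat_lit 12194217133) (nat_lit 152) (nat_lit 8247544031) (nat_lit 76) (nat_lit 15959500649) (nat_lit 27) (nat_lit 5) (nat_lit 29) (nat_lit 5) (nat_lit 28) (nat_lit 4) (nat_lit 442) (nat_lit 408) (nat_lit 350)) (XT.lf (nat_lit 0) (nat_lit 13159718342) (nat_lit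 76) (nat_lit 9340400914) (nat_lit 152) (nat_lit 15863222771) (nat_lit 26) (nat_lit 5) (nat_lit 27) (nat_lit 5) (nat_lit 28) (nat_lit 4) (nat_lit 443) (nat_lit 408) (nat_lit 349)))) (XT.nd (nat_lit 78) (nat_lit 228) (nat_lit 0) (XT.lf (nat_lit 0) (nat_lit 33905649427) (nat_lit 152) (nat_lit 3822594188) (nat_lit 0) (nat_lit 2732135937) (nat_lit 26) (nat_lit 5) (nat_lit 28) (nat_lit 4) (nat_lit 26) (nat_lit 4) (nat_lit 444) (nat_lit 408) (nat_lit 348)) (XT.nd (nat_lit 78) (nat_lit 76) (nat_lit 0) (XT.lf (nat_lit 0) (nat_lit 4046717436) (nat_lit 152) (nat_lit 22779373506) (nat_lit 76) (nat_lit 15834498470) (nat_lit 24) (nat_lit 5) (nat_lit 26) (nat_lit 5) (nat_lit 25) (nat_lit 4) (nat_lit 445) (nat_lit 408) (nat_lit 347)) (XT.lf (nat_lit 0) (nat_lit 487048843) (nat_lit 76) (nat_lit 14755701543) (nat_lit 152) (nat_lit 29772400503) (nat_lit 23) (nat_lit 5) (nat_lit 24) (nat_lit 5) (nat_lit 25)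 (nat_lit 4) (nat_lit 446) (nat_lit 408) (nat_lit 346)))))) (XT.nd (nat_lit 468) (nat_lit 380) (nat_lit 0) (XT.nd (nat_lit 234) (nat_lit 152) (nat_lit 0) (XT.nd (nat_lit 78) (nat_lit 152) (nat_lit 0) (XT.lf (nat_lit 0) (nat_lit 26876526296) (nat_lit 76) (nat_lit 1062966362) (nat_lit 152) (nat_lit 19570184965) (nat_lit 23) (nat_lit 5) (nat_lit 24) (nat_lit 5) (nat_lit 25) (nat_lit 4) (nat_lit 447) (nat_lit 408) (nat_lit 345)) (XT.nd (nat_lit 78) (nat_lit 76) (nat_lit 0) (XT.lf (nat_lit 0) (nat_lit 5064439722) (nat_lit 76) (nat_lit 37022587507) (nat_lit 76) (nat_lit 8081937319) (nat_lit 22) (nat_lit 4) (nat_lit 23) (nat_lit 5) (nat_lit 23) (nat_lit 4) (nat_lit 448) (nat_lit 408) (nat_lit 344)) (XT.lf (nat_lit 0) (nat_lit 4698634823) (nat_lit 152) (nat_lit 19183165140) (nat_lit 76) (nat_lit 29103703428) (nat_lit 21) (nat_lit 5) (nat_lit 23) (nat_lit 5) (nat_lit 22) (nat_lit 4) (nat_lit 449)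 (nat_lit 408) (nat_lit 343)))) (XT.nd (nat_lit 78) (nat_lit 76) (nat_lit 0) (XT.lf (nat_lit 0) (nat_lit 9023487030) (nat_lit 76) (nat_lit 9243016262) (nat_lit 152) (nat_lit 37727951423) (nat_lit 20) (nat_lit 5) (nat_lit 21) (nat_lit 5) (nat_lit 22) (nat_lit 4) (nat_lit 450) (nat_lit 408) (nat_lit 342)) (XT.nd (nat_lit 78) (nat_lit 76) (nat_lit 0) (XT.lf (nat_lit 0) (nat_lit 33600441655) (nat_lit 152) (nat_lit 18826084594) (nat_lit 0) (nat_lit 6763146344) (nat_lit 20) (nat_lit 5) (nat_lit 22) (nat_lit 4) (nat_lit 20) (nat_lit 4) (nat_lit 451) (nat_lit 408) (nat_lit 341)) (XT.lf (nat_lit 0) (nat_lit 11897703644) (nat_lit 76) (nat_lit 38775333806) (nat_lit 76) (nat_lit 11926516620) (nat_lit 19) (nat_lit 4) (nat_lit 20) (nat_lit 5) (nat_lit 20) (nat_lit 4) (nat_lit 452) (nat_lit 408) (nat_lit 340))))) (XT.nd (nat_lit 234) (nat_lit 228) (nat_lit 0) (XT.nd (nat_lit 78) (nat_lit 76) (nat_lit 0)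 (XT.lf (nat_lit 0) (nat_lit 3201563071) (nat_lit 152) (nat_lit 20200234402) (nat_lit 76) (nat_lit 42833876351) (nat_lit 18) (nat_lit 5) (nat_lit 20) (nat_lit 5) (nat_lit 19) (nat_lit 4) (nat_lit 453) (nat_lit 408) (nat_lit 339)) (XT.nd (nat_lit 78) (nat_lit 0) (nat_lit 0) (XT.lf (nat_lit 0) (nat_lit 13059242686) (nat_lit 76) (nat_lit 6137202712) (nat_lit 152) (nat_lit 50917384790) (nat_lit 17) (nat_lit 5) (nat_lit 18) (nat_lit 5) (nat_lit 19) (nat_lit 4) (nat_lit 454) (nat_lit 408) (nat_lit 338)) (XT.lf (nat_lit 0) (nat_lit 37325304369) (nat_lit 152) (nat_lit 24470790006) (nat_lit 0) (nat_lit 12437794944) (nat_lit 17) (nat_lit 5) (nat_lit 19) (nat_lit 4) (nat_lit 17) (nat_lit 4) (nat_lit 455) (nat_lit 408) (nat_lit 337)))) (XT.nd (nat_lit 78) (nat_lit 152) (nat_lit 0) (XT.lf (nat_lit 0) (nat_lit 11091202465) (nat_lit 76) (nat_lit 46227290560) (nat_lit 76) (nat_lit 21331939539) (nat_lit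 16) (nat_lit 4) (nat_lit 17) (nat_lit 5) (nat_lit 17) (nat_lit 4) (nat_lit 456) (nat_lit 408) (nat_lit 336)) (XT.nd (nat_lit 78) (nat_lit 152) (nat_lit 0) (XT.lf (nat_lit 0) (nat_lit 50866507786) (nat_lit 76) (nat_lit 28701910837) (nat_lit 76) (nat_lit 3799299080) (nat_lit 16) (nat_lit 4) (nat_lit 17) (nat_lit 5) (nat_lit 17) (nat_lit 4) (nat_lit 457) (nat_lit 408) (nat_lit 335)) (XT.lf (nat_lit 0) (nat_lit 5237234204) (nat_lit 76) (nat_lit 9256308519) (nat_lit 152) (nat_lit 73930542027) (nat_lit 14) (nat_lit 5) (nat_lit 15) (nat_lit 5) (nat_lit 16) (nat_lit 4) (nat_lit 458) (nat_lit 408) (nat_lit 334))))))))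
noncomputable def xc116 : XT := (XT.nd (nat_lit 1716) (nat_lit 228) (nat_lit 0) (XT.nd (nat_lit 858) (nat_lit 304) (nat_lit 0) (XT.nd (nat_lit 390) (nat_lit 228) (nat_lit 0) (XT.nd (nat_lit 156) (nat_lit 228) (nat_lit 0) (XT.nd (nat_lit 78) (nat_lit 0) (nat_lit 0) (XT.lf (nat_lit 0) (nat_lit 35227587394) (nat_lit 152) (nat_lit 46397212163) (nat_lit 0) (nat_lit 12157624828) (nat_lit 14) (nat_lit 5) (nat_lit 16) (nat_lit 4) (nat_lit 14) (nat_lit 4) (nat_lit 459) (nat_lit 408) (nat_lit 333)) (XT.lf (nat_lit 0) (nat_lit 57850453280) (nat_lit 152) (nat_lit 6925416965) (nat_lit 0) (nat_lit 34775153855) (nat_lit 14) (nat_lit 5) (nat_lit 16) (nat_lit 4) (nat_lit 14) (nat_lit 4) (nat_lit 460) (nat_lit 408) (nat_lit 332))) (XT.nd (nat_lit 78) (nat_lit 152) (nat_lit 0) (XT.lf (nat_lit 0) (nat_lit 37564168256) (nat_lit 76) (nat_lit 45612838259) (nat_lit 76) (nat_lit 22532597299) (nat_lit 13) (nat_lit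 4) (nat_lit 14) (nat_lit 5) (nat_lit 14) (nat_lit 4) (nat_lit 461) (nat_lit 408) (nat_lit 331)) (XT.nd (nat_lit 78) (nat_lit 152) (nat_lit 0) (XT.lf (nat_lit 0) (nat_lit 85988192138) (nat_lit 76) (nat_lit 24721545284) (nat_lit 76) (nat_lit 1636728829) (nat_lit 13) (nat_lit 4) (nat_lit 14) (nat_lit 5) (nat_lit 14) (nat_lit 4) (nat_lit 462) (nat_lit 408) (nat_lit 330)) (XT.lf (nat_lit 0) (nat_lit 19211856637) (nat_lit 76) (nat_lit 1125119162) (nat_lit 152) (nat_lit 99100774655) (nat_lit 11) (nat_lit 5) (nat_lit 12) (nat_lit 5) (nat_lit 13) (nat_lit 4) (nat_lit 463) (nat_lit 408) (nat_lit 329))))) (XT.nd (nat_lit 234) (nat_lit 152) (nat_lit 0) (XT.nd (nat_lit 78) (nat_lit 76) (nat_lit 0) (XT.lf (nat_lit 0) (nat_lit 45296584468) (nat_lit 152) (nat_lit 57776838247) (nat_lit 0) (nat_lit 23914199490) (nat_lit 11) (nat_lit 5) (nat_lit 13) (nat_lit 4) (nat_lit 11) (nat_lit 4) (nat_lit 464) (nat_lit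 408) (nat_lit 328)) (XT.nd (nat_lit 78) (nat_lit 76) (nat_lit 0) (XT.lf (nat_lit 0) (nat_lit 72274035298) (nat_lit 152) (nat_lit 11977475781) (nat_lit 0) (nat_lit 50888287195) (nat_lit 11) (nat_lit 5) (nat_lit 13) (nat_lit 4) (nat_lit 11) (nat_lit 4) (nat_lit 465) (nat_lit 408) (nat_lit 327)) (XT.lf (nat_lit 0) (nat_lit 39443794712) (nat_lit 76) (nat_lit 62906965021) (nat_lit 76) (nat_lit 41518102913) (nat_lit 10) (nat_lit 4) (nat_lit 11) (nat_lit 5) (nat_lit 11) (nat_lit 4) (nat_lit 466) (nat_lit 408) (nat_lit 326)))) (XT.nd (nat_lit 78) (nat_lit 152) (nat_lit 0) (XT.lf (nat_lit 0) (nat_lit 95645141464) (nat_lit 76) (nat_lit 39508622593) (nat_lit 76) (nat_lit 18116877146) (nat_lit 10) (nat_lit 4) (nat_lit 11) (nat_lit 5) (nat_lit 11) (nat_lit 4) (nat_lit 467) (nat_lit 408) (nat_lit 325)) (XT.nd (nat_lit 78) (nat_lit 76) (nat_lit 0) (XT.lf (nat_lit 0) (nat_lit 6791475761) (nat_lit 152)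 (nat_lit 7268145620) (nat_lit 76) (nat_lit 149351730099) (nat_lit 9) (nat_lit 5) (nat_lit 11) (nat_lit 5) (nat_lit 10) (nat_lit 4) (nat_lit 468) (nat_lit 408) (nat_lit 324)) (XT.lf (nat_lit 0) (nat_lit 34253476736) (nat_lit 152) (nat_lit 125507471609) (nat_lit 0) (nat_lit 14441544142) (nat_lit 8) (nat_lit 5) (nat_lit 10) (nat_lit 4) (nat_lit 8) (nat_lit 4) (nat_lit 469) (nat_lit 408) (nat_lit 323)))))) (XT.nd (nat_lit 390) (nat_lit 228) (nat_lit 0) (XT.nd (nat_lit 156) (nat_lit 76) (nat_lit 0) (XT.nd (nat_lit 78) (nat_lit 0) (nat_lit 0) (XT.lf (nat_lit 0) (nat_lit 64475067760) (nat_lit 152) (nat_lit 76675831079) (nat_lit 0) (nat_lit 44661015825) (nat_lit 8) (nat_lit 5) (nat_lit 10) (nat_lit 4) (nat_lit 8) (nat_lit 4) (nat_lit 470) (nat_lit 408) (nat_lit 322)) (XT.lf (nat_lit 0) (nat_lit 97108422505) (nat_lit 152) (nat_lit 23949737240) (nat_lit 0) (nat_lit 77292408219) (nat_lit 8) (nat_lit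 5) (nat_lit 10) (nat_lit 4) (nat_lit 8) (nat_lit 4) (nat_lit 471) (nat_lit 408) (nat_lit 321))) (XT.nd (nat_lit 78) (nat_lit 0) (nat_lit 0) (XT.lf (nat_lit 0) (nat_lit 34720100896) (nat_lit 76) (nat_lit 98461842181) (nat_lit 76) (nat_lit 78644010903) (nat_lit 7) (nat_lit 4) (nat_lit 8) (nat_lit 5) (nat_lit 8) (nat_lit 4) (nat_lit 472) (nat_lit 408) (nat_lit 320)) (XT.nd (nat_lit 78) (nat_lit 0) (nat_lit 0) (XT.lf (nat_lit 0) (nat_lit 99434668711) (nat_lit 76) (nat_lit 73356129902) (nat_lit 76) (nat_lit 53536616224) (nat_lit 7) (nat_lit 4) (nat_lit 8) (nat_lit 5) (nat_lit 8) (nat_lit 4) (nat_lit 473) (nat_lit 408) (nat_lit 319)) (XT.lf (nat_lit 0) (nat_lit 169316309219) (nat_lit 76) (nat_lit 46247076578) (nat_lit 76) (nat_lit 26426005121) (nat_lit 7) (nat_lit 4) (nat_lit 8) (nat_lit 5) (nat_lit 8) (nat_lit 4) (nat_lit 474) (nat_lit 408) (nat_lit 318))))) (XT.nd (nat_lit 234) (nat_lit 76)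 (nat_lit 0) (XT.nd (nat_lit 78) (nat_lit 76) (nat_lit 0) (XT.lf (nat_lit 0) (nat_lit 2705985477) (nat_lit 152) (nat_lit 14194064050) (nat_lit 76) (nat_lit 241999163928) (nat_lit 6) (nat_lit 5) (nat_lit 8) (nat_lit 5) (nat_lit 7) (nat_lit 4) (nat_lit 475) (nat_lit 408) (nat_lit 317)) (XT.nd (nat_lit 78) (nat_lit 0) (nat_lit 0) (XT.lf (nat_lit 0) (nat_lit 34363714975) (nat_lit 152) (nat_lit 226605067305) (nat_lit 0) (nat_lit 16008298876) (nat_lit 5) (nat_lit 5) (nat_lit 7) (nat_lit 4) (nat_lit 5) (nat_lit 4) (nat_lit 476) (nat_lit 408) (nat_lit 316)) (XT.lf (nat_lit 0) (nat_lit 69386828802) (nat_lit 152) (nat_lit 176017460661) (nat_lit 0) (nat_lit 51030267689) (nat_lit 5) (nat_lit 5) (nat_lit 7) (nat_lit 4) (nat_lit 5) (nat_lit 4) (nat_lit 477) (nat_lit 408) (nat_lit 315)))) (XT.nd (nat_lit 78) (nat_lit 76) (nat_lit 0) (XT.lf (nat_lit 0) (nat_lit 107207747748) (nat_lit 152) (nat_lit 121391080703)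 (nat_lit 0) (nat_lit 88850126438) (nat_lit 5) (nat_lit 5) (nat_lit 7) (nat_lit 4) (nat_lit 5) (nat_lit 4) (nat_lit 478) (nat_lit 408) (nat_lit 314)) (XT.nd (nat_lit 78) (nat_lit 76) (nat_lit 0) (XT.lf (nat_lit 0) (nat_lit 148050595779) (nat_lit 152) (nat_lit 62402215548) (nat_lit 0) (nat_lit 129691992805) (nat_lit 5) (nat_lit 5) (nat_lit 7) (nat_lit 4) (nat_lit 5) (nat_lit 4) (nat_lit 479) (nat_lit 408) (nat_lit 313)) (XT.lf (nat_lit 0) (nat_lit 1367085605) (nat_lit 76) (nat_lit 190823197423) (nat_lit 76) (nat_lit 172463685500) (nat_lit 4) (nat_lit 4) (nat_lit 5) (nat_lit 5) (nat_lit 5) (nat_lit 4) (nat_lit 480) (nat_lit 408) (nat_lit 312))))))) (XT.nd (nat_lit 858) (nat_lit 76) (nat_lit 0) (XT.nd (nat_lit 390) (nat_lit 152) (nat_lit 0) (XT.nd (nat_lit 156) (nat_lit 0) (nat_lit 0) (XT.nd (nat_lit 78) (nat_lit 0) (nat_lit 0) (XT.lf (nat_lit 0) (nat_lit 73779918515) (nat_lit 76) (nat_lit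 167784038151) (nat_lit 76) (nat_lit 149423684609) (nat_lit 4) (nat_lit 4) (nat_lit 5) (nat_lit 5) (nat_lit 5) (nat_lit 4) (nat_lit 481) (nat_lit 408) (nat_lit 311)) (XT.lf (nat_lit 0) (nat_lit 151979406181) (nat_lit 76) (nat_lit 142904992321) (nat_lit 76) (nat_lit 124543859502) (nat_lit 4) (nat_lit 4) (nat_lit 5) (nat_lit 5) (nat_lit 5) (nat_lit 4) (nat_lit 482) (nat_lit 408) (nat_lit 310))) (XT.nd (nat_lit 78) (nat_lit 0) (nat_lit 0) (XT.lf (nat_lit 0) (nat_lit 236428952974) (nat_lit 76) (nat_lit 116038628550) (nat_lit 76) (nat_lit 97676774179) (nat_lit 4) (nat_lit 4) (nat_lit 5) (nat_lit 5) (nat_lit 5) (nat_lit 4) (nat_lit 483) (nat_lit 408) (nat_lit 309)) (XT.nd (nat_lit 78) (nat_lit 0) (nat_lit 0) (XT.lf (nat_lit 0) (nat_lit 327629000652) (nat_lit 76) (nat_lit 87025738756) (nat_lit 76) (nat_lit 68663216280) (nat_lit 4) (nat_lit 4) (nat_lit 5) (nat_lit 5) (nat_lit 5) (nat_lit 4) (nat_lit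 484) (nat_lit 408) (nat_lit 308)) (XT.lf (nat_lit 0) (nat_lit 426119993943) (nat_lit 76) (nat_lit 55694394703) (nat_lit 76) (nat_lit 37331253612) (nat_lit 4) (nat_lit 4) (nat_lit 5) (nat_lit 5) (nat_lit 5) (nat_lit 4) (nat_lit 485) (nat_lit 408) (nat_lit 307))))) (XT.nd (nat_lit 234) (nat_lit 0) (nat_lit 0) (XT.nd (nat_lit 78) (nat_lit 152) (nat_lit 0) (XT.lf (nat_lit 0) (nat_lit 532485583177) (nat_lit 76) (nat_lit 21858929168) (nat_lit 76) (nat_lit 3495215285) (nat_lit 4) (nat_lit 4) (nat_lit 5) (nat_lit 5) (nat_lit 5) (nat_lit 4) (nat_lit 486) (nat_lit 408) (nat_lit 306)) (XT.nd (nat_lit 78) (nat_lit 0) (nat_lit 0) (XT.lf (nat_lit 0) (nat_lit 32985076984) (nat_lit 152) (nat_lit 550472287859) (nat_lit 0) (nat_lit 15981147127) (nat_lit 2) (nat_lit 5) (nat_lit 4) (nat_lit 4) (nat_lit 2) (nat_lit 4) (nat_lit 487) (nat_lit 408) (nat_lit 305)) (XT.lf (nat_lit 0) (nat_lit 73471779233) (nat_lit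 152) (nat_lit 514316616903) (nat_lit 0) (nat_lit 56467394676) (nat_lit 2) (nat_lit 5) (nat_lit 4) (nat_lit 4) (nat_lit 2) (nat_lit 4) (nat_lit 488) (nat_lit 408) (nat_lit 304)))) (XT.nd (nat_lit 78) (nat_lit 0) (nat_lit 0) (XT.lf (nat_lit 0) (nat_lit 117195400505) (nat_lit 152) (nat_lit 475272617958) (nat_lit 0) (nat_lit 100190594929) (nat_lit 2) (nat_lit 5) (nat_lit 4) (nat_lit 4) (nat_lit 2) (nat_lit 4) (nat_lit 489) (nat_lit 408) (nat_lit 303)) (XT.nd (nat_lit 78) (nat_lit 0) (nat_lit 0) (XT.lf (nat_lit 0) (nat_lit 164415043741) (nat_lit 152) (nat_lit 433108919176) (nat_lit 0) (nat_lit 147409848332) (nat_lit 2) (nat_lit 5) (nat_lit 4) (nat_lit 4) (nat_lit 2) (nat_lit 4) (nat_lit 490) (nat_lit 408) (nat_lit 302)) (XT.lf (nat_lit 0) (nat_lit 215410529049) (nat_lit 152) (nat_lit 387575661602) (nat_lit 0) (nat_lit 198404972684) (nat_lit 2) (nat_lit 5) (nat_lit 4) (nat_lit 4) (nat_lit 2)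 (nat_lit 4) (nat_lit 491) (nat_lit 408) (nat_lit 301)))))) (XT.nd (nat_lit 468) (nat_lit 76) (nat_lit 0) (XT.nd (nat_lit 234) (nat_lit 0) (nat_lit 0) (XT.nd (nat_lit 78) (nat_lit 0) (nat_lit 0) (XT.lf (nat_lit 0) (nat_lit 270484051897) (nat_lit 152) (nat_lit 338403018525) (nat_lit 0) (nat_lit 253478161313) (nat_lit 2) (nat_lit 5) (nat_lit 4) (nat_lit 4) (nat_lit 2) (nat_lit 4) (nat_lit 492) (nat_lit 408) (nat_lit 300)) (XT.nd (nat_lit 78) (nat_lit 0) (nat_lit 0) (XT.lf (nat_lit 0) (nat_lit 329961973902) (nat_lit 152) (nat_lit 285299596505) (nat_lit 0) (nat_lit 312955773857) (nat_lit 2) (nat_lit 5) (nat_lit 4) (nat_lit 4) (nat_lit 2) (nat_lit 4) (nat_lit 493) (nat_lit 408) (nat_lit 299)) (XT.lf (nat_lit 0) (nat_lit 394196756824) (nat_lit 152) (nat_lit 227950708595) (nat_lit 0) (nat_lit 377190270241) (nat_lit 2) (nat_lit 5) (nat_lit 4) (nat_lit 4) (nat_lit 2) (nat_lit 4) (nat_lit 494) (nat_lit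 408) (nat_lit 298)))) (XT.nd (nat_lit 78) (nat_lit 0) (nat_lit 0) (XT.lf (nat_lit 0) (nat_lit 463569051229) (nat_lit 152) (nat_lit 166016509535) (nat_lit 0) (nat_lit 446562299332) (nat_lit 2) (nat_lit 5) (nat_lit 4) (nat_lit 4) (nat_lit 2) (nat_lit 4) (nat_lit 495) (nat_lit 408) (nat_lit 297)) (XT.nd (nat_lit 78) (nat_lit 0) (nat_lit 0) (XT.lf (nat_lit 0) (nat_lit 538489952194) (nat_lit 152) (nat_lit 99129981848) (nat_lit 0) (nat_lit 521482954637) (nat_lit 2) (nat_lit 5) (nat_lit 4) (nat_lit 4) (nat_lit 2) (nat_lit 4) (nat_lit 496) (nat_lit 408) (nat_lit 296)) (XT.lf (nat_lit 0) (nat_lit 619403435430) (nat_lit 152) (nat_lit 26894760926) (nat_lit 0) (nat_lit 602396210409) (nat_lit 2) (nat_lit 5) (nat_lit 4) (nat_lit 4) (nat_lit 2) (nat_lit 4) (nat_lit 497) (nat_lit 408) (nat_lit 295))))) (XT.nd (nat_lit 234) (nat_lit 0) (nat_lit 0) (XT.nd (nat_lit 78) (nat_lit 0) (nat_lit 0) (XT.lf (nat_lit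 0) (nat_lit 53808955689) (nat_lit 76) (nat_lit 654274139232) (nat_lit 76) (nat_lit 637266703597) (nat_lit 1) (nat_lit 4) (nat_lit 2) (nat_lit 5) (nat_lit 2) (nat_lit 4) (nat_lit 498) (nat_lit 408) (nat_lit 294)) (XT.nd (nat_lit 78) (nat_lit 0) (nat_lit 0) (XT.lf (nat_lit 0) (nat_lit 142496486900) (nat_lit 76) (nat_lit 662095007984) (nat_lit 76) (nat_lit 645087377336) (nat_lit 1) (nat_lit 4) (nat_lit 2) (nat_lit 5) (nat_lit 2) (nat_lit 4) (nat_lit 499) (nat_lit 408) (nat_lit 293)) (XT.lf (nat_lit 0) (nat_lit 238277157996) (nat_lit 76) (nat_lit 670542498929) (nat_lit 76) (nat_lit 653534687713) (nat_lit 1) (nat_lit 4) (nat_lit 2) (nat_lit 5) (nat_lit 2) (nat_lit 4) (nat_lit 500) (nat_lit 408) (nat_lit 292)))) (XT.nd (nat_lit 78) (nat_lit 0) (nat_lit 0) (XT.lf (nat_lit 0) (nat_lit 341718558139) (nat_lit 76) (nat_lit 679666671270) (nat_lit 76) (nat_lit 662658692862) (nat_lit 1) (nat_lit 4) (nat_lit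 2) (nat_lit 5) (nat_lit 2) (nat_lit 4) (nat_lit 501) (nat_lit 408) (nat_lit 291)) (XT.nd (nat_lit 78) (nat_lit 0) (nat_lit 0) (XT.lf (nat_lit 0) (nat_lit 453433673405) (nat_lit 76) (nat_lit 689521594179) (nat_lit 76) (nat_lit 672513460962) (nat_lit 1) (nat_lit 4) (nat_lit 2) (nat_lit 5) (nat_lit 2) (nat_lit 4) (nat_lit 502) (nat_lit 408) (nat_lit 290)) (XT.lf (nat_lit 0) (nat_lit 574084519291) (nat_lit 76) (nat_lit 700165667197) (nat_lit 76) (nat_lit 683157390640) (nat_lit 1) (nat_lit 4) (nat_lit 2) (nat_lit 5) (nat_lit 2) (nat_lit 4) (nat_lit 503) (nat_lit 408) (nat_lit 289))))))))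
noncomputable def xc117 : XT := (XT.nd (nat_lit 1716) (nat_lit 0) (nat_lit 0) (XT.nd (nat_lit 858) (nat_lit 0) (nat_lit 0) (XT.nd (nat_lit 390) (nat_lit 0) (nat_lit 0) (XT.nd (nat_lit 156) (nat_lit 0) (nat_lit 0) (XT.nd (nat_lit 78) (nat_lit 0) (nat_lit 0) (XT.lf (nat_lit 0) (nat_lit 704386063773) (nat_lit 76) (nat_lit 711661966313) (nat_lit 76) (nat_lit 694653557034) (nat_lit 1) (nat_lit 4) (nat_lit 2) (nat_lit 5) (nat_lit 2) (nat_lit 4) (nat_lit 504) (nat_lit 408) (nat_lit 288)) (XT.lf (nat_lit 0) (nat_lit 845110464151) (nat_lit 76) (nat_lit 724078617745) (nat_lit 76) (nat_lit 707070085574) (nat_lit 1) (nat_lit 4) (nat_lit 2) (nat_lit 5) (nat_lit 2) (nat_lit 4) (nat_lit 505) (nat_lit 408) (nat_lit 287))) (XT.nd (nat_lit 78) (nat_lit 0) (nat_lit 0) (XT.lf (nat_lit 0) (nat_lit 997091642799) (nat_lit 76) (nat_lit 737489201648) (nat_lit 76) (nat_lit 720480555689) (nat_lit 1) (nat_lit 4) (nat_lit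 2) (nat_lit 5) (nat_lit 2) (nat_lit 4) (nat_lit 506) (nat_lit 408) (nat_lit 286)) (XT.nd (nat_lit 78) (nat_lit 0) (nat_lit 0) (XT.lf (nat_lit 0) (nat_lit 1161230228922) (nat_lit 76) (nat_lit 751973188150) (nat_lit 76) (nat_lit 734964436831) (nat_lit 1) (nat_lit 4) (nat_lit 2) (nat_lit 5) (nat_lit 2) (nat_lit 4) (nat_lit 507) (nat_lit 408) (nat_lit 285)) (XT.lf (nat_lit 0) (nat_lit 1338498895625) (nat_lit 76) (nat_lit 767616408281) (nat_lit 76) (nat_lit 750607559407) (nat_lit 1) (nat_lit 4) (nat_lit 2) (nat_lit 5) (nat_lit 2) (nat_lit 4) (nat_lit 508) (nat_lit 408) (nat_lit 284))))) (XT.nd (nat_lit 234) (nat_lit 0) (nat_lit 0) (XT.nd (nat_lit 78) (nat_lit 0) (nat_lit 0) (XT.lf (nat_lit 0) (nat_lit 1529948123894) (nat_lit 76) (nat_lit 784511562606) (nat_lit 76) (nat_lit 767502623403) (nat_lit 1) (nat_lit 4) (nat_lit 2) (nat_lit 5) (nat_lit 2) (nat_lit 4) (nat_lit 509) (nat_lit 408) (nat_lit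 283)) (XT.nd (nat_lit 78) (nat_lit 0) (nat_lit 0) (XT.lf (nat_lit 0) (nat_lit 1736712427675) (nat_lit 76) (nat_lit 802758770557) (nat_lit 76) (nat_lit 785749747717) (nat_lit 1) (nat_lit 4) (nat_lit 2) (nat_lit 5) (nat_lit 2) (nat_lit 4) (nat_lit 510) (nat_lit 408) (nat_lit 282)) (XT.lf (nat_lit 0) (nat_lit 1960017076917) (nat_lit 76) (nat_lit 822466163738) (nat_lit 76) (nat_lit 805457063455) (nat_lit 1) (nat_lit 4) (nat_lit 2) (nat_lit 5) (nat_lit 2) (nat_lit 4) (nat_lit 511) (nat_lit 408) (nat_lit 281)))) (XT.nd (nat_lit 78) (nat_lit 0) (nat_lit 0) (XT.lf (nat_lit 0) (nat_lit 2201185358429) (nat_lit 76) (nat_lit 843750526700) (nat_lit 76) (nat_lit 826741354710) (nat_lit 1) (nat_lit 4) (nat_lit 2) (nat_lit 5) (nat_lit 2) (nat_lit 4) (nat_lit 512) (nat_lit 408) (nat_lit 280)) (XT.nd (nat_lit 78) (nat_lit 0) (nat_lit 0) (XT.lf (nat_lit 0) (nat_lit 2461646417584) (nat_lit 76) (nat_lit 866737989001)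 (nat_lit 76) (nat_lit 849728750618) (nat_lit 1) (nat_lit 4) (nat_lit 2) (nat_lit 5) (nat_lit 2) (nat_lit 4) (nat_lit 513) (nat_lit 408) (nat_lit 279)) (XT.lf (nat_lit 0) (nat_lit 2742943727325) (nat_lit 76) (nat_lit 891564772641) (nat_lit 76) (nat_lit 874555472781) (nat_lit 1) (nat_lit 4) (nat_lit 2) (nat_lit 5) (nat_lit 2) (nat_lit 4) (nat_lit 514) (nat_lit 408) (nat_lit 278)))))) (XT.nd (nat_lit 390) (nat_lit 0) (nat_lit 0) (XT.nd (nat_lit 156) (nat_lit 0) (nat_lit 0) (XT.nd (nat_lit 78) (nat_lit 0) (nat_lit 0) (XT.lf (nat_lit 0) (nat_lit 3046744234672) (nat_lit 76) (nat_lit 918377999300) (nat_lit 76) (nat_lit 901368642518) (nat_lit 1) (nat_lit 4) (nat_lit 2) (nat_lit 5) (nat_lit 2) (nat_lit 4) (nat_lit 515) (nat_lit 408) (nat_lit 277)) (XT.lf (nat_lit 0) (nat_lit 3374848238929) (nat_lit 76) (nat_lit 947336562174) (nat_lit 76) (nat_lit 930327152685) (nat_lit 1) (nat_lit 4) (nat_lit 2)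 (nat_lit 5) (nat_lit 2) (nat_lit 4) (nat_lit 516) (nat_lit 408) (nat_lit 276))) (XT.nd (nat_lit 78) (nat_lit 0) (nat_lit 0) (XT.lf (nat_lit 0) (nat_lit 3729200060120) (nat_lit 76) (nat_lit 978612067560) (nat_lit 76) (nat_lit 961602609270) (nat_lit 1) (nat_lit 4) (nat_lit 2) (nat_lit 5) (nat_lit 2) (nat_lit 4) (nat_lit 517) (nat_lit 408) (nat_lit 275)) (XT.nd (nat_lit 78) (nat_lit 0) (nat_lit 0) (XT.lf (nat_lit 0) (nat_lit 4111899560890) (nat_lit 76) (nat_lit 1012389851787) (nat_lit 76) (nat_lit 995380348310) (nat_lit 1) (nat_lit 4) (nat_lit 2) (nat_lit 5) (nat_lit 2) (nat_lit 4) (nat_lit 518) (nat_lit 408) (nat_lit 274)) (XT.lf (nat_lit 0) (nat_lit 4525214590131) (nat_lit 76) (nat_lit 1048870079503) (nat_lit 76) (nat_lit 1031860534186) (nat_lit 1) (nat_lit 4) (nat_lit 2) (nat_lit 5) (nat_lit 2) (nat_lit 4) (nat_lit 519) (nat_lit 408) (nat_lit 273))))) (XT.nd (nat_lit 234) (nat_lit 0) (nat_lit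 0) (XT.nd (nat_lit 78) (nat_lit 0) (nat_lit 0) (XT.lf (nat_lit 0) (nat_lit 4971594422092) (nat_lit 76) (nat_lit 1088268929834) (nat_lit 76) (nat_lit 1071259345776) (nat_lit 1) (nat_lit 4) (nat_lit 2) (nat_lit 5) (nat_lit 2) (nat_lit 4) (nat_lit 520) (nat_lit 408) (nat_lit 272)) (XT.nd (nat_lit 78) (nat_lit 0) (nat_lit 0) (XT.lf (nat_lit 0) (nat_lit 5453684270592) (nat_lit 76) (nat_lit 1130819877449) (nat_lit 76) (nat_lit 1113810257521) (nat_lit 1) (nat_lit 4) (nat_lit 2) (nat_lit 5) (nat_lit 2) (nat_lit 4) (nat_lit 521) (nat_lit 408) (nat_lit 271)) (XT.lf (nat_lit 0) (nat_lit 5974340964361) (nat_lit 76) (nat_lit 1176775076112) (nat_lit 76) (nat_lit 1159765422970) (nat_lit 1) (nat_lit 4) (nat_lit 2) (nat_lit 5) (nat_lit 2) (nat_lit 4) (nat_lit 522) (nat_lit 408) (nat_lit 270)))) (XT.nd (nat_lit 78) (nat_lit 0) (nat_lit 0) (XT.lf (nat_lit 0) (nat_lit 6536649876401) (nat_lit 76) (nat_lit 1226406852926)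 (nat_lit 76) (nat_lit 1209397169030) (nat_lit 1) (nat_lit 4) (nat_lit 2) (nat_lit 5) (nat_lit 2) (nat_lit 4) (nat_lit 523) (nat_lit 408) (nat_lit 269)) (XT.nd (nat_lit 78) (nat_lit 0) (nat_lit 0) (XT.lf (nat_lit 0) (nat_lit 7143943207672) (nat_lit 76) (nat_lit 1280009322124) (nat_lit 76) (nat_lit 1262999609753) (nat_lit 1) (nat_lit 4) (nat_lit 2) (nat_lit 5) (nat_lit 2) (nat_lit 4) (nat_lit 524) (nat_lit 408) (nat_lit 268)) (XT.lf (nat_lit 0) (nat_lit 7799819733470) (nat_lit 76) (nat_lit 1337900127968) (nat_lit 76) (nat_lit 1320890389230) (nat_lit 1) (nat_lit 4) (nat_lit 2) (nat_lit 5) (nat_lit 2) (nat_lit 4) (nat_lit 525) (nat_lit 408) (nat_lit 267))))))) (XT.nd (nat_lit 54054) (nat_lit 0) (nat_lit 3116) (XT.nd (nat_lit 53586) (nat_lit 0) (nat_lit 4940) (XT.nd (nat_lit 53352) (nat_lit 0) (nat_lit 5168) (XT.nd (nat_lit 78) (nat_lit 0) (nat_lit 0) (XT.lf (nat_lit 0) (nat_lit 8508166129503)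 (nat_lit 76) (nat_lit 1400422327084) (nat_lit 76) (nat_lit 1383412563934) (nat_lit 1) (nat_lit 4) (nat_lit 2) (nat_lit 5) (nat_lit 2) (nat_lit 4) (nat_lit 526) (nat_lit 408) (nat_lit 266)) (XT.lf (nat_lit 0) (nat_lit 9273180004045) (nat_lit 76) (nat_lit 1467946421395) (nat_lit 76) (nat_lit 1450936635640) (nat_lit 1) (nat_lit 4) (nat_lit 2) (nat_lit 5) (nat_lit 2) (nat_lit 4) (nat_lit 527) (nat_lit 408) (nat_lit 265))) (XT.nd (nat_lit 78) (nat_lit 532) (nat_lit 0) (XT.lf (nat_lit 0) (nat_lit 2009698083) (nat_lit 0) (nat_lit 2009698083) (nat_lit 380) (nat_lit 371386551) (nat_lit 76) (nat_lit 5) (nat_lit 76) (nat_lit 3) (nat_lit 81) (nat_lit 3) (nat_lit 409) (nat_lit 409) (nat_lit 382)) (XT.nd (nat_lit 78) (nat_lit 0) (nat_lit 76) (XT.lf (nat_lit 0) (nat_lit 196419490) (nat_lit 532) (nat_lit 436464155) (nat_lit 532) (nat_lit 8426383972) (nat_lit 69) (nat_lit 3) (nat_lit 76) (nat_lit 3) (nat_lit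 76) (nat_lit 5) (nat_lit 410) (nat_lit 409) (nat_lit 381)) (XT.lf (nat_lit 0) (nat_lit 1260018522) (nat_lit 456) (nat_lit 5048649506) (nat_lit 532) (nat_lit 3041885129) (nat_lit 70) (nat_lit 5) (nat_lit 76) (nat_lit 5) (nat_lit 77) (nat_lit 5) (nat_lit 411) (nat_lit 409) (nat_lit 380))))) (XT.nd (nat_lit 234) (nat_lit 304) (nat_lit 0) (XT.nd (nat_lit 78) (nat_lit 0) (nat_lit 76) (XT.lf (nat_lit 0) (nat_lit 2350954209) (nat_lit 456) (nat_lit 293757231) (nat_lit 532) (nat_lit 7025108176) (nat_lit 70) (nat_lit 5) (nat_lit 76) (nat_lit 5) (nat_lit 77) (nat_lit 5) (nat_lit 412) (nat_lit 409) (nat_lit 379)) (XT.nd (nat_lit 78) (nat_lit 0) (nat_lit 0) (XT.lf (nat_lit 0) (nat_lit 3605735310) (nat_lit 456) (nat_lit 5005821441) (nat_lit 532) (nat_lit 1396998678) (nat_lit 71) (nat_lit 5) (nat_lit 77) (nat_lit 5) (nat_lit 78) (nat_lit 5) (nat_lit 413) (nat_lit 409) (nat_lit 378)) (XT.lf (nat_lit 76)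 (nat_lit 251501977) (nat_lit 0) (nat_lit 4717615277) (nat_lit 532) (nat_lit 5404665091) (nat_lit 72) (nat_lit 5) (nat_lit 71) (nat_lit 5) (nat_lit 78) (nat_lit 5) (nat_lit 414) (nat_lit 409) (nat_lit 377)))) (XT.nd (nat_lit 78) (nat_lit 380) (nat_lit 0) (XT.lf (nat_lit 76) (nat_lit 6157487220) (nat_lit 0) (nat_lit 350362675) (nat_lit 532) (nat_lit 4255121130) (nat_lit 72) (nat_lit 5) (nat_lit 71) (nat_lit 5) (nat_lit 78) (nat_lit 5) (nat_lit 415) (nat_lit 409) (nat_lit 376)) (XT.nd (nat_lit 78) (nat_lit 0) (nat_lit 0) (XT.lf (nat_lit 0) (nat_lit 1252293500) (nat_lit 456) (nat_lit 6987466360) (nat_lit 532) (nat_lit 2937971256) (nat_lit 66) (nat_lit 5) (nat_lit 72) (nat_lit 5) (nat_lit 73) (nat_lit 5) (nat_lit 416) (nat_lit 409) (nat_lit 375)) (XT.lf (nat_lit 0) (nat_lit 7774500851) (nat_lit 456) (nat_lit 2408924723) (nat_lit 532) (nat_lit 1436429661) (nat_lit 66) (nat_lit 5) (nat_lit 72)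 (nat_lit 5) (nat_lit 73) (nat_lit 5) (nat_lit 417) (nat_lit 409) (nat_lit 374)))))) (XT.nd (nat_lit 468) (nat_lit 684) (nat_lit 0) (XT.nd (nat_lit 234) (nat_lit 380) (nat_lit 0) (XT.nd (nat_lit 78) (nat_lit 228) (nat_lit 0) (XT.lf (nat_lit 0) (nat_lit 247727138) (nat_lit 532) (nat_lit 9357892520) (nat_lit 76) (nat_lit 2485666414) (nat_lit 59) (nat_lit 5) (nat_lit 66) (nat_lit 5) (nat_lit 60) (nat_lit 5) (nat_lit 418) (nat_lit 409) (nat_lit 373)) (XT.nd (nat_lit 78) (nat_lit 228) (nat_lit 0) (XT.lf (nat_lit 0) (nat_lit 2103979633) (nat_lit 532) (nat_lit 2696062819) (nat_lit 76) (nat_lit 7788238044) (nat_lit 59) (nat_lit 5) (nat_lit 66) (nat_lit 5) (nat_lit 60) (nat_lit 5) (nat_lit 419) (nat_lit 409) (nat_lit 372)) (XT.lf (nat_lit 0) (nat_lit 4182121326) (nat_lit 304) (nat_lit 8453876020) (nat_lit 76) (nat_lit 483195011) (nat_lit 56) (nat_lit 5) (nat_lit 60) (nat_lit 5) (nat_lit 57) (nat_lit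 5) (nat_lit 420) (nat_lit 409) (nat_lit 371)))) (XT.nd (nat_lit 78) (nat_lit 380) (nat_lit 0) (XT.lf (nat_lit 0) (nat_lit 6577894903) (nat_lit 304) (nat_lit 1101025825) (nat_lit 76) (nat_lit 6001572849) (nat_lit 56) (nat_lit 5) (nat_lit 60) (nat_lit 5) (nat_lit 57) (nat_lit 5) (nat_lit 421) (nat_lit 409) (nat_lit 370)) (XT.nd (nat_lit 78) (nat_lit 152) (nat_lit 0) (XT.lf (nat_lit 0) (nat_lit 7144984491) (nat_lit 228) (nat_lit 2146881356) (nat_lit 304) (nat_lit 4984735073) (nat_lit 53) (nat_lit 5) (nat_lit 56) (nat_lit 5) (nat_lit 57) (nat_lit 5) (nat_lit 422) (nat_lit 409) (nat_lit 369)) (XT.lf (nat_lit 0) (nat_lit 1103206318) (nat_lit 152) (nat_lit 11225854685) (nat_lit 228) (nat_lit 2582870349) (nat_lit 51) (nat_lit 5) (nat_lit 53) (nat_lit 5) (nat_lit 54) (nat_lit 5) (nat_lit 423) (nat_lit 409) (nat_lit 368))))) (XT.nd (nat_lit 234) (nat_lit 380) (nat_lit 0) (XT.nd (nat_lit 78) (nat_lit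 228) (nat_lit 0) (XT.lf (nat_lit 0) (nat_lit 223876482) (nat_lit 228) (nat_lit 5296514650) (nat_lit 76) (nat_lit 10060632154) (nat_lit 50) (nat_lit 5) (nat_lit 53) (nat_lit 5) (nat_lit 51) (nat_lit 5) (nat_lit 424) (nat_lit 409) (nat_lit 367)) (XT.nd (nat_lit 78) (nat_lit 0) (nat_lit 0) (XT.lf (nat_lit 0) (nat_lit 3191267739) (nat_lit 304) (nat_lit 12335843392) (nat_lit 76) (nat_lit 765130977) (nat_lit 47) (nat_lit 5) (nat_lit 51) (nat_lit 5) (nat_lit 48) (nat_lit 5) (nat_lit 425) (nat_lit 409) (nat_lit 366)) (XT.lf (nat_lit 0) (nat_lit 6650057385) (nat_lit 304) (nat_lit 2997824539) (nat_lit 76) (nat_lit 7392172865) (nat_lit 47) (nat_lit 5) (nat_lit 51) (nat_lit 5) (nat_lit 48) (nat_lit 5) (nat_lit 426) (nat_lit 409) (nat_lit 365)))) (XT.nd (nat_lit 78) (nat_lit 228) (nat_lit 0) (XT.lf (nat_lit 0) (nat_lit 7409104624) (nat_lit 152) (nat_lit 3119489123) (nat_lit 228) (nat_lit 7307670925)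 (nat_lit 45) (nat_lit 5) (nat_lit 47) (nat_lit 5) (nat_lit 48) (nat_lit 5) (nat_lit 427) (nat_lit 409) (nat_lit 364)) (XT.nd (nat_lit 78) (nat_lit 228) (nat_lit 0) (XT.lf (nat_lit 0) (nat_lit 14862034403) (nat_lit 228) (nat_lit 17117295) (nat_lit 76) (nat_lit 3805464443) (nat_lit 45) (nat_lit 5) (nat_lit 48) (nat_lit 5) (nat_lit 46) (nat_lit 5) (nat_lit 428) (nat_lit 409) (nat_lit 363)) (XT.lf (nat_lit 0) (nat_lit 283323761) (nat_lit 228) (nat_lit 7898661251) (nat_lit 76) (nat_lit 11391850187) (nat_lit 42) (nat_lit 5) (nat_lit 45) (nat_lit 5) (nat_lit 43) (nat_lit 5) (nat_lit 429) (nat_lit 409) (nat_lit 362))))))))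
noncomputable def xc118 : XT := (XT.nd (nat_lit 1716) (nat_lit 988) (nat_lit 0) (XT.nd (nat_lit 858) (nat_lit 684) (nat_lit 0) (XT.nd (nat_lit 390) (nat_lit 532) (nat_lit 0) (XT.nd (nat_lit 156) (nat_lit 304) (nat_lit 0) (XT.nd (nat_lit 78) (nat_lit 0) (nat_lit 0) (XT.lf (nat_lit 0) (nat_lit 3814498140) (nat_lit 152) (nat_lit 757857908) (nat_lit 228) (nat_lit 15949010379) (nat_lit 40) (nat_lit 5) (nat_lit 42) (nat_lit 5) (nat_lit 43) (nat_lit 5) (nat_lit 430) (nat_lit 409) (nat_lit 361)) (XT.lf (nat_lit 0) (nat_lit 9570474435) (nat_lit 228) (nat_lit 4841251754) (nat_lit 76) (nat_lit 7103707548) (nat_lit 40) (nat_lit 5) (nat_lit 43) (nat_lit 5) (nat_lit 41) (nat_lit 5) (nat_lit 431) (nat_lit 409) (nat_lit 360))) (XT.nd (nat_lit 78) (nat_lit 152) (nat_lit 0) (XT.lf (nat_lit 0) (nat_lit 8326447076) (nat_lit 152) (nat_lit 6833952118) (nat_lit 228) (nat_lit 7413280559) (nat_lit 38) (nat_lit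 5) (nat_lit 40) (nat_lit 5) (nat_lit 41) (nat_lit 5) (nat_lit 432) (nat_lit 409) (nat_lit 359)) (XT.nd (nat_lit 78) (nat_lit 152) (nat_lit 0) (XT.lf (nat_lit 0) (nat_lit 21338471413) (nat_lit 228) (nat_lit 963686088) (nat_lit 76) (nat_lit 1403160814) (nat_lit 38) (nat_lit 5) (nat_lit 41) (nat_lit 5) (nat_lit 39) (nat_lit 4) (nat_lit 433) (nat_lit 409) (nat_lit 358)) (XT.lf (nat_lit 0) (nat_lit 3427128715) (nat_lit 152) (nat_lit 11118569594) (nat_lit 76) (nat_lit 10336019893) (nat_lit 36) (nat_lit 5) (nat_lit 38) (nat_lit 5) (nat_lit 37) (nat_lit 5) (nat_lit 434) (nat_lit 409) (nat_lit 357))))) (XT.nd (nat_lit 234) (nat_lit 304) (nat_lit 0) (XT.nd (nat_lit 78) (nat_lit 76) (nat_lit 0) (XT.lf (nat_lit 0) (nat_lit 3651683823) (nat_lit 152) (nat_lit 5994889165) (nat_lit 228) (nat_lit 16493560483) (nat_lit 34) (nat_lit 5) (nat_lit 36) (nat_lit 5) (nat_lit 37) (nat_lit 5) (nat_lit 435) (nat_lit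 409) (nat_lit 356)) (XT.nd (nat_lit 78) (nat_lit 76) (nat_lit 0) (XT.lf (nat_lit 0) (nat_lit 16728840658) (nat_lit 228) (nat_lit 7366970003) (nat_lit 76) (nat_lit 3374196591) (nat_lit 34) (nat_lit 5) (nat_lit 37) (nat_lit 5) (nat_lit 35) (nat_lit 4) (nat_lit 436) (nat_lit 409) (nat_lit 355)) (XT.lf (nat_lit 0) (nat_lit 9231293357) (nat_lit 76) (nat_lit 15501387846) (nat_lit 152) (nat_lit 4145196638) (nat_lit 33) (nat_lit 5) (nat_lit 34) (nat_lit 5) (nat_lit 35) (nat_lit 4) (nat_lit 437) (nat_lit 409) (nat_lit 354)))) (XT.nd (nat_lit 78) (nat_lit 228) (nat_lit 0) (XT.lf (nat_lit 0) (nat_lit 3013575347) (nat_lit 152) (nat_lit 2921958306) (nat_lit 76) (nat_lit 24442389726) (nat_lit 32) (nat_lit 5) (nat_lit 34) (nat_lit 5) (nat_lit 33) (nat_lit 5) (nat_lit 438) (nat_lit 409) (nat_lit 353)) (XT.nd (nat_lit 78) (nat_lit 76) (nat_lit 0) (XT.lf (nat_lit 0) (nat_lit 10997894027) (nat_lit 228) (nat_lit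 16292302957) (nat_lit 76) (nat_lit 4661023660) (nat_lit 30) (nat_lit 5) (nat_lit 33) (nat_lit 5) (nat_lit 31) (nat_lit 4) (nat_lit 439) (nat_lit 409) (nat_lit 352)) (XT.lf (nat_lit 0) (nat_lit 2163801911) (nat_lit 76) (nat_lit 17724791255) (nat_lit 152) (nat_lit 13740382303) (nat_lit 29) (nat_lit 5) (nat_lit 30) (nat_lit 5) (nat_lit 31) (nat_lit 4) (nat_lit 440) (nat_lit 409) (nat_lit 351)))))) (XT.nd (nat_lit 390) (nat_lit 456) (nat_lit 0) (XT.nd (nat_lit 156) (nat_lit 76) (nat_lit 0) (XT.nd (nat_lit 78) (nat_lit 152) (nat_lit 0) (XT.lf (nat_lit 0) (nat_lit 22987237387) (nat_lit 76) (nat_lit 6928893018) (nat_lit 152) (nat_lit 5490777935) (nat_lit 29) (nat_lit 5) (nat_lit 30) (nat_lit 5) (nat_lit 31) (nat_lit 4) (nat_lit 441) (nat_lit 409) (nat_lit 350)) (XT.lf (nat_lit 0) (nat_lit 3553082734) (nat_lit 152) (nat_lit 28970374045) (nat_lit 76) (nat_lit 4772620131) (nat_lit 27) (nat_lit 5)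 (nat_lit 29) (nat_lit 5) (nat_lit 28) (nat_lit 4) (nat_lit 442) (nat_lit 409) (nat_lit 349))) (XT.nd (nat_lit 78) (nat_lit 76) (nat_lit 0) (XT.lf (nat_lit 0) (nat_lit 13533528939) (nat_lit 152) (nat_lit 8237910796) (nat_lit 76) (nat_lit 17512755481) (nat_lit 27) (nat_lit 5) (nat_lit 29) (nat_lit 5) (nat_lit 28) (nat_lit 4) (nat_lit 443) (nat_lit 409) (nat_lit 348)) (XT.nd (nat_lit 78) (nat_lit 0) (nat_lit 0) (XT.lf (nat_lit 0) (nat_lit 14864984801) (nat_lit 76) (nat_lit 9787664553) (nat_lit 152) (nat_lit 16751497663) (nat_lit 26) (nat_lit 5) (nat_lit 27) (nat_lit 5) (nat_lit 28) (nat_lit 4) (nat_lit 444) (nat_lit 409) (nat_lit 347)) (XT.lf (nat_lit 0) (nat_lit 36951189163) (nat_lit 152) (nat_lit 3504756245) (nat_lit 0) (nat_lit 3214561255) (nat_lit 26) (nat_lit 5) (nat_lit 28) (nat_lit 4) (nat_lit 26) (nat_lit 4) (nat_lit 445) (nat_lit 409) (nat_lit 346))))) (XT.nd (nat_lit 234) (nat_lit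 228) (nat_lit 0) (XT.nd (nat_lit 78) (nat_lit 76) (nat_lit 0) (XT.lf (nat_lit 0) (nat_lit 4701928362) (nat_lit 152) (nat_lit 23976363385) (nat_lit 76) (nat_lit 17368578727) (nat_lit 24) (nat_lit 5) (nat_lit 26) (nat_lit 5) (nat_lit 25) (nat_lit 4) (nat_lit 446) (nat_lit 409) (nat_lit 345)) (XT.nd (nat_lit 78) (nat_lit 0) (nat_lit 0) (XT.lf (nat_lit 0) (nat_lit 1135540854) (nat_lit 76) (nat_lit 15648208666) (nat_lit 152) (nat_lit 31806842476) (nat_lit 23) (nat_lit 5) (nat_lit 24) (nat_lit 5) (nat_lit 25) (nat_lit 4) (nat_lit 447) (nat_lit 409) (nat_lit 344)) (XT.lf (nat_lit 0) (nat_lit 29591026272) (nat_lit 76) (nat_lit 881384225) (nat_lit 152) (nat_lit 20814179329) (nat_lit 23) (nat_lit 5) (nat_lit 24) (nat_lit 5) (nat_lit 25) (nat_lit 4) (nat_lit 448) (nat_lit 409) (nat_lit 343)))) (XT.nd (nat_lit 78) (nat_lit 152) (nat_lit 0) (XT.lf (nat_lit 0) (nat_lit 6036692760) (nat_lit 76) (nat_lit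 39712574839) (nat_lit 76) (nat_lit 8409553589) (nat_lit 22) (nat_lit 4) (nat_lit 23) (nat_lit 5) (nat_lit 23) (nat_lit 4) (nat_lit 449) (nat_lit 409) (nat_lit 342)) (XT.nd (nat_lit 78) (nat_lit 76) (nat_lit 0) (XT.lf (nat_lit 0) (nat_lit 5355066451) (nat_lit 152) (nat_lit 20177922147) (nat_lit 76) (nat_lit 31668878988) (nat_lit 21) (nat_lit 5) (nat_lit 23) (nat_lit 5) (nat_lit 22) (nat_lit 4) (nat_lit 450) (nat_lit 409) (nat_lit 341)) (XT.lf (nat_lit 0) (nat_lit 10271593938) (nat_lit 76) (nat_lit 9728645451) (nat_lit 152) (nat_lit 40451948057) (nat_lit 20) (nat_lit 5) (nat_lit 21) (nat_lit 5) (nat_lit 22) (nat_lit 4) (nat_lit 451) (nat_lit 409) (nat_lit 340))))))) (XT.nd (nat_lit 858) (nat_lit 456) (nat_lit 0) (XT.nd (nat_lit 390) (nat_lit 304) (nat_lit 0) (XT.nd (nat_lit 156) (nat_lit 152) (nat_lit 0) (XT.nd (nat_lit 78) (nat_lit 76) (nat_lit 0) (XT.lf (nat_lit 0) (nat_lit 36546365896)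 (nat_lit 152) (nat_lit 19830368210) (nat_lit 0) (nat_lit 7527453054) (nat_lit 20) (nat_lit 5) (nat_lit 22) (nat_lit 4) (nat_lit 20) (nat_lit 4) (nat_lit 452) (nat_lit 409) (nat_lit 339)) (XT.lf (nat_lit 0) (nat_lit 13338619211) (nat_lit 76) (nat_lit 41638810111) (nat_lit 76) (nat_lit 12610019118) (nat_lit 19) (nat_lit 4) (nat_lit 20) (nat_lit 5) (nat_lit 20) (nat_lit 4) (nat_lit 453) (nat_lit 409) (nat_lit 338))) (XT.nd (nat_lit 78) (nat_lit 76) (nat_lit 0) (XT.lf (nat_lit 0) (nat_lit 3695726432) (nat_lit 152) (nat_lit 21350826450) (nat_lit 76) (nat_lit 46468909453) (nat_lit 18) (nat_lit 5) (nat_lit 20) (nat_lit 5) (nat_lit 19) (nat_lit 4) (nat_lit 454) (nat_lit 409) (nat_lit 337)) (XT.nd (nat_lit 78) (nat_lit 0) (nat_lit 0) (XT.lf (nat_lit 0) (nat_lit 14557625851) (nat_lit 76) (nat_lit 6405851170) (nat_lit 152) (nat_lit 54740933627) (nat_lit 17) (nat_lit 5) (nat_lit 18) (nat_lit 5) (nat_lit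 19) (nat_lit 4) (nat_lit 455) (nat_lit 409) (nat_lit 336)) (XT.lf (nat_lit 0) (nat_lit 40530461107) (nat_lit 152) (nat_lit 25996209950) (nat_lit 0) (nat_lit 13628379673) (nat_lit 17) (nat_lit 5) (nat_lit 19) (nat_lit 4) (nat_lit 17) (nat_lit 4) (nat_lit 456) (nat_lit 409) (nat_lit 335))))) (XT.nd (nat_lit 234) (nat_lit 76) (nat_lit 0) (XT.nd (nat_lit 78) (nat_lit 152) (nat_lit 0) (XT.lf (nat_lit 0) (nat_lit 12399799052) (nat_lit 76) (nat_lit 49717206059) (nat_lit 76) (nat_lit 22808401721) (nat_lit 16) (nat_lit 4) (nat_lit 17) (nat_lit 5) (nat_lit 17) (nat_lit 4) (nat_lit 457) (nat_lit 409) (nat_lit 334)) (XT.nd (nat_lit 78) (nat_lit 152) (nat_lit 0) (XT.lf (nat_lit 0) (nat_lit 55325921362) (nat_lit 76) (nat_lit 30805223199) (nat_lit 76) (nat_lit 3890193950) (nat_lit 16) (nat_lit 4) (nat_lit 17) (nat_lit 5) (nat_lit 17) (nat_lit 4) (nat_lit 458) (nat_lit 409) (nat_lit 333)) (XT.lf (nat_lit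 0) (nat_lit 6046832700) (nat_lit 76) (nat_lit 9802987374) (nat_lit 152) (nat_lit 79632433870) (nat_lit 14) (nat_lit 5) (nat_lit 15) (nat_lit 5) (nat_lit 16) (nat_lit 4) (nat_lit 459) (nat_lit 409) (nat_lit 332)))) (XT.nd (nat_lit 78) (nat_lit 76) (nat_lit 0) (XT.lf (nat_lit 0) (nat_lit 38232327209) (nat_lit 152) (nat_lit 49737030034) (nat_lit 0) (nat_lit 13300725437) (nat_lit 14) (nat_lit 5) (nat_lit 16) (nat_lit 4) (nat_lit 14) (nat_lit 4) (nat_lit 460) (nat_lit 409) (nat_lit 331)) (XT.nd (nat_lit 78) (nat_lit 76) (nat_lit 0) (XT.lf (nat_lit 0) (nat_lit 62651205120) (nat_lit 152) (nat_lit 7135043746) (nat_lit 0) (nat_lit 37715027852) (nat_lit 14) (nat_lit 5) (nat_lit 16) (nat_lit 4) (nat_lit 14) (nat_lit 4) (nat_lit 461) (nat_lit 409) (nat_lit 330)) (XT.lf (nat_lit 0) (nat_lit 40904989138) (nat_lit 76) (nat_lit 49094173020) (nat_lit 76) (nat_lit 24153759182) (nat_lit 13) (nat_lit 4) (nat_lit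 14) (nat_lit 5) (nat_lit 14) (nat_lit 4) (nat_lit 462) (nat_lit 409) (nat_lit 329)))))) (XT.nd (nat_lit 468) (nat_lit 228) (nat_lit 0) (XT.nd (nat_lit 234) (nat_lit 76) (nat_lit 0) (XT.nd (nat_lit 78) (nat_lit 152) (nat_lit 0) (XT.lf (nat_lit 0) (nat_lit 93178069196) (nat_lit 76) (nat_lit 26543998258) (nat_lit 76) (nat_lit 1599661671) (nat_lit 13) (nat_lit 4) (nat_lit 14) (nat_lit 5) (nat_lit 14) (nat_lit 4) (nat_lit 463) (nat_lit 409) (nat_lit 328)) (XT.nd (nat_lit 78) (nat_lit 0) (nat_lit 0) (XT.lf (nat_lit 0) (nat_lit 21059958832) (nat_lit 76) (nat_lit 1059237127) (nat_lit 152) (nat_lit 106861144696) (nat_lit 11) (nat_lit 5) (nat_lit 12) (nat_lit 5) (nat_lit 13) (nat_lit 4) (nat_lit 464) (nat_lit 409) (nat_lit 327)) (XT.lf (nat_lit 0) (nat_lit 49067543903) (nat_lit 152) (nat_lit 62102842434) (nat_lit 0) (nat_lit 25964458820) (nat_lit 11) (nat_lit 5) (nat_lit 13) (nat_lit 4) (nat_lit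 11) (nat_lit 4) (nat_lit 465) (nat_lit 409) (nat_lit 326)))) (XT.nd (nat_lit 78) (nat_lit 76) (nat_lit 0) (XT.lf (nat_lit 0) (nat_lit 78192284676) (nat_lit 152) (nat_lit 12661467479) (nat_lit 0) (nat_lit 55086316255) (nat_lit 11) (nat_lit 5) (nat_lit 13) (nat_lit 4) (nat_lit 11) (nat_lit 4) (nat_lit 466) (nat_lit 409) (nat_lit 325)) (XT.nd (nat_lit 78) (nat_lit 0) (nat_lit 0) (XT.lf (nat_lit 0) (nat_lit 42866562720) (nat_lit 76) (nat_lit 67804913799) (nat_lit 76) (nat_lit 44696275620) (nat_lit 10) (nat_lit 4) (nat_lit 11) (nat_lit 5) (nat_lit 11) (nat_lit 4) (nat_lit 467) (nat_lit 409) (nat_lit 324)) (XT.lf (nat_lit 0) (nat_lit 103544219847) (nat_lit 76) (nat_lit 42544674970) (nat_lit 76) (nat_lit 19433564794) (nat_lit 10) (nat_lit 4) (nat_lit 11) (nat_lit 5) (nat_lit 11) (nat_lit 4) (nat_lit 468) (nat_lit 409) (nat_lit 323))))) (XT.nd (nat_lit 234) (nat_lit 76) (nat_lit 0) (XT.nd (nat_lit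 78) (nat_lit 76) (nat_lit 0) (XT.lf (nat_lit 0) (nat_lit 7451484755) (nat_lit 152) (nat_lit 7614310772) (nat_lit 76) (nat_lit 161409123209) (nat_lit 9) (nat_lit 5) (nat_lit 11) (nat_lit 5) (nat_lit 10) (nat_lit 4) (nat_lit 469) (nat_lit 409) (nat_lit 322)) (XT.nd (nat_lit 78) (nat_lit 0) (nat_lit 0) (XT.lf (nat_lit 0) (nat_lit 37110101631) (nat_lit 152) (nat_lit 135312433490) (nat_lit 0) (nat_lit 15706843851) (nat_lit 8) (nat_lit 5) (nat_lit 10) (nat_lit 4) (nat_lit 8) (nat_lit 4) (nat_lit 470) (nat_lit 409) (nat_lit 321)) (XT.lf (nat_lit 0) (nat_lit 69740801658) (nat_lit 152) (nat_lit 82591716224) (nat_lit 0) (nat_lit 48335726885) (nat_lit 8) (nat_lit 5) (nat_lit 10) (nat_lit 4) (nat_lit 8) (nat_lit 4) (nat_lit 471) (nat_lit 409) (nat_lit 320)))) (XT.nd (nat_lit 78) (nat_lit 76) (nat_lit 0) (XT.lf (nat_lit 0) (nat_lit 104976844896) (nat_lit 152) (nat_lit 25663696460) (nat_lit 0) (nat_lit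 83570087723) (nat_lit 8) (nat_lit 5) (nat_lit 10) (nat_lit 4) (nat_lit 8) (nat_lit 4) (nat_lit 472) (nat_lit 409) (nat_lit 319)) (XT.nd (nat_lit 78) (nat_lit 0) (nat_lit 0) (XT.lf (nat_lit 0) (nat_lit 37694614304) (nat_lit 76) (nat_lit 106238979604) (nat_lit 76) (nat_lit 84830664653) (nat_lit 7) (nat_lit 4) (nat_lit 8) (nat_lit 5) (nat_lit 8) (nat_lit 4) (nat_lit 473) (nat_lit 409) (nat_lit 318)) (XT.lf (nat_lit 0) (nat_lit 107571761964) (nat_lit 76) (nat_lit 79132203673) (nat_lit 76) (nat_lit 57722446334) (nat_lit 7) (nat_lit 4) (nat_lit 8) (nat_lit 5) (nat_lit 8) (nat_lit 4) (nat_lit 474) (nat_lit 409) (nat_lit 317))))))))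
noncomputable def xc119 : XT := (XT.nd (nat_lit 1794) (nat_lit 76) (nat_lit 0) (XT.nd (nat_lit 858) (nat_lit 152) (nat_lit 0) (XT.nd (nat_lit 390) (nat_lit 76) (nat_lit 0) (XT.nd (nat_lit 156) (nat_lit 76) (nat_lit 0) (XT.nd (nat_lit 78) (nat_lit 76) (nat_lit 0) (XT.lf (nat_lit 0) (nat_lit 183030428545) (nat_lit 76) (nat_lit 49861271758) (nat_lit 76) (nat_lit 28450178876) (nat_lit 7) (nat_lit 4) (nat_lit 8) (nat_lit 5) (nat_lit 8) (nat_lit 4) (nat_lit 475) (nat_lit 409) (nat_lit 316)) (XT.lf (nat_lit 0) (nat_lit 3001546871) (nat_lit 152) (nat_lit 15169112003) (nat_lit 76) (nat_lit 261434162033) (nat_lit 6) (nat_lit 5) (nat_lit 8) (nat_lit 5) (nat_lit 7) (nat_lit 4) (nat_lit 476) (nat_lit 409) (nat_lit 315))) (XT.nd (nat_lit 78) (nat_lit 0) (nat_lit 0) (XT.lf (nat_lit 0) (nat_lit 37191708781) (nat_lit 152) (nat_lit 244572806776) (nat_lit 0) (nat_lit 17364417568) (nat_lit 5) (nat_lit 5) (nat_lit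 7) (nat_lit 4) (nat_lit 5) (nat_lit 4) (nat_lit 477) (nat_lit 409) (nat_lit 314)) (XT.nd (nat_lit 78) (nat_lit 0) (nat_lit 0) (XT.lf (nat_lit 0) (nat_lit 75010827520) (nat_lit 152) (nat_lit 189950092779) (nat_lit 0) (nat_lit 55182554643) (nat_lit 5) (nat_lit 5) (nat_lit 7) (nat_lit 4) (nat_lit 5) (nat_lit 4) (nat_lit 478) (nat_lit 409) (nat_lit 313)) (XT.lf (nat_lit 0) (nat_lit 115852008692) (nat_lit 152) (nat_lit 130964622034) (nat_lit 0) (nat_lit 96022826867) (nat_lit 5) (nat_lit 5) (nat_lit 7) (nat_lit 4) (nat_lit 5) (nat_lit 4) (nat_lit 479) (nat_lit 409) (nat_lit 312))))) (XT.nd (nat_lit 234) (nat_lit 0) (nat_lit 0) (XT.nd (nat_lit 78) (nat_lit 76) (nat_lit 0) (XT.lf (nat_lit 0) (nat_lit 159957274112) (nat_lit 152) (nat_lit 67266851010) (nat_lit 0) (nat_lit 140127250668) (nat_lit 5) (nat_lit 5) (nat_lit 7) (nat_lit 4) (nat_lit 5) (nat_lit 4) (nat_lit 480) (nat_lit 409) (nat_lit 311))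 (XT.nd (nat_lit 78) (nat_lit 0) (nat_lit 0) (XT.lf (nat_lit 0) (nat_lit 1600765330) (nat_lit 76) (nat_lit 206025721430) (nat_lit 76) (nat_lit 186194918709) (nat_lit 4) (nat_lit 4) (nat_lit 5) (nat_lit 5) (nat_lit 5) (nat_lit 4) (nat_lit 481) (nat_lit 409) (nat_lit 310)) (XT.lf (nat_lit 0) (nat_lit 79797416512) (nat_lit 76) (nat_lit 181148120660) (nat_lit 76) (nat_lit 161316596386) (nat_lit 4) (nat_lit 4) (nat_lit 5) (nat_lit 5) (nat_lit 5) (nat_lit 4) (nat_lit 482) (nat_lit 409) (nat_lit 309)))) (XT.nd (nat_lit 78) (nat_lit 0) (nat_lit 0) (XT.lf (nat_lit 0) (nat_lit 164244336930) (nat_lit 76) (nat_lit 154283094907) (nat_lit 76) (nat_lit 134450902529) (nat_lit 4) (nat_lit 4) (nat_lit 5) (nat_lit 5) (nat_lit 5) (nat_lit 4) (nat_lit 483) (nat_lit 409) (nat_lit 308)) (XT.nd (nat_lit 78) (nat_lit 0) (nat_lit 0) (XT.lf (nat_lit 0) (nat_lit 255441952781) (nat_lit 76) (nat_lit 125271444020) (nat_lit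 76) (nat_lit 105438633026) (nat_lit 4) (nat_lit 4) (nat_lit 5) (nat_lit 5) (nat_lit 5) (nat_lit 4) (nat_lit 484) (nat_lit 409) (nat_lit 307)) (XT.lf (nat_lit 0) (nat_lit 353930694380) (nat_lit 76) (nat_lit 93941247102) (nat_lit 76) (nat_lit 74107863317) (nat_lit 4) (nat_lit 4) (nat_lit 5) (nat_lit 5) (nat_lit 5) (nat_lit 4) (nat_lit 485) (nat_lit 409) (nat_lit 306)))))) (XT.nd (nat_lit 468) (nat_lit 0) (nat_lit 0) (XT.nd (nat_lit 234) (nat_lit 0) (nat_lit 0) (XT.nd (nat_lit 78) (nat_lit 152) (nat_lit 0) (XT.lf (nat_lit 0) (nat_lit 460294198713) (nat_lit 76) (nat_lit 60106843729) (nat_lit 76) (nat_lit 40272929582) (nat_lit 4) (nat_lit 4) (nat_lit 5) (nat_lit 5) (nat_lit 5) (nat_lit 4) (nat_lit 486) (nat_lit 409) (nat_lit 305)) (XT.nd (nat_lit 78) (nat_lit 152) (nat_lit 0) (XT.lf (nat_lit 0) (nat_lit 575162768030) (nat_lit 76) (nat_lit 23567733733) (nat_lit 76) (nat_lit 3733328509) (nat_lit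 4) (nat_lit 4) (nat_lit 5) (nat_lit 5) (nat_lit 5) (nat_lit 4) (nat_lit 487) (nat_lit 409) (nat_lit 304)) (XT.lf (nat_lit 0) (nat_lit 35663237102) (nat_lit 152) (nat_lit 594429580339) (nat_lit 0) (nat_lit 17297626060) (nat_lit 2) (nat_lit 5) (nat_lit 4) (nat_lit 4) (nat_lit 2) (nat_lit 4) (nat_lit 488) (nat_lit 409) (nat_lit 303)))) (XT.nd (nat_lit 78) (nat_lit 0) (nat_lit 0) (XT.lf (nat_lit 0) (nat_lit 79385960423) (nat_lit 152) (nat_lit 555387417970) (nat_lit 0) (nat_lit 61019959549) (nat_lit 2) (nat_lit 5) (nat_lit 4) (nat_lit 4) (nat_lit 2) (nat_lit 4) (nat_lit 489) (nat_lit 409) (nat_lit 302)) (XT.nd (nat_lit 78) (nat_lit 0) (nat_lit 0) (XT.lf (nat_lit 0) (nat_lit 126604772222) (nat_lit 152) (nat_lit 513225419722) (nat_lit 0) (nat_lit 108238410393) (nat_lit 2) (nat_lit 5) (nat_lit 4) (nat_lit 4) (nat_lit 2) (nat_lit 4) (nat_lit 490) (nat_lit 409) (nat_lit 301)) (XT.lf (nat_lit 0) (nat_lit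 177599487682) (nat_lit 152) (nat_lit 467693736717) (nat_lit 0) (nat_lit 159232791634) (nat_lit 2) (nat_lit 5) (nat_lit 4) (nat_lit 4) (nat_lit 2) (nat_lit 4) (nat_lit 491) (nat_lit 409) (nat_lit 300))))) (XT.nd (nat_lit 234) (nat_lit 0) (nat_lit 0) (XT.nd (nat_lit 78) (nat_lit 0) (nat_lit 0) (XT.lf (nat_lit 0) (nat_lit 232672297707) (nat_lit 152) (nat_lit 418522551574) (nat_lit 0) (nat_lit 214305292197) (nat_lit 2) (nat_lit 5) (nat_lit 4) (nat_lit 4) (nat_lit 2) (nat_lit 4) (nat_lit 492) (nat_lit 409) (nat_lit 299)) (XT.nd (nat_lit 78) (nat_lit 0) (nat_lit 0) (XT.lf (nat_lit 0) (nat_lit 292149559691) (nat_lit 152) (nat_lit 365420479493) (nat_lit 0) (nat_lit 273782267643) (nat_lit 2) (nat_lit 5) (nat_lit 4) (nat_lit 4) (nat_lit 2) (nat_lit 4) (nat_lit 493) (nat_lit 409) (nat_lit 298)) (XT.lf (nat_lit 0) (nat_lit 356383731483) (nat_lit 152) (nat_lit 308072841526) (nat_lit 0) (nat_lit 338016174122)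 (nat_lit 2) (nat_lit 5) (nat_lit 4) (nat_lit 4) (nat_lit 2) (nat_lit 4) (nat_lit 494) (nat_lit 409) (nat_lit 297)))) (XT.nd (nat_lit 78) (nat_lit 0) (nat_lit 0) (XT.lf (nat_lit 0) (nat_lit 425755460027) (nat_lit 152) (nat_lit 246139799821) (nat_lit 0) (nat_lit 407387657005) (nat_lit 2) (nat_lit 5) (nat_lit 4) (nat_lit 4) (nat_lit 2) (nat_lit 4) (nat_lit 495) (nat_lit 409) (nat_lit 296)) (XT.nd (nat_lit 78) (nat_lit 0) (nat_lit 0) (XT.lf (nat_lit 0) (nat_lit 500675837046) (nat_lit 152) (nat_lit 179254343759) (nat_lit 0) (nat_lit 482307806561) (nat_lit 2) (nat_lit 5) (nat_lit 4) (nat_lit 4) (nat_lit 2) (nat_lit 4) (nat_lit 496) (nat_lit 409) (nat_lit 295)) (XT.lf (nat_lit 0) (nat_lit 581588835147) (nat_lit 152) (nat_lit 107020115082) (nat_lit 0) (nat_lit 563220594047) (nat_lit 2) (nat_lit 5) (nat_lit 4) (nat_lit 4) (nat_lit 2) (nat_lit 4) (nat_lit 497) (nat_lit 409) (nat_lit 294))))))) (XT.nd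 (nat_lit 858) (nat_lit 0) (nat_lit 0) (XT.nd (nat_lit 390) (nat_lit 0) (nat_lit 0) (XT.nd (nat_lit 156) (nat_lit 0) (nat_lit 0) (XT.nd (nat_lit 78) (nat_lit 76) (nat_lit 0) (XT.lf (nat_lit 0) (nat_lit 668973938761) (nat_lit 152) (nat_lit 29009059102) (nat_lit 0) (nat_lit 650605502648) (nat_lit 2) (nat_lit 5) (nat_lit 4) (nat_lit 4) (nat_lit 2) (nat_lit 4) (nat_lit 498) (nat_lit 409) (nat_lit 293)) (XT.lf (nat_lit 0) (nat_lit 58150010977) (nat_lit 76) (nat_lit 706597483726) (nat_lit 76) (nat_lit 688228867045) (nat_lit 1) (nat_lit 4) (nat_lit 2) (nat_lit 5) (nat_lit 2) (nat_lit 4) (nat_lit 499) (nat_lit 409) (nat_lit 292))) (XT.nd (nat_lit 78) (nat_lit 0) (nat_lit 0) (XT.lf (nat_lit 0) (nat_lit 153929852919) (nat_lit 76) (nat_lit 715045398768) (nat_lit 76) (nat_lit 696676614894) (nat_lit 1) (nat_lit 4) (nat_lit 2) (nat_lit 5) (nat_lit 2) (nat_lit 4) (nat_lit 500) (nat_lit 409) (nat_lit 291))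 (XT.nd (nat_lit 78) (nat_lit 0) (nat_lit 0) (XT.lf (nat_lit 0) (nat_lit 257370485327) (nat_lit 76) (nat_lit 724169963792) (nat_lit 76) (nat_lit 705801025110) (nat_lit 1) (nat_lit 4) (nat_lit 2) (nat_lit 5) (nat_lit 2) (nat_lit 4) (nat_lit 501) (nat_lit 409) (nat_lit 290)) (XT.lf (nat_lit 0) (nat_lit 369084889727) (nat_lit 76) (nat_lit 734025250295) (nat_lit 76) (nat_lit 715656168273) (nat_lit 1) (nat_lit 4) (nat_lit 2) (nat_lit 5) (nat_lit 2) (nat_lit 4) (nat_lit 502) (nat_lit 409) (nat_lit 289))))) (XT.nd (nat_lit 234) (nat_lit 0) (nat_lit 0) (XT.nd (nat_lit 78) (nat_lit 0) (nat_lit 0) (XT.lf (nat_lit 0) (nat_lit 489735077404) (nat_lit 76) (nat_lit 744669659975) (nat_lit 76) (nat_lit 726300445230) (nat_lit 1) (nat_lit 4) (nat_lit 2) (nat_lit 5) (nat_lit 2) (nat_lit 4) (nat_lit 503) (nat_lit 409) (nat_lit 288)) (XT.nd (nat_lit 78) (nat_lit 0) (nat_lit 0) (XT.lf (nat_lit 0) (nat_lit 620036012433)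 (nat_lit 76) (nat_lit 756166270815) (nat_lit 76) (nat_lit 737796933179) (nat_lit 1) (nat_lit 4) (nat_lit 2) (nat_lit 5) (nat_lit 2) (nat_lit 4) (nat_lit 504) (nat_lit 409) (nat_lit 287)) (XT.lf (nat_lit 0) (nat_lit 760759848503) (nat_lit 76) (nat_lit 768583210880) (nat_lit 76) (nat_lit 750213759455) (nat_lit 1) (nat_lit 4) (nat_lit 2) (nat_lit 5) (nat_lit 2) (nat_lit 4) (nat_lit 505) (nat_lit 409) (nat_lit 286)))) (XT.nd (nat_lit 78) (nat_lit 0) (nat_lit 0) (XT.lf (nat_lit 0) (nat_lit 912740504643) (nat_lit 76) (nat_lit 781994062036) (nat_lit 76) (nat_lit 763624505252) (nat_lit 1) (nat_lit 4) (nat_lit 2) (nat_lit 5) (nat_lit 2) (nat_lit 4) (nat_lit 506) (nat_lit 409) (nat_lit 285)) (XT.nd (nat_lit 78) (nat_lit 0) (nat_lit 0) (XT.lf (nat_lit 0) (nat_lit 1076878606963) (nat_lit 76) (nat_lit 796478295994) (nat_lit 76) (nat_lit 778108641655) (nat_lit 1) (nat_lit 4) (nat_lit 2) (nat_lit 5) (nat_lit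 2) (nat_lit 4) (nat_lit 507) (nat_lit 409) (nat_lit 284)) (XT.lf (nat_lit 0) (nat_lit 1254146825700) (nat_lit 76) (nat_lit 812121745252) (nat_lit 76) (nat_lit 793752000584) (nat_lit 1) (nat_lit 4) (nat_lit 2) (nat_lit 5) (nat_lit 2) (nat_lit 4) (nat_lit 508) (nat_lit 409) (nat_lit 283)))))) (XT.nd (nat_lit 468) (nat_lit 0) (nat_lit 0) (XT.nd (nat_lit 234) (nat_lit 0) (nat_lit 0) (XT.nd (nat_lit 78) (nat_lit 0) (nat_lit 0) (XT.lf (nat_lit 0) (nat_lit 1445595639185) (nat_lit 76) (nat_lit 829017111731) (nat_lit 76) (nat_lit 810647283425) (nat_lit 1) (nat_lit 4) (nat_lit 2) (nat_lit 5) (nat_lit 2) (nat_lit 4) (nat_lit 509) (nat_lit 409) (nat_lit 282)) (XT.nd (nat_lit 78) (nat_lit 0) (nat_lit 0) (XT.lf (nat_lit 0) (nat_lit 1652359558908) (nat_lit 76) (nat_lit 847264516122) (nat_lit 76) (nat_lit 828894610373) (nat_lit 1) (nat_lit 4) (nat_lit 2) (nat_lit 5) (nat_lit 2) (nat_lit 4) (nat_lit 510)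 (nat_lit 409) (nat_lit 281)) (XT.lf (nat_lit 0) (nat_lit 1875663852540) (nat_lit 76) (nat_lit 866972091190) (nat_lit 76) (nat_lit 848602113736) (nat_lit 1) (nat_lit 4) (nat_lit 2) (nat_lit 5) (nat_lit 2) (nat_lit 4) (nat_lit 511) (nat_lit 409) (nat_lit 280)))) (XT.nd (nat_lit 78) (nat_lit 0) (nat_lit 0) (XT.lf (nat_lit 0) (nat_lit 2116831804784) (nat_lit 76) (nat_lit 888256622567) (nat_lit 76) (nat_lit 869886578718) (nat_lit 1) (nat_lit 4) (nat_lit 2) (nat_lit 5) (nat_lit 2) (nat_lit 4) (nat_lit 512) (nat_lit 409) (nat_lit 279)) (XT.nd (nat_lit 78) (nat_lit 0) (nat_lit 0) (XT.lf (nat_lit 0) (nat_lit 2377292559060) (nat_lit 76) (nat_lit 911244240808) (nat_lit 76) (nat_lit 892874135482) (nat_lit 1) (nat_lit 4) (nat_lit 2) (nat_lit 5) (nat_lit 2) (nat_lit 4) (nat_lit 513) (nat_lit 409) (nat_lit 278)) (XT.lf (nat_lit 0) (nat_lit 2658589586507) (nat_lit 76) (nat_lit 936071168836) (nat_lit 76)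 (nat_lit 917701006588) (nat_lit 1) (nat_lit 4) (nat_lit 2) (nat_lit 5) (nat_lit 2) (nat_lit 4) (nat_lit 514) (nat_lit 409) (nat_lit 277))))) (XT.nd (nat_lit 234) (nat_lit 0) (nat_lit 0) (XT.nd (nat_lit 78) (nat_lit 0) (nat_lit 0) (XT.lf (nat_lit 0) (nat_lit 2962389832470) (nat_lit 76) (nat_lit 962884529188) (nat_lit 76) (nat_lit 944514314235) (nat_lit 1) (nat_lit 4) (nat_lit 2) (nat_lit 5) (nat_lit 2) (nat_lit 4) (nat_lit 515) (nat_lit 409) (nat_lit 276)) (XT.nd (nat_lit 78) (nat_lit 0) (nat_lit 0) (XT.lf (nat_lit 0) (nat_lit 3290493594704) (nat_lit 76) (nat_lit 991843215852) (nat_lit 76) (nat_lit 973472952096) (nat_lit 1) (nat_lit 4) (nat_lit 2) (nat_lit 5) (nat_lit 2) (nat_lit 4) (nat_lit 516) (nat_lit 409) (nat_lit 275)) (XT.lf (nat_lit 0) (nat_lit 3644845191801) (nat_lit 76) (nat_lit 1023118835858) (nat_lit 76) (nat_lit 1004748526916) (nat_lit 1) (nat_lit 4) (nat_lit 2) (nat_lit 5)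 (nat_lit 2) (nat_lit 4) (nat_lit 517) (nat_lit 409) (nat_lit 274)))) (XT.nd (nat_lit 78) (nat_lit 0) (nat_lit 0) (XT.lf (nat_lit 0) (nat_lit 4027544485075) (nat_lit 76) (nat_lit 1056896726215) (nat_lit 76) (nat_lit 1038526375433) (nat_lit 1) (nat_lit 4) (nat_lit 2) (nat_lit 5) (nat_lit 2) (nat_lit 4) (nat_lit 518) (nat_lit 409) (nat_lit 273)) (XT.nd (nat_lit 78) (nat_lit 0) (nat_lit 0) (XT.lf (nat_lit 0) (nat_lit 4440859322192) (nat_lit 76) (nat_lit 1093377052199) (nat_lit 76) (nat_lit 1075006662677) (nat_lit 1) (nat_lit 4) (nat_lit 2) (nat_lit 5) (nat_lit 2) (nat_lit 4) (nat_lit 519) (nat_lit 409) (nat_lit 272)) (XT.lf (nat_lit 0) (nat_lit 4887238976260) (nat_lit 76) (nat_lit 1132775993520) (nat_lit 76) (nat_lit 1114405568126) (nat_lit 1) (nat_lit 4) (nat_lit 2) (nat_lit 5) (nat_lit 2) (nat_lit 4) (nat_lit 520) (nat_lit 409) (nat_lit 271))))))))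
noncomputable def xc120 : XT := (XT.nd (nat_lit 54990) (nat_lit 0) (nat_lit 1748) (XT.nd (nat_lit 54132) (nat_lit 0) (nat_lit 3800) (XT.nd (nat_lit 390) (nat_lit 0) (nat_lit 0) (XT.nd (nat_lit 156) (nat_lit 0) (nat_lit 0) (XT.nd (nat_lit 78) (nat_lit 0) (nat_lit 0) (XT.lf (nat_lit 0) (nat_lit 5369328660043) (nat_lit 76) (nat_lit 1175327025384) (nat_lit 76) (nat_lit 1156956566777) (nat_lit 1) (nat_lit 4) (nat_lit 2) (nat_lit 5) (nat_lit 2) (nat_lit 4) (nat_lit 521) (nat_lit 409) (nat_lit 270)) (XT.lf (nat_lit 0) (nat_lit 5889985201298) (nat_lit 76) (nat_lit 1221282302056) (nat_lit 76) (nat_lit 1202911812695) (nat_lit 1) (nat_lit 4) (nat_lit 2) (nat_lit 5) (nat_lit 2) (nat_lit 4) (nat_lit 522) (nat_lit 409) (nat_lit 269))) (XT.nd (nat_lit 78) (nat_lit 0) (nat_lit 0) (XT.lf (nat_lit 0) (nat_lit 6452293972120) (nat_lit 76) (nat_lit 1270914151100) (nat_lit 76) (nat_lit 1252543633264) (nat_lit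 1) (nat_lit 4) (nat_lit 2) (nat_lit 5) (nat_lit 2) (nat_lit 4) (nat_lit 523) (nat_lit 409) (nat_lit 268)) (XT.nd (nat_lit 78) (nat_lit 0) (nat_lit 0) (XT.lf (nat_lit 0) (nat_lit 7059587172634) (nat_lit 76) (nat_lit 1324516687178) (nat_lit 76) (nat_lit 1306146142975) (nat_lit 1) (nat_lit 4) (nat_lit 2) (nat_lit 5) (nat_lit 2) (nat_lit 4) (nat_lit 524) (nat_lit 409) (nat_lit 267)) (XT.lf (nat_lit 0) (nat_lit 7715463577360) (nat_lit 76) (nat_lit 1382407554947) (nat_lit 76) (nat_lit 1364036986331) (nat_lit 1) (nat_lit 4) (nat_lit 2) (nat_lit 5) (nat_lit 2) (nat_lit 4) (nat_lit 525) (nat_lit 409) (nat_lit 266))))) (XT.nd (nat_lit 53508) (nat_lit 0) (nat_lit 5168) (XT.nd (nat_lit 78) (nat_lit 0) (nat_lit 0) (XT.lf (nat_lit 0) (nat_lit 8423809861290) (nat_lit 76) (nat_lit 1444929811402) (nat_lit 76) (nat_lit 1426559220182) (nat_lit 1) (nat_lit 4) (nat_lit 2) (nat_lit 5) (nat_lit 2) (nat_lit 4)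 (nat_lit 526) (nat_lit 409) (nat_lit 265)) (XT.nd (nat_lit 53352) (nat_lit 0) (nat_lit 5168) (XT.lf (nat_lit 0) (nat_lit 9188823632033) (nat_lit 76) (nat_lit 1512453958804) (nat_lit 76) (nat_lit 1494083346654) (nat_lit 1) (nat_lit 4) (nat_lit 2) (nat_lit 5) (nat_lit 2) (nat_lit 4) (nat_lit 527) (nat_lit 409) (nat_lit 264)) (XT.lf (nat_lit 0) (nat_lit 526854989) (nat_lit 532) (nat_lit 2071360118) (nat_lit 532) (nat_lit 2071360118) (nat_lit 69) (nat_lit 3) (nat_lit 76) (nat_lit 3) (nat_lit 76) (nat_lit 5) (nat_lit 410) (nat_lit 410) (nat_lit 380)))) (XT.nd (nat_lit 78) (nat_lit 0) (nat_lit 76) (XT.lf (nat_lit 76) (nat_lit 460087648) (nat_lit 0) (nat_lit 1444384494) (nat_lit 532) (nat_lit 7743018672) (nat_lit 70) (nat_lit 5) (nat_lit 69) (nat_lit 3) (nat_lit 76) (nat_lit 5) (nat_lit 411) (nat_lit 410) (nat_lit 379)) (XT.nd (nat_lit 78) (nat_lit 0) (nat_lit 0) (XT.lf (nat_lit 0) (nat_lit 2922193908)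 (nat_lit 456) (nat_lit 4423140607) (nat_lit 532) (nat_lit 2627305680) (nat_lit 70) (nat_lit 5) (nat_lit 76) (nat_lit 5) (nat_lit 77) (nat_lit 5) (nat_lit 412) (nat_lit 410) (nat_lit 378)) (XT.lf (nat_lit 76) (nat_lit 669376033) (nat_lit 0) (nat_lit 3331469600) (nat_lit 532) (nat_lit 6324644622) (nat_lit 71) (nat_lit 5) (nat_lit 70) (nat_lit 5) (nat_lit 77) (nat_lit 5) (nat_lit 413) (nat_lit 410) (nat_lit 377)))))) (XT.nd (nat_lit 390) (nat_lit 1140) (nat_lit 0) (XT.nd (nat_lit 156) (nat_lit 380) (nat_lit 0) (XT.nd (nat_lit 78) (nat_lit 0) (nat_lit 0) (XT.lf (nat_lit 0) (nat_lit 5244775089) (nat_lit 456) (nat_lit 4357104696) (nat_lit 532) (nat_lit 1098415710) (nat_lit 71) (nat_lit 5) (nat_lit 77) (nat_lit 5) (nat_lit 78) (nat_lit 5) (nat_lit 414) (nat_lit 410) (nat_lit 376)) (XT.lf (nat_lit 76) (nat_lit 1294243014) (nat_lit 0) (nat_lit 5347535597) (nat_lit 532) (nat_lit 4459064382) (nat_lit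 72) (nat_lit 5) (nat_lit 71) (nat_lit 5) (nat_lit 78) (nat_lit 5) (nat_lit 415) (nat_lit 410) (nat_lit 375))) (XT.nd (nat_lit 78) (nat_lit 380) (nat_lit 0) (XT.lf (nat_lit 76) (nat_lit 7596957382) (nat_lit 0) (nat_lit 612198261) (nat_lit 532) (nat_lit 3319629046) (nat_lit 72) (nat_lit 5) (nat_lit 71) (nat_lit 5) (nat_lit 78) (nat_lit 5) (nat_lit 416) (nat_lit 410) (nat_lit 374)) (XT.nd (nat_lit 78) (nat_lit 0) (nat_lit 0) (XT.lf (nat_lit 0) (nat_lit 2373670723) (nat_lit 456) (nat_lit 7637843273) (nat_lit 532) (nat_lit 1970716965) (nat_lit 66) (nat_lit 5) (nat_lit 72) (nat_lit 5) (nat_lit 73) (nat_lit 5) (nat_lit 417) (nat_lit 410) (nat_lit 373)) (XT.lf (nat_lit 0) (nat_lit 9342010681) (nat_lit 456) (nat_lit 2686249446) (nat_lit 532) (nat_lit 438110709) (nat_lit 66) (nat_lit 5) (nat_lit 72) (nat_lit 5) (nat_lit 73) (nat_lit 5) (nat_lit 418) (nat_lit 410) (nat_lit 372))))) (XT.nd (nat_lit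 234) (nat_lit 380) (nat_lit 0) (XT.nd (nat_lit 78) (nat_lit 228) (nat_lit 0) (XT.lf (nat_lit 0) (nat_lit 1269607776) (nat_lit 532) (nat_lit 9048626387) (nat_lit 76) (nat_lit 2659623973) (nat_lit 59) (nat_lit 5) (nat_lit 66) (nat_lit 5) (nat_lit 60) (nat_lit 5) (nat_lit 419) (nat_lit 410) (nat_lit 371)) (XT.nd (nat_lit 78) (nat_lit 228) (nat_lit 0) (XT.lf (nat_lit 0) (nat_lit 3200133622) (nat_lit 532) (nat_lit 1932213090) (nat_lit 76) (nat_lit 8388245464) (nat_lit 59) (nat_lit 5) (nat_lit 66) (nat_lit 5) (nat_lit 60) (nat_lit 5) (nat_lit 420) (nat_lit 410) (nat_lit 370)) (XT.lf (nat_lit 0) (nat_lit 5400507185) (nat_lit 304) (nat_lit 8106146778) (nat_lit 76) (nat_lit 590883388) (nat_lit 56) (nat_lit 5) (nat_lit 60) (nat_lit 5) (nat_lit 57) (nat_lit 5) (nat_lit 421) (nat_lit 410) (nat_lit 369)))) (XT.nd (nat_lit 78) (nat_lit 380) (nat_lit 0) (XT.lf (nat_lit 0) (nat_lit 7922474785) (nat_lit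 304) (nat_lit 240923332) (nat_lit 76) (nat_lit 6545617913) (nat_lit 56) (nat_lit 5) (nat_lit 60) (nat_lit 5) (nat_lit 57) (nat_lit 5) (nat_lit 422) (nat_lit 410) (nat_lit 368)) (XT.nd (nat_lit 78) (nat_lit 152) (nat_lit 0) (XT.lf (nat_lit 0) (nat_lit 8640763137) (nat_lit 228) (nat_lit 2174408425) (nat_lit 304) (nat_lit 4540745019) (nat_lit 53) (nat_lit 5) (nat_lit 56) (nat_lit 5) (nat_lit 57) (nat_lit 5) (nat_lit 423) (nat_lit 410) (nat_lit 367)) (XT.lf (nat_lit 0) (nat_lit 2150087212) (nat_lit 152) (nat_lit 11913747152) (nat_lit 228) (nat_lit 1980790528) (nat_lit 51) (nat_lit 5) (nat_lit 53) (nat_lit 5) (nat_lit 54) (nat_lit 5) (nat_lit 424) (nat_lit 410) (nat_lit 366))))))) (XT.nd (nat_lit 858) (nat_lit 912) (nat_lit 0) (XT.nd (nat_lit 390) (nat_lit 532) (nat_lit 0) (XT.nd (nat_lit 156) (nat_lit 304) (nat_lit 0) (XT.nd (nat_lit 78) (nat_lit 228) (nat_lit 0) (XT.lf (nat_lit 0) (nat_lit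 953133384) (nat_lit 228) (nat_lit 4794832234) (nat_lit 76) (nat_lit 11022301635) (nat_lit 50) (nat_lit 5) (nat_lit 53) (nat_lit 5) (nat_lit 51) (nat_lit 5) (nat_lit 425) (nat_lit 410) (nat_lit 365)) (XT.lf (nat_lit 0) (nat_lit 4132246299) (nat_lit 304) (nat_lit 12371331934) (nat_lit 76) (nat_lit 1036883374) (nat_lit 47) (nat_lit 5) (nat_lit 51) (nat_lit 5) (nat_lit 48) (nat_lit 5) (nat_lit 426) (nat_lit 410) (nat_lit 364))) (XT.nd (nat_lit 78) (nat_lit 304) (nat_lit 0) (XT.lf (nat_lit 0) (nat_lit 7816948217) (nat_lit 304) (nat_lit 2356744087) (nat_lit 76) (nat_lit 8178492916) (nat_lit 47) (nat_lit 5) (nat_lit 51) (nat_lit 5) (nat_lit 48) (nat_lit 5) (nat_lit 427) (nat_lit 410) (nat_lit 363)) (XT.nd (nat_lit 78) (nat_lit 152) (nat_lit 0) (XT.lf (nat_lit 0) (nat_lit 8860437981) (nat_lit 152) (nat_lit 3118950367) (nat_lit 228) (nat_lit 7234834843) (nat_lit 45) (nat_lit 5) (nat_lit 47) (nat_lit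 5) (nat_lit 48) (nat_lit 5) (nat_lit 428) (nat_lit 410) (nat_lit 362)) (XT.lf (nat_lit 0) (nat_lit 859249011) (nat_lit 152) (nat_lit 15781414920) (nat_lit 228) (nat_lit 3491305487) (nat_lit 43) (nat_lit 5) (nat_lit 45) (nat_lit 5) (nat_lit 46) (nat_lit 5) (nat_lit 429) (nat_lit 410) (nat_lit 361))))) (XT.nd (nat_lit 234) (nat_lit 304) (nat_lit 0) (XT.nd (nat_lit 78) (nat_lit 152) (nat_lit 0) (XT.lf (nat_lit 0) (nat_lit 866816979) (nat_lit 228) (nat_lit 7687194327) (nat_lit 76) (nat_lit 12540656470) (nat_lit 42) (nat_lit 5) (nat_lit 45) (nat_lit 5) (nat_lit 43) (nat_lit 5) (nat_lit 430) (nat_lit 410) (nat_lit 360)) (XT.nd (nat_lit 78) (nat_lit 0) (nat_lit 0) (XT.lf (nat_lit 0) (nat_lit 4941666933) (nat_lit 152) (nat_lit 535531486) (nat_lit 228) (nat_lit 16642560370) (nat_lit 40) (nat_lit 5) (nat_lit 42) (nat_lit 5) (nat_lit 43) (nat_lit 5) (nat_lit 431) (nat_lit 410) (nat_lit 359)) (XT.lf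 (nat_lit 0) (nat_lit 10841537356) (nat_lit 228) (nat_lit 4433625210) (nat_lit 76) (nat_lit 7920893501) (nat_lit 40) (nat_lit 5) (nat_lit 43) (nat_lit 5) (nat_lit 41) (nat_lit 5) (nat_lit 432) (nat_lit 410) (nat_lit 358)))) (XT.nd (nat_lit 78) (nat_lit 152) (nat_lit 0) (XT.lf (nat_lit 0) (nat_lit 9767364800) (nat_lit 152) (nat_lit 7092486416) (nat_lit 228) (nat_lit 7480628152) (nat_lit 38) (nat_lit 5) (nat_lit 40) (nat_lit 5) (nat_lit 41) (nat_lit 5) (nat_lit 433) (nat_lit 410) (nat_lit 357)) (XT.nd (nat_lit 78) (nat_lit 152) (nat_lit 0) (XT.lf (nat_lit 0) (nat_lit 23502540669) (nat_lit 228) (nat_lit 293590288) (nat_lit 76) (nat_lit 1768900576) (nat_lit 38) (nat_lit 5) (nat_lit 41) (nat_lit 5) (nat_lit 39) (nat_lit 4) (nat_lit 434) (nat_lit 410) (nat_lit 356)) (XT.lf (nat_lit 0) (nat_lit 4153534456) (nat_lit 152) (nat_lit 11255835669) (nat_lit 76) (nat_lit 11426575591) (nat_lit 36) (nat_lit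 5) (nat_lit 38) (nat_lit 5) (nat_lit 37) (nat_lit 5) (nat_lit 435) (nat_lit 410) (nat_lit 355)))))) (XT.nd (nat_lit 468) (nat_lit 380) (nat_lit 0) (XT.nd (nat_lit 234) (nat_lit 304) (nat_lit 0) (XT.nd (nat_lit 78) (nat_lit 76) (nat_lit 0) (XT.lf (nat_lit 0) (nat_lit 4676994490) (nat_lit 152) (nat_lit 6177673758) (nat_lit 228) (nat_lit 17341644950) (nat_lit 34) (nat_lit 5) (nat_lit 36) (nat_lit 5) (nat_lit 37) (nat_lit 5) (nat_lit 436) (nat_lit 410) (nat_lit 354)) (XT.nd (nat_lit 78) (nat_lit 76) (nat_lit 0) (XT.lf (nat_lit 0) (nat_lit 18477803119) (nat_lit 228) (nat_lit 7251634356) (nat_lit 76) (nat_lit 3905205536) (nat_lit 34) (nat_lit 5) (nat_lit 37) (nat_lit 5) (nat_lit 35) (nat_lit 4) (nat_lit 437) (nat_lit 410) (nat_lit 353)) (XT.lf (nat_lit 0) (nat_lit 10656649738) (nat_lit 76) (nat_lit 16451401095) (nat_lit 152) (nat_lit 4048212747) (nat_lit 33) (nat_lit 5) (nat_lit 34) (nat_lit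 5) (nat_lit 35) (nat_lit 4) (nat_lit 438) (nat_lit 410) (nat_lit 352)))) (XT.nd (nat_lit 78) (nat_lit 228) (nat_lit 0) (XT.lf (nat_lit 0) (nat_lit 3631660757) (nat_lit 152) (nat_lit 2499798702) (nat_lit 76) (nat_lit 26646448609) (nat_lit 32) (nat_lit 5) (nat_lit 34) (nat_lit 5) (nat_lit 33) (nat_lit 5) (nat_lit 439) (nat_lit 410) (nat_lit 351)) (XT.nd (nat_lit 78) (nat_lit 76) (nat_lit 0) (XT.lf (nat_lit 0) (nat_lit 12248784926) (nat_lit 228) (nat_lit 16933748299) (nat_lit 76) (nat_lit 5295017701) (nat_lit 30) (nat_lit 5) (nat_lit 33) (nat_lit 5) (nat_lit 31) (nat_lit 4) (nat_lit 440) (nat_lit 410) (nat_lit 350)) (XT.lf (nat_lit 0) (nat_lit 2982087012) (nat_lit 76) (nat_lit 18856683722) (nat_lit 152) (nat_lit 14451719064) (nat_lit 29) (nat_lit 5) (nat_lit 30) (nat_lit 5) (nat_lit 31) (nat_lit 4) (nat_lit 441) (nat_lit 410) (nat_lit 349))))) (XT.nd (nat_lit 234) (nat_lit 228) (nat_lit 0)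 (XT.nd (nat_lit 78) (nat_lit 152) (nat_lit 0) (XT.lf (nat_lit 0) (nat_lit 25423606145) (nat_lit 76) (nat_lit 7218305539) (nat_lit 152) (nat_lit 5570879222) (nat_lit 29) (nat_lit 5) (nat_lit 30) (nat_lit 5) (nat_lit 31) (nat_lit 4) (nat_lit 442) (nat_lit 410) (nat_lit 348)) (XT.nd (nat_lit 78) (nat_lit 0) (nat_lit 0) (XT.lf (nat_lit 0) (nat_lit 4174157534) (nat_lit 152) (nat_lit 30668155120) (nat_lit 76) (nat_lit 5410443427) (nat_lit 27) (nat_lit 5) (nat_lit 29) (nat_lit 5) (nat_lit 28) (nat_lit 4) (nat_lit 443) (nat_lit 410) (nat_lit 347)) (XT.lf (nat_lit 0) (nat_lit 14928089199) (nat_lit 152) (nat_lit 8323009541) (nat_lit 76) (nat_lit 19150825628) (nat_lit 27) (nat_lit 5) (nat_lit 29) (nat_lit 5) (nat_lit 28) (nat_lit 4) (nat_lit 444) (nat_lit 410) (nat_lit 346)))) (XT.nd (nat_lit 78) (nat_lit 152) (nat_lit 0) (XT.lf (nat_lit 0) (nat_lit 16613587727) (nat_lit 76) (nat_lit 10313503134)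 (nat_lit 152) (nat_lit 17765157488) (nat_lit 26) (nat_lit 5) (nat_lit 27) (nat_lit 5) (nat_lit 28) (nat_lit 4) (nat_lit 445) (nat_lit 410) (nat_lit 345)) (XT.nd (nat_lit 78) (nat_lit 152) (nat_lit 0) (XT.lf (nat_lit 0) (nat_lit 40192853382) (nat_lit 152) (nat_lit 3250461267) (nat_lit 0) (nat_lit 3697938812) (nat_lit 26) (nat_lit 5) (nat_lit 28) (nat_lit 4) (nat_lit 26) (nat_lit 4) (nat_lit 446) (nat_lit 410) (nat_lit 344)) (XT.lf (nat_lit 0) (nat_lit 5362267757) (nat_lit 152) (nat_lit 25358327050) (nat_lit 76) (nat_lit 18987249164) (nat_lit 24) (nat_lit 5) (nat_lit 26) (nat_lit 5) (nat_lit 25) (nat_lit 4) (nat_lit 447) (nat_lit 410) (nat_lit 343))))))))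
noncomputable def xc121 : XT := (XT.nd (nat_lit 1716) (nat_lit 608) (nat_lit 0) (XT.nd (nat_lit 858) (nat_lit 456) (nat_lit 0) (XT.nd (nat_lit 390) (nat_lit 304) (nat_lit 0) (XT.nd (nat_lit 156) (nat_lit 228) (nat_lit 0) (XT.nd (nat_lit 78) (nat_lit 0) (nat_lit 0) (XT.lf (nat_lit 0) (nat_lit 1748956227) (nat_lit 76) (nat_lit 16653195502) (nat_lit 152) (nat_lit 34053593177) (nat_lit 23) (nat_lit 5) (nat_lit 24) (nat_lit 5) (nat_lit 25) (nat_lit 4) (nat_lit 448) (nat_lit 410) (nat_lit 342)) (XT.lf (nat_lit 0) (nat_lit 32442171434) (nat_lit 76) (nat_lit 723311763) (nat_lit 152) (nat_lit 22203575993) (nat_lit 23) (nat_lit 5) (nat_lit 24) (nat_lit 5) (nat_lit 25) (nat_lit 4) (nat_lit 449) (nat_lit 410) (nat_lit 341))) (XT.nd (nat_lit 78) (nat_lit 152) (nat_lit 0) (XT.lf (nat_lit 0) (nat_lit 7005823190) (nat_lit 76) (nat_lit 42656539272) (nat_lit 76) (nat_lit 8808879334) (nat_lit 22) (nat_lit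 4) (nat_lit 23) (nat_lit 5) (nat_lit 23) (nat_lit 4) (nat_lit 450) (nat_lit 410) (nat_lit 340)) (XT.nd (nat_lit 78) (nat_lit 76) (nat_lit 0) (XT.lf (nat_lit 0) (nat_lit 6023990321) (nat_lit 152) (nat_lit 21329281945) (nat_lit 76) (nat_lit 34405475113) (nat_lit 21) (nat_lit 5) (nat_lit 23) (nat_lit 5) (nat_lit 22) (nat_lit 4) (nat_lit 451) (nat_lit 410) (nat_lit 339)) (XT.lf (nat_lit 0) (nat_lit 11544477099) (nat_lit 76) (nat_lit 10289334110) (nat_lit 152) (nat_lit 43435840974) (nat_lit 20) (nat_lit 5) (nat_lit 21) (nat_lit 5) (nat_lit 22) (nat_lit 4) (nat_lit 452) (nat_lit 410) (nat_lit 338))))) (XT.nd (nat_lit 234) (nat_lit 152) (nat_lit 0) (XT.nd (nat_lit 78) (nat_lit 152) (nat_lit 0) (XT.lf (nat_lit 0) (nat_lit 39691173340) (nat_lit 152) (nat_lit 20986582344) (nat_lit 0) (nat_lit 8321054479) (nat_lit 20) (nat_lit 5) (nat_lit 22) (nat_lit 4) (nat_lit 20) (nat_lit 4) (nat_lit 453) (nat_lit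 410) (nat_lit 337)) (XT.nd (nat_lit 78) (nat_lit 76) (nat_lit 0) (XT.lf (nat_lit 0) (nat_lit 14825032543) (nat_lit 76) (nat_lit 44765396403) (nat_lit 76) (nat_lit 13386808618) (nat_lit 19) (nat_lit 4) (nat_lit 20) (nat_lit 5) (nat_lit 20) (nat_lit 4) (nat_lit 454) (nat_lit 410) (nat_lit 336)) (XT.lf (nat_lit 0) (nat_lit 4195464036) (nat_lit 152) (nat_lit 22659864184) (nat_lit 76) (nat_lit 50365025599) (nat_lit 18) (nat_lit 5) (nat_lit 20) (nat_lit 5) (nat_lit 19) (nat_lit 4) (nat_lit 455) (nat_lit 410) (nat_lit 335)))) (XT.nd (nat_lit 78) (nat_lit 76) (nat_lit 0) (XT.lf (nat_lit 0) (nat_lit 16111162316) (nat_lit 76) (nat_lit 6727709045) (nat_lit 152) (nat_lit 58906009118) (nat_lit 17) (nat_lit 5) (nat_lit 18) (nat_lit 5) (nat_lit 19) (nat_lit 4) (nat_lit 456) (nat_lit 410) (nat_lit 334)) (XT.nd (nat_lit 78) (nat_lit 76) (nat_lit 0) (XT.lf (nat_lit 0) (nat_lit 43960768698) (nat_lit 152)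 (nat_lit 27705327822) (nat_lit 0) (nat_lit 14886312198) (nat_lit 17) (nat_lit 5) (nat_lit 19) (nat_lit 4) (nat_lit 17) (nat_lit 4) (nat_lit 457) (nat_lit 410) (nat_lit 333)) (XT.lf (nat_lit 0) (nat_lit 13752980155) (nat_lit 76) (nat_lit 53516026521) (nat_lit 76) (nat_lit 24435806214) (nat_lit 16) (nat_lit 4) (nat_lit 17) (nat_lit 5) (nat_lit 17) (nat_lit 4) (nat_lit 458) (nat_lit 410) (nat_lit 332)))))) (XT.nd (nat_lit 390) (nat_lit 228) (nat_lit 0) (XT.nd (nat_lit 156) (nat_lit 76) (nat_lit 0) (XT.nd (nat_lit 78) (nat_lit 152) (nat_lit 0) (XT.lf (nat_lit 0) (nat_lit 60086436903) (nat_lit 76) (nat_lit 33104311403) (nat_lit 76) (nat_lit 4018754239) (nat_lit 16) (nat_lit 4) (nat_lit 17) (nat_lit 5) (nat_lit 17) (nat_lit 4) (nat_lit 459) (nat_lit 410) (nat_lit 331)) (XT.lf (nat_lit 0) (nat_lit 6865472799) (nat_lit 76) (nat_lit 10421051959) (nat_lit 152) (nat_lit 85820799911) (nat_lit 14) (nat_lit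 5) (nat_lit 15) (nat_lit 5) (nat_lit 16) (nat_lit 4) (nat_lit 460) (nat_lit 410) (nat_lit 330))) (XT.nd (nat_lit 78) (nat_lit 76) (nat_lit 0) (XT.lf (nat_lit 0) (nat_lit 41450835217) (nat_lit 152) (nat_lit 53397097460) (nat_lit 0) (nat_lit 14510951702) (nat_lit 14) (nat_lit 5) (nat_lit 16) (nat_lit 4) (nat_lit 14) (nat_lit 4) (nat_lit 461) (nat_lit 410) (nat_lit 329)) (XT.nd (nat_lit 78) (nat_lit 76) (nat_lit 0) (XT.lf (nat_lit 0) (nat_lit 67811377298) (nat_lit 152) (nat_lit 7410574119) (nat_lit 0) (nat_lit 40867571034) (nat_lit 14) (nat_lit 5) (nat_lit 16) (nat_lit 4) (nat_lit 14) (nat_lit 4) (nat_lit 462) (nat_lit 410) (nat_lit 328)) (XT.lf (nat_lit 0) (nat_lit 44465186127) (nat_lit 76) (nat_lit 52877937742) (nat_lit 76) (nat_lit 25930499302) (nat_lit 13) (nat_lit 4) (nat_lit 14) (nat_lit 5) (nat_lit 14) (nat_lit 4) (nat_lit 463) (nat_lit 410) (nat_lit 327))))) (XT.nd (nat_lit 234) (nat_lit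 76) (nat_lit 0) (XT.nd (nat_lit 78) (nat_lit 152) (nat_lit 0) (XT.lf (nat_lit 0) (nat_lit 100898794230) (nat_lit 76) (nat_lit 28534398564) (nat_lit 76) (nat_lit 1583596998) (nat_lit 13) (nat_lit 4) (nat_lit 14) (nat_lit 5) (nat_lit 14) (nat_lit 4) (nat_lit 464) (nat_lit 410) (nat_lit 326)) (XT.nd (nat_lit 78) (nat_lit 0) (nat_lit 0) (XT.lf (nat_lit 0) (nat_lit 23011519653) (nat_lit 76) (nat_lit 1010324204) (nat_lit 152) (nat_lit 115266267470) (nat_lit 11) (nat_lit 5) (nat_lit 12) (nat_lit 5) (nat_lit 13) (nat_lit 4) (nat_lit 465) (nat_lit 410) (nat_lit 325)) (XT.lf (nat_lit 0) (nat_lit 53119175706) (nat_lit 152) (nat_lit 66817175047) (nat_lit 0) (nat_lit 28159176715) (nat_lit 11) (nat_lit 5) (nat_lit 13) (nat_lit 4) (nat_lit 11) (nat_lit 4) (nat_lit 466) (nat_lit 410) (nat_lit 324)))) (XT.nd (nat_lit 78) (nat_lit 76) (nat_lit 0) (XT.lf (nat_lit 0) (nat_lit 84564545496) (nat_lit 152) (nat_lit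 13439297117) (nat_lit 0) (nat_lit 59602074508) (nat_lit 11) (nat_lit 5) (nat_lit 13) (nat_lit 4) (nat_lit 11) (nat_lit 4) (nat_lit 467) (nat_lit 410) (nat_lit 323)) (XT.nd (nat_lit 78) (nat_lit 0) (nat_lit 0) (XT.lf (nat_lit 0) (nat_lit 46525023910) (nat_lit 76) (nat_lit 73113901875) (nat_lit 76) (nat_lit 48149141999) (nat_lit 10) (nat_lit 4) (nat_lit 11) (nat_lit 5) (nat_lit 11) (nat_lit 4) (nat_lit 468) (nat_lit 410) (nat_lit 322)) (XT.lf (nat_lit 0) (nat_lit 112039920557) (nat_lit 76) (nat_lit 45841392461) (nat_lit 76) (nat_lit 20874513245) (nat_lit 10) (nat_lit 4) (nat_lit 11) (nat_lit 5) (nat_lit 11) (nat_lit 4) (nat_lit 469) (nat_lit 410) (nat_lit 321))))))) (XT.nd (nat_lit 858) (nat_lit 228) (nat_lit 0) (XT.nd (nat_lit 390) (nat_lit 152) (nat_lit 0) (XT.nd (nat_lit 156) (nat_lit 76) (nat_lit 0) (XT.nd (nat_lit 78) (nat_lit 76) (nat_lit 0) (XT.lf (nat_lit 0) (nat_lit 8147647202) (nat_lit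 152) (nat_lit 8021735386) (nat_lit 76) (nat_lit 174415521363) (nat_lit 9) (nat_lit 5) (nat_lit 11) (nat_lit 5) (nat_lit 10) (nat_lit 4) (nat_lit 470) (nat_lit 410) (nat_lit 320)) (XT.lf (nat_lit 0) (nat_lit 40178658353) (nat_lit 152) (nat_lit 145935408409) (nat_lit 0) (nat_lit 17057678205) (nat_lit 8) (nat_lit 5) (nat_lit 10) (nat_lit 4) (nat_lit 8) (nat_lit 4) (nat_lit 471) (nat_lit 410) (nat_lit 319))) (XT.nd (nat_lit 78) (nat_lit 76) (nat_lit 0) (XT.lf (nat_lit 0) (nat_lit 75412425597) (nat_lit 152) (nat_lit 89011998189) (nat_lit 0) (nat_lit 52289887672) (nat_lit 8) (nat_lit 5) (nat_lit 10) (nat_lit 4) (nat_lit 8) (nat_lit 4) (nat_lit 472) (nat_lit 410) (nat_lit 318)) (XT.nd (nat_lit 78) (nat_lit 76) (nat_lit 0) (XT.lf (nat_lit 0) (nat_lit 113460510827) (nat_lit 152) (nat_lit 27543592793) (nat_lit 0) (nat_lit 90336530515) (nat_lit 8) (nat_lit 5) (nat_lit 10) (nat_lit 4) (nat_lit 8) (nat_lit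 4) (nat_lit 473) (nat_lit 410) (nat_lit 317)) (XT.lf (nat_lit 0) (nat_lit 40878998036) (nat_lit 76) (nat_lit 114652527026) (nat_lit 76) (nat_lit 91527211170) (nat_lit 7) (nat_lit 4) (nat_lit 8) (nat_lit 5) (nat_lit 8) (nat_lit 4) (nat_lit 474) (nat_lit 410) (nat_lit 316))))) (XT.nd (nat_lit 234) (nat_lit 76) (nat_lit 0) (XT.nd (nat_lit 78) (nat_lit 76) (nat_lit 0) (XT.lf (nat_lit 0) (nat_lit 116333812725) (nat_lit 76) (nat_lit 85383547609) (nat_lit 76) (nat_lit 62256995139) (nat_lit 7) (nat_lit 4) (nat_lit 8) (nat_lit 5) (nat_lit 8) (nat_lit 4) (nat_lit 475) (nat_lit 410) (nat_lit 315)) (XT.nd (nat_lit 78) (nat_lit 76) (nat_lit 0) (XT.lf (nat_lit 0) (nat_lit 197817594128) (nat_lit 76) (nat_lit 53776810204) (nat_lit 76) (nat_lit 30649112721) (nat_lit 7) (nat_lit 4) (nat_lit 8) (nat_lit 5) (nat_lit 8) (nat_lit 4) (nat_lit 476) (nat_lit 410) (nat_lit 314)) (XT.lf (nat_lit 0) (nat_lit 3309471165)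 (nat_lit 152) (nat_lit 16245057656) (nat_lit 76) (nat_lit 282413251127) (nat_lit 6) (nat_lit 5) (nat_lit 8) (nat_lit 5) (nat_lit 7) (nat_lit 4) (nat_lit 477) (nat_lit 410) (nat_lit 313)))) (XT.nd (nat_lit 78) (nat_lit 0) (nat_lit 0) (XT.lf (nat_lit 0) (nat_lit 40234686608) (nat_lit 152) (nat_lit 264000886193) (nat_lit 0) (nat_lit 18818261288) (nat_lit 5) (nat_lit 5) (nat_lit 7) (nat_lit 4) (nat_lit 5) (nat_lit 4) (nat_lit 478) (nat_lit 410) (nat_lit 312)) (XT.nd (nat_lit 78) (nat_lit 0) (nat_lit 0) (XT.lf (nat_lit 0) (nat_lit 81074324393) (nat_lit 152) (nat_lit 205018558419) (nat_lit 0) (nat_lit 59657057454) (nat_lit 5) (nat_lit 5) (nat_lit 7) (nat_lit 4) (nat_lit 5) (nat_lit 4) (nat_lit 479) (nat_lit 410) (nat_lit 311)) (XT.lf (nat_lit 0) (nat_lit 125178160750) (nat_lit 152) (nat_lit 141323697554) (nat_lit 0) (nat_lit 103760114534) (nat_lit 5) (nat_lit 5) (nat_lit 7) (nat_lit 4) (nat_lit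 5) (nat_lit 4) (nat_lit 480) (nat_lit 410) (nat_lit 310)))))) (XT.nd (nat_lit 468) (nat_lit 152) (nat_lit 0) (XT.nd (nat_lit 234) (nat_lit 0) (nat_lit 0) (XT.nd (nat_lit 78) (nat_lit 76) (nat_lit 0) (XT.lf (nat_lit 0) (nat_lit 172807551747) (nat_lit 152) (nat_lit 72538852570) (nat_lit 0) (nat_lit 151388783978) (nat_lit 5) (nat_lit 5) (nat_lit 7) (nat_lit 4) (nat_lit 5) (nat_lit 4) (nat_lit 481) (nat_lit 410) (nat_lit 309)) (XT.nd (nat_lit 78) (nat_lit 0) (nat_lit 0) (XT.lf (nat_lit 0) (nat_lit 1835404811) (nat_lit 76) (nat_lit 222453482345) (nat_lit 76) (nat_lit 201034046472) (nat_lit 4) (nat_lit 4) (nat_lit 5) (nat_lit 5) (nat_lit 5) (nat_lit 4) (nat_lit 482) (nat_lit 410) (nat_lit 308)) (XT.lf (nat_lit 0) (nat_lit 86279893402) (nat_lit 76) (nat_lit 195589695498) (nat_lit 76) (nat_lit 174169641011) (nat_lit 4) (nat_lit 4) (nat_lit 5) (nat_lit 5) (nat_lit 5) (nat_lit 4) (nat_lit 483) (nat_lit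 410) (nat_lit 307)))) (XT.nd (nat_lit 78) (nat_lit 0) (nat_lit 0) (XT.lf (nat_lit 0) (nat_lit 177475257560) (nat_lit 76) (nat_lit 166579191746) (nat_lit 76) (nat_lit 145158564467) (nat_lit 4) (nat_lit 4) (nat_lit 5) (nat_lit 5) (nat_lit 5) (nat_lit 4) (nat_lit 484) (nat_lit 410) (nat_lit 306)) (XT.nd (nat_lit 78) (nat_lit 0) (nat_lit 0) (XT.lf (nat_lit 0) (nat_lit 275961914258) (nat_lit 76) (nat_lit 135250056991) (nat_lit 76) (nat_lit 113828899349) (nat_lit 4) (nat_lit 4) (nat_lit 5) (nat_lit 5) (nat_lit 5) (nat_lit 4) (nat_lit 485) (nat_lit 410) (nat_lit 305)) (XT.lf (nat_lit 0) (nat_lit 382323488129) (nat_lit 76) (nat_lit 101416637102) (nat_lit 76) (nat_lit 79994988383) (nat_lit 4) (nat_lit 4) (nat_lit 5) (nat_lit 5) (nat_lit 5) (nat_lit 4) (nat_lit 486) (nat_lit 410) (nat_lit 304))))) (XT.nd (nat_lit 234) (nat_lit 0) (nat_lit 0) (XT.nd (nat_lit 78) (nat_lit 152) (nat_lit 0) (XT.lf (nat_lit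 0) (nat_lit 497190269980) (nat_lit 76) (nat_lit 64878437738) (nat_lit 76) (nat_lit 43456334319) (nat_lit 4) (nat_lit 4) (nat_lit 5) (nat_lit 5) (nat_lit 5) (nat_lit 4) (nat_lit 487) (nat_lit 410) (nat_lit 303)) (XT.nd (nat_lit 78) (nat_lit 152) (nat_lit 0) (XT.lf (nat_lit 0) (nat_lit 621242951852) (nat_lit 76) (nat_lit 25418936238) (nat_lit 76) (nat_lit 3996411799) (nat_lit 4) (nat_lit 4) (nat_lit 5) (nat_lit 5) (nat_lit 5) (nat_lit 4) (nat_lit 488) (nat_lit 410) (nat_lit 302)) (XT.lf (nat_lit 0) (nat_lit 38550035747) (nat_lit 152) (nat_lit 641914939094) (nat_lit 0) (nat_lit 18714004014) (nat_lit 2) (nat_lit 5) (nat_lit 4) (nat_lit 4) (nat_lit 2) (nat_lit 4) (nat_lit 489) (nat_lit 410) (nat_lit 301)))) (XT.nd (nat_lit 78) (nat_lit 0) (nat_lit 0) (XT.lf (nat_lit 0) (nat_lit 85768077698) (nat_lit 152) (nat_lit 599754515415) (nat_lit 0) (nat_lit 65931711747) (nat_lit 2) (nat_lit 5) (nat_lit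 4) (nat_lit 4) (nat_lit 2) (nat_lit 4) (nat_lit 490) (nat_lit 410) (nat_lit 300)) (XT.nd (nat_lit 78) (nat_lit 0) (nat_lit 0) (XT.lf (nat_lit 0) (nat_lit 136762080335) (nat_lit 152) (nat_lit 554224290344) (nat_lit 0) (nat_lit 116925404923) (nat_lit 2) (nat_lit 5) (nat_lit 4) (nat_lit 4) (nat_lit 2) (nat_lit 4) (nat_lit 491) (nat_lit 410) (nat_lit 299)) (XT.lf (nat_lit 0) (nat_lit 191834230340) (nat_lit 152) (nat_lit 505054455140) (nat_lit 0) (nat_lit 171997268389) (nat_lit 2) (nat_lit 5) (nat_lit 4) (nat_lit 4) (nat_lit 2) (nat_lit 4) (nat_lit 492) (nat_lit 410) (nat_lit 298))))))))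
noncomputable def xc122 : XT := (XT.nd (nat_lit 1716) (nat_lit 0) (nat_lit 0) (XT.nd (nat_lit 858) (nat_lit 0) (nat_lit 0) (XT.nd (nat_lit 390) (nat_lit 76) (nat_lit 0) (XT.nd (nat_lit 156) (nat_lit 0) (nat_lit 0) (XT.nd (nat_lit 78) (nat_lit 0) (nat_lit 0) (XT.lf (nat_lit 0) (nat_lit 251310881193) (nat_lit 152) (nat_lit 451953633001) (nat_lit 0) (nat_lit 231473653929) (nat_lit 2) (nat_lit 5) (nat_lit 4) (nat_lit 4) (nat_lit 2) (nat_lit 4) (nat_lit 493) (nat_lit 410) (nat_lit 297)) (XT.lf (nat_lit 0) (nat_lit 315544487124) (nat_lit 152) (nat_lit 394607152390) (nat_lit 0) (nat_lit 295707014199) (nat_lit 2) (nat_lit 5) (nat_lit 4) (nat_lit 4) (nat_lit 2) (nat_lit 4) (nat_lit 494) (nat_lit 410) (nat_lit 296))) (XT.nd (nat_lit 78) (nat_lit 0) (nat_lit 0) (XT.lf (nat_lit 0) (nat_lit 384915691722) (nat_lit 152) (nat_lit 332675182310) (nat_lit 0) (nat_lit 365077991334) (nat_lit 2) (nat_lit 5)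 (nat_lit 4) (nat_lit 4) (nat_lit 2) (nat_lit 4) (nat_lit 495) (nat_lit 410) (nat_lit 295)) (XT.nd (nat_lit 78) (nat_lit 0) (nat_lit 0) (XT.lf (nat_lit 0) (nat_lit 459835583606) (nat_lit 152) (nat_lit 265790718493) (nat_lit 0) (nat_lit 439997672604) (nat_lit 2) (nat_lit 5) (nat_lit 4) (nat_lit 4) (nat_lit 2) (nat_lit 4) (nat_lit 496) (nat_lit 410) (nat_lit 294)) (XT.lf (nat_lit 0) (nat_lit 540748132508) (nat_lit 152) (nat_lit 193557408562) (nat_lit 0) (nat_lit 520910026492) (nat_lit 2) (nat_lit 5) (nat_lit 4) (nat_lit 4) (nat_lit 2) (nat_lit 4) (nat_lit 497) (nat_lit 410) (nat_lit 293))))) (XT.nd (nat_lit 234) (nat_lit 0) (nat_lit 0) (XT.nd (nat_lit 78) (nat_lit 76) (nat_lit 0) (XT.lf (nat_lit 0) (nat_lit 628132820197) (nat_lit 152) (nat_lit 115547203272) (nat_lit 0) (nat_lit 608294533614) (nat_lit 2) (nat_lit 5) (nat_lit 4) (nat_lit 4) (nat_lit 2) (nat_lit 4) (nat_lit 498) (nat_lit 410)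 (nat_lit 292)) (XT.nd (nat_lit 78) (nat_lit 76) (nat_lit 0) (XT.lf (nat_lit 0) (nat_lit 722507481861) (nat_lit 152) (nat_lit 31297819926) (nat_lit 0) (nat_lit 702669028085) (nat_lit 2) (nat_lit 5) (nat_lit 4) (nat_lit 4) (nat_lit 2) (nat_lit 4) (nat_lit 499) (nat_lit 410) (nat_lit 291)) (XT.lf (nat_lit 0) (nat_lit 62833166547) (nat_lit 76) (nat_lit 763109347373) (nat_lit 76) (nat_lit 743270738789) (nat_lit 1) (nat_lit 4) (nat_lit 2) (nat_lit 5) (nat_lit 2) (nat_lit 4) (nat_lit 500) (nat_lit 410) (nat_lit 290)))) (XT.nd (nat_lit 78) (nat_lit 0) (nat_lit 0) (XT.lf (nat_lit 0) (nat_lit 166273088089) (nat_lit 76) (nat_lit 772234275992) (nat_lit 76) (nat_lit 752395524067) (nat_lit 1) (nat_lit 4) (nat_lit 2) (nat_lit 5) (nat_lit 2) (nat_lit 4) (nat_lit 501) (nat_lit 410) (nat_lit 289)) (XT.nd (nat_lit 78) (nat_lit 0) (nat_lit 0) (XT.lf (nat_lit 0) (nat_lit 277986834280) (nat_lit 76) (nat_lit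 782089899157) (nat_lit 76) (nat_lit 762251014510) (nat_lit 1) (nat_lit 4) (nat_lit 2) (nat_lit 5) (nat_lit 2) (nat_lit 4) (nat_lit 502) (nat_lit 410) (nat_lit 288)) (XT.lf (nat_lit 0) (nat_lit 398636412504) (nat_lit 76) (nat_lit 792734620561) (nat_lit 76) (nat_lit 772895613022) (nat_lit 1) (nat_lit 4) (nat_lit 2) (nat_lit 5) (nat_lit 2) (nat_lit 4) (nat_lit 503) (nat_lit 410) (nat_lit 287)))))) (XT.nd (nat_lit 390) (nat_lit 0) (nat_lit 0) (XT.nd (nat_lit 156) (nat_lit 0) (nat_lit 0) (XT.nd (nat_lit 78) (nat_lit 0) (nat_lit 0) (XT.lf (nat_lit 0) (nat_lit 528936783225) (nat_lit 76) (nat_lit 804231520034) (nat_lit 76) (nat_lit 784392398708) (nat_lit 1) (nat_lit 4) (nat_lit 2) (nat_lit 5) (nat_lit 2) (nat_lit 4) (nat_lit 504) (nat_lit 410) (nat_lit 286)) (XT.lf (nat_lit 0) (nat_lit 669660096787) (nat_lit 76) (nat_lit 816648727352) (nat_lit 76) (nat_lit 796809500666) (nat_lit 1) (nat_lit 4)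 (nat_lit 2) (nat_lit 5) (nat_lit 2) (nat_lit 4) (nat_lit 505) (nat_lit 410) (nat_lit 285))) (XT.nd (nat_lit 78) (nat_lit 0) (nat_lit 0) (XT.lf (nat_lit 0) (nat_lit 821640269124) (nat_lit 76) (nat_lit 830059825965) (nat_lit 76) (nat_lit 810220501723) (nat_lit 1) (nat_lit 4) (nat_lit 2) (nat_lit 5) (nat_lit 2) (nat_lit 4) (nat_lit 506) (nat_lit 410) (nat_lit 284)) (XT.nd (nat_lit 78) (nat_lit 0) (nat_lit 0) (XT.lf (nat_lit 0) (nat_lit 985777923478) (nat_lit 76) (nat_lit 844544289050) (nat_lit 76) (nat_lit 824704874479) (nat_lit 1) (nat_lit 4) (nat_lit 2) (nat_lit 5) (nat_lit 2) (nat_lit 4) (nat_lit 507) (nat_lit 410) (nat_lit 283)) (XT.lf (nat_lit 0) (nat_lit 1163045727431) (nat_lit 76) (nat_lit 860187950462) (nat_lit 76) (nat_lit 840348452253) (nat_lit 1) (nat_lit 4) (nat_lit 2) (nat_lit 5) (nat_lit 2) (nat_lit 4) (nat_lit 508) (nat_lit 410) (nat_lit 282))))) (XT.nd (nat_lit 234) (nat_lit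 0) (nat_lit 0) (XT.nd (nat_lit 78) (nat_lit 0) (nat_lit 0) (XT.lf (nat_lit 0) (nat_lit 1354494156858) (nat_lit 76) (nat_lit 877083513380) (nat_lit 76) (nat_lit 857243937729) (nat_lit 1) (nat_lit 4) (nat_lit 2) (nat_lit 5) (nat_lit 2) (nat_lit 4) (nat_lit 509) (nat_lit 410) (nat_lit 281)) (XT.nd (nat_lit 78) (nat_lit 0) (nat_lit 0) (XT.lf (nat_lit 0) (nat_lit 1561257720971) (nat_lit 76) (nat_lit 895331099658) (nat_lit 76) (nat_lit 875491452301) (nat_lit 1) (nat_lit 4) (nat_lit 2) (nat_lit 5) (nat_lit 2) (nat_lit 4) (nat_lit 510) (nat_lit 410) (nat_lit 280)) (XT.lf (nat_lit 0) (nat_lit 1784561685334) (nat_lit 76) (nat_lit 915038843141) (nat_lit 76) (nat_lit 895199129390) (nat_lit 1) (nat_lit 4) (nat_lit 2) (nat_lit 5) (nat_lit 2) (nat_lit 4) (nat_lit 511) (nat_lit 410) (nat_lit 279)))) (XT.nd (nat_lit 78) (nat_lit 0) (nat_lit 0) (XT.lf (nat_lit 0) (nat_lit 2025729332700) (nat_lit 76) (nat_lit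 936323530457) (nat_lit 76) (nat_lit 916483755230) (nat_lit 1) (nat_lit 4) (nat_lit 2) (nat_lit 5) (nat_lit 2) (nat_lit 4) (nat_lit 512) (nat_lit 410) (nat_lit 278)) (XT.nd (nat_lit 78) (nat_lit 0) (nat_lit 0) (XT.lf (nat_lit 0) (nat_lit 2286189804682) (nat_lit 76) (nat_lit 959311293087) (nat_lit 76) (nat_lit 939471460937) (nat_lit 1) (nat_lit 4) (nat_lit 2) (nat_lit 5) (nat_lit 2) (nat_lit 4) (nat_lit 513) (nat_lit 410) (nat_lit 277)) (XT.lf (nat_lit 0) (nat_lit 2567486570744) (nat_lit 76) (nat_lit 984138354808) (nat_lit 76) (nat_lit 964298469952) (nat_lit 1) (nat_lit 4) (nat_lit 2) (nat_lit 5) (nat_lit 2) (nat_lit 4) (nat_lit 514) (nat_lit 410) (nat_lit 276))))))) (XT.nd (nat_lit 858) (nat_lit 0) (nat_lit 0) (XT.nd (nat_lit 390) (nat_lit 0) (nat_lit 0) (XT.nd (nat_lit 156) (nat_lit 0) (nat_lit 0) (XT.nd (nat_lit 78) (nat_lit 0) (nat_lit 0) (XT.lf (nat_lit 0) (nat_lit 2871286574685) (nat_lit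 76) (nat_lit 1010951838950) (nat_lit 76) (nat_lit 991111905292) (nat_lit 1) (nat_lit 4) (nat_lit 2) (nat_lit 5) (nat_lit 2) (nat_lit 4) (nat_lit 515) (nat_lit 410) (nat_lit 275)) (XT.lf (nat_lit 0) (nat_lit 3199390112825) (nat_lit 76) (nat_lit 1039910640234) (nat_lit 76) (nat_lit 1020070661389) (nat_lit 1) (nat_lit 4) (nat_lit 2) (nat_lit 5) (nat_lit 2) (nat_lit 4) (nat_lit 516) (nat_lit 410) (nat_lit 274))) (XT.nd (nat_lit 78) (nat_lit 0) (nat_lit 0) (XT.lf (nat_lit 0) (nat_lit 3553741502427) (nat_lit 76) (nat_lit 1071186366370) (nat_lit 76) (nat_lit 1051346345686) (nat_lit 1) (nat_lit 4) (nat_lit 2) (nat_lit 5) (nat_lit 2) (nat_lit 4) (nat_lit 517) (nat_lit 410) (nat_lit 273)) (XT.nd (nat_lit 78) (nat_lit 0) (nat_lit 0) (XT.lf (nat_lit 0) (nat_lit 3936440603576) (nat_lit 76) (nat_lit 1104964354996) (nat_lit 76) (nat_lit 1085124295571) (nat_lit 1) (nat_lit 4) (nat_lit 2) (nat_lit 5) (nat_lit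 2) (nat_lit 4) (nat_lit 518) (nat_lit 410) (nat_lit 272)) (XT.lf (nat_lit 0) (nat_lit 4349755262799) (nat_lit 76) (nat_lit 1141444771969) (nat_lit 76) (nat_lit 1121604676673) (nat_lit 1) (nat_lit 4) (nat_lit 2) (nat_lit 5) (nat_lit 2) (nat_lit 4) (nat_lit 519) (nat_lit 410) (nat_lit 271))))) (XT.nd (nat_lit 234) (nat_lit 0) (nat_lit 0) (XT.nd (nat_lit 78) (nat_lit 0) (nat_lit 0) (XT.lf (nat_lit 0) (nat_lit 4796134752151) (nat_lit 76) (nat_lit 1180843797539) (nat_lit 76) (nat_lit 1161003669029) (nat_lit 1) (nat_lit 4) (nat_lit 2) (nat_lit 5) (nat_lit 2) (nat_lit 4) (nat_lit 520) (nat_lit 410) (nat_lit 270)) (XT.nd (nat_lit 78) (nat_lit 0) (nat_lit 0) (XT.lf (nat_lit 0) (nat_lit 5278224283419) (nat_lit 76) (nat_lit 1223394907412) (nat_lit 76) (nat_lit 1203554748149) (nat_lit 1) (nat_lit 4) (nat_lit 2) (nat_lit 5) (nat_lit 2) (nat_lit 4) (nat_lit 521) (nat_lit 410) (nat_lit 269)) (XT.lf (nat_lit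 0) (nat_lit 5798880683456) (nat_lit 76) (nat_lit 1269350256314) (nat_lit 76) (nat_lit 1249510068575) (nat_lit 1) (nat_lit 4) (nat_lit 2) (nat_lit 5) (nat_lit 2) (nat_lit 4) (nat_lit 522) (nat_lit 410) (nat_lit 268)))) (XT.nd (nat_lit 78) (nat_lit 0) (nat_lit 0) (XT.lf (nat_lit 0) (nat_lit 6361189323521) (nat_lit 76) (nat_lit 1318982172237) (nat_lit 76) (nat_lit 1299141958133) (nat_lit 1) (nat_lit 4) (nat_lit 2) (nat_lit 5) (nat_lit 2) (nat_lit 4) (nat_lit 523) (nat_lit 410) (nat_lit 267)) (XT.nd (nat_lit 78) (nat_lit 0) (nat_lit 0) (XT.lf (nat_lit 0) (nat_lit 6968482402964) (nat_lit 76) (nat_lit 1372584770241) (nat_lit 76) (nat_lit 1352744531723) (nat_lit 1) (nat_lit 4) (nat_lit 2) (nat_lit 5) (nat_lit 2) (nat_lit 4) (nat_lit 524) (nat_lit 410) (nat_lit 266)) (XT.lf (nat_lit 0) (nat_lit 7624358695587) (nat_lit 76) (nat_lit 1430475695349) (nat_lit 76) (nat_lit 1410635434226) (nat_lit 1)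 (nat_lit 4) (nat_lit 2) (nat_lit 5) (nat_lit 2) (nat_lit 4) (nat_lit 525) (nat_lit 410) (nat_lit 265)))))) (XT.nd (nat_lit 53820) (nat_lit 0) (nat_lit 4408) (XT.nd (nat_lit 53586) (nat_lit 0) (nat_lit 5168) (XT.nd (nat_lit 78) (nat_lit 0) (nat_lit 0) (XT.lf (nat_lit 0) (nat_lit 8332704875718) (nat_lit 76) (nat_lit 1492998004896) (nat_lit 76) (nat_lit 1473157722843) (nat_lit 1) (nat_lit 4) (nat_lit 2) (nat_lit 5) (nat_lit 2) (nat_lit 4) (nat_lit 526) (nat_lit 410) (nat_lit 264)) (XT.nd (nat_lit 53430) (nat_lit 0) (nat_lit 5168) (XT.lf (nat_lit 0) (nat_lit 9097718550350) (nat_lit 76) (nat_lit 1560522201456) (nat_lit 76) (nat_lit 1540681900023) (nat_lit 1) (nat_lit 4) (nat_lit 2) (nat_lit 5) (nat_lit 2) (nat_lit 4) (nat_lit 527) (nat_lit 410) (nat_lit 263)) (XT.lf (nat_lit 0) (nat_lit 1347370969) (nat_lit 532) (nat_lit 1816488608) (nat_lit 532) (nat_lit 1816488608) (nat_lit 69) (nat_lit 3)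 (nat_lit 76) (nat_lit 3) (nat_lit 76) (nat_lit 5) (nat_lit 411) (nat_lit 411) (nat_lit 378)))) (XT.nd (nat_lit 78) (nat_lit 0) (nat_lit 76) (XT.lf (nat_lit 76) (nat_lit 1316760091) (nat_lit 0) (nat_lit 2201209050) (nat_lit 532) (nat_lit 6783460075) (nat_lit 70) (nat_lit 5) (nat_lit 69) (nat_lit 3) (nat_lit 76) (nat_lit 5) (nat_lit 412) (nat_lit 411) (nat_lit 377)) (XT.nd (nat_lit 78) (nat_lit 0) (nat_lit 0) (XT.lf (nat_lit 0) (nat_lit 4494595882) (nat_lit 456) (nat_lit 3894446537) (nat_lit 532) (nat_lit 2273420982) (nat_lit 70) (nat_lit 5) (nat_lit 76) (nat_lit 5) (nat_lit 77) (nat_lit 5) (nat_lit 413) (nat_lit 411) (nat_lit 376)) (XT.lf (nat_lit 76) (nat_lit 1583128514) (nat_lit 0) (nat_lit 3997941604) (nat_lit 532) (nat_lit 5468815429) (nat_lit 71) (nat_lit 5) (nat_lit 70) (nat_lit 5) (nat_lit 77) (nat_lit 5) (nat_lit 414) (nat_lit 411) (nat_lit 375))))) (XT.nd (nat_lit 234) (nat_lit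 912) (nat_lit 0) (XT.nd (nat_lit 78) (nat_lit 0) (nat_lit 0) (XT.lf (nat_lit 0) (nat_lit 6822262578) (nat_lit 456) (nat_lit 3806168219) (nat_lit 532) (nat_lit 834486102) (nat_lit 71) (nat_lit 5) (nat_lit 77) (nat_lit 5) (nat_lit 78) (nat_lit 5) (nat_lit 415) (nat_lit 411) (nat_lit 374)) (XT.nd (nat_lit 78) (nat_lit 0) (nat_lit 0) (XT.lf (nat_lit 76) (nat_lit 2274515033) (nat_lit 0) (nat_lit 5991826011) (nat_lit 532) (nat_lit 3634399000) (nat_lit 72) (nat_lit 5) (nat_lit 71) (nat_lit 5) (nat_lit 78) (nat_lit 5) (nat_lit 416) (nat_lit 411) (nat_lit 373)) (XT.lf (nat_lit 76) (nat_lit 9016503396) (nat_lit 0) (nat_lit 861625572) (nat_lit 532) (nat_lit 2491319247) (nat_lit 72) (nat_lit 5) (nat_lit 71) (nat_lit 5) (nat_lit 78) (nat_lit 5) (nat_lit 417) (nat_lit 411) (nat_lit 372)))) (XT.nd (nat_lit 78) (nat_lit 532) (nat_lit 0) (XT.lf (nat_lit 0) (nat_lit 3439073421) (nat_lit 456) (nat_lit 8327214017)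 (nat_lit 532) (nat_lit 1097602725) (nat_lit 66) (nat_lit 5) (nat_lit 72) (nat_lit 5) (nat_lit 73) (nat_lit 5) (nat_lit 418) (nat_lit 411) (nat_lit 371)) (XT.nd (nat_lit 78) (nat_lit 456) (nat_lit 0) (XT.lf (nat_lit 0) (nat_lit 457184076) (nat_lit 532) (nat_lit 2504005178) (nat_lit 76) (nat_lit 10430343754) (nat_lit 65) (nat_lit 5) (nat_lit 72) (nat_lit 5) (nat_lit 66) (nat_lit 5) (nat_lit 419) (nat_lit 411) (nat_lit 370)) (XT.lf (nat_lit 0) (nat_lit 2230283452) (nat_lit 532) (nat_lit 8865539873) (nat_lit 76) (nat_lit 2851049794) (nat_lit 59) (nat_lit 5) (nat_lit 66) (nat_lit 5) (nat_lit 60) (nat_lit 5) (nat_lit 420) (nat_lit 411) (nat_lit 369))))))))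
noncomputable def xc123 : XT := (XT.nd (nat_lit 1716) (nat_lit 1216) (nat_lit 0) (XT.nd (nat_lit 858) (nat_lit 988) (nat_lit 0) (XT.nd (nat_lit 390) (nat_lit 684) (nat_lit 0) (XT.nd (nat_lit 156) (nat_lit 380) (nat_lit 0) (XT.nd (nat_lit 78) (nat_lit 228) (nat_lit 0) (XT.lf (nat_lit 0) (nat_lit 4251613806) (nat_lit 532) (nat_lit 1246996966) (nat_lit 76) (nat_lit 9039542048) (nat_lit 59) (nat_lit 5) (nat_lit 66) (nat_lit 5) (nat_lit 60) (nat_lit 5) (nat_lit 421) (nat_lit 411) (nat_lit 368)) (XT.lf (nat_lit 0) (nat_lit 6590277657) (nat_lit 304) (nat_lit 7876689855) (nat_lit 76) (nat_lit 697338537) (nat_lit 56) (nat_lit 5) (nat_lit 60) (nat_lit 5) (nat_lit 57) (nat_lit 5) (nat_lit 422) (nat_lit 411) (nat_lit 367))) (XT.nd (nat_lit 78) (nat_lit 152) (nat_lit 0) (XT.lf (nat_lit 0) (nat_lit 581823394) (nat_lit 228) (nat_lit 8690043997) (nat_lit 304) (nat_lit 6556237262) (nat_lit 53) (nat_lit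 5) (nat_lit 56) (nat_lit 5) (nat_lit 57) (nat_lit 5) (nat_lit 423) (nat_lit 411) (nat_lit 366)) (XT.nd (nat_lit 78) (nat_lit 152) (nat_lit 0) (XT.lf (nat_lit 0) (nat_lit 10124359482) (nat_lit 228) (nat_lit 2224712744) (nat_lit 304) (nat_lit 4181466161) (nat_lit 53) (nat_lit 5) (nat_lit 56) (nat_lit 5) (nat_lit 57) (nat_lit 5) (nat_lit 424) (nat_lit 411) (nat_lit 365)) (XT.lf (nat_lit 0) (nat_lit 3143960091) (nat_lit 152) (nat_lit 12686654958) (nat_lit 228) (nat_lit 1445915766) (nat_lit 51) (nat_lit 5) (nat_lit 53) (nat_lit 5) (nat_lit 54) (nat_lit 5) (nat_lit 425) (nat_lit 411) (nat_lit 364))))) (XT.nd (nat_lit 234) (nat_lit 380) (nat_lit 0) (XT.nd (nat_lit 78) (nat_lit 228) (nat_lit 0) (XT.lf (nat_lit 0) (nat_lit 1639249268) (nat_lit 228) (nat_lit 4385034392) (nat_lit 76) (nat_lit 12038532704) (nat_lit 50) (nat_lit 5) (nat_lit 53) (nat_lit 5) (nat_lit 51) (nat_lit 5) (nat_lit 426) (nat_lit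 411) (nat_lit 363)) (XT.nd (nat_lit 78) (nat_lit 0) (nat_lit 0) (XT.lf (nat_lit 0) (nat_lit 5050683634) (nat_lit 304) (nat_lit 12545384401) (nat_lit 76) (nat_lit 1300339805) (nat_lit 47) (nat_lit 5) (nat_lit 51) (nat_lit 5) (nat_lit 48) (nat_lit 5) (nat_lit 427) (nat_lit 411) (nat_lit 362)) (XT.lf (nat_lit 0) (nat_lit 8986616696) (nat_lit 304) (nat_lit 1790048347) (nat_lit 76) (nat_lit 8999907313) (nat_lit 47) (nat_lit 5) (nat_lit 51) (nat_lit 5) (nat_lit 48) (nat_lit 5) (nat_lit 428) (nat_lit 411) (nat_lit 361)))) (XT.nd (nat_lit 78) (nat_lit 228) (nat_lit 0) (XT.lf (nat_lit 0) (nat_lit 10305388406) (nat_lit 152) (nat_lit 3154047770) (nat_lit 228) (nat_lit 7249964432) (nat_lit 45) (nat_lit 5) (nat_lit 47) (nat_lit 5) (nat_lit 48) (nat_lit 5) (nat_lit 429) (nat_lit 411) (nat_lit 360)) (XT.nd (nat_lit 78) (nat_lit 76) (nat_lit 0) (XT.lf (nat_lit 0) (nat_lit 1681340413) (nat_lit 152) (nat_lit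 16796522101) (nat_lit 228) (nat_lit 3223980769) (nat_lit 43) (nat_lit 5) (nat_lit 45) (nat_lit 5) (nat_lit 46) (nat_lit 5) (nat_lit 430) (nat_lit 411) (nat_lit 359)) (XT.lf (nat_lit 0) (nat_lit 1416981368) (nat_lit 228) (nat_lit 7579124757) (nat_lit 76) (nat_lit 13747491180) (nat_lit 42) (nat_lit 5) (nat_lit 45) (nat_lit 5) (nat_lit 43) (nat_lit 5) (nat_lit 431) (nat_lit 411) (nat_lit 358)))))) (XT.nd (nat_lit 390) (nat_lit 532) (nat_lit 0) (XT.nd (nat_lit 156) (nat_lit 304) (nat_lit 0) (XT.nd (nat_lit 78) (nat_lit 0) (nat_lit 0) (XT.lf (nat_lit 0) (nat_lit 6041740465) (nat_lit 152) (nat_lit 335785653) (nat_lit 228) (nat_lit 17474676070) (nat_lit 40) (nat_lit 5) (nat_lit 42) (nat_lit 5) (nat_lit 43) (nat_lit 5) (nat_lit 432) (nat_lit 411) (nat_lit 357)) (XT.lf (nat_lit 0) (nat_lit 12142180789) (nat_lit 228) (nat_lit 4106793722) (nat_lit 76) (nat_lit 8767947481) (nat_lit 40) (nat_lit 5)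 (nat_lit 43) (nat_lit 5) (nat_lit 41) (nat_lit 5) (nat_lit 433) (nat_lit 411) (nat_lit 356))) (XT.nd (nat_lit 78) (nat_lit 152) (nat_lit 0) (XT.lf (nat_lit 0) (nat_lit 11213021780) (nat_lit 152) (nat_lit 7412815823) (nat_lit 228) (nat_lit 7628362654) (nat_lit 38) (nat_lit 5) (nat_lit 40) (nat_lit 5) (nat_lit 41) (nat_lit 5) (nat_lit 434) (nat_lit 411) (nat_lit 355)) (XT.nd (nat_lit 78) (nat_lit 76) (nat_lit 0) (XT.lf (nat_lit 0) (nat_lit 340553959) (nat_lit 76) (nat_lit 25442176884) (nat_lit 152) (nat_lit 1795373149) (nat_lit 37) (nat_lit 5) (nat_lit 38) (nat_lit 5) (nat_lit 39) (nat_lit 4) (nat_lit 435) (nat_lit 411) (nat_lit 354)) (XT.lf (nat_lit 0) (nat_lit 4873536213) (nat_lit 152) (nat_lit 11511395550) (nat_lit 76) (nat_lit 12566759685) (nat_lit 36) (nat_lit 5) (nat_lit 38) (nat_lit 5) (nat_lit 37) (nat_lit 5) (nat_lit 436) (nat_lit 411) (nat_lit 353))))) (XT.nd (nat_lit 234) (nat_lit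 304) (nat_lit 0) (XT.nd (nat_lit 78) (nat_lit 76) (nat_lit 0) (XT.lf (nat_lit 0) (nat_lit 5679734263) (nat_lit 152) (nat_lit 6417423889) (nat_lit 228) (nat_lit 18324826708) (nat_lit 34) (nat_lit 5) (nat_lit 36) (nat_lit 5) (nat_lit 37) (nat_lit 5) (nat_lit 437) (nat_lit 411) (nat_lit 352)) (XT.nd (nat_lit 78) (nat_lit 76) (nat_lit 0) (XT.lf (nat_lit 0) (nat_lit 20308098021) (nat_lit 228) (nat_lit 7227604227) (nat_lit 76) (nat_lit 4441450184) (nat_lit 34) (nat_lit 5) (nat_lit 37) (nat_lit 5) (nat_lit 35) (nat_lit 4) (nat_lit 438) (nat_lit 411) (nat_lit 351)) (XT.lf (nat_lit 0) (nat_lit 12098047382) (nat_lit 76) (nat_lit 17518801095) (nat_lit 152) (nat_lit 4004614673) (nat_lit 33) (nat_lit 5) (nat_lit 34) (nat_lit 5) (nat_lit 35) (nat_lit 4) (nat_lit 439) (nat_lit 411) (nat_lit 350)))) (XT.nd (nat_lit 78) (nat_lit 228) (nat_lit 0) (XT.lf (nat_lit 0) (nat_lit 4245409824) (nat_lit 152) (nat_lit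 2137440119) (nat_lit 76) (nat_lit 28991356975) (nat_lit 32) (nat_lit 5) (nat_lit 34) (nat_lit 5) (nat_lit 33) (nat_lit 5) (nat_lit 440) (nat_lit 411) (nat_lit 349)) (XT.nd (nat_lit 78) (nat_lit 76) (nat_lit 0) (XT.lf (nat_lit 0) (nat_lit 13546811328) (nat_lit 228) (nat_lit 17720942252) (nat_lit 76) (nat_lit 5942480697) (nat_lit 30) (nat_lit 5) (nat_lit 33) (nat_lit 5) (nat_lit 31) (nat_lit 4) (nat_lit 441) (nat_lit 411) (nat_lit 348)) (XT.lf (nat_lit 0) (nat_lit 3773792645) (nat_lit 76) (nat_lit 20119941641) (nat_lit 152) (nat_lit 15275300156) (nat_lit 29) (nat_lit 5) (nat_lit 30) (nat_lit 5) (nat_lit 31) (nat_lit 4) (nat_lit 442) (nat_lit 411) (nat_lit 347))))))) (XT.nd (nat_lit 858) (nat_lit 532) (nat_lit 0) (XT.nd (nat_lit 390) (nat_lit 456) (nat_lit 0) (XT.nd (nat_lit 156) (nat_lit 76) (nat_lit 0) (XT.nd (nat_lit 78) (nat_lit 152) (nat_lit 0) (XT.lf (nat_lit 0) (nat_lit 27969660074)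 (nat_lit 76) (nat_lit 7568661854) (nat_lit 152) (nat_lit 5708626937) (nat_lit 29) (nat_lit 5) (nat_lit 30) (nat_lit 5) (nat_lit 31) (nat_lit 4) (nat_lit 443) (nat_lit 411) (nat_lit 346)) (XT.lf (nat_lit 0) (nat_lit 4796866012) (nat_lit 152) (nat_lit 32590187049) (nat_lit 76) (nat_lit 6062769372) (nat_lit 27) (nat_lit 5) (nat_lit 29) (nat_lit 5) (nat_lit 28) (nat_lit 4) (nat_lit 444) (nat_lit 411) (nat_lit 345))) (XT.nd (nat_lit 78) (nat_lit 76) (nat_lit 0) (XT.lf (nat_lit 0) (nat_lit 16389721404) (nat_lit 152) (nat_lit 8496794303) (nat_lit 76) (nat_lit 20886123596) (nat_lit 27) (nat_lit 5) (nat_lit 29) (nat_lit 5) (nat_lit 28) (nat_lit 4) (nat_lit 445) (nat_lit 411) (nat_lit 344)) (XT.nd (nat_lit 78) (nat_lit 0) (nat_lit 0) (XT.lf (nat_lit 0) (nat_lit 18422273632) (nat_lit 76) (nat_lit 10918097630) (nat_lit 152) (nat_lit 18906483267) (nat_lit 26) (nat_lit 5) (nat_lit 27) (nat_lit 5) (nat_lit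 28) (nat_lit 4) (nat_lit 446) (nat_lit 411) (nat_lit 343)) (XT.lf (nat_lit 0) (nat_lit 43653111116) (nat_lit 152) (nat_lit 3052100124) (nat_lit 0) (nat_lit 4187714810) (nat_lit 26) (nat_lit 5) (nat_lit 28) (nat_lit 4) (nat_lit 26) (nat_lit 4) (nat_lit 447) (nat_lit 411) (nat_lit 342))))) (XT.nd (nat_lit 234) (nat_lit 228) (nat_lit 0) (XT.nd (nat_lit 78) (nat_lit 76) (nat_lit 0) (XT.lf (nat_lit 0) (nat_lit 6034892119) (nat_lit 152) (nat_lit 26927334944) (nat_lit 76) (nat_lit 20702717557) (nat_lit 24) (nat_lit 5) (nat_lit 26) (nat_lit 5) (nat_lit 25) (nat_lit 4) (nat_lit 448) (nat_lit 411) (nat_lit 341)) (XT.nd (nat_lit 78) (nat_lit 0) (nat_lit 0) (XT.lf (nat_lit 0) (nat_lit 2336894077) (nat_lit 76) (nat_lit 17773800031) (nat_lit 152) (nat_lit 36522567962) (nat_lit 23) (nat_lit 5) (nat_lit 24) (nat_lit 5) (nat_lit 25) (nat_lit 4) (nat_lit 449) (nat_lit 411) (nat_lit 340)) (XT.lf (nat_lit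 0) (nat_lit 35452379734) (nat_lit 76) (nat_lit 585203452) (nat_lit 152) (nat_lit 23743461453) (nat_lit 23) (nat_lit 5) (nat_lit 24) (nat_lit 5) (nat_lit 25) (nat_lit 4) (nat_lit 450) (nat_lit 411) (nat_lit 339)))) (XT.nd (nat_lit 78) (nat_lit 152) (nat_lit 0) (XT.lf (nat_lit 0) (nat_lit 7983122902) (nat_lit 76) (nat_lit 45869266843) (nat_lit 76) (nat_lit 9279160203) (nat_lit 22) (nat_lit 4) (nat_lit 23) (nat_lit 5) (nat_lit 23) (nat_lit 4) (nat_lit 451) (nat_lit 411) (nat_lit 338)) (XT.nd (nat_lit 78) (nat_lit 76) (nat_lit 0) (XT.lf (nat_lit 0) (nat_lit 6712115441) (nat_lit 152) (nat_lit 22638784673) (nat_lit 76) (nat_lit 37332026468) (nat_lit 21) (nat_lit 5) (nat_lit 23) (nat_lit 5) (nat_lit 22) (nat_lit 4) (nat_lit 452) (nat_lit 411) (nat_lit 337)) (XT.lf (nat_lit 0) (nat_lit 12854828517) (nat_lit 76) (nat_lit 10925921360) (nat_lit 152) (nat_lit 46694433450) (nat_lit 20) (nat_lit 5) (nat_lit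 21) (nat_lit 5) (nat_lit 22) (nat_lit 4) (nat_lit 453) (nat_lit 411) (nat_lit 336)))))) (XT.nd (nat_lit 468) (nat_lit 228) (nat_lit 0) (XT.nd (nat_lit 234) (nat_lit 152) (nat_lit 0) (XT.nd (nat_lit 78) (nat_lit 152) (nat_lit 0) (XT.lf (nat_lit 0) (nat_lit 43056023253) (nat_lit 152) (nat_lit 22296668634) (nat_lit 0) (nat_lit 9150837928) (nat_lit 20) (nat_lit 5) (nat_lit 22) (nat_lit 4) (nat_lit 20) (nat_lit 4) (nat_lit 454) (nat_lit 411) (nat_lit 335)) (XT.nd (nat_lit 78) (nat_lit 76) (nat_lit 0) (XT.lf (nat_lit 0) (nat_lit 16370537714) (nat_lit 76) (nat_lit 48171286450) (nat_lit 76) (nat_lit 14258840388) (nat_lit 19) (nat_lit 4) (nat_lit 20) (nat_lit 5) (nat_lit 20) (nat_lit 4) (nat_lit 455) (nat_lit 411) (nat_lit 334)) (XT.lf (nat_lit 0) (nat_lit 4706066427) (nat_lit 152) (nat_lit 24130550796) (nat_lit 76) (nat_lit 54547351266) (nat_lit 18) (nat_lit 5) (nat_lit 20) (nat_lit 5) (nat_lit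 19) (nat_lit 4) (nat_lit 456) (nat_lit 411) (nat_lit 333)))) (XT.nd (nat_lit 78) (nat_lit 76) (nat_lit 0) (XT.lf (nat_lit 0) (nat_lit 17733497000) (nat_lit 76) (nat_lit 7102508228) (nat_lit 152) (nat_lit 63434848558) (nat_lit 17) (nat_lit 5) (nat_lit 18) (nat_lit 5) (nat_lit 19) (nat_lit 4) (nat_lit 457) (nat_lit 411) (nat_lit 332)) (XT.nd (nat_lit 78) (nat_lit 76) (nat_lit 0) (XT.lf (nat_lit 0) (nat_lit 47638699041) (nat_lit 152) (nat_lit 29604042351) (nat_lit 0) (nat_lit 16220960445) (nat_lit 17) (nat_lit 5) (nat_lit 19) (nat_lit 4) (nat_lit 17) (nat_lit 4) (nat_lit 458) (nat_lit 411) (nat_lit 331)) (XT.lf (nat_lit 0) (nat_lit 15162886930) (nat_lit 76) (nat_lit 57644225632) (nat_lit 76) (nat_lit 26221545501) (nat_lit 16) (nat_lit 4) (nat_lit 17) (nat_lit 5) (nat_lit 17) (nat_lit 4) (nat_lit 459) (nat_lit 411) (nat_lit 330))))) (XT.nd (nat_lit 234) (nat_lit 76) (nat_lit 0) (XT.nd (nat_lit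 78) (nat_lit 152) (nat_lit 0) (XT.lf (nat_lit 0) (nat_lit 65180081821) (nat_lit 76) (nat_lit 35610912788) (nat_lit 76) (nat_lit 4183657161) (nat_lit 16) (nat_lit 4) (nat_lit 17) (nat_lit 5) (nat_lit 17) (nat_lit 4) (nat_lit 460) (nat_lit 411) (nat_lit 329)) (XT.nd (nat_lit 78) (nat_lit 0) (nat_lit 0) (XT.lf (nat_lit 0) (nat_lit 7701827807) (nat_lit 76) (nat_lit 11112268348) (nat_lit 152) (nat_lit 92530232192) (nat_lit 14) (nat_lit 5) (nat_lit 15) (nat_lit 5) (nat_lit 16) (nat_lit 4) (nat_lit 461) (nat_lit 411) (nat_lit 328)) (XT.lf (nat_lit 0) (nat_lit 44904009227) (nat_lit 152) (nat_lit 57395464213) (nat_lit 0) (nat_lit 15797143536) (nat_lit 14) (nat_lit 5) (nat_lit 16) (nat_lit 4) (nat_lit 14) (nat_lit 4) (nat_lit 462) (nat_lit 411) (nat_lit 327)))) (XT.nd (nat_lit 78) (nat_lit 76) (nat_lit 0) (XT.lf (nat_lit 0) (nat_lit 73363238587) (nat_lit 152) (nat_lit 7750270934) (nat_lit 0) (nat_lit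 44253009770) (nat_lit 14) (nat_lit 5) (nat_lit 16) (nat_lit 4) (nat_lit 14) (nat_lit 4) (nat_lit 463) (nat_lit 411) (nat_lit 326)) (XT.nd (nat_lit 78) (nat_lit 0) (nat_lit 0) (XT.lf (nat_lit 0) (nat_lit 48269141293) (nat_lit 76) (nat_lit 56984913914) (nat_lit 76) (nat_lit 27871571092) (nat_lit 13) (nat_lit 4) (nat_lit 14) (nat_lit 5) (nat_lit 14) (nat_lit 4) (nat_lit 464) (nat_lit 411) (nat_lit 325)) (XT.lf (nat_lit 0) (nat_lit 109199160987) (nat_lit 76) (nat_lit 30703021887) (nat_lit 76) (nat_lit 1586795726) (nat_lit 13) (nat_lit 4) (nat_lit 14) (nat_lit 5) (nat_lit 14) (nat_lit 4) (nat_lit 465) (nat_lit 411) (nat_lit 324))))))))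
noncomputable def xc124 : XT := (XT.nd (nat_lit 1716) (nat_lit 228) (nat_lit 0) (XT.nd (nat_lit 858) (nat_lit 228) (nat_lit 0) (XT.nd (nat_lit 390) (nat_lit 228) (nat_lit 0) (XT.nd (nat_lit 156) (nat_lit 76) (nat_lit 0) (XT.nd (nat_lit 78) (nat_lit 0) (nat_lit 0) (XT.lf (nat_lit 0) (nat_lit 25081148457) (nat_lit 76) (nat_lit 976565184) (nat_lit 152) (nat_lit 124364310292) (nat_lit 11) (nat_lit 5) (nat_lit 12) (nat_lit 5) (nat_lit 13) (nat_lit 4) (nat_lit 466) (nat_lit 411) (nat_lit 323)) (XT.lf (nat_lit 0) (nat_lit 57476930176) (nat_lit 152) (nat_lit 71944875198) (nat_lit 0) (nat_lit 30512700623) (nat_lit 11) (nat_lit 5) (nat_lit 13) (nat_lit 4) (nat_lit 11) (nat_lit 4) (nat_lit 467) (nat_lit 411) (nat_lit 322))) (XT.nd (nat_lit 78) (nat_lit 76) (nat_lit 0) (XT.lf (nat_lit 0) (nat_lit 91429913223) (nat_lit 152) (nat_lit 14312891023) (nat_lit 0) (nat_lit 64463564330) (nat_lit 11) (nat_lit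 5) (nat_lit 13) (nat_lit 4) (nat_lit 11) (nat_lit 4) (nat_lit 468) (nat_lit 411) (nat_lit 321)) (XT.nd (nat_lit 78) (nat_lit 0) (nat_lit 0) (XT.lf (nat_lit 0) (nat_lit 50443473158) (nat_lit 76) (nat_lit 78864072814) (nat_lit 76) (nat_lit 51895761570) (nat_lit 10) (nat_lit 4) (nat_lit 11) (nat_lit 5) (nat_lit 11) (nat_lit 4) (nat_lit 469) (nat_lit 411) (nat_lit 320)) (XT.lf (nat_lit 0) (nat_lit 121185009882) (nat_lit 76) (nat_lit 49417091626) (nat_lit 76) (nat_lit 22446963390) (nat_lit 10) (nat_lit 4) (nat_lit 11) (nat_lit 5) (nat_lit 11) (nat_lit 4) (nat_lit 470) (nat_lit 411) (nat_lit 319))))) (XT.nd (nat_lit 234) (nat_lit 76) (nat_lit 0) (XT.nd (nat_lit 78) (nat_lit 76) (nat_lit 0) (XT.lf (nat_lit 0) (nat_lit 8885230297) (nat_lit 152) (nat_lit 8490531617) (nat_lit 76) (nat_lit 188449068540) (nat_lit 9) (nat_lit 5) (nat_lit 11) (nat_lit 5) (nat_lit 10) (nat_lit 4) (nat_lit 471) (nat_lit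 411) (nat_lit 318)) (XT.nd (nat_lit 78) (nat_lit 0) (nat_lit 0) (XT.lf (nat_lit 0) (nat_lit 43478469360) (nat_lit 152) (nat_lit 157437041698) (nat_lit 0) (nat_lit 18503128235) (nat_lit 8) (nat_lit 5) (nat_lit 10) (nat_lit 4) (nat_lit 8) (nat_lit 4) (nat_lit 472) (nat_lit 411) (nat_lit 317)) (XT.lf (nat_lit 0) (nat_lit 81524603292) (nat_lit 152) (nat_lit 95972588245) (nat_lit 0) (nat_lit 56547926624) (nat_lit 8) (nat_lit 5) (nat_lit 10) (nat_lit 4) (nat_lit 8) (nat_lit 4) (nat_lit 473) (nat_lit 411) (nat_lit 316)))) (XT.nd (nat_lit 78) (nat_lit 76) (nat_lit 0) (XT.lf (nat_lit 0) (nat_lit 122610669885) (nat_lit 152) (nat_lit 29598589662) (nat_lit 0) (nat_lit 97632756603) (nat_lit 8) (nat_lit 5) (nat_lit 10) (nat_lit 4) (nat_lit 8) (nat_lit 4) (nat_lit 474) (nat_lit 411) (nat_lit 315)) (XT.nd (nat_lit 78) (nat_lit 0) (nat_lit 0) (XT.lf (nat_lit 0) (nat_lit 44294049179) (nat_lit 76) (nat_lit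 123751365894) (nat_lit 76) (nat_lit 98772307598) (nat_lit 7) (nat_lit 4) (nat_lit 8) (nat_lit 5) (nat_lit 8) (nat_lit 4) (nat_lit 475) (nat_lit 411) (nat_lit 314)) (XT.lf (nat_lit 0) (nat_lit 125774528206) (nat_lit 76) (nat_lit 92146302441) (nat_lit 76) (nat_lit 67166183948) (nat_lit 7) (nat_lit 4) (nat_lit 8) (nat_lit 5) (nat_lit 8) (nat_lit 4) (nat_lit 476) (nat_lit 411) (nat_lit 313)))))) (XT.nd (nat_lit 390) (nat_lit 76) (nat_lit 0) (XT.nd (nat_lit 156) (nat_lit 76) (nat_lit 0) (XT.nd (nat_lit 78) (nat_lit 76) (nat_lit 0) (XT.lf (nat_lit 0) (nat_lit 213767085421) (nat_lit 76) (nat_lit 58016057821) (nat_lit 76) (nat_lit 33034957663) (nat_lit 7) (nat_lit 4) (nat_lit 8) (nat_lit 5) (nat_lit 8) (nat_lit 4) (nat_lit 477) (nat_lit 411) (nat_lit 312)) (XT.lf (nat_lit 0) (nat_lit 3632356898) (nat_lit 152) (nat_lit 17426706757) (nat_lit 76) (nat_lit 305061486227) (nat_lit 6) (nat_lit 5) (nat_lit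 8) (nat_lit 5) (nat_lit 7) (nat_lit 4) (nat_lit 478) (nat_lit 411) (nat_lit 311))) (XT.nd (nat_lit 78) (nat_lit 0) (nat_lit 0) (XT.lf (nat_lit 0) (nat_lit 43511452898) (nat_lit 152) (nat_lit 285002862845) (nat_lit 0) (nat_lit 20379183709) (nat_lit 5) (nat_lit 5) (nat_lit 7) (nat_lit 4) (nat_lit 5) (nat_lit 4) (nat_lit 479) (nat_lit 411) (nat_lit 310)) (XT.nd (nat_lit 78) (nat_lit 0) (nat_lit 0) (XT.lf (nat_lit 0) (nat_lit 87613966049) (nat_lit 152) (nat_lit 221310696572) (nat_lit 0) (nat_lit 64480975307) (nat_lit 5) (nat_lit 5) (nat_lit 7) (nat_lit 4) (nat_lit 5) (nat_lit 4) (nat_lit 480) (nat_lit 411) (nat_lit 309)) (XT.lf (nat_lit 0) (nat_lit 135242131855) (nat_lit 152) (nat_lit 152528346579) (nat_lit 0) (nat_lit 112108473009) (nat_lit 5) (nat_lit 5) (nat_lit 7) (nat_lit 4) (nat_lit 5) (nat_lit 4) (nat_lit 481) (nat_lit 411) (nat_lit 308))))) (XT.nd (nat_lit 234) (nat_lit 0) (nat_lit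 0) (XT.nd (nat_lit 78) (nat_lit 76) (nat_lit 0) (XT.lf (nat_lit 0) (nat_lit 186678191299) (nat_lit 152) (nat_lit 78248213758) (nat_lit 0) (nat_lit 163543913837) (nat_lit 5) (nat_lit 5) (nat_lit 7) (nat_lit 4) (nat_lit 5) (nat_lit 4) (nat_lit 482) (nat_lit 411) (nat_lit 307)) (XT.nd (nat_lit 78) (nat_lit 0) (nat_lit 0) (XT.lf (nat_lit 0) (nat_lit 2073610871) (nat_lit 76) (nat_lit 240203210178) (nat_lit 76) (nat_lit 217068359925) (nat_lit 4) (nat_lit 4) (nat_lit 5) (nat_lit 5) (nat_lit 5) (nat_lit 4) (nat_lit 483) (nat_lit 411) (nat_lit 306)) (XT.lf (nat_lit 0) (nat_lit 93266890129) (nat_lit 76) (nat_lit 211193768588) (nat_lit 76) (nat_lit 188058387972) (nat_lit 4) (nat_lit 4) (nat_lit 5) (nat_lit 5) (nat_lit 5) (nat_lit 4) (nat_lit 484) (nat_lit 411) (nat_lit 305)))) (XT.nd (nat_lit 78) (nat_lit 0) (nat_lit 0) (XT.lf (nat_lit 0) (nat_lit 191751616364) (nat_lit 76) (nat_lit 179865617317)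 (nat_lit 76) (nat_lit 156729745624) (nat_lit 4) (nat_lit 4) (nat_lit 5) (nat_lit 5) (nat_lit 5) (nat_lit 4) (nat_lit 485) (nat_lit 411) (nat_lit 304)) (XT.nd (nat_lit 78) (nat_lit 0) (nat_lit 0) (XT.lf (nat_lit 0) (nat_lit 298111402769) (nat_lit 76) (nat_lit 146033108061) (nat_lit 76) (nat_lit 122896781668) (nat_lit 4) (nat_lit 4) (nat_lit 5) (nat_lit 5) (nat_lit 5) (nat_lit 4) (nat_lit 486) (nat_lit 411) (nat_lit 303)) (XT.lf (nat_lit 0) (nat_lit 412976529558) (nat_lit 76) (nat_lit 109495751876) (nat_lit 76) (nat_lit 86359004464) (nat_lit 4) (nat_lit 4) (nat_lit 5) (nat_lit 5) (nat_lit 5) (nat_lit 4) (nat_lit 487) (nat_lit 411) (nat_lit 302))))))) (XT.nd (nat_lit 858) (nat_lit 76) (nat_lit 0) (XT.nd (nat_lit 390) (nat_lit 0) (nat_lit 0) (XT.nd (nat_lit 156) (nat_lit 152) (nat_lit 0) (XT.nd (nat_lit 78) (nat_lit 0) (nat_lit 0) (XT.lf (nat_lit 0) (nat_lit 537027678966) (nat_lit 76) (nat_lit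 70037031097) (nat_lit 76) (nat_lit 46899893852) (nat_lit 4) (nat_lit 4) (nat_lit 5) (nat_lit 5) (nat_lit 5) (nat_lit 4) (nat_lit 488) (nat_lit 411) (nat_lit 301)) (XT.lf (nat_lit 0) (nat_lit 670999968915) (nat_lit 76) (nat_lit 27423116265) (nat_lit 76) (nat_lit 4285618065) (nat_lit 4) (nat_lit 4) (nat_lit 5) (nat_lit 5) (nat_lit 5) (nat_lit 4) (nat_lit 489) (nat_lit 411) (nat_lit 300))) (XT.nd (nat_lit 78) (nat_lit 0) (nat_lit 0) (XT.lf (nat_lit 0) (nat_lit 41662964941) (nat_lit 152) (nat_lit 693208971266) (nat_lit 0) (nat_lit 20239046034) (nat_lit 2) (nat_lit 5) (nat_lit 4) (nat_lit 4) (nat_lit 2) (nat_lit 4) (nat_lit 490) (nat_lit 411) (nat_lit 299)) (XT.nd (nat_lit 78) (nat_lit 0) (nat_lit 0) (XT.lf (nat_lit 0) (nat_lit 92656307557) (nat_lit 152) (nat_lit 647680096133) (nat_lit 0) (nat_lit 71232102112) (nat_lit 2) (nat_lit 5) (nat_lit 4) (nat_lit 4) (nat_lit 2) (nat_lit 4) (nat_lit 491)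 (nat_lit 411) (nat_lit 298)) (XT.lf (nat_lit 0) (nat_lit 147727846431) (nat_lit 152) (nat_lit 598511510873) (nat_lit 0) (nat_lit 126303375673) (nat_lit 2) (nat_lit 5) (nat_lit 4) (nat_lit 4) (nat_lit 2) (nat_lit 4) (nat_lit 492) (nat_lit 411) (nat_lit 297))))) (XT.nd (nat_lit 234) (nat_lit 0) (nat_lit 0) (XT.nd (nat_lit 78) (nat_lit 0) (nat_lit 0) (XT.lf (nat_lit 0) (nat_lit 207203931424) (nat_lit 152) (nat_lit 545411846089) (nat_lit 0) (nat_lit 185779215005) (nat_lit 2) (nat_lit 5) (nat_lit 4) (nat_lit 4) (nat_lit 2) (nat_lit 4) (nat_lit 493) (nat_lit 411) (nat_lit 296)) (XT.nd (nat_lit 78) (nat_lit 0) (nat_lit 0) (XT.lf (nat_lit 0) (nat_lit 271437013409) (nat_lit 152) (nat_lit 488066437103) (nat_lit 0) (nat_lit 250012069526) (nat_lit 2) (nat_lit 5) (nat_lit 4) (nat_lit 4) (nat_lit 2) (nat_lit 4) (nat_lit 494) (nat_lit 411) (nat_lit 295)) (XT.lf (nat_lit 0) (nat_lit 340807732871) (nat_lit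 152) (nat_lit 426135459267) (nat_lit 0) (nat_lit 319382578374) (nat_lit 2) (nat_lit 5) (nat_lit 4) (nat_lit 4) (nat_lit 2) (nat_lit 4) (nat_lit 495) (nat_lit 411) (nat_lit 294)))) (XT.nd (nat_lit 78) (nat_lit 0) (nat_lit 0) (XT.lf (nat_lit 0) (nat_lit 415727175557) (nat_lit 152) (nat_lit 359251914196) (nat_lit 0) (nat_lit 394301826047) (nat_lit 2) (nat_lit 5) (nat_lit 4) (nat_lit 4) (nat_lit 2) (nat_lit 4) (nat_lit 496) (nat_lit 411) (nat_lit 293)) (XT.nd (nat_lit 78) (nat_lit 0) (nat_lit 0) (XT.lf (nat_lit 0) (nat_lit 496639308533) (nat_lit 152) (nat_lit 287019454956) (nat_lit 0) (nat_lit 475213778455) (nat_lit 2) (nat_lit 5) (nat_lit 4) (nat_lit 4) (nat_lit 2) (nat_lit 4) (nat_lit 497) (nat_lit 411) (nat_lit 292)) (XT.lf (nat_lit 0) (nat_lit 584023611107) (nat_lit 152) (nat_lit 209010037343) (nat_lit 0) (nat_lit 562597913836) (nat_lit 2) (nat_lit 5) (nat_lit 4) (nat_lit 4) (nat_lit 2)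 (nat_lit 4) (nat_lit 498) (nat_lit 411) (nat_lit 291)))))) (XT.nd (nat_lit 468) (nat_lit 0) (nat_lit 0) (XT.nd (nat_lit 234) (nat_lit 0) (nat_lit 0) (XT.nd (nat_lit 78) (nat_lit 76) (nat_lit 0) (XT.lf (nat_lit 0) (nat_lit 678397916182) (nat_lit 152) (nat_lit 124761383327) (nat_lit 0) (nat_lit 656972064104) (nat_lit 2) (nat_lit 5) (nat_lit 4) (nat_lit 4) (nat_lit 2) (nat_lit 4) (nat_lit 499) (nat_lit 411) (nat_lit 290)) (XT.nd (nat_lit 78) (nat_lit 76) (nat_lit 0) (XT.lf (nat_lit 0) (nat_lit 780321478900) (nat_lit 152) (nat_lit 33774241625) (nat_lit 0) (nat_lit 758895483481) (nat_lit 2) (nat_lit 5) (nat_lit 4) (nat_lit 4) (nat_lit 2) (nat_lit 4) (nat_lit 500) (nat_lit 411) (nat_lit 289)) (XT.lf (nat_lit 0) (nat_lit 67886529997) (nat_lit 76) (nat_lit 824144433425) (nat_lit 76) (nat_lit 802718305283) (nat_lit 1) (nat_lit 4) (nat_lit 2) (nat_lit 5) (nat_lit 2) (nat_lit 4) (nat_lit 501) (nat_lit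 411) (nat_lit 288)))) (XT.nd (nat_lit 78) (nat_lit 0) (nat_lit 0) (XT.lf (nat_lit 0) (nat_lit 179599666735) (nat_lit 76) (nat_lit 834000368314) (nat_lit 76) (nat_lit 812574117281) (nat_lit 1) (nat_lit 4) (nat_lit 2) (nat_lit 5) (nat_lit 2) (nat_lit 4) (nat_lit 502) (nat_lit 411) (nat_lit 287)) (XT.nd (nat_lit 78) (nat_lit 0) (nat_lit 0) (XT.lf (nat_lit 0) (nat_lit 300248680650) (nat_lit 76) (nat_lit 844645378351) (nat_lit 76) (nat_lit 823219013529) (nat_lit 1) (nat_lit 4) (nat_lit 2) (nat_lit 5) (nat_lit 2) (nat_lit 4) (nat_lit 503) (nat_lit 411) (nat_lit 286)) (XT.lf (nat_lit 0) (nat_lit 430548528864) (nat_lit 76) (nat_lit 856142545078) (nat_lit 76) (nat_lit 834716074896) (nat_lit 1) (nat_lit 4) (nat_lit 2) (nat_lit 5) (nat_lit 2) (nat_lit 4) (nat_lit 504) (nat_lit 411) (nat_lit 285))))) (XT.nd (nat_lit 234) (nat_lit 0) (nat_lit 0) (XT.nd (nat_lit 78) (nat_lit 0) (nat_lit 0) (XT.lf (nat_lit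 0) (nat_lit 571271358623) (nat_lit 76) (nat_lit 868559999852) (nat_lit 76) (nat_lit 847133432116) (nat_lit 1) (nat_lit 4) (nat_lit 2) (nat_lit 5) (nat_lit 2) (nat_lit 4) (nat_lit 505) (nat_lit 411) (nat_lit 284)) (XT.nd (nat_lit 78) (nat_lit 0) (nat_lit 0) (XT.lf (nat_lit 0) (nat_lit 723251082993) (nat_lit 76) (nat_lit 881971327591) (nat_lit 76) (nat_lit 860544669526) (nat_lit 1) (nat_lit 4) (nat_lit 2) (nat_lit 5) (nat_lit 2) (nat_lit 4) (nat_lit 506) (nat_lit 411) (nat_lit 283)) (XT.lf (nat_lit 0) (nat_lit 887388322564) (nat_lit 76) (nat_lit 896456002830) (nat_lit 76) (nat_lit 875029261127) (nat_lit 1) (nat_lit 4) (nat_lit 2) (nat_lit 5) (nat_lit 2) (nat_lit 4) (nat_lit 507) (nat_lit 411) (nat_lit 282)))) (XT.nd (nat_lit 78) (nat_lit 0) (nat_lit 0) (XT.lf (nat_lit 0) (nat_lit 1064655742458) (nat_lit 76) (nat_lit 912099860681) (nat_lit 76) (nat_lit 890673041535) (nat_lit 1) (nat_lit 4)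 (nat_lit 2) (nat_lit 5) (nat_lit 2) (nat_lit 4) (nat_lit 508) (nat_lit 411) (nat_lit 281)) (XT.nd (nat_lit 78) (nat_lit 0) (nat_lit 0) (XT.lf (nat_lit 0) (nat_lit 1256103816276) (nat_lit 76) (nat_lit 928995605487) (nat_lit 76) (nat_lit 907568714635) (nat_lit 1) (nat_lit 4) (nat_lit 2) (nat_lit 5) (nat_lit 2) (nat_lit 4) (nat_lit 509) (nat_lit 411) (nat_lit 280)) (XT.lf (nat_lit 0) (nat_lit 1462867051120) (nat_lit 76) (nat_lit 947243360180) (nat_lit 76) (nat_lit 925816402934) (nat_lit 1) (nat_lit 4) (nat_lit 2) (nat_lit 5) (nat_lit 2) (nat_lit 4) (nat_lit 510) (nat_lit 411) (nat_lit 279))))))))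
noncomputable def xc125 : XT := (XT.nd (nat_lit 55146) (nat_lit 0) (nat_lit 2508) (XT.nd (nat_lit 858) (nat_lit 0) (nat_lit 0) (XT.nd (nat_lit 390) (nat_lit 0) (nat_lit 0) (XT.nd (nat_lit 156) (nat_lit 0) (nat_lit 0) (XT.nd (nat_lit 78) (nat_lit 0) (nat_lit 0) (XT.lf (nat_lit 0) (nat_lit 1686170710605) (nat_lit 76) (nat_lit 966951259602) (nat_lit 76) (nat_lit 945524240880) (nat_lit 1) (nat_lit 4) (nat_lit 2) (nat_lit 5) (nat_lit 2) (nat_lit 4) (nat_lit 511) (nat_lit 411) (nat_lit 278)) (XT.lf (nat_lit 0) (nat_lit 1927338075676) (nat_lit 76) (nat_lit 988236091307) (nat_lit 76) (nat_lit 966809015662) (nat_lit 1) (nat_lit 4) (nat_lit 2) (nat_lit 5) (nat_lit 2) (nat_lit 4) (nat_lit 512) (nat_lit 411) (nat_lit 277))) (XT.nd (nat_lit 78) (nat_lit 0) (nat_lit 0) (XT.lf (nat_lit 0) (nat_lit 2187798286274) (nat_lit 76) (nat_lit 1011223987630) (nat_lit 76) (nat_lit 989796859279) (nat_lit 1) (nat_lit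 4) (nat_lit 2) (nat_lit 5) (nat_lit 2) (nat_lit 4) (nat_lit 513) (nat_lit 411) (nat_lit 276)) (XT.nd (nat_lit 78) (nat_lit 0) (nat_lit 0) (XT.lf (nat_lit 0) (nat_lit 2469094810314) (nat_lit 76) (nat_lit 1036051173141) (nat_lit 76) (nat_lit 1014623995988) (nat_lit 1) (nat_lit 4) (nat_lit 2) (nat_lit 5) (nat_lit 2) (nat_lit 4) (nat_lit 514) (nat_lit 411) (nat_lit 275)) (XT.lf (nat_lit 0) (nat_lit 2772894590161) (nat_lit 76) (nat_lit 1062864771903) (nat_lit 76) (nat_lit 1041437549564) (nat_lit 1) (nat_lit 4) (nat_lit 2) (nat_lit 5) (nat_lit 2) (nat_lit 4) (nat_lit 515) (nat_lit 411) (nat_lit 274))))) (XT.nd (nat_lit 234) (nat_lit 0) (nat_lit 0) (XT.nd (nat_lit 78) (nat_lit 0) (nat_lit 0) (XT.lf (nat_lit 0) (nat_lit 3100997920806) (nat_lit 76) (nat_lit 1091823679317) (nat_lit 76) (nat_lit 1070396415138) (nat_lit 1) (nat_lit 4) (nat_lit 2) (nat_lit 5) (nat_lit 2) (nat_lit 4) (nat_lit 516) (nat_lit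 411) (nat_lit 273)) (XT.nd (nat_lit 78) (nat_lit 0) (nat_lit 0) (XT.lf (nat_lit 0) (nat_lit 3455349118282) (nat_lit 76) (nat_lit 1123099503721) (nat_lit 76) (nat_lit 1101672200802) (nat_lit 1) (nat_lit 4) (nat_lit 2) (nat_lit 5) (nat_lit 2) (nat_lit 4) (nat_lit 517) (nat_lit 411) (nat_lit 272)) (XT.lf (nat_lit 0) (nat_lit 3838048041539) (nat_lit 76) (nat_lit 1156877583336) (nat_lit 76) (nat_lit 1135450244546) (nat_lit 1) (nat_lit 4) (nat_lit 2) (nat_lit 5) (nat_lit 2) (nat_lit 4) (nat_lit 518) (nat_lit 411) (nat_lit 271)))) (XT.nd (nat_lit 78) (nat_lit 0) (nat_lit 0) (XT.lf (nat_lit 0) (nat_lit 4251362536046) (nat_lit 76) (nat_lit 1193358084559) (nat_lit 76) (nat_lit 1171930712555) (nat_lit 1) (nat_lit 4) (nat_lit 2) (nat_lit 5) (nat_lit 2) (nat_lit 4) (nat_lit 519) (nat_lit 411) (nat_lit 270)) (XT.nd (nat_lit 78) (nat_lit 0) (nat_lit 0) (XT.lf (nat_lit 0) (nat_lit 4697741872882) (nat_lit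 76) (nat_lit 1232757188137) (nat_lit 76) (nat_lit 1211329785379) (nat_lit 1) (nat_lit 4) (nat_lit 2) (nat_lit 5) (nat_lit 2) (nat_lit 4) (nat_lit 520) (nat_lit 411) (nat_lit 269)) (XT.lf (nat_lit 0) (nat_lit 5179831262933) (nat_lit 76) (nat_lit 1275308370240) (nat_lit 76) (nat_lit 1253880939007) (nat_lit 1) (nat_lit 4) (nat_lit 2) (nat_lit 5) (nat_lit 2) (nat_lit 4) (nat_lit 521) (nat_lit 411) (nat_lit 268)))))) (XT.nd (nat_lit 390) (nat_lit 0) (nat_lit 0) (XT.nd (nat_lit 156) (nat_lit 0) (nat_lit 0) (XT.nd (nat_lit 78) (nat_lit 0) (nat_lit 0) (XT.lf (nat_lit 0) (nat_lit 5700487532213) (nat_lit 76) (nat_lit 1321263786022) (nat_lit 76) (nat_lit 1299836328423) (nat_lit 1) (nat_lit 4) (nat_lit 2) (nat_lit 5) (nat_lit 2) (nat_lit 4) (nat_lit 522) (nat_lit 411) (nat_lit 267)) (XT.lf (nat_lit 0) (nat_lit 6262796051207) (nat_lit 76) (nat_lit 1370895763872) (nat_lit 76) (nat_lit 1349468281859)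 (nat_lit 1) (nat_lit 4) (nat_lit 2) (nat_lit 5) (nat_lit 2) (nat_lit 4) (nat_lit 523) (nat_lit 411) (nat_lit 266))) (XT.nd (nat_lit 78) (nat_lit 0) (nat_lit 0) (XT.lf (nat_lit 0) (nat_lit 6870089018546) (nat_lit 76) (nat_lit 1424498419214) (nat_lit 76) (nat_lit 1403070914597) (nat_lit 1) (nat_lit 4) (nat_lit 2) (nat_lit 5) (nat_lit 2) (nat_lit 4) (nat_lit 524) (nat_lit 411) (nat_lit 265)) (XT.nd (nat_lit 78) (nat_lit 0) (nat_lit 0) (XT.lf (nat_lit 0) (nat_lit 7525965207370) (nat_lit 76) (nat_lit 1482389397413) (nat_lit 76) (nat_lit 1460961871866) (nat_lit 1) (nat_lit 4) (nat_lit 2) (nat_lit 5) (nat_lit 2) (nat_lit 4) (nat_lit 525) (nat_lit 411) (nat_lit 264)) (XT.lf (nat_lit 0) (nat_lit 8234311291391) (nat_lit 76) (nat_lit 1544911756119) (nat_lit 76) (nat_lit 1523484211191) (nat_lit 1) (nat_lit 4) (nat_lit 2) (nat_lit 5) (nat_lit 2) (nat_lit 4) (nat_lit 526) (nat_lit 411) (nat_lit 263)))))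 (XT.nd (nat_lit 53664) (nat_lit 0) (nat_lit 5244) (XT.nd (nat_lit 53508) (nat_lit 0) (nat_lit 5168) (XT.lf (nat_lit 0) (nat_lit 8999324877032) (nat_lit 76) (nat_lit 1612435998196) (nat_lit 76) (nat_lit 1591008435325) (nat_lit 1) (nat_lit 4) (nat_lit 2) (nat_lit 5) (nat_lit 2) (nat_lit 4) (nat_lit 527) (nat_lit 411) (nat_lit 262)) (XT.nd (nat_lit 78) (nat_lit 0) (nat_lit 0) (XT.lf (nat_lit 0) (nat_lit 2122485390) (nat_lit 532) (nat_lit 1601227863) (nat_lit 532) (nat_lit 1601227863) (nat_lit 69) (nat_lit 3) (nat_lit 76) (nat_lit 3) (nat_lit 76) (nat_lit 5) (nat_lit 412) (nat_lit 412) (nat_lit 376)) (XT.lf (nat_lit 76) (nat_lit 2125003361) (nat_lit 0) (nat_lit 2927094694) (nat_lit 532) (nat_lit 5972398807) (nat_lit 70) (nat_lit 5) (nat_lit 69) (nat_lit 3) (nat_lit 76) (nat_lit 5) (nat_lit 413) (nat_lit 412) (nat_lit 375)))) (XT.nd (nat_lit 78) (nat_lit 0) (nat_lit 0) (XT.lf (nat_lit 0) (nat_lit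 6001819984) (nat_lit 456) (nat_lit 3449361898) (nat_lit 532) (nat_lit 1971696280) (nat_lit 70) (nat_lit 5) (nat_lit 76) (nat_lit 5) (nat_lit 77) (nat_lit 5) (nat_lit 414) (nat_lit 412) (nat_lit 374)) (XT.nd (nat_lit 78) (nat_lit 0) (nat_lit 76) (XT.lf (nat_lit 76) (nat_lit 2447263705) (nat_lit 0) (nat_lit 4660673396) (nat_lit 532) (nat_lit 4738796005) (nat_lit 71) (nat_lit 5) (nat_lit 70) (nat_lit 5) (nat_lit 77) (nat_lit 5) (nat_lit 415) (nat_lit 412) (nat_lit 373)) (XT.lf (nat_lit 0) (nat_lit 8360760904) (nat_lit 456) (nat_lit 3339481247) (nat_lit 532) (nat_lit 599630737) (nat_lit 71) (nat_lit 5) (nat_lit 77) (nat_lit 5) (nat_lit 78) (nat_lit 5) (nat_lit 416) (nat_lit 412) (nat_lit 372))))))) (XT.nd (nat_lit 858) (nat_lit 1216) (nat_lit 0) (XT.nd (nat_lit 390) (nat_lit 684) (nat_lit 0) (XT.nd (nat_lit 156) (nat_lit 912) (nat_lit 0) (XT.nd (nat_lit 78) (nat_lit 0) (nat_lit 0) (XT.lf (nat_lit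 76) (nat_lit 3208133110) (nat_lit 0) (nat_lit 6656775287) (nat_lit 532) (nat_lit 2912298955) (nat_lit 72) (nat_lit 5) (nat_lit 71) (nat_lit 5) (nat_lit 78) (nat_lit 5) (nat_lit 417) (nat_lit 412) (nat_lit 371)) (XT.lf (nat_lit 76) (nat_lit 10433802255) (nat_lit 0) (nat_lit 1102410428) (nat_lit 532) (nat_lit 1752798893) (nat_lit 72) (nat_lit 5) (nat_lit 71) (nat_lit 5) (nat_lit 78) (nat_lit 5) (nat_lit 418) (nat_lit 412) (nat_lit 370))) (XT.nd (nat_lit 78) (nat_lit 532) (nat_lit 0) (XT.lf (nat_lit 0) (nat_lit 4464807181) (nat_lit 456) (nat_lit 9060557875) (nat_lit 532) (nat_lit 301690438) (nat_lit 66) (nat_lit 5) (nat_lit 72) (nat_lit 5) (nat_lit 73) (nat_lit 5) (nat_lit 419) (nat_lit 412) (nat_lit 369)) (XT.nd (nat_lit 78) (nat_lit 456) (nat_lit 0) (XT.lf (nat_lit 0) (nat_lit 1271085864) (nat_lit 532) (nat_lit 1967936454) (nat_lit 76) (nat_lit 11161197996) (nat_lit 65) (nat_lit 5) (nat_lit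 72) (nat_lit 5) (nat_lit 66) (nat_lit 5) (nat_lit 420) (nat_lit 412) (nat_lit 368)) (XT.lf (nat_lit 0) (nat_lit 3145251956) (nat_lit 532) (nat_lit 8797196793) (nat_lit 76) (nat_lit 3060834655) (nat_lit 59) (nat_lit 5) (nat_lit 66) (nat_lit 5) (nat_lit 60) (nat_lit 5) (nat_lit 421) (nat_lit 412) (nat_lit 367))))) (XT.nd (nat_lit 234) (nat_lit 228) (nat_lit 0) (XT.nd (nat_lit 78) (nat_lit 456) (nat_lit 0) (XT.lf (nat_lit 0) (nat_lit 5273729788) (nat_lit 532) (nat_lit 626769437) (nat_lit 76) (nat_lit 9745761780) (nat_lit 59) (nat_lit 5) (nat_lit 66) (nat_lit 5) (nat_lit 60) (nat_lit 5) (nat_lit 422) (nat_lit 412) (nat_lit 366)) (XT.nd (nat_lit 78) (nat_lit 228) (nat_lit 0) (XT.lf (nat_lit 0) (nat_lit 7767131126) (nat_lit 304) (nat_lit 7754125570) (nat_lit 76) (nat_lit 803866771) (nat_lit 56) (nat_lit 5) (nat_lit 60) (nat_lit 5) (nat_lit 57) (nat_lit 5) (nat_lit 423) (nat_lit 412) (nat_lit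 365)) (XT.lf (nat_lit 0) (nat_lit 1362013056) (nat_lit 228) (nat_lit 9270758300) (nat_lit 304) (nat_lit 6411719150) (nat_lit 53) (nat_lit 5) (nat_lit 56) (nat_lit 5) (nat_lit 57) (nat_lit 5) (nat_lit 424) (nat_lit 412) (nat_lit 364)))) (XT.nd (nat_lit 78) (nat_lit 228) (nat_lit 0) (XT.lf (nat_lit 0) (nat_lit 11613608046) (nat_lit 228) (nat_lit 2296681230) (nat_lit 304) (nat_lit 3896523183) (nat_lit 53) (nat_lit 5) (nat_lit 56) (nat_lit 5) (nat_lit 57) (nat_lit 5) (nat_lit 425) (nat_lit 412) (nat_lit 363)) (XT.nd (nat_lit 78) (nat_lit 76) (nat_lit 0) (XT.lf (nat_lit 0) (nat_lit 4100094441) (nat_lit 152) (nat_lit 13547101788) (nat_lit 228) (nat_lit 967163440) (nat_lit 51) (nat_lit 5) (nat_lit 53) (nat_lit 5) (nat_lit 54) (nat_lit 5) (nat_lit 426) (nat_lit 412) (nat_lit 362)) (XT.lf (nat_lit 0) (nat_lit 2293250331) (nat_lit 228) (nat_lit 4055637880) (nat_lit 76) (nat_lit 13116881900) (nat_lit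 50) (nat_lit 5) (nat_lit 53) (nat_lit 5) (nat_lit 51) (nat_lit 5) (nat_lit 427) (nat_lit 412) (nat_lit 361)))))) (XT.nd (nat_lit 468) (nat_lit 456) (nat_lit 0) (XT.nd (nat_lit 234) (nat_lit 380) (nat_lit 0) (XT.nd (nat_lit 78) (nat_lit 152) (nat_lit 0) (XT.lf (nat_lit 0) (nat_lit 5958731493) (nat_lit 304) (nat_lit 12849723239) (nat_lit 76) (nat_lit 1559121585) (nat_lit 47) (nat_lit 5) (nat_lit 51) (nat_lit 5) (nat_lit 48) (nat_lit 5) (nat_lit 428) (nat_lit 412) (nat_lit 360)) (XT.nd (nat_lit 78) (nat_lit 152) (nat_lit 0) (XT.lf (nat_lit 0) (nat_lit 10172206372) (nat_lit 304) (nat_lit 1285759702) (nat_lit 76) (nat_lit 9863191191) (nat_lit 47) (nat_lit 5) (nat_lit 51) (nat_lit 5) (nat_lit 48) (nat_lit 5) (nat_lit 429) (nat_lit 412) (nat_lit 359)) (XT.lf (nat_lit 0) (nat_lit 11760919776) (nat_lit 152) (nat_lit 3222542180) (nat_lit 228) (nat_lit 7346716390) (nat_lit 45) (nat_lit 5) (nat_lit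 47) (nat_lit 5) (nat_lit 48) (nat_lit 5) (nat_lit 430) (nat_lit 412) (nat_lit 358)))) (XT.nd (nat_lit 78) (nat_lit 228) (nat_lit 0) (XT.lf (nat_lit 0) (nat_lit 2461725115) (nat_lit 152) (nat_lit 17928133089) (nat_lit 228) (nat_lit 3013252834) (nat_lit 43) (nat_lit 5) (nat_lit 45) (nat_lit 5) (nat_lit 46) (nat_lit 5) (nat_lit 431) (nat_lit 412) (nat_lit 357)) (XT.nd (nat_lit 78) (nat_lit 152) (nat_lit 0) (XT.lf (nat_lit 0) (nat_lit 1942564698) (nat_lit 228) (nat_lit 7565560091) (nat_lit 76) (nat_lit 15021829391) (nat_lit 42) (nat_lit 5) (nat_lit 45) (nat_lit 5) (nat_lit 43) (nat_lit 5) (nat_lit 432) (nat_lit 412) (nat_lit 356)) (XT.lf (nat_lit 0) (nat_lit 7129280814) (nat_lit 152) (nat_lit 154668093) (nat_lit 228) (nat_lit 18444590203) (nat_lit 40) (nat_lit 5) (nat_lit 42) (nat_lit 5) (nat_lit 43) (nat_lit 5) (nat_lit 433) (nat_lit 412) (nat_lit 355))))) (XT.nd (nat_lit 234) (nat_lit 228)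 (nat_lit 0) (XT.nd (nat_lit 78) (nat_lit 228) (nat_lit 0) (XT.lf (nat_lit 0) (nat_lit 13485057691) (nat_lit 228) (nat_lit 3851042376) (nat_lit 76) (nat_lit 9652324381) (nat_lit 40) (nat_lit 5) (nat_lit 43) (nat_lit 5) (nat_lit 41) (nat_lit 5) (nat_lit 434) (nat_lit 412) (nat_lit 354)) (XT.nd (nat_lit 78) (nat_lit 76) (nat_lit 0) (XT.lf (nat_lit 0) (nat_lit 12679566091) (nat_lit 152) (nat_lit 7794018809) (nat_lit 228) (nat_lit 7852215557) (nat_lit 38) (nat_lit 5) (nat_lit 40) (nat_lit 5) (nat_lit 41) (nat_lit 5) (nat_lit 435) (nat_lit 412) (nat_lit 353)) (XT.lf (nat_lit 0) (nat_lit 945926028) (nat_lit 76) (nat_lit 27249229695) (nat_lit 152) (nat_lit 1561099671) (nat_lit 37) (nat_lit 5) (nat_lit 38) (nat_lit 5) (nat_lit 39) (nat_lit 4) (nat_lit 436) (nat_lit 412) (nat_lit 352)))) (XT.nd (nat_lit 78) (nat_lit 152) (nat_lit 0) (XT.lf (nat_lit 0) (nat_lit 5595825662) (nat_lit 152) (nat_lit 11879403411)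 (nat_lit 76) (nat_lit 13765908799) (nat_lit 36) (nat_lit 5) (nat_lit 38) (nat_lit 5) (nat_lit 37) (nat_lit 5) (nat_lit 437) (nat_lit 412) (nat_lit 351)) (XT.nd (nat_lit 78) (nat_lit 0) (nat_lit 0) (XT.lf (nat_lit 0) (nat_lit 6673019223) (nat_lit 152) (nat_lit 6712656133) (nat_lit 228) (nat_lit 19444319499) (nat_lit 34) (nat_lit 5) (nat_lit 36) (nat_lit 5) (nat_lit 37) (nat_lit 5) (nat_lit 438) (nat_lit 412) (nat_lit 350)) (XT.lf (nat_lit 0) (nat_lit 22234589700) (nat_lit 228) (nat_lit 7287841992) (nat_lit 76) (nat_lit 4988662807) (nat_lit 34) (nat_lit 5) (nat_lit 37) (nat_lit 5) (nat_lit 35) (nat_lit 4) (nat_lit 439) (nat_lit 412) (nat_lit 349))))))))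
noncomputable def xc126 : XT := (XT.nd (nat_lit 1716) (nat_lit 912) (nat_lit 0) (XT.nd (nat_lit 858) (nat_lit 532) (nat_lit 0) (XT.nd (nat_lit 390) (nat_lit 456) (nat_lit 0) (XT.nd (nat_lit 156) (nat_lit 228) (nat_lit 0) (XT.nd (nat_lit 78) (nat_lit 76) (nat_lit 0) (XT.lf (nat_lit 0) (nat_lit 13570748568) (nat_lit 76) (nat_lit 18707074655) (nat_lit 152) (nat_lit 4009950330) (nat_lit 33) (nat_lit 5) (nat_lit 34) (nat_lit 5) (nat_lit 35) (nat_lit 4) (nat_lit 440) (nat_lit 412) (nat_lit 348)) (XT.lf (nat_lit 0) (nat_lit 4862148410) (nat_lit 152) (nat_lit 1826317290) (nat_lit 76) (nat_lit 31493443719) (nat_lit 32) (nat_lit 5) (nat_lit 34) (nat_lit 5) (nat_lit 33) (nat_lit 5) (nat_lit 441) (nat_lit 412) (nat_lit 347))) (XT.nd (nat_lit 78) (nat_lit 76) (nat_lit 0) (XT.lf (nat_lit 0) (nat_lit 14903295953) (nat_lit 228) (nat_lit 18652072784) (nat_lit 76) (nat_lit 6609804377) (nat_lit 30) (nat_lit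 5) (nat_lit 33) (nat_lit 5) (nat_lit 31) (nat_lit 4) (nat_lit 442) (nat_lit 412) (nat_lit 346)) (XT.nd (nat_lit 78) (nat_lit 0) (nat_lit 0) (XT.lf (nat_lit 0) (nat_lit 4549923314) (nat_lit 76) (nat_lit 21519251669) (nat_lit 152) (nat_lit 16212210628) (nat_lit 29) (nat_lit 5) (nat_lit 30) (nat_lit 5) (nat_lit 31) (nat_lit 4) (nat_lit 443) (nat_lit 412) (nat_lit 345)) (XT.lf (nat_lit 0) (nat_lit 30646332192) (nat_lit 76) (nat_lit 7979446188) (nat_lit 152) (nat_lit 5901323073) (nat_lit 29) (nat_lit 5) (nat_lit 30) (nat_lit 5) (nat_lit 31) (nat_lit 4) (nat_lit 444) (nat_lit 412) (nat_lit 344))))) (XT.nd (nat_lit 234) (nat_lit 228) (nat_lit 0) (XT.nd (nat_lit 78) (nat_lit 76) (nat_lit 0) (XT.lf (nat_lit 0) (nat_lit 5428194061) (nat_lit 152) (nat_lit 34741794604) (nat_lit 76) (nat_lit 6735968623) (nat_lit 27) (nat_lit 5) (nat_lit 29) (nat_lit 5) (nat_lit 28) (nat_lit 4) (nat_lit 445) (nat_lit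 412) (nat_lit 343)) (XT.nd (nat_lit 78) (nat_lit 76) (nat_lit 0) (XT.lf (nat_lit 0) (nat_lit 17930138717) (nat_lit 152) (nat_lit 8754679136) (nat_lit 76) (nat_lit 22731252096) (nat_lit 27) (nat_lit 5) (nat_lit 29) (nat_lit 5) (nat_lit 28) (nat_lit 4) (nat_lit 446) (nat_lit 412) (nat_lit 342)) (XT.lf (nat_lit 0) (nat_lit 20307234266) (nat_lit 76) (nat_lit 11602514444) (nat_lit 152) (nat_lit 20179044091) (nat_lit 26) (nat_lit 5) (nat_lit 27) (nat_lit 5) (nat_lit 28) (nat_lit 4) (nat_lit 447) (nat_lit 412) (nat_lit 341)))) (XT.nd (nat_lit 78) (nat_lit 228) (nat_lit 0) (XT.lf (nat_lit 0) (nat_lit 47355261809) (nat_lit 152) (nat_lit 2903265696) (nat_lit 0) (nat_lit 4689005050) (nat_lit 26) (nat_lit 5) (nat_lit 28) (nat_lit 4) (nat_lit 26) (nat_lit 4) (nat_lit 448) (nat_lit 412) (nat_lit 340)) (XT.nd (nat_lit 78) (nat_lit 76) (nat_lit 0) (XT.lf (nat_lit 0) (nat_lit 6726568040) (nat_lit 152) (nat_lit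 28687438860) (nat_lit 76) (nat_lit 22527392145) (nat_lit 24) (nat_lit 5) (nat_lit 26) (nat_lit 5) (nat_lit 25) (nat_lit 4) (nat_lit 449) (nat_lit 412) (nat_lit 339)) (XT.lf (nat_lit 0) (nat_lit 2907951700) (nat_lit 76) (nat_lit 19014247319) (nat_lit 152) (nat_lit 39225483937) (nat_lit 23) (nat_lit 5) (nat_lit 24) (nat_lit 5) (nat_lit 25) (nat_lit 4) (nat_lit 450) (nat_lit 412) (nat_lit 338)))))) (XT.nd (nat_lit 390) (nat_lit 304) (nat_lit 0) (XT.nd (nat_lit 156) (nat_lit 152) (nat_lit 0) (XT.nd (nat_lit 78) (nat_lit 76) (nat_lit 0) (XT.lf (nat_lit 0) (nat_lit 38644223906) (nat_lit 76) (nat_lit 464004252) (nat_lit 152) (nat_lit 25440262942) (nat_lit 23) (nat_lit 5) (nat_lit 24) (nat_lit 5) (nat_lit 25) (nat_lit 4) (nat_lit 451) (nat_lit 412) (nat_lit 337)) (XT.lf (nat_lit 0) (nat_lit 8979140581) (nat_lit 76) (nat_lit 49367515692) (nat_lit 76) (nat_lit 9820507528) (nat_lit 22) (nat_lit 4)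 (nat_lit 23) (nat_lit 5) (nat_lit 23) (nat_lit 4) (nat_lit 452) (nat_lit 412) (nat_lit 336))) (XT.nd (nat_lit 78) (nat_lit 76) (nat_lit 0) (XT.lf (nat_lit 0) (nat_lit 7425872994) (nat_lit 152) (nat_lit 24109661257) (nat_lit 76) (nat_lit 40467862716) (nat_lit 21) (nat_lit 5) (nat_lit 23) (nat_lit 5) (nat_lit 22) (nat_lit 4) (nat_lit 453) (nat_lit 412) (nat_lit 335)) (XT.nd (nat_lit 78) (nat_lit 0) (nat_lit 0) (XT.lf (nat_lit 0) (nat_lit 14214827666) (nat_lit 76) (nat_lit 11640050385) (nat_lit 152) (nat_lit 50244567343) (nat_lit 20) (nat_lit 5) (nat_lit 21) (nat_lit 5) (nat_lit 22) (nat_lit 4) (nat_lit 454) (nat_lit 412) (nat_lit 334)) (XT.lf (nat_lit 0) (nat_lit 46663018871) (nat_lit 152) (nat_lit 23764181020) (nat_lit 0) (nat_lit 10023593484) (nat_lit 20) (nat_lit 5) (nat_lit 22) (nat_lit 4) (nat_lit 20) (nat_lit 4) (nat_lit 455) (nat_lit 412) (nat_lit 333))))) (XT.nd (nat_lit 234) (nat_lit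 76) (nat_lit 0) (XT.nd (nat_lit 78) (nat_lit 152) (nat_lit 0) (XT.lf (nat_lit 0) (nat_lit 17988396239) (nat_lit 76) (nat_lit 51874662150) (nat_lit 76) (nat_lit 15229011851) (nat_lit 19) (nat_lit 4) (nat_lit 20) (nat_lit 5) (nat_lit 20) (nat_lit 4) (nat_lit 456) (nat_lit 412) (nat_lit 332)) (XT.nd (nat_lit 78) (nat_lit 76) (nat_lit 0) (XT.lf (nat_lit 0) (nat_lit 5232556258) (nat_lit 152) (nat_lit 25767697087) (nat_lit 76) (nat_lit 59042418191) (nat_lit 18) (nat_lit 5) (nat_lit 20) (nat_lit 5) (nat_lit 19) (nat_lit 4) (nat_lit 457) (nat_lit 412) (nat_lit 331)) (XT.lf (nat_lit 0) (nat_lit 19438049273) (nat_lit 76) (nat_lit 7530604686) (nat_lit 152) (nat_lit 68352193637) (nat_lit 17) (nat_lit 5) (nat_lit 18) (nat_lit 5) (nat_lit 19) (nat_lit 4) (nat_lit 458) (nat_lit 412) (nat_lit 330)))) (XT.nd (nat_lit 78) (nat_lit 76) (nat_lit 0) (XT.lf (nat_lit 0) (nat_lit 51587885540) (nat_lit 152) (nat_lit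 31699979167) (nat_lit 0) (nat_lit 17641873967) (nat_lit 17) (nat_lit 5) (nat_lit 19) (nat_lit 4) (nat_lit 17) (nat_lit 4) (nat_lit 459) (nat_lit 412) (nat_lit 329)) (XT.nd (nat_lit 78) (nat_lit 0) (nat_lit 0) (XT.lf (nat_lit 0) (nat_lit 16641408594) (nat_lit 76) (nat_lit 62124519675) (nat_lit 76) (nat_lit 28174271533) (nat_lit 16) (nat_lit 4) (nat_lit 17) (nat_lit 5) (nat_lit 17) (nat_lit 4) (nat_lit 460) (nat_lit 412) (nat_lit 328)) (XT.lf (nat_lit 0) (nat_lit 70640313097) (nat_lit 76) (nat_lit 38338263582) (nat_lit 76) (nat_lit 4384092689) (nat_lit 16) (nat_lit 4) (nat_lit 17) (nat_lit 5) (nat_lit 17) (nat_lit 4) (nat_lit 461) (nat_lit 412) (nat_lit 327))))))) (XT.nd (nat_lit 858) (nat_lit 380) (nat_lit 0) (XT.nd (nat_lit 390) (nat_lit 304) (nat_lit 0) (XT.nd (nat_lit 156) (nat_lit 76) (nat_lit 0) (XT.nd (nat_lit 78) (nat_lit 0) (nat_lit 0) (XT.lf (nat_lit 0) (nat_lit 8564130740) (nat_lit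 76) (nat_lit 11879106667) (nat_lit 152) (nat_lit 99798707255) (nat_lit 14) (nat_lit 5) (nat_lit 15) (nat_lit 5) (nat_lit 16) (nat_lit 4) (nat_lit 462) (nat_lit 412) (nat_lit 326)) (XT.lf (nat_lit 0) (nat_lit 48613877285) (nat_lit 152) (nat_lit 61752704022) (nat_lit 0) (nat_lit 17168353031) (nat_lit 14) (nat_lit 5) (nat_lit 16) (nat_lit 4) (nat_lit 14) (nat_lit 4) (nat_lit 463) (nat_lit 412) (nat_lit 325))) (XT.nd (nat_lit 78) (nat_lit 76) (nat_lit 0) (XT.lf (nat_lit 0) (nat_lit 79341137785) (nat_lit 152) (nat_lit 8153258046) (nat_lit 0) (nat_lit 47892730193) (nat_lit 14) (nat_lit 5) (nat_lit 16) (nat_lit 4) (nat_lit 14) (nat_lit 4) (nat_lit 464) (nat_lit 412) (nat_lit 324)) (XT.nd (nat_lit 78) (nat_lit 0) (nat_lit 0) (XT.lf (nat_lit 0) (nat_lit 52342212614) (nat_lit 76) (nat_lit 61438032433) (nat_lit 76) (nat_lit 29986955083) (nat_lit 13) (nat_lit 4) (nat_lit 14) (nat_lit 5) (nat_lit 14)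 (nat_lit 4) (nat_lit 465) (nat_lit 412) (nat_lit 323)) (XT.lf (nat_lit 0) (nat_lit 118130964252) (nat_lit 76) (nat_lit 33061416792) (nat_lit 76) (nat_lit 1607867444) (nat_lit 13) (nat_lit 4) (nat_lit 14) (nat_lit 5) (nat_lit 14) (nat_lit 4) (nat_lit 466) (nat_lit 412) (nat_lit 322))))) (XT.nd (nat_lit 234) (nat_lit 152) (nat_lit 0) (XT.nd (nat_lit 78) (nat_lit 0) (nat_lit 0) (XT.lf (nat_lit 0) (nat_lit 27283719922) (nat_lit 76) (nat_lit 956452268) (nat_lit 152) (nat_lit 134207780753) (nat_lit 11) (nat_lit 5) (nat_lit 12) (nat_lit 5) (nat_lit 13) (nat_lit 4) (nat_lit 467) (nat_lit 412) (nat_lit 321)) (XT.nd (nat_lit 78) (nat_lit 0) (nat_lit 0) (XT.lf (nat_lit 0) (nat_lit 62167866151) (nat_lit 152) (nat_lit 77513844970) (nat_lit 0) (nat_lit 33040127656) (nat_lit 11) (nat_lit 5) (nat_lit 13) (nat_lit 4) (nat_lit 11) (nat_lit 4) (nat_lit 468) (nat_lit 412) (nat_lit 320)) (XT.lf (nat_lit 0)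 (nat_lit 98830215134) (nat_lit 152) (nat_lit 15285125782) (nat_lit 0) (nat_lit 69700659647) (nat_lit 11) (nat_lit 5) (nat_lit 13) (nat_lit 4) (nat_lit 11) (nat_lit 4) (nat_lit 469) (nat_lit 412) (nat_lit 319)))) (XT.nd (nat_lit 78) (nat_lit 76) (nat_lit 0) (XT.lf (nat_lit 0) (nat_lit 54647372937) (nat_lit 76) (nat_lit 85088372498) (nat_lit 76) (nat_lit 55957134611) (nat_lit 10) (nat_lit 4) (nat_lit 11) (nat_lit 5) (nat_lit 11) (nat_lit 4) (nat_lit 470) (nat_lit 412) (nat_lit 318)) (XT.nd (nat_lit 78) (nat_lit 76) (nat_lit 0) (XT.lf (nat_lit 0) (nat_lit 131035756901) (nat_lit 76) (nat_lit 53291916233) (nat_lit 76) (nat_lit 24159120567) (nat_lit 10) (nat_lit 4) (nat_lit 11) (nat_lit 5) (nat_lit 11) (nat_lit 4) (nat_lit 471) (nat_lit 412) (nat_lit 317)) (XT.lf (nat_lit 0) (nat_lit 9669583802) (nat_lit 152) (nat_lit 9021503742) (nat_lit 76) (nat_lit 203593843018) (nat_lit 9) (nat_lit 5) (nat_lit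 11) (nat_lit 5) (nat_lit 10) (nat_lit 4) (nat_lit 472) (nat_lit 412) (nat_lit 316)))))) (XT.nd (nat_lit 468) (nat_lit 228) (nat_lit 0) (XT.nd (nat_lit 234) (nat_lit 76) (nat_lit 0) (XT.nd (nat_lit 78) (nat_lit 0) (nat_lit 0) (XT.lf (nat_lit 0) (nat_lit 47030065100) (nat_lit 152) (nat_lit 169883514480) (nat_lit 0) (nat_lit 20052682141) (nat_lit 8) (nat_lit 5) (nat_lit 10) (nat_lit 4) (nat_lit 8) (nat_lit 4) (nat_lit 473) (nat_lit 412) (nat_lit 315)) (XT.nd (nat_lit 78) (nat_lit 0) (nat_lit 0) (XT.lf (nat_lit 0) (nat_lit 88114458770) (nat_lit 152) (nat_lit 103512904050) (nat_lit 0) (nat_lit 61135930798) (nat_lit 8) (nat_lit 5) (nat_lit 10) (nat_lit 4) (nat_lit 8) (nat_lit 4) (nat_lit 474) (nat_lit 412) (nat_lit 314)) (XT.lf (nat_lit 0) (nat_lit 132482382008) (nat_lit 152) (nat_lit 31839170118) (nat_lit 0) (nat_lit 105502793838) (nat_lit 8) (nat_lit 5) (nat_lit 10) (nat_lit 4) (nat_lit 8)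 (nat_lit 4) (nat_lit 475) (nat_lit 412) (nat_lit 313)))) (XT.nd (nat_lit 78) (nat_lit 0) (nat_lit 0) (XT.lf (nat_lit 0) (nat_lit 47961656876) (nat_lit 76) (nat_lit 133588577965) (nat_lit 76) (nat_lit 106608008131) (nat_lit 7) (nat_lit 4) (nat_lit 8) (nat_lit 5) (nat_lit 8) (nat_lit 4) (nat_lit 476) (nat_lit 412) (nat_lit 312)) (XT.nd (nat_lit 78) (nat_lit 0) (nat_lit 0) (XT.lf (nat_lit 0) (nat_lit 135951382835) (nat_lit 76) (nat_lit 99459768489) (nat_lit 76) (nat_lit 72478289706) (nat_lit 7) (nat_lit 4) (nat_lit 8) (nat_lit 5) (nat_lit 8) (nat_lit 4) (nat_lit 477) (nat_lit 412) (nat_lit 311)) (XT.lf (nat_lit 0) (nat_lit 230974834081) (nat_lit 76) (nat_lit 62603418235) (nat_lit 76) (nat_lit 35621097833) (nat_lit 7) (nat_lit 4) (nat_lit 8) (nat_lit 5) (nat_lit 8) (nat_lit 4) (nat_lit 478) (nat_lit 412) (nat_lit 310))))) (XT.nd (nat_lit 234) (nat_lit 76) (nat_lit 0) (XT.nd (nat_lit 78) (nat_lit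 76) (nat_lit 0) (XT.lf (nat_lit 0) (nat_lit 3972780874) (nat_lit 152) (nat_lit 18719715459) (nat_lit 76) (nat_lit 329513708803) (nat_lit 6) (nat_lit 5) (nat_lit 8) (nat_lit 5) (nat_lit 7) (nat_lit 4) (nat_lit 479) (nat_lit 412) (nat_lit 309)) (XT.nd (nat_lit 78) (nat_lit 0) (nat_lit 0) (XT.lf (nat_lit 0) (nat_lit 47042087376) (nat_lit 152) (nat_lit 307701845094) (nat_lit 0) (nat_lit 22057067717) (nat_lit 5) (nat_lit 5) (nat_lit 7) (nat_lit 4) (nat_lit 5) (nat_lit 4) (nat_lit 480) (nat_lit 412) (nat_lit 308)) (XT.lf (nat_lit 0) (nat_lit 94669118746) (nat_lit 152) (nat_lit 238921805280) (nat_lit 0) (nat_lit 69683480472) (nat_lit 5) (nat_lit 5) (nat_lit 7) (nat_lit 4) (nat_lit 5) (nat_lit 4) (nat_lit 481) (nat_lit 412) (nat_lit 307)))) (XT.nd (nat_lit 78) (nat_lit 76) (nat_lit 0) (XT.lf (nat_lit 0) (nat_lit 146104127786) (nat_lit 152) (nat_lit 164643811512) (nat_lit 0) (nat_lit 121117916721)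 (nat_lit 5) (nat_lit 5) (nat_lit 7) (nat_lit 4) (nat_lit 5) (nat_lit 4) (nat_lit 482) (nat_lit 412) (nat_lit 306)) (XT.nd (nat_lit 78) (nat_lit 76) (nat_lit 0) (XT.lf (nat_lit 0) (nat_lit 201651914549) (nat_lit 152) (nat_lit 84427697901) (nat_lit 0) (nat_lit 176665173121) (nat_lit 5) (nat_lit 5) (nat_lit 7) (nat_lit 4) (nat_lit 5) (nat_lit 4) (nat_lit 483) (nat_lit 412) (nat_lit 305)) (XT.lf (nat_lit 0) (nat_lit 2317837940) (nat_lit 76) (nat_lit 259379557224) (nat_lit 76) (nat_lit 234392324719) (nat_lit 4) (nat_lit 4) (nat_lit 5) (nat_lit 5) (nat_lit 5) (nat_lit 4) (nat_lit 484) (nat_lit 412) (nat_lit 304))))))))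
noncomputable def xc127 : XT := (XT.nd (nat_lit 1794) (nat_lit 0) (nat_lit 0) (XT.nd (nat_lit 858) (nat_lit 76) (nat_lit 0) (XT.nd (nat_lit 390) (nat_lit 152) (nat_lit 0) (XT.nd (nat_lit 156) (nat_lit 0) (nat_lit 0) (XT.nd (nat_lit 78) (nat_lit 0) (nat_lit 0) (XT.lf (nat_lit 0) (nat_lit 100800776709) (nat_lit 76) (nat_lit 228052316586) (nat_lit 76) (nat_lit 203064629381) (nat_lit 4) (nat_lit 4) (nat_lit 5) (nat_lit 5) (nat_lit 5) (nat_lit 4) (nat_lit 485) (nat_lit 412) (nat_lit 303)) (XT.lf (nat_lit 0) (nat_lit 207158908052) (nat_lit 76) (nat_lit 194220650509) (nat_lit 76) (nat_lit 169232542284) (nat_lit 4) (nat_lit 4) (nat_lit 5) (nat_lit 5) (nat_lit 5) (nat_lit 4) (nat_lit 486) (nat_lit 412) (nat_lit 302))) (XT.nd (nat_lit 78) (nat_lit 0) (nat_lit 0) (XT.lf (nat_lit 0) (nat_lit 322022502378) (nat_lit 76) (nat_lit 157684075045) (nat_lit 76) (nat_lit 132695576988) (nat_lit 4) (nat_lit 4)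 (nat_lit 5) (nat_lit 5) (nat_lit 5) (nat_lit 4) (nat_lit 487) (nat_lit 412) (nat_lit 301)) (XT.nd (nat_lit 78) (nat_lit 0) (nat_lit 0) (XT.lf (nat_lit 0) (nat_lit 446072232838) (nat_lit 76) (nat_lit 118226077155) (nat_lit 76) (nat_lit 93237218142) (nat_lit 4) (nat_lit 4) (nat_lit 5) (nat_lit 5) (nat_lit 5) (nat_lit 4) (nat_lit 488) (nat_lit 412) (nat_lit 300)) (XT.lf (nat_lit 0) (nat_lit 580043208946) (nat_lit 76) (nat_lit 75612831666) (nat_lit 76) (nat_lit 50623638435) (nat_lit 4) (nat_lit 4) (nat_lit 5) (nat_lit 5) (nat_lit 5) (nat_lit 4) (nat_lit 489) (nat_lit 412) (nat_lit 299))))) (XT.nd (nat_lit 234) (nat_lit 0) (nat_lit 0) (XT.nd (nat_lit 78) (nat_lit 152) (nat_lit 0) (XT.lf (nat_lit 0) (nat_lit 724729332782) (nat_lit 76) (nat_lit 29591815643) (nat_lit 76) (nat_lit 4602312950) (nat_lit 4) (nat_lit 4) (nat_lit 5) (nat_lit 5) (nat_lit 5) (nat_lit 4) (nat_lit 490) (nat_lit 412) (nat_lit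 298)) (XT.nd (nat_lit 78) (nat_lit 0) (nat_lit 0) (XT.lf (nat_lit 0) (nat_lit 45020801806) (nat_lit 152) (nat_lit 748614966268) (nat_lit 0) (nat_lit 21882108073) (nat_lit 2) (nat_lit 5) (nat_lit 4) (nat_lit 4) (nat_lit 2) (nat_lit 4) (nat_lit 491) (nat_lit 412) (nat_lit 297)) (XT.lf (nat_lit 0) (nat_lit 100091774819) (nat_lit 152) (nat_lit 699447538362) (nat_lit 0) (nat_lit 76952835426) (nat_lit 2) (nat_lit 5) (nat_lit 4) (nat_lit 4) (nat_lit 2) (nat_lit 4) (nat_lit 492) (nat_lit 412) (nat_lit 296)))) (XT.nd (nat_lit 78) (nat_lit 0) (nat_lit 0) (XT.lf (nat_lit 0) (nat_lit 159567335866) (nat_lit 152) (nat_lit 646348945204) (nat_lit 0) (nat_lit 136428169009) (nat_lit 2) (nat_lit 5) (nat_lit 4) (nat_lit 4) (nat_lit 2) (nat_lit 4) (nat_lit 493) (nat_lit 412) (nat_lit 295)) (XT.nd (nat_lit 78) (nat_lit 0) (nat_lit 0) (XT.lf (nat_lit 0) (nat_lit 223799932715) (nat_lit 152) (nat_lit 589004528462)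 (nat_lit 0) (nat_lit 200660555244) (nat_lit 2) (nat_lit 5) (nat_lit 4) (nat_lit 4) (nat_lit 2) (nat_lit 4) (nat_lit 494) (nat_lit 412) (nat_lit 294)) (XT.lf (nat_lit 0) (nat_lit 293170202979) (nat_lit 152) (nat_lit 527074469373) (nat_lit 0) (nat_lit 270030630495) (nat_lit 2) (nat_lit 5) (nat_lit 4) (nat_lit 4) (nat_lit 2) (nat_lit 4) (nat_lit 495) (nat_lit 412) (nat_lit 293)))))) (XT.nd (nat_lit 468) (nat_lit 76) (nat_lit 0) (XT.nd (nat_lit 234) (nat_lit 0) (nat_lit 0) (XT.nd (nat_lit 78) (nat_lit 0) (nat_lit 0) (XT.lf (nat_lit 0) (nat_lit 368089229739) (nat_lit 152) (nat_lit 460191774992) (nat_lit 0) (nat_lit 344949476687) (nat_lit 2) (nat_lit 5) (nat_lit 4) (nat_lit 4) (nat_lit 2) (nat_lit 4) (nat_lit 496) (nat_lit 412) (nat_lit 292)) (XT.nd (nat_lit 78) (nat_lit 0) (nat_lit 0) (XT.lf (nat_lit 0) (nat_lit 449000977600) (nat_lit 152) (nat_lit 387960103428) (nat_lit 0) (nat_lit 425861057355)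 (nat_lit 2) (nat_lit 5) (nat_lit 4) (nat_lit 4) (nat_lit 2) (nat_lit 4) (nat_lit 497) (nat_lit 412) (nat_lit 291)) (XT.lf (nat_lit 0) (nat_lit 536384923585) (nat_lit 152) (nat_lit 309951415145) (nat_lit 0) (nat_lit 513244848533) (nat_lit 2) (nat_lit 5) (nat_lit 4) (nat_lit 4) (nat_lit 2) (nat_lit 4) (nat_lit 498) (nat_lit 412) (nat_lit 290)))) (XT.nd (nat_lit 78) (nat_lit 0) (nat_lit 0) (XT.lf (nat_lit 0) (nat_lit 630758898485) (nat_lit 152) (nat_lit 225703436434) (nat_lit 0) (nat_lit 607618680092) (nat_lit 2) (nat_lit 5) (nat_lit 4) (nat_lit 4) (nat_lit 2) (nat_lit 4) (nat_lit 499) (nat_lit 412) (nat_lit 289)) (XT.nd (nat_lit 78) (nat_lit 0) (nat_lit 0) (XT.lf (nat_lit 0) (nat_lit 732682155486) (nat_lit 152) (nat_lit 134716920015) (nat_lit 0) (nat_lit 709541804370) (nat_lit 2) (nat_lit 5) (nat_lit 4) (nat_lit 4) (nat_lit 2) (nat_lit 4) (nat_lit 500) (nat_lit 412) (nat_lit 288)) (XT.lf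 (nat_lit 0) (nat_lit 842758684257) (nat_lit 152) (nat_lit 36452686531) (nat_lit 0) (nat_lit 819618210250) (nat_lit 2) (nat_lit 5) (nat_lit 4) (nat_lit 4) (nat_lit 2) (nat_lit 4) (nat_lit 501) (nat_lit 412) (nat_lit 287))))) (XT.nd (nat_lit 234) (nat_lit 0) (nat_lit 0) (XT.nd (nat_lit 78) (nat_lit 0) (nat_lit 0) (XT.lf (nat_lit 0) (nat_lit 73340352025) (nat_lit 76) (nat_lit 890064275360) (nat_lit 76) (nat_lit 866923687565) (nat_lit 1) (nat_lit 4) (nat_lit 2) (nat_lit 5) (nat_lit 2) (nat_lit 4) (nat_lit 502) (nat_lit 412) (nat_lit 286)) (XT.nd (nat_lit 78) (nat_lit 0) (nat_lit 0) (XT.lf (nat_lit 0) (nat_lit 193988843433) (nat_lit 76) (nat_lit 900709552650) (nat_lit 76) (nat_lit 877568859495) (nat_lit 1) (nat_lit 4) (nat_lit 2) (nat_lit 5) (nat_lit 2) (nat_lit 4) (nat_lit 503) (nat_lit 412) (nat_lit 285)) (XT.lf (nat_lit 0) (nat_lit 324288207843) (nat_lit 76) (nat_lit 912206966834) (nat_lit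 76) (nat_lit 889066176123) (nat_lit 1) (nat_lit 4) (nat_lit 2) (nat_lit 5) (nat_lit 2) (nat_lit 4) (nat_lit 504) (nat_lit 412) (nat_lit 284)))) (XT.nd (nat_lit 78) (nat_lit 0) (nat_lit 0) (XT.lf (nat_lit 0) (nat_lit 465010589636) (nat_lit 76) (nat_lit 924624650734) (nat_lit 76) (nat_lit 901483769695) (nat_lit 1) (nat_lit 4) (nat_lit 2) (nat_lit 5) (nat_lit 2) (nat_lit 4) (nat_lit 505) (nat_lit 412) (nat_lit 283)) (XT.nd (nat_lit 78) (nat_lit 0) (nat_lit 0) (XT.lf (nat_lit 0) (nat_lit 616989899223) (nat_lit 76) (nat_lit 938036190628) (nat_lit 76) (nat_lit 914895225951) (nat_lit 1) (nat_lit 4) (nat_lit 2) (nat_lit 5) (nat_lit 2) (nat_lit 4) (nat_lit 506) (nat_lit 412) (nat_lit 282)) (XT.lf (nat_lit 0) (nat_lit 781126754735) (nat_lit 76) (nat_lit 952521062305) (nat_lit 76) (nat_lit 929380020186) (nat_lit 1) (nat_lit 4) (nat_lit 2) (nat_lit 5) (nat_lit 2) (nat_lit 4) (nat_lit 507) (nat_lit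 412) (nat_lit 281))))))) (XT.nd (nat_lit 858) (nat_lit 0) (nat_lit 0) (XT.nd (nat_lit 390) (nat_lit 0) (nat_lit 0) (XT.nd (nat_lit 156) (nat_lit 0) (nat_lit 0) (XT.nd (nat_lit 78) (nat_lit 0) (nat_lit 0) (XT.lf (nat_lit 0) (nat_lit 958393819019) (nat_lit 76) (nat_lit 968165102044) (nat_lit 76) (nat_lit 945023988219) (nat_lit 1) (nat_lit 4) (nat_lit 2) (nat_lit 5) (nat_lit 2) (nat_lit 4) (nat_lit 508) (nat_lit 412) (nat_lit 280)) (XT.lf (nat_lit 0) (nat_lit 1149841563568) (nat_lit 76) (nat_lit 985061015265) (nat_lit 76) (nat_lit 961919835045) (nat_lit 1) (nat_lit 4) (nat_lit 2) (nat_lit 5) (nat_lit 2) (nat_lit 4) (nat_lit 509) (nat_lit 412) (nat_lit 279))) (XT.nd (nat_lit 78) (nat_lit 0) (nat_lit 0) (XT.lf (nat_lit 0) (nat_lit 1356604493534) (nat_lit 76) (nat_lit 1003308925897) (nat_lit 76) (nat_lit 980167684201) (nat_lit 1) (nat_lit 4) (nat_lit 2) (nat_lit 5) (nat_lit 2) (nat_lit 4) (nat_lit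 510) (nat_lit 412) (nat_lit 278)) (XT.nd (nat_lit 78) (nat_lit 0) (nat_lit 0) (XT.lf (nat_lit 0) (nat_lit 1579907870725) (nat_lit 76) (nat_lit 1023016969709) (nat_lit 76) (nat_lit 999875671090) (nat_lit 1) (nat_lit 4) (nat_lit 2) (nat_lit 5) (nat_lit 2) (nat_lit 4) (nat_lit 511) (nat_lit 412) (nat_lit 277)) (XT.lf (nat_lit 0) (nat_lit 1821074974412) (nat_lit 76) (nat_lit 1044301935106) (nat_lit 76) (nat_lit 1021160583782) (nat_lit 1) (nat_lit 4) (nat_lit 2) (nat_lit 5) (nat_lit 2) (nat_lit 4) (nat_lit 512) (nat_lit 412) (nat_lit 276))))) (XT.nd (nat_lit 234) (nat_lit 0) (nat_lit 0) (XT.nd (nat_lit 78) (nat_lit 0) (nat_lit 0) (XT.lf (nat_lit 0) (nat_lit 2081534942988) (nat_lit 76) (nat_lit 1067289955219) (nat_lit 76) (nat_lit 1044148555092) (nat_lit 1) (nat_lit 4) (nat_lit 2) (nat_lit 5) (nat_lit 2) (nat_lit 4) (nat_lit 513) (nat_lit 412) (nat_lit 275)) (XT.nd (nat_lit 78) (nat_lit 0) (nat_lit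 0) (XT.lf (nat_lit 0) (nat_lit 2362831242934) (nat_lit 76) (nat_lit 1092117255350) (nat_lit 76) (nat_lit 1068975810037) (nat_lit 1) (nat_lit 4) (nat_lit 2) (nat_lit 5) (nat_lit 2) (nat_lit 4) (nat_lit 514) (nat_lit 412) (nat_lit 274)) (XT.lf (nat_lit 0) (nat_lit 2666630815285) (nat_lit 76) (nat_lit 1118930960243) (nat_lit 76) (nat_lit 1095789473089) (nat_lit 1) (nat_lit 4) (nat_lit 2) (nat_lit 5) (nat_lit 2) (nat_lit 4) (nat_lit 515) (nat_lit 412) (nat_lit 273)))) (XT.nd (nat_lit 78) (nat_lit 0) (nat_lit 0) (XT.lf (nat_lit 0) (nat_lit 2994733953805) (nat_lit 76) (nat_lit 1147889965924) (nat_lit 76) (nat_lit 1124748440031) (nat_lit 1) (nat_lit 4) (nat_lit 2) (nat_lit 5) (nat_lit 2) (nat_lit 4) (nat_lit 516) (nat_lit 412) (nat_lit 272)) (XT.nd (nat_lit 78) (nat_lit 0) (nat_lit 0) (XT.lf (nat_lit 0) (nat_lit 3349084973388) (nat_lit 76) (nat_lit 1179165881318) (nat_lit 76) (nat_lit 1156024319554)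 (nat_lit 1) (nat_lit 4) (nat_lit 2) (nat_lit 5) (nat_lit 2) (nat_lit 4) (nat_lit 517) (nat_lit 412) (nat_lit 271)) (XT.lf (nat_lit 0) (nat_lit 3731783731928) (nat_lit 76) (nat_lit 1212944045183) (nat_lit 76) (nat_lit 1189802450204) (nat_lit 1) (nat_lit 4) (nat_lit 2) (nat_lit 5) (nat_lit 2) (nat_lit 4) (nat_lit 518) (nat_lit 412) (nat_lit 270)))))) (XT.nd (nat_lit 468) (nat_lit 0) (nat_lit 0) (XT.nd (nat_lit 234) (nat_lit 0) (nat_lit 0) (XT.nd (nat_lit 78) (nat_lit 0) (nat_lit 0) (XT.lf (nat_lit 0) (nat_lit 4145098073920) (nat_lit 76) (nat_lit 1249424624414) (nat_lit 76) (nat_lit 1226282998682) (nat_lit 1) (nat_lit 4) (nat_lit 2) (nat_lit 5) (nat_lit 2) (nat_lit 4) (nat_lit 519) (nat_lit 412) (nat_lit 269)) (XT.nd (nat_lit 78) (nat_lit 0) (nat_lit 0) (XT.lf (nat_lit 0) (nat_lit 4591477269539) (nat_lit 76) (nat_lit 1288823800222) (nat_lit 76) (nat_lit 1265682146015) (nat_lit 1) (nat_lit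 4) (nat_lit 2) (nat_lit 5) (nat_lit 2) (nat_lit 4) (nat_lit 520) (nat_lit 412) (nat_lit 268)) (XT.lf (nat_lit 0) (nat_lit 5073566528833) (nat_lit 76) (nat_lit 1331375049205) (nat_lit 76) (nat_lit 1308233368632) (nat_lit 1) (nat_lit 4) (nat_lit 2) (nat_lit 5) (nat_lit 2) (nat_lit 4) (nat_lit 521) (nat_lit 412) (nat_lit 267)))) (XT.nd (nat_lit 78) (nat_lit 0) (nat_lit 0) (XT.lf (nat_lit 0) (nat_lit 5594222677041) (nat_lit 76) (nat_lit 1377330526913) (nat_lit 76) (nat_lit 1354188821926) (nat_lit 1) (nat_lit 4) (nat_lit 2) (nat_lit 5) (nat_lit 2) (nat_lit 4) (nat_lit 522) (nat_lit 412) (nat_lit 266)) (XT.nd (nat_lit 78) (nat_lit 0) (nat_lit 0) (XT.lf (nat_lit 0) (nat_lit 6156531083932) (nat_lit 76) (nat_lit 1426962562101) (nat_lit 76) (nat_lit 1403820834510) (nat_lit 1) (nat_lit 4) (nat_lit 2) (nat_lit 5) (nat_lit 2) (nat_lit 4) (nat_lit 523) (nat_lit 412) (nat_lit 265)) (XT.lf (nat_lit 0)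 (nat_lit 6763823947473) (nat_lit 76) (nat_lit 1480565270534) (nat_lit 76) (nat_lit 1457423522013) (nat_lit 1) (nat_lit 4) (nat_lit 2) (nat_lit 5) (nat_lit 2) (nat_lit 4) (nat_lit 524) (nat_lit 412) (nat_lit 264))))) (XT.nd (nat_lit 53742) (nat_lit 0) (nat_lit 5168) (XT.nd (nat_lit 78) (nat_lit 0) (nat_lit 0) (XT.lf (nat_lit 0) (nat_lit 7419700040186) (nat_lit 76) (nat_lit 1538456297892) (nat_lit 76) (nat_lit 1515314529991) (nat_lit 1) (nat_lit 4) (nat_lit 2) (nat_lit 5) (nat_lit 2) (nat_lit 4) (nat_lit 525) (nat_lit 412) (nat_lit 263)) (XT.nd (nat_lit 78) (nat_lit 0) (nat_lit 0) (XT.lf (nat_lit 0) (nat_lit 8128046035216) (nat_lit 76) (nat_lit 1600978702115) (nat_lit 76) (nat_lit 1577836916269) (nat_lit 1) (nat_lit 4) (nat_lit 2) (nat_lit 5) (nat_lit 2) (nat_lit 4) (nat_lit 526) (nat_lit 412) (nat_lit 262)) (XT.lf (nat_lit 0) (nat_lit 8893059538458) (nat_lit 76) (nat_lit 1668502986339) (nat_lit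 76) (nat_lit 1645361183878) (nat_lit 1) (nat_lit 4) (nat_lit 2) (nat_lit 5) (nat_lit 2) (nat_lit 4) (nat_lit 527) (nat_lit 412) (nat_lit 261)))) (XT.nd (nat_lit 78) (nat_lit 0) (nat_lit 0) (XT.lf (nat_lit 0) (nat_lit 2864407629) (nat_lit 532) (nat_lit 1420187002) (nat_lit 532) (nat_lit 1420187002) (nat_lit 69) (nat_lit 3) (nat_lit 76) (nat_lit 3) (nat_lit 76) (nat_lit 5) (nat_lit 413) (nat_lit 413) (nat_lit 374)) (XT.nd (nat_lit 78) (nat_lit 0) (nat_lit 76) (XT.lf (nat_lit 76) (nat_lit 2897629197) (nat_lit 0) (nat_lit 3632617655) (nat_lit 532) (nat_lit 5289578507) (nat_lit 70) (nat_lit 5) (nat_lit 69) (nat_lit 3) (nat_lit 76) (nat_lit 5) (nat_lit 414) (nat_lit 413) (nat_lit 373)) (XT.lf (nat_lit 0) (nat_lit 7465895993) (nat_lit 456) (nat_lit 3076613695) (nat_lit 532) (nat_lit 1714824316) (nat_lit 70) (nat_lit 5) (nat_lit 76) (nat_lit 5) (nat_lit 77) (nat_lit 5) (nat_lit 415) (nat_lit 413)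 (nat_lit 372))))))))
noncomputable def xc128 : XT := (XT.nd (nat_lit 1716) (nat_lit 1520) (nat_lit 0) (XT.nd (nat_lit 858) (nat_lit 1216) (nat_lit 0) (XT.nd (nat_lit 390) (nat_lit 912) (nat_lit 0) (XT.nd (nat_lit 156) (nat_lit 380) (nat_lit 0) (XT.nd (nat_lit 78) (nat_lit 0) (nat_lit 76) (XT.lf (nat_lit 76) (nat_lit 3275319244) (nat_lit 0) (nat_lit 5327505717) (nat_lit 532) (nat_lit 4116935471) (nat_lit 71) (nat_lit 5) (nat_lit 70) (nat_lit 5) (nat_lit 77) (nat_lit 5) (nat_lit 416) (nat_lit 413) (nat_lit 371)) (XT.lf (nat_lit 0) (nat_lit 9880716872) (nat_lit 456) (nat_lit 2945476828) (nat_lit 532) (nat_lit 389015587) (nat_lit 71) (nat_lit 5) (nat_lit 77) (nat_lit 5) (nat_lit 78) (nat_lit 5) (nat_lit 417) (nat_lit 413) (nat_lit 370))) (XT.nd (nat_lit 78) (nat_lit 456) (nat_lit 0) (XT.lf (nat_lit 76) (nat_lit 4109208376) (nat_lit 0) (nat_lit 7348442135) (nat_lit 532) (nat_lit 2276925562)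 (nat_lit 72) (nat_lit 5) (nat_lit 71) (nat_lit 5) (nat_lit 78) (nat_lit 5) (nat_lit 418) (nat_lit 413) (nat_lit 369)) (XT.nd (nat_lit 78) (nat_lit 456) (nat_lit 0) (XT.lf (nat_lit 76) (nat_lit 11865195897) (nat_lit 0) (nat_lit 1337941063) (nat_lit 532) (nat_lit 1088988259) (nat_lit 72) (nat_lit 5) (nat_lit 71) (nat_lit 5) (nat_lit 78) (nat_lit 5) (nat_lit 419) (nat_lit 413) (nat_lit 368)) (XT.lf (nat_lit 0) (nat_lit 410220725) (nat_lit 532) (nat_lit 9421550268) (nat_lit 76) (nat_lit 5044080149) (nat_lit 65) (nat_lit 5) (nat_lit 72) (nat_lit 5) (nat_lit 66) (nat_lit 5) (nat_lit 420) (nat_lit 413) (nat_lit 367))))) (XT.nd (nat_lit 234) (nat_lit 456) (nat_lit 0) (XT.nd (nat_lit 78) (nat_lit 456) (nat_lit 0) (XT.lf (nat_lit 0) (nat_lit 2039205399) (nat_lit 532) (nat_lit 1494036376) (nat_lit 76) (nat_lit 11965296461) (nat_lit 65) (nat_lit 5) (nat_lit 72) (nat_lit 5) (nat_lit 66) (nat_lit 5)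 (nat_lit 421) (nat_lit 413) (nat_lit 366)) (XT.nd (nat_lit 78) (nat_lit 0) (nat_lit 0) (XT.lf (nat_lit 0) (nat_lit 4028341444) (nat_lit 532) (nat_lit 8834317642) (nat_lit 76) (nat_lit 3290012880) (nat_lit 59) (nat_lit 5) (nat_lit 66) (nat_lit 5) (nat_lit 60) (nat_lit 5) (nat_lit 422) (nat_lit 413) (nat_lit 365)) (XT.lf (nat_lit 0) (nat_lit 6280321997) (nat_lit 532) (nat_lit 59637941) (nat_lit 76) (nat_lit 10510896289) (nat_lit 59) (nat_lit 5) (nat_lit 66) (nat_lit 5) (nat_lit 60) (nat_lit 5) (nat_lit 423) (nat_lit 413) (nat_lit 364)))) (XT.nd (nat_lit 78) (nat_lit 228) (nat_lit 0) (XT.lf (nat_lit 0) (nat_lit 8945455711) (nat_lit 304) (nat_lit 7729137137) (nat_lit 76) (nat_lit 911678471) (nat_lit 56) (nat_lit 5) (nat_lit 60) (nat_lit 5) (nat_lit 57) (nat_lit 5) (nat_lit 424) (nat_lit 413) (nat_lit 363)) (XT.nd (nat_lit 78) (nat_lit 0) (nat_lit 0) (XT.lf (nat_lit 0) (nat_lit 2099955402) (nat_lit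 228) (nat_lit 9914262914) (nat_lit 304) (nat_lit 6351082357) (nat_lit 53) (nat_lit 5) (nat_lit 56) (nat_lit 5) (nat_lit 57) (nat_lit 5) (nat_lit 425) (nat_lit 413) (nat_lit 362)) (XT.lf (nat_lit 0) (nat_lit 13125086784) (nat_lit 228) (nat_lit 2389530497) (nat_lit 304) (nat_lit 3677157700) (nat_lit 53) (nat_lit 5) (nat_lit 56) (nat_lit 5) (nat_lit 57) (nat_lit 5) (nat_lit 426) (nat_lit 413) (nat_lit 361)))))) (XT.nd (nat_lit 390) (nat_lit 608) (nat_lit 0) (XT.nd (nat_lit 156) (nat_lit 380) (nat_lit 0) (XT.nd (nat_lit 78) (nat_lit 76) (nat_lit 0) (XT.lf (nat_lit 0) (nat_lit 5032197969) (nat_lit 152) (nat_lit 14498423457) (nat_lit 228) (nat_lit 534912384) (nat_lit 51) (nat_lit 5) (nat_lit 53) (nat_lit 5) (nat_lit 54) (nat_lit 5) (nat_lit 427) (nat_lit 413) (nat_lit 360)) (XT.lf (nat_lit 0) (nat_lit 2924979495) (nat_lit 228) (nat_lit 3796927677) (nat_lit 76) (nat_lit 14265054965) (nat_lit 50)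 (nat_lit 5) (nat_lit 53) (nat_lit 5) (nat_lit 51) (nat_lit 5) (nat_lit 428) (nat_lit 413) (nat_lit 359))) (XT.nd (nat_lit 78) (nat_lit 152) (nat_lit 0) (XT.lf (nat_lit 0) (nat_lit 6867522920) (nat_lit 304) (nat_lit 13278170994) (nat_lit 76) (nat_lit 1816528435) (nat_lit 47) (nat_lit 5) (nat_lit 51) (nat_lit 5) (nat_lit 48) (nat_lit 5) (nat_lit 429) (nat_lit 413) (nat_lit 358)) (XT.nd (nat_lit 78) (nat_lit 152) (nat_lit 0) (XT.lf (nat_lit 0) (nat_lit 11386068908) (nat_lit 304) (nat_lit 833500011) (nat_lit 76) (nat_lit 10775095674) (nat_lit 47) (nat_lit 5) (nat_lit 51) (nat_lit 5) (nat_lit 48) (nat_lit 5) (nat_lit 430) (nat_lit 413) (nat_lit 357)) (XT.lf (nat_lit 0) (nat_lit 13242860143) (nat_lit 152) (nat_lit 3322741463) (nat_lit 228) (nat_lit 7520148833) (nat_lit 45) (nat_lit 5) (nat_lit 47) (nat_lit 5) (nat_lit 48) (nat_lit 5) (nat_lit 431) (nat_lit 413) (nat_lit 356))))) (XT.nd (nat_lit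 234) (nat_lit 228) (nat_lit 0) (XT.nd (nat_lit 78) (nat_lit 228) (nat_lit 0) (XT.lf (nat_lit 0) (nat_lit 3212398952) (nat_lit 152) (nat_lit 19180532931) (nat_lit 228) (nat_lit 2852524311) (nat_lit 43) (nat_lit 5) (nat_lit 45) (nat_lit 5) (nat_lit 46) (nat_lit 5) (nat_lit 432) (nat_lit 413) (nat_lit 355)) (XT.nd (nat_lit 78) (nat_lit 152) (nat_lit 0) (XT.lf (nat_lit 0) (nat_lit 2451386215) (nat_lit 228) (nat_lit 7639345152) (nat_lit 76) (nat_lit 16373214731) (nat_lit 42) (nat_lit 5) (nat_lit 45) (nat_lit 5) (nat_lit 43) (nat_lit 5) (nat_lit 433) (nat_lit 413) (nat_lit 354)) (XT.lf (nat_lit 0) (nat_lit 8206631206) (nat_lit 228) (nat_lit 19542167863) (nat_lit 76) (nat_lit 10704462) (nat_lit 40) (nat_lit 5) (nat_lit 43) (nat_lit 5) (nat_lit 41) (nat_lit 5) (nat_lit 434) (nat_lit 413) (nat_lit 353)))) (XT.nd (nat_lit 78) (nat_lit 228) (nat_lit 0) (XT.lf (nat_lit 0) (nat_lit 14882365768) (nat_lit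 228) (nat_lit 3658187115) (nat_lit 76) (nat_lit 10581352840) (nat_lit 40) (nat_lit 5) (nat_lit 43) (nat_lit 5) (nat_lit 41) (nat_lit 5) (nat_lit 435) (nat_lit 413) (nat_lit 352)) (XT.nd (nat_lit 78) (nat_lit 76) (nat_lit 0) (XT.lf (nat_lit 0) (nat_lit 14182188039) (nat_lit 152) (nat_lit 8235936851) (nat_lit 228) (nat_lit 8149103270) (nat_lit 38) (nat_lit 5) (nat_lit 40) (nat_lit 5) (nat_lit 41) (nat_lit 5) (nat_lit 436) (nat_lit 413) (nat_lit 351)) (XT.lf (nat_lit 0) (nat_lit 1517251476) (nat_lit 76) (nat_lit 29233419323) (nat_lit 152) (nat_lit 1361996449) (nat_lit 37) (nat_lit 5) (nat_lit 38) (nat_lit 5) (nat_lit 39) (nat_lit 4) (nat_lit 437) (nat_lit 413) (nat_lit 350))))))) (XT.nd (nat_lit 858) (nat_lit 684) (nat_lit 0) (XT.nd (nat_lit 390) (nat_lit 456) (nat_lit 0) (XT.nd (nat_lit 156) (nat_lit 152) (nat_lit 0) (XT.nd (nat_lit 78) (nat_lit 152) (nat_lit 0) (XT.lf (nat_lit 0) (nat_lit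 6328476755) (nat_lit 152) (nat_lit 12355729806) (nat_lit 76) (nat_lit 15033340916) (nat_lit 36) (nat_lit 5) (nat_lit 38) (nat_lit 5) (nat_lit 37) (nat_lit 5) (nat_lit 438) (nat_lit 413) (nat_lit 349)) (XT.lf (nat_lit 0) (nat_lit 7668885983) (nat_lit 152) (nat_lit 7062630157) (nat_lit 228) (nat_lit 20702802863) (nat_lit 34) (nat_lit 5) (nat_lit 36) (nat_lit 5) (nat_lit 37) (nat_lit 5) (nat_lit 439) (nat_lit 413) (nat_lit 348))) (XT.nd (nat_lit 78) (nat_lit 152) (nat_lit 0) (XT.lf (nat_lit 0) (nat_lit 24272139316) (nat_lit 228) (nat_lit 7426793070) (nat_lit 76) (nat_lit 5552276244) (nat_lit 34) (nat_lit 5) (nat_lit 37) (nat_lit 5) (nat_lit 35) (nat_lit 4) (nat_lit 440) (nat_lit 413) (nat_lit 347)) (XT.nd (nat_lit 78) (nat_lit 76) (nat_lit 0) (XT.lf (nat_lit 0) (nat_lit 15089242297) (nat_lit 76) (nat_lit 20020829819) (nat_lit 152) (nat_lit 4060655892) (nat_lit 33) (nat_lit 5) (nat_lit 34)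 (nat_lit 5) (nat_lit 35) (nat_lit 4) (nat_lit 441) (nat_lit 413) (nat_lit 346)) (XT.lf (nat_lit 0) (nat_lit 5488693843) (nat_lit 152) (nat_lit 1559084164) (nat_lit 76) (nat_lit 34169622052) (nat_lit 32) (nat_lit 5) (nat_lit 34) (nat_lit 5) (nat_lit 33) (nat_lit 5) (nat_lit 442) (nat_lit 413) (nat_lit 345))))) (XT.nd (nat_lit 234) (nat_lit 228) (nat_lit 0) (XT.nd (nat_lit 78) (nat_lit 76) (nat_lit 0) (XT.lf (nat_lit 0) (nat_lit 16329389978) (nat_lit 228) (nat_lit 19727104820) (nat_lit 76) (nat_lit 7303133672) (nat_lit 30) (nat_lit 5) (nat_lit 33) (nat_lit 5) (nat_lit 31) (nat_lit 4) (nat_lit 443) (nat_lit 413) (nat_lit 344)) (XT.nd (nat_lit 78) (nat_lit 0) (nat_lit 0) (XT.lf (nat_lit 0) (nat_lit 5320490617) (nat_lit 76) (nat_lit 23060506048) (nat_lit 152) (nat_lit 17264748572) (nat_lit 29) (nat_lit 5) (nat_lit 30) (nat_lit 5) (nat_lit 31) (nat_lit 4) (nat_lit 444) (nat_lit 413) (nat_lit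 343)) (XT.lf (nat_lit 0) (nat_lit 33474495654) (nat_lit 76) (nat_lit 8450870630) (nat_lit 152) (nat_lit 6147096598) (nat_lit 29) (nat_lit 5) (nat_lit 30) (nat_lit 5) (nat_lit 31) (nat_lit 4) (nat_lit 445) (nat_lit 413) (nat_lit 342)))) (XT.nd (nat_lit 78) (nat_lit 76) (nat_lit 0) (XT.lf (nat_lit 0) (nat_lit 6074708474) (nat_lit 152) (nat_lit 37130528255) (nat_lit 76) (nat_lit 7436178162) (nat_lit 27) (nat_lit 5) (nat_lit 29) (nat_lit 5) (nat_lit 28) (nat_lit 4) (nat_lit 446) (nat_lit 413) (nat_lit 341)) (XT.nd (nat_lit 78) (nat_lit 76) (nat_lit 0) (XT.lf (nat_lit 0) (nat_lit 19561085822) (nat_lit 152) (nat_lit 9093377617) (nat_lit 76) (nat_lit 24699133790) (nat_lit 27) (nat_lit 5) (nat_lit 29) (nat_lit 5) (nat_lit 28) (nat_lit 4) (nat_lit 447) (nat_lit 413) (nat_lit 340)) (XT.lf (nat_lit 0) (nat_lit 22284332507) (nat_lit 76) (nat_lit 12368651988) (nat_lit 152) (nat_lit 21587642450) (nat_lit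 26) (nat_lit 5) (nat_lit 27) (nat_lit 5) (nat_lit 28) (nat_lit 4) (nat_lit 448) (nat_lit 413) (nat_lit 339)))))) (XT.nd (nat_lit 468) (nat_lit 304) (nat_lit 0) (XT.nd (nat_lit 234) (nat_lit 152) (nat_lit 0) (XT.nd (nat_lit 78) (nat_lit 228) (nat_lit 0) (XT.lf (nat_lit 0) (nat_lit 51323639718) (nat_lit 152) (nat_lit 2798590706) (nat_lit 0) (nat_lit 5206677800) (nat_lit 26) (nat_lit 5) (nat_lit 28) (nat_lit 4) (nat_lit 26) (nat_lit 4) (nat_lit 449) (nat_lit 413) (nat_lit 338)) (XT.nd (nat_lit 78) (nat_lit 76) (nat_lit 0) (XT.lf (nat_lit 0) (nat_lit 7443778318) (nat_lit 152) (nat_lit 30644571419) (nat_lit 76) (nat_lit 24474008400) (nat_lit 24) (nat_lit 5) (nat_lit 26) (nat_lit 5) (nat_lit 25) (nat_lit 4) (nat_lit 450) (nat_lit 413) (nat_lit 337)) (XT.lf (nat_lit 0) (nat_lit 3469896904) (nat_lit 76) (nat_lit 20379817219) (nat_lit 152) (nat_lit 42175860219) (nat_lit 23) (nat_lit 5) (nat_lit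 24) (nat_lit 5) (nat_lit 25) (nat_lit 4) (nat_lit 451) (nat_lit 413) (nat_lit 336)))) (XT.nd (nat_lit 78) (nat_lit 152) (nat_lit 0) (XT.lf (nat_lit 0) (nat_lit 42040677623) (nat_lit 76) (nat_lit 357078402) (nat_lit 152) (nat_lit 27301722464) (nat_lit 23) (nat_lit 5) (nat_lit 24) (nat_lit 5) (nat_lit 25) (nat_lit 4) (nat_lit 452) (nat_lit 413) (nat_lit 335)) (XT.nd (nat_lit 78) (nat_lit 76) (nat_lit 0) (XT.lf (nat_lit 0) (nat_lit 10003857155) (nat_lit 76) (nat_lit 53170061238) (nat_lit 76) (nat_lit 10433835466) (nat_lit 22) (nat_lit 4) (nat_lit 23) (nat_lit 5) (nat_lit 23) (nat_lit 4) (nat_lit 453) (nat_lit 413) (nat_lit 334)) (XT.lf (nat_lit 0) (nat_lit 8171510321) (nat_lit 152) (nat_lit 25746745038) (nat_lit 76) (nat_lit 43833270241) (nat_lit 21) (nat_lit 5) (nat_lit 23) (nat_lit 5) (nat_lit 22) (nat_lit 4) (nat_lit 454) (nat_lit 413) (nat_lit 333))))) (XT.nd (nat_lit 234) (nat_lit 152)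 (nat_lit 0) (XT.nd (nat_lit 78) (nat_lit 76) (nat_lit 0) (XT.lf (nat_lit 0) (nat_lit 15636318465) (nat_lit 76) (nat_lit 12434127629) (nat_lit 152) (nat_lit 54105164295) (nat_lit 20) (nat_lit 5) (nat_lit 21) (nat_lit 5) (nat_lit 22) (nat_lit 4) (nat_lit 455) (nat_lit 413) (nat_lit 332)) (XT.nd (nat_lit 78) (nat_lit 76) (nat_lit 0) (XT.lf (nat_lit 0) (nat_lit 50535389734) (nat_lit 152) (nat_lit 25394206873) (nat_lit 0) (nat_lit 10946098693) (nat_lit 20) (nat_lit 5) (nat_lit 22) (nat_lit 4) (nat_lit 20) (nat_lit 4) (nat_lit 456) (nat_lit 413) (nat_lit 331)) (XT.lf (nat_lit 0) (nat_lit 19691713058) (nat_lit 76) (nat_lit 55895753764) (nat_lit 76) (nat_lit 16301125866) (nat_lit 19) (nat_lit 4) (nat_lit 20) (nat_lit 5) (nat_lit 20) (nat_lit 4) (nat_lit 457) (nat_lit 413) (nat_lit 330)))) (XT.nd (nat_lit 78) (nat_lit 76) (nat_lit 0) (XT.lf (nat_lit 0) (nat_lit 5779765454) (nat_lit 152) (nat_lit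 27577657288) (nat_lit 76) (nat_lit 63878362078) (nat_lit 18) (nat_lit 5) (nat_lit 20) (nat_lit 5) (nat_lit 19) (nat_lit 4) (nat_lit 458) (nat_lit 413) (nat_lit 329)) (XT.nd (nat_lit 78) (nat_lit 0) (nat_lit 0) (XT.lf (nat_lit 0) (nat_lit 21238182818) (nat_lit 76) (nat_lit 8012936290) (nat_lit 152) (nat_lit 73685387299) (nat_lit 17) (nat_lit 5) (nat_lit 18) (nat_lit 5) (nat_lit 19) (nat_lit 4) (nat_lit 459) (nat_lit 413) (nat_lit 328)) (XT.lf (nat_lit 0) (nat_lit 55833306794) (nat_lit 152) (nat_lit 34002449919) (nat_lit 0) (nat_lit 19158879480) (nat_lit 17) (nat_lit 5) (nat_lit 19) (nat_lit 4) (nat_lit 17) (nat_lit 4) (nat_lit 460) (nat_lit 413) (nat_lit 327))))))))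
noncomputable def xc129 : XT := (XT.nd (nat_lit 1716) (nat_lit 304) (nat_lit 0) (XT.nd (nat_lit 858) (nat_lit 380) (nat_lit 0) (XT.nd (nat_lit 390) (nat_lit 304) (nat_lit 0) (XT.nd (nat_lit 156) (nat_lit 152) (nat_lit 0) (XT.nd (nat_lit 78) (nat_lit 0) (nat_lit 0) (XT.lf (nat_lit 0) (nat_lit 18200336773) (nat_lit 76) (nat_lit 66981960667) (nat_lit 76) (nat_lit 30303901177) (nat_lit 16) (nat_lit 4) (nat_lit 17) (nat_lit 5) (nat_lit 17) (nat_lit 4) (nat_lit 461) (nat_lit 413) (nat_lit 326)) (XT.lf (nat_lit 0) (nat_lit 76502293230) (nat_lit 76) (nat_lit 41301138944) (nat_lit 76) (nat_lit 4619716328) (nat_lit 16) (nat_lit 4) (nat_lit 17) (nat_lit 5) (nat_lit 17) (nat_lit 4) (nat_lit 462) (nat_lit 413) (nat_lit 325))) (XT.nd (nat_lit 78) (nat_lit 0) (nat_lit 0) (XT.lf (nat_lit 0) (nat_lit 9460300901) (nat_lit 76) (nat_lit 12724717138) (nat_lit 152) (nat_lit 107667768863) (nat_lit 14) (nat_lit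 5) (nat_lit 15) (nat_lit 5) (nat_lit 16) (nat_lit 4) (nat_lit 463) (nat_lit 413) (nat_lit 324)) (XT.nd (nat_lit 78) (nat_lit 0) (nat_lit 0) (XT.lf (nat_lit 0) (nat_lit 52603765348) (nat_lit 152) (nat_lit 66491962415) (nat_lit 0) (nat_lit 18633932053) (nat_lit 14) (nat_lit 5) (nat_lit 16) (nat_lit 4) (nat_lit 14) (nat_lit 4) (nat_lit 464) (nat_lit 413) (nat_lit 323)) (XT.lf (nat_lit 0) (nat_lit 85781741660) (nat_lit 152) (nat_lit 8619446533) (nat_lit 0) (nat_lit 51809436366) (nat_lit 14) (nat_lit 5) (nat_lit 16) (nat_lit 4) (nat_lit 14) (nat_lit 4) (nat_lit 465) (nat_lit 413) (nat_lit 322))))) (XT.nd (nat_lit 234) (nat_lit 76) (nat_lit 0) (XT.nd (nat_lit 78) (nat_lit 152) (nat_lit 0) (XT.lf (nat_lit 0) (nat_lit 56710951092) (nat_lit 76) (nat_lit 66262476096) (nat_lit 76) (nat_lit 32287881915) (nat_lit 13) (nat_lit 4) (nat_lit 14) (nat_lit 5) (nat_lit 14) (nat_lit 4) (nat_lit 466) (nat_lit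 413) (nat_lit 321)) (XT.nd (nat_lit 78) (nat_lit 152) (nat_lit 0) (XT.lf (nat_lit 0) (nat_lit 127749368678) (nat_lit 76) (nat_lit 35622442235) (nat_lit 76) (nat_lit 1645728715) (nat_lit 13) (nat_lit 4) (nat_lit 14) (nat_lit 5) (nat_lit 14) (nat_lit 4) (nat_lit 467) (nat_lit 413) (nat_lit 320)) (XT.lf (nat_lit 0) (nat_lit 29634524159) (nat_lit 76) (nat_lit 948745086) (nat_lit 152) (nat_lit 144853804481) (nat_lit 11) (nat_lit 5) (nat_lit 12) (nat_lit 5) (nat_lit 13) (nat_lit 4) (nat_lit 468) (nat_lit 413) (nat_lit 319)))) (XT.nd (nat_lit 78) (nat_lit 76) (nat_lit 0) (XT.lf (nat_lit 0) (nat_lit 67220840678) (nat_lit 152) (nat_lit 83554955788) (nat_lit 0) (nat_lit 35757421359) (nat_lit 11) (nat_lit 5) (nat_lit 13) (nat_lit 4) (nat_lit 11) (nat_lit 4) (nat_lit 469) (nat_lit 413) (nat_lit 318)) (XT.nd (nat_lit 78) (nat_lit 76) (nat_lit 0) (XT.lf (nat_lit 0) (nat_lit 106810285340) (nat_lit 152)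 (nat_lit 16359790679) (nat_lit 0) (nat_lit 75345308243) (nat_lit 11) (nat_lit 5) (nat_lit 13) (nat_lit 4) (nat_lit 11) (nat_lit 4) (nat_lit 470) (nat_lit 413) (nat_lit 317)) (XT.lf (nat_lit 0) (nat_lit 59163557428) (nat_lit 76) (nat_lit 91822717555) (nat_lit 76) (nat_lit 60356298071) (nat_lit 10) (nat_lit 4) (nat_lit 11) (nat_lit 5) (nat_lit 11) (nat_lit 4) (nat_lit 471) (nat_lit 413) (nat_lit 316)))))) (XT.nd (nat_lit 390) (nat_lit 228) (nat_lit 0) (XT.nd (nat_lit 156) (nat_lit 76) (nat_lit 0) (XT.nd (nat_lit 78) (nat_lit 76) (nat_lit 0) (XT.lf (nat_lit 0) (nat_lit 141652316209) (nat_lit 76) (nat_lit 57487931806) (nat_lit 76) (nat_lit 26020176779) (nat_lit 10) (nat_lit 4) (nat_lit 11) (nat_lit 5) (nat_lit 11) (nat_lit 4) (nat_lit 472) (nat_lit 413) (nat_lit 315)) (XT.lf (nat_lit 0) (nat_lit 10506194987) (nat_lit 152) (nat_lit 9616106068) (nat_lit 76) (nat_lit 219940377376) (nat_lit 9)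 (nat_lit 5) (nat_lit 11) (nat_lit 5) (nat_lit 10) (nat_lit 4) (nat_lit 473) (nat_lit 413) (nat_lit 314))) (XT.nd (nat_lit 78) (nat_lit 0) (nat_lit 0) (XT.lf (nat_lit 0) (nat_lit 50855328841) (nat_lit 152) (nat_lit 183346888921) (nat_lit 0) (nat_lit 21716313419) (nat_lit 8) (nat_lit 5) (nat_lit 10) (nat_lit 4) (nat_lit 8) (nat_lit 4) (nat_lit 474) (nat_lit 413) (nat_lit 313)) (XT.nd (nat_lit 78) (nat_lit 0) (nat_lit 0) (XT.lf (nat_lit 0) (nat_lit 95221817817) (nat_lit 152) (nat_lit 111676059784) (nat_lit 0) (nat_lit 66081820731) (nat_lit 8) (nat_lit 5) (nat_lit 10) (nat_lit 4) (nat_lit 8) (nat_lit 4) (nat_lit 475) (nat_lit 413) (nat_lit 312)) (XT.lf (nat_lit 0) (nat_lit 143134863629) (nat_lit 152) (nat_lit 34277158737) (nat_lit 0) (nat_lit 113993957594) (nat_lit 8) (nat_lit 5) (nat_lit 10) (nat_lit 4) (nat_lit 8) (nat_lit 4) (nat_lit 476) (nat_lit 413) (nat_lit 311))))) (XT.nd (nat_lit 234)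 (nat_lit 152) (nat_lit 0) (XT.nd (nat_lit 78) (nat_lit 0) (nat_lit 0) (XT.lf (nat_lit 0) (nat_lit 51904971252) (nat_lit 76) (nat_lit 144221739991) (nat_lit 76) (nat_lit 115079992338) (nat_lit 7) (nat_lit 4) (nat_lit 8) (nat_lit 5) (nat_lit 8) (nat_lit 4) (nat_lit 477) (nat_lit 413) (nat_lit 310)) (XT.nd (nat_lit 78) (nat_lit 0) (nat_lit 0) (XT.lf (nat_lit 0) (nat_lit 146925995152) (nat_lit 76) (nat_lit 107366620142) (nat_lit 76) (nat_lit 78224093213) (nat_lit 7) (nat_lit 4) (nat_lit 8) (nat_lit 5) (nat_lit 8) (nat_lit 4) (nat_lit 478) (nat_lit 413) (nat_lit 309)) (XT.lf (nat_lit 0) (nat_lit 249544026077) (nat_lit 76) (nat_lit 67565460374) (nat_lit 76) (nat_lit 38422211892) (nat_lit 7) (nat_lit 4) (nat_lit 8) (nat_lit 5) (nat_lit 8) (nat_lit 4) (nat_lit 479) (nat_lit 413) (nat_lit 308)))) (XT.nd (nat_lit 78) (nat_lit 76) (nat_lit 0) (XT.lf (nat_lit 0) (nat_lit 4333329188) (nat_lit 152) (nat_lit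 20130591874) (nat_lit 76) (nat_lit 355915360787) (nat_lit 6) (nat_lit 5) (nat_lit 8) (nat_lit 5) (nat_lit 7) (nat_lit 4) (nat_lit 480) (nat_lit 413) (nat_lit 307)) (XT.nd (nat_lit 78) (nat_lit 0) (nat_lit 0) (XT.lf (nat_lit 0) (nat_lit 50848079748) (nat_lit 152) (nat_lit 332231189908) (nat_lit 0) (nat_lit 23862399006) (nat_lit 5) (nat_lit 5) (nat_lit 7) (nat_lit 4) (nat_lit 5) (nat_lit 4) (nat_lit 481) (nat_lit 413) (nat_lit 306)) (XT.lf (nat_lit 0) (nat_lit 102282116192) (nat_lit 152) (nat_lit 257955176745) (nat_lit 0) (nat_lit 75295905087) (nat_lit 5) (nat_lit 5) (nat_lit 7) (nat_lit 4) (nat_lit 5) (nat_lit 4) (nat_lit 482) (nat_lit 413) (nat_lit 305))))))) (XT.nd (nat_lit 858) (nat_lit 76) (nat_lit 0) (XT.nd (nat_lit 390) (nat_lit 152) (nat_lit 0) (XT.nd (nat_lit 156) (nat_lit 76) (nat_lit 0) (XT.nd (nat_lit 78) (nat_lit 0) (nat_lit 0) (XT.lf (nat_lit 0) (nat_lit 157829002404) (nat_lit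 152) (nat_lit 177740897028) (nat_lit 0) (nat_lit 130842300222) (nat_lit 5) (nat_lit 5) (nat_lit 7) (nat_lit 4) (nat_lit 5) (nat_lit 4) (nat_lit 483) (nat_lit 413) (nat_lit 304)) (XT.lf (nat_lit 0) (nat_lit 217817905116) (nat_lit 152) (nat_lit 91113006877) (nat_lit 0) (nat_lit 190830748234) (nat_lit 5) (nat_lit 5) (nat_lit 7) (nat_lit 4) (nat_lit 5) (nat_lit 4) (nat_lit 484) (nat_lit 413) (nat_lit 303))) (XT.nd (nat_lit 78) (nat_lit 0) (nat_lit 0) (XT.lf (nat_lit 0) (nat_lit 2570427354) (nat_lit 76) (nat_lit 280095705608) (nat_lit 76) (nat_lit 253108127707) (nat_lit 4) (nat_lit 4) (nat_lit 5) (nat_lit 5) (nat_lit 5) (nat_lit 4) (nat_lit 485) (nat_lit 413) (nat_lit 302)) (XT.nd (nat_lit 78) (nat_lit 0) (nat_lit 0) (XT.lf (nat_lit 0) (nat_lit 108927026234) (nat_lit 76) (nat_lit 246264820252) (nat_lit 76) (nat_lit 219276852518) (nat_lit 4) (nat_lit 4) (nat_lit 5) (nat_lit 5) (nat_lit 5) (nat_lit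 4) (nat_lit 486) (nat_lit 413) (nat_lit 301)) (XT.lf (nat_lit 0) (nat_lit 223789201611) (nat_lit 76) (nat_lit 209728967678) (nat_lit 76) (nat_lit 182740638988) (nat_lit 4) (nat_lit 4) (nat_lit 5) (nat_lit 5) (nat_lit 5) (nat_lit 4) (nat_lit 487) (nat_lit 413) (nat_lit 300))))) (XT.nd (nat_lit 234) (nat_lit 152) (nat_lit 0) (XT.nd (nat_lit 78) (nat_lit 0) (nat_lit 0) (XT.lf (nat_lit 0) (nat_lit 347837618230) (nat_lit 76) (nat_lit 170271639131) (nat_lit 76) (nat_lit 143282976222) (nat_lit 4) (nat_lit 4) (nat_lit 5) (nat_lit 5) (nat_lit 5) (nat_lit 4) (nat_lit 488) (nat_lit 413) (nat_lit 299)) (XT.nd (nat_lit 78) (nat_lit 0) (nat_lit 0) (XT.lf (nat_lit 0) (nat_lit 481807377819) (nat_lit 76) (nat_lit 127659013404) (nat_lit 76) (nat_lit 100670041034) (nat_lit 4) (nat_lit 4) (nat_lit 5) (nat_lit 5) (nat_lit 5) (nat_lit 4) (nat_lit 489) (nat_lit 413) (nat_lit 298)) (XT.lf (nat_lit 0) (nat_lit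 626492375248) (nat_lit 76) (nat_lit 81638571233) (nat_lit 76) (nat_lit 54649312325) (nat_lit 4) (nat_lit 4) (nat_lit 5) (nat_lit 5) (nat_lit 5) (nat_lit 4) (nat_lit 490) (nat_lit 413) (nat_lit 297)))) (XT.nd (nat_lit 78) (nat_lit 152) (nat_lit 0) (XT.lf (nat_lit 0) (nat_lit 782750003096) (nat_lit 76) (nat_lit 31937598888) (nat_lit 76) (nat_lit 4948074666) (nat_lit 4) (nat_lit 4) (nat_lit 5) (nat_lit 5) (nat_lit 5) (nat_lit 4) (nat_lit 491) (nat_lit 413) (nat_lit 296)) (XT.nd (nat_lit 78) (nat_lit 0) (nat_lit 0) (XT.lf (nat_lit 0) (nat_lit 48643727670) (nat_lit 152) (nat_lit 808460677031) (nat_lit 0) (nat_lit 23653200001) (nat_lit 2) (nat_lit 5) (nat_lit 4) (nat_lit 4) (nat_lit 2) (nat_lit 4) (nat_lit 492) (nat_lit 413) (nat_lit 295)) (XT.lf (nat_lit 0) (nat_lit 108118803582) (nat_lit 152) (nat_lit 755363076117) (nat_lit 0) (nat_lit 83128065299) (nat_lit 2) (nat_lit 5) (nat_lit 4) (nat_lit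 4) (nat_lit 2) (nat_lit 4) (nat_lit 493) (nat_lit 413) (nat_lit 294)))))) (XT.nd (nat_lit 468) (nat_lit 76) (nat_lit 0) (XT.nd (nat_lit 234) (nat_lit 0) (nat_lit 0) (XT.nd (nat_lit 78) (nat_lit 0) (nat_lit 0) (XT.lf (nat_lit 0) (nat_lit 172350951232) (nat_lit 152) (nat_lit 698019578122) (nat_lit 0) (nat_lit 147360017936) (nat_lit 2) (nat_lit 5) (nat_lit 4) (nat_lit 4) (nat_lit 2) (nat_lit 4) (nat_lit 494) (nat_lit 413) (nat_lit 293)) (XT.nd (nat_lit 78) (nat_lit 0) (nat_lit 0) (XT.lf (nat_lit 0) (nat_lit 241720805571) (nat_lit 152) (nat_lit 636090369723) (nat_lit 0) (nat_lit 216729691707) (nat_lit 2) (nat_lit 5) (nat_lit 4) (nat_lit 4) (nat_lit 2) (nat_lit 4) (nat_lit 495) (nat_lit 413) (nat_lit 292)) (XT.lf (nat_lit 0) (nat_lit 316639447216) (nat_lit 152) (nat_lit 569208463018) (nat_lit 0) (nat_lit 291648166159) (nat_lit 2) (nat_lit 5) (nat_lit 4) (nat_lit 4) (nat_lit 2) (nat_lit 4) (nat_lit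 496) (nat_lit 413) (nat_lit 291)))) (XT.nd (nat_lit 78) (nat_lit 0) (nat_lit 0) (XT.lf (nat_lit 0) (nat_lit 397550838488) (nat_lit 152) (nat_lit 496977520784) (nat_lit 0) (nat_lit 372559402623) (nat_lit 2) (nat_lit 5) (nat_lit 4) (nat_lit 4) (nat_lit 2) (nat_lit 4) (nat_lit 497) (nat_lit 413) (nat_lit 290)) (XT.nd (nat_lit 78) (nat_lit 0) (nat_lit 0) (XT.lf (nat_lit 0) (nat_lit 484934454298) (nat_lit 152) (nat_lit 418969507806) (nat_lit 0) (nat_lit 459942875093) (nat_lit 2) (nat_lit 5) (nat_lit 4) (nat_lit 4) (nat_lit 2) (nat_lit 4) (nat_lit 498) (nat_lit 413) (nat_lit 289)) (XT.lf (nat_lit 0) (nat_lit 579308123481) (nat_lit 152) (nat_lit 334722154378) (nat_lit 0) (nat_lit 554316411553) (nat_lit 2) (nat_lit 5) (nat_lit 4) (nat_lit 4) (nat_lit 2) (nat_lit 4) (nat_lit 499) (nat_lit 413) (nat_lit 288))))) (XT.nd (nat_lit 234) (nat_lit 76) (nat_lit 0) (XT.nd (nat_lit 78) (nat_lit 0) (nat_lit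 0) (XT.lf (nat_lit 0) (nat_lit 681231097410) (nat_lit 152) (nat_lit 243736216925) (nat_lit 0) (nat_lit 656239262591) (nat_lit 2) (nat_lit 5) (nat_lit 4) (nat_lit 4) (nat_lit 2) (nat_lit 4) (nat_lit 500) (nat_lit 413) (nat_lit 287)) (XT.nd (nat_lit 78) (nat_lit 0) (nat_lit 0) (XT.lf (nat_lit 0) (nat_lit 791307364078) (nat_lit 152) (nat_lit 145472519520) (nat_lit 0) (nat_lit 766315415470) (nat_lit 2) (nat_lit 5) (nat_lit 4) (nat_lit 4) (nat_lit 2) (nat_lit 4) (nat_lit 501) (nat_lit 413) (nat_lit 286)) (XT.lf (nat_lit 0) (nat_lit 910189227288) (nat_lit 152) (nat_lit 39348758772) (nat_lit 0) (nat_lit 885197173321) (nat_lit 2) (nat_lit 5) (nat_lit 4) (nat_lit 4) (nat_lit 2) (nat_lit 4) (nat_lit 502) (nat_lit 413) (nat_lit 285)))) (XT.nd (nat_lit 78) (nat_lit 0) (nat_lit 0) (XT.lf (nat_lit 0) (nat_lit 79227212927) (nat_lit 76) (nat_lit 961259375604) (nat_lit 76) (nat_lit 936267224081) (nat_lit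 1) (nat_lit 4) (nat_lit 2) (nat_lit 5) (nat_lit 2) (nat_lit 4) (nat_lit 503) (nat_lit 413) (nat_lit 284)) (XT.nd (nat_lit 78) (nat_lit 0) (nat_lit 0) (XT.lf (nat_lit 0) (nat_lit 209526129371) (nat_lit 76) (nat_lit 972757018913) (nat_lit 76) (nat_lit 947764777062) (nat_lit 1) (nat_lit 4) (nat_lit 2) (nat_lit 5) (nat_lit 2) (nat_lit 4) (nat_lit 504) (nat_lit 413) (nat_lit 283)) (XT.lf (nat_lit 0) (nat_lit 350248096381) (nat_lit 76) (nat_lit 985174914968) (nat_lit 76) (nat_lit 960182589479) (nat_lit 1) (nat_lit 4) (nat_lit 2) (nat_lit 5) (nat_lit 2) (nat_lit 4) (nat_lit 505) (nat_lit 413) (nat_lit 282))))))))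
noncomputable def xc130 : XT := (XT.nd (nat_lit 55302) (nat_lit 0) (nat_lit 2964) (XT.nd (nat_lit 858) (nat_lit 0) (nat_lit 0) (XT.nd (nat_lit 390) (nat_lit 0) (nat_lit 0) (XT.nd (nat_lit 156) (nat_lit 0) (nat_lit 0) (XT.nd (nat_lit 78) (nat_lit 0) (nat_lit 0) (XT.lf (nat_lit 0) (nat_lit 502227021909) (nat_lit 76) (nat_lit 998586651300) (nat_lit 76) (nat_lit 973594248369) (nat_lit 1) (nat_lit 4) (nat_lit 2) (nat_lit 5) (nat_lit 2) (nat_lit 4) (nat_lit 506) (nat_lit 413) (nat_lit 281)) (XT.lf (nat_lit 0) (nat_lit 666363521811) (nat_lit 76) (nat_lit 1013071704866) (nat_lit 76) (nat_lit 988079230228) (nat_lit 1) (nat_lit 4) (nat_lit 2) (nat_lit 5) (nat_lit 2) (nat_lit 4) (nat_lit 507) (nat_lit 413) (nat_lit 280))) (XT.nd (nat_lit 78) (nat_lit 0) (nat_lit 0) (XT.lf (nat_lit 0) (nat_lit 843630256827) (nat_lit 76) (nat_lit 1028715913019) (nat_lit 76) (nat_lit 1003723371987) (nat_lit 1) (nat_lit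 4) (nat_lit 2) (nat_lit 5) (nat_lit 2) (nat_lit 4) (nat_lit 508) (nat_lit 413) (nat_lit 279)) (XT.nd (nat_lit 78) (nat_lit 0) (nat_lit 0) (XT.lf (nat_lit 0) (nat_lit 1035077696498) (nat_lit 76) (nat_lit 1045611982180) (nat_lit 76) (nat_lit 1020619379671) (nat_lit 1) (nat_lit 4) (nat_lit 2) (nat_lit 5) (nat_lit 2) (nat_lit 4) (nat_lit 509) (nat_lit 413) (nat_lit 278)) (XT.lf (nat_lit 0) (nat_lit 1241840344169) (nat_lit 76) (nat_lit 1063860037201) (nat_lit 76) (nat_lit 1038867377770) (nat_lit 1) (nat_lit 4) (nat_lit 2) (nat_lit 5) (nat_lit 2) (nat_lit 4) (nat_lit 510) (nat_lit 413) (nat_lit 277))))) (XT.nd (nat_lit 234) (nat_lit 0) (nat_lit 0) (XT.nd (nat_lit 78) (nat_lit 0) (nat_lit 0) (XT.lf (nat_lit 0) (nat_lit 1465143459976) (nat_lit 76) (nat_lit 1083568214705) (nat_lit 76) (nat_lit 1058575502568) (nat_lit 1) (nat_lit 4) (nat_lit 2) (nat_lit 5) (nat_lit 2) (nat_lit 4) (nat_lit 511) (nat_lit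 413) (nat_lit 276)) (XT.nd (nat_lit 78) (nat_lit 0) (nat_lit 0) (XT.lf (nat_lit 0) (nat_lit 1706310321641) (nat_lit 76) (nat_lit 1104853303893) (nat_lit 76) (nat_lit 1079860542954) (nat_lit 1) (nat_lit 4) (nat_lit 2) (nat_lit 5) (nat_lit 2) (nat_lit 4) (nat_lit 512) (nat_lit 413) (nat_lit 275)) (XT.lf (nat_lit 0) (nat_lit 1966770066122) (nat_lit 76) (nat_lit 1127841438625) (nat_lit 76) (nat_lit 1102848632500) (nat_lit 1) (nat_lit 4) (nat_lit 2) (nat_lit 5) (nat_lit 2) (nat_lit 4) (nat_lit 513) (nat_lit 413) (nat_lit 274)))) (XT.nd (nat_lit 78) (nat_lit 0) (nat_lit 0) (XT.lf (nat_lit 0) (nat_lit 2248066158573) (nat_lit 76) (nat_lit 1152668844887) (nat_lit 76) (nat_lit 1127675996921) (nat_lit 1) (nat_lit 4) (nat_lit 2) (nat_lit 5) (nat_lit 2) (nat_lit 4) (nat_lit 514) (nat_lit 413) (nat_lit 273)) (XT.nd (nat_lit 78) (nat_lit 0) (nat_lit 0) (XT.lf (nat_lit 0) (nat_lit 2551865538800) (nat_lit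 76) (nat_lit 1179482648047) (nat_lit 76) (nat_lit 1154489761342) (nat_lit 1) (nat_lit 4) (nat_lit 2) (nat_lit 5) (nat_lit 2) (nat_lit 4) (nat_lit 515) (nat_lit 413) (nat_lit 272)) (XT.lf (nat_lit 0) (nat_lit 2879968499426) (nat_lit 76) (nat_lit 1208441744718) (nat_lit 76) (nat_lit 1183448822142) (nat_lit 1) (nat_lit 4) (nat_lit 2) (nat_lit 5) (nat_lit 2) (nat_lit 4) (nat_lit 516) (nat_lit 413) (nat_lit 271)))))) (XT.nd (nat_lit 390) (nat_lit 0) (nat_lit 0) (XT.nd (nat_lit 156) (nat_lit 0) (nat_lit 0) (XT.nd (nat_lit 78) (nat_lit 0) (nat_lit 0) (XT.lf (nat_lit 0) (nat_lit 3234319354293) (nat_lit 76) (nat_lit 1239717744362) (nat_lit 76) (nat_lit 1214724788571) (nat_lit 1) (nat_lit 4) (nat_lit 2) (nat_lit 5) (nat_lit 2) (nat_lit 4) (nat_lit 517) (nat_lit 413) (nat_lit 270)) (XT.lf (nat_lit 0) (nat_lit 3617017960318) (nat_lit 76) (nat_lit 1273495986234) (nat_lit 76) (nat_lit 1248502999691)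 (nat_lit 1) (nat_lit 4) (nat_lit 2) (nat_lit 5) (nat_lit 2) (nat_lit 4) (nat_lit 518) (nat_lit 413) (nat_lit 269))) (XT.nd (nat_lit 78) (nat_lit 0) (nat_lit 0) (XT.lf (nat_lit 0) (nat_lit 4030332161092) (nat_lit 76) (nat_lit 1309976637696) (nat_lit 76) (nat_lit 1284983622676) (nat_lit 1) (nat_lit 4) (nat_lit 2) (nat_lit 5) (nat_lit 2) (nat_lit 4) (nat_lit 519) (nat_lit 413) (nat_lit 268)) (XT.nd (nat_lit 78) (nat_lit 0) (nat_lit 0) (XT.lf (nat_lit 0) (nat_lit 4476711225954) (nat_lit 76) (nat_lit 1349375880384) (nat_lit 76) (nat_lit 1324382838999) (nat_lit 1) (nat_lit 4) (nat_lit 2) (nat_lit 5) (nat_lit 2) (nat_lit 4) (nat_lit 520) (nat_lit 413) (nat_lit 267)) (XT.lf (nat_lit 0) (nat_lit 4958800364176) (nat_lit 76) (nat_lit 1391927191293) (nat_lit 76) (nat_lit 1366934125494) (nat_lit 1) (nat_lit 4) (nat_lit 2) (nat_lit 5) (nat_lit 2) (nat_lit 4) (nat_lit 521) (nat_lit 413) (nat_lit 266)))))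 (XT.nd (nat_lit 234) (nat_lit 0) (nat_lit 0) (XT.nd (nat_lit 78) (nat_lit 0) (nat_lit 0) (XT.lf (nat_lit 0) (nat_lit 5479456400282) (nat_lit 76) (nat_lit 1437882726339) (nat_lit 76) (nat_lit 1412889637936) (nat_lit 1) (nat_lit 4) (nat_lit 2) (nat_lit 5) (nat_lit 2) (nat_lit 4) (nat_lit 522) (nat_lit 413) (nat_lit 265)) (XT.nd (nat_lit 78) (nat_lit 0) (nat_lit 0) (XT.lf (nat_lit 0) (nat_lit 6041764703374) (nat_lit 76) (nat_lit 1487514814619) (nat_lit 76) (nat_lit 1462521705285) (nat_lit 1) (nat_lit 4) (nat_lit 2) (nat_lit 5) (nat_lit 2) (nat_lit 4) (nat_lit 523) (nat_lit 413) (nat_lit 264)) (XT.lf (nat_lit 0) (nat_lit 6649057470804) (nat_lit 76) (nat_lit 1541117572211) (nat_lit 76) (nat_lit 1516124443497) (nat_lit 1) (nat_lit 4) (nat_lit 2) (nat_lit 5) (nat_lit 2) (nat_lit 4) (nat_lit 524) (nat_lit 413) (nat_lit 263)))) (XT.nd (nat_lit 78) (nat_lit 0) (nat_lit 0) (XT.lf (nat_lit 0) (nat_lit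 7304933474527) (nat_lit 76) (nat_lit 1599008645086) (nat_lit 76) (nat_lit 1574015498428) (nat_lit 1) (nat_lit 4) (nat_lit 2) (nat_lit 5) (nat_lit 2) (nat_lit 4) (nat_lit 525) (nat_lit 413) (nat_lit 262)) (XT.nd (nat_lit 78) (nat_lit 0) (nat_lit 0) (XT.lf (nat_lit 0) (nat_lit 8013279387157) (nat_lit 76) (nat_lit 1661531091454) (nat_lit 76) (nat_lit 1636537928181) (nat_lit 1) (nat_lit 4) (nat_lit 2) (nat_lit 5) (nat_lit 2) (nat_lit 4) (nat_lit 526) (nat_lit 413) (nat_lit 261)) (XT.lf (nat_lit 0) (nat_lit 8778292814104) (nat_lit 76) (nat_lit 1729055414701) (nat_lit 76) (nat_lit 1704062236044) (nat_lit 1) (nat_lit 4) (nat_lit 2) (nat_lit 5) (nat_lit 2) (nat_lit 4) (nat_lit 527) (nat_lit 413) (nat_lit 260))))))) (XT.nd (nat_lit 858) (nat_lit 1216) (nat_lit 0) (XT.nd (nat_lit 390) (nat_lit 988) (nat_lit 0) (XT.nd (nat_lit 156) (nat_lit 0) (nat_lit 76) (XT.nd (nat_lit 78) (nat_lit 0) (nat_lit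 0) (XT.lf (nat_lit 0) (nat_lit 3584063847) (nat_lit 532) (nat_lit 1268765020) (nat_lit 532) (nat_lit 1268765020) (nat_lit 69) (nat_lit 3) (nat_lit 76) (nat_lit 3) (nat_lit 76) (nat_lit 5) (nat_lit 414) (nat_lit 414) (nat_lit 372)) (XT.lf (nat_lit 76) (nat_lit 3646093826) (nat_lit 0) (nat_lit 4327338336) (nat_lit 532) (nat_lit 4717706890) (nat_lit 70) (nat_lit 5) (nat_lit 69) (nat_lit 3) (nat_lit 76) (nat_lit 5) (nat_lit 415) (nat_lit 414) (nat_lit 371))) (XT.nd (nat_lit 78) (nat_lit 0) (nat_lit 0) (XT.lf (nat_lit 0) (nat_lit 8906729410) (nat_lit 456) (nat_lit 2766589537) (nat_lit 532) (nat_lit 1496551014) (nat_lit 70) (nat_lit 5) (nat_lit 76) (nat_lit 5) (nat_lit 77) (nat_lit 5) (nat_lit 416) (nat_lit 414) (nat_lit 370)) (XT.nd (nat_lit 78) (nat_lit 0) (nat_lit 76) (XT.lf (nat_lit 76) (nat_lit 4079418208) (nat_lit 0) (nat_lit 6005745311) (nat_lit 532) (nat_lit 3588124830) (nat_lit 71) (nat_lit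 5) (nat_lit 70) (nat_lit 5) (nat_lit 77) (nat_lit 5) (nat_lit 417) (nat_lit 414) (nat_lit 369)) (XT.lf (nat_lit 0) (nat_lit 11400851087) (nat_lit 456) (nat_lit 2614274337) (nat_lit 532) (nat_lit 198441354) (nat_lit 71) (nat_lit 5) (nat_lit 77) (nat_lit 5) (nat_lit 78) (nat_lit 5) (nat_lit 418) (nat_lit 414) (nat_lit 368))))) (XT.nd (nat_lit 234) (nat_lit 684) (nat_lit 0) (XT.nd (nat_lit 78) (nat_lit 456) (nat_lit 0) (XT.lf (nat_lit 76) (nat_lit 4990435288) (nat_lit 0) (nat_lit 8072741395) (nat_lit 532) (nat_lit 1714603176) (nat_lit 72) (nat_lit 5) (nat_lit 71) (nat_lit 5) (nat_lit 78) (nat_lit 5) (nat_lit 419) (nat_lit 414) (nat_lit 367)) (XT.nd (nat_lit 78) (nat_lit 456) (nat_lit 0) (XT.lf (nat_lit 76) (nat_lit 13325976607) (nat_lit 0) (nat_lit 1571294764) (nat_lit 532) (nat_lit 486777291) (nat_lit 72) (nat_lit 5) (nat_lit 71) (nat_lit 5) (nat_lit 78) (nat_lit 5) (nat_lit 420) (nat_lit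 414) (nat_lit 366)) (XT.lf (nat_lit 0) (nat_lit 1060105667) (nat_lit 532) (nat_lit 9590704850) (nat_lit 76) (nat_lit 5365386769) (nat_lit 65) (nat_lit 5) (nat_lit 72) (nat_lit 5) (nat_lit 66) (nat_lit 5) (nat_lit 421) (nat_lit 414) (nat_lit 365)))) (XT.nd (nat_lit 78) (nat_lit 684) (nat_lit 0) (XT.lf (nat_lit 0) (nat_lit 2773700427) (nat_lit 532) (nat_lit 1072291286) (nat_lit 76) (nat_lit 12846390741) (nat_lit 65) (nat_lit 5) (nat_lit 72) (nat_lit 5) (nat_lit 66) (nat_lit 5) (nat_lit 422) (nat_lit 414) (nat_lit 364)) (XT.nd (nat_lit 78) (nat_lit 228) (nat_lit 0) (XT.lf (nat_lit 0) (nat_lit 4891991931) (nat_lit 532) (nat_lit 8969513932) (nat_lit 76) (nat_lit 3539763509) (nat_lit 59) (nat_lit 5) (nat_lit 66) (nat_lit 5) (nat_lit 60) (nat_lit 5) (nat_lit 423) (nat_lit 414) (nat_lit 363)) (XT.lf (nat_lit 0) (nat_lit 489278884) (nat_lit 228) (nat_lit 6806516756) (nat_lit 304) (nat_lit 10861802202)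 (nat_lit 56) (nat_lit 5) (nat_lit 59) (nat_lit 5) (nat_lit 60) (nat_lit 5) (nat_lit 424) (nat_lit 414) (nat_lit 362)))))) (XT.nd (nat_lit 468) (nat_lit 532) (nat_lit 0) (XT.nd (nat_lit 234) (nat_lit 456) (nat_lit 0) (XT.nd (nat_lit 78) (nat_lit 228) (nat_lit 0) (XT.lf (nat_lit 0) (nat_lit 10138590535) (nat_lit 304) (nat_lit 7794211525) (nat_lit 76) (nat_lit 1021909009) (nat_lit 56) (nat_lit 5) (nat_lit 60) (nat_lit 5) (nat_lit 57) (nat_lit 5) (nat_lit 425) (nat_lit 414) (nat_lit 361)) (XT.nd (nat_lit 78) (nat_lit 0) (nat_lit 0) (XT.lf (nat_lit 0) (nat_lit 2807201922) (nat_lit 228) (nat_lit 10623250955) (nat_lit 304) (nat_lit 6367421411) (nat_lit 53) (nat_lit 5) (nat_lit 56) (nat_lit 5) (nat_lit 57) (nat_lit 5) (nat_lit 426) (nat_lit 414) (nat_lit 360)) (XT.lf (nat_lit 0) (nat_lit 14674399364) (nat_lit 228) (nat_lit 2502773499) (nat_lit 304) (nat_lit 3516008524) (nat_lit 53) (nat_lit 5)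 (nat_lit 56) (nat_lit 5) (nat_lit 57) (nat_lit 5) (nat_lit 427) (nat_lit 414) (nat_lit 359)))) (XT.nd (nat_lit 78) (nat_lit 304) (nat_lit 0) (XT.lf (nat_lit 0) (nat_lit 5952688736) (nat_lit 152) (nat_lit 15544745830) (nat_lit 228) (nat_lit 140784823) (nat_lit 51) (nat_lit 5) (nat_lit 53) (nat_lit 5) (nat_lit 54) (nat_lit 5) (nat_lit 428) (nat_lit 414) (nat_lit 358)) (XT.nd (nat_lit 78) (nat_lit 228) (nat_lit 0) (XT.lf (nat_lit 0) (nat_lit 3543296388) (nat_lit 228) (nat_lit 3600715127) (nat_lit 76) (nat_lit 15490983739) (nat_lit 50) (nat_lit 5) (nat_lit 53) (nat_lit 5) (nat_lit 51) (nat_lit 5) (nat_lit 429) (nat_lit 414) (nat_lit 357)) (XT.lf (nat_lit 0) (nat_lit 7787374778) (nat_lit 304) (nat_lit 13826424241) (nat_lit 76) (nat_lit 2075599957) (nat_lit 47) (nat_lit 5) (nat_lit 51) (nat_lit 5) (nat_lit 48) (nat_lit 5) (nat_lit 430) (nat_lit 414) (nat_lit 356))))) (XT.nd (nat_lit 234) (nat_lit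 228) (nat_lit 0) (XT.nd (nat_lit 78) (nat_lit 304) (nat_lit 0) (XT.lf (nat_lit 0) (nat_lit 12639963702) (nat_lit 304) (nat_lit 424253685) (nat_lit 76) (nat_lit 11742426705) (nat_lit 47) (nat_lit 5) (nat_lit 51) (nat_lit 5) (nat_lit 48) (nat_lit 5) (nat_lit 431) (nat_lit 414) (nat_lit 355)) (XT.nd (nat_lit 78) (nat_lit 152) (nat_lit 0) (XT.lf (nat_lit 0) (nat_lit 14766166513) (nat_lit 152) (nat_lit 3453440674) (nat_lit 228) (nat_lit 7766561094) (nat_lit 45) (nat_lit 5) (nat_lit 47) (nat_lit 5) (nat_lit 48) (nat_lit 5) (nat_lit 432) (nat_lit 414) (nat_lit 354)) (XT.lf (nat_lit 0) (nat_lit 3944130090) (nat_lit 152) (nat_lit 20559067811) (nat_lit 228) (nat_lit 2736257164) (nat_lit 43) (nat_lit 5) (nat_lit 45) (nat_lit 5) (nat_lit 46) (nat_lit 5) (nat_lit 433) (nat_lit 414) (nat_lit 353)))) (XT.nd (nat_lit 78) (nat_lit 152) (nat_lit 0) (XT.lf (nat_lit 0) (nat_lit 2950494661) (nat_lit 228) (nat_lit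 7794851693) (nat_lit 76) (nat_lit 17811363224) (nat_lit 42) (nat_lit 5) (nat_lit 45) (nat_lit 5) (nat_lit 43) (nat_lit 5) (nat_lit 434) (nat_lit 414) (nat_lit 352)) (XT.nd (nat_lit 78) (nat_lit 0) (nat_lit 0) (XT.lf (nat_lit 0) (nat_lit 9158072316) (nat_lit 228) (nat_lit 20641709207) (nat_lit 76) (nat_lit 156785364) (nat_lit 40) (nat_lit 5) (nat_lit 43) (nat_lit 5) (nat_lit 41) (nat_lit 5) (nat_lit 435) (nat_lit 414) (nat_lit 351)) (XT.lf (nat_lit 0) (nat_lit 16346020413) (nat_lit 228) (nat_lit 3521367931) (nat_lit 76) (nat_lit 11562328238) (nat_lit 40) (nat_lit 5) (nat_lit 43) (nat_lit 5) (nat_lit 41) (nat_lit 5) (nat_lit 436) (nat_lit 414) (nat_lit 350))))))))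
noncomputable def xc131 : XT := (XT.nd (nat_lit 1716) (nat_lit 988) (nat_lit 0) (XT.nd (nat_lit 858) (nat_lit 608) (nat_lit 0) (XT.nd (nat_lit 390) (nat_lit 532) (nat_lit 0) (XT.nd (nat_lit 156) (nat_lit 228) (nat_lit 0) (XT.nd (nat_lit 78) (nat_lit 76) (nat_lit 0) (XT.lf (nat_lit 0) (nat_lit 15735364472) (nat_lit 152) (nat_lit 8739116101) (nat_lit 228) (nat_lit 8517004155) (nat_lit 38) (nat_lit 5) (nat_lit 40) (nat_lit 5) (nat_lit 41) (nat_lit 5) (nat_lit 437) (nat_lit 414) (nat_lit 349)) (XT.lf (nat_lit 0) (nat_lit 2063572751) (nat_lit 76) (nat_lit 31404269868) (nat_lit 152) (nat_lit 1193185936) (nat_lit 37) (nat_lit 5) (nat_lit 38) (nat_lit 5) (nat_lit 39) (nat_lit 4) (nat_lit 438) (nat_lit 414) (nat_lit 348))) (XT.nd (nat_lit 78) (nat_lit 152) (nat_lit 0) (XT.lf (nat_lit 0) (nat_lit 7079083634) (nat_lit 152) (nat_lit 12937787405) (nat_lit 76) (nat_lit 16378463105) (nat_lit 36) (nat_lit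 5) (nat_lit 38) (nat_lit 5) (nat_lit 37) (nat_lit 5) (nat_lit 439) (nat_lit 414) (nat_lit 347)) (XT.nd (nat_lit 78) (nat_lit 0) (nat_lit 0) (XT.lf (nat_lit 0) (nat_lit 8678509021) (nat_lit 152) (nat_lit 7467285231) (nat_lit 228) (nat_lit 22104344140) (nat_lit 34) (nat_lit 5) (nat_lit 36) (nat_lit 5) (nat_lit 37) (nat_lit 5) (nat_lit 440) (nat_lit 414) (nat_lit 346)) (XT.lf (nat_lit 0) (nat_lit 26435774693) (nat_lit 228) (nat_lit 7640212681) (nat_lit 76) (nat_lit 6137508080) (nat_lit 34) (nat_lit 5) (nat_lit 37) (nat_lit 5) (nat_lit 35) (nat_lit 4) (nat_lit 441) (nat_lit 414) (nat_lit 345))))) (XT.nd (nat_lit 234) (nat_lit 228) (nat_lit 0) (XT.nd (nat_lit 78) (nat_lit 228) (nat_lit 0) (XT.lf (nat_lit 0) (nat_lit 16667466937) (nat_lit 76) (nat_lit 21465765401) (nat_lit 152) (nat_lit 4153949324) (nat_lit 33) (nat_lit 5) (nat_lit 34) (nat_lit 5) (nat_lit 35) (nat_lit 4) (nat_lit 442) (nat_lit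 414) (nat_lit 344)) (XT.nd (nat_lit 78) (nat_lit 152) (nat_lit 0) (XT.lf (nat_lit 0) (nat_lit 6131470386) (nat_lit 152) (nat_lit 1329439746) (nat_lit 76) (nat_lit 37037539239) (nat_lit 32) (nat_lit 5) (nat_lit 34) (nat_lit 5) (nat_lit 33) (nat_lit 5) (nat_lit 443) (nat_lit 414) (nat_lit 343)) (XT.lf (nat_lit 0) (nat_lit 17836213012) (nat_lit 228) (nat_lit 20947648218) (nat_lit 76) (nat_lit 8028455134) (nat_lit 30) (nat_lit 5) (nat_lit 33) (nat_lit 5) (nat_lit 31) (nat_lit 4) (nat_lit 444) (nat_lit 414) (nat_lit 342)))) (XT.nd (nat_lit 78) (nat_lit 152) (nat_lit 0) (XT.lf (nat_lit 0) (nat_lit 6094701057) (nat_lit 76) (nat_lit 24750780556) (nat_lit 152) (nat_lit 18436361495) (nat_lit 29) (nat_lit 5) (nat_lit 30) (nat_lit 5) (nat_lit 31) (nat_lit 4) (nat_lit 445) (nat_lit 414) (nat_lit 341)) (XT.nd (nat_lit 78) (nat_lit 152) (nat_lit 0) (XT.lf (nat_lit 0) (nat_lit 36475206409) (nat_lit 76)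 (nat_lit 8983823636) (nat_lit 152) (nat_lit 6444820842) (nat_lit 29) (nat_lit 5) (nat_lit 30) (nat_lit 5) (nat_lit 31) (nat_lit 4) (nat_lit 446) (nat_lit 414) (nat_lit 340)) (XT.lf (nat_lit 0) (nat_lit 6742662938) (nat_lit 152) (nat_lit 39766085469) (nat_lit 76) (nat_lit 8169388643) (nat_lit 27) (nat_lit 5) (nat_lit 29) (nat_lit 5) (nat_lit 28) (nat_lit 4) (nat_lit 447) (nat_lit 414) (nat_lit 339)))))) (XT.nd (nat_lit 390) (nat_lit 304) (nat_lit 0) (XT.nd (nat_lit 156) (nat_lit 228) (nat_lit 0) (XT.nd (nat_lit 78) (nat_lit 76) (nat_lit 0) (XT.lf (nat_lit 0) (nat_lit 21294470638) (nat_lit 152) (nat_lit 9510769080) (nat_lit 76) (nat_lit 26803135075) (nat_lit 27) (nat_lit 5) (nat_lit 29) (nat_lit 5) (nat_lit 28) (nat_lit 4) (nat_lit 448) (nat_lit 414) (nat_lit 338)) (XT.lf (nat_lit 0) (nat_lit 24369307759) (nat_lit 76) (nat_lit 13219200722) (nat_lit 152) (nat_lit 23138277673) (nat_lit 26)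 (nat_lit 5) (nat_lit 27) (nat_lit 5) (nat_lit 28) (nat_lit 4) (nat_lit 449) (nat_lit 414) (nat_lit 337))) (XT.nd (nat_lit 78) (nat_lit 228) (nat_lit 0) (XT.lf (nat_lit 0) (nat_lit 55583814987) (nat_lit 152) (nat_lit 2733609438) (nat_lit 0) (nat_lit 5745427684) (nat_lit 26) (nat_lit 5) (nat_lit 28) (nat_lit 4) (nat_lit 26) (nat_lit 4) (nat_lit 450) (nat_lit 414) (nat_lit 336)) (XT.nd (nat_lit 78) (nat_lit 76) (nat_lit 0) (XT.lf (nat_lit 0) (nat_lit 8192816965) (nat_lit 152) (nat_lit 32806474452) (nat_lit 76) (nat_lit 26555750131) (nat_lit 24) (nat_lit 5) (nat_lit 26) (nat_lit 5) (nat_lit 25) (nat_lit 4) (nat_lit 451) (nat_lit 414) (nat_lit 335)) (XT.lf (nat_lit 0) (nat_lit 4029818105) (nat_lit 76) (nat_lit 21876826494) (nat_lit 152) (nat_lit 45389038747) (nat_lit 23) (nat_lit 5) (nat_lit 24) (nat_lit 5) (nat_lit 25) (nat_lit 4) (nat_lit 452) (nat_lit 414) (nat_lit 334))))) (XT.nd (nat_lit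 234) (nat_lit 152) (nat_lit 0) (XT.nd (nat_lit 78) (nat_lit 152) (nat_lit 0) (XT.lf (nat_lit 0) (nat_lit 45665347988) (nat_lit 76) (nat_lit 262148283) (nat_lit 152) (nat_lit 29336887772) (nat_lit 23) (nat_lit 5) (nat_lit 24) (nat_lit 5) (nat_lit 25) (nat_lit 4) (nat_lit 453) (nat_lit 414) (nat_lit 333)) (XT.nd (nat_lit 78) (nat_lit 76) (nat_lit 0) (XT.lf (nat_lit 0) (nat_lit 11066841763) (nat_lit 76) (nat_lit 57297761037) (nat_lit 76) (nat_lit 11120811967) (nat_lit 22) (nat_lit 4) (nat_lit 23) (nat_lit 5) (nat_lit 23) (nat_lit 4) (nat_lit 454) (nat_lit 414) (nat_lit 332)) (XT.lf (nat_lit 0) (nat_lit 8955175838) (nat_lit 152) (nat_lit 27556408235) (nat_lit 76) (nat_lit 47449652802) (nat_lit 21) (nat_lit 5) (nat_lit 23) (nat_lit 5) (nat_lit 22) (nat_lit 4) (nat_lit 455) (nat_lit 414) (nat_lit 331)))) (XT.nd (nat_lit 78) (nat_lit 76) (nat_lit 0) (XT.lf (nat_lit 0) (nat_lit 17130969300) (nat_lit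 76) (nat_lit 13311293722) (nat_lit 152) (nat_lit 58297287627) (nat_lit 20) (nat_lit 5) (nat_lit 21) (nat_lit 5) (nat_lit 22) (nat_lit 4) (nat_lit 456) (nat_lit 414) (nat_lit 330)) (XT.nd (nat_lit 78) (nat_lit 76) (nat_lit 0) (XT.lf (nat_lit 0) (nat_lit 54697673375) (nat_lit 152) (nat_lit 27193311470) (nat_lit 0) (nat_lit 11925196852) (nat_lit 20) (nat_lit 5) (nat_lit 22) (nat_lit 4) (nat_lit 20) (nat_lit 4) (nat_lit 457) (nat_lit 414) (nat_lit 329)) (XT.lf (nat_lit 0) (nat_lit 21493597702) (nat_lit 76) (nat_lit 60256919073) (nat_lit 76) (nat_lit 17479867055) (nat_lit 19) (nat_lit 4) (nat_lit 20) (nat_lit 5) (nat_lit 20) (nat_lit 4) (nat_lit 458) (nat_lit 414) (nat_lit 328))))))) (XT.nd (nat_lit 858) (nat_lit 380) (nat_lit 0) (XT.nd (nat_lit 390) (nat_lit 380) (nat_lit 0) (XT.nd (nat_lit 156) (nat_lit 76) (nat_lit 0) (XT.nd (nat_lit 78) (nat_lit 76) (nat_lit 0) (XT.lf (nat_lit 0) (nat_lit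 6352404488) (nat_lit 152) (nat_lit 29568287252) (nat_lit 76) (nat_lit 69085124898) (nat_lit 18) (nat_lit 5) (nat_lit 20) (nat_lit 5) (nat_lit 19) (nat_lit 4) (nat_lit 459) (nat_lit 414) (nat_lit 327)) (XT.lf (nat_lit 0) (nat_lit 23147362274) (nat_lit 76) (nat_lit 8550990424) (nat_lit 152) (nat_lit 79464493120) (nat_lit 17) (nat_lit 5) (nat_lit 18) (nat_lit 5) (nat_lit 19) (nat_lit 4) (nat_lit 460) (nat_lit 414) (nat_lit 326))) (XT.nd (nat_lit 78) (nat_lit 76) (nat_lit 0) (XT.lf (nat_lit 0) (nat_lit 60401472033) (nat_lit 152) (nat_lit 36522433651) (nat_lit 0) (nat_lit 20782172482) (nat_lit 17) (nat_lit 5) (nat_lit 19) (nat_lit 4) (nat_lit 17) (nat_lit 4) (nat_lit 461) (nat_lit 414) (nat_lit 325)) (XT.nd (nat_lit 78) (nat_lit 0) (nat_lit 0) (XT.lf (nat_lit 0) (nat_lit 19851507311) (nat_lit 76) (nat_lit 72244049256) (nat_lit 76) (nat_lit 32621635700) (nat_lit 16) (nat_lit 4) (nat_lit 17) (nat_lit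 5) (nat_lit 17) (nat_lit 4) (nat_lit 462) (nat_lit 414) (nat_lit 324)) (XT.lf (nat_lit 0) (nat_lit 82803165204) (nat_lit 76) (nat_lit 44515907593) (nat_lit 76) (nat_lit 4890610698) (nat_lit 16) (nat_lit 4) (nat_lit 17) (nat_lit 5) (nat_lit 17) (nat_lit 4) (nat_lit 463) (nat_lit 414) (nat_lit 323))))) (XT.nd (nat_lit 234) (nat_lit 228) (nat_lit 0) (XT.nd (nat_lit 78) (nat_lit 0) (nat_lit 0) (XT.lf (nat_lit 0) (nat_lit 10398057502) (nat_lit 76) (nat_lit 13652915648) (nat_lit 152) (nat_lit 116182737893) (nat_lit 14) (nat_lit 5) (nat_lit 15) (nat_lit 5) (nat_lit 16) (nat_lit 4) (nat_lit 464) (nat_lit 414) (nat_lit 322)) (XT.nd (nat_lit 78) (nat_lit 0) (nat_lit 0) (XT.lf (nat_lit 0) (nat_lit 56898467365) (nat_lit 152) (nat_lit 71639030374) (nat_lit 0) (nat_lit 20203616763) (nat_lit 14) (nat_lit 5) (nat_lit 16) (nat_lit 4) (nat_lit 14) (nat_lit 4) (nat_lit 465) (nat_lit 414) (nat_lit 321)) (XT.lf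 (nat_lit 0) (nat_lit 92724281723) (nat_lit 152) (nat_lit 9149475373) (nat_lit 0) (nat_lit 56027311782) (nat_lit 14) (nat_lit 5) (nat_lit 16) (nat_lit 4) (nat_lit 14) (nat_lit 4) (nat_lit 466) (nat_lit 414) (nat_lit 320)))) (XT.nd (nat_lit 78) (nat_lit 152) (nat_lit 0) (XT.lf (nat_lit 0) (nat_lit 61403315407) (nat_lit 76) (nat_lit 71485800202) (nat_lit 76) (nat_lit 34786867909) (nat_lit 13) (nat_lit 4) (nat_lit 14) (nat_lit 5) (nat_lit 14) (nat_lit 4) (nat_lit 467) (nat_lit 414) (nat_lit 319)) (XT.nd (nat_lit 78) (nat_lit 152) (nat_lit 0) (XT.lf (nat_lit 0) (nat_lit 138113288754) (nat_lit 76) (nat_lit 38400317260) (nat_lit 76) (nat_lit 1699567975) (nat_lit 13) (nat_lit 4) (nat_lit 14) (nat_lit 5) (nat_lit 14) (nat_lit 4) (nat_lit 468) (nat_lit 414) (nat_lit 318)) (XT.lf (nat_lit 0) (nat_lit 32149410443) (nat_lit 76) (nat_lit 952436734) (nat_lit 152) (nat_lit 156364435029) (nat_lit 11) (nat_lit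 5) (nat_lit 12) (nat_lit 5) (nat_lit 13) (nat_lit 4) (nat_lit 469) (nat_lit 414) (nat_lit 317)))))) (XT.nd (nat_lit 468) (nat_lit 152) (nat_lit 0) (XT.nd (nat_lit 234) (nat_lit 152) (nat_lit 0) (XT.nd (nat_lit 78) (nat_lit 76) (nat_lit 0) (XT.lf (nat_lit 0) (nat_lit 72666705150) (nat_lit 152) (nat_lit 90102180800) (nat_lit 0) (nat_lit 38681529721) (nat_lit 11) (nat_lit 5) (nat_lit 13) (nat_lit 4) (nat_lit 11) (nat_lit 4) (nat_lit 470) (nat_lit 414) (nat_lit 316)) (XT.nd (nat_lit 78) (nat_lit 76) (nat_lit 0) (XT.lf (nat_lit 0) (nat_lit 115418253739) (nat_lit 152) (nat_lit 17541563331) (nat_lit 0) (nat_lit 81431742766) (nat_lit 11) (nat_lit 5) (nat_lit 13) (nat_lit 4) (nat_lit 11) (nat_lit 4) (nat_lit 471) (nat_lit 414) (nat_lit 315)) (XT.lf (nat_lit 0) (nat_lit 64020437166) (nat_lit 76) (nat_lit 99106185214) (nat_lit 76) (nat_lit 65118437626) (nat_lit 10) (nat_lit 4) (nat_lit 11) (nat_lit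 5) (nat_lit 11) (nat_lit 4) (nat_lit 472) (nat_lit 414) (nat_lit 314)))) (XT.nd (nat_lit 78) (nat_lit 152) (nat_lit 0) (XT.lf (nat_lit 0) (nat_lit 153099126639) (nat_lit 76) (nat_lit 62029235105) (nat_lit 76) (nat_lit 28040342504) (nat_lit 10) (nat_lit 4) (nat_lit 11) (nat_lit 5) (nat_lit 11) (nat_lit 4) (nat_lit 473) (nat_lit 414) (nat_lit 313)) (XT.nd (nat_lit 78) (nat_lit 76) (nat_lit 0) (XT.lf (nat_lit 0) (nat_lit 11400741066) (nat_lit 152) (nat_lit 10276411380) (nat_lit 76) (nat_lit 237586213632) (nat_lit 9) (nat_lit 5) (nat_lit 11) (nat_lit 5) (nat_lit 10) (nat_lit 4) (nat_lit 474) (nat_lit 414) (nat_lit 312)) (XT.lf (nat_lit 0) (nat_lit 54977646208) (nat_lit 152) (nat_lit 197905495044) (nat_lit 0) (nat_lit 23504558742) (nat_lit 8) (nat_lit 5) (nat_lit 10) (nat_lit 4) (nat_lit 8) (nat_lit 4) (nat_lit 475) (nat_lit 414) (nat_lit 311))))) (XT.nd (nat_lit 234) (nat_lit 76) (nat_lit 0)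 (XT.nd (nat_lit 78) (nat_lit 76) (nat_lit 0) (XT.lf (nat_lit 0) (nat_lit 102889462371) (nat_lit 152) (nat_lit 120509084391) (nat_lit 0) (nat_lit 71415533287) (nat_lit 8) (nat_lit 5) (nat_lit 10) (nat_lit 4) (nat_lit 8) (nat_lit 4) (nat_lit 476) (nat_lit 414) (nat_lit 310)) (XT.nd (nat_lit 78) (nat_lit 76) (nat_lit 0) (XT.lf (nat_lit 0) (nat_lit 154631855616) (nat_lit 152) (nat_lit 36925757199) (nat_lit 0) (nat_lit 123157147255) (nat_lit 8) (nat_lit 5) (nat_lit 10) (nat_lit 4) (nat_lit 8) (nat_lit 4) (nat_lit 477) (nat_lit 414) (nat_lit 309)) (XT.lf (nat_lit 0) (nat_lit 56148574222) (nat_lit 76) (nat_lit 155713247871) (nat_lit 76) (nat_lit 124237817957) (nat_lit 7) (nat_lit 4) (nat_lit 8) (nat_lit 5) (nat_lit 8) (nat_lit 4) (nat_lit 478) (nat_lit 414) (nat_lit 308)))) (XT.nd (nat_lit 78) (nat_lit 76) (nat_lit 0) (XT.lf (nat_lit 0) (nat_lit 158764524088) (nat_lit 76) (nat_lit 115913142976)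 (nat_lit 76) (nat_lit 84437044958) (nat_lit 7) (nat_lit 4) (nat_lit 8) (nat_lit 5) (nat_lit 8) (nat_lit 4) (nat_lit 479) (nat_lit 414) (nat_lit 307)) (XT.nd (nat_lit 78) (nat_lit 76) (nat_lit 0) (XT.lf (nat_lit 0) (nat_lit 269585741981) (nat_lit 76) (nat_lit 72931061299) (nat_lit 76) (nat_lit 41454344666) (nat_lit 7) (nat_lit 4) (nat_lit 8) (nat_lit 5) (nat_lit 8) (nat_lit 4) (nat_lit 480) (nat_lit 414) (nat_lit 306)) (XT.lf (nat_lit 0) (nat_lit 4716626048) (nat_lit 152) (nat_lit 21666707244) (nat_lit 76) (nat_lit 384423359265) (nat_lit 6) (nat_lit 5) (nat_lit 8) (nat_lit 5) (nat_lit 7) (nat_lit 4) (nat_lit 481) (nat_lit 414) (nat_lit 305))))))))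
noncomputable def xc132 : XT := (XT.nd (nat_lit 1716) (nat_lit 76) (nat_lit 0) (XT.nd (nat_lit 858) (nat_lit 152) (nat_lit 0) (XT.nd (nat_lit 390) (nat_lit 0) (nat_lit 0) (XT.nd (nat_lit 156) (nat_lit 76) (nat_lit 0) (XT.nd (nat_lit 78) (nat_lit 0) (nat_lit 0) (XT.lf (nat_lit 0) (nat_lit 54952470523) (nat_lit 152) (nat_lit 358735265696) (nat_lit 0) (nat_lit 25806341090) (nat_lit 5) (nat_lit 5) (nat_lit 7) (nat_lit 4) (nat_lit 5) (nat_lit 4) (nat_lit 482) (nat_lit 414) (nat_lit 304)) (XT.lf (nat_lit 0) (nat_lit 110498522890) (nat_lit 152) (nat_lit 278522684028) (nat_lit 0) (nat_lit 81351938757) (nat_lit 5) (nat_lit 5) (nat_lit 7) (nat_lit 4) (nat_lit 5) (nat_lit 4) (nat_lit 483) (nat_lit 414) (nat_lit 303))) (XT.nd (nat_lit 78) (nat_lit 76) (nat_lit 0) (XT.lf (nat_lit 0) (nat_lit 170486653524) (nat_lit 152) (nat_lit 191896366145) (nat_lit 0) (nat_lit 141339648372) (nat_lit 5) (nat_lit 5)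 (nat_lit 7) (nat_lit 4) (nat_lit 5) (nat_lit 4) (nat_lit 484) (nat_lit 414) (nat_lit 302)) (XT.nd (nat_lit 78) (nat_lit 76) (nat_lit 0) (XT.lf (nat_lit 0) (nat_lit 235272347644) (nat_lit 152) (nat_lit 98342970904) (nat_lit 0) (nat_lit 206124952659) (nat_lit 5) (nat_lit 5) (nat_lit 7) (nat_lit 4) (nat_lit 5) (nat_lit 4) (nat_lit 485) (nat_lit 414) (nat_lit 301)) (XT.lf (nat_lit 0) (nat_lit 2833642457) (nat_lit 76) (nat_lit 302474027185) (nat_lit 76) (nat_lit 273326271245) (nat_lit 4) (nat_lit 4) (nat_lit 5) (nat_lit 5) (nat_lit 5) (nat_lit 4) (nat_lit 486) (nat_lit 414) (nat_lit 300))))) (XT.nd (nat_lit 234) (nat_lit 0) (nat_lit 0) (XT.nd (nat_lit 78) (nat_lit 0) (nat_lit 0) (XT.lf (nat_lit 0) (nat_lit 117694503994) (nat_lit 76) (nat_lit 265938843954) (nat_lit 76) (nat_lit 236790753795) (nat_lit 4) (nat_lit 4) (nat_lit 5) (nat_lit 5) (nat_lit 5) (nat_lit 4) (nat_lit 487) (nat_lit 414) (nat_lit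 299)) (XT.nd (nat_lit 78) (nat_lit 0) (nat_lit 0) (XT.lf (nat_lit 0) (nat_lit 241741704094) (nat_lit 76) (nat_lit 226482135168) (nat_lit 76) (nat_lit 197333735547) (nat_lit 4) (nat_lit 4) (nat_lit 5) (nat_lit 5) (nat_lit 5) (nat_lit 4) (nat_lit 488) (nat_lit 414) (nat_lit 298)) (XT.lf (nat_lit 0) (nat_lit 375710337276) (nat_lit 76) (nat_lit 183870083294) (nat_lit 76) (nat_lit 154721397135) (nat_lit 4) (nat_lit 4) (nat_lit 5) (nat_lit 5) (nat_lit 5) (nat_lit 4) (nat_lit 489) (nat_lit 414) (nat_lit 297)))) (XT.nd (nat_lit 78) (nat_lit 0) (nat_lit 0) (XT.lf (nat_lit 0) (nat_lit 520394291736) (nat_lit 76) (nat_lit 137850172470) (nat_lit 76) (nat_lit 108701220997) (nat_lit 4) (nat_lit 4) (nat_lit 5) (nat_lit 5) (nat_lit 5) (nat_lit 4) (nat_lit 490) (nat_lit 414) (nat_lit 296)) (XT.nd (nat_lit 78) (nat_lit 0) (nat_lit 0) (XT.lf (nat_lit 0) (nat_lit 676650953871) (nat_lit 76) (nat_lit 88149692111)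 (nat_lit 76) (nat_lit 59000494978) (nat_lit 4) (nat_lit 4) (nat_lit 5) (nat_lit 5) (nat_lit 5) (nat_lit 4) (nat_lit 491) (nat_lit 414) (nat_lit 295)) (XT.lf (nat_lit 0) (nat_lit 845406289087) (nat_lit 76) (nat_lit 34474120854) (nat_lit 76) (nat_lit 5324696257) (nat_lit 4) (nat_lit 4) (nat_lit 5) (nat_lit 5) (nat_lit 5) (nat_lit 4) (nat_lit 492) (nat_lit 414) (nat_lit 294)))))) (XT.nd (nat_lit 390) (nat_lit 0) (nat_lit 0) (XT.nd (nat_lit 156) (nat_lit 0) (nat_lit 0) (XT.nd (nat_lit 78) (nat_lit 0) (nat_lit 0) (XT.lf (nat_lit 0) (nat_lit 52553454381) (nat_lit 152) (nat_lit 873100248495) (nat_lit 0) (nat_lit 25563051408) (nat_lit 2) (nat_lit 5) (nat_lit 4) (nat_lit 4) (nat_lit 2) (nat_lit 4) (nat_lit 493) (nat_lit 414) (nat_lit 293)) (XT.lf (nat_lit 0) (nat_lit 116785186107) (nat_lit 152) (nat_lit 815757601190) (nat_lit 0) (nat_lit 89794602566) (nat_lit 2) (nat_lit 5) (nat_lit 4) (nat_lit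 4) (nat_lit 2) (nat_lit 4) (nat_lit 494) (nat_lit 414) (nat_lit 292))) (XT.nd (nat_lit 78) (nat_lit 0) (nat_lit 0) (XT.lf (nat_lit 0) (nat_lit 186154655329) (nat_lit 152) (nat_lit 753829180467) (nat_lit 0) (nat_lit 159163904596) (nat_lit 2) (nat_lit 5) (nat_lit 4) (nat_lit 4) (nat_lit 2) (nat_lit 4) (nat_lit 495) (nat_lit 414) (nat_lit 291)) (XT.nd (nat_lit 78) (nat_lit 0) (nat_lit 0) (XT.lf (nat_lit 0) (nat_lit 261072940386) (nat_lit 152) (nat_lit 686948003093) (nat_lit 0) (nat_lit 234082034844) (nat_lit 2) (nat_lit 5) (nat_lit 4) (nat_lit 4) (nat_lit 2) (nat_lit 4) (nat_lit 496) (nat_lit 414) (nat_lit 290)) (XT.lf (nat_lit 0) (nat_lit 341984001483) (nat_lit 152) (nat_lit 614717736164) (nat_lit 0) (nat_lit 314992952601) (nat_lit 2) (nat_lit 5) (nat_lit 4) (nat_lit 4) (nat_lit 2) (nat_lit 4) (nat_lit 497) (nat_lit 414) (nat_lit 289))))) (XT.nd (nat_lit 234) (nat_lit 0) (nat_lit 0) (XT.nd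 (nat_lit 78) (nat_lit 0) (nat_lit 0) (XT.lf (nat_lit 0) (nat_lit 429367311576) (nat_lit 152) (nat_lit 536710348469) (nat_lit 0) (nat_lit 402376129971) (nat_lit 2) (nat_lit 5) (nat_lit 4) (nat_lit 4) (nat_lit 2) (nat_lit 4) (nat_lit 498) (nat_lit 414) (nat_lit 288)) (XT.nd (nat_lit 78) (nat_lit 0) (nat_lit 0) (XT.lf (nat_lit 0) (nat_lit 523740697687) (nat_lit 152) (nat_lit 452463574007) (nat_lit 0) (nat_lit 496749393191) (nat_lit 2) (nat_lit 5) (nat_lit 4) (nat_lit 4) (nat_lit 2) (nat_lit 4) (nat_lit 499) (nat_lit 414) (nat_lit 287)) (XT.lf (nat_lit 0) (nat_lit 625663409513) (nat_lit 152) (nat_lit 361478172633) (nat_lit 0) (nat_lit 598671991228) (nat_lit 2) (nat_lit 5) (nat_lit 4) (nat_lit 4) (nat_lit 2) (nat_lit 4) (nat_lit 500) (nat_lit 414) (nat_lit 286)))) (XT.nd (nat_lit 78) (nat_lit 0) (nat_lit 0) (XT.lf (nat_lit 0) (nat_lit 735739433493) (nat_lit 152) (nat_lit 263214971597) (nat_lit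 0) (nat_lit 708747909849) (nat_lit 2) (nat_lit 5) (nat_lit 4) (nat_lit 4) (nat_lit 2) (nat_lit 4) (nat_lit 501) (nat_lit 414) (nat_lit 285)) (XT.nd (nat_lit 78) (nat_lit 0) (nat_lit 0) (XT.lf (nat_lit 0) (nat_lit 854621071991) (nat_lit 152) (nat_lit 157091670450) (nat_lit 0) (nat_lit 827629450792) (nat_lit 2) (nat_lit 5) (nat_lit 4) (nat_lit 4) (nat_lit 2) (nat_lit 4) (nat_lit 502) (nat_lit 414) (nat_lit 284)) (XT.lf (nat_lit 0) (nat_lit 983012808792) (nat_lit 152) (nat_lit 42479390370) (nat_lit 0) (nat_lit 956021097264) (nat_lit 2) (nat_lit 5) (nat_lit 4) (nat_lit 4) (nat_lit 2) (nat_lit 4) (nat_lit 503) (nat_lit 414) (nat_lit 283))))))) (XT.nd (nat_lit 858) (nat_lit 0) (nat_lit 0) (XT.nd (nat_lit 390) (nat_lit 0) (nat_lit 0) (XT.nd (nat_lit 156) (nat_lit 0) (nat_lit 0) (XT.nd (nat_lit 78) (nat_lit 0) (nat_lit 0) (XT.lf (nat_lit 0) (nat_lit 85582221872) (nat_lit 76) (nat_lit 1038151516439)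 (nat_lit 76) (nat_lit 1011159721273) (nat_lit 1) (nat_lit 4) (nat_lit 2) (nat_lit 5) (nat_lit 2) (nat_lit 4) (nat_lit 504) (nat_lit 414) (nat_lit 282)) (XT.lf (nat_lit 0) (nat_lit 226303804823) (nat_lit 76) (nat_lit 1050569608933) (nat_lit 76) (nat_lit 1023577736325) (nat_lit 1) (nat_lit 4) (nat_lit 2) (nat_lit 5) (nat_lit 2) (nat_lit 4) (nat_lit 505) (nat_lit 414) (nat_lit 281))) (XT.nd (nat_lit 78) (nat_lit 0) (nat_lit 0) (XT.lf (nat_lit 0) (nat_lit 378282374742) (nat_lit 76) (nat_lit 1063981527153) (nat_lit 76) (nat_lit 1036989582839) (nat_lit 1) (nat_lit 4) (nat_lit 2) (nat_lit 5) (nat_lit 2) (nat_lit 4) (nat_lit 506) (nat_lit 414) (nat_lit 280)) (XT.nd (nat_lit 78) (nat_lit 0) (nat_lit 0) (XT.lf (nat_lit 0) (nat_lit 542418545375) (nat_lit 76) (nat_lit 1078466749134) (nat_lit 76) (nat_lit 1051474738425) (nat_lit 1) (nat_lit 4) (nat_lit 2) (nat_lit 5) (nat_lit 2) (nat_lit 4) (nat_lit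 507) (nat_lit 414) (nat_lit 279)) (XT.lf (nat_lit 0) (nat_lit 719684975513) (nat_lit 76) (nat_lit 1094111113227) (nat_lit 76) (nat_lit 1067119041042) (nat_lit 1) (nat_lit 4) (nat_lit 2) (nat_lit 5) (nat_lit 2) (nat_lit 4) (nat_lit 508) (nat_lit 414) (nat_lit 278))))) (XT.nd (nat_lit 234) (nat_lit 0) (nat_lit 0) (XT.nd (nat_lit 78) (nat_lit 0) (nat_lit 0) (XT.lf (nat_lit 0) (nat_lit 911132132889) (nat_lit 76) (nat_lit 1111007326776) (nat_lit 76) (nat_lit 1084015197668) (nat_lit 1) (nat_lit 4) (nat_lit 2) (nat_lit 5) (nat_lit 2) (nat_lit 4) (nat_lit 509) (nat_lit 414) (nat_lit 277)) (XT.nd (nat_lit 78) (nat_lit 0) (nat_lit 0) (XT.lf (nat_lit 0) (nat_lit 1117894519176) (nat_lit 76) (nat_lit 1129255515490) (nat_lit 76) (nat_lit 1102263333676) (nat_lit 1) (nat_lit 4) (nat_lit 2) (nat_lit 5) (nat_lit 2) (nat_lit 4) (nat_lit 510) (nat_lit 414) (nat_lit 276)) (XT.lf (nat_lit 0) (nat_lit 1341197392961)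 (nat_lit 76) (nat_lit 1148963816784) (nat_lit 76) (nat_lit 1121971586168) (nat_lit 1) (nat_lit 4) (nat_lit 2) (nat_lit 5) (nat_lit 2) (nat_lit 4) (nat_lit 511) (nat_lit 414) (nat_lit 275)))) (XT.nd (nat_lit 78) (nat_lit 0) (nat_lit 0) (XT.lf (nat_lit 0) (nat_lit 1582364030531) (nat_lit 76) (nat_lit 1170249020592) (nat_lit 76) (nat_lit 1143256744789) (nat_lit 1) (nat_lit 4) (nat_lit 2) (nat_lit 5) (nat_lit 2) (nat_lit 4) (nat_lit 512) (nat_lit 414) (nat_lit 274)) (XT.nd (nat_lit 78) (nat_lit 0) (nat_lit 0) (XT.lf (nat_lit 0) (nat_lit 1842823567518) (nat_lit 76) (nat_lit 1193237261454) (nat_lit 76) (nat_lit 1166244943812) (nat_lit 1) (nat_lit 4) (nat_lit 2) (nat_lit 5) (nat_lit 2) (nat_lit 4) (nat_lit 513) (nat_lit 414) (nat_lit 273)) (XT.lf (nat_lit 0) (nat_lit 2124119467844) (nat_lit 76) (nat_lit 1218064765984) (nat_lit 76) (nat_lit 1191072409601) (nat_lit 1) (nat_lit 4) (nat_lit 2) (nat_lit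 5) (nat_lit 2) (nat_lit 4) (nat_lit 514) (nat_lit 414) (nat_lit 272)))))) (XT.nd (nat_lit 468) (nat_lit 0) (nat_lit 0) (XT.nd (nat_lit 234) (nat_lit 0) (nat_lit 0) (XT.nd (nat_lit 78) (nat_lit 0) (nat_lit 0) (XT.lf (nat_lit 0) (nat_lit 2427918670177) (nat_lit 76) (nat_lit 1244878660134) (nat_lit 76) (nat_lit 1217886267880) (nat_lit 1) (nat_lit 4) (nat_lit 2) (nat_lit 5) (nat_lit 2) (nat_lit 4) (nat_lit 515) (nat_lit 414) (nat_lit 271)) (XT.nd (nat_lit 78) (nat_lit 0) (nat_lit 0) (XT.lf (nat_lit 0) (nat_lit 2756021466087) (nat_lit 76) (nat_lit 1273837841054) (nat_lit 76) (nat_lit 1246845415587) (nat_lit 1) (nat_lit 4) (nat_lit 2) (nat_lit 5) (nat_lit 2) (nat_lit 4) (nat_lit 516) (nat_lit 414) (nat_lit 270)) (XT.lf (nat_lit 0) (nat_lit 3110372168439) (nat_lit 76) (nat_lit 1305113918706) (nat_lit 76) (nat_lit 1278121462486) (nat_lit 1) (nat_lit 4) (nat_lit 2) (nat_lit 5) (nat_lit 2) (nat_lit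 4) (nat_lit 517) (nat_lit 414) (nat_lit 269)))) (XT.nd (nat_lit 78) (nat_lit 0) (nat_lit 0) (XT.lf (nat_lit 0) (nat_lit 3493070633246) (nat_lit 76) (nat_lit 1338892232809) (nat_lit 76) (nat_lit 1311899748113) (nat_lit 1) (nat_lit 4) (nat_lit 2) (nat_lit 5) (nat_lit 2) (nat_lit 4) (nat_lit 518) (nat_lit 414) (nat_lit 268)) (XT.nd (nat_lit 78) (nat_lit 0) (nat_lit 0) (XT.lf (nat_lit 0) (nat_lit 3906384703264) (nat_lit 76) (nat_lit 1375372951150) (nat_lit 76) (nat_lit 1348380440088) (nat_lit 1) (nat_lit 4) (nat_lit 2) (nat_lit 5) (nat_lit 2) (nat_lit 4) (nat_lit 519) (nat_lit 414) (nat_lit 267)) (XT.lf (nat_lit 0) (nat_lit 4352763647054) (nat_lit 76) (nat_lit 1414772255764) (nat_lit 76) (nat_lit 1387779720289) (nat_lit 1) (nat_lit 4) (nat_lit 2) (nat_lit 5) (nat_lit 2) (nat_lit 4) (nat_lit 520) (nat_lit 414) (nat_lit 266))))) (XT.nd (nat_lit 234) (nat_lit 0) (nat_lit 0) (XT.nd (nat_lit 78)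 (nat_lit 0) (nat_lit 0) (XT.lf (nat_lit 0) (nat_lit 4834852673173) (nat_lit 76) (nat_lit 1457323624012) (nat_lit 76) (nat_lit 1430331065932) (nat_lit 1) (nat_lit 4) (nat_lit 2) (nat_lit 5) (nat_lit 2) (nat_lit 4) (nat_lit 521) (nat_lit 414) (nat_lit 265)) (XT.nd (nat_lit 78) (nat_lit 0) (nat_lit 0) (XT.lf (nat_lit 0) (nat_lit 5355508605480) (nat_lit 76) (nat_lit 1503279212149) (nat_lit 76) (nat_lit 1476286633139) (nat_lit 1) (nat_lit 4) (nat_lit 2) (nat_lit 5) (nat_lit 2) (nat_lit 4) (nat_lit 522) (nat_lit 414) (nat_lit 264)) (XT.lf (nat_lit 0) (nat_lit 5917816812461) (nat_lit 76) (nat_lit 1552911349588) (nat_lit 76) (nat_lit 1525918751197) (nat_lit 1) (nat_lit 4) (nat_lit 2) (nat_lit 5) (nat_lit 2) (nat_lit 4) (nat_lit 523) (nat_lit 414) (nat_lit 263)))) (XT.nd (nat_lit 78) (nat_lit 0) (nat_lit 0) (XT.lf (nat_lit 0) (nat_lit 6525109490900) (nat_lit 76) (nat_lit 1606514152697) (nat_lit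 76) (nat_lit 1579521536362) (nat_lit 1) (nat_lit 4) (nat_lit 2) (nat_lit 5) (nat_lit 2) (nat_lit 4) (nat_lit 524) (nat_lit 414) (nat_lit 262)) (XT.nd (nat_lit 78) (nat_lit 0) (nat_lit 0) (XT.lf (nat_lit 0) (nat_lit 7180985412224) (nat_lit 76) (nat_lit 1664405267718) (nat_lit 76) (nat_lit 1637412634768) (nat_lit 1) (nat_lit 4) (nat_lit 2) (nat_lit 5) (nat_lit 2) (nat_lit 4) (nat_lit 525) (nat_lit 414) (nat_lit 261)) (XT.lf (nat_lit 0) (nat_lit 7889331248559) (nat_lit 76) (nat_lit 1726927753110) (nat_lit 76) (nat_lit 1699935104776) (nat_lit 1) (nat_lit 4) (nat_lit 2) (nat_lit 5) (nat_lit 2) (nat_lit 4) (nat_lit 526) (nat_lit 414) (nat_lit 260))))))))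
noncomputable def xc133 : XT := (XT.nd (nat_lit 55380) (nat_lit 0) (nat_lit 1444) (XT.nd (nat_lit 54522) (nat_lit 0) (nat_lit 3116) (XT.nd (nat_lit 54054) (nat_lit 0) (nat_lit 4408) (XT.nd (nat_lit 53820) (nat_lit 0) (nat_lit 5168) (XT.nd (nat_lit 53742) (nat_lit 0) (nat_lit 5168) (XT.lf (nat_lit 0) (nat_lit 8654344604861) (nat_lit 76) (nat_lit 1794452112490) (nat_lit 76) (nat_lit 1767459449911) (nat_lit 1) (nat_lit 4) (nat_lit 2) (nat_lit 5) (nat_lit 2) (nat_lit 4) (nat_lit 527) (nat_lit 414) (nat_lit 259)) (XT.lf (nat_lit 0) (nat_lit 4291316739) (nat_lit 532) (nat_lit 1143039762) (nat_lit 532) (nat_lit 1143039762) (nat_lit 69) (nat_lit 3) (nat_lit 76) (nat_lit 3) (nat_lit 76) (nat_lit 5) (nat_lit 415) (nat_lit 415) (nat_lit 370))) (XT.nd (nat_lit 78) (nat_lit 0) (nat_lit 76) (XT.lf (nat_lit 76) (nat_lit 4380729114) (nat_lit 0) (nat_lit 5019985682) (nat_lit 532) (nat_lit 4242038824) (nat_lit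 70) (nat_lit 5) (nat_lit 69) (nat_lit 3) (nat_lit 76) (nat_lit 5) (nat_lit 416) (nat_lit 415) (nat_lit 369)) (XT.nd (nat_lit 78) (nat_lit 0) (nat_lit 0) (XT.lf (nat_lit 0) (nat_lit 10342485988) (nat_lit 456) (nat_lit 2511104925) (nat_lit 532) (nat_lit 1311526084) (nat_lit 70) (nat_lit 5) (nat_lit 76) (nat_lit 5) (nat_lit 77) (nat_lit 5) (nat_lit 417) (nat_lit 415) (nat_lit 368)) (XT.lf (nat_lit 76) (nat_lit 4870512256) (nat_lit 0) (nat_lit 6702287873) (nat_lit 532) (nat_lit 3139436238) (nat_lit 71) (nat_lit 5) (nat_lit 70) (nat_lit 5) (nat_lit 77) (nat_lit 5) (nat_lit 418) (nat_lit 415) (nat_lit 367))))) (XT.nd (nat_lit 234) (nat_lit 380) (nat_lit 0) (XT.nd (nat_lit 78) (nat_lit 532) (nat_lit 0) (XT.lf (nat_lit 0) (nat_lit 12938499477) (nat_lit 456) (nat_lit 2337441800) (nat_lit 532) (nat_lit 24248521) (nat_lit 71) (nat_lit 5) (nat_lit 77) (nat_lit 5) (nat_lit 78) (nat_lit 5) (nat_lit 419)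 (nat_lit 415) (nat_lit 366)) (XT.nd (nat_lit 78) (nat_lit 532) (nat_lit 0) (XT.lf (nat_lit 76) (nat_lit 5863341443) (nat_lit 0) (nat_lit 8835522203) (nat_lit 532) (nat_lit 1213502886) (nat_lit 72) (nat_lit 5) (nat_lit 71) (nat_lit 5) (nat_lit 78) (nat_lit 5) (nat_lit 420) (nat_lit 415) (nat_lit 365)) (XT.lf (nat_lit 0) (nat_lit 62004852) (nat_lit 532) (nat_lit 1741595852) (nat_lit 608) (nat_lit 14766939127) (nat_lit 64) (nat_lit 5) (nat_lit 71) (nat_lit 5) (nat_lit 72) (nat_lit 5) (nat_lit 421) (nat_lit 415) (nat_lit 364)))) (XT.nd (nat_lit 78) (nat_lit 456) (nat_lit 0) (XT.lf (nat_lit 0) (nat_lit 1673949857) (nat_lit 532) (nat_lit 9856787165) (nat_lit 76) (nat_lit 5724127491) (nat_lit 65) (nat_lit 5) (nat_lit 72) (nat_lit 5) (nat_lit 66) (nat_lit 5) (nat_lit 422) (nat_lit 415) (nat_lit 363)) (XT.nd (nat_lit 78) (nat_lit 456) (nat_lit 0) (XT.lf (nat_lit 0) (nat_lit 3485444365) (nat_lit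 532) (nat_lit 694024521) (nat_lit 76) (nat_lit 13808833279) (nat_lit 65) (nat_lit 5) (nat_lit 72) (nat_lit 5) (nat_lit 66) (nat_lit 5) (nat_lit 423) (nat_lit 415) (nat_lit 362)) (XT.lf (nat_lit 0) (nat_lit 5747500096) (nat_lit 532) (nat_lit 9197063797) (nat_lit 76) (nat_lit 3811413038) (nat_lit 59) (nat_lit 5) (nat_lit 66) (nat_lit 5) (nat_lit 60) (nat_lit 5) (nat_lit 424) (nat_lit 415) (nat_lit 361)))))) (XT.nd (nat_lit 390) (nat_lit 608) (nat_lit 0) (XT.nd (nat_lit 156) (nat_lit 456) (nat_lit 0) (XT.nd (nat_lit 78) (nat_lit 0) (nat_lit 0) (XT.lf (nat_lit 0) (nat_lit 1006027096) (nat_lit 228) (nat_lit 7314686045) (nat_lit 304) (nat_lit 11253949548) (nat_lit 56) (nat_lit 5) (nat_lit 59) (nat_lit 5) (nat_lit 60) (nat_lit 5) (nat_lit 425) (nat_lit 415) (nat_lit 360)) (XT.lf (nat_lit 0) (nat_lit 11359055665) (nat_lit 304) (nat_lit 7943420101) (nat_lit 76) (nat_lit 1135637262) (nat_lit 56)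 (nat_lit 5) (nat_lit 60) (nat_lit 5) (nat_lit 57) (nat_lit 5) (nat_lit 426) (nat_lit 415) (nat_lit 359))) (XT.nd (nat_lit 78) (nat_lit 228) (nat_lit 0) (XT.lf (nat_lit 0) (nat_lit 3494098109) (nat_lit 228) (nat_lit 11400963404) (nat_lit 304) (nat_lit 6455220872) (nat_lit 53) (nat_lit 5) (nat_lit 56) (nat_lit 5) (nat_lit 57) (nat_lit 5) (nat_lit 427) (nat_lit 415) (nat_lit 358)) (XT.nd (nat_lit 78) (nat_lit 228) (nat_lit 0) (XT.lf (nat_lit 0) (nat_lit 16276425418) (nat_lit 228) (nat_lit 2636192021) (nat_lit 304) (nat_lit 3406924159) (nat_lit 53) (nat_lit 5) (nat_lit 56) (nat_lit 5) (nat_lit 57) (nat_lit 5) (nat_lit 428) (nat_lit 415) (nat_lit 357)) (XT.lf (nat_lit 0) (nat_lit 211408922) (nat_lit 228) (nat_lit 16473784168) (nat_lit 76) (nat_lit 6655743192) (nat_lit 50) (nat_lit 5) (nat_lit 53) (nat_lit 5) (nat_lit 51) (nat_lit 5) (nat_lit 429) (nat_lit 415) (nat_lit 356))))) (XT.nd (nat_lit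 234) (nat_lit 380) (nat_lit 0) (XT.nd (nat_lit 78) (nat_lit 228) (nat_lit 0) (XT.lf (nat_lit 0) (nat_lit 4156251298) (nat_lit 228) (nat_lit 3460131421) (nat_lit 76) (nat_lit 16802899935) (nat_lit 50) (nat_lit 5) (nat_lit 53) (nat_lit 5) (nat_lit 51) (nat_lit 5) (nat_lit 430) (nat_lit 415) (nat_lit 355)) (XT.nd (nat_lit 78) (nat_lit 0) (nat_lit 0) (XT.lf (nat_lit 0) (nat_lit 8727965947) (nat_lit 304) (nat_lit 14491865655) (nat_lit 76) (nat_lit 2339169600) (nat_lit 47) (nat_lit 5) (nat_lit 51) (nat_lit 5) (nat_lit 48) (nat_lit 5) (nat_lit 431) (nat_lit 415) (nat_lit 354)) (XT.lf (nat_lit 0) (nat_lit 13945235971) (nat_lit 304) (nat_lit 50163865) (nat_lit 76) (nat_lit 12772118662) (nat_lit 47) (nat_lit 5) (nat_lit 51) (nat_lit 5) (nat_lit 48) (nat_lit 5) (nat_lit 432) (nat_lit 415) (nat_lit 353)))) (XT.nd (nat_lit 78) (nat_lit 228) (nat_lit 0) (XT.lf (nat_lit 0) (nat_lit 16345160073) (nat_lit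 152) (nat_lit 3613872216) (nat_lit 228) (nat_lit 8083359536) (nat_lit 45) (nat_lit 5) (nat_lit 47) (nat_lit 5) (nat_lit 48) (nat_lit 5) (nat_lit 433) (nat_lit 415) (nat_lit 352)) (XT.nd (nat_lit 78) (nat_lit 76) (nat_lit 0) (XT.lf (nat_lit 0) (nat_lit 4666672861) (nat_lit 152) (nat_lit 22070127465) (nat_lit 228) (nat_lit 2659831013) (nat_lit 43) (nat_lit 5) (nat_lit 45) (nat_lit 5) (nat_lit 46) (nat_lit 5) (nat_lit 434) (nat_lit 415) (nat_lit 351)) (XT.lf (nat_lit 0) (nat_lit 3446305795) (nat_lit 228) (nat_lit 8027801050) (nat_lit 76) (nat_lit 19346261406) (nat_lit 42) (nat_lit 5) (nat_lit 45) (nat_lit 5) (nat_lit 43) (nat_lit 5) (nat_lit 435) (nat_lit 415) (nat_lit 350))))))) (XT.nd (nat_lit 858) (nat_lit 684) (nat_lit 0) (XT.nd (nat_lit 390) (nat_lit 532) (nat_lit 0) (XT.nd (nat_lit 156) (nat_lit 304) (nat_lit 0) (XT.nd (nat_lit 78) (nat_lit 0) (nat_lit 0) (XT.lf (nat_lit 0) (nat_lit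 10143556419) (nat_lit 228) (nat_lit 21895384691) (nat_lit 76) (nat_lit 293834832) (nat_lit 40) (nat_lit 5) (nat_lit 43) (nat_lit 5) (nat_lit 41) (nat_lit 5) (nat_lit 436) (nat_lit 415) (nat_lit 349)) (XT.lf (nat_lit 0) (nat_lit 17887811599) (nat_lit 228) (nat_lit 3434872502) (nat_lit 76) (nat_lit 12602598423) (nat_lit 40) (nat_lit 5) (nat_lit 43) (nat_lit 5) (nat_lit 41) (nat_lit 5) (nat_lit 437) (nat_lit 415) (nat_lit 348))) (XT.nd (nat_lit 78) (nat_lit 152) (nat_lit 0) (XT.lf (nat_lit 0) (nat_lit 17353076851) (nat_lit 152) (nat_lit 9304761423) (nat_lit 228) (nat_lit 8954856792) (nat_lit 38) (nat_lit 5) (nat_lit 40) (nat_lit 5) (nat_lit 41) (nat_lit 5) (nat_lit 438) (nat_lit 415) (nat_lit 347)) (XT.nd (nat_lit 78) (nat_lit 76) (nat_lit 0) (XT.lf (nat_lit 0) (nat_lit 2592977121) (nat_lit 76) (nat_lit 33772730284) (nat_lit 152) (nat_lit 1050497610) (nat_lit 37) (nat_lit 5) (nat_lit 38) (nat_lit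 5) (nat_lit 39) (nat_lit 4) (nat_lit 439) (nat_lit 415) (nat_lit 346)) (XT.lf (nat_lit 0) (nat_lit 7854882837) (nat_lit 152) (nat_lit 13624387226) (nat_lit 76) (nat_lit 17810872282) (nat_lit 36) (nat_lit 5) (nat_lit 38) (nat_lit 5) (nat_lit 37) (nat_lit 5) (nat_lit 440) (nat_lit 415) (nat_lit 345))))) (XT.nd (nat_lit 234) (nat_lit 304) (nat_lit 0) (XT.nd (nat_lit 78) (nat_lit 76) (nat_lit 0) (XT.lf (nat_lit 0) (nat_lit 9712392073) (nat_lit 152) (nat_lit 7927189192) (nat_lit 228) (nat_lit 23654342089) (nat_lit 34) (nat_lit 5) (nat_lit 36) (nat_lit 5) (nat_lit 37) (nat_lit 5) (nat_lit 441) (nat_lit 415) (nat_lit 344)) (XT.nd (nat_lit 78) (nat_lit 76) (nat_lit 0) (XT.lf (nat_lit 0) (nat_lit 28740849487) (nat_lit 228) (nat_lit 7925020372) (nat_lit 76) (nat_lit 6749436141) (nat_lit 34) (nat_lit 5) (nat_lit 37) (nat_lit 5) (nat_lit 35) (nat_lit 4) (nat_lit 442) (nat_lit 415) (nat_lit 343)) (XT.lf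 (nat_lit 0) (nat_lit 18319010088) (nat_lit 76) (nat_lit 23048655231) (nat_lit 152) (nat_lit 4287740716) (nat_lit 33) (nat_lit 5) (nat_lit 34) (nat_lit 5) (nat_lit 35) (nat_lit 4) (nat_lit 443) (nat_lit 415) (nat_lit 342)))) (XT.nd (nat_lit 78) (nat_lit 228) (nat_lit 0) (XT.lf (nat_lit 0) (nat_lit 6796611676) (nat_lit 152) (nat_lit 1131978782) (nat_lit 76) (nat_lit 40115723640) (nat_lit 32) (nat_lit 5) (nat_lit 34) (nat_lit 5) (nat_lit 33) (nat_lit 5) (nat_lit 444) (nat_lit 415) (nat_lit 341)) (XT.nd (nat_lit 78) (nat_lit 76) (nat_lit 0) (XT.lf (nat_lit 0) (nat_lit 19434982340) (nat_lit 228) (nat_lit 22316854290) (nat_lit 76) (nat_lit 8791676991) (nat_lit 30) (nat_lit 5) (nat_lit 33) (nat_lit 5) (nat_lit 31) (nat_lit 4) (nat_lit 445) (nat_lit 415) (nat_lit 340)) (XT.lf (nat_lit 0) (nat_lit 6881120756) (nat_lit 76) (nat_lit 26598327590) (nat_lit 152) (nat_lit 19731600521) (nat_lit 29) (nat_lit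 5) (nat_lit 30) (nat_lit 5) (nat_lit 31) (nat_lit 4) (nat_lit 446) (nat_lit 415) (nat_lit 339)))))) (XT.nd (nat_lit 468) (nat_lit 304) (nat_lit 0) (XT.nd (nat_lit 234) (nat_lit 228) (nat_lit 0) (XT.nd (nat_lit 78) (nat_lit 152) (nat_lit 0) (XT.lf (nat_lit 0) (nat_lit 39669929972) (nat_lit 76) (nat_lit 9579830072) (nat_lit 152) (nat_lit 6794045497) (nat_lit 29) (nat_lit 5) (nat_lit 30) (nat_lit 5) (nat_lit 31) (nat_lit 4) (nat_lit 447) (nat_lit 415) (nat_lit 338)) (XT.nd (nat_lit 78) (nat_lit 0) (nat_lit 0) (XT.lf (nat_lit 0) (nat_lit 7438092593) (nat_lit 152) (nat_lit 42660262356) (nat_lit 76) (nat_lit 8941523607) (nat_lit 27) (nat_lit 5) (nat_lit 29) (nat_lit 5) (nat_lit 28) (nat_lit 4) (nat_lit 448) (nat_lit 415) (nat_lit 337)) (XT.lf (nat_lit 0) (nat_lit 23142488122) (nat_lit 152) (nat_lit 10005788060) (nat_lit 76) (nat_lit 29057185763) (nat_lit 27) (nat_lit 5) (nat_lit 29) (nat_lit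 5) (nat_lit 28) (nat_lit 4) (nat_lit 449) (nat_lit 415) (nat_lit 336)))) (XT.nd (nat_lit 78) (nat_lit 152) (nat_lit 0) (XT.lf (nat_lit 0) (nat_lit 26577964736) (nat_lit 76) (nat_lit 14157615188) (nat_lit 152) (nat_lit 24838125746) (nat_lit 26) (nat_lit 5) (nat_lit 27) (nat_lit 5) (nat_lit 28) (nat_lit 4) (nat_lit 450) (nat_lit 415) (nat_lit 335)) (XT.nd (nat_lit 78) (nat_lit 152) (nat_lit 0) (XT.lf (nat_lit 0) (nat_lit 60162793927) (nat_lit 152) (nat_lit 2704639993) (nat_lit 0) (nat_lit 6309842128) (nat_lit 26) (nat_lit 5) (nat_lit 28) (nat_lit 4) (nat_lit 26) (nat_lit 4) (nat_lit 451) (nat_lit 415) (nat_lit 334)) (XT.lf (nat_lit 0) (nat_lit 8979875022) (nat_lit 152) (nat_lit 35182653347) (nat_lit 76) (nat_lit 28786366742) (nat_lit 24) (nat_lit 5) (nat_lit 26) (nat_lit 5) (nat_lit 25) (nat_lit 4) (nat_lit 452) (nat_lit 415) (nat_lit 333))))) (XT.nd (nat_lit 234) (nat_lit 152) (nat_lit 0)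 (XT.nd (nat_lit 78) (nat_lit 76) (nat_lit 0) (XT.lf (nat_lit 0) (nat_lit 4594255549) (nat_lit 76) (nat_lit 23512624104) (nat_lit 152) (nat_lit 48882224356) (nat_lit 23) (nat_lit 5) (nat_lit 24) (nat_lit 5) (nat_lit 25) (nat_lit 4) (nat_lit 453) (nat_lit 415) (nat_lit 332)) (XT.nd (nat_lit 78) (nat_lit 76) (nat_lit 0) (XT.lf (nat_lit 0) (nat_lit 49542698046) (nat_lit 76) (nat_lit 177241896) (nat_lit 152) (nat_lit 31556118894) (nat_lit 23) (nat_lit 5) (nat_lit 24) (nat_lit 5) (nat_lit 25) (nat_lit 4) (nat_lit 454) (nat_lit 415) (nat_lit 331)) (XT.lf (nat_lit 0) (nat_lit 12177391467) (nat_lit 76) (nat_lit 61773638589) (nat_lit 76) (nat_lit 11883821973) (nat_lit 22) (nat_lit 4) (nat_lit 23) (nat_lit 5) (nat_lit 23) (nat_lit 4) (nat_lit 455) (nat_lit 415) (nat_lit 330)))) (XT.nd (nat_lit 78) (nat_lit 76) (nat_lit 0) (XT.lf (nat_lit 0) (nat_lit 9782996534) (nat_lit 152) (nat_lit 29546520683)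 (nat_lit 76) (nat_lit 51339693049) (nat_lit 21) (nat_lit 5) (nat_lit 23) (nat_lit 5) (nat_lit 22) (nat_lit 4) (nat_lit 456) (nat_lit 415) (nat_lit 329)) (XT.nd (nat_lit 78) (nat_lit 0) (nat_lit 0) (XT.lf (nat_lit 0) (nat_lit 18710419201) (nat_lit 76) (nat_lit 14275404938) (nat_lit 152) (nat_lit 62844224092) (nat_lit 20) (nat_lit 5) (nat_lit 21) (nat_lit 5) (nat_lit 22) (nat_lit 4) (nat_lit 457) (nat_lit 415) (nat_lit 328)) (XT.lf (nat_lit 0) (nat_lit 59175898479) (nat_lit 152) (nat_lit 29169503452) (nat_lit 0) (nat_lit 12967870233) (nat_lit 20) (nat_lit 5) (nat_lit 22) (nat_lit 4) (nat_lit 20) (nat_lit 4) (nat_lit 458) (nat_lit 415) (nat_lit 327))))))))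
noncomputable def xc134 : XT := (XT.nd (nat_lit 1716) (nat_lit 380) (nat_lit 0) (XT.nd (nat_lit 858) (nat_lit 456) (nat_lit 0) (XT.nd (nat_lit 390) (nat_lit 228) (nat_lit 0) (XT.nd (nat_lit 156) (nat_lit 152) (nat_lit 0) (XT.nd (nat_lit 78) (nat_lit 76) (nat_lit 0) (XT.lf (nat_lit 0) (nat_lit 23407313569) (nat_lit 76) (nat_lit 64982740954) (nat_lit 76) (nat_lit 18770789958) (nat_lit 19) (nat_lit 4) (nat_lit 20) (nat_lit 5) (nat_lit 20) (nat_lit 4) (nat_lit 459) (nat_lit 415) (nat_lit 326)) (XT.lf (nat_lit 0) (nat_lit 6955125137) (nat_lit 152) (nat_lit 31748922884) (nat_lit 76) (nat_lit 74694662817) (nat_lit 18) (nat_lit 5) (nat_lit 20) (nat_lit 5) (nat_lit 19) (nat_lit 4) (nat_lit 460) (nat_lit 415) (nat_lit 325))) (XT.nd (nat_lit 78) (nat_lit 76) (nat_lit 0) (XT.lf (nat_lit 0) (nat_lit 25179299431) (nat_lit 76) (nat_lit 9146780246) (nat_lit 152) (nat_lit 85722436895) (nat_lit 17) (nat_lit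 5) (nat_lit 18) (nat_lit 5) (nat_lit 19) (nat_lit 4) (nat_lit 461) (nat_lit 415) (nat_lit 324)) (XT.nd (nat_lit 78) (nat_lit 76) (nat_lit 0) (XT.lf (nat_lit 0) (nat_lit 65320610281) (nat_lit 152) (nat_lit 39272578598) (nat_lit 0) (nat_lit 22522406297) (nat_lit 17) (nat_lit 5) (nat_lit 19) (nat_lit 4) (nat_lit 17) (nat_lit 4) (nat_lit 462) (nat_lit 415) (nat_lit 323)) (XT.lf (nat_lit 0) (nat_lit 21606932077) (nat_lit 76) (nat_lit 77940867210) (nat_lit 76) (nat_lit 35139993468) (nat_lit 16) (nat_lit 4) (nat_lit 17) (nat_lit 5) (nat_lit 17) (nat_lit 4) (nat_lit 463) (nat_lit 415) (nat_lit 322))))) (XT.nd (nat_lit 234) (nat_lit 76) (nat_lit 0) (XT.nd (nat_lit 78) (nat_lit 152) (nat_lit 0) (XT.lf (nat_lit 0) (nat_lit 89582329699) (nat_lit 76) (nat_lit 48000600583) (nat_lit 76) (nat_lit 5197254843) (nat_lit 16) (nat_lit 4) (nat_lit 17) (nat_lit 5) (nat_lit 17) (nat_lit 4) (nat_lit 464) (nat_lit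 415) (nat_lit 321)) (XT.nd (nat_lit 78) (nat_lit 0) (nat_lit 0) (XT.lf (nat_lit 0) (nat_lit 11385022583) (nat_lit 76) (nat_lit 14668177998) (nat_lit 152) (nat_lit 125392949791) (nat_lit 14) (nat_lit 5) (nat_lit 15) (nat_lit 5) (nat_lit 16) (nat_lit 4) (nat_lit 465) (nat_lit 415) (nat_lit 320)) (XT.lf (nat_lit 0) (nat_lit 61524419505) (nat_lit 152) (nat_lit 77222442727) (nat_lit 0) (nat_lit 21887610277) (nat_lit 14) (nat_lit 5) (nat_lit 16) (nat_lit 4) (nat_lit 14) (nat_lit 4) (nat_lit 466) (nat_lit 415) (nat_lit 319)))) (XT.nd (nat_lit 78) (nat_lit 76) (nat_lit 0) (XT.lf (nat_lit 0) (nat_lit 100210811993) (nat_lit 152) (nat_lit 9744664813) (nat_lit 0) (nat_lit 60572185773) (nat_lit 14) (nat_lit 5) (nat_lit 16) (nat_lit 4) (nat_lit 14) (nat_lit 4) (nat_lit 467) (nat_lit 415) (nat_lit 318)) (XT.nd (nat_lit 78) (nat_lit 0) (nat_lit 0) (XT.lf (nat_lit 0) (nat_lit 66448886733) (nat_lit 76) (nat_lit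 77138071298) (nat_lit 76) (nat_lit 37497762677) (nat_lit 13) (nat_lit 4) (nat_lit 14) (nat_lit 5) (nat_lit 14) (nat_lit 4) (nat_lit 468) (nat_lit 415) (nat_lit 317)) (XT.lf (nat_lit 0) (nat_lit 149285783423) (nat_lit 76) (nat_lit 41410682530) (nat_lit 76) (nat_lit 1768816132) (nat_lit 13) (nat_lit 4) (nat_lit 14) (nat_lit 5) (nat_lit 14) (nat_lit 4) (nat_lit 469) (nat_lit 415) (nat_lit 316)))))) (XT.nd (nat_lit 390) (nat_lit 228) (nat_lit 0) (XT.nd (nat_lit 156) (nat_lit 76) (nat_lit 0) (XT.nd (nat_lit 78) (nat_lit 0) (nat_lit 0) (XT.lf (nat_lit 0) (nat_lit 34844926679) (nat_lit 76) (nat_lit 966724986) (nat_lit 152) (nat_lit 168806997058) (nat_lit 11) (nat_lit 5) (nat_lit 12) (nat_lit 5) (nat_lit 13) (nat_lit 4) (nat_lit 470) (nat_lit 415) (nat_lit 315)) (XT.lf (nat_lit 0) (nat_lit 78538509684) (nat_lit 152) (nat_lit 97192752855) (nat_lit 0) (nat_lit 41830505675) (nat_lit 11) (nat_lit 5)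 (nat_lit 13) (nat_lit 4) (nat_lit 11) (nat_lit 4) (nat_lit 471) (nat_lit 415) (nat_lit 314))) (XT.nd (nat_lit 78) (nat_lit 76) (nat_lit 0) (XT.lf (nat_lit 0) (nat_lit 124705851188) (nat_lit 152) (nat_lit 18835997277) (nat_lit 0) (nat_lit 87996702166) (nat_lit 11) (nat_lit 5) (nat_lit 13) (nat_lit 4) (nat_lit 11) (nat_lit 4) (nat_lit 472) (nat_lit 415) (nat_lit 313)) (XT.nd (nat_lit 78) (nat_lit 0) (nat_lit 0) (XT.lf (nat_lit 0) (nat_lit 69248206522) (nat_lit 76) (nat_lit 106981225173) (nat_lit 76) (nat_lit 70271015954) (nat_lit 10) (nat_lit 4) (nat_lit 11) (nat_lit 5) (nat_lit 11) (nat_lit 4) (nat_lit 473) (nat_lit 415) (nat_lit 312)) (XT.lf (nat_lit 0) (nat_lit 165445329347) (nat_lit 76) (nat_lit 66942078675) (nat_lit 76) (nat_lit 30230887791) (nat_lit 10) (nat_lit 4) (nat_lit 11) (nat_lit 5) (nat_lit 11) (nat_lit 4) (nat_lit 474) (nat_lit 415) (nat_lit 311))))) (XT.nd (nat_lit 234) (nat_lit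 76) (nat_lit 0) (XT.nd (nat_lit 78) (nat_lit 76) (nat_lit 0) (XT.lf (nat_lit 0) (nat_lit 12359139926) (nat_lit 152) (nat_lit 11005088785) (nat_lit 76) (nat_lit 256636497268) (nat_lit 9) (nat_lit 5) (nat_lit 11) (nat_lit 5) (nat_lit 10) (nat_lit 4) (nat_lit 475) (nat_lit 415) (nat_lit 310)) (XT.nd (nat_lit 78) (nat_lit 0) (nat_lit 0) (XT.lf (nat_lit 0) (nat_lit 59422060802) (nat_lit 152) (nat_lit 213644360411) (nat_lit 0) (nat_lit 25428596495) (nat_lit 8) (nat_lit 5) (nat_lit 10) (nat_lit 4) (nat_lit 8) (nat_lit 4) (nat_lit 476) (nat_lit 415) (nat_lit 309)) (XT.lf (nat_lit 0) (nat_lit 111163399822) (nat_lit 152) (nat_lit 130063168330) (nat_lit 0) (nat_lit 77169213962) (nat_lit 8) (nat_lit 5) (nat_lit 10) (nat_lit 4) (nat_lit 8) (nat_lit 4) (nat_lit 477) (nat_lit 415) (nat_lit 308)))) (XT.nd (nat_lit 78) (nat_lit 76) (nat_lit 0) (XT.lf (nat_lit 0) (nat_lit 167042015604) (nat_lit 152) (nat_lit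 39799592948) (nat_lit 0) (nat_lit 133047161640) (nat_lit 8) (nat_lit 5) (nat_lit 10) (nat_lit 4) (nat_lit 8) (nat_lit 4) (nat_lit 478) (nat_lit 415) (nat_lit 307)) (XT.nd (nat_lit 78) (nat_lit 0) (nat_lit 0) (XT.lf (nat_lit 0) (nat_lit 60718653978) (nat_lit 76) (nat_lit 168130671795) (nat_lit 76) (nat_lit 134135199216) (nat_lit 7) (nat_lit 4) (nat_lit 8) (nat_lit 5) (nat_lit 8) (nat_lit 4) (nat_lit 479) (nat_lit 415) (nat_lit 306)) (XT.lf (nat_lit 0) (nat_lit 171538087699) (nat_lit 76) (nat_lit 125149494502) (nat_lit 76) (nat_lit 91153449132) (nat_lit 7) (nat_lit 4) (nat_lit 8) (nat_lit 5) (nat_lit 8) (nat_lit 4) (nat_lit 480) (nat_lit 415) (nat_lit 305))))))) (XT.nd (nat_lit 858) (nat_lit 152) (nat_lit 0) (XT.nd (nat_lit 390) (nat_lit 76) (nat_lit 0) (XT.nd (nat_lit 156) (nat_lit 76) (nat_lit 0) (XT.nd (nat_lit 78) (nat_lit 76) (nat_lit 0) (XT.lf (nat_lit 0) (nat_lit 291219639935) (nat_lit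 76) (nat_lit 78731564803) (nat_lit 76) (nat_lit 44734989070) (nat_lit 7) (nat_lit 4) (nat_lit 8) (nat_lit 5) (nat_lit 8) (nat_lit 4) (nat_lit 481) (nat_lit 415) (nat_lit 304)) (XT.lf (nat_lit 0) (nat_lit 5125360902) (nat_lit 152) (nat_lit 23336316131) (nat_lit 76) (nat_lit 415207037347) (nat_lit 6) (nat_lit 5) (nat_lit 8) (nat_lit 5) (nat_lit 7) (nat_lit 4) (nat_lit 482) (nat_lit 415) (nat_lit 303))) (XT.nd (nat_lit 78) (nat_lit 0) (nat_lit 0) (XT.lf (nat_lit 0) (nat_lit 59379999093) (nat_lit 152) (nat_lit 387370284306) (nat_lit 0) (nat_lit 27900812509) (nat_lit 5) (nat_lit 5) (nat_lit 7) (nat_lit 4) (nat_lit 5) (nat_lit 4) (nat_lit 483) (nat_lit 415) (nat_lit 302)) (XT.nd (nat_lit 78) (nat_lit 0) (nat_lit 0) (XT.lf (nat_lit 0) (nat_lit 119367414840) (nat_lit 152) (nat_lit 300745422227) (nat_lit 0) (nat_lit 87887838424) (nat_lit 5) (nat_lit 5) (nat_lit 7) (nat_lit 4) (nat_lit 5) (nat_lit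 4) (nat_lit 484) (nat_lit 415) (nat_lit 301)) (XT.lf (nat_lit 0) (nat_lit 184152447028) (nat_lit 152) (nat_lit 207193374953) (nat_lit 0) (nat_lit 152672509655) (nat_lit 5) (nat_lit 5) (nat_lit 7) (nat_lit 4) (nat_lit 5) (nat_lit 4) (nat_lit 485) (nat_lit 415) (nat_lit 300))))) (XT.nd (nat_lit 234) (nat_lit 0) (nat_lit 0) (XT.nd (nat_lit 78) (nat_lit 76) (nat_lit 0) (XT.lf (nat_lit 0) (nat_lit 254119006957) (nat_lit 152) (nat_lit 106159759980) (nat_lit 0) (nat_lit 222638735366) (nat_lit 5) (nat_lit 5) (nat_lit 7) (nat_lit 4) (nat_lit 5) (nat_lit 4) (nat_lit 486) (nat_lit 415) (nat_lit 299)) (XT.nd (nat_lit 78) (nat_lit 0) (nat_lit 0) (XT.lf (nat_lit 0) (nat_lit 3109700208) (nat_lit 76) (nat_lit 326646799436) (nat_lit 76) (nat_lit 295166218384) (nat_lit 4) (nat_lit 4) (nat_lit 5) (nat_lit 5) (nat_lit 5) (nat_lit 4) (nat_lit 487) (nat_lit 415) (nat_lit 298)) (XT.lf (nat_lit 0) (nat_lit 127155773901)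 (nat_lit 76) (nat_lit 287190664504) (nat_lit 76) (nat_lit 255709796913) (nat_lit 4) (nat_lit 4) (nat_lit 5) (nat_lit 5) (nat_lit 5) (nat_lit 4) (nat_lit 488) (nat_lit 415) (nat_lit 297)))) (XT.nd (nat_lit 78) (nat_lit 0) (nat_lit 0) (XT.lf (nat_lit 0) (nat_lit 261123364113) (nat_lit 76) (nat_lit 244579143976) (nat_lit 76) (nat_lit 213098011072) (nat_lit 4) (nat_lit 4) (nat_lit 5) (nat_lit 5) (nat_lit 5) (nat_lit 4) (nat_lit 489) (nat_lit 415) (nat_lit 296)) (XT.nd (nat_lit 78) (nat_lit 0) (nat_lit 0) (XT.lf (nat_lit 0) (nat_lit 405806352861) (nat_lit 76) (nat_lit 198559725138) (nat_lit 76) (nat_lit 167078346573) (nat_lit 4) (nat_lit 4) (nat_lit 5) (nat_lit 5) (nat_lit 5) (nat_lit 4) (nat_lit 490) (nat_lit 415) (nat_lit 295)) (XT.lf (nat_lit 0) (nat_lit 562062120818) (nat_lit 76) (nat_lit 148859700322) (nat_lit 76) (nat_lit 117378094294) (nat_lit 4) (nat_lit 4) (nat_lit 5) (nat_lit 5) (nat_lit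 5) (nat_lit 4) (nat_lit 491) (nat_lit 415) (nat_lit 294)))))) (XT.nd (nat_lit 468) (nat_lit 0) (nat_lit 0) (XT.nd (nat_lit 234) (nat_lit 0) (nat_lit 0) (XT.nd (nat_lit 78) (nat_lit 152) (nat_lit 0) (XT.lf (nat_lit 0) (nat_lit 730816628092) (nat_lit 76) (nat_lit 95184550865) (nat_lit 76) (nat_lit 63702734222) (nat_lit 4) (nat_lit 4) (nat_lit 5) (nat_lit 5) (nat_lit 5) (nat_lit 4) (nat_lit 492) (nat_lit 415) (nat_lit 293)) (XT.nd (nat_lit 78) (nat_lit 152) (nat_lit 0) (XT.lf (nat_lit 0) (nat_lit 913069901391) (nat_lit 76) (nat_lit 37216201804) (nat_lit 76) (nat_lit 5734190149) (nat_lit 4) (nat_lit 4) (nat_lit 5) (nat_lit 5) (nat_lit 5) (nat_lit 4) (nat_lit 493) (nat_lit 415) (nat_lit 292)) (XT.lf (nat_lit 0) (nat_lit 56773358730) (nat_lit 152) (nat_lit 942916304471) (nat_lit 0) (nat_lit 27623180746) (nat_lit 2) (nat_lit 5) (nat_lit 4) (nat_lit 4) (nat_lit 2) (nat_lit 4) (nat_lit 494) (nat_lit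 415) (nat_lit 291)))) (XT.nd (nat_lit 78) (nat_lit 0) (nat_lit 0) (XT.lf (nat_lit 0) (nat_lit 126142471364) (nat_lit 152) (nat_lit 880988613078) (nat_lit 0) (nat_lit 96992138572) (nat_lit 2) (nat_lit 5) (nat_lit 4) (nat_lit 4) (nat_lit 2) (nat_lit 4) (nat_lit 495) (nat_lit 415) (nat_lit 290)) (XT.nd (nat_lit 78) (nat_lit 0) (nat_lit 0) (XT.lf (nat_lit 0) (nat_lit 201060426246) (nat_lit 152) (nat_lit 814108111009) (nat_lit 0) (nat_lit 171909950113) (nat_lit 2) (nat_lit 5) (nat_lit 4) (nat_lit 4) (nat_lit 2) (nat_lit 4) (nat_lit 496) (nat_lit 415) (nat_lit 289)) (XT.lf (nat_lit 0) (nat_lit 281971181626) (nat_lit 152) (nat_lit 741878469363) (nat_lit 0) (nat_lit 252820572770) (nat_lit 2) (nat_lit 5) (nat_lit 4) (nat_lit 4) (nat_lit 2) (nat_lit 4) (nat_lit 497) (nat_lit 415) (nat_lit 288))))) (XT.nd (nat_lit 234) (nat_lit 0) (nat_lit 0) (XT.nd (nat_lit 78) (nat_lit 0) (nat_lit 0) (XT.lf (nat_lit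 0) (nat_lit 369354208647) (nat_lit 152) (nat_lit 663871660633) (nat_lit 0) (nat_lit 340203476900) (nat_lit 2) (nat_lit 5) (nat_lit 4) (nat_lit 4) (nat_lit 2) (nat_lit 4) (nat_lit 498) (nat_lit 415) (nat_lit 287)) (XT.nd (nat_lit 78) (nat_lit 0) (nat_lit 0) (XT.lf (nat_lit 0) (nat_lit 463727332655) (nat_lit 152) (nat_lit 579625422250) (nat_lit 0) (nat_lit 434576487120) (nat_lit 2) (nat_lit 5) (nat_lit 4) (nat_lit 4) (nat_lit 2) (nat_lit 4) (nat_lit 499) (nat_lit 415) (nat_lit 286)) (XT.lf (nat_lit 0) (nat_lit 565649801792) (nat_lit 152) (nat_lit 488640517246) (nat_lit 0) (nat_lit 536498850897) (nat_lit 2) (nat_lit 5) (nat_lit 4) (nat_lit 4) (nat_lit 2) (nat_lit 4) (nat_lit 500) (nat_lit 415) (nat_lit 285)))) (XT.nd (nat_lit 78) (nat_lit 0) (nat_lit 0) (XT.lf (nat_lit 0) (nat_lit 675725601061) (nat_lit 152) (nat_lit 390377775812) (nat_lit 0) (nat_lit 646574552610) (nat_lit 2) (nat_lit 5)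 (nat_lit 4) (nat_lit 4) (nat_lit 2) (nat_lit 4) (nat_lit 501) (nat_lit 415) (nat_lit 284)) (XT.nd (nat_lit 78) (nat_lit 0) (nat_lit 0) (XT.lf (nat_lit 0) (nat_lit 794607031493) (nat_lit 152) (nat_lit 284254900222) (nat_lit 0) (nat_lit 765455892714) (nat_lit 2) (nat_lit 5) (nat_lit 4) (nat_lit 4) (nat_lit 2) (nat_lit 4) (nat_lit 502) (nat_lit 415) (nat_lit 283)) (XT.lf (nat_lit 0) (nat_lit 922998575641) (nat_lit 152) (nat_lit 169643014176) (nat_lit 0) (nat_lit 893847353224) (nat_lit 2) (nat_lit 5) (nat_lit 4) (nat_lit 4) (nat_lit 2) (nat_lit 4) (nat_lit 503) (nat_lit 415) (nat_lit 282))))))))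
noncomputable def xc135 : XT := (XT.nd (nat_lit 1716) (nat_lit 0) (nat_lit 0) (XT.nd (nat_lit 858) (nat_lit 0) (nat_lit 0) (XT.nd (nat_lit 390) (nat_lit 0) (nat_lit 0) (XT.nd (nat_lit 156) (nat_lit 0) (nat_lit 0) (XT.nd (nat_lit 78) (nat_lit 76) (nat_lit 0) (XT.lf (nat_lit 0) (nat_lit 1061661072283) (nat_lit 152) (nat_lit 45862936128) (nat_lit 0) (nat_lit 1032509772423) (nat_lit 2) (nat_lit 5) (nat_lit 4) (nat_lit 4) (nat_lit 2) (nat_lit 4) (nat_lit 504) (nat_lit 415) (nat_lit 281)) (XT.lf (nat_lit 0) (nat_lit 92443230272) (nat_lit 76) (nat_lit 1121196256743) (nat_lit 76) (nat_lit 1092044885177) (nat_lit 1) (nat_lit 4) (nat_lit 2) (nat_lit 5) (nat_lit 2) (nat_lit 4) (nat_lit 505) (nat_lit 415) (nat_lit 280))) (XT.nd (nat_lit 78) (nat_lit 0) (nat_lit 0) (XT.lf (nat_lit 0) (nat_lit 244421470922) (nat_lit 76) (nat_lit 1134608343377) (nat_lit 76) (nat_lit 1105456905418) (nat_lit 1) (nat_lit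 4) (nat_lit 2) (nat_lit 5) (nat_lit 2) (nat_lit 4) (nat_lit 506) (nat_lit 415) (nat_lit 279)) (XT.nd (nat_lit 78) (nat_lit 0) (nat_lit 0) (XT.lf (nat_lit 0) (nat_lit 408557336678) (nat_lit 76) (nat_lit 1149093721297) (nat_lit 76) (nat_lit 1119942221861) (nat_lit 1) (nat_lit 4) (nat_lit 2) (nat_lit 5) (nat_lit 2) (nat_lit 4) (nat_lit 507) (nat_lit 415) (nat_lit 278)) (XT.lf (nat_lit 0) (nat_lit 585823484521) (nat_lit 76) (nat_lit 1164738229779) (nat_lit 76) (nat_lit 1135586673420) (nat_lit 1) (nat_lit 4) (nat_lit 2) (nat_lit 5) (nat_lit 2) (nat_lit 4) (nat_lit 508) (nat_lit 415) (nat_lit 277))))) (XT.nd (nat_lit 234) (nat_lit 0) (nat_lit 0) (XT.nd (nat_lit 78) (nat_lit 0) (nat_lit 0) (XT.lf (nat_lit 0) (nat_lit 777270380513) (nat_lit 76) (nat_lit 1181634577021) (nat_lit 76) (nat_lit 1152482967956) (nat_lit 1) (nat_lit 4) (nat_lit 2) (nat_lit 5) (nat_lit 2) (nat_lit 4) (nat_lit 509) (nat_lit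 415) (nat_lit 276)) (XT.nd (nat_lit 78) (nat_lit 0) (nat_lit 0) (XT.lf (nat_lit 0) (nat_lit 984032524778) (nat_lit 76) (nat_lit 1199882889525) (nat_lit 76) (nat_lit 1170731231658) (nat_lit 1) (nat_lit 4) (nat_lit 2) (nat_lit 5) (nat_lit 2) (nat_lit 4) (nat_lit 510) (nat_lit 415) (nat_lit 275)) (XT.lf (nat_lit 0) (nat_lit 1207335174468) (nat_lit 76) (nat_lit 1219591305439) (nat_lit 76) (nat_lit 1190439602386) (nat_lit 1) (nat_lit 4) (nat_lit 2) (nat_lit 5) (nat_lit 2) (nat_lit 4) (nat_lit 511) (nat_lit 415) (nat_lit 274)))) (XT.nd (nat_lit 78) (nat_lit 0) (nat_lit 0) (XT.lf (nat_lit 0) (nat_lit 1448501604544) (nat_lit 76) (nat_lit 1240876615377) (nat_lit 76) (nat_lit 1211724870484) (nat_lit 1) (nat_lit 4) (nat_lit 2) (nat_lit 5) (nat_lit 2) (nat_lit 4) (nat_lit 512) (nat_lit 415) (nat_lit 273)) (XT.nd (nat_lit 78) (nat_lit 0) (nat_lit 0) (XT.lf (nat_lit 0) (nat_lit 1708960949405) (nat_lit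 76) (nat_lit 1263864954508) (nat_lit 76) (nat_lit 1234713170874) (nat_lit 1) (nat_lit 4) (nat_lit 2) (nat_lit 5) (nat_lit 2) (nat_lit 4) (nat_lit 513) (nat_lit 415) (nat_lit 272)) (XT.lf (nat_lit 0) (nat_lit 1990256671837) (nat_lit 76) (nat_lit 1288692550027) (nat_lit 76) (nat_lit 1259540730522) (nat_lit 1) (nat_lit 4) (nat_lit 2) (nat_lit 5) (nat_lit 2) (nat_lit 4) (nat_lit 514) (nat_lit 415) (nat_lit 271)))))) (XT.nd (nat_lit 390) (nat_lit 0) (nat_lit 0) (XT.nd (nat_lit 156) (nat_lit 0) (nat_lit 0) (XT.nd (nat_lit 78) (nat_lit 0) (nat_lit 0) (XT.lf (nat_lit 0) (nat_lit 2294055709454) (nat_lit 76) (nat_lit 1315506528426) (nat_lit 76) (nat_lit 1286354675708) (nat_lit 1) (nat_lit 4) (nat_lit 2) (nat_lit 5) (nat_lit 2) (nat_lit 4) (nat_lit 515) (nat_lit 415) (nat_lit 270)) (XT.lf (nat_lit 0) (nat_lit 2622158352850) (nat_lit 76) (nat_lit 1344465787355) (nat_lit 76) (nat_lit 1315313903883)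 (nat_lit 1) (nat_lit 4) (nat_lit 2) (nat_lit 5) (nat_lit 2) (nat_lit 4) (nat_lit 516) (nat_lit 415) (nat_lit 269))) (XT.nd (nat_lit 78) (nat_lit 0) (nat_lit 0) (XT.lf (nat_lit 0) (nat_lit 2976508913984) (nat_lit 76) (nat_lit 1375741937237) (nat_lit 76) (nat_lit 1346590025290) (nat_lit 1) (nat_lit 4) (nat_lit 2) (nat_lit 5) (nat_lit 2) (nat_lit 4) (nat_lit 517) (nat_lit 415) (nat_lit 268)) (XT.nd (nat_lit 78) (nat_lit 0) (nat_lit 0) (XT.lf (nat_lit 0) (nat_lit 3359207248034) (nat_lit 76) (nat_lit 1409520318220) (nat_lit 76) (nat_lit 1380368379907) (nat_lit 1) (nat_lit 4) (nat_lit 2) (nat_lit 5) (nat_lit 2) (nat_lit 4) (nat_lit 518) (nat_lit 415) (nat_lit 267)) (XT.lf (nat_lit 0) (nat_lit 3772521196980) (nat_lit 76) (nat_lit 1446001098487) (nat_lit 76) (nat_lit 1416849135760) (nat_lit 1) (nat_lit 4) (nat_lit 2) (nat_lit 5) (nat_lit 2) (nat_lit 4) (nat_lit 519) (nat_lit 415) (nat_lit 266)))))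 (XT.nd (nat_lit 234) (nat_lit 0) (nat_lit 0) (XT.nd (nat_lit 78) (nat_lit 0) (nat_lit 0) (XT.lf (nat_lit 0) (nat_lit 4218900028667) (nat_lit 76) (nat_lit 1485400460440) (nat_lit 76) (nat_lit 1456248475108) (nat_lit 1) (nat_lit 4) (nat_lit 2) (nat_lit 5) (nat_lit 2) (nat_lit 4) (nat_lit 520) (nat_lit 415) (nat_lit 265)) (XT.nd (nat_lit 78) (nat_lit 0) (nat_lit 0) (XT.lf (nat_lit 0) (nat_lit 4700988950988) (nat_lit 76) (nat_lit 1527951881779) (nat_lit 76) (nat_lit 1498799875517) (nat_lit 1) (nat_lit 4) (nat_lit 2) (nat_lit 5) (nat_lit 2) (nat_lit 4) (nat_lit 521) (nat_lit 415) (nat_lit 264)) (XT.lf (nat_lit 0) (nat_lit 5221644787184) (nat_lit 76) (nat_lit 1573907519075) (nat_lit 76) (nat_lit 1544755493433) (nat_lit 1) (nat_lit 4) (nat_lit 2) (nat_lit 5) (nat_lit 2) (nat_lit 4) (nat_lit 522) (nat_lit 415) (nat_lit 263)))) (XT.nd (nat_lit 78) (nat_lit 0) (nat_lit 0) (XT.lf (nat_lit 0) (nat_lit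 5783952905174) (nat_lit 76) (nat_lit 1623539702030) (nat_lit 76) (nat_lit 1594387658444) (nat_lit 1) (nat_lit 4) (nat_lit 2) (nat_lit 5) (nat_lit 2) (nat_lit 4) (nat_lit 523) (nat_lit 415) (nat_lit 262)) (XT.nd (nat_lit 78) (nat_lit 0) (nat_lit 0) (XT.lf (nat_lit 0) (nat_lit 6391245501214) (nat_lit 76) (nat_lit 1677142547285) (nat_lit 76) (nat_lit 1647990487084) (nat_lit 1) (nat_lit 4) (nat_lit 2) (nat_lit 5) (nat_lit 2) (nat_lit 4) (nat_lit 524) (nat_lit 415) (nat_lit 261)) (XT.lf (nat_lit 0) (nat_lit 7047121346242) (nat_lit 76) (nat_lit 1735033701330) (nat_lit 76) (nat_lit 1705881625745) (nat_lit 1) (nat_lit 4) (nat_lit 2) (nat_lit 5) (nat_lit 2) (nat_lit 4) (nat_lit 525) (nat_lit 415) (nat_lit 260))))))) (XT.nd (nat_lit 54600) (nat_lit 0) (nat_lit 3116) (XT.nd (nat_lit 54132) (nat_lit 0) (nat_lit 4788) (XT.nd (nat_lit 53898) (nat_lit 0) (nat_lit 5168) (XT.nd (nat_lit 78) (nat_lit 0)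 (nat_lit 0) (XT.lf (nat_lit 0) (nat_lit 7755467111933) (nat_lit 76) (nat_lit 1797556222855) (nat_lit 76) (nat_lit 1768404133025) (nat_lit 1) (nat_lit 4) (nat_lit 2) (nat_lit 5) (nat_lit 2) (nat_lit 4) (nat_lit 526) (nat_lit 415) (nat_lit 259)) (XT.lf (nat_lit 0) (nat_lit 8520480402825) (nat_lit 76) (nat_lit 1865080615692) (nat_lit 76) (nat_lit 1835928512672) (nat_lit 1) (nat_lit 4) (nat_lit 2) (nat_lit 5) (nat_lit 2) (nat_lit 4) (nat_lit 527) (nat_lit 415) (nat_lit 258))) (XT.nd (nat_lit 78) (nat_lit 0) (nat_lit 0) (XT.lf (nat_lit 0) (nat_lit 4995156873) (nat_lit 532) (nat_lit 1039672878) (nat_lit 532) (nat_lit 1039672878) (nat_lit 69) (nat_lit 3) (nat_lit 76) (nat_lit 3) (nat_lit 76) (nat_lit 5) (nat_lit 416) (nat_lit 416) (nat_lit 368)) (XT.nd (nat_lit 78) (nat_lit 0) (nat_lit 76) (XT.lf (nat_lit 76) (nat_lit 5110943772) (nat_lit 0) (nat_lit 5718618384) (nat_lit 532) (nat_lit 3850019370)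 (nat_lit 70) (nat_lit 5) (nat_lit 69) (nat_lit 3) (nat_lit 76) (nat_lit 5) (nat_lit 417) (nat_lit 416) (nat_lit 367)) (XT.lf (nat_lit 0) (nat_lit 11789927927) (nat_lit 456) (nat_lit 2303204075) (nat_lit 532) (nat_lit 1155175012) (nat_lit 70) (nat_lit 5) (nat_lit 76) (nat_lit 5) (nat_lit 77) (nat_lit 5) (nat_lit 418) (nat_lit 416) (nat_lit 366))))) (XT.nd (nat_lit 234) (nat_lit 456) (nat_lit 0) (XT.nd (nat_lit 78) (nat_lit 0) (nat_lit 0) (XT.lf (nat_lit 76) (nat_lit 5658593386) (nat_lit 0) (nat_lit 7423727193) (nat_lit 532) (nat_lit 2759813892) (nat_lit 71) (nat_lit 5) (nat_lit 70) (nat_lit 5) (nat_lit 77) (nat_lit 5) (nat_lit 419) (nat_lit 416) (nat_lit 365)) (XT.nd (nat_lit 78) (nat_lit 0) (nat_lit 76) (XT.lf (nat_lit 76) (nat_lit 14369409940) (nat_lit 0) (nat_lit 143966163) (nat_lit 532) (nat_lit 1967288580) (nat_lit 71) (nat_lit 5) (nat_lit 70) (nat_lit 5) (nat_lit 77) (nat_lit 5) (nat_lit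 420) (nat_lit 416) (nat_lit 364)) (XT.lf (nat_lit 76) (nat_lit 6738505580) (nat_lit 0) (nat_lit 9642639610) (nat_lit 532) (nat_lit 763370715) (nat_lit 72) (nat_lit 5) (nat_lit 71) (nat_lit 5) (nat_lit 78) (nat_lit 5) (nat_lit 421) (nat_lit 416) (nat_lit 363)))) (XT.nd (nat_lit 78) (nat_lit 0) (nat_lit 76) (XT.lf (nat_lit 0) (nat_lit 548297297) (nat_lit 532) (nat_lit 1479278799) (nat_lit 608) (nat_lit 15829817304) (nat_lit 64) (nat_lit 5) (nat_lit 71) (nat_lit 5) (nat_lit 72) (nat_lit 5) (nat_lit 422) (nat_lit 416) (nat_lit 362)) (XT.nd (nat_lit 78) (nat_lit 0) (nat_lit 0) (XT.lf (nat_lit 0) (nat_lit 2261428720) (nat_lit 532) (nat_lit 10215654149) (nat_lit 76) (nat_lit 6121623689) (nat_lit 65) (nat_lit 5) (nat_lit 72) (nat_lit 5) (nat_lit 66) (nat_lit 5) (nat_lit 423) (nat_lit 416) (nat_lit 361)) (XT.lf (nat_lit 0) (nat_lit 4184245539) (nat_lit 532) (nat_lit 351698345) (nat_lit 76) (nat_lit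 14857582532) (nat_lit 65) (nat_lit 5) (nat_lit 72) (nat_lit 5) (nat_lit 66) (nat_lit 5) (nat_lit 424) (nat_lit 416) (nat_lit 360)))))) (XT.nd (nat_lit 468) (nat_lit 608) (nat_lit 0) (XT.nd (nat_lit 234) (nat_lit 456) (nat_lit 0) (XT.nd (nat_lit 78) (nat_lit 228) (nat_lit 0) (XT.lf (nat_lit 0) (nat_lit 6605232896) (nat_lit 532) (nat_lit 9512723235) (nat_lit 76) (nat_lit 4106439635) (nat_lit 59) (nat_lit 5) (nat_lit 66) (nat_lit 5) (nat_lit 60) (nat_lit 5) (nat_lit 425) (nat_lit 416) (nat_lit 359)) (XT.nd (nat_lit 78) (nat_lit 0) (nat_lit 0) (XT.lf (nat_lit 0) (nat_lit 1495979343) (nat_lit 228) (nat_lit 7868694903) (nat_lit 304) (nat_lit 11745489080) (nat_lit 56) (nat_lit 5) (nat_lit 59) (nat_lit 5) (nat_lit 60) (nat_lit 5) (nat_lit 426) (nat_lit 416) (nat_lit 358)) (XT.lf (nat_lit 0) (nat_lit 12618755672) (nat_lit 304) (nat_lit 8172233605) (nat_lit 76) (nat_lit 1253902108) (nat_lit 56) (nat_lit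 5) (nat_lit 60) (nat_lit 5) (nat_lit 57) (nat_lit 5) (nat_lit 427) (nat_lit 416) (nat_lit 357)))) (XT.nd (nat_lit 78) (nat_lit 228) (nat_lit 0) (XT.lf (nat_lit 0) (nat_lit 4169990870) (nat_lit 228) (nat_lit 12251185515) (nat_lit 304) (nat_lit 6610189424) (nat_lit 53) (nat_lit 5) (nat_lit 56) (nat_lit 5) (nat_lit 57) (nat_lit 5) (nat_lit 428) (nat_lit 416) (nat_lit 356)) (XT.nd (nat_lit 78) (nat_lit 228) (nat_lit 0) (XT.lf (nat_lit 0) (nat_lit 17945544000) (nat_lit 228) (nat_lit 2789814270) (nat_lit 304) (nat_lit 3344802982) (nat_lit 53) (nat_lit 5) (nat_lit 56) (nat_lit 5) (nat_lit 57) (nat_lit 5) (nat_lit 429) (nat_lit 416) (nat_lit 355)) (XT.lf (nat_lit 0) (nat_lit 533406078) (nat_lit 228) (nat_lit 17394797165) (nat_lit 76) (nat_lit 7255459589) (nat_lit 50) (nat_lit 5) (nat_lit 53) (nat_lit 5) (nat_lit 51) (nat_lit 5) (nat_lit 430) (nat_lit 416) (nat_lit 354))))) (XT.nd (nat_lit 234)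 (nat_lit 228) (nat_lit 0) (XT.nd (nat_lit 78) (nat_lit 380) (nat_lit 0) (XT.lf (nat_lit 0) (nat_lit 4771236997) (nat_lit 228) (nat_lit 3369451437) (nat_lit 76) (nat_lit 18209406876) (nat_lit 50) (nat_lit 5) (nat_lit 53) (nat_lit 5) (nat_lit 51) (nat_lit 5) (nat_lit 431) (nat_lit 416) (nat_lit 353)) (XT.nd (nat_lit 78) (nat_lit 152) (nat_lit 0) (XT.lf (nat_lit 0) (nat_lit 9698495049) (nat_lit 304) (nat_lit 15273409245) (nat_lit 76) (nat_lit 2609912261) (nat_lit 47) (nat_lit 5) (nat_lit 51) (nat_lit 5) (nat_lit 48) (nat_lit 5) (nat_lit 432) (nat_lit 416) (nat_lit 352)) (XT.lf (nat_lit 0) (nat_lit 311211124) (nat_lit 152) (nat_lit 15009250422) (nat_lit 228) (nat_lit 13567577492) (nat_lit 45) (nat_lit 5) (nat_lit 47) (nat_lit 5) (nat_lit 48) (nat_lit 5) (nat_lit 433) (nat_lit 416) (nat_lit 351)))) (XT.nd (nat_lit 78) (nat_lit 228) (nat_lit 0) (XT.lf (nat_lit 0) (nat_lit 17993736733) (nat_lit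 152) (nat_lit 3803664682) (nat_lit 228) (nat_lit 8468945955) (nat_lit 45) (nat_lit 5) (nat_lit 47) (nat_lit 5) (nat_lit 48) (nat_lit 5) (nat_lit 434) (nat_lit 416) (nat_lit 350)) (XT.nd (nat_lit 78) (nat_lit 76) (nat_lit 0) (XT.lf (nat_lit 0) (nat_lit 5388954190) (nat_lit 152) (nat_lit 23721140808) (nat_lit 228) (nat_lit 2619422428) (nat_lit 43) (nat_lit 5) (nat_lit 45) (nat_lit 5) (nat_lit 46) (nat_lit 5) (nat_lit 435) (nat_lit 416) (nat_lit 349)) (XT.lf (nat_lit 0) (nat_lit 3944722503) (nat_lit 228) (nat_lit 8335115345) (nat_lit 76) (nat_lit 20988260264) (nat_lit 42) (nat_lit 5) (nat_lit 45) (nat_lit 5) (nat_lit 43) (nat_lit 5) (nat_lit 436) (nat_lit 416) (nat_lit 348))))))))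
noncomputable def xc136 : XT := (XT.nd (nat_lit 1716) (nat_lit 988) (nat_lit 0) (XT.nd (nat_lit 858) (nat_lit 684) (nat_lit 0) (XT.nd (nat_lit 390) (nat_lit 532) (nat_lit 0) (XT.nd (nat_lit 156) (nat_lit 304) (nat_lit 0) (XT.nd (nat_lit 78) (nat_lit 0) (nat_lit 0) (XT.lf (nat_lit 0) (nat_lit 11171809037) (nat_lit 228) (nat_lit 23306085037) (nat_lit 76) (nat_lit 424085995) (nat_lit 40) (nat_lit 5) (nat_lit 43) (nat_lit 5) (nat_lit 41) (nat_lit 5) (nat_lit 437) (nat_lit 416) (nat_lit 347)) (XT.lf (nat_lit 0) (nat_lit 19519547735) (nat_lit 228) (nat_lit 3393985979) (nat_lit 76) (nat_lit 13709643682) (nat_lit 40) (nat_lit 5) (nat_lit 43) (nat_lit 5) (nat_lit 41) (nat_lit 5) (nat_lit 438) (nat_lit 416) (nat_lit 346))) (XT.nd (nat_lit 78) (nat_lit 152) (nat_lit 0) (XT.lf (nat_lit 0) (nat_lit 19049007517) (nat_lit 152) (nat_lit 9934701350) (nat_lit 228) (nat_lit 9462476735) (nat_lit 38) (nat_lit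 5) (nat_lit 40) (nat_lit 5) (nat_lit 41) (nat_lit 5) (nat_lit 439) (nat_lit 416) (nat_lit 345)) (XT.nd (nat_lit 78) (nat_lit 76) (nat_lit 0) (XT.lf (nat_lit 0) (nat_lit 3112759727) (nat_lit 76) (nat_lit 36351193792) (nat_lit 152) (nat_lit 930368009) (nat_lit 37) (nat_lit 5) (nat_lit 38) (nat_lit 5) (nat_lit 39) (nat_lit 4) (nat_lit 440) (nat_lit 416) (nat_lit 344)) (XT.lf (nat_lit 0) (nat_lit 8662862380) (nat_lit 152) (nat_lit 14415621494) (nat_lit 76) (nat_lit 19340450680) (nat_lit 36) (nat_lit 5) (nat_lit 38) (nat_lit 5) (nat_lit 37) (nat_lit 5) (nat_lit 441) (nat_lit 416) (nat_lit 343))))) (XT.nd (nat_lit 234) (nat_lit 304) (nat_lit 0) (XT.nd (nat_lit 78) (nat_lit 76) (nat_lit 0) (XT.lf (nat_lit 0) (nat_lit 10780537701) (nat_lit 152) (nat_lit 8443498367) (nat_lit 228) (nat_lit 25359489883) (nat_lit 34) (nat_lit 5) (nat_lit 36) (nat_lit 5) (nat_lit 37) (nat_lit 5) (nat_lit 442) (nat_lit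 416) (nat_lit 342)) (XT.nd (nat_lit 78) (nat_lit 76) (nat_lit 0) (XT.lf (nat_lit 0) (nat_lit 31203194279) (nat_lit 228) (nat_lit 8279178618) (nat_lit 76) (nat_lit 7393066799) (nat_lit 34) (nat_lit 5) (nat_lit 37) (nat_lit 5) (nat_lit 35) (nat_lit 4) (nat_lit 443) (nat_lit 416) (nat_lit 341)) (XT.lf (nat_lit 0) (nat_lit 20057289637) (nat_lit 76) (nat_lit 24777345830) (nat_lit 152) (nat_lit 4460557167) (nat_lit 33) (nat_lit 5) (nat_lit 34) (nat_lit 5) (nat_lit 35) (nat_lit 4) (nat_lit 444) (nat_lit 416) (nat_lit 340)))) (XT.nd (nat_lit 78) (nat_lit 228) (nat_lit 0) (XT.lf (nat_lit 0) (nat_lit 7490052252) (nat_lit 152) (nat_lit 962063710) (nat_lit 76) (nat_lit 43423730898) (nat_lit 32) (nat_lit 5) (nat_lit 34) (nat_lit 5) (nat_lit 33) (nat_lit 5) (nat_lit 445) (nat_lit 416) (nat_lit 339)) (XT.nd (nat_lit 78) (nat_lit 76) (nat_lit 0) (XT.lf (nat_lit 0) (nat_lit 21137133711) (nat_lit 228) (nat_lit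 23839337591) (nat_lit 76) (nat_lit 9598702377) (nat_lit 30) (nat_lit 5) (nat_lit 33) (nat_lit 5) (nat_lit 31) (nat_lit 4) (nat_lit 446) (nat_lit 416) (nat_lit 338)) (XT.lf (nat_lit 0) (nat_lit 7687820647) (nat_lit 76) (nat_lit 28612583190) (nat_lit 152) (nat_lit 21156090589) (nat_lit 29) (nat_lit 5) (nat_lit 30) (nat_lit 5) (nat_lit 31) (nat_lit 4) (nat_lit 447) (nat_lit 416) (nat_lit 337)))))) (XT.nd (nat_lit 390) (nat_lit 456) (nat_lit 0) (XT.nd (nat_lit 156) (nat_lit 76) (nat_lit 0) (XT.nd (nat_lit 78) (nat_lit 152) (nat_lit 0) (XT.lf (nat_lit 0) (nat_lit 43080756065) (nat_lit 76) (nat_lit 10241021471) (nat_lit 152) (nat_lit 7194941383) (nat_lit 29) (nat_lit 5) (nat_lit 30) (nat_lit 5) (nat_lit 31) (nat_lit 4) (nat_lit 448) (nat_lit 416) (nat_lit 336)) (XT.lf (nat_lit 0) (nat_lit 8166899105) (nat_lit 152) (nat_lit 45826932838) (nat_lit 76) (nat_lit 9758512052) (nat_lit 27) (nat_lit 5)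 (nat_lit 29) (nat_lit 5) (nat_lit 28) (nat_lit 4) (nat_lit 449) (nat_lit 416) (nat_lit 335))) (XT.nd (nat_lit 78) (nat_lit 76) (nat_lit 0) (XT.lf (nat_lit 0) (nat_lit 25117738195) (nat_lit 152) (nat_lit 10578333969) (nat_lit 76) (nat_lit 31475896325) (nat_lit 27) (nat_lit 5) (nat_lit 29) (nat_lit 5) (nat_lit 28) (nat_lit 4) (nat_lit 450) (nat_lit 416) (nat_lit 334)) (XT.nd (nat_lit 78) (nat_lit 0) (nat_lit 0) (XT.lf (nat_lit 0) (nat_lit 28926348996) (nat_lit 76) (nat_lit 15188096837) (nat_lit 152) (nat_lit 26695534053) (nat_lit 26) (nat_lit 5) (nat_lit 27) (nat_lit 5) (nat_lit 28) (nat_lit 4) (nat_lit 451) (nat_lit 416) (nat_lit 333)) (XT.lf (nat_lit 0) (nat_lit 65089220855) (nat_lit 152) (nat_lit 2708684204) (nat_lit 0) (nat_lit 6904461657) (nat_lit 26) (nat_lit 5) (nat_lit 28) (nat_lit 4) (nat_lit 26) (nat_lit 4) (nat_lit 452) (nat_lit 416) (nat_lit 332))))) (XT.nd (nat_lit 234) (nat_lit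 228) (nat_lit 0) (XT.nd (nat_lit 78) (nat_lit 76) (nat_lit 0) (XT.lf (nat_lit 0) (nat_lit 9811118847) (nat_lit 152) (nat_lit 37784354898) (nat_lit 76) (nat_lit 31180288256) (nat_lit 24) (nat_lit 5) (nat_lit 26) (nat_lit 5) (nat_lit 25) (nat_lit 4) (nat_lit 453) (nat_lit 416) (nat_lit 331)) (XT.nd (nat_lit 78) (nat_lit 0) (nat_lit 0) (XT.lf (nat_lit 0) (nat_lit 5169316566) (nat_lit 76) (nat_lit 25295598616) (nat_lit 152) (nat_lit 52674543139) (nat_lit 23) (nat_lit 5) (nat_lit 24) (nat_lit 5) (nat_lit 25) (nat_lit 4) (nat_lit 454) (nat_lit 416) (nat_lit 330)) (XT.lf (nat_lit 0) (nat_lit 53698262568) (nat_lit 76) (nat_lit 100647714) (nat_lit 152) (nat_lit 33971109178) (nat_lit 23) (nat_lit 5) (nat_lit 24) (nat_lit 5) (nat_lit 25) (nat_lit 4) (nat_lit 455) (nat_lit 416) (nat_lit 329)))) (XT.nd (nat_lit 78) (nat_lit 152) (nat_lit 0) (XT.lf (nat_lit 0) (nat_lit 13344657512) (nat_lit 76) (nat_lit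 66622985669) (nat_lit 76) (nat_lit 12725941523) (nat_lit 22) (nat_lit 4) (nat_lit 23) (nat_lit 5) (nat_lit 23) (nat_lit 4) (nat_lit 456) (nat_lit 416) (nat_lit 328)) (XT.nd (nat_lit 78) (nat_lit 76) (nat_lit 0) (XT.lf (nat_lit 0) (nat_lit 10661149484) (nat_lit 152) (nat_lit 31726428714) (nat_lit 76) (nat_lit 55527516661) (nat_lit 21) (nat_lit 5) (nat_lit 23) (nat_lit 5) (nat_lit 22) (nat_lit 4) (nat_lit 457) (nat_lit 416) (nat_lit 327)) (XT.lf (nat_lit 0) (nat_lit 20386412852) (nat_lit 76) (nat_lit 15331024197) (nat_lit 152) (nat_lit 67771584940) (nat_lit 20) (nat_lit 5) (nat_lit 21) (nat_lit 5) (nat_lit 22) (nat_lit 4) (nat_lit 458) (nat_lit 416) (nat_lit 326))))))) (XT.nd (nat_lit 858) (nat_lit 456) (nat_lit 0) (XT.nd (nat_lit 390) (nat_lit 304) (nat_lit 0) (XT.nd (nat_lit 156) (nat_lit 152) (nat_lit 0) (XT.nd (nat_lit 78) (nat_lit 76) (nat_lit 0) (XT.lf (nat_lit 0) (nat_lit 63997771484)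 (nat_lit 152) (nat_lit 31332219304) (nat_lit 0) (nat_lit 14081309482) (nat_lit 20) (nat_lit 5) (nat_lit 22) (nat_lit 4) (nat_lit 20) (nat_lit 4) (nat_lit 459) (nat_lit 416) (nat_lit 325)) (XT.lf (nat_lit 0) (nat_lit 25446417903) (nat_lit 76) (nat_lit 70100143113) (nat_lit 76) (nat_lit 20180317985) (nat_lit 19) (nat_lit 4) (nat_lit 20) (nat_lit 5) (nat_lit 20) (nat_lit 4) (nat_lit 460) (nat_lit 416) (nat_lit 324))) (XT.nd (nat_lit 78) (nat_lit 76) (nat_lit 0) (XT.lf (nat_lit 0) (nat_lit 7592577921) (nat_lit 152) (nat_lit 34130377055) (nat_lit 76) (nat_lit 80741161706) (nat_lit 18) (nat_lit 5) (nat_lit 20) (nat_lit 5) (nat_lit 19) (nat_lit 4) (nat_lit 461) (nat_lit 416) (nat_lit 323)) (XT.nd (nat_lit 78) (nat_lit 0) (nat_lit 0) (XT.lf (nat_lit 0) (nat_lit 27348091409) (nat_lit 76) (nat_lit 9802828725) (nat_lit 152) (nat_lit 92495170398) (nat_lit 17) (nat_lit 5) (nat_lit 18) (nat_lit 5) (nat_lit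 19) (nat_lit 4) (nat_lit 462) (nat_lit 416) (nat_lit 322)) (XT.lf (nat_lit 0) (nat_lit 70620865145) (nat_lit 152) (nat_lit 42267222897) (nat_lit 0) (nat_lit 24390779748) (nat_lit 17) (nat_lit 5) (nat_lit 19) (nat_lit 4) (nat_lit 17) (nat_lit 4) (nat_lit 463) (nat_lit 416) (nat_lit 321))))) (XT.nd (nat_lit 234) (nat_lit 76) (nat_lit 0) (XT.nd (nat_lit 78) (nat_lit 152) (nat_lit 0) (XT.lf (nat_lit 0) (nat_lit 23478923013) (nat_lit 76) (nat_lit 84105229533) (nat_lit 76) (nat_lit 37872855249) (nat_lit 16) (nat_lit 4) (nat_lit 17) (nat_lit 5) (nat_lit 17) (nat_lit 4) (nat_lit 464) (nat_lit 416) (nat_lit 320)) (XT.nd (nat_lit 78) (nat_lit 152) (nat_lit 0) (XT.lf (nat_lit 0) (nat_lit 96881727528) (nat_lit 76) (nat_lit 51774993950) (nat_lit 76) (nat_lit 5540500326) (nat_lit 16) (nat_lit 4) (nat_lit 17) (nat_lit 5) (nat_lit 17) (nat_lit 4) (nat_lit 465) (nat_lit 416) (nat_lit 319)) (XT.lf (nat_lit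 0) (nat_lit 12428815199) (nat_lit 76) (nat_lit 15775642095) (nat_lit 152) (nat_lit 135352020263) (nat_lit 14) (nat_lit 5) (nat_lit 15) (nat_lit 5) (nat_lit 16) (nat_lit 4) (nat_lit 466) (nat_lit 416) (nat_lit 318)))) (XT.nd (nat_lit 78) (nat_lit 76) (nat_lit 0) (XT.lf (nat_lit 0) (nat_lit 66509880225) (nat_lit 152) (nat_lit 83273600562) (nat_lit 0) (nat_lit 23696664514) (nat_lit 14) (nat_lit 5) (nat_lit 16) (nat_lit 4) (nat_lit 14) (nat_lit 4) (nat_lit 467) (nat_lit 416) (nat_lit 317)) (XT.nd (nat_lit 78) (nat_lit 76) (nat_lit 0) (XT.lf (nat_lit 0) (nat_lit 108286479878) (nat_lit 152) (nat_lit 10406980977) (nat_lit 0) (nat_lit 65471706389) (nat_lit 14) (nat_lit 5) (nat_lit 16) (nat_lit 4) (nat_lit 14) (nat_lit 4) (nat_lit 468) (nat_lit 416) (nat_lit 316)) (XT.lf (nat_lit 0) (nat_lit 71879086161) (nat_lit 76) (nat_lit 83252024307) (nat_lit 76) (nat_lit 40435808431) (nat_lit 13) (nat_lit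 4) (nat_lit 14) (nat_lit 5) (nat_lit 14) (nat_lit 4) (nat_lit 469) (nat_lit 416) (nat_lit 315)))))) (XT.nd (nat_lit 468) (nat_lit 228) (nat_lit 0) (XT.nd (nat_lit 234) (nat_lit 76) (nat_lit 0) (XT.nd (nat_lit 78) (nat_lit 152) (nat_lit 0) (XT.lf (nat_lit 0) (nat_lit 161334468772) (nat_lit 76) (nat_lit 44670673526) (nat_lit 76) (nat_lit 1853122107) (nat_lit 13) (nat_lit 4) (nat_lit 14) (nat_lit 5) (nat_lit 14) (nat_lit 4) (nat_lit 470) (nat_lit 416) (nat_lit 314)) (XT.nd (nat_lit 78) (nat_lit 0) (nat_lit 0) (XT.lf (nat_lit 0) (nat_lit 37738456514) (nat_lit 76) (nat_lit 990987979) (nat_lit 152) (nat_lit 182254464254) (nat_lit 11) (nat_lit 5) (nat_lit 12) (nat_lit 5) (nat_lit 13) (nat_lit 4) (nat_lit 471) (nat_lit 416) (nat_lit 313)) (XT.lf (nat_lit 0) (nat_lit 84871717450) (nat_lit 152) (nat_lit 104867347972) (nat_lit 0) (nat_lit 45223631295) (nat_lit 11) (nat_lit 5) (nat_lit 13) (nat_lit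 4) (nat_lit 11) (nat_lit 4) (nat_lit 472) (nat_lit 416) (nat_lit 312)))) (XT.nd (nat_lit 78) (nat_lit 76) (nat_lit 0) (XT.lf (nat_lit 0) (nat_lit 134728733163) (nat_lit 152) (nat_lit 20249520475) (nat_lit 0) (nat_lit 95079665344) (nat_lit 11) (nat_lit 5) (nat_lit 13) (nat_lit 4) (nat_lit 11) (nat_lit 4) (nat_lit 473) (nat_lit 416) (nat_lit 311)) (XT.nd (nat_lit 78) (nat_lit 0) (nat_lit 0) (XT.lf (nat_lit 0) (nat_lit 74879056171) (nat_lit 76) (nat_lit 115493894263) (nat_lit 76) (nat_lit 75843917495) (nat_lit 10) (nat_lit 4) (nat_lit 11) (nat_lit 5) (nat_lit 11) (nat_lit 4) (nat_lit 474) (nat_lit 416) (nat_lit 310)) (XT.lf (nat_lit 0) (nat_lit 178765208589) (nat_lit 76) (nat_lit 72255010779) (nat_lit 76) (nat_lit 32604192393) (nat_lit 10) (nat_lit 4) (nat_lit 11) (nat_lit 5) (nat_lit 11) (nat_lit 4) (nat_lit 475) (nat_lit 416) (nat_lit 309))))) (XT.nd (nat_lit 234) (nat_lit 76) (nat_lit 0)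 (XT.nd (nat_lit 78) (nat_lit 76) (nat_lit 0) (XT.lf (nat_lit 0) (nat_lit 13387599837) (nat_lit 152) (nat_lit 11805390002) (nat_lit 76) (nat_lit 277204614020) (nat_lit 9) (nat_lit 5) (nat_lit 11) (nat_lit 5) (nat_lit 10) (nat_lit 4) (nat_lit 476) (nat_lit 416) (nat_lit 308)) (XT.nd (nat_lit 78) (nat_lit 0) (nat_lit 0) (XT.lf (nat_lit 0) (nat_lit 64215437204) (nat_lit 152) (nat_lit 230655684417) (nat_lit 0) (nat_lit 27500326819) (nat_lit 8) (nat_lit 5) (nat_lit 10) (nat_lit 4) (nat_lit 8) (nat_lit 4) (nat_lit 477) (nat_lit 416) (nat_lit 307)) (XT.lf (nat_lit 0) (nat_lit 120093149157) (nat_lit 152) (nat_lit 140393939550) (nat_lit 0) (nat_lit 83377420157) (nat_lit 8) (nat_lit 5) (nat_lit 10) (nat_lit 4) (nat_lit 8) (nat_lit 4) (nat_lit 478) (nat_lit 416) (nat_lit 306)))) (XT.nd (nat_lit 78) (nat_lit 76) (nat_lit 0) (XT.lf (nat_lit 0) (nat_lit 180439337361) (nat_lit 152) (nat_lit 42914780526)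 (nat_lit 0) (nat_lit 143723035569) (nat_lit 8) (nat_lit 5) (nat_lit 10) (nat_lit 4) (nat_lit 8) (nat_lit 4) (nat_lit 479) (nat_lit 416) (nat_lit 305)) (XT.nd (nat_lit 78) (nat_lit 0) (nat_lit 0) (XT.lf (nat_lit 0) (nat_lit 65643184892) (nat_lit 76) (nat_lit 181547144139) (nat_lit 76) (nat_lit 144830311984) (nat_lit 7) (nat_lit 4) (nat_lit 8) (nat_lit 5) (nat_lit 8) (nat_lit 4) (nat_lit 480) (nat_lit 416) (nat_lit 304)) (XT.lf (nat_lit 0) (nat_lit 185323207488) (nat_lit 76) (nat_lit 135129989803) (nat_lit 76) (nat_lit 98412666572) (nat_lit 7) (nat_lit 4) (nat_lit 8) (nat_lit 5) (nat_lit 8) (nat_lit 4) (nat_lit 481) (nat_lit 416) (nat_lit 303))))))))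
noncomputable def xc137 : XT := (XT.nd (nat_lit 1716) (nat_lit 76) (nat_lit 0) (XT.nd (nat_lit 858) (nat_lit 152) (nat_lit 0) (XT.nd (nat_lit 390) (nat_lit 76) (nat_lit 0) (XT.nd (nat_lit 156) (nat_lit 76) (nat_lit 0) (XT.nd (nat_lit 78) (nat_lit 76) (nat_lit 0) (XT.lf (nat_lit 0) (nat_lit 314574685920) (nat_lit 76) (nat_lit 85000956414) (nat_lit 76) (nat_lit 48283178482) (nat_lit 7) (nat_lit 4) (nat_lit 8) (nat_lit 5) (nat_lit 8) (nat_lit 4) (nat_lit 482) (nat_lit 416) (nat_lit 302)) (XT.lf (nat_lit 0) (nat_lit 5562314304) (nat_lit 152) (nat_lit 25148585197) (nat_lit 76) (nat_lit 448449157040) (nat_lit 6) (nat_lit 5) (nat_lit 8) (nat_lit 5) (nat_lit 7) (nat_lit 4) (nat_lit 483) (nat_lit 416) (nat_lit 301))) (XT.nd (nat_lit 78) (nat_lit 0) (nat_lit 0) (XT.lf (nat_lit 0) (nat_lit 64157260242) (nat_lit 152) (nat_lit 418305206567) (nat_lit 0) (nat_lit 30158566924) (nat_lit 5) (nat_lit 5) (nat_lit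 7) (nat_lit 4) (nat_lit 5) (nat_lit 4) (nat_lit 484) (nat_lit 416) (nat_lit 300)) (XT.nd (nat_lit 78) (nat_lit 0) (nat_lit 0) (XT.lf (nat_lit 0) (nat_lit 128941679529) (nat_lit 152) (nat_lit 324754407409) (nat_lit 0) (nat_lit 94942651992) (nat_lit 5) (nat_lit 5) (nat_lit 7) (nat_lit 4) (nat_lit 5) (nat_lit 4) (nat_lit 485) (nat_lit 416) (nat_lit 299)) (XT.lf (nat_lit 0) (nat_lit 198907671957) (nat_lit 152) (nat_lit 223721948100) (nat_lit 0) (nat_lit 164908334960) (nat_lit 5) (nat_lit 5) (nat_lit 7) (nat_lit 4) (nat_lit 5) (nat_lit 4) (nat_lit 486) (nat_lit 416) (nat_lit 298))))) (XT.nd (nat_lit 234) (nat_lit 0) (nat_lit 0) (XT.nd (nat_lit 78) (nat_lit 76) (nat_lit 0) (XT.lf (nat_lit 0) (nat_lit 274469850817) (nat_lit 152) (nat_lit 114609117770) (nat_lit 0) (nat_lit 240470227281) (nat_lit 5) (nat_lit 5) (nat_lit 7) (nat_lit 4) (nat_lit 5) (nat_lit 4) (nat_lit 487) (nat_lit 416) (nat_lit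 297)) (XT.nd (nat_lit 78) (nat_lit 0) (nat_lit 0) (XT.lf (nat_lit 0) (nat_lit 3400799916) (nat_lit 76) (nat_lit 352756981385) (nat_lit 76) (nat_lit 318757092535) (nat_lit 4) (nat_lit 4) (nat_lit 5) (nat_lit 5) (nat_lit 5) (nat_lit 4) (nat_lit 488) (nat_lit 416) (nat_lit 296)) (XT.lf (nat_lit 0) (nat_lit 137367424416) (nat_lit 76) (nat_lit 310145952844) (nat_lit 76) (nat_lit 276145818333) (nat_lit 4) (nat_lit 4) (nat_lit 5) (nat_lit 5) (nat_lit 5) (nat_lit 4) (nat_lit 489) (nat_lit 416) (nat_lit 295)))) (XT.nd (nat_lit 78) (nat_lit 0) (nat_lit 0) (XT.lf (nat_lit 0) (nat_lit 282049518986) (nat_lit 76) (nat_lit 264126989549) (nat_lit 76) (nat_lit 230126627575) (nat_lit 4) (nat_lit 4) (nat_lit 5) (nat_lit 5) (nat_lit 5) (nat_lit 4) (nat_lit 490) (nat_lit 416) (nat_lit 294)) (XT.nd (nat_lit 78) (nat_lit 0) (nat_lit 0) (XT.lf (nat_lit 0) (nat_lit 438304459000) (nat_lit 76) (nat_lit 214427386533)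 (nat_lit 76) (nat_lit 180426813945) (nat_lit 4) (nat_lit 4) (nat_lit 5) (nat_lit 5) (nat_lit 5) (nat_lit 4) (nat_lit 491) (nat_lit 416) (nat_lit 293)) (XT.lf (nat_lit 0) (nat_lit 607058199660) (nat_lit 76) (nat_lit 160752627630) (nat_lit 76) (nat_lit 126751860029) (nat_lit 4) (nat_lit 4) (nat_lit 5) (nat_lit 5) (nat_lit 5) (nat_lit 4) (nat_lit 492) (nat_lit 416) (nat_lit 292)))))) (XT.nd (nat_lit 390) (nat_lit 0) (nat_lit 0) (XT.nd (nat_lit 156) (nat_lit 152) (nat_lit 0) (XT.nd (nat_lit 78) (nat_lit 0) (nat_lit 0) (XT.lf (nat_lit 0) (nat_lit 789310763132) (nat_lit 76) (nat_lit 102784640195) (nat_lit 76) (nat_lit 68783692026) (nat_lit 4) (nat_lit 4) (nat_lit 5) (nat_lit 5) (nat_lit 5) (nat_lit 4) (nat_lit 493) (nat_lit 416) (nat_lit 291)) (XT.lf (nat_lit 0) (nat_lit 986142164607) (nat_lit 76) (nat_lit 40179910227) (nat_lit 76) (nat_lit 6178794866) (nat_lit 4) (nat_lit 4) (nat_lit 5) (nat_lit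 5) (nat_lit 5) (nat_lit 4) (nat_lit 494) (nat_lit 416) (nat_lit 290))) (XT.nd (nat_lit 78) (nat_lit 0) (nat_lit 0) (XT.lf (nat_lit 0) (nat_lit 61328625919) (nat_lit 152) (nat_lit 1018322204932) (nat_lit 0) (nat_lit 29845968354) (nat_lit 2) (nat_lit 5) (nat_lit 4) (nat_lit 4) (nat_lit 2) (nat_lit 4) (nat_lit 495) (nat_lit 416) (nat_lit 289)) (XT.nd (nat_lit 78) (nat_lit 0) (nat_lit 0) (XT.lf (nat_lit 0) (nat_lit 136246275083) (nat_lit 152) (nat_lit 951442328146) (nat_lit 0) (nat_lit 104763484796) (nat_lit 2) (nat_lit 5) (nat_lit 4) (nat_lit 4) (nat_lit 2) (nat_lit 4) (nat_lit 496) (nat_lit 416) (nat_lit 288)) (XT.lf (nat_lit 0) (nat_lit 217156747391) (nat_lit 152) (nat_lit 879213265466) (nat_lit 0) (nat_lit 185673834212) (nat_lit 2) (nat_lit 5) (nat_lit 4) (nat_lit 4) (nat_lit 2) (nat_lit 4) (nat_lit 497) (nat_lit 416) (nat_lit 287))))) (XT.nd (nat_lit 234) (nat_lit 0) (nat_lit 0) (XT.nd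 (nat_lit 78) (nat_lit 0) (nat_lit 0) (XT.lf (nat_lit 0) (nat_lit 304539512309) (nat_lit 152) (nat_lit 801206992816) (nat_lit 0) (nat_lit 273056485342) (nat_lit 2) (nat_lit 5) (nat_lit 4) (nat_lit 4) (nat_lit 2) (nat_lit 4) (nat_lit 498) (nat_lit 416) (nat_lit 286)) (XT.nd (nat_lit 78) (nat_lit 0) (nat_lit 0) (XT.lf (nat_lit 0) (nat_lit 398912393629) (nat_lit 152) (nat_lit 716961250802) (nat_lit 0) (nat_lit 367429261302) (nat_lit 2) (nat_lit 5) (nat_lit 4) (nat_lit 4) (nat_lit 2) (nat_lit 4) (nat_lit 499) (nat_lit 416) (nat_lit 285)) (XT.lf (nat_lit 0) (nat_lit 500834638055) (nat_lit 152) (nat_lit 625976805399) (nat_lit 0) (nat_lit 469351408173) (nat_lit 2) (nat_lit 5) (nat_lit 4) (nat_lit 4) (nat_lit 2) (nat_lit 4) (nat_lit 500) (nat_lit 416) (nat_lit 284)))) (XT.nd (nat_lit 78) (nat_lit 0) (nat_lit 0) (XT.lf (nat_lit 0) (nat_lit 610910229257) (nat_lit 152) (nat_lit 527714489523) (nat_lit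 0) (nat_lit 579426909047) (nat_lit 2) (nat_lit 5) (nat_lit 4) (nat_lit 4) (nat_lit 2) (nat_lit 4) (nat_lit 501) (nat_lit 416) (nat_lit 283)) (XT.nd (nat_lit 78) (nat_lit 0) (nat_lit 0) (XT.lf (nat_lit 0) (nat_lit 729791467036) (nat_lit 152) (nat_lit 421592007967) (nat_lit 0) (nat_lit 698308063188) (nat_lit 2) (nat_lit 5) (nat_lit 4) (nat_lit 4) (nat_lit 2) (nat_lit 4) (nat_lit 502) (nat_lit 416) (nat_lit 282)) (XT.lf (nat_lit 0) (nat_lit 858182832800) (nat_lit 152) (nat_lit 306980486768) (nat_lit 0) (nat_lit 826699351509) (nat_lit 2) (nat_lit 5) (nat_lit 4) (nat_lit 4) (nat_lit 2) (nat_lit 4) (nat_lit 503) (nat_lit 416) (nat_lit 281))))))) (XT.nd (nat_lit 858) (nat_lit 0) (nat_lit 0) (XT.nd (nat_lit 390) (nat_lit 0) (nat_lit 0) (XT.nd (nat_lit 156) (nat_lit 76) (nat_lit 0) (XT.nd (nat_lit 78) (nat_lit 0) (nat_lit 0) (XT.lf (nat_lit 0) (nat_lit 996845164273) (nat_lit 152) (nat_lit 183200746540)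 (nat_lit 0) (nat_lit 965361611276) (nat_lit 2) (nat_lit 5) (nat_lit 4) (nat_lit 4) (nat_lit 2) (nat_lit 4) (nat_lit 504) (nat_lit 416) (nat_lit 280)) (XT.lf (nat_lit 0) (nat_lit 1146600164159) (nat_lit 152) (nat_lit 49519277712) (nat_lit 0) (nat_lit 1115116544768) (nat_lit 2) (nat_lit 5) (nat_lit 4) (nat_lit 4) (nat_lit 2) (nat_lit 4) (nat_lit 505) (nat_lit 416) (nat_lit 279))) (XT.nd (nat_lit 78) (nat_lit 0) (nat_lit 0) (XT.lf (nat_lit 0) (nat_lit 99851060650) (nat_lit 76) (nat_lit 1210885629254) (nat_lit 76) (nat_lit 1179401948386) (nat_lit 1) (nat_lit 4) (nat_lit 2) (nat_lit 5) (nat_lit 2) (nat_lit 4) (nat_lit 506) (nat_lit 416) (nat_lit 278)) (XT.nd (nat_lit 78) (nat_lit 0) (nat_lit 0) (XT.lf (nat_lit 0) (nat_lit 263986644111) (nat_lit 76) (nat_lit 1225371151562) (nat_lit 76) (nat_lit 1193887413772) (nat_lit 1) (nat_lit 4) (nat_lit 2) (nat_lit 5) (nat_lit 2) (nat_lit 4) (nat_lit 507)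 (nat_lit 416) (nat_lit 277)) (XT.lf (nat_lit 0) (nat_lit 441252530570) (nat_lit 76) (nat_lit 1241015793737) (nat_lit 76) (nat_lit 1209532003241) (nat_lit 1) (nat_lit 4) (nat_lit 2) (nat_lit 5) (nat_lit 2) (nat_lit 4) (nat_lit 508) (nat_lit 416) (nat_lit 276))))) (XT.nd (nat_lit 234) (nat_lit 0) (nat_lit 0) (XT.nd (nat_lit 78) (nat_lit 0) (nat_lit 0) (XT.lf (nat_lit 0) (nat_lit 632699184540) (nat_lit 76) (nat_lit 1257912264769) (nat_lit 76) (nat_lit 1226428425471) (nat_lit 1) (nat_lit 4) (nat_lit 2) (nat_lit 5) (nat_lit 2) (nat_lit 4) (nat_lit 509) (nat_lit 416) (nat_lit 275)) (XT.nd (nat_lit 78) (nat_lit 0) (nat_lit 0) (XT.lf (nat_lit 0) (nat_lit 839461104711) (nat_lit 76) (nat_lit 1276160691893) (nat_lit 76) (nat_lit 1244676807408) (nat_lit 1) (nat_lit 4) (nat_lit 2) (nat_lit 5) (nat_lit 2) (nat_lit 4) (nat_lit 510) (nat_lit 416) (nat_lit 274)) (XT.lf (nat_lit 0) (nat_lit 1062763546906)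 (nat_lit 76) (nat_lit 1295869213937) (nat_lit 76) (nat_lit 1264385287613) (nat_lit 1) (nat_lit 4) (nat_lit 2) (nat_lit 5) (nat_lit 2) (nat_lit 4) (nat_lit 511) (nat_lit 416) (nat_lit 273)))) (XT.nd (nat_lit 78) (nat_lit 0) (nat_lit 0) (XT.lf (nat_lit 0) (nat_lit 1303929784857) (nat_lit 76) (nat_lit 1317154622143) (nat_lit 76) (nat_lit 1285670657078) (nat_lit 1) (nat_lit 4) (nat_lit 2) (nat_lit 5) (nat_lit 2) (nat_lit 4) (nat_lit 512) (nat_lit 416) (nat_lit 272)) (XT.nd (nat_lit 78) (nat_lit 0) (nat_lit 0) (XT.lf (nat_lit 0) (nat_lit 1564388951825) (nat_lit 76) (nat_lit 1340143052264) (nat_lit 76) (nat_lit 1308659051328) (nat_lit 1) (nat_lit 4) (nat_lit 2) (nat_lit 5) (nat_lit 2) (nat_lit 4) (nat_lit 513) (nat_lit 416) (nat_lit 271)) (XT.lf (nat_lit 0) (nat_lit 1845684509541) (nat_lit 76) (nat_lit 1364970732032) (nat_lit 76) (nat_lit 1333486697882) (nat_lit 1) (nat_lit 4) (nat_lit 2) (nat_lit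 5) (nat_lit 2) (nat_lit 4) (nat_lit 514) (nat_lit 416) (nat_lit 270)))))) (XT.nd (nat_lit 468) (nat_lit 0) (nat_lit 0) (XT.nd (nat_lit 234) (nat_lit 0) (nat_lit 0) (XT.nd (nat_lit 78) (nat_lit 0) (nat_lit 0) (XT.lf (nat_lit 0) (nat_lit 2149483394643) (nat_lit 76) (nat_lit 1391784788440) (nat_lit 76) (nat_lit 1360300723537) (nat_lit 1) (nat_lit 4) (nat_lit 2) (nat_lit 5) (nat_lit 2) (nat_lit 4) (nat_lit 515) (nat_lit 416) (nat_lit 269)) (XT.nd (nat_lit 78) (nat_lit 0) (nat_lit 0) (XT.lf (nat_lit 0) (nat_lit 2477585896820) (nat_lit 76) (nat_lit 1420744119599) (nat_lit 76) (nat_lit 1389260026220) (nat_lit 1) (nat_lit 4) (nat_lit 2) (nat_lit 5) (nat_lit 2) (nat_lit 4) (nat_lit 516) (nat_lit 416) (nat_lit 268)) (XT.lf (nat_lit 0) (nat_lit 2831936327198) (nat_lit 76) (nat_lit 1452020336361) (nat_lit 76) (nat_lit 1420536216616) (nat_lit 1) (nat_lit 4) (nat_lit 2) (nat_lit 5) (nat_lit 2) (nat_lit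 4) (nat_lit 517) (nat_lit 416) (nat_lit 267)))) (XT.nd (nat_lit 78) (nat_lit 0) (nat_lit 0) (XT.lf (nat_lit 0) (nat_lit 3214634540177) (nat_lit 76) (nat_lit 1485798779269) (nat_lit 76) (nat_lit 1454314635112) (nat_lit 1) (nat_lit 4) (nat_lit 2) (nat_lit 5) (nat_lit 2) (nat_lit 4) (nat_lit 518) (nat_lit 416) (nat_lit 266)) (XT.nd (nat_lit 78) (nat_lit 0) (nat_lit 0) (XT.lf (nat_lit 0) (nat_lit 3627948377020) (nat_lit 76) (nat_lit 1522279616875) (nat_lit 76) (nat_lit 1490795450112) (nat_lit 1) (nat_lit 4) (nat_lit 2) (nat_lit 5) (nat_lit 2) (nat_lit 4) (nat_lit 519) (nat_lit 416) (nat_lit 265)) (XT.lf (nat_lit 0) (nat_lit 4074327104908) (nat_lit 76) (nat_lit 1561679031919) (nat_lit 76) (nat_lit 1530194844226) (nat_lit 1) (nat_lit 4) (nat_lit 2) (nat_lit 5) (nat_lit 2) (nat_lit 4) (nat_lit 520) (nat_lit 416) (nat_lit 264))))) (XT.nd (nat_lit 234) (nat_lit 0) (nat_lit 0) (XT.nd (nat_lit 78)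 (nat_lit 0) (nat_lit 0) (XT.lf (nat_lit 0) (nat_lit 4556415931118) (nat_lit 76) (nat_lit 1604230502416) (nat_lit 76) (nat_lit 1572746295344) (nat_lit 1) (nat_lit 4) (nat_lit 2) (nat_lit 5) (nat_lit 2) (nat_lit 4) (nat_lit 521) (nat_lit 416) (nat_lit 263)) (XT.nd (nat_lit 78) (nat_lit 0) (nat_lit 0) (XT.lf (nat_lit 0) (nat_lit 5077071678323) (nat_lit 76) (nat_lit 1650186185230) (nat_lit 76) (nat_lit 1618701960213) (nat_lit 1) (nat_lit 4) (nat_lit 2) (nat_lit 5) (nat_lit 2) (nat_lit 4) (nat_lit 522) (nat_lit 416) (nat_lit 262)) (XT.lf (nat_lit 0) (nat_lit 5639379713914) (nat_lit 76) (nat_lit 1699818410331) (nat_lit 76) (nat_lit 1668334168699) (nat_lit 1) (nat_lit 4) (nat_lit 2) (nat_lit 5) (nat_lit 2) (nat_lit 4) (nat_lit 523) (nat_lit 416) (nat_lit 261)))) (XT.nd (nat_lit 78) (nat_lit 0) (nat_lit 0) (XT.lf (nat_lit 0) (nat_lit 6246672233659) (nat_lit 76) (nat_lit 1753421294610) (nat_lit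 76) (nat_lit 1721937037593) (nat_lit 1) (nat_lit 4) (nat_lit 2) (nat_lit 5) (nat_lit 2) (nat_lit 4) (nat_lit 524) (nat_lit 416) (nat_lit 260)) (XT.nd (nat_lit 78) (nat_lit 0) (nat_lit 0) (XT.lf (nat_lit 0) (nat_lit 6902548008043) (nat_lit 76) (nat_lit 1811312484788) (nat_lit 76) (nat_lit 1779828213526) (nat_lit 1) (nat_lit 4) (nat_lit 2) (nat_lit 5) (nat_lit 2) (nat_lit 4) (nat_lit 525) (nat_lit 416) (nat_lit 259)) (XT.lf (nat_lit 0) (nat_lit 7610893708323) (nat_lit 76) (nat_lit 1873835039769) (nat_lit 76) (nat_lit 1842350755318) (nat_lit 1) (nat_lit 4) (nat_lit 2) (nat_lit 5) (nat_lit 2) (nat_lit 4) (nat_lit 526) (nat_lit 416) (nat_lit 258))))))))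
noncomputable def xc138 : XT := (XT.nd (nat_lit 55536) (nat_lit 0) (nat_lit 1444) (XT.nd (nat_lit 54678) (nat_lit 0) (nat_lit 3116) (XT.nd (nat_lit 54210) (nat_lit 0) (nat_lit 4408) (XT.nd (nat_lit 53976) (nat_lit 0) (nat_lit 5168) (XT.nd (nat_lit 53898) (nat_lit 0) (nat_lit 5168) (XT.lf (nat_lit 0) (nat_lit 8375906938648) (nat_lit 76) (nat_lit 1941359463584) (nat_lit 76) (nat_lit 1909875166921) (nat_lit 1) (nat_lit 4) (nat_lit 2) (nat_lit 5) (nat_lit 2) (nat_lit 4) (nat_lit 527) (nat_lit 416) (nat_lit 257)) (XT.lf (nat_lit 0) (nat_lit 5703869898) (nat_lit 532) (nat_lit 955828477) (nat_lit 532) (nat_lit 955828477) (nat_lit 69) (nat_lit 3) (nat_lit 76) (nat_lit 3) (nat_lit 76) (nat_lit 5) (nat_lit 417) (nat_lit 417) (nat_lit 366))) (XT.nd (nat_lit 78) (nat_lit 0) (nat_lit 76) (XT.lf (nat_lit 76) (nat_lit 5845399117) (nat_lit 0) (nat_lit 6430766502) (nat_lit 532) (nat_lit 3530978259) (nat_lit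 70) (nat_lit 5) (nat_lit 69) (nat_lit 3) (nat_lit 76) (nat_lit 5) (nat_lit 418) (nat_lit 417) (nat_lit 365)) (XT.nd (nat_lit 78) (nat_lit 0) (nat_lit 0) (XT.lf (nat_lit 0) (nat_lit 13264709147) (nat_lit 456) (nat_lit 2136989512) (nat_lit 532) (nat_lit 1023589392) (nat_lit 70) (nat_lit 5) (nat_lit 76) (nat_lit 5) (nat_lit 77) (nat_lit 5) (nat_lit 419) (nat_lit 417) (nat_lit 364)) (XT.lf (nat_lit 76) (nat_lit 6452879064) (nat_lit 0) (nat_lit 8176452777) (nat_lit 532) (nat_lit 2439809184) (nat_lit 71) (nat_lit 5) (nat_lit 70) (nat_lit 5) (nat_lit 77) (nat_lit 5) (nat_lit 420) (nat_lit 417) (nat_lit 363))))) (XT.nd (nat_lit 234) (nat_lit 380) (nat_lit 0) (XT.nd (nat_lit 78) (nat_lit 456) (nat_lit 0) (XT.lf (nat_lit 76) (nat_lit 15835257372) (nat_lit 0) (nat_lit 302545872) (nat_lit 532) (nat_lit 1623940352) (nat_lit 71) (nat_lit 5) (nat_lit 70) (nat_lit 5) (nat_lit 77) (nat_lit 5) (nat_lit 421)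 (nat_lit 417) (nat_lit 362)) (XT.nd (nat_lit 78) (nat_lit 532) (nat_lit 0) (XT.lf (nat_lit 76) (nat_lit 7625748595) (nat_lit 0) (nat_lit 10500020970) (nat_lit 532) (nat_lit 355293938) (nat_lit 72) (nat_lit 5) (nat_lit 71) (nat_lit 5) (nat_lit 78) (nat_lit 5) (nat_lit 422) (nat_lit 417) (nat_lit 361)) (XT.lf (nat_lit 0) (nat_lit 1004825738) (nat_lit 532) (nat_lit 1253275491) (nat_lit 608) (nat_lit 16994627798) (nat_lit 64) (nat_lit 5) (nat_lit 71) (nat_lit 5) (nat_lit 72) (nat_lit 5) (nat_lit 423) (nat_lit 417) (nat_lit 360)))) (XT.nd (nat_lit 78) (nat_lit 456) (nat_lit 0) (XT.lf (nat_lit 0) (nat_lit 2831200078) (nat_lit 532) (nat_lit 10664528575) (nat_lit 76) (nat_lit 6559541168) (nat_lit 65) (nat_lit 5) (nat_lit 72) (nat_lit 5) (nat_lit 66) (nat_lit 5) (nat_lit 424) (nat_lit 417) (nat_lit 359)) (XT.nd (nat_lit 78) (nat_lit 456) (nat_lit 0) (XT.lf (nat_lit 0) (nat_lit 4879038016) (nat_lit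 532) (nat_lit 38743559) (nat_lit 76) (nat_lit 15998214676) (nat_lit 65) (nat_lit 5) (nat_lit 72) (nat_lit 5) (nat_lit 66) (nat_lit 5) (nat_lit 425) (nat_lit 417) (nat_lit 358)) (XT.lf (nat_lit 0) (nat_lit 7474814759) (nat_lit 532) (nat_lit 9913568197) (nat_lit 76) (nat_lit 4426478771) (nat_lit 59) (nat_lit 5) (nat_lit 66) (nat_lit 5) (nat_lit 60) (nat_lit 5) (nat_lit 426) (nat_lit 417) (nat_lit 357)))))) (XT.nd (nat_lit 390) (nat_lit 608) (nat_lit 0) (XT.nd (nat_lit 156) (nat_lit 456) (nat_lit 0) (XT.nd (nat_lit 78) (nat_lit 0) (nat_lit 0) (XT.lf (nat_lit 0) (nat_lit 1966712286) (nat_lit 228) (nat_lit 8471470653) (nat_lit 304) (nat_lit 12334668302) (nat_lit 56) (nat_lit 5) (nat_lit 59) (nat_lit 5) (nat_lit 60) (nat_lit 5) (nat_lit 427) (nat_lit 417) (nat_lit 356)) (XT.lf (nat_lit 0) (nat_lit 13929161094) (nat_lit 304) (nat_lit 8477366799) (nat_lit 76) (nat_lit 1377717247) (nat_lit 56) (nat_lit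 5) (nat_lit 60) (nat_lit 5) (nat_lit 57) (nat_lit 5) (nat_lit 428) (nat_lit 417) (nat_lit 355))) (XT.nd (nat_lit 78) (nat_lit 228) (nat_lit 0) (XT.lf (nat_lit 0) (nat_lit 4843409166) (nat_lit 228) (nat_lit 13178249697) (nat_lit 304) (nat_lit 6829120217) (nat_lit 53) (nat_lit 5) (nat_lit 56) (nat_lit 5) (nat_lit 57) (nat_lit 5) (nat_lit 429) (nat_lit 417) (nat_lit 354)) (XT.nd (nat_lit 78) (nat_lit 228) (nat_lit 0) (XT.lf (nat_lit 0) (nat_lit 19695834766) (nat_lit 228) (nat_lit 2963896949) (nat_lit 304) (nat_lit 3325457257) (nat_lit 53) (nat_lit 5) (nat_lit 56) (nat_lit 5) (nat_lit 57) (nat_lit 5) (nat_lit 430) (nat_lit 417) (nat_lit 353)) (XT.lf (nat_lit 0) (nat_lit 837639301) (nat_lit 228) (nat_lit 18446111959) (nat_lit 76) (nat_lit 7893558344) (nat_lit 50) (nat_lit 5) (nat_lit 53) (nat_lit 5) (nat_lit 51) (nat_lit 5) (nat_lit 431) (nat_lit 417) (nat_lit 352))))) (XT.nd (nat_lit 234) (nat_lit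 228) (nat_lit 0) (XT.nd (nat_lit 78) (nat_lit 380) (nat_lit 0) (XT.lf (nat_lit 0) (nat_lit 5395121823) (nat_lit 228) (nat_lit 3323943683) (nat_lit 76) (nat_lit 19719550155) (nat_lit 50) (nat_lit 5) (nat_lit 53) (nat_lit 5) (nat_lit 51) (nat_lit 5) (nat_lit 432) (nat_lit 417) (nat_lit 351)) (XT.nd (nat_lit 78) (nat_lit 152) (nat_lit 0) (XT.lf (nat_lit 0) (nat_lit 10707821006) (nat_lit 304) (nat_lit 16171374524) (nat_lit 76) (nat_lit 2890386563) (nat_lit 47) (nat_lit 5) (nat_lit 51) (nat_lit 5) (nat_lit 48) (nat_lit 5) (nat_lit 433) (nat_lit 417) (nat_lit 350)) (XT.lf (nat_lit 0) (nat_lit 651815286) (nat_lit 152) (nat_lit 16118029982) (nat_lit 228) (nat_lit 14411240781) (nat_lit 45) (nat_lit 5) (nat_lit 47) (nat_lit 5) (nat_lit 48) (nat_lit 5) (nat_lit 434) (nat_lit 417) (nat_lit 349)))) (XT.nd (nat_lit 78) (nat_lit 228) (nat_lit 0) (XT.lf (nat_lit 0) (nat_lit 19725557219) (nat_lit 152) (nat_lit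 4022809270) (nat_lit 228) (nat_lit 8922625603) (nat_lit 45) (nat_lit 5) (nat_lit 47) (nat_lit 5) (nat_lit 48) (nat_lit 5) (nat_lit 435) (nat_lit 417) (nat_lit 348)) (XT.nd (nat_lit 78) (nat_lit 76) (nat_lit 0) (XT.lf (nat_lit 0) (nat_lit 6119236763) (nat_lit 152) (nat_lit 25520583741) (nat_lit 228) (nat_lit 2611902263) (nat_lit 43) (nat_lit 5) (nat_lit 45) (nat_lit 5) (nat_lit 46) (nat_lit 5) (nat_lit 436) (nat_lit 417) (nat_lit 347)) (XT.lf (nat_lit 0) (nat_lit 4451240155) (nat_lit 228) (nat_lit 8714793408) (nat_lit 76) (nat_lit 22748166375) (nat_lit 42) (nat_lit 5) (nat_lit 45) (nat_lit 5) (nat_lit 43) (nat_lit 5) (nat_lit 437) (nat_lit 417) (nat_lit 346))))))) (XT.nd (nat_lit 858) (nat_lit 684) (nat_lit 0) (XT.nd (nat_lit 390) (nat_lit 532) (nat_lit 0) (XT.nd (nat_lit 156) (nat_lit 304) (nat_lit 0) (XT.nd (nat_lit 78) (nat_lit 0) (nat_lit 0) (XT.lf (nat_lit 0) (nat_lit 12251397471) (nat_lit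 228) (nat_lit 24878278949) (nat_lit 76) (nat_lit 549528971) (nat_lit 40) (nat_lit 5) (nat_lit 43) (nat_lit 5) (nat_lit 41) (nat_lit 5) (nat_lit 438) (nat_lit 417) (nat_lit 345)) (XT.lf (nat_lit 0) (nat_lit 21253189064) (nat_lit 228) (nat_lit 3394863291) (nat_lit 76) (nat_lit 14891152303) (nat_lit 40) (nat_lit 5) (nat_lit 43) (nat_lit 5) (nat_lit 41) (nat_lit 5) (nat_lit 439) (nat_lit 417) (nat_lit 344))) (XT.nd (nat_lit 78) (nat_lit 152) (nat_lit 0) (XT.lf (nat_lit 0) (nat_lit 20836718000) (nat_lit 152) (nat_lit 10631362758) (nat_lit 228) (nat_lit 10040489448) (nat_lit 38) (nat_lit 5) (nat_lit 40) (nat_lit 5) (nat_lit 41) (nat_lit 5) (nat_lit 440) (nat_lit 417) (nat_lit 343)) (XT.nd (nat_lit 78) (nat_lit 76) (nat_lit 0) (XT.lf (nat_lit 0) (nat_lit 3629565516) (nat_lit 76) (nat_lit 39153532337) (nat_lit 152) (nat_lit 829755088) (nat_lit 37) (nat_lit 5) (nat_lit 38) (nat_lit 5) (nat_lit 39)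 (nat_lit 4) (nat_lit 441) (nat_lit 417) (nat_lit 342)) (XT.lf (nat_lit 0) (nat_lit 9509859921) (nat_lit 152) (nat_lit 15312769782) (nat_lit 76) (nat_lit 20977457495) (nat_lit 36) (nat_lit 5) (nat_lit 38) (nat_lit 5) (nat_lit 37) (nat_lit 5) (nat_lit 442) (nat_lit 417) (nat_lit 341))))) (XT.nd (nat_lit 234) (nat_lit 304) (nat_lit 0) (XT.nd (nat_lit 78) (nat_lit 76) (nat_lit 0) (XT.lf (nat_lit 0) (nat_lit 11892598569) (nat_lit 152) (nat_lit 9017927172) (nat_lit 228) (nat_lit 27227755612) (nat_lit 34) (nat_lit 5) (nat_lit 36) (nat_lit 5) (nat_lit 37) (nat_lit 5) (nat_lit 443) (nat_lit 417) (nat_lit 340)) (XT.nd (nat_lit 78) (nat_lit 76) (nat_lit 0) (XT.lf (nat_lit 0) (nat_lit 33839261921) (nat_lit 228) (nat_lit 8701592311) (nat_lit 76) (nat_lit 8073397402) (nat_lit 34) (nat_lit 5) (nat_lit 37) (nat_lit 5) (nat_lit 35) (nat_lit 4) (nat_lit 444) (nat_lit 417) (nat_lit 339)) (XT.lf (nat_lit 0)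 (nat_lit 21895719466) (nat_lit 76) (nat_lit 26660766505) (nat_lit 152) (nat_lit 4671480266) (nat_lit 33) (nat_lit 5) (nat_lit 34) (nat_lit 5) (nat_lit 35) (nat_lit 4) (nat_lit 445) (nat_lit 417) (nat_lit 338)))) (XT.nd (nat_lit 78) (nat_lit 228) (nat_lit 0) (XT.lf (nat_lit 0) (nat_lit 8217610035) (nat_lit 152) (nat_lit 815714871) (nat_lit 76) (nat_lit 46982291036) (nat_lit 32) (nat_lit 5) (nat_lit 34) (nat_lit 5) (nat_lit 33) (nat_lit 5) (nat_lit 446) (nat_lit 417) (nat_lit 337)) (XT.nd (nat_lit 78) (nat_lit 76) (nat_lit 0) (XT.lf (nat_lit 0) (nat_lit 22954435669) (nat_lit 228) (nat_lit 25521120192) (nat_lit 76) (nat_lit 10455497081) (nat_lit 30) (nat_lit 5) (nat_lit 33) (nat_lit 5) (nat_lit 31) (nat_lit 4) (nat_lit 447) (nat_lit 417) (nat_lit 336)) (XT.lf (nat_lit 0) (nat_lit 8522505277) (nat_lit 76) (nat_lit 30804187062) (nat_lit 152) (nat_lit 22716515101) (nat_lit 29) (nat_lit 5) (nat_lit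 30) (nat_lit 5) (nat_lit 31) (nat_lit 4) (nat_lit 448) (nat_lit 417) (nat_lit 335)))))) (XT.nd (nat_lit 468) (nat_lit 304) (nat_lit 0) (XT.nd (nat_lit 234) (nat_lit 228) (nat_lit 0) (XT.nd (nat_lit 78) (nat_lit 152) (nat_lit 0) (XT.lf (nat_lit 0) (nat_lit 46730604493) (nat_lit 76) (nat_lit 10970115427) (nat_lit 152) (nat_lit 7648256383) (nat_lit 29) (nat_lit 5) (nat_lit 30) (nat_lit 5) (nat_lit 31) (nat_lit 4) (nat_lit 449) (nat_lit 417) (nat_lit 334)) (XT.nd (nat_lit 78) (nat_lit 0) (nat_lit 0) (XT.lf (nat_lit 0) (nat_lit 8934927907) (nat_lit 152) (nat_lit 49282053081) (nat_lit 76) (nat_lit 10626355702) (nat_lit 27) (nat_lit 5) (nat_lit 29) (nat_lit 5) (nat_lit 28) (nat_lit 4) (nat_lit 450) (nat_lit 417) (nat_lit 333)) (XT.lf (nat_lit 0) (nat_lit 27233339540) (nat_lit 152) (nat_lit 11229198479) (nat_lit 76) (nat_lit 34074674221) (nat_lit 27) (nat_lit 5) (nat_lit 29) (nat_lit 5) (nat_lit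 28) (nat_lit 4) (nat_lit 451) (nat_lit 417) (nat_lit 332)))) (XT.nd (nat_lit 78) (nat_lit 152) (nat_lit 0) (XT.lf (nat_lit 0) (nat_lit 31430912232) (nat_lit 76) (nat_lit 16315586657) (nat_lit 152) (nat_lit 28720029870) (nat_lit 26) (nat_lit 5) (nat_lit 27) (nat_lit 5) (nat_lit 28) (nat_lit 4) (nat_lit 452) (nat_lit 417) (nat_lit 331)) (XT.nd (nat_lit 78) (nat_lit 152) (nat_lit 0) (XT.lf (nat_lit 0) (nat_lit 70393583672) (nat_lit 152) (nat_lit 2743342770) (nat_lit 0) (nat_lit 7533835186) (nat_lit 26) (nat_lit 5) (nat_lit 28) (nat_lit 4) (nat_lit 26) (nat_lit 4) (nat_lit 453) (nat_lit 417) (nat_lit 330)) (XT.lf (nat_lit 0) (nat_lit 10692762319) (nat_lit 152) (nat_lit 40624566666) (nat_lit 76) (nat_lit 33752739587) (nat_lit 24) (nat_lit 5) (nat_lit 26) (nat_lit 5) (nat_lit 25) (nat_lit 4) (nat_lit 454) (nat_lit 417) (nat_lit 329))))) (XT.nd (nat_lit 234) (nat_lit 152) (nat_lit 0) (XT.nd (nat_lit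 78) (nat_lit 76) (nat_lit 0) (XT.lf (nat_lit 0) (nat_lit 5760777334) (nat_lit 76) (nat_lit 27235196937) (nat_lit 152) (nat_lit 56787118416) (nat_lit 23) (nat_lit 5) (nat_lit 24) (nat_lit 5) (nat_lit 25) (nat_lit 4) (nat_lit 455) (nat_lit 417) (nat_lit 328)) (XT.nd (nat_lit 78) (nat_lit 76) (nat_lit 0) (XT.lf (nat_lit 0) (nat_lit 58158860094) (nat_lit 76) (nat_lit 30875857) (nat_lit 152) (nat_lit 36594919974) (nat_lit 23) (nat_lit 5) (nat_lit 24) (nat_lit 5) (nat_lit 25) (nat_lit 4) (nat_lit 456) (nat_lit 417) (nat_lit 327)) (XT.lf (nat_lit 0) (nat_lit 14577760572) (nat_lit 76) (nat_lit 71873482953) (nat_lit 76) (nat_lit 13650921674) (nat_lit 22) (nat_lit 4) (nat_lit 23) (nat_lit 5) (nat_lit 23) (nat_lit 4) (nat_lit 457) (nat_lit 417) (nat_lit 326)))) (XT.nd (nat_lit 78) (nat_lit 76) (nat_lit 0) (XT.lf (nat_lit 0) (nat_lit 11595928640) (nat_lit 152) (nat_lit 34106952456) (nat_lit 76) (nat_lit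 60038860799) (nat_lit 21) (nat_lit 5) (nat_lit 23) (nat_lit 5) (nat_lit 22) (nat_lit 4) (nat_lit 458) (nat_lit 417) (nat_lit 325)) (XT.nd (nat_lit 78) (nat_lit 0) (nat_lit 0) (XT.lf (nat_lit 0) (nat_lit 22170926801) (nat_lit 76) (nat_lit 16483420797) (nat_lit 152) (nat_lit 73107426036) (nat_lit 20) (nat_lit 5) (nat_lit 21) (nat_lit 5) (nat_lit 22) (nat_lit 4) (nat_lit 459) (nat_lit 417) (nat_lit 324)) (XT.lf (nat_lit 0) (nat_lit 69192868517) (nat_lit 152) (nat_lit 33692325292) (nat_lit 0) (nat_lit 15272980248) (nat_lit 20) (nat_lit 5) (nat_lit 22) (nat_lit 4) (nat_lit 20) (nat_lit 4) (nat_lit 460) (nat_lit 417) (nat_lit 323))))))))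
noncomputable def xc139 : XT := (XT.nd (nat_lit 1716) (nat_lit 380) (nat_lit 0) (XT.nd (nat_lit 858) (nat_lit 456) (nat_lit 0) (XT.nd (nat_lit 390) (nat_lit 228) (nat_lit 0) (XT.nd (nat_lit 156) (nat_lit 152) (nat_lit 0) (XT.nd (nat_lit 78) (nat_lit 76) (nat_lit 0) (XT.lf (nat_lit 0) (nat_lit 27624894752) (nat_lit 76) (nat_lit 75638523974) (nat_lit 76) (nat_lit 21715752367) (nat_lit 19) (nat_lit 4) (nat_lit 20) (nat_lit 5) (nat_lit 20) (nat_lit 4) (nat_lit 461) (nat_lit 417) (nat_lit 322)) (XT.lf (nat_lit 0) (nat_lit 8269465270) (nat_lit 152) (nat_lit 36724953601) (nat_lit 76) (nat_lit 87261262138) (nat_lit 18) (nat_lit 5) (nat_lit 20) (nat_lit 5) (nat_lit 19) (nat_lit 4) (nat_lit 462) (nat_lit 417) (nat_lit 321))) (XT.nd (nat_lit 78) (nat_lit 76) (nat_lit 0) (XT.lf (nat_lit 0) (nat_lit 29668353008) (nat_lit 76) (nat_lit 10522159669) (nat_lit 152) (nat_lit 99821857547) (nat_lit 17) (nat_lit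 5) (nat_lit 18) (nat_lit 5) (nat_lit 19) (nat_lit 4) (nat_lit 463) (nat_lit 417) (nat_lit 320)) (XT.nd (nat_lit 78) (nat_lit 76) (nat_lit 0) (XT.lf (nat_lit 0) (nat_lit 76334497012) (nat_lit 152) (nat_lit 45522433043) (nat_lit 0) (nat_lit 26399124559) (nat_lit 17) (nat_lit 5) (nat_lit 19) (nat_lit 4) (nat_lit 17) (nat_lit 4) (nat_lit 464) (nat_lit 417) (nat_lit 319)) (XT.lf (nat_lit 0) (nat_lit 25480210422) (nat_lit 76) (nat_lit 90772856526) (nat_lit 76) (nat_lit 40835521721) (nat_lit 16) (nat_lit 4) (nat_lit 17) (nat_lit 5) (nat_lit 17) (nat_lit 4) (nat_lit 465) (nat_lit 417) (nat_lit 318))))) (XT.nd (nat_lit 234) (nat_lit 76) (nat_lit 0) (XT.nd (nat_lit 78) (nat_lit 152) (nat_lit 0) (XT.lf (nat_lit 0) (nat_lit 104746130145) (nat_lit 76) (nat_lit 55860705161) (nat_lit 76) (nat_lit 5921553364) (nat_lit 16) (nat_lit 4) (nat_lit 17) (nat_lit 5) (nat_lit 17) (nat_lit 4) (nat_lit 466) (nat_lit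 417) (nat_lit 317)) (XT.nd (nat_lit 78) (nat_lit 0) (nat_lit 0) (XT.lf (nat_lit 0) (nat_lit 13537138599) (nat_lit 76) (nat_lit 16981117552) (nat_lit 152) (nat_lit 146118140122) (nat_lit 14) (nat_lit 5) (nat_lit 15) (nat_lit 5) (nat_lit 16) (nat_lit 4) (nat_lit 467) (nat_lit 417) (nat_lit 316)) (XT.lf (nat_lit 0) (nat_lit 71885117796) (nat_lit 152) (nat_lit 89826917291) (nat_lit 0) (nat_lit 25642162263) (nat_lit 14) (nat_lit 5) (nat_lit 16) (nat_lit 4) (nat_lit 14) (nat_lit 4) (nat_lit 468) (nat_lit 417) (nat_lit 315)))) (XT.nd (nat_lit 78) (nat_lit 76) (nat_lit 0) (XT.lf (nat_lit 0) (nat_lit 116999812299) (nat_lit 152) (nat_lit 11139010458) (nat_lit 0) (nat_lit 70755521222) (nat_lit 14) (nat_lit 5) (nat_lit 16) (nat_lit 4) (nat_lit 14) (nat_lit 4) (nat_lit 469) (nat_lit 417) (nat_lit 314)) (XT.nd (nat_lit 78) (nat_lit 0) (nat_lit 0) (XT.lf (nat_lit 0) (nat_lit 77727397013) (nat_lit 76)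 (nat_lit 89863238467) (nat_lit 76) (nat_lit 43617710777) (nat_lit 13) (nat_lit 4) (nat_lit 14) (nat_lit 5) (nat_lit 14) (nat_lit 4) (nat_lit 470) (nat_lit 417) (nat_lit 313)) (XT.lf (nat_lit 0) (nat_lit 174331952161) (nat_lit 76) (nat_lit 48199005386) (nat_lit 76) (nat_lit 1952332682) (nat_lit 13) (nat_lit 4) (nat_lit 14) (nat_lit 5) (nat_lit 14) (nat_lit 4) (nat_lit 471) (nat_lit 417) (nat_lit 312)))))) (XT.nd (nat_lit 390) (nat_lit 228) (nat_lit 0) (XT.nd (nat_lit 156) (nat_lit 76) (nat_lit 0) (XT.nd (nat_lit 78) (nat_lit 0) (nat_lit 0) (XT.lf (nat_lit 0) (nat_lit 40848355824) (nat_lit 76) (nat_lit 1024763755) (nat_lit 152) (nat_lit 196785873718) (nat_lit 11) (nat_lit 5) (nat_lit 12) (nat_lit 5) (nat_lit 13) (nat_lit 4) (nat_lit 472) (nat_lit 417) (nat_lit 311)) (XT.lf (nat_lit 0) (nat_lit 91704430661) (nat_lit 152) (nat_lit 113170294528) (nat_lit 0) (nat_lit 48881546803) (nat_lit 11)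 (nat_lit 5) (nat_lit 13) (nat_lit 4) (nat_lit 11) (nat_lit 4) (nat_lit 473) (nat_lit 417) (nat_lit 310))) (XT.nd (nat_lit 78) (nat_lit 76) (nat_lit 0) (XT.lf (nat_lit 0) (nat_lit 145546824238) (nat_lit 152) (nat_lit 21789443889) (nat_lit 0) (nat_lit 102723098761) (nat_lit 11) (nat_lit 5) (nat_lit 13) (nat_lit 4) (nat_lit 11) (nat_lit 4) (nat_lit 474) (nat_lit 417) (nat_lit 309)) (XT.nd (nat_lit 78) (nat_lit 0) (nat_lit 0) (XT.lf (nat_lit 0) (nat_lit 80947392604) (nat_lit 76) (nat_lit 124694114888) (nat_lit 76) (nat_lit 81869610135) (nat_lit 10) (nat_lit 4) (nat_lit 11) (nat_lit 5) (nat_lit 11) (nat_lit 4) (nat_lit 475) (nat_lit 417) (nat_lit 308)) (XT.lf (nat_lit 0) (nat_lit 193138658554) (nat_lit 76) (nat_lit 77999031164) (nat_lit 76) (nat_lit 35173804858) (nat_lit 10) (nat_lit 4) (nat_lit 11) (nat_lit 5) (nat_lit 11) (nat_lit 4) (nat_lit 476) (nat_lit 417) (nat_lit 307))))) (XT.nd (nat_lit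 234) (nat_lit 76) (nat_lit 0) (XT.nd (nat_lit 78) (nat_lit 76) (nat_lit 0) (XT.lf (nat_lit 0) (nat_lit 14492668794) (nat_lit 152) (nat_lit 12681143316) (nat_lit 76) (nat_lit 299412873547) (nat_lit 9) (nat_lit 5) (nat_lit 11) (nat_lit 5) (nat_lit 10) (nat_lit 4) (nat_lit 477) (nat_lit 417) (nat_lit 306)) (XT.nd (nat_lit 78) (nat_lit 0) (nat_lit 0) (XT.lf (nat_lit 0) (nat_lit 69386632689) (nat_lit 152) (nat_lit 249039359313) (nat_lit 0) (nat_lit 29732453962) (nat_lit 8) (nat_lit 5) (nat_lit 10) (nat_lit 4) (nat_lit 8) (nat_lit 4) (nat_lit 478) (nat_lit 417) (nat_lit 305)) (XT.lf (nat_lit 0) (nat_lit 129732046006) (nat_lit 152) (nat_lit 151561769660) (nat_lit 0) (nat_lit 90077336916) (nat_lit 8) (nat_lit 5) (nat_lit 10) (nat_lit 4) (nat_lit 8) (nat_lit 4) (nat_lit 479) (nat_lit 417) (nat_lit 304)))) (XT.nd (nat_lit 78) (nat_lit 76) (nat_lit 0) (XT.lf (nat_lit 0) (nat_lit 194903600013) (nat_lit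 152) (nat_lit 46288995326) (nat_lit 0) (nat_lit 155248399846) (nat_lit 8) (nat_lit 5) (nat_lit 10) (nat_lit 4) (nat_lit 8) (nat_lit 4) (nat_lit 480) (nat_lit 417) (nat_lit 303)) (XT.nd (nat_lit 78) (nat_lit 0) (nat_lit 0) (XT.lf (nat_lit 0) (nat_lit 70952114474) (nat_lit 76) (nat_lit 196041782096) (nat_lit 76) (nat_lit 156386127230) (nat_lit 7) (nat_lit 4) (nat_lit 8) (nat_lit 5) (nat_lit 8) (nat_lit 4) (nat_lit 481) (nat_lit 417) (nat_lit 302)) (XT.lf (nat_lit 0) (nat_lit 200202281486) (nat_lit 76) (nat_lit 145913413456) (nat_lit 76) (nat_lit 106257337571) (nat_lit 7) (nat_lit 4) (nat_lit 8) (nat_lit 5) (nat_lit 8) (nat_lit 4) (nat_lit 482) (nat_lit 417) (nat_lit 301))))))) (XT.nd (nat_lit 858) (nat_lit 152) (nat_lit 0) (XT.nd (nat_lit 390) (nat_lit 76) (nat_lit 0) (XT.nd (nat_lit 156) (nat_lit 76) (nat_lit 0) (XT.nd (nat_lit 78) (nat_lit 76) (nat_lit 0) (XT.lf (nat_lit 0) (nat_lit 339789936163)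 (nat_lit 76) (nat_lit 91776055583) (nat_lit 76) (nat_lit 52119589865) (nat_lit 7) (nat_lit 4) (nat_lit 8) (nat_lit 5) (nat_lit 8) (nat_lit 4) (nat_lit 483) (nat_lit 417) (nat_lit 300)) (XT.lf (nat_lit 0) (nat_lit 6030382892) (nat_lit 152) (nat_lit 27113630257) (nat_lit 76) (nat_lit 484347000359) (nat_lit 6) (nat_lit 5) (nat_lit 8) (nat_lit 5) (nat_lit 7) (nat_lit 4) (nat_lit 484) (nat_lit 417) (nat_lit 299))) (XT.nd (nat_lit 78) (nat_lit 0) (nat_lit 0) (XT.lf (nat_lit 0) (nat_lit 69312870229) (nat_lit 152) (nat_lit 451722726243) (nat_lit 0) (nat_lit 32593276810) (nat_lit 5) (nat_lit 5) (nat_lit 7) (nat_lit 4) (nat_lit 5) (nat_lit 4) (nat_lit 485) (nat_lit 417) (nat_lit 298)) (XT.nd (nat_lit 78) (nat_lit 0) (nat_lit 0) (XT.lf (nat_lit 0) (nat_lit 139278337194) (nat_lit 152) (nat_lit 350691336994) (nat_lit 0) (nat_lit 102558457237) (nat_lit 5) (nat_lit 5) (nat_lit 7) (nat_lit 4) (nat_lit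 5) (nat_lit 4) (nat_lit 486) (nat_lit 417) (nat_lit 297)) (XT.lf (nat_lit 0) (nat_lit 214840029513) (nat_lit 152) (nat_lit 241579497459) (nat_lit 0) (nat_lit 178119884242) (nat_lit 5) (nat_lit 5) (nat_lit 7) (nat_lit 4) (nat_lit 5) (nat_lit 4) (nat_lit 487) (nat_lit 417) (nat_lit 296))))) (XT.nd (nat_lit 234) (nat_lit 0) (nat_lit 0) (XT.nd (nat_lit 78) (nat_lit 76) (nat_lit 0) (XT.lf (nat_lit 0) (nat_lit 296445720178) (nat_lit 152) (nat_lit 123740618961) (nat_lit 0) (nat_lit 259725329246) (nat_lit 5) (nat_lit 5) (nat_lit 7) (nat_lit 4) (nat_lit 5) (nat_lit 4) (nat_lit 488) (nat_lit 417) (nat_lit 295)) (XT.nd (nat_lit 78) (nat_lit 0) (nat_lit 0) (XT.lf (nat_lit 0) (nat_lit 3709149653) (nat_lit 76) (nat_lit 380959053951) (nat_lit 76) (nat_lit 344238435556) (nat_lit 4) (nat_lit 4) (nat_lit 5) (nat_lit 5) (nat_lit 5) (nat_lit 4) (nat_lit 489) (nat_lit 417) (nat_lit 294)) (XT.lf (nat_lit 0)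 (nat_lit 148390416280) (nat_lit 76) (nat_lit 334940512455) (nat_lit 76) (nat_lit 298219683446) (nat_lit 4) (nat_lit 4) (nat_lit 5) (nat_lit 5) (nat_lit 5) (nat_lit 4) (nat_lit 490) (nat_lit 417) (nat_lit 293)))) (XT.nd (nat_lit 78) (nat_lit 0) (nat_lit 0) (XT.lf (nat_lit 0) (nat_lit 304644589681) (nat_lit 76) (nat_lit 285241299995) (nat_lit 76) (nat_lit 248520275972) (nat_lit 4) (nat_lit 4) (nat_lit 5) (nat_lit 5) (nat_lit 5) (nat_lit 4) (nat_lit 491) (nat_lit 417) (nat_lit 292)) (XT.nd (nat_lit 78) (nat_lit 0) (nat_lit 0) (XT.lf (nat_lit 0) (nat_lit 473397620514) (nat_lit 76) (nat_lit 231566902717) (nat_lit 76) (nat_lit 194845698126) (nat_lit 4) (nat_lit 4) (nat_lit 5) (nat_lit 5) (nat_lit 5) (nat_lit 4) (nat_lit 492) (nat_lit 417) (nat_lit 291)) (XT.lf (nat_lit 0) (nat_lit 655649526738) (nat_lit 76) (nat_lit 173599250119) (nat_lit 76) (nat_lit 136877878336) (nat_lit 4) (nat_lit 4) (nat_lit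 5) (nat_lit 5) (nat_lit 5) (nat_lit 4) (nat_lit 493) (nat_lit 417) (nat_lit 290)))))) (XT.nd (nat_lit 468) (nat_lit 0) (nat_lit 0) (XT.nd (nat_lit 234) (nat_lit 0) (nat_lit 0) (XT.nd (nat_lit 78) (nat_lit 152) (nat_lit 0) (XT.lf (nat_lit 0) (nat_lit 852480319650) (nat_lit 76) (nat_lit 110994830187) (nat_lit 76) (nat_lit 74273303596) (nat_lit 4) (nat_lit 4) (nat_lit 5) (nat_lit 5) (nat_lit 5) (nat_lit 4) (nat_lit 494) (nat_lit 417) (nat_lit 289)) (XT.nd (nat_lit 78) (nat_lit 152) (nat_lit 0) (XT.lf (nat_lit 0) (nat_lit 1065056403949) (nat_lit 76) (nat_lit 43382653765) (nat_lit 76) (nat_lit 6660983833) (nat_lit 4) (nat_lit 4) (nat_lit 5) (nat_lit 5) (nat_lit 5) (nat_lit 4) (nat_lit 495) (nat_lit 417) (nat_lit 288)) (XT.lf (nat_lit 0) (nat_lit 66246403038) (nat_lit 152) (nat_lit 1099764486903) (nat_lit 0) (nat_lit 32244733913) (nat_lit 2) (nat_lit 5) (nat_lit 4) (nat_lit 4) (nat_lit 2) (nat_lit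 4) (nat_lit 496) (nat_lit 417) (nat_lit 287)))) (XT.nd (nat_lit 78) (nat_lit 0) (nat_lit 0) (XT.lf (nat_lit 0) (nat_lit 147156613243) (nat_lit 152) (nat_lit 1027535960302) (nat_lit 0) (nat_lit 113154830330) (nat_lit 2) (nat_lit 5) (nat_lit 4) (nat_lit 4) (nat_lit 2) (nat_lit 4) (nat_lit 497) (nat_lit 417) (nat_lit 286)) (XT.nd (nat_lit 78) (nat_lit 0) (nat_lit 0) (XT.lf (nat_lit 0) (nat_lit 234539135472) (nat_lit 152) (nat_lit 949530184021) (nat_lit 0) (nat_lit 200537247200) (nat_lit 2) (nat_lit 5) (nat_lit 4) (nat_lit 4) (nat_lit 2) (nat_lit 4) (nat_lit 498) (nat_lit 417) (nat_lit 285)) (XT.lf (nat_lit 0) (nat_lit 328911792081) (nat_lit 152) (nat_lit 865284901610) (nat_lit 0) (nat_lit 294909806253) (nat_lit 2) (nat_lit 5) (nat_lit 4) (nat_lit 4) (nat_lit 2) (nat_lit 4) (nat_lit 499) (nat_lit 417) (nat_lit 284))))) (XT.nd (nat_lit 234) (nat_lit 0) (nat_lit 0) (XT.nd (nat_lit 78) (nat_lit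 0) (nat_lit 0) (XT.lf (nat_lit 0) (nat_lit 430833828441) (nat_lit 152) (nat_lit 774300881764) (nat_lit 0) (nat_lit 396831752284) (nat_lit 2) (nat_lit 5) (nat_lit 4) (nat_lit 4) (nat_lit 2) (nat_lit 4) (nat_lit 500) (nat_lit 417) (nat_lit 283)) (XT.nd (nat_lit 78) (nat_lit 0) (nat_lit 0) (XT.lf (nat_lit 0) (nat_lit 540909226989) (nat_lit 152) (nat_lit 676038959921) (nat_lit 0) (nat_lit 506907067195) (nat_lit 2) (nat_lit 5) (nat_lit 4) (nat_lit 4) (nat_lit 2) (nat_lit 4) (nat_lit 501) (nat_lit 417) (nat_lit 282)) (XT.lf (nat_lit 0) (nat_lit 659790286385) (nat_lit 152) (nat_lit 569916843212) (nat_lit 0) (nat_lit 625788049148) (nat_lit 2) (nat_lit 5) (nat_lit 4) (nat_lit 4) (nat_lit 2) (nat_lit 4) (nat_lit 502) (nat_lit 417) (nat_lit 281)))) (XT.nd (nat_lit 78) (nat_lit 0) (nat_lit 0) (XT.lf (nat_lit 0) (nat_lit 788181486979) (nat_lit 152) (nat_lit 455305659834) (nat_lit 0) (nat_lit 754179178037)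 (nat_lit 2) (nat_lit 5) (nat_lit 4) (nat_lit 4) (nat_lit 2) (nat_lit 4) (nat_lit 503) (nat_lit 417) (nat_lit 280)) (XT.nd (nat_lit 78) (nat_lit 0) (nat_lit 0) (XT.lf (nat_lit 0) (nat_lit 926843665517) (nat_lit 152) (nat_lit 331526232403) (nat_lit 0) (nat_lit 892841290180) (nat_lit 2) (nat_lit 5) (nat_lit 4) (nat_lit 4) (nat_lit 2) (nat_lit 4) (nat_lit 504) (nat_lit 417) (nat_lit 279)) (XT.lf (nat_lit 0) (nat_lit 1076598523797) (nat_lit 152) (nat_lit 197845053202) (nat_lit 0) (nat_lit 1042596086984) (nat_lit 2) (nat_lit 5) (nat_lit 4) (nat_lit 4) (nat_lit 2) (nat_lit 4) (nat_lit 505) (nat_lit 417) (nat_lit 278))))))))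
noncomputable def xc140 : XT := (XT.nd (nat_lit 55614) (nat_lit 0) (nat_lit 2964) (XT.nd (nat_lit 858) (nat_lit 0) (nat_lit 0) (XT.nd (nat_lit 390) (nat_lit 0) (nat_lit 0) (XT.nd (nat_lit 156) (nat_lit 0) (nat_lit 0) (XT.nd (nat_lit 78) (nat_lit 76) (nat_lit 0) (XT.lf (nat_lit 0) (nat_lit 1238333498016) (nat_lit 152) (nat_lit 53469937465) (nat_lit 0) (nat_lit 1204331004281) (nat_lit 2) (nat_lit 5) (nat_lit 4) (nat_lit 4) (nat_lit 2) (nat_lit 4) (nat_lit 506) (nat_lit 417) (nat_lit 277)) (XT.lf (nat_lit 0) (nat_lit 107849752461) (nat_lit 76) (nat_lit 1307751054330) (nat_lit 76) (nat_lit 1273748507888) (nat_lit 1) (nat_lit 4) (nat_lit 2) (nat_lit 5) (nat_lit 2) (nat_lit 4) (nat_lit 507) (nat_lit 417) (nat_lit 276))) (XT.nd (nat_lit 78) (nat_lit 0) (nat_lit 0) (XT.lf (nat_lit 0) (nat_lit 285115396898) (nat_lit 76) (nat_lit 1323395820295) (nat_lit 76) (nat_lit 1289393225051) (nat_lit 1) (nat_lit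 4) (nat_lit 2) (nat_lit 5) (nat_lit 2) (nat_lit 4) (nat_lit 508) (nat_lit 417) (nat_lit 275)) (XT.nd (nat_lit 78) (nat_lit 0) (nat_lit 0) (XT.lf (nat_lit 0) (nat_lit 476561826774) (nat_lit 76) (nat_lit 1340292405947) (nat_lit 76) (nat_lit 1306289765516) (nat_lit 1) (nat_lit 4) (nat_lit 2) (nat_lit 5) (nat_lit 2) (nat_lit 4) (nat_lit 509) (nat_lit 417) (nat_lit 274)) (XT.lf (nat_lit 0) (nat_lit 683323539449) (nat_lit 76) (nat_lit 1358540939201) (nat_lit 76) (nat_lit 1324538256930) (nat_lit 1) (nat_lit 4) (nat_lit 2) (nat_lit 5) (nat_lit 2) (nat_lit 4) (nat_lit 510) (nat_lit 417) (nat_lit 273))))) (XT.nd (nat_lit 234) (nat_lit 0) (nat_lit 0) (XT.nd (nat_lit 78) (nat_lit 0) (nat_lit 0) (XT.lf (nat_lit 0) (nat_lit 906625789519) (nat_lit 76) (nat_lit 1378249559513) (nat_lit 76) (nat_lit 1344246838503) (nat_lit 1) (nat_lit 4) (nat_lit 2) (nat_lit 5) (nat_lit 2) (nat_lit 4) (nat_lit 511) (nat_lit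 417) (nat_lit 272)) (XT.nd (nat_lit 78) (nat_lit 0) (nat_lit 0) (XT.lf (nat_lit 0) (nat_lit 1147791849577) (nat_lit 76) (nat_lit 1399535058709) (nat_lit 76) (nat_lit 1365532301827) (nat_lit 1) (nat_lit 4) (nat_lit 2) (nat_lit 5) (nat_lit 2) (nat_lit 4) (nat_lit 512) (nat_lit 417) (nat_lit 271)) (XT.lf (nat_lit 0) (nat_lit 1408250851829) (nat_lit 76) (nat_lit 1422523573078) (nat_lit 76) (nat_lit 1388520782983) (nat_lit 1) (nat_lit 4) (nat_lit 2) (nat_lit 5) (nat_lit 2) (nat_lit 4) (nat_lit 513) (nat_lit 417) (nat_lit 270)))) (XT.nd (nat_lit 78) (nat_lit 0) (nat_lit 0) (XT.lf (nat_lit 0) (nat_lit 1689546257029) (nat_lit 76) (nat_lit 1447351330855) (nat_lit 76) (nat_lit 1413348510006) (nat_lit 1) (nat_lit 4) (nat_lit 2) (nat_lit 5) (nat_lit 2) (nat_lit 4) (nat_lit 514) (nat_lit 417) (nat_lit 269)) (XT.nd (nat_lit 78) (nat_lit 0) (nat_lit 0) (XT.lf (nat_lit 0) (nat_lit 1993345000914) (nat_lit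 76) (nat_lit 1474165459493) (nat_lit 76) (nat_lit 1440162610169) (nat_lit 1) (nat_lit 4) (nat_lit 2) (nat_lit 5) (nat_lit 2) (nat_lit 4) (nat_lit 515) (nat_lit 417) (nat_lit 268)) (XT.lf (nat_lit 0) (nat_lit 2321447372335) (nat_lit 76) (nat_lit 1503124857532) (nat_lit 76) (nat_lit 1469121981842) (nat_lit 1) (nat_lit 4) (nat_lit 2) (nat_lit 5) (nat_lit 2) (nat_lit 4) (nat_lit 516) (nat_lit 417) (nat_lit 267)))))) (XT.nd (nat_lit 390) (nat_lit 0) (nat_lit 0) (XT.nd (nat_lit 156) (nat_lit 0) (nat_lit 0) (XT.nd (nat_lit 78) (nat_lit 0) (nat_lit 0) (XT.lf (nat_lit 0) (nat_lit 2675797681640) (nat_lit 76) (nat_lit 1534401136220) (nat_lit 76) (nat_lit 1500398236116) (nat_lit 1) (nat_lit 4) (nat_lit 2) (nat_lit 5) (nat_lit 2) (nat_lit 4) (nat_lit 517) (nat_lit 417) (nat_lit 266)) (XT.lf (nat_lit 0) (nat_lit 3058495782516) (nat_lit 76) (nat_lit 1568179636467) (nat_lit 76) (nat_lit 1534176713759)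 (nat_lit 1) (nat_lit 4) (nat_lit 2) (nat_lit 5) (nat_lit 2) (nat_lit 4) (nat_lit 518) (nat_lit 417) (nat_lit 265))) (XT.nd (nat_lit 78) (nat_lit 0) (nat_lit 0) (XT.lf (nat_lit 0) (nat_lit 3471809515560) (nat_lit 76) (nat_lit 1604660527164) (nat_lit 76) (nat_lit 1570657583525) (nat_lit 1) (nat_lit 4) (nat_lit 2) (nat_lit 5) (nat_lit 2) (nat_lit 4) (nat_lit 519) (nat_lit 417) (nat_lit 264)) (XT.nd (nat_lit 78) (nat_lit 0) (nat_lit 0) (XT.lf (nat_lit 0) (nat_lit 3918188147338) (nat_lit 76) (nat_lit 1644059991367) (nat_lit 76) (nat_lit 1610057028348) (nat_lit 1) (nat_lit 4) (nat_lit 2) (nat_lit 5) (nat_lit 2) (nat_lit 4) (nat_lit 520) (nat_lit 417) (nat_lit 263)) (XT.lf (nat_lit 0) (nat_lit 4400276884557) (nat_lit 76) (nat_lit 1686611507381) (nat_lit 76) (nat_lit 1652608526419) (nat_lit 1) (nat_lit 4) (nat_lit 2) (nat_lit 5) (nat_lit 2) (nat_lit 4) (nat_lit 521) (nat_lit 417) (nat_lit 262)))))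 (XT.nd (nat_lit 234) (nat_lit 0) (nat_lit 0) (XT.nd (nat_lit 78) (nat_lit 0) (nat_lit 0) (XT.lf (nat_lit 0) (nat_lit 4920932549363) (nat_lit 76) (nat_lit 1732567232340) (nat_lit 76) (nat_lit 1698564234762) (nat_lit 1) (nat_lit 4) (nat_lit 2) (nat_lit 5) (nat_lit 2) (nat_lit 4) (nat_lit 522) (nat_lit 417) (nat_lit 261)) (XT.nd (nat_lit 78) (nat_lit 0) (nat_lit 0) (XT.lf (nat_lit 0) (nat_lit 5483240508659) (nat_lit 76) (nat_lit 1782199496465) (nat_lit 76) (nat_lit 1748196483503) (nat_lit 1) (nat_lit 4) (nat_lit 2) (nat_lit 5) (nat_lit 2) (nat_lit 4) (nat_lit 523) (nat_lit 417) (nat_lit 260)) (XT.lf (nat_lit 0) (nat_lit 6090532957759) (nat_lit 76) (nat_lit 1835802416877) (nat_lit 76) (nat_lit 1801799389670) (nat_lit 1) (nat_lit 4) (nat_lit 2) (nat_lit 5) (nat_lit 2) (nat_lit 4) (nat_lit 524) (nat_lit 417) (nat_lit 259)))) (XT.nd (nat_lit 78) (nat_lit 0) (nat_lit 0) (XT.lf (nat_lit 0) (nat_lit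 6746408666732) (nat_lit 76) (nat_lit 1893693640511) (nat_lit 76) (nat_lit 1859690600115) (nat_lit 1) (nat_lit 4) (nat_lit 2) (nat_lit 5) (nat_lit 2) (nat_lit 4) (nat_lit 525) (nat_lit 417) (nat_lit 258)) (XT.nd (nat_lit 78) (nat_lit 0) (nat_lit 0) (XT.lf (nat_lit 0) (nat_lit 7454754306447) (nat_lit 76) (nat_lit 1956216226471) (nat_lit 76) (nat_lit 1922213173862) (nat_lit 1) (nat_lit 4) (nat_lit 2) (nat_lit 5) (nat_lit 2) (nat_lit 4) (nat_lit 526) (nat_lit 417) (nat_lit 257)) (XT.lf (nat_lit 0) (nat_lit 8219767480693) (nat_lit 76) (nat_lit 2023740678970) (nat_lit 76) (nat_lit 1989737615053) (nat_lit 1) (nat_lit 4) (nat_lit 2) (nat_lit 5) (nat_lit 2) (nat_lit 4) (nat_lit 527) (nat_lit 417) (nat_lit 256))))))) (XT.nd (nat_lit 858) (nat_lit 1216) (nat_lit 0) (XT.nd (nat_lit 390) (nat_lit 988) (nat_lit 0) (XT.nd (nat_lit 156) (nat_lit 0) (nat_lit 76) (XT.nd (nat_lit 78) (nat_lit 0) (nat_lit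 0) (XT.lf (nat_lit 0) (nat_lit 6425183327) (nat_lit 532) (nat_lit 889103542) (nat_lit 532) (nat_lit 889103542) (nat_lit 69) (nat_lit 3) (nat_lit 76) (nat_lit 3) (nat_lit 76) (nat_lit 5) (nat_lit 418) (nat_lit 418) (nat_lit 364)) (XT.lf (nat_lit 76) (nat_lit 6592163285) (nat_lit 0) (nat_lit 7163556567) (nat_lit 532) (nat_lit 3275868505) (nat_lit 70) (nat_lit 5) (nat_lit 69) (nat_lit 3) (nat_lit 76) (nat_lit 5) (nat_lit 419) (nat_lit 418) (nat_lit 363))) (XT.nd (nat_lit 78) (nat_lit 0) (nat_lit 0) (XT.lf (nat_lit 0) (nat_lit 14781636037) (nat_lit 456) (nat_lit 2007476375) (nat_lit 532) (nat_lit 913432973) (nat_lit 70) (nat_lit 5) (nat_lit 76) (nat_lit 5) (nat_lit 77) (nat_lit 5) (nat_lit 420) (nat_lit 418) (nat_lit 362)) (XT.nd (nat_lit 78) (nat_lit 0) (nat_lit 0) (XT.lf (nat_lit 76) (nat_lit 7261974794) (nat_lit 0) (nat_lit 8966737903) (nat_lit 532) (nat_lit 2171353813) (nat_lit 71) (nat_lit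 5) (nat_lit 70) (nat_lit 5) (nat_lit 77) (nat_lit 5) (nat_lit 421) (nat_lit 418) (nat_lit 361)) (XT.lf (nat_lit 76) (nat_lit 17373249632) (nat_lit 0) (nat_lit 452831860) (nat_lit 532) (nat_lit 1324559186) (nat_lit 71) (nat_lit 5) (nat_lit 70) (nat_lit 5) (nat_lit 77) (nat_lit 5) (nat_lit 422) (nat_lit 418) (nat_lit 360))))) (XT.nd (nat_lit 234) (nat_lit 608) (nat_lit 0) (XT.nd (nat_lit 78) (nat_lit 0) (nat_lit 0) (XT.lf (nat_lit 0) (nat_lit 17574552) (nat_lit 532) (nat_lit 11395673158) (nat_lit 608) (nat_lit 8516246697) (nat_lit 64) (nat_lit 5) (nat_lit 71) (nat_lit 5) (nat_lit 72) (nat_lit 5) (nat_lit 423) (nat_lit 418) (nat_lit 359)) (XT.nd (nat_lit 78) (nat_lit 0) (nat_lit 76) (XT.lf (nat_lit 0) (nat_lit 1439005228) (nat_lit 532) (nat_lit 1058316670) (nat_lit 608) (nat_lit 18267113924) (nat_lit 64) (nat_lit 5) (nat_lit 71) (nat_lit 5) (nat_lit 72) (nat_lit 5) (nat_lit 424) (nat_lit 418)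 (nat_lit 358)) (XT.lf (nat_lit 0) (nat_lit 3391078337) (nat_lit 532) (nat_lit 11201866182) (nat_lit 76) (nat_lit 7039883667) (nat_lit 65) (nat_lit 5) (nat_lit 72) (nat_lit 5) (nat_lit 66) (nat_lit 5) (nat_lit 425) (nat_lit 418) (nat_lit 357)))) (XT.nd (nat_lit 78) (nat_lit 228) (nat_lit 0) (XT.lf (nat_lit 0) (nat_lit 263782692) (nat_lit 456) (nat_lit 5320609615) (nat_lit 532) (nat_lit 16979502772) (nat_lit 59) (nat_lit 5) (nat_lit 65) (nat_lit 5) (nat_lit 66) (nat_lit 5) (nat_lit 426) (nat_lit 418) (nat_lit 356)) (XT.nd (nat_lit 78) (nat_lit 228) (nat_lit 0) (XT.lf (nat_lit 0) (nat_lit 8365292422) (nat_lit 532) (nat_lit 10397863447) (nat_lit 76) (nat_lit 4773330239) (nat_lit 59) (nat_lit 5) (nat_lit 66) (nat_lit 5) (nat_lit 60) (nat_lit 5) (nat_lit 427) (nat_lit 418) (nat_lit 355)) (XT.lf (nat_lit 0) (nat_lit 2425022001) (nat_lit 228) (nat_lit 9126280346) (nat_lit 304) (nat_lit 13020978886)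 (nat_lit 56) (nat_lit 5) (nat_lit 59) (nat_lit 5) (nat_lit 60) (nat_lit 5) (nat_lit 428) (nat_lit 418) (nat_lit 354)))))) (XT.nd (nat_lit 468) (nat_lit 532) (nat_lit 0) (XT.nd (nat_lit 234) (nat_lit 456) (nat_lit 0) (XT.nd (nat_lit 78) (nat_lit 228) (nat_lit 0) (XT.lf (nat_lit 0) (nat_lit 15301471491) (nat_lit 304) (nat_lit 8856648826) (nat_lit 76) (nat_lit 1508084636) (nat_lit 56) (nat_lit 5) (nat_lit 60) (nat_lit 5) (nat_lit 57) (nat_lit 5) (nat_lit 429) (nat_lit 418) (nat_lit 353)) (XT.nd (nat_lit 78) (nat_lit 0) (nat_lit 0) (XT.lf (nat_lit 0) (nat_lit 5522221942) (nat_lit 228) (nat_lit 14187044429) (nat_lit 304) (nat_lit 7109773942) (nat_lit 53) (nat_lit 5) (nat_lit 56) (nat_lit 5) (nat_lit 57) (nat_lit 5) (nat_lit 430) (nat_lit 418) (nat_lit 352)) (XT.lf (nat_lit 0) (nat_lit 21541260847) (nat_lit 228) (nat_lit 3158911257) (nat_lit 304) (nat_lit 3345497641) (nat_lit 53) (nat_lit 5)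 (nat_lit 56) (nat_lit 5) (nat_lit 57) (nat_lit 5) (nat_lit 431) (nat_lit 418) (nat_lit 351)))) (XT.nd (nat_lit 78) (nat_lit 228) (nat_lit 0) (XT.lf (nat_lit 0) (nat_lit 1128896618) (nat_lit 228) (nat_lit 19630075111) (nat_lit 76) (nat_lit 8574478871) (nat_lit 50) (nat_lit 5) (nat_lit 53) (nat_lit 5) (nat_lit 51) (nat_lit 5) (nat_lit 432) (nat_lit 418) (nat_lit 350)) (XT.nd (nat_lit 78) (nat_lit 228) (nat_lit 0) (XT.lf (nat_lit 0) (nat_lit 6034366914) (nat_lit 228) (nat_lit 3319742692) (nat_lit 76) (nat_lit 21342888112) (nat_lit 50) (nat_lit 5) (nat_lit 53) (nat_lit 5) (nat_lit 51) (nat_lit 5) (nat_lit 433) (nat_lit 418) (nat_lit 349)) (XT.lf (nat_lit 0) (nat_lit 11764589308) (nat_lit 304) (nat_lit 17187386046) (nat_lit 76) (nat_lit 3183072667) (nat_lit 47) (nat_lit 5) (nat_lit 51) (nat_lit 5) (nat_lit 48) (nat_lit 5) (nat_lit 434) (nat_lit 418) (nat_lit 348))))) (XT.nd (nat_lit 234) (nat_lit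 228) (nat_lit 0) (XT.nd (nat_lit 78) (nat_lit 152) (nat_lit 0) (XT.lf (nat_lit 0) (nat_lit 974628609) (nat_lit 152) (nat_lit 17328631096) (nat_lit 228) (nat_lit 15356884462) (nat_lit 45) (nat_lit 5) (nat_lit 47) (nat_lit 5) (nat_lit 48) (nat_lit 5) (nat_lit 435) (nat_lit 418) (nat_lit 347)) (XT.nd (nat_lit 78) (nat_lit 152) (nat_lit 0) (XT.lf (nat_lit 0) (nat_lit 21554220408) (nat_lit 152) (nat_lit 4271632823) (nat_lit 228) (nat_lit 9444532334) (nat_lit 45) (nat_lit 5) (nat_lit 47) (nat_lit 5) (nat_lit 48) (nat_lit 5) (nat_lit 436) (nat_lit 418) (nat_lit 346)) (XT.lf (nat_lit 0) (nat_lit 6865262533) (nat_lit 152) (nat_lit 27477998331) (nat_lit 228) (nat_lit 2634748512) (nat_lit 43) (nat_lit 5) (nat_lit 45) (nat_lit 5) (nat_lit 46) (nat_lit 5) (nat_lit 437) (nat_lit 418) (nat_lit 345)))) (XT.nd (nat_lit 78) (nat_lit 152) (nat_lit 0) (XT.lf (nat_lit 0) (nat_lit 4971039516) (nat_lit 228) (nat_lit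 9165808188) (nat_lit 76) (nat_lit 24637331490) (nat_lit 42) (nat_lit 5) (nat_lit 45) (nat_lit 5) (nat_lit 43) (nat_lit 5) (nat_lit 438) (nat_lit 418) (nat_lit 344)) (XT.nd (nat_lit 78) (nat_lit 0) (nat_lit 0) (XT.lf (nat_lit 0) (nat_lit 13390840297) (nat_lit 228) (nat_lit 26617947221) (nat_lit 76) (nat_lit 671951592) (nat_lit 40) (nat_lit 5) (nat_lit 43) (nat_lit 5) (nat_lit 41) (nat_lit 5) (nat_lit 439) (nat_lit 418) (nat_lit 343)) (XT.lf (nat_lit 0) (nat_lit 23100972919) (nat_lit 228) (nat_lit 3434420832) (nat_lit 76) (nat_lit 16155092916) (nat_lit 40) (nat_lit 5) (nat_lit 43) (nat_lit 5) (nat_lit 41) (nat_lit 5) (nat_lit 440) (nat_lit 418) (nat_lit 342))))))))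
noncomputable def xc141 : XT := (XT.nd (nat_lit 1716) (nat_lit 988) (nat_lit 0) (XT.nd (nat_lit 858) (nat_lit 608) (nat_lit 0) (XT.nd (nat_lit 390) (nat_lit 532) (nat_lit 0) (XT.nd (nat_lit 156) (nat_lit 228) (nat_lit 0) (XT.nd (nat_lit 78) (nat_lit 76) (nat_lit 0) (XT.lf (nat_lit 0) (nat_lit 22729812745) (nat_lit 152) (nat_lit 11397754237) (nat_lit 228) (nat_lit 10690277450) (nat_lit 38) (nat_lit 5) (nat_lit 40) (nat_lit 5) (nat_lit 41) (nat_lit 5) (nat_lit 441) (nat_lit 418) (nat_lit 341)) (XT.lf (nat_lit 0) (nat_lit 4149513242) (nat_lit 76) (nat_lit 42195145379) (nat_lit 152) (nat_lit 746064883) (nat_lit 37) (nat_lit 5) (nat_lit 38) (nat_lit 5) (nat_lit 39) (nat_lit 4) (nat_lit 442) (nat_lit 418) (nat_lit 340))) (XT.nd (nat_lit 78) (nat_lit 152) (nat_lit 0) (XT.lf (nat_lit 0) (nat_lit 10402651929) (nat_lit 152) (nat_lit 16318225665) (nat_lit 76) (nat_lit 22732618053) (nat_lit 36) (nat_lit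 5) (nat_lit 38) (nat_lit 5) (nat_lit 37) (nat_lit 5) (nat_lit 443) (nat_lit 418) (nat_lit 339)) (XT.nd (nat_lit 78) (nat_lit 0) (nat_lit 0) (XT.lf (nat_lit 0) (nat_lit 13058013528) (nat_lit 152) (nat_lit 9652726346) (nat_lit 228) (nat_lit 29268378786) (nat_lit 34) (nat_lit 5) (nat_lit 36) (nat_lit 5) (nat_lit 37) (nat_lit 5) (nat_lit 444) (nat_lit 418) (nat_lit 338)) (XT.lf (nat_lit 0) (nat_lit 36666269216) (nat_lit 228) (nat_lit 9192026454) (nat_lit 76) (nat_lit 8795473978) (nat_lit 34) (nat_lit 5) (nat_lit 37) (nat_lit 5) (nat_lit 35) (nat_lit 4) (nat_lit 445) (nat_lit 418) (nat_lit 337))))) (XT.nd (nat_lit 234) (nat_lit 228) (nat_lit 0) (XT.nd (nat_lit 78) (nat_lit 228) (nat_lit 0) (XT.lf (nat_lit 0) (nat_lit 23847862840) (nat_lit 76) (nat_lit 28708951049) (nat_lit 152) (nat_lit 4920094544) (nat_lit 33) (nat_lit 5) (nat_lit 34) (nat_lit 5) (nat_lit 35) (nat_lit 4) (nat_lit 446) (nat_lit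 418) (nat_lit 336)) (XT.nd (nat_lit 78) (nat_lit 152) (nat_lit 0) (XT.lf (nat_lit 0) (nat_lit 8985061364) (nat_lit 152) (nat_lit 689516354) (nat_lit 76) (nat_lit 50813458051) (nat_lit 32) (nat_lit 5) (nat_lit 34) (nat_lit 5) (nat_lit 33) (nat_lit 5) (nat_lit 447) (nat_lit 418) (nat_lit 335)) (XT.lf (nat_lit 0) (nat_lit 24899099218) (nat_lit 228) (nat_lit 27369596154) (nat_lit 76) (nat_lit 11368152994) (nat_lit 30) (nat_lit 5) (nat_lit 33) (nat_lit 5) (nat_lit 31) (nat_lit 4) (nat_lit 448) (nat_lit 418) (nat_lit 334)))) (XT.nd (nat_lit 78) (nat_lit 152) (nat_lit 0) (XT.lf (nat_lit 0) (nat_lit 9392627867) (nat_lit 76) (nat_lit 33185014840) (nat_lit 152) (nat_lit 24420613800) (nat_lit 29) (nat_lit 5) (nat_lit 30) (nat_lit 5) (nat_lit 31) (nat_lit 4) (nat_lit 449) (nat_lit 418) (nat_lit 333)) (XT.nd (nat_lit 78) (nat_lit 152) (nat_lit 0) (XT.lf (nat_lit 0) (nat_lit 50643425231) (nat_lit 76)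 (nat_lit 11770403191) (nat_lit 152) (nat_lit 8155281237) (nat_lit 29) (nat_lit 5) (nat_lit 30) (nat_lit 5) (nat_lit 31) (nat_lit 4) (nat_lit 450) (nat_lit 418) (nat_lit 332)) (XT.lf (nat_lit 0) (nat_lit 9748039074) (nat_lit 152) (nat_lit 53043689357) (nat_lit 76) (nat_lit 11551192113) (nat_lit 27) (nat_lit 5) (nat_lit 29) (nat_lit 5) (nat_lit 28) (nat_lit 4) (nat_lit 451) (nat_lit 418) (nat_lit 331)))))) (XT.nd (nat_lit 390) (nat_lit 304) (nat_lit 0) (XT.nd (nat_lit 156) (nat_lit 228) (nat_lit 0) (XT.nd (nat_lit 78) (nat_lit 76) (nat_lit 0) (XT.lf (nat_lit 0) (nat_lit 29503040903) (nat_lit 152) (nat_lit 11960008458) (nat_lit 76) (nat_lit 36869840709) (nat_lit 27) (nat_lit 5) (nat_lit 29) (nat_lit 5) (nat_lit 28) (nat_lit 4) (nat_lit 452) (nat_lit 418) (nat_lit 330)) (XT.lf (nat_lit 0) (nat_lit 34108669947) (nat_lit 76) (nat_lit 17545766781) (nat_lit 152) (nat_lit 30922341701) (nat_lit 26)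 (nat_lit 5) (nat_lit 27) (nat_lit 5) (nat_lit 28) (nat_lit 4) (nat_lit 453) (nat_lit 418) (nat_lit 329))) (XT.nd (nat_lit 78) (nat_lit 228) (nat_lit 0) (XT.lf (nat_lit 0) (nat_lit 76108425259) (nat_lit 152) (nat_lit 2806743517) (nat_lit 0) (nat_lit 8202571319) (nat_lit 26) (nat_lit 5) (nat_lit 28) (nat_lit 4) (nat_lit 26) (nat_lit 4) (nat_lit 454) (nat_lit 418) (nat_lit 328)) (XT.nd (nat_lit 78) (nat_lit 76) (nat_lit 0) (XT.lf (nat_lit 0) (nat_lit 11631134234) (nat_lit 152) (nat_lit 43718036266) (nat_lit 76) (nat_lit 36519855420) (nat_lit 24) (nat_lit 5) (nat_lit 26) (nat_lit 5) (nat_lit 25) (nat_lit 4) (nat_lit 455) (nat_lit 418) (nat_lit 327)) (XT.lf (nat_lit 0) (nat_lit 6374173336) (nat_lit 76) (nat_lit 29341953734) (nat_lit 152) (nat_lit 61243163872) (nat_lit 23) (nat_lit 5) (nat_lit 24) (nat_lit 5) (nat_lit 25) (nat_lit 4) (nat_lit 456) (nat_lit 418) (nat_lit 326))))) (XT.nd (nat_lit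 234) (nat_lit 152) (nat_lit 0) (XT.nd (nat_lit 78) (nat_lit 152) (nat_lit 0) (XT.lf (nat_lit 0) (nat_lit 62920231263) (nat_lit 152) (nat_lit 39409455717) (nat_lit 0) (nat_lit 31705762) (nat_lit 23) (nat_lit 5) (nat_lit 25) (nat_lit 4) (nat_lit 23) (nat_lit 4) (nat_lit 457) (nat_lit 418) (nat_lit 325)) (XT.nd (nat_lit 78) (nat_lit 76) (nat_lit 0) (XT.lf (nat_lit 0) (nat_lit 15885897107) (nat_lit 76) (nat_lit 77555338981) (nat_lit 76) (nat_lit 14663181304) (nat_lit 22) (nat_lit 4) (nat_lit 23) (nat_lit 5) (nat_lit 23) (nat_lit 4) (nat_lit 458) (nat_lit 418) (nat_lit 324)) (XT.lf (nat_lit 0) (nat_lit 12593808004) (nat_lit 152) (nat_lit 36700400152) (nat_lit 76) (nat_lit 64901248475) (nat_lit 21) (nat_lit 5) (nat_lit 23) (nat_lit 5) (nat_lit 22) (nat_lit 4) (nat_lit 459) (nat_lit 418) (nat_lit 323)))) (XT.nd (nat_lit 78) (nat_lit 76) (nat_lit 0) (XT.lf (nat_lit 0) (nat_lit 24076288978) (nat_lit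 76) (nat_lit 17738578226) (nat_lit 152) (nat_lit 78882386974) (nat_lit 20) (nat_lit 5) (nat_lit 21) (nat_lit 5) (nat_lit 22) (nat_lit 4) (nat_lit 460) (nat_lit 418) (nat_lit 322)) (XT.nd (nat_lit 78) (nat_lit 76) (nat_lit 0) (XT.lf (nat_lit 0) (nat_lit 74792834447) (nat_lit 152) (nat_lit 36262135564) (nat_lit 0) (nat_lit 16550688015) (nat_lit 20) (nat_lit 5) (nat_lit 22) (nat_lit 4) (nat_lit 20) (nat_lit 4) (nat_lit 461) (nat_lit 418) (nat_lit 321)) (XT.lf (nat_lit 0) (nat_lit 29957282951) (nat_lit 76) (nat_lit 81629908886) (nat_lit 76) (nat_lit 23385290457) (nat_lit 19) (nat_lit 4) (nat_lit 20) (nat_lit 5) (nat_lit 20) (nat_lit 4) (nat_lit 462) (nat_lit 418) (nat_lit 320))))))) (XT.nd (nat_lit 858) (nat_lit 380) (nat_lit 0) (XT.nd (nat_lit 390) (nat_lit 380) (nat_lit 0) (XT.nd (nat_lit 156) (nat_lit 76) (nat_lit 0) (XT.nd (nat_lit 78) (nat_lit 76) (nat_lit 0) (XT.lf (nat_lit 0) (nat_lit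 8990591350) (nat_lit 152) (nat_lit 39546477308) (nat_lit 76) (nat_lit 94294295736) (nat_lit 18) (nat_lit 5) (nat_lit 20) (nat_lit 5) (nat_lit 19) (nat_lit 4) (nat_lit 463) (nat_lit 418) (nat_lit 319)) (XT.lf (nat_lit 0) (nat_lit 32155345157) (nat_lit 76) (nat_lit 11308295137) (nat_lit 152) (nat_lit 107745083447) (nat_lit 17) (nat_lit 5) (nat_lit 18) (nat_lit 5) (nat_lit 19) (nat_lit 4) (nat_lit 464) (nat_lit 418) (nat_lit 318))) (XT.nd (nat_lit 78) (nat_lit 76) (nat_lit 0) (XT.lf (nat_lit 0) (nat_lit 82496094440) (nat_lit 152) (nat_lit 49056059231) (nat_lit 0) (nat_lit 28559993507) (nat_lit 17) (nat_lit 5) (nat_lit 19) (nat_lit 4) (nat_lit 17) (nat_lit 4) (nat_lit 465) (nat_lit 418) (nat_lit 317)) (XT.nd (nat_lit 78) (nat_lit 0) (nat_lit 0) (XT.lf (nat_lit 0) (nat_lit 27624057269) (nat_lit 76) (nat_lit 97982566247) (nat_lit 76) (nat_lit 44044782914) (nat_lit 16) (nat_lit 4) (nat_lit 17)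 (nat_lit 5) (nat_lit 17) (nat_lit 4) (nat_lit 466) (nat_lit 418) (nat_lit 316)) (XT.lf (nat_lit 0) (nat_lit 113223440939) (nat_lit 76) (nat_lit 60281303425) (nat_lit 76) (nat_lit 6341962313) (nat_lit 16) (nat_lit 4) (nat_lit 17) (nat_lit 5) (nat_lit 17) (nat_lit 4) (nat_lit 467) (nat_lit 418) (nat_lit 315))))) (XT.nd (nat_lit 234) (nat_lit 228) (nat_lit 0) (XT.nd (nat_lit 78) (nat_lit 0) (nat_lit 0) (XT.lf (nat_lit 0) (nat_lit 14717861903) (nat_lit 76) (nat_lit 18291102232) (nat_lit 152) (nat_lit 157754400520) (nat_lit 14) (nat_lit 5) (nat_lit 15) (nat_lit 5) (nat_lit 16) (nat_lit 4) (nat_lit 468) (nat_lit 418) (nat_lit 314)) (XT.nd (nat_lit 78) (nat_lit 0) (nat_lit 0) (XT.lf (nat_lit 0) (nat_lit 77682606877) (nat_lit 152) (nat_lit 96919988271) (nat_lit 0) (nat_lit 27736200357) (nat_lit 14) (nat_lit 5) (nat_lit 16) (nat_lit 4) (nat_lit 14) (nat_lit 4) (nat_lit 469) (nat_lit 418) (nat_lit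 313)) (XT.lf (nat_lit 0) (nat_lit 126403019188) (nat_lit 152) (nat_lit 11943943884) (nat_lit 0) (nat_lit 76455467655) (nat_lit 14) (nat_lit 5) (nat_lit 16) (nat_lit 4) (nat_lit 14) (nat_lit 4) (nat_lit 470) (nat_lit 418) (nat_lit 312)))) (XT.nd (nat_lit 78) (nat_lit 152) (nat_lit 0) (XT.lf (nat_lit 0) (nat_lit 84029594225) (nat_lit 76) (nat_lit 97010332710) (nat_lit 76) (nat_lit 47061720978) (nat_lit 13) (nat_lit 4) (nat_lit 14) (nat_lit 5) (nat_lit 14) (nat_lit 4) (nat_lit 471) (nat_lit 418) (nat_lit 311)) (XT.nd (nat_lit 78) (nat_lit 152) (nat_lit 0) (XT.lf (nat_lit 0) (nat_lit 188356291159) (nat_lit 76) (nat_lit 52016069488) (nat_lit 76) (nat_lit 2066476092) (nat_lit 13) (nat_lit 4) (nat_lit 14) (nat_lit 5) (nat_lit 14) (nat_lit 4) (nat_lit 472) (nat_lit 418) (nat_lit 310)) (XT.lf (nat_lit 0) (nat_lit 44194090192) (nat_lit 76) (nat_lit 1067733142) (nat_lit 152) (nat_lit 212486778872)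 (nat_lit 11) (nat_lit 5) (nat_lit 12) (nat_lit 5) (nat_lit 13) (nat_lit 4) (nat_lit 473) (nat_lit 418) (nat_lit 309)))))) (XT.nd (nat_lit 468) (nat_lit 152) (nat_lit 0) (XT.nd (nat_lit 234) (nat_lit 152) (nat_lit 0) (XT.nd (nat_lit 78) (nat_lit 76) (nat_lit 0) (XT.lf (nat_lit 0) (nat_lit 99077629948) (nat_lit 152) (nat_lit 122149808624) (nat_lit 0) (nat_lit 52826385538) (nat_lit 11) (nat_lit 5) (nat_lit 13) (nat_lit 4) (nat_lit 11) (nat_lit 4) (nat_lit 474) (nat_lit 418) (nat_lit 308)) (XT.nd (nat_lit 78) (nat_lit 76) (nat_lit 0) (XT.lf (nat_lit 0) (nat_lit 157224685764) (nat_lit 152) (nat_lit 23463979524) (nat_lit 0) (nat_lit 110972719802) (nat_lit 11) (nat_lit 5) (nat_lit 13) (nat_lit 4) (nat_lit 11) (nat_lit 4) (nat_lit 475) (nat_lit 418) (nat_lit 307)) (XT.lf (nat_lit 0) (nat_lit 87490066677) (nat_lit 76) (nat_lit 134635958451) (nat_lit 76) (nat_lit 88383324384) (nat_lit 10) (nat_lit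 4) (nat_lit 11) (nat_lit 5) (nat_lit 11) (nat_lit 4) (nat_lit 476) (nat_lit 418) (nat_lit 306)))) (XT.nd (nat_lit 78) (nat_lit 152) (nat_lit 0) (XT.lf (nat_lit 0) (nat_lit 208651679631) (nat_lit 76) (nat_lit 84207763261) (nat_lit 76) (nat_lit 37954510579) (nat_lit 10) (nat_lit 4) (nat_lit 11) (nat_lit 5) (nat_lit 11) (nat_lit 4) (nat_lit 477) (nat_lit 418) (nat_lit 305)) (XT.nd (nat_lit 78) (nat_lit 76) (nat_lit 0) (XT.lf (nat_lit 0) (nat_lit 15681284091) (nat_lit 152) (nat_lit 13636754564) (nat_lit 76) (nat_lit 323393244314) (nat_lit 9) (nat_lit 5) (nat_lit 11) (nat_lit 5) (nat_lit 10) (nat_lit 4) (nat_lit 478) (nat_lit 418) (nat_lit 304)) (XT.lf (nat_lit 0) (nat_lit 74966678967) (nat_lit 152) (nat_lit 268903540415) (nat_lit 0) (nat_lit 32138571711) (nat_lit 8) (nat_lit 5) (nat_lit 10) (nat_lit 4) (nat_lit 8) (nat_lit 4) (nat_lit 479) (nat_lit 418) (nat_lit 303))))) (XT.nd (nat_lit 234)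 (nat_lit 76) (nat_lit 0) (XT.nd (nat_lit 78) (nat_lit 76) (nat_lit 0) (XT.lf (nat_lit 0) (nat_lit 140137568633) (nat_lit 152) (nat_lit 163632111564) (nat_lit 0) (nat_lit 97309006677) (nat_lit 8) (nat_lit 5) (nat_lit 10) (nat_lit 4) (nat_lit 8) (nat_lit 4) (nat_lit 480) (nat_lit 418) (nat_lit 302)) (XT.nd (nat_lit 78) (nat_lit 76) (nat_lit 0) (XT.lf (nat_lit 0) (nat_lit 210520850002) (nat_lit 152) (nat_lit 49941559704) (nat_lit 0) (nat_lit 167691867026) (nat_lit 8) (nat_lit 5) (nat_lit 10) (nat_lit 4) (nat_lit 8) (nat_lit 4) (nat_lit 481) (nat_lit 418) (nat_lit 301)) (XT.lf (nat_lit 0) (nat_lit 76677559001) (nat_lit 76) (nat_lit 211700147321) (nat_lit 76) (nat_lit 168870774513) (nat_lit 7) (nat_lit 4) (nat_lit 8) (nat_lit 5) (nat_lit 8) (nat_lit 4) (nat_lit 482) (nat_lit 418) (nat_lit 300)))) (XT.nd (nat_lit 78) (nat_lit 76) (nat_lit 0) (XT.lf (nat_lit 0) (nat_lit 216264089347) (nat_lit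 76) (nat_lit 157563359363) (nat_lit 76) (nat_lit 114733625599) (nat_lit 7) (nat_lit 4) (nat_lit 8) (nat_lit 5) (nat_lit 8) (nat_lit 4) (nat_lit 483) (nat_lit 418) (nat_lit 299)) (XT.nd (nat_lit 78) (nat_lit 76) (nat_lit 0) (XT.lf (nat_lit 0) (nat_lit 367015376743) (nat_lit 76) (nat_lit 99096725984) (nat_lit 76) (nat_lit 56266658001) (nat_lit 7) (nat_lit 4) (nat_lit 8) (nat_lit 5) (nat_lit 8) (nat_lit 4) (nat_lit 484) (nat_lit 418) (nat_lit 298)) (XT.lf (nat_lit 0) (nat_lit 6532603856) (nat_lit 152) (nat_lit 29242561421) (nat_lit 76) (nat_lit 523113545329) (nat_lit 6) (nat_lit 5) (nat_lit 8) (nat_lit 5) (nat_lit 7) (nat_lit 4) (nat_lit 485) (nat_lit 418) (nat_lit 297))))))))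
noncomputable def xc142 : XT := (XT.nd (nat_lit 1716) (nat_lit 76) (nat_lit 0) (XT.nd (nat_lit 858) (nat_lit 152) (nat_lit 0) (XT.nd (nat_lit 390) (nat_lit 0) (nat_lit 0) (XT.nd (nat_lit 156) (nat_lit 76) (nat_lit 0) (XT.nd (nat_lit 78) (nat_lit 0) (nat_lit 0) (XT.lf (nat_lit 0) (nat_lit 74877643646) (nat_lit 152) (nat_lit 487820337854) (nat_lit 0) (nat_lit 35219621440) (nat_lit 5) (nat_lit 5) (nat_lit 7) (nat_lit 4) (nat_lit 5) (nat_lit 4) (nat_lit 486) (nat_lit 418) (nat_lit 296)) (XT.lf (nat_lit 0) (nat_lit 150438885466) (nat_lit 152) (nat_lit 378709415723) (nat_lit 0) (nat_lit 110780617599) (nat_lit 5) (nat_lit 5) (nat_lit 7) (nat_lit 4) (nat_lit 5) (nat_lit 4) (nat_lit 487) (nat_lit 418) (nat_lit 295))) (XT.nd (nat_lit 78) (nat_lit 76) (nat_lit 0) (XT.lf (nat_lit 0) (nat_lit 232044159000) (nat_lit 152) (nat_lit 260871386672) (nat_lit 0) (nat_lit 192385663670) (nat_lit 5) (nat_lit 5)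 (nat_lit 7) (nat_lit 4) (nat_lit 5) (nat_lit 4) (nat_lit 488) (nat_lit 418) (nat_lit 294)) (XT.nd (nat_lit 78) (nat_lit 76) (nat_lit 0) (XT.lf (nat_lit 0) (nat_lit 320177051057) (nat_lit 152) (nat_lit 133607951271) (nat_lit 0) (nat_lit 280518345112) (nat_lit 5) (nat_lit 5) (nat_lit 7) (nat_lit 4) (nat_lit 5) (nat_lit 4) (nat_lit 489) (nat_lit 418) (nat_lit 293)) (XT.lf (nat_lit 0) (nat_lit 4036990801) (nat_lit 76) (nat_lit 411419929549) (nat_lit 76) (nat_lit 371761028591) (nat_lit 4) (nat_lit 4) (nat_lit 5) (nat_lit 5) (nat_lit 5) (nat_lit 4) (nat_lit 490) (nat_lit 418) (nat_lit 292))))) (XT.nd (nat_lit 234) (nat_lit 0) (nat_lit 0) (XT.nd (nat_lit 78) (nat_lit 0) (nat_lit 0) (XT.lf (nat_lit 0) (nat_lit 160290454375) (nat_lit 76) (nat_lit 361721078713) (nat_lit 76) (nat_lit 322061997187) (nat_lit 4) (nat_lit 4) (nat_lit 5) (nat_lit 5) (nat_lit 5) (nat_lit 4) (nat_lit 491) (nat_lit 418) (nat_lit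 291)) (XT.nd (nat_lit 78) (nat_lit 0) (nat_lit 0) (XT.lf (nat_lit 0) (nat_lit 329042827960) (nat_lit 76) (nat_lit 308047016273) (nat_lit 76) (nat_lit 268387767555) (nat_lit 4) (nat_lit 4) (nat_lit 5) (nat_lit 5) (nat_lit 5) (nat_lit 4) (nat_lit 492) (nat_lit 418) (nat_lit 290)) (XT.lf (nat_lit 0) (nat_lit 511294125622) (nat_lit 76) (nat_lit 250079673710) (nat_lit 76) (nat_lit 210420270185) (nat_lit 4) (nat_lit 4) (nat_lit 5) (nat_lit 5) (nat_lit 5) (nat_lit 4) (nat_lit 493) (nat_lit 418) (nat_lit 289)))) (XT.nd (nat_lit 78) (nat_lit 0) (nat_lit 0) (XT.lf (nat_lit 0) (nat_lit 708124355051) (nat_lit 76) (nat_lit 187475540848) (nat_lit 76) (nat_lit 147815993981) (nat_lit 4) (nat_lit 4) (nat_lit 5) (nat_lit 5) (nat_lit 5) (nat_lit 4) (nat_lit 494) (nat_lit 418) (nat_lit 288)) (XT.nd (nat_lit 78) (nat_lit 0) (nat_lit 0) (XT.lf (nat_lit 0) (nat_lit 920699917605) (nat_lit 76) (nat_lit 119863630230)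 (nat_lit 76) (nat_lit 80203950641) (nat_lit 4) (nat_lit 4) (nat_lit 5) (nat_lit 5) (nat_lit 5) (nat_lit 4) (nat_lit 495) (nat_lit 418) (nat_lit 287)) (XT.lf (nat_lit 0) (nat_lit 1150280520323) (nat_lit 76) (nat_lit 46843278685) (nat_lit 76) (nat_lit 7183476204) (nat_lit 4) (nat_lit 4) (nat_lit 5) (nat_lit 5) (nat_lit 5) (nat_lit 4) (nat_lit 496) (nat_lit 418) (nat_lit 286)))))) (XT.nd (nat_lit 390) (nat_lit 0) (nat_lit 0) (XT.nd (nat_lit 156) (nat_lit 0) (nat_lit 0) (XT.nd (nat_lit 78) (nat_lit 0) (nat_lit 0) (XT.lf (nat_lit 0) (nat_lit 71555963571) (nat_lit 152) (nat_lit 1187725503174) (nat_lit 0) (nat_lit 34833818877) (nat_lit 2) (nat_lit 5) (nat_lit 4) (nat_lit 4) (nat_lit 2) (nat_lit 4) (nat_lit 497) (nat_lit 418) (nat_lit 285)) (XT.lf (nat_lit 0) (nat_lit 158938261089) (nat_lit 152) (nat_lit 1109720186495) (nat_lit 0) (nat_lit 122216018840) (nat_lit 2) (nat_lit 5) (nat_lit 4) (nat_lit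 4) (nat_lit 2) (nat_lit 4) (nat_lit 498) (nat_lit 418) (nat_lit 284))) (XT.nd (nat_lit 78) (nat_lit 0) (nat_lit 0) (XT.lf (nat_lit 0) (nat_lit 253310709631) (nat_lit 152) (nat_lit 1025475329640) (nat_lit 0) (nat_lit 216588377054) (nat_lit 2) (nat_lit 5) (nat_lit 4) (nat_lit 4) (nat_lit 2) (nat_lit 4) (nat_lit 499) (nat_lit 418) (nat_lit 283)) (XT.nd (nat_lit 78) (nat_lit 0) (nat_lit 0) (XT.lf (nat_lit 0) (nat_lit 355232553337) (nat_lit 152) (nat_lit 934491703828) (nat_lit 0) (nat_lit 318510137122) (nat_lit 2) (nat_lit 5) (nat_lit 4) (nat_lit 4) (nat_lit 2) (nat_lit 4) (nat_lit 500) (nat_lit 418) (nat_lit 282)) (XT.lf (nat_lit 0) (nat_lit 465307773503) (nat_lit 152) (nat_lit 836230146833) (nat_lit 0) (nat_lit 428585279845) (nat_lit 2) (nat_lit 5) (nat_lit 4) (nat_lit 4) (nat_lit 2) (nat_lit 4) (nat_lit 501) (nat_lit 418) (nat_lit 281))))) (XT.nd (nat_lit 234) (nat_lit 0) (nat_lit 0) (XT.nd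 (nat_lit 78) (nat_lit 0) (nat_lit 0) (XT.lf (nat_lit 0) (nat_lit 584188667729) (nat_lit 152) (nat_lit 730108367944) (nat_lit 0) (nat_lit 547466102365) (nat_lit 2) (nat_lit 5) (nat_lit 4) (nat_lit 4) (nat_lit 2) (nat_lit 4) (nat_lit 502) (nat_lit 418) (nat_lit 280)) (XT.nd (nat_lit 78) (nat_lit 0) (nat_lit 0) (XT.lf (nat_lit 0) (nat_lit 712579715389) (nat_lit 152) (nat_lit 615497497363) (nat_lit 0) (nat_lit 675857083631) (nat_lit 2) (nat_lit 5) (nat_lit 4) (nat_lit 4) (nat_lit 2) (nat_lit 4) (nat_lit 503) (nat_lit 418) (nat_lit 279)) (XT.lf (nat_lit 0) (nat_lit 851241752321) (nat_lit 152) (nat_lit 491718359559) (nat_lit 0) (nat_lit 814519059086) (nat_lit 2) (nat_lit 5) (nat_lit 4) (nat_lit 4) (nat_lit 2) (nat_lit 4) (nat_lit 504) (nat_lit 418) (nat_lit 278)))) (XT.nd (nat_lit 78) (nat_lit 0) (nat_lit 0) (XT.lf (nat_lit 0) (nat_lit 1000996479483) (nat_lit 152) (nat_lit 358037448531) (nat_lit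 0) (nat_lit 964273729326) (nat_lit 2) (nat_lit 5) (nat_lit 4) (nat_lit 4) (nat_lit 2) (nat_lit 4) (nat_lit 505) (nat_lit 418) (nat_lit 277)) (XT.nd (nat_lit 78) (nat_lit 0) (nat_lit 0) (XT.lf (nat_lit 0) (nat_lit 1162731332298) (nat_lit 152) (nat_lit 213662581102) (nat_lit 0) (nat_lit 1126008529435) (nat_lit 2) (nat_lit 5) (nat_lit 4) (nat_lit 4) (nat_lit 2) (nat_lit 4) (nat_lit 506) (nat_lit 418) (nat_lit 276)) (XT.lf (nat_lit 0) (nat_lit 1337404739521) (nat_lit 152) (nat_lit 57738202503) (nat_lit 0) (nat_lit 1300681887856) (nat_lit 2) (nat_lit 5) (nat_lit 4) (nat_lit 4) (nat_lit 2) (nat_lit 4) (nat_lit 507) (nat_lit 418) (nat_lit 275))))))) (XT.nd (nat_lit 858) (nat_lit 0) (nat_lit 0) (XT.nd (nat_lit 390) (nat_lit 0) (nat_lit 0) (XT.nd (nat_lit 156) (nat_lit 0) (nat_lit 0) (XT.nd (nat_lit 78) (nat_lit 0) (nat_lit 0) (XT.lf (nat_lit 0) (nat_lit 116486826416) (nat_lit 76) (nat_lit 1412366487387)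 (nat_lit 76) (nat_lit 1375643590535) (nat_lit 1) (nat_lit 4) (nat_lit 2) (nat_lit 5) (nat_lit 2) (nat_lit 4) (nat_lit 508) (nat_lit 418) (nat_lit 274)) (XT.lf (nat_lit 0) (nat_lit 307933048796) (nat_lit 76) (nat_lit 1429263179169) (nat_lit 76) (nat_lit 1392540240477) (nat_lit 1) (nat_lit 4) (nat_lit 2) (nat_lit 5) (nat_lit 2) (nat_lit 4) (nat_lit 509) (nat_lit 418) (nat_lit 273))) (XT.nd (nat_lit 78) (nat_lit 0) (nat_lit 0) (XT.lf (nat_lit 0) (nat_lit 514694569347) (nat_lit 76) (nat_lit 1447511810691) (nat_lit 76) (nat_lit 1410788833259) (nat_lit 1) (nat_lit 4) (nat_lit 2) (nat_lit 5) (nat_lit 2) (nat_lit 4) (nat_lit 510) (nat_lit 418) (nat_lit 272)) (XT.nd (nat_lit 78) (nat_lit 0) (nat_lit 0) (XT.lf (nat_lit 0) (nat_lit 737996641523) (nat_lit 76) (nat_lit 1467220521993) (nat_lit 76) (nat_lit 1430497508690) (nat_lit 1) (nat_lit 4) (nat_lit 2) (nat_lit 5) (nat_lit 2) (nat_lit 4) (nat_lit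 511) (nat_lit 418) (nat_lit 271)) (XT.lf (nat_lit 0) (nat_lit 979162536864) (nat_lit 76) (nat_lit 1488506105438) (nat_lit 76) (nat_lit 1451783058921) (nat_lit 1) (nat_lit 4) (nat_lit 2) (nat_lit 5) (nat_lit 2) (nat_lit 4) (nat_lit 512) (nat_lit 418) (nat_lit 270))))) (XT.nd (nat_lit 234) (nat_lit 0) (nat_lit 0) (XT.nd (nat_lit 78) (nat_lit 0) (nat_lit 0) (XT.lf (nat_lit 0) (nat_lit 1239621386601) (nat_lit 76) (nat_lit 1511494697816) (nat_lit 76) (nat_lit 1474771620546) (nat_lit 1) (nat_lit 4) (nat_lit 2) (nat_lit 5) (nat_lit 2) (nat_lit 4) (nat_lit 513) (nat_lit 418) (nat_lit 269)) (XT.nd (nat_lit 78) (nat_lit 0) (nat_lit 0) (XT.lf (nat_lit 0) (nat_lit 1520916650585) (nat_lit 76) (nat_lit 1536322527823) (nat_lit 76) (nat_lit 1499599422077) (nat_lit 1) (nat_lit 4) (nat_lit 2) (nat_lit 5) (nat_lit 2) (nat_lit 4) (nat_lit 514) (nat_lit 418) (nat_lit 268)) (XT.lf (nat_lit 0) (nat_lit 1824715263712)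 (nat_lit 76) (nat_lit 1563136723341) (nat_lit 76) (nat_lit 1526413591229) (nat_lit 1) (nat_lit 4) (nat_lit 2) (nat_lit 5) (nat_lit 2) (nat_lit 4) (nat_lit 515) (nat_lit 418) (nat_lit 267)))) (XT.nd (nat_lit 78) (nat_lit 0) (nat_lit 0) (XT.lf (nat_lit 0) (nat_lit 2152817514061) (nat_lit 76) (nat_lit 1592096183306) (nat_lit 76) (nat_lit 1555373026781) (nat_lit 1) (nat_lit 4) (nat_lit 2) (nat_lit 5) (nat_lit 2) (nat_lit 4) (nat_lit 516) (nat_lit 418) (nat_lit 266)) (XT.nd (nat_lit 78) (nat_lit 0) (nat_lit 0) (XT.lf (nat_lit 0) (nat_lit 2507167711264) (nat_lit 76) (nat_lit 1623372519332) (nat_lit 76) (nat_lit 1586649340202) (nat_lit 1) (nat_lit 4) (nat_lit 2) (nat_lit 5) (nat_lit 2) (nat_lit 4) (nat_lit 517) (nat_lit 418) (nat_lit 265)) (XT.lf (nat_lit 0) (nat_lit 2889865708341) (nat_lit 76) (nat_lit 1657151072670) (nat_lit 76) (nat_lit 1620427872611) (nat_lit 1) (nat_lit 4) (nat_lit 2) (nat_lit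 5) (nat_lit 2) (nat_lit 4) (nat_lit 518) (nat_lit 418) (nat_lit 264)))))) (XT.nd (nat_lit 468) (nat_lit 0) (nat_lit 0) (XT.nd (nat_lit 234) (nat_lit 0) (nat_lit 0) (XT.nd (nat_lit 78) (nat_lit 0) (nat_lit 0) (XT.lf (nat_lit 0) (nat_lit 3303179345274) (nat_lit 76) (nat_lit 1693632012526) (nat_lit 76) (nat_lit 1656908793086) (nat_lit 1) (nat_lit 4) (nat_lit 2) (nat_lit 5) (nat_lit 2) (nat_lit 4) (nat_lit 519) (nat_lit 418) (nat_lit 263)) (XT.nd (nat_lit 78) (nat_lit 0) (nat_lit 0) (XT.lf (nat_lit 0) (nat_lit 3749557888061) (nat_lit 76) (nat_lit 1733031522246) (nat_lit 76) (nat_lit 1696308284862) (nat_lit 1) (nat_lit 4) (nat_lit 2) (nat_lit 5) (nat_lit 2) (nat_lit 4) (nat_lit 520) (nat_lit 418) (nat_lit 262)) (XT.lf (nat_lit 0) (nat_lit 4231646542881) (nat_lit 76) (nat_lit 1775583080406) (nat_lit 76) (nat_lit 1738859826407) (nat_lit 1) (nat_lit 4) (nat_lit 2) (nat_lit 5) (nat_lit 2) (nat_lit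 4) (nat_lit 521) (nat_lit 418) (nat_lit 261)))) (XT.nd (nat_lit 78) (nat_lit 0) (nat_lit 0) (XT.lf (nat_lit 0) (nat_lit 4752302131391) (nat_lit 76) (nat_lit 1821538844389) (nat_lit 76) (nat_lit 1784815575005) (nat_lit 1) (nat_lit 4) (nat_lit 2) (nat_lit 5) (nat_lit 2) (nat_lit 4) (nat_lit 522) (nat_lit 418) (nat_lit 260)) (XT.nd (nat_lit 78) (nat_lit 0) (nat_lit 0) (XT.lf (nat_lit 0) (nat_lit 5314610020044) (nat_lit 76) (nat_lit 1871171144647) (nat_lit 76) (nat_lit 1834447861019) (nat_lit 1) (nat_lit 4) (nat_lit 2) (nat_lit 5) (nat_lit 2) (nat_lit 4) (nat_lit 523) (nat_lit 418) (nat_lit 259)) (XT.lf (nat_lit 0) (nat_lit 5921902403733) (nat_lit 76) (nat_lit 1924774098515) (nat_lit 76) (nat_lit 1888050801697) (nat_lit 1) (nat_lit 4) (nat_lit 2) (nat_lit 5) (nat_lit 2) (nat_lit 4) (nat_lit 524) (nat_lit 418) (nat_lit 258))))) (XT.nd (nat_lit 54288) (nat_lit 0) (nat_lit 5168) (XT.nd (nat_lit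 78) (nat_lit 0) (nat_lit 0) (XT.lf (nat_lit 0) (nat_lit 6577778052140) (nat_lit 76) (nat_lit 1982665353128) (nat_lit 76) (nat_lit 1945942044097) (nat_lit 1) (nat_lit 4) (nat_lit 2) (nat_lit 5) (nat_lit 2) (nat_lit 4) (nat_lit 525) (nat_lit 418) (nat_lit 257)) (XT.nd (nat_lit 54132) (nat_lit 0) (nat_lit 5168) (XT.lf (nat_lit 0) (nat_lit 7286123635775) (nat_lit 76) (nat_lit 2045187967772) (nat_lit 76) (nat_lit 2008464647433) (nat_lit 1) (nat_lit 4) (nat_lit 2) (nat_lit 5) (nat_lit 2) (nat_lit 4) (nat_lit 526) (nat_lit 418) (nat_lit 256)) (XT.lf (nat_lit 0) (nat_lit 7166396070) (nat_lit 532) (nat_lit 837468439) (nat_lit 532) (nat_lit 837468439) (nat_lit 69) (nat_lit 3) (nat_lit 76) (nat_lit 3) (nat_lit 76) (nat_lit 5) (nat_lit 419) (nat_lit 419) (nat_lit 362)))) (XT.nd (nat_lit 78) (nat_lit 0) (nat_lit 76) (XT.lf (nat_lit 76) (nat_lit 7358847252) (nat_lit 0) (nat_lit 7923822801) (nat_lit 532)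 (nat_lit 3077042911) (nat_lit 70) (nat_lit 5) (nat_lit 69) (nat_lit 3) (nat_lit 76) (nat_lit 5) (nat_lit 420) (nat_lit 419) (nat_lit 361)) (XT.nd (nat_lit 78) (nat_lit 0) (nat_lit 0) (XT.lf (nat_lit 0) (nat_lit 16354899224) (nat_lit 456) (nat_lit 1910467920) (nat_lit 532) (nat_lit 821861202) (nat_lit 70) (nat_lit 5) (nat_lit 76) (nat_lit 5) (nat_lit 77) (nat_lit 5) (nat_lit 421) (nat_lit 419) (nat_lit 360)) (XT.lf (nat_lit 76) (nat_lit 8094017658) (nat_lit 0) (nat_lit 9800819822) (nat_lit 532) (nat_lit 1947565457) (nat_lit 71) (nat_lit 5) (nat_lit 70) (nat_lit 5) (nat_lit 77) (nat_lit 5) (nat_lit 422) (nat_lit 419) (nat_lit 359))))))))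
noncomputable def xc143 : XT := (XT.nd (nat_lit 1794) (nat_lit 1368) (nat_lit 0) (XT.nd (nat_lit 858) (nat_lit 1216) (nat_lit 0) (XT.nd (nat_lit 390) (nat_lit 684) (nat_lit 0) (XT.nd (nat_lit 156) (nat_lit 380) (nat_lit 0) (XT.nd (nat_lit 78) (nat_lit 456) (nat_lit 0) (XT.lf (nat_lit 76) (nat_lit 18995595603) (nat_lit 0) (nat_lit 597153675) (nat_lit 532) (nat_lit 1062471457) (nat_lit 71) (nat_lit 5) (nat_lit 70) (nat_lit 5) (nat_lit 77) (nat_lit 5) (nat_lit 423) (nat_lit 419) (nat_lit 358)) (XT.lf (nat_lit 0) (nat_lit 346567026) (nat_lit 532) (nat_lit 12033974363) (nat_lit 608) (nat_lit 9116913010) (nat_lit 64) (nat_lit 5) (nat_lit 71) (nat_lit 5) (nat_lit 72) (nat_lit 5) (nat_lit 424) (nat_lit 419) (nat_lit 357))) (XT.nd (nat_lit 78) (nat_lit 380) (nat_lit 0) (XT.lf (nat_lit 0) (nat_lit 1857446488) (nat_lit 532) (nat_lit 889877700) (nat_lit 608) (nat_lit 19653822461) (nat_lit 64) (nat_lit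 5) (nat_lit 71) (nat_lit 5) (nat_lit 72) (nat_lit 5) (nat_lit 425) (nat_lit 419) (nat_lit 356)) (XT.nd (nat_lit 78) (nat_lit 456) (nat_lit 0) (XT.lf (nat_lit 0) (nat_lit 3948186151) (nat_lit 532) (nat_lit 11827246719) (nat_lit 76) (nat_lit 7564990688) (nat_lit 65) (nat_lit 5) (nat_lit 72) (nat_lit 5) (nat_lit 66) (nat_lit 5) (nat_lit 426) (nat_lit 419) (nat_lit 355)) (XT.lf (nat_lit 0) (nat_lit 548799160) (nat_lit 456) (nat_lit 5753341247) (nat_lit 532) (nat_lit 18045033616) (nat_lit 59) (nat_lit 5) (nat_lit 65) (nat_lit 5) (nat_lit 66) (nat_lit 5) (nat_lit 427) (nat_lit 419) (nat_lit 354))))) (XT.nd (nat_lit 234) (nat_lit 456) (nat_lit 0) (XT.nd (nat_lit 78) (nat_lit 228) (nat_lit 0) (XT.lf (nat_lit 0) (nat_lit 9285280976) (nat_lit 532) (nat_lit 10964954691) (nat_lit 76) (nat_lit 5148966520) (nat_lit 59) (nat_lit 5) (nat_lit 66) (nat_lit 5) (nat_lit 60) (nat_lit 5) (nat_lit 428) (nat_lit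 419) (nat_lit 353)) (XT.nd (nat_lit 78) (nat_lit 0) (nat_lit 0) (XT.lf (nat_lit 0) (nat_lit 2877059369) (nat_lit 228) (nat_lit 9836742892) (nat_lit 304) (nat_lit 13805058705) (nat_lit 56) (nat_lit 5) (nat_lit 59) (nat_lit 5) (nat_lit 60) (nat_lit 5) (nat_lit 429) (nat_lit 419) (nat_lit 352)) (XT.lf (nat_lit 0) (nat_lit 16746763345) (nat_lit 304) (nat_lit 9308915885) (nat_lit 76) (nat_lit 1646006792) (nat_lit 56) (nat_lit 5) (nat_lit 60) (nat_lit 5) (nat_lit 57) (nat_lit 5) (nat_lit 430) (nat_lit 419) (nat_lit 351)))) (XT.nd (nat_lit 78) (nat_lit 228) (nat_lit 0) (XT.lf (nat_lit 0) (nat_lit 6213776827) (nat_lit 228) (nat_lit 15283028865) (nat_lit 304) (nat_lit 7450781602) (nat_lit 53) (nat_lit 5) (nat_lit 56) (nat_lit 5) (nat_lit 57) (nat_lit 5) (nat_lit 431) (nat_lit 419) (nat_lit 350)) (XT.nd (nat_lit 78) (nat_lit 228) (nat_lit 0) (XT.lf (nat_lit 0) (nat_lit 23495836834) (nat_lit 228)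 (nat_lit 3375532382) (nat_lit 304) (nat_lit 3402235363) (nat_lit 53) (nat_lit 5) (nat_lit 56) (nat_lit 5) (nat_lit 57) (nat_lit 5) (nat_lit 432) (nat_lit 419) (nat_lit 349)) (XT.lf (nat_lit 0) (nat_lit 1411463297) (nat_lit 228) (nat_lit 20950373262) (nat_lit 76) (nat_lit 9302820463) (nat_lit 50) (nat_lit 5) (nat_lit 53) (nat_lit 5) (nat_lit 51) (nat_lit 5) (nat_lit 433) (nat_lit 419) (nat_lit 348)))))) (XT.nd (nat_lit 468) (nat_lit 608) (nat_lit 0) (XT.nd (nat_lit 234) (nat_lit 228) (nat_lit 0) (XT.nd (nat_lit 78) (nat_lit 380) (nat_lit 0) (XT.lf (nat_lit 0) (nat_lit 6695130110) (nat_lit 228) (nat_lit 3353740757) (nat_lit 76) (nat_lit 23089562940) (nat_lit 50) (nat_lit 5) (nat_lit 53) (nat_lit 5) (nat_lit 51) (nat_lit 5) (nat_lit 434) (nat_lit 419) (nat_lit 347)) (XT.nd (nat_lit 78) (nat_lit 152) (nat_lit 0) (XT.lf (nat_lit 0) (nat_lit 12877346492) (nat_lit 304) (nat_lit 18324295276) (nat_lit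 76) (nat_lit 3490406391) (nat_lit 47) (nat_lit 5) (nat_lit 51) (nat_lit 5) (nat_lit 48) (nat_lit 5) (nat_lit 435) (nat_lit 419) (nat_lit 346)) (XT.lf (nat_lit 0) (nat_lit 1284653167) (nat_lit 152) (nat_lit 18647327891) (nat_lit 228) (nat_lit 16407746962) (nat_lit 45) (nat_lit 5) (nat_lit 47) (nat_lit 5) (nat_lit 48) (nat_lit 5) (nat_lit 436) (nat_lit 419) (nat_lit 345)))) (XT.nd (nat_lit 78) (nat_lit 228) (nat_lit 0) (XT.lf (nat_lit 0) (nat_lit 23493423105) (nat_lit 152) (nat_lit 4550776696) (nat_lit 228) (nat_lit 10035568758) (nat_lit 45) (nat_lit 5) (nat_lit 47) (nat_lit 5) (nat_lit 48) (nat_lit 5) (nat_lit 437) (nat_lit 419) (nat_lit 344)) (XT.nd (nat_lit 78) (nat_lit 76) (nat_lit 0) (XT.lf (nat_lit 0) (nat_lit 7634379652) (nat_lit 152) (nat_lit 29604022741) (nat_lit 228) (nat_lit 2685972552) (nat_lit 43) (nat_lit 5) (nat_lit 45) (nat_lit 5) (nat_lit 46) (nat_lit 5) (nat_lit 438) (nat_lit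 419) (nat_lit 343)) (XT.lf (nat_lit 0) (nat_lit 5509069168) (nat_lit 228) (nat_lit 9688022866) (nat_lit 76) (nat_lit 26667741710) (nat_lit 42) (nat_lit 5) (nat_lit 45) (nat_lit 5) (nat_lit 43) (nat_lit 5) (nat_lit 439) (nat_lit 419) (nat_lit 342))))) (XT.nd (nat_lit 234) (nat_lit 304) (nat_lit 0) (XT.nd (nat_lit 78) (nat_lit 152) (nat_lit 0) (XT.lf (nat_lit 0) (nat_lit 14598708197) (nat_lit 228) (nat_lit 28532538998) (nat_lit 76) (nat_lit 792974782) (nat_lit 40) (nat_lit 5) (nat_lit 43) (nat_lit 5) (nat_lit 41) (nat_lit 5) (nat_lit 440) (nat_lit 419) (nat_lit 341)) (XT.nd (nat_lit 78) (nat_lit 152) (nat_lit 0) (XT.lf (nat_lit 0) (nat_lit 25075532859) (nat_lit 228) (nat_lit 3510244868) (nat_lit 76) (nat_lit 17509784667) (nat_lit 40) (nat_lit 5) (nat_lit 43) (nat_lit 5) (nat_lit 41) (nat_lit 5) (nat_lit 441) (nat_lit 419) (nat_lit 340)) (XT.lf (nat_lit 0) (nat_lit 24742091203) (nat_lit 152)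 (nat_lit 12237457342) (nat_lit 228) (nat_lit 11413940015) (nat_lit 38) (nat_lit 5) (nat_lit 40) (nat_lit 5) (nat_lit 41) (nat_lit 5) (nat_lit 442) (nat_lit 419) (nat_lit 339)))) (XT.nd (nat_lit 78) (nat_lit 228) (nat_lit 0) (XT.lf (nat_lit 0) (nat_lit 4678304278) (nat_lit 76) (nat_lit 45493022489) (nat_lit 152) (nat_lit 677088712) (nat_lit 37) (nat_lit 5) (nat_lit 38) (nat_lit 5) (nat_lit 39) (nat_lit 4) (nat_lit 443) (nat_lit 419) (nat_lit 338)) (XT.nd (nat_lit 78) (nat_lit 152) (nat_lit 0) (XT.lf (nat_lit 0) (nat_lit 11348035564) (nat_lit 152) (nat_lit 17435441521) (nat_lit 76) (nat_lit 24617211686) (nat_lit 36) (nat_lit 5) (nat_lit 38) (nat_lit 5) (nat_lit 37) (nat_lit 5) (nat_lit 444) (nat_lit 419) (nat_lit 337)) (XT.lf (nat_lit 0) (nat_lit 14286131183) (nat_lit 152) (nat_lit 10350668905) (nat_lit 228) (nat_lit 31491881604) (nat_lit 34) (nat_lit 5) (nat_lit 36) (nat_lit 5) (nat_lit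 37) (nat_lit 5) (nat_lit 445) (nat_lit 419) (nat_lit 336))))))) (XT.nd (nat_lit 858) (nat_lit 608) (nat_lit 0) (XT.nd (nat_lit 390) (nat_lit 380) (nat_lit 0) (XT.nd (nat_lit 156) (nat_lit 304) (nat_lit 0) (XT.nd (nat_lit 78) (nat_lit 76) (nat_lit 0) (XT.lf (nat_lit 0) (nat_lit 39702336821) (nat_lit 228) (nat_lit 9751039769) (nat_lit 76) (nat_lit 9564445216) (nat_lit 34) (nat_lit 5) (nat_lit 37) (nat_lit 5) (nat_lit 35) (nat_lit 4) (nat_lit 446) (nat_lit 419) (nat_lit 335)) (XT.lf (nat_lit 0) (nat_lit 25927576142) (nat_lit 76) (nat_lit 30933070445) (nat_lit 152) (nat_lit 5206445468) (nat_lit 33) (nat_lit 5) (nat_lit 34) (nat_lit 5) (nat_lit 35) (nat_lit 4) (nat_lit 447) (nat_lit 419) (nat_lit 334))) (XT.nd (nat_lit 78) (nat_lit 228) (nat_lit 0) (XT.lf (nat_lit 0) (nat_lit 9798210002) (nat_lit 152) (nat_lit 580535254) (nat_lit 76) (nat_lit 54940763547) (nat_lit 32) (nat_lit 5) (nat_lit 34)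 (nat_lit 5) (nat_lit 33) (nat_lit 5) (nat_lit 448) (nat_lit 419) (nat_lit 333)) (XT.nd (nat_lit 78) (nat_lit 76) (nat_lit 0) (XT.lf (nat_lit 0) (nat_lit 26983884404) (nat_lit 228) (nat_lit 29393514281) (nat_lit 76) (nat_lit 12342948295) (nat_lit 30) (nat_lit 5) (nat_lit 33) (nat_lit 5) (nat_lit 31) (nat_lit 4) (nat_lit 449) (nat_lit 419) (nat_lit 332)) (XT.lf (nat_lit 0) (nat_lit 10305494003) (nat_lit 76) (nat_lit 35768222074) (nat_lit 152) (nat_lit 26277192851) (nat_lit 29) (nat_lit 5) (nat_lit 30) (nat_lit 5) (nat_lit 31) (nat_lit 4) (nat_lit 450) (nat_lit 419) (nat_lit 331))))) (XT.nd (nat_lit 234) (nat_lit 228) (nat_lit 0) (XT.nd (nat_lit 78) (nat_lit 152) (nat_lit 0) (XT.lf (nat_lit 0) (nat_lit 54844395458) (nat_lit 76) (nat_lit 12645744749) (nat_lit 152) (nat_lit 8717824058) (nat_lit 29) (nat_lit 5) (nat_lit 30) (nat_lit 5) (nat_lit 31) (nat_lit 4) (nat_lit 451) (nat_lit 419) (nat_lit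 330)) (XT.nd (nat_lit 78) (nat_lit 0) (nat_lit 0) (XT.lf (nat_lit 0) (nat_lit 10612173126) (nat_lit 152) (nat_lit 57132067933) (nat_lit 76) (nat_lit 12539354658) (nat_lit 27) (nat_lit 5) (nat_lit 29) (nat_lit 5) (nat_lit 28) (nat_lit 4) (nat_lit 452) (nat_lit 419) (nat_lit 329)) (XT.lf (nat_lit 0) (nat_lit 31941331328) (nat_lit 152) (nat_lit 12773182679) (nat_lit 76) (nat_lit 39878749426) (nat_lit 27) (nat_lit 5) (nat_lit 29) (nat_lit 5) (nat_lit 28) (nat_lit 4) (nat_lit 453) (nat_lit 419) (nat_lit 328)))) (XT.nd (nat_lit 78) (nat_lit 152) (nat_lit 0) (XT.lf (nat_lit 0) (nat_lit 36977353887) (nat_lit 76) (nat_lit 18885070433) (nat_lit 152) (nat_lit 33314432742) (nat_lit 26) (nat_lit 5) (nat_lit 27) (nat_lit 5) (nat_lit 28) (nat_lit 4) (nat_lit 454) (nat_lit 419) (nat_lit 327)) (XT.nd (nat_lit 78) (nat_lit 152) (nat_lit 0) (XT.lf (nat_lit 0) (nat_lit 82268562667) (nat_lit 152) (nat_lit 2897480979)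 (nat_lit 0) (nat_lit 8915386523) (nat_lit 26) (nat_lit 5) (nat_lit 28) (nat_lit 4) (nat_lit 26) (nat_lit 4) (nat_lit 455) (nat_lit 419) (nat_lit 326)) (XT.lf (nat_lit 0) (nat_lit 12632742025) (nat_lit 152) (nat_lit 47081309300) (nat_lit 76) (nat_lit 39498796962) (nat_lit 24) (nat_lit 5) (nat_lit 26) (nat_lit 5) (nat_lit 25) (nat_lit 4) (nat_lit 456) (nat_lit 419) (nat_lit 325)))))) (XT.nd (nat_lit 468) (nat_lit 304) (nat_lit 0) (XT.nd (nat_lit 234) (nat_lit 152) (nat_lit 0) (XT.nd (nat_lit 78) (nat_lit 76) (nat_lit 0) (XT.lf (nat_lit 0) (nat_lit 7014880365) (nat_lit 76) (nat_lit 31627531090) (nat_lit 152) (nat_lit 66068093648) (nat_lit 23) (nat_lit 5) (nat_lit 24) (nat_lit 5) (nat_lit 25) (nat_lit 4) (nat_lit 457) (nat_lit 419) (nat_lit 324)) (XT.nd (nat_lit 78) (nat_lit 76) (nat_lit 0) (XT.lf (nat_lit 0) (nat_lit 68019109028) (nat_lit 152) (nat_lit 42437382090) (nat_lit 0) (nat_lit 88583435)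 (nat_lit 23) (nat_lit 5) (nat_lit 25) (nat_lit 4) (nat_lit 23) (nat_lit 4) (nat_lit 458) (nat_lit 419) (nat_lit 323)) (XT.lf (nat_lit 0) (nat_lit 17278438705) (nat_lit 76) (nat_lit 83701447677) (nat_lit 76) (nat_lit 15767808079) (nat_lit 22) (nat_lit 4) (nat_lit 23) (nat_lit 5) (nat_lit 23) (nat_lit 4) (nat_lit 459) (nat_lit 419) (nat_lit 322)))) (XT.nd (nat_lit 78) (nat_lit 76) (nat_lit 0) (XT.lf (nat_lit 0) (nat_lit 13661502180) (nat_lit 152) (nat_lit 39520598401) (nat_lit 76) (nat_lit 70144170378) (nat_lit 21) (nat_lit 5) (nat_lit 23) (nat_lit 5) (nat_lit 22) (nat_lit 4) (nat_lit 460) (nat_lit 419) (nat_lit 321)) (XT.nd (nat_lit 78) (nat_lit 0) (nat_lit 0) (XT.lf (nat_lit 0) (nat_lit 26115293358) (nat_lit 76) (nat_lit 19103209551) (nat_lit 152) (nat_lit 85129849379) (nat_lit 20) (nat_lit 5) (nat_lit 21) (nat_lit 5) (nat_lit 22) (nat_lit 4) (nat_lit 461) (nat_lit 419) (nat_lit 320)) (XT.lf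 (nat_lit 0) (nat_lit 80831590806) (nat_lit 152) (nat_lit 39055445442) (nat_lit 0) (nat_lit 17922642017) (nat_lit 20) (nat_lit 5) (nat_lit 22) (nat_lit 4) (nat_lit 20) (nat_lit 4) (nat_lit 462) (nat_lit 419) (nat_lit 319))))) (XT.nd (nat_lit 234) (nat_lit 76) (nat_lit 0) (XT.nd (nat_lit 78) (nat_lit 152) (nat_lit 0) (XT.lf (nat_lit 0) (nat_lit 32458800959) (nat_lit 76) (nat_lit 88109121037) (nat_lit 76) (nat_lit 25198052908) (nat_lit 19) (nat_lit 4) (nat_lit 20) (nat_lit 5) (nat_lit 20) (nat_lit 4) (nat_lit 463) (nat_lit 419) (nat_lit 318)) (XT.nd (nat_lit 78) (nat_lit 76) (nat_lit 0) (XT.lf (nat_lit 0) (nat_lit 9760909352) (nat_lit 152) (nat_lit 42610339027) (nat_lit 76) (nat_lit 101882534720) (nat_lit 18) (nat_lit 5) (nat_lit 20) (nat_lit 5) (nat_lit 19) (nat_lit 4) (nat_lit 464) (nat_lit 419) (nat_lit 317)) (XT.lf (nat_lit 0) (nat_lit 34825101223) (nat_lit 76) (nat_lit 12165258726) (nat_lit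 152) (nat_lit 116311086981) (nat_lit 17) (nat_lit 5) (nat_lit 18) (nat_lit 5) (nat_lit 19) (nat_lit 4) (nat_lit 465) (nat_lit 419) (nat_lit 316)))) (XT.nd (nat_lit 78) (nat_lit 76) (nat_lit 0) (XT.lf (nat_lit 0) (nat_lit 89142796456) (nat_lit 152) (nat_lit 52887806953) (nat_lit 0) (nat_lit 30886750278) (nat_lit 17) (nat_lit 5) (nat_lit 19) (nat_lit 4) (nat_lit 17) (nat_lit 4) (nat_lit 466) (nat_lit 419) (nat_lit 315)) (XT.nd (nat_lit 78) (nat_lit 0) (nat_lit 0) (XT.lf (nat_lit 0) (nat_lit 29924371094) (nat_lit 76) (nat_lit 105776488076) (nat_lit 76) (nat_lit 47518999510) (nat_lit 16) (nat_lit 4) (nat_lit 17) (nat_lit 5) (nat_lit 17) (nat_lit 4) (nat_lit 467) (nat_lit 419) (nat_lit 314)) (XT.lf (nat_lit 0) (nat_lit 122365009958) (nat_lit 76) (nat_lit 65062434114) (nat_lit 76) (nat_lit 6803610005) (nat_lit 16) (nat_lit 4) (nat_lit 17) (nat_lit 5) (nat_lit 17) (nat_lit 4) (nat_lit 468) (nat_lit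 419) (nat_lit 313))))))))
noncomputable def xc144 : XT := (XT.nd (nat_lit 1716) (nat_lit 304) (nat_lit 0) (XT.nd (nat_lit 858) (nat_lit 304) (nat_lit 0) (XT.nd (nat_lit 390) (nat_lit 304) (nat_lit 0) (XT.nd (nat_lit 156) (nat_lit 76) (nat_lit 0) (XT.nd (nat_lit 78) (nat_lit 0) (nat_lit 0) (XT.lf (nat_lit 0) (nat_lit 15979097624) (nat_lit 76) (nat_lit 19712805427) (nat_lit 152) (nat_lit 170329150014) (nat_lit 14) (nat_lit 5) (nat_lit 15) (nat_lit 5) (nat_lit 16) (nat_lit 4) (nat_lit 469) (nat_lit 419) (nat_lit 312)) (XT.lf (nat_lit 0) (nat_lit 83937235711) (nat_lit 152) (nat_lit 104593784174) (nat_lit 0) (nat_lit 29991674843) (nat_lit 14) (nat_lit 5) (nat_lit 16) (nat_lit 4) (nat_lit 14) (nat_lit 4) (nat_lit 470) (nat_lit 419) (nat_lit 311))) (XT.nd (nat_lit 78) (nat_lit 76) (nat_lit 0) (XT.lf (nat_lit 0) (nat_lit 136552316541) (nat_lit 152) (nat_lit 12825567581) (nat_lit 0) (nat_lit 82605774009)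 (nat_lit 14) (nat_lit 5) (nat_lit 16) (nat_lit 4) (nat_lit 14) (nat_lit 4) (nat_lit 471) (nat_lit 419) (nat_lit 310)) (XT.nd (nat_lit 78) (nat_lit 0) (nat_lit 0) (XT.lf (nat_lit 0) (nat_lit 90823982898) (nat_lit 76) (nat_lit 104735181244) (nat_lit 76) (nat_lit 50787729764) (nat_lit 13) (nat_lit 4) (nat_lit 14) (nat_lit 5) (nat_lit 14) (nat_lit 4) (nat_lit 472) (nat_lit 419) (nat_lit 309)) (XT.lf (nat_lit 0) (nat_lit 203491480688) (nat_lit 76) (nat_lit 56144042008) (nat_lit 76) (nat_lit 2195748909) (nat_lit 13) (nat_lit 4) (nat_lit 14) (nat_lit 5) (nat_lit 14) (nat_lit 4) (nat_lit 473) (nat_lit 419) (nat_lit 308))))) (XT.nd (nat_lit 234) (nat_lit 152) (nat_lit 0) (XT.nd (nat_lit 78) (nat_lit 0) (nat_lit 0) (XT.lf (nat_lit 0) (nat_lit 47796374868) (nat_lit 76) (nat_lit 1119705537) (nat_lit 152) (nat_lit 229449743179) (nat_lit 11) (nat_lit 5) (nat_lit 12) (nat_lit 5) (nat_lit 13) (nat_lit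 4) (nat_lit 474) (nat_lit 419) (nat_lit 307)) (XT.nd (nat_lit 78) (nat_lit 0) (nat_lit 0) (XT.lf (nat_lit 0) (nat_lit 107035428851) (nat_lit 152) (nat_lit 131858256391) (nat_lit 0) (nat_lit 57081915955) (nat_lit 11) (nat_lit 5) (nat_lit 13) (nat_lit 4) (nat_lit 11) (nat_lit 4) (nat_lit 475) (nat_lit 419) (nat_lit 306)) (XT.lf (nat_lit 0) (nat_lit 169831909243) (nat_lit 152) (nat_lit 25282267402) (nat_lit 0) (nat_lit 119877777732) (nat_lit 11) (nat_lit 5) (nat_lit 13) (nat_lit 4) (nat_lit 11) (nat_lit 4) (nat_lit 476) (nat_lit 419) (nat_lit 305)))) (XT.nd (nat_lit 78) (nat_lit 76) (nat_lit 0) (XT.lf (nat_lit 0) (nat_lit 94546613115) (nat_lit 76) (nat_lit 145377955131) (nat_lit 76) (nat_lit 95423250828) (nat_lit 10) (nat_lit 4) (nat_lit 11) (nat_lit 5) (nat_lit 11) (nat_lit 4) (nat_lit 477) (nat_lit 419) (nat_lit 304)) (XT.nd (nat_lit 78) (nat_lit 76) (nat_lit 0) (XT.lf (nat_lit 0) (nat_lit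 225396907617) (nat_lit 76) (nat_lit 90917643585) (nat_lit 76) (nat_lit 40962408919) (nat_lit 10) (nat_lit 4) (nat_lit 11) (nat_lit 5) (nat_lit 11) (nat_lit 4) (nat_lit 478) (nat_lit 419) (nat_lit 303)) (XT.lf (nat_lit 0) (nat_lit 16960822648) (nat_lit 152) (nat_lit 14677214633) (nat_lit 76) (nat_lit 349288144260) (nat_lit 9) (nat_lit 5) (nat_lit 11) (nat_lit 5) (nat_lit 10) (nat_lit 4) (nat_lit 479) (nat_lit 419) (nat_lit 302)))))) (XT.nd (nat_lit 390) (nat_lit 152) (nat_lit 0) (XT.nd (nat_lit 156) (nat_lit 76) (nat_lit 0) (XT.nd (nat_lit 78) (nat_lit 0) (nat_lit 0) (XT.lf (nat_lit 0) (nat_lit 80988975273) (nat_lit 152) (nat_lit 290365268400) (nat_lit 0) (nat_lit 34733252640) (nat_lit 8) (nat_lit 5) (nat_lit 10) (nat_lit 4) (nat_lit 8) (nat_lit 4) (nat_lit 480) (nat_lit 419) (nat_lit 301)) (XT.lf (nat_lit 0) (nat_lit 151371687076) (nat_lit 152) (nat_lit 176675870074) (nat_lit 0) (nat_lit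 105115574611) (nat_lit 8) (nat_lit 5) (nat_lit 10) (nat_lit 4) (nat_lit 8) (nat_lit 4) (nat_lit 481) (nat_lit 419) (nat_lit 300))) (XT.nd (nat_lit 78) (nat_lit 76) (nat_lit 0) (XT.lf (nat_lit 0) (nat_lit 227383918883) (nat_lit 152) (nat_lit 53893541503) (nat_lit 0) (nat_lit 181127445462) (nat_lit 8) (nat_lit 5) (nat_lit 10) (nat_lit 4) (nat_lit 8) (nat_lit 4) (nat_lit 482) (nat_lit 419) (nat_lit 299)) (XT.nd (nat_lit 78) (nat_lit 0) (nat_lit 0) (XT.lf (nat_lit 0) (nat_lit 82854009408) (nat_lit 76) (nat_lit 228614745060) (nat_lit 76) (nat_lit 182357937420) (nat_lit 7) (nat_lit 4) (nat_lit 8) (nat_lit 5) (nat_lit 8) (nat_lit 4) (nat_lit 483) (nat_lit 419) (nat_lit 298)) (XT.lf (nat_lit 0) (nat_lit 233604332872) (nat_lit 76) (nat_lit 170148600292) (nat_lit 76) (nat_lit 123891483190) (nat_lit 7) (nat_lit 4) (nat_lit 8) (nat_lit 5) (nat_lit 8) (nat_lit 4) (nat_lit 484) (nat_lit 419) (nat_lit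 297))))) (XT.nd (nat_lit 234) (nat_lit 0) (nat_lit 0) (XT.nd (nat_lit 78) (nat_lit 152) (nat_lit 0) (XT.lf (nat_lit 0) (nat_lit 396412825750) (nat_lit 76) (nat_lit 107006104969) (nat_lit 76) (nat_lit 60748701330) (nat_lit 7) (nat_lit 4) (nat_lit 8) (nat_lit 5) (nat_lit 8) (nat_lit 4) (nat_lit 485) (nat_lit 419) (nat_lit 296)) (XT.nd (nat_lit 78) (nat_lit 76) (nat_lit 0) (XT.lf (nat_lit 0) (nat_lit 7072179185) (nat_lit 152) (nat_lit 31547536246) (nat_lit 76) (nat_lit 564978734014) (nat_lit 6) (nat_lit 5) (nat_lit 8) (nat_lit 5) (nat_lit 7) (nat_lit 4) (nat_lit 486) (nat_lit 419) (nat_lit 295)) (XT.lf (nat_lit 0) (nat_lit 80884782264) (nat_lit 152) (nat_lit 526811494298) (nat_lit 0) (nat_lit 38053379844) (nat_lit 5) (nat_lit 5) (nat_lit 7) (nat_lit 4) (nat_lit 5) (nat_lit 4) (nat_lit 487) (nat_lit 419) (nat_lit 294)))) (XT.nd (nat_lit 78) (nat_lit 0) (nat_lit 0) (XT.lf (nat_lit 0) (nat_lit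 162489669567) (nat_lit 152) (nat_lit 408974251773) (nat_lit 0) (nat_lit 119658056533) (nat_lit 5) (nat_lit 5) (nat_lit 7) (nat_lit 4) (nat_lit 5) (nat_lit 4) (nat_lit 488) (nat_lit 419) (nat_lit 293)) (XT.nd (nat_lit 78) (nat_lit 0) (nat_lit 0) (XT.lf (nat_lit 0) (nat_lit 250622204002) (nat_lit 152) (nat_lit 281711544636) (nat_lit 0) (nat_lit 207790395955) (nat_lit 5) (nat_lit 5) (nat_lit 7) (nat_lit 4) (nat_lit 5) (nat_lit 4) (nat_lit 489) (nat_lit 419) (nat_lit 292)) (XT.lf (nat_lit 0) (nat_lit 345804652440) (nat_lit 152) (nat_lit 144269223512) (nat_lit 0) (nat_lit 302972663824) (nat_lit 5) (nat_lit 5) (nat_lit 7) (nat_lit 4) (nat_lit 5) (nat_lit 4) (nat_lit 490) (nat_lit 419) (nat_lit 291))))))) (XT.nd (nat_lit 858) (nat_lit 76) (nat_lit 0) (XT.nd (nat_lit 390) (nat_lit 152) (nat_lit 0) (XT.nd (nat_lit 156) (nat_lit 0) (nat_lit 0) (XT.nd (nat_lit 78) (nat_lit 0) (nat_lit 0) (XT.lf (nat_lit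 0) (nat_lit 4386621170) (nat_lit 76) (nat_lit 444319936191) (nat_lit 76) (nat_lit 401487780384) (nat_lit 4) (nat_lit 4) (nat_lit 5) (nat_lit 5) (nat_lit 5) (nat_lit 4) (nat_lit 491) (nat_lit 419) (nat_lit 290)) (XT.lf (nat_lit 0) (nat_lit 173138386193) (nat_lit 76) (nat_lit 390646183786) (nat_lit 76) (nat_lit 347813873171) (nat_lit 4) (nat_lit 4) (nat_lit 5) (nat_lit 5) (nat_lit 5) (nat_lit 4) (nat_lit 492) (nat_lit 419) (nat_lit 289))) (XT.nd (nat_lit 78) (nat_lit 0) (nat_lit 0) (XT.lf (nat_lit 0) (nat_lit 355389120371) (nat_lit 76) (nat_lit 332679128294) (nat_lit 76) (nat_lit 289846674337) (nat_lit 4) (nat_lit 4) (nat_lit 5) (nat_lit 5) (nat_lit 5) (nat_lit 4) (nat_lit 493) (nat_lit 419) (nat_lit 288)) (XT.nd (nat_lit 78) (nat_lit 0) (nat_lit 0) (XT.lf (nat_lit 0) (nat_lit 552218828055) (nat_lit 76) (nat_lit 270075261236) (nat_lit 76) (nat_lit 227242674557) (nat_lit 4) (nat_lit 4) (nat_lit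 5) (nat_lit 5) (nat_lit 5) (nat_lit 4) (nat_lit 494) (nat_lit 419) (nat_lit 287)) (XT.lf (nat_lit 0) (nat_lit 764793907513) (nat_lit 76) (nat_lit 202463596735) (nat_lit 76) (nat_lit 159630887164) (nat_lit 4) (nat_lit 4) (nat_lit 5) (nat_lit 5) (nat_lit 5) (nat_lit 4) (nat_lit 495) (nat_lit 419) (nat_lit 286))))) (XT.nd (nat_lit 234) (nat_lit 0) (nat_lit 0) (XT.nd (nat_lit 78) (nat_lit 152) (nat_lit 0) (XT.lf (nat_lit 0) (nat_lit 994374062919) (nat_lit 76) (nat_lit 129443473074) (nat_lit 76) (nat_lit 86610649715) (nat_lit 4) (nat_lit 4) (nat_lit 5) (nat_lit 5) (nat_lit 5) (nat_lit 4) (nat_lit 496) (nat_lit 419) (nat_lit 285)) (XT.nd (nat_lit 78) (nat_lit 152) (nat_lit 0) (XT.lf (nat_lit 0) (nat_lit 1242319769269) (nat_lit 76) (nat_lit 50582178410) (nat_lit 76) (nat_lit 7749249692) (nat_lit 4) (nat_lit 4) (nat_lit 5) (nat_lit 5) (nat_lit 5) (nat_lit 4) (nat_lit 497) (nat_lit 419) (nat_lit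 284)) (XT.lf (nat_lit 0) (nat_lit 77288883978) (nat_lit 152) (nat_lit 1282726274325) (nat_lit 0) (nat_lit 37628674465) (nat_lit 2) (nat_lit 5) (nat_lit 4) (nat_lit 4) (nat_lit 2) (nat_lit 4) (nat_lit 498) (nat_lit 419) (nat_lit 283)))) (XT.nd (nat_lit 78) (nat_lit 0) (nat_lit 0) (XT.lf (nat_lit 0) (nat_lit 171661139866) (nat_lit 152) (nat_lit 1198481811504) (nat_lit 0) (nat_lit 132000846716) (nat_lit 2) (nat_lit 5) (nat_lit 4) (nat_lit 4) (nat_lit 2) (nat_lit 4) (nat_lit 499) (nat_lit 419) (nat_lit 282)) (XT.nd (nat_lit 78) (nat_lit 0) (nat_lit 0) (XT.lf (nat_lit 0) (nat_lit 273582805189) (nat_lit 152) (nat_lit 1107498550539) (nat_lit 0) (nat_lit 233922434596) (nat_lit 2) (nat_lit 5) (nat_lit 4) (nat_lit 4) (nat_lit 2) (nat_lit 4) (nat_lit 500) (nat_lit 419) (nat_lit 281)) (XT.lf (nat_lit 0) (nat_lit 383657860185) (nat_lit 152) (nat_lit 1009237331364) (nat_lit 0) (nat_lit 343997417886)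 (nat_lit 2) (nat_lit 5) (nat_lit 4) (nat_lit 4) (nat_lit 2) (nat_lit 4) (nat_lit 501) (nat_lit 419) (nat_lit 280)))))) (XT.nd (nat_lit 468) (nat_lit 76) (nat_lit 0) (XT.nd (nat_lit 234) (nat_lit 0) (nat_lit 0) (XT.nd (nat_lit 78) (nat_lit 0) (nat_lit 0) (XT.lf (nat_lit 0) (nat_lit 502538601476) (nat_lit 152) (nat_lit 903115865273) (nat_lit 0) (nat_lit 462878092783) (nat_lit 2) (nat_lit 5) (nat_lit 4) (nat_lit 4) (nat_lit 2) (nat_lit 4) (nat_lit 502) (nat_lit 419) (nat_lit 279)) (XT.nd (nat_lit 78) (nat_lit 0) (nat_lit 0) (XT.lf (nat_lit 0) (nat_lit 630929507530) (nat_lit 152) (nat_lit 788505284319) (nat_lit 0) (nat_lit 591268937360) (nat_lit 2) (nat_lit 5) (nat_lit 4) (nat_lit 4) (nat_lit 2) (nat_lit 4) (nat_lit 503) (nat_lit 419) (nat_lit 278)) (XT.lf (nat_lit 0) (nat_lit 769591413345) (nat_lit 152) (nat_lit 664726414688) (nat_lit 0) (nat_lit 729930786253) (nat_lit 2) (nat_lit 5) (nat_lit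 4) (nat_lit 4) (nat_lit 2) (nat_lit 4) (nat_lit 504) (nat_lit 419) (nat_lit 277)))) (XT.nd (nat_lit 78) (nat_lit 0) (nat_lit 0) (XT.lf (nat_lit 0) (nat_lit 919346019103) (nat_lit 152) (nat_lit 531045751968) (nat_lit 0) (nat_lit 879685339305) (nat_lit 2) (nat_lit 5) (nat_lit 4) (nat_lit 4) (nat_lit 2) (nat_lit 4) (nat_lit 505) (nat_lit 419) (nat_lit 276)) (XT.nd (nat_lit 78) (nat_lit 0) (nat_lit 0) (XT.lf (nat_lit 0) (nat_lit 1081080759506) (nat_lit 152) (nat_lit 386671114455) (nat_lit 0) (nat_lit 1041420030906) (nat_lit 2) (nat_lit 5) (nat_lit 4) (nat_lit 4) (nat_lit 2) (nat_lit 4) (nat_lit 506) (nat_lit 419) (nat_lit 275)) (XT.lf (nat_lit 0) (nat_lit 1255754062645) (nat_lit 152) (nat_lit 230746948740) (nat_lit 0) (nat_lit 1216093288858) (nat_lit 2) (nat_lit 5) (nat_lit 4) (nat_lit 4) (nat_lit 2) (nat_lit 4) (nat_lit 507) (nat_lit 419) (nat_lit 274))))) (XT.nd (nat_lit 234) (nat_lit 0)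 (nat_lit 0) (XT.nd (nat_lit 78) (nat_lit 76) (nat_lit 0) (XT.lf (nat_lit 0) (nat_lit 1444401029575) (nat_lit 152) (nat_lit 62349259767) (nat_lit 0) (nat_lit 1404740213948) (nat_lit 2) (nat_lit 5) (nat_lit 4) (nat_lit 4) (nat_lit 2) (nat_lit 4) (nat_lit 508) (nat_lit 419) (nat_lit 273)) (XT.nd (nat_lit 78) (nat_lit 0) (nat_lit 0) (XT.lf (nat_lit 0) (nat_lit 125813568960) (nat_lit 76) (nat_lit 1525351818647) (nat_lit 76) (nat_lit 1485690964280) (nat_lit 1) (nat_lit 4) (nat_lit 2) (nat_lit 5) (nat_lit 2) (nat_lit 4) (nat_lit 509) (nat_lit 419) (nat_lit 272)) (XT.lf (nat_lit 0) (nat_lit 332574911618) (nat_lit 76) (nat_lit 1543600541159) (nat_lit 76) (nat_lit 1503939650920) (nat_lit 1) (nat_lit 4) (nat_lit 2) (nat_lit 5) (nat_lit 2) (nat_lit 4) (nat_lit 510) (nat_lit 419) (nat_lit 271)))) (XT.nd (nat_lit 78) (nat_lit 0) (nat_lit 0) (XT.lf (nat_lit 0) (nat_lit 555876819078) (nat_lit 76) (nat_lit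 1563309336710) (nat_lit 76) (nat_lit 1523648413258) (nat_lit 1) (nat_lit 4) (nat_lit 2) (nat_lit 5) (nat_lit 2) (nat_lit 4) (nat_lit 511) (nat_lit 419) (nat_lit 270)) (XT.nd (nat_lit 78) (nat_lit 0) (nat_lit 0) (XT.lf (nat_lit 0) (nat_lit 797042561904) (nat_lit 76) (nat_lit 1584594998163) (nat_lit 76) (nat_lit 1544934043958) (nat_lit 1) (nat_lit 4) (nat_lit 2) (nat_lit 5) (nat_lit 2) (nat_lit 4) (nat_lit 512) (nat_lit 419) (nat_lit 269)) (XT.lf (nat_lit 0) (nat_lit 1057501270423) (nat_lit 76) (nat_lit 1607583662771) (nat_lit 76) (nat_lit 1567922680091) (nat_lit 1) (nat_lit 4) (nat_lit 2) (nat_lit 5) (nat_lit 2) (nat_lit 4) (nat_lit 513) (nat_lit 419) (nat_lit 268))))))))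
noncomputable def xc145 : XT := (XT.nd (nat_lit 55848) (nat_lit 0) (nat_lit 2128) (XT.nd (nat_lit 858) (nat_lit 0) (nat_lit 0) (XT.nd (nat_lit 390) (nat_lit 0) (nat_lit 0) (XT.nd (nat_lit 156) (nat_lit 0) (nat_lit 0) (XT.nd (nat_lit 78) (nat_lit 0) (nat_lit 0) (XT.lf (nat_lit 0) (nat_lit 1338796403650) (nat_lit 76) (nat_lit 1632411559658) (nat_lit 76) (nat_lit 1592750550611) (nat_lit 1) (nat_lit 4) (nat_lit 2) (nat_lit 5) (nat_lit 2) (nat_lit 4) (nat_lit 514) (nat_lit 419) (nat_lit 267)) (XT.lf (nat_lit 0) (nat_lit 1642594895706) (nat_lit 76) (nat_lit 1659225817102) (nat_lit 76) (nat_lit 1619564783642) (nat_lit 1) (nat_lit 4) (nat_lit 2) (nat_lit 5) (nat_lit 2) (nat_lit 4) (nat_lit 515) (nat_lit 419) (nat_lit 266))) (XT.nd (nat_lit 78) (nat_lit 0) (nat_lit 0) (XT.lf (nat_lit 0) (nat_lit 1970697033952) (nat_lit 76) (nat_lit 1688185334405) (nat_lit 76) (nat_lit 1648524278341) (nat_lit 1)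 (nat_lit 4) (nat_lit 2) (nat_lit 5) (nat_lit 2) (nat_lit 4) (nat_lit 516) (nat_lit 419) (nat_lit 265)) (XT.nd (nat_lit 78) (nat_lit 0) (nat_lit 0) (XT.lf (nat_lit 0) (nat_lit 2325047127355) (nat_lit 76) (nat_lit 1719461723523) (nat_lit 76) (nat_lit 1679800646528) (nat_lit 1) (nat_lit 4) (nat_lit 2) (nat_lit 5) (nat_lit 2) (nat_lit 4) (nat_lit 517) (nat_lit 419) (nat_lit 264)) (XT.lf (nat_lit 0) (nat_lit 2707745028322) (nat_lit 76) (nat_lit 1753240326020) (nat_lit 76) (nat_lit 1713579229645) (nat_lit 1) (nat_lit 4) (nat_lit 2) (nat_lit 5) (nat_lit 2) (nat_lit 4) (nat_lit 518) (nat_lit 419) (nat_lit 263))))) (XT.nd (nat_lit 234) (nat_lit 0) (nat_lit 0) (XT.nd (nat_lit 78) (nat_lit 0) (nat_lit 0) (XT.lf (nat_lit 0) (nat_lit 3121058576264) (nat_lit 76) (nat_lit 1789721311393) (nat_lit 76) (nat_lit 1750060197074) (nat_lit 1) (nat_lit 4) (nat_lit 2) (nat_lit 5) (nat_lit 2) (nat_lit 4) (nat_lit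 519) (nat_lit 419) (nat_lit 262)) (XT.nd (nat_lit 78) (nat_lit 0) (nat_lit 0) (XT.lf (nat_lit 0) (nat_lit 3567437036652) (nat_lit 76) (nat_lit 1829120863259) (nat_lit 76) (nat_lit 1789459732324) (nat_lit 1) (nat_lit 4) (nat_lit 2) (nat_lit 5) (nat_lit 2) (nat_lit 4) (nat_lit 520) (nat_lit 419) (nat_lit 261)) (XT.lf (nat_lit 0) (nat_lit 4049525615176) (nat_lit 76) (nat_lit 1871672460443) (nat_lit 76) (nat_lit 1832011314124) (nat_lit 1) (nat_lit 4) (nat_lit 2) (nat_lit 5) (nat_lit 2) (nat_lit 4) (nat_lit 521) (nat_lit 419) (nat_lit 260)))) (XT.nd (nat_lit 78) (nat_lit 0) (nat_lit 0) (XT.lf (nat_lit 0) (nat_lit 4570181133043) (nat_lit 76) (nat_lit 1917628260558) (nat_lit 76) (nat_lit 1877967099995) (nat_lit 1) (nat_lit 4) (nat_lit 2) (nat_lit 5) (nat_lit 2) (nat_lit 4) (nat_lit 522) (nat_lit 419) (nat_lit 259)) (XT.nd (nat_lit 78) (nat_lit 0) (nat_lit 0) (XT.lf (nat_lit 0) (nat_lit 5132488956284)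 (nat_lit 76) (nat_lit 1967260594273) (nat_lit 76) (nat_lit 1927599420520) (nat_lit 1) (nat_lit 4) (nat_lit 2) (nat_lit 5) (nat_lit 2) (nat_lit 4) (nat_lit 523) (nat_lit 419) (nat_lit 258)) (XT.lf (nat_lit 0) (nat_lit 5739781279407) (nat_lit 76) (nat_lit 2020863579120) (nat_lit 76) (nat_lit 1981202393154) (nat_lit 1) (nat_lit 4) (nat_lit 2) (nat_lit 5) (nat_lit 2) (nat_lit 4) (nat_lit 524) (nat_lit 419) (nat_lit 257)))))) (XT.nd (nat_lit 54522) (nat_lit 0) (nat_lit 4408) (XT.nd (nat_lit 54288) (nat_lit 0) (nat_lit 5168) (XT.nd (nat_lit 78) (nat_lit 0) (nat_lit 0) (XT.lf (nat_lit 0) (nat_lit 6395656871735) (nat_lit 76) (nat_lit 2078754862416) (nat_lit 76) (nat_lit 2039093665142) (nat_lit 1) (nat_lit 4) (nat_lit 2) (nat_lit 5) (nat_lit 2) (nat_lit 4) (nat_lit 525) (nat_lit 419) (nat_lit 256)) (XT.lf (nat_lit 0) (nat_lit 7104002403445) (nat_lit 76) (nat_lit 2141277503618) (nat_lit 76) (nat_lit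 2101616295874) (nat_lit 1) (nat_lit 4) (nat_lit 2) (nat_lit 5) (nat_lit 2) (nat_lit 4) (nat_lit 526) (nat_lit 419) (nat_lit 255))) (XT.nd (nat_lit 78) (nat_lit 0) (nat_lit 0) (XT.lf (nat_lit 0) (nat_lit 7934493487) (nat_lit 532) (nat_lit 799216098) (nat_lit 532) (nat_lit 799216098) (nat_lit 69) (nat_lit 3) (nat_lit 76) (nat_lit 3) (nat_lit 76) (nat_lit 5) (nat_lit 420) (nat_lit 420) (nat_lit 360)) (XT.nd (nat_lit 78) (nat_lit 0) (nat_lit 76) (XT.lf (nat_lit 76) (nat_lit 8152725560) (nat_lit 0) (nat_lit 8718206770) (nat_lit 532) (nat_lit 2928063104) (nat_lit 70) (nat_lit 5) (nat_lit 69) (nat_lit 3) (nat_lit 76) (nat_lit 5) (nat_lit 421) (nat_lit 420) (nat_lit 359)) (XT.lf (nat_lit 0) (nat_lit 17998281134) (nat_lit 456) (nat_lit 1842449244) (nat_lit 532) (nat_lit 746452340) (nat_lit 70) (nat_lit 5) (nat_lit 76) (nat_lit 5) (nat_lit 77) (nat_lit 5) (nat_lit 422) (nat_lit 420) (nat_lit 358)))))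 (XT.nd (nat_lit 234) (nat_lit 380) (nat_lit 0) (XT.nd (nat_lit 78) (nat_lit 456) (nat_lit 0) (XT.lf (nat_lit 76) (nat_lit 8956803886) (nat_lit 0) (nat_lit 10684973617) (nat_lit 532) (nat_lit 1762581375) (nat_lit 71) (nat_lit 5) (nat_lit 70) (nat_lit 5) (nat_lit 77) (nat_lit 5) (nat_lit 423) (nat_lit 420) (nat_lit 357)) (XT.nd (nat_lit 78) (nat_lit 456) (nat_lit 0) (XT.lf (nat_lit 76) (nat_lit 20714562525) (nat_lit 0) (nat_lit 737600237) (nat_lit 532) (nat_lit 831923508) (nat_lit 71) (nat_lit 5) (nat_lit 70) (nat_lit 5) (nat_lit 77) (nat_lit 5) (nat_lit 424) (nat_lit 420) (nat_lit 356)) (XT.lf (nat_lit 0) (nat_lit 655145020) (nat_lit 532) (nat_lit 12762336474) (nat_lit 608) (nat_lit 9777135887) (nat_lit 64) (nat_lit 5) (nat_lit 71) (nat_lit 5) (nat_lit 72) (nat_lit 5) (nat_lit 425) (nat_lit 420) (nat_lit 355)))) (XT.nd (nat_lit 78) (nat_lit 380) (nat_lit 0) (XT.lf (nat_lit 0) (nat_lit 2266090941)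 (nat_lit 532) (nat_lit 744071770) (nat_lit 608) (nat_lit 21162118847) (nat_lit 64) (nat_lit 5) (nat_lit 71) (nat_lit 5) (nat_lit 72) (nat_lit 5) (nat_lit 426) (nat_lit 420) (nat_lit 354)) (XT.nd (nat_lit 78) (nat_lit 456) (nat_lit 0) (XT.lf (nat_lit 0) (nat_lit 4509086951) (nat_lit 532) (nat_lit 12541285889) (nat_lit 76) (nat_lit 8137539332) (nat_lit 65) (nat_lit 5) (nat_lit 72) (nat_lit 5) (nat_lit 66) (nat_lit 5) (nat_lit 427) (nat_lit 420) (nat_lit 353)) (XT.lf (nat_lit 0) (nat_lit 818966684) (nat_lit 456) (nat_lit 6219680961) (nat_lit 532) (nat_lit 19237582312) (nat_lit 59) (nat_lit 5) (nat_lit 65) (nat_lit 5) (nat_lit 66) (nat_lit 5) (nat_lit 428) (nat_lit 420) (nat_lit 352))))))) (XT.nd (nat_lit 858) (nat_lit 1064) (nat_lit 0) (XT.nd (nat_lit 390) (nat_lit 760) (nat_lit 0) (XT.nd (nat_lit 156) (nat_lit 228) (nat_lit 0) (XT.nd (nat_lit 78) (nat_lit 228) (nat_lit 0) (XT.lf (nat_lit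 0) (nat_lit 10243094160) (nat_lit 532) (nat_lit 11615181047) (nat_lit 76) (nat_lit 5555542503) (nat_lit 59) (nat_lit 5) (nat_lit 66) (nat_lit 5) (nat_lit 60) (nat_lit 5) (nat_lit 429) (nat_lit 420) (nat_lit 351)) (XT.lf (nat_lit 0) (nat_lit 3328448062) (nat_lit 228) (nat_lit 10606844289) (nat_lit 304) (nat_lit 14688614215) (nat_lit 56) (nat_lit 5) (nat_lit 59) (nat_lit 5) (nat_lit 60) (nat_lit 5) (nat_lit 430) (nat_lit 420) (nat_lit 350))) (XT.nd (nat_lit 78) (nat_lit 228) (nat_lit 0) (XT.lf (nat_lit 0) (nat_lit 18276125583) (nat_lit 304) (nat_lit 9833923355) (nat_lit 76) (nat_lit 1792498194) (nat_lit 56) (nat_lit 5) (nat_lit 60) (nat_lit 5) (nat_lit 57) (nat_lit 5) (nat_lit 431) (nat_lit 420) (nat_lit 349)) (XT.nd (nat_lit 78) (nat_lit 0) (nat_lit 0) (XT.lf (nat_lit 0) (nat_lit 6925022602) (nat_lit 228) (nat_lit 16472252864) (nat_lit 304) (nat_lit 7851564418) (nat_lit 53) (nat_lit 5) (nat_lit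 56) (nat_lit 5) (nat_lit 57) (nat_lit 5) (nat_lit 432) (nat_lit 420) (nat_lit 348)) (XT.lf (nat_lit 0) (nat_lit 25573784919) (nat_lit 228) (nat_lit 3614632092) (nat_lit 304) (nat_lit 3493599644) (nat_lit 53) (nat_lit 5) (nat_lit 56) (nat_lit 5) (nat_lit 57) (nat_lit 5) (nat_lit 433) (nat_lit 420) (nat_lit 347))))) (XT.nd (nat_lit 234) (nat_lit 304) (nat_lit 0) (XT.nd (nat_lit 78) (nat_lit 228) (nat_lit 0) (XT.lf (nat_lit 0) (nat_lit 1689207992) (nat_lit 228) (nat_lit 22411975948) (nat_lit 76) (nat_lit 10083382933) (nat_lit 50) (nat_lit 5) (nat_lit 53) (nat_lit 5) (nat_lit 51) (nat_lit 5) (nat_lit 434) (nat_lit 420) (nat_lit 346)) (XT.nd (nat_lit 78) (nat_lit 228) (nat_lit 0) (XT.lf (nat_lit 0) (nat_lit 7383358696) (nat_lit 228) (nat_lit 3423496337) (nat_lit 76) (nat_lit 24970373191) (nat_lit 50) (nat_lit 5) (nat_lit 53) (nat_lit 5) (nat_lit 51) (nat_lit 5) (nat_lit 435) (nat_lit 420) (nat_lit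 345)) (XT.lf (nat_lit 0) (nat_lit 14054645012) (nat_lit 304) (nat_lit 19586122255) (nat_lit 76) (nat_lit 3814810294) (nat_lit 47) (nat_lit 5) (nat_lit 51) (nat_lit 5) (nat_lit 48) (nat_lit 5) (nat_lit 436) (nat_lit 420) (nat_lit 344)))) (XT.nd (nat_lit 78) (nat_lit 152) (nat_lit 0) (XT.lf (nat_lit 0) (nat_lit 1586374554) (nat_lit 152) (nat_lit 20081163425) (nat_lit 228) (nat_lit 17568027679) (nat_lit 45) (nat_lit 5) (nat_lit 47) (nat_lit 5) (nat_lit 48) (nat_lit 5) (nat_lit 437) (nat_lit 420) (nat_lit 343)) (XT.nd (nat_lit 78) (nat_lit 152) (nat_lit 0) (XT.lf (nat_lit 0) (nat_lit 25557109115) (nat_lit 152) (nat_lit 4861180778) (nat_lit 228) (nat_lit 10697359592) (nat_lit 45) (nat_lit 5) (nat_lit 47) (nat_lit 5) (nat_lit 48) (nat_lit 5) (nat_lit 438) (nat_lit 420) (nat_lit 342)) (XT.lf (nat_lit 0) (nat_lit 8433655501) (nat_lit 152) (nat_lit 31910431446) (nat_lit 228) (nat_lit 2764056941)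 (nat_lit 43) (nat_lit 5) (nat_lit 45) (nat_lit 5) (nat_lit 46) (nat_lit 5) (nat_lit 439) (nat_lit 420) (nat_lit 341)))))) (XT.nd (nat_lit 468) (nat_lit 532) (nat_lit 0) (XT.nd (nat_lit 234) (nat_lit 304) (nat_lit 0) (XT.nd (nat_lit 78) (nat_lit 152) (nat_lit 0) (XT.lf (nat_lit 0) (nat_lit 6070119198) (nat_lit 228) (nat_lit 10282123356) (nat_lit 76) (nat_lit 28852107293) (nat_lit 42) (nat_lit 5) (nat_lit 45) (nat_lit 5) (nat_lit 43) (nat_lit 5) (nat_lit 440) (nat_lit 420) (nat_lit 340)) (XT.nd (nat_lit 78) (nat_lit 0) (nat_lit 0) (XT.lf (nat_lit 0) (nat_lit 15883717915) (nat_lit 228) (nat_lit 30630948015) (nat_lit 76) (nat_lit 914083430) (nat_lit 40) (nat_lit 5) (nat_lit 43) (nat_lit 5) (nat_lit 41) (nat_lit 5) (nat_lit 441) (nat_lit 420) (nat_lit 339)) (XT.lf (nat_lit 0) (nat_lit 27190013509) (nat_lit 228) (nat_lit 3620514363) (nat_lit 76) (nat_lit 18963966204) (nat_lit 40) (nat_lit 5)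 (nat_lit 43) (nat_lit 5) (nat_lit 41) (nat_lit 5) (nat_lit 442) (nat_lit 420) (nat_lit 338)))) (XT.nd (nat_lit 78) (nat_lit 152) (nat_lit 0) (XT.lf (nat_lit 0) (nat_lit 26887690870) (nat_lit 152) (nat_lit 13154625026) (nat_lit 228) (nat_lit 12214264038) (nat_lit 38) (nat_lit 5) (nat_lit 40) (nat_lit 5) (nat_lit 41) (nat_lit 5) (nat_lit 443) (nat_lit 420) (nat_lit 337)) (XT.nd (nat_lit 78) (nat_lit 76) (nat_lit 0) (XT.lf (nat_lit 0) (nat_lit 5221318600) (nat_lit 76) (nat_lit 49065819465) (nat_lit 152) (nat_lit 620949429) (nat_lit 37) (nat_lit 5) (nat_lit 38) (nat_lit 5) (nat_lit 39) (nat_lit 4) (nat_lit 444) (nat_lit 420) (nat_lit 336)) (XT.lf (nat_lit 0) (nat_lit 12352904713) (nat_lit 152) (nat_lit 18668889499) (nat_lit 76) (nat_lit 26643159428) (nat_lit 36) (nat_lit 5) (nat_lit 38) (nat_lit 5) (nat_lit 37) (nat_lit 5) (nat_lit 445) (nat_lit 420) (nat_lit 335))))) (XT.nd (nat_lit 234) (nat_lit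 304) (nat_lit 0) (XT.nd (nat_lit 78) (nat_lit 76) (nat_lit 0) (XT.lf (nat_lit 0) (nat_lit 15586323266) (nat_lit 152) (nat_lit 11115043107) (nat_lit 228) (nat_lit 33910094028) (nat_lit 34) (nat_lit 5) (nat_lit 36) (nat_lit 5) (nat_lit 37) (nat_lit 5) (nat_lit 446) (nat_lit 420) (nat_lit 334)) (XT.nd (nat_lit 78) (nat_lit 76) (nat_lit 0) (XT.lf (nat_lit 0) (nat_lit 42966629105) (nat_lit 228) (nat_lit 10379932278) (nat_lit 76) (nat_lit 10385613624) (nat_lit 34) (nat_lit 5) (nat_lit 37) (nat_lit 5) (nat_lit 35) (nat_lit 4) (nat_lit 447) (nat_lit 420) (nat_lit 333)) (XT.lf (nat_lit 0) (nat_lit 28149145295) (nat_lit 76) (nat_lit 33345476123) (nat_lit 152) (nat_lit 5531005825) (nat_lit 33) (nat_lit 5) (nat_lit 34) (nat_lit 5) (nat_lit 35) (nat_lit 4) (nat_lit 448) (nat_lit 420) (nat_lit 332)))) (XT.nd (nat_lit 78) (nat_lit 228) (nat_lit 0) (XT.lf (nat_lit 0) (nat_lit 10662951344) (nat_lit 152)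 (nat_lit 486252414) (nat_lit 76) (nat_lit 59389375841) (nat_lit 32) (nat_lit 5) (nat_lit 34) (nat_lit 5) (nat_lit 33) (nat_lit 5) (nat_lit 449) (nat_lit 420) (nat_lit 331)) (XT.nd (nat_lit 78) (nat_lit 76) (nat_lit 0) (XT.lf (nat_lit 0) (nat_lit 29222205280) (nat_lit 228) (nat_lit 31602977620) (nat_lit 76) (nat_lit 13386405302) (nat_lit 30) (nat_lit 5) (nat_lit 33) (nat_lit 5) (nat_lit 31) (nat_lit 4) (nat_lit 450) (nat_lit 420) (nat_lit 330)) (XT.lf (nat_lit 0) (nat_lit 11268355939) (nat_lit 76) (nat_lit 38568299564) (nat_lit 152) (nat_lit 28296146355) (nat_lit 29) (nat_lit 5) (nat_lit 30) (nat_lit 5) (nat_lit 31) (nat_lit 4) (nat_lit 451) (nat_lit 420) (nat_lit 329))))))))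
noncomputable def xc146 : XT := (XT.nd (nat_lit 1716) (nat_lit 684) (nat_lit 0) (XT.nd (nat_lit 858) (nat_lit 532) (nat_lit 0) (XT.nd (nat_lit 390) (nat_lit 456) (nat_lit 0) (XT.nd (nat_lit 156) (nat_lit 76) (nat_lit 0) (XT.nd (nat_lit 78) (nat_lit 152) (nat_lit 0) (XT.lf (nat_lit 0) (nat_lit 59360115998) (nat_lit 76) (nat_lit 13600570741) (nat_lit 152) (nat_lit 9338192645) (nat_lit 29) (nat_lit 5) (nat_lit 30) (nat_lit 5) (nat_lit 31) (nat_lit 4) (nat_lit 452) (nat_lit 420) (nat_lit 328)) (XT.lf (nat_lit 0) (nat_lit 11533412858) (nat_lit 152) (nat_lit 61569645908) (nat_lit 76) (nat_lit 13597430308) (nat_lit 27) (nat_lit 5) (nat_lit 29) (nat_lit 5) (nat_lit 28) (nat_lit 4) (nat_lit 453) (nat_lit 420) (nat_lit 327))) (XT.nd (nat_lit 78) (nat_lit 76) (nat_lit 0) (XT.lf (nat_lit 0) (nat_lit 34563550688) (nat_lit 152) (nat_lit 13671900757) (nat_lit 76) (nat_lit 43119907970) (nat_lit 27) (nat_lit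 5) (nat_lit 29) (nat_lit 5) (nat_lit 28) (nat_lit 4) (nat_lit 454) (nat_lit 420) (nat_lit 326)) (XT.nd (nat_lit 78) (nat_lit 0) (nat_lit 0) (XT.lf (nat_lit 0) (nat_lit 40055561353) (nat_lit 76) (nat_lit 20340699722) (nat_lit 152) (nat_lit 35909545957) (nat_lit 26) (nat_lit 5) (nat_lit 27) (nat_lit 5) (nat_lit 28) (nat_lit 4) (nat_lit 455) (nat_lit 420) (nat_lit 325)) (XT.lf (nat_lit 0) (nat_lit 88911316016) (nat_lit 152) (nat_lit 3014565792) (nat_lit 0) (nat_lit 9677150965) (nat_lit 26) (nat_lit 5) (nat_lit 28) (nat_lit 4) (nat_lit 26) (nat_lit 4) (nat_lit 456) (nat_lit 420) (nat_lit 324))))) (XT.nd (nat_lit 234) (nat_lit 228) (nat_lit 0) (XT.nd (nat_lit 78) (nat_lit 76) (nat_lit 0) (XT.lf (nat_lit 0) (nat_lit 13704332797) (nat_lit 152) (nat_lit 50732785008) (nat_lit 76) (nat_lit 42707871765) (nat_lit 24) (nat_lit 5) (nat_lit 26) (nat_lit 5) (nat_lit 25) (nat_lit 4) (nat_lit 457) (nat_lit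 420) (nat_lit 323)) (XT.nd (nat_lit 78) (nat_lit 0) (nat_lit 0) (XT.lf (nat_lit 0) (nat_lit 7688187703) (nat_lit 76) (nat_lit 34104768092) (nat_lit 152) (nat_lit 71289649392) (nat_lit 23) (nat_lit 5) (nat_lit 24) (nat_lit 5) (nat_lit 25) (nat_lit 4) (nat_lit 458) (nat_lit 420) (nat_lit 322)) (XT.lf (nat_lit 0) (nat_lit 73516587050) (nat_lit 152) (nat_lit 45725350980) (nat_lit 0) (nat_lit 142258941) (nat_lit 23) (nat_lit 5) (nat_lit 25) (nat_lit 4) (nat_lit 23) (nat_lit 4) (nat_lit 459) (nat_lit 420) (nat_lit 321)))) (XT.nd (nat_lit 78) (nat_lit 152) (nat_lit 0) (XT.lf (nat_lit 0) (nat_lit 18765026069) (nat_lit 76) (nat_lit 90347564843) (nat_lit 76) (nat_lit 16970566976) (nat_lit 22) (nat_lit 4) (nat_lit 23) (nat_lit 5) (nat_lit 23) (nat_lit 4) (nat_lit 460) (nat_lit 420) (nat_lit 320)) (XT.nd (nat_lit 78) (nat_lit 76) (nat_lit 0) (XT.lf (nat_lit 0) (nat_lit 14806025179) (nat_lit 152) (nat_lit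 42582937492) (nat_lit 76) (nat_lit 75799275704) (nat_lit 21) (nat_lit 5) (nat_lit 23) (nat_lit 5) (nat_lit 22) (nat_lit 4) (nat_lit 461) (nat_lit 420) (nat_lit 319)) (XT.lf (nat_lit 0) (nat_lit 28301311462) (nat_lit 76) (nat_lit 20584779986) (nat_lit 152) (nat_lit 91886114771) (nat_lit 20) (nat_lit 5) (nat_lit 21) (nat_lit 5) (nat_lit 22) (nat_lit 4) (nat_lit 462) (nat_lit 420) (nat_lit 318)))))) (XT.nd (nat_lit 390) (nat_lit 304) (nat_lit 0) (XT.nd (nat_lit 156) (nat_lit 152) (nat_lit 0) (XT.nd (nat_lit 78) (nat_lit 76) (nat_lit 0) (XT.lf (nat_lit 0) (nat_lit 87345554287) (nat_lit 152) (nat_lit 42087579151) (nat_lit 0) (nat_lit 19397519017) (nat_lit 20) (nat_lit 5) (nat_lit 22) (nat_lit 4) (nat_lit 20) (nat_lit 4) (nat_lit 463) (nat_lit 420) (nat_lit 317)) (XT.lf (nat_lit 0) (nat_lit 35145470205) (nat_lit 76) (nat_lit 95113971638) (nat_lit 76) (nat_lit 27164119376) (nat_lit 19) (nat_lit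 4) (nat_lit 20) (nat_lit 5) (nat_lit 20) (nat_lit 4) (nat_lit 464) (nat_lit 420) (nat_lit 316))) (XT.nd (nat_lit 78) (nat_lit 76) (nat_lit 0) (XT.lf (nat_lit 0) (nat_lit 10585566988) (nat_lit 152) (nat_lit 45933555325) (nat_lit 76) (nat_lit 110071456535) (nat_lit 18) (nat_lit 5) (nat_lit 20) (nat_lit 5) (nat_lit 19) (nat_lit 4) (nat_lit 465) (nat_lit 420) (nat_lit 315)) (XT.nd (nat_lit 78) (nat_lit 0) (nat_lit 0) (XT.lf (nat_lit 0) (nat_lit 37694552782) (nat_lit 76) (nat_lit 13097584344) (nat_lit 152) (nat_lit 125570017885) (nat_lit 17) (nat_lit 5) (nat_lit 18) (nat_lit 5) (nat_lit 19) (nat_lit 4) (nat_lit 466) (nat_lit 420) (nat_lit 314)) (XT.lf (nat_lit 0) (nat_lit 96314527496) (nat_lit 152) (nat_lit 57039324466) (nat_lit 0) (nat_lit 33393661914) (nat_lit 17) (nat_lit 5) (nat_lit 19) (nat_lit 4) (nat_lit 17) (nat_lit 4) (nat_lit 467) (nat_lit 420) (nat_lit 313))))) (XT.nd (nat_lit 234)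 (nat_lit 76) (nat_lit 0) (XT.nd (nat_lit 78) (nat_lit 152) (nat_lit 0) (XT.lf (nat_lit 0) (nat_lit 32395814988) (nat_lit 76) (nat_lit 114200298247) (nat_lit 76) (nat_lit 51278196051) (nat_lit 16) (nat_lit 4) (nat_lit 17) (nat_lit 5) (nat_lit 17) (nat_lit 4) (nat_lit 468) (nat_lit 420) (nat_lit 312)) (XT.nd (nat_lit 78) (nat_lit 152) (nat_lit 0) (XT.lf (nat_lit 0) (nat_lit 132225964650) (nat_lit 76) (nat_lit 70231957663) (nat_lit 76) (nat_lit 7308710454) (nat_lit 16) (nat_lit 4) (nat_lit 17) (nat_lit 5) (nat_lit 17) (nat_lit 4) (nat_lit 469) (nat_lit 420) (nat_lit 311)) (XT.lf (nat_lit 0) (nat_lit 17329276231) (nat_lit 76) (nat_lit 21254177440) (nat_lit 152) (nat_lit 183916385181) (nat_lit 14) (nat_lit 5) (nat_lit 15) (nat_lit 5) (nat_lit 16) (nat_lit 4) (nat_lit 470) (nat_lit 420) (nat_lit 310)))) (XT.nd (nat_lit 78) (nat_lit 76) (nat_lit 0) (XT.lf (nat_lit 0) (nat_lit 90686525509) (nat_lit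 152) (nat_lit 112892868562) (nat_lit 0) (nat_lit 32422368962) (nat_lit 14) (nat_lit 5) (nat_lit 16) (nat_lit 4) (nat_lit 14) (nat_lit 4) (nat_lit 471) (nat_lit 420) (nat_lit 309)) (XT.nd (nat_lit 78) (nat_lit 76) (nat_lit 0) (XT.lf (nat_lit 0) (nat_lit 147508271255) (nat_lit 152) (nat_lit 13788262668) (nat_lit 0) (nat_lit 89243273089) (nat_lit 14) (nat_lit 5) (nat_lit 16) (nat_lit 4) (nat_lit 14) (nat_lit 4) (nat_lit 472) (nat_lit 420) (nat_lit 308)) (XT.lf (nat_lit 0) (nat_lit 98151648044) (nat_lit 76) (nat_lit 113083150337) (nat_lit 76) (nat_lit 54817372894) (nat_lit 13) (nat_lit 4) (nat_lit 14) (nat_lit 5) (nat_lit 14) (nat_lit 4) (nat_lit 473) (nat_lit 420) (nat_lit 307))))))) (XT.nd (nat_lit 858) (nat_lit 228) (nat_lit 0) (XT.nd (nat_lit 390) (nat_lit 228) (nat_lit 0) (XT.nd (nat_lit 156) (nat_lit 76) (nat_lit 0) (XT.nd (nat_lit 78) (nat_lit 152) (nat_lit 0) (XT.lf (nat_lit 0) (nat_lit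 219827971841) (nat_lit 76) (nat_lit 60607004806) (nat_lit 76) (nat_lit 2340505811) (nat_lit 13) (nat_lit 4) (nat_lit 14) (nat_lit 5) (nat_lit 14) (nat_lit 4) (nat_lit 474) (nat_lit 420) (nat_lit 306)) (XT.lf (nat_lit 0) (nat_lit 51677318621) (nat_lit 76) (nat_lit 1180607206) (nat_lit 152) (nat_lit 247774877294) (nat_lit 11) (nat_lit 5) (nat_lit 12) (nat_lit 5) (nat_lit 13) (nat_lit 4) (nat_lit 475) (nat_lit 420) (nat_lit 305))) (XT.nd (nat_lit 78) (nat_lit 76) (nat_lit 0) (XT.lf (nat_lit 0) (nat_lit 115625345213) (nat_lit 152) (nat_lit 142352444232) (nat_lit 0) (nat_lit 61673691773) (nat_lit 11) (nat_lit 5) (nat_lit 13) (nat_lit 4) (nat_lit 11) (nat_lit 4) (nat_lit 476) (nat_lit 420) (nat_lit 304)) (XT.nd (nat_lit 78) (nat_lit 76) (nat_lit 0) (XT.lf (nat_lit 0) (nat_lit 183443537958) (nat_lit 152) (nat_lit 27254411137) (nat_lit 0) (nat_lit 129491354156) (nat_lit 11) (nat_lit 5) (nat_lit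 13) (nat_lit 4) (nat_lit 11) (nat_lit 4) (nat_lit 477) (nat_lit 420) (nat_lit 303)) (XT.lf (nat_lit 0) (nat_lit 102159502920) (nat_lit 76) (nat_lit 156983431600) (nat_lit 76) (nat_lit 103030756721) (nat_lit 10) (nat_lit 4) (nat_lit 11) (nat_lit 5) (nat_lit 11) (nat_lit 4) (nat_lit 478) (nat_lit 420) (nat_lit 302))))) (XT.nd (nat_lit 234) (nat_lit 76) (nat_lit 0) (XT.nd (nat_lit 78) (nat_lit 152) (nat_lit 0) (XT.lf (nat_lit 0) (nat_lit 243474179444) (nat_lit 76) (nat_lit 98168129200) (nat_lit 76) (nat_lit 44214999620) (nat_lit 10) (nat_lit 4) (nat_lit 11) (nat_lit 5) (nat_lit 11) (nat_lit 4) (nat_lit 479) (nat_lit 420) (nat_lit 301)) (XT.nd (nat_lit 78) (nat_lit 76) (nat_lit 0) (XT.lf (nat_lit 0) (nat_lit 18339152650) (nat_lit 152) (nat_lit 15808113086) (nat_lit 76) (nat_lit 377251292166) (nat_lit 9) (nat_lit 5) (nat_lit 11) (nat_lit 5) (nat_lit 10) (nat_lit 4) (nat_lit 480) (nat_lit 420)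 (nat_lit 300)) (XT.lf (nat_lit 0) (nat_lit 87489494176) (nat_lit 152) (nat_lit 313551146894) (nat_lit 0) (nat_lit 37532141925) (nat_lit 8) (nat_lit 5) (nat_lit 10) (nat_lit 4) (nat_lit 8) (nat_lit 4) (nat_lit 481) (nat_lit 420) (nat_lit 299)))) (XT.nd (nat_lit 78) (nat_lit 76) (nat_lit 0) (XT.lf (nat_lit 0) (nat_lit 163501237673) (nat_lit 152) (nat_lit 190769807293) (nat_lit 0) (nat_lit 113543551203) (nat_lit 8) (nat_lit 5) (nat_lit 10) (nat_lit 4) (nat_lit 8) (nat_lit 4) (nat_lit 482) (nat_lit 420) (nat_lit 298)) (XT.nd (nat_lit 78) (nat_lit 76) (nat_lit 0) (XT.lf (nat_lit 0) (nat_lit 245592980200) (nat_lit 152) (nat_lit 58167865206) (nat_lit 0) (nat_lit 195634984269) (nat_lit 8) (nat_lit 5) (nat_lit 10) (nat_lit 4) (nat_lit 8) (nat_lit 4) (nat_lit 483) (nat_lit 420) (nat_lit 297)) (XT.lf (nat_lit 0) (nat_lit 89518549028) (nat_lit 76) (nat_lit 246885565572) (nat_lit 76) (nat_lit 196927283103)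 (nat_lit 7) (nat_lit 4) (nat_lit 8) (nat_lit 5) (nat_lit 8) (nat_lit 4) (nat_lit 484) (nat_lit 420) (nat_lit 296)))))) (XT.nd (nat_lit 468) (nat_lit 76) (nat_lit 0) (XT.nd (nat_lit 234) (nat_lit 76) (nat_lit 0) (XT.nd (nat_lit 78) (nat_lit 76) (nat_lit 0) (XT.lf (nat_lit 0) (nat_lit 252326215490) (nat_lit 76) (nat_lit 183743489155) (nat_lit 76) (nat_lit 133784941372) (nat_lit 7) (nat_lit 4) (nat_lit 8) (nat_lit 5) (nat_lit 8) (nat_lit 4) (nat_lit 485) (nat_lit 420) (nat_lit 295)) (XT.nd (nat_lit 78) (nat_lit 76) (nat_lit 0) (XT.lf (nat_lit 0) (nat_lit 428156903651) (nat_lit 76) (nat_lit 115550853404) (nat_lit 76) (nat_lit 65592059961) (nat_lit 7) (nat_lit 4) (nat_lit 8) (nat_lit 5) (nat_lit 8) (nat_lit 4) (nat_lit 486) (nat_lit 420) (nat_lit 294)) (XT.lf (nat_lit 0) (nat_lit 7652500006) (nat_lit 152) (nat_lit 34041820894) (nat_lit 76) (nat_lit 610190840228) (nat_lit 6) (nat_lit 5) (nat_lit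 8) (nat_lit 5) (nat_lit 7) (nat_lit 4) (nat_lit 487) (nat_lit 420) (nat_lit 293)))) (XT.nd (nat_lit 78) (nat_lit 0) (nat_lit 0) (XT.lf (nat_lit 0) (nat_lit 87370077127) (nat_lit 152) (nat_lit 568926860873) (nat_lit 0) (nat_lit 41111529422) (nat_lit 5) (nat_lit 5) (nat_lit 7) (nat_lit 4) (nat_lit 5) (nat_lit 4) (nat_lit 488) (nat_lit 420) (nat_lit 292)) (XT.nd (nat_lit 78) (nat_lit 0) (nat_lit 0) (XT.lf (nat_lit 0) (nat_lit 175502280431) (nat_lit 152) (nat_lit 441664828055) (nat_lit 0) (nat_lit 129243552158) (nat_lit 5) (nat_lit 5) (nat_lit 7) (nat_lit 4) (nat_lit 5) (nat_lit 4) (nat_lit 489) (nat_lit 420) (nat_lit 291)) (XT.lf (nat_lit 0) (nat_lit 270684422265) (nat_lit 152) (nat_lit 304223131299) (nat_lit 0) (nat_lit 224425526800) (nat_lit 5) (nat_lit 5) (nat_lit 7) (nat_lit 4) (nat_lit 5) (nat_lit 4) (nat_lit 490) (nat_lit 420) (nat_lit 290))))) (XT.nd (nat_lit 234) (nat_lit 0) (nat_lit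 0) (XT.nd (nat_lit 78) (nat_lit 76) (nat_lit 0) (XT.lf (nat_lit 0) (nat_lit 373480544952) (nat_lit 152) (nat_lit 155787301293) (nat_lit 0) (nat_lit 327221494679) (nat_lit 5) (nat_lit 5) (nat_lit 7) (nat_lit 4) (nat_lit 5) (nat_lit 4) (nat_lit 491) (nat_lit 420) (nat_lit 289)) (XT.nd (nat_lit 78) (nat_lit 0) (nat_lit 0) (XT.lf (nat_lit 0) (nat_lit 4760417038) (nat_lit 76) (nat_lit 479853881806) (nat_lit 76) (nat_lit 433594688192) (nat_lit 4) (nat_lit 4) (nat_lit 5) (nat_lit 5) (nat_lit 5) (nat_lit 4) (nat_lit 492) (nat_lit 420) (nat_lit 288)) (XT.lf (nat_lit 0) (nat_lit 187010629471) (nat_lit 76) (nat_lit 421887092118) (nat_lit 76) (nat_lit 375627765782) (nat_lit 4) (nat_lit 4) (nat_lit 5) (nat_lit 5) (nat_lit 5) (nat_lit 4) (nat_lit 493) (nat_lit 420) (nat_lit 287)))) (XT.nd (nat_lit 78) (nat_lit 0) (nat_lit 0) (XT.lf (nat_lit 0) (nat_lit 383839854059) (nat_lit 76) (nat_lit 359283471176)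 (nat_lit 76) (nat_lit 313024021949) (nat_lit 4) (nat_lit 4) (nat_lit 5) (nat_lit 5) (nat_lit 5) (nat_lit 4) (nat_lit 494) (nat_lit 420) (nat_lit 286)) (XT.nd (nat_lit 78) (nat_lit 0) (nat_lit 0) (XT.lf (nat_lit 0) (nat_lit 596414486205) (nat_lit 76) (nat_lit 291672034560) (nat_lit 76) (nat_lit 245412471544) (nat_lit 4) (nat_lit 4) (nat_lit 5) (nat_lit 5) (nat_lit 5) (nat_lit 4) (nat_lit 495) (nat_lit 420) (nat_lit 285)) (XT.lf (nat_lit 0) (nat_lit 825994227434) (nat_lit 76) (nat_lit 218652121904) (nat_lit 76) (nat_lit 172392453529) (nat_lit 4) (nat_lit 4) (nat_lit 5) (nat_lit 5) (nat_lit 5) (nat_lit 4) (nat_lit 496) (nat_lit 420) (nat_lit 284))))))))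
noncomputable def xc147 : XT := (XT.nd (nat_lit 1716) (nat_lit 0) (nat_lit 0) (XT.nd (nat_lit 858) (nat_lit 76) (nat_lit 0) (XT.nd (nat_lit 390) (nat_lit 0) (nat_lit 0) (XT.nd (nat_lit 156) (nat_lit 152) (nat_lit 0) (XT.nd (nat_lit 78) (nat_lit 0) (nat_lit 0) (XT.lf (nat_lit 0) (nat_lit 1073939550286) (nat_lit 76) (nat_lit 139791022615) (nat_lit 76) (nat_lit 93531256684) (nat_lit 4) (nat_lit 4) (nat_lit 5) (nat_lit 5) (nat_lit 5) (nat_lit 4) (nat_lit 497) (nat_lit 420) (nat_lit 283)) (XT.lf (nat_lit 0) (nat_lit 1341719760379) (nat_lit 76) (nat_lit 54621411660) (nat_lit 76) (nat_lit 8361555401) (nat_lit 4) (nat_lit 4) (nat_lit 5) (nat_lit 5) (nat_lit 5) (nat_lit 4) (nat_lit 498) (nat_lit 420) (nat_lit 282))) (XT.nd (nat_lit 78) (nat_lit 0) (nat_lit 0) (XT.lf (nat_lit 0) (nat_lit 83479233483) (nat_lit 152) (nat_lit 1385329570799) (nat_lit 0) (nat_lit 40645955800) (nat_lit 2) (nat_lit 5) (nat_lit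 4) (nat_lit 4) (nat_lit 2) (nat_lit 4) (nat_lit 499) (nat_lit 420) (nat_lit 281)) (XT.nd (nat_lit 78) (nat_lit 0) (nat_lit 0) (XT.lf (nat_lit 0) (nat_lit 185400733636) (nat_lit 152) (nat_lit 1294346647654) (nat_lit 0) (nat_lit 142567384248) (nat_lit 2) (nat_lit 5) (nat_lit 4) (nat_lit 4) (nat_lit 2) (nat_lit 4) (nat_lit 500) (nat_lit 420) (nat_lit 280)) (XT.lf (nat_lit 0) (nat_lit 295475635698) (nat_lit 152) (nat_lit 1196085741276) (nat_lit 0) (nat_lit 252642219914) (nat_lit 2) (nat_lit 5) (nat_lit 4) (nat_lit 4) (nat_lit 2) (nat_lit 4) (nat_lit 501) (nat_lit 420) (nat_lit 279))))) (XT.nd (nat_lit 234) (nat_lit 0) (nat_lit 0) (XT.nd (nat_lit 78) (nat_lit 0) (nat_lit 0) (XT.lf (nat_lit 0) (nat_lit 414356235383) (nat_lit 152) (nat_lit 1089964564812) (nat_lit 0) (nat_lit 371522758123) (nat_lit 2) (nat_lit 5) (nat_lit 4) (nat_lit 4) (nat_lit 2) (nat_lit 4) (nat_lit 502) (nat_lit 420) (nat_lit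 278)) (XT.nd (nat_lit 78) (nat_lit 0) (nat_lit 0) (XT.lf (nat_lit 0) (nat_lit 542747010319) (nat_lit 152) (nat_lit 975354252031) (nat_lit 0) (nat_lit 499913476137) (nat_lit 2) (nat_lit 5) (nat_lit 4) (nat_lit 4) (nat_lit 2) (nat_lit 4) (nat_lit 503) (nat_lit 420) (nat_lit 277)) (XT.lf (nat_lit 0) (nat_lit 681408794729) (nat_lit 152) (nat_lit 851575630708) (nat_lit 0) (nat_lit 638575207841) (nat_lit 2) (nat_lit 5) (nat_lit 4) (nat_lit 4) (nat_lit 2) (nat_lit 4) (nat_lit 504) (nat_lit 420) (nat_lit 276)))) (XT.nd (nat_lit 78) (nat_lit 0) (nat_lit 0) (XT.lf (nat_lit 0) (nat_lit 831163288076) (nat_lit 152) (nat_lit 717895197904) (nat_lit 0) (nat_lit 788329652386) (nat_lit 2) (nat_lit 5) (nat_lit 4) (nat_lit 4) (nat_lit 2) (nat_lit 4) (nat_lit 505) (nat_lit 420) (nat_lit 275)) (XT.nd (nat_lit 78) (nat_lit 0) (nat_lit 0) (XT.lf (nat_lit 0) (nat_lit 992897924394) (nat_lit 152) (nat_lit 573520773275)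 (nat_lit 0) (nat_lit 950064243517) (nat_lit 2) (nat_lit 5) (nat_lit 4) (nat_lit 4) (nat_lit 2) (nat_lit 4) (nat_lit 506) (nat_lit 420) (nat_lit 274)) (XT.lf (nat_lit 0) (nat_lit 1167571131158) (nat_lit 152) (nat_lit 417596804675) (nat_lit 0) (nat_lit 1124737408441) (nat_lit 2) (nat_lit 5) (nat_lit 4) (nat_lit 4) (nat_lit 2) (nat_lit 4) (nat_lit 507) (nat_lit 420) (nat_lit 273)))))) (XT.nd (nat_lit 390) (nat_lit 0) (nat_lit 0) (XT.nd (nat_lit 156) (nat_lit 76) (nat_lit 0) (XT.nd (nat_lit 78) (nat_lit 0) (nat_lit 0) (XT.lf (nat_lit 0) (nat_lit 1356218008852) (nat_lit 152) (nat_lit 249199298217) (nat_lit 0) (nat_lit 1313384247395) (nat_lit 2) (nat_lit 5) (nat_lit 4) (nat_lit 4) (nat_lit 2) (nat_lit 4) (nat_lit 508) (nat_lit 420) (nat_lit 272)) (XT.lf (nat_lit 0) (nat_lit 1559956464900) (nat_lit 152) (nat_lit 67330342750) (nat_lit 0) (nat_lit 1517122667572) (nat_lit 2) (nat_lit 5) (nat_lit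 4) (nat_lit 4) (nat_lit 2) (nat_lit 4) (nat_lit 509) (nat_lit 420) (nat_lit 271))) (XT.nd (nat_lit 78) (nat_lit 0) (nat_lit 0) (XT.lf (nat_lit 0) (nat_lit 135885338660) (nat_lit 76) (nat_lit 1647376545302) (nat_lit 76) (nat_lit 1604542714760) (nat_lit 1) (nat_lit 4) (nat_lit 2) (nat_lit 5) (nat_lit 2) (nat_lit 4) (nat_lit 510) (nat_lit 420) (nat_lit 270)) (XT.nd (nat_lit 78) (nat_lit 0) (nat_lit 0) (XT.lf (nat_lit 0) (nat_lit 359187093606) (nat_lit 76) (nat_lit 1667085418862) (nat_lit 76) (nat_lit 1624251557566) (nat_lit 1) (nat_lit 4) (nat_lit 2) (nat_lit 5) (nat_lit 2) (nat_lit 4) (nat_lit 511) (nat_lit 420) (nat_lit 269)) (XT.lf (nat_lit 0) (nat_lit 600352695214) (nat_lit 76) (nat_lit 1688371152545) (nat_lit 76) (nat_lit 1645537262775) (nat_lit 1) (nat_lit 4) (nat_lit 2) (nat_lit 5) (nat_lit 2) (nat_lit 4) (nat_lit 512) (nat_lit 420) (nat_lit 268))))) (XT.nd (nat_lit 234) (nat_lit 0)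 (nat_lit 0) (XT.nd (nat_lit 78) (nat_lit 0) (nat_lit 0) (XT.lf (nat_lit 0) (nat_lit 860811272976) (nat_lit 76) (nat_lit 1711359884033) (nat_lit 76) (nat_lit 1668525967897) (nat_lit 1) (nat_lit 4) (nat_lit 2) (nat_lit 5) (nat_lit 2) (nat_lit 4) (nat_lit 513) (nat_lit 420) (nat_lit 267)) (XT.nd (nat_lit 78) (nat_lit 0) (nat_lit 0) (XT.lf (nat_lit 0) (nat_lit 1142106285131) (nat_lit 76) (nat_lit 1736187842846) (nat_lit 76) (nat_lit 1693353902296) (nat_lit 1) (nat_lit 4) (nat_lit 2) (nat_lit 5) (nat_lit 2) (nat_lit 4) (nat_lit 514) (nat_lit 420) (nat_lit 266)) (XT.lf (nat_lit 0) (nat_lit 1445904665084) (nat_lit 76) (nat_lit 1763002157628) (nat_lit 76) (nat_lit 1720168194474) (nat_lit 1) (nat_lit 4) (nat_lit 2) (nat_lit 5) (nat_lit 2) (nat_lit 4) (nat_lit 515) (nat_lit 420) (nat_lit 265)))) (XT.nd (nat_lit 78) (nat_lit 0) (nat_lit 0) (XT.lf (nat_lit 0) (nat_lit 1774006699531) (nat_lit 76) (nat_lit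 1791961728023) (nat_lit 76) (nat_lit 1749127743938) (nat_lit 1) (nat_lit 4) (nat_lit 2) (nat_lit 5) (nat_lit 2) (nat_lit 4) (nat_lit 516) (nat_lit 420) (nat_lit 264)) (XT.nd (nat_lit 78) (nat_lit 0) (nat_lit 0) (XT.lf (nat_lit 0) (nat_lit 2128356696825) (nat_lit 76) (nat_lit 1823238166299) (nat_lit 76) (nat_lit 1780404162835) (nat_lit 1) (nat_lit 4) (nat_lit 2) (nat_lit 5) (nat_lit 2) (nat_lit 4) (nat_lit 517) (nat_lit 420) (nat_lit 263)) (XT.lf (nat_lit 0) (nat_lit 2511054508800) (nat_lit 76) (nat_lit 1857016814314) (nat_lit 76) (nat_lit 1814182792905) (nat_lit 1) (nat_lit 4) (nat_lit 2) (nat_lit 5) (nat_lit 2) (nat_lit 4) (nat_lit 518) (nat_lit 420) (nat_lit 262))))))) (XT.nd (nat_lit 55068) (nat_lit 0) (nat_lit 3724) (XT.nd (nat_lit 390) (nat_lit 0) (nat_lit 0) (XT.nd (nat_lit 156) (nat_lit 0) (nat_lit 0) (XT.nd (nat_lit 78) (nat_lit 0) (nat_lit 0) (XT.lf (nat_lit 0) (nat_lit 2924367974344)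 (nat_lit 76) (nat_lit 1893497841832) (nat_lit 76) (nat_lit 1850663803808) (nat_lit 1) (nat_lit 4) (nat_lit 2) (nat_lit 5) (nat_lit 2) (nat_lit 4) (nat_lit 519) (nat_lit 420) (nat_lit 261)) (XT.lf (nat_lit 0) (nat_lit 3370746358436) (nat_lit 76) (nat_lit 1932897432722) (nat_lit 76) (nat_lit 1890063379313) (nat_lit 1) (nat_lit 4) (nat_lit 2) (nat_lit 5) (nat_lit 2) (nat_lit 4) (nat_lit 520) (nat_lit 420) (nat_lit 260))) (XT.nd (nat_lit 78) (nat_lit 0) (nat_lit 0) (XT.lf (nat_lit 0) (nat_lit 3852834866316) (nat_lit 76) (nat_lit 1975449066039) (nat_lit 76) (nat_lit 1932614998385) (nat_lit 1) (nat_lit 4) (nat_lit 2) (nat_lit 5) (nat_lit 2) (nat_lit 4) (nat_lit 521) (nat_lit 420) (nat_lit 259)) (XT.nd (nat_lit 78) (nat_lit 0) (nat_lit 0) (XT.lf (nat_lit 0) (nat_lit 4373490318772) (nat_lit 76) (nat_lit 2021404899611) (nat_lit 76) (nat_lit 1978570818768) (nat_lit 1) (nat_lit 4) (nat_lit 2) (nat_lit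 5) (nat_lit 2) (nat_lit 4) (nat_lit 522) (nat_lit 420) (nat_lit 258)) (XT.lf (nat_lit 0) (nat_lit 4935798081447) (nat_lit 76) (nat_lit 2071037264304) (nat_lit 76) (nat_lit 2028203171248) (nat_lit 1) (nat_lit 4) (nat_lit 2) (nat_lit 5) (nat_lit 2) (nat_lit 4) (nat_lit 523) (nat_lit 420) (nat_lit 257))))) (XT.nd (nat_lit 54444) (nat_lit 0) (nat_lit 5168) (XT.nd (nat_lit 78) (nat_lit 0) (nat_lit 0) (XT.lf (nat_lit 0) (nat_lit 5543090348491) (nat_lit 76) (nat_lit 2124640277834) (nat_lit 76) (nat_lit 2081806173471) (nat_lit 1) (nat_lit 4) (nat_lit 2) (nat_lit 5) (nat_lit 2) (nat_lit 4) (nat_lit 524) (nat_lit 420) (nat_lit 256)) (XT.nd (nat_lit 78) (nat_lit 0) (nat_lit 0) (XT.lf (nat_lit 0) (nat_lit 6198965888893) (nat_lit 76) (nat_lit 2182531587689) (nat_lit 76) (nat_lit 2139697472855) (nat_lit 1) (nat_lit 4) (nat_lit 2) (nat_lit 5) (nat_lit 2) (nat_lit 4) (nat_lit 525) (nat_lit 420) (nat_lit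 255)) (XT.lf (nat_lit 0) (nat_lit 6907311372524) (nat_lit 76) (nat_lit 2245054253483) (nat_lit 76) (nat_lit 2202220128955) (nat_lit 1) (nat_lit 4) (nat_lit 2) (nat_lit 5) (nat_lit 2) (nat_lit 4) (nat_lit 526) (nat_lit 420) (nat_lit 254)))) (XT.nd (nat_lit 78) (nat_lit 0) (nat_lit 0) (XT.lf (nat_lit 0) (nat_lit 8736250335) (nat_lit 532) (nat_lit 772918632) (nat_lit 532) (nat_lit 772918632) (nat_lit 69) (nat_lit 3) (nat_lit 76) (nat_lit 3) (nat_lit 76) (nat_lit 5) (nat_lit 421) (nat_lit 421) (nat_lit 358)) (XT.nd (nat_lit 78) (nat_lit 0) (nat_lit 76) (XT.lf (nat_lit 76) (nat_lit 8980844264) (nat_lit 0) (nat_lit 9553247455) (nat_lit 532) (nat_lit 2823536514) (nat_lit 70) (nat_lit 5) (nat_lit 69) (nat_lit 3) (nat_lit 76) (nat_lit 5) (nat_lit 422) (nat_lit 421) (nat_lit 357)) (XT.lf (nat_lit 0) (nat_lit 19725343533) (nat_lit 456) (nat_lit 1800496668) (nat_lit 532) (nat_lit 685148502) (nat_lit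 70) (nat_lit 5) (nat_lit 76) (nat_lit 5) (nat_lit 77) (nat_lit 5) (nat_lit 423) (nat_lit 421) (nat_lit 356)))))) (XT.nd (nat_lit 468) (nat_lit 684) (nat_lit 0) (XT.nd (nat_lit 234) (nat_lit 380) (nat_lit 0) (XT.nd (nat_lit 78) (nat_lit 456) (nat_lit 0) (XT.lf (nat_lit 76) (nat_lit 9857903079) (nat_lit 0) (nat_lit 11625581014) (nat_lit 532) (nat_lit 1611415973) (nat_lit 71) (nat_lit 5) (nat_lit 70) (nat_lit 5) (nat_lit 77) (nat_lit 5) (nat_lit 424) (nat_lit 421) (nat_lit 355)) (XT.nd (nat_lit 78) (nat_lit 456) (nat_lit 0) (XT.lf (nat_lit 76) (nat_lit 22542611677) (nat_lit 0) (nat_lit 876061503) (nat_lit 532) (nat_lit 627947840) (nat_lit 71) (nat_lit 5) (nat_lit 70) (nat_lit 5) (nat_lit 77) (nat_lit 5) (nat_lit 425) (nat_lit 421) (nat_lit 354)) (XT.lf (nat_lit 0) (nat_lit 948342486) (nat_lit 532) (nat_lit 13582401036) (nat_lit 608) (nat_lit 10500038784) (nat_lit 64) (nat_lit 5) (nat_lit 71)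 (nat_lit 5) (nat_lit 72) (nat_lit 5) (nat_lit 426) (nat_lit 421) (nat_lit 353)))) (XT.nd (nat_lit 78) (nat_lit 380) (nat_lit 0) (XT.lf (nat_lit 0) (nat_lit 2670328090) (nat_lit 532) (nat_lit 617558293) (nat_lit 608) (nat_lit 22800210601) (nat_lit 64) (nat_lit 5) (nat_lit 71) (nat_lit 5) (nat_lit 72) (nat_lit 5) (nat_lit 427) (nat_lit 421) (nat_lit 352)) (XT.nd (nat_lit 78) (nat_lit 456) (nat_lit 0) (XT.lf (nat_lit 0) (nat_lit 5079901278) (nat_lit 532) (nat_lit 13345565640) (nat_lit 76) (nat_lit 8760549843) (nat_lit 65) (nat_lit 5) (nat_lit 72) (nat_lit 5) (nat_lit 66) (nat_lit 5) (nat_lit 428) (nat_lit 421) (nat_lit 351)) (XT.lf (nat_lit 0) (nat_lit 1078468579) (nat_lit 456) (nat_lit 6722461553) (nat_lit 532) (nat_lit 20561350563) (nat_lit 59) (nat_lit 5) (nat_lit 65) (nat_lit 5) (nat_lit 66) (nat_lit 5) (nat_lit 429) (nat_lit 421) (nat_lit 350))))) (XT.nd (nat_lit 234) (nat_lit 456) (nat_lit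 0) (XT.nd (nat_lit 78) (nat_lit 228) (nat_lit 0) (XT.lf (nat_lit 0) (nat_lit 11246861571) (nat_lit 532) (nat_lit 12349805322) (nat_lit 76) (nat_lit 5995406565) (nat_lit 59) (nat_lit 5) (nat_lit 66) (nat_lit 5) (nat_lit 60) (nat_lit 5) (nat_lit 430) (nat_lit 421) (nat_lit 349)) (XT.nd (nat_lit 78) (nat_lit 0) (nat_lit 0) (XT.lf (nat_lit 0) (nat_lit 3784387782) (nat_lit 228) (nat_lit 11440955933) (nat_lit 304) (nat_lit 15674360771) (nat_lit 56) (nat_lit 5) (nat_lit 59) (nat_lit 5) (nat_lit 60) (nat_lit 5) (nat_lit 431) (nat_lit 421) (nat_lit 348)) (XT.lf (nat_lit 0) (nat_lit 19900785221) (nat_lit 304) (nat_lit 10432274911) (nat_lit 76) (nat_lit 1948595973) (nat_lit 56) (nat_lit 5) (nat_lit 60) (nat_lit 5) (nat_lit 57) (nat_lit 5) (nat_lit 432) (nat_lit 421) (nat_lit 347)))) (XT.nd (nat_lit 78) (nat_lit 228) (nat_lit 0) (XT.lf (nat_lit 0) (nat_lit 7662618056) (nat_lit 228) (nat_lit 17761382277)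 (nat_lit 304) (nat_lit 8312268694) (nat_lit 53) (nat_lit 5) (nat_lit 56) (nat_lit 5) (nat_lit 57) (nat_lit 5) (nat_lit 433) (nat_lit 421) (nat_lit 346)) (XT.nd (nat_lit 78) (nat_lit 228) (nat_lit 0) (XT.lf (nat_lit 0) (nat_lit 27789681829) (nat_lit 228) (nat_lit 3877274126) (nat_lit 304) (nat_lit 3618068284) (nat_lit 53) (nat_lit 5) (nat_lit 56) (nat_lit 5) (nat_lit 57) (nat_lit 5) (nat_lit 434) (nat_lit 421) (nat_lit 345)) (XT.lf (nat_lit 0) (nat_lit 1965657759) (nat_lit 228) (nat_lit 24021097282) (nat_lit 76) (nat_lit 10921206545) (nat_lit 50) (nat_lit 5) (nat_lit 53) (nat_lit 5) (nat_lit 51) (nat_lit 5) (nat_lit 435) (nat_lit 421) (nat_lit 344))))))))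
noncomputable def xc148 : XT := (XT.nd (nat_lit 1716) (nat_lit 1216) (nat_lit 0) (XT.nd (nat_lit 858) (nat_lit 760) (nat_lit 0) (XT.nd (nat_lit 390) (nat_lit 532) (nat_lit 0) (XT.nd (nat_lit 156) (nat_lit 304) (nat_lit 0) (XT.nd (nat_lit 78) (nat_lit 228) (nat_lit 0) (XT.lf (nat_lit 0) (nat_lit 8104872880) (nat_lit 228) (nat_lit 3527156839) (nat_lit 76) (nat_lit 26996848396) (nat_lit 50) (nat_lit 5) (nat_lit 53) (nat_lit 5) (nat_lit 51) (nat_lit 5) (nat_lit 436) (nat_lit 421) (nat_lit 343)) (XT.lf (nat_lit 0) (nat_lit 15305140414) (nat_lit 304) (nat_lit 20978014913) (nat_lit 76) (nat_lit 4158722305) (nat_lit 47) (nat_lit 5) (nat_lit 51) (nat_lit 5) (nat_lit 48) (nat_lit 5) (nat_lit 437) (nat_lit 421) (nat_lit 342))) (XT.nd (nat_lit 78) (nat_lit 152) (nat_lit 0) (XT.lf (nat_lit 0) (nat_lit 1883851334) (nat_lit 152) (nat_lit 21637973117) (nat_lit 228) (nat_lit 18842863721) (nat_lit 45) (nat_lit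 5) (nat_lit 47) (nat_lit 5) (nat_lit 48) (nat_lit 5) (nat_lit 438) (nat_lit 421) (nat_lit 341)) (XT.nd (nat_lit 78) (nat_lit 152) (nat_lit 0) (XT.lf (nat_lit 0) (nat_lit 27759610081) (nat_lit 152) (nat_lit 5204072109) (nat_lit 228) (nat_lit 11432216718) (nat_lit 45) (nat_lit 5) (nat_lit 47) (nat_lit 5) (nat_lit 48) (nat_lit 5) (nat_lit 439) (nat_lit 421) (nat_lit 340)) (XT.lf (nat_lit 0) (nat_lit 9269978150) (nat_lit 152) (nat_lit 34410185445) (nat_lit 228) (nat_lit 2867903190) (nat_lit 43) (nat_lit 5) (nat_lit 45) (nat_lit 5) (nat_lit 46) (nat_lit 5) (nat_lit 440) (nat_lit 421) (nat_lit 339))))) (XT.nd (nat_lit 234) (nat_lit 304) (nat_lit 0) (XT.nd (nat_lit 78) (nat_lit 152) (nat_lit 0) (XT.lf (nat_lit 0) (nat_lit 6658887594) (nat_lit 228) (nat_lit 10949565191) (nat_lit 76) (nat_lit 31203954071) (nat_lit 42) (nat_lit 5) (nat_lit 45) (nat_lit 5) (nat_lit 43) (nat_lit 5) (nat_lit 441) (nat_lit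 421) (nat_lit 338)) (XT.nd (nat_lit 78) (nat_lit 0) (nat_lit 0) (XT.lf (nat_lit 0) (nat_lit 17254820922) (nat_lit 228) (nat_lit 32923507101) (nat_lit 76) (nat_lit 1036653404) (nat_lit 40) (nat_lit 5) (nat_lit 43) (nat_lit 5) (nat_lit 41) (nat_lit 5) (nat_lit 442) (nat_lit 421) (nat_lit 337)) (XT.lf (nat_lit 0) (nat_lit 29458182714) (nat_lit 228) (nat_lit 3763936294) (nat_lit 76) (nat_lit 20526864333) (nat_lit 40) (nat_lit 5) (nat_lit 43) (nat_lit 5) (nat_lit 41) (nat_lit 5) (nat_lit 443) (nat_lit 421) (nat_lit 336)))) (XT.nd (nat_lit 78) (nat_lit 152) (nat_lit 0) (XT.lf (nat_lit 0) (nat_lit 29181223605) (nat_lit 152) (nat_lit 14153986708) (nat_lit 228) (nat_lit 13094704904) (nat_lit 38) (nat_lit 5) (nat_lit 40) (nat_lit 5) (nat_lit 41) (nat_lit 5) (nat_lit 444) (nat_lit 421) (nat_lit 335)) (XT.nd (nat_lit 78) (nat_lit 76) (nat_lit 0) (XT.lf (nat_lit 0) (nat_lit 5783699997) (nat_lit 76)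 (nat_lit 52933947829) (nat_lit 152) (nat_lit 576055442) (nat_lit 37) (nat_lit 5) (nat_lit 38) (nat_lit 5) (nat_lit 39) (nat_lit 4) (nat_lit 445) (nat_lit 421) (nat_lit 334)) (XT.lf (nat_lit 0) (nat_lit 13424321507) (nat_lit 152) (nat_lit 20024037024) (nat_lit 76) (nat_lit 28823112531) (nat_lit 36) (nat_lit 5) (nat_lit 38) (nat_lit 5) (nat_lit 37) (nat_lit 5) (nat_lit 446) (nat_lit 421) (nat_lit 333)))))) (XT.nd (nat_lit 390) (nat_lit 304) (nat_lit 0) (XT.nd (nat_lit 156) (nat_lit 304) (nat_lit 0) (XT.nd (nat_lit 78) (nat_lit 0) (nat_lit 0) (XT.lf (nat_lit 0) (nat_lit 16968089885) (nat_lit 152) (nat_lit 11949651810) (nat_lit 228) (nat_lit 36536191927) (nat_lit 34) (nat_lit 5) (nat_lit 36) (nat_lit 5) (nat_lit 37) (nat_lit 5) (nat_lit 447) (nat_lit 421) (nat_lit 332)) (XT.lf (nat_lit 0) (nat_lit 46479495561) (nat_lit 228) (nat_lit 11080705227) (nat_lit 76) (nat_lit 11264484654) (nat_lit 34)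 (nat_lit 5) (nat_lit 37) (nat_lit 5) (nat_lit 35) (nat_lit 4) (nat_lit 448) (nat_lit 421) (nat_lit 331))) (XT.nd (nat_lit 78) (nat_lit 228) (nat_lit 0) (XT.lf (nat_lit 0) (nat_lit 30527416991) (nat_lit 76) (nat_lit 35959753480) (nat_lit 152) (nat_lit 5894649459) (nat_lit 33) (nat_lit 5) (nat_lit 34) (nat_lit 5) (nat_lit 35) (nat_lit 4) (nat_lit 449) (nat_lit 421) (nat_lit 330)) (XT.nd (nat_lit 78) (nat_lit 152) (nat_lit 0) (XT.lf (nat_lit 0) (nat_lit 11585332909) (nat_lit 152) (nat_lit 404503037) (nat_lit 76) (nat_lit 64186265973) (nat_lit 32) (nat_lit 5) (nat_lit 34) (nat_lit 5) (nat_lit 33) (nat_lit 5) (nat_lit 450) (nat_lit 421) (nat_lit 329)) (XT.lf (nat_lit 0) (nat_lit 31628234553) (nat_lit 228) (nat_lit 34009458454) (nat_lit 76) (nat_lit 14505346827) (nat_lit 30) (nat_lit 5) (nat_lit 33) (nat_lit 5) (nat_lit 31) (nat_lit 4) (nat_lit 451) (nat_lit 421) (nat_lit 328))))) (XT.nd (nat_lit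 234) (nat_lit 76) (nat_lit 0) (XT.nd (nat_lit 78) (nat_lit 152) (nat_lit 0) (XT.lf (nat_lit 0) (nat_lit 12288499324) (nat_lit 76) (nat_lit 41601139836) (nat_lit 152) (nat_lit 30488488676) (nat_lit 29) (nat_lit 5) (nat_lit 30) (nat_lit 5) (nat_lit 31) (nat_lit 4) (nat_lit 452) (nat_lit 421) (nat_lit 327)) (XT.nd (nat_lit 78) (nat_lit 152) (nat_lit 0) (XT.lf (nat_lit 0) (nat_lit 64218809455) (nat_lit 76) (nat_lit 14639890758) (nat_lit 152) (nat_lit 10019183810) (nat_lit 29) (nat_lit 5) (nat_lit 30) (nat_lit 5) (nat_lit 31) (nat_lit 4) (nat_lit 453) (nat_lit 421) (nat_lit 326)) (XT.lf (nat_lit 0) (nat_lit 12518042233) (nat_lit 152) (nat_lit 66381202269) (nat_lit 76) (nat_lit 14732316020) (nat_lit 27) (nat_lit 5) (nat_lit 29) (nat_lit 5) (nat_lit 28) (nat_lit 4) (nat_lit 454) (nat_lit 421) (nat_lit 325)))) (XT.nd (nat_lit 78) (nat_lit 76) (nat_lit 0) (XT.lf (nat_lit 0) (nat_lit 37386001731)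 (nat_lit 152) (nat_lit 14660083084) (nat_lit 76) (nat_lit 46613103651) (nat_lit 27) (nat_lit 5) (nat_lit 29) (nat_lit 5) (nat_lit 28) (nat_lit 4) (nat_lit 455) (nat_lit 421) (nat_lit 324)) (XT.nd (nat_lit 78) (nat_lit 0) (nat_lit 0) (XT.lf (nat_lit 0) (nat_lit 43362903343) (nat_lit 76) (nat_lit 21920650877) (nat_lit 152) (nat_lit 38722260418) (nat_lit 26) (nat_lit 5) (nat_lit 27) (nat_lit 5) (nat_lit 28) (nat_lit 4) (nat_lit 456) (nat_lit 421) (nat_lit 323)) (XT.lf (nat_lit 0) (nat_lit 96076749019) (nat_lit 152) (nat_lit 3157382576) (nat_lit 0) (nat_lit 10492932713) (nat_lit 26) (nat_lit 5) (nat_lit 28) (nat_lit 4) (nat_lit 26) (nat_lit 4) (nat_lit 457) (nat_lit 421) (nat_lit 322))))))) (XT.nd (nat_lit 858) (nat_lit 532) (nat_lit 0) (XT.nd (nat_lit 390) (nat_lit 304) (nat_lit 0) (XT.nd (nat_lit 156) (nat_lit 152) (nat_lit 0) (XT.nd (nat_lit 78) (nat_lit 76) (nat_lit 0) (XT.lf (nat_lit 0)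 (nat_lit 14852952577) (nat_lit 152) (nat_lit 54692788951) (nat_lit 76) (nat_lit 46166657753) (nat_lit 24) (nat_lit 5) (nat_lit 26) (nat_lit 5) (nat_lit 25) (nat_lit 4) (nat_lit 458) (nat_lit 421) (nat_lit 321)) (XT.lf (nat_lit 0) (nat_lit 8399364897) (nat_lit 76) (nat_lit 36787740173) (nat_lit 152) (nat_lit 76938044468) (nat_lit 23) (nat_lit 5) (nat_lit 24) (nat_lit 5) (nat_lit 25) (nat_lit 4) (nat_lit 459) (nat_lit 421) (nat_lit 320))) (XT.nd (nat_lit 78) (nat_lit 152) (nat_lit 0) (XT.lf (nat_lit 0) (nat_lit 79445881521) (nat_lit 152) (nat_lit 49291625220) (nat_lit 0) (nat_lit 193582069) (nat_lit 23) (nat_lit 5) (nat_lit 25) (nat_lit 4) (nat_lit 23) (nat_lit 4) (nat_lit 460) (nat_lit 421) (nat_lit 319)) (XT.nd (nat_lit 78) (nat_lit 76) (nat_lit 0) (XT.lf (nat_lit 0) (nat_lit 20355659111) (nat_lit 76) (nat_lit 97532504249) (nat_lit 76) (nat_lit 18277915910) (nat_lit 22) (nat_lit 4) (nat_lit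 23) (nat_lit 5) (nat_lit 23) (nat_lit 4) (nat_lit 461) (nat_lit 421) (nat_lit 318)) (XT.lf (nat_lit 0) (nat_lit 16034748298) (nat_lit 152) (nat_lit 45904431218) (nat_lit 76) (nat_lit 81900573467) (nat_lit 21) (nat_lit 5) (nat_lit 23) (nat_lit 5) (nat_lit 22) (nat_lit 4) (nat_lit 462) (nat_lit 421) (nat_lit 317))))) (XT.nd (nat_lit 234) (nat_lit 152) (nat_lit 0) (XT.nd (nat_lit 78) (nat_lit 76) (nat_lit 0) (XT.lf (nat_lit 0) (nat_lit 30648402177) (nat_lit 76) (nat_lit 22191536383) (nat_lit 152) (nat_lit 99190602581) (nat_lit 20) (nat_lit 5) (nat_lit 21) (nat_lit 5) (nat_lit 22) (nat_lit 4) (nat_lit 463) (nat_lit 421) (nat_lit 316)) (XT.nd (nat_lit 78) (nat_lit 76) (nat_lit 0) (XT.lf (nat_lit 0) (nat_lit 94373867540) (nat_lit 152) (nat_lit 45375451459) (nat_lit 0) (nat_lit 20984527704) (nat_lit 20) (nat_lit 5) (nat_lit 22) (nat_lit 4) (nat_lit 20) (nat_lit 4) (nat_lit 464) (nat_lit 421) (nat_lit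 315)) (XT.lf (nat_lit 0) (nat_lit 38034238453) (nat_lit 76) (nat_lit 102685470130) (nat_lit 76) (nat_lit 29294572516) (nat_lit 19) (nat_lit 4) (nat_lit 20) (nat_lit 5) (nat_lit 20) (nat_lit 4) (nat_lit 465) (nat_lit 421) (nat_lit 314)))) (XT.nd (nat_lit 78) (nat_lit 76) (nat_lit 0) (XT.lf (nat_lit 0) (nat_lit 11469950832) (nat_lit 152) (nat_lit 49534842269) (nat_lit 76) (nat_lit 118910025456) (nat_lit 18) (nat_lit 5) (nat_lit 20) (nat_lit 5) (nat_lit 19) (nat_lit 4) (nat_lit 466) (nat_lit 421) (nat_lit 313)) (XT.nd (nat_lit 78) (nat_lit 0) (nat_lit 0) (XT.lf (nat_lit 0) (nat_lit 40781656323) (nat_lit 76) (nat_lit 14110330151) (nat_lit 152) (nat_lit 135576219406) (nat_lit 17) (nat_lit 5) (nat_lit 18) (nat_lit 5) (nat_lit 19) (nat_lit 4) (nat_lit 467) (nat_lit 421) (nat_lit 312)) (XT.lf (nat_lit 0) (nat_lit 104054246728) (nat_lit 152) (nat_lit 61534305948) (nat_lit 0) (nat_lit 36095994729)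 (nat_lit 17) (nat_lit 5) (nat_lit 19) (nat_lit 4) (nat_lit 17) (nat_lit 4) (nat_lit 468) (nat_lit 421) (nat_lit 311)))))) (XT.nd (nat_lit 468) (nat_lit 228) (nat_lit 0) (XT.nd (nat_lit 234) (nat_lit 76) (nat_lit 0) (XT.nd (nat_lit 78) (nat_lit 152) (nat_lit 0) (XT.lf (nat_lit 0) (nat_lit 35053918980) (nat_lit 76) (nat_lit 123303478421) (nat_lit 76) (nat_lit 55344166225) (nat_lit 16) (nat_lit 4) (nat_lit 17) (nat_lit 5) (nat_lit 17) (nat_lit 4) (nat_lit 469) (nat_lit 421) (nat_lit 310)) (XT.nd (nat_lit 78) (nat_lit 152) (nat_lit 0) (XT.lf (nat_lit 0) (nat_lit 142865559222) (nat_lit 76) (nat_lit 75820103456) (nat_lit 76) (nat_lit 7859809595) (nat_lit 16) (nat_lit 4) (nat_lit 17) (nat_lit 5) (nat_lit 17) (nat_lit 4) (nat_lit 470) (nat_lit 421) (nat_lit 309)) (XT.lf (nat_lit 0) (nat_lit 18777218807) (nat_lit 76) (nat_lit 22923945431) (nat_lit 152) (nat_lit 198596176762) (nat_lit 14) (nat_lit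 5) (nat_lit 15) (nat_lit 5) (nat_lit 16) (nat_lit 4) (nat_lit 471) (nat_lit 421) (nat_lit 308)))) (XT.nd (nat_lit 78) (nat_lit 76) (nat_lit 0) (XT.lf (nat_lit 0) (nat_lit 97970863653) (nat_lit 152) (nat_lit 121865640343) (nat_lit 0) (nat_lit 35043044738) (nat_lit 14) (nat_lit 5) (nat_lit 16) (nat_lit 4) (nat_lit 14) (nat_lit 4) (nat_lit 472) (nat_lit 421) (nat_lit 307)) (XT.nd (nat_lit 78) (nat_lit 76) (nat_lit 0) (XT.lf (nat_lit 0) (nat_lit 159336170087) (nat_lit 152) (nat_lit 14837010993) (nat_lit 0) (nat_lit 96407629620) (nat_lit 14) (nat_lit 5) (nat_lit 16) (nat_lit 4) (nat_lit 14) (nat_lit 4) (nat_lit 473) (nat_lit 421) (nat_lit 306)) (XT.lf (nat_lit 0) (nat_lit 106056717572) (nat_lit 76) (nat_lit 122103357399) (nat_lit 76) (nat_lit 59174148827) (nat_lit 13) (nat_lit 4) (nat_lit 14) (nat_lit 5) (nat_lit 14) (nat_lit 4) (nat_lit 474) (nat_lit 421) (nat_lit 305))))) (XT.nd (nat_lit 234)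 (nat_lit 76) (nat_lit 0) (XT.nd (nat_lit 78) (nat_lit 152) (nat_lit 0) (XT.lf (nat_lit 0) (nat_lit 237463225963) (nat_lit 76) (nat_lit 65431079113) (nat_lit 76) (nat_lit 2501251926) (nat_lit 13) (nat_lit 4) (nat_lit 14) (nat_lit 5) (nat_lit 14) (nat_lit 4) (nat_lit 475) (nat_lit 421) (nat_lit 304)) (XT.nd (nat_lit 78) (nat_lit 0) (nat_lit 0) (XT.lf (nat_lit 0) (nat_lit 55860572837) (nat_lit 76) (nat_lit 1250471785) (nat_lit 152) (nat_lit 267570422571) (nat_lit 11) (nat_lit 5) (nat_lit 12) (nat_lit 5) (nat_lit 13) (nat_lit 4) (nat_lit 476) (nat_lit 421) (nat_lit 303)) (XT.lf (nat_lit 0) (nat_lit 124898591326) (nat_lit 152) (nat_lit 153693938236) (nat_lit 0) (nat_lit 66629211380) (nat_lit 11) (nat_lit 5) (nat_lit 13) (nat_lit 4) (nat_lit 11) (nat_lit 4) (nat_lit 477) (nat_lit 421) (nat_lit 302)))) (XT.nd (nat_lit 78) (nat_lit 76) (nat_lit 0) (XT.lf (nat_lit 0) (nat_lit 198140519602) (nat_lit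 152) (nat_lit 29391521866) (nat_lit 0) (nat_lit 139870684956) (nat_lit 11) (nat_lit 5) (nat_lit 13) (nat_lit 4) (nat_lit 11) (nat_lit 4) (nat_lit 478) (nat_lit 421) (nat_lit 301)) (XT.nd (nat_lit 78) (nat_lit 0) (nat_lit 0) (XT.lf (nat_lit 0) (nat_lit 110374410577) (nat_lit 76) (nat_lit 169520878469) (nat_lit 76) (nat_lit 111250622803) (nat_lit 10) (nat_lit 4) (nat_lit 11) (nat_lit 5) (nat_lit 11) (nat_lit 4) (nat_lit 479) (nat_lit 421) (nat_lit 300)) (XT.lf (nat_lit 0) (nat_lit 262991139192) (nat_lit 76) (nat_lit 106001924296) (nat_lit 76) (nat_lit 47731278798) (nat_lit 10) (nat_lit 4) (nat_lit 11) (nat_lit 5) (nat_lit 11) (nat_lit 4) (nat_lit 480) (nat_lit 421) (nat_lit 299))))))))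
noncomputable def xc149 : XT := (XT.nd (nat_lit 1716) (nat_lit 76) (nat_lit 0) (XT.nd (nat_lit 858) (nat_lit 228) (nat_lit 0) (XT.nd (nat_lit 390) (nat_lit 152) (nat_lit 0) (XT.nd (nat_lit 156) (nat_lit 76) (nat_lit 0) (XT.nd (nat_lit 78) (nat_lit 76) (nat_lit 0) (XT.lf (nat_lit 0) (nat_lit 19824686944) (nat_lit 152) (nat_lit 17035657608) (nat_lit 76) (nat_lit 407448624934) (nat_lit 9) (nat_lit 5) (nat_lit 11) (nat_lit 5) (nat_lit 10) (nat_lit 4) (nat_lit 481) (nat_lit 421) (nat_lit 298)) (XT.lf (nat_lit 0) (nat_lit 94507001516) (nat_lit 152) (nat_lit 338598079029) (nat_lit 0) (nat_lit 40552056449) (nat_lit 8) (nat_lit 5) (nat_lit 10) (nat_lit 4) (nat_lit 8) (nat_lit 4) (nat_lit 482) (nat_lit 421) (nat_lit 297))) (XT.nd (nat_lit 78) (nat_lit 76) (nat_lit 0) (XT.lf (nat_lit 0) (nat_lit 176598325396) (nat_lit 152) (nat_lit 205996984823) (nat_lit 0) (nat_lit 122643093791) (nat_lit 8) (nat_lit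 5) (nat_lit 10) (nat_lit 4) (nat_lit 8) (nat_lit 4) (nat_lit 483) (nat_lit 421) (nat_lit 296)) (XT.nd (nat_lit 78) (nat_lit 76) (nat_lit 0) (XT.lf (nat_lit 0) (nat_lit 265256148903) (nat_lit 152) (nat_lit 62789436040) (nat_lit 0) (nat_lit 211300651984) (nat_lit 8) (nat_lit 5) (nat_lit 10) (nat_lit 4) (nat_lit 8) (nat_lit 4) (nat_lit 484) (nat_lit 421) (nat_lit 295)) (XT.lf (nat_lit 0) (nat_lit 96711084791) (nat_lit 76) (nat_lit 266620670854) (nat_lit 76) (nat_lit 212664928275) (nat_lit 7) (nat_lit 4) (nat_lit 8) (nat_lit 5) (nat_lit 8) (nat_lit 4) (nat_lit 485) (nat_lit 421) (nat_lit 294))))) (XT.nd (nat_lit 234) (nat_lit 76) (nat_lit 0) (XT.nd (nat_lit 78) (nat_lit 76) (nat_lit 0) (XT.lf (nat_lit 0) (nat_lit 272541064433) (nat_lit 76) (nat_lit 198428394247) (nat_lit 76) (nat_lit 144472424204) (nat_lit 7) (nat_lit 4) (nat_lit 8) (nat_lit 5) (nat_lit 8) (nat_lit 4) (nat_lit 486) (nat_lit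 421) (nat_lit 293)) (XT.nd (nat_lit 78) (nat_lit 76) (nat_lit 0) (XT.lf (nat_lit 0) (nat_lit 462436077892) (nat_lit 76) (nat_lit 124781427195) (nat_lit 76) (nat_lit 70825246537) (nat_lit 7) (nat_lit 4) (nat_lit 8) (nat_lit 5) (nat_lit 8) (nat_lit 4) (nat_lit 487) (nat_lit 421) (nat_lit 292)) (XT.lf (nat_lit 0) (nat_lit 8277171273) (nat_lit 152) (nat_lit 36739859422) (nat_lit 76) (nat_lit 659017945146) (nat_lit 6) (nat_lit 5) (nat_lit 8) (nat_lit 5) (nat_lit 7) (nat_lit 4) (nat_lit 488) (nat_lit 421) (nat_lit 291)))) (XT.nd (nat_lit 78) (nat_lit 0) (nat_lit 0) (XT.lf (nat_lit 0) (nat_lit 94372125240) (nat_lit 152) (nat_lit 614415672834) (nat_lit 0) (nat_lit 44412350945) (nat_lit 5) (nat_lit 5) (nat_lit 7) (nat_lit 4) (nat_lit 5) (nat_lit 4) (nat_lit 489) (nat_lit 421) (nat_lit 290)) (XT.nd (nat_lit 78) (nat_lit 0) (nat_lit 0) (XT.lf (nat_lit 0) (nat_lit 189553983183) (nat_lit 152) (nat_lit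 476974554199) (nat_lit 0) (nat_lit 139594054080) (nat_lit 5) (nat_lit 5) (nat_lit 7) (nat_lit 4) (nat_lit 5) (nat_lit 4) (nat_lit 490) (nat_lit 421) (nat_lit 289)) (XT.lf (nat_lit 0) (nat_lit 292349843007) (nat_lit 152) (nat_lit 328539259488) (nat_lit 0) (nat_lit 242389770564) (nat_lit 5) (nat_lit 5) (nat_lit 7) (nat_lit 4) (nat_lit 5) (nat_lit 4) (nat_lit 491) (nat_lit 421) (nat_lit 288)))))) (XT.nd (nat_lit 390) (nat_lit 152) (nat_lit 0) (XT.nd (nat_lit 156) (nat_lit 0) (nat_lit 0) (XT.nd (nat_lit 78) (nat_lit 76) (nat_lit 0) (XT.lf (nat_lit 0) (nat_lit 403368865363) (nat_lit 152) (nat_lit 168230172142) (nat_lit 0) (nat_lit 353408660198) (nat_lit 5) (nat_lit 5) (nat_lit 7) (nat_lit 4) (nat_lit 5) (nat_lit 4) (nat_lit 492) (nat_lit 421) (nat_lit 287)) (XT.lf (nat_lit 0) (nat_lit 5160854459) (nat_lit 76) (nat_lit 518232204970) (nat_lit 76) (nat_lit 468271876912) (nat_lit 4) (nat_lit 4)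 (nat_lit 5) (nat_lit 5) (nat_lit 5) (nat_lit 4) (nat_lit 493) (nat_lit 421) (nat_lit 286))) (XT.nd (nat_lit 78) (nat_lit 0) (nat_lit 0) (XT.lf (nat_lit 0) (nat_lit 201989631735) (nat_lit 76) (nat_lit 455628811913) (nat_lit 76) (nat_lit 405668370067) (nat_lit 4) (nat_lit 4) (nat_lit 5) (nat_lit 5) (nat_lit 5) (nat_lit 4) (nat_lit 494) (nat_lit 421) (nat_lit 285)) (XT.nd (nat_lit 78) (nat_lit 0) (nat_lit 0) (XT.lf (nat_lit 0) (nat_lit 414563849704) (nat_lit 76) (nat_lit 388017586301) (nat_lit 76) (nat_lit 338057039096) (nat_lit 4) (nat_lit 4) (nat_lit 5) (nat_lit 5) (nat_lit 5) (nat_lit 4) (nat_lit 495) (nat_lit 421) (nat_lit 284)) (XT.lf (nat_lit 0) (nat_lit 644143207435) (nat_lit 76) (nat_lit 314997869020) (nat_lit 76) (nat_lit 265037224260) (nat_lit 4) (nat_lit 4) (nat_lit 5) (nat_lit 5) (nat_lit 5) (nat_lit 4) (nat_lit 496) (nat_lit 421) (nat_lit 283))))) (XT.nd (nat_lit 234) (nat_lit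 152) (nat_lit 0) (XT.nd (nat_lit 78) (nat_lit 0) (nat_lit 0) (XT.lf (nat_lit 0) (nat_lit 892088175197) (nat_lit 76) (nat_lit 236136950633) (nat_lit 76) (nat_lit 186176215544) (nat_lit 4) (nat_lit 4) (nat_lit 5) (nat_lit 5) (nat_lit 5) (nat_lit 4) (nat_lit 497) (nat_lit 421) (nat_lit 282)) (XT.nd (nat_lit 78) (nat_lit 0) (nat_lit 0) (XT.lf (nat_lit 0) (nat_lit 1159868056502) (nat_lit 76) (nat_lit 150967507181) (nat_lit 76) (nat_lit 101006688454) (nat_lit 4) (nat_lit 4) (nat_lit 5) (nat_lit 5) (nat_lit 5) (nat_lit 4) (nat_lit 498) (nat_lit 421) (nat_lit 281)) (XT.lf (nat_lit 0) (nat_lit 1449069695091) (nat_lit 76) (nat_lit 58984830849) (nat_lit 76) (nat_lit 9023934679) (nat_lit 4) (nat_lit 4) (nat_lit 5) (nat_lit 5) (nat_lit 5) (nat_lit 4) (nat_lit 499) (nat_lit 421) (nat_lit 280)))) (XT.nd (nat_lit 78) (nat_lit 0) (nat_lit 0) (XT.lf (nat_lit 0) (nat_lit 90163778255) (nat_lit 152) (nat_lit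 1496143243156) (nat_lit 0) (nat_lit 43903622815) (nat_lit 2) (nat_lit 5) (nat_lit 4) (nat_lit 4) (nat_lit 2) (nat_lit 4) (nat_lit 500) (nat_lit 421) (nat_lit 279)) (XT.nd (nat_lit 78) (nat_lit 0) (nat_lit 0) (XT.lf (nat_lit 0) (nat_lit 200238538710) (nat_lit 152) (nat_lit 1397882626405) (nat_lit 0) (nat_lit 153978321793) (nat_lit 2) (nat_lit 5) (nat_lit 4) (nat_lit 4) (nat_lit 2) (nat_lit 4) (nat_lit 501) (nat_lit 421) (nat_lit 278)) (XT.lf (nat_lit 0) (nat_lit 319119007278) (nat_lit 152) (nat_lit 1291761718114) (nat_lit 0) (nat_lit 272858733439) (nat_lit 2) (nat_lit 5) (nat_lit 4) (nat_lit 4) (nat_lit 2) (nat_lit 4) (nat_lit 502) (nat_lit 421) (nat_lit 277))))))) (XT.nd (nat_lit 858) (nat_lit 0) (nat_lit 0) (XT.nd (nat_lit 390) (nat_lit 76) (nat_lit 0) (XT.nd (nat_lit 156) (nat_lit 0) (nat_lit 0) (XT.nd (nat_lit 78) (nat_lit 0) (nat_lit 0) (XT.lf (nat_lit 0) (nat_lit 447509660810) (nat_lit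 152) (nat_lit 1177151653641) (nat_lit 0) (nat_lit 401249334265) (nat_lit 2) (nat_lit 5) (nat_lit 4) (nat_lit 4) (nat_lit 2) (nat_lit 4) (nat_lit 503) (nat_lit 421) (nat_lit 276)) (XT.lf (nat_lit 0) (nat_lit 586171332809) (nat_lit 152) (nat_lit 1053373262234) (nat_lit 0) (nat_lit 539910957462) (nat_lit 2) (nat_lit 5) (nat_lit 4) (nat_lit 4) (nat_lit 2) (nat_lit 4) (nat_lit 504) (nat_lit 421) (nat_lit 275))) (XT.nd (nat_lit 78) (nat_lit 0) (nat_lit 0) (XT.lf (nat_lit 0) (nat_lit 735925722071) (nat_lit 152) (nat_lit 919693042314) (nat_lit 0) (nat_lit 689665301537) (nat_lit 2) (nat_lit 5) (nat_lit 4) (nat_lit 4) (nat_lit 2) (nat_lit 4) (nat_lit 505) (nat_lit 421) (nat_lit 274)) (XT.nd (nat_lit 78) (nat_lit 0) (nat_lit 0) (XT.lf (nat_lit 0) (nat_lit 897660262014) (nat_lit 152) (nat_lit 775318814800) (nat_lit 0) (nat_lit 851399799640) (nat_lit 2) (nat_lit 5) (nat_lit 4) (nat_lit 4) (nat_lit 2)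 (nat_lit 4) (nat_lit 506) (nat_lit 421) (nat_lit 273)) (XT.lf (nat_lit 0) (nat_lit 1072333379542) (nat_lit 152) (nat_lit 619395028715) (nat_lit 0) (nat_lit 1026072878427) (nat_lit 2) (nat_lit 5) (nat_lit 4) (nat_lit 4) (nat_lit 2) (nat_lit 4) (nat_lit 507) (nat_lit 421) (nat_lit 272))))) (XT.nd (nat_lit 234) (nat_lit 76) (nat_lit 0) (XT.nd (nat_lit 78) (nat_lit 0) (nat_lit 0) (XT.lf (nat_lit 0) (nat_lit 1260980174610) (nat_lit 152) (nat_lit 450997691251) (nat_lit 0) (nat_lit 1214719637625) (nat_lit 2) (nat_lit 5) (nat_lit 4) (nat_lit 4) (nat_lit 2) (nat_lit 4) (nat_lit 508) (nat_lit 421) (nat_lit 271)) (XT.nd (nat_lit 78) (nat_lit 0) (nat_lit 0) (XT.lf (nat_lit 0) (nat_lit 1464718554152) (nat_lit 152) (nat_lit 269128892261) (nat_lit 0) (nat_lit 1418457983953) (nat_lit 2) (nat_lit 5) (nat_lit 4) (nat_lit 4) (nat_lit 2) (nat_lit 4) (nat_lit 509) (nat_lit 421) (nat_lit 270)) (XT.lf (nat_lit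 0) (nat_lit 1684755856714) (nat_lit 152) (nat_lit 72710890714) (nat_lit 0) (nat_lit 1638495255761) (nat_lit 2) (nat_lit 5) (nat_lit 4) (nat_lit 4) (nat_lit 2) (nat_lit 4) (nat_lit 510) (nat_lit 421) (nat_lit 269)))) (XT.nd (nat_lit 78) (nat_lit 0) (nat_lit 0) (XT.lf (nat_lit 0) (nat_lit 146761896363) (nat_lit 76) (nat_lit 1779163737825) (nat_lit 76) (nat_lit 1732903108397) (nat_lit 1) (nat_lit 4) (nat_lit 2) (nat_lit 5) (nat_lit 2) (nat_lit 4) (nat_lit 511) (nat_lit 421) (nat_lit 268)) (XT.nd (nat_lit 78) (nat_lit 0) (nat_lit 0) (XT.lf (nat_lit 0) (nat_lit 387927367214) (nat_lit 76) (nat_lit 1800449538388) (nat_lit 76) (nat_lit 1754188882594) (nat_lit 1) (nat_lit 4) (nat_lit 2) (nat_lit 5) (nat_lit 2) (nat_lit 4) (nat_lit 512) (nat_lit 421) (nat_lit 267)) (XT.lf (nat_lit 0) (nat_lit 648385823905) (nat_lit 76) (nat_lit 1823438331802) (nat_lit 76) (nat_lit 1777177651595) (nat_lit 1) (nat_lit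 4) (nat_lit 2) (nat_lit 5) (nat_lit 2) (nat_lit 4) (nat_lit 513) (nat_lit 421) (nat_lit 266)))))) (XT.nd (nat_lit 468) (nat_lit 0) (nat_lit 0) (XT.nd (nat_lit 234) (nat_lit 0) (nat_lit 0) (XT.nd (nat_lit 78) (nat_lit 0) (nat_lit 0) (XT.lf (nat_lit 0) (nat_lit 929680723957) (nat_lit 76) (nat_lit 1848266347953) (nat_lit 76) (nat_lit 1802005645142) (nat_lit 1) (nat_lit 4) (nat_lit 2) (nat_lit 5) (nat_lit 2) (nat_lit 4) (nat_lit 514) (nat_lit 421) (nat_lit 265)) (XT.nd (nat_lit 78) (nat_lit 0) (nat_lit 0) (XT.lf (nat_lit 0) (nat_lit 1233479000111) (nat_lit 76) (nat_lit 1875080715827) (nat_lit 76) (nat_lit 1828819992085) (nat_lit 1) (nat_lit 4) (nat_lit 2) (nat_lit 5) (nat_lit 2) (nat_lit 4) (nat_lit 515) (nat_lit 421) (nat_lit 264)) (XT.lf (nat_lit 0) (nat_lit 1561580938448) (nat_lit 76) (nat_lit 1904040335380) (nat_lit 76) (nat_lit 1857779592258) (nat_lit 1) (nat_lit 4) (nat_lit 2) (nat_lit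 5) (nat_lit 2) (nat_lit 4) (nat_lit 516) (nat_lit 421) (nat_lit 263)))) (XT.nd (nat_lit 78) (nat_lit 0) (nat_lit 0) (XT.lf (nat_lit 0) (nat_lit 1915930846750) (nat_lit 76) (nat_lit 1935316819174) (nat_lit 76) (nat_lit 1889056058108) (nat_lit 1) (nat_lit 4) (nat_lit 2) (nat_lit 5) (nat_lit 2) (nat_lit 4) (nat_lit 517) (nat_lit 421) (nat_lit 262)) (XT.nd (nat_lit 78) (nat_lit 0) (nat_lit 0) (XT.lf (nat_lit 0) (nat_lit 2298628576326) (nat_lit 76) (nat_lit 1969095509334) (nat_lit 76) (nat_lit 1922834731653) (nat_lit 1) (nat_lit 4) (nat_lit 2) (nat_lit 5) (nat_lit 2) (nat_lit 4) (nat_lit 518) (nat_lit 421) (nat_lit 261)) (XT.lf (nat_lit 0) (nat_lit 2711941965574) (nat_lit 76) (nat_lit 2005576575876) (nat_lit 76) (nat_lit 1959315782810) (nat_lit 1) (nat_lit 4) (nat_lit 2) (nat_lit 5) (nat_lit 2) (nat_lit 4) (nat_lit 519) (nat_lit 421) (nat_lit 260))))) (XT.nd (nat_lit 234) (nat_lit 0) (nat_lit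 0) (XT.nd (nat_lit 78) (nat_lit 0) (nat_lit 0) (XT.lf (nat_lit 0) (nat_lit 3158320279023) (nat_lit 76) (nat_lit 2044976202898) (nat_lit 76) (nat_lit 1998715395588) (nat_lit 1) (nat_lit 4) (nat_lit 2) (nat_lit 5) (nat_lit 2) (nat_lit 4) (nat_lit 520) (nat_lit 421) (nat_lit 259)) (XT.nd (nat_lit 78) (nat_lit 0) (nat_lit 0) (XT.lf (nat_lit 0) (nat_lit 3640408721492) (nat_lit 76) (nat_lit 2087527869672) (nat_lit 76) (nat_lit 2041267049172) (nat_lit 1) (nat_lit 4) (nat_lit 2) (nat_lit 5) (nat_lit 2) (nat_lit 4) (nat_lit 521) (nat_lit 421) (nat_lit 258)) (XT.lf (nat_lit 0) (nat_lit 4161064113382) (nat_lit 76) (nat_lit 2133483734223) (nat_lit 76) (nat_lit 2087222901510) (nat_lit 1) (nat_lit 4) (nat_lit 2) (nat_lit 5) (nat_lit 2) (nat_lit 4) (nat_lit 522) (nat_lit 421) (nat_lit 257)))) (XT.nd (nat_lit 78) (nat_lit 0) (nat_lit 0) (XT.lf (nat_lit 0) (nat_lit 4723371819977) (nat_lit 76) (nat_lit 2183116127599)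 (nat_lit 76) (nat_lit 2136855283579) (nat_lit 1) (nat_lit 4) (nat_lit 2) (nat_lit 5) (nat_lit 2) (nat_lit 4) (nat_lit 523) (nat_lit 421) (nat_lit 256)) (XT.nd (nat_lit 78) (nat_lit 0) (nat_lit 0) (XT.lf (nat_lit 0) (nat_lit 5330664035096) (nat_lit 76) (nat_lit 2236719167688) (nat_lit 76) (nat_lit 2190458313197) (nat_lit 1) (nat_lit 4) (nat_lit 2) (nat_lit 5) (nat_lit 2) (nat_lit 4) (nat_lit 524) (nat_lit 421) (nat_lit 255)) (XT.lf (nat_lit 0) (nat_lit 5986539527419) (nat_lit 76) (nat_lit 2294610502135) (nat_lit 76) (nat_lit 2248349637949) (nat_lit 1) (nat_lit 4) (nat_lit 2) (nat_lit 5) (nat_lit 2) (nat_lit 4) (nat_lit 525) (nat_lit 421) (nat_lit 254))))))))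
noncomputable def xc150 : XT := (XT.nd (nat_lit 56004) (nat_lit 0) (nat_lit 1444) (XT.nd (nat_lit 55146) (nat_lit 0) (nat_lit 3116) (XT.nd (nat_lit 54678) (nat_lit 0) (nat_lit 4408) (XT.nd (nat_lit 54444) (nat_lit 0) (nat_lit 5168) (XT.nd (nat_lit 54366) (nat_lit 0) (nat_lit 5168) (XT.lf (nat_lit 0) (nat_lit 6694884966532) (nat_lit 76) (nat_lit 2357133190699) (nat_lit 76) (nat_lit 2310872317537) (nat_lit 1) (nat_lit 4) (nat_lit 2) (nat_lit 5) (nat_lit 2) (nat_lit 4) (nat_lit 526) (nat_lit 421) (nat_lit 253)) (XT.lf (nat_lit 0) (nat_lit 9578323689) (nat_lit 532) (nat_lit 757390366) (nat_lit 532) (nat_lit 757390366) (nat_lit 69) (nat_lit 3) (nat_lit 76) (nat_lit 3) (nat_lit 76) (nat_lit 5) (nat_lit 422) (nat_lit 422) (nat_lit 356))) (XT.nd (nat_lit 78) (nat_lit 0) (nat_lit 76) (XT.lf (nat_lit 76) (nat_lit 9850118268) (nat_lit 0) (nat_lit 10435463479) (nat_lit 532) (nat_lit 2758977358) (nat_lit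 70) (nat_lit 5) (nat_lit 69) (nat_lit 3) (nat_lit 76) (nat_lit 5) (nat_lit 423) (nat_lit 422) (nat_lit 355)) (XT.nd (nat_lit 78) (nat_lit 0) (nat_lit 0) (XT.lf (nat_lit 0) (nat_lit 21549598645) (nat_lit 456) (nat_lit 1782200568) (nat_lit 532) (nat_lit 636205217) (nat_lit 70) (nat_lit 5) (nat_lit 76) (nat_lit 5) (nat_lit 77) (nat_lit 5) (nat_lit 424) (nat_lit 422) (nat_lit 354)) (XT.lf (nat_lit 76) (nat_lit 10804761391) (nat_lit 0) (nat_lit 12629195317) (nat_lit 532) (nat_lit 1489838928) (nat_lit 71) (nat_lit 5) (nat_lit 70) (nat_lit 5) (nat_lit 77) (nat_lit 5) (nat_lit 425) (nat_lit 422) (nat_lit 353))))) (XT.nd (nat_lit 234) (nat_lit 380) (nat_lit 0) (XT.nd (nat_lit 78) (nat_lit 456) (nat_lit 0) (XT.lf (nat_lit 76) (nat_lit 24492526228) (nat_lit 0) (nat_lit 1014264776) (nat_lit 532) (nat_lit 446248183) (nat_lit 71) (nat_lit 5) (nat_lit 70) (nat_lit 5) (nat_lit 77) (nat_lit 5) (nat_lit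 426) (nat_lit 422) (nat_lit 352)) (XT.nd (nat_lit 78) (nat_lit 0) (nat_lit 0) (XT.lf (nat_lit 0) (nat_lit 1230644954) (nat_lit 532) (nat_lit 14496734582) (nat_lit 608) (nat_lit 11289229153) (nat_lit 64) (nat_lit 5) (nat_lit 71) (nat_lit 5) (nat_lit 72) (nat_lit 5) (nat_lit 427) (nat_lit 422) (nat_lit 351)) (XT.lf (nat_lit 0) (nat_lit 3075097919) (nat_lit 532) (nat_lit 507464311) (nat_lit 608) (nat_lit 24577178622) (nat_lit 64) (nat_lit 5) (nat_lit 71) (nat_lit 5) (nat_lit 72) (nat_lit 5) (nat_lit 428) (nat_lit 422) (nat_lit 350)))) (XT.nd (nat_lit 78) (nat_lit 456) (nat_lit 0) (XT.lf (nat_lit 0) (nat_lit 5666409438) (nat_lit 532) (nat_lit 14242580644) (nat_lit 76) (nat_lit 9437394657) (nat_lit 65) (nat_lit 5) (nat_lit 72) (nat_lit 5) (nat_lit 66) (nat_lit 5) (nat_lit 429) (nat_lit 422) (nat_lit 349)) (XT.nd (nat_lit 78) (nat_lit 0) (nat_lit 0) (XT.lf (nat_lit 0) (nat_lit 1331056559) (nat_lit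 456) (nat_lit 7264721882) (nat_lit 532) (nat_lit 22021726429) (nat_lit 59) (nat_lit 5) (nat_lit 65) (nat_lit 5) (nat_lit 66) (nat_lit 5) (nat_lit 430) (nat_lit 422) (nat_lit 348)) (XT.lf (nat_lit 0) (nat_lit 12304635084) (nat_lit 532) (nat_lit 13170960007) (nat_lit 76) (nat_lit 6471113046) (nat_lit 59) (nat_lit 5) (nat_lit 66) (nat_lit 5) (nat_lit 60) (nat_lit 5) (nat_lit 431) (nat_lit 422) (nat_lit 347)))))) (XT.nd (nat_lit 390) (nat_lit 608) (nat_lit 0) (XT.nd (nat_lit 156) (nat_lit 456) (nat_lit 0) (XT.nd (nat_lit 78) (nat_lit 0) (nat_lit 0) (XT.lf (nat_lit 0) (nat_lit 4249745007) (nat_lit 228) (nat_lit 12343855950) (nat_lit 304) (nat_lit 16765978887) (nat_lit 56) (nat_lit 5) (nat_lit 59) (nat_lit 5) (nat_lit 60) (nat_lit 5) (nat_lit 432) (nat_lit 422) (nat_lit 346)) (XT.lf (nat_lit 0) (nat_lit 21632225261) (nat_lit 304) (nat_lit 11105366581) (nat_lit 76) (nat_lit 2115370074) (nat_lit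 56) (nat_lit 5) (nat_lit 60) (nat_lit 5) (nat_lit 57) (nat_lit 5) (nat_lit 433) (nat_lit 422) (nat_lit 345))) (XT.nd (nat_lit 78) (nat_lit 228) (nat_lit 0) (XT.lf (nat_lit 0) (nat_lit 8433029461) (nat_lit 228) (nat_lit 19157729403) (nat_lit 304) (nat_lit 8833713771) (nat_lit 53) (nat_lit 5) (nat_lit 56) (nat_lit 5) (nat_lit 57) (nat_lit 5) (nat_lit 434) (nat_lit 422) (nat_lit 344)) (XT.nd (nat_lit 78) (nat_lit 228) (nat_lit 0) (XT.lf (nat_lit 0) (nat_lit 30158598931) (nat_lit 228) (nat_lit 4164712116) (nat_lit 304) (nat_lit 3774609657) (nat_lit 53) (nat_lit 5) (nat_lit 56) (nat_lit 5) (nat_lit 57) (nat_lit 5) (nat_lit 435) (nat_lit 422) (nat_lit 343)) (XT.lf (nat_lit 0) (nat_lit 2244063609) (nat_lit 228) (nat_lit 25785174689) (nat_lit 76) (nat_lit 11821611726) (nat_lit 50) (nat_lit 5) (nat_lit 53) (nat_lit 5) (nat_lit 51) (nat_lit 5) (nat_lit 436) (nat_lit 422) (nat_lit 342))))) (XT.nd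 (nat_lit 234) (nat_lit 228) (nat_lit 0) (XT.nd (nat_lit 78) (nat_lit 380) (nat_lit 0) (XT.lf (nat_lit 0) (nat_lit 8865441627) (nat_lit 228) (nat_lit 3663393853) (nat_lit 76) (nat_lit 29181326506) (nat_lit 50) (nat_lit 5) (nat_lit 53) (nat_lit 5) (nat_lit 51) (nat_lit 5) (nat_lit 437) (nat_lit 422) (nat_lit 341)) (XT.nd (nat_lit 78) (nat_lit 152) (nat_lit 0) (XT.lf (nat_lit 0) (nat_lit 16637682478) (nat_lit 304) (nat_lit 22506224279) (nat_lit 76) (nat_lit 4524622411) (nat_lit 47) (nat_lit 5) (nat_lit 51) (nat_lit 5) (nat_lit 48) (nat_lit 5) (nat_lit 438) (nat_lit 422) (nat_lit 340)) (XT.lf (nat_lit 0) (nat_lit 2180792993) (nat_lit 152) (nat_lit 23326415473) (nat_lit 228) (nat_lit 20238319077) (nat_lit 45) (nat_lit 5) (nat_lit 47) (nat_lit 5) (nat_lit 48) (nat_lit 5) (nat_lit 439) (nat_lit 422) (nat_lit 339)))) (XT.nd (nat_lit 78) (nat_lit 228) (nat_lit 0) (XT.lf (nat_lit 0) (nat_lit 30115780325)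 (nat_lit 152) (nat_lit 5580957607) (nat_lit 228) (nat_lit 12243114664) (nat_lit 45) (nat_lit 5) (nat_lit 47) (nat_lit 5) (nat_lit 48) (nat_lit 5) (nat_lit 440) (nat_lit 422) (nat_lit 338)) (XT.nd (nat_lit 78) (nat_lit 76) (nat_lit 0) (XT.lf (nat_lit 0) (nat_lit 10150148256) (nat_lit 152) (nat_lit 37117492293) (nat_lit 228) (nat_lit 2996788201) (nat_lit 43) (nat_lit 5) (nat_lit 45) (nat_lit 5) (nat_lit 46) (nat_lit 5) (nat_lit 441) (nat_lit 422) (nat_lit 337)) (XT.lf (nat_lit 0) (nat_lit 7280040698) (nat_lit 228) (nat_lit 11692533121) (nat_lit 76) (nat_lit 33737717409) (nat_lit 42) (nat_lit 5) (nat_lit 45) (nat_lit 5) (nat_lit 43) (nat_lit 5) (nat_lit 442) (nat_lit 422) (nat_lit 336))))))) (XT.nd (nat_lit 858) (nat_lit 684) (nat_lit 0) (XT.nd (nat_lit 390) (nat_lit 532) (nat_lit 0) (XT.nd (nat_lit 156) (nat_lit 304) (nat_lit 0) (XT.nd (nat_lit 78) (nat_lit 0) (nat_lit 0) (XT.lf (nat_lit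 0) (nat_lit 18721288193) (nat_lit 228) (nat_lit 35421999505) (nat_lit 76) (nat_lit 1161975336) (nat_lit 40) (nat_lit 5) (nat_lit 43) (nat_lit 5) (nat_lit 41) (nat_lit 5) (nat_lit 443) (nat_lit 422) (nat_lit 335)) (XT.lf (nat_lit 0) (nat_lit 31894542513) (nat_lit 228) (nat_lit 3939691787) (nat_lit 76) (nat_lit 22208263166) (nat_lit 40) (nat_lit 5) (nat_lit 43) (nat_lit 5) (nat_lit 41) (nat_lit 5) (nat_lit 444) (nat_lit 422) (nat_lit 334))) (XT.nd (nat_lit 78) (nat_lit 152) (nat_lit 0) (XT.lf (nat_lit 0) (nat_lit 31637907248) (nat_lit 152) (nat_lit 15240859554) (nat_lit 228) (nat_lit 14059376413) (nat_lit 38) (nat_lit 5) (nat_lit 40) (nat_lit 5) (nat_lit 41) (nat_lit 5) (nat_lit 445) (nat_lit 422) (nat_lit 333)) (XT.nd (nat_lit 78) (nat_lit 76) (nat_lit 0) (XT.lf (nat_lit 0) (nat_lit 6370432270) (nat_lit 76) (nat_lit 57119677721) (nat_lit 152) (nat_lit 541061395) (nat_lit 37) (nat_lit 5)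 (nat_lit 38) (nat_lit 5) (nat_lit 39) (nat_lit 4) (nat_lit 446) (nat_lit 422) (nat_lit 332)) (XT.lf (nat_lit 0) (nat_lit 14569584457) (nat_lit 152) (nat_lit 21507335470) (nat_lit 76) (nat_lit 31170542765) (nat_lit 36) (nat_lit 5) (nat_lit 38) (nat_lit 5) (nat_lit 37) (nat_lit 5) (nat_lit 447) (nat_lit 422) (nat_lit 331))))) (XT.nd (nat_lit 234) (nat_lit 304) (nat_lit 0) (XT.nd (nat_lit 78) (nat_lit 76) (nat_lit 0) (XT.lf (nat_lit 0) (nat_lit 18441158440) (nat_lit 152) (nat_lit 12858817760) (nat_lit 228) (nat_lit 39384747755) (nat_lit 34) (nat_lit 5) (nat_lit 36) (nat_lit 5) (nat_lit 37) (nat_lit 5) (nat_lit 448) (nat_lit 422) (nat_lit 330)) (XT.nd (nat_lit 78) (nat_lit 76) (nat_lit 0) (XT.lf (nat_lit 0) (nat_lit 50262615260) (nat_lit 228) (nat_lit 11856031987) (nat_lit 76) (nat_lit 12206814500) (nat_lit 34) (nat_lit 5) (nat_lit 37) (nat_lit 5) (nat_lit 35) (nat_lit 4) (nat_lit 449) (nat_lit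 422) (nat_lit 329)) (XT.lf (nat_lit 0) (nat_lit 33077926599) (nat_lit 76) (nat_lit 38790785531) (nat_lit 152) (nat_lit 6298631539) (nat_lit 33) (nat_lit 5) (nat_lit 34) (nat_lit 5) (nat_lit 35) (nat_lit 4) (nat_lit 450) (nat_lit 422) (nat_lit 328)))) (XT.nd (nat_lit 78) (nat_lit 228) (nat_lit 0) (XT.lf (nat_lit 0) (nat_lit 12571612095) (nat_lit 152) (nat_lit 333425719) (nat_lit 76) (nat_lit 69360381983) (nat_lit 32) (nat_lit 5) (nat_lit 34) (nat_lit 5) (nat_lit 33) (nat_lit 5) (nat_lit 451) (nat_lit 422) (nat_lit 327)) (XT.nd (nat_lit 78) (nat_lit 76) (nat_lit 0) (XT.lf (nat_lit 0) (nat_lit 34217009135) (nat_lit 228) (nat_lit 36625827805) (nat_lit 76) (nat_lit 15706951786) (nat_lit 30) (nat_lit 5) (nat_lit 33) (nat_lit 5) (nat_lit 31) (nat_lit 4) (nat_lit 452) (nat_lit 422) (nat_lit 326)) (XT.lf (nat_lit 0) (nat_lit 13373323878) (nat_lit 76) (nat_lit 44884114688) (nat_lit 152) (nat_lit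 32866397172) (nat_lit 29) (nat_lit 5) (nat_lit 30) (nat_lit 5) (nat_lit 31) (nat_lit 4) (nat_lit 453) (nat_lit 422) (nat_lit 325)))))) (XT.nd (nat_lit 468) (nat_lit 304) (nat_lit 0) (XT.nd (nat_lit 234) (nat_lit 228) (nat_lit 0) (XT.nd (nat_lit 78) (nat_lit 152) (nat_lit 0) (XT.lf (nat_lit 0) (nat_lit 69450522182) (nat_lit 76) (nat_lit 15769307635) (nat_lit 152) (nat_lit 10764079071) (nat_lit 29) (nat_lit 5) (nat_lit 30) (nat_lit 5) (nat_lit 31) (nat_lit 4) (nat_lit 454) (nat_lit 422) (nat_lit 324)) (XT.nd (nat_lit 78) (nat_lit 0) (nat_lit 0) (XT.lf (nat_lit 0) (nat_lit 13572603193) (nat_lit 152) (nat_lit 71593948698) (nat_lit 76) (nat_lit 15951274490) (nat_lit 27) (nat_lit 5) (nat_lit 29) (nat_lit 5) (nat_lit 28) (nat_lit 4) (nat_lit 455) (nat_lit 422) (nat_lit 323)) (XT.lf (nat_lit 0) (nat_lit 40426064814) (nat_lit 152) (nat_lit 15742380701) (nat_lit 76) (nat_lit 50379534525) (nat_lit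 27) (nat_lit 5) (nat_lit 29) (nat_lit 5) (nat_lit 28) (nat_lit 4) (nat_lit 456) (nat_lit 422) (nat_lit 322)))) (XT.nd (nat_lit 78) (nat_lit 152) (nat_lit 0) (XT.lf (nat_lit 0) (nat_lit 46920153273) (nat_lit 76) (nat_lit 23633746685) (nat_lit 152) (nat_lit 41768558727) (nat_lit 26) (nat_lit 5) (nat_lit 27) (nat_lit 5) (nat_lit 28) (nat_lit 4) (nat_lit 457) (nat_lit 422) (nat_lit 321)) (XT.nd (nat_lit 78) (nat_lit 152) (nat_lit 0) (XT.lf (nat_lit 0) (nat_lit 103807922997) (nat_lit 152) (nat_lit 3325655214) (nat_lit 0) (nat_lit 11368040916) (nat_lit 26) (nat_lit 5) (nat_lit 28) (nat_lit 4) (nat_lit 26) (nat_lit 4) (nat_lit 458) (nat_lit 422) (nat_lit 320)) (XT.lf (nat_lit 0) (nat_lit 16086004589) (nat_lit 152) (nat_lit 58983662292) (nat_lit 76) (nat_lit 49896132560) (nat_lit 24) (nat_lit 5) (nat_lit 26) (nat_lit 5) (nat_lit 25) (nat_lit 4) (nat_lit 459) (nat_lit 422) (nat_lit 319))))) (XT.nd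 (nat_lit 234) (nat_lit 152) (nat_lit 0) (XT.nd (nat_lit 78) (nat_lit 76) (nat_lit 0) (XT.lf (nat_lit 0) (nat_lit 9153723363) (nat_lit 76) (nat_lit 39691828174) (nat_lit 152) (nat_lit 83046125684) (nat_lit 23) (nat_lit 5) (nat_lit 24) (nat_lit 5) (nat_lit 25) (nat_lit 4) (nat_lit 460) (nat_lit 422) (nat_lit 318)) (XT.nd (nat_lit 78) (nat_lit 76) (nat_lit 0) (XT.lf (nat_lit 0) (nat_lit 85842676449) (nat_lit 152) (nat_lit 53156291110) (nat_lit 0) (nat_lit 243312816) (nat_lit 23) (nat_lit 5) (nat_lit 25) (nat_lit 4) (nat_lit 23) (nat_lit 4) (nat_lit 461) (nat_lit 422) (nat_lit 317)) (XT.lf (nat_lit 0) (nat_lit 22060784471) (nat_lit 76) (nat_lit 105298354091) (nat_lit 76) (nat_lit 19697028106) (nat_lit 22) (nat_lit 4) (nat_lit 23) (nat_lit 5) (nat_lit 23) (nat_lit 4) (nat_lit 462) (nat_lit 422) (nat_lit 316)))) (XT.nd (nat_lit 78) (nat_lit 76) (nat_lit 0) (XT.lf (nat_lit 0) (nat_lit 17355457778)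 (nat_lit 152) (nat_lit 49503790796) (nat_lit 76) (nat_lit 88484645842) (nat_lit 21) (nat_lit 5) (nat_lit 23) (nat_lit 5) (nat_lit 22) (nat_lit 4) (nat_lit 463) (nat_lit 422) (nat_lit 315)) (XT.nd (nat_lit 78) (nat_lit 0) (nat_lit 0) (XT.lf (nat_lit 0) (nat_lit 33171421298) (nat_lit 76) (nat_lit 23932543449) (nat_lit 152) (nat_lit 107086069091) (nat_lit 20) (nat_lit 5) (nat_lit 21) (nat_lit 5) (nat_lit 22) (nat_lit 4) (nat_lit 464) (nat_lit 422) (nat_lit 314)) (XT.lf (nat_lit 0) (nat_lit 101958643978) (nat_lit 152) (nat_lit 48937642904) (nat_lit 0) (nat_lit 22693474390) (nat_lit 20) (nat_lit 5) (nat_lit 22) (nat_lit 4) (nat_lit 20) (nat_lit 4) (nat_lit 465) (nat_lit 422) (nat_lit 313))))))))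
noncomputable def xc151 : XT := (XT.nd (nat_lit 1716) (nat_lit 380) (nat_lit 0) (XT.nd (nat_lit 858) (nat_lit 456) (nat_lit 0) (XT.nd (nat_lit 390) (nat_lit 228) (nat_lit 0) (XT.nd (nat_lit 156) (nat_lit 152) (nat_lit 0) (XT.nd (nat_lit 78) (nat_lit 76) (nat_lit 0) (XT.lf (nat_lit 0) (nat_lit 41143104613) (nat_lit 76) (nat_lit 110868055305) (nat_lit 76) (nat_lit 31601550174) (nat_lit 19) (nat_lit 4) (nat_lit 20) (nat_lit 5) (nat_lit 20) (nat_lit 4) (nat_lit 466) (nat_lit 422) (nat_lit 312)) (XT.lf (nat_lit 0) (nat_lit 12419730099) (nat_lit 152) (nat_lit 53434703139) (nat_lit 76) (nat_lit 128450993128) (nat_lit 18) (nat_lit 5) (nat_lit 20) (nat_lit 5) (nat_lit 19) (nat_lit 4) (nat_lit 467) (nat_lit 422) (nat_lit 311))) (XT.nd (nat_lit 78) (nat_lit 76) (nat_lit 0) (XT.lf (nat_lit 0) (nat_lit 44105522264) (nat_lit 76) (nat_lit 15209097458) (nat_lit 152) (nat_lit 146388537887) (nat_lit 17)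 (nat_lit 5) (nat_lit 18) (nat_lit 5) (nat_lit 19) (nat_lit 4) (nat_lit 468) (nat_lit 422) (nat_lit 310)) (XT.nd (nat_lit 78) (nat_lit 76) (nat_lit 0) (XT.lf (nat_lit 0) (nat_lit 112408213551) (nat_lit 152) (nat_lit 66398610373) (nat_lit 0) (nat_lit 39010114517) (nat_lit 17) (nat_lit 5) (nat_lit 19) (nat_lit 4) (nat_lit 17) (nat_lit 4) (nat_lit 469) (nat_lit 422) (nat_lit 309)) (XT.lf (nat_lit 0) (nat_lit 37915193054) (nat_lit 76) (nat_lit 133139598529) (nat_lit 76) (nat_lit 59740590546) (nat_lit 16) (nat_lit 4) (nat_lit 17) (nat_lit 5) (nat_lit 17) (nat_lit 4) (nat_lit 470) (nat_lit 422) (nat_lit 308))))) (XT.nd (nat_lit 234) (nat_lit 76) (nat_lit 0) (XT.nd (nat_lit 78) (nat_lit 152) (nat_lit 0) (XT.lf (nat_lit 0) (nat_lit 154347545216) (nat_lit 76) (nat_lit 81859639356) (nat_lit 76) (nat_lit 8459789755) (nat_lit 16) (nat_lit 4) (nat_lit 17) (nat_lit 5) (nat_lit 17) (nat_lit 4) (nat_lit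 471) (nat_lit 422) (nat_lit 307)) (XT.nd (nat_lit 78) (nat_lit 0) (nat_lit 0) (XT.lf (nat_lit 0) (nat_lit 20332208792) (nat_lit 76) (nat_lit 24731655472) (nat_lit 152) (nat_lit 214455133563) (nat_lit 14) (nat_lit 5) (nat_lit 15) (nat_lit 5) (nat_lit 16) (nat_lit 4) (nat_lit 472) (nat_lit 422) (nat_lit 306)) (XT.lf (nat_lit 0) (nat_lit 105833752312) (nat_lit 152) (nat_lit 131564602044) (nat_lit 0) (nat_lit 37869538950) (nat_lit 14) (nat_lit 5) (nat_lit 16) (nat_lit 4) (nat_lit 14) (nat_lit 4) (nat_lit 473) (nat_lit 422) (nat_lit 305)))) (XT.nd (nat_lit 78) (nat_lit 76) (nat_lit 0) (XT.lf (nat_lit 0) (nat_lit 172106415145) (nat_lit 152) (nat_lit 15977407495) (nat_lit 0) (nat_lit 104141583168) (nat_lit 14) (nat_lit 5) (nat_lit 16) (nat_lit 4) (nat_lit 14) (nat_lit 4) (nat_lit 474) (nat_lit 422) (nat_lit 304)) (XT.nd (nat_lit 78) (nat_lit 0) (nat_lit 0) (XT.lf (nat_lit 0) (nat_lit 114586640509)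 (nat_lit 76) (nat_lit 131848953696) (nat_lit 76) (nat_lit 63883548927) (nat_lit 13) (nat_lit 4) (nat_lit 14) (nat_lit 5) (nat_lit 14) (nat_lit 4) (nat_lit 475) (nat_lit 422) (nat_lit 303)) (XT.lf (nat_lit 0) (nat_lit 256502307680) (nat_lit 76) (nat_lit 70644572576) (nat_lit 76) (nat_lit 2678637445) (nat_lit 13) (nat_lit 4) (nat_lit 14) (nat_lit 5) (nat_lit 14) (nat_lit 4) (nat_lit 476) (nat_lit 422) (nat_lit 302)))))) (XT.nd (nat_lit 390) (nat_lit 228) (nat_lit 0) (XT.nd (nat_lit 156) (nat_lit 76) (nat_lit 0) (XT.nd (nat_lit 78) (nat_lit 0) (nat_lit 0) (XT.lf (nat_lit 0) (nat_lit 60371487188) (nat_lit 76) (nat_lit 1329432713) (nat_lit 152) (nat_lit 288953384132) (nat_lit 11) (nat_lit 5) (nat_lit 12) (nat_lit 5) (nat_lit 13) (nat_lit 4) (nat_lit 477) (nat_lit 422) (nat_lit 301)) (XT.lf (nat_lit 0) (nat_lit 134910384749) (nat_lit 152) (nat_lit 165949414256) (nat_lit 0) (nat_lit 71978087612)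 (nat_lit 11) (nat_lit 5) (nat_lit 13) (nat_lit 4) (nat_lit 11) (nat_lit 4) (nat_lit 478) (nat_lit 422) (nat_lit 300))) (XT.nd (nat_lit 78) (nat_lit 76) (nat_lit 0) (XT.lf (nat_lit 0) (nat_lit 214010192761) (nat_lit 152) (nat_lit 31705770431) (nat_lit 0) (nat_lit 151077505791) (nat_lit 11) (nat_lit 5) (nat_lit 13) (nat_lit 4) (nat_lit 11) (nat_lit 4) (nat_lit 479) (nat_lit 422) (nat_lit 299)) (XT.nd (nat_lit 78) (nat_lit 0) (nat_lit 0) (XT.lf (nat_lit 0) (nat_lit 119240498046) (nat_lit 76) (nat_lit 183064349450) (nat_lit 76) (nat_lit 120131301524) (nat_lit 10) (nat_lit 4) (nat_lit 11) (nat_lit 5) (nat_lit 11) (nat_lit 4) (nat_lit 480) (nat_lit 422) (nat_lit 298)) (XT.lf (nat_lit 0) (nat_lit 284063888311) (nat_lit 76) (nat_lit 114465227039) (nat_lit 76) (nat_lit 51531844895) (nat_lit 10) (nat_lit 4) (nat_lit 11) (nat_lit 5) (nat_lit 11) (nat_lit 4) (nat_lit 481) (nat_lit 422) (nat_lit 297)))))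 (XT.nd (nat_lit 234) (nat_lit 76) (nat_lit 0) (XT.nd (nat_lit 78) (nat_lit 76) (nat_lit 0) (XT.lf (nat_lit 0) (nat_lit 21426438720) (nat_lit 152) (nat_lit 18366699067) (nat_lit 76) (nat_lit 440059286357) (nat_lit 9) (nat_lit 5) (nat_lit 11) (nat_lit 5) (nat_lit 10) (nat_lit 4) (nat_lit 482) (nat_lit 422) (nat_lit 296)) (XT.nd (nat_lit 78) (nat_lit 0) (nat_lit 0) (XT.lf (nat_lit 0) (nat_lit 102083291924) (nat_lit 152) (nat_lit 365654066969) (nat_lit 0) (nat_lit 43811089938) (nat_lit 8) (nat_lit 5) (nat_lit 10) (nat_lit 4) (nat_lit 8) (nat_lit 4) (nat_lit 483) (nat_lit 422) (nat_lit 295)) (XT.lf (nat_lit 0) (nat_lit 190740756508) (nat_lit 152) (nat_lit 222447245107) (nat_lit 0) (nat_lit 132468308862) (nat_lit 8) (nat_lit 5) (nat_lit 10) (nat_lit 4) (nat_lit 8) (nat_lit 4) (nat_lit 484) (nat_lit 422) (nat_lit 294)))) (XT.nd (nat_lit 78) (nat_lit 76) (nat_lit 0) (XT.lf (nat_lit 0) (nat_lit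 286490127000) (nat_lit 152) (nat_lit 67785277495) (nat_lit 0) (nat_lit 228217451891) (nat_lit 8) (nat_lit 5) (nat_lit 10) (nat_lit 4) (nat_lit 8) (nat_lit 4) (nat_lit 485) (nat_lit 422) (nat_lit 293)) (XT.nd (nat_lit 78) (nat_lit 0) (nat_lit 0) (XT.lf (nat_lit 0) (nat_lit 104474593523) (nat_lit 76) (nat_lit 287936830041) (nat_lit 76) (nat_lit 229663944317) (nat_lit 7) (nat_lit 4) (nat_lit 8) (nat_lit 5) (nat_lit 8) (nat_lit 4) (nat_lit 486) (nat_lit 422) (nat_lit 292)) (XT.lf (nat_lit 0) (nat_lit 294368999541) (nat_lit 76) (nat_lit 214290170896) (nat_lit 76) (nat_lit 156017090159) (nat_lit 7) (nat_lit 4) (nat_lit 8) (nat_lit 5) (nat_lit 8) (nat_lit 4) (nat_lit 487) (nat_lit 422) (nat_lit 291))))))) (XT.nd (nat_lit 858) (nat_lit 152) (nat_lit 0) (XT.nd (nat_lit 390) (nat_lit 76) (nat_lit 0) (XT.nd (nat_lit 156) (nat_lit 76) (nat_lit 0) (XT.nd (nat_lit 78) (nat_lit 76) (nat_lit 0) (XT.lf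 (nat_lit 0) (nat_lit 499453788153) (nat_lit 76) (nat_lit 134752372027) (nat_lit 76) (nat_lit 76479110722) (nat_lit 7) (nat_lit 4) (nat_lit 8) (nat_lit 5) (nat_lit 8) (nat_lit 4) (nat_lit 488) (nat_lit 422) (nat_lit 290)) (XT.lf (nat_lit 0) (nat_lit 8950037076) (nat_lit 152) (nat_lit 39657351379) (nat_lit 76) (nat_lit 711749529677) (nat_lit 6) (nat_lit 5) (nat_lit 8) (nat_lit 5) (nat_lit 7) (nat_lit 4) (nat_lit 489) (nat_lit 422) (nat_lit 289))) (XT.nd (nat_lit 78) (nat_lit 0) (nat_lit 0) (XT.lf (nat_lit 0) (nat_lit 101932562220) (nat_lit 152) (nat_lit 663547204346) (nat_lit 0) (nat_lit 47975540641) (nat_lit 5) (nat_lit 5) (nat_lit 7) (nat_lit 4) (nat_lit 5) (nat_lit 4) (nat_lit 490) (nat_lit 422) (nat_lit 288)) (XT.nd (nat_lit 78) (nat_lit 0) (nat_lit 0) (XT.lf (nat_lit 0) (nat_lit 204728178653) (nat_lit 152) (nat_lit 515112405280) (nat_lit 0) (nat_lit 150771024351) (nat_lit 5) (nat_lit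 5) (nat_lit 7) (nat_lit 4) (nat_lit 5) (nat_lit 4) (nat_lit 491) (nat_lit 422) (nat_lit 287)) (XT.lf (nat_lit 0) (nat_lit 315746975647) (nat_lit 152) (nat_lit 354803776864) (nat_lit 0) (nat_lit 261789698454) (nat_lit 5) (nat_lit 5) (nat_lit 7) (nat_lit 4) (nat_lit 5) (nat_lit 4) (nat_lit 492) (nat_lit 422) (nat_lit 286))))) (XT.nd (nat_lit 234) (nat_lit 0) (nat_lit 0) (XT.nd (nat_lit 78) (nat_lit 76) (nat_lit 0) (XT.lf (nat_lit 0) (nat_lit 435646842370) (nat_lit 152) (nat_lit 181671342039) (nat_lit 0) (nat_lit 381689451388) (nat_lit 5) (nat_lit 5) (nat_lit 7) (nat_lit 4) (nat_lit 5) (nat_lit 4) (nat_lit 493) (nat_lit 422) (nat_lit 285)) (XT.nd (nat_lit 78) (nat_lit 0) (nat_lit 0) (XT.lf (nat_lit 0) (nat_lit 5590530136) (nat_lit 76) (nat_lit 559682218798) (nat_lit 76) (nat_lit 505724722457) (nat_lit 4) (nat_lit 4) (nat_lit 5) (nat_lit 5) (nat_lit 5) (nat_lit 4) (nat_lit 494) (nat_lit 422)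 (nat_lit 284)) (XT.lf (nat_lit 0) (nat_lit 218164364607) (nat_lit 76) (nat_lit 492071188561) (nat_lit 76) (nat_lit 438113594664) (nat_lit 4) (nat_lit 4) (nat_lit 5) (nat_lit 5) (nat_lit 5) (nat_lit 4) (nat_lit 495) (nat_lit 422) (nat_lit 283)))) (XT.nd (nat_lit 78) (nat_lit 0) (nat_lit 0) (XT.lf (nat_lit 0) (nat_lit 447743367248) (nat_lit 76) (nat_lit 419051652182) (nat_lit 76) (nat_lit 365093967957) (nat_lit 4) (nat_lit 4) (nat_lit 5) (nat_lit 5) (nat_lit 5) (nat_lit 4) (nat_lit 496) (nat_lit 422) (nat_lit 282)) (XT.nd (nat_lit 78) (nat_lit 0) (nat_lit 0) (XT.lf (nat_lit 0) (nat_lit 695688006223) (nat_lit 76) (nat_lit 340190901298) (nat_lit 76) (nat_lit 286233133435) (nat_lit 4) (nat_lit 4) (nat_lit 5) (nat_lit 5) (nat_lit 5) (nat_lit 4) (nat_lit 497) (nat_lit 422) (nat_lit 281)) (XT.lf (nat_lit 0) (nat_lit 963467583095) (nat_lit 76) (nat_lit 255021612940) (nat_lit 76) (nat_lit 201063767635)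 (nat_lit 4) (nat_lit 4) (nat_lit 5) (nat_lit 5) (nat_lit 5) (nat_lit 4) (nat_lit 498) (nat_lit 422) (nat_lit 280)))))) (XT.nd (nat_lit 468) (nat_lit 0) (nat_lit 0) (XT.nd (nat_lit 234) (nat_lit 0) (nat_lit 0) (XT.nd (nat_lit 78) (nat_lit 152) (nat_lit 0) (XT.lf (nat_lit 0) (nat_lit 1252668939802) (nat_lit 76) (nat_lit 163039080215) (nat_lit 76) (nat_lit 109081163203) (nat_lit 4) (nat_lit 4) (nat_lit 5) (nat_lit 5) (nat_lit 5) (nat_lit 4) (nat_lit 499) (nat_lit 422) (nat_lit 279)) (XT.nd (nat_lit 78) (nat_lit 152) (nat_lit 0) (XT.lf (nat_lit 0) (nat_lit 1565005862161) (nat_lit 76) (nat_lit 63698221446) (nat_lit 76) (nat_lit 9740238040) (nat_lit 4) (nat_lit 4) (nat_lit 5) (nat_lit 5) (nat_lit 5) (nat_lit 4) (nat_lit 500) (nat_lit 422) (nat_lit 278)) (XT.lf (nat_lit 0) (nat_lit 97382201240) (nat_lit 152) (nat_lit 1615823820145) (nat_lit 0) (nat_lit 47421048571) (nat_lit 2) (nat_lit 5) (nat_lit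 4) (nat_lit 4) (nat_lit 2) (nat_lit 4) (nat_lit 501) (nat_lit 422) (nat_lit 277)))) (XT.nd (nat_lit 78) (nat_lit 0) (nat_lit 0) (XT.lf (nat_lit 0) (nat_lit 216262548404) (nat_lit 152) (nat_lit 1509703160162) (nat_lit 0) (nat_lit 166301343029) (nat_lit 2) (nat_lit 5) (nat_lit 4) (nat_lit 4) (nat_lit 2) (nat_lit 4) (nat_lit 502) (nat_lit 422) (nat_lit 276)) (XT.nd (nat_lit 78) (nat_lit 0) (nat_lit 0) (XT.lf (nat_lit 0) (nat_lit 344653089524) (nat_lit 152) (nat_lit 1395093325604) (nat_lit 0) (nat_lit 294691835348) (nat_lit 2) (nat_lit 5) (nat_lit 4) (nat_lit 4) (nat_lit 2) (nat_lit 4) (nat_lit 503) (nat_lit 422) (nat_lit 275)) (XT.lf (nat_lit 0) (nat_lit 483314657438) (nat_lit 152) (nat_lit 1271315147082) (nat_lit 0) (nat_lit 433353358074) (nat_lit 2) (nat_lit 5) (nat_lit 4) (nat_lit 4) (nat_lit 2) (nat_lit 4) (nat_lit 504) (nat_lit 422) (nat_lit 274))))) (XT.nd (nat_lit 234) (nat_lit 0) (nat_lit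 0) (XT.nd (nat_lit 78) (nat_lit 0) (nat_lit 0) (XT.lf (nat_lit 0) (nat_lit 633068950325) (nat_lit 152) (nat_lit 1137635124277) (nat_lit 0) (nat_lit 583107609122) (nat_lit 2) (nat_lit 5) (nat_lit 4) (nat_lit 4) (nat_lit 2) (nat_lit 4) (nat_lit 505) (nat_lit 422) (nat_lit 273)) (XT.nd (nat_lit 78) (nat_lit 0) (nat_lit 0) (XT.lf (nat_lit 0) (nat_lit 794803401032) (nat_lit 152) (nat_lit 993261079277) (nat_lit 0) (nat_lit 744842021088) (nat_lit 2) (nat_lit 5) (nat_lit 4) (nat_lit 4) (nat_lit 2) (nat_lit 4) (nat_lit 506) (nat_lit 422) (nat_lit 272)) (XT.lf (nat_lit 0) (nat_lit 969476435934) (nat_lit 152) (nat_lit 837337462186) (nat_lit 0) (nat_lit 919515020119) (nat_lit 2) (nat_lit 5) (nat_lit 4) (nat_lit 4) (nat_lit 2) (nat_lit 4) (nat_lit 507) (nat_lit 422) (nat_lit 271)))) (XT.nd (nat_lit 78) (nat_lit 0) (nat_lit 0) (XT.lf (nat_lit 0) (nat_lit 1158123154497) (nat_lit 152) (nat_lit 668940281199)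 (nat_lit 0) (nat_lit 1108161705468) (nat_lit 2) (nat_lit 5) (nat_lit 4) (nat_lit 4) (nat_lit 2) (nat_lit 4) (nat_lit 508) (nat_lit 422) (nat_lit 270)) (XT.nd (nat_lit 78) (nat_lit 0) (nat_lit 0) (XT.lf (nat_lit 0) (nat_lit 1361861463200) (nat_lit 152) (nat_lit 487071627094) (nat_lit 0) (nat_lit 1311899983419) (nat_lit 2) (nat_lit 5) (nat_lit 4) (nat_lit 4) (nat_lit 2) (nat_lit 4) (nat_lit 509) (nat_lit 422) (nat_lit 269)) (XT.lf (nat_lit 0) (nat_lit 1581898700171) (nat_lit 152) (nat_lit 290653759700) (nat_lit 0) (nat_lit 1531937191914) (nat_lit 2) (nat_lit 5) (nat_lit 4) (nat_lit 4) (nat_lit 2) (nat_lit 4) (nat_lit 510) (nat_lit 422) (nat_lit 268))))))))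
noncomputable def xc152 : XT := (XT.nd (nat_lit 56082) (nat_lit 0) (nat_lit 2432) (XT.nd (nat_lit 858) (nat_lit 0) (nat_lit 0) (XT.nd (nat_lit 390) (nat_lit 0) (nat_lit 0) (XT.nd (nat_lit 156) (nat_lit 0) (nat_lit 0) (XT.nd (nat_lit 78) (nat_lit 76) (nat_lit 0) (XT.lf (nat_lit 0) (nat_lit 1819538789776) (nat_lit 152) (nat_lit 78522721284) (nat_lit 0) (nat_lit 1769577255152) (nat_lit 2) (nat_lit 5) (nat_lit 4) (nat_lit 4) (nat_lit 2) (nat_lit 4) (nat_lit 511) (nat_lit 422) (nat_lit 267)) (XT.lf (nat_lit 0) (nat_lit 158507761146) (nat_lit 76) (nat_lit 1921494323904) (nat_lit 76) (nat_lit 1871532764867) (nat_lit 1) (nat_lit 4) (nat_lit 2) (nat_lit 5) (nat_lit 2) (nat_lit 4) (nat_lit 512) (nat_lit 422) (nat_lit 266))) (XT.nd (nat_lit 78) (nat_lit 0) (nat_lit 0) (XT.lf (nat_lit 0) (nat_lit 418966105734) (nat_lit 76) (nat_lit 1944483174656) (nat_lit 76) (nat_lit 1894521593015) (nat_lit 1) (nat_lit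 4) (nat_lit 2) (nat_lit 5) (nat_lit 2) (nat_lit 4) (nat_lit 513) (nat_lit 422) (nat_lit 265)) (XT.nd (nat_lit 78) (nat_lit 0) (nat_lit 0) (XT.lf (nat_lit 0) (nat_lit 700260901987) (nat_lit 76) (nat_lit 1969311243899) (nat_lit 76) (nat_lit 1919349641327) (nat_lit 1) (nat_lit 4) (nat_lit 2) (nat_lit 5) (nat_lit 2) (nat_lit 4) (nat_lit 514) (nat_lit 422) (nat_lit 264)) (XT.lf (nat_lit 0) (nat_lit 1004059082031) (nat_lit 76) (nat_lit 1996125660931) (nat_lit 76) (nat_lit 1946164038980) (nat_lit 1) (nat_lit 4) (nat_lit 2) (nat_lit 5) (nat_lit 2) (nat_lit 4) (nat_lit 515) (nat_lit 422) (nat_lit 263))))) (XT.nd (nat_lit 234) (nat_lit 0) (nat_lit 0) (XT.nd (nat_lit 78) (nat_lit 0) (nat_lit 0) (XT.lf (nat_lit 0) (nat_lit 1332160931376) (nat_lit 76) (nat_lit 2025085326002) (nat_lit 76) (nat_lit 1975123686106) (nat_lit 1) (nat_lit 4) (nat_lit 2) (nat_lit 5) (nat_lit 2) (nat_lit 4) (nat_lit 516) (nat_lit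 422) (nat_lit 262)) (XT.nd (nat_lit 78) (nat_lit 0) (nat_lit 0) (XT.lf (nat_lit 0) (nat_lit 1686510757279) (nat_lit 76) (nat_lit 2056361851941) (nat_lit 76) (nat_lit 2006400195430) (nat_lit 1) (nat_lit 4) (nat_lit 2) (nat_lit 5) (nat_lit 2) (nat_lit 4) (nat_lit 517) (nat_lit 422) (nat_lit 261)) (XT.lf (nat_lit 0) (nat_lit 2069208410560) (nat_lit 76) (nat_lit 2090140581125) (nat_lit 76) (nat_lit 2040178909229) (nat_lit 1) (nat_lit 4) (nat_lit 2) (nat_lit 5) (nat_lit 2) (nat_lit 4) (nat_lit 518) (nat_lit 422) (nat_lit 260)))) (XT.nd (nat_lit 78) (nat_lit 0) (nat_lit 0) (XT.lf (nat_lit 0) (nat_lit 2482521729164) (nat_lit 76) (nat_lit 2126621683800) (nat_lit 76) (nat_lit 2076659997660) (nat_lit 1) (nat_lit 4) (nat_lit 2) (nat_lit 5) (nat_lit 2) (nat_lit 4) (nat_lit 519) (nat_lit 422) (nat_lit 259)) (XT.nd (nat_lit 78) (nat_lit 0) (nat_lit 0) (XT.lf (nat_lit 0) (nat_lit 2928899977201) (nat_lit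 76) (nat_lit 2166021344279) (nat_lit 76) (nat_lit 2116059644949) (nat_lit 1) (nat_lit 4) (nat_lit 2) (nat_lit 5) (nat_lit 2) (nat_lit 4) (nat_lit 520) (nat_lit 422) (nat_lit 258)) (XT.lf (nat_lit 0) (nat_lit 3410988359105) (nat_lit 76) (nat_lit 2208573042031) (nat_lit 76) (nat_lit 2158611330489) (nat_lit 1) (nat_lit 4) (nat_lit 2) (nat_lit 5) (nat_lit 2) (nat_lit 4) (nat_lit 521) (nat_lit 422) (nat_lit 257)))))) (XT.nd (nat_lit 54756) (nat_lit 0) (nat_lit 4788) (XT.nd (nat_lit 156) (nat_lit 0) (nat_lit 0) (XT.nd (nat_lit 78) (nat_lit 0) (nat_lit 0) (XT.lf (nat_lit 0) (nat_lit 3931643694915) (nat_lit 76) (nat_lit 2254528935265) (nat_lit 76) (nat_lit 2204567212415) (nat_lit 1) (nat_lit 4) (nat_lit 2) (nat_lit 5) (nat_lit 2) (nat_lit 4) (nat_lit 522) (nat_lit 422) (nat_lit 256)) (XT.lf (nat_lit 0) (nat_lit 4493951349585) (nat_lit 76) (nat_lit 2304161355201) (nat_lit 76) (nat_lit 2254199621880)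 (nat_lit 1) (nat_lit 4) (nat_lit 2) (nat_lit 5) (nat_lit 2) (nat_lit 4) (nat_lit 523) (nat_lit 422) (nat_lit 255))) (XT.nd (nat_lit 78) (nat_lit 0) (nat_lit 0) (XT.lf (nat_lit 0) (nat_lit 5101243516625) (nat_lit 76) (nat_lit 2357764419881) (nat_lit 76) (nat_lit 2307802676866) (nat_lit 1) (nat_lit 4) (nat_lit 2) (nat_lit 5) (nat_lit 2) (nat_lit 4) (nat_lit 524) (nat_lit 422) (nat_lit 254)) (XT.nd (nat_lit 78) (nat_lit 0) (nat_lit 0) (XT.lf (nat_lit 0) (nat_lit 5757118964431) (nat_lit 76) (nat_lit 2415655777098) (nat_lit 76) (nat_lit 2365694025106) (nat_lit 1) (nat_lit 4) (nat_lit 2) (nat_lit 5) (nat_lit 2) (nat_lit 4) (nat_lit 525) (nat_lit 422) (nat_lit 253)) (XT.lf (nat_lit 0) (nat_lit 6465464362323) (nat_lit 76) (nat_lit 2478178486745) (nat_lit 76) (nat_lit 2428216726442) (nat_lit 1) (nat_lit 4) (nat_lit 2) (nat_lit 5) (nat_lit 2) (nat_lit 4) (nat_lit 526) (nat_lit 422) (nat_lit 252)))))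 (XT.nd (nat_lit 234) (nat_lit 380) (nat_lit 0) (XT.nd (nat_lit 78) (nat_lit 0) (nat_lit 0) (XT.lf (nat_lit 0) (nat_lit 10467337636) (nat_lit 532) (nat_lit 751656358) (nat_lit 532) (nat_lit 751656358) (nat_lit 69) (nat_lit 3) (nat_lit 76) (nat_lit 3) (nat_lit 76) (nat_lit 5) (nat_lit 423) (nat_lit 423) (nat_lit 354)) (XT.nd (nat_lit 78) (nat_lit 0) (nat_lit 76) (XT.lf (nat_lit 76) (nat_lit 10767419965) (nat_lit 0) (nat_lit 11371429010) (nat_lit 532) (nat_lit 2730688279) (nat_lit 70) (nat_lit 5) (nat_lit 69) (nat_lit 3) (nat_lit 76) (nat_lit 5) (nat_lit 424) (nat_lit 423) (nat_lit 353)) (XT.lf (nat_lit 0) (nat_lit 23484667043) (nat_lit 456) (nat_lit 1785599802) (nat_lit 532) (nat_lit 598148302) (nat_lit 70) (nat_lit 5) (nat_lit 76) (nat_lit 5) (nat_lit 77) (nat_lit 5) (nat_lit 425) (nat_lit 423) (nat_lit 352)))) (XT.nd (nat_lit 78) (nat_lit 456) (nat_lit 0) (XT.lf (nat_lit 76) (nat_lit 11804795650)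 (nat_lit 0) (nat_lit 13702603491) (nat_lit 532) (nat_lit 1394270964) (nat_lit 71) (nat_lit 5) (nat_lit 70) (nat_lit 5) (nat_lit 77) (nat_lit 5) (nat_lit 426) (nat_lit 423) (nat_lit 351)) (XT.nd (nat_lit 78) (nat_lit 456) (nat_lit 0) (XT.lf (nat_lit 76) (nat_lit 26577533278) (nat_lit 0) (nat_lit 1153806467) (nat_lit 532) (nat_lit 283100744) (nat_lit 71) (nat_lit 5) (nat_lit 70) (nat_lit 5) (nat_lit 77) (nat_lit 5) (nat_lit 427) (nat_lit 423) (nat_lit 350)) (XT.lf (nat_lit 0) (nat_lit 1506081348) (nat_lit 532) (nat_lit 15508789418) (nat_lit 608) (nat_lit 12148803755) (nat_lit 64) (nat_lit 5) (nat_lit 71) (nat_lit 5) (nat_lit 72) (nat_lit 5) (nat_lit 428) (nat_lit 423) (nat_lit 349))))))) (XT.nd (nat_lit 858) (nat_lit 1064) (nat_lit 0) (XT.nd (nat_lit 390) (nat_lit 684) (nat_lit 0) (XT.nd (nat_lit 156) (nat_lit 608) (nat_lit 0) (XT.nd (nat_lit 78) (nat_lit 0) (nat_lit 76) (XT.lf (nat_lit 0)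 (nat_lit 3484980566) (nat_lit 532) (nat_lit 411317076) (nat_lit 608) (nat_lit 26503016125) (nat_lit 64) (nat_lit 5) (nat_lit 71) (nat_lit 5) (nat_lit 72) (nat_lit 5) (nat_lit 429) (nat_lit 423) (nat_lit 348)) (XT.lf (nat_lit 0) (nat_lit 6274142681) (nat_lit 532) (nat_lit 15235699161) (nat_lit 76) (nat_lit 10171810807) (nat_lit 65) (nat_lit 5) (nat_lit 72) (nat_lit 5) (nat_lit 66) (nat_lit 5) (nat_lit 430) (nat_lit 423) (nat_lit 347))) (XT.nd (nat_lit 78) (nat_lit 228) (nat_lit 0) (XT.lf (nat_lit 0) (nat_lit 1580125527) (nat_lit 456) (nat_lit 7849726284) (nat_lit 532) (nat_lit 23625257942) (nat_lit 59) (nat_lit 5) (nat_lit 65) (nat_lit 5) (nat_lit 66) (nat_lit 5) (nat_lit 431) (nat_lit 423) (nat_lit 346)) (XT.nd (nat_lit 78) (nat_lit 228) (nat_lit 0) (XT.lf (nat_lit 0) (nat_lit 13424486504) (nat_lit 532) (nat_lit 14081607195) (nat_lit 76) (nat_lit 6985436140) (nat_lit 59) (nat_lit 5) (nat_lit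 66) (nat_lit 5) (nat_lit 60) (nat_lit 5) (nat_lit 432) (nat_lit 423) (nat_lit 345)) (XT.lf (nat_lit 0) (nat_lit 4729133217) (nat_lit 228) (nat_lit 13320753609) (nat_lit 304) (nat_lit 17968084749) (nat_lit 56) (nat_lit 5) (nat_lit 59) (nat_lit 5) (nat_lit 60) (nat_lit 5) (nat_lit 433) (nat_lit 423) (nat_lit 344))))) (XT.nd (nat_lit 234) (nat_lit 456) (nat_lit 0) (XT.nd (nat_lit 78) (nat_lit 228) (nat_lit 0) (XT.lf (nat_lit 0) (nat_lit 23482296784) (nat_lit 304) (nat_lit 11855343985) (nat_lit 76) (nat_lit 2293933033) (nat_lit 56) (nat_lit 5) (nat_lit 60) (nat_lit 5) (nat_lit 57) (nat_lit 5) (nat_lit 434) (nat_lit 423) (nat_lit 343)) (XT.nd (nat_lit 78) (nat_lit 0) (nat_lit 0) (XT.lf (nat_lit 0) (nat_lit 9242618629) (nat_lit 228) (nat_lit 20669288551) (nat_lit 304) (nat_lit 9417351530) (nat_lit 53) (nat_lit 5) (nat_lit 56) (nat_lit 5) (nat_lit 57) (nat_lit 5) (nat_lit 435) (nat_lit 423) (nat_lit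 342)) (XT.lf (nat_lit 0) (nat_lit 32696237596) (nat_lit 228) (nat_lit 4478389821) (nat_lit 304) (nat_lit 3962634593) (nat_lit 53) (nat_lit 5) (nat_lit 56) (nat_lit 5) (nat_lit 57) (nat_lit 5) (nat_lit 436) (nat_lit 423) (nat_lit 341)))) (XT.nd (nat_lit 78) (nat_lit 228) (nat_lit 0) (XT.lf (nat_lit 0) (nat_lit 2527458065) (nat_lit 228) (nat_lit 27712863171) (nat_lit 76) (nat_lit 12790239032) (nat_lit 50) (nat_lit 5) (nat_lit 53) (nat_lit 5) (nat_lit 51) (nat_lit 5) (nat_lit 437) (nat_lit 423) (nat_lit 340)) (XT.nd (nat_lit 78) (nat_lit 228) (nat_lit 0) (XT.lf (nat_lit 0) (nat_lit 9670852297) (nat_lit 228) (nat_lit 3831349164) (nat_lit 76) (nat_lit 31537034819) (nat_lit 50) (nat_lit 5) (nat_lit 53) (nat_lit 5) (nat_lit 51) (nat_lit 5) (nat_lit 438) (nat_lit 423) (nat_lit 339)) (XT.lf (nat_lit 0) (nat_lit 18061401835) (nat_lit 304) (nat_lit 24178094112) (nat_lit 76) (nat_lit 4915057842) (nat_lit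 47) (nat_lit 5) (nat_lit 51) (nat_lit 5) (nat_lit 48) (nat_lit 5) (nat_lit 439) (nat_lit 423) (nat_lit 338)))))) (XT.nd (nat_lit 468) (nat_lit 532) (nat_lit 0) (XT.nd (nat_lit 234) (nat_lit 228) (nat_lit 0) (XT.nd (nat_lit 78) (nat_lit 152) (nat_lit 0) (XT.lf (nat_lit 0) (nat_lit 2480628134) (nat_lit 152) (nat_lit 25156009942) (nat_lit 228) (nat_lit 21761385167) (nat_lit 45) (nat_lit 5) (nat_lit 47) (nat_lit 5) (nat_lit 48) (nat_lit 5) (nat_lit 440) (nat_lit 423) (nat_lit 337)) (XT.nd (nat_lit 78) (nat_lit 152) (nat_lit 0) (XT.lf (nat_lit 0) (nat_lit 32641127659) (nat_lit 152) (nat_lit 5993620540) (nat_lit 228) (nat_lit 13133675471) (nat_lit 45) (nat_lit 5) (nat_lit 47) (nat_lit 5) (nat_lit 48) (nat_lit 5) (nat_lit 441) (nat_lit 423) (nat_lit 336)) (XT.lf (nat_lit 0) (nat_lit 11080963145) (nat_lit 152) (nat_lit 40047875912) (nat_lit 228) (nat_lit 3150328201) (nat_lit 43) (nat_lit 5) (nat_lit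 45) (nat_lit 5) (nat_lit 46) (nat_lit 5) (nat_lit 442) (nat_lit 423) (nat_lit 335)))) (XT.nd (nat_lit 78) (nat_lit 152) (nat_lit 0) (XT.lf (nat_lit 0) (nat_lit 7938268797) (nat_lit 228) (nat_lit 12513912035) (nat_lit 76) (nat_lit 36468839578) (nat_lit 42) (nat_lit 5) (nat_lit 45) (nat_lit 5) (nat_lit 43) (nat_lit 5) (nat_lit 443) (nat_lit 423) (nat_lit 334)) (XT.nd (nat_lit 78) (nat_lit 0) (nat_lit 0) (XT.lf (nat_lit 0) (nat_lit 20292792343) (nat_lit 228) (nat_lit 38139685937) (nat_lit 76) (nat_lit 1291275665) (nat_lit 40) (nat_lit 5) (nat_lit 43) (nat_lit 5) (nat_lit 41) (nat_lit 5) (nat_lit 444) (nat_lit 423) (nat_lit 333)) (XT.lf (nat_lit 0) (nat_lit 34514440261) (nat_lit 228) (nat_lit 4147391640) (nat_lit 76) (nat_lit 24018574498) (nat_lit 40) (nat_lit 5) (nat_lit 43) (nat_lit 5) (nat_lit 41) (nat_lit 5) (nat_lit 445) (nat_lit 423) (nat_lit 332))))) (XT.nd (nat_lit 234) (nat_lit 228)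 (nat_lit 0) (XT.nd (nat_lit 78) (nat_lit 152) (nat_lit 0) (XT.lf (nat_lit 0) (nat_lit 34273694420) (nat_lit 152) (nat_lit 16421165621) (nat_lit 228) (nat_lit 15113048951) (nat_lit 38) (nat_lit 5) (nat_lit 40) (nat_lit 5) (nat_lit 41) (nat_lit 5) (nat_lit 446) (nat_lit 423) (nat_lit 331)) (XT.nd (nat_lit 78) (nat_lit 76) (nat_lit 0) (XT.lf (nat_lit 0) (nat_lit 6986407963) (nat_lit 76) (nat_lit 61647254396) (nat_lit 152) (nat_lit 514834577) (nat_lit 37) (nat_lit 5) (nat_lit 38) (nat_lit 5) (nat_lit 39) (nat_lit 4) (nat_lit 447) (nat_lit 423) (nat_lit 330)) (XT.lf (nat_lit 0) (nat_lit 15796294243) (nat_lit 152) (nat_lit 23126220906) (nat_lit 76) (nat_lit 33699835391) (nat_lit 36) (nat_lit 5) (nat_lit 38) (nat_lit 5) (nat_lit 37) (nat_lit 5) (nat_lit 448) (nat_lit 423) (nat_lit 329)))) (XT.nd (nat_lit 78) (nat_lit 76) (nat_lit 0) (XT.lf (nat_lit 0) (nat_lit 20015577798) (nat_lit 152) (nat_lit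 13847394413) (nat_lit 228) (nat_lit 42471793414) (nat_lit 34) (nat_lit 5) (nat_lit 36) (nat_lit 5) (nat_lit 37) (nat_lit 5) (nat_lit 449) (nat_lit 423) (nat_lit 328)) (XT.nd (nat_lit 78) (nat_lit 76) (nat_lit 0) (XT.lf (nat_lit 0) (nat_lit 54339145789) (nat_lit 228) (nat_lit 12709238776) (nat_lit 76) (nat_lit 13218657220) (nat_lit 34) (nat_lit 5) (nat_lit 37) (nat_lit 5) (nat_lit 35) (nat_lit 4) (nat_lit 450) (nat_lit 423) (nat_lit 327)) (XT.lf (nat_lit 0) (nat_lit 35817024453) (nat_lit 76) (nat_lit 41854826642) (nat_lit 152) (nat_lit 6744574638) (nat_lit 33) (nat_lit 5) (nat_lit 34) (nat_lit 5) (nat_lit 35) (nat_lit 4) (nat_lit 451) (nat_lit 423) (nat_lit 326))))))))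
noncomputable def xc153 : XT := (XT.nd (nat_lit 1716) (nat_lit 760) (nat_lit 0) (XT.nd (nat_lit 858) (nat_lit 684) (nat_lit 0) (XT.nd (nat_lit 390) (nat_lit 304) (nat_lit 0) (XT.nd (nat_lit 156) (nat_lit 228) (nat_lit 0) (XT.nd (nat_lit 78) (nat_lit 152) (nat_lit 0) (XT.lf (nat_lit 0) (nat_lit 13628312044) (nat_lit 152) (nat_lit 271418740) (nat_lit 76) (nat_lit 74942832854) (nat_lit 32) (nat_lit 5) (nat_lit 34) (nat_lit 5) (nat_lit 33) (nat_lit 5) (nat_lit 452) (nat_lit 423) (nat_lit 325)) (XT.lf (nat_lit 0) (nat_lit 37004537748) (nat_lit 228) (nat_lit 39466398724) (nat_lit 76) (nat_lit 16998810752) (nat_lit 30) (nat_lit 5) (nat_lit 33) (nat_lit 5) (nat_lit 31) (nat_lit 4) (nat_lit 453) (nat_lit 423) (nat_lit 324))) (XT.nd (nat_lit 78) (nat_lit 152) (nat_lit 0) (XT.lf (nat_lit 0) (nat_lit 14530419391) (nat_lit 76) (nat_lit 48436163878) (nat_lit 152) (nat_lit 35443265016) (nat_lit 29) (nat_lit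 5) (nat_lit 30) (nat_lit 5) (nat_lit 31) (nat_lit 4) (nat_lit 454) (nat_lit 423) (nat_lit 323)) (XT.nd (nat_lit 78) (nat_lit 152) (nat_lit 0) (XT.lf (nat_lit 0) (nat_lit 75087332106) (nat_lit 76) (nat_lit 16995037444) (nat_lit 152) (nat_lit 11576646203) (nat_lit 29) (nat_lit 5) (nat_lit 30) (nat_lit 5) (nat_lit 31) (nat_lit 4) (nat_lit 455) (nat_lit 423) (nat_lit 322)) (XT.lf (nat_lit 0) (nat_lit 14703951212) (nat_lit 152) (nat_lit 77237659936) (nat_lit 76) (nat_lit 17261989951) (nat_lit 27) (nat_lit 5) (nat_lit 29) (nat_lit 5) (nat_lit 28) (nat_lit 4) (nat_lit 456) (nat_lit 423) (nat_lit 321))))) (XT.nd (nat_lit 234) (nat_lit 228) (nat_lit 0) (XT.nd (nat_lit 78) (nat_lit 76) (nat_lit 0) (XT.lf (nat_lit 0) (nat_lit 43702316448) (nat_lit 152) (nat_lit 16924174252) (nat_lit 76) (nat_lit 54441946826) (nat_lit 27) (nat_lit 5) (nat_lit 29) (nat_lit 5) (nat_lit 28) (nat_lit 4) (nat_lit 457) (nat_lit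 423) (nat_lit 320)) (XT.nd (nat_lit 78) (nat_lit 0) (nat_lit 0) (XT.lf (nat_lit 0) (nat_lit 50749397962) (nat_lit 76) (nat_lit 25489675963) (nat_lit 152) (nat_lit 45065905459) (nat_lit 26) (nat_lit 5) (nat_lit 27) (nat_lit 5) (nat_lit 28) (nat_lit 4) (nat_lit 458) (nat_lit 423) (nat_lit 319)) (XT.lf (nat_lit 0) (nat_lit 112151166281) (nat_lit 152) (nat_lit 3519418563) (nat_lit 0) (nat_lit 12308068539) (nat_lit 26) (nat_lit 5) (nat_lit 28) (nat_lit 4) (nat_lit 26) (nat_lit 4) (nat_lit 459) (nat_lit 423) (nat_lit 318)))) (XT.nd (nat_lit 78) (nat_lit 76) (nat_lit 0) (XT.lf (nat_lit 0) (nat_lit 17411307286) (nat_lit 152) (nat_lit 63629867471) (nat_lit 76) (nat_lit 53918809265) (nat_lit 24) (nat_lit 5) (nat_lit 26) (nat_lit 5) (nat_lit 25) (nat_lit 4) (nat_lit 460) (nat_lit 423) (nat_lit 317)) (XT.nd (nat_lit 78) (nat_lit 0) (nat_lit 0) (XT.lf (nat_lit 0) (nat_lit 9956673903) (nat_lit 76) (nat_lit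 42833797188) (nat_lit 152) (nat_lit 89649553100) (nat_lit 23) (nat_lit 5) (nat_lit 24) (nat_lit 5) (nat_lit 25) (nat_lit 4) (nat_lit 461) (nat_lit 423) (nat_lit 316)) (XT.lf (nat_lit 0) (nat_lit 92745348114) (nat_lit 152) (nat_lit 57341352588) (nat_lit 0) (nat_lit 292136707) (nat_lit 23) (nat_lit 5) (nat_lit 25) (nat_lit 4) (nat_lit 23) (nat_lit 4) (nat_lit 462) (nat_lit 423) (nat_lit 315)))))) (XT.nd (nat_lit 390) (nat_lit 380) (nat_lit 0) (XT.nd (nat_lit 156) (nat_lit 152) (nat_lit 0) (XT.nd (nat_lit 78) (nat_lit 76) (nat_lit 0) (XT.lf (nat_lit 0) (nat_lit 23891381651) (nat_lit 76) (nat_lit 113690714789) (nat_lit 76) (nat_lit 21235820982) (nat_lit 22) (nat_lit 4) (nat_lit 23) (nat_lit 5) (nat_lit 23) (nat_lit 4) (nat_lit 463) (nat_lit 423) (nat_lit 314)) (XT.lf (nat_lit 0) (nat_lit 18776412934) (nat_lit 152) (nat_lit 53401512682) (nat_lit 76) (nat_lit 95590875068) (nat_lit 21) (nat_lit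 5) (nat_lit 23) (nat_lit 5) (nat_lit 22) (nat_lit 4) (nat_lit 464) (nat_lit 423) (nat_lit 313))) (XT.nd (nat_lit 78) (nat_lit 76) (nat_lit 0) (XT.lf (nat_lit 0) (nat_lit 35886132041) (nat_lit 76) (nat_lit 25817726619) (nat_lit 152) (nat_lit 115618848226) (nat_lit 20) (nat_lit 5) (nat_lit 21) (nat_lit 5) (nat_lit 22) (nat_lit 4) (nat_lit 465) (nat_lit 423) (nat_lit 312)) (XT.nd (nat_lit 78) (nat_lit 76) (nat_lit 0) (XT.lf (nat_lit 0) (nat_lit 110145228359) (nat_lit 152) (nat_lit 52794488466) (nat_lit 0) (nat_lit 24534830659) (nat_lit 20) (nat_lit 5) (nat_lit 22) (nat_lit 4) (nat_lit 20) (nat_lit 4) (nat_lit 466) (nat_lit 423) (nat_lit 311)) (XT.lf (nat_lit 0) (nat_lit 44491246299) (nat_lit 76) (nat_lit 119709848465) (nat_lit 76) (nat_lit 34098305752) (nat_lit 19) (nat_lit 4) (nat_lit 20) (nat_lit 5) (nat_lit 20) (nat_lit 4) (nat_lit 467) (nat_lit 423) (nat_lit 310))))) (XT.nd (nat_lit 234)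 (nat_lit 228) (nat_lit 0) (XT.nd (nat_lit 78) (nat_lit 76) (nat_lit 0) (XT.lf (nat_lit 0) (nat_lit 13440900414) (nat_lit 152) (nat_lit 57655530049) (nat_lit 76) (nat_lit 138751220072) (nat_lit 18) (nat_lit 5) (nat_lit 20) (nat_lit 5) (nat_lit 19) (nat_lit 4) (nat_lit 468) (nat_lit 423) (nat_lit 309)) (XT.nd (nat_lit 78) (nat_lit 0) (nat_lit 0) (XT.lf (nat_lit 0) (nat_lit 47686547580) (nat_lit 76) (nat_lit 16400054417) (nat_lit 152) (nat_lit 158070660809) (nat_lit 17) (nat_lit 5) (nat_lit 18) (nat_lit 5) (nat_lit 19) (nat_lit 4) (nat_lit 469) (nat_lit 423) (nat_lit 308)) (XT.lf (nat_lit 0) (nat_lit 121426271086) (nat_lit 152) (nat_lit 71660396279) (nat_lit 0) (nat_lit 42153591897) (nat_lit 17) (nat_lit 5) (nat_lit 19) (nat_lit 4) (nat_lit 17) (nat_lit 4) (nat_lit 470) (nat_lit 423) (nat_lit 307)))) (XT.nd (nat_lit 78) (nat_lit 152) (nat_lit 0) (XT.lf (nat_lit 0) (nat_lit 40997242994) (nat_lit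 76) (nat_lit 143766625322) (nat_lit 76) (nat_lit 64493166856) (nat_lit 16) (nat_lit 4) (nat_lit 17) (nat_lit 5) (nat_lit 17) (nat_lit 4) (nat_lit 471) (nat_lit 423) (nat_lit 306)) (XT.nd (nat_lit 78) (nat_lit 152) (nat_lit 0) (XT.lf (nat_lit 0) (nat_lit 166740565958) (nat_lit 76) (nat_lit 88386057644) (nat_lit 76) (nat_lit 9111877626) (nat_lit 16) (nat_lit 4) (nat_lit 17) (nat_lit 5) (nat_lit 17) (nat_lit 4) (nat_lit 472) (nat_lit 423) (nat_lit 305)) (XT.lf (nat_lit 0) (nat_lit 22004063685) (nat_lit 76) (nat_lit 26687720837) (nat_lit 152) (nat_lit 231586906610) (nat_lit 14) (nat_lit 5) (nat_lit 15) (nat_lit 5) (nat_lit 16) (nat_lit 4) (nat_lit 473) (nat_lit 423) (nat_lit 304))))))) (XT.nd (nat_lit 858) (nat_lit 304) (nat_lit 0) (XT.nd (nat_lit 390) (nat_lit 228) (nat_lit 0) (XT.nd (nat_lit 156) (nat_lit 228) (nat_lit 0) (XT.nd (nat_lit 78) (nat_lit 0) (nat_lit 0) (XT.lf (nat_lit 0) (nat_lit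 114322074210) (nat_lit 152) (nat_lit 142046655045) (nat_lit 0) (nat_lit 40918864268) (nat_lit 14) (nat_lit 5) (nat_lit 16) (nat_lit 4) (nat_lit 14) (nat_lit 4) (nat_lit 474) (nat_lit 423) (nat_lit 303)) (XT.lf (nat_lit 0) (nat_lit 185894948462) (nat_lit 152) (nat_lit 17215678648) (nat_lit 0) (nat_lit 112491208157) (nat_lit 14) (nat_lit 5) (nat_lit 16) (nat_lit 4) (nat_lit 14) (nat_lit 4) (nat_lit 475) (nat_lit 423) (nat_lit 302))) (XT.nd (nat_lit 78) (nat_lit 152) (nat_lit 0) (XT.lf (nat_lit 0) (nat_lit 123792482528) (nat_lit 76) (nat_lit 142377432153) (nat_lit 76) (nat_lit 68973200772) (nat_lit 13) (nat_lit 4) (nat_lit 14) (nat_lit 5) (nat_lit 14) (nat_lit 4) (nat_lit 476) (nat_lit 423) (nat_lit 301)) (XT.nd (nat_lit 78) (nat_lit 152) (nat_lit 0) (XT.lf (nat_lit 0) (nat_lit 277058520792) (nat_lit 76) (nat_lit 76278140384) (nat_lit 76) (nat_lit 2873454302) (nat_lit 13) (nat_lit 4) (nat_lit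 14) (nat_lit 5) (nat_lit 14) (nat_lit 4) (nat_lit 477) (nat_lit 423) (nat_lit 300)) (XT.lf (nat_lit 0) (nat_lit 65237273142) (nat_lit 76) (nat_lit 1417717359) (nat_lit 152) (nat_lit 312050217067) (nat_lit 11) (nat_lit 5) (nat_lit 12) (nat_lit 5) (nat_lit 13) (nat_lit 4) (nat_lit 478) (nat_lit 423) (nat_lit 299))))) (XT.nd (nat_lit 234) (nat_lit 152) (nat_lit 0) (XT.nd (nat_lit 78) (nat_lit 76) (nat_lit 0) (XT.lf (nat_lit 0) (nat_lit 145720281817) (nat_lit 152) (nat_lit 179191040374) (nat_lit 0) (nat_lit 77752229101) (nat_lit 11) (nat_lit 5) (nat_lit 13) (nat_lit 4) (nat_lit 11) (nat_lit 4) (nat_lit 479) (nat_lit 423) (nat_lit 298)) (XT.nd (nat_lit 78) (nat_lit 76) (nat_lit 0) (XT.lf (nat_lit 0) (nat_lit 231146810300) (nat_lit 152) (nat_lit 34210447786) (nat_lit 0) (nat_lit 163178423365) (nat_lit 11) (nat_lit 5) (nat_lit 13) (nat_lit 4) (nat_lit 11) (nat_lit 4) (nat_lit 480) (nat_lit 423)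 (nat_lit 297)) (XT.lf (nat_lit 0) (nat_lit 128810717504) (nat_lit 76) (nat_lit 197693894443) (nat_lit 76) (nat_lit 129725198047) (nat_lit 10) (nat_lit 4) (nat_lit 11) (nat_lit 5) (nat_lit 11) (nat_lit 4) (nat_lit 481) (nat_lit 423) (nat_lit 296)))) (XT.nd (nat_lit 78) (nat_lit 152) (nat_lit 0) (XT.lf (nat_lit 0) (nat_lit 306817684204) (nat_lit 76) (nat_lit 123607998014) (nat_lit 76) (nat_lit 55639015079) (nat_lit 10) (nat_lit 4) (nat_lit 11) (nat_lit 5) (nat_lit 11) (nat_lit 4) (nat_lit 482) (nat_lit 423) (nat_lit 295)) (XT.nd (nat_lit 78) (nat_lit 76) (nat_lit 0) (XT.lf (nat_lit 0) (nat_lit 23154079898) (nat_lit 152) (nat_lit 19808762059) (nat_lit 76) (nat_lit 475276693385) (nat_lit 9) (nat_lit 5) (nat_lit 11) (nat_lit 5) (nat_lit 10) (nat_lit 4) (nat_lit 483) (nat_lit 423) (nat_lit 294)) (XT.lf (nat_lit 0) (nat_lit 110263441463) (nat_lit 152) (nat_lit 394879078898) (nat_lit 0) (nat_lit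 47328724882) (nat_lit 8) (nat_lit 5) (nat_lit 10) (nat_lit 4) (nat_lit 8) (nat_lit 4) (nat_lit 484) (nat_lit 423) (nat_lit 293)))))) (XT.nd (nat_lit 468) (nat_lit 152) (nat_lit 0) (XT.nd (nat_lit 234) (nat_lit 76) (nat_lit 0) (XT.nd (nat_lit 78) (nat_lit 76) (nat_lit 0) (XT.lf (nat_lit 0) (nat_lit 206012504237) (nat_lit 152) (nat_lit 240217734505) (nat_lit 0) (nat_lit 143077577041) (nat_lit 8) (nat_lit 5) (nat_lit 10) (nat_lit 4) (nat_lit 8) (nat_lit 4) (nat_lit 485) (nat_lit 423) (nat_lit 292)) (XT.nd (nat_lit 78) (nat_lit 76) (nat_lit 0) (XT.lf (nat_lit 0) (nat_lit 309420899391) (nat_lit 152) (nat_lit 73184682833) (nat_lit 0) (nat_lit 246485777181) (nat_lit 8) (nat_lit 5) (nat_lit 10) (nat_lit 4) (nat_lit 8) (nat_lit 4) (nat_lit 486) (nat_lit 423) (nat_lit 291)) (XT.lf (nat_lit 0) (nat_lit 112855385035) (nat_lit 76) (nat_lit 310960207102) (nat_lit 76) (nat_lit 248024904324) (nat_lit 7)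 (nat_lit 4) (nat_lit 8) (nat_lit 5) (nat_lit 8) (nat_lit 4) (nat_lit 487) (nat_lit 423) (nat_lit 290)))) (XT.nd (nat_lit 78) (nat_lit 76) (nat_lit 0) (XT.lf (nat_lit 0) (nat_lit 317939652865) (nat_lit 76) (nat_lit 231422672214) (nat_lit 76) (nat_lit 168487202244) (nat_lit 7) (nat_lit 4) (nat_lit 8) (nat_lit 5) (nat_lit 8) (nat_lit 4) (nat_lit 488) (nat_lit 423) (nat_lit 289)) (XT.nd (nat_lit 78) (nat_lit 76) (nat_lit 0) (XT.lf (nat_lit 0) (nat_lit 539429659133) (nat_lit 76) (nat_lit 145522642943) (nat_lit 76) (nat_lit 82587018165) (nat_lit 7) (nat_lit 4) (nat_lit 8) (nat_lit 5) (nat_lit 8) (nat_lit 4) (nat_lit 489) (nat_lit 423) (nat_lit 288)) (XT.lf (nat_lit 0) (nat_lit 9675206795) (nat_lit 152) (nat_lit 42811337983) (nat_lit 76) (nat_lit 768698193113) (nat_lit 6) (nat_lit 5) (nat_lit 8) (nat_lit 5) (nat_lit 7) (nat_lit 4) (nat_lit 490) (nat_lit 423) (nat_lit 287))))) (XT.nd (nat_lit 234)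 (nat_lit 76) (nat_lit 0) (XT.nd (nat_lit 78) (nat_lit 0) (nat_lit 0) (XT.lf (nat_lit 0) (nat_lit 110096312397) (nat_lit 152) (nat_lit 716612357310) (nat_lit 0) (nat_lit 51822330136) (nat_lit 5) (nat_lit 5) (nat_lit 7) (nat_lit 4) (nat_lit 5) (nat_lit 4) (nat_lit 491) (nat_lit 423) (nat_lit 286)) (XT.nd (nat_lit 78) (nat_lit 0) (nat_lit 0) (XT.lf (nat_lit 0) (nat_lit 221114900722) (nat_lit 152) (nat_lit 556304153829) (nat_lit 0) (nat_lit 162840804674) (nat_lit 5) (nat_lit 5) (nat_lit 7) (nat_lit 4) (nat_lit 5) (nat_lit 4) (nat_lit 492) (nat_lit 423) (nat_lit 285)) (XT.lf (nat_lit 0) (nat_lit 341014574233) (nat_lit 152) (nat_lit 383172112463) (nat_lit 0) (nat_lit 282740372825) (nat_lit 5) (nat_lit 5) (nat_lit 7) (nat_lit 4) (nat_lit 5) (nat_lit 4) (nat_lit 493) (nat_lit 423) (nat_lit 284)))) (XT.nd (nat_lit 78) (nat_lit 76) (nat_lit 0) (XT.lf (nat_lit 0) (nat_lit 470505849513) (nat_lit 152)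 (nat_lit 196190265560) (nat_lit 0) (nat_lit 412231550550) (nat_lit 5) (nat_lit 5) (nat_lit 7) (nat_lit 4) (nat_lit 5) (nat_lit 4) (nat_lit 494) (nat_lit 423) (nat_lit 283)) (XT.nd (nat_lit 78) (nat_lit 0) (nat_lit 0) (XT.lf (nat_lit 0) (nat_lit 6052182115) (nat_lit 76) (nat_lit 604449455279) (nat_lit 76) (nat_lit 546175065986) (nat_lit 4) (nat_lit 4) (nat_lit 5) (nat_lit 5) (nat_lit 5) (nat_lit 4) (nat_lit 495) (nat_lit 423) (nat_lit 282)) (XT.lf (nat_lit 0) (nat_lit 235630855968) (nat_lit 76) (nat_lit 531430086402) (nat_lit 76) (nat_lit 473155613472) (nat_lit 4) (nat_lit 4) (nat_lit 5) (nat_lit 5) (nat_lit 5) (nat_lit 4) (nat_lit 496) (nat_lit 423) (nat_lit 281))))))))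
noncomputable def xc154 : XT := (XT.nd (nat_lit 1716) (nat_lit 0) (nat_lit 0) (XT.nd (nat_lit 858) (nat_lit 76) (nat_lit 0) (XT.nd (nat_lit 390) (nat_lit 152) (nat_lit 0) (XT.nd (nat_lit 156) (nat_lit 0) (nat_lit 0) (XT.nd (nat_lit 78) (nat_lit 0) (nat_lit 0) (XT.lf (nat_lit 0) (nat_lit 483575190510) (nat_lit 76) (nat_lit 452569490613) (nat_lit 76) (nat_lit 394294940240) (nat_lit 4) (nat_lit 4) (nat_lit 5) (nat_lit 5) (nat_lit 5) (nat_lit 4) (nat_lit 497) (nat_lit 423) (nat_lit 280)) (XT.lf (nat_lit 0) (nat_lit 751354485500) (nat_lit 76) (nat_lit 367400345861) (nat_lit 76) (nat_lit 309125723783) (nat_lit 4) (nat_lit 4) (nat_lit 5) (nat_lit 5) (nat_lit 5) (nat_lit 4) (nat_lit 498) (nat_lit 423) (nat_lit 279))) (XT.nd (nat_lit 78) (nat_lit 0) (nat_lit 0) (XT.lf (nat_lit 0) (nat_lit 1040555581205) (nat_lit 76) (nat_lit 275417946104) (nat_lit 76) (nat_lit 217143257631) (nat_lit 4) (nat_lit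 4) (nat_lit 5) (nat_lit 5) (nat_lit 5) (nat_lit 4) (nat_lit 499) (nat_lit 423) (nat_lit 278)) (XT.nd (nat_lit 78) (nat_lit 0) (nat_lit 0) (XT.lf (nat_lit 0) (nat_lit 1352892261896) (nat_lit 76) (nat_lit 176077210455) (nat_lit 76) (nat_lit 117802460506) (nat_lit 4) (nat_lit 4) (nat_lit 5) (nat_lit 5) (nat_lit 5) (nat_lit 4) (nat_lit 500) (nat_lit 423) (nat_lit 277)) (XT.lf (nat_lit 0) (nat_lit 1690215411606) (nat_lit 76) (nat_lit 68789453072) (nat_lit 76) (nat_lit 10514646200) (nat_lit 4) (nat_lit 4) (nat_lit 5) (nat_lit 5) (nat_lit 5) (nat_lit 4) (nat_lit 501) (nat_lit 423) (nat_lit 276))))) (XT.nd (nat_lit 234) (nat_lit 0) (nat_lit 0) (XT.nd (nat_lit 78) (nat_lit 0) (nat_lit 0) (XT.lf (nat_lit 0) (nat_lit 105177339003) (nat_lit 152) (nat_lit 1745080395797) (nat_lit 0) (nat_lit 51219135691) (nat_lit 2) (nat_lit 5) (nat_lit 4) (nat_lit 4) (nat_lit 2) (nat_lit 4) (nat_lit 502) (nat_lit 423)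 (nat_lit 275)) (XT.nd (nat_lit 78) (nat_lit 0) (nat_lit 0) (XT.lf (nat_lit 0) (nat_lit 233567776039) (nat_lit 152) (nat_lit 1630470774124) (nat_lit 0) (nat_lit 179609527539) (nat_lit 2) (nat_lit 5) (nat_lit 4) (nat_lit 4) (nat_lit 2) (nat_lit 4) (nat_lit 503) (nat_lit 423) (nat_lit 274)) (XT.lf (nat_lit 0) (nat_lit 372229247578) (nat_lit 152) (nat_lit 1506692792717) (nat_lit 0) (nat_lit 318270957238) (nat_lit 2) (nat_lit 5) (nat_lit 4) (nat_lit 4) (nat_lit 2) (nat_lit 4) (nat_lit 504) (nat_lit 423) (nat_lit 273)))) (XT.nd (nat_lit 78) (nat_lit 0) (nat_lit 0) (XT.lf (nat_lit 0) (nat_lit 521983451229) (nat_lit 152) (nat_lit 1373012952426) (nat_lit 0) (nat_lit 468025122149) (nat_lit 2) (nat_lit 5) (nat_lit 4) (nat_lit 4) (nat_lit 2) (nat_lit 4) (nat_lit 505) (nat_lit 423) (nat_lit 272)) (XT.nd (nat_lit 78) (nat_lit 0) (nat_lit 0) (XT.lf (nat_lit 0) (nat_lit 683717819310) (nat_lit 152) (nat_lit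 1228639076421) (nat_lit 0) (nat_lit 629759454359) (nat_lit 2) (nat_lit 5) (nat_lit 4) (nat_lit 4) (nat_lit 2) (nat_lit 4) (nat_lit 506) (nat_lit 423) (nat_lit 271)) (XT.lf (nat_lit 0) (nat_lit 858390777706) (nat_lit 152) (nat_lit 1072715615806) (nat_lit 0) (nat_lit 804432379542) (nat_lit 2) (nat_lit 5) (nat_lit 4) (nat_lit 4) (nat_lit 2) (nat_lit 4) (nat_lit 507) (nat_lit 423) (nat_lit 270)))))) (XT.nd (nat_lit 390) (nat_lit 76) (nat_lit 0) (XT.nd (nat_lit 156) (nat_lit 0) (nat_lit 0) (XT.nd (nat_lit 78) (nat_lit 0) (nat_lit 0) (XT.lf (nat_lit 0) (nat_lit 1047037425431) (nat_lit 152) (nat_lit 904318579704) (nat_lit 0) (nat_lit 993078996513) (nat_lit 2) (nat_lit 5) (nat_lit 4) (nat_lit 4) (nat_lit 2) (nat_lit 4) (nat_lit 508) (nat_lit 423) (nat_lit 269)) (XT.lf (nat_lit 0) (nat_lit 1250775668543) (nat_lit 152) (nat_lit 722450059753) (nat_lit 0) (nat_lit 1196817211150) (nat_lit 2) (nat_lit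 5) (nat_lit 4) (nat_lit 4) (nat_lit 2) (nat_lit 4) (nat_lit 509) (nat_lit 423) (nat_lit 268))) (XT.nd (nat_lit 78) (nat_lit 0) (nat_lit 0) (XT.lf (nat_lit 0) (nat_lit 1470812844782) (nat_lit 152) (nat_lit 526032316575) (nat_lit 0) (nat_lit 1416854361022) (nat_lit 2) (nat_lit 5) (nat_lit 4) (nat_lit 4) (nat_lit 2) (nat_lit 4) (nat_lit 510) (nat_lit 423) (nat_lit 267)) (XT.nd (nat_lit 78) (nat_lit 0) (nat_lit 0) (XT.lf (nat_lit 0) (nat_lit 1708452878152) (nat_lit 152) (nat_lit 313901393174) (nat_lit 0) (nat_lit 1654494369980) (nat_lit 2) (nat_lit 5) (nat_lit 4) (nat_lit 4) (nat_lit 2) (nat_lit 4) (nat_lit 511) (nat_lit 423) (nat_lit 266)) (XT.lf (nat_lit 0) (nat_lit 1965104005891) (nat_lit 152) (nat_lit 84800217411) (nat_lit 0) (nat_lit 1911145475114) (nat_lit 2) (nat_lit 5) (nat_lit 4) (nat_lit 4) (nat_lit 2) (nat_lit 4) (nat_lit 512) (nat_lit 423) (nat_lit 265))))) (XT.nd (nat_lit 234)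 (nat_lit 0) (nat_lit 0) (XT.nd (nat_lit 78) (nat_lit 0) (nat_lit 0) (XT.lf (nat_lit 0) (nat_lit 171192594207) (nat_lit 76) (nat_lit 2075211715369) (nat_lit 76) (nat_lit 2021253163661) (nat_lit 1) (nat_lit 4) (nat_lit 2) (nat_lit 5) (nat_lit 2) (nat_lit 4) (nat_lit 513) (nat_lit 423) (nat_lit 264)) (XT.nd (nat_lit 78) (nat_lit 0) (nat_lit 0) (XT.lf (nat_lit 0) (nat_lit 452487294350) (nat_lit 76) (nat_lit 2100039833770) (nat_lit 76) (nat_lit 2046081262683) (nat_lit 1) (nat_lit 4) (nat_lit 2) (nat_lit 5) (nat_lit 2) (nat_lit 4) (nat_lit 514) (nat_lit 423) (nat_lit 263)) (XT.lf (nat_lit 0) (nat_lit 756285385402) (nat_lit 76) (nat_lit 2126854296320) (nat_lit 76) (nat_lit 2072895707288) (nat_lit 1) (nat_lit 4) (nat_lit 2) (nat_lit 5) (nat_lit 2) (nat_lit 4) (nat_lit 515) (nat_lit 423) (nat_lit 262)))) (XT.nd (nat_lit 78) (nat_lit 0) (nat_lit 0) (XT.lf (nat_lit 0) (nat_lit 1084387152349) (nat_lit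 76) (nat_lit 2155814003536) (nat_lit 76) (nat_lit 2101855397889) (nat_lit 1) (nat_lit 4) (nat_lit 2) (nat_lit 5) (nat_lit 2) (nat_lit 4) (nat_lit 516) (nat_lit 423) (nat_lit 261)) (XT.nd (nat_lit 78) (nat_lit 0) (nat_lit 0) (XT.lf (nat_lit 0) (nat_lit 1438736901957) (nat_lit 76) (nat_lit 2187090568499) (nat_lit 76) (nat_lit 2133131947468) (nat_lit 1) (nat_lit 4) (nat_lit 2) (nat_lit 5) (nat_lit 2) (nat_lit 4) (nat_lit 517) (nat_lit 423) (nat_lit 260)) (XT.lf (nat_lit 0) (nat_lit 1821434484593) (nat_lit 76) (nat_lit 2220869333816) (nat_lit 76) (nat_lit 2166910698540) (nat_lit 1) (nat_lit 4) (nat_lit 2) (nat_lit 5) (nat_lit 2) (nat_lit 4) (nat_lit 518) (nat_lit 423) (nat_lit 259))))))) (XT.nd (nat_lit 55302) (nat_lit 0) (nat_lit 3724) (XT.nd (nat_lit 390) (nat_lit 0) (nat_lit 0) (XT.nd (nat_lit 156) (nat_lit 0) (nat_lit 0) (XT.nd (nat_lit 78) (nat_lit 0) (nat_lit 0) (XT.lf (nat_lit 0) (nat_lit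 2234747737786) (nat_lit 76) (nat_lit 2257350469948) (nat_lit 76) (nat_lit 2203391821482) (nat_lit 1) (nat_lit 4) (nat_lit 2) (nat_lit 5) (nat_lit 2) (nat_lit 4) (nat_lit 519) (nat_lit 423) (nat_lit 258)) (XT.lf (nat_lit 0) (nat_lit 2681125925258) (nat_lit 76) (nat_lit 2296750161405) (nat_lit 76) (nat_lit 2242791500727) (nat_lit 1) (nat_lit 4) (nat_lit 2) (nat_lit 5) (nat_lit 2) (nat_lit 4) (nat_lit 520) (nat_lit 423) (nat_lit 257))) (XT.nd (nat_lit 78) (nat_lit 0) (nat_lit 0) (XT.lf (nat_lit 0) (nat_lit 3163214251082) (nat_lit 76) (nat_lit 2339301887841) (nat_lit 76) (nat_lit 2285343215854) (nat_lit 1) (nat_lit 4) (nat_lit 2) (nat_lit 5) (nat_lit 2) (nat_lit 4) (nat_lit 521) (nat_lit 423) (nat_lit 256)) (XT.nd (nat_lit 78) (nat_lit 0) (nat_lit 0) (XT.lf (nat_lit 0) (nat_lit 3683869534967) (nat_lit 76) (nat_lit 2385257807634) (nat_lit 76) (nat_lit 2331299125177) (nat_lit 1) (nat_lit 4) (nat_lit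 2) (nat_lit 5) (nat_lit 2) (nat_lit 4) (nat_lit 522) (nat_lit 423) (nat_lit 255)) (XT.lf (nat_lit 0) (nat_lit 4246177141558) (nat_lit 76) (nat_lit 2434890252161) (nat_lit 76) (nat_lit 2380931560009) (nat_lit 1) (nat_lit 4) (nat_lit 2) (nat_lit 5) (nat_lit 2) (nat_lit 4) (nat_lit 523) (nat_lit 423) (nat_lit 254))))) (XT.nd (nat_lit 54678) (nat_lit 0) (nat_lit 5168) (XT.nd (nat_lit 78) (nat_lit 0) (nat_lit 0) (XT.lf (nat_lit 0) (nat_lit 4853469264080) (nat_lit 76) (nat_lit 2488493339611) (nat_lit 76) (nat_lit 2434534638483) (nat_lit 1) (nat_lit 4) (nat_lit 2) (nat_lit 5) (nat_lit 2) (nat_lit 4) (nat_lit 524) (nat_lit 423) (nat_lit 253)) (XT.nd (nat_lit 78) (nat_lit 0) (nat_lit 0) (XT.lf (nat_lit 0) (nat_lit 5509344670665) (nat_lit 76) (nat_lit 2546384717911) (nat_lit 76) (nat_lit 2492426008472) (nat_lit 1) (nat_lit 4) (nat_lit 2) (nat_lit 5) (nat_lit 2) (nat_lit 4) (nat_lit 525) (nat_lit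 423) (nat_lit 252)) (XT.lf (nat_lit 0) (nat_lit 6217690030391) (nat_lit 76) (nat_lit 2608907447080) (nat_lit 76) (nat_lit 2554948729944) (nat_lit 1) (nat_lit 4) (nat_lit 2) (nat_lit 5) (nat_lit 2) (nat_lit 4) (nat_lit 526) (nat_lit 423) (nat_lit 251)))) (XT.nd (nat_lit 78) (nat_lit 0) (nat_lit 0) (XT.lf (nat_lit 0) (nat_lit 11409961316) (nat_lit 532) (nat_lit 754925665) (nat_lit 532) (nat_lit 754925665) (nat_lit 69) (nat_lit 3) (nat_lit 76) (nat_lit 3) (nat_lit 76) (nat_lit 5) (nat_lit 424) (nat_lit 424) (nat_lit 352)) (XT.nd (nat_lit 78) (nat_lit 0) (nat_lit 76) (XT.lf (nat_lit 76) (nat_lit 11739660814) (nat_lit 0) (nat_lit 12367844679) (nat_lit 532) (nat_lit 2735659744) (nat_lit 70) (nat_lit 5) (nat_lit 69) (nat_lit 3) (nat_lit 76) (nat_lit 5) (nat_lit 425) (nat_lit 424) (nat_lit 351)) (XT.lf (nat_lit 0) (nat_lit 25544425065) (nat_lit 456) (nat_lit 1809126102) (nat_lit 532) (nat_lit 569737022)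 (nat_lit 70) (nat_lit 5) (nat_lit 76) (nat_lit 5) (nat_lit 77) (nat_lit 5) (nat_lit 426) (nat_lit 424) (nat_lit 350)))))) (XT.nd (nat_lit 468) (nat_lit 684) (nat_lit 0) (XT.nd (nat_lit 234) (nat_lit 380) (nat_lit 0) (XT.nd (nat_lit 78) (nat_lit 456) (nat_lit 0) (XT.lf (nat_lit 76) (nat_lit 12865480184) (nat_lit 0) (nat_lit 14852886316) (nat_lit 532) (nat_lit 1321694776) (nat_lit 71) (nat_lit 5) (nat_lit 70) (nat_lit 5) (nat_lit 77) (nat_lit 5) (nat_lit 427) (nat_lit 424) (nat_lit 349)) (XT.nd (nat_lit 78) (nat_lit 456) (nat_lit 0) (XT.lf (nat_lit 76) (nat_lit 28811421942) (nat_lit 0) (nat_lit 1296180008) (nat_lit 532) (nat_lit 135269299) (nat_lit 71) (nat_lit 5) (nat_lit 70) (nat_lit 5) (nat_lit 77) (nat_lit 5) (nat_lit 428) (nat_lit 424) (nat_lit 348)) (XT.lf (nat_lit 0) (nat_lit 1778303794) (nat_lit 532) (nat_lit 16622877405) (nat_lit 608) (nat_lit 13083359179) (nat_lit 64) (nat_lit 5)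 (nat_lit 71) (nat_lit 5) (nat_lit 72) (nat_lit 5) (nat_lit 429) (nat_lit 424) (nat_lit 347)))) (XT.nd (nat_lit 78) (nat_lit 380) (nat_lit 0) (XT.lf (nat_lit 0) (nat_lit 3904275250) (nat_lit 532) (nat_lit 326986177) (nat_lit 608) (nat_lit 28588675121) (nat_lit 64) (nat_lit 5) (nat_lit 71) (nat_lit 5) (nat_lit 72) (nat_lit 5) (nat_lit 430) (nat_lit 424) (nat_lit 346)) (XT.nd (nat_lit 78) (nat_lit 456) (nat_lit 0) (XT.lf (nat_lit 0) (nat_lit 6908464775) (nat_lit 532) (nat_lit 16329136768) (nat_lit 76) (nat_lit 10967915562) (nat_lit 65) (nat_lit 5) (nat_lit 72) (nat_lit 5) (nat_lit 66) (nat_lit 5) (nat_lit 431) (nat_lit 424) (nat_lit 345)) (XT.lf (nat_lit 0) (nat_lit 1828778747) (nat_lit 456) (nat_lit 8480985122) (nat_lit 532) (nat_lit 25379641917) (nat_lit 59) (nat_lit 5) (nat_lit 65) (nat_lit 5) (nat_lit 66) (nat_lit 5) (nat_lit 432) (nat_lit 424) (nat_lit 344))))) (XT.nd (nat_lit 234) (nat_lit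 456) (nat_lit 0) (XT.nd (nat_lit 78) (nat_lit 228) (nat_lit 0) (XT.lf (nat_lit 0) (nat_lit 14614598213) (nat_lit 532) (nat_lit 15085510931) (nat_lit 76) (nat_lit 7541385272) (nat_lit 59) (nat_lit 5) (nat_lit 66) (nat_lit 5) (nat_lit 60) (nat_lit 5) (nat_lit 433) (nat_lit 424) (nat_lit 343)) (XT.nd (nat_lit 78) (nat_lit 0) (nat_lit 0) (XT.lf (nat_lit 0) (nat_lit 5226984288) (nat_lit 228) (nat_lit 14377316832) (nat_lit 304) (nat_lit 19286213585) (nat_lit 56) (nat_lit 5) (nat_lit 59) (nat_lit 5) (nat_lit 60) (nat_lit 5) (nat_lit 434) (nat_lit 424) (nat_lit 342)) (XT.lf (nat_lit 0) (nat_lit 25463326946) (nat_lit 304) (nat_lit 12685071295) (nat_lit 76) (nat_lit 2485449522) (nat_lit 56) (nat_lit 5) (nat_lit 60) (nat_lit 5) (nat_lit 57) (nat_lit 5) (nat_lit 435) (nat_lit 424) (nat_lit 341)))) (XT.nd (nat_lit 78) (nat_lit 228) (nat_lit 0) (XT.lf (nat_lit 0) (nat_lit 10097723258) (nat_lit 228) (nat_lit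 22304776762) (nat_lit 304) (nat_lit 10065236100) (nat_lit 53) (nat_lit 5) (nat_lit 56) (nat_lit 5) (nat_lit 57) (nat_lit 5) (nat_lit 436) (nat_lit 424) (nat_lit 340)) (XT.nd (nat_lit 78) (nat_lit 228) (nat_lit 0) (XT.lf (nat_lit 0) (nat_lit 35419061733) (nat_lit 228) (nat_lit 4819943532) (nat_lit 304) (nat_lit 4181956886) (nat_lit 53) (nat_lit 5) (nat_lit 56) (nat_lit 5) (nat_lit 57) (nat_lit 5) (nat_lit 437) (nat_lit 424) (nat_lit 339)) (XT.lf (nat_lit 0) (nat_lit 2818705951) (nat_lit 228) (nat_lit 29814043894) (nat_lit 76) (nat_lit 13833089815) (nat_lit 50) (nat_lit 5) (nat_lit 53) (nat_lit 5) (nat_lit 51) (nat_lit 5) (nat_lit 438) (nat_lit 424) (nat_lit 338))))))))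
noncomputable def xc155 : XT := (XT.nd (nat_lit 1716) (nat_lit 1216) (nat_lit 0) (XT.nd (nat_lit 858) (nat_lit 760) (nat_lit 0) (XT.nd (nat_lit 390) (nat_lit 532) (nat_lit 0) (XT.nd (nat_lit 156) (nat_lit 304) (nat_lit 0) (XT.nd (nat_lit 78) (nat_lit 228) (nat_lit 0) (XT.lf (nat_lit 0) (nat_lit 10526975333) (nat_lit 228) (nat_lit 4030590125) (nat_lit 76) (nat_lit 34078175068) (nat_lit 50) (nat_lit 5) (nat_lit 53) (nat_lit 5) (nat_lit 51) (nat_lit 5) (nat_lit 439) (nat_lit 424) (nat_lit 337)) (XT.lf (nat_lit 0) (nat_lit 19585793371) (nat_lit 304) (nat_lit 26002063770) (nat_lit 76) (nat_lit 5332667167) (nat_lit 47) (nat_lit 5) (nat_lit 51) (nat_lit 5) (nat_lit 48) (nat_lit 5) (nat_lit 440) (nat_lit 424) (nat_lit 336))) (XT.nd (nat_lit 78) (nat_lit 152) (nat_lit 0) (XT.lf (nat_lit 0) (nat_lit 2786564412) (nat_lit 152) (nat_lit 27137181779) (nat_lit 228) (nat_lit 23419991937) (nat_lit 45) (nat_lit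 5) (nat_lit 47) (nat_lit 5) (nat_lit 48) (nat_lit 5) (nat_lit 441) (nat_lit 424) (nat_lit 335)) (XT.nd (nat_lit 78) (nat_lit 152) (nat_lit 0) (XT.lf (nat_lit 0) (nat_lit 35351941971) (nat_lit 152) (nat_lit 6444120407) (nat_lit 228) (nat_lit 14108162061) (nat_lit 45) (nat_lit 5) (nat_lit 47) (nat_lit 5) (nat_lit 48) (nat_lit 5) (nat_lit 442) (nat_lit 424) (nat_lit 334)) (XT.lf (nat_lit 0) (nat_lit 12069294646) (nat_lit 152) (nat_lit 43218256256) (nat_lit 228) (nat_lit 3328449231) (nat_lit 43) (nat_lit 5) (nat_lit 45) (nat_lit 5) (nat_lit 46) (nat_lit 5) (nat_lit 443) (nat_lit 424) (nat_lit 333))))) (XT.nd (nat_lit 234) (nat_lit 304) (nat_lit 0) (XT.nd (nat_lit 78) (nat_lit 152) (nat_lit 0) (XT.lf (nat_lit 0) (nat_lit 8638337881) (nat_lit 228) (nat_lit 13417268023) (nat_lit 76) (nat_lit 39413871416) (nat_lit 42) (nat_lit 5) (nat_lit 45) (nat_lit 5) (nat_lit 43) (nat_lit 5) (nat_lit 444) (nat_lit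 424) (nat_lit 332)) (XT.nd (nat_lit 78) (nat_lit 0) (nat_lit 0) (XT.lf (nat_lit 0) (nat_lit 21979488274) (nat_lit 228) (nat_lit 41091346470) (nat_lit 76) (nat_lit 1425735384) (nat_lit 40) (nat_lit 5) (nat_lit 43) (nat_lit 5) (nat_lit 41) (nat_lit 5) (nat_lit 445) (nat_lit 424) (nat_lit 331)) (XT.lf (nat_lit 0) (nat_lit 37334181171) (nat_lit 228) (nat_lit 4387040062) (nat_lit 76) (nat_lit 25968910148) (nat_lit 40) (nat_lit 5) (nat_lit 43) (nat_lit 5) (nat_lit 41) (nat_lit 5) (nat_lit 446) (nat_lit 424) (nat_lit 330)))) (XT.nd (nat_lit 78) (nat_lit 152) (nat_lit 0) (XT.lf (nat_lit 0) (nat_lit 37105400151) (nat_lit 152) (nat_lit 17701454638) (nat_lit 228) (nat_lit 16261155303) (nat_lit 38) (nat_lit 5) (nat_lit 40) (nat_lit 5) (nat_lit 41) (nat_lit 5) (nat_lit 447) (nat_lit 424) (nat_lit 329)) (XT.nd (nat_lit 78) (nat_lit 76) (nat_lit 0) (XT.lf (nat_lit 0) (nat_lit 7636490964) (nat_lit 76)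 (nat_lit 66543028624) (nat_lit 152) (nat_lit 496426238) (nat_lit 37) (nat_lit 5) (nat_lit 38) (nat_lit 5) (nat_lit 39) (nat_lit 4) (nat_lit 448) (nat_lit 424) (nat_lit 328)) (XT.lf (nat_lit 0) (nat_lit 17112418076) (nat_lit 152) (nat_lit 24889126018) (nat_lit 76) (nat_lit 36426385668) (nat_lit 36) (nat_lit 5) (nat_lit 38) (nat_lit 5) (nat_lit 37) (nat_lit 5) (nat_lit 449) (nat_lit 424) (nat_lit 327)))))) (XT.nd (nat_lit 390) (nat_lit 304) (nat_lit 0) (XT.nd (nat_lit 156) (nat_lit 304) (nat_lit 0) (XT.nd (nat_lit 78) (nat_lit 0) (nat_lit 0) (XT.lf (nat_lit 0) (nat_lit 21701809175) (nat_lit 152) (nat_lit 14920782015) (nat_lit 228) (nat_lit 45814895116) (nat_lit 34) (nat_lit 5) (nat_lit 36) (nat_lit 5) (nat_lit 37) (nat_lit 5) (nat_lit 450) (nat_lit 424) (nat_lit 326)) (XT.lf (nat_lit 0) (nat_lit 58733878026) (nat_lit 228) (nat_lit 13644294262) (nat_lit 76) (nat_lit 14306411765) (nat_lit 34)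 (nat_lit 5) (nat_lit 37) (nat_lit 5) (nat_lit 35) (nat_lit 4) (nat_lit 451) (nat_lit 424) (nat_lit 325))) (XT.nd (nat_lit 78) (nat_lit 228) (nat_lit 0) (XT.lf (nat_lit 0) (nat_lit 38762002085) (nat_lit 76) (nat_lit 45169586461) (nat_lit 152) (nat_lit 7234460032) (nat_lit 33) (nat_lit 5) (nat_lit 34) (nat_lit 5) (nat_lit 35) (nat_lit 4) (nat_lit 452) (nat_lit 424) (nat_lit 324)) (XT.nd (nat_lit 78) (nat_lit 152) (nat_lit 0) (XT.lf (nat_lit 0) (nat_lit 14762276409) (nat_lit 152) (nat_lit 217102544) (nat_lit 76) (nat_lit 80967083481) (nat_lit 32) (nat_lit 5) (nat_lit 34) (nat_lit 5) (nat_lit 33) (nat_lit 5) (nat_lit 453) (nat_lit 424) (nat_lit 323)) (XT.lf (nat_lit 0) (nat_lit 40007911640) (nat_lit 228) (nat_lit 42546982822) (nat_lit 76) (nat_lit 18388982093) (nat_lit 30) (nat_lit 5) (nat_lit 33) (nat_lit 5) (nat_lit 31) (nat_lit 4) (nat_lit 454) (nat_lit 424) (nat_lit 322))))) (XT.nd (nat_lit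 234) (nat_lit 76) (nat_lit 0) (XT.nd (nat_lit 78) (nat_lit 152) (nat_lit 0) (XT.lf (nat_lit 0) (nat_lit 15767638266) (nat_lit 76) (nat_lit 52277895135) (nat_lit 152) (nat_lit 38233764001) (nat_lit 29) (nat_lit 5) (nat_lit 30) (nat_lit 5) (nat_lit 31) (nat_lit 4) (nat_lit 455) (nat_lit 424) (nat_lit 321)) (XT.nd (nat_lit 78) (nat_lit 152) (nat_lit 0) (XT.lf (nat_lit 0) (nat_lit 81163564345) (nat_lit 76) (nat_lit 18323935020) (nat_lit 152) (nat_lit 12461146218) (nat_lit 29) (nat_lit 5) (nat_lit 30) (nat_lit 5) (nat_lit 31) (nat_lit 4) (nat_lit 456) (nat_lit 424) (nat_lit 320)) (XT.lf (nat_lit 0) (nat_lit 15919310317) (nat_lit 152) (nat_lit 83344823745) (nat_lit 76) (nat_lit 18672624646) (nat_lit 27) (nat_lit 5) (nat_lit 29) (nat_lit 5) (nat_lit 28) (nat_lit 4) (nat_lit 457) (nat_lit 424) (nat_lit 319)))) (XT.nd (nat_lit 78) (nat_lit 76) (nat_lit 0) (XT.lf (nat_lit 0) (nat_lit 47234652697)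 (nat_lit 152) (nat_lit 18211581353) (nat_lit 76) (nat_lit 58824779886) (nat_lit 27) (nat_lit 5) (nat_lit 29) (nat_lit 5) (nat_lit 28) (nat_lit 4) (nat_lit 458) (nat_lit 424) (nat_lit 318)) (XT.nd (nat_lit 78) (nat_lit 0) (nat_lit 0) (XT.lf (nat_lit 0) (nat_lit 54874192414) (nat_lit 76) (nat_lit 27499039977) (nat_lit 152) (nat_lit 48633336704) (nat_lit 26) (nat_lit 5) (nat_lit 27) (nat_lit 5) (nat_lit 28) (nat_lit 4) (nat_lit 459) (nat_lit 424) (nat_lit 317)) (XT.lf (nat_lit 0) (nat_lit 121156360958) (nat_lit 152) (nat_lit 3738995824) (nat_lit 0) (nat_lit 13318935173) (nat_lit 26) (nat_lit 5) (nat_lit 28) (nat_lit 4) (nat_lit 26) (nat_lit 4) (nat_lit 460) (nat_lit 424) (nat_lit 316))))))) (XT.nd (nat_lit 858) (nat_lit 532) (nat_lit 0) (XT.nd (nat_lit 390) (nat_lit 304) (nat_lit 0) (XT.nd (nat_lit 156) (nat_lit 152) (nat_lit 0) (XT.nd (nat_lit 78) (nat_lit 76) (nat_lit 0) (XT.lf (nat_lit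 0) (nat_lit 18837152825) (nat_lit 152) (nat_lit 68658110260) (nat_lit 76) (nat_lit 58258879592) (nat_lit 24) (nat_lit 5) (nat_lit 26) (nat_lit 5) (nat_lit 25) (nat_lit 4) (nat_lit 461) (nat_lit 424) (nat_lit 315)) (XT.lf (nat_lit 0) (nat_lit 10813781092) (nat_lit 76) (nat_lit 46231885360) (nat_lit 152) (nat_lit 96786998625) (nat_lit 23) (nat_lit 5) (nat_lit 24) (nat_lit 5) (nat_lit 25) (nat_lit 4) (nat_lit 462) (nat_lit 424) (nat_lit 314))) (XT.nd (nat_lit 78) (nat_lit 152) (nat_lit 0) (XT.lf (nat_lit 0) (nat_lit 100195203630) (nat_lit 152) (nat_lit 61870840313) (nat_lit 0) (nat_lit 340678139) (nat_lit 23) (nat_lit 5) (nat_lit 25) (nat_lit 4) (nat_lit 23) (nat_lit 4) (nat_lit 463) (nat_lit 424) (nat_lit 313)) (XT.nd (nat_lit 78) (nat_lit 76) (nat_lit 0) (XT.lf (nat_lit 0) (nat_lit 25859048856) (nat_lit 76) (nat_lit 122758959259) (nat_lit 76) (nat_lit 22902991381) (nat_lit 22) (nat_lit 4)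 (nat_lit 23) (nat_lit 5) (nat_lit 23) (nat_lit 4) (nat_lit 464) (nat_lit 424) (nat_lit 312)) (XT.lf (nat_lit 0) (nat_lit 20306405369) (nat_lit 152) (nat_lit 57619980252) (nat_lit 76) (nat_lit 103261685505) (nat_lit 21) (nat_lit 5) (nat_lit 23) (nat_lit 5) (nat_lit 22) (nat_lit 4) (nat_lit 465) (nat_lit 424) (nat_lit 311))))) (XT.nd (nat_lit 234) (nat_lit 152) (nat_lit 0) (XT.nd (nat_lit 78) (nat_lit 76) (nat_lit 0) (XT.lf (nat_lit 0) (nat_lit 38809317734) (nat_lit 76) (nat_lit 27857921577) (nat_lit 152) (nat_lit 124839115349) (nat_lit 20) (nat_lit 5) (nat_lit 21) (nat_lit 5) (nat_lit 22) (nat_lit 4) (nat_lit 466) (nat_lit 424) (nat_lit 310)) (XT.nd (nat_lit 78) (nat_lit 76) (nat_lit 0) (XT.lf (nat_lit 0) (nat_lit 118982474940) (nat_lit 152) (nat_lit 56968179685) (nat_lit 0) (nat_lit 26519803599) (nat_lit 20) (nat_lit 5) (nat_lit 22) (nat_lit 4) (nat_lit 20) (nat_lit 4) (nat_lit 467) (nat_lit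 424) (nat_lit 309)) (XT.lf (nat_lit 0) (nat_lit 48099151385) (nat_lit 76) (nat_lit 129262929840) (nat_lit 76) (nat_lit 36799276835) (nat_lit 19) (nat_lit 4) (nat_lit 20) (nat_lit 5) (nat_lit 20) (nat_lit 4) (nat_lit 468) (nat_lit 424) (nat_lit 308)))) (XT.nd (nat_lit 78) (nat_lit 76) (nat_lit 0) (XT.lf (nat_lit 0) (nat_lit 14539828060) (nat_lit 152) (nat_lit 62221719589) (nat_lit 76) (nat_lit 149872020261) (nat_lit 18) (nat_lit 5) (nat_lit 20) (nat_lit 5) (nat_lit 19) (nat_lit 4) (nat_lit 469) (nat_lit 424) (nat_lit 307)) (XT.nd (nat_lit 78) (nat_lit 0) (nat_lit 0) (XT.lf (nat_lit 0) (nat_lit 51546553293) (nat_lit 76) (nat_lit 17689964430) (nat_lit 152) (nat_lit 170691485047) (nat_lit 17) (nat_lit 5) (nat_lit 18) (nat_lit 5) (nat_lit 19) (nat_lit 4) (nat_lit 470) (nat_lit 424) (nat_lit 306)) (XT.lf (nat_lit 0) (nat_lit 131162149565) (nat_lit 152) (nat_lit 77350272800) (nat_lit 0) (nat_lit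 45545313593) (nat_lit 17) (nat_lit 5) (nat_lit 19) (nat_lit 4) (nat_lit 17) (nat_lit 4) (nat_lit 471) (nat_lit 424) (nat_lit 305)))))) (XT.nd (nat_lit 468) (nat_lit 228) (nat_lit 0) (XT.nd (nat_lit 234) (nat_lit 76) (nat_lit 0) (XT.nd (nat_lit 78) (nat_lit 152) (nat_lit 0) (XT.lf (nat_lit 0) (nat_lit 44318890142) (nat_lit 76) (nat_lit 155247258254) (nat_lit 76) (nat_lit 69629754178) (nat_lit 16) (nat_lit 4) (nat_lit 17) (nat_lit 5) (nat_lit 17) (nat_lit 4) (nat_lit 472) (nat_lit 424) (nat_lit 304)) (XT.nd (nat_lit 78) (nat_lit 152) (nat_lit 0) (XT.lf (nat_lit 0) (nat_lit 180118577632) (nat_lit 76) (nat_lit 95437778281) (nat_lit 76) (nat_lit 9819655589) (nat_lit 16) (nat_lit 4) (nat_lit 17) (nat_lit 5) (nat_lit 17) (nat_lit 4) (nat_lit 473) (nat_lit 424) (nat_lit 303)) (XT.lf (nat_lit 0) (nat_lit 23803207529) (nat_lit 76) (nat_lit 28803476611) (nat_lit 152) (nat_lit 250092736336) (nat_lit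 14) (nat_lit 5) (nat_lit 15) (nat_lit 5) (nat_lit 16) (nat_lit 4) (nat_lit 474) (nat_lit 424) (nat_lit 302)))) (XT.nd (nat_lit 78) (nat_lit 76) (nat_lit 0) (XT.lf (nat_lit 0) (nat_lit 123486377282) (nat_lit 152) (nat_lit 153373423145) (nat_lit 0) (nat_lit 44209316313) (nat_lit 14) (nat_lit 5) (nat_lit 16) (nat_lit 4) (nat_lit 14) (nat_lit 4) (nat_lit 475) (nat_lit 424) (nat_lit 301)) (XT.nd (nat_lit 78) (nat_lit 76) (nat_lit 0) (XT.lf (nat_lit 0) (nat_lit 200783708352) (nat_lit 152) (nat_lit 18558706733) (nat_lit 0) (nat_lit 121506192683) (nat_lit 14) (nat_lit 5) (nat_lit 16) (nat_lit 4) (nat_lit 14) (nat_lit 4) (nat_lit 476) (nat_lit 424) (nat_lit 300)) (XT.lf (nat_lit 0) (nat_lit 133729240850) (nat_lit 76) (nat_lit 153750961912) (nat_lit 76) (nat_lit 74473025224) (nat_lit 13) (nat_lit 4) (nat_lit 14) (nat_lit 5) (nat_lit 14) (nat_lit 4) (nat_lit 477) (nat_lit 424) (nat_lit 299))))) (XT.nd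 (nat_lit 234) (nat_lit 76) (nat_lit 0) (XT.nd (nat_lit 78) (nat_lit 152) (nat_lit 0) (XT.lf (nat_lit 0) (nat_lit 299254091086) (nat_lit 76) (nat_lit 82364961231) (nat_lit 76) (nat_lit 3086634711) (nat_lit 13) (nat_lit 4) (nat_lit 14) (nat_lit 5) (nat_lit 14) (nat_lit 4) (nat_lit 478) (nat_lit 424) (nat_lit 298)) (XT.nd (nat_lit 78) (nat_lit 0) (nat_lit 0) (XT.lf (nat_lit 0) (nat_lit 70487176615) (nat_lit 76) (nat_lit 1515642659) (nat_lit 152) (nat_lit 336997569656) (nat_lit 11) (nat_lit 5) (nat_lit 12) (nat_lit 5) (nat_lit 13) (nat_lit 4) (nat_lit 479) (nat_lit 424) (nat_lit 297)) (XT.lf (nat_lit 0) (nat_lit 157392535953) (nat_lit 152) (nat_lit 193496893716) (nat_lit 0) (nat_lit 83986034384) (nat_lit 11) (nat_lit 5) (nat_lit 13) (nat_lit 4) (nat_lit 11) (nat_lit 4) (nat_lit 480) (nat_lit 424) (nat_lit 296)))) (XT.nd (nat_lit 78) (nat_lit 76) (nat_lit 0) (XT.lf (nat_lit 0) (nat_lit 249652102893)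 (nat_lit 152) (nat_lit 36920033712) (nat_lit 0) (nat_lit 176245314785) (nat_lit 11) (nat_lit 5) (nat_lit 13) (nat_lit 4) (nat_lit 11) (nat_lit 4) (nat_lit 481) (nat_lit 424) (nat_lit 295)) (XT.nd (nat_lit 78) (nat_lit 0) (nat_lit 0) (XT.lf (nat_lit 0) (nat_lit 139142134930) (nat_lit 76) (nat_lit 213496028972) (nat_lit 76) (nat_lit 140088975551) (nat_lit 10) (nat_lit 4) (nat_lit 11) (nat_lit 5) (nat_lit 11) (nat_lit 4) (nat_lit 482) (nat_lit 424) (nat_lit 294)) (XT.lf (nat_lit 0) (nat_lit 331387691558) (nat_lit 76) (nat_lit 133484251720) (nat_lit 76) (nat_lit 60076952638) (nat_lit 10) (nat_lit 4) (nat_lit 11) (nat_lit 5) (nat_lit 11) (nat_lit 4) (nat_lit 483) (nat_lit 424) (nat_lit 293))))))))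
noncomputable def xc156 : XT := (XT.nd (nat_lit 1716) (nat_lit 76) (nat_lit 0) (XT.nd (nat_lit 858) (nat_lit 228) (nat_lit 0) (XT.nd (nat_lit 390) (nat_lit 152) (nat_lit 0) (XT.nd (nat_lit 156) (nat_lit 76) (nat_lit 0) (XT.nd (nat_lit 78) (nat_lit 76) (nat_lit 0) (XT.lf (nat_lit 0) (nat_lit 25018002723) (nat_lit 152) (nat_lit 21370080879) (nat_lit 76) (nat_lit 513309686296) (nat_lit 9) (nat_lit 5) (nat_lit 11) (nat_lit 5) (nat_lit 10) (nat_lit 4) (nat_lit 484) (nat_lit 424) (nat_lit 292)) (XT.lf (nat_lit 0) (nat_lit 119096079011) (nat_lit 152) (nat_lit 426445988348) (nat_lit 0) (nat_lit 51125952011) (nat_lit 8) (nat_lit 5) (nat_lit 10) (nat_lit 4) (nat_lit 8) (nat_lit 4) (nat_lit 485) (nat_lit 424) (nat_lit 291))) (XT.nd (nat_lit 78) (nat_lit 76) (nat_lit 0) (XT.lf (nat_lit 0) (nat_lit 222504210345) (nat_lit 152) (nat_lit 259413470986) (nat_lit 0) (nat_lit 154533902778) (nat_lit 8) (nat_lit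 5) (nat_lit 10) (nat_lit 4) (nat_lit 8) (nat_lit 4) (nat_lit 486) (nat_lit 424) (nat_lit 290)) (XT.nd (nat_lit 78) (nat_lit 76) (nat_lit 0) (XT.lf (nat_lit 0) (nat_lit 334184484091) (nat_lit 152) (nat_lit 79019381274) (nat_lit 0) (nat_lit 266214009331) (nat_lit 8) (nat_lit 5) (nat_lit 10) (nat_lit 4) (nat_lit 8) (nat_lit 4) (nat_lit 487) (nat_lit 424) (nat_lit 289)) (XT.lf (nat_lit 0) (nat_lit 121903383765) (nat_lit 76) (nat_lit 335827104823) (nat_lit 76) (nat_lit 267856475255) (nat_lit 7) (nat_lit 4) (nat_lit 8) (nat_lit 5) (nat_lit 8) (nat_lit 4) (nat_lit 488) (nat_lit 424) (nat_lit 288))))) (XT.nd (nat_lit 234) (nat_lit 76) (nat_lit 0) (XT.nd (nat_lit 78) (nat_lit 76) (nat_lit 0) (XT.lf (nat_lit 0) (nat_lit 343392943545) (nat_lit 76) (nat_lit 249927301873) (nat_lit 76) (nat_lit 181956528965) (nat_lit 7) (nat_lit 4) (nat_lit 8) (nat_lit 5) (nat_lit 8) (nat_lit 4) (nat_lit 489) (nat_lit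 424) (nat_lit 287)) (XT.nd (nat_lit 78) (nat_lit 76) (nat_lit 0) (XT.lf (nat_lit 0) (nat_lit 582600808207) (nat_lit 76) (nat_lit 157155950566) (nat_lit 76) (nat_lit 89185044935) (nat_lit 7) (nat_lit 4) (nat_lit 8) (nat_lit 5) (nat_lit 8) (nat_lit 4) (nat_lit 490) (nat_lit 424) (nat_lit 286)) (XT.lf (nat_lit 0) (nat_lit 10457082352) (nat_lit 152) (nat_lit 46220297229) (nat_lit 76) (nat_lit 830201508321) (nat_lit 6) (nat_lit 5) (nat_lit 8) (nat_lit 5) (nat_lit 7) (nat_lit 4) (nat_lit 491) (nat_lit 424) (nat_lit 285)))) (XT.nd (nat_lit 78) (nat_lit 0) (nat_lit 0) (XT.lf (nat_lit 0) (nat_lit 118911857923) (nat_lit 152) (nat_lit 773925379345) (nat_lit 0) (nat_lit 55975615042) (nat_lit 5) (nat_lit 5) (nat_lit 7) (nat_lit 4) (nat_lit 5) (nat_lit 4) (nat_lit 492) (nat_lit 424) (nat_lit 284)) (XT.nd (nat_lit 78) (nat_lit 0) (nat_lit 0) (XT.lf (nat_lit 0) (nat_lit 238811352534) (nat_lit 152) (nat_lit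 600793702293) (nat_lit 0) (nat_lit 175875012098) (nat_lit 5) (nat_lit 5) (nat_lit 7) (nat_lit 4) (nat_lit 5) (nat_lit 4) (nat_lit 493) (nat_lit 424) (nat_lit 283)) (XT.lf (nat_lit 0) (nat_lit 368302462166) (nat_lit 152) (nat_lit 413812192717) (nat_lit 0) (nat_lit 305366031402) (nat_lit 5) (nat_lit 5) (nat_lit 7) (nat_lit 4) (nat_lit 5) (nat_lit 4) (nat_lit 494) (nat_lit 424) (nat_lit 282)))))) (XT.nd (nat_lit 390) (nat_lit 152) (nat_lit 0) (XT.nd (nat_lit 156) (nat_lit 0) (nat_lit 0) (XT.nd (nat_lit 78) (nat_lit 76) (nat_lit 0) (XT.lf (nat_lit 0) (nat_lit 508152541544) (nat_lit 152) (nat_lit 211872812042) (nat_lit 0) (nat_lit 445216027141) (nat_lit 5) (nat_lit 5) (nat_lit 7) (nat_lit 4) (nat_lit 5) (nat_lit 4) (nat_lit 495) (nat_lit 424) (nat_lit 281)) (XT.lf (nat_lit 0) (nat_lit 6548710566) (nat_lit 76) (nat_lit 652799117957) (nat_lit 76) (nat_lit 589862526112) (nat_lit 4) (nat_lit 4)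 (nat_lit 5) (nat_lit 5) (nat_lit 5) (nat_lit 4) (nat_lit 496) (nat_lit 424) (nat_lit 280))) (XT.nd (nat_lit 78) (nat_lit 0) (nat_lit 0) (XT.lf (nat_lit 0) (nat_lit 254492763226) (nat_lit 76) (nat_lit 573938665774) (nat_lit 76) (nat_lit 511002002223) (nat_lit 4) (nat_lit 4) (nat_lit 5) (nat_lit 5) (nat_lit 5) (nat_lit 4) (nat_lit 497) (nat_lit 424) (nat_lit 279)) (XT.nd (nat_lit 78) (nat_lit 0) (nat_lit 0) (XT.lf (nat_lit 0) (nat_lit 522271797214) (nat_lit 76) (nat_lit 488769653991) (nat_lit 76) (nat_lit 425832924046) (nat_lit 4) (nat_lit 4) (nat_lit 5) (nat_lit 5) (nat_lit 5) (nat_lit 4) (nat_lit 498) (nat_lit 424) (nat_lit 278)) (XT.lf (nat_lit 0) (nat_lit 811472651250) (nat_lit 76) (nat_lit 396787377353) (nat_lit 76) (nat_lit 333850585932) (nat_lit 4) (nat_lit 4) (nat_lit 5) (nat_lit 5) (nat_lit 5) (nat_lit 4) (nat_lit 499) (nat_lit 424) (nat_lit 277))))) (XT.nd (nat_lit 234) (nat_lit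 152) (nat_lit 0) (XT.nd (nat_lit 78) (nat_lit 0) (nat_lit 0) (XT.lf (nat_lit 0) (nat_lit 1123809108174) (nat_lit 76) (nat_lit 297446755703) (nat_lit 76) (nat_lit 234509907359) (nat_lit 4) (nat_lit 4) (nat_lit 5) (nat_lit 5) (nat_lit 5) (nat_lit 4) (nat_lit 500) (nat_lit 424) (nat_lit 276)) (XT.nd (nat_lit 78) (nat_lit 0) (nat_lit 0) (XT.lf (nat_lit 0) (nat_lit 1461132050692) (nat_lit 76) (nat_lit 190159103875) (nat_lit 76) (nat_lit 127222202825) (nat_lit 4) (nat_lit 4) (nat_lit 5) (nat_lit 5) (nat_lit 5) (nat_lit 4) (nat_lit 501) (nat_lit 424) (nat_lit 275)) (XT.lf (nat_lit 0) (nat_lit 1825440429576) (nat_lit 76) (nat_lit 74288643191) (nat_lit 76) (nat_lit 11351693339) (nat_lit 4) (nat_lit 4) (nat_lit 5) (nat_lit 5) (nat_lit 5) (nat_lit 4) (nat_lit 502) (nat_lit 424) (nat_lit 274)))) (XT.nd (nat_lit 78) (nat_lit 0) (nat_lit 0) (XT.lf (nat_lit 0) (nat_lit 113595437015) (nat_lit 152) (nat_lit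 1884678828525) (nat_lit 0) (nat_lit 55320441609) (nat_lit 2) (nat_lit 5) (nat_lit 4) (nat_lit 4) (nat_lit 2) (nat_lit 4) (nat_lit 503) (nat_lit 424) (nat_lit 273)) (XT.nd (nat_lit 78) (nat_lit 0) (nat_lit 0) (XT.lf (nat_lit 0) (nat_lit 252256819318) (nat_lit 152) (nat_lit 1760901029632) (nat_lit 0) (nat_lit 193981785171) (nat_lit 2) (nat_lit 5) (nat_lit 4) (nat_lit 4) (nat_lit 2) (nat_lit 4) (nat_lit 504) (nat_lit 424) (nat_lit 272)) (XT.lf (nat_lit 0) (nat_lit 402010940343) (nat_lit 152) (nat_lit 1627221358336) (nat_lit 0) (nat_lit 343735870325) (nat_lit 2) (nat_lit 5) (nat_lit 4) (nat_lit 4) (nat_lit 2) (nat_lit 4) (nat_lit 505) (nat_lit 424) (nat_lit 271))))))) (XT.nd (nat_lit 858) (nat_lit 0) (nat_lit 0) (XT.nd (nat_lit 390) (nat_lit 76) (nat_lit 0) (XT.nd (nat_lit 156) (nat_lit 0) (nat_lit 0) (XT.nd (nat_lit 78) (nat_lit 0) (nat_lit 0) (XT.lf (nat_lit 0) (nat_lit 563745231919) (nat_lit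 152) (nat_lit 1482847638807) (nat_lit 0) (nat_lit 505470128687) (nat_lit 2) (nat_lit 5) (nat_lit 4) (nat_lit 4) (nat_lit 2) (nat_lit 4) (nat_lit 506) (nat_lit 424) (nat_lit 270)) (XT.lf (nat_lit 0) (nat_lit 738418119477) (nat_lit 152) (nat_lit 1326924323078) (nat_lit 0) (nat_lit 680142985492) (nat_lit 2) (nat_lit 5) (nat_lit 4) (nat_lit 4) (nat_lit 2) (nat_lit 4) (nat_lit 507) (nat_lit 424) (nat_lit 269))) (XT.nd (nat_lit 78) (nat_lit 0) (nat_lit 0) (XT.lf (nat_lit 0) (nat_lit 927064701610) (nat_lit 152) (nat_lit 1158527421129) (nat_lit 0) (nat_lit 868789539150) (nat_lit 2) (nat_lit 5) (nat_lit 4) (nat_lit 4) (nat_lit 2) (nat_lit 4) (nat_lit 508) (nat_lit 424) (nat_lit 268)) (XT.nd (nat_lit 78) (nat_lit 0) (nat_lit 0) (XT.lf (nat_lit 0) (nat_lit 1130802883990) (nat_lit 152) (nat_lit 976659025394) (nat_lit 0) (nat_lit 1072527695164) (nat_lit 2) (nat_lit 5) (nat_lit 4) (nat_lit 4) (nat_lit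 2) (nat_lit 4) (nat_lit 509) (nat_lit 424) (nat_lit 267)) (XT.lf (nat_lit 0) (nat_lit 1350840003995) (nat_lit 152) (nat_lit 780241397231) (nat_lit 0) (nat_lit 1292564790755) (nat_lit 2) (nat_lit 5) (nat_lit 4) (nat_lit 4) (nat_lit 2) (nat_lit 4) (nat_lit 510) (nat_lit 424) (nat_lit 266))))) (XT.nd (nat_lit 234) (nat_lit 76) (nat_lit 0) (XT.nd (nat_lit 78) (nat_lit 0) (nat_lit 0) (XT.lf (nat_lit 0) (nat_lit 1588479985297) (nat_lit 152) (nat_lit 568110580325) (nat_lit 0) (nat_lit 1530204749453) (nat_lit 2) (nat_lit 5) (nat_lit 4) (nat_lit 4) (nat_lit 2) (nat_lit 4) (nat_lit 511) (nat_lit 424) (nat_lit 265)) (XT.nd (nat_lit 78) (nat_lit 0) (nat_lit 0) (XT.lf (nat_lit 0) (nat_lit 1845131064824) (nat_lit 152) (nat_lit 339009503168) (nat_lit 0) (nat_lit 1786855808050) (nat_lit 2) (nat_lit 5) (nat_lit 4) (nat_lit 4) (nat_lit 2) (nat_lit 4) (nat_lit 512) (nat_lit 424) (nat_lit 264)) (XT.lf (nat_lit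 0) (nat_lit 2122314137862) (nat_lit 152) (nat_lit 91580529748) (nat_lit 0) (nat_lit 2064038861707) (nat_lit 2) (nat_lit 5) (nat_lit 4) (nat_lit 4) (nat_lit 2) (nat_lit 4) (nat_lit 513) (nat_lit 424) (nat_lit 263)))) (XT.nd (nat_lit 78) (nat_lit 0) (nat_lit 0) (XT.lf (nat_lit 0) (nat_lit 184891613000) (nat_lit 76) (nat_lit 2241226805507) (nat_lit 76) (nat_lit 2182951511409) (nat_lit 1) (nat_lit 4) (nat_lit 2) (nat_lit 5) (nat_lit 2) (nat_lit 4) (nat_lit 514) (nat_lit 424) (nat_lit 262)) (XT.nd (nat_lit 78) (nat_lit 0) (nat_lit 0) (XT.lf (nat_lit 0) (nat_lit 488689621653) (nat_lit 76) (nat_lit 2268041310202) (nat_lit 76) (nat_lit 2209765999488) (nat_lit 1) (nat_lit 4) (nat_lit 2) (nat_lit 5) (nat_lit 2) (nat_lit 4) (nat_lit 515) (nat_lit 424) (nat_lit 261)) (XT.lf (nat_lit 0) (nat_lit 816791312305) (nat_lit 76) (nat_lit 2297001056442) (nat_lit 76) (nat_lit 2238725730344) (nat_lit 1) (nat_lit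 4) (nat_lit 2) (nat_lit 5) (nat_lit 2) (nat_lit 4) (nat_lit 516) (nat_lit 424) (nat_lit 260)))))) (XT.nd (nat_lit 468) (nat_lit 0) (nat_lit 0) (XT.nd (nat_lit 234) (nat_lit 0) (nat_lit 0) (XT.nd (nat_lit 78) (nat_lit 0) (nat_lit 0) (XT.lf (nat_lit 0) (nat_lit 1171140991268) (nat_lit 76) (nat_lit 2328277657539) (nat_lit 76) (nat_lit 2270002317195) (nat_lit 1) (nat_lit 4) (nat_lit 2) (nat_lit 5) (nat_lit 2) (nat_lit 4) (nat_lit 517) (nat_lit 424) (nat_lit 259)) (XT.nd (nat_lit 78) (nat_lit 0) (nat_lit 0) (XT.lf (nat_lit 0) (nat_lit 1553838508494) (nat_lit 76) (nat_lit 2362056456312) (nat_lit 76) (nat_lit 2303781102779) (nat_lit 1) (nat_lit 4) (nat_lit 2) (nat_lit 5) (nat_lit 2) (nat_lit 4) (nat_lit 518) (nat_lit 424) (nat_lit 258)) (XT.lf (nat_lit 0) (nat_lit 1967151701121) (nat_lit 76) (nat_lit 2398537623422) (nat_lit 76) (nat_lit 2340262257677) (nat_lit 1) (nat_lit 4) (nat_lit 2) (nat_lit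 5) (nat_lit 2) (nat_lit 4) (nat_lit 519) (nat_lit 424) (nat_lit 257)))) (XT.nd (nat_lit 78) (nat_lit 0) (nat_lit 0) (XT.lf (nat_lit 0) (nat_lit 2413529832513) (nat_lit 76) (nat_lit 2437937343563) (nat_lit 76) (nat_lit 2379661966510) (nat_lit 1) (nat_lit 4) (nat_lit 2) (nat_lit 5) (nat_lit 2) (nat_lit 4) (nat_lit 520) (nat_lit 424) (nat_lit 256)) (XT.nd (nat_lit 78) (nat_lit 0) (nat_lit 0) (XT.lf (nat_lit 0) (nat_lit 2895618106412) (nat_lit 76) (nat_lit 2480489096558) (nat_lit 76) (nat_lit 2422213709034) (nat_lit 1) (nat_lit 4) (nat_lit 2) (nat_lit 5) (nat_lit 2) (nat_lit 4) (nat_lit 521) (nat_lit 424) (nat_lit 255)) (XT.lf (nat_lit 0) (nat_lit 3416273342218) (nat_lit 76) (nat_lit 2526445040942) (nat_lit 76) (nat_lit 2468169643724) (nat_lit 1) (nat_lit 4) (nat_lit 2) (nat_lit 5) (nat_lit 2) (nat_lit 4) (nat_lit 522) (nat_lit 424) (nat_lit 254))))) (XT.nd (nat_lit 234) (nat_lit 0) (nat_lit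 0) (XT.nd (nat_lit 78) (nat_lit 0) (nat_lit 0) (XT.lf (nat_lit 0) (nat_lit 3978580904291) (nat_lit 76) (nat_lit 2576077508239) (nat_lit 76) (nat_lit 2517802102044) (nat_lit 1) (nat_lit 4) (nat_lit 2) (nat_lit 5) (nat_lit 2) (nat_lit 4) (nat_lit 523) (nat_lit 424) (nat_lit 253)) (XT.nd (nat_lit 78) (nat_lit 0) (nat_lit 0) (XT.lf (nat_lit 0) (nat_lit 4585872985593) (nat_lit 76) (nat_lit 2629680616773) (nat_lit 76) (nat_lit 2571405202266) (nat_lit 1) (nat_lit 4) (nat_lit 2) (nat_lit 5) (nat_lit 2) (nat_lit 4) (nat_lit 524) (nat_lit 424) (nat_lit 252)) (XT.lf (nat_lit 0) (nat_lit 5241748354012) (nat_lit 76) (nat_lit 2687572014595) (nat_lit 76) (nat_lit 2629296592392) (nat_lit 1) (nat_lit 4) (nat_lit 2) (nat_lit 5) (nat_lit 2) (nat_lit 4) (nat_lit 525) (nat_lit 424) (nat_lit 251)))) (XT.nd (nat_lit 54600) (nat_lit 0) (nat_lit 5168) (XT.lf (nat_lit 0) (nat_lit 5950093678398) (nat_lit 76) (nat_lit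 2750094761839) (nat_lit 76) (nat_lit 2691819332510) (nat_lit 1) (nat_lit 4) (nat_lit 2) (nat_lit 5) (nat_lit 2) (nat_lit 4) (nat_lit 526) (nat_lit 424) (nat_lit 250)) (XT.nd (nat_lit 78) (nat_lit 0) (nat_lit 0) (XT.lf (nat_lit 0) (nat_lit 12412981704) (nat_lit 532) (nat_lit 766568689) (nat_lit 532) (nat_lit 766568689) (nat_lit 69) (nat_lit 3) (nat_lit 76) (nat_lit 3) (nat_lit 76) (nat_lit 5) (nat_lit 425) (nat_lit 425) (nat_lit 350)) (XT.lf (nat_lit 76) (nat_lit 12773867332) (nat_lit 0) (nat_lit 13431604685) (nat_lit 532) (nat_lit 2771484748) (nat_lit 70) (nat_lit 5) (nat_lit 69) (nat_lit 3) (nat_lit 76) (nat_lit 5) (nat_lit 426) (nat_lit 425) (nat_lit 349))))))))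
noncomputable def xc157 : XT := (XT.nd (nat_lit 1716) (nat_lit 1596) (nat_lit 0) (XT.nd (nat_lit 858) (nat_lit 1140) (nat_lit 0) (XT.nd (nat_lit 390) (nat_lit 760) (nat_lit 0) (XT.nd (nat_lit 156) (nat_lit 532) (nat_lit 0) (XT.nd (nat_lit 78) (nat_lit 0) (nat_lit 0) (XT.lf (nat_lit 0) (nat_lit 27743144244) (nat_lit 456) (nat_lit 1851557079) (nat_lit 532) (nat_lit 549932630) (nat_lit 70) (nat_lit 5) (nat_lit 76) (nat_lit 5) (nat_lit 77) (nat_lit 5) (nat_lit 427) (nat_lit 425) (nat_lit 348)) (XT.lf (nat_lit 76) (nat_lit 13994427859) (nat_lit 0) (nat_lit 16087477428) (nat_lit 532) (nat_lit 1269578965) (nat_lit 71) (nat_lit 5) (nat_lit 70) (nat_lit 5) (nat_lit 77) (nat_lit 5) (nat_lit 428) (nat_lit 425) (nat_lit 347))) (XT.nd (nat_lit 78) (nat_lit 0) (nat_lit 76) (XT.lf (nat_lit 0) (nat_lit 64459) (nat_lit 532) (nat_lit 1442734304) (nat_lit 608) (nat_lit 31208592864) (nat_lit 63) (nat_lit 5)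 (nat_lit 70) (nat_lit 5) (nat_lit 71) (nat_lit 5) (nat_lit 429) (nat_lit 425) (nat_lit 346)) (XT.nd (nat_lit 78) (nat_lit 0) (nat_lit 0) (XT.lf (nat_lit 0) (nat_lit 2050657208) (nat_lit 532) (nat_lit 17844155500) (nat_lit 608) (nat_lit 14098007272) (nat_lit 64) (nat_lit 5) (nat_lit 71) (nat_lit 5) (nat_lit 72) (nat_lit 5) (nat_lit 430) (nat_lit 425) (nat_lit 345)) (XT.lf (nat_lit 0) (nat_lit 4337070150) (nat_lit 532) (nat_lit 252633870) (nat_lit 608) (nat_lit 30846120389) (nat_lit 64) (nat_lit 5) (nat_lit 71) (nat_lit 5) (nat_lit 72) (nat_lit 5) (nat_lit 431) (nat_lit 425) (nat_lit 344))))) (XT.nd (nat_lit 234) (nat_lit 456) (nat_lit 0) (XT.nd (nat_lit 78) (nat_lit 456) (nat_lit 0) (XT.lf (nat_lit 0) (nat_lit 7574645626) (nat_lit 532) (nat_lit 17527941711) (nat_lit 76) (nat_lit 11830225257) (nat_lit 65) (nat_lit 5) (nat_lit 72) (nat_lit 5) (nat_lit 66) (nat_lit 5) (nat_lit 432) (nat_lit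 425) (nat_lit 343)) (XT.nd (nat_lit 78) (nat_lit 0) (nat_lit 0) (XT.lf (nat_lit 0) (nat_lit 2079884869) (nat_lit 456) (nat_lit 9162276634) (nat_lit 532) (nat_lit 27293726695) (nat_lit 59) (nat_lit 5) (nat_lit 65) (nat_lit 5) (nat_lit 66) (nat_lit 5) (nat_lit 433) (nat_lit 425) (nat_lit 342)) (XT.lf (nat_lit 0) (nat_lit 15883348365) (nat_lit 532) (nat_lit 16187220771) (nat_lit 76) (nat_lit 8142222020) (nat_lit 59) (nat_lit 5) (nat_lit 66) (nat_lit 5) (nat_lit 60) (nat_lit 5) (nat_lit 434) (nat_lit 425) (nat_lit 341)))) (XT.nd (nat_lit 78) (nat_lit 228) (nat_lit 0) (XT.lf (nat_lit 0) (nat_lit 5747612521) (nat_lit 228) (nat_lit 15519702911) (nat_lit 304) (nat_lit 20726814766) (nat_lit 56) (nat_lit 5) (nat_lit 59) (nat_lit 5) (nat_lit 60) (nat_lit 5) (nat_lit 435) (nat_lit 425) (nat_lit 340)) (XT.nd (nat_lit 78) (nat_lit 228) (nat_lit 0) (XT.lf (nat_lit 0) (nat_lit 27588224393) (nat_lit 304)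 (nat_lit 13598110703) (nat_lit 76) (nat_lit 2691145777) (nat_lit 56) (nat_lit 5) (nat_lit 60) (nat_lit 5) (nat_lit 57) (nat_lit 5) (nat_lit 436) (nat_lit 425) (nat_lit 339)) (XT.lf (nat_lit 0) (nat_lit 11004731054) (nat_lit 228) (nat_lit 24073679758) (nat_lit 304) (nat_lit 10780002697) (nat_lit 53) (nat_lit 5) (nat_lit 56) (nat_lit 5) (nat_lit 57) (nat_lit 5) (nat_lit 437) (nat_lit 425) (nat_lit 338)))))) (XT.nd (nat_lit 390) (nat_lit 532) (nat_lit 0) (XT.nd (nat_lit 156) (nat_lit 380) (nat_lit 0) (XT.nd (nat_lit 78) (nat_lit 228) (nat_lit 0) (XT.lf (nat_lit 0) (nat_lit 38344429204) (nat_lit 228) (nat_lit 5191206473) (nat_lit 304) (nat_lit 4432761316) (nat_lit 53) (nat_lit 5) (nat_lit 56) (nat_lit 5) (nat_lit 57) (nat_lit 5) (nat_lit 438) (nat_lit 425) (nat_lit 337)) (XT.lf (nat_lit 0) (nat_lit 3120549512) (nat_lit 228) (nat_lit 32099846134) (nat_lit 76) (nat_lit 14956567985) (nat_lit 50)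 (nat_lit 5) (nat_lit 53) (nat_lit 5) (nat_lit 51) (nat_lit 5) (nat_lit 439) (nat_lit 425) (nat_lit 336))) (XT.nd (nat_lit 78) (nat_lit 380) (nat_lit 0) (XT.lf (nat_lit 0) (nat_lit 11439825105) (nat_lit 228) (nat_lit 4261073194) (nat_lit 76) (nat_lit 36820013318) (nat_lit 50) (nat_lit 5) (nat_lit 53) (nat_lit 5) (nat_lit 51) (nat_lit 5) (nat_lit 440) (nat_lit 425) (nat_lit 335)) (XT.nd (nat_lit 78) (nat_lit 152) (nat_lit 0) (XT.lf (nat_lit 0) (nat_lit 21220797606) (nat_lit 304) (nat_lit 27987683371) (nat_lit 76) (nat_lit 5780203635) (nat_lit 47) (nat_lit 5) (nat_lit 51) (nat_lit 5) (nat_lit 48) (nat_lit 5) (nat_lit 441) (nat_lit 425) (nat_lit 334)) (XT.lf (nat_lit 0) (nat_lit 3101641508) (nat_lit 152) (nat_lit 29281313936) (nat_lit 228) (nat_lit 25223028841) (nat_lit 45) (nat_lit 5) (nat_lit 47) (nat_lit 5) (nat_lit 48) (nat_lit 5) (nat_lit 442) (nat_lit 425) (nat_lit 333))))) (XT.nd (nat_lit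 234) (nat_lit 304) (nat_lit 0) (XT.nd (nat_lit 78) (nat_lit 228) (nat_lit 0) (XT.lf (nat_lit 0) (nat_lit 38265423202) (nat_lit 152) (nat_lit 6934795978) (nat_lit 228) (nat_lit 15171479423) (nat_lit 45) (nat_lit 5) (nat_lit 47) (nat_lit 5) (nat_lit 48) (nat_lit 5) (nat_lit 443) (nat_lit 425) (nat_lit 332)) (XT.nd (nat_lit 78) (nat_lit 76) (nat_lit 0) (XT.lf (nat_lit 0) (nat_lit 13122161991) (nat_lit 152) (nat_lit 46647039005) (nat_lit 228) (nat_lit 3531363350) (nat_lit 43) (nat_lit 5) (nat_lit 45) (nat_lit 5) (nat_lit 46) (nat_lit 5) (nat_lit 444) (nat_lit 425) (nat_lit 331)) (XT.lf (nat_lit 0) (nat_lit 9385138435) (nat_lit 228) (nat_lit 14406838615) (nat_lit 76) (nat_lit 42590579098) (nat_lit 42) (nat_lit 5) (nat_lit 45) (nat_lit 5) (nat_lit 43) (nat_lit 5) (nat_lit 445) (nat_lit 425) (nat_lit 330)))) (XT.nd (nat_lit 78) (nat_lit 152) (nat_lit 0) (XT.lf (nat_lit 0) (nat_lit 23792093344)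 (nat_lit 228) (nat_lit 44293336678) (nat_lit 76) (nat_lit 1566506891) (nat_lit 40) (nat_lit 5) (nat_lit 43) (nat_lit 5) (nat_lit 41) (nat_lit 5) (nat_lit 446) (nat_lit 425) (nat_lit 329)) (XT.nd (nat_lit 78) (nat_lit 152) (nat_lit 0) (XT.lf (nat_lit 0) (nat_lit 40371143449) (nat_lit 228) (nat_lit 4659005573) (nat_lit 76) (nat_lit 28071156920) (nat_lit 40) (nat_lit 5) (nat_lit 43) (nat_lit 5) (nat_lit 41) (nat_lit 5) (nat_lit 447) (nat_lit 425) (nat_lit 328)) (XT.lf (nat_lit 0) (nat_lit 40150829915) (nat_lit 152) (nat_lit 19088932263) (nat_lit 228) (nat_lit 17509803587) (nat_lit 38) (nat_lit 5) (nat_lit 40) (nat_lit 5) (nat_lit 41) (nat_lit 5) (nat_lit 448) (nat_lit 425) (nat_lit 327))))))) (XT.nd (nat_lit 858) (nat_lit 760) (nat_lit 0) (XT.nd (nat_lit 390) (nat_lit 456) (nat_lit 0) (XT.nd (nat_lit 156) (nat_lit 228) (nat_lit 0) (XT.nd (nat_lit 78) (nat_lit 76) (nat_lit 0) (XT.lf (nat_lit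 0) (nat_lit 8325574133) (nat_lit 76) (nat_lit 71835601466) (nat_lit 152) (nat_lit 485047140) (nat_lit 37) (nat_lit 5) (nat_lit 38) (nat_lit 5) (nat_lit 39) (nat_lit 4) (nat_lit 449) (nat_lit 425) (nat_lit 326)) (XT.lf (nat_lit 0) (nat_lit 18526353474) (nat_lit 152) (nat_lit 26805502533) (nat_lit 76) (nat_lit 39366699751) (nat_lit 36) (nat_lit 5) (nat_lit 38) (nat_lit 5) (nat_lit 37) (nat_lit 5) (nat_lit 450) (nat_lit 425) (nat_lit 325))) (XT.nd (nat_lit 78) (nat_lit 76) (nat_lit 0) (XT.lf (nat_lit 0) (nat_lit 23510814981) (nat_lit 152) (nat_lit 16084948734) (nat_lit 228) (nat_lit 49433240214) (nat_lit 34) (nat_lit 5) (nat_lit 36) (nat_lit 5) (nat_lit 37) (nat_lit 5) (nat_lit 451) (nat_lit 425) (nat_lit 324)) (XT.nd (nat_lit 78) (nat_lit 76) (nat_lit 0) (XT.lf (nat_lit 0) (nat_lit 63473398087) (nat_lit 228) (nat_lit 14665807268) (nat_lit 76) (nat_lit 15476869466) (nat_lit 34) (nat_lit 5)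 (nat_lit 37) (nat_lit 5) (nat_lit 35) (nat_lit 4) (nat_lit 452) (nat_lit 425) (nat_lit 323)) (XT.lf (nat_lit 0) (nat_lit 41931219863) (nat_lit 76) (nat_lit 48754324234) (nat_lit 152) (nat_lit 7770623747) (nat_lit 33) (nat_lit 5) (nat_lit 34) (nat_lit 5) (nat_lit 35) (nat_lit 4) (nat_lit 453) (nat_lit 425) (nat_lit 322))))) (XT.nd (nat_lit 234) (nat_lit 152) (nat_lit 0) (XT.nd (nat_lit 78) (nat_lit 228) (nat_lit 0) (XT.lf (nat_lit 0) (nat_lit 15980723714) (nat_lit 152) (nat_lit 169287539) (nat_lit 76) (nat_lit 87469162093) (nat_lit 32) (nat_lit 5) (nat_lit 34) (nat_lit 5) (nat_lit 33) (nat_lit 5) (nat_lit 454) (nat_lit 425) (nat_lit 321)) (XT.nd (nat_lit 78) (nat_lit 76) (nat_lit 0) (XT.lf (nat_lit 0) (nat_lit 43245419463) (nat_lit 228) (nat_lit 45884959726) (nat_lit 76) (nat_lit 19886049289) (nat_lit 30) (nat_lit 5) (nat_lit 33) (nat_lit 5) (nat_lit 31) (nat_lit 4) (nat_lit 455) (nat_lit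 425) (nat_lit 320)) (XT.lf (nat_lit 0) (nat_lit 17093165689) (nat_lit 76) (nat_lit 56431695802) (nat_lit 152) (nat_lit 41253917268) (nat_lit 29) (nat_lit 5) (nat_lit 30) (nat_lit 5) (nat_lit 31) (nat_lit 4) (nat_lit 456) (nat_lit 425) (nat_lit 319)))) (XT.nd (nat_lit 78) (nat_lit 152) (nat_lit 0) (XT.lf (nat_lit 0) (nat_lit 87716016495) (nat_lit 76) (nat_lit 19763524874) (nat_lit 152) (nat_lit 13422345458) (nat_lit 29) (nat_lit 5) (nat_lit 30) (nat_lit 5) (nat_lit 31) (nat_lit 4) (nat_lit 457) (nat_lit 425) (nat_lit 318)) (XT.nd (nat_lit 78) (nat_lit 0) (nat_lit 0) (XT.lf (nat_lit 0) (nat_lit 17226328228) (nat_lit 152) (nat_lit 89950810720) (nat_lit 76) (nat_lit 20191876575) (nat_lit 27) (nat_lit 5) (nat_lit 29) (nat_lit 5) (nat_lit 28) (nat_lit 4) (nat_lit 458) (nat_lit 425) (nat_lit 317)) (XT.lf (nat_lit 0) (nat_lit 51044418511) (nat_lit 152) (nat_lit 19611471819) (nat_lit 76) (nat_lit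 63554319644) (nat_lit 27) (nat_lit 5) (nat_lit 29) (nat_lit 5) (nat_lit 28) (nat_lit 4) (nat_lit 459) (nat_lit 425) (nat_lit 316)))))) (XT.nd (nat_lit 468) (nat_lit 380) (nat_lit 0) (XT.nd (nat_lit 234) (nat_lit 152) (nat_lit 0) (XT.nd (nat_lit 78) (nat_lit 152) (nat_lit 0) (XT.lf (nat_lit 0) (nat_lit 59319719899) (nat_lit 76) (nat_lit 29673405851) (nat_lit 152) (nat_lit 52491560918) (nat_lit 26) (nat_lit 5) (nat_lit 27) (nat_lit 5) (nat_lit 28) (nat_lit 4) (nat_lit 460) (nat_lit 425) (nat_lit 315)) (XT.nd (nat_lit 78) (nat_lit 152) (nat_lit 0) (XT.lf (nat_lit 0) (nat_lit 130877248929) (nat_lit 152) (nat_lit 3984980868) (nat_lit 0) (nat_lit 14406930397) (nat_lit 26) (nat_lit 5) (nat_lit 28) (nat_lit 4) (nat_lit 26) (nat_lit 4) (nat_lit 461) (nat_lit 425) (nat_lit 314)) (XT.lf (nat_lit 0) (nat_lit 20372366611) (nat_lit 152) (nat_lit 74097478381) (nat_lit 76) (nat_lit 62942365668) (nat_lit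 24) (nat_lit 5) (nat_lit 26) (nat_lit 5) (nat_lit 25) (nat_lit 4) (nat_lit 462) (nat_lit 425) (nat_lit 313)))) (XT.nd (nat_lit 78) (nat_lit 76) (nat_lit 0) (XT.lf (nat_lit 0) (nat_lit 11730815401) (nat_lit 76) (nat_lit 49905902921) (nat_lit 152) (nat_lit 104500364273) (nat_lit 23) (nat_lit 5) (nat_lit 24) (nat_lit 5) (nat_lit 25) (nat_lit 4) (nat_lit 463) (nat_lit 425) (nat_lit 312)) (XT.nd (nat_lit 78) (nat_lit 76) (nat_lit 0) (XT.lf (nat_lit 0) (nat_lit 108236735272) (nat_lit 152) (nat_lit 66770935794) (nat_lit 0) (nat_lit 389512034) (nat_lit 23) (nat_lit 5) (nat_lit 25) (nat_lit 4) (nat_lit 23) (nat_lit 4) (nat_lit 464) (nat_lit 425) (nat_lit 311)) (XT.lf (nat_lit 0) (nat_lit 27976089528) (nat_lit 76) (nat_lit 132556516951) (nat_lit 76) (nat_lit 24708057099) (nat_lit 22) (nat_lit 4) (nat_lit 23) (nat_lit 5) (nat_lit 23) (nat_lit 4) (nat_lit 465) (nat_lit 425) (nat_lit 310))))) (XT.nd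 (nat_lit 234) (nat_lit 228) (nat_lit 0) (XT.nd (nat_lit 78) (nat_lit 76) (nat_lit 0) (XT.lf (nat_lit 0) (nat_lit 21954819891) (nat_lit 152) (nat_lit 62183579491) (nat_lit 76) (nat_lit 111542802471) (nat_lit 21) (nat_lit 5) (nat_lit 23) (nat_lit 5) (nat_lit 22) (nat_lit 4) (nat_lit 466) (nat_lit 425) (nat_lit 309)) (XT.nd (nat_lit 78) (nat_lit 0) (nat_lit 0) (XT.lf (nat_lit 0) (nat_lit 41958897797) (nat_lit 76) (nat_lit 30064930500) (nat_lit 152) (nat_lit 134801175360) (nat_lit 20) (nat_lit 5) (nat_lit 21) (nat_lit 5) (nat_lit 22) (nat_lit 4) (nat_lit 467) (nat_lit 425) (nat_lit 308)) (XT.lf (nat_lit 0) (nat_lit 128523045082) (nat_lit 152) (nat_lit 61482880409) (nat_lit 0) (nat_lit 28660409223) (nat_lit 20) (nat_lit 5) (nat_lit 22) (nat_lit 4) (nat_lit 20) (nat_lit 4) (nat_lit 468) (nat_lit 425) (nat_lit 307)))) (XT.nd (nat_lit 78) (nat_lit 152) (nat_lit 0) (XT.lf (nat_lit 0) (nat_lit 51988754776)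 (nat_lit 76) (nat_lit 139583639723) (nat_lit 76) (nat_lit 39720162245) (nat_lit 19) (nat_lit 4) (nat_lit 20) (nat_lit 5) (nat_lit 20) (nat_lit 4) (nat_lit 469) (nat_lit 425) (nat_lit 306)) (XT.nd (nat_lit 78) (nat_lit 76) (nat_lit 0) (XT.lf (nat_lit 0) (nat_lit 15723295180) (nat_lit 152) (nat_lit 67159802779) (nat_lit 76) (nat_lit 161879531011) (nat_lit 18) (nat_lit 5) (nat_lit 20) (nat_lit 5) (nat_lit 19) (nat_lit 4) (nat_lit 470) (nat_lit 425) (nat_lit 305)) (XT.lf (nat_lit 0) (nat_lit 55708928024) (nat_lit 76) (nat_lit 19086219250) (nat_lit 152) (nat_lit 184325517306) (nat_lit 17) (nat_lit 5) (nat_lit 18) (nat_lit 5) (nat_lit 19) (nat_lit 4) (nat_lit 471) (nat_lit 425) (nat_lit 304))))))))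
noncomputable def xc158 : XT := (XT.nd (nat_lit 1716) (nat_lit 304) (nat_lit 0) (XT.nd (nat_lit 858) (nat_lit 456) (nat_lit 0) (XT.nd (nat_lit 390) (nat_lit 228) (nat_lit 0) (XT.nd (nat_lit 156) (nat_lit 152) (nat_lit 0) (XT.nd (nat_lit 78) (nat_lit 76) (nat_lit 0) (XT.lf (nat_lit 0) (nat_lit 141673791620) (nat_lit 152) (nat_lit 83501467479) (nat_lit 0) (nat_lit 49205600498) (nat_lit 17) (nat_lit 5) (nat_lit 19) (nat_lit 4) (nat_lit 17) (nat_lit 4) (nat_lit 472) (nat_lit 425) (nat_lit 303)) (XT.lf (nat_lit 0) (nat_lit 47900296166) (nat_lit 76) (nat_lit 167649294493) (nat_lit 76) (nat_lit 75180530580) (nat_lit 16) (nat_lit 4) (nat_lit 17) (nat_lit 5) (nat_lit 17) (nat_lit 4) (nat_lit 473) (nat_lit 425) (nat_lit 302))) (XT.nd (nat_lit 78) (nat_lit 152) (nat_lit 0) (XT.lf (nat_lit 0) (nat_lit 194561299780) (nat_lit 76) (nat_lit 103056370523) (nat_lit 76) (nat_lit 10587076247) (nat_lit 16)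 (nat_lit 4) (nat_lit 17) (nat_lit 5) (nat_lit 17) (nat_lit 4) (nat_lit 474) (nat_lit 425) (nat_lit 301)) (XT.nd (nat_lit 78) (nat_lit 0) (nat_lit 0) (XT.lf (nat_lit 0) (nat_lit 25740744953) (nat_lit 76) (nat_lit 31091240770) (nat_lit 152) (nat_lit 270082045844) (nat_lit 14) (nat_lit 5) (nat_lit 15) (nat_lit 5) (nat_lit 16) (nat_lit 4) (nat_lit 475) (nat_lit 425) (nat_lit 300)) (XT.lf (nat_lit 0) (nat_lit 133381180069) (nat_lit 152) (nat_lit 165611606064) (nat_lit 0) (nat_lit 47760587427) (nat_lit 14) (nat_lit 5) (nat_lit 16) (nat_lit 4) (nat_lit 14) (nat_lit 4) (nat_lit 476) (nat_lit 425) (nat_lit 299))))) (XT.nd (nat_lit 234) (nat_lit 152) (nat_lit 0) (XT.nd (nat_lit 78) (nat_lit 76) (nat_lit 0) (XT.lf (nat_lit 0) (nat_lit 216861120395) (nat_lit 152) (nat_lit 20014059816) (nat_lit 0) (nat_lit 131240137921) (nat_lit 14) (nat_lit 5) (nat_lit 16) (nat_lit 4) (nat_lit 14) (nat_lit 4) (nat_lit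 477) (nat_lit 425) (nat_lit 298)) (XT.nd (nat_lit 78) (nat_lit 0) (nat_lit 0) (XT.lf (nat_lit 0) (nat_lit 144456180702) (nat_lit 76) (nat_lit 166036751474) (nat_lit 76) (nat_lit 80415408043) (nat_lit 13) (nat_lit 4) (nat_lit 14) (nat_lit 5) (nat_lit 14) (nat_lit 4) (nat_lit 478) (nat_lit 425) (nat_lit 297)) (XT.lf (nat_lit 0) (nat_lit 323220900395) (nat_lit 76) (nat_lit 88940929064) (nat_lit 76) (nat_lit 3319251415) (nat_lit 13) (nat_lit 4) (nat_lit 14) (nat_lit 5) (nat_lit 14) (nat_lit 4) (nat_lit 479) (nat_lit 425) (nat_lit 296)))) (XT.nd (nat_lit 78) (nat_lit 0) (nat_lit 0) (XT.lf (nat_lit 0) (nat_lit 76152661050) (nat_lit 76) (nat_lit 1623612103) (nat_lit 152) (nat_lit 363943087868) (nat_lit 11) (nat_lit 5) (nat_lit 12) (nat_lit 5) (nat_lit 13) (nat_lit 4) (nat_lit 480) (nat_lit 425) (nat_lit 295)) (XT.nd (nat_lit 78) (nat_lit 0) (nat_lit 0) (XT.lf (nat_lit 0) (nat_lit 169996483060)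 (nat_lit 152) (nat_lit 208951413827) (nat_lit 0) (nat_lit 90716600052) (nat_lit 11) (nat_lit 5) (nat_lit 13) (nat_lit 4) (nat_lit 11) (nat_lit 4) (nat_lit 481) (nat_lit 425) (nat_lit 294)) (XT.lf (nat_lit 0) (nat_lit 269635886153) (nat_lit 152) (nat_lit 39850274014) (nat_lit 0) (nat_lit 190355757484) (nat_lit 11) (nat_lit 5) (nat_lit 13) (nat_lit 4) (nat_lit 11) (nat_lit 4) (nat_lit 482) (nat_lit 425) (nat_lit 293)))))) (XT.nd (nat_lit 390) (nat_lit 228) (nat_lit 0) (XT.nd (nat_lit 156) (nat_lit 152) (nat_lit 0) (XT.nd (nat_lit 78) (nat_lit 0) (nat_lit 0) (XT.lf (nat_lit 0) (nat_lit 150296276666) (nat_lit 76) (nat_lit 230564242646) (nat_lit 76) (nat_lit 151283886514) (nat_lit 10) (nat_lit 4) (nat_lit 11) (nat_lit 5) (nat_lit 11) (nat_lit 4) (nat_lit 483) (nat_lit 425) (nat_lit 292)) (XT.lf (nat_lit 0) (nat_lit 357919791088) (nat_lit 76) (nat_lit 144152372743) (nat_lit 76) (nat_lit 64871805996)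 (nat_lit 10) (nat_lit 4) (nat_lit 11) (nat_lit 5) (nat_lit 11) (nat_lit 4) (nat_lit 484) (nat_lit 425) (nat_lit 291))) (XT.nd (nat_lit 78) (nat_lit 76) (nat_lit 0) (XT.lf (nat_lit 0) (nat_lit 27029385014) (nat_lit 152) (nat_lit 23059640929) (nat_lit 76) (nat_lit 554383769706) (nat_lit 9) (nat_lit 5) (nat_lit 11) (nat_lit 5) (nat_lit 10) (nat_lit 4) (nat_lit 485) (nat_lit 425) (nat_lit 290)) (XT.nd (nat_lit 78) (nat_lit 0) (nat_lit 0) (XT.lf (nat_lit 0) (nat_lit 128633678081) (nat_lit 152) (nat_lit 460541591231) (nat_lit 0) (nat_lit 55225398147) (nat_lit 8) (nat_lit 5) (nat_lit 10) (nat_lit 4) (nat_lit 8) (nat_lit 4) (nat_lit 486) (nat_lit 425) (nat_lit 289)) (XT.lf (nat_lit 0) (nat_lit 240313725644) (nat_lit 152) (nat_lit 280147959604) (nat_lit 0) (nat_lit 166905290903) (nat_lit 8) (nat_lit 5) (nat_lit 10) (nat_lit 4) (nat_lit 8) (nat_lit 4) (nat_lit 487) (nat_lit 425) (nat_lit 288)))))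 (XT.nd (nat_lit 234) (nat_lit 152) (nat_lit 0) (XT.nd (nat_lit 78) (nat_lit 76) (nat_lit 0) (XT.lf (nat_lit 0) (nat_lit 360927741402) (nat_lit 152) (nat_lit 85323719684) (nat_lit 0) (nat_lit 287519163321) (nat_lit 8) (nat_lit 5) (nat_lit 10) (nat_lit 4) (nat_lit 8) (nat_lit 4) (nat_lit 488) (nat_lit 425) (nat_lit 287)) (XT.nd (nat_lit 78) (nat_lit 0) (nat_lit 0) (XT.lf (nat_lit 0) (nat_lit 131672430810) (nat_lit 76) (nat_lit 362684769397) (nat_lit 76) (nat_lit 289276058592) (nat_lit 7) (nat_lit 4) (nat_lit 8) (nat_lit 5) (nat_lit 8) (nat_lit 4) (nat_lit 489) (nat_lit 425) (nat_lit 286)) (XT.lf (nat_lit 0) (nat_lit 370879912680) (nat_lit 76) (nat_lit 269913612123) (nat_lit 76) (nat_lit 196504778427) (nat_lit 7) (nat_lit 4) (nat_lit 8) (nat_lit 5) (nat_lit 8) (nat_lit 4) (nat_lit 490) (nat_lit 425) (nat_lit 285)))) (XT.nd (nat_lit 78) (nat_lit 152) (nat_lit 0) (XT.lf (nat_lit 0) (nat_lit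 629223255874) (nat_lit 76) (nat_lit 169721135963) (nat_lit 76) (nat_lit 96312188479) (nat_lit 7) (nat_lit 4) (nat_lit 8) (nat_lit 5) (nat_lit 8) (nat_lit 4) (nat_lit 491) (nat_lit 425) (nat_lit 284)) (XT.nd (nat_lit 78) (nat_lit 76) (nat_lit 0) (XT.lf (nat_lit 0) (nat_lit 11300386777) (nat_lit 152) (nat_lit 49904248345) (nat_lit 76) (nat_lit 896624024527) (nat_lit 6) (nat_lit 5) (nat_lit 8) (nat_lit 5) (nat_lit 7) (nat_lit 4) (nat_lit 492) (nat_lit 425) (nat_lit 283)) (XT.lf (nat_lit 0) (nat_lit 128431528551) (nat_lit 152) (nat_lit 835825720950) (nat_lit 0) (nat_lit 60460092997) (nat_lit 5) (nat_lit 5) (nat_lit 7) (nat_lit 4) (nat_lit 5) (nat_lit 4) (nat_lit 493) (nat_lit 425) (nat_lit 282))))))) (XT.nd (nat_lit 858) (nat_lit 76) (nat_lit 0) (XT.nd (nat_lit 390) (nat_lit 152) (nat_lit 0) (XT.nd (nat_lit 156) (nat_lit 76) (nat_lit 0) (XT.nd (nat_lit 78) (nat_lit 0) (nat_lit 0) (XT.lf (nat_lit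 0) (nat_lit 257922484806) (nat_lit 152) (nat_lit 648844523714) (nat_lit 0) (nat_lit 189950965613) (nat_lit 5) (nat_lit 5) (nat_lit 7) (nat_lit 4) (nat_lit 5) (nat_lit 4) (nat_lit 494) (nat_lit 425) (nat_lit 281)) (XT.lf (nat_lit 0) (nat_lit 397772422167) (nat_lit 152) (nat_lit 446905432243) (nat_lit 0) (nat_lit 329800825532) (nat_lit 5) (nat_lit 5) (nat_lit 7) (nat_lit 4) (nat_lit 5) (nat_lit 4) (nat_lit 495) (nat_lit 425) (nat_lit 280))) (XT.nd (nat_lit 78) (nat_lit 76) (nat_lit 0) (XT.lf (nat_lit 0) (nat_lit 548810081003) (nat_lit 152) (nat_lit 228811770440) (nat_lit 0) (nat_lit 480838412662) (nat_lit 5) (nat_lit 5) (nat_lit 7) (nat_lit 4) (nat_lit 5) (nat_lit 4) (nat_lit 496) (nat_lit 425) (nat_lit 279)) (XT.nd (nat_lit 78) (nat_lit 0) (nat_lit 0) (XT.lf (nat_lit 0) (nat_lit 7083198874) (nat_lit 76) (nat_lit 705017651522) (nat_lit 76) (nat_lit 637045916787) (nat_lit 4) (nat_lit 4) (nat_lit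 5) (nat_lit 5) (nat_lit 5) (nat_lit 4) (nat_lit 497) (nat_lit 425) (nat_lit 278)) (XT.lf (nat_lit 0) (nat_lit 274861991194) (nat_lit 76) (nat_lit 619848762859) (nat_lit 76) (nat_lit 551876966647) (nat_lit 4) (nat_lit 4) (nat_lit 5) (nat_lit 5) (nat_lit 5) (nat_lit 4) (nat_lit 498) (nat_lit 425) (nat_lit 277))))) (XT.nd (nat_lit 234) (nat_lit 152) (nat_lit 0) (XT.nd (nat_lit 78) (nat_lit 0) (nat_lit 0) (XT.lf (nat_lit 0) (nat_lit 564062621463) (nat_lit 76) (nat_lit 527866600220) (nat_lit 76) (nat_lit 459894747086) (nat_lit 4) (nat_lit 4) (nat_lit 5) (nat_lit 5) (nat_lit 5) (nat_lit 4) (nat_lit 499) (nat_lit 425) (nat_lit 276)) (XT.nd (nat_lit 78) (nat_lit 0) (nat_lit 0) (XT.lf (nat_lit 0) (nat_lit 876398871195) (nat_lit 76) (nat_lit 428526084125) (nat_lit 76) (nat_lit 360554178285) (nat_lit 4) (nat_lit 4) (nat_lit 5) (nat_lit 5) (nat_lit 5) (nat_lit 4) (nat_lit 500) (nat_lit 425) (nat_lit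 275)) (XT.lf (nat_lit 0) (nat_lit 1213721621869) (nat_lit 76) (nat_lit 321238530033) (nat_lit 76) (nat_lit 253266575391) (nat_lit 4) (nat_lit 4) (nat_lit 5) (nat_lit 5) (nat_lit 5) (nat_lit 4) (nat_lit 501) (nat_lit 425) (nat_lit 274)))) (XT.nd (nat_lit 78) (nat_lit 152) (nat_lit 0) (XT.lf (nat_lit 0) (nat_lit 1578029823119) (nat_lit 76) (nat_lit 205368159846) (nat_lit 76) (nat_lit 137396160017) (nat_lit 4) (nat_lit 4) (nat_lit 5) (nat_lit 5) (nat_lit 5) (nat_lit 4) (nat_lit 502) (nat_lit 425) (nat_lit 273)) (XT.nd (nat_lit 78) (nat_lit 152) (nat_lit 0) (XT.lf (nat_lit 0) (nat_lit 1971482338360) (nat_lit 76) (nat_lit 80228334332) (nat_lit 76) (nat_lit 12256292664) (nat_lit 4) (nat_lit 4) (nat_lit 5) (nat_lit 5) (nat_lit 5) (nat_lit 4) (nat_lit 503) (nat_lit 425) (nat_lit 272)) (XT.lf (nat_lit 0) (nat_lit 122686424935) (nat_lit 152) (nat_lit 2035446277009) (nat_lit 0) (nat_lit 59749313445)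 (nat_lit 2) (nat_lit 5) (nat_lit 4) (nat_lit 4) (nat_lit 2) (nat_lit 4) (nat_lit 504) (nat_lit 425) (nat_lit 271)))))) (XT.nd (nat_lit 468) (nat_lit 76) (nat_lit 0) (XT.nd (nat_lit 234) (nat_lit 0) (nat_lit 0) (XT.nd (nat_lit 78) (nat_lit 0) (nat_lit 0) (XT.lf (nat_lit 0) (nat_lit 272440469455) (nat_lit 152) (nat_lit 1901766762189) (nat_lit 0) (nat_lit 209503324751) (nat_lit 2) (nat_lit 5) (nat_lit 4) (nat_lit 4) (nat_lit 2) (nat_lit 4) (nat_lit 505) (nat_lit 425) (nat_lit 270)) (XT.nd (nat_lit 78) (nat_lit 0) (nat_lit 0) (XT.lf (nat_lit 0) (nat_lit 434174690192) (nat_lit 152) (nat_lit 1757393187546) (nat_lit 0) (nat_lit 371237514735) (nat_lit 2) (nat_lit 5) (nat_lit 4) (nat_lit 4) (nat_lit 2) (nat_lit 4) (nat_lit 506) (nat_lit 425) (nat_lit 269)) (XT.lf (nat_lit 0) (nat_lit 608847512159) (nat_lit 152) (nat_lit 1601470005970) (nat_lit 0) (nat_lit 545910308227) (nat_lit 2) (nat_lit 5) (nat_lit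 4) (nat_lit 4) (nat_lit 2) (nat_lit 4) (nat_lit 507) (nat_lit 425) (nat_lit 268)))) (XT.nd (nat_lit 78) (nat_lit 0) (nat_lit 0) (XT.lf (nat_lit 0) (nat_lit 797494033560) (nat_lit 152) (nat_lit 1433073228238) (nat_lit 0) (nat_lit 734556803261) (nat_lit 2) (nat_lit 5) (nat_lit 4) (nat_lit 4) (nat_lit 2) (nat_lit 4) (nat_lit 508) (nat_lit 425) (nat_lit 267)) (XT.nd (nat_lit 78) (nat_lit 0) (nat_lit 0) (XT.lf (nat_lit 0) (nat_lit 1001232159706) (nat_lit 152) (nat_lit 1251204947517) (nat_lit 0) (nat_lit 938294904995) (nat_lit 2) (nat_lit 5) (nat_lit 4) (nat_lit 4) (nat_lit 2) (nat_lit 4) (nat_lit 509) (nat_lit 425) (nat_lit 266)) (XT.lf (nat_lit 0) (nat_lit 1221269227642) (nat_lit 152) (nat_lit 1054787425849) (nat_lit 0) (nat_lit 1158331950326) (nat_lit 2) (nat_lit 5) (nat_lit 4) (nat_lit 4) (nat_lit 2) (nat_lit 4) (nat_lit 510) (nat_lit 425) (nat_lit 265))))) (XT.nd (nat_lit 234) (nat_lit 76)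 (nat_lit 0) (XT.nd (nat_lit 78) (nat_lit 0) (nat_lit 0) (XT.lf (nat_lit 0) (nat_lit 1458909160734) (nat_lit 152) (nat_lit 842656707550) (nat_lit 0) (nat_lit 1395971862487) (nat_lit 2) (nat_lit 5) (nat_lit 4) (nat_lit 4) (nat_lit 2) (nat_lit 4) (nat_lit 511) (nat_lit 425) (nat_lit 264)) (XT.nd (nat_lit 78) (nat_lit 0) (nat_lit 0) (XT.lf (nat_lit 0) (nat_lit 1715560195620) (nat_lit 152) (nat_lit 613555721696) (nat_lit 0) (nat_lit 1652622877994) (nat_lit 2) (nat_lit 5) (nat_lit 4) (nat_lit 4) (nat_lit 2) (nat_lit 4) (nat_lit 512) (nat_lit 425) (nat_lit 263)) (XT.lf (nat_lit 0) (nat_lit 1992743227324) (nat_lit 152) (nat_lit 366126832815) (nat_lit 0) (nat_lit 1929805891753) (nat_lit 2) (nat_lit 5) (nat_lit 4) (nat_lit 4) (nat_lit 2) (nat_lit 4) (nat_lit 513) (nat_lit 425) (nat_lit 262)))) (XT.nd (nat_lit 78) (nat_lit 76) (nat_lit 0) (XT.lf (nat_lit 0) (nat_lit 2292100821959) (nat_lit 152) (nat_lit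 98903795641) (nat_lit 0) (nat_lit 2229163469773) (nat_lit 2) (nat_lit 5) (nat_lit 4) (nat_lit 4) (nat_lit 2) (nat_lit 4) (nat_lit 514) (nat_lit 425) (nat_lit 261)) (XT.nd (nat_lit 78) (nat_lit 0) (nat_lit 0) (XT.lf (nat_lit 0) (nat_lit 199686038110) (nat_lit 76) (nat_lit 2420523366365) (nat_lit 76) (nat_lit 2357585998794) (nat_lit 1) (nat_lit 4) (nat_lit 2) (nat_lit 5) (nat_lit 2) (nat_lit 4) (nat_lit 515) (nat_lit 425) (nat_lit 260)) (XT.lf (nat_lit 0) (nat_lit 527787658117) (nat_lit 76) (nat_lit 2449483148738) (nat_lit 76) (nat_lit 2386545766923) (nat_lit 1) (nat_lit 4) (nat_lit 2) (nat_lit 5) (nat_lit 2) (nat_lit 4) (nat_lit 516) (nat_lit 425) (nat_lit 259))))))))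
noncomputable def xc159 : XT := (XT.nd (nat_lit 56472) (nat_lit 0) (nat_lit 1900) (XT.nd (nat_lit 55536) (nat_lit 0) (nat_lit 3952) (XT.nd (nat_lit 390) (nat_lit 0) (nat_lit 0) (XT.nd (nat_lit 156) (nat_lit 0) (nat_lit 0) (XT.nd (nat_lit 78) (nat_lit 0) (nat_lit 0) (XT.lf (nat_lit 0) (nat_lit 882137271670) (nat_lit 76) (nat_lit 2480759783291) (nat_lit 76) (nat_lit 2417822388286) (nat_lit 1) (nat_lit 4) (nat_lit 2) (nat_lit 5) (nat_lit 2) (nat_lit 4) (nat_lit 517) (nat_lit 425) (nat_lit 258)) (XT.lf (nat_lit 0) (nat_lit 1264834728330) (nat_lit 76) (nat_lit 2514538613042) (nat_lit 76) (nat_lit 2451601205825) (nat_lit 1) (nat_lit 4) (nat_lit 2) (nat_lit 5) (nat_lit 2) (nat_lit 4) (nat_lit 518) (nat_lit 425) (nat_lit 257))) (XT.nd (nat_lit 78) (nat_lit 0) (nat_lit 0) (XT.lf (nat_lit 0) (nat_lit 1678147864878) (nat_lit 76) (nat_lit 2551019808836) (nat_lit 76) (nat_lit 2488082390311) (nat_lit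 1) (nat_lit 4) (nat_lit 2) (nat_lit 5) (nat_lit 2) (nat_lit 4) (nat_lit 519) (nat_lit 425) (nat_lit 256)) (XT.nd (nat_lit 78) (nat_lit 0) (nat_lit 0) (XT.lf (nat_lit 0) (nat_lit 2124525944344) (nat_lit 76) (nat_lit 2590419555536) (nat_lit 76) (nat_lit 2527482126540) (nat_lit 1) (nat_lit 4) (nat_lit 2) (nat_lit 5) (nat_lit 2) (nat_lit 4) (nat_lit 520) (nat_lit 425) (nat_lit 255)) (XT.lf (nat_lit 0) (nat_lit 2606614170164) (nat_lit 76) (nat_lit 2632971333122) (nat_lit 76) (nat_lit 2570033894431) (nat_lit 1) (nat_lit 4) (nat_lit 2) (nat_lit 5) (nat_lit 2) (nat_lit 4) (nat_lit 521) (nat_lit 425) (nat_lit 254))))) (XT.nd (nat_lit 234) (nat_lit 0) (nat_lit 0) (XT.nd (nat_lit 78) (nat_lit 0) (nat_lit 0) (XT.lf (nat_lit 0) (nat_lit 3127269361452) (nat_lit 76) (nat_lit 2678927300277) (nat_lit 76) (nat_lit 2615989852609) (nat_lit 1) (nat_lit 4) (nat_lit 2) (nat_lit 5) (nat_lit 2) (nat_lit 4) (nat_lit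 522) (nat_lit 425) (nat_lit 253)) (XT.nd (nat_lit 78) (nat_lit 0) (nat_lit 0) (XT.lf (nat_lit 0) (nat_lit 3689576882305) (nat_lit 76) (nat_lit 2728559788657) (nat_lit 76) (nat_lit 2665622332678) (nat_lit 1) (nat_lit 4) (nat_lit 2) (nat_lit 5) (nat_lit 2) (nat_lit 4) (nat_lit 523) (nat_lit 425) (nat_lit 252)) (XT.lf (nat_lit 0) (nat_lit 4296868925440) (nat_lit 76) (nat_lit 2782162916713) (nat_lit 76) (nat_lit 2719225453038) (nat_lit 1) (nat_lit 4) (nat_lit 2) (nat_lit 5) (nat_lit 2) (nat_lit 4) (nat_lit 524) (nat_lit 425) (nat_lit 251)))) (XT.nd (nat_lit 54756) (nat_lit 0) (nat_lit 5168) (XT.lf (nat_lit 0) (nat_lit 4952744258520) (nat_lit 76) (nat_lit 2840054332610) (nat_lit 76) (nat_lit 2777116861809) (nat_lit 1) (nat_lit 4) (nat_lit 2) (nat_lit 5) (nat_lit 2) (nat_lit 4) (nat_lit 525) (nat_lit 425) (nat_lit 250)) (XT.nd (nat_lit 78) (nat_lit 0) (nat_lit 0) (XT.lf (nat_lit 0) (nat_lit 13483372334)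 (nat_lit 532) (nat_lit 786098034) (nat_lit 532) (nat_lit 786098034) (nat_lit 69) (nat_lit 3) (nat_lit 76) (nat_lit 3) (nat_lit 76) (nat_lit 5) (nat_lit 426) (nat_lit 426) (nat_lit 348)) (XT.lf (nat_lit 76) (nat_lit 13877252758) (nat_lit 0) (nat_lit 14569861140) (nat_lit 532) (nat_lit 2836286710) (nat_lit 70) (nat_lit 5) (nat_lit 69) (nat_lit 3) (nat_lit 76) (nat_lit 5) (nat_lit 427) (nat_lit 426) (nat_lit 347)))))) (XT.nd (nat_lit 468) (nat_lit 760) (nat_lit 0) (XT.nd (nat_lit 234) (nat_lit 0) (nat_lit 76) (XT.nd (nat_lit 78) (nat_lit 532) (nat_lit 0) (XT.lf (nat_lit 0) (nat_lit 30095624911) (nat_lit 456) (nat_lit 1911976646) (nat_lit 532) (nat_lit 537871553) (nat_lit 70) (nat_lit 5) (nat_lit 76) (nat_lit 5) (nat_lit 77) (nat_lit 5) (nat_lit 428) (nat_lit 426) (nat_lit 346)) (XT.nd (nat_lit 78) (nat_lit 532) (nat_lit 0) (XT.lf (nat_lit 76) (nat_lit 15199466708) (nat_lit 0) (nat_lit 17414222027)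 (nat_lit 532) (nat_lit 1235813155) (nat_lit 71) (nat_lit 5) (nat_lit 70) (nat_lit 5) (nat_lit 77) (nat_lit 5) (nat_lit 429) (nat_lit 426) (nat_lit 345)) (XT.lf (nat_lit 0) (nat_lit 119108752) (nat_lit 532) (nat_lit 1472661398) (nat_lit 608) (nat_lit 33662138843) (nat_lit 63) (nat_lit 5) (nat_lit 70) (nat_lit 5) (nat_lit 71) (nat_lit 5) (nat_lit 430) (nat_lit 426) (nat_lit 344)))) (XT.nd (nat_lit 78) (nat_lit 0) (nat_lit 0) (XT.lf (nat_lit 0) (nat_lit 2326240229) (nat_lit 532) (nat_lit 19178622013) (nat_lit 608) (nat_lit 15198395314) (nat_lit 64) (nat_lit 5) (nat_lit 71) (nat_lit 5) (nat_lit 72) (nat_lit 5) (nat_lit 431) (nat_lit 426) (nat_lit 343)) (XT.nd (nat_lit 78) (nat_lit 0) (nat_lit 76) (XT.lf (nat_lit 0) (nat_lit 4787304692) (nat_lit 532) (nat_lit 186672424) (nat_lit 608) (nat_lit 33288391002) (nat_lit 64) (nat_lit 5) (nat_lit 71) (nat_lit 5) (nat_lit 72) (nat_lit 5) (nat_lit 432)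 (nat_lit 426) (nat_lit 342)) (XT.lf (nat_lit 0) (nat_lit 8277928378) (nat_lit 532) (nat_lit 18837990834) (nat_lit 76) (nat_lit 12763677271) (nat_lit 65) (nat_lit 5) (nat_lit 72) (nat_lit 5) (nat_lit 66) (nat_lit 5) (nat_lit 433) (nat_lit 426) (nat_lit 341))))) (XT.nd (nat_lit 234) (nat_lit 228) (nat_lit 0) (XT.nd (nat_lit 78) (nat_lit 228) (nat_lit 0) (XT.lf (nat_lit 0) (nat_lit 2336128043) (nat_lit 456) (nat_lit 9897670204) (nat_lit 532) (nat_lit 29377527836) (nat_lit 59) (nat_lit 5) (nat_lit 65) (nat_lit 5) (nat_lit 66) (nat_lit 5) (nat_lit 434) (nat_lit 426) (nat_lit 340)) (XT.nd (nat_lit 78) (nat_lit 228) (nat_lit 0) (XT.lf (nat_lit 0) (nat_lit 17239392002) (nat_lit 532) (nat_lit 17392065515) (nat_lit 76) (nat_lit 8791478662) (nat_lit 59) (nat_lit 5) (nat_lit 66) (nat_lit 5) (nat_lit 60) (nat_lit 5) (nat_lit 435) (nat_lit 426) (nat_lit 339)) (XT.lf (nat_lit 0) (nat_lit 6295272594) (nat_lit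 228) (nat_lit 16754592529) (nat_lit 304) (nat_lit 22297257697) (nat_lit 56) (nat_lit 5) (nat_lit 59) (nat_lit 5) (nat_lit 60) (nat_lit 5) (nat_lit 436) (nat_lit 426) (nat_lit 338)))) (XT.nd (nat_lit 78) (nat_lit 228) (nat_lit 0) (XT.lf (nat_lit 0) (nat_lit 29870583520) (nat_lit 304) (nat_lit 14598711362) (nat_lit 76) (nat_lit 2912319035) (nat_lit 56) (nat_lit 5) (nat_lit 60) (nat_lit 5) (nat_lit 57) (nat_lit 5) (nat_lit 437) (nat_lit 426) (nat_lit 337)) (XT.nd (nat_lit 78) (nat_lit 0) (nat_lit 0) (XT.lf (nat_lit 0) (nat_lit 11970148919) (nat_lit 228) (nat_lit 25986303268) (nat_lit 304) (nat_lit 11564854653) (nat_lit 53) (nat_lit 5) (nat_lit 56) (nat_lit 5) (nat_lit 57) (nat_lit 5) (nat_lit 438) (nat_lit 426) (nat_lit 336)) (XT.lf (nat_lit 0) (nat_lit 41490723708) (nat_lit 228) (nat_lit 5594215148) (nat_lit 304) (nat_lit 4715578276) (nat_lit 53) (nat_lit 5) (nat_lit 56) (nat_lit 5) (nat_lit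 57) (nat_lit 5) (nat_lit 439) (nat_lit 426) (nat_lit 335))))))) (XT.nd (nat_lit 858) (nat_lit 836) (nat_lit 0) (XT.nd (nat_lit 390) (nat_lit 608) (nat_lit 0) (XT.nd (nat_lit 156) (nat_lit 380) (nat_lit 0) (XT.nd (nat_lit 78) (nat_lit 0) (nat_lit 0) (XT.lf (nat_lit 0) (nat_lit 3435648794) (nat_lit 228) (nat_lit 34582681844) (nat_lit 76) (nat_lit 16167523280) (nat_lit 50) (nat_lit 5) (nat_lit 53) (nat_lit 5) (nat_lit 51) (nat_lit 5) (nat_lit 440) (nat_lit 426) (nat_lit 334)) (XT.lf (nat_lit 0) (nat_lit 12415617892) (nat_lit 228) (nat_lit 4523114623) (nat_lit 76) (nat_lit 39778975362) (nat_lit 50) (nat_lit 5) (nat_lit 53) (nat_lit 5) (nat_lit 51) (nat_lit 5) (nat_lit 441) (nat_lit 426) (nat_lit 333))) (XT.nd (nat_lit 78) (nat_lit 152) (nat_lit 0) (XT.lf (nat_lit 0) (nat_lit 22976881138) (nat_lit 304) (nat_lit 30145640514) (nat_lit 76) (nat_lit 6260558107) (nat_lit 47) (nat_lit 5) (nat_lit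 51) (nat_lit 5) (nat_lit 48) (nat_lit 5) (nat_lit 442) (nat_lit 426) (nat_lit 332)) (XT.nd (nat_lit 78) (nat_lit 0) (nat_lit 0) (XT.lf (nat_lit 0) (nat_lit 3428778267) (nat_lit 152) (nat_lit 31600806031) (nat_lit 228) (nat_lit 27180375219) (nat_lit 45) (nat_lit 5) (nat_lit 47) (nat_lit 5) (nat_lit 48) (nat_lit 5) (nat_lit 443) (nat_lit 426) (nat_lit 331)) (XT.lf (nat_lit 0) (nat_lit 41399810242) (nat_lit 152) (nat_lit 7468271306) (nat_lit 228) (nat_lit 16329183028) (nat_lit 45) (nat_lit 5) (nat_lit 47) (nat_lit 5) (nat_lit 48) (nat_lit 5) (nat_lit 444) (nat_lit 426) (nat_lit 330))))) (XT.nd (nat_lit 234) (nat_lit 228) (nat_lit 0) (XT.nd (nat_lit 78) (nat_lit 228) (nat_lit 0) (XT.lf (nat_lit 0) (nat_lit 14246801011) (nat_lit 152) (nat_lit 50354215576) (nat_lit 228) (nat_lit 3759549871) (nat_lit 43) (nat_lit 5) (nat_lit 45) (nat_lit 5) (nat_lit 46) (nat_lit 5) (nat_lit 445) (nat_lit 426)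 (nat_lit 329)) (XT.nd (nat_lit 78) (nat_lit 152) (nat_lit 0) (XT.lf (nat_lit 0) (nat_lit 10183732022) (nat_lit 228) (nat_lit 15487531410) (nat_lit 76) (nat_lit 46018056882) (nat_lit 42) (nat_lit 5) (nat_lit 45) (nat_lit 5) (nat_lit 43) (nat_lit 5) (nat_lit 446) (nat_lit 426) (nat_lit 328)) (XT.lf (nat_lit 0) (nat_lit 25741968019) (nat_lit 228) (nat_lit 47763657600) (nat_lit 76) (nat_lit 1714729256) (nat_lit 40) (nat_lit 5) (nat_lit 43) (nat_lit 5) (nat_lit 41) (nat_lit 5) (nat_lit 447) (nat_lit 426) (nat_lit 327)))) (XT.nd (nat_lit 78) (nat_lit 228) (nat_lit 0) (XT.lf (nat_lit 0) (nat_lit 43643897155) (nat_lit 228) (nat_lit 4963998230) (nat_lit 76) (nat_lit 30338054857) (nat_lit 40) (nat_lit 5) (nat_lit 43) (nat_lit 5) (nat_lit 41) (nat_lit 5) (nat_lit 448) (nat_lit 426) (nat_lit 326)) (XT.nd (nat_lit 78) (nat_lit 76) (nat_lit 0) (XT.lf (nat_lit 0) (nat_lit 43428909470) (nat_lit 152) (nat_lit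 20591493736) (nat_lit 228) (nat_lit 18865796945) (nat_lit 38) (nat_lit 5) (nat_lit 40) (nat_lit 5) (nat_lit 41) (nat_lit 5) (nat_lit 449) (nat_lit 426) (nat_lit 325)) (XT.lf (nat_lit 0) (nat_lit 9058633002) (nat_lit 76) (nat_lit 77555984007) (nat_lit 152) (nat_lit 480046731) (nat_lit 37) (nat_lit 5) (nat_lit 38) (nat_lit 5) (nat_lit 39) (nat_lit 4) (nat_lit 450) (nat_lit 426) (nat_lit 324)))))) (XT.nd (nat_lit 468) (nat_lit 304) (nat_lit 0) (XT.nd (nat_lit 234) (nat_lit 304) (nat_lit 0) (XT.nd (nat_lit 78) (nat_lit 152) (nat_lit 0) (XT.lf (nat_lit 0) (nat_lit 20046992232) (nat_lit 152) (nat_lit 28885853601) (nat_lit 76) (nat_lit 42538500777) (nat_lit 36) (nat_lit 5) (nat_lit 38) (nat_lit 5) (nat_lit 37) (nat_lit 5) (nat_lit 451) (nat_lit 426) (nat_lit 323)) (XT.nd (nat_lit 78) (nat_lit 0) (nat_lit 0) (XT.lf (nat_lit 0) (nat_lit 25454146804) (nat_lit 152) (nat_lit 17346456703) (nat_lit 228)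 (nat_lit 53347736098) (nat_lit 34) (nat_lit 5) (nat_lit 36) (nat_lit 5) (nat_lit 37) (nat_lit 5) (nat_lit 452) (nat_lit 426) (nat_lit 322)) (XT.lf (nat_lit 0) (nat_lit 68586257776) (nat_lit 228) (nat_lit 15779031953) (nat_lit 76) (nat_lit 16737262474) (nat_lit 34) (nat_lit 5) (nat_lit 37) (nat_lit 5) (nat_lit 35) (nat_lit 4) (nat_lit 453) (nat_lit 426) (nat_lit 321)))) (XT.nd (nat_lit 78) (nat_lit 228) (nat_lit 0) (XT.lf (nat_lit 0) (nat_lit 45344237351) (nat_lit 76) (nat_lit 52629953829) (nat_lit 152) (nat_lit 8355756940) (nat_lit 33) (nat_lit 5) (nat_lit 34) (nat_lit 5) (nat_lit 35) (nat_lit 4) (nat_lit 454) (nat_lit 426) (nat_lit 320)) (XT.nd (nat_lit 78) (nat_lit 152) (nat_lit 0) (XT.lf (nat_lit 0) (nat_lit 17291301976) (nat_lit 152) (nat_lit 126946446) (nat_lit 76) (nat_lit 94487881560) (nat_lit 32) (nat_lit 5) (nat_lit 34) (nat_lit 5) (nat_lit 33) (nat_lit 5) (nat_lit 455) (nat_lit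 426) (nat_lit 319)) (XT.lf (nat_lit 0) (nat_lit 46736667295) (nat_lit 228) (nat_lit 49499359280) (nat_lit 76) (nat_lit 21499179999) (nat_lit 30) (nat_lit 5) (nat_lit 33) (nat_lit 5) (nat_lit 31) (nat_lit 4) (nat_lit 456) (nat_lit 426) (nat_lit 318))))) (XT.nd (nat_lit 234) (nat_lit 76) (nat_lit 0) (XT.nd (nat_lit 78) (nat_lit 152) (nat_lit 0) (XT.lf (nat_lit 0) (nat_lit 18515588390) (nat_lit 76) (nat_lit 60921856515) (nat_lit 152) (nat_lit 44521182078) (nat_lit 29) (nat_lit 5) (nat_lit 30) (nat_lit 5) (nat_lit 31) (nat_lit 4) (nat_lit 457) (nat_lit 426) (nat_lit 317)) (XT.nd (nat_lit 78) (nat_lit 152) (nat_lit 0) (XT.lf (nat_lit 0) (nat_lit 94784195449) (nat_lit 76) (nat_lit 21322037464) (nat_lit 152) (nat_lit 14465532566) (nat_lit 29) (nat_lit 5) (nat_lit 30) (nat_lit 5) (nat_lit 31) (nat_lit 4) (nat_lit 458) (nat_lit 426) (nat_lit 316)) (XT.lf (nat_lit 0) (nat_lit 18633132263) (nat_lit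 152) (nat_lit 97094064427) (nat_lit 76) (nat_lit 21829039078) (nat_lit 27) (nat_lit 5) (nat_lit 29) (nat_lit 5) (nat_lit 28) (nat_lit 4) (nat_lit 459) (nat_lit 426) (nat_lit 315)))) (XT.nd (nat_lit 78) (nat_lit 76) (nat_lit 0) (XT.lf (nat_lit 0) (nat_lit 55154544007) (nat_lit 152) (nat_lit 21131490352) (nat_lit 76) (nat_lit 68658861862) (nat_lit 27) (nat_lit 5) (nat_lit 29) (nat_lit 5) (nat_lit 28) (nat_lit 4) (nat_lit 460) (nat_lit 426) (nat_lit 314)) (XT.nd (nat_lit 78) (nat_lit 0) (nat_lit 0) (XT.lf (nat_lit 0) (nat_lit 64112958749) (nat_lit 76) (nat_lit 32025367033) (nat_lit 152) (nat_lit 56663071386) (nat_lit 26) (nat_lit 5) (nat_lit 27) (nat_lit 5) (nat_lit 28) (nat_lit 4) (nat_lit 461) (nat_lit 426) (nat_lit 313)) (XT.lf (nat_lit 0) (nat_lit 141371759343) (nat_lit 152) (nat_lit 4258224962) (nat_lit 0) (nat_lit 15578758158) (nat_lit 26) (nat_lit 5) (nat_lit 28) (nat_lit 4) (nat_lit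 26) (nat_lit 4) (nat_lit 462) (nat_lit 426) (nat_lit 312))))))))
noncomputable def xc160 : XT := (XT.nd (nat_lit 1716) (nat_lit 608) (nat_lit 0) (XT.nd (nat_lit 858) (nat_lit 532) (nat_lit 0) (XT.nd (nat_lit 390) (nat_lit 304) (nat_lit 0) (XT.nd (nat_lit 156) (nat_lit 152) (nat_lit 0) (XT.nd (nat_lit 78) (nat_lit 76) (nat_lit 0) (XT.lf (nat_lit 0) (nat_lit 22026368525) (nat_lit 152) (nat_lit 79979597038) (nat_lit 76) (nat_lit 67997281420) (nat_lit 24) (nat_lit 5) (nat_lit 26) (nat_lit 5) (nat_lit 25) (nat_lit 4) (nat_lit 463) (nat_lit 426) (nat_lit 311)) (XT.lf (nat_lit 0) (nat_lit 12713803800) (nat_lit 76) (nat_lit 53877341831) (nat_lit 152) (nat_lit 112835021123) (nat_lit 23) (nat_lit 5) (nat_lit 24) (nat_lit 5) (nat_lit 25) (nat_lit 4) (nat_lit 464) (nat_lit 426) (nat_lit 310))) (XT.nd (nat_lit 78) (nat_lit 152) (nat_lit 0) (XT.lf (nat_lit 0) (nat_lit 116917892330) (nat_lit 152) (nat_lit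 72070110877) (nat_lit 0) (nat_lit 439174062) (nat_lit 23) (nat_lit 5) (nat_lit 25) (nat_lit 4) (nat_lit 23) (nat_lit 4) (nat_lit 465) (nat_lit 426) (nat_lit 309)) (XT.nd (nat_lit 78) (nat_lit 76) (nat_lit 0) (XT.lf (nat_lit 0) (nat_lit 30255600527) (nat_lit 76) (nat_lit 143141183157) (nat_lit 76) (nat_lit 26661404691) (nat_lit 22) (nat_lit 4) (nat_lit 23) (nat_lit 5) (nat_lit 23) (nat_lit 4) (nat_lit 466) (nat_lit 426) (nat_lit 308)) (XT.lf (nat_lit 0) (nat_lit 23731697674) (nat_lit 152) (nat_lit 67118828967) (nat_lit 76) (nat_lit 120483529589) (nat_lit 21) (nat_lit 5) (nat_lit 23) (nat_lit 5) (nat_lit 22) (nat_lit 4) (nat_lit 467) (nat_lit 426) (nat_lit 307))))) (XT.nd (nat_lit 234) (nat_lit 152) (nat_lit 0) (XT.nd (nat_lit 78) (nat_lit 76) (nat_lit 0) (XT.lf (nat_lit 0) (nat_lit 45354048103) (nat_lit 76) (nat_lit 32451585157) (nat_lit 152) (nat_lit 145563776576) (nat_lit 20) (nat_lit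 5) (nat_lit 21) (nat_lit 5) (nat_lit 22) (nat_lit 4) (nat_lit 468) (nat_lit 426) (nat_lit 306)) (XT.nd (nat_lit 78) (nat_lit 76) (nat_lit 0) (XT.lf (nat_lit 0) (nat_lit 138823726263) (nat_lit 152) (nat_lit 66364856476) (nat_lit 0) (nat_lit 30969549691) (nat_lit 20) (nat_lit 5) (nat_lit 22) (nat_lit 4) (nat_lit 20) (nat_lit 4) (nat_lit 469) (nat_lit 426) (nat_lit 305)) (XT.lf (nat_lit 0) (nat_lit 56183581564) (nat_lit 76) (nat_lit 150732905914) (nat_lit 76) (nat_lit 42878007789) (nat_lit 19) (nat_lit 4) (nat_lit 20) (nat_lit 5) (nat_lit 20) (nat_lit 4) (nat_lit 470) (nat_lit 426) (nat_lit 304)))) (XT.nd (nat_lit 78) (nat_lit 76) (nat_lit 0) (XT.lf (nat_lit 0) (nat_lit 16998546376) (nat_lit 152) (nat_lit 72498589766) (nat_lit 76) (nat_lit 174845110508) (nat_lit 18) (nat_lit 5) (nat_lit 20) (nat_lit 5) (nat_lit 19) (nat_lit 4) (nat_lit 471) (nat_lit 426) (nat_lit 303)) (XT.nd (nat_lit 78)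 (nat_lit 0) (nat_lit 0) (XT.lf (nat_lit 0) (nat_lit 60198778813) (nat_lit 76) (nat_lit 20596876791) (nat_lit 152) (nat_lit 199053308909) (nat_lit 17) (nat_lit 5) (nat_lit 18) (nat_lit 5) (nat_lit 19) (nat_lit 4) (nat_lit 472) (nat_lit 426) (nat_lit 302)) (XT.lf (nat_lit 0) (nat_lit 153023701542) (nat_lit 152) (nat_lit 90150011536) (nat_lit 0) (nat_lit 53156333360) (nat_lit 17) (nat_lit 5) (nat_lit 19) (nat_lit 4) (nat_lit 17) (nat_lit 4) (nat_lit 473) (nat_lit 426) (nat_lit 301)))))) (XT.nd (nat_lit 390) (nat_lit 304) (nat_lit 0) (XT.nd (nat_lit 156) (nat_lit 152) (nat_lit 0) (XT.nd (nat_lit 78) (nat_lit 0) (nat_lit 0) (XT.lf (nat_lit 0) (nat_lit 51763093875) (nat_lit 76) (nat_lit 181046025072) (nat_lit 76) (nat_lit 81178165814) (nat_lit 16) (nat_lit 4) (nat_lit 17) (nat_lit 5) (nat_lit 17) (nat_lit 4) (nat_lit 474) (nat_lit 426) (nat_lit 300)) (XT.lf (nat_lit 0) (nat_lit 210154698222)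 (nat_lit 76) (nat_lit 111286794072) (nat_lit 76) (nat_lit 11418480113) (nat_lit 16) (nat_lit 4) (nat_lit 17) (nat_lit 5) (nat_lit 17) (nat_lit 4) (nat_lit 475) (nat_lit 426) (nat_lit 299))) (XT.nd (nat_lit 78) (nat_lit 0) (nat_lit 0) (XT.lf (nat_lit 0) (nat_lit 27828537489) (nat_lit 76) (nat_lit 33564381965) (nat_lit 152) (nat_lit 291673083621) (nat_lit 14) (nat_lit 5) (nat_lit 15) (nat_lit 5) (nat_lit 16) (nat_lit 4) (nat_lit 476) (nat_lit 426) (nat_lit 298)) (XT.nd (nat_lit 78) (nat_lit 0) (nat_lit 0) (XT.lf (nat_lit 0) (nat_lit 144065299822) (nat_lit 152) (nat_lit 178833364683) (nat_lit 0) (nat_lit 51593887961) (nat_lit 14) (nat_lit 5) (nat_lit 16) (nat_lit 4) (nat_lit 14) (nat_lit 4) (nat_lit 477) (nat_lit 426) (nat_lit 297)) (XT.lf (nat_lit 0) (nat_lit 234222626089) (nat_lit 152) (nat_lit 21590027317) (nat_lit 0) (nat_lit 141750880010) (nat_lit 14) (nat_lit 5) (nat_lit 16) (nat_lit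 4) (nat_lit 14) (nat_lit 4) (nat_lit 478) (nat_lit 426) (nat_lit 296))))) (XT.nd (nat_lit 234) (nat_lit 76) (nat_lit 0) (XT.nd (nat_lit 78) (nat_lit 152) (nat_lit 0) (XT.lf (nat_lit 0) (nat_lit 156037195549) (nat_lit 76) (nat_lit 179307442456) (nat_lit 76) (nat_lit 86835386915) (nat_lit 13) (nat_lit 4) (nat_lit 14) (nat_lit 5) (nat_lit 14) (nat_lit 4) (nat_lit 479) (nat_lit 426) (nat_lit 295)) (XT.nd (nat_lit 78) (nat_lit 152) (nat_lit 0) (XT.lf (nat_lit 0) (nat_lit 349101276492) (nat_lit 76) (nat_lit 96044861597) (nat_lit 76) (nat_lit 3572519518) (nat_lit 13) (nat_lit 4) (nat_lit 14) (nat_lit 5) (nat_lit 14) (nat_lit 4) (nat_lit 480) (nat_lit 426) (nat_lit 294)) (XT.lf (nat_lit 0) (nat_lit 82267602249) (nat_lit 76) (nat_lit 1742113924) (nat_lit 152) (nat_lit 393046285789) (nat_lit 11) (nat_lit 5) (nat_lit 12) (nat_lit 5) (nat_lit 13) (nat_lit 4) (nat_lit 481) (nat_lit 426) (nat_lit 293))))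 (XT.nd (nat_lit 78) (nat_lit 76) (nat_lit 0) (XT.lf (nat_lit 0) (nat_lit 183606956361) (nat_lit 152) (nat_lit 225645895086) (nat_lit 0) (nat_lit 97983944275) (nat_lit 11) (nat_lit 5) (nat_lit 13) (nat_lit 4) (nat_lit 11) (nat_lit 4) (nat_lit 482) (nat_lit 426) (nat_lit 292)) (XT.nd (nat_lit 78) (nat_lit 76) (nat_lit 0) (XT.lf (nat_lit 0) (nat_lit 291216715060) (nat_lit 152) (nat_lit 43018266447) (nat_lit 0) (nat_lit 205593492359) (nat_lit 11) (nat_lit 5) (nat_lit 13) (nat_lit 4) (nat_lit 11) (nat_lit 4) (nat_lit 483) (nat_lit 426) (nat_lit 291)) (XT.lf (nat_lit 0) (nat_lit 162339501212) (nat_lit 76) (nat_lit 248999549544) (nat_lit 76) (nat_lit 163376131830) (nat_lit 10) (nat_lit 4) (nat_lit 11) (nat_lit 5) (nat_lit 11) (nat_lit 4) (nat_lit 484) (nat_lit 426) (nat_lit 290))))))) (XT.nd (nat_lit 858) (nat_lit 228) (nat_lit 0) (XT.nd (nat_lit 390) (nat_lit 228) (nat_lit 0) (XT.nd (nat_lit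 156) (nat_lit 76) (nat_lit 0) (XT.nd (nat_lit 78) (nat_lit 76) (nat_lit 0) (XT.lf (nat_lit 0) (nat_lit 386571450682) (nat_lit 76) (nat_lit 155675458383) (nat_lit 76) (nat_lit 70051860101) (nat_lit 10) (nat_lit 4) (nat_lit 11) (nat_lit 5) (nat_lit 11) (nat_lit 4) (nat_lit 485) (nat_lit 426) (nat_lit 289)) (XT.lf (nat_lit 0) (nat_lit 29200259540) (nat_lit 152) (nat_lit 24887225629) (nat_lit 76) (nat_lit 598742451825) (nat_lit 9) (nat_lit 5) (nat_lit 11) (nat_lit 5) (nat_lit 10) (nat_lit 4) (nat_lit 486) (nat_lit 426) (nat_lit 288))) (XT.nd (nat_lit 78) (nat_lit 0) (nat_lit 0) (XT.lf (nat_lit 0) (nat_lit 138932870911) (nat_lit 152) (nat_lit 497367706437) (nat_lit 0) (nat_lit 59651463243) (nat_lit 8) (nat_lit 5) (nat_lit 10) (nat_lit 4) (nat_lit 8) (nat_lit 4) (nat_lit 487) (nat_lit 426) (nat_lit 287)) (XT.nd (nat_lit 78) (nat_lit 0) (nat_lit 0) (XT.lf (nat_lit 0) (nat_lit 259546692755) (nat_lit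 152) (nat_lit 302543859250) (nat_lit 0) (nat_lit 180265152364) (nat_lit 8) (nat_lit 5) (nat_lit 10) (nat_lit 4) (nat_lit 8) (nat_lit 4) (nat_lit 488) (nat_lit 426) (nat_lit 286)) (XT.lf (nat_lit 0) (nat_lit 389809246881) (nat_lit 152) (nat_lit 92134860663) (nat_lit 0) (nat_lit 310527583598) (nat_lit 8) (nat_lit 5) (nat_lit 10) (nat_lit 4) (nat_lit 8) (nat_lit 4) (nat_lit 489) (nat_lit 426) (nat_lit 285))))) (XT.nd (nat_lit 234) (nat_lit 152) (nat_lit 0) (XT.nd (nat_lit 78) (nat_lit 0) (nat_lit 0) (XT.lf (nat_lit 0) (nat_lit 142220608285) (nat_lit 76) (nat_lit 391692260300) (nat_lit 76) (nat_lit 312410483229) (nat_lit 7) (nat_lit 4) (nat_lit 8) (nat_lit 5) (nat_lit 8) (nat_lit 4) (nat_lit 490) (nat_lit 426) (nat_lit 284)) (XT.nd (nat_lit 78) (nat_lit 0) (nat_lit 0) (XT.lf (nat_lit 0) (nat_lit 400563623297) (nat_lit 76) (nat_lit 291499950492) (nat_lit 76) (nat_lit 212218068062) (nat_lit 7)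 (nat_lit 4) (nat_lit 8) (nat_lit 5) (nat_lit 8) (nat_lit 4) (nat_lit 491) (nat_lit 426) (nat_lit 283)) (XT.lf (nat_lit 0) (nat_lit 679573447457) (nat_lit 76) (nat_lit 183292576284) (nat_lit 76) (nat_lit 104010596298) (nat_lit 7) (nat_lit 4) (nat_lit 8) (nat_lit 5) (nat_lit 8) (nat_lit 4) (nat_lit 492) (nat_lit 426) (nat_lit 282)))) (XT.nd (nat_lit 78) (nat_lit 76) (nat_lit 0) (XT.lf (nat_lit 0) (nat_lit 12210194329) (nat_lit 152) (nat_lit 53884866109) (nat_lit 76) (nat_lit 968359429635) (nat_lit 6) (nat_lit 5) (nat_lit 8) (nat_lit 5) (nat_lit 7) (nat_lit 4) (nat_lit 493) (nat_lit 426) (nat_lit 281)) (XT.nd (nat_lit 78) (nat_lit 0) (nat_lit 0) (XT.lf (nat_lit 0) (nat_lit 138711813862) (nat_lit 152) (nat_lit 902680042735) (nat_lit 0) (nat_lit 65302412054) (nat_lit 5) (nat_lit 5) (nat_lit 7) (nat_lit 4) (nat_lit 5) (nat_lit 4) (nat_lit 494) (nat_lit 426) (nat_lit 280)) (XT.lf (nat_lit 0) (nat_lit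 278561619726) (nat_lit 152) (nat_lit 700741219046) (nat_lit 0) (nat_lit 205152146212) (nat_lit 5) (nat_lit 5) (nat_lit 7) (nat_lit 4) (nat_lit 5) (nat_lit 4) (nat_lit 495) (nat_lit 426) (nat_lit 279)))))) (XT.nd (nat_lit 468) (nat_lit 152) (nat_lit 0) (XT.nd (nat_lit 234) (nat_lit 0) (nat_lit 0) (XT.nd (nat_lit 78) (nat_lit 76) (nat_lit 0) (XT.lf (nat_lit 0) (nat_lit 429599156807) (nat_lit 152) (nat_lit 482647805188) (nat_lit 0) (nat_lit 356189616898) (nat_lit 5) (nat_lit 5) (nat_lit 7) (nat_lit 4) (nat_lit 5) (nat_lit 4) (nat_lit 496) (nat_lit 426) (nat_lit 278)) (XT.nd (nat_lit 78) (nat_lit 76) (nat_lit 0) (XT.lf (nat_lit 0) (nat_lit 592719462360) (nat_lit 152) (nat_lit 247107395747) (nat_lit 0) (nat_lit 519309860975) (nat_lit 5) (nat_lit 5) (nat_lit 7) (nat_lit 4) (nat_lit 5) (nat_lit 4) (nat_lit 497) (nat_lit 426) (nat_lit 277)) (XT.lf (nat_lit 0) (nat_lit 7658935256) (nat_lit 76) (nat_lit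 761414437554) (nat_lit 76) (nat_lit 688004779247) (nat_lit 4) (nat_lit 4) (nat_lit 5) (nat_lit 5) (nat_lit 5) (nat_lit 4) (nat_lit 498) (nat_lit 426) (nat_lit 276)))) (XT.nd (nat_lit 78) (nat_lit 0) (nat_lit 0) (XT.lf (nat_lit 0) (nat_lit 296859358334) (nat_lit 76) (nat_lit 669432380471) (nat_lit 76) (nat_lit 596022669458) (nat_lit 4) (nat_lit 4) (nat_lit 5) (nat_lit 5) (nat_lit 5) (nat_lit 4) (nat_lit 499) (nat_lit 426) (nat_lit 275)) (XT.nd (nat_lit 78) (nat_lit 0) (nat_lit 0) (XT.lf (nat_lit 0) (nat_lit 609195416221) (nat_lit 76) (nat_lit 570091962112) (nat_lit 76) (nat_lit 496682202296) (nat_lit 4) (nat_lit 4) (nat_lit 5) (nat_lit 5) (nat_lit 5) (nat_lit 4) (nat_lit 500) (nat_lit 426) (nat_lit 274)) (XT.lf (nat_lit 0) (nat_lit 946517989262) (nat_lit 76) (nat_lit 462804498516) (nat_lit 76) (nat_lit 389394693514) (nat_lit 4) (nat_lit 4) (nat_lit 5) (nat_lit 5) (nat_lit 5) (nat_lit 4)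 (nat_lit 501) (nat_lit 426) (nat_lit 273))))) (XT.nd (nat_lit 234) (nat_lit 152) (nat_lit 0) (XT.nd (nat_lit 78) (nat_lit 0) (nat_lit 0) (XT.lf (nat_lit 0) (nat_lit 1310826026036) (nat_lit 76) (nat_lit 346934212121) (nat_lit 76) (nat_lit 273524365280) (nat_lit 4) (nat_lit 4) (nat_lit 5) (nat_lit 5) (nat_lit 5) (nat_lit 4) (nat_lit 502) (nat_lit 426) (nat_lit 272)) (XT.nd (nat_lit 78) (nat_lit 0) (nat_lit 0) (XT.lf (nat_lit 0) (nat_lit 1704278388985) (nat_lit 76) (nat_lit 221794464194) (nat_lit 76) (nat_lit 148384578612) (nat_lit 4) (nat_lit 4) (nat_lit 5) (nat_lit 5) (nat_lit 5) (nat_lit 4) (nat_lit 503) (nat_lit 426) (nat_lit 271)) (XT.lf (nat_lit 0) (nat_lit 2129206647667) (nat_lit 76) (nat_lit 86643685858) (nat_lit 76) (nat_lit 13233764405) (nat_lit 4) (nat_lit 4) (nat_lit 5) (nat_lit 5) (nat_lit 5) (nat_lit 4) (nat_lit 504) (nat_lit 426) (nat_lit 270)))) (XT.nd (nat_lit 78) (nat_lit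 0) (nat_lit 0) (XT.lf (nat_lit 0) (nat_lit 132504213552) (nat_lit 152) (nat_lit 2198276099713) (nat_lit 0) (nat_lit 64532033305) (nat_lit 2) (nat_lit 5) (nat_lit 4) (nat_lit 4) (nat_lit 2) (nat_lit 4) (nat_lit 505) (nat_lit 426) (nat_lit 269)) (XT.nd (nat_lit 78) (nat_lit 0) (nat_lit 0) (XT.lf (nat_lit 0) (nat_lit 294238368698) (nat_lit 152) (nat_lit 2053902659223) (nat_lit 0) (nat_lit 226266159976) (nat_lit 2) (nat_lit 5) (nat_lit 4) (nat_lit 4) (nat_lit 2) (nat_lit 4) (nat_lit 506) (nat_lit 426) (nat_lit 268)) (XT.lf (nat_lit 0) (nat_lit 468911129933) (nat_lit 152) (nat_lit 1897979601863) (nat_lit 0) (nat_lit 400938894844) (nat_lit 2) (nat_lit 5) (nat_lit 4) (nat_lit 4) (nat_lit 2) (nat_lit 4) (nat_lit 507) (nat_lit 426) (nat_lit 267))))))))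
noncomputable def xc161 : XT := (XT.nd (nat_lit 56472) (nat_lit 0) (nat_lit 2508) (XT.nd (nat_lit 858) (nat_lit 0) (nat_lit 0) (XT.nd (nat_lit 390) (nat_lit 76) (nat_lit 0) (XT.nd (nat_lit 156) (nat_lit 0) (nat_lit 0) (XT.nd (nat_lit 78) (nat_lit 0) (nat_lit 0) (XT.lf (nat_lit 0) (nat_lit 657557595100) (nat_lit 152) (nat_lit 1729582939145) (nat_lit 0) (nat_lit 589585335598) (nat_lit 2) (nat_lit 5) (nat_lit 4) (nat_lit 4) (nat_lit 2) (nat_lit 4) (nat_lit 508) (nat_lit 426) (nat_lit 266)) (XT.lf (nat_lit 0) (nat_lit 861295669178) (nat_lit 152) (nat_lit 1547714764920) (nat_lit 0) (nat_lit 793323387071) (nat_lit 2) (nat_lit 5) (nat_lit 4) (nat_lit 4) (nat_lit 2) (nat_lit 4) (nat_lit 509) (nat_lit 426) (nat_lit 265))) (XT.nd (nat_lit 78) (nat_lit 0) (nat_lit 0) (XT.lf (nat_lit 0) (nat_lit 1081332688902) (nat_lit 152) (nat_lit 1351297341859) (nat_lit 0) (nat_lit 1013360385866) (nat_lit 2) (nat_lit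 5) (nat_lit 4) (nat_lit 4) (nat_lit 2) (nat_lit 4) (nat_lit 510) (nat_lit 426) (nat_lit 264)) (XT.nd (nat_lit 78) (nat_lit 0) (nat_lit 0) (XT.lf (nat_lit 0) (nat_lit 1318972577353) (nat_lit 152) (nat_lit 1139166714862) (nat_lit 0) (nat_lit 1251000254937) (nat_lit 2) (nat_lit 5) (nat_lit 4) (nat_lit 4) (nat_lit 2) (nat_lit 4) (nat_lit 511) (nat_lit 426) (nat_lit 263)) (XT.lf (nat_lit 0) (nat_lit 1575623570907) (nat_lit 152) (nat_lit 910065813548) (nat_lit 0) (nat_lit 1507651230546) (nat_lit 2) (nat_lit 5) (nat_lit 4) (nat_lit 4) (nat_lit 2) (nat_lit 4) (nat_lit 512) (nat_lit 426) (nat_lit 262))))) (XT.nd (nat_lit 234) (nat_lit 76) (nat_lit 0) (XT.nd (nat_lit 78) (nat_lit 0) (nat_lit 0) (XT.lf (nat_lit 0) (nat_lit 1852806564339) (nat_lit 152) (nat_lit 662637002944) (nat_lit 0) (nat_lit 1784834207363) (nat_lit 2) (nat_lit 5) (nat_lit 4) (nat_lit 4) (nat_lit 2) (nat_lit 4) (nat_lit 513) (nat_lit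 426) (nat_lit 261)) (XT.nd (nat_lit 78) (nat_lit 0) (nat_lit 0) (XT.lf (nat_lit 0) (nat_lit 2152164123537) (nat_lit 152) (nat_lit 395414038248) (nat_lit 0) (nat_lit 2084191751177) (nat_lit 2) (nat_lit 5) (nat_lit 4) (nat_lit 4) (nat_lit 2) (nat_lit 4) (nat_lit 514) (nat_lit 426) (nat_lit 260)) (XT.lf (nat_lit 0) (nat_lit 2475470219222) (nat_lit 152) (nat_lit 106813375966) (nat_lit 0) (nat_lit 2407497832617) (nat_lit 2) (nat_lit 5) (nat_lit 4) (nat_lit 4) (nat_lit 2) (nat_lit 4) (nat_lit 515) (nat_lit 426) (nat_lit 259)))) (XT.nd (nat_lit 78) (nat_lit 0) (nat_lit 0) (XT.lf (nat_lit 0) (nat_lit 215663575540) (nat_lit 76) (nat_lit 2614163878007) (nat_lit 76) (nat_lit 2546191478212) (nat_lit 1) (nat_lit 4) (nat_lit 2) (nat_lit 5) (nat_lit 2) (nat_lit 4) (nat_lit 516) (nat_lit 426) (nat_lit 258)) (XT.nd (nat_lit 78) (nat_lit 0) (nat_lit 0) (XT.lf (nat_lit 0) (nat_lit 570013128527) (nat_lit 76)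 (nat_lit 2645440543538) (nat_lit 76) (nat_lit 2577468131530) (nat_lit 1) (nat_lit 4) (nat_lit 2) (nat_lit 5) (nat_lit 2) (nat_lit 4) (nat_lit 517) (nat_lit 426) (nat_lit 257)) (XT.lf (nat_lit 0) (nat_lit 952710529108) (nat_lit 76) (nat_lit 2679219401973) (nat_lit 76) (nat_lit 2611246978658) (nat_lit 1) (nat_lit 4) (nat_lit 2) (nat_lit 5) (nat_lit 2) (nat_lit 4) (nat_lit 518) (nat_lit 426) (nat_lit 256)))))) (XT.nd (nat_lit 390) (nat_lit 0) (nat_lit 0) (XT.nd (nat_lit 156) (nat_lit 0) (nat_lit 0) (XT.nd (nat_lit 78) (nat_lit 0) (nat_lit 0) (XT.lf (nat_lit 0) (nat_lit 1366023613730) (nat_lit 76) (nat_lit 2715700624326) (nat_lit 76) (nat_lit 2647728190540) (nat_lit 1) (nat_lit 4) (nat_lit 2) (nat_lit 5) (nat_lit 2) (nat_lit 4) (nat_lit 519) (nat_lit 426) (nat_lit 255)) (XT.lf (nat_lit 0) (nat_lit 1812401645117) (nat_lit 76) (nat_lit 2755100395617) (nat_lit 76) (nat_lit 2687127952137) (nat_lit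 1) (nat_lit 4) (nat_lit 2) (nat_lit 5) (nat_lit 2) (nat_lit 4) (nat_lit 520) (nat_lit 426) (nat_lit 254))) (XT.nd (nat_lit 78) (nat_lit 0) (nat_lit 0) (XT.lf (nat_lit 0) (nat_lit 2294489826419) (nat_lit 76) (nat_lit 2797652195973) (nat_lit 76) (nat_lit 2729679743516) (nat_lit 1) (nat_lit 4) (nat_lit 2) (nat_lit 5) (nat_lit 2) (nat_lit 4) (nat_lit 521) (nat_lit 426) (nat_lit 253)) (XT.nd (nat_lit 78) (nat_lit 0) (nat_lit 0) (XT.lf (nat_lit 0) (nat_lit 2815144976487) (nat_lit 76) (nat_lit 2843608184211) (nat_lit 76) (nat_lit 2775635723442) (nat_lit 1) (nat_lit 4) (nat_lit 2) (nat_lit 5) (nat_lit 2) (nat_lit 4) (nat_lit 522) (nat_lit 426) (nat_lit 252)) (XT.lf (nat_lit 0) (nat_lit 3377452459174) (nat_lit 76) (nat_lit 2893240692113) (nat_lit 76) (nat_lit 2825268223648) (nat_lit 1) (nat_lit 4) (nat_lit 2) (nat_lit 5) (nat_lit 2) (nat_lit 4) (nat_lit 523) (nat_lit 426) (nat_lit 251))))) (XT.nd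 (nat_lit 54990) (nat_lit 0) (nat_lit 5168) (XT.nd (nat_lit 78) (nat_lit 0) (nat_lit 0) (XT.lf (nat_lit 0) (nat_lit 3984744466969) (nat_lit 76) (nat_lit 2946843838244) (nat_lit 76) (nat_lit 2878871362653) (nat_lit 1) (nat_lit 4) (nat_lit 2) (nat_lit 5) (nat_lit 2) (nat_lit 4) (nat_lit 524) (nat_lit 426) (nat_lit 250)) (XT.nd (nat_lit 54834) (nat_lit 0) (nat_lit 5168) (XT.lf (nat_lit 0) (nat_lit 4640619767327) (nat_lit 76) (nat_lit 3004735270878) (nat_lit 76) (nat_lit 2936762788689) (nat_lit 1) (nat_lit 4) (nat_lit 2) (nat_lit 5) (nat_lit 2) (nat_lit 4) (nat_lit 525) (nat_lit 426) (nat_lit 249)) (XT.lf (nat_lit 0) (nat_lit 14628359074) (nat_lit 532) (nat_lit 813152415) (nat_lit 532) (nat_lit 813152415) (nat_lit 69) (nat_lit 3) (nat_lit 76) (nat_lit 3) (nat_lit 76) (nat_lit 5) (nat_lit 427) (nat_lit 427) (nat_lit 346)))) (XT.nd (nat_lit 78) (nat_lit 0) (nat_lit 76) (XT.lf (nat_lit 76) (nat_lit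 15057285551) (nat_lit 0) (nat_lit 15790086587) (nat_lit 532) (nat_lit 2928658768) (nat_lit 70) (nat_lit 5) (nat_lit 69) (nat_lit 3) (nat_lit 76) (nat_lit 5) (nat_lit 428) (nat_lit 427) (nat_lit 345)) (XT.nd (nat_lit 78) (nat_lit 0) (nat_lit 0) (XT.lf (nat_lit 0) (nat_lit 32617325938) (nat_lit 456) (nat_lit 1989741877) (nat_lit 532) (nat_lit 532842560) (nat_lit 70) (nat_lit 5) (nat_lit 76) (nat_lit 5) (nat_lit 77) (nat_lit 5) (nat_lit 429) (nat_lit 427) (nat_lit 344)) (XT.lf (nat_lit 76) (nat_lit 16488713328) (nat_lit 0) (nat_lit 18841435925) (nat_lit 532) (nat_lit 1218652722) (nat_lit 71) (nat_lit 5) (nat_lit 70) (nat_lit 5) (nat_lit 77) (nat_lit 5) (nat_lit 430) (nat_lit 427) (nat_lit 343))))))) (XT.nd (nat_lit 858) (nat_lit 1216) (nat_lit 0) (XT.nd (nat_lit 390) (nat_lit 684) (nat_lit 0) (XT.nd (nat_lit 156) (nat_lit 304) (nat_lit 0) (XT.nd (nat_lit 78) (nat_lit 0) (nat_lit 76) (XT.lf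 (nat_lit 0) (nat_lit 230694324) (nat_lit 532) (nat_lit 1517179000) (nat_lit 608) (nat_lit 36318123110) (nat_lit 63) (nat_lit 5) (nat_lit 70) (nat_lit 5) (nat_lit 71) (nat_lit 5) (nat_lit 431) (nat_lit 427) (nat_lit 342)) (XT.lf (nat_lit 0) (nat_lit 2607958827) (nat_lit 532) (nat_lit 20633122741) (nat_lit 608) (nat_lit 16390730812) (nat_lit 64) (nat_lit 5) (nat_lit 71) (nat_lit 5) (nat_lit 72) (nat_lit 5) (nat_lit 432) (nat_lit 427) (nat_lit 341))) (XT.nd (nat_lit 78) (nat_lit 380) (nat_lit 0) (XT.lf (nat_lit 0) (nat_lit 5258825530) (nat_lit 532) (nat_lit 127727485) (nat_lit 608) (nat_lit 35929669571) (nat_lit 64) (nat_lit 5) (nat_lit 71) (nat_lit 5) (nat_lit 72) (nat_lit 5) (nat_lit 433) (nat_lit 427) (nat_lit 340)) (XT.nd (nat_lit 78) (nat_lit 456) (nat_lit 0) (XT.lf (nat_lit 0) (nat_lit 9023591234) (nat_lit 532) (nat_lit 20265995282) (nat_lit 76) (nat_lit 13773655192) (nat_lit 65) (nat_lit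 5) (nat_lit 72) (nat_lit 5) (nat_lit 66) (nat_lit 5) (nat_lit 434) (nat_lit 427) (nat_lit 339)) (XT.lf (nat_lit 0) (nat_lit 2600052225) (nat_lit 456) (nat_lit 10691551241) (nat_lit 532) (nat_lit 31642255959) (nat_lit 59) (nat_lit 5) (nat_lit 65) (nat_lit 5) (nat_lit 66) (nat_lit 5) (nat_lit 435) (nat_lit 427) (nat_lit 338))))) (XT.nd (nat_lit 234) (nat_lit 456) (nat_lit 0) (XT.nd (nat_lit 78) (nat_lit 228) (nat_lit 0) (XT.lf (nat_lit 0) (nat_lit 18691739321) (nat_lit 532) (nat_lit 18706156307) (nat_lit 76) (nat_lit 9492978438) (nat_lit 59) (nat_lit 5) (nat_lit 66) (nat_lit 5) (nat_lit 60) (nat_lit 5) (nat_lit 436) (nat_lit 427) (nat_lit 337)) (XT.nd (nat_lit 78) (nat_lit 0) (nat_lit 0) (XT.lf (nat_lit 0) (nat_lit 6874212536) (nat_lit 228) (nat_lit 18089227237) (nat_lit 304) (nat_lit 24005847769) (nat_lit 56) (nat_lit 5) (nat_lit 59) (nat_lit 5) (nat_lit 60) (nat_lit 5) (nat_lit 437) (nat_lit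 427) (nat_lit 336)) (XT.lf (nat_lit 0) (nat_lit 32324788824) (nat_lit 304) (nat_lit 15691807006) (nat_lit 76) (nat_lit 3150347078) (nat_lit 56) (nat_lit 5) (nat_lit 60) (nat_lit 5) (nat_lit 57) (nat_lit 5) (nat_lit 438) (nat_lit 427) (nat_lit 335)))) (XT.nd (nat_lit 78) (nat_lit 228) (nat_lit 0) (XT.lf (nat_lit 0) (nat_lit 13000668396) (nat_lit 228) (nat_lit 28053829897) (nat_lit 304) (nat_lit 12423557891) (nat_lit 53) (nat_lit 5) (nat_lit 56) (nat_lit 5) (nat_lit 57) (nat_lit 5) (nat_lit 439) (nat_lit 427) (nat_lit 334)) (XT.nd (nat_lit 78) (nat_lit 228) (nat_lit 0) (XT.lf (nat_lit 0) (nat_lit 44877488608) (nat_lit 228) (nat_lit 6031217514) (nat_lit 304) (nat_lit 5031264229) (nat_lit 53) (nat_lit 5) (nat_lit 56) (nat_lit 5) (nat_lit 57) (nat_lit 5) (nat_lit 440) (nat_lit 427) (nat_lit 333)) (XT.lf (nat_lit 0) (nat_lit 3766618084) (nat_lit 228) (nat_lit 37276292292) (nat_lit 76) (nat_lit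 17473296418) (nat_lit 50) (nat_lit 5) (nat_lit 53) (nat_lit 5) (nat_lit 51) (nat_lit 5) (nat_lit 441) (nat_lit 427) (nat_lit 332)))))) (XT.nd (nat_lit 468) (nat_lit 608) (nat_lit 0) (XT.nd (nat_lit 234) (nat_lit 228) (nat_lit 0) (XT.nd (nat_lit 78) (nat_lit 380) (nat_lit 0) (XT.lf (nat_lit 0) (nat_lit 13460827867) (nat_lit 228) (nat_lit 4817367404) (nat_lit 76) (nat_lit 42972748276) (nat_lit 50) (nat_lit 5) (nat_lit 53) (nat_lit 5) (nat_lit 51) (nat_lit 5) (nat_lit 442) (nat_lit 427) (nat_lit 331)) (XT.nd (nat_lit 78) (nat_lit 152) (nat_lit 0) (XT.lf (nat_lit 0) (nat_lit 24865117125) (nat_lit 304) (nat_lit 32487797990) (nat_lit 76) (nat_lit 6776781854) (nat_lit 47) (nat_lit 5) (nat_lit 51) (nat_lit 5) (nat_lit 48) (nat_lit 5) (nat_lit 443) (nat_lit 427) (nat_lit 330)) (XT.lf (nat_lit 0) (nat_lit 3770814957) (nat_lit 152) (nat_lit 34109140559) (nat_lit 228) (nat_lit 29302939729) (nat_lit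 45) (nat_lit 5) (nat_lit 47) (nat_lit 5) (nat_lit 48) (nat_lit 5) (nat_lit 444) (nat_lit 427) (nat_lit 329)))) (XT.nd (nat_lit 78) (nat_lit 228) (nat_lit 0) (XT.lf (nat_lit 0) (nat_lit 44774512125) (nat_lit 152) (nat_lit 8047464534) (nat_lit 228) (nat_lit 17587494052) (nat_lit 45) (nat_lit 5) (nat_lit 47) (nat_lit 5) (nat_lit 48) (nat_lit 5) (nat_lit 445) (nat_lit 427) (nat_lit 328)) (XT.nd (nat_lit 78) (nat_lit 76) (nat_lit 0) (XT.lf (nat_lit 0) (nat_lit 15450730672) (nat_lit 152) (nat_lit 54361473818) (nat_lit 228) (nat_lit 4013741032) (nat_lit 43) (nat_lit 5) (nat_lit 45) (nat_lit 5) (nat_lit 46) (nat_lit 5) (nat_lit 446) (nat_lit 427) (nat_lit 327)) (XT.lf (nat_lit 0) (nat_lit 11039396387) (nat_lit 228) (nat_lit 16664930446) (nat_lit 76) (nat_lit 49716846644) (nat_lit 42) (nat_lit 5) (nat_lit 45) (nat_lit 5) (nat_lit 43) (nat_lit 5) (nat_lit 447) (nat_lit 427) (nat_lit 326))))) (XT.nd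 (nat_lit 234) (nat_lit 304) (nat_lit 0) (XT.nd (nat_lit 78) (nat_lit 152) (nat_lit 0) (XT.lf (nat_lit 0) (nat_lit 27841197896) (nat_lit 228) (nat_lit 51522039292) (nat_lit 76) (nat_lit 1871542212) (nat_lit 40) (nat_lit 5) (nat_lit 43) (nat_lit 5) (nat_lit 41) (nat_lit 5) (nat_lit 448) (nat_lit 427) (nat_lit 325)) (XT.nd (nat_lit 78) (nat_lit 152) (nat_lit 0) (XT.lf (nat_lit 0) (nat_lit 47172327849) (nat_lit 228) (nat_lit 5303052425) (nat_lit 76) (nat_lit 32783279444) (nat_lit 40) (nat_lit 5) (nat_lit 43) (nat_lit 5) (nat_lit 41) (nat_lit 5) (nat_lit 449) (nat_lit 427) (nat_lit 324)) (XT.lf (nat_lit 0) (nat_lit 46959817874) (nat_lit 152) (nat_lit 22217762902) (nat_lit 228) (nat_lit 20336659699) (nat_lit 38) (nat_lit 5) (nat_lit 40) (nat_lit 5) (nat_lit 41) (nat_lit 5) (nat_lit 450) (nat_lit 427) (nat_lit 323)))) (XT.nd (nat_lit 78) (nat_lit 228) (nat_lit 0) (XT.lf (nat_lit 0) (nat_lit 9840776437)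 (nat_lit 76) (nat_lit 83737772762) (nat_lit 152) (nat_lit 480895444) (nat_lit 37) (nat_lit 5) (nat_lit 38) (nat_lit 5) (nat_lit 39) (nat_lit 4) (nat_lit 451) (nat_lit 427) (nat_lit 322)) (XT.nd (nat_lit 78) (nat_lit 152) (nat_lit 0) (XT.lf (nat_lit 0) (nat_lit 21683785287) (nat_lit 152) (nat_lit 31141775786) (nat_lit 76) (nat_lit 45960840995) (nat_lit 36) (nat_lit 5) (nat_lit 38) (nat_lit 5) (nat_lit 37) (nat_lit 5) (nat_lit 452) (nat_lit 427) (nat_lit 321)) (XT.lf (nat_lit 0) (nat_lit 27544033611) (nat_lit 152) (nat_lit 18712492914) (nat_lit 228) (nat_lit 57581121401) (nat_lit 34) (nat_lit 5) (nat_lit 36) (nat_lit 5) (nat_lit 37) (nat_lit 5) (nat_lit 453) (nat_lit 427) (nat_lit 320))))))))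
noncomputable def xc162 : XT := (XT.nd (nat_lit 1716) (nat_lit 836) (nat_lit 0) (XT.nd (nat_lit 858) (nat_lit 608) (nat_lit 0) (XT.nd (nat_lit 390) (nat_lit 380) (nat_lit 0) (XT.nd (nat_lit 156) (nat_lit 304) (nat_lit 0) (XT.nd (nat_lit 78) (nat_lit 76) (nat_lit 0) (XT.lf (nat_lit 0) (nat_lit 74103154834) (nat_lit 228) (nat_lit 16989879975) (nat_lit 76) (nat_lit 18095313645) (nat_lit 34) (nat_lit 5) (nat_lit 37) (nat_lit 5) (nat_lit 35) (nat_lit 4) (nat_lit 454) (nat_lit 427) (nat_lit 319)) (XT.lf (nat_lit 0) (nat_lit 49021947720) (nat_lit 76) (nat_lit 56819159854) (nat_lit 152) (nat_lit 8992910304) (nat_lit 33) (nat_lit 5) (nat_lit 34) (nat_lit 5) (nat_lit 35) (nat_lit 4) (nat_lit 455) (nat_lit 427) (nat_lit 318))) (XT.nd (nat_lit 78) (nat_lit 228) (nat_lit 0) (XT.lf (nat_lit 0) (nat_lit 18702144169) (nat_lit 152) (nat_lit 89190557) (nat_lit 76) (nat_lit 102065076093) (nat_lit 32) (nat_lit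 5) (nat_lit 34) (nat_lit 5) (nat_lit 33) (nat_lit 5) (nat_lit 456) (nat_lit 427) (nat_lit 317)) (XT.nd (nat_lit 78) (nat_lit 76) (nat_lit 0) (XT.lf (nat_lit 0) (nat_lit 50502704825) (nat_lit 228) (nat_lit 53410956493) (nat_lit 76) (nat_lit 23238187416) (nat_lit 30) (nat_lit 5) (nat_lit 33) (nat_lit 5) (nat_lit 31) (nat_lit 4) (nat_lit 457) (nat_lit 427) (nat_lit 316)) (XT.lf (nat_lit 0) (nat_lit 20043962901) (nat_lit 76) (nat_lit 65774707443) (nat_lit 152) (nat_lit 48054542821) (nat_lit 29) (nat_lit 5) (nat_lit 30) (nat_lit 5) (nat_lit 31) (nat_lit 4) (nat_lit 458) (nat_lit 427) (nat_lit 315))))) (XT.nd (nat_lit 234) (nat_lit 228) (nat_lit 0) (XT.nd (nat_lit 78) (nat_lit 152) (nat_lit 0) (XT.lf (nat_lit 0) (nat_lit 102410567604) (nat_lit 76) (nat_lit 23008450838) (nat_lit 152) (nat_lit 15596540150) (nat_lit 29) (nat_lit 5) (nat_lit 30) (nat_lit 5) (nat_lit 31) (nat_lit 4) (nat_lit 459)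 (nat_lit 427) (nat_lit 314)) (XT.nd (nat_lit 78) (nat_lit 0) (nat_lit 0) (XT.lf (nat_lit 0) (nat_lit 20148386561) (nat_lit 152) (nat_lit 104816312533) (nat_lit 76) (nat_lit 23594062803) (nat_lit 27) (nat_lit 5) (nat_lit 29) (nat_lit 5) (nat_lit 28) (nat_lit 4) (nat_lit 460) (nat_lit 427) (nat_lit 313)) (XT.lf (nat_lit 0) (nat_lit 59589688747) (nat_lit 152) (nat_lit 22780086386) (nat_lit 76) (nat_lit 74168886179) (nat_lit 27) (nat_lit 5) (nat_lit 29) (nat_lit 5) (nat_lit 28) (nat_lit 4) (nat_lit 461) (nat_lit 427) (nat_lit 312)))) (XT.nd (nat_lit 78) (nat_lit 152) (nat_lit 0) (XT.lf (nat_lit 0) (nat_lit 69282857296) (nat_lit 76) (nat_lit 34568611000) (nat_lit 152) (nat_lit 61172270727) (nat_lit 26) (nat_lit 5) (nat_lit 27) (nat_lit 5) (nat_lit 28) (nat_lit 4) (nat_lit 462) (nat_lit 427) (nat_lit 311)) (XT.nd (nat_lit 78) (nat_lit 152) (nat_lit 0) (XT.lf (nat_lit 0) (nat_lit 152702359571)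 (nat_lit 152) (nat_lit 4559827425) (nat_lit 0) (nat_lit 16841582583) (nat_lit 26) (nat_lit 5) (nat_lit 28) (nat_lit 4) (nat_lit 26) (nat_lit 4) (nat_lit 463) (nat_lit 427) (nat_lit 310)) (XT.lf (nat_lit 0) (nat_lit 23809236397) (nat_lit 152) (nat_lit 86338801896) (nat_lit 76) (nat_lit 73453804759) (nat_lit 24) (nat_lit 5) (nat_lit 26) (nat_lit 5) (nat_lit 25) (nat_lit 4) (nat_lit 464) (nat_lit 427) (nat_lit 309)))))) (XT.nd (nat_lit 390) (nat_lit 304) (nat_lit 0) (XT.nd (nat_lit 156) (nat_lit 228) (nat_lit 0) (XT.nd (nat_lit 78) (nat_lit 0) (nat_lit 0) (XT.lf (nat_lit 0) (nat_lit 13769079544) (nat_lit 76) (nat_lit 58169496494) (nat_lit 152) (nat_lit 121840070162) (nat_lit 23) (nat_lit 5) (nat_lit 24) (nat_lit 5) (nat_lit 25) (nat_lit 4) (nat_lit 465) (nat_lit 427) (nat_lit 308)) (XT.lf (nat_lit 0) (nat_lit 126290372274) (nat_lit 152) (nat_lit 77799283035) (nat_lit 0) (nat_lit 490169669)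 (nat_lit 23) (nat_lit 5) (nat_lit 25) (nat_lit 4) (nat_lit 23) (nat_lit 4) (nat_lit 466) (nat_lit 427) (nat_lit 307))) (XT.nd (nat_lit 78) (nat_lit 152) (nat_lit 0) (XT.lf (nat_lit 0) (nat_lit 32711562832) (nat_lit 76) (nat_lit 154575455217) (nat_lit 76) (nat_lit 28774343664) (nat_lit 22) (nat_lit 4) (nat_lit 23) (nat_lit 5) (nat_lit 23) (nat_lit 4) (nat_lit 467) (nat_lit 427) (nat_lit 306)) (XT.nd (nat_lit 78) (nat_lit 76) (nat_lit 0) (XT.lf (nat_lit 0) (nat_lit 25647802239) (nat_lit 152) (nat_lit 72454524513) (nat_lit 76) (nat_lit 130137046421) (nat_lit 21) (nat_lit 5) (nat_lit 23) (nat_lit 5) (nat_lit 22) (nat_lit 4) (nat_lit 468) (nat_lit 427) (nat_lit 305)) (XT.lf (nat_lit 0) (nat_lit 49015326753) (nat_lit 76) (nat_lit 35031817093) (nat_lit 152) (nat_lit 157190452080) (nat_lit 20) (nat_lit 5) (nat_lit 21) (nat_lit 5) (nat_lit 22) (nat_lit 4) (nat_lit 469) (nat_lit 427) (nat_lit 304)))))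 (XT.nd (nat_lit 234) (nat_lit 152) (nat_lit 0) (XT.nd (nat_lit 78) (nat_lit 152) (nat_lit 0) (XT.lf (nat_lit 0) (nat_lit 149945774547) (nat_lit 152) (nat_lit 71642619785) (nat_lit 0) (nat_lit 33461094916) (nat_lit 20) (nat_lit 5) (nat_lit 22) (nat_lit 4) (nat_lit 20) (nat_lit 4) (nat_lit 470) (nat_lit 427) (nat_lit 303)) (XT.nd (nat_lit 78) (nat_lit 76) (nat_lit 0) (XT.lf (nat_lit 0) (nat_lit 60708897724) (nat_lit 76) (nat_lit 162776599269) (nat_lit 76) (nat_lit 46291301023) (nat_lit 19) (nat_lit 4) (nat_lit 20) (nat_lit 5) (nat_lit 20) (nat_lit 4) (nat_lit 471) (nat_lit 427) (nat_lit 302)) (XT.lf (nat_lit 0) (nat_lit 18373337135) (nat_lit 152) (nat_lit 78269329797) (nat_lit 76) (nat_lit 188845765488) (nat_lit 18) (nat_lit 5) (nat_lit 20) (nat_lit 5) (nat_lit 19) (nat_lit 4) (nat_lit 472) (nat_lit 427) (nat_lit 301)))) (XT.nd (nat_lit 78) (nat_lit 76) (nat_lit 0) (XT.lf (nat_lit 0) (nat_lit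 65043090365) (nat_lit 76) (nat_lit 22230703752) (nat_lit 152) (nat_lit 214961927376) (nat_lit 17) (nat_lit 5) (nat_lit 18) (nat_lit 5) (nat_lit 19) (nat_lit 4) (nat_lit 473) (nat_lit 427) (nat_lit 300)) (XT.nd (nat_lit 78) (nat_lit 76) (nat_lit 0) (XT.lf (nat_lit 0) (nat_lit 165279320738) (nat_lit 152) (nat_lit 97334943408) (nat_lit 0) (nat_lit 57421086963) (nat_lit 17) (nat_lit 5) (nat_lit 19) (nat_lit 4) (nat_lit 17) (nat_lit 4) (nat_lit 474) (nat_lit 427) (nat_lit 299)) (XT.lf (nat_lit 0) (nat_lit 55930525143) (nat_lit 76) (nat_lit 195516664398) (nat_lit 76) (nat_lit 87658009604) (nat_lit 16) (nat_lit 4) (nat_lit 17) (nat_lit 5) (nat_lit 17) (nat_lit 4) (nat_lit 475) (nat_lit 427) (nat_lit 298))))))) (XT.nd (nat_lit 858) (nat_lit 380) (nat_lit 0) (XT.nd (nat_lit 390) (nat_lit 228) (nat_lit 0) (XT.nd (nat_lit 156) (nat_lit 76) (nat_lit 0) (XT.nd (nat_lit 78) (nat_lit 152) (nat_lit 0)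 (XT.lf (nat_lit 0) (nat_lit 226991503485) (nat_lit 76) (nat_lit 120177661042) (nat_lit 76) (nat_lit 12318616416) (nat_lit 16) (nat_lit 4) (nat_lit 17) (nat_lit 5) (nat_lit 17) (nat_lit 4) (nat_lit 476) (nat_lit 427) (nat_lit 297)) (XT.lf (nat_lit 0) (nat_lit 30079282885) (nat_lit 76) (nat_lit 36237394262) (nat_lit 152) (nat_lit 314993619362) (nat_lit 14) (nat_lit 5) (nat_lit 15) (nat_lit 5) (nat_lit 16) (nat_lit 4) (nat_lit 477) (nat_lit 427) (nat_lit 296))) (XT.nd (nat_lit 78) (nat_lit 76) (nat_lit 0) (XT.lf (nat_lit 0) (nat_lit 155602205347) (nat_lit 152) (nat_lit 193116740076) (nat_lit 0) (nat_lit 55732075901) (nat_lit 14) (nat_lit 5) (nat_lit 16) (nat_lit 4) (nat_lit 14) (nat_lit 4) (nat_lit 478) (nat_lit 427) (nat_lit 295)) (XT.nd (nat_lit 78) (nat_lit 76) (nat_lit 0) (XT.lf (nat_lit 0) (nat_lit 252971252416) (nat_lit 152) (nat_lit 23295661187) (nat_lit 0) (nat_lit 153100836432) (nat_lit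 14) (nat_lit 5) (nat_lit 16) (nat_lit 4) (nat_lit 14) (nat_lit 4) (nat_lit 479) (nat_lit 427) (nat_lit 294)) (XT.lf (nat_lit 0) (nat_lit 168541193475) (nat_lit 76) (nat_lit 193641536193) (nat_lit 76) (nat_lit 93770854896) (nat_lit 13) (nat_lit 4) (nat_lit 14) (nat_lit 5) (nat_lit 14) (nat_lit 4) (nat_lit 480) (nat_lit 427) (nat_lit 293))))) (XT.nd (nat_lit 234) (nat_lit 76) (nat_lit 0) (XT.nd (nat_lit 78) (nat_lit 152) (nat_lit 0) (XT.lf (nat_lit 0) (nat_lit 377048843687) (nat_lit 76) (nat_lit 103718726766) (nat_lit 76) (nat_lit 3847799808) (nat_lit 13) (nat_lit 4) (nat_lit 14) (nat_lit 5) (nat_lit 14) (nat_lit 4) (nat_lit 481) (nat_lit 427) (nat_lit 292)) (XT.nd (nat_lit 78) (nat_lit 0) (nat_lit 0) (XT.lf (nat_lit 0) (nat_lit 88868496295) (nat_lit 76) (nat_lit 1871720395) (nat_lit 152) (nat_lit 424479487016) (nat_lit 11) (nat_lit 5) (nat_lit 12) (nat_lit 5) (nat_lit 13) (nat_lit 4) (nat_lit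 482) (nat_lit 427) (nat_lit 291)) (XT.lf (nat_lit 0) (nat_lit 198304733254) (nat_lit 152) (nat_lit 243679020871) (nat_lit 0) (nat_lit 105831247110) (nat_lit 11) (nat_lit 5) (nat_lit 13) (nat_lit 4) (nat_lit 11) (nat_lit 4) (nat_lit 483) (nat_lit 427) (nat_lit 290)))) (XT.nd (nat_lit 78) (nat_lit 76) (nat_lit 0) (XT.lf (nat_lit 0) (nat_lit 314522589658) (nat_lit 152) (nat_lit 46442555706) (nat_lit 0) (nat_lit 222048922945) (nat_lit 11) (nat_lit 5) (nat_lit 13) (nat_lit 4) (nat_lit 11) (nat_lit 4) (nat_lit 484) (nat_lit 427) (nat_lit 289)) (XT.nd (nat_lit 78) (nat_lit 0) (nat_lit 0) (XT.lf (nat_lit 0) (nat_lit 175343398631) (nat_lit 76) (nat_lit 268911083712) (nat_lit 76) (nat_lit 176437249807) (nat_lit 10) (nat_lit 4) (nat_lit 11) (nat_lit 5) (nat_lit 11) (nat_lit 4) (nat_lit 485) (nat_lit 427) (nat_lit 288)) (XT.lf (nat_lit 0) (nat_lit 417512664257) (nat_lit 76) (nat_lit 168121689687) (nat_lit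 76) (nat_lit 75647700975) (nat_lit 10) (nat_lit 4) (nat_lit 11) (nat_lit 5) (nat_lit 11) (nat_lit 4) (nat_lit 486) (nat_lit 427) (nat_lit 287)))))) (XT.nd (nat_lit 468) (nat_lit 152) (nat_lit 0) (XT.nd (nat_lit 234) (nat_lit 76) (nat_lit 0) (XT.nd (nat_lit 78) (nat_lit 76) (nat_lit 0) (XT.lf (nat_lit 0) (nat_lit 31543588024) (nat_lit 152) (nat_lit 26863468963) (nat_lit 76) (nat_lit 646648690001) (nat_lit 9) (nat_lit 5) (nat_lit 11) (nat_lit 5) (nat_lit 10) (nat_lit 4) (nat_lit 487) (nat_lit 427) (nat_lit 286)) (XT.nd (nat_lit 78) (nat_lit 0) (nat_lit 0) (XT.lf (nat_lit 0) (nat_lit 150054786751) (nat_lit 152) (nat_lit 537142366357) (nat_lit 0) (nat_lit 64430467514) (nat_lit 8) (nat_lit 5) (nat_lit 10) (nat_lit 4) (nat_lit 8) (nat_lit 4) (nat_lit 488) (nat_lit 427) (nat_lit 285)) (XT.lf (nat_lit 0) (nat_lit 280317174626) (nat_lit 152) (nat_lit 326733704476) (nat_lit 0) (nat_lit 194692741601)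 (nat_lit 8) (nat_lit 5) (nat_lit 10) (nat_lit 4) (nat_lit 8) (nat_lit 4) (nat_lit 489) (nat_lit 427) (nat_lit 284)))) (XT.nd (nat_lit 78) (nat_lit 76) (nat_lit 0) (XT.lf (nat_lit 0) (nat_lit 421000233345) (nat_lit 152) (nat_lit 99492998114) (nat_lit 0) (nat_lit 335375694960) (nat_lit 8) (nat_lit 5) (nat_lit 10) (nat_lit 4) (nat_lit 8) (nat_lit 4) (nat_lit 490) (nat_lit 427) (nat_lit 283)) (XT.nd (nat_lit 78) (nat_lit 0) (nat_lit 0) (XT.lf (nat_lit 0) (nat_lit 153610588061) (nat_lit 76) (nat_lit 423021390568) (nat_lit 76) (nat_lit 337396754628) (nat_lit 7) (nat_lit 4) (nat_lit 8) (nat_lit 5) (nat_lit 8) (nat_lit 4) (nat_lit 491) (nat_lit 427) (nat_lit 282)) (XT.lf (nat_lit 0) (nat_lit 432620130859) (nat_lit 76) (nat_lit 314814158980) (nat_lit 76) (nat_lit 229189432711) (nat_lit 7) (nat_lit 4) (nat_lit 8) (nat_lit 5) (nat_lit 8) (nat_lit 4) (nat_lit 492) (nat_lit 427) (nat_lit 281))))) (XT.nd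 (nat_lit 234) (nat_lit 0) (nat_lit 0) (XT.nd (nat_lit 78) (nat_lit 152) (nat_lit 0) (XT.lf (nat_lit 0) (nat_lit 733949895196) (nat_lit 76) (nat_lit 197950623542) (nat_lit 76) (nat_lit 112325813636) (nat_lit 7) (nat_lit 4) (nat_lit 8) (nat_lit 5) (nat_lit 8) (nat_lit 4) (nat_lit 493) (nat_lit 427) (nat_lit 280)) (XT.nd (nat_lit 78) (nat_lit 76) (nat_lit 0) (XT.lf (nat_lit 0) (nat_lit 13191962387) (nat_lit 152) (nat_lit 58185605583) (nat_lit 76) (nat_lit 1045832884919) (nat_lit 6) (nat_lit 5) (nat_lit 8) (nat_lit 5) (nat_lit 7) (nat_lit 4) (nat_lit 494) (nat_lit 427) (nat_lit 279)) (XT.lf (nat_lit 0) (nat_lit 149813699838) (nat_lit 152) (nat_lit 974884384519) (nat_lit 0) (nat_lit 70531330342) (nat_lit 5) (nat_lit 5) (nat_lit 7) (nat_lit 4) (nat_lit 5) (nat_lit 4) (nat_lit 495) (nat_lit 427) (nat_lit 278)))) (XT.nd (nat_lit 78) (nat_lit 0) (nat_lit 0) (XT.lf (nat_lit 0) (nat_lit 300851124181)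 (nat_lit 152) (nat_lit 756791200241) (nat_lit 0) (nat_lit 221568693209) (nat_lit 5) (nat_lit 5) (nat_lit 7) (nat_lit 4) (nat_lit 5) (nat_lit 4) (nat_lit 496) (nat_lit 427) (nat_lit 277)) (XT.nd (nat_lit 78) (nat_lit 0) (nat_lit 0) (XT.lf (nat_lit 0) (nat_lit 463971325348) (nat_lit 152) (nat_lit 521251003373) (nat_lit 0) (nat_lit 384688837454) (nat_lit 5) (nat_lit 5) (nat_lit 7) (nat_lit 4) (nat_lit 5) (nat_lit 4) (nat_lit 497) (nat_lit 427) (nat_lit 276)) (XT.lf (nat_lit 0) (nat_lit 640140941568) (nat_lit 152) (nat_lit 266868000157) (nat_lit 0) (nat_lit 560858400968) (nat_lit 5) (nat_lit 5) (nat_lit 7) (nat_lit 4) (nat_lit 5) (nat_lit 4) (nat_lit 498) (nat_lit 427) (nat_lit 275))))))))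
noncomputable def xc163 : XT := (XT.nd (nat_lit 1716) (nat_lit 0) (nat_lit 0) (XT.nd (nat_lit 858) (nat_lit 76) (nat_lit 0) (XT.nd (nat_lit 390) (nat_lit 152) (nat_lit 0) (XT.nd (nat_lit 156) (nat_lit 0) (nat_lit 0) (XT.nd (nat_lit 78) (nat_lit 0) (nat_lit 0) (XT.lf (nat_lit 0) (nat_lit 8279435118) (nat_lit 76) (nat_lit 822323626432) (nat_lit 76) (nat_lit 743041037030) (nat_lit 4) (nat_lit 4) (nat_lit 5) (nat_lit 5) (nat_lit 5) (nat_lit 4) (nat_lit 499) (nat_lit 427) (nat_lit 274)) (XT.lf (nat_lit 0) (nat_lit 320615315372) (nat_lit 76) (nat_lit 722983298569) (nat_lit 76) (nat_lit 643700663980) (nat_lit 4) (nat_lit 4) (nat_lit 5) (nat_lit 5) (nat_lit 5) (nat_lit 4) (nat_lit 500) (nat_lit 427) (nat_lit 273))) (XT.nd (nat_lit 78) (nat_lit 0) (nat_lit 0) (XT.lf (nat_lit 0) (nat_lit 657937723937) (nat_lit 76) (nat_lit 615695918766) (nat_lit 76) (nat_lit 536413242338) (nat_lit 4) (nat_lit 4)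 (nat_lit 5) (nat_lit 5) (nat_lit 5) (nat_lit 4) (nat_lit 501) (nat_lit 427) (nat_lit 272)) (XT.nd (nat_lit 78) (nat_lit 0) (nat_lit 0) (XT.lf (nat_lit 0) (nat_lit 1022245608419) (nat_lit 76) (nat_lit 499825709958) (nat_lit 76) (nat_lit 420542994789) (nat_lit 4) (nat_lit 4) (nat_lit 5) (nat_lit 5) (nat_lit 5) (nat_lit 4) (nat_lit 502) (nat_lit 427) (nat_lit 271)) (XT.lf (nat_lit 0) (nat_lit 1415697830357) (nat_lit 76) (nat_lit 374686033870) (nat_lit 76) (nat_lit 295403282830) (nat_lit 4) (nat_lit 4) (nat_lit 5) (nat_lit 5) (nat_lit 5) (nat_lit 4) (nat_lit 503) (nat_lit 427) (nat_lit 270))))) (XT.nd (nat_lit 234) (nat_lit 0) (nat_lit 0) (XT.nd (nat_lit 78) (nat_lit 152) (nat_lit 0) (XT.lf (nat_lit 0) (nat_lit 1840625958473) (nat_lit 76) (nat_lit 239535322051) (nat_lit 76) (nat_lit 160252537797) (nat_lit 4) (nat_lit 4) (nat_lit 5) (nat_lit 5) (nat_lit 5) (nat_lit 4) (nat_lit 504) (nat_lit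 427) (nat_lit 269)) (XT.nd (nat_lit 78) (nat_lit 152) (nat_lit 0) (XT.lf (nat_lit 0) (nat_lit 2299548085377) (nat_lit 76) (nat_lit 93572681394) (nat_lit 76) (nat_lit 14289866387) (nat_lit 4) (nat_lit 4) (nat_lit 5) (nat_lit 5) (nat_lit 5) (nat_lit 4) (nat_lit 505) (nat_lit 427) (nat_lit 268)) (XT.lf (nat_lit 0) (nat_lit 143107015161) (nat_lit 152) (nat_lit 2374133147003) (nat_lit 0) (nat_lit 69696974899) (nat_lit 2) (nat_lit 5) (nat_lit 4) (nat_lit 4) (nat_lit 2) (nat_lit 4) (nat_lit 506) (nat_lit 427) (nat_lit 267)))) (XT.nd (nat_lit 78) (nat_lit 0) (nat_lit 0) (XT.lf (nat_lit 0) (nat_lit 317779720162) (nat_lit 152) (nat_lit 2218210204658) (nat_lit 0) (nat_lit 244369655487) (nat_lit 2) (nat_lit 5) (nat_lit 4) (nat_lit 4) (nat_lit 2) (nat_lit 4) (nat_lit 507) (nat_lit 427) (nat_lit 266)) (XT.nd (nat_lit 78) (nat_lit 0) (nat_lit 0) (XT.lf (nat_lit 0) (nat_lit 506426133261) (nat_lit 152)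 (nat_lit 2049813648436) (nat_lit 0) (nat_lit 433016045981) (nat_lit 2) (nat_lit 5) (nat_lit 4) (nat_lit 4) (nat_lit 2) (nat_lit 4) (nat_lit 508) (nat_lit 427) (nat_lit 265)) (XT.lf (nat_lit 0) (nat_lit 710164159127) (nat_lit 152) (nat_lit 1867945572818) (nat_lit 0) (nat_lit 636754050917) (nat_lit 2) (nat_lit 5) (nat_lit 4) (nat_lit 4) (nat_lit 2) (nat_lit 4) (nat_lit 509) (nat_lit 427) (nat_lit 264)))))) (XT.nd (nat_lit 390) (nat_lit 76) (nat_lit 0) (XT.nd (nat_lit 156) (nat_lit 0) (nat_lit 0) (XT.nd (nat_lit 78) (nat_lit 0) (nat_lit 0) (XT.lf (nat_lit 0) (nat_lit 930201134212) (nat_lit 152) (nat_lit 1671528241059) (nat_lit 0) (nat_lit 856791006622) (nat_lit 2) (nat_lit 5) (nat_lit 4) (nat_lit 4) (nat_lit 2) (nat_lit 4) (nat_lit 510) (nat_lit 427) (nat_lit 263)) (XT.lf (nat_lit 0) (nat_lit 1167840981329) (nat_lit 152) (nat_lit 1459397698601) (nat_lit 0) (nat_lit 1094430835795) (nat_lit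 2) (nat_lit 5) (nat_lit 4) (nat_lit 4) (nat_lit 2) (nat_lit 4) (nat_lit 511) (nat_lit 427) (nat_lit 262))) (XT.nd (nat_lit 78) (nat_lit 0) (nat_lit 0) (XT.lf (nat_lit 0) (nat_lit 1424491936610) (nat_lit 152) (nat_lit 1230296875564) (nat_lit 0) (nat_lit 1351081774461) (nat_lit 2) (nat_lit 5) (nat_lit 4) (nat_lit 4) (nat_lit 2) (nat_lit 4) (nat_lit 512) (nat_lit 427) (nat_lit 261)) (XT.nd (nat_lit 78) (nat_lit 0) (nat_lit 0) (XT.lf (nat_lit 0) (nat_lit 1701674894606) (nat_lit 152) (nat_lit 982868137439) (nat_lit 0) (nat_lit 1628264717072) (nat_lit 2) (nat_lit 5) (nat_lit 4) (nat_lit 4) (nat_lit 2) (nat_lit 4) (nat_lit 513) (nat_lit 427) (nat_lit 260)) (XT.lf (nat_lit 0) (nat_lit 2001032420992) (nat_lit 152) (nat_lit 715645239854) (nat_lit 0) (nat_lit 1927622229214) (nat_lit 2) (nat_lit 5) (nat_lit 4) (nat_lit 4) (nat_lit 2) (nat_lit 4) (nat_lit 514) (nat_lit 427) (nat_lit 259))))) (XT.nd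 (nat_lit 234) (nat_lit 0) (nat_lit 0) (XT.nd (nat_lit 78) (nat_lit 76) (nat_lit 0) (XT.lf (nat_lit 0) (nat_lit 2324338486296) (nat_lit 152) (nat_lit 427044639710) (nat_lit 0) (nat_lit 2250928281328) (nat_lit 2) (nat_lit 5) (nat_lit 4) (nat_lit 4) (nat_lit 2) (nat_lit 4) (nat_lit 515) (nat_lit 427) (nat_lit 258)) (XT.nd (nat_lit 78) (nat_lit 76) (nat_lit 0) (XT.lf (nat_lit 0) (nat_lit 2673508978312) (nat_lit 152) (nat_lit 115356111230) (nat_lit 0) (nat_lit 2600098761131) (nat_lit 2) (nat_lit 5) (nat_lit 4) (nat_lit 4) (nat_lit 2) (nat_lit 4) (nat_lit 516) (nat_lit 427) (nat_lit 257)) (XT.lf (nat_lit 0) (nat_lit 232918937287) (nat_lit 76) (nat_lit 2823295824267) (nat_lit 76) (nat_lit 2749885595778) (nat_lit 1) (nat_lit 4) (nat_lit 2) (nat_lit 5) (nat_lit 2) (nat_lit 4) (nat_lit 517) (nat_lit 427) (nat_lit 256)))) (XT.nd (nat_lit 78) (nat_lit 0) (nat_lit 0) (XT.lf (nat_lit 0) (nat_lit 615616285943)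 (nat_lit 76) (nat_lit 2857074709261) (nat_lit 76) (nat_lit 2783664470302) (nat_lit 1) (nat_lit 4) (nat_lit 2) (nat_lit 5) (nat_lit 2) (nat_lit 4) (nat_lit 518) (nat_lit 427) (nat_lit 255)) (XT.nd (nat_lit 78) (nat_lit 0) (nat_lit 0) (XT.lf (nat_lit 0) (nat_lit 1028929322486) (nat_lit 76) (nat_lit 2893555956205) (nat_lit 76) (nat_lit 2820145707551) (nat_lit 1) (nat_lit 4) (nat_lit 2) (nat_lit 5) (nat_lit 2) (nat_lit 4) (nat_lit 519) (nat_lit 427) (nat_lit 254)) (XT.lf (nat_lit 0) (nat_lit 1475307309356) (nat_lit 76) (nat_lit 2932955750267) (nat_lit 76) (nat_lit 2859545492636) (nat_lit 1) (nat_lit 4) (nat_lit 2) (nat_lit 5) (nat_lit 2) (nat_lit 4) (nat_lit 520) (nat_lit 427) (nat_lit 253))))))) (XT.nd (nat_lit 55692) (nat_lit 0) (nat_lit 3344) (XT.nd (nat_lit 55224) (nat_lit 0) (nat_lit 4712) (XT.nd (nat_lit 156) (nat_lit 0) (nat_lit 0) (XT.nd (nat_lit 78) (nat_lit 0) (nat_lit 0) (XT.lf (nat_lit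 0) (nat_lit 1957395449437) (nat_lit 76) (nat_lit 2975507571706) (nat_lit 76) (nat_lit 2902097305764) (nat_lit 1) (nat_lit 4) (nat_lit 2) (nat_lit 5) (nat_lit 2) (nat_lit 4) (nat_lit 521) (nat_lit 427) (nat_lit 252)) (XT.lf (nat_lit 0) (nat_lit 2478050561339) (nat_lit 76) (nat_lit 3021463579466) (nat_lit 76) (nat_lit 2948053305827) (nat_lit 1) (nat_lit 4) (nat_lit 2) (nat_lit 5) (nat_lit 2) (nat_lit 4) (nat_lit 522) (nat_lit 427) (nat_lit 251))) (XT.nd (nat_lit 78) (nat_lit 0) (nat_lit 0) (XT.lf (nat_lit 0) (nat_lit 3040358008686) (nat_lit 76) (nat_lit 3071096105443) (nat_lit 76) (nat_lit 2997685824679) (nat_lit 1) (nat_lit 4) (nat_lit 2) (nat_lit 5) (nat_lit 2) (nat_lit 4) (nat_lit 523) (nat_lit 427) (nat_lit 250)) (XT.nd (nat_lit 78) (nat_lit 0) (nat_lit 0) (XT.lf (nat_lit 0) (nat_lit 3647649983759) (nat_lit 76) (nat_lit 3124699268311) (nat_lit 76) (nat_lit 3051288980948) (nat_lit 1) (nat_lit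 4) (nat_lit 2) (nat_lit 5) (nat_lit 2) (nat_lit 4) (nat_lit 524) (nat_lit 427) (nat_lit 249)) (XT.lf (nat_lit 0) (nat_lit 4303525253819) (nat_lit 76) (nat_lit 3182590716441) (nat_lit 76) (nat_lit 3109180422970) (nat_lit 1) (nat_lit 4) (nat_lit 2) (nat_lit 5) (nat_lit 2) (nat_lit 4) (nat_lit 525) (nat_lit 427) (nat_lit 248))))) (XT.nd (nat_lit 234) (nat_lit 456) (nat_lit 0) (XT.nd (nat_lit 78) (nat_lit 0) (nat_lit 0) (XT.lf (nat_lit 0) (nat_lit 15855483898) (nat_lit 532) (nat_lit 847483190) (nat_lit 532) (nat_lit 847483190) (nat_lit 69) (nat_lit 3) (nat_lit 76) (nat_lit 3) (nat_lit 76) (nat_lit 5) (nat_lit 428) (nat_lit 428) (nat_lit 344)) (XT.nd (nat_lit 78) (nat_lit 0) (nat_lit 76) (XT.lf (nat_lit 76) (nat_lit 16321755716) (nat_lit 0) (nat_lit 17100135555) (nat_lit 532) (nat_lit 3047612925) (nat_lit 70) (nat_lit 5) (nat_lit 69) (nat_lit 3) (nat_lit 76) (nat_lit 5) (nat_lit 429) (nat_lit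 428) (nat_lit 343)) (XT.lf (nat_lit 0) (nat_lit 35324492393) (nat_lit 456) (nat_lit 2084455434) (nat_lit 532) (nat_lit 534267361) (nat_lit 70) (nat_lit 5) (nat_lit 76) (nat_lit 5) (nat_lit 77) (nat_lit 5) (nat_lit 430) (nat_lit 428) (nat_lit 342)))) (XT.nd (nat_lit 78) (nat_lit 532) (nat_lit 0) (XT.lf (nat_lit 76) (nat_lit 17870644142) (nat_lit 0) (nat_lit 20377965593) (nat_lit 532) (nat_lit 1216671786) (nat_lit 71) (nat_lit 5) (nat_lit 70) (nat_lit 5) (nat_lit 77) (nat_lit 5) (nat_lit 431) (nat_lit 428) (nat_lit 341)) (XT.nd (nat_lit 78) (nat_lit 0) (nat_lit 76) (XT.lf (nat_lit 0) (nat_lit 336647188) (nat_lit 532) (nat_lit 1575714406) (nat_lit 608) (nat_lit 39191862705) (nat_lit 63) (nat_lit 5) (nat_lit 70) (nat_lit 5) (nat_lit 71) (nat_lit 5) (nat_lit 432) (nat_lit 428) (nat_lit 340)) (XT.lf (nat_lit 0) (nat_lit 2898573739) (nat_lit 532) (nat_lit 22215366326) (nat_lit 608) (nat_lit 17681810841)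 (nat_lit 64) (nat_lit 5) (nat_lit 71) (nat_lit 5) (nat_lit 72) (nat_lit 5) (nat_lit 433) (nat_lit 428) (nat_lit 339)))))) (XT.nd (nat_lit 468) (nat_lit 836) (nat_lit 0) (XT.nd (nat_lit 234) (nat_lit 228) (nat_lit 0) (XT.nd (nat_lit 78) (nat_lit 380) (nat_lit 0) (XT.lf (nat_lit 0) (nat_lit 5755437319) (nat_lit 532) (nat_lit 74606577) (nat_lit 608) (nat_lit 38785359400) (nat_lit 64) (nat_lit 5) (nat_lit 71) (nat_lit 5) (nat_lit 72) (nat_lit 5) (nat_lit 434) (nat_lit 428) (nat_lit 338)) (XT.nd (nat_lit 78) (nat_lit 456) (nat_lit 0) (XT.lf (nat_lit 0) (nat_lit 9817005097) (nat_lit 532) (nat_lit 21819515286) (nat_lit 76) (nat_lit 14866017205) (nat_lit 65) (nat_lit 5) (nat_lit 72) (nat_lit 5) (nat_lit 66) (nat_lit 5) (nat_lit 435) (nat_lit 428) (nat_lit 337)) (XT.lf (nat_lit 0) (nat_lit 2874100588) (nat_lit 456) (nat_lit 11548647819) (nat_lit 532) (nat_lit 34100356168) (nat_lit 59) (nat_lit 5)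 (nat_lit 65) (nat_lit 5) (nat_lit 66) (nat_lit 5) (nat_lit 436) (nat_lit 428) (nat_lit 336)))) (XT.nd (nat_lit 78) (nat_lit 228) (nat_lit 0) (XT.lf (nat_lit 0) (nat_lit 20249832205) (nat_lit 532) (nat_lit 20136398426) (nat_lit 76) (nat_lit 10250857626) (nat_lit 59) (nat_lit 5) (nat_lit 66) (nat_lit 5) (nat_lit 60) (nat_lit 5) (nat_lit 437) (nat_lit 428) (nat_lit 335)) (XT.nd (nat_lit 78) (nat_lit 0) (nat_lit 0) (XT.lf (nat_lit 0) (nat_lit 7488722699) (nat_lit 228) (nat_lit 19531450555) (nat_lit 304) (nat_lit 25861851818) (nat_lit 56) (nat_lit 5) (nat_lit 59) (nat_lit 5) (nat_lit 60) (nat_lit 5) (nat_lit 438) (nat_lit 428) (nat_lit 334)) (XT.lf (nat_lit 0) (nat_lit 34966120542) (nat_lit 304) (nat_lit 16883021537) (nat_lit 76) (nat_lit 3406697992) (nat_lit 56) (nat_lit 5) (nat_lit 60) (nat_lit 5) (nat_lit 57) (nat_lit 5) (nat_lit 439) (nat_lit 428) (nat_lit 333))))) (XT.nd (nat_lit 234) (nat_lit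 380) (nat_lit 0) (XT.nd (nat_lit 78) (nat_lit 228) (nat_lit 0) (XT.lf (nat_lit 0) (nat_lit 14103228352) (nat_lit 228) (nat_lit 30288381802) (nat_lit 304) (nat_lit 13360442236) (nat_lit 53) (nat_lit 5) (nat_lit 56) (nat_lit 5) (nat_lit 57) (nat_lit 5) (nat_lit 440) (nat_lit 428) (nat_lit 332)) (XT.nd (nat_lit 78) (nat_lit 228) (nat_lit 0) (XT.lf (nat_lit 0) (nat_lit 48525564070) (nat_lit 228) (nat_lit 6504682983) (nat_lit 304) (nat_lit 5380987325) (nat_lit 53) (nat_lit 5) (nat_lit 56) (nat_lit 5) (nat_lit 57) (nat_lit 5) (nat_lit 441) (nat_lit 428) (nat_lit 331)) (XT.lf (nat_lit 0) (nat_lit 4116059146) (nat_lit 228) (nat_lit 40195806426) (nat_lit 76) (nat_lit 18881766507) (nat_lit 50) (nat_lit 5) (nat_lit 53) (nat_lit 5) (nat_lit 51) (nat_lit 5) (nat_lit 442) (nat_lit 428) (nat_lit 330)))) (XT.nd (nat_lit 78) (nat_lit 380) (nat_lit 0) (XT.lf (nat_lit 0) (nat_lit 14582241887) (nat_lit 228)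 (nat_lit 5144803789) (nat_lit 76) (nat_lit 46420388856) (nat_lit 50) (nat_lit 5) (nat_lit 53) (nat_lit 5) (nat_lit 51) (nat_lit 5) (nat_lit 443) (nat_lit 428) (nat_lit 329)) (XT.nd (nat_lit 78) (nat_lit 152) (nat_lit 0) (XT.lf (nat_lit 0) (nat_lit 26897266736) (nat_lit 304) (nat_lit 35027242126) (nat_lit 76) (nat_lit 7332109501) (nat_lit 47) (nat_lit 5) (nat_lit 51) (nat_lit 5) (nat_lit 48) (nat_lit 5) (nat_lit 444) (nat_lit 428) (nat_lit 328)) (XT.lf (nat_lit 0) (nat_lit 4130551510) (nat_lit 152) (nat_lit 36820956548) (nat_lit 228) (nat_lit 31602708594) (nat_lit 45) (nat_lit 5) (nat_lit 47) (nat_lit 5) (nat_lit 48) (nat_lit 5) (nat_lit 445) (nat_lit 428) (nat_lit 327))))))))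
noncomputable def xc164 : XT := (XT.nd (nat_lit 1716) (nat_lit 1140) (nat_lit 0) (XT.nd (nat_lit 858) (nat_lit 760) (nat_lit 0) (XT.nd (nat_lit 390) (nat_lit 532) (nat_lit 0) (XT.nd (nat_lit 156) (nat_lit 228) (nat_lit 0) (XT.nd (nat_lit 78) (nat_lit 152) (nat_lit 0) (XT.lf (nat_lit 0) (nat_lit 48410242869) (nat_lit 152) (nat_lit 8675599422) (nat_lit 228) (nat_lit 18953321064) (nat_lit 45) (nat_lit 5) (nat_lit 47) (nat_lit 5) (nat_lit 48) (nat_lit 5) (nat_lit 446) (nat_lit 428) (nat_lit 326)) (XT.lf (nat_lit 0) (nat_lit 16741817915) (nat_lit 152) (nat_lit 58692319876) (nat_lit 228) (nat_lit 4294911620) (nat_lit 43) (nat_lit 5) (nat_lit 45) (nat_lit 5) (nat_lit 46) (nat_lit 5) (nat_lit 447) (nat_lit 428) (nat_lit 325))) (XT.nd (nat_lit 78) (nat_lit 152) (nat_lit 0) (XT.lf (nat_lit 0) (nat_lit 11957669671) (nat_lit 228) (nat_lit 17945309830) (nat_lit 76) (nat_lit 53709065099) (nat_lit 42)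 (nat_lit 5) (nat_lit 45) (nat_lit 5) (nat_lit 43) (nat_lit 5) (nat_lit 448) (nat_lit 428) (nat_lit 324)) (XT.nd (nat_lit 78) (nat_lit 0) (nat_lit 0) (XT.lf (nat_lit 0) (nat_lit 30102677914) (nat_lit 228) (nat_lit 55590037933) (nat_lit 76) (nat_lit 2038099106) (nat_lit 40) (nat_lit 5) (nat_lit 43) (nat_lit 5) (nat_lit 41) (nat_lit 5) (nat_lit 449) (nat_lit 428) (nat_lit 323)) (XT.lf (nat_lit 0) (nat_lit 50977766101) (nat_lit 228) (nat_lit 5677514672) (nat_lit 76) (nat_lit 35421528390) (nat_lit 40) (nat_lit 5) (nat_lit 43) (nat_lit 5) (nat_lit 41) (nat_lit 5) (nat_lit 450) (nat_lit 428) (nat_lit 322))))) (XT.nd (nat_lit 234) (nat_lit 228) (nat_lit 0) (XT.nd (nat_lit 78) (nat_lit 152) (nat_lit 0) (XT.lf (nat_lit 0) (nat_lit 50765124948) (nat_lit 152) (nat_lit 23977136666) (nat_lit 228) (nat_lit 21930669805) (nat_lit 38) (nat_lit 5) (nat_lit 40) (nat_lit 5) (nat_lit 41) (nat_lit 5) (nat_lit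 451) (nat_lit 428) (nat_lit 321)) (XT.nd (nat_lit 78) (nat_lit 76) (nat_lit 0) (XT.lf (nat_lit 0) (nat_lit 10677295062) (nat_lit 76) (nat_lit 90417341594) (nat_lit 152) (nat_lit 487169699) (nat_lit 37) (nat_lit 5) (nat_lit 38) (nat_lit 5) (nat_lit 39) (nat_lit 4) (nat_lit 452) (nat_lit 428) (nat_lit 320)) (XT.lf (nat_lit 0) (nat_lit 23446809163) (nat_lit 152) (nat_lit 33586010422) (nat_lit 76) (nat_lit 49654220754) (nat_lit 36) (nat_lit 5) (nat_lit 38) (nat_lit 5) (nat_lit 37) (nat_lit 5) (nat_lit 453) (nat_lit 428) (nat_lit 319)))) (XT.nd (nat_lit 78) (nat_lit 76) (nat_lit 0) (XT.lf (nat_lit 0) (nat_lit 29793471134) (nat_lit 152) (nat_lit 20190904964) (nat_lit 228) (nat_lit 62158089865) (nat_lit 34) (nat_lit 5) (nat_lit 36) (nat_lit 5) (nat_lit 37) (nat_lit 5) (nat_lit 454) (nat_lit 428) (nat_lit 318)) (XT.nd (nat_lit 78) (nat_lit 76) (nat_lit 0) (XT.lf (nat_lit 0) (nat_lit 80057124329)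 (nat_lit 228) (nat_lit 18304939257) (nat_lit 76) (nat_lit 19559288336) (nat_lit 34) (nat_lit 5) (nat_lit 37) (nat_lit 5) (nat_lit 35) (nat_lit 4) (nat_lit 455) (nat_lit 428) (nat_lit 317)) (XT.lf (nat_lit 0) (nat_lit 52986717410) (nat_lit 76) (nat_lit 61346525392) (nat_lit 152) (nat_lit 9685502259) (nat_lit 33) (nat_lit 5) (nat_lit 34) (nat_lit 5) (nat_lit 35) (nat_lit 4) (nat_lit 456) (nat_lit 428) (nat_lit 316)))))) (XT.nd (nat_lit 390) (nat_lit 304) (nat_lit 0) (XT.nd (nat_lit 156) (nat_lit 228) (nat_lit 0) (XT.nd (nat_lit 78) (nat_lit 152) (nat_lit 0) (XT.lf (nat_lit 0) (nat_lit 20221925130) (nat_lit 152) (nat_lit 55249324) (nat_lit 76) (nat_lit 110245854890) (nat_lit 32) (nat_lit 5) (nat_lit 34) (nat_lit 5) (nat_lit 33) (nat_lit 5) (nat_lit 457) (nat_lit 428) (nat_lit 315)) (XT.lf (nat_lit 0) (nat_lit 54566158647) (nat_lit 228) (nat_lit 57642379370) (nat_lit 76) (nat_lit 25113594447)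 (nat_lit 30) (nat_lit 5) (nat_lit 33) (nat_lit 5) (nat_lit 31) (nat_lit 4) (nat_lit 458) (nat_lit 428) (nat_lit 314))) (XT.nd (nat_lit 78) (nat_lit 152) (nat_lit 0) (XT.lf (nat_lit 0) (nat_lit 21687884117) (nat_lit 76) (nat_lit 71018767721) (nat_lit 152) (nat_lit 51874614561) (nat_lit 29) (nat_lit 5) (nat_lit 30) (nat_lit 5) (nat_lit 31) (nat_lit 4) (nat_lit 459) (nat_lit 428) (nat_lit 313)) (XT.nd (nat_lit 78) (nat_lit 152) (nat_lit 0) (XT.lf (nat_lit 0) (nat_lit 110640824293) (nat_lit 76) (nat_lit 24832537723) (nat_lit 152) (nat_lit 16821771060) (nat_lit 29) (nat_lit 5) (nat_lit 30) (nat_lit 5) (nat_lit 31) (nat_lit 4) (nat_lit 460) (nat_lit 428) (nat_lit 312)) (XT.lf (nat_lit 0) (nat_lit 21781351209) (nat_lit 152) (nat_lit 113162799763) (nat_lit 76) (nat_lit 25497620576) (nat_lit 27) (nat_lit 5) (nat_lit 29) (nat_lit 5) (nat_lit 28) (nat_lit 4) (nat_lit 461) (nat_lit 428) (nat_lit 311)))))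 (XT.nd (nat_lit 234) (nat_lit 228) (nat_lit 0) (XT.nd (nat_lit 78) (nat_lit 76) (nat_lit 0) (XT.lf (nat_lit 0) (nat_lit 64376395071) (nat_lit 152) (nat_lit 24566550916) (nat_lit 76) (nat_lit 80117242211) (nat_lit 27) (nat_lit 5) (nat_lit 29) (nat_lit 5) (nat_lit 28) (nat_lit 4) (nat_lit 462) (nat_lit 428) (nat_lit 310)) (XT.nd (nat_lit 78) (nat_lit 0) (nat_lit 0) (XT.lf (nat_lit 0) (nat_lit 74860518327) (nat_lit 76) (nat_lit 37317994430) (nat_lit 152) (nat_lit 66045607967) (nat_lit 26) (nat_lit 5) (nat_lit 27) (nat_lit 5) (nat_lit 28) (nat_lit 4) (nat_lit 463) (nat_lit 428) (nat_lit 309)) (XT.lf (nat_lit 0) (nat_lit 164936431980) (nat_lit 152) (nat_lit 4891129794) (nat_lit 0) (nat_lit 18203075662) (nat_lit 26) (nat_lit 5) (nat_lit 28) (nat_lit 4) (nat_lit 26) (nat_lit 4) (nat_lit 464) (nat_lit 428) (nat_lit 308)))) (XT.nd (nat_lit 78) (nat_lit 76) (nat_lit 0) (XT.lf (nat_lit 0) (nat_lit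 25731772282) (nat_lit 152) (nat_lit 93212330169) (nat_lit 76) (nat_lit 79344461700) (nat_lit 24) (nat_lit 5) (nat_lit 26) (nat_lit 5) (nat_lit 25) (nat_lit 4) (nat_lit 465) (nat_lit 428) (nat_lit 307)) (XT.nd (nat_lit 78) (nat_lit 0) (nat_lit 0) (XT.lf (nat_lit 0) (nat_lit 14903331764) (nat_lit 76) (nat_lit 62807596093) (nat_lit 152) (nat_lit 131568626383) (nat_lit 23) (nat_lit 5) (nat_lit 24) (nat_lit 5) (nat_lit 25) (nat_lit 4) (nat_lit 466) (nat_lit 428) (nat_lit 306)) (XT.lf (nat_lit 0) (nat_lit 136409933123) (nat_lit 152) (nat_lit 83991987070) (nat_lit 0) (nat_lit 542982078) (nat_lit 23) (nat_lit 5) (nat_lit 25) (nat_lit 4) (nat_lit 23) (nat_lit 4) (nat_lit 467) (nat_lit 428) (nat_lit 305))))))) (XT.nd (nat_lit 858) (nat_lit 456) (nat_lit 0) (XT.nd (nat_lit 390) (nat_lit 380) (nat_lit 0) (XT.nd (nat_lit 156) (nat_lit 152) (nat_lit 0) (XT.nd (nat_lit 78) (nat_lit 76) (nat_lit 0) (XT.lf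 (nat_lit 0) (nat_lit 35358935615) (nat_lit 76) (nat_lit 166926897506) (nat_lit 76) (nat_lit 31059167184) (nat_lit 22) (nat_lit 4) (nat_lit 23) (nat_lit 5) (nat_lit 23) (nat_lit 4) (nat_lit 468) (nat_lit 428) (nat_lit 304)) (XT.lf (nat_lit 0) (nat_lit 27714688791) (nat_lit 152) (nat_lit 78221899188) (nat_lit 76) (nat_lit 140560728298) (nat_lit 21) (nat_lit 5) (nat_lit 23) (nat_lit 5) (nat_lit 22) (nat_lit 4) (nat_lit 469) (nat_lit 428) (nat_lit 303))) (XT.nd (nat_lit 78) (nat_lit 76) (nat_lit 0) (XT.lf (nat_lit 0) (nat_lit 52964806325) (nat_lit 76) (nat_lit 37820735167) (nat_lit 152) (nat_lit 169749890387) (nat_lit 20) (nat_lit 5) (nat_lit 21) (nat_lit 5) (nat_lit 22) (nat_lit 4) (nat_lit 470) (nat_lit 428) (nat_lit 302)) (XT.nd (nat_lit 78) (nat_lit 76) (nat_lit 0) (XT.lf (nat_lit 0) (nat_lit 161955282691) (nat_lit 152) (nat_lit 77347087315) (nat_lit 0) (nat_lit 36149969178) (nat_lit 20)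 (nat_lit 5) (nat_lit 22) (nat_lit 4) (nat_lit 20) (nat_lit 4) (nat_lit 471) (nat_lit 428) (nat_lit 301)) (XT.lf (nat_lit 0) (nat_lit 65591869517) (nat_lit 76) (nat_lit 175785919325) (nat_lit 76) (nat_lit 49980075449) (nat_lit 19) (nat_lit 4) (nat_lit 20) (nat_lit 5) (nat_lit 20) (nat_lit 4) (nat_lit 472) (nat_lit 428) (nat_lit 300))))) (XT.nd (nat_lit 234) (nat_lit 228) (nat_lit 0) (XT.nd (nat_lit 78) (nat_lit 76) (nat_lit 0) (XT.lf (nat_lit 0) (nat_lit 19855984497) (nat_lit 152) (nat_lit 84505887197) (nat_lit 76) (nat_lit 203964611689) (nat_lit 18) (nat_lit 5) (nat_lit 20) (nat_lit 5) (nat_lit 19) (nat_lit 4) (nat_lit 473) (nat_lit 428) (nat_lit 299)) (XT.nd (nat_lit 78) (nat_lit 0) (nat_lit 0) (XT.lf (nat_lit 0) (nat_lit 70270893946) (nat_lit 76) (nat_lit 23997223168) (nat_lit 152) (nat_lit 232145467432) (nat_lit 17) (nat_lit 5) (nat_lit 18) (nat_lit 5) (nat_lit 19) (nat_lit 4) (nat_lit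 474) (nat_lit 428) (nat_lit 298)) (XT.lf (nat_lit 0) (nat_lit 178513431720) (nat_lit 152) (nat_lit 105098531533) (nat_lit 0) (nat_lit 62025273691) (nat_lit 17) (nat_lit 5) (nat_lit 19) (nat_lit 4) (nat_lit 17) (nat_lit 4) (nat_lit 475) (nat_lit 428) (nat_lit 297)))) (XT.nd (nat_lit 78) (nat_lit 152) (nat_lit 0) (XT.lf (nat_lit 0) (nat_lit 60427586975) (nat_lit 76) (nat_lit 211146815555) (nat_lit 76) (nat_lit 94658296569) (nat_lit 16) (nat_lit 4) (nat_lit 17) (nat_lit 5) (nat_lit 17) (nat_lit 4) (nat_lit 476) (nat_lit 428) (nat_lit 296)) (XT.nd (nat_lit 78) (nat_lit 152) (nat_lit 0) (XT.lf (nat_lit 0) (nat_lit 245171768042) (nat_lit 76) (nat_lit 129781520226) (nat_lit 76) (nat_lit 13292667023) (nat_lit 16) (nat_lit 4) (nat_lit 17) (nat_lit 5) (nat_lit 17) (nat_lit 4) (nat_lit 477) (nat_lit 428) (nat_lit 295)) (XT.lf (nat_lit 0) (nat_lit 32506598078) (nat_lit 76) (nat_lit 39125979202) (nat_lit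 152) (nat_lit 340181696918) (nat_lit 14) (nat_lit 5) (nat_lit 15) (nat_lit 5) (nat_lit 16) (nat_lit 4) (nat_lit 478) (nat_lit 428) (nat_lit 294)))))) (XT.nd (nat_lit 468) (nat_lit 228) (nat_lit 0) (XT.nd (nat_lit 234) (nat_lit 152) (nat_lit 0) (XT.nd (nat_lit 78) (nat_lit 76) (nat_lit 0) (XT.lf (nat_lit 0) (nat_lit 168060396812) (nat_lit 152) (nat_lit 208546108620) (nat_lit 0) (nat_lit 60199795697) (nat_lit 14) (nat_lit 5) (nat_lit 16) (nat_lit 4) (nat_lit 14) (nat_lit 4) (nat_lit 479) (nat_lit 428) (nat_lit 293)) (XT.nd (nat_lit 78) (nat_lit 76) (nat_lit 0) (XT.lf (nat_lit 0) (nat_lit 273218225792) (nat_lit 152) (nat_lit 25140822727) (nat_lit 0) (nat_lit 165357379017) (nat_lit 14) (nat_lit 5) (nat_lit 16) (nat_lit 4) (nat_lit 14) (nat_lit 4) (nat_lit 480) (nat_lit 428) (nat_lit 292)) (XT.lf (nat_lit 0) (nat_lit 182042512172) (nat_lit 76) (nat_lit 209123855609) (nat_lit 76) (nat_lit 101262781370)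 (nat_lit 13) (nat_lit 4) (nat_lit 14) (nat_lit 5) (nat_lit 14) (nat_lit 4) (nat_lit 481) (nat_lit 428) (nat_lit 291)))) (XT.nd (nat_lit 78) (nat_lit 152) (nat_lit 0) (XT.lf (nat_lit 0) (nat_lit 407229439348) (nat_lit 76) (nat_lit 112007888352) (nat_lit 76) (nat_lit 4146603498) (nat_lit 13) (nat_lit 4) (nat_lit 14) (nat_lit 5) (nat_lit 14) (nat_lit 4) (nat_lit 482) (nat_lit 428) (nat_lit 290)) (XT.nd (nat_lit 78) (nat_lit 0) (nat_lit 0) (XT.lf (nat_lit 0) (nat_lit 95994681989) (nat_lit 76) (nat_lit 2013088133) (nat_lit 152) (nat_lit 458428842517) (nat_lit 11) (nat_lit 5) (nat_lit 12) (nat_lit 5) (nat_lit 13) (nat_lit 4) (nat_lit 483) (nat_lit 428) (nat_lit 289)) (XT.lf (nat_lit 0) (nat_lit 214177016908) (nat_lit 152) (nat_lit 263157442488) (nat_lit 0) (nat_lit 114305109098) (nat_lit 11) (nat_lit 5) (nat_lit 13) (nat_lit 4) (nat_lit 11) (nat_lit 4) (nat_lit 484) (nat_lit 428) (nat_lit 288)))))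 (XT.nd (nat_lit 234) (nat_lit 152) (nat_lit 0) (XT.nd (nat_lit 78) (nat_lit 76) (nat_lit 0) (XT.lf (nat_lit 0) (nat_lit 339691716268) (nat_lit 152) (nat_lit 50143237891) (nat_lit 0) (nat_lit 239819653651) (nat_lit 11) (nat_lit 5) (nat_lit 13) (nat_lit 4) (nat_lit 11) (nat_lit 4) (nat_lit 485) (nat_lit 428) (nat_lit 287)) (XT.nd (nat_lit 78) (nat_lit 0) (nat_lit 0) (XT.lf (nat_lit 0) (nat_lit 189385220077) (nat_lit 76) (nat_lit 290416743218) (nat_lit 76) (nat_lit 190544537260) (nat_lit 10) (nat_lit 4) (nat_lit 11) (nat_lit 5) (nat_lit 11) (nat_lit 4) (nat_lit 486) (nat_lit 428) (nat_lit 286)) (XT.lf (nat_lit 0) (nat_lit 450926964023) (nat_lit 76) (nat_lit 181564733019) (nat_lit 76) (nat_lit 81692394338) (nat_lit 10) (nat_lit 4) (nat_lit 11) (nat_lit 5) (nat_lit 11) (nat_lit 4) (nat_lit 487) (nat_lit 428) (nat_lit 285)))) (XT.nd (nat_lit 78) (nat_lit 76) (nat_lit 0) (XT.lf (nat_lit 0) (nat_lit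 34073340258) (nat_lit 152) (nat_lit 28999913834) (nat_lit 76) (nat_lit 698386451138) (nat_lit 9) (nat_lit 5) (nat_lit 11) (nat_lit 5) (nat_lit 10) (nat_lit 4) (nat_lit 488) (nat_lit 428) (nat_lit 284)) (XT.nd (nat_lit 78) (nat_lit 0) (nat_lit 0) (XT.lf (nat_lit 0) (nat_lit 162065416404) (nat_lit 152) (nat_lit 580101104264) (nat_lit 0) (nat_lit 69590809589) (nat_lit 8) (nat_lit 5) (nat_lit 10) (nat_lit 4) (nat_lit 8) (nat_lit 4) (nat_lit 489) (nat_lit 428) (nat_lit 283)) (XT.lf (nat_lit 0) (nat_lit 302748332590) (nat_lit 152) (nat_lit 352860686573) (nat_lit 0) (nat_lit 210273628219) (nat_lit 8) (nat_lit 5) (nat_lit 10) (nat_lit 4) (nat_lit 8) (nat_lit 4) (nat_lit 490) (nat_lit 428) (nat_lit 282))))))))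
noncomputable def xc165 : XT := (XT.nd (nat_lit 1716) (nat_lit 76) (nat_lit 0) (XT.nd (nat_lit 858) (nat_lit 152) (nat_lit 0) (XT.nd (nat_lit 390) (nat_lit 152) (nat_lit 0) (XT.nd (nat_lit 156) (nat_lit 76) (nat_lit 0) (XT.nd (nat_lit 78) (nat_lit 76) (nat_lit 0) (XT.lf (nat_lit 0) (nat_lit 454685607562) (nat_lit 152) (nat_lit 107441591426) (nat_lit 0) (nat_lit 362210812863) (nat_lit 8) (nat_lit 5) (nat_lit 10) (nat_lit 4) (nat_lit 8) (nat_lit 4) (nat_lit 491) (nat_lit 428) (nat_lit 281)) (XT.lf (nat_lit 0) (nat_lit 165910007048) (nat_lit 76) (nat_lit 456857742969) (nat_lit 76) (nat_lit 364382864632) (nat_lit 7) (nat_lit 4) (nat_lit 8) (nat_lit 5) (nat_lit 8) (nat_lit 4) (nat_lit 492) (nat_lit 428) (nat_lit 280))) (XT.nd (nat_lit 78) (nat_lit 76) (nat_lit 0) (XT.lf (nat_lit 0) (nat_lit 467239530163) (nat_lit 76) (nat_lit 339994329806) (nat_lit 76) (nat_lit 247519374026) (nat_lit 7) (nat_lit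 4) (nat_lit 8) (nat_lit 5) (nat_lit 8) (nat_lit 4) (nat_lit 493) (nat_lit 428) (nat_lit 279)) (XT.nd (nat_lit 78) (nat_lit 76) (nat_lit 0) (XT.lf (nat_lit 0) (nat_lit 792674950548) (nat_lit 76) (nat_lit 213782079080) (nat_lit 76) (nat_lit 121307051595) (nat_lit 7) (nat_lit 4) (nat_lit 8) (nat_lit 5) (nat_lit 8) (nat_lit 4) (nat_lit 494) (nat_lit 428) (nat_lit 278)) (XT.lf (nat_lit 0) (nat_lit 14251565358) (nat_lit 152) (nat_lit 62831837933) (nat_lit 76) (nat_lit 1129503545988) (nat_lit 6) (nat_lit 5) (nat_lit 8) (nat_lit 5) (nat_lit 7) (nat_lit 4) (nat_lit 495) (nat_lit 428) (nat_lit 277))))) (XT.nd (nat_lit 234) (nat_lit 76) (nat_lit 0) (XT.nd (nat_lit 78) (nat_lit 0) (nat_lit 0) (XT.lf (nat_lit 0) (nat_lit 161803031822) (nat_lit 152) (nat_lit 1052866509050) (nat_lit 0) (nat_lit 76177887973) (nat_lit 5) (nat_lit 5) (nat_lit 7) (nat_lit 4) (nat_lit 5) (nat_lit 4) (nat_lit 496) (nat_lit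 428) (nat_lit 276)) (XT.nd (nat_lit 78) (nat_lit 0) (nat_lit 0) (XT.lf (nat_lit 0) (nat_lit 324923136335) (nat_lit 152) (nat_lit 817326509010) (nat_lit 0) (nat_lit 239297939780) (nat_lit 5) (nat_lit 5) (nat_lit 7) (nat_lit 4) (nat_lit 5) (nat_lit 4) (nat_lit 497) (nat_lit 428) (nat_lit 275)) (XT.lf (nat_lit 0) (nat_lit 501092663060) (nat_lit 152) (nat_lit 562943688041) (nat_lit 0) (nat_lit 415467417704) (nat_lit 5) (nat_lit 5) (nat_lit 7) (nat_lit 4) (nat_lit 5) (nat_lit 4) (nat_lit 498) (nat_lit 428) (nat_lit 274)))) (XT.nd (nat_lit 78) (nat_lit 76) (nat_lit 0) (XT.lf (nat_lit 0) (nat_lit 691355579564) (nat_lit 152) (nat_lit 288210592390) (nat_lit 0) (nat_lit 605730289021) (nat_lit 5) (nat_lit 5) (nat_lit 7) (nat_lit 4) (nat_lit 5) (nat_lit 4) (nat_lit 499) (nat_lit 428) (nat_lit 273)) (XT.nd (nat_lit 78) (nat_lit 0) (nat_lit 0) (XT.lf (nat_lit 0) (nat_lit 8948464345) (nat_lit 76) (nat_lit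 888106116233) (nat_lit 76) (nat_lit 802480783850) (nat_lit 4) (nat_lit 4) (nat_lit 5) (nat_lit 5) (nat_lit 5) (nat_lit 4) (nat_lit 500) (nat_lit 428) (nat_lit 272)) (XT.lf (nat_lit 0) (nat_lit 346270720618) (nat_lit 76) (nat_lit 780818814016) (nat_lit 76) (nat_lit 695193442893) (nat_lit 4) (nat_lit 4) (nat_lit 5) (nat_lit 5) (nat_lit 5) (nat_lit 4) (nat_lit 501) (nat_lit 428) (nat_lit 271)))))) (XT.nd (nat_lit 390) (nat_lit 152) (nat_lit 0) (XT.nd (nat_lit 156) (nat_lit 0) (nat_lit 0) (XT.nd (nat_lit 78) (nat_lit 0) (nat_lit 0) (XT.lf (nat_lit 0) (nat_lit 710578464090) (nat_lit 76) (nat_lit 664948677046) (nat_lit 76) (nat_lit 579323270052) (nat_lit 4) (nat_lit 4) (nat_lit 5) (nat_lit 5) (nat_lit 5) (nat_lit 4) (nat_lit 502) (nat_lit 428) (nat_lit 270)) (XT.lf (nat_lit 0) (nat_lit 1104030555461) (nat_lit 76) (nat_lit 539809067476) (nat_lit 76) (nat_lit 454183627268) (nat_lit 4) (nat_lit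 4) (nat_lit 5) (nat_lit 5) (nat_lit 5) (nat_lit 4) (nat_lit 503) (nat_lit 428) (nat_lit 269))) (XT.nd (nat_lit 78) (nat_lit 0) (nat_lit 0) (XT.lf (nat_lit 0) (nat_lit 1528958562682) (nat_lit 76) (nat_lit 404658417247) (nat_lit 76) (nat_lit 319032946286) (nat_lit 4) (nat_lit 4) (nat_lit 5) (nat_lit 5) (nat_lit 5) (nat_lit 4) (nat_lit 504) (nat_lit 428) (nat_lit 268)) (XT.nd (nat_lit 78) (nat_lit 0) (nat_lit 0) (XT.lf (nat_lit 0) (nat_lit 1987880577647) (nat_lit 76) (nat_lit 258695833618) (nat_lit 76) (nat_lit 173070334181) (nat_lit 4) (nat_lit 4) (nat_lit 5) (nat_lit 5) (nat_lit 5) (nat_lit 4) (nat_lit 505) (nat_lit 428) (nat_lit 267)) (XT.lf (nat_lit 0) (nat_lit 2483516138223) (nat_lit 76) (nat_lit 101056353131) (nat_lit 76) (nat_lit 15430827328) (nat_lit 4) (nat_lit 4) (nat_lit 5) (nat_lit 5) (nat_lit 5) (nat_lit 4) (nat_lit 506) (nat_lit 428) (nat_lit 266))))) (XT.nd (nat_lit 234) (nat_lit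 0) (nat_lit 0) (XT.nd (nat_lit 78) (nat_lit 0) (nat_lit 0) (XT.lf (nat_lit 0) (nat_lit 154557689307) (nat_lit 152) (nat_lit 2564059477187) (nat_lit 0) (nat_lit 75274772440) (nat_lit 2) (nat_lit 5) (nat_lit 4) (nat_lit 4) (nat_lit 2) (nat_lit 4) (nat_lit 507) (nat_lit 428) (nat_lit 265)) (XT.nd (nat_lit 78) (nat_lit 0) (nat_lit 0) (XT.lf (nat_lit 0) (nat_lit 343204054194) (nat_lit 152) (nat_lit 2395663019572) (nat_lit 0) (nat_lit 263921116397) (nat_lit 2) (nat_lit 5) (nat_lit 4) (nat_lit 4) (nat_lit 2) (nat_lit 4) (nat_lit 508) (nat_lit 428) (nat_lit 264)) (XT.lf (nat_lit 0) (nat_lit 546942035421) (nat_lit 152) (nat_lit 2213795035256) (nat_lit 0) (nat_lit 467659078244) (nat_lit 2) (nat_lit 5) (nat_lit 4) (nat_lit 4) (nat_lit 2) (nat_lit 4) (nat_lit 509) (nat_lit 428) (nat_lit 263)))) (XT.nd (nat_lit 78) (nat_lit 0) (nat_lit 0) (XT.lf (nat_lit 0) (nat_lit 766978969172) (nat_lit 152) (nat_lit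 2017377788036) (nat_lit 0) (nat_lit 687695994050) (nat_lit 2) (nat_lit 5) (nat_lit 4) (nat_lit 4) (nat_lit 2) (nat_lit 4) (nat_lit 510) (nat_lit 428) (nat_lit 262)) (XT.nd (nat_lit 78) (nat_lit 0) (nat_lit 0) (XT.lf (nat_lit 0) (nat_lit 1004618778017) (nat_lit 152) (nat_lit 1805247323856) (nat_lit 0) (nat_lit 925335786281) (nat_lit 2) (nat_lit 5) (nat_lit 4) (nat_lit 4) (nat_lit 2) (nat_lit 4) (nat_lit 511) (nat_lit 428) (nat_lit 261)) (XT.lf (nat_lit 0) (nat_lit 1261269697862) (nat_lit 152) (nat_lit 1576146573297) (nat_lit 0) (nat_lit 1181986690741) (nat_lit 2) (nat_lit 5) (nat_lit 4) (nat_lit 4) (nat_lit 2) (nat_lit 4) (nat_lit 512) (nat_lit 428) (nat_lit 260))))))) (XT.nd (nat_lit 858) (nat_lit 0) (nat_lit 0) (XT.nd (nat_lit 390) (nat_lit 76) (nat_lit 0) (XT.nd (nat_lit 156) (nat_lit 0) (nat_lit 0) (XT.nd (nat_lit 78) (nat_lit 0) (nat_lit 0) (XT.lf (nat_lit 0) (nat_lit 1538452623046)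 (nat_lit 152) (nat_lit 1328717902283) (nat_lit 0) (nat_lit 1459169601680) (nat_lit 2) (nat_lit 5) (nat_lit 4) (nat_lit 4) (nat_lit 2) (nat_lit 4) (nat_lit 513) (nat_lit 428) (nat_lit 259)) (XT.lf (nat_lit 0) (nat_lit 1837810119051) (nat_lit 152) (nat_lit 1061495066836) (nat_lit 0) (nat_lit 1758527084495) (nat_lit 2) (nat_lit 5) (nat_lit 4) (nat_lit 4) (nat_lit 2) (nat_lit 4) (nat_lit 514) (nat_lit 428) (nat_lit 258))) (XT.nd (nat_lit 78) (nat_lit 0) (nat_lit 0) (XT.lf (nat_lit 0) (nat_lit 2161116156224) (nat_lit 152) (nat_lit 772894524229) (nat_lit 0) (nat_lit 2081833109456) (nat_lit 2) (nat_lit 5) (nat_lit 4) (nat_lit 4) (nat_lit 2) (nat_lit 4) (nat_lit 515) (nat_lit 428) (nat_lit 257)) (XT.nd (nat_lit 78) (nat_lit 0) (nat_lit 0) (XT.lf (nat_lit 0) (nat_lit 2510286622192) (nat_lit 152) (nat_lit 461206049023) (nat_lit 0) (nat_lit 2431003564117) (nat_lit 2) (nat_lit 5) (nat_lit 4) (nat_lit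 4) (nat_lit 2) (nat_lit 4) (nat_lit 516) (nat_lit 428) (nat_lit 256)) (XT.lf (nat_lit 0) (nat_lit 2887390675274) (nat_lit 152) (nat_lit 124582598403) (nat_lit 0) (nat_lit 2808107606728) (nat_lit 2) (nat_lit 5) (nat_lit 4) (nat_lit 4) (nat_lit 2) (nat_lit 4) (nat_lit 517) (nat_lit 428) (nat_lit 255))))) (XT.nd (nat_lit 234) (nat_lit 0) (nat_lit 0) (XT.nd (nat_lit 78) (nat_lit 0) (nat_lit 0) (XT.lf (nat_lit 0) (nat_lit 251554403320) (nat_lit 76) (nat_lit 3049158492283) (nat_lit 76) (nat_lit 2969875414042) (nat_lit 1) (nat_lit 4) (nat_lit 2) (nat_lit 5) (nat_lit 2) (nat_lit 4) (nat_lit 518) (nat_lit 428) (nat_lit 254)) (XT.nd (nat_lit 78) (nat_lit 0) (nat_lit 0) (XT.lf (nat_lit 0) (nat_lit 664867395345) (nat_lit 76) (nat_lit 3085639761997) (nat_lit 76) (nat_lit 3006356674779) (nat_lit 1) (nat_lit 4) (nat_lit 2) (nat_lit 5) (nat_lit 2) (nat_lit 4) (nat_lit 519) (nat_lit 428) (nat_lit 253))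 (XT.lf (nat_lit 0) (nat_lit 1111245340995) (nat_lit 76) (nat_lit 3125039577141) (nat_lit 76) (nat_lit 3045756481612) (nat_lit 1) (nat_lit 4) (nat_lit 2) (nat_lit 5) (nat_lit 2) (nat_lit 4) (nat_lit 520) (nat_lit 428) (nat_lit 252)))) (XT.nd (nat_lit 78) (nat_lit 0) (nat_lit 0) (XT.lf (nat_lit 0) (nat_lit 1593333442910) (nat_lit 76) (nat_lit 3167591418102) (nat_lit 76) (nat_lit 3088308314877) (nat_lit 1) (nat_lit 4) (nat_lit 2) (nat_lit 5) (nat_lit 2) (nat_lit 4) (nat_lit 521) (nat_lit 428) (nat_lit 251)) (XT.nd (nat_lit 78) (nat_lit 0) (nat_lit 0) (XT.lf (nat_lit 0) (nat_lit 2113988519472) (nat_lit 76) (nat_lit 3213547443937) (nat_lit 76) (nat_lit 3134264333586) (nat_lit 1) (nat_lit 4) (nat_lit 2) (nat_lit 5) (nat_lit 2) (nat_lit 4) (nat_lit 522) (nat_lit 428) (nat_lit 250)) (XT.lf (nat_lit 0) (nat_lit 2676295934097) (nat_lit 76) (nat_lit 3263179986651) (nat_lit 76) (nat_lit 3183896869702)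 (nat_lit 1) (nat_lit 4) (nat_lit 2) (nat_lit 5) (nat_lit 2) (nat_lit 4) (nat_lit 523) (nat_lit 428) (nat_lit 249)))))) (XT.nd (nat_lit 55380) (nat_lit 0) (nat_lit 4408) (XT.nd (nat_lit 55146) (nat_lit 0) (nat_lit 5168) (XT.nd (nat_lit 78) (nat_lit 0) (nat_lit 0) (XT.lf (nat_lit 0) (nat_lit 3283587878873) (nat_lit 76) (nat_lit 3316783165016) (nat_lit 76) (nat_lit 3237500041957) (nat_lit 1) (nat_lit 4) (nat_lit 2) (nat_lit 5) (nat_lit 2) (nat_lit 4) (nat_lit 524) (nat_lit 428) (nat_lit 248)) (XT.nd (nat_lit 54990) (nat_lit 0) (nat_lit 5168) (XT.lf (nat_lit 0) (nat_lit 3939463120879) (nat_lit 76) (nat_lit 3374674627496) (nat_lit 76) (nat_lit 3295391498780) (nat_lit 1) (nat_lit 4) (nat_lit 2) (nat_lit 5) (nat_lit 2) (nat_lit 4) (nat_lit 525) (nat_lit 428) (nat_lit 247)) (XT.lf (nat_lit 0) (nat_lit 17172667550) (nat_lit 532) (nat_lit 888943181) (nat_lit 532) (nat_lit 888943181) (nat_lit 69)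 (nat_lit 3) (nat_lit 76) (nat_lit 3) (nat_lit 76) (nat_lit 5) (nat_lit 429) (nat_lit 429) (nat_lit 342)))) (XT.nd (nat_lit 78) (nat_lit 0) (nat_lit 76) (XT.lf (nat_lit 76) (nat_lit 17678839899) (nat_lit 0) (nat_lit 18508305900) (nat_lit 532) (nat_lit 3192537747) (nat_lit 70) (nat_lit 5) (nat_lit 69) (nat_lit 3) (nat_lit 76) (nat_lit 5) (nat_lit 430) (nat_lit 429) (nat_lit 341)) (XT.nd (nat_lit 78) (nat_lit 0) (nat_lit 0) (XT.lf (nat_lit 0) (nat_lit 38234282700) (nat_lit 456) (nat_lit 2195942842) (nat_lit 532) (nat_lit 541684158) (nat_lit 70) (nat_lit 5) (nat_lit 76) (nat_lit 5) (nat_lit 77) (nat_lit 5) (nat_lit 431) (nat_lit 429) (nat_lit 340)) (XT.lf (nat_lit 76) (nat_lit 19354165484) (nat_lit 0) (nat_lit 22033249818) (nat_lit 532) (nat_lit 1228723333) (nat_lit 71) (nat_lit 5) (nat_lit 70) (nat_lit 5) (nat_lit 77) (nat_lit 5) (nat_lit 432) (nat_lit 429) (nat_lit 339))))) (XT.nd (nat_lit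 234) (nat_lit 304) (nat_lit 0) (XT.nd (nat_lit 78) (nat_lit 0) (nat_lit 76) (XT.lf (nat_lit 0) (nat_lit 438593810) (nat_lit 532) (nat_lit 1647897318) (nat_lit 608) (nat_lit 42300025290) (nat_lit 63) (nat_lit 5) (nat_lit 70) (nat_lit 5) (nat_lit 71) (nat_lit 5) (nat_lit 433) (nat_lit 429) (nat_lit 338)) (XT.nd (nat_lit 78) (nat_lit 0) (nat_lit 0) (XT.lf (nat_lit 0) (nat_lit 3200742736) (nat_lit 532) (nat_lit 23933948311) (nat_lit 608) (nat_lit 19079055952) (nat_lit 64) (nat_lit 5) (nat_lit 71) (nat_lit 5) (nat_lit 72) (nat_lit 5) (nat_lit 434) (nat_lit 429) (nat_lit 337)) (XT.lf (nat_lit 0) (nat_lit 6280949247) (nat_lit 532) (nat_lit 26272029) (nat_lit 608) (nat_lit 41872169859) (nat_lit 64) (nat_lit 5) (nat_lit 71) (nat_lit 5) (nat_lit 72) (nat_lit 5) (nat_lit 435) (nat_lit 429) (nat_lit 336)))) (XT.nd (nat_lit 78) (nat_lit 456) (nat_lit 0) (XT.lf (nat_lit 0) (nat_lit 10663688005) (nat_lit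 532) (nat_lit 23506983557) (nat_lit 76) (nat_lit 16047127798) (nat_lit 65) (nat_lit 5) (nat_lit 72) (nat_lit 5) (nat_lit 66) (nat_lit 5) (nat_lit 436) (nat_lit 429) (nat_lit 335)) (XT.nd (nat_lit 78) (nat_lit 0) (nat_lit 0) (XT.lf (nat_lit 0) (nat_lit 3160650879) (nat_lit 456) (nat_lit 12474059261) (nat_lit 532) (nat_lit 36765558644) (nat_lit 59) (nat_lit 5) (nat_lit 65) (nat_lit 5) (nat_lit 66) (nat_lit 5) (nat_lit 437) (nat_lit 429) (nat_lit 334)) (XT.lf (nat_lit 0) (nat_lit 21923619997) (nat_lit 532) (nat_lit 21690511273) (nat_lit 76) (nat_lit 11069589572) (nat_lit 59) (nat_lit 5) (nat_lit 66) (nat_lit 5) (nat_lit 60) (nat_lit 5) (nat_lit 438) (nat_lit 429) (nat_lit 333))))))))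
noncomputable def xc166 : XT := (XT.nd (nat_lit 1716) (nat_lit 1216) (nat_lit 0) (XT.nd (nat_lit 858) (nat_lit 988) (nat_lit 0) (XT.nd (nat_lit 390) (nat_lit 608) (nat_lit 0) (XT.nd (nat_lit 156) (nat_lit 456) (nat_lit 0) (XT.nd (nat_lit 78) (nat_lit 0) (nat_lit 0) (XT.lf (nat_lit 0) (nat_lit 8143181592) (nat_lit 228) (nat_lit 21089752898) (nat_lit 304) (nat_lit 27875532669) (nat_lit 56) (nat_lit 5) (nat_lit 59) (nat_lit 5) (nat_lit 60) (nat_lit 5) (nat_lit 439) (nat_lit 429) (nat_lit 332)) (XT.lf (nat_lit 0) (nat_lit 37810862699) (nat_lit 304) (nat_lit 18178682097) (nat_lit 76) (nat_lit 3682940234) (nat_lit 56) (nat_lit 5) (nat_lit 60) (nat_lit 5) (nat_lit 57) (nat_lit 5) (nat_lit 440) (nat_lit 429) (nat_lit 331))) (XT.nd (nat_lit 78) (nat_lit 228) (nat_lit 0) (XT.lf (nat_lit 0) (nat_lit 15285075855) (nat_lit 228) (nat_lit 32703089446) (nat_lit 304) (nat_lit 14380409057) (nat_lit 53) (nat_lit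 5) (nat_lit 56) (nat_lit 5) (nat_lit 57) (nat_lit 5) (nat_lit 441) (nat_lit 429) (nat_lit 330)) (XT.nd (nat_lit 78) (nat_lit 228) (nat_lit 0) (XT.lf (nat_lit 0) (nat_lit 52457228858) (nat_lit 228) (nat_lit 7017314196) (nat_lit 304) (nat_lit 5766217645) (nat_lit 53) (nat_lit 5) (nat_lit 56) (nat_lit 5) (nat_lit 57) (nat_lit 5) (nat_lit 442) (nat_lit 429) (nat_lit 329)) (XT.lf (nat_lit 0) (nat_lit 4486591832) (nat_lit 228) (nat_lit 43357810748) (nat_lit 76) (nat_lit 20401401085) (nat_lit 50) (nat_lit 5) (nat_lit 53) (nat_lit 5) (nat_lit 51) (nat_lit 5) (nat_lit 443) (nat_lit 429) (nat_lit 328))))) (XT.nd (nat_lit 234) (nat_lit 228) (nat_lit 0) (XT.nd (nat_lit 78) (nat_lit 380) (nat_lit 0) (XT.lf (nat_lit 0) (nat_lit 15787013789) (nat_lit 228) (nat_lit 5506702728) (nat_lit 76) (nat_lit 50142439647) (nat_lit 50) (nat_lit 5) (nat_lit 53) (nat_lit 5) (nat_lit 51) (nat_lit 5) (nat_lit 444) (nat_lit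 429) (nat_lit 327)) (XT.nd (nat_lit 78) (nat_lit 152) (nat_lit 0) (XT.lf (nat_lit 0) (nat_lit 29085862410) (nat_lit 304) (nat_lit 37778341505) (nat_lit 76) (nat_lit 7929982358) (nat_lit 47) (nat_lit 5) (nat_lit 51) (nat_lit 5) (nat_lit 48) (nat_lit 5) (nat_lit 445) (nat_lit 429) (nat_lit 326)) (XT.lf (nat_lit 0) (nat_lit 4510782458) (nat_lit 152) (nat_lit 39752130966) (nat_lit 228) (nat_lit 34092802584) (nat_lit 45) (nat_lit 5) (nat_lit 47) (nat_lit 5) (nat_lit 48) (nat_lit 5) (nat_lit 446) (nat_lit 429) (nat_lit 325)))) (XT.nd (nat_lit 78) (nat_lit 228) (nat_lit 0) (XT.lf (nat_lit 0) (nat_lit 52329161213) (nat_lit 152) (nat_lit 9356219500) (nat_lit 228) (nat_lit 20434287955) (nat_lit 45) (nat_lit 5) (nat_lit 47) (nat_lit 5) (nat_lit 48) (nat_lit 5) (nat_lit 447) (nat_lit 429) (nat_lit 324)) (XT.nd (nat_lit 78) (nat_lit 76) (nat_lit 0) (XT.lf (nat_lit 0) (nat_lit 18128341666) (nat_lit 152)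 (nat_lit 63372211769) (nat_lit 228) (nat_lit 4604272131) (nat_lit 43) (nat_lit 5) (nat_lit 45) (nat_lit 5) (nat_lit 46) (nat_lit 5) (nat_lit 448) (nat_lit 429) (nat_lit 323)) (XT.lf (nat_lit 0) (nat_lit 12944394333) (nat_lit 228) (nat_lit 19335654222) (nat_lit 76) (nat_lit 58018539556) (nat_lit 42) (nat_lit 5) (nat_lit 45) (nat_lit 5) (nat_lit 43) (nat_lit 5) (nat_lit 449) (nat_lit 429) (nat_lit 322)))))) (XT.nd (nat_lit 390) (nat_lit 532) (nat_lit 0) (XT.nd (nat_lit 156) (nat_lit 304) (nat_lit 0) (XT.nd (nat_lit 78) (nat_lit 0) (nat_lit 0) (XT.lf (nat_lit 0) (nat_lit 32540199578) (nat_lit 228) (nat_lit 59991146572) (nat_lit 76) (nat_lit 2215579062) (nat_lit 40) (nat_lit 5) (nat_lit 43) (nat_lit 5) (nat_lit 41) (nat_lit 5) (nat_lit 450) (nat_lit 429) (nat_lit 321)) (XT.lf (nat_lit 0) (nat_lit 55083123899) (nat_lit 228) (nat_lit 6089035850) (nat_lit 76) (nat_lit 38268613650) (nat_lit 40)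 (nat_lit 5) (nat_lit 43) (nat_lit 5) (nat_lit 41) (nat_lit 5) (nat_lit 451) (nat_lit 429) (nat_lit 320))) (XT.nd (nat_lit 78) (nat_lit 152) (nat_lit 0) (XT.lf (nat_lit 0) (nat_lit 54867934433) (nat_lit 152) (nat_lit 25879834977) (nat_lit 228) (nat_lit 23656897506) (nat_lit 38) (nat_lit 5) (nat_lit 40) (nat_lit 5) (nat_lit 41) (nat_lit 5) (nat_lit 452) (nat_lit 429) (nat_lit 319)) (XT.nd (nat_lit 78) (nat_lit 76) (nat_lit 0) (XT.lf (nat_lit 0) (nat_lit 11573708186) (nat_lit 76) (nat_lit 97634051120) (nat_lit 152) (nat_lit 498539211) (nat_lit 37) (nat_lit 5) (nat_lit 38) (nat_lit 5) (nat_lit 39) (nat_lit 4) (nat_lit 453) (nat_lit 429) (nat_lit 318)) (XT.lf (nat_lit 0) (nat_lit 25346834634) (nat_lit 152) (nat_lit 36232504229) (nat_lit 76) (nat_lit 53640715204) (nat_lit 36) (nat_lit 5) (nat_lit 38) (nat_lit 5) (nat_lit 37) (nat_lit 5) (nat_lit 454) (nat_lit 429) (nat_lit 317))))) (XT.nd (nat_lit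 234) (nat_lit 304) (nat_lit 0) (XT.nd (nat_lit 78) (nat_lit 76) (nat_lit 0) (XT.lf (nat_lit 0) (nat_lit 32216313395) (nat_lit 152) (nat_lit 21790241675) (nat_lit 228) (nat_lit 67105427342) (nat_lit 34) (nat_lit 5) (nat_lit 36) (nat_lit 5) (nat_lit 37) (nat_lit 5) (nat_lit 455) (nat_lit 429) (nat_lit 316)) (XT.nd (nat_lit 78) (nat_lit 76) (nat_lit 0) (XT.lf (nat_lit 0) (nat_lit 86483742551) (nat_lit 228) (nat_lit 19731499078) (nat_lit 76) (nat_lit 21138048550) (nat_lit 34) (nat_lit 5) (nat_lit 37) (nat_lit 5) (nat_lit 35) (nat_lit 4) (nat_lit 456) (nat_lit 429) (nat_lit 315)) (XT.lf (nat_lit 0) (nat_lit 57262532266) (nat_lit 76) (nat_lit 66238671935) (nat_lit 152) (nat_lit 10437330720) (nat_lit 33) (nat_lit 5) (nat_lit 34) (nat_lit 5) (nat_lit 35) (nat_lit 4) (nat_lit 457) (nat_lit 429) (nat_lit 314)))) (XT.nd (nat_lit 78) (nat_lit 228) (nat_lit 0) (XT.lf (nat_lit 0) (nat_lit 21859920418)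 (nat_lit 152) (nat_lit 24452810) (nat_lit 76) (nat_lit 119078874370) (nat_lit 32) (nat_lit 5) (nat_lit 34) (nat_lit 5) (nat_lit 33) (nat_lit 5) (nat_lit 458) (nat_lit 429) (nat_lit 313)) (XT.nd (nat_lit 78) (nat_lit 76) (nat_lit 0) (XT.lf (nat_lit 0) (nat_lit 58951373695) (nat_lit 228) (nat_lit 62218229902) (nat_lit 76) (nat_lit 27136701239) (nat_lit 30) (nat_lit 5) (nat_lit 33) (nat_lit 5) (nat_lit 31) (nat_lit 4) (nat_lit 459) (nat_lit 429) (nat_lit 312)) (XT.lf (nat_lit 0) (nat_lit 23457554922) (nat_lit 76) (nat_lit 76684908785) (nat_lit 152) (nat_lit 56003757520) (nat_lit 29) (nat_lit 5) (nat_lit 30) (nat_lit 5) (nat_lit 31) (nat_lit 4) (nat_lit 460) (nat_lit 429) (nat_lit 311))))))) (XT.nd (nat_lit 858) (nat_lit 532) (nat_lit 0) (XT.nd (nat_lit 390) (nat_lit 456) (nat_lit 0) (XT.nd (nat_lit 156) (nat_lit 76) (nat_lit 0) (XT.nd (nat_lit 78) (nat_lit 152) (nat_lit 0) (XT.lf (nat_lit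 0) (nat_lit 119524164380) (nat_lit 76) (nat_lit 26804918190) (nat_lit 152) (nat_lit 18148229220) (nat_lit 29) (nat_lit 5) (nat_lit 30) (nat_lit 5) (nat_lit 31) (nat_lit 4) (nat_lit 461) (nat_lit 429) (nat_lit 310)) (XT.lf (nat_lit 0) (nat_lit 23541943772) (nat_lit 152) (nat_lit 122182543762) (nat_lit 76) (nat_lit 27551175719) (nat_lit 27) (nat_lit 5) (nat_lit 29) (nat_lit 5) (nat_lit 28) (nat_lit 4) (nat_lit 462) (nat_lit 429) (nat_lit 309))) (XT.nd (nat_lit 78) (nat_lit 76) (nat_lit 0) (XT.lf (nat_lit 0) (nat_lit 69543251554) (nat_lit 152) (nat_lit 26501060191) (nat_lit 76) (nat_lit 86539348901) (nat_lit 27) (nat_lit 5) (nat_lit 29) (nat_lit 5) (nat_lit 28) (nat_lit 4) (nat_lit 463) (nat_lit 429) (nat_lit 308)) (XT.nd (nat_lit 78) (nat_lit 0) (nat_lit 0) (XT.lf (nat_lit 0) (nat_lit 80879394470) (nat_lit 76) (nat_lit 40289626158) (nat_lit 152) (nat_lit 71311728810) (nat_lit 26) (nat_lit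 5) (nat_lit 27) (nat_lit 5) (nat_lit 28) (nat_lit 4) (nat_lit 464) (nat_lit 429) (nat_lit 307)) (XT.lf (nat_lit 0) (nat_lit 178146678880) (nat_lit 152) (nat_lit 5253713194) (nat_lit 0) (nat_lit 19671467181) (nat_lit 26) (nat_lit 5) (nat_lit 28) (nat_lit 4) (nat_lit 26) (nat_lit 4) (nat_lit 465) (nat_lit 429) (nat_lit 306))))) (XT.nd (nat_lit 234) (nat_lit 228) (nat_lit 0) (XT.nd (nat_lit 78) (nat_lit 76) (nat_lit 0) (XT.lf (nat_lit 0) (nat_lit 27805572100) (nat_lit 152) (nat_lit 100640530678) (nat_lit 76) (nat_lit 85704323642) (nat_lit 24) (nat_lit 5) (nat_lit 26) (nat_lit 5) (nat_lit 25) (nat_lit 4) (nat_lit 466) (nat_lit 429) (nat_lit 305)) (XT.nd (nat_lit 78) (nat_lit 0) (nat_lit 0) (XT.lf (nat_lit 0) (nat_lit 16123655453) (nat_lit 76) (nat_lit 67818949219) (nat_lit 152) (nat_lit 142078127646) (nat_lit 23) (nat_lit 5) (nat_lit 24) (nat_lit 5) (nat_lit 25) (nat_lit 4) (nat_lit 467) (nat_lit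 429) (nat_lit 304)) (XT.lf (nat_lit 0) (nat_lit 147336729031) (nat_lit 152) (nat_lit 90684563965) (nat_lit 0) (nat_lit 598079454) (nat_lit 23) (nat_lit 5) (nat_lit 25) (nat_lit 4) (nat_lit 23) (nat_lit 4) (nat_lit 468) (nat_lit 429) (nat_lit 303)))) (XT.nd (nat_lit 78) (nat_lit 152) (nat_lit 0) (XT.lf (nat_lit 0) (nat_lit 38213754508) (nat_lit 76) (nat_lit 180268537194) (nat_lit 76) (nat_lit 33529219512) (nat_lit 22) (nat_lit 4) (nat_lit 23) (nat_lit 5) (nat_lit 23) (nat_lit 4) (nat_lit 469) (nat_lit 429) (nat_lit 302)) (XT.nd (nat_lit 78) (nat_lit 76) (nat_lit 0) (XT.lf (nat_lit 0) (nat_lit 29944777451) (nat_lit 152) (nat_lit 84454799197) (nat_lit 76) (nat_lit 151816490336) (nat_lit 21) (nat_lit 5) (nat_lit 23) (nat_lit 5) (nat_lit 22) (nat_lit 4) (nat_lit 470) (nat_lit 429) (nat_lit 301)) (XT.lf (nat_lit 0) (nat_lit 57226213594) (nat_lit 76) (nat_lit 40834710772) (nat_lit 152) (nat_lit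 183316337500) (nat_lit 20) (nat_lit 5) (nat_lit 21) (nat_lit 5) (nat_lit 22) (nat_lit 4) (nat_lit 471) (nat_lit 429) (nat_lit 300)))))) (XT.nd (nat_lit 468) (nat_lit 228) (nat_lit 0) (XT.nd (nat_lit 234) (nat_lit 152) (nat_lit 0) (XT.nd (nat_lit 78) (nat_lit 152) (nat_lit 0) (XT.lf (nat_lit 0) (nat_lit 174923576173) (nat_lit 152) (nat_lit 83511755833) (nat_lit 0) (nat_lit 39052243348) (nat_lit 20) (nat_lit 5) (nat_lit 22) (nat_lit 4) (nat_lit 20) (nat_lit 4) (nat_lit 472) (nat_lit 429) (nat_lit 299)) (XT.nd (nat_lit 78) (nat_lit 76) (nat_lit 0) (XT.lf (nat_lit 0) (nat_lit 70861732775) (nat_lit 76) (nat_lit 189837812174) (nat_lit 76) (nat_lit 53966024648) (nat_lit 19) (nat_lit 4) (nat_lit 20) (nat_lit 5) (nat_lit 20) (nat_lit 4) (nat_lit 473) (nat_lit 429) (nat_lit 298)) (XT.lf (nat_lit 0) (nat_lit 21455420383) (nat_lit 152) (nat_lit 91244934147) (nat_lit 76) (nat_lit 220291369926) (nat_lit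 18) (nat_lit 5) (nat_lit 20) (nat_lit 5) (nat_lit 19) (nat_lit 4) (nat_lit 474) (nat_lit 429) (nat_lit 297)))) (XT.nd (nat_lit 78) (nat_lit 76) (nat_lit 0) (XT.lf (nat_lit 0) (nat_lit 75913447106) (nat_lit 76) (nat_lit 25906767068) (nat_lit 152) (nat_lit 250705604368) (nat_lit 17) (nat_lit 5) (nat_lit 18) (nat_lit 5) (nat_lit 19) (nat_lit 4) (nat_lit 475) (nat_lit 429) (nat_lit 296)) (XT.nd (nat_lit 78) (nat_lit 76) (nat_lit 0) (XT.lf (nat_lit 0) (nat_lit 192804593126) (nat_lit 152) (nat_lit 113486517495) (nat_lit 0) (nat_lit 66996297448) (nat_lit 17) (nat_lit 5) (nat_lit 19) (nat_lit 4) (nat_lit 17) (nat_lit 4) (nat_lit 476) (nat_lit 429) (nat_lit 295)) (XT.lf (nat_lit 0) (nat_lit 65281186784) (nat_lit 76) (nat_lit 228028974040) (nat_lit 76) (nat_lit 102220368900) (nat_lit 16) (nat_lit 4) (nat_lit 17) (nat_lit 5) (nat_lit 17) (nat_lit 4) (nat_lit 477) (nat_lit 429) (nat_lit 294))))) (XT.nd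 (nat_lit 234) (nat_lit 76) (nat_lit 0) (XT.nd (nat_lit 78) (nat_lit 152) (nat_lit 0) (XT.lf (nat_lit 0) (nat_lit 264803465829) (nat_lit 76) (nat_lit 140155165216) (nat_lit 76) (nat_lit 14346273538) (nat_lit 16) (nat_lit 4) (nat_lit 17) (nat_lit 5) (nat_lit 17) (nat_lit 4) (nat_lit 478) (nat_lit 429) (nat_lit 293)) (XT.nd (nat_lit 78) (nat_lit 0) (nat_lit 0) (XT.lf (nat_lit 0) (nat_lit 35125106517) (nat_lit 76) (nat_lit 42247135554) (nat_lit 152) (nat_lit 367386448726) (nat_lit 14) (nat_lit 5) (nat_lit 15) (nat_lit 5) (nat_lit 16) (nat_lit 4) (nat_lit 479) (nat_lit 429) (nat_lit 292)) (XT.lf (nat_lit 0) (nat_lit 181513814836) (nat_lit 152) (nat_lit 225212675685) (nat_lit 0) (nat_lit 65023627195) (nat_lit 14) (nat_lit 5) (nat_lit 16) (nat_lit 4) (nat_lit 14) (nat_lit 4) (nat_lit 480) (nat_lit 429) (nat_lit 291)))) (XT.nd (nat_lit 78) (nat_lit 76) (nat_lit 0) (XT.lf (nat_lit 0) (nat_lit 295083634114)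 (nat_lit 152) (nat_lit 27136235189) (nat_lit 0) (nat_lit 178593235859) (nat_lit 14) (nat_lit 5) (nat_lit 16) (nat_lit 4) (nat_lit 14) (nat_lit 4) (nat_lit 481) (nat_lit 429) (nat_lit 290)) (XT.nd (nat_lit 78) (nat_lit 0) (nat_lit 0) (XT.lf (nat_lit 0) (nat_lit 196621365151) (nat_lit 76) (nat_lit 225846045024) (nat_lit 76) (nat_lit 109355451755) (nat_lit 13) (nat_lit 4) (nat_lit 14) (nat_lit 5) (nat_lit 14) (nat_lit 4) (nat_lit 482) (nat_lit 429) (nat_lit 289)) (XT.lf (nat_lit 0) (nat_lit 439822101908) (nat_lit 76) (nat_lit 120961372167) (nat_lit 76) (nat_lit 4470598330) (nat_lit 13) (nat_lit 4) (nat_lit 14) (nat_lit 5) (nat_lit 14) (nat_lit 4) (nat_lit 483) (nat_lit 429) (nat_lit 288))))))))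
noncomputable def xc167 : XT := (XT.nd (nat_lit 1716) (nat_lit 228) (nat_lit 0) (XT.nd (nat_lit 858) (nat_lit 228) (nat_lit 0) (XT.nd (nat_lit 390) (nat_lit 228) (nat_lit 0) (XT.nd (nat_lit 156) (nat_lit 76) (nat_lit 0) (XT.nd (nat_lit 78) (nat_lit 0) (nat_lit 0) (XT.lf (nat_lit 0) (nat_lit 103688579241) (nat_lit 76) (nat_lit 2166959350) (nat_lit 152) (nat_lit 495095430903) (nat_lit 11) (nat_lit 5) (nat_lit 12) (nat_lit 5) (nat_lit 13) (nat_lit 4) (nat_lit 484) (nat_lit 429) (nat_lit 287)) (XT.lf (nat_lit 0) (nat_lit 231317955518) (nat_lit 152) (nat_lit 284196406154) (nat_lit 0) (nat_lit 123455829743) (nat_lit 11) (nat_lit 5) (nat_lit 13) (nat_lit 4) (nat_lit 11) (nat_lit 4) (nat_lit 485) (nat_lit 429) (nat_lit 286))) (XT.nd (nat_lit 78) (nat_lit 76) (nat_lit 0) (XT.lf (nat_lit 0) (nat_lit 366873328808) (nat_lit 152) (nat_lit 54142074947) (nat_lit 0) (nat_lit 259011070311) (nat_lit 11)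 (nat_lit 5) (nat_lit 13) (nat_lit 4) (nat_lit 11) (nat_lit 4) (nat_lit 486) (nat_lit 429) (nat_lit 285)) (XT.nd (nat_lit 78) (nat_lit 0) (nat_lit 0) (XT.lf (nat_lit 0) (nat_lit 204548340114) (nat_lit 76) (nat_lit 313643886524) (nat_lit 76) (nat_lit 205781505135) (nat_lit 10) (nat_lit 4) (nat_lit 11) (nat_lit 5) (nat_lit 11) (nat_lit 4) (nat_lit 487) (nat_lit 429) (nat_lit 284)) (XT.lf (nat_lit 0) (nat_lit 487012512285) (nat_lit 76) (nat_lit 196084174483) (nat_lit 76) (nat_lit 88221679306) (nat_lit 10) (nat_lit 4) (nat_lit 11) (nat_lit 5) (nat_lit 11) (nat_lit 4) (nat_lit 488) (nat_lit 429) (nat_lit 283))))) (XT.nd (nat_lit 234) (nat_lit 76) (nat_lit 0) (XT.nd (nat_lit 78) (nat_lit 76) (nat_lit 0) (XT.lf (nat_lit 0) (nat_lit 36804578871) (nat_lit 152) (nat_lit 31309076484) (nat_lit 76) (nat_lit 754262396325) (nat_lit 9) (nat_lit 5) (nat_lit 11) (nat_lit 5) (nat_lit 10) (nat_lit 4) (nat_lit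 489) (nat_lit 429) (nat_lit 282)) (XT.nd (nat_lit 78) (nat_lit 0) (nat_lit 0) (XT.lf (nat_lit 0) (nat_lit 175036005266) (nat_lit 152) (nat_lit 626498346067) (nat_lit 0) (nat_lit 75163136662) (nat_lit 8) (nat_lit 5) (nat_lit 10) (nat_lit 4) (nat_lit 8) (nat_lit 4) (nat_lit 490) (nat_lit 429) (nat_lit 281)) (XT.lf (nat_lit 0) (nat_lit 326973158039) (nat_lit 152) (nat_lit 381079498408) (nat_lit 0) (nat_lit 227100205798) (nat_lit 8) (nat_lit 5) (nat_lit 10) (nat_lit 4) (nat_lit 8) (nat_lit 4) (nat_lit 491) (nat_lit 429) (nat_lit 280)))) (XT.nd (nat_lit 78) (nat_lit 76) (nat_lit 0) (XT.lf (nat_lit 0) (nat_lit 491065047688) (nat_lit 152) (nat_lit 116027619582) (nat_lit 0) (nat_lit 391192018004) (nat_lit 8) (nat_lit 5) (nat_lit 10) (nat_lit 4) (nat_lit 8) (nat_lit 4) (nat_lit 492) (nat_lit 429) (nat_lit 279)) (XT.nd (nat_lit 78) (nat_lit 0) (nat_lit 0) (XT.lf (nat_lit 0) (nat_lit 179191871348)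 (nat_lit 76) (nat_lit 493401768061) (nat_lit 76) (nat_lit 393528666671) (nat_lit 7) (nat_lit 4) (nat_lit 8) (nat_lit 5) (nat_lit 8) (nat_lit 4) (nat_lit 493) (nat_lit 429) (nat_lit 278)) (XT.lf (nat_lit 0) (nat_lit 504627084924) (nat_lit 76) (nat_lit 367189622167) (nat_lit 76) (nat_lit 267316454382) (nat_lit 7) (nat_lit 4) (nat_lit 8) (nat_lit 5) (nat_lit 8) (nat_lit 4) (nat_lit 494) (nat_lit 429) (nat_lit 277)))))) (XT.nd (nat_lit 390) (nat_lit 76) (nat_lit 0) (XT.nd (nat_lit 156) (nat_lit 76) (nat_lit 0) (XT.nd (nat_lit 78) (nat_lit 76) (nat_lit 0) (XT.lf (nat_lit 0) (nat_lit 856096717285) (nat_lit 76) (nat_lit 230880706496) (nat_lit 76) (nat_lit 131007477235) (nat_lit 7) (nat_lit 4) (nat_lit 8) (nat_lit 5) (nat_lit 8) (nat_lit 4) (nat_lit 495) (nat_lit 429) (nat_lit 276)) (XT.lf (nat_lit 0) (nat_lit 15395330831) (nat_lit 152) (nat_lit 67850998054) (nat_lit 76) (nat_lit 1219867284979)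 (nat_lit 6) (nat_lit 5) (nat_lit 8) (nat_lit 5) (nat_lit 7) (nat_lit 4) (nat_lit 496) (nat_lit 429) (nat_lit 275))) (XT.nd (nat_lit 78) (nat_lit 0) (nat_lit 0) (XT.lf (nat_lit 0) (nat_lit 174750906052) (nat_lit 152) (nat_lit 1137088434172) (nat_lit 0) (nat_lit 82275592265) (nat_lit 5) (nat_lit 5) (nat_lit 7) (nat_lit 4) (nat_lit 5) (nat_lit 4) (nat_lit 497) (nat_lit 429) (nat_lit 274)) (XT.nd (nat_lit 78) (nat_lit 0) (nat_lit 0) (XT.lf (nat_lit 0) (nat_lit 350920349912) (nat_lit 152) (nat_lit 882705781951) (nat_lit 0) (nat_lit 258444990939) (nat_lit 5) (nat_lit 5) (nat_lit 7) (nat_lit 4) (nat_lit 5) (nat_lit 4) (nat_lit 498) (nat_lit 429) (nat_lit 273)) (XT.lf (nat_lit 0) (nat_lit 541183189689) (nat_lit 152) (nat_lit 607972842548) (nat_lit 0) (nat_lit 448707788876) (nat_lit 5) (nat_lit 5) (nat_lit 7) (nat_lit 4) (nat_lit 5) (nat_lit 4) (nat_lit 499) (nat_lit 429) (nat_lit 272))))) (XT.nd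 (nat_lit 234) (nat_lit 0) (nat_lit 0) (XT.nd (nat_lit 78) (nat_lit 76) (nat_lit 0) (XT.lf (nat_lit 0) (nat_lit 746666908878) (nat_lit 152) (nat_lit 311261568914) (nat_lit 0) (nat_lit 654191469324) (nat_lit 5) (nat_lit 5) (nat_lit 7) (nat_lit 4) (nat_lit 5) (nat_lit 4) (nat_lit 500) (nat_lit 429) (nat_lit 271)) (XT.nd (nat_lit 78) (nat_lit 0) (nat_lit 0) (XT.lf (nat_lit 0) (nat_lit 9670063731) (nat_lit 76) (nat_lit 959151690310) (nat_lit 76) (nat_lit 866676214886) (nat_lit 4) (nat_lit 4) (nat_lit 5) (nat_lit 5) (nat_lit 5) (nat_lit 4) (nat_lit 501) (nat_lit 429) (nat_lit 270)) (XT.lf (nat_lit 0) (nat_lit 373977676636) (nat_lit 76) (nat_lit 843281619858) (nat_lit 76) (nat_lit 750806111220) (nat_lit 4) (nat_lit 4) (nat_lit 5) (nat_lit 5) (nat_lit 5) (nat_lit 4) (nat_lit 502) (nat_lit 429) (nat_lit 269)))) (XT.nd (nat_lit 78) (nat_lit 0) (nat_lit 0) (XT.lf (nat_lit 0) (nat_lit 767429647113)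 (nat_lit 76) (nat_lit 718142071878) (nat_lit 76) (nat_lit 625666532486) (nat_lit 4) (nat_lit 4) (nat_lit 5) (nat_lit 5) (nat_lit 5) (nat_lit 4) (nat_lit 503) (nat_lit 429) (nat_lit 268)) (XT.nd (nat_lit 78) (nat_lit 0) (nat_lit 0) (XT.lf (nat_lit 0) (nat_lit 1192357542395) (nat_lit 76) (nat_lit 582991478677) (nat_lit 76) (nat_lit 490515910810) (nat_lit 4) (nat_lit 4) (nat_lit 5) (nat_lit 5) (nat_lit 5) (nat_lit 4) (nat_lit 504) (nat_lit 429) (nat_lit 267)) (XT.lf (nat_lit 0) (nat_lit 1651279453712) (nat_lit 76) (nat_lit 437028947852) (nat_lit 76) (nat_lit 344553353619) (nat_lit 4) (nat_lit 4) (nat_lit 5) (nat_lit 5) (nat_lit 5) (nat_lit 4) (nat_lit 505) (nat_lit 429) (nat_lit 266))))))) (XT.nd (nat_lit 858) (nat_lit 76) (nat_lit 0) (XT.nd (nat_lit 390) (nat_lit 0) (nat_lit 0) (XT.nd (nat_lit 156) (nat_lit 152) (nat_lit 0) (XT.nd (nat_lit 78) (nat_lit 0) (nat_lit 0) (XT.lf (nat_lit 0) (nat_lit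 2146914918318) (nat_lit 76) (nat_lit 279389516257) (nat_lit 76) (nat_lit 186913897611) (nat_lit 4) (nat_lit 4) (nat_lit 5) (nat_lit 5) (nat_lit 5) (nat_lit 4) (nat_lit 506) (nat_lit 429) (nat_lit 265)) (XT.lf (nat_lit 0) (nat_lit 2682201035261) (nat_lit 76) (nat_lit 109139024298) (nat_lit 76) (nat_lit 16663383046) (nat_lit 4) (nat_lit 4) (nat_lit 5) (nat_lit 5) (nat_lit 5) (nat_lit 4) (nat_lit 507) (nat_lit 429) (nat_lit 264))) (XT.nd (nat_lit 78) (nat_lit 0) (nat_lit 0) (XT.lf (nat_lit 0) (nat_lit 166924115951) (nat_lit 152) (nat_lit 2769180530307) (nat_lit 0) (nat_lit 81298502820) (nat_lit 2) (nat_lit 5) (nat_lit 4) (nat_lit 4) (nat_lit 2) (nat_lit 4) (nat_lit 508) (nat_lit 429) (nat_lit 263)) (XT.nd (nat_lit 78) (nat_lit 0) (nat_lit 0) (XT.lf (nat_lit 0) (nat_lit 370662055844) (nat_lit 152) (nat_lit 2587312630531) (nat_lit 0) (nat_lit 285036424769) (nat_lit 2) (nat_lit 5) (nat_lit 4)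 (nat_lit 4) (nat_lit 2) (nat_lit 4) (nat_lit 509) (nat_lit 429) (nat_lit 262)) (XT.lf (nat_lit 0) (nat_lit 590698951323) (nat_lit 152) (nat_lit 2390895461589) (nat_lit 0) (nat_lit 505073303633) (nat_lit 2) (nat_lit 5) (nat_lit 4) (nat_lit 4) (nat_lit 2) (nat_lit 4) (nat_lit 510) (nat_lit 429) (nat_lit 261))))) (XT.nd (nat_lit 234) (nat_lit 0) (nat_lit 0) (XT.nd (nat_lit 78) (nat_lit 0) (nat_lit 0) (XT.lf (nat_lit 0) (nat_lit 828338724732) (nat_lit 152) (nat_lit 2178765069887) (nat_lit 0) (nat_lit 742713061657) (nat_lit 2) (nat_lit 5) (nat_lit 4) (nat_lit 4) (nat_lit 2) (nat_lit 4) (nat_lit 511) (nat_lit 429) (nat_lit 260)) (XT.nd (nat_lit 78) (nat_lit 0) (nat_lit 0) (XT.lf (nat_lit 0) (nat_lit 1084989611765) (nat_lit 152) (nat_lit 1949664386439) (nat_lit 0) (nat_lit 999363934445) (nat_lit 2) (nat_lit 5) (nat_lit 4) (nat_lit 4) (nat_lit 2) (nat_lit 4) (nat_lit 512) (nat_lit 429) (nat_lit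 259)) (XT.lf (nat_lit 0) (nat_lit 1362172506567) (nat_lit 152) (nat_lit 1702235777563) (nat_lit 0) (nat_lit 1276546816058) (nat_lit 2) (nat_lit 5) (nat_lit 4) (nat_lit 4) (nat_lit 2) (nat_lit 4) (nat_lit 513) (nat_lit 429) (nat_lit 258)))) (XT.nd (nat_lit 78) (nat_lit 0) (nat_lit 0) (XT.lf (nat_lit 0) (nat_lit 1661529974441) (nat_lit 152) (nat_lit 1435012999652) (nat_lit 0) (nat_lit 1575904271719) (nat_lit 2) (nat_lit 5) (nat_lit 4) (nat_lit 4) (nat_lit 2) (nat_lit 4) (nat_lit 514) (nat_lit 429) (nat_lit 257)) (XT.nd (nat_lit 78) (nat_lit 0) (nat_lit 0) (XT.lf (nat_lit 0) (nat_lit 1984835985567) (nat_lit 152) (nat_lit 1146412510319) (nat_lit 0) (nat_lit 1899210271537) (nat_lit 2) (nat_lit 5) (nat_lit 4) (nat_lit 4) (nat_lit 2) (nat_lit 4) (nat_lit 515) (nat_lit 429) (nat_lit 256)) (XT.lf (nat_lit 0) (nat_lit 2334006427418) (nat_lit 152) (nat_lit 834724084441) (nat_lit 0) (nat_lit 2248380702918)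 (nat_lit 2) (nat_lit 5) (nat_lit 4) (nat_lit 4) (nat_lit 2) (nat_lit 4) (nat_lit 516) (nat_lit 429) (nat_lit 255)))))) (XT.nd (nat_lit 468) (nat_lit 0) (nat_lit 0) (XT.nd (nat_lit 234) (nat_lit 0) (nat_lit 0) (XT.nd (nat_lit 78) (nat_lit 76) (nat_lit 0) (XT.lf (nat_lit 0) (nat_lit 2711110458169) (nat_lit 152) (nat_lit 498100679495) (nat_lit 0) (nat_lit 2625484723974) (nat_lit 2) (nat_lit 5) (nat_lit 4) (nat_lit 4) (nat_lit 2) (nat_lit 4) (nat_lit 517) (nat_lit 429) (nat_lit 254)) (XT.nd (nat_lit 78) (nat_lit 76) (nat_lit 0) (XT.lf (nat_lit 0) (nat_lit 3118382768371) (nat_lit 152) (nat_lit 134547490118) (nat_lit 0) (nat_lit 3032757025199) (nat_lit 2) (nat_lit 5) (nat_lit 4) (nat_lit 4) (nat_lit 2) (nat_lit 4) (nat_lit 518) (nat_lit 429) (nat_lit 253)) (XT.lf (nat_lit 0) (nat_lit 271680428296) (nat_lit 76) (nat_lit 3293090316105) (nat_lit 76) (nat_lit 3207464564621) (nat_lit 1) (nat_lit 4)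 (nat_lit 2) (nat_lit 5) (nat_lit 2) (nat_lit 4) (nat_lit 519) (nat_lit 429) (nat_lit 252)))) (XT.nd (nat_lit 78) (nat_lit 0) (nat_lit 0) (XT.lf (nat_lit 0) (nat_lit 718058335779) (nat_lit 76) (nat_lit 3332490150771) (nat_lit 76) (nat_lit 3246864391591) (nat_lit 1) (nat_lit 4) (nat_lit 2) (nat_lit 5) (nat_lit 2) (nat_lit 4) (nat_lit 520) (nat_lit 429) (nat_lit 251)) (XT.nd (nat_lit 78) (nat_lit 0) (nat_lit 0) (XT.lf (nat_lit 0) (nat_lit 1200146402354) (nat_lit 76) (nat_lit 3375042009807) (nat_lit 76) (nat_lit 3289416243502) (nat_lit 1) (nat_lit 4) (nat_lit 2) (nat_lit 5) (nat_lit 2) (nat_lit 4) (nat_lit 521) (nat_lit 429) (nat_lit 250)) (XT.lf (nat_lit 0) (nat_lit 1720801446194) (nat_lit 76) (nat_lit 3420998052379) (nat_lit 76) (nat_lit 3335372279476) (nat_lit 1) (nat_lit 4) (nat_lit 2) (nat_lit 5) (nat_lit 2) (nat_lit 4) (nat_lit 522) (nat_lit 429) (nat_lit 249))))) (XT.nd (nat_lit 55224)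 (nat_lit 0) (nat_lit 5168) (XT.nd (nat_lit 78) (nat_lit 0) (nat_lit 0) (XT.lf (nat_lit 0) (nat_lit 2283108830522) (nat_lit 76) (nat_lit 3470630610590) (nat_lit 76) (nat_lit 3385004831577) (nat_lit 1) (nat_lit 4) (nat_lit 2) (nat_lit 5) (nat_lit 2) (nat_lit 4) (nat_lit 523) (nat_lit 429) (nat_lit 248)) (XT.nd (nat_lit 78) (nat_lit 0) (nat_lit 0) (XT.lf (nat_lit 0) (nat_lit 2890400747243) (nat_lit 76) (nat_lit 3524233803303) (nat_lit 76) (nat_lit 3438608018634) (nat_lit 1) (nat_lit 4) (nat_lit 2) (nat_lit 5) (nat_lit 2) (nat_lit 4) (nat_lit 524) (nat_lit 429) (nat_lit 247)) (XT.lf (nat_lit 0) (nat_lit 3546275963274) (nat_lit 76) (nat_lit 3582125279069) (nat_lit 76) (nat_lit 3496499489162) (nat_lit 1) (nat_lit 4) (nat_lit 2) (nat_lit 5) (nat_lit 2) (nat_lit 4) (nat_lit 525) (nat_lit 429) (nat_lit 246)))) (XT.nd (nat_lit 78) (nat_lit 0) (nat_lit 0) (XT.lf (nat_lit 0) (nat_lit 18588271884) (nat_lit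 532) (nat_lit 937477476) (nat_lit 532) (nat_lit 937477476) (nat_lit 69) (nat_lit 3) (nat_lit 76) (nat_lit 3) (nat_lit 76) (nat_lit 5) (nat_lit 430) (nat_lit 430) (nat_lit 340)) (XT.nd (nat_lit 78) (nat_lit 0) (nat_lit 76) (XT.lf (nat_lit 76) (nat_lit 19137166060) (nat_lit 0) (nat_lit 20023400670) (nat_lit 532) (nat_lit 3363163493) (nat_lit 70) (nat_lit 5) (nat_lit 69) (nat_lit 3) (nat_lit 76) (nat_lit 5) (nat_lit 431) (nat_lit 430) (nat_lit 339)) (XT.lf (nat_lit 0) (nat_lit 41364896814) (nat_lit 456) (nat_lit 2324233987) (nat_lit 532) (nat_lit 554733747) (nat_lit 70) (nat_lit 5) (nat_lit 76) (nat_lit 5) (nat_lit 77) (nat_lit 5) (nat_lit 432) (nat_lit 430) (nat_lit 338))))))))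
noncomputable def xc168 : XT := (XT.nd (nat_lit 1716) (nat_lit 1520) (nat_lit 0) (XT.nd (nat_lit 858) (nat_lit 1216) (nat_lit 0) (XT.nd (nat_lit 390) (nat_lit 760) (nat_lit 0) (XT.nd (nat_lit 156) (nat_lit 0) (nat_lit 76) (XT.nd (nat_lit 78) (nat_lit 532) (nat_lit 0) (XT.lf (nat_lit 76) (nat_lit 20948683403) (nat_lit 0) (nat_lit 23817383549) (nat_lit 532) (nat_lit 1253905462) (nat_lit 71) (nat_lit 5) (nat_lit 70) (nat_lit 5) (nat_lit 77) (nat_lit 5) (nat_lit 433) (nat_lit 430) (nat_lit 337)) (XT.lf (nat_lit 0) (nat_lit 537994456) (nat_lit 532) (nat_lit 1733540625) (nat_lit 608) (nat_lit 45660719330) (nat_lit 63) (nat_lit 5) (nat_lit 70) (nat_lit 5) (nat_lit 71) (nat_lit 5) (nat_lit 434) (nat_lit 430) (nat_lit 336))) (XT.nd (nat_lit 78) (nat_lit 0) (nat_lit 0) (XT.lf (nat_lit 0) (nat_lit 3517058584) (nat_lit 532) (nat_lit 25798383551) (nat_lit 608) (nat_lit 20590548675) (nat_lit 64) (nat_lit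 5) (nat_lit 71) (nat_lit 5) (nat_lit 72) (nat_lit 5) (nat_lit 435) (nat_lit 430) (nat_lit 335)) (XT.nd (nat_lit 78) (nat_lit 0) (nat_lit 76) (XT.lf (nat_lit 76) (nat_lit 19139792) (nat_lit 0) (nat_lit 6820538697) (nat_lit 608) (nat_lit 45189530864) (nat_lit 65) (nat_lit 5) (nat_lit 64) (nat_lit 5) (nat_lit 72) (nat_lit 5) (nat_lit 436) (nat_lit 430) (nat_lit 334)) (XT.lf (nat_lit 0) (nat_lit 11569357206) (nat_lit 532) (nat_lit 25337736899) (nat_lit 76) (nat_lit 17323892892) (nat_lit 65) (nat_lit 5) (nat_lit 72) (nat_lit 5) (nat_lit 66) (nat_lit 5) (nat_lit 437) (nat_lit 430) (nat_lit 333))))) (XT.nd (nat_lit 234) (nat_lit 228) (nat_lit 0) (XT.nd (nat_lit 78) (nat_lit 228) (nat_lit 0) (XT.lf (nat_lit 0) (nat_lit 3462047397) (nat_lit 456) (nat_lit 13473286827) (nat_lit 532) (nat_lit 39652940151) (nat_lit 59) (nat_lit 5) (nat_lit 65) (nat_lit 5) (nat_lit 66) (nat_lit 5) (nat_lit 438) (nat_lit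 430) (nat_lit 332)) (XT.nd (nat_lit 78) (nat_lit 228) (nat_lit 0) (XT.lf (nat_lit 0) (nat_lit 23723635467) (nat_lit 532) (nat_lit 23377056164) (nat_lit 76) (nat_lit 11954010763) (nat_lit 59) (nat_lit 5) (nat_lit 66) (nat_lit 5) (nat_lit 60) (nat_lit 5) (nat_lit 439) (nat_lit 430) (nat_lit 331)) (XT.lf (nat_lit 0) (nat_lit 8842099320) (nat_lit 228) (nat_lit 22773320559) (nat_lit 304) (nat_lit 30058192485) (nat_lit 56) (nat_lit 5) (nat_lit 59) (nat_lit 5) (nat_lit 60) (nat_lit 5) (nat_lit 440) (nat_lit 430) (nat_lit 330)))) (XT.nd (nat_lit 78) (nat_lit 228) (nat_lit 0) (XT.lf (nat_lit 0) (nat_lit 40876414598) (nat_lit 304) (nat_lit 19585839179) (nat_lit 76) (nat_lit 3980753096) (nat_lit 56) (nat_lit 5) (nat_lit 60) (nat_lit 5) (nat_lit 57) (nat_lit 5) (nat_lit 441) (nat_lit 430) (nat_lit 329)) (XT.nd (nat_lit 78) (nat_lit 0) (nat_lit 0) (XT.lf (nat_lit 0) (nat_lit 16553826055) (nat_lit 228)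 (nat_lit 35312166763) (nat_lit 304) (nat_lit 15488944869) (nat_lit 53) (nat_lit 5) (nat_lit 56) (nat_lit 5) (nat_lit 57) (nat_lit 5) (nat_lit 442) (nat_lit 430) (nat_lit 328)) (XT.lf (nat_lit 0) (nat_lit 56696348030) (nat_lit 228) (nat_lit 7572060593) (nat_lit 304) (nat_lit 6188721620) (nat_lit 53) (nat_lit 5) (nat_lit 56) (nat_lit 5) (nat_lit 57) (nat_lit 5) (nat_lit 443) (nat_lit 430) (nat_lit 327)))))) (XT.nd (nat_lit 390) (nat_lit 608) (nat_lit 0) (XT.nd (nat_lit 156) (nat_lit 380) (nat_lit 0) (XT.nd (nat_lit 78) (nat_lit 0) (nat_lit 0) (XT.lf (nat_lit 0) (nat_lit 4880882651) (nat_lit 228) (nat_lit 46780430642) (nat_lit 76) (nat_lit 22041309174) (nat_lit 50) (nat_lit 5) (nat_lit 53) (nat_lit 5) (nat_lit 51) (nat_lit 5) (nat_lit 444) (nat_lit 430) (nat_lit 326)) (XT.lf (nat_lit 0) (nat_lit 17082718849) (nat_lit 228) (nat_lit 5904641756) (nat_lit 76) (nat_lit 54161053339) (nat_lit 50)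 (nat_lit 5) (nat_lit 53) (nat_lit 5) (nat_lit 51) (nat_lit 5) (nat_lit 445) (nat_lit 430) (nat_lit 325))) (XT.nd (nat_lit 78) (nat_lit 152) (nat_lit 0) (XT.lf (nat_lit 0) (nat_lit 31444293762) (nat_lit 304) (nat_lit 40756815965) (nat_lit 76) (nat_lit 8574072388) (nat_lit 47) (nat_lit 5) (nat_lit 51) (nat_lit 5) (nat_lit 48) (nat_lit 5) (nat_lit 446) (nat_lit 430) (nat_lit 324)) (XT.nd (nat_lit 78) (nat_lit 0) (nat_lit 0) (XT.lf (nat_lit 0) (nat_lit 4914329235) (nat_lit 152) (nat_lit 42919868225) (nat_lit 228) (nat_lit 36787542723) (nat_lit 45) (nat_lit 5) (nat_lit 47) (nat_lit 5) (nat_lit 48) (nat_lit 5) (nat_lit 447) (nat_lit 430) (nat_lit 323)) (XT.lf (nat_lit 0) (nat_lit 56555016499) (nat_lit 152) (nat_lit 10093204821) (nat_lit 228) (nat_lit 22038767966) (nat_lit 45) (nat_lit 5) (nat_lit 47) (nat_lit 5) (nat_lit 48) (nat_lit 5) (nat_lit 448) (nat_lit 430) (nat_lit 322))))) (XT.nd (nat_lit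 234) (nat_lit 228) (nat_lit 0) (XT.nd (nat_lit 78) (nat_lit 228) (nat_lit 0) (XT.lf (nat_lit 0) (nat_lit 19619056802) (nat_lit 152) (nat_lit 68428705363) (nat_lit 228) (nat_lit 4943265119) (nat_lit 43) (nat_lit 5) (nat_lit 45) (nat_lit 5) (nat_lit 46) (nat_lit 5) (nat_lit 449) (nat_lit 430) (nat_lit 321)) (XT.nd (nat_lit 78) (nat_lit 152) (nat_lit 0) (XT.lf (nat_lit 0) (nat_lit 14005761285) (nat_lit 228) (nat_lit 20843685920) (nat_lit 76) (nat_lit 62670953146) (nat_lit 42) (nat_lit 5) (nat_lit 45) (nat_lit 5) (nat_lit 43) (nat_lit 5) (nat_lit 450) (nat_lit 430) (nat_lit 320)) (XT.lf (nat_lit 0) (nat_lit 35168541941) (nat_lit 228) (nat_lit 64750919783) (nat_lit 76) (nat_lit 2405198525) (nat_lit 40) (nat_lit 5) (nat_lit 43) (nat_lit 5) (nat_lit 41) (nat_lit 5) (nat_lit 451) (nat_lit 430) (nat_lit 319)))) (XT.nd (nat_lit 78) (nat_lit 228) (nat_lit 0) (XT.lf (nat_lit 0) (nat_lit 59513038994)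 (nat_lit 228) (nat_lit 6539567501) (nat_lit 76) (nat_lit 41341559351) (nat_lit 40) (nat_lit 5) (nat_lit 43) (nat_lit 5) (nat_lit 41) (nat_lit 5) (nat_lit 452) (nat_lit 430) (nat_lit 318)) (XT.nd (nat_lit 78) (nat_lit 76) (nat_lit 0) (XT.lf (nat_lit 0) (nat_lit 59293034045) (nat_lit 152) (nat_lit 27936956494) (nat_lit 228) (nat_lit 25525250162) (nat_lit 38) (nat_lit 5) (nat_lit 40) (nat_lit 5) (nat_lit 41) (nat_lit 5) (nat_lit 453) (nat_lit 430) (nat_lit 317)) (XT.lf (nat_lit 0) (nat_lit 12535809846) (nat_lit 76) (nat_lit 105430476682) (nat_lit 152) (nat_lit 514756311) (nat_lit 37) (nat_lit 5) (nat_lit 38) (nat_lit 5) (nat_lit 39) (nat_lit 4) (nat_lit 454) (nat_lit 430) (nat_lit 316))))))) (XT.nd (nat_lit 858) (nat_lit 684) (nat_lit 0) (XT.nd (nat_lit 390) (nat_lit 304) (nat_lit 0) (XT.nd (nat_lit 156) (nat_lit 304) (nat_lit 0) (XT.nd (nat_lit 78) (nat_lit 152) (nat_lit 0) (XT.lf (nat_lit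 0) (nat_lit 27395398225) (nat_lit 152) (nat_lit 39096479202) (nat_lit 76) (nat_lit 57944109585) (nat_lit 36) (nat_lit 5) (nat_lit 38) (nat_lit 5) (nat_lit 37) (nat_lit 5) (nat_lit 455) (nat_lit 430) (nat_lit 315)) (XT.lf (nat_lit 0) (nat_lit 34827367240) (nat_lit 152) (nat_lit 23519798727) (nat_lit 228) (nat_lit 72452162530) (nat_lit 34) (nat_lit 5) (nat_lit 36) (nat_lit 5) (nat_lit 37) (nat_lit 5) (nat_lit 456) (nat_lit 430) (nat_lit 314))) (XT.nd (nat_lit 78) (nat_lit 304) (nat_lit 0) (XT.lf (nat_lit 0) (nat_lit 93421344798) (nat_lit 228) (nat_lit 21277581317) (nat_lit 76) (nat_lit 22841109877) (nat_lit 34) (nat_lit 5) (nat_lit 37) (nat_lit 5) (nat_lit 35) (nat_lit 4) (nat_lit 457) (nat_lit 430) (nat_lit 313)) (XT.nd (nat_lit 78) (nat_lit 228) (nat_lit 0) (XT.lf (nat_lit 0) (nat_lit 61875151328) (nat_lit 76) (nat_lit 71524412218) (nat_lit 152) (nat_lit 11252588337) (nat_lit 33) (nat_lit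 5) (nat_lit 34) (nat_lit 5) (nat_lit 35) (nat_lit 4) (nat_lit 458) (nat_lit 430) (nat_lit 312)) (XT.lf (nat_lit 0) (nat_lit 3982630) (nat_lit 152) (nat_lit 23622180837) (nat_lit 228) (nat_lit 128612743878) (nat_lit 30) (nat_lit 5) (nat_lit 32) (nat_lit 5) (nat_lit 33) (nat_lit 5) (nat_lit 459) (nat_lit 430) (nat_lit 311))))) (XT.nd (nat_lit 234) (nat_lit 228) (nat_lit 0) (XT.nd (nat_lit 78) (nat_lit 76) (nat_lit 0) (XT.lf (nat_lit 0) (nat_lit 63684563800) (nat_lit 228) (nat_lit 67165218629) (nat_lit 76) (nat_lit 29319656574) (nat_lit 30) (nat_lit 5) (nat_lit 33) (nat_lit 5) (nat_lit 31) (nat_lit 4) (nat_lit 460) (nat_lit 430) (nat_lit 310)) (XT.nd (nat_lit 78) (nat_lit 0) (nat_lit 0) (XT.lf (nat_lit 0) (nat_lit 25363857597) (nat_lit 76) (nat_lit 82806532459) (nat_lit 152) (nat_lit 60466203007) (nat_lit 29) (nat_lit 5) (nat_lit 30) (nat_lit 5) (nat_lit 31) (nat_lit 4) (nat_lit 461) (nat_lit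 430) (nat_lit 309)) (XT.lf (nat_lit 0) (nat_lit 129113595939) (nat_lit 76) (nat_lit 28937118101) (nat_lit 152) (nat_lit 19583555044) (nat_lit 29) (nat_lit 5) (nat_lit 30) (nat_lit 5) (nat_lit 31) (nat_lit 4) (nat_lit 462) (nat_lit 430) (nat_lit 308)))) (XT.nd (nat_lit 78) (nat_lit 76) (nat_lit 0) (XT.lf (nat_lit 0) (nat_lit 25440803790) (nat_lit 152) (nat_lit 131928615042) (nat_lit 76) (nat_lit 29767054326) (nat_lit 27) (nat_lit 5) (nat_lit 29) (nat_lit 5) (nat_lit 28) (nat_lit 4) (nat_lit 463) (nat_lit 430) (nat_lit 307)) (XT.nd (nat_lit 78) (nat_lit 76) (nat_lit 0) (XT.lf (nat_lit 0) (nat_lit 75121067711) (nat_lit 152) (nat_lit 28594726283) (nat_lit 76) (nat_lit 93473408432) (nat_lit 27) (nat_lit 5) (nat_lit 29) (nat_lit 5) (nat_lit 28) (nat_lit 4) (nat_lit 464) (nat_lit 430) (nat_lit 306)) (XT.lf (nat_lit 0) (nat_lit 87375495923) (nat_lit 76) (nat_lit 43500958264) (nat_lit 152) (nat_lit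 77001639857) (nat_lit 26) (nat_lit 5) (nat_lit 27) (nat_lit 5) (nat_lit 28) (nat_lit 4) (nat_lit 465) (nat_lit 430) (nat_lit 305)))))) (XT.nd (nat_lit 468) (nat_lit 304) (nat_lit 0) (XT.nd (nat_lit 234) (nat_lit 152) (nat_lit 0) (XT.nd (nat_lit 78) (nat_lit 228) (nat_lit 0) (XT.lf (nat_lit 0) (nat_lit 192411558202) (nat_lit 152) (nat_lit 5649398638) (nat_lit 0) (nat_lit 21255597335) (nat_lit 26) (nat_lit 5) (nat_lit 28) (nat_lit 4) (nat_lit 26) (nat_lit 4) (nat_lit 466) (nat_lit 430) (nat_lit 304)) (XT.nd (nat_lit 78) (nat_lit 76) (nat_lit 0) (XT.lf (nat_lit 0) (nat_lit 30043099175) (nat_lit 152) (nat_lit 108667093859) (nat_lit 76) (nat_lit 92571219094) (nat_lit 24) (nat_lit 5) (nat_lit 26) (nat_lit 5) (nat_lit 25) (nat_lit 4) (nat_lit 467) (nat_lit 430) (nat_lit 303)) (XT.lf (nat_lit 0) (nat_lit 17437602371) (nat_lit 76) (nat_lit 73233101507) (nat_lit 152) (nat_lit 153430669998) (nat_lit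 23) (nat_lit 5) (nat_lit 24) (nat_lit 5) (nat_lit 25) (nat_lit 4) (nat_lit 468) (nat_lit 430) (nat_lit 302)))) (XT.nd (nat_lit 78) (nat_lit 152) (nat_lit 0) (XT.lf (nat_lit 0) (nat_lit 159135671176) (nat_lit 152) (nat_lit 97916367774) (nat_lit 0) (nat_lit 655921360) (nat_lit 23) (nat_lit 5) (nat_lit 25) (nat_lit 4) (nat_lit 23) (nat_lit 4) (nat_lit 469) (nat_lit 430) (nat_lit 301)) (XT.nd (nat_lit 78) (nat_lit 76) (nat_lit 0) (XT.lf (nat_lit 0) (nat_lit 41293234879) (nat_lit 76) (nat_lit 194679293049) (nat_lit 76) (nat_lit 36198970442) (nat_lit 22) (nat_lit 4) (nat_lit 23) (nat_lit 5) (nat_lit 23) (nat_lit 4) (nat_lit 470) (nat_lit 430) (nat_lit 300)) (XT.lf (nat_lit 0) (nat_lit 32351430941) (nat_lit 152) (nat_lit 91189876611) (nat_lit 76) (nat_lit 163971157792) (nat_lit 21) (nat_lit 5) (nat_lit 23) (nat_lit 5) (nat_lit 22) (nat_lit 4) (nat_lit 471) (nat_lit 430) (nat_lit 299))))) (XT.nd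 (nat_lit 234) (nat_lit 152) (nat_lit 0) (XT.nd (nat_lit 78) (nat_lit 76) (nat_lit 0) (XT.lf (nat_lit 0) (nat_lit 61825077797) (nat_lit 76) (nat_lit 44091471165) (nat_lit 152) (nat_lit 197970032602) (nat_lit 20) (nat_lit 5) (nat_lit 21) (nat_lit 5) (nat_lit 22) (nat_lit 4) (nat_lit 472) (nat_lit 430) (nat_lit 298)) (XT.nd (nat_lit 78) (nat_lit 76) (nat_lit 0) (XT.lf (nat_lit 0) (nat_lit 188927639622) (nat_lit 152) (nat_lit 90172893087) (nat_lit 0) (nat_lit 42185233375) (nat_lit 20) (nat_lit 5) (nat_lit 22) (nat_lit 4) (nat_lit 20) (nat_lit 4) (nat_lit 473) (nat_lit 430) (nat_lit 297)) (XT.lf (nat_lit 0) (nat_lit 76549973262) (nat_lit 76) (nat_lit 205015422969) (nat_lit 76) (nat_lit 58272626890) (nat_lit 19) (nat_lit 4) (nat_lit 20) (nat_lit 5) (nat_lit 20) (nat_lit 4) (nat_lit 474) (nat_lit 430) (nat_lit 296)))) (XT.nd (nat_lit 78) (nat_lit 76) (nat_lit 0) (XT.lf (nat_lit 0) (nat_lit 23181247983)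 (nat_lit 152) (nat_lit 98526161230) (nat_lit 76) (nat_lit 237922900801) (nat_lit 18) (nat_lit 5) (nat_lit 20) (nat_lit 5) (nat_lit 19) (nat_lit 4) (nat_lit 475) (nat_lit 430) (nat_lit 295)) (XT.nd (nat_lit 78) (nat_lit 0) (nat_lit 0) (XT.lf (nat_lit 0) (nat_lit 82004425520) (nat_lit 76) (nat_lit 27970534467) (nat_lit 152) (nat_lit 270752192929) (nat_lit 17) (nat_lit 5) (nat_lit 18) (nat_lit 5) (nat_lit 19) (nat_lit 4) (nat_lit 476) (nat_lit 430) (nat_lit 294)) (XT.lf (nat_lit 0) (nat_lit 208237608440) (nat_lit 152) (nat_lit 122548380801) (nat_lit 0) (nat_lit 72363718889) (nat_lit 17) (nat_lit 5) (nat_lit 19) (nat_lit 4) (nat_lit 17) (nat_lit 4) (nat_lit 477) (nat_lit 430) (nat_lit 293))))))))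
noncomputable def xc169 : XT := (XT.nd (nat_lit 1716) (nat_lit 304) (nat_lit 0) (XT.nd (nat_lit 858) (nat_lit 380) (nat_lit 0) (XT.nd (nat_lit 390) (nat_lit 304) (nat_lit 0) (XT.nd (nat_lit 156) (nat_lit 152) (nat_lit 0) (XT.nd (nat_lit 78) (nat_lit 0) (nat_lit 0) (XT.lf (nat_lit 0) (nat_lit 70520307970) (nat_lit 76) (nat_lit 246263072863) (nat_lit 76) (nat_lit 110388917998) (nat_lit 16) (nat_lit 4) (nat_lit 17) (nat_lit 5) (nat_lit 17) (nat_lit 4) (nat_lit 478) (nat_lit 430) (nat_lit 292)) (XT.lf (nat_lit 0) (nat_lit 286003137765) (nat_lit 76) (nat_lit 151359968155) (nat_lit 76) (nat_lit 15485567630) (nat_lit 16) (nat_lit 4) (nat_lit 17) (nat_lit 5) (nat_lit 17) (nat_lit 4) (nat_lit 479) (nat_lit 430) (nat_lit 291))) (XT.nd (nat_lit 78) (nat_lit 0) (nat_lit 0) (XT.lf (nat_lit 0) (nat_lit 37950530498) (nat_lit 76) (nat_lit 45619257236) (nat_lit 152) (nat_lit 396768976469) (nat_lit 14) (nat_lit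 5) (nat_lit 15) (nat_lit 5) (nat_lit 16) (nat_lit 4) (nat_lit 480) (nat_lit 430) (nat_lit 290)) (XT.nd (nat_lit 78) (nat_lit 0) (nat_lit 0) (XT.lf (nat_lit 0) (nat_lit 196042281374) (nat_lit 152) (nat_lit 243215010706) (nat_lit 0) (nat_lit 70232245631) (nat_lit 14) (nat_lit 5) (nat_lit 16) (nat_lit 4) (nat_lit 14) (nat_lit 4) (nat_lit 481) (nat_lit 430) (nat_lit 289)) (XT.lf (nat_lit 0) (nat_lit 318697140909) (nat_lit 152) (nat_lit 29293542307) (nat_lit 0) (nat_lit 192886924598) (nat_lit 14) (nat_lit 5) (nat_lit 16) (nat_lit 4) (nat_lit 14) (nat_lit 4) (nat_lit 482) (nat_lit 430) (nat_lit 288))))) (XT.nd (nat_lit 234) (nat_lit 76) (nat_lit 0) (XT.nd (nat_lit 78) (nat_lit 152) (nat_lit 0) (XT.lf (nat_lit 0) (nat_lit 212364321968) (nat_lit 76) (nat_lit 243907110799) (nat_lit 76) (nat_lit 118096727295) (nat_lit 13) (nat_lit 4) (nat_lit 14) (nat_lit 5) (nat_lit 14) (nat_lit 4) (nat_lit 483)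 (nat_lit 430) (nat_lit 287)) (XT.nd (nat_lit 78) (nat_lit 152) (nat_lit 0) (XT.lf (nat_lit 0) (nat_lit 475020136361) (nat_lit 76) (nat_lit 130632154323) (nat_lit 76) (nat_lit 4821616011) (nat_lit 13) (nat_lit 4) (nat_lit 14) (nat_lit 5) (nat_lit 14) (nat_lit 4) (nat_lit 484) (nat_lit 430) (nat_lit 286)) (XT.lf (nat_lit 0) (nat_lit 111995944982) (nat_lit 76) (nat_lit 2334163976) (nat_lit 152) (nat_lit 534696447563) (nat_lit 11) (nat_lit 5) (nat_lit 12) (nat_lit 5) (nat_lit 13) (nat_lit 4) (nat_lit 485) (nat_lit 430) (nat_lit 285)))) (XT.nd (nat_lit 78) (nat_lit 76) (nat_lit 0) (XT.lf (nat_lit 0) (nat_lit 249829202365) (nat_lit 152) (nat_lit 306920431632) (nat_lit 0) (nat_lit 133337707574) (nat_lit 11) (nat_lit 5) (nat_lit 13) (nat_lit 4) (nat_lit 11) (nat_lit 4) (nat_lit 486) (nat_lit 430) (nat_lit 284)) (XT.nd (nat_lit 78) (nat_lit 76) (nat_lit 0) (XT.lf (nat_lit 0) (nat_lit 396228575119)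 (nat_lit 152) (nat_lit 58462619634) (nat_lit 0) (nat_lit 279736966539) (nat_lit 11) (nat_lit 5) (nat_lit 13) (nat_lit 4) (nat_lit 11) (nat_lit 4) (nat_lit 487) (nat_lit 430) (nat_lit 283)) (XT.lf (nat_lit 0) (nat_lit 220922754675) (nat_lit 76) (nat_lit 338730085245) (nat_lit 76) (nat_lit 222238371305) (nat_lit 10) (nat_lit 4) (nat_lit 11) (nat_lit 5) (nat_lit 11) (nat_lit 4) (nat_lit 488) (nat_lit 430) (nat_lit 282)))))) (XT.nd (nat_lit 390) (nat_lit 228) (nat_lit 0) (XT.nd (nat_lit 156) (nat_lit 76) (nat_lit 0) (XT.nd (nat_lit 78) (nat_lit 76) (nat_lit 0) (XT.lf (nat_lit 0) (nat_lit 525983279334) (nat_lit 76) (nat_lit 211765989737) (nat_lit 76) (nat_lit 95274178242) (nat_lit 10) (nat_lit 4) (nat_lit 11) (nat_lit 5) (nat_lit 11) (nat_lit 4) (nat_lit 489) (nat_lit 430) (nat_lit 281)) (XT.lf (nat_lit 0) (nat_lit 39753550284) (nat_lit 152) (nat_lit 33804517232) (nat_lit 76) (nat_lit 814607699670)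 (nat_lit 9) (nat_lit 5) (nat_lit 11) (nat_lit 5) (nat_lit 10) (nat_lit 4) (nat_lit 490) (nat_lit 430) (nat_lit 280))) (XT.nd (nat_lit 78) (nat_lit 0) (nat_lit 0) (XT.lf (nat_lit 0) (nat_lit 189043477208) (nat_lit 152) (nat_lit 676608914594) (nat_lit 0) (nat_lit 81180527707) (nat_lit 8) (nat_lit 5) (nat_lit 10) (nat_lit 4) (nat_lit 8) (nat_lit 4) (nat_lit 491) (nat_lit 430) (nat_lit 279)) (XT.nd (nat_lit 78) (nat_lit 0) (nat_lit 0) (XT.lf (nat_lit 0) (nat_lit 353135262091) (nat_lit 152) (nat_lit 411557247949) (nat_lit 0) (nat_lit 245272240883) (nat_lit 8) (nat_lit 5) (nat_lit 10) (nat_lit 4) (nat_lit 8) (nat_lit 4) (nat_lit 492) (nat_lit 430) (nat_lit 278)) (XT.lf (nat_lit 0) (nat_lit 530354187992) (nat_lit 152) (nat_lit 125301856619) (nat_lit 0) (nat_lit 422491100390) (nat_lit 8) (nat_lit 5) (nat_lit 10) (nat_lit 4) (nat_lit 8) (nat_lit 4) (nat_lit 493) (nat_lit 430) (nat_lit 277))))) (XT.nd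 (nat_lit 234) (nat_lit 152) (nat_lit 0) (XT.nd (nat_lit 78) (nat_lit 0) (nat_lit 0) (XT.lf (nat_lit 0) (nat_lit 193534991749) (nat_lit 76) (nat_lit 532869970596) (nat_lit 76) (nat_lit 425006821518) (nat_lit 7) (nat_lit 4) (nat_lit 8) (nat_lit 5) (nat_lit 8) (nat_lit 4) (nat_lit 494) (nat_lit 430) (nat_lit 276)) (XT.nd (nat_lit 78) (nat_lit 0) (nat_lit 0) (XT.lf (nat_lit 0) (nat_lit 545004446804) (nat_lit 76) (nat_lit 396561144801) (nat_lit 76) (nat_lit 288697938800) (nat_lit 7) (nat_lit 4) (nat_lit 8) (nat_lit 5) (nat_lit 8) (nat_lit 4) (nat_lit 495) (nat_lit 430) (nat_lit 275)) (XT.lf (nat_lit 0) (nat_lit 924591116785) (nat_lit 76) (nat_lit 249347786035) (nat_lit 76) (nat_lit 141484527328) (nat_lit 7) (nat_lit 4) (nat_lit 8) (nat_lit 5) (nat_lit 8) (nat_lit 4) (nat_lit 496) (nat_lit 430) (nat_lit 274)))) (XT.nd (nat_lit 78) (nat_lit 76) (nat_lit 0) (XT.lf (nat_lit 0) (nat_lit 16630078220)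 (nat_lit 152) (nat_lit 73272744810) (nat_lit 76) (nat_lit 1317459630150) (nat_lit 6) (nat_lit 5) (nat_lit 8) (nat_lit 5) (nat_lit 7) (nat_lit 4) (nat_lit 497) (nat_lit 430) (nat_lit 273)) (XT.nd (nat_lit 78) (nat_lit 0) (nat_lit 0) (XT.lf (nat_lit 0) (nat_lit 188734092120) (nat_lit 152) (nat_lit 1228049168370) (nat_lit 0) (nat_lit 88860617402) (nat_lit 5) (nat_lit 5) (nat_lit 7) (nat_lit 4) (nat_lit 5) (nat_lit 4) (nat_lit 498) (nat_lit 430) (nat_lit 272)) (XT.lf (nat_lit 0) (nat_lit 378996860854) (nat_lit 152) (nat_lit 953316373640) (nat_lit 0) (nat_lit 279123347395) (nat_lit 5) (nat_lit 5) (nat_lit 7) (nat_lit 4) (nat_lit 5) (nat_lit 4) (nat_lit 499) (nat_lit 430) (nat_lit 271))))))) (XT.nd (nat_lit 858) (nat_lit 76) (nat_lit 0) (XT.nd (nat_lit 390) (nat_lit 152) (nat_lit 0) (XT.nd (nat_lit 156) (nat_lit 76) (nat_lit 0) (XT.nd (nat_lit 78) (nat_lit 0) (nat_lit 0) (XT.lf (nat_lit 0) (nat_lit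 584480514261) (nat_lit 152) (nat_lit 656605233963) (nat_lit 0) (nat_lit 484606964931) (nat_lit 5) (nat_lit 5) (nat_lit 7) (nat_lit 4) (nat_lit 5) (nat_lit 4) (nat_lit 500) (nat_lit 430) (nat_lit 270)) (XT.lf (nat_lit 0) (nat_lit 806402733251) (nat_lit 152) (nat_lit 336157461104) (nat_lit 0) (nat_lit 706529150708) (nat_lit 5) (nat_lit 5) (nat_lit 7) (nat_lit 4) (nat_lit 5) (nat_lit 4) (nat_lit 501) (nat_lit 430) (nat_lit 269))) (XT.nd (nat_lit 78) (nat_lit 0) (nat_lit 0) (XT.lf (nat_lit 0) (nat_lit 10448574726) (nat_lit 76) (nat_lit 1035881326203) (nat_lit 76) (nat_lit 936007712906) (nat_lit 4) (nat_lit 4) (nat_lit 5) (nat_lit 5) (nat_lit 5) (nat_lit 4) (nat_lit 502) (nat_lit 430) (nat_lit 268)) (XT.nd (nat_lit 78) (nat_lit 0) (nat_lit 0) (XT.lf (nat_lit 0) (nat_lit 403900433264) (nat_lit 76) (nat_lit 910741835250) (nat_lit 76) (nat_lit 810868193478) (nat_lit 4) (nat_lit 4) (nat_lit 5) (nat_lit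 5) (nat_lit 5) (nat_lit 4) (nat_lit 503) (nat_lit 430) (nat_lit 267)) (XT.lf (nat_lit 0) (nat_lit 828828224898) (nat_lit 76) (nat_lit 775591294854) (nat_lit 76) (nat_lit 675717626715) (nat_lit 4) (nat_lit 4) (nat_lit 5) (nat_lit 5) (nat_lit 5) (nat_lit 4) (nat_lit 504) (nat_lit 430) (nat_lit 266))))) (XT.nd (nat_lit 234) (nat_lit 152) (nat_lit 0) (XT.nd (nat_lit 78) (nat_lit 0) (nat_lit 0) (XT.lf (nat_lit 0) (nat_lit 1287750040246) (nat_lit 76) (nat_lit 629628812921) (nat_lit 76) (nat_lit 529755120369) (nat_lit 4) (nat_lit 4) (nat_lit 5) (nat_lit 5) (nat_lit 5) (nat_lit 4) (nat_lit 505) (nat_lit 430) (nat_lit 265)) (XT.nd (nat_lit 78) (nat_lit 0) (nat_lit 0) (XT.lf (nat_lit 0) (nat_lit 1783385415990) (nat_lit 76) (nat_lit 471989426597) (nat_lit 76) (nat_lit 372115711440) (nat_lit 4) (nat_lit 4) (nat_lit 5) (nat_lit 5) (nat_lit 5) (nat_lit 4) (nat_lit 506) (nat_lit 430) (nat_lit 264)) (XT.lf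 (nat_lit 0) (nat_lit 2318671450654) (nat_lit 76) (nat_lit 301738976554) (nat_lit 76) (nat_lit 201865240468) (nat_lit 4) (nat_lit 4) (nat_lit 5) (nat_lit 5) (nat_lit 5) (nat_lit 4) (nat_lit 507) (nat_lit 430) (nat_lit 263)))) (XT.nd (nat_lit 78) (nat_lit 152) (nat_lit 0) (XT.lf (nat_lit 0) (nat_lit 2896780209629) (nat_lit 76) (nat_lit 117868571238) (nat_lit 76) (nat_lit 17994815772) (nat_lit 4) (nat_lit 4) (nat_lit 5) (nat_lit 5) (nat_lit 5) (nat_lit 4) (nat_lit 508) (nat_lit 430) (nat_lit 262)) (XT.nd (nat_lit 78) (nat_lit 0) (nat_lit 0) (XT.lf (nat_lit 0) (nat_lit 180279598296) (nat_lit 152) (nat_lit 2990711796244) (nat_lit 0) (nat_lit 87803882175) (nat_lit 2) (nat_lit 5) (nat_lit 4) (nat_lit 4) (nat_lit 2) (nat_lit 4) (nat_lit 509) (nat_lit 430) (nat_lit 261)) (XT.lf (nat_lit 0) (nat_lit 400316458339) (nat_lit 152) (nat_lit 2794294699781) (nat_lit 0) (nat_lit 307840726833) (nat_lit 2)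 (nat_lit 5) (nat_lit 4) (nat_lit 4) (nat_lit 2) (nat_lit 4) (nat_lit 510) (nat_lit 430) (nat_lit 260)))))) (XT.nd (nat_lit 468) (nat_lit 76) (nat_lit 0) (XT.nd (nat_lit 234) (nat_lit 0) (nat_lit 0) (XT.nd (nat_lit 78) (nat_lit 0) (nat_lit 0) (XT.lf (nat_lit 0) (nat_lit 637956198936) (nat_lit 152) (nat_lit 2582164375190) (nat_lit 0) (nat_lit 545480453185) (nat_lit 2) (nat_lit 5) (nat_lit 4) (nat_lit 4) (nat_lit 2) (nat_lit 4) (nat_lit 511) (nat_lit 430) (nat_lit 259)) (XT.nd (nat_lit 78) (nat_lit 0) (nat_lit 0) (XT.lf (nat_lit 0) (nat_lit 894607055587) (nat_lit 152) (nat_lit 2353063753880) (nat_lit 0) (nat_lit 802131296647) (nat_lit 2) (nat_lit 5) (nat_lit 4) (nat_lit 4) (nat_lit 2) (nat_lit 4) (nat_lit 512) (nat_lit 430) (nat_lit 258)) (XT.lf (nat_lit 0) (nat_lit 1171789922258) (nat_lit 152) (nat_lit 2105635202541) (nat_lit 0) (nat_lit 1079314151106) (nat_lit 2) (nat_lit 5) (nat_lit 4)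 (nat_lit 4) (nat_lit 2) (nat_lit 4) (nat_lit 513) (nat_lit 430) (nat_lit 257)))) (XT.nd (nat_lit 78) (nat_lit 0) (nat_lit 0) (XT.lf (nat_lit 0) (nat_lit 1471147364085) (nat_lit 152) (nat_lit 1838412477904) (nat_lit 0) (nat_lit 1378671581625) (nat_lit 2) (nat_lit 5) (nat_lit 4) (nat_lit 4) (nat_lit 2) (nat_lit 4) (nat_lit 514) (nat_lit 430) (nat_lit 256)) (XT.nd (nat_lit 78) (nat_lit 0) (nat_lit 0) (XT.lf (nat_lit 0) (nat_lit 1794453351093) (nat_lit 152) (nat_lit 1549812037899) (nat_lit 0) (nat_lit 1701977558163) (nat_lit 2) (nat_lit 5) (nat_lit 4) (nat_lit 4) (nat_lit 2) (nat_lit 4) (nat_lit 515) (nat_lit 430) (nat_lit 255)) (XT.lf (nat_lit 0) (nat_lit 2143623770613) (nat_lit 152) (nat_lit 1238123657695) (nat_lit 0) (nat_lit 2051147967988) (nat_lit 2) (nat_lit 5) (nat_lit 4) (nat_lit 4) (nat_lit 2) (nat_lit 4) (nat_lit 516) (nat_lit 430) (nat_lit 254))))) (XT.nd (nat_lit 234) (nat_lit 76)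 (nat_lit 0) (XT.nd (nat_lit 78) (nat_lit 0) (nat_lit 0) (XT.lf (nat_lit 0) (nat_lit 2520727780687) (nat_lit 152) (nat_lit 901500295039) (nat_lit 0) (nat_lit 2428251969084) (nat_lit 2) (nat_lit 5) (nat_lit 4) (nat_lit 4) (nat_lit 2) (nat_lit 4) (nat_lit 517) (nat_lit 430) (nat_lit 253)) (XT.nd (nat_lit 78) (nat_lit 0) (nat_lit 0) (XT.lf (nat_lit 0) (nat_lit 2928000071743) (nat_lit 152) (nat_lit 537947144820) (nat_lit 0) (nat_lit 2835524251829) (nat_lit 2) (nat_lit 5) (nat_lit 4) (nat_lit 4) (nat_lit 2) (nat_lit 4) (nat_lit 518) (nat_lit 430) (nat_lit 252)) (XT.lf (nat_lit 0) (nat_lit 3367854109212) (nat_lit 152) (nat_lit 145309817999) (nat_lit 0) (nat_lit 3275378281602) (nat_lit 2) (nat_lit 5) (nat_lit 4) (nat_lit 4) (nat_lit 2) (nat_lit 4) (nat_lit 519) (nat_lit 430) (nat_lit 251)))) (XT.nd (nat_lit 78) (nat_lit 0) (nat_lit 0) (XT.lf (nat_lit 0) (nat_lit 293416296639) (nat_lit 76) (nat_lit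 3556536807888) (nat_lit 76) (nat_lit 3464060973152) (nat_lit 1) (nat_lit 4) (nat_lit 2) (nat_lit 5) (nat_lit 2) (nat_lit 4) (nat_lit 520) (nat_lit 430) (nat_lit 250)) (XT.nd (nat_lit 78) (nat_lit 0) (nat_lit 0) (XT.lf (nat_lit 0) (nat_lit 775504330493) (nat_lit 76) (nat_lit 3599088683661) (nat_lit 76) (nat_lit 3506612842327) (nat_lit 1) (nat_lit 4) (nat_lit 2) (nat_lit 5) (nat_lit 2) (nat_lit 4) (nat_lit 521) (nat_lit 430) (nat_lit 249)) (XT.lf (nat_lit 0) (nat_lit 1296159344035) (nat_lit 76) (nat_lit 3645044741729) (nat_lit 76) (nat_lit 3552568894286) (nat_lit 1) (nat_lit 4) (nat_lit 2) (nat_lit 5) (nat_lit 2) (nat_lit 4) (nat_lit 522) (nat_lit 430) (nat_lit 248))))))))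
noncomputable def xc170 : XT := (XT.nd (nat_lit 56784) (nat_lit 0) (nat_lit 1520) (XT.nd (nat_lit 55926) (nat_lit 0) (nat_lit 3344) (XT.nd (nat_lit 55458) (nat_lit 0) (nat_lit 4712) (XT.nd (nat_lit 156) (nat_lit 0) (nat_lit 0) (XT.nd (nat_lit 78) (nat_lit 0) (nat_lit 0) (XT.lf (nat_lit 0) (nat_lit 1858466700308) (nat_lit 76) (nat_lit 3694677314289) (nat_lit 76) (nat_lit 3602201461189) (nat_lit 1) (nat_lit 4) (nat_lit 2) (nat_lit 5) (nat_lit 2) (nat_lit 4) (nat_lit 523) (nat_lit 430) (nat_lit 247)) (XT.lf (nat_lit 0) (nat_lit 2465758591055) (nat_lit 76) (nat_lit 3748280520289) (nat_lit 76) (nat_lit 3655804661951) (nat_lit 1) (nat_lit 4) (nat_lit 2) (nat_lit 5) (nat_lit 2) (nat_lit 4) (nat_lit 524) (nat_lit 430) (nat_lit 246))) (XT.nd (nat_lit 55146) (nat_lit 0) (nat_lit 5168) (XT.lf (nat_lit 0) (nat_lit 3121633783033) (nat_lit 76) (nat_lit 3806172008356) (nat_lit 76) (nat_lit 3713696145169)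 (nat_lit 1) (nat_lit 4) (nat_lit 2) (nat_lit 5) (nat_lit 2) (nat_lit 4) (nat_lit 525) (nat_lit 430) (nat_lit 245)) (XT.nd (nat_lit 78) (nat_lit 0) (nat_lit 0) (XT.lf (nat_lit 0) (nat_lit 20111162620) (nat_lit 532) (nat_lit 993115969) (nat_lit 532) (nat_lit 993115969) (nat_lit 69) (nat_lit 3) (nat_lit 76) (nat_lit 3) (nat_lit 76) (nat_lit 5) (nat_lit 431) (nat_lit 431) (nat_lit 338)) (XT.lf (nat_lit 76) (nat_lit 20705878516) (nat_lit 0) (nat_lit 21654791155) (nat_lit 532) (nat_lit 3559533725) (nat_lit 70) (nat_lit 5) (nat_lit 69) (nat_lit 3) (nat_lit 76) (nat_lit 5) (nat_lit 432) (nat_lit 431) (nat_lit 337))))) (XT.nd (nat_lit 234) (nat_lit 0) (nat_lit 76) (XT.nd (nat_lit 78) (nat_lit 532) (nat_lit 0) (XT.lf (nat_lit 0) (nat_lit 44735706784) (nat_lit 456) (nat_lit 2469548321) (nat_lit 532) (nat_lit 573147817) (nat_lit 70) (nat_lit 5) (nat_lit 76) (nat_lit 5) (nat_lit 77) (nat_lit 5) (nat_lit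 433) (nat_lit 431) (nat_lit 336)) (XT.nd (nat_lit 78) (nat_lit 532) (nat_lit 0) (XT.lf (nat_lit 76) (nat_lit 22664173994) (nat_lit 0) (nat_lit 25741184509) (nat_lit 532) (nat_lit 1291532939) (nat_lit 71) (nat_lit 5) (nat_lit 70) (nat_lit 5) (nat_lit 77) (nat_lit 5) (nat_lit 434) (nat_lit 431) (nat_lit 335)) (XT.lf (nat_lit 0) (nat_lit 636172165) (nat_lit 532) (nat_lit 1832624700) (nat_lit 608) (nat_lit 49293594037) (nat_lit 63) (nat_lit 5) (nat_lit 70) (nat_lit 5) (nat_lit 71) (nat_lit 5) (nat_lit 435) (nat_lit 431) (nat_lit 334)))) (XT.nd (nat_lit 78) (nat_lit 0) (nat_lit 0) (XT.lf (nat_lit 0) (nat_lit 3850083446) (nat_lit 532) (nat_lit 27819146704) (nat_lit 608) (nat_lit 22225076732) (nat_lit 64) (nat_lit 5) (nat_lit 71) (nat_lit 5) (nat_lit 72) (nat_lit 5) (nat_lit 436) (nat_lit 431) (nat_lit 333)) (XT.nd (nat_lit 78) (nat_lit 0) (nat_lit 76) (XT.lf (nat_lit 76) (nat_lit 62687177) (nat_lit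 0) (nat_lit 7373009577) (nat_lit 608) (nat_lit 48751913699) (nat_lit 65) (nat_lit 5) (nat_lit 64) (nat_lit 5) (nat_lit 72) (nat_lit 5) (nat_lit 437) (nat_lit 431) (nat_lit 332)) (XT.lf (nat_lit 0) (nat_lit 12539979651) (nat_lit 532) (nat_lit 27322055797) (nat_lit 76) (nat_lit 18703798554) (nat_lit 65) (nat_lit 5) (nat_lit 72) (nat_lit 5) (nat_lit 66) (nat_lit 5) (nat_lit 438) (nat_lit 431) (nat_lit 331)))))) (XT.nd (nat_lit 390) (nat_lit 608) (nat_lit 0) (XT.nd (nat_lit 156) (nat_lit 456) (nat_lit 0) (XT.nd (nat_lit 78) (nat_lit 0) (nat_lit 0) (XT.lf (nat_lit 0) (nat_lit 3780630229) (nat_lit 456) (nat_lit 14552266736) (nat_lit 532) (nat_lit 42778996365) (nat_lit 59) (nat_lit 5) (nat_lit 65) (nat_lit 5) (nat_lit 66) (nat_lit 5) (nat_lit 439) (nat_lit 431) (nat_lit 330)) (XT.lf (nat_lit 0) (nat_lit 25661071804) (nat_lit 532) (nat_lit 25205471677) (nat_lit 76) (nat_lit 12909349135) (nat_lit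 59) (nat_lit 5) (nat_lit 66) (nat_lit 5) (nat_lit 60) (nat_lit 5) (nat_lit 440) (nat_lit 431) (nat_lit 329))) (XT.nd (nat_lit 78) (nat_lit 228) (nat_lit 0) (XT.lf (nat_lit 0) (nat_lit 9590159309) (nat_lit 228) (nat_lit 24592089008) (nat_lit 304) (nat_lit 32422224773) (nat_lit 56) (nat_lit 5) (nat_lit 59) (nat_lit 5) (nat_lit 60) (nat_lit 5) (nat_lit 441) (nat_lit 431) (nat_lit 328)) (XT.nd (nat_lit 78) (nat_lit 228) (nat_lit 0) (XT.lf (nat_lit 0) (nat_lit 44181406780) (nat_lit 304) (nat_lit 21112293517) (nat_lit 76) (nat_lit 4301937661) (nat_lit 56) (nat_lit 5) (nat_lit 60) (nat_lit 5) (nat_lit 57) (nat_lit 5) (nat_lit 442) (nat_lit 431) (nat_lit 327)) (XT.lf (nat_lit 0) (nat_lit 17917521827) (nat_lit 228) (nat_lit 38130993123) (nat_lit 304) (nat_lit 16692140609) (nat_lit 53) (nat_lit 5) (nat_lit 56) (nat_lit 5) (nat_lit 57) (nat_lit 5) (nat_lit 443) (nat_lit 431) (nat_lit 326))))) (XT.nd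 (nat_lit 234) (nat_lit 380) (nat_lit 0) (XT.nd (nat_lit 78) (nat_lit 228) (nat_lit 0) (XT.lf (nat_lit 0) (nat_lit 61268527805) (nat_lit 228) (nat_lit 8172133791) (nat_lit 304) (nat_lit 6650560230) (nat_lit 53) (nat_lit 5) (nat_lit 56) (nat_lit 5) (nat_lit 57) (nat_lit 5) (nat_lit 444) (nat_lit 431) (nat_lit 325)) (XT.nd (nat_lit 78) (nat_lit 0) (nat_lit 0) (XT.lf (nat_lit 0) (nat_lit 5301671742) (nat_lit 228) (nat_lit 50483423250) (nat_lit 76) (nat_lit 23811297723) (nat_lit 50) (nat_lit 5) (nat_lit 53) (nat_lit 5) (nat_lit 51) (nat_lit 5) (nat_lit 445) (nat_lit 431) (nat_lit 324)) (XT.lf (nat_lit 0) (nat_lit 18477409022) (nat_lit 228) (nat_lit 6340492871) (nat_lit 76) (nat_lit 58500126325) (nat_lit 50) (nat_lit 5) (nat_lit 53) (nat_lit 5) (nat_lit 51) (nat_lit 5) (nat_lit 446) (nat_lit 431) (nat_lit 323)))) (XT.nd (nat_lit 78) (nat_lit 152) (nat_lit 0) (XT.lf (nat_lit 0) (nat_lit 33986896898)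 (nat_lit 304) (nat_lit 43979815923) (nat_lit 76) (nat_lit 9268307027) (nat_lit 47) (nat_lit 5) (nat_lit 51) (nat_lit 5) (nat_lit 48) (nat_lit 5) (nat_lit 447) (nat_lit 431) (nat_lit 322)) (XT.nd (nat_lit 78) (nat_lit 0) (nat_lit 0) (XT.lf (nat_lit 0) (nat_lit 5344070378) (nat_lit 152) (nat_lit 46342798202) (nat_lit 228) (nat_lit 39702524821) (nat_lit 45) (nat_lit 5) (nat_lit 47) (nat_lit 5) (nat_lit 48) (nat_lit 5) (nat_lit 448) (nat_lit 431) (nat_lit 321)) (XT.lf (nat_lit 0) (nat_lit 61113301897) (nat_lit 152) (nat_lit 10890791317) (nat_lit 228) (nat_lit 23775923736) (nat_lit 45) (nat_lit 5) (nat_lit 47) (nat_lit 5) (nat_lit 48) (nat_lit 5) (nat_lit 449) (nat_lit 431) (nat_lit 320))))))) (XT.nd (nat_lit 858) (nat_lit 684) (nat_lit 0) (XT.nd (nat_lit 390) (nat_lit 608) (nat_lit 0) (XT.nd (nat_lit 156) (nat_lit 304) (nat_lit 0) (XT.nd (nat_lit 78) (nat_lit 76) (nat_lit 0) (XT.lf (nat_lit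 0) (nat_lit 21223258818) (nat_lit 152) (nat_lit 73891613463) (nat_lit 228) (nat_lit 5313564478) (nat_lit 43) (nat_lit 5) (nat_lit 45) (nat_lit 5) (nat_lit 46) (nat_lit 5) (nat_lit 450) (nat_lit 431) (nat_lit 319)) (XT.lf (nat_lit 0) (nat_lit 15148354736) (nat_lit 228) (nat_lit 22477898352) (nat_lit 76) (nat_lit 67694000476) (nat_lit 42) (nat_lit 5) (nat_lit 45) (nat_lit 5) (nat_lit 43) (nat_lit 5) (nat_lit 451) (nat_lit 431) (nat_lit 318))) (XT.nd (nat_lit 78) (nat_lit 152) (nat_lit 0) (XT.lf (nat_lit 0) (nat_lit 38003567133) (nat_lit 228) (nat_lit 69897112610) (nat_lit 76) (nat_lit 2608222378) (nat_lit 40) (nat_lit 5) (nat_lit 43) (nat_lit 5) (nat_lit 41) (nat_lit 5) (nat_lit 452) (nat_lit 431) (nat_lit 317)) (XT.nd (nat_lit 78) (nat_lit 152) (nat_lit 0) (XT.lf (nat_lit 0) (nat_lit 64294028258) (nat_lit 228) (nat_lit 7031361830) (nat_lit 76) (nat_lit 44658706295) (nat_lit 40) (nat_lit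 5) (nat_lit 43) (nat_lit 5) (nat_lit 41) (nat_lit 5) (nat_lit 453) (nat_lit 431) (nat_lit 316)) (XT.lf (nat_lit 0) (nat_lit 64067053636) (nat_lit 152) (nat_lit 30160540174) (nat_lit 228) (nat_lit 27546523308) (nat_lit 38) (nat_lit 5) (nat_lit 40) (nat_lit 5) (nat_lit 41) (nat_lit 5) (nat_lit 454) (nat_lit 431) (nat_lit 315))))) (XT.nd (nat_lit 234) (nat_lit 304) (nat_lit 0) (XT.nd (nat_lit 78) (nat_lit 228) (nat_lit 0) (XT.lf (nat_lit 0) (nat_lit 13569714591) (nat_lit 76) (nat_lit 113852656134) (nat_lit 152) (nat_lit 535647005) (nat_lit 37) (nat_lit 5) (nat_lit 38) (nat_lit 5) (nat_lit 39) (nat_lit 4) (nat_lit 455) (nat_lit 431) (nat_lit 314)) (XT.nd (nat_lit 78) (nat_lit 152) (nat_lit 0) (XT.lf (nat_lit 0) (nat_lit 29604877150) (nat_lit 152) (nat_lit 42194511869) (nat_lit 76) (nat_lit 62590044015) (nat_lit 36) (nat_lit 5) (nat_lit 38) (nat_lit 5) (nat_lit 37) (nat_lit 5) (nat_lit 456)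 (nat_lit 431) (nat_lit 313)) (XT.lf (nat_lit 0) (nat_lit 37642490753) (nat_lit 152) (nat_lit 25389669420) (nat_lit 228) (nat_lit 78229732138) (nat_lit 34) (nat_lit 5) (nat_lit 36) (nat_lit 5) (nat_lit 37) (nat_lit 5) (nat_lit 457) (nat_lit 431) (nat_lit 312)))) (XT.nd (nat_lit 78) (nat_lit 304) (nat_lit 0) (XT.lf (nat_lit 0) (nat_lit 100911258522) (nat_lit 228) (nat_lit 22951977733) (nat_lit 76) (nat_lit 24678701689) (nat_lit 34) (nat_lit 5) (nat_lit 37) (nat_lit 5) (nat_lit 35) (nat_lit 4) (nat_lit 458) (nat_lit 431) (nat_lit 311)) (XT.nd (nat_lit 78) (nat_lit 228) (nat_lit 0) (XT.lf (nat_lit 0) (nat_lit 66852269471) (nat_lit 76) (nat_lit 77234916746) (nat_lit 152) (nat_lit 12135881103) (nat_lit 33) (nat_lit 5) (nat_lit 34) (nat_lit 5) (nat_lit 35) (nat_lit 4) (nat_lit 459) (nat_lit 431) (nat_lit 310)) (XT.lf (nat_lit 0) (nat_lit 31549455) (nat_lit 152) (nat_lit 25500240353) (nat_lit 228)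 (nat_lit 138884983942) (nat_lit 30) (nat_lit 5) (nat_lit 32) (nat_lit 5) (nat_lit 33) (nat_lit 5) (nat_lit 460) (nat_lit 431) (nat_lit 309)))))) (XT.nd (nat_lit 468) (nat_lit 380) (nat_lit 0) (XT.nd (nat_lit 234) (nat_lit 228) (nat_lit 0) (XT.nd (nat_lit 78) (nat_lit 76) (nat_lit 0) (XT.lf (nat_lit 0) (nat_lit 68793972431) (nat_lit 228) (nat_lit 72512313293) (nat_lit 76) (nat_lit 31675533658) (nat_lit 30) (nat_lit 5) (nat_lit 33) (nat_lit 5) (nat_lit 31) (nat_lit 4) (nat_lit 461) (nat_lit 431) (nat_lit 308)) (XT.nd (nat_lit 78) (nat_lit 0) (nat_lit 0) (XT.lf (nat_lit 0) (nat_lit 27418427694) (nat_lit 76) (nat_lit 89419764737) (nat_lit 152) (nat_lit 65288191364) (nat_lit 29) (nat_lit 5) (nat_lit 30) (nat_lit 5) (nat_lit 31) (nat_lit 4) (nat_lit 462) (nat_lit 431) (nat_lit 307)) (XT.lf (nat_lit 0) (nat_lit 139466259067) (nat_lit 76) (nat_lit 31241633550) (nat_lit 152) (nat_lit 21136065482)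 (nat_lit 29) (nat_lit 5) (nat_lit 30) (nat_lit 5) (nat_lit 31) (nat_lit 4) (nat_lit 463) (nat_lit 431) (nat_lit 306)))) (XT.nd (nat_lit 78) (nat_lit 76) (nat_lit 0) (XT.lf (nat_lit 0) (nat_lit 27489360716) (nat_lit 152) (nat_lit 142458442465) (nat_lit 76) (nat_lit 32158522023) (nat_lit 27) (nat_lit 5) (nat_lit 29) (nat_lit 5) (nat_lit 28) (nat_lit 4) (nat_lit 464) (nat_lit 431) (nat_lit 305)) (XT.nd (nat_lit 78) (nat_lit 76) (nat_lit 0) (XT.lf (nat_lit 0) (nat_lit 81143061112) (nat_lit 152) (nat_lit 30859654589) (nat_lit 76) (nat_lit 100960636062) (nat_lit 27) (nat_lit 5) (nat_lit 29) (nat_lit 5) (nat_lit 28) (nat_lit 4) (nat_lit 465) (nat_lit 431) (nat_lit 304)) (XT.lf (nat_lit 0) (nat_lit 94387611981) (nat_lit 76) (nat_lit 46970885760) (nat_lit 152) (nat_lit 83148887594) (nat_lit 26) (nat_lit 5) (nat_lit 27) (nat_lit 5) (nat_lit 28) (nat_lit 4) (nat_lit 466) (nat_lit 431) (nat_lit 303)))))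 (XT.nd (nat_lit 234) (nat_lit 152) (nat_lit 0) (XT.nd (nat_lit 78) (nat_lit 228) (nat_lit 0) (XT.lf (nat_lit 0) (nat_lit 207815752587) (nat_lit 152) (nat_lit 6080250040) (nat_lit 0) (nat_lit 22964972402) (nat_lit 26) (nat_lit 5) (nat_lit 28) (nat_lit 4) (nat_lit 26) (nat_lit 4) (nat_lit 467) (nat_lit 431) (nat_lit 302)) (XT.nd (nat_lit 78) (nat_lit 76) (nat_lit 0) (XT.lf (nat_lit 0) (nat_lit 32457762221) (nat_lit 152) (nat_lit 117339302868) (nat_lit 76) (nat_lit 99985961168) (nat_lit 24) (nat_lit 5) (nat_lit 26) (nat_lit 5) (nat_lit 25) (nat_lit 4) (nat_lit 468) (nat_lit 431) (nat_lit 301)) (XT.lf (nat_lit 0) (nat_lit 18853233401) (nat_lit 76) (nat_lit 79082007129) (nat_lit 152) (nat_lit 165693371317) (nat_lit 23) (nat_lit 5) (nat_lit 24) (nat_lit 5) (nat_lit 25) (nat_lit 4) (nat_lit 469) (nat_lit 431) (nat_lit 300)))) (XT.nd (nat_lit 78) (nat_lit 152) (nat_lit 0) (XT.lf (nat_lit 0) (nat_lit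 171876816212) (nat_lit 152) (nat_lit 105729991574) (nat_lit 0) (nat_lit 716964642) (nat_lit 23) (nat_lit 5) (nat_lit 25) (nat_lit 4) (nat_lit 23) (nat_lit 4) (nat_lit 470) (nat_lit 431) (nat_lit 299)) (XT.nd (nat_lit 78) (nat_lit 76) (nat_lit 0) (XT.lf (nat_lit 0) (nat_lit 44615880921) (nat_lit 76) (nat_lit 210244439716) (nat_lit 76) (nat_lit 39084097070) (nat_lit 22) (nat_lit 4) (nat_lit 23) (nat_lit 5) (nat_lit 23) (nat_lit 4) (nat_lit 471) (nat_lit 431) (nat_lit 298)) (XT.lf (nat_lit 0) (nat_lit 34949037266) (nat_lit 152) (nat_lit 98466799833) (nat_lit 76) (nat_lit 177096865015) (nat_lit 21) (nat_lit 5) (nat_lit 23) (nat_lit 5) (nat_lit 22) (nat_lit 4) (nat_lit 472) (nat_lit 431) (nat_lit 297))))))))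
noncomputable def xc171 : XT := (XT.nd (nat_lit 1716) (nat_lit 456) (nat_lit 0) (XT.nd (nat_lit 858) (nat_lit 456) (nat_lit 0) (XT.nd (nat_lit 390) (nat_lit 228) (nat_lit 0) (XT.nd (nat_lit 156) (nat_lit 228) (nat_lit 0) (XT.nd (nat_lit 78) (nat_lit 0) (nat_lit 0) (XT.lf (nat_lit 0) (nat_lit 66788888475) (nat_lit 76) (nat_lit 47610201352) (nat_lit 152) (nat_lit 213797679879) (nat_lit 20) (nat_lit 5) (nat_lit 21) (nat_lit 5) (nat_lit 22) (nat_lit 4) (nat_lit 473) (nat_lit 431) (nat_lit 296)) (XT.lf (nat_lit 0) (nat_lit 204050576234) (nat_lit 152) (nat_lit 97369746471) (nat_lit 0) (nat_lit 45567605679) (nat_lit 20) (nat_lit 5) (nat_lit 22) (nat_lit 4) (nat_lit 20) (nat_lit 4) (nat_lit 474) (nat_lit 431) (nat_lit 295))) (XT.nd (nat_lit 78) (nat_lit 152) (nat_lit 0) (XT.lf (nat_lit 0) (nat_lit 82690519362) (nat_lit 76) (nat_lit 221408585666) (nat_lit 76) (nat_lit 62925280894) (nat_lit 19) (nat_lit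 4) (nat_lit 20) (nat_lit 5) (nat_lit 20) (nat_lit 4) (nat_lit 475) (nat_lit 431) (nat_lit 294)) (XT.nd (nat_lit 78) (nat_lit 76) (nat_lit 0) (XT.lf (nat_lit 0) (nat_lit 25043801636) (nat_lit 152) (nat_lit 106392506830) (nat_lit 76) (nat_lit 256963781288) (nat_lit 18) (nat_lit 5) (nat_lit 20) (nat_lit 5) (nat_lit 19) (nat_lit 4) (nat_lit 476) (nat_lit 431) (nat_lit 293)) (XT.lf (nat_lit 0) (nat_lit 88580128194) (nat_lit 76) (nat_lit 30200654962) (nat_lit 152) (nat_lit 292403915183) (nat_lit 17) (nat_lit 5) (nat_lit 18) (nat_lit 5) (nat_lit 19) (nat_lit 4) (nat_lit 477) (nat_lit 431) (nat_lit 292))))) (XT.nd (nat_lit 234) (nat_lit 152) (nat_lit 0) (XT.nd (nat_lit 78) (nat_lit 76) (nat_lit 0) (XT.lf (nat_lit 0) (nat_lit 224904031265) (nat_lit 152) (nat_lit 132337626699) (nat_lit 0) (nat_lit 78159433037) (nat_lit 17) (nat_lit 5) (nat_lit 19) (nat_lit 4) (nat_lit 17) (nat_lit 4) (nat_lit 478)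 (nat_lit 431) (nat_lit 291)) (XT.nd (nat_lit 78) (nat_lit 0) (nat_lit 0) (XT.lf (nat_lit 0) (nat_lit 76176186931) (nat_lit 76) (nat_lit 265957072138) (nat_lit 76) (nat_lit 119212246447) (nat_lit 16) (nat_lit 4) (nat_lit 17) (nat_lit 5) (nat_lit 17) (nat_lit 4) (nat_lit 479) (nat_lit 431) (nat_lit 290)) (XT.lf (nat_lit 0) (nat_lit 308896587234) (nat_lit 76) (nat_lit 163462241021) (nat_lit 76) (nat_lit 16717204715) (nat_lit 16) (nat_lit 4) (nat_lit 17) (nat_lit 5) (nat_lit 17) (nat_lit 4) (nat_lit 480) (nat_lit 431) (nat_lit 289)))) (XT.nd (nat_lit 78) (nat_lit 0) (nat_lit 0) (XT.lf (nat_lit 0) (nat_lit 40999789209) (nat_lit 76) (nat_lit 49262239890) (nat_lit 152) (nat_lit 428503303095) (nat_lit 14) (nat_lit 5) (nat_lit 15) (nat_lit 5) (nat_lit 16) (nat_lit 4) (nat_lit 481) (nat_lit 431) (nat_lit 288)) (XT.nd (nat_lit 78) (nat_lit 0) (nat_lit 0) (XT.lf (nat_lit 0) (nat_lit 211731975057) (nat_lit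 152) (nat_lit 262659626657) (nat_lit 0) (nat_lit 75856593680) (nat_lit 14) (nat_lit 5) (nat_lit 16) (nat_lit 4) (nat_lit 14) (nat_lit 4) (nat_lit 482) (nat_lit 431) (nat_lit 287)) (XT.lf (nat_lit 0) (nat_lit 344198755860) (nat_lit 152) (nat_lit 31625373001) (nat_lit 0) (nat_lit 208323219676) (nat_lit 14) (nat_lit 5) (nat_lit 16) (nat_lit 4) (nat_lit 14) (nat_lit 4) (nat_lit 483) (nat_lit 431) (nat_lit 286)))))) (XT.nd (nat_lit 390) (nat_lit 228) (nat_lit 0) (XT.nd (nat_lit 156) (nat_lit 152) (nat_lit 0) (XT.nd (nat_lit 78) (nat_lit 0) (nat_lit 0) (XT.lf (nat_lit 0) (nat_lit 229364825410) (nat_lit 76) (nat_lit 263414005944) (nat_lit 76) (nat_lit 127538326419) (nat_lit 13) (nat_lit 4) (nat_lit 14) (nat_lit 5) (nat_lit 14) (nat_lit 4) (nat_lit 484) (nat_lit 431) (nat_lit 285)) (XT.lf (nat_lit 0) (nat_lit 513032263645) (nat_lit 76) (nat_lit 141077473224) (nat_lit 76) (nat_lit 5201660977) (nat_lit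 13) (nat_lit 4) (nat_lit 14) (nat_lit 5) (nat_lit 14) (nat_lit 4) (nat_lit 485) (nat_lit 431) (nat_lit 284))) (XT.nd (nat_lit 78) (nat_lit 0) (nat_lit 0) (XT.lf (nat_lit 0) (nat_lit 120966148188) (nat_lit 76) (nat_lit 2515622642) (nat_lit 152) (nat_lit 577466489660) (nat_lit 11) (nat_lit 5) (nat_lit 12) (nat_lit 5) (nat_lit 13) (nat_lit 4) (nat_lit 486) (nat_lit 431) (nat_lit 283)) (XT.nd (nat_lit 78) (nat_lit 0) (nat_lit 0) (XT.lf (nat_lit 0) (nat_lit 269820520041) (nat_lit 152) (nat_lit 331464046432) (nat_lit 0) (nat_lit 144009363627) (nat_lit 11) (nat_lit 5) (nat_lit 13) (nat_lit 4) (nat_lit 11) (nat_lit 4) (nat_lit 487) (nat_lit 431) (nat_lit 282)) (XT.lf (nat_lit 0) (nat_lit 427931473616) (nat_lit 152) (nat_lit 63130351677) (nat_lit 0) (nat_lit 302120219646) (nat_lit 11) (nat_lit 5) (nat_lit 13) (nat_lit 4) (nat_lit 11) (nat_lit 4) (nat_lit 488) (nat_lit 431) (nat_lit 281))))) (XT.nd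 (nat_lit 234) (nat_lit 76) (nat_lit 0) (XT.nd (nat_lit 78) (nat_lit 76) (nat_lit 0) (XT.lf (nat_lit 0) (nat_lit 238605617704) (nat_lit 76) (nat_lit 365823937708) (nat_lit 76) (nat_lit 240012593410) (nat_lit 10) (nat_lit 4) (nat_lit 11) (nat_lit 5) (nat_lit 11) (nat_lit 4) (nat_lit 489) (nat_lit 431) (nat_lit 280)) (XT.nd (nat_lit 78) (nat_lit 76) (nat_lit 0) (XT.lf (nat_lit 0) (nat_lit 568070314509) (nat_lit 76) (nat_lit 228703051919) (nat_lit 76) (nat_lit 102891623983) (nat_lit 10) (nat_lit 4) (nat_lit 11) (nat_lit 5) (nat_lit 11) (nat_lit 4) (nat_lit 490) (nat_lit 431) (nat_lit 279)) (XT.lf (nat_lit 0) (nat_lit 42937782441) (nat_lit 152) (nat_lit 36500917901) (nat_lit 76) (nat_lit 879780012180) (nat_lit 9) (nat_lit 5) (nat_lit 11) (nat_lit 5) (nat_lit 10) (nat_lit 4) (nat_lit 491) (nat_lit 431) (nat_lit 278)))) (XT.nd (nat_lit 78) (nat_lit 0) (nat_lit 0) (XT.lf (nat_lit 0) (nat_lit 204170891874)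 (nat_lit 152) (nat_lit 730729655232) (nat_lit 0) (nat_lit 87678690869) (nat_lit 8) (nat_lit 5) (nat_lit 10) (nat_lit 4) (nat_lit 8) (nat_lit 4) (nat_lit 492) (nat_lit 431) (nat_lit 277)) (XT.nd (nat_lit 78) (nat_lit 0) (nat_lit 0) (XT.lf (nat_lit 0) (nat_lit 381389727955) (nat_lit 152) (nat_lit 444474445814) (nat_lit 0) (nat_lit 264897465474) (nat_lit 8) (nat_lit 5) (nat_lit 10) (nat_lit 4) (nat_lit 8) (nat_lit 4) (nat_lit 493) (nat_lit 431) (nat_lit 276)) (XT.lf (nat_lit 0) (nat_lit 572785897936) (nat_lit 152) (nat_lit 135319169990) (nat_lit 0) (nat_lit 456293578533) (nat_lit 8) (nat_lit 5) (nat_lit 10) (nat_lit 4) (nat_lit 8) (nat_lit 4) (nat_lit 494) (nat_lit 431) (nat_lit 275))))))) (XT.nd (nat_lit 858) (nat_lit 152) (nat_lit 0) (XT.nd (nat_lit 390) (nat_lit 76) (nat_lit 0) (XT.nd (nat_lit 156) (nat_lit 152) (nat_lit 0) (XT.nd (nat_lit 78) (nat_lit 0) (nat_lit 0) (XT.lf (nat_lit 0)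 (nat_lit 209024453206) (nat_lit 76) (nat_lit 575496191263) (nat_lit 76) (nat_lit 459003819153) (nat_lit 7) (nat_lit 4) (nat_lit 8) (nat_lit 5) (nat_lit 8) (nat_lit 4) (nat_lit 495) (nat_lit 431) (nat_lit 274)) (XT.lf (nat_lit 0) (nat_lit 588610971175) (nat_lit 76) (nat_lit 428282909551) (nat_lit 76) (nat_lit 311790488639) (nat_lit 7) (nat_lit 4) (nat_lit 8) (nat_lit 5) (nat_lit 8) (nat_lit 4) (nat_lit 496) (nat_lit 431) (nat_lit 273))) (XT.nd (nat_lit 78) (nat_lit 152) (nat_lit 0) (XT.lf (nat_lit 0) (nat_lit 998564117819) (nat_lit 76) (nat_lit 269292713701) (nat_lit 76) (nat_lit 152800247603) (nat_lit 7) (nat_lit 4) (nat_lit 8) (nat_lit 5) (nat_lit 8) (nat_lit 4) (nat_lit 497) (nat_lit 431) (nat_lit 272)) (XT.nd (nat_lit 78) (nat_lit 76) (nat_lit 0) (XT.lf (nat_lit 0) (nat_lit 17963160165) (nat_lit 152) (nat_lit 79129134793) (nat_lit 76) (nat_lit 1422858940319) (nat_lit 6) (nat_lit 5) (nat_lit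 8) (nat_lit 5) (nat_lit 7) (nat_lit 4) (nat_lit 498) (nat_lit 431) (nat_lit 271)) (XT.lf (nat_lit 0) (nat_lit 203835488886) (nat_lit 152) (nat_lit 1326287665851) (nat_lit 0) (nat_lit 95972019740) (nat_lit 5) (nat_lit 5) (nat_lit 7) (nat_lit 4) (nat_lit 5) (nat_lit 4) (nat_lit 499) (nat_lit 431) (nat_lit 270))))) (XT.nd (nat_lit 234) (nat_lit 76) (nat_lit 0) (XT.nd (nat_lit 78) (nat_lit 0) (nat_lit 0) (XT.lf (nat_lit 0) (nat_lit 409319081385) (nat_lit 152) (nat_lit 1029576650209) (nat_lit 0) (nat_lit 301455579025) (nat_lit 5) (nat_lit 5) (nat_lit 7) (nat_lit 4) (nat_lit 5) (nat_lit 4) (nat_lit 500) (nat_lit 431) (nat_lit 269)) (XT.nd (nat_lit 78) (nat_lit 0) (nat_lit 0) (XT.lf (nat_lit 0) (nat_lit 631241243979) (nat_lit 152) (nat_lit 709128992197) (nat_lit 0) (nat_lit 523377710865) (nat_lit 5) (nat_lit 5) (nat_lit 7) (nat_lit 4) (nat_lit 5) (nat_lit 4) (nat_lit 501) (nat_lit 431) (nat_lit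 268)) (XT.lf (nat_lit 0) (nat_lit 870917070964) (nat_lit 152) (nat_lit 363045742730) (nat_lit 0) (nat_lit 763053509375) (nat_lit 5) (nat_lit 5) (nat_lit 7) (nat_lit 4) (nat_lit 5) (nat_lit 4) (nat_lit 502) (nat_lit 431) (nat_lit 267)))) (XT.nd (nat_lit 78) (nat_lit 0) (nat_lit 0) (XT.lf (nat_lit 0) (nat_lit 11288666720) (nat_lit 76) (nat_lit 1118749689525) (nat_lit 76) (nat_lit 1010886101569) (nat_lit 4) (nat_lit 4) (nat_lit 5) (nat_lit 5) (nat_lit 5) (nat_lit 4) (nat_lit 503) (nat_lit 431) (nat_lit 266)) (XT.nd (nat_lit 78) (nat_lit 0) (nat_lit 0) (XT.lf (nat_lit 0) (nat_lit 436216362384) (nat_lit 76) (nat_lit 983599198020) (nat_lit 76) (nat_lit 875735585651) (nat_lit 4) (nat_lit 4) (nat_lit 5) (nat_lit 5) (nat_lit 5) (nat_lit 4) (nat_lit 504) (nat_lit 431) (nat_lit 265)) (XT.lf (nat_lit 0) (nat_lit 895138088870) (nat_lit 76) (nat_lit 837636761358) (nat_lit 76) (nat_lit 729773126385) (nat_lit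 4) (nat_lit 4) (nat_lit 5) (nat_lit 5) (nat_lit 5) (nat_lit 4) (nat_lit 505) (nat_lit 431) (nat_lit 264)))))) (XT.nd (nat_lit 468) (nat_lit 0) (nat_lit 0) (XT.nd (nat_lit 234) (nat_lit 152) (nat_lit 0) (XT.nd (nat_lit 78) (nat_lit 0) (nat_lit 0) (XT.lf (nat_lit 0) (nat_lit 1390773382336) (nat_lit 76) (nat_lit 679997416951) (nat_lit 76) (nat_lit 572133761047) (nat_lit 4) (nat_lit 4) (nat_lit 5) (nat_lit 5) (nat_lit 5) (nat_lit 4) (nat_lit 506) (nat_lit 431) (nat_lit 263)) (XT.nd (nat_lit 78) (nat_lit 0) (nat_lit 0) (XT.lf (nat_lit 0) (nat_lit 1926059340816) (nat_lit 76) (nat_lit 509747005721) (nat_lit 76) (nat_lit 401883330438) (nat_lit 4) (nat_lit 4) (nat_lit 5) (nat_lit 5) (nat_lit 5) (nat_lit 4) (nat_lit 507) (nat_lit 431) (nat_lit 262)) (XT.lf (nat_lit 0) (nat_lit 2504168029250) (nat_lit 76) (nat_lit 325876636342) (nat_lit 76) (nat_lit 218012943114) (nat_lit 4) (nat_lit 4) (nat_lit 5)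 (nat_lit 5) (nat_lit 5) (nat_lit 4) (nat_lit 508) (nat_lit 431) (nat_lit 261)))) (XT.nd (nat_lit 78) (nat_lit 152) (nat_lit 0) (XT.lf (nat_lit 0) (nat_lit 3128525276902) (nat_lit 76) (nat_lit 127296706626) (nat_lit 76) (nat_lit 19432996783) (nat_lit 4) (nat_lit 4) (nat_lit 5) (nat_lit 5) (nat_lit 5) (nat_lit 4) (nat_lit 509) (nat_lit 431) (nat_lit 260)) (XT.nd (nat_lit 78) (nat_lit 0) (nat_lit 0) (XT.lf (nat_lit 0) (nat_lit 194703297666) (nat_lit 152) (nat_lit 3229966016618) (nat_lit 0) (nat_lit 94829478011) (nat_lit 2) (nat_lit 5) (nat_lit 4) (nat_lit 4) (nat_lit 2) (nat_lit 4) (nat_lit 510) (nat_lit 431) (nat_lit 259)) (XT.lf (nat_lit 0) (nat_lit 432343007882) (nat_lit 152) (nat_lit 3017835754166) (nat_lit 0) (nat_lit 332469175037) (nat_lit 2) (nat_lit 5) (nat_lit 4) (nat_lit 4) (nat_lit 2) (nat_lit 4) (nat_lit 511) (nat_lit 431) (nat_lit 258))))) (XT.nd (nat_lit 234) (nat_lit 0) (nat_lit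 0) (XT.nd (nat_lit 78) (nat_lit 0) (nat_lit 0) (XT.lf (nat_lit 0) (nat_lit 688993836402) (nat_lit 152) (nat_lit 2788735190392) (nat_lit 0) (nat_lit 589119991345) (nat_lit 2) (nat_lit 5) (nat_lit 4) (nat_lit 4) (nat_lit 2) (nat_lit 4) (nat_lit 512) (nat_lit 431) (nat_lit 257)) (XT.nd (nat_lit 78) (nat_lit 0) (nat_lit 0) (XT.lf (nat_lit 0) (nat_lit 966176677026) (nat_lit 152) (nat_lit 2541306692326) (nat_lit 0) (nat_lit 866302820661) (nat_lit 2) (nat_lit 5) (nat_lit 4) (nat_lit 4) (nat_lit 2) (nat_lit 4) (nat_lit 513) (nat_lit 431) (nat_lit 256)) (XT.lf (nat_lit 0) (nat_lit 1265534094736) (nat_lit 152) (nat_lit 2274084017018) (nat_lit 0) (nat_lit 1165660227900) (nat_lit 2) (nat_lit 5) (nat_lit 4) (nat_lit 4) (nat_lit 2) (nat_lit 4) (nat_lit 514) (nat_lit 431) (nat_lit 255)))) (XT.nd (nat_lit 78) (nat_lit 0) (nat_lit 0) (XT.lf (nat_lit 0) (nat_lit 1588840059413) (nat_lit 152) (nat_lit 1985483622686)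 (nat_lit 0) (nat_lit 1488966182882) (nat_lit 2) (nat_lit 5) (nat_lit 4) (nat_lit 4) (nat_lit 2) (nat_lit 4) (nat_lit 515) (nat_lit 431) (nat_lit 254)) (XT.nd (nat_lit 78) (nat_lit 0) (nat_lit 0) (XT.lf (nat_lit 0) (nat_lit 1938010458256) (nat_lit 152) (nat_lit 1673795284773) (nat_lit 0) (nat_lit 1838136572749) (nat_lit 2) (nat_lit 5) (nat_lit 4) (nat_lit 4) (nat_lit 2) (nat_lit 4) (nat_lit 516) (nat_lit 431) (nat_lit 253)) (XT.lf (nat_lit 0) (nat_lit 2315114449183) (nat_lit 152) (nat_lit 1337171961276) (nat_lit 0) (nat_lit 2215240555365) (nat_lit 2) (nat_lit 5) (nat_lit 4) (nat_lit 4) (nat_lit 2) (nat_lit 4) (nat_lit 517) (nat_lit 431) (nat_lit 252))))))))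
noncomputable def xc172 : XT := (XT.nd (nat_lit 56862) (nat_lit 0) (nat_lit 1900) (XT.nd (nat_lit 56004) (nat_lit 0) (nat_lit 3952) (XT.nd (nat_lit 390) (nat_lit 0) (nat_lit 0) (XT.nd (nat_lit 156) (nat_lit 76) (nat_lit 0) (XT.nd (nat_lit 78) (nat_lit 0) (nat_lit 0) (XT.lf (nat_lit 0) (nat_lit 2722386722513) (nat_lit 152) (nat_lit 973618847314) (nat_lit 0) (nat_lit 2622512820998) (nat_lit 2) (nat_lit 5) (nat_lit 4) (nat_lit 4) (nat_lit 2) (nat_lit 4) (nat_lit 518) (nat_lit 431) (nat_lit 251)) (XT.lf (nat_lit 0) (nat_lit 3162240743567) (nat_lit 152) (nat_lit 580981554064) (nat_lit 0) (nat_lit 3062366834927) (nat_lit 2) (nat_lit 5) (nat_lit 4) (nat_lit 4) (nat_lit 2) (nat_lit 4) (nat_lit 519) (nat_lit 431) (nat_lit 250))) (XT.nd (nat_lit 78) (nat_lit 76) (nat_lit 0) (XT.lf (nat_lit 0) (nat_lit 3637283054694) (nat_lit 152) (nat_lit 156933342012) (nat_lit 0) (nat_lit 3537409139455) (nat_lit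 2) (nat_lit 5) (nat_lit 4) (nat_lit 4) (nat_lit 2) (nat_lit 4) (nat_lit 520) (nat_lit 431) (nat_lit 249)) (XT.nd (nat_lit 78) (nat_lit 0) (nat_lit 0) (XT.lf (nat_lit 0) (nat_lit 316890829862) (nat_lit 76) (nat_lit 3841059123656) (nat_lit 76) (nat_lit 3741185202308) (nat_lit 1) (nat_lit 4) (nat_lit 2) (nat_lit 5) (nat_lit 2) (nat_lit 4) (nat_lit 521) (nat_lit 431) (nat_lit 248)) (XT.lf (nat_lit 0) (nat_lit 837545815351) (nat_lit 76) (nat_lit 3887015196074) (nat_lit 76) (nat_lit 3787141269069) (nat_lit 1) (nat_lit 4) (nat_lit 2) (nat_lit 5) (nat_lit 2) (nat_lit 4) (nat_lit 522) (nat_lit 431) (nat_lit 247))))) (XT.nd (nat_lit 55380) (nat_lit 0) (nat_lit 5168) (XT.nd (nat_lit 78) (nat_lit 0) (nat_lit 0) (XT.lf (nat_lit 0) (nat_lit 1399853145649) (nat_lit 76) (nat_lit 3936647781920) (nat_lit 76) (nat_lit 3836773849677) (nat_lit 1) (nat_lit 4) (nat_lit 2) (nat_lit 5) (nat_lit 2) (nat_lit 4) (nat_lit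 523) (nat_lit 431) (nat_lit 246)) (XT.nd (nat_lit 78) (nat_lit 0) (nat_lit 0) (XT.lf (nat_lit 0) (nat_lit 2007145012343) (nat_lit 76) (nat_lit 3990251000221) (nat_lit 76) (nat_lit 3890377063129) (nat_lit 1) (nat_lit 4) (nat_lit 2) (nat_lit 5) (nat_lit 2) (nat_lit 4) (nat_lit 524) (nat_lit 431) (nat_lit 245)) (XT.lf (nat_lit 0) (nat_lit 2663020182052) (nat_lit 76) (nat_lit 4048142499679) (nat_lit 76) (nat_lit 3948268558096) (nat_lit 1) (nat_lit 4) (nat_lit 2) (nat_lit 5) (nat_lit 2) (nat_lit 4) (nat_lit 525) (nat_lit 431) (nat_lit 244)))) (XT.nd (nat_lit 78) (nat_lit 0) (nat_lit 0) (XT.lf (nat_lit 0) (nat_lit 21750773211) (nat_lit 532) (nat_lit 1055967421) (nat_lit 532) (nat_lit 1055967421) (nat_lit 69) (nat_lit 3) (nat_lit 76) (nat_lit 3) (nat_lit 76) (nat_lit 5) (nat_lit 432) (nat_lit 432) (nat_lit 336)) (XT.nd (nat_lit 78) (nat_lit 0) (nat_lit 76) (XT.lf (nat_lit 76) (nat_lit 22394704054)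 (nat_lit 0) (nat_lit 23412481745) (nat_lit 532) (nat_lit 3781982596) (nat_lit 70) (nat_lit 5) (nat_lit 69) (nat_lit 3) (nat_lit 76) (nat_lit 5) (nat_lit 433) (nat_lit 432) (nat_lit 335)) (XT.lf (nat_lit 0) (nat_lit 48367391024) (nat_lit 456) (nat_lit 2632283325) (nat_lit 532) (nat_lit 596739158) (nat_lit 70) (nat_lit 5) (nat_lit 76) (nat_lit 5) (nat_lit 77) (nat_lit 5) (nat_lit 434) (nat_lit 432) (nat_lit 334)))))) (XT.nd (nat_lit 390) (nat_lit 760) (nat_lit 0) (XT.nd (nat_lit 156) (nat_lit 0) (nat_lit 76) (XT.nd (nat_lit 78) (nat_lit 532) (nat_lit 0) (XT.lf (nat_lit 76) (nat_lit 24511255033) (nat_lit 0) (nat_lit 27816263114) (nat_lit 532) (nat_lit 1341113324) (nat_lit 71) (nat_lit 5) (nat_lit 70) (nat_lit 5) (nat_lit 77) (nat_lit 5) (nat_lit 435) (nat_lit 432) (nat_lit 333)) (XT.lf (nat_lit 0) (nat_lit 734338016) (nat_lit 532) (nat_lit 1945284766) (nat_lit 608) (nat_lit 53219949496) (nat_lit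 63) (nat_lit 5) (nat_lit 70) (nat_lit 5) (nat_lit 71) (nat_lit 5) (nat_lit 436) (nat_lit 432) (nat_lit 332))) (XT.nd (nat_lit 78) (nat_lit 0) (nat_lit 0) (XT.lf (nat_lit 0) (nat_lit 4202380396) (nat_lit 532) (nat_lit 30007720680) (nat_lit 608) (nat_lit 23992181089) (nat_lit 64) (nat_lit 5) (nat_lit 71) (nat_lit 5) (nat_lit 72) (nat_lit 5) (nat_lit 437) (nat_lit 432) (nat_lit 331)) (XT.nd (nat_lit 78) (nat_lit 0) (nat_lit 76) (XT.lf (nat_lit 76) (nat_lit 103724272) (nat_lit 0) (nat_lit 7968704069) (nat_lit 608) (nat_lit 52606816765) (nat_lit 65) (nat_lit 5) (nat_lit 64) (nat_lit 5) (nat_lit 72) (nat_lit 5) (nat_lit 438) (nat_lit 432) (nat_lit 330)) (XT.lf (nat_lit 0) (nat_lit 13581821601) (nat_lit 532) (nat_lit 29471211848) (nat_lit 76) (nat_lit 20194953458) (nat_lit 65) (nat_lit 5) (nat_lit 72) (nat_lit 5) (nat_lit 66) (nat_lit 5) (nat_lit 439) (nat_lit 432) (nat_lit 329))))) (XT.nd (nat_lit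 234) (nat_lit 228) (nat_lit 0) (XT.nd (nat_lit 78) (nat_lit 228) (nat_lit 0) (XT.lf (nat_lit 0) (nat_lit 4118762266) (nat_lit 456) (nat_lit 15717405690) (nat_lit 532) (nat_lit 46161725026) (nat_lit 59) (nat_lit 5) (nat_lit 65) (nat_lit 5) (nat_lit 66) (nat_lit 5) (nat_lit 440) (nat_lit 432) (nat_lit 328)) (XT.nd (nat_lit 78) (nat_lit 228) (nat_lit 0) (XT.lf (nat_lit 0) (nat_lit 27747861440) (nat_lit 532) (nat_lit 27186116389) (nat_lit 76) (nat_lit 13941254740) (nat_lit 59) (nat_lit 5) (nat_lit 66) (nat_lit 5) (nat_lit 60) (nat_lit 5) (nat_lit 441) (nat_lit 432) (nat_lit 327)) (XT.lf (nat_lit 0) (nat_lit 10392258924) (nat_lit 228) (nat_lit 26556800782) (nat_lit 304) (nat_lit 34981174984) (nat_lit 56) (nat_lit 5) (nat_lit 59) (nat_lit 5) (nat_lit 60) (nat_lit 5) (nat_lit 442) (nat_lit 432) (nat_lit 326)))) (XT.nd (nat_lit 78) (nat_lit 228) (nat_lit 0) (XT.lf (nat_lit 0) (nat_lit 47745822455)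 (nat_lit 304) (nat_lit 22766629539) (nat_lit 76) (nat_lit 4648428336) (nat_lit 56) (nat_lit 5) (nat_lit 60) (nat_lit 5) (nat_lit 57) (nat_lit 5) (nat_lit 443) (nat_lit 432) (nat_lit 325)) (XT.nd (nat_lit 78) (nat_lit 0) (nat_lit 0) (XT.lf (nat_lit 0) (nat_lit 19384693882) (nat_lit 228) (nat_lit 41176202528) (nat_lit 304) (nat_lit 17996716377) (nat_lit 53) (nat_lit 5) (nat_lit 56) (nat_lit 5) (nat_lit 57) (nat_lit 5) (nat_lit 444) (nat_lit 432) (nat_lit 324)) (XT.lf (nat_lit 0) (nat_lit 66201278834) (nat_lit 228) (nat_lit 8821024822) (nat_lit 304) (nat_lit 7154090714) (nat_lit 53) (nat_lit 5) (nat_lit 56) (nat_lit 5) (nat_lit 57) (nat_lit 5) (nat_lit 445) (nat_lit 432) (nat_lit 323))))))) (XT.nd (nat_lit 858) (nat_lit 836) (nat_lit 0) (XT.nd (nat_lit 390) (nat_lit 608) (nat_lit 0) (XT.nd (nat_lit 156) (nat_lit 380) (nat_lit 0) (XT.nd (nat_lit 78) (nat_lit 0) (nat_lit 0) (XT.lf (nat_lit 0)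 (nat_lit 5751798689) (nat_lit 228) (nat_lit 54488282086) (nat_lit 76) (nat_lit 25721931836) (nat_lit 50) (nat_lit 5) (nat_lit 53) (nat_lit 5) (nat_lit 51) (nat_lit 5) (nat_lit 446) (nat_lit 432) (nat_lit 322)) (XT.lf (nat_lit 0) (nat_lit 19979669529) (nat_lit 228) (nat_lit 6816422094) (nat_lit 76) (nat_lit 63185442259) (nat_lit 50) (nat_lit 5) (nat_lit 53) (nat_lit 5) (nat_lit 51) (nat_lit 5) (nat_lit 447) (nat_lit 432) (nat_lit 321))) (XT.nd (nat_lit 78) (nat_lit 152) (nat_lit 0) (XT.lf (nat_lit 0) (nat_lit 36729047926) (nat_lit 304) (nat_lit 47466012138) (nat_lit 76) (nat_lit 10016895088) (nat_lit 47) (nat_lit 5) (nat_lit 51) (nat_lit 5) (nat_lit 48) (nat_lit 5) (nat_lit 448) (nat_lit 432) (nat_lit 320)) (XT.nd (nat_lit 78) (nat_lit 0) (nat_lit 0) (XT.lf (nat_lit 0) (nat_lit 5802970155) (nat_lit 152) (nat_lit 50041083272) (nat_lit 228) (nat_lit 42854703041) (nat_lit 45) (nat_lit 5) (nat_lit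 47) (nat_lit 5) (nat_lit 48) (nat_lit 5) (nat_lit 449) (nat_lit 432) (nat_lit 319)) (XT.lf (nat_lit 0) (nat_lit 66031416185) (nat_lit 152) (nat_lit 11753592784) (nat_lit 228) (nat_lit 25655753408) (nat_lit 45) (nat_lit 5) (nat_lit 47) (nat_lit 5) (nat_lit 48) (nat_lit 5) (nat_lit 450) (nat_lit 432) (nat_lit 318))))) (XT.nd (nat_lit 234) (nat_lit 228) (nat_lit 0) (XT.nd (nat_lit 78) (nat_lit 228) (nat_lit 0) (XT.lf (nat_lit 0) (nat_lit 22950849866) (nat_lit 152) (nat_lit 79793178882) (nat_lit 228) (nat_lit 5717077405) (nat_lit 43) (nat_lit 5) (nat_lit 45) (nat_lit 5) (nat_lit 46) (nat_lit 5) (nat_lit 451) (nat_lit 432) (nat_lit 317)) (XT.nd (nat_lit 78) (nat_lit 152) (nat_lit 0) (XT.lf (nat_lit 0) (nat_lit 16379198209) (nat_lit 228) (nat_lit 24247595891) (nat_lit 76) (nat_lit 73117554703) (nat_lit 42) (nat_lit 5) (nat_lit 45) (nat_lit 5) (nat_lit 43) (nat_lit 5) (nat_lit 452) (nat_lit 432)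 (nat_lit 316)) (XT.lf (nat_lit 0) (nat_lit 41062321156) (nat_lit 228) (nat_lit 75459834330) (nat_lit 76) (nat_lit 2825974794) (nat_lit 40) (nat_lit 5) (nat_lit 43) (nat_lit 5) (nat_lit 41) (nat_lit 5) (nat_lit 453) (nat_lit 432) (nat_lit 315)))) (XT.nd (nat_lit 78) (nat_lit 228) (nat_lit 0) (XT.lf (nat_lit 0) (nat_lit 69454651122) (nat_lit 228) (nat_lit 7566975140) (nat_lit 76) (nat_lit 48239823748) (nat_lit 40) (nat_lit 5) (nat_lit 43) (nat_lit 5) (nat_lit 41) (nat_lit 5) (nat_lit 454) (nat_lit 432) (nat_lit 314)) (XT.nd (nat_lit 78) (nat_lit 76) (nat_lit 0) (XT.lf (nat_lit 0) (nat_lit 69218632661) (nat_lit 152) (nat_lit 32563633011) (nat_lit 228) (nat_lit 29732458078) (nat_lit 38) (nat_lit 5) (nat_lit 40) (nat_lit 5) (nat_lit 41) (nat_lit 5) (nat_lit 455) (nat_lit 432) (nat_lit 313)) (XT.lf (nat_lit 0) (nat_lit 14681903518) (nat_lit 76) (nat_lit 122950358781) (nat_lit 152) (nat_lit 561103522)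 (nat_lit 37) (nat_lit 5) (nat_lit 38) (nat_lit 5) (nat_lit 39) (nat_lit 4) (nat_lit 456) (nat_lit 432) (nat_lit 312)))))) (XT.nd (nat_lit 468) (nat_lit 304) (nat_lit 0) (XT.nd (nat_lit 234) (nat_lit 304) (nat_lit 0) (XT.nd (nat_lit 78) (nat_lit 152) (nat_lit 0) (XT.lf (nat_lit 0) (nat_lit 31988568306) (nat_lit 152) (nat_lit 45544622141) (nat_lit 76) (nat_lit 67606168715) (nat_lit 36) (nat_lit 5) (nat_lit 38) (nat_lit 5) (nat_lit 37) (nat_lit 5) (nat_lit 457) (nat_lit 432) (nat_lit 311)) (XT.nd (nat_lit 78) (nat_lit 0) (nat_lit 0) (XT.lf (nat_lit 0) (nat_lit 40678696370) (nat_lit 152) (nat_lit 27410800789) (nat_lit 228) (nat_lit 84472161297) (nat_lit 34) (nat_lit 5) (nat_lit 36) (nat_lit 5) (nat_lit 37) (nat_lit 5) (nat_lit 458) (nat_lit 432) (nat_lit 310)) (XT.lf (nat_lit 0) (nat_lit 108998053358) (nat_lit 228) (nat_lit 24764293283) (nat_lit 76) (nat_lit 26661831004) (nat_lit 34) (nat_lit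 5) (nat_lit 37) (nat_lit 5) (nat_lit 35) (nat_lit 4) (nat_lit 459) (nat_lit 432) (nat_lit 309)))) (XT.nd (nat_lit 78) (nat_lit 228) (nat_lit 0) (XT.lf (nat_lit 0) (nat_lit 72223690085) (nat_lit 76) (nat_lit 83403894885) (nat_lit 152) (nat_lit 13092250305) (nat_lit 33) (nat_lit 5) (nat_lit 34) (nat_lit 5) (nat_lit 35) (nat_lit 4) (nat_lit 460) (nat_lit 432) (nat_lit 308)) (XT.nd (nat_lit 78) (nat_lit 0) (nat_lit 0) (XT.lf (nat_lit 0) (nat_lit 57434365) (nat_lit 152) (nat_lit 27530215899) (nat_lit 228) (nat_lit 149981396987) (nat_lit 30) (nat_lit 5) (nat_lit 32) (nat_lit 5) (nat_lit 33) (nat_lit 5) (nat_lit 461) (nat_lit 432) (nat_lit 307)) (XT.lf (nat_lit 0) (nat_lit 74310044689) (nat_lit 228) (nat_lit 78290902243) (nat_lit 76) (nat_lit 34218410848) (nat_lit 30) (nat_lit 5) (nat_lit 33) (nat_lit 5) (nat_lit 31) (nat_lit 4) (nat_lit 462) (nat_lit 432) (nat_lit 306))))) (XT.nd (nat_lit 234)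 (nat_lit 76) (nat_lit 0) (XT.nd (nat_lit 78) (nat_lit 152) (nat_lit 0) (XT.lf (nat_lit 0) (nat_lit 29633731033) (nat_lit 76) (nat_lit 96563666288) (nat_lit 152) (nat_lit 70498122631) (nat_lit 29) (nat_lit 5) (nat_lit 30) (nat_lit 5) (nat_lit 31) (nat_lit 4) (nat_lit 463) (nat_lit 432) (nat_lit 305)) (XT.nd (nat_lit 78) (nat_lit 152) (nat_lit 0) (XT.lf (nat_lit 0) (nat_lit 150643771944) (nat_lit 76) (nat_lit 33732001615) (nat_lit 152) (nat_lit 22814798830) (nat_lit 29) (nat_lit 5) (nat_lit 30) (nat_lit 5) (nat_lit 31) (nat_lit 4) (nat_lit 464) (nat_lit 432) (nat_lit 304)) (XT.lf (nat_lit 0) (nat_lit 29699905855) (nat_lit 152) (nat_lit 153834145828) (nat_lit 76) (nat_lit 34739865780) (nat_lit 27) (nat_lit 5) (nat_lit 29) (nat_lit 5) (nat_lit 28) (nat_lit 4) (nat_lit 465) (nat_lit 432) (nat_lit 303)))) (XT.nd (nat_lit 78) (nat_lit 76) (nat_lit 0) (XT.lf (nat_lit 0) (nat_lit 87645058114) (nat_lit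 152) (nat_lit 33309008406) (nat_lit 76) (nat_lit 109045507313) (nat_lit 27) (nat_lit 5) (nat_lit 29) (nat_lit 5) (nat_lit 28) (nat_lit 4) (nat_lit 466) (nat_lit 432) (nat_lit 302)) (XT.nd (nat_lit 78) (nat_lit 0) (nat_lit 0) (XT.lf (nat_lit 0) (nat_lit 101957547881) (nat_lit 76) (nat_lit 50719855348) (nat_lit 152) (nat_lit 89789753119) (nat_lit 26) (nat_lit 5) (nat_lit 27) (nat_lit 5) (nat_lit 28) (nat_lit 4) (nat_lit 467) (nat_lit 432) (nat_lit 301)) (XT.lf (nat_lit 0) (nat_lit 224450674770) (nat_lit 152) (nat_lit 6548579774) (nat_lit 0) (nat_lit 24809823899) (nat_lit 26) (nat_lit 5) (nat_lit 28) (nat_lit 4) (nat_lit 26) (nat_lit 4) (nat_lit 468) (nat_lit 432) (nat_lit 300))))))))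
noncomputable def xc173 : XT := (XT.nd (nat_lit 1716) (nat_lit 608) (nat_lit 0) (XT.nd (nat_lit 858) (nat_lit 532) (nat_lit 0) (XT.nd (nat_lit 390) (nat_lit 304) (nat_lit 0) (XT.nd (nat_lit 156) (nat_lit 152) (nat_lit 0) (XT.nd (nat_lit 78) (nat_lit 76) (nat_lit 0) (XT.lf (nat_lit 0) (nat_lit 35063998349) (nat_lit 152) (nat_lit 126708307095) (nat_lit 76) (nat_lit 107992592303) (nat_lit 24) (nat_lit 5) (nat_lit 26) (nat_lit 5) (nat_lit 25) (nat_lit 4) (nat_lit 469) (nat_lit 432) (nat_lit 299)) (XT.lf (nat_lit 0) (nat_lit 20379172835) (nat_lit 76) (nat_lit 85400215078) (nat_lit 152) (nat_lit 178938765336) (nat_lit 23) (nat_lit 5) (nat_lit 24) (nat_lit 5) (nat_lit 25) (nat_lit 4) (nat_lit 470) (nat_lit 432) (nat_lit 298))) (XT.nd (nat_lit 78) (nat_lit 152) (nat_lit 0) (XT.lf (nat_lit 0) (nat_lit 185635784677) (nat_lit 152) (nat_lit 114171513652) (nat_lit 0) (nat_lit 781668842) (nat_lit 23)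 (nat_lit 5) (nat_lit 25) (nat_lit 4) (nat_lit 23) (nat_lit 4) (nat_lit 471) (nat_lit 432) (nat_lit 297)) (XT.nd (nat_lit 78) (nat_lit 76) (nat_lit 0) (XT.lf (nat_lit 0) (nat_lit 48201601370) (nat_lit 76) (nat_lit 227056110140) (nat_lit 76) (nat_lit 42201573286) (nat_lit 22) (nat_lit 4) (nat_lit 23) (nat_lit 5) (nat_lit 23) (nat_lit 4) (nat_lit 472) (nat_lit 432) (nat_lit 296)) (XT.lf (nat_lit 0) (nat_lit 37753097978) (nat_lit 152) (nat_lit 106328482890) (nat_lit 76) (nat_lit 191271485444) (nat_lit 21) (nat_lit 5) (nat_lit 23) (nat_lit 5) (nat_lit 22) (nat_lit 4) (nat_lit 473) (nat_lit 432) (nat_lit 295))))) (XT.nd (nat_lit 234) (nat_lit 152) (nat_lit 0) (XT.nd (nat_lit 78) (nat_lit 76) (nat_lit 0) (XT.lf (nat_lit 0) (nat_lit 72147264003) (nat_lit 76) (nat_lit 51411655057) (nat_lit 152) (nat_lit 230892959178) (nat_lit 20) (nat_lit 5) (nat_lit 21) (nat_lit 5) (nat_lit 22) (nat_lit 4) (nat_lit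 474) (nat_lit 432) (nat_lit 294)) (XT.nd (nat_lit 78) (nat_lit 76) (nat_lit 0) (XT.lf (nat_lit 0) (nat_lit 220382102992) (nat_lit 152) (nat_lit 105144770236) (nat_lit 0) (nat_lit 49219490158) (nat_lit 20) (nat_lit 5) (nat_lit 22) (nat_lit 4) (nat_lit 20) (nat_lit 4) (nat_lit 475) (nat_lit 432) (nat_lit 293)) (XT.lf (nat_lit 0) (nat_lit 89319948359) (nat_lit 76) (nat_lit 239114352818) (nat_lit 76) (nat_lit 67951453445) (nat_lit 19) (nat_lit 4) (nat_lit 20) (nat_lit 5) (nat_lit 20) (nat_lit 4) (nat_lit 476) (nat_lit 432) (nat_lit 292)))) (XT.nd (nat_lit 78) (nat_lit 76) (nat_lit 0) (XT.lf (nat_lit 0) (nat_lit 27054210615) (nat_lit 152) (nat_lit 114890406607) (nat_lit 76) (nat_lit 277526926678) (nat_lit 18) (nat_lit 5) (nat_lit 20) (nat_lit 5) (nat_lit 19) (nat_lit 4) (nat_lit 477) (nat_lit 432) (nat_lit 291)) (XT.nd (nat_lit 78) (nat_lit 0) (nat_lit 0) (XT.lf (nat_lit 0) (nat_lit 95679697428)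 (nat_lit 76) (nat_lit 32610258232) (nat_lit 152) (nat_lit 315788981159) (nat_lit 17) (nat_lit 5) (nat_lit 18) (nat_lit 5) (nat_lit 19) (nat_lit 4) (nat_lit 478) (nat_lit 432) (nat_lit 290)) (XT.lf (nat_lit 0) (nat_lit 242902710204) (nat_lit 152) (nat_lit 142912098627) (nat_lit 0) (nat_lit 84417860379) (nat_lit 17) (nat_lit 5) (nat_lit 19) (nat_lit 4) (nat_lit 17) (nat_lit 4) (nat_lit 479) (nat_lit 432) (nat_lit 289)))))) (XT.nd (nat_lit 390) (nat_lit 304) (nat_lit 0) (XT.nd (nat_lit 156) (nat_lit 152) (nat_lit 0) (XT.nd (nat_lit 78) (nat_lit 0) (nat_lit 0) (XT.lf (nat_lit 0) (nat_lit 82282502671) (nat_lit 76) (nat_lit 287227596625) (nat_lit 76) (nat_lit 128742551788) (nat_lit 16) (nat_lit 4) (nat_lit 17) (nat_lit 5) (nat_lit 17) (nat_lit 4) (nat_lit 480) (nat_lit 432) (nat_lit 288)) (XT.lf (nat_lit 0) (nat_lit 333619629754) (nat_lit 76) (nat_lit 176533626521) (nat_lit 76) (nat_lit 18048401115)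 (nat_lit 16) (nat_lit 4) (nat_lit 17) (nat_lit 5) (nat_lit 17) (nat_lit 4) (nat_lit 481) (nat_lit 432) (nat_lit 287))) (XT.nd (nat_lit 78) (nat_lit 0) (nat_lit 0) (XT.lf (nat_lit 0) (nat_lit 44291103169) (nat_lit 76) (nat_lit 53197596718) (nat_lit 152) (nat_lit 462777401797) (nat_lit 14) (nat_lit 5) (nat_lit 15) (nat_lit 5) (nat_lit 16) (nat_lit 4) (nat_lit 482) (nat_lit 432) (nat_lit 286)) (XT.nd (nat_lit 78) (nat_lit 0) (nat_lit 0) (XT.lf (nat_lit 0) (nat_lit 228675943874) (nat_lit 152) (nat_lit 283661607262) (nat_lit 0) (nat_lit 81930066646) (nat_lit 14) (nat_lit 5) (nat_lit 16) (nat_lit 4) (nat_lit 14) (nat_lit 4) (nat_lit 483) (nat_lit 432) (nat_lit 285)) (XT.lf (nat_lit 0) (nat_lit 371739666341) (nat_lit 152) (nat_lit 34145412538) (nat_lit 0) (nat_lit 224993656390) (nat_lit 14) (nat_lit 5) (nat_lit 16) (nat_lit 4) (nat_lit 14) (nat_lit 4) (nat_lit 484) (nat_lit 432) (nat_lit 284)))))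 (XT.nd (nat_lit 234) (nat_lit 76) (nat_lit 0) (XT.nd (nat_lit 78) (nat_lit 152) (nat_lit 0) (XT.lf (nat_lit 0) (nat_lit 247723748828) (nat_lit 76) (nat_lit 284482262119) (nat_lit 76) (nat_lit 137736129277) (nat_lit 13) (nat_lit 4) (nat_lit 14) (nat_lit 5) (nat_lit 14) (nat_lit 4) (nat_lit 485) (nat_lit 432) (nat_lit 283)) (XT.nd (nat_lit 78) (nat_lit 152) (nat_lit 0) (XT.lf (nat_lit 0) (nat_lit 554083860834) (nat_lit 76) (nat_lit 152359167101) (nat_lit 76) (nat_lit 5612920471) (nat_lit 13) (nat_lit 4) (nat_lit 14) (nat_lit 5) (nat_lit 14) (nat_lit 4) (nat_lit 486) (nat_lit 432) (nat_lit 282)) (XT.lf (nat_lit 0) (nat_lit 130652465769) (nat_lit 76) (nat_lit 2712350460) (nat_lit 152) (nat_lit 623658944544) (nat_lit 11) (nat_lit 5) (nat_lit 12) (nat_lit 5) (nat_lit 13) (nat_lit 4) (nat_lit 487) (nat_lit 432) (nat_lit 281)))) (XT.nd (nat_lit 78) (nat_lit 76) (nat_lit 0) (XT.lf (nat_lit 0) (nat_lit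 291410432466) (nat_lit 152) (nat_lit 357972579843) (nat_lit 0) (nat_lit 155534090295) (nat_lit 11) (nat_lit 5) (nat_lit 13) (nat_lit 4) (nat_lit 11) (nat_lit 4) (nat_lit 488) (nat_lit 432) (nat_lit 280)) (XT.nd (nat_lit 78) (nat_lit 76) (nat_lit 0) (XT.lf (nat_lit 0) (nat_lit 462169945970) (nat_lit 152) (nat_lit 68172825826) (nat_lit 0) (nat_lit 326293520161) (nat_lit 11) (nat_lit 5) (nat_lit 13) (nat_lit 4) (nat_lit 11) (nat_lit 4) (nat_lit 489) (nat_lit 432) (nat_lit 279)) (XT.lf (nat_lit 0) (nat_lit 257701819738) (nat_lit 76) (nat_lit 395085948098) (nat_lit 76) (nat_lit 259209444847) (nat_lit 10) (nat_lit 4) (nat_lit 11) (nat_lit 5) (nat_lit 11) (nat_lit 4) (nat_lit 490) (nat_lit 432) (nat_lit 278))))))) (XT.nd (nat_lit 858) (nat_lit 228) (nat_lit 0) (XT.nd (nat_lit 390) (nat_lit 228) (nat_lit 0) (XT.nd (nat_lit 156) (nat_lit 76) (nat_lit 0) (XT.nd (nat_lit 78) (nat_lit 76) (nat_lit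 0) (XT.lf (nat_lit 0) (nat_lit 613523118020) (nat_lit 76) (nat_lit 246995680678) (nat_lit 76) (nat_lit 111119105721) (nat_lit 10) (nat_lit 4) (nat_lit 11) (nat_lit 5) (nat_lit 11) (nat_lit 4) (nat_lit 491) (nat_lit 432) (nat_lit 277)) (XT.lf (nat_lit 0) (nat_lit 46376189924) (nat_lit 152) (nat_lit 39414166308) (nat_lit 76) (nat_lit 950165582338) (nat_lit 9) (nat_lit 5) (nat_lit 11) (nat_lit 5) (nat_lit 10) (nat_lit 4) (nat_lit 492) (nat_lit 432) (nat_lit 276))) (XT.nd (nat_lit 78) (nat_lit 0) (nat_lit 0) (XT.lf (nat_lit 0) (nat_lit 220507938129) (nat_lit 152) (nat_lit 789181192492) (nat_lit 0) (nat_lit 94696176251) (nat_lit 8) (nat_lit 5) (nat_lit 10) (nat_lit 4) (nat_lit 8) (nat_lit 4) (nat_lit 493) (nat_lit 432) (nat_lit 275)) (XT.nd (nat_lit 78) (nat_lit 0) (nat_lit 0) (XT.lf (nat_lit 0) (nat_lit 411904031103) (nat_lit 152) (nat_lit 480026072628) (nat_lit 0) (nat_lit 286092216519) (nat_lit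 8) (nat_lit 5) (nat_lit 10) (nat_lit 4) (nat_lit 8) (nat_lit 4) (nat_lit 494) (nat_lit 432) (nat_lit 274)) (XT.lf (nat_lit 0) (nat_lit 618611663208) (nat_lit 152) (nat_lit 146138843542) (nat_lit 0) (nat_lit 492799799822) (nat_lit 8) (nat_lit 5) (nat_lit 10) (nat_lit 4) (nat_lit 8) (nat_lit 4) (nat_lit 495) (nat_lit 432) (nat_lit 273))))) (XT.nd (nat_lit 234) (nat_lit 152) (nat_lit 0) (XT.nd (nat_lit 78) (nat_lit 0) (nat_lit 0) (XT.lf (nat_lit 0) (nat_lit 225752121154) (nat_lit 76) (nat_lit 621532991347) (nat_lit 76) (nat_lit 495721082774) (nat_lit 7) (nat_lit 4) (nat_lit 8) (nat_lit 5) (nat_lit 8) (nat_lit 4) (nat_lit 496) (nat_lit 432) (nat_lit 272)) (XT.nd (nat_lit 78) (nat_lit 0) (nat_lit 0) (XT.lf (nat_lit 0) (nat_lit 635705137472) (nat_lit 76) (nat_lit 462542861558) (nat_lit 76) (nat_lit 336730911146) (nat_lit 7) (nat_lit 4) (nat_lit 8) (nat_lit 5) (nat_lit 8) (nat_lit 4) (nat_lit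 497) (nat_lit 432) (nat_lit 271)) (XT.lf (nat_lit 0) (nat_lit 1078454144099) (nat_lit 76) (nat_lit 290833648616) (nat_lit 76) (nat_lit 165021659462) (nat_lit 7) (nat_lit 4) (nat_lit 8) (nat_lit 5) (nat_lit 8) (nat_lit 4) (nat_lit 498) (nat_lit 432) (nat_lit 270)))) (XT.nd (nat_lit 78) (nat_lit 76) (nat_lit 0) (XT.lf (nat_lit 0) (nat_lit 19402506950) (nat_lit 152) (nat_lit 85454810567) (nat_lit 76) (nat_lit 1536689832977) (nat_lit 6) (nat_lit 5) (nat_lit 8) (nat_lit 5) (nat_lit 7) (nat_lit 4) (nat_lit 499) (nat_lit 432) (nat_lit 269)) (XT.nd (nat_lit 78) (nat_lit 0) (nat_lit 0) (XT.lf (nat_lit 0) (nat_lit 220144616575) (nat_lit 152) (nat_lit 1432386018635) (nat_lit 0) (nat_lit 103651970058) (nat_lit 5) (nat_lit 5) (nat_lit 7) (nat_lit 4) (nat_lit 5) (nat_lit 4) (nat_lit 500) (nat_lit 432) (nat_lit 268)) (XT.lf (nat_lit 0) (nat_lit 442066726949) (nat_lit 152) (nat_lit 1111938466963) (nat_lit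 0) (nat_lit 325574051957) (nat_lit 5) (nat_lit 5) (nat_lit 7) (nat_lit 4) (nat_lit 5) (nat_lit 4) (nat_lit 501) (nat_lit 432) (nat_lit 267)))))) (XT.nd (nat_lit 468) (nat_lit 152) (nat_lit 0) (XT.nd (nat_lit 234) (nat_lit 0) (nat_lit 0) (XT.nd (nat_lit 78) (nat_lit 76) (nat_lit 0) (XT.lf (nat_lit 0) (nat_lit 681742505584) (nat_lit 152) (nat_lit 765855315959) (nat_lit 0) (nat_lit 565249804225) (nat_lit 5) (nat_lit 5) (nat_lit 7) (nat_lit 4) (nat_lit 5) (nat_lit 4) (nat_lit 502) (nat_lit 432) (nat_lit 266)) (XT.nd (nat_lit 78) (nat_lit 76) (nat_lit 0) (XT.lf (nat_lit 0) (nat_lit 940592253388) (nat_lit 152) (nat_lit 392085702506) (nat_lit 0) (nat_lit 824099527617) (nat_lit 5) (nat_lit 5) (nat_lit 7) (nat_lit 4) (nat_lit 5) (nat_lit 4) (nat_lit 503) (nat_lit 432) (nat_lit 265)) (XT.lf (nat_lit 0) (nat_lit 12195366038) (nat_lit 76) (nat_lit 1208247827603) (nat_lit 76) (nat_lit 1091755079227)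 (nat_lit 4) (nat_lit 4) (nat_lit 5) (nat_lit 5) (nat_lit 5) (nat_lit 4) (nat_lit 504) (nat_lit 432) (nat_lit 264)))) (XT.nd (nat_lit 78) (nat_lit 0) (nat_lit 0) (XT.lf (nat_lit 0) (nat_lit 471117010245) (nat_lit 76) (nat_lit 1062285432858) (nat_lit 76) (nat_lit 945792663552) (nat_lit 4) (nat_lit 4) (nat_lit 5) (nat_lit 5) (nat_lit 5) (nat_lit 4) (nat_lit 505) (nat_lit 432) (nat_lit 263)) (XT.nd (nat_lit 78) (nat_lit 0) (nat_lit 0) (XT.lf (nat_lit 0) (nat_lit 966752227527) (nat_lit 76) (nat_lit 904646127263) (nat_lit 76) (nat_lit 788153338577) (nat_lit 4) (nat_lit 4) (nat_lit 5) (nat_lit 5) (nat_lit 5) (nat_lit 4) (nat_lit 506) (nat_lit 432) (nat_lit 262)) (XT.lf (nat_lit 0) (nat_lit 1502038115466) (nat_lit 76) (nat_lit 734395751971) (nat_lit 76) (nat_lit 617902945340) (nat_lit 4) (nat_lit 4) (nat_lit 5) (nat_lit 5) (nat_lit 5) (nat_lit 4) (nat_lit 507) (nat_lit 432) (nat_lit 261))))) (XT.nd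 (nat_lit 234) (nat_lit 152) (nat_lit 0) (XT.nd (nat_lit 78) (nat_lit 0) (nat_lit 0) (XT.lf (nat_lit 0) (nat_lit 2080146738585) (nat_lit 76) (nat_lit 550525415867) (nat_lit 76) (nat_lit 434032592622) (nat_lit 4) (nat_lit 4) (nat_lit 5) (nat_lit 5) (nat_lit 5) (nat_lit 4) (nat_lit 508) (nat_lit 432) (nat_lit 260)) (XT.nd (nat_lit 78) (nat_lit 0) (nat_lit 0) (XT.lf (nat_lit 0) (nat_lit 2704503925760) (nat_lit 76) (nat_lit 351945516961) (nat_lit 76) (nat_lit 235452678331) (nat_lit 4) (nat_lit 4) (nat_lit 5) (nat_lit 5) (nat_lit 5) (nat_lit 4) (nat_lit 509) (nat_lit 432) (nat_lit 259)) (XT.lf (nat_lit 0) (nat_lit 3378809571434) (nat_lit 76) (nat_lit 137479285481) (nat_lit 76) (nat_lit 20986432607) (nat_lit 4) (nat_lit 4) (nat_lit 5) (nat_lit 5) (nat_lit 5) (nat_lit 4) (nat_lit 510) (nat_lit 432) (nat_lit 258)))) (XT.nd (nat_lit 78) (nat_lit 0) (nat_lit 0) (XT.lf (nat_lit 0) (nat_lit 210280703032)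 (nat_lit 152) (nat_lit 3488360963134) (nat_lit 0) (nat_lit 102416938157) (nat_lit 2) (nat_lit 5) (nat_lit 4) (nat_lit 4) (nat_lit 2) (nat_lit 4) (nat_lit 511) (nat_lit 432) (nat_lit 257)) (XT.nd (nat_lit 78) (nat_lit 0) (nat_lit 0) (XT.lf (nat_lit 0) (nat_lit 466931505505) (nat_lit 152) (nat_lit 3259260452635) (nat_lit 0) (nat_lit 359067729323) (nat_lit 2) (nat_lit 5) (nat_lit 4) (nat_lit 4) (nat_lit 2) (nat_lit 4) (nat_lit 512) (nat_lit 432) (nat_lit 256)) (XT.lf (nat_lit 0) (nat_lit 744114322011) (nat_lit 152) (nat_lit 3011832003897) (nat_lit 0) (nat_lit 636250535359) (nat_lit 2) (nat_lit 5) (nat_lit 4) (nat_lit 4) (nat_lit 2) (nat_lit 4) (nat_lit 513) (nat_lit 432) (nat_lit 255))))))))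
noncomputable def xc174 : XT := (XT.nd (nat_lit 57018) (nat_lit 0) (nat_lit 1976) (XT.nd (nat_lit 56160) (nat_lit 0) (nat_lit 4180) (XT.nd (nat_lit 390) (nat_lit 76) (nat_lit 0) (XT.nd (nat_lit 156) (nat_lit 0) (nat_lit 0) (XT.nd (nat_lit 78) (nat_lit 0) (nat_lit 0) (XT.lf (nat_lit 0) (nat_lit 1043471717389) (nat_lit 152) (nat_lit 2744609374263) (nat_lit 0) (nat_lit 935607921042) (nat_lit 2) (nat_lit 5) (nat_lit 4) (nat_lit 4) (nat_lit 2) (nat_lit 4) (nat_lit 514) (nat_lit 432) (nat_lit 254)) (XT.lf (nat_lit 0) (nat_lit 1366777661389) (nat_lit 152) (nat_lit 2456009022222) (nat_lit 0) (nat_lit 1258913856065) (nat_lit 2) (nat_lit 5) (nat_lit 4) (nat_lit 4) (nat_lit 2) (nat_lit 4) (nat_lit 515) (nat_lit 432) (nat_lit 253))) (XT.nd (nat_lit 78) (nat_lit 0) (nat_lit 0) (XT.lf (nat_lit 0) (nat_lit 1715948041087) (nat_lit 152) (nat_lit 2144320723467) (nat_lit 0) (nat_lit 1608084227451) (nat_lit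 2) (nat_lit 5) (nat_lit 4) (nat_lit 4) (nat_lit 2) (nat_lit 4) (nat_lit 516) (nat_lit 432) (nat_lit 252)) (XT.nd (nat_lit 78) (nat_lit 0) (nat_lit 0) (XT.lf (nat_lit 0) (nat_lit 2093052014287) (nat_lit 152) (nat_lit 1807697436227) (nat_lit 0) (nat_lit 1985188192956) (nat_lit 2) (nat_lit 5) (nat_lit 4) (nat_lit 4) (nat_lit 2) (nat_lit 4) (nat_lit 517) (nat_lit 432) (nat_lit 251)) (XT.lf (nat_lit 0) (nat_lit 2500324271203) (nat_lit 152) (nat_lit 1444144355837) (nat_lit 0) (nat_lit 2392460442745) (nat_lit 2) (nat_lit 5) (nat_lit 4) (nat_lit 4) (nat_lit 2) (nat_lit 4) (nat_lit 518) (nat_lit 432) (nat_lit 250))))) (XT.nd (nat_lit 234) (nat_lit 76) (nat_lit 0) (XT.nd (nat_lit 78) (nat_lit 0) (nat_lit 0) (XT.lf (nat_lit 0) (nat_lit 2940178277059) (nat_lit 152) (nat_lit 1051507093672) (nat_lit 0) (nat_lit 2832314442003) (nat_lit 2) (nat_lit 5) (nat_lit 4) (nat_lit 4) (nat_lit 2) (nat_lit 4) (nat_lit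 519) (nat_lit 432) (nat_lit 249)) (XT.nd (nat_lit 78) (nat_lit 0) (nat_lit 0) (XT.lf (nat_lit 0) (nat_lit 3415220574113) (nat_lit 152) (nat_lit 627458910402) (nat_lit 0) (nat_lit 3307356732948) (nat_lit 2) (nat_lit 5) (nat_lit 4) (nat_lit 4) (nat_lit 2) (nat_lit 4) (nat_lit 520) (nat_lit 432) (nat_lit 248)) (XT.lf (nat_lit 0) (nat_lit 3928266227829) (nat_lit 152) (nat_lit 169486927902) (nat_lit 0) (nat_lit 3820402381007) (nat_lit 2) (nat_lit 5) (nat_lit 4) (nat_lit 4) (nat_lit 2) (nat_lit 4) (nat_lit 521) (nat_lit 432) (nat_lit 247)))) (XT.nd (nat_lit 78) (nat_lit 0) (nat_lit 0) (XT.lf (nat_lit 0) (nat_lit 342243150343) (nat_lit 76) (nat_lit 4148343314401) (nat_lit 76) (nat_lit 4040479462341) (nat_lit 1) (nat_lit 4) (nat_lit 2) (nat_lit 5) (nat_lit 2) (nat_lit 4) (nat_lit 522) (nat_lit 432) (nat_lit 246)) (XT.nd (nat_lit 78) (nat_lit 0) (nat_lit 0) (XT.lf (nat_lit 0) (nat_lit 904550456589)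 (nat_lit 76) (nat_lit 4197975912548) (nat_lit 76) (nat_lit 4090112055639) (nat_lit 1) (nat_lit 4) (nat_lit 2) (nat_lit 5) (nat_lit 2) (nat_lit 4) (nat_lit 523) (nat_lit 432) (nat_lit 245)) (XT.lf (nat_lit 0) (nat_lit 1511842301014) (nat_lit 76) (nat_lit 4251579142240) (nat_lit 76) (nat_lit 4143715280840) (nat_lit 1) (nat_lit 4) (nat_lit 2) (nat_lit 5) (nat_lit 2) (nat_lit 4) (nat_lit 524) (nat_lit 432) (nat_lit 244)))))) (XT.nd (nat_lit 390) (nat_lit 532) (nat_lit 0) (XT.nd (nat_lit 156) (nat_lit 456) (nat_lit 0) (XT.nd (nat_lit 78) (nat_lit 0) (nat_lit 0) (XT.lf (nat_lit 0) (nat_lit 23517170442) (nat_lit 532) (nat_lit 1126214853) (nat_lit 532) (nat_lit 1126214853) (nat_lit 69) (nat_lit 3) (nat_lit 76) (nat_lit 3) (nat_lit 76) (nat_lit 5) (nat_lit 433) (nat_lit 433) (nat_lit 334)) (XT.lf (nat_lit 76) (nat_lit 24214019795) (nat_lit 0) (nat_lit 25307177212) (nat_lit 532) (nat_lit 4031117141)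 (nat_lit 70) (nat_lit 5) (nat_lit 69) (nat_lit 3) (nat_lit 76) (nat_lit 5) (nat_lit 434) (nat_lit 433) (nat_lit 333))) (XT.nd (nat_lit 78) (nat_lit 532) (nat_lit 0) (XT.lf (nat_lit 0) (nat_lit 52282073541) (nat_lit 456) (nat_lit 2813005856) (nat_lit 532) (nat_lit 625393512) (nat_lit 70) (nat_lit 5) (nat_lit 76) (nat_lit 5) (nat_lit 77) (nat_lit 5) (nat_lit 435) (nat_lit 433) (nat_lit 332)) (XT.nd (nat_lit 78) (nat_lit 532) (nat_lit 0) (XT.lf (nat_lit 76) (nat_lit 26501259618) (nat_lit 0) (nat_lit 30055096266) (nat_lit 532) (nat_lit 1402327073) (nat_lit 71) (nat_lit 5) (nat_lit 70) (nat_lit 5) (nat_lit 77) (nat_lit 5) (nat_lit 436) (nat_lit 433) (nat_lit 331)) (XT.lf (nat_lit 0) (nat_lit 833613246) (nat_lit 532) (nat_lit 2071800971) (nat_lit 608) (nat_lit 57462857473) (nat_lit 63) (nat_lit 5) (nat_lit 70) (nat_lit 5) (nat_lit 71) (nat_lit 5) (nat_lit 437) (nat_lit 433) (nat_lit 330)))))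 (XT.nd (nat_lit 234) (nat_lit 608) (nat_lit 0) (XT.nd (nat_lit 78) (nat_lit 0) (nat_lit 0) (XT.lf (nat_lit 0) (nat_lit 4576542599) (nat_lit 532) (nat_lit 32376653012) (nat_lit 608) (nat_lit 25902209056) (nat_lit 64) (nat_lit 5) (nat_lit 71) (nat_lit 5) (nat_lit 72) (nat_lit 5) (nat_lit 438) (nat_lit 433) (nat_lit 329)) (XT.nd (nat_lit 78) (nat_lit 0) (nat_lit 76) (XT.lf (nat_lit 76) (nat_lit 142905376) (nat_lit 0) (nat_lit 8611219020) (nat_lit 608) (nat_lit 56776567499) (nat_lit 65) (nat_lit 5) (nat_lit 64) (nat_lit 5) (nat_lit 72) (nat_lit 5) (nat_lit 439) (nat_lit 433) (nat_lit 328)) (XT.lf (nat_lit 0) (nat_lit 14701497968) (nat_lit 532) (nat_lit 31797522981) (nat_lit 76) (nat_lit 21806135315) (nat_lit 65) (nat_lit 5) (nat_lit 72) (nat_lit 5) (nat_lit 66) (nat_lit 5) (nat_lit 440) (nat_lit 433) (nat_lit 327)))) (XT.nd (nat_lit 78) (nat_lit 228) (nat_lit 0) (XT.lf (nat_lit 0) (nat_lit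 4478854483) (nat_lit 456) (nat_lit 16975619147) (nat_lit 532) (nat_lit 49820720085) (nat_lit 59) (nat_lit 5) (nat_lit 65) (nat_lit 5) (nat_lit 66) (nat_lit 5) (nat_lit 441) (nat_lit 433) (nat_lit 326)) (XT.nd (nat_lit 78) (nat_lit 228) (nat_lit 0) (XT.lf (nat_lit 0) (nat_lit 29996757478) (nat_lit 532) (nat_lit 29330318954) (nat_lit 76) (nat_lit 15055832961) (nat_lit 59) (nat_lit 5) (nat_lit 66) (nat_lit 5) (nat_lit 60) (nat_lit 5) (nat_lit 442) (nat_lit 433) (nat_lit 325)) (XT.lf (nat_lit 0) (nat_lit 11253549505) (nat_lit 228) (nat_lit 28679068313) (nat_lit 304) (nat_lit 37749809783) (nat_lit 56) (nat_lit 5) (nat_lit 59) (nat_lit 5) (nat_lit 60) (nat_lit 5) (nat_lit 443) (nat_lit 433) (nat_lit 324))))))) (XT.nd (nat_lit 858) (nat_lit 988) (nat_lit 0) (XT.nd (nat_lit 390) (nat_lit 760) (nat_lit 0) (XT.nd (nat_lit 156) (nat_lit 228) (nat_lit 0) (XT.nd (nat_lit 78) (nat_lit 228) (nat_lit 0)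 (XT.lf (nat_lit 0) (nat_lit 51591125369) (nat_lit 304) (nat_lit 24558255290) (nat_lit 76) (nat_lit 5022305057) (nat_lit 56) (nat_lit 5) (nat_lit 60) (nat_lit 5) (nat_lit 57) (nat_lit 5) (nat_lit 444) (nat_lit 433) (nat_lit 323)) (XT.lf (nat_lit 0) (nat_lit 20964421989) (nat_lit 228) (nat_lit 44465780515) (nat_lit 304) (nat_lit 19410051526) (nat_lit 53) (nat_lit 5) (nat_lit 56) (nat_lit 5) (nat_lit 57) (nat_lit 5) (nat_lit 445) (nat_lit 433) (nat_lit 322))) (XT.nd (nat_lit 78) (nat_lit 228) (nat_lit 0) (XT.lf (nat_lit 0) (nat_lit 71524189100) (nat_lit 228) (nat_lit 9522523276) (nat_lit 304) (nat_lit 7701971525) (nat_lit 53) (nat_lit 5) (nat_lit 56) (nat_lit 5) (nat_lit 57) (nat_lit 5) (nat_lit 446) (nat_lit 433) (nat_lit 321)) (XT.nd (nat_lit 78) (nat_lit 0) (nat_lit 0) (XT.lf (nat_lit 0) (nat_lit 6234227571) (nat_lit 228) (nat_lit 58818353721) (nat_lit 76) (nat_lit 27784599186) (nat_lit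 50) (nat_lit 5) (nat_lit 53) (nat_lit 5) (nat_lit 51) (nat_lit 5) (nat_lit 447) (nat_lit 433) (nat_lit 320)) (XT.lf (nat_lit 0) (nat_lit 21598677338) (nat_lit 228) (nat_lit 7334892405) (nat_lit 76) (nat_lit 68244826532) (nat_lit 50) (nat_lit 5) (nat_lit 53) (nat_lit 5) (nat_lit 51) (nat_lit 5) (nat_lit 448) (nat_lit 433) (nat_lit 319))))) (XT.nd (nat_lit 234) (nat_lit 380) (nat_lit 0) (XT.nd (nat_lit 78) (nat_lit 152) (nat_lit 0) (XT.lf (nat_lit 0) (nat_lit 39687261400) (nat_lit 304) (nat_lit 51235696178) (nat_lit 76) (nat_lit 10824353947) (nat_lit 47) (nat_lit 5) (nat_lit 51) (nat_lit 5) (nat_lit 48) (nat_lit 5) (nat_lit 449) (nat_lit 433) (nat_lit 318)) (XT.nd (nat_lit 78) (nat_lit 0) (nat_lit 0) (XT.lf (nat_lit 0) (nat_lit 6294106041) (nat_lit 152) (nat_lit 54036534897) (nat_lit 228) (nat_lit 46262482777) (nat_lit 45) (nat_lit 5) (nat_lit 47) (nat_lit 5) (nat_lit 48) (nat_lit 5) (nat_lit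 450) (nat_lit 433) (nat_lit 317)) (XT.lf (nat_lit 0) (nat_lit 71338835289) (nat_lit 152) (nat_lit 12686625543) (nat_lit 228) (nat_lit 27689142841) (nat_lit 45) (nat_lit 5) (nat_lit 47) (nat_lit 5) (nat_lit 48) (nat_lit 5) (nat_lit 451) (nat_lit 433) (nat_lit 316)))) (XT.nd (nat_lit 78) (nat_lit 228) (nat_lit 0) (XT.lf (nat_lit 0) (nat_lit 24812406832) (nat_lit 152) (nat_lit 86168262431) (nat_lit 228) (nat_lit 6155948887) (nat_lit 43) (nat_lit 5) (nat_lit 45) (nat_lit 5) (nat_lit 46) (nat_lit 5) (nat_lit 452) (nat_lit 433) (nat_lit 315)) (XT.nd (nat_lit 78) (nat_lit 152) (nat_lit 0) (XT.lf (nat_lit 0) (nat_lit 17705802149) (nat_lit 228) (nat_lit 26162939974) (nat_lit 76) (nat_lit 78973847102) (nat_lit 42) (nat_lit 5) (nat_lit 45) (nat_lit 5) (nat_lit 43) (nat_lit 5) (nat_lit 453) (nat_lit 433) (nat_lit 314)) (XT.lf (nat_lit 0) (nat_lit 44363140741) (nat_lit 228) (nat_lit 81471717709) (nat_lit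 76) (nat_lit 3059849953) (nat_lit 40) (nat_lit 5) (nat_lit 43) (nat_lit 5) (nat_lit 41) (nat_lit 5) (nat_lit 454) (nat_lit 433) (nat_lit 313)))))) (XT.nd (nat_lit 468) (nat_lit 532) (nat_lit 0) (XT.nd (nat_lit 234) (nat_lit 228) (nat_lit 0) (XT.nd (nat_lit 78) (nat_lit 228) (nat_lit 0) (XT.lf (nat_lit 0) (nat_lit 75025684224) (nat_lit 228) (nat_lit 8149274477) (nat_lit 76) (nat_lit 52106229255) (nat_lit 40) (nat_lit 5) (nat_lit 43) (nat_lit 5) (nat_lit 41) (nat_lit 5) (nat_lit 455) (nat_lit 433) (nat_lit 312)) (XT.nd (nat_lit 78) (nat_lit 76) (nat_lit 0) (XT.lf (nat_lit 0) (nat_lit 74778598184) (nat_lit 152) (nat_lit 35160364275) (nat_lit 228) (nat_lit 32095805158) (nat_lit 38) (nat_lit 5) (nat_lit 40) (nat_lit 5) (nat_lit 41) (nat_lit 5) (nat_lit 456) (nat_lit 433) (nat_lit 311)) (XT.lf (nat_lit 0) (nat_lit 15879271095) (nat_lit 76) (nat_lit 132777376986) (nat_lit 152) (nat_lit 591078187)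 (nat_lit 37) (nat_lit 5) (nat_lit 38) (nat_lit 5) (nat_lit 39) (nat_lit 4) (nat_lit 457) (nat_lit 433) (nat_lit 310)))) (XT.nd (nat_lit 78) (nat_lit 152) (nat_lit 0) (XT.lf (nat_lit 0) (nat_lit 34560771898) (nat_lit 152) (nat_lit 49166372059) (nat_lit 76) (nat_lit 73022310685) (nat_lit 36) (nat_lit 5) (nat_lit 38) (nat_lit 5) (nat_lit 37) (nat_lit 5) (nat_lit 458) (nat_lit 433) (nat_lit 309)) (XT.nd (nat_lit 78) (nat_lit 0) (nat_lit 0) (XT.lf (nat_lit 0) (nat_lit 43954259532) (nat_lit 152) (nat_lit 29595055297) (nat_lit 228) (nat_lit 91216260151) (nat_lit 34) (nat_lit 5) (nat_lit 36) (nat_lit 5) (nat_lit 37) (nat_lit 5) (nat_lit 459) (nat_lit 433) (nat_lit 308)) (XT.lf (nat_lit 0) (nat_lit 117729809624) (nat_lit 228) (nat_lit 26724995500) (nat_lit 76) (nat_lit 28802350512) (nat_lit 34) (nat_lit 5) (nat_lit 37) (nat_lit 5) (nat_lit 35) (nat_lit 4) (nat_lit 460) (nat_lit 433) (nat_lit 307)))))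 (XT.nd (nat_lit 234) (nat_lit 228) (nat_lit 0) (XT.nd (nat_lit 78) (nat_lit 228) (nat_lit 0) (XT.lf (nat_lit 0) (nat_lit 78021509038) (nat_lit 76) (nat_lit 90067791524) (nat_lit 152) (nat_lit 14127197813) (nat_lit 33) (nat_lit 5) (nat_lit 34) (nat_lit 5) (nat_lit 35) (nat_lit 4) (nat_lit 461) (nat_lit 433) (nat_lit 306)) (XT.nd (nat_lit 78) (nat_lit 0) (nat_lit 0) (XT.lf (nat_lit 0) (nat_lit 82057365) (nat_lit 152) (nat_lit 29724022331) (nat_lit 228) (nat_lit 161967575352) (nat_lit 30) (nat_lit 5) (nat_lit 32) (nat_lit 5) (nat_lit 33) (nat_lit 5) (nat_lit 462) (nat_lit 433) (nat_lit 305)) (XT.lf (nat_lit 0) (nat_lit 80265611693) (nat_lit 228) (nat_lit 84534973365) (nat_lit 76) (nat_lit 36963457873) (nat_lit 30) (nat_lit 5) (nat_lit 33) (nat_lit 5) (nat_lit 31) (nat_lit 4) (nat_lit 463) (nat_lit 433) (nat_lit 304)))) (XT.nd (nat_lit 78) (nat_lit 152) (nat_lit 0) (XT.lf (nat_lit 0) (nat_lit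 32023144470) (nat_lit 76) (nat_lit 104280460869) (nat_lit 152) (nat_lit 76126720691) (nat_lit 29) (nat_lit 5) (nat_lit 30) (nat_lit 5) (nat_lit 31) (nat_lit 4) (nat_lit 464) (nat_lit 433) (nat_lit 303)) (XT.nd (nat_lit 78) (nat_lit 152) (nat_lit 0) (XT.lf (nat_lit 0) (nat_lit 162712602361) (nat_lit 76) (nat_lit 36422877742) (nat_lit 152) (nat_lit 24629564448) (nat_lit 29) (nat_lit 5) (nat_lit 30) (nat_lit 5) (nat_lit 31) (nat_lit 4) (nat_lit 465) (nat_lit 433) (nat_lit 302)) (XT.lf (nat_lit 0) (nat_lit 32085668798) (nat_lit 152) (nat_lit 166122897355) (nat_lit 76) (nat_lit 37526481308) (nat_lit 27) (nat_lit 5) (nat_lit 29) (nat_lit 5) (nat_lit 28) (nat_lit 4) (nat_lit 466) (nat_lit 433) (nat_lit 301))))))))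
noncomputable def xc175 : XT := (XT.nd (nat_lit 1794) (nat_lit 684) (nat_lit 0) (XT.nd (nat_lit 858) (nat_lit 608) (nat_lit 0) (XT.nd (nat_lit 390) (nat_lit 304) (nat_lit 0) (XT.nd (nat_lit 156) (nat_lit 228) (nat_lit 0) (XT.nd (nat_lit 78) (nat_lit 76) (nat_lit 0) (XT.lf (nat_lit 0) (nat_lit 94665709499) (nat_lit 152) (nat_lit 35957080801) (nat_lit 76) (nat_lit 117776024069) (nat_lit 27) (nat_lit 5) (nat_lit 29) (nat_lit 5) (nat_lit 28) (nat_lit 4) (nat_lit 467) (nat_lit 433) (nat_lit 300)) (XT.lf (nat_lit 0) (nat_lit 110130378513) (nat_lit 76) (nat_lit 54769983837) (nat_lit 152) (nat_lit 96963463647) (nat_lit 26) (nat_lit 5) (nat_lit 27) (nat_lit 5) (nat_lit 28) (nat_lit 4) (nat_lit 468) (nat_lit 433) (nat_lit 299))) (XT.nd (nat_lit 78) (nat_lit 228) (nat_lit 0) (XT.lf (nat_lit 0) (nat_lit 242415012338) (nat_lit 152) (nat_lit 7056956666) (nat_lit 0) (nat_lit 26801171628) (nat_lit 26)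 (nat_lit 5) (nat_lit 28) (nat_lit 4) (nat_lit 26) (nat_lit 4) (nat_lit 469) (nat_lit 433) (nat_lit 298)) (XT.nd (nat_lit 78) (nat_lit 76) (nat_lit 0) (XT.lf (nat_lit 0) (nat_lit 37877361659) (nat_lit 152) (nat_lit 136829419534) (nat_lit 76) (nat_lit 116638647700) (nat_lit 24) (nat_lit 5) (nat_lit 26) (nat_lit 5) (nat_lit 25) (nat_lit 4) (nat_lit 470) (nat_lit 433) (nat_lit 297)) (XT.lf (nat_lit 0) (nat_lit 22024665066) (nat_lit 76) (nat_lit 92225071257) (nat_lit 152) (nat_lit 193245228286) (nat_lit 23) (nat_lit 5) (nat_lit 24) (nat_lit 5) (nat_lit 25) (nat_lit 4) (nat_lit 471) (nat_lit 433) (nat_lit 296))))) (XT.nd (nat_lit 234) (nat_lit 152) (nat_lit 0) (XT.nd (nat_lit 78) (nat_lit 152) (nat_lit 0) (XT.lf (nat_lit 0) (nat_lit 200494211895) (nat_lit 152) (nat_lit 123290765225) (nat_lit 0) (nat_lit 850501241) (nat_lit 23) (nat_lit 5) (nat_lit 25) (nat_lit 4) (nat_lit 23) (nat_lit 4) (nat_lit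 472) (nat_lit 433) (nat_lit 295)) (XT.nd (nat_lit 78) (nat_lit 76) (nat_lit 0) (XT.lf (nat_lit 0) (nat_lit 52071832682) (nat_lit 76) (nat_lit 245213839046) (nat_lit 76) (nat_lit 45569767436) (nat_lit 22) (nat_lit 4) (nat_lit 23) (nat_lit 5) (nat_lit 23) (nat_lit 4) (nat_lit 473) (nat_lit 433) (nat_lit 294)) (XT.lf (nat_lit 0) (nat_lit 40780322610) (nat_lit 152) (nat_lit 114821334799) (nat_lit 76) (nat_lit 206579095250) (nat_lit 21) (nat_lit 5) (nat_lit 23) (nat_lit 5) (nat_lit 22) (nat_lit 4) (nat_lit 474) (nat_lit 433) (nat_lit 293)))) (XT.nd (nat_lit 78) (nat_lit 76) (nat_lit 0) (XT.lf (nat_lit 0) (nat_lit 77932131929) (nat_lit 76) (nat_lit 55518275387) (nat_lit 152) (nat_lit 249357078447) (nat_lit 20) (nat_lit 5) (nat_lit 21) (nat_lit 5) (nat_lit 22) (nat_lit 4) (nat_lit 475) (nat_lit 433) (nat_lit 292)) (XT.nd (nat_lit 78) (nat_lit 76) (nat_lit 0) (XT.lf (nat_lit 0) (nat_lit 238019084692)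 (nat_lit 152) (nat_lit 113543872471) (nat_lit 0) (nat_lit 53162601517) (nat_lit 20) (nat_lit 5) (nat_lit 22) (nat_lit 4) (nat_lit 20) (nat_lit 4) (nat_lit 476) (nat_lit 433) (nat_lit 291)) (XT.lf (nat_lit 0) (nat_lit 96477707677) (nat_lit 76) (nat_lit 258237568514) (nat_lit 76) (nat_lit 73380839679) (nat_lit 19) (nat_lit 4) (nat_lit 20) (nat_lit 5) (nat_lit 20) (nat_lit 4) (nat_lit 477) (nat_lit 433) (nat_lit 290)))))) (XT.nd (nat_lit 468) (nat_lit 228) (nat_lit 0) (XT.nd (nat_lit 234) (nat_lit 228) (nat_lit 0) (XT.nd (nat_lit 78) (nat_lit 76) (nat_lit 0) (XT.lf (nat_lit 0) (nat_lit 29224467258) (nat_lit 152) (nat_lit 124070064401) (nat_lit 76) (nat_lit 299734261614) (nat_lit 18) (nat_lit 5) (nat_lit 20) (nat_lit 5) (nat_lit 19) (nat_lit 4) (nat_lit 478) (nat_lit 433) (nat_lit 289)) (XT.nd (nat_lit 78) (nat_lit 0) (nat_lit 0) (XT.lf (nat_lit 0) (nat_lit 103345354926) (nat_lit 76) (nat_lit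 35213549804) (nat_lit 152) (nat_lit 341045886312) (nat_lit 17) (nat_lit 5) (nat_lit 18) (nat_lit 5) (nat_lit 19) (nat_lit 4) (nat_lit 479) (nat_lit 433) (nat_lit 288)) (XT.lf (nat_lit 0) (nat_lit 262340376641) (nat_lit 152) (nat_lit 154334317024) (nat_lit 0) (nat_lit 91176152635) (nat_lit 17) (nat_lit 5) (nat_lit 19) (nat_lit 4) (nat_lit 17) (nat_lit 4) (nat_lit 480) (nat_lit 433) (nat_lit 287)))) (XT.nd (nat_lit 78) (nat_lit 152) (nat_lit 0) (XT.lf (nat_lit 0) (nat_lit 88875580238) (nat_lit 76) (nat_lit 310200624928) (nat_lit 76) (nat_lit 139036233730) (nat_lit 16) (nat_lit 4) (nat_lit 17) (nat_lit 5) (nat_lit 17) (nat_lit 4) (nat_lit 481) (nat_lit 433) (nat_lit 286)) (XT.nd (nat_lit 78) (nat_lit 152) (nat_lit 0) (XT.lf (nat_lit 0) (nat_lit 360318901388) (nat_lit 76) (nat_lit 190651520877) (nat_lit 76) (nat_lit 19486974870) (nat_lit 16) (nat_lit 4) (nat_lit 17) (nat_lit 5) (nat_lit 17)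 (nat_lit 4) (nat_lit 482) (nat_lit 433) (nat_lit 285)) (XT.lf (nat_lit 0) (nat_lit 47844105777) (nat_lit 76) (nat_lit 57448584186) (nat_lit 152) (nat_lit 499794307980) (nat_lit 14) (nat_lit 5) (nat_lit 15) (nat_lit 5) (nat_lit 16) (nat_lit 4) (nat_lit 483) (nat_lit 433) (nat_lit 284))))) (XT.nd (nat_lit 234) (nat_lit 152) (nat_lit 0) (XT.nd (nat_lit 78) (nat_lit 76) (nat_lit 0) (XT.lf (nat_lit 0) (nat_lit 246974658284) (nat_lit 152) (nat_lit 306345285562) (nat_lit 0) (nat_lit 88488711923) (nat_lit 14) (nat_lit 5) (nat_lit 16) (nat_lit 4) (nat_lit 14) (nat_lit 4) (nat_lit 484) (nat_lit 433) (nat_lit 283)) (XT.nd (nat_lit 78) (nat_lit 76) (nat_lit 0) (XT.lf (nat_lit 0) (nat_lit 401483134926) (nat_lit 152) (nat_lit 36868480466) (nat_lit 0) (nat_lit 242997074777) (nat_lit 14) (nat_lit 5) (nat_lit 16) (nat_lit 4) (nat_lit 14) (nat_lit 4) (nat_lit 485) (nat_lit 433) (nat_lit 282)) (XT.lf (nat_lit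 0) (nat_lit 267549996971) (nat_lit 76) (nat_lit 307236672735) (nat_lit 76) (nat_lit 148750507226) (nat_lit 13) (nat_lit 4) (nat_lit 14) (nat_lit 5) (nat_lit 14) (nat_lit 4) (nat_lit 486) (nat_lit 433) (nat_lit 281)))) (XT.nd (nat_lit 78) (nat_lit 152) (nat_lit 0) (XT.lf (nat_lit 0) (nat_lit 598418299550) (nat_lit 76) (nat_lit 164544039031) (nat_lit 76) (nat_lit 6057775967) (nat_lit 13) (nat_lit 4) (nat_lit 14) (nat_lit 5) (nat_lit 14) (nat_lit 4) (nat_lit 487) (nat_lit 433) (nat_lit 280)) (XT.nd (nat_lit 78) (nat_lit 0) (nat_lit 0) (XT.lf (nat_lit 0) (nat_lit 141112401136) (nat_lit 76) (nat_lit 2925461617) (nat_lit 152) (nat_lit 673547489763) (nat_lit 11) (nat_lit 5) (nat_lit 12) (nat_lit 5) (nat_lit 13) (nat_lit 4) (nat_lit 488) (nat_lit 433) (nat_lit 279)) (XT.lf (nat_lit 0) (nat_lit 314726928605) (nat_lit 152) (nat_lit 386603021429) (nat_lit 0) (nat_lit 167980227651) (nat_lit 11) (nat_lit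 5) (nat_lit 13) (nat_lit 4) (nat_lit 11) (nat_lit 4) (nat_lit 489) (nat_lit 433) (nat_lit 278))))))) (XT.nd (nat_lit 858) (nat_lit 304) (nat_lit 0) (XT.nd (nat_lit 390) (nat_lit 152) (nat_lit 0) (XT.nd (nat_lit 156) (nat_lit 152) (nat_lit 0) (XT.nd (nat_lit 78) (nat_lit 76) (nat_lit 0) (XT.lf (nat_lit 0) (nat_lit 499146931964) (nat_lit 152) (nat_lit 73619832631) (nat_lit 0) (nat_lit 352400159303) (nat_lit 11) (nat_lit 5) (nat_lit 13) (nat_lit 4) (nat_lit 11) (nat_lit 4) (nat_lit 490) (nat_lit 433) (nat_lit 277)) (XT.lf (nat_lit 0) (nat_lit 278324611938) (nat_lit 76) (nat_lit 426689476358) (nat_lit 76) (nat_lit 279942637304) (nat_lit 10) (nat_lit 4) (nat_lit 11) (nat_lit 5) (nat_lit 11) (nat_lit 4) (nat_lit 491) (nat_lit 433) (nat_lit 276))) (XT.nd (nat_lit 78) (nat_lit 152) (nat_lit 0) (XT.lf (nat_lit 0) (nat_lit 662611121741) (nat_lit 76) (nat_lit 266752235514) (nat_lit 76) (nat_lit 120005334983)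 (nat_lit 10) (nat_lit 4) (nat_lit 11) (nat_lit 5) (nat_lit 11) (nat_lit 4) (nat_lit 492) (nat_lit 433) (nat_lit 275)) (XT.nd (nat_lit 78) (nat_lit 76) (nat_lit 0) (XT.lf (nat_lit 0) (nat_lit 50089187115) (nat_lit 152) (nat_lit 42561448254) (nat_lit 76) (nat_lit 1026181545989) (nat_lit 9) (nat_lit 5) (nat_lit 11) (nat_lit 5) (nat_lit 10) (nat_lit 4) (nat_lit 493) (nat_lit 433) (nat_lit 274)) (XT.lf (nat_lit 0) (nat_lit 238151466616) (nat_lit 152) (nat_lit 852309827844) (nat_lit 0) (nat_lit 102274605357) (nat_lit 8) (nat_lit 5) (nat_lit 10) (nat_lit 4) (nat_lit 8) (nat_lit 4) (nat_lit 494) (nat_lit 433) (nat_lit 273))))) (XT.nd (nat_lit 234) (nat_lit 76) (nat_lit 0) (XT.nd (nat_lit 78) (nat_lit 76) (nat_lit 0) (XT.lf (nat_lit 0) (nat_lit 444859032700) (nat_lit 152) (nat_lit 518422732469) (nat_lit 0) (nat_lit 308982126254) (nat_lit 8) (nat_lit 5) (nat_lit 10) (nat_lit 4) (nat_lit 8) (nat_lit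 4) (nat_lit 495) (nat_lit 433) (nat_lit 272)) (XT.nd (nat_lit 78) (nat_lit 76) (nat_lit 0) (XT.lf (nat_lit 0) (nat_lit 668103076920) (nat_lit 152) (nat_lit 157824926979) (nat_lit 0) (nat_lit 532226128635) (nat_lit 8) (nat_lit 5) (nat_lit 10) (nat_lit 4) (nat_lit 8) (nat_lit 4) (nat_lit 496) (nat_lit 433) (nat_lit 271)) (XT.lf (nat_lit 0) (nat_lit 243817187701) (nat_lit 76) (nat_lit 671253148473) (nat_lit 76) (nat_lit 535376161447) (nat_lit 7) (nat_lit 4) (nat_lit 8) (nat_lit 5) (nat_lit 8) (nat_lit 4) (nat_lit 497) (nat_lit 433) (nat_lit 270)))) (XT.nd (nat_lit 78) (nat_lit 76) (nat_lit 0) (XT.lf (nat_lit 0) (nat_lit 686566082595) (nat_lit 76) (nat_lit 499543992167) (nat_lit 76) (nat_lit 363666969270) (nat_lit 7) (nat_lit 4) (nat_lit 8) (nat_lit 5) (nat_lit 8) (nat_lit 4) (nat_lit 498) (nat_lit 433) (nat_lit 269)) (XT.nd (nat_lit 78) (nat_lit 76) (nat_lit 0) (XT.lf (nat_lit 0) (nat_lit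 1164734673891) (nat_lit 76) (nat_lit 314098212434) (nat_lit 76) (nat_lit 178221156324) (nat_lit 7) (nat_lit 4) (nat_lit 8) (nat_lit 5) (nat_lit 8) (nat_lit 4) (nat_lit 499) (nat_lit 433) (nat_lit 268)) (XT.lf (nat_lit 0) (nat_lit 20956674216) (nat_lit 152) (nat_lit 92287204493) (nat_lit 76) (nat_lit 1659626886413) (nat_lit 6) (nat_lit 5) (nat_lit 8) (nat_lit 5) (nat_lit 7) (nat_lit 4) (nat_lit 500) (nat_lit 433) (nat_lit 267)))))) (XT.nd (nat_lit 468) (nat_lit 152) (nat_lit 0) (XT.nd (nat_lit 234) (nat_lit 76) (nat_lit 0) (XT.nd (nat_lit 78) (nat_lit 0) (nat_lit 0) (XT.lf (nat_lit 0) (nat_lit 237758147987) (nat_lit 152) (nat_lit 1546972904513) (nat_lit 0) (nat_lit 111946004154) (nat_lit 5) (nat_lit 5) (nat_lit 7) (nat_lit 4) (nat_lit 5) (nat_lit 4) (nat_lit 501) (nat_lit 433) (nat_lit 266)) (XT.nd (nat_lit 78) (nat_lit 0) (nat_lit 0) (XT.lf (nat_lit 0) (nat_lit 477433881852) (nat_lit 152)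 (nat_lit 1200889844678) (nat_lit 0) (nat_lit 351621713606) (nat_lit 5) (nat_lit 5) (nat_lit 7) (nat_lit 4) (nat_lit 5) (nat_lit 4) (nat_lit 502) (nat_lit 433) (nat_lit 265)) (XT.lf (nat_lit 0) (nat_lit 736283588203) (nat_lit 152) (nat_lit 827120315641) (nat_lit 0) (nat_lit 610471397352) (nat_lit 5) (nat_lit 5) (nat_lit 7) (nat_lit 4) (nat_lit 5) (nat_lit 4) (nat_lit 503) (nat_lit 433) (nat_lit 264)))) (XT.nd (nat_lit 78) (nat_lit 76) (nat_lit 0) (XT.lf (nat_lit 0) (nat_lit 1015841191226) (nat_lit 152) (nat_lit 423449386860) (nat_lit 0) (nat_lit 890028979445) (nat_lit 5) (nat_lit 5) (nat_lit 7) (nat_lit 4) (nat_lit 5) (nat_lit 4) (nat_lit 504) (nat_lit 433) (nat_lit 263)) (XT.nd (nat_lit 78) (nat_lit 0) (nat_lit 0) (XT.lf (nat_lit 0) (nat_lit 13174086868) (nat_lit 76) (nat_lit 1304906078808) (nat_lit 76) (nat_lit 1179093847647) (nat_lit 4) (nat_lit 4) (nat_lit 5) (nat_lit 5) (nat_lit 5)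 (nat_lit 4) (nat_lit 505) (nat_lit 433) (nat_lit 262)) (XT.lf (nat_lit 0) (nat_lit 508809233609) (nat_lit 76) (nat_lit 1147266809150) (nat_lit 76) (nat_lit 1021454560045) (nat_lit 4) (nat_lit 4) (nat_lit 5) (nat_lit 5) (nat_lit 5) (nat_lit 4) (nat_lit 506) (nat_lit 433) (nat_lit 261))))) (XT.nd (nat_lit 234) (nat_lit 152) (nat_lit 0) (XT.nd (nat_lit 78) (nat_lit 0) (nat_lit 0) (XT.lf (nat_lit 0) (nat_lit 1044095056232) (nat_lit 76) (nat_lit 977016467133) (nat_lit 76) (nat_lit 851204201413) (nat_lit 4) (nat_lit 4) (nat_lit 5) (nat_lit 5) (nat_lit 5) (nat_lit 4) (nat_lit 507) (nat_lit 433) (nat_lit 260)) (XT.nd (nat_lit 78) (nat_lit 0) (nat_lit 0) (XT.lf (nat_lit 0) (nat_lit 1622203618873) (nat_lit 76) (nat_lit 793146161840) (nat_lit 76) (nat_lit 667333880735) (nat_lit 4) (nat_lit 4) (nat_lit 5) (nat_lit 5) (nat_lit 5) (nat_lit 4) (nat_lit 508) (nat_lit 433) (nat_lit 259)) (XT.lf (nat_lit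 0) (nat_lit 2246560750051) (nat_lit 76) (nat_lit 594566291462) (nat_lit 76) (nat_lit 468753996113) (nat_lit 4) (nat_lit 4) (nat_lit 5) (nat_lit 5) (nat_lit 5) (nat_lit 4) (nat_lit 509) (nat_lit 433) (nat_lit 258)))) (XT.nd (nat_lit 78) (nat_lit 152) (nat_lit 0) (XT.lf (nat_lit 0) (nat_lit 2920866343875) (nat_lit 76) (nat_lit 380100086397) (nat_lit 76) (nat_lit 254287777858) (nat_lit 4) (nat_lit 4) (nat_lit 5) (nat_lit 5) (nat_lit 5) (nat_lit 4) (nat_lit 510) (nat_lit 433) (nat_lit 257)) (XT.nd (nat_lit 78) (nat_lit 152) (nat_lit 0) (XT.lf (nat_lit 0) (nat_lit 3649116285348) (nat_lit 76) (nat_lit 148476635801) (nat_lit 76) (nat_lit 22664315049) (nat_lit 4) (nat_lit 4) (nat_lit 5) (nat_lit 5) (nat_lit 5) (nat_lit 4) (nat_lit 511) (nat_lit 433) (nat_lit 256)) (XT.lf (nat_lit 0) (nat_lit 227104137971) (nat_lit 152) (nat_lit 3767427838459) (nat_lit 0) (nat_lit 110611237916) (nat_lit 2) (nat_lit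 5) (nat_lit 4) (nat_lit 4) (nat_lit 2) (nat_lit 4) (nat_lit 512) (nat_lit 433) (nat_lit 255))))))))
noncomputable def xc176 : XT := (XT.nd (nat_lit 57096) (nat_lit 0) (nat_lit 2128) (XT.nd (nat_lit 858) (nat_lit 0) (nat_lit 0) (XT.nd (nat_lit 390) (nat_lit 76) (nat_lit 0) (XT.nd (nat_lit 156) (nat_lit 0) (nat_lit 0) (XT.nd (nat_lit 78) (nat_lit 0) (nat_lit 0) (XT.lf (nat_lit 0) (nat_lit 504286932146) (nat_lit 152) (nat_lit 3519999435396) (nat_lit 0) (nat_lit 387794022396) (nat_lit 2) (nat_lit 5) (nat_lit 4) (nat_lit 4) (nat_lit 2) (nat_lit 4) (nat_lit 513) (nat_lit 433) (nat_lit 254)) (XT.lf (nat_lit 0) (nat_lit 803644306847) (nat_lit 152) (nat_lit 3252776848052) (nat_lit 0) (nat_lit 687151388120) (nat_lit 2) (nat_lit 5) (nat_lit 4) (nat_lit 4) (nat_lit 2) (nat_lit 4) (nat_lit 514) (nat_lit 433) (nat_lit 253))) (XT.nd (nat_lit 78) (nat_lit 0) (nat_lit 0) (XT.lf (nat_lit 0) (nat_lit 1126950231702)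 (nat_lit 152) (nat_lit 2964176535169) (nat_lit 0) (nat_lit 1010457304663) (nat_lit 2) (nat_lit 5) (nat_lit 4) (nat_lit 4) (nat_lit 2) (nat_lit 4) (nat_lit 515) (nat_lit 433) (nat_lit 252)) (XT.nd (nat_lit 78) (nat_lit 0) (nat_lit 0) (XT.lf (nat_lit 0) (nat_lit 1476120593672) (nat_lit 152) (nat_lit 2652488272671) (nat_lit 0) (nat_lit 1359627658937) (nat_lit 2) (nat_lit 5) (nat_lit 4) (nat_lit 4) (nat_lit 2) (nat_lit 4) (nat_lit 516) (nat_lit 433) (nat_lit 251)) (XT.lf (nat_lit 0) (nat_lit 1853224550458) (nat_lit 152) (nat_lit 2315865019003) (nat_lit 0) (nat_lit 1736731608598) (nat_lit 2) (nat_lit 5) (nat_lit 4) (nat_lit 4) (nat_lit 2) (nat_lit 4) (nat_lit 517) (nat_lit 433) (nat_lit 250))))) (XT.nd (nat_lit 234) (nat_lit 76) (nat_lit 0) (XT.nd (nat_lit 78) (nat_lit 0) (nat_lit 0) (XT.lf (nat_lit 0) (nat_lit 2260496792175) (nat_lit 152) (nat_lit 1952311969698) (nat_lit 0) (nat_lit 2144003843717)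 (nat_lit 2) (nat_lit 5) (nat_lit 4) (nat_lit 4) (nat_lit 2) (nat_lit 4) (nat_lit 518) (nat_lit 433) (nat_lit 249)) (XT.nd (nat_lit 78) (nat_lit 0) (nat_lit 0) (XT.lf (nat_lit 0) (nat_lit 2700350783959) (nat_lit 152) (nat_lit 1559674736316) (nat_lit 0) (nat_lit 2583857829391) (nat_lit 2) (nat_lit 5) (nat_lit 4) (nat_lit 4) (nat_lit 2) (nat_lit 4) (nat_lit 519) (nat_lit 433) (nat_lit 248)) (XT.lf (nat_lit 0) (nat_lit 3175393067983) (nat_lit 152) (nat_lit 1135626579696) (nat_lit 0) (nat_lit 3058900107758) (nat_lit 2) (nat_lit 5) (nat_lit 4) (nat_lit 4) (nat_lit 2) (nat_lit 4) (nat_lit 520) (nat_lit 433) (nat_lit 247)))) (XT.nd (nat_lit 78) (nat_lit 76) (nat_lit 0) (XT.lf (nat_lit 0) (nat_lit 3688438709634) (nat_lit 152) (nat_lit 677654621873) (nat_lit 0) (nat_lit 3571945744172) (nat_lit 2) (nat_lit 5) (nat_lit 4) (nat_lit 4) (nat_lit 2) (nat_lit 4) (nat_lit 521) (nat_lit 433) (nat_lit 246))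 (XT.nd (nat_lit 78) (nat_lit 76) (nat_lit 0) (XT.lf (nat_lit 0) (nat_lit 4242527979381) (nat_lit 152) (nat_lit 183044954948) (nat_lit 0) (nat_lit 4126035009069) (nat_lit 2) (nat_lit 5) (nat_lit 4) (nat_lit 4) (nat_lit 2) (nat_lit 4) (nat_lit 522) (nat_lit 433) (nat_lit 245)) (XT.lf (nat_lit 0) (nat_lit 369623506083) (nat_lit 76) (nat_lit 4480210317320) (nat_lit 76) (nat_lit 4363717342517) (nat_lit 1) (nat_lit 4) (nat_lit 2) (nat_lit 5) (nat_lit 2) (nat_lit 4) (nat_lit 523) (nat_lit 433) (nat_lit 244)))))) (XT.nd (nat_lit 55770) (nat_lit 0) (nat_lit 4408) (XT.nd (nat_lit 55536) (nat_lit 0) (nat_lit 5168) (XT.nd (nat_lit 55458) (nat_lit 0) (nat_lit 5168) (XT.lf (nat_lit 0) (nat_lit 976915329888) (nat_lit 76) (nat_lit 4533813557559) (nat_lit 76) (nat_lit 4417320578598) (nat_lit 1) (nat_lit 4) (nat_lit 2) (nat_lit 5) (nat_lit 2) (nat_lit 4) (nat_lit 524) (nat_lit 433) (nat_lit 243)) (XT.lf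 (nat_lit 0) (nat_lit 25421122416) (nat_lit 532) (nat_lit 1204112144) (nat_lit 532) (nat_lit 1204112144) (nat_lit 69) (nat_lit 3) (nat_lit 76) (nat_lit 3) (nat_lit 76) (nat_lit 5) (nat_lit 434) (nat_lit 434) (nat_lit 332))) (XT.nd (nat_lit 78) (nat_lit 0) (nat_lit 76) (XT.lf (nat_lit 76) (nat_lit 26174923458) (nat_lit 0) (nat_lit 27350353008) (nat_lit 532) (nat_lit 4307803989) (nat_lit 70) (nat_lit 5) (nat_lit 69) (nat_lit 3) (nat_lit 76) (nat_lit 5) (nat_lit 435) (nat_lit 434) (nat_lit 331)) (XT.nd (nat_lit 78) (nat_lit 0) (nat_lit 0) (XT.lf (nat_lit 0) (nat_lit 56503469358) (nat_lit 456) (nat_lit 3012446071) (nat_lit 532) (nat_lit 659062872) (nat_lit 70) (nat_lit 5) (nat_lit 76) (nat_lit 5) (nat_lit 77) (nat_lit 5) (nat_lit 436) (nat_lit 434) (nat_lit 330)) (XT.lf (nat_lit 76) (nat_lit 28646312533) (nat_lit 0) (nat_lit 32471105564) (nat_lit 532) (nat_lit 1475011081) (nat_lit 71) (nat_lit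 5) (nat_lit 70) (nat_lit 5) (nat_lit 77) (nat_lit 5) (nat_lit 437) (nat_lit 434) (nat_lit 329))))) (XT.nd (nat_lit 234) (nat_lit 304) (nat_lit 0) (XT.nd (nat_lit 78) (nat_lit 0) (nat_lit 76) (XT.lf (nat_lit 0) (nat_lit 935048694) (nat_lit 532) (nat_lit 2212590851) (nat_lit 608) (nat_lit 62047293493) (nat_lit 63) (nat_lit 5) (nat_lit 70) (nat_lit 5) (nat_lit 71) (nat_lit 5) (nat_lit 438) (nat_lit 434) (nat_lit 328)) (XT.nd (nat_lit 78) (nat_lit 0) (nat_lit 0) (XT.lf (nat_lit 0) (nat_lit 4975220680) (nat_lit 532) (nat_lit 34939620196) (nat_lit 608) (nat_lit 27966372646) (nat_lit 64) (nat_lit 5) (nat_lit 71) (nat_lit 5) (nat_lit 72) (nat_lit 5) (nat_lit 439) (nat_lit 434) (nat_lit 327)) (XT.lf (nat_lit 76) (nat_lit 180815140) (nat_lit 0) (nat_lit 9304419204) (nat_lit 608) (nat_lit 61285432777) (nat_lit 65) (nat_lit 5) (nat_lit 64) (nat_lit 5) (nat_lit 72) (nat_lit 5) (nat_lit 440) (nat_lit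 434) (nat_lit 326)))) (XT.nd (nat_lit 78) (nat_lit 456) (nat_lit 0) (XT.lf (nat_lit 0) (nat_lit 15906021988) (nat_lit 532) (nat_lit 34314416543) (nat_lit 76) (nat_lit 23546841486) (nat_lit 65) (nat_lit 5) (nat_lit 72) (nat_lit 5) (nat_lit 66) (nat_lit 5) (nat_lit 441) (nat_lit 434) (nat_lit 325)) (XT.nd (nat_lit 78) (nat_lit 0) (nat_lit 0) (XT.lf (nat_lit 0) (nat_lit 4863389897) (nat_lit 456) (nat_lit 18334372554) (nat_lit 532) (nat_lit 53777277090) (nat_lit 59) (nat_lit 5) (nat_lit 65) (nat_lit 5) (nat_lit 66) (nat_lit 5) (nat_lit 442) (nat_lit 434) (nat_lit 324)) (XT.lf (nat_lit 0) (nat_lit 32421418449) (nat_lit 532) (nat_lit 31650435530) (nat_lit 76) (nat_lit 16259680463) (nat_lit 59) (nat_lit 5) (nat_lit 66) (nat_lit 5) (nat_lit 60) (nat_lit 5) (nat_lit 443) (nat_lit 434) (nat_lit 323))))))) (XT.nd (nat_lit 858) (nat_lit 988) (nat_lit 0) (XT.nd (nat_lit 390) (nat_lit 608) (nat_lit 0)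 (XT.nd (nat_lit 156) (nat_lit 456) (nat_lit 0) (XT.nd (nat_lit 78) (nat_lit 0) (nat_lit 0) (XT.lf (nat_lit 0) (nat_lit 12179476356) (nat_lit 228) (nat_lit 30971442018) (nat_lit 304) (nat_lit 40744195115) (nat_lit 56) (nat_lit 5) (nat_lit 59) (nat_lit 5) (nat_lit 60) (nat_lit 5) (nat_lit 444) (nat_lit 434) (nat_lit 322)) (XT.lf (nat_lit 0) (nat_lit 55740395093) (nat_lit 304) (nat_lit 26497448796) (nat_lit 76) (nat_lit 5425806244) (nat_lit 56) (nat_lit 5) (nat_lit 60) (nat_lit 5) (nat_lit 57) (nat_lit 5) (nat_lit 445) (nat_lit 434) (nat_lit 321))) (XT.nd (nat_lit 78) (nat_lit 228) (nat_lit 0) (XT.lf (nat_lit 0) (nat_lit 22666397933) (nat_lit 228) (nat_lit 48019169316) (nat_lit 304) (nat_lit 20940220050) (nat_lit 53) (nat_lit 5) (nat_lit 56) (nat_lit 5) (nat_lit 57) (nat_lit 5) (nat_lit 446) (nat_lit 434) (nat_lit 320)) (XT.nd (nat_lit 78) (nat_lit 228) (nat_lit 0) (XT.lf (nat_lit 0) (nat_lit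 77269107733) (nat_lit 228) (nat_lit 10280738434) (nat_lit 304) (nat_lit 8297170360) (nat_lit 53) (nat_lit 5) (nat_lit 56) (nat_lit 5) (nat_lit 57) (nat_lit 5) (nat_lit 447) (nat_lit 434) (nat_lit 319)) (XT.lf (nat_lit 0) (nat_lit 6752071561) (nat_lit 228) (nat_lit 63498966967) (nat_lit 76) (nat_lit 30011579059) (nat_lit 50) (nat_lit 5) (nat_lit 53) (nat_lit 5) (nat_lit 51) (nat_lit 5) (nat_lit 448) (nat_lit 434) (nat_lit 318))))) (XT.nd (nat_lit 234) (nat_lit 228) (nat_lit 0) (XT.nd (nat_lit 78) (nat_lit 380) (nat_lit 0) (XT.lf (nat_lit 0) (nat_lit 23344262066) (nat_lit 228) (nat_lit 7898669861) (nat_lit 76) (nat_lit 73708312597) (nat_lit 50) (nat_lit 5) (nat_lit 53) (nat_lit 5) (nat_lit 51) (nat_lit 5) (nat_lit 449) (nat_lit 434) (nat_lit 317)) (XT.nd (nat_lit 78) (nat_lit 152) (nat_lit 0) (XT.lf (nat_lit 0) (nat_lit 42879294472) (nat_lit 304) (nat_lit 55310891953) (nat_lit 76) (nat_lit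 11695538247) (nat_lit 47) (nat_lit 5) (nat_lit 51) (nat_lit 5) (nat_lit 48) (nat_lit 5) (nat_lit 450) (nat_lit 434) (nat_lit 316)) (XT.lf (nat_lit 0) (nat_lit 6820695459) (nat_lit 152) (nat_lit 58352740408) (nat_lit 228) (nat_lit 49945823214) (nat_lit 45) (nat_lit 5) (nat_lit 47) (nat_lit 5) (nat_lit 48) (nat_lit 5) (nat_lit 451) (nat_lit 434) (nat_lit 315)))) (XT.nd (nat_lit 78) (nat_lit 228) (nat_lit 0) (XT.lf (nat_lit 0) (nat_lit 77067294829) (nat_lit 152) (nat_lit 13695335882) (nat_lit 228) (nat_lit 29887924097) (nat_lit 45) (nat_lit 5) (nat_lit 47) (nat_lit 5) (nat_lit 48) (nat_lit 5) (nat_lit 452) (nat_lit 434) (nat_lit 314)) (XT.nd (nat_lit 78) (nat_lit 76) (nat_lit 0) (XT.lf (nat_lit 0) (nat_lit 26819252068) (nat_lit 152) (nat_lit 93054546846) (nat_lit 228) (nat_lit 6632568564) (nat_lit 43) (nat_lit 5) (nat_lit 45) (nat_lit 5) (nat_lit 46) (nat_lit 5) (nat_lit 453) (nat_lit 434)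 (nat_lit 313)) (XT.lf (nat_lit 0) (nat_lit 19136213581) (nat_lit 228) (nat_lit 28235001589) (nat_lit 76) (nat_lit 85297660239) (nat_lit 42) (nat_lit 5) (nat_lit 45) (nat_lit 5) (nat_lit 43) (nat_lit 5) (nat_lit 454) (nat_lit 434) (nat_lit 312)))))) (XT.nd (nat_lit 468) (nat_lit 380) (nat_lit 0) (XT.nd (nat_lit 234) (nat_lit 304) (nat_lit 0) (XT.nd (nat_lit 78) (nat_lit 152) (nat_lit 0) (XT.lf (nat_lit 0) (nat_lit 47925767011) (nat_lit 228) (nat_lit 87968104502) (nat_lit 76) (nat_lit 3311322771) (nat_lit 40) (nat_lit 5) (nat_lit 43) (nat_lit 5) (nat_lit 41) (nat_lit 5) (nat_lit 455) (nat_lit 434) (nat_lit 311)) (XT.nd (nat_lit 78) (nat_lit 152) (nat_lit 0) (XT.lf (nat_lit 0) (nat_lit 81040308416) (nat_lit 228) (nat_lit 8781447340) (nat_lit 76) (nat_lit 56280917245) (nat_lit 40) (nat_lit 5) (nat_lit 43) (nat_lit 5) (nat_lit 41) (nat_lit 5) (nat_lit 456) (nat_lit 434) (nat_lit 310)) (XT.lf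 (nat_lit 0) (nat_lit 80780154652) (nat_lit 152) (nat_lit 37966026598) (nat_lit 228) (nat_lit 34650395526) (nat_lit 38) (nat_lit 5) (nat_lit 40) (nat_lit 5) (nat_lit 41) (nat_lit 5) (nat_lit 457) (nat_lit 434) (nat_lit 309)))) (XT.nd (nat_lit 78) (nat_lit 228) (nat_lit 0) (XT.lf (nat_lit 0) (nat_lit 17169173221) (nat_lit 76) (nat_lit 143391842095) (nat_lit 152) (nat_lit 625578419) (nat_lit 37) (nat_lit 5) (nat_lit 38) (nat_lit 5) (nat_lit 39) (nat_lit 4) (nat_lit 458) (nat_lit 434) (nat_lit 308)) (XT.nd (nat_lit 78) (nat_lit 152) (nat_lit 0) (XT.lf (nat_lit 0) (nat_lit 37336880330) (nat_lit 152) (nat_lit 53080974816) (nat_lit 76) (nat_lit 78870652873) (nat_lit 36) (nat_lit 5) (nat_lit 38) (nat_lit 5) (nat_lit 37) (nat_lit 5) (nat_lit 459) (nat_lit 434) (nat_lit 307)) (XT.lf (nat_lit 0) (nat_lit 47488833706) (nat_lit 152) (nat_lit 31955278414) (nat_lit 228) (nat_lit 98501837669) (nat_lit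 34) (nat_lit 5) (nat_lit 36) (nat_lit 5) (nat_lit 37) (nat_lit 5) (nat_lit 460) (nat_lit 434) (nat_lit 306))))) (XT.nd (nat_lit 234) (nat_lit 76) (nat_lit 0) (XT.nd (nat_lit 78) (nat_lit 304) (nat_lit 0) (XT.lf (nat_lit 0) (nat_lit 127158407011) (nat_lit 228) (nat_lit 28845470067) (nat_lit 76) (nat_lit 31113031204) (nat_lit 34) (nat_lit 5) (nat_lit 37) (nat_lit 5) (nat_lit 35) (nat_lit 4) (nat_lit 461) (nat_lit 434) (nat_lit 305)) (XT.nd (nat_lit 78) (nat_lit 228) (nat_lit 0) (XT.lf (nat_lit 0) (nat_lit 84280311162) (nat_lit 76) (nat_lit 97266000381) (nat_lit 152) (nat_lit 15246714759) (nat_lit 33) (nat_lit 5) (nat_lit 34) (nat_lit 5) (nat_lit 35) (nat_lit 4) (nat_lit 462) (nat_lit 434) (nat_lit 304)) (XT.lf (nat_lit 0) (nat_lit 105792952) (nat_lit 152) (nat_lit 32094561711) (nat_lit 228) (nat_lit 174914407483) (nat_lit 30) (nat_lit 5) (nat_lit 32) (nat_lit 5) (nat_lit 33) (nat_lit 5) (nat_lit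 463) (nat_lit 434) (nat_lit 303)))) (XT.nd (nat_lit 78) (nat_lit 76) (nat_lit 0) (XT.lf (nat_lit 0) (nat_lit 86696088535) (nat_lit 228) (nat_lit 91281309422) (nat_lit 76) (nat_lit 39927028122) (nat_lit 30) (nat_lit 5) (nat_lit 33) (nat_lit 5) (nat_lit 31) (nat_lit 4) (nat_lit 464) (nat_lit 434) (nat_lit 302)) (XT.nd (nat_lit 78) (nat_lit 0) (nat_lit 0) (XT.lf (nat_lit 0) (nat_lit 34601041085) (nat_lit 76) (nat_lit 112615782922) (nat_lit 152) (nat_lit 82207211783) (nat_lit 29) (nat_lit 5) (nat_lit 30) (nat_lit 5) (nat_lit 31) (nat_lit 4) (nat_lit 465) (nat_lit 434) (nat_lit 301)) (XT.lf (nat_lit 0) (nat_lit 175744467085) (nat_lit 76) (nat_lit 39330120169) (nat_lit 152) (nat_lit 26590997602) (nat_lit 29) (nat_lit 5) (nat_lit 30) (nat_lit 5) (nat_lit 31) (nat_lit 4) (nat_lit 466) (nat_lit 434) (nat_lit 300))))))))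
noncomputable def xc177 : XT := (XT.nd (nat_lit 1716) (nat_lit 684) (nat_lit 0) (XT.nd (nat_lit 858) (nat_lit 532) (nat_lit 0) (XT.nd (nat_lit 390) (nat_lit 304) (nat_lit 0) (XT.nd (nat_lit 156) (nat_lit 228) (nat_lit 0) (XT.nd (nat_lit 78) (nat_lit 0) (nat_lit 0) (XT.lf (nat_lit 0) (nat_lit 34660898909) (nat_lit 152) (nat_lit 179397314072) (nat_lit 76) (nat_lit 40534966637) (nat_lit 27) (nat_lit 5) (nat_lit 29) (nat_lit 5) (nat_lit 28) (nat_lit 4) (nat_lit 467) (nat_lit 434) (nat_lit 299)) (XT.lf (nat_lit 0) (nat_lit 102246722377) (nat_lit 152) (nat_lit 38819374051) (nat_lit 76) (nat_lit 127204001203) (nat_lit 27) (nat_lit 5) (nat_lit 29) (nat_lit 5) (nat_lit 28) (nat_lit 4) (nat_lit 468) (nat_lit 434) (nat_lit 298))) (XT.nd (nat_lit 78) (nat_lit 152) (nat_lit 0) (XT.lf (nat_lit 0) (nat_lit 118954720661) (nat_lit 76) (nat_lit 59145186848) (nat_lit 152) (nat_lit 104712421979) (nat_lit 26)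 (nat_lit 5) (nat_lit 27) (nat_lit 5) (nat_lit 28) (nat_lit 4) (nat_lit 469) (nat_lit 434) (nat_lit 297)) (XT.nd (nat_lit 78) (nat_lit 152) (nat_lit 0) (XT.lf (nat_lit 0) (nat_lit 261815315166) (nat_lit 152) (nat_lit 7608216312) (nat_lit 0) (nat_lit 28950891059) (nat_lit 26) (nat_lit 5) (nat_lit 28) (nat_lit 4) (nat_lit 26) (nat_lit 4) (nat_lit 470) (nat_lit 434) (nat_lit 296)) (XT.lf (nat_lit 0) (nat_lit 40914618015) (nat_lit 152) (nat_lit 147762439653) (nat_lit 76) (nat_lit 125975439115) (nat_lit 24) (nat_lit 5) (nat_lit 26) (nat_lit 5) (nat_lit 25) (nat_lit 4) (nat_lit 471) (nat_lit 434) (nat_lit 295))))) (XT.nd (nat_lit 234) (nat_lit 152) (nat_lit 0) (XT.nd (nat_lit 78) (nat_lit 76) (nat_lit 0) (XT.lf (nat_lit 0) (nat_lit 23799634159) (nat_lit 76) (nat_lit 99596937531) (nat_lit 152) (nat_lit 208697440619) (nat_lit 23) (nat_lit 5) (nat_lit 24) (nat_lit 5) (nat_lit 25) (nat_lit 4) (nat_lit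 472) (nat_lit 434) (nat_lit 294)) (XT.nd (nat_lit 78) (nat_lit 76) (nat_lit 0) (XT.lf (nat_lit 0) (nat_lit 216540234139) (nat_lit 152) (nat_lit 133141621162) (nat_lit 0) (nat_lit 923941625) (nat_lit 23) (nat_lit 5) (nat_lit 25) (nat_lit 4) (nat_lit 23) (nat_lit 4) (nat_lit 473) (nat_lit 434) (nat_lit 293)) (XT.lf (nat_lit 0) (nat_lit 56249670520) (nat_lit 76) (nat_lit 264825150641) (nat_lit 76) (nat_lit 49208548665) (nat_lit 22) (nat_lit 4) (nat_lit 23) (nat_lit 5) (nat_lit 23) (nat_lit 4) (nat_lit 474) (nat_lit 434) (nat_lit 292)))) (XT.nd (nat_lit 78) (nat_lit 76) (nat_lit 0) (XT.lf (nat_lit 0) (nat_lit 44048729894) (nat_lit 152) (nat_lit 123995530333) (nat_lit 76) (nat_lit 223110473427) (nat_lit 21) (nat_lit 5) (nat_lit 23) (nat_lit 5) (nat_lit 22) (nat_lit 4) (nat_lit 475) (nat_lit 434) (nat_lit 291)) (XT.nd (nat_lit 78) (nat_lit 0) (nat_lit 0) (XT.lf (nat_lit 0) (nat_lit 84177922309)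 (nat_lit 76) (nat_lit 59954325832) (nat_lit 152) (nat_lit 269299371175) (nat_lit 20) (nat_lit 5) (nat_lit 21) (nat_lit 5) (nat_lit 22) (nat_lit 4) (nat_lit 476) (nat_lit 434) (nat_lit 290)) (XT.lf (nat_lit 0) (nat_lit 257066109976) (nat_lit 152) (nat_lit 122616683209) (nat_lit 0) (nat_lit 57420369709) (nat_lit 20) (nat_lit 5) (nat_lit 22) (nat_lit 4) (nat_lit 20) (nat_lit 4) (nat_lit 477) (nat_lit 434) (nat_lit 289)))))) (XT.nd (nat_lit 390) (nat_lit 228) (nat_lit 0) (XT.nd (nat_lit 156) (nat_lit 152) (nat_lit 0) (XT.nd (nat_lit 78) (nat_lit 76) (nat_lit 0) (XT.lf (nat_lit 0) (nat_lit 104206352489) (nat_lit 76) (nat_lit 278891487808) (nat_lit 76) (nat_lit 79245536927) (nat_lit 19) (nat_lit 4) (nat_lit 20) (nat_lit 5) (nat_lit 20) (nat_lit 4) (nat_lit 478) (nat_lit 434) (nat_lit 288)) (XT.lf (nat_lit 0) (nat_lit 31567499908) (nat_lit 152) (nat_lit 133985746084) (nat_lit 76) (nat_lit 323717444245)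 (nat_lit 18) (nat_lit 5) (nat_lit 20) (nat_lit 5) (nat_lit 19) (nat_lit 4) (nat_lit 479) (nat_lit 434) (nat_lit 287))) (XT.nd (nat_lit 78) (nat_lit 76) (nat_lit 0) (XT.lf (nat_lit 0) (nat_lit 111622655562) (nat_lit 76) (nat_lit 38025893487) (nat_lit 152) (nat_lit 368324230280) (nat_lit 17) (nat_lit 5) (nat_lit 18) (nat_lit 5) (nat_lit 19) (nat_lit 4) (nat_lit 480) (nat_lit 434) (nat_lit 286)) (XT.nd (nat_lit 78) (nat_lit 76) (nat_lit 0) (XT.lf (nat_lit 0) (nat_lit 283332278945) (nat_lit 152) (nat_lit 166671846429) (nat_lit 0) (nat_lit 98474414450) (nat_lit 17) (nat_lit 5) (nat_lit 19) (nat_lit 4) (nat_lit 17) (nat_lit 4) (nat_lit 481) (nat_lit 434) (nat_lit 285)) (XT.lf (nat_lit 0) (nat_lit 95994609299) (nat_lit 76) (nat_lit 335012234398) (nat_lit 76) (nat_lit 150154226563) (nat_lit 16) (nat_lit 4) (nat_lit 17) (nat_lit 5) (nat_lit 17) (nat_lit 4) (nat_lit 482) (nat_lit 434) (nat_lit 284)))))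 (XT.nd (nat_lit 234) (nat_lit 76) (nat_lit 0) (XT.nd (nat_lit 78) (nat_lit 152) (nat_lit 0) (XT.lf (nat_lit 0) (nat_lit 389152730760) (nat_lit 76) (nat_lit 205899530950) (nat_lit 76) (nat_lit 21041390392) (nat_lit 16) (nat_lit 4) (nat_lit 17) (nat_lit 5) (nat_lit 17) (nat_lit 4) (nat_lit 483) (nat_lit 434) (nat_lit 283)) (XT.nd (nat_lit 78) (nat_lit 0) (nat_lit 0) (XT.lf (nat_lit 0) (nat_lit 51679962733) (nat_lit 76) (nat_lit 62040338316) (nat_lit 152) (nat_lit 539773320759) (nat_lit 14) (nat_lit 5) (nat_lit 15) (nat_lit 5) (nat_lit 16) (nat_lit 4) (nat_lit 484) (nat_lit 434) (nat_lit 282)) (XT.lf (nat_lit 0) (nat_lit 266736608055) (nat_lit 152) (nat_lit 330844977782) (nat_lit 0) (nat_lit 95571443947) (nat_lit 14) (nat_lit 5) (nat_lit 16) (nat_lit 4) (nat_lit 14) (nat_lit 4) (nat_lit 485) (nat_lit 434) (nat_lit 281)))) (XT.nd (nat_lit 78) (nat_lit 76) (nat_lit 0) (XT.lf (nat_lit 0) (nat_lit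 433605468228) (nat_lit 152) (nat_lit 39810615732) (nat_lit 0) (nat_lit 262440206564) (nat_lit 14) (nat_lit 5) (nat_lit 16) (nat_lit 4) (nat_lit 14) (nat_lit 4) (nat_lit 486) (nat_lit 434) (nat_lit 280)) (XT.nd (nat_lit 78) (nat_lit 0) (nat_lit 0) (XT.lf (nat_lit 0) (nat_lit 288961153997) (nat_lit 76) (nat_lit 331812031148) (nat_lit 76) (nat_lit 160646679155) (nat_lit 13) (nat_lit 4) (nat_lit 14) (nat_lit 5) (nat_lit 14) (nat_lit 4) (nat_lit 487) (nat_lit 434) (nat_lit 279)) (XT.lf (nat_lit 0) (nat_lit 646298390614) (nat_lit 76) (nat_lit 177704251592) (nat_lit 76) (nat_lit 6538815961) (nat_lit 13) (nat_lit 4) (nat_lit 14) (nat_lit 5) (nat_lit 14) (nat_lit 4) (nat_lit 488) (nat_lit 434) (nat_lit 278))))))) (XT.nd (nat_lit 858) (nat_lit 228) (nat_lit 0) (XT.nd (nat_lit 390) (nat_lit 228) (nat_lit 0) (XT.nd (nat_lit 156) (nat_lit 76) (nat_lit 0) (XT.nd (nat_lit 78) (nat_lit 0) (nat_lit 0) (XT.lf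 (nat_lit 0) (nat_lit 152408027406) (nat_lit 76) (nat_lit 3156174747) (nat_lit 152) (nat_lit 727427713546) (nat_lit 11) (nat_lit 5) (nat_lit 12) (nat_lit 5) (nat_lit 13) (nat_lit 4) (nat_lit 489) (nat_lit 434) (nat_lit 277)) (XT.lf (nat_lit 0) (nat_lit 339908222075) (nat_lit 152) (nat_lit 417524949014) (nat_lit 0) (nat_lit 181421569502) (nat_lit 11) (nat_lit 5) (nat_lit 13) (nat_lit 4) (nat_lit 11) (nat_lit 4) (nat_lit 490) (nat_lit 434) (nat_lit 276))) (XT.nd (nat_lit 78) (nat_lit 76) (nat_lit 0) (XT.lf (nat_lit 0) (nat_lit 539081593170) (nat_lit 152) (nat_lit 79503572825) (nat_lit 0) (nat_lit 380594879121) (nat_lit 11) (nat_lit 5) (nat_lit 13) (nat_lit 4) (nat_lit 11) (nat_lit 4) (nat_lit 491) (nat_lit 434) (nat_lit 275)) (XT.nd (nat_lit 78) (nat_lit 0) (nat_lit 0) (XT.lf (nat_lit 0) (nat_lit 300596279299) (nat_lit 76) (nat_lit 460821764450) (nat_lit 76) (nat_lit 302334993478) (nat_lit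 10) (nat_lit 4) (nat_lit 11) (nat_lit 5) (nat_lit 11) (nat_lit 4) (nat_lit 492) (nat_lit 434) (nat_lit 274)) (XT.lf (nat_lit 0) (nat_lit 715625287782) (nat_lit 76) (nat_lit 288089756932) (nat_lit 76) (nat_lit 129602933254) (nat_lit 10) (nat_lit 4) (nat_lit 11) (nat_lit 5) (nat_lit 11) (nat_lit 4) (nat_lit 493) (nat_lit 434) (nat_lit 273))))) (XT.nd (nat_lit 234) (nat_lit 76) (nat_lit 0) (XT.nd (nat_lit 78) (nat_lit 76) (nat_lit 0) (XT.lf (nat_lit 0) (nat_lit 54098810078) (nat_lit 152) (nat_lit 45961347517) (nat_lit 76) (nat_lit 1108278399112) (nat_lit 9) (nat_lit 5) (nat_lit 11) (nat_lit 5) (nat_lit 10) (nat_lit 4) (nat_lit 494) (nat_lit 434) (nat_lit 272)) (XT.nd (nat_lit 78) (nat_lit 0) (nat_lit 0) (XT.lf (nat_lit 0) (nat_lit 257206064601) (nat_lit 152) (nat_lit 920489590026) (nat_lit 0) (nat_lit 110458918613) (nat_lit 8) (nat_lit 5) (nat_lit 10) (nat_lit 4) (nat_lit 8) (nat_lit 4) (nat_lit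 495) (nat_lit 434) (nat_lit 271)) (XT.lf (nat_lit 0) (nat_lit 480450052220) (nat_lit 152) (nat_lit 559891899172) (nat_lit 0) (nat_lit 333702867491) (nat_lit 8) (nat_lit 5) (nat_lit 10) (nat_lit 4) (nat_lit 8) (nat_lit 4) (nat_lit 496) (nat_lit 434) (nat_lit 270)))) (XT.nd (nat_lit 78) (nat_lit 76) (nat_lit 0) (XT.lf (nat_lit 0) (nat_lit 721553449837) (nat_lit 152) (nat_lit 170446613828) (nat_lit 0) (nat_lit 574806229237) (nat_lit 8) (nat_lit 5) (nat_lit 10) (nat_lit 4) (nat_lit 8) (nat_lit 4) (nat_lit 497) (nat_lit 434) (nat_lit 269)) (XT.nd (nat_lit 78) (nat_lit 0) (nat_lit 0) (XT.lf (nat_lit 0) (nat_lit 263326760981) (nat_lit 76) (nat_lit 724951272280) (nat_lit 76) (nat_lit 578204018467) (nat_lit 7) (nat_lit 4) (nat_lit 8) (nat_lit 5) (nat_lit 8) (nat_lit 4) (nat_lit 498) (nat_lit 434) (nat_lit 268)) (XT.lf (nat_lit 0) (nat_lit 741495256484) (nat_lit 76) (nat_lit 539505541104) (nat_lit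 76) (nat_lit 392758256538) (nat_lit 7) (nat_lit 4) (nat_lit 8) (nat_lit 5) (nat_lit 8) (nat_lit 4) (nat_lit 499) (nat_lit 434) (nat_lit 267)))))) (XT.nd (nat_lit 468) (nat_lit 76) (nat_lit 0) (XT.nd (nat_lit 234) (nat_lit 0) (nat_lit 0) (XT.nd (nat_lit 78) (nat_lit 152) (nat_lit 0) (XT.lf (nat_lit 0) (nat_lit 1257917047137) (nat_lit 76) (nat_lit 339224244951) (nat_lit 76) (nat_lit 192476931909) (nat_lit 7) (nat_lit 4) (nat_lit 8) (nat_lit 5) (nat_lit 8) (nat_lit 4) (nat_lit 500) (nat_lit 434) (nat_lit 266)) (XT.nd (nat_lit 78) (nat_lit 76) (nat_lit 0) (XT.lf (nat_lit 0) (nat_lit 22634894291) (nat_lit 152) (nat_lit 99666759282) (nat_lit 76) (nat_lit 1792398637804) (nat_lit 6) (nat_lit 5) (nat_lit 8) (nat_lit 5) (nat_lit 7) (nat_lit 4) (nat_lit 501) (nat_lit 434) (nat_lit 265)) (XT.lf (nat_lit 0) (nat_lit 256780481998) (nat_lit 152) (nat_lit 1670727311279) (nat_lit 0) (nat_lit 120903293275)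 (nat_lit 5) (nat_lit 5) (nat_lit 7) (nat_lit 4) (nat_lit 5) (nat_lit 4) (nat_lit 502) (nat_lit 434) (nat_lit 264)))) (XT.nd (nat_lit 78) (nat_lit 0) (nat_lit 0) (XT.lf (nat_lit 0) (nat_lit 515630149967) (nat_lit 152) (nat_lit 1296957860405) (nat_lit 0) (nat_lit 379752940313) (nat_lit 5) (nat_lit 5) (nat_lit 7) (nat_lit 4) (nat_lit 5) (nat_lit 4) (nat_lit 503) (nat_lit 434) (nat_lit 263)) (XT.nd (nat_lit 78) (nat_lit 0) (nat_lit 0) (XT.lf (nat_lit 0) (nat_lit 795187717451) (nat_lit 152) (nat_lit 893287003997) (nat_lit 0) (nat_lit 659310488417) (nat_lit 5) (nat_lit 5) (nat_lit 7) (nat_lit 4) (nat_lit 5) (nat_lit 4) (nat_lit 504) (nat_lit 434) (nat_lit 262)) (XT.lf (nat_lit 0) (nat_lit 1097109821887) (nat_lit 152) (nat_lit 457322618461) (nat_lit 0) (nat_lit 961232574909) (nat_lit 5) (nat_lit 5) (nat_lit 7) (nat_lit 4) (nat_lit 5) (nat_lit 4) (nat_lit 505) (nat_lit 434) (nat_lit 261))))) (XT.nd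 (nat_lit 234) (nat_lit 0) (nat_lit 0) (XT.nd (nat_lit 78) (nat_lit 0) (nat_lit 0) (XT.lf (nat_lit 0) (nat_lit 14230664320) (nat_lit 76) (nat_lit 1409297214801) (nat_lit 76) (nat_lit 1273419951208) (nat_lit 4) (nat_lit 4) (nat_lit 5) (nat_lit 5) (nat_lit 5) (nat_lit 4) (nat_lit 506) (nat_lit 434) (nat_lit 260)) (XT.nd (nat_lit 78) (nat_lit 0) (nat_lit 0) (XT.lf (nat_lit 0) (nat_lit 549516426467) (nat_lit 76) (nat_lit 1239046903594) (nat_lit 76) (nat_lit 1103169624616) (nat_lit 4) (nat_lit 4) (nat_lit 5) (nat_lit 5) (nat_lit 5) (nat_lit 4) (nat_lit 507) (nat_lit 434) (nat_lit 259)) (XT.lf (nat_lit 0) (nat_lit 1127624933110) (nat_lit 76) (nat_lit 1055176626829) (nat_lit 76) (nat_lit 919299333607) (nat_lit 4) (nat_lit 4) (nat_lit 5) (nat_lit 5) (nat_lit 5) (nat_lit 4) (nat_lit 508) (nat_lit 434) (nat_lit 258)))) (XT.nd (nat_lit 78) (nat_lit 0) (nat_lit 0) (XT.lf (nat_lit 0) (nat_lit 1751982012438)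 (nat_lit 76) (nat_lit 856596782866) (nat_lit 76) (nat_lit 720719476454) (nat_lit 4) (nat_lit 4) (nat_lit 5) (nat_lit 5) (nat_lit 5) (nat_lit 4) (nat_lit 509) (nat_lit 434) (nat_lit 257)) (XT.nd (nat_lit 78) (nat_lit 0) (nat_lit 0) (XT.lf (nat_lit 0) (nat_lit 2426287558254) (nat_lit 76) (nat_lit 642130602260) (nat_lit 76) (nat_lit 506253283635) (nat_lit 4) (nat_lit 4) (nat_lit 5) (nat_lit 5) (nat_lit 5) (nat_lit 4) (nat_lit 510) (nat_lit 434) (nat_lit 256)) (XT.lf (nat_lit 0) (nat_lit 3154537455274) (nat_lit 76) (nat_lit 410507174310) (nat_lit 76) (nat_lit 274629844377) (nat_lit 4) (nat_lit 4) (nat_lit 5) (nat_lit 5) (nat_lit 5) (nat_lit 4) (nat_lit 511) (nat_lit 434) (nat_lit 255))))))))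
noncomputable def xc178 : XT := (XT.nd (nat_lit 57174) (nat_lit 0) (nat_lit 2128) (XT.nd (nat_lit 858) (nat_lit 76) (nat_lit 0) (XT.nd (nat_lit 390) (nat_lit 0) (nat_lit 0) (XT.nd (nat_lit 156) (nat_lit 0) (nat_lit 0) (XT.nd (nat_lit 78) (nat_lit 152) (nat_lit 0) (XT.lf (nat_lit 0) (nat_lit 3941047258442) (nat_lit 76) (nat_lit 160353915740) (nat_lit 76) (nat_lit 24476575337) (nat_lit 4) (nat_lit 4) (nat_lit 5) (nat_lit 5) (nat_lit 5) (nat_lit 4) (nat_lit 512) (nat_lit 434) (nat_lit 254)) (XT.lf (nat_lit 0) (nat_lit 245273308083) (nat_lit 152) (nat_lit 4068820349378) (nat_lit 0) (nat_lit 119460946882) (nat_lit 2) (nat_lit 5) (nat_lit 4) (nat_lit 4) (nat_lit 2) (nat_lit 4) (nat_lit 513) (nat_lit 434) (nat_lit 253))) (XT.nd (nat_lit 78) (nat_lit 0) (nat_lit 0) (XT.lf (nat_lit 0) (nat_lit 544630663639) (nat_lit 152) (nat_lit 3801597801193) (nat_lit 0) (nat_lit 418818294126) (nat_lit 2) (nat_lit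 5) (nat_lit 4) (nat_lit 4) (nat_lit 2) (nat_lit 4) (nat_lit 514) (nat_lit 434) (nat_lit 252)) (XT.nd (nat_lit 78) (nat_lit 0) (nat_lit 0) (XT.lf (nat_lit 0) (nat_lit 867936570766) (nat_lit 152) (nat_lit 3512997524568) (nat_lit 0) (nat_lit 742124193557) (nat_lit 2) (nat_lit 5) (nat_lit 4) (nat_lit 4) (nat_lit 2) (nat_lit 4) (nat_lit 515) (nat_lit 434) (nat_lit 251)) (XT.lf (nat_lit 0) (nat_lit 1217106916322) (nat_lit 152) (nat_lit 3201309295642) (nat_lit 0) (nat_lit 1091294531987) (nat_lit 2) (nat_lit 5) (nat_lit 4) (nat_lit 4) (nat_lit 2) (nat_lit 4) (nat_lit 516) (nat_lit 434) (nat_lit 250))))) (XT.nd (nat_lit 234) (nat_lit 0) (nat_lit 0) (XT.nd (nat_lit 78) (nat_lit 0) (nat_lit 0) (XT.lf (nat_lit 0) (nat_lit 1594210857911) (nat_lit 152) (nat_lit 2864686073058) (nat_lit 0) (nat_lit 1468398466977) (nat_lit 2) (nat_lit 5) (nat_lit 4) (nat_lit 4) (nat_lit 2) (nat_lit 4) (nat_lit 517) (nat_lit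 434) (nat_lit 249)) (XT.nd (nat_lit 78) (nat_lit 0) (nat_lit 0) (XT.lf (nat_lit 0) (nat_lit 2001483085555) (nat_lit 152) (nat_lit 2501133052535) (nat_lit 0) (nat_lit 1875670688513) (nat_lit 2) (nat_lit 5) (nat_lit 4) (nat_lit 4) (nat_lit 2) (nat_lit 4) (nat_lit 518) (nat_lit 434) (nat_lit 248)) (XT.lf (nat_lit 0) (nat_lit 2441337064309) (nat_lit 152) (nat_lit 2108495845804) (nat_lit 0) (nat_lit 2315524661609) (nat_lit 2) (nat_lit 5) (nat_lit 4) (nat_lit 4) (nat_lit 2) (nat_lit 4) (nat_lit 519) (nat_lit 434) (nat_lit 247)))) (XT.nd (nat_lit 78) (nat_lit 0) (nat_lit 0) (XT.lf (nat_lit 0) (nat_lit 2916379336268) (nat_lit 152) (nat_lit 1684447713860) (nat_lit 0) (nat_lit 2790566928331) (nat_lit 2) (nat_lit 5) (nat_lit 4) (nat_lit 4) (nat_lit 2) (nat_lit 4) (nat_lit 520) (nat_lit 434) (nat_lit 246)) (XT.nd (nat_lit 78) (nat_lit 0) (nat_lit 0) (XT.lf (nat_lit 0) (nat_lit 3429424966748) (nat_lit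 152) (nat_lit 1226475778885) (nat_lit 0) (nat_lit 3303612553961) (nat_lit 2) (nat_lit 5) (nat_lit 4) (nat_lit 4) (nat_lit 2) (nat_lit 4) (nat_lit 521) (nat_lit 434) (nat_lit 245)) (XT.lf (nat_lit 0) (nat_lit 3983514226151) (nat_lit 152) (nat_lit 731866133116) (nat_lit 0) (nat_lit 3857701808873) (nat_lit 2) (nat_lit 5) (nat_lit 4) (nat_lit 4) (nat_lit 2) (nat_lit 4) (nat_lit 522) (nat_lit 434) (nat_lit 244)))))) (XT.nd (nat_lit 55848) (nat_lit 0) (nat_lit 4408) (XT.nd (nat_lit 55614) (nat_lit 0) (nat_lit 5168) (XT.nd (nat_lit 78) (nat_lit 76) (nat_lit 0) (XT.lf (nat_lit 0) (nat_lit 4581930606386) (nat_lit 152) (nat_lit 197687756431) (nat_lit 0) (nat_lit 4456118184950) (nat_lit 2) (nat_lit 5) (nat_lit 4) (nat_lit 4) (nat_lit 2) (nat_lit 4) (nat_lit 523) (nat_lit 434) (nat_lit 243)) (XT.lf (nat_lit 0) (nat_lit 399194161359) (nat_lit 76) (nat_lit 4838626746415) (nat_lit 76) (nat_lit 4712814321130)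 (nat_lit 1) (nat_lit 4) (nat_lit 2) (nat_lit 5) (nat_lit 2) (nat_lit 4) (nat_lit 524) (nat_lit 434) (nat_lit 242))) (XT.nd (nat_lit 78) (nat_lit 0) (nat_lit 0) (XT.lf (nat_lit 0) (nat_lit 27474169496) (nat_lit 532) (nat_lit 1289981669) (nat_lit 532) (nat_lit 1289981669) (nat_lit 69) (nat_lit 3) (nat_lit 76) (nat_lit 3) (nat_lit 76) (nat_lit 5) (nat_lit 435) (nat_lit 435) (nat_lit 330)) (XT.nd (nat_lit 78) (nat_lit 0) (nat_lit 76) (XT.lf (nat_lit 76) (nat_lit 28289306635) (nat_lit 0) (nat_lit 29554329139) (nat_lit 532) (nat_lit 4613160027) (nat_lit 70) (nat_lit 5) (nat_lit 69) (nat_lit 3) (nat_lit 76) (nat_lit 5) (nat_lit 436) (nat_lit 435) (nat_lit 329)) (XT.lf (nat_lit 0) (nat_lit 61057037317) (nat_lit 456) (nat_lit 3231493666) (nat_lit 532) (nat_lit 697760021) (nat_lit 70) (nat_lit 5) (nat_lit 76) (nat_lit 5) (nat_lit 77) (nat_lit 5) (nat_lit 437) (nat_lit 435) (nat_lit 328))))) (XT.nd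 (nat_lit 234) (nat_lit 304) (nat_lit 0) (XT.nd (nat_lit 78) (nat_lit 532) (nat_lit 0) (XT.lf (nat_lit 76) (nat_lit 30959409979) (nat_lit 0) (nat_lit 35078740508) (nat_lit 532) (nat_lit 1559145234) (nat_lit 71) (nat_lit 5) (nat_lit 70) (nat_lit 5) (nat_lit 77) (nat_lit 5) (nat_lit 438) (nat_lit 435) (nat_lit 327)) (XT.nd (nat_lit 78) (nat_lit 0) (nat_lit 76) (XT.lf (nat_lit 0) (nat_lit 1039642018) (nat_lit 532) (nat_lit 2368203917) (nat_lit 608) (nat_lit 67000280866) (nat_lit 63) (nat_lit 5) (nat_lit 70) (nat_lit 5) (nat_lit 71) (nat_lit 5) (nat_lit 439) (nat_lit 435) (nat_lit 326)) (XT.lf (nat_lit 0) (nat_lit 5401148720) (nat_lit 532) (nat_lit 37711500154) (nat_lit 608) (nat_lit 30196812487) (nat_lit 64) (nat_lit 5) (nat_lit 71) (nat_lit 5) (nat_lit 72) (nat_lit 5) (nat_lit 440) (nat_lit 435) (nat_lit 325)))) (XT.nd (nat_lit 78) (nat_lit 380) (nat_lit 0) (XT.lf (nat_lit 76) (nat_lit 217980398)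 (nat_lit 0) (nat_lit 10052461580) (nat_lit 608) (nat_lit 66159752205) (nat_lit 65) (nat_lit 5) (nat_lit 64) (nat_lit 5) (nat_lit 72) (nat_lit 5) (nat_lit 441) (nat_lit 435) (nat_lit 324)) (XT.nd (nat_lit 78) (nat_lit 456) (nat_lit 0) (XT.lf (nat_lit 0) (nat_lit 17202855756) (nat_lit 532) (nat_lit 37036500356) (nat_lit 76) (nat_lit 25427344075) (nat_lit 65) (nat_lit 5) (nat_lit 72) (nat_lit 5) (nat_lit 66) (nat_lit 5) (nat_lit 442) (nat_lit 435) (nat_lit 323)) (XT.lf (nat_lit 0) (nat_lit 5274946561) (nat_lit 456) (nat_lit 19801725819) (nat_lit 532) (nat_lit 58054510181) (nat_lit 59) (nat_lit 5) (nat_lit 65) (nat_lit 5) (nat_lit 66) (nat_lit 5) (nat_lit 443) (nat_lit 435) (nat_lit 322))))))) (XT.nd (nat_lit 858) (nat_lit 1064) (nat_lit 0) (XT.nd (nat_lit 390) (nat_lit 760) (nat_lit 0) (XT.nd (nat_lit 156) (nat_lit 228) (nat_lit 0) (XT.nd (nat_lit 78) (nat_lit 228) (nat_lit 0) (XT.lf (nat_lit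 0) (nat_lit 35036497128) (nat_lit 532) (nat_lit 34159914698) (nat_lit 76) (nat_lit 17559924092) (nat_lit 59) (nat_lit 5) (nat_lit 66) (nat_lit 5) (nat_lit 60) (nat_lit 5) (nat_lit 444) (nat_lit 435) (nat_lit 321)) (XT.lf (nat_lit 0) (nat_lit 13175819109) (nat_lit 228) (nat_lit 33447484061) (nat_lit 304) (nat_lit 43981783321) (nat_lit 56) (nat_lit 5) (nat_lit 59) (nat_lit 5) (nat_lit 60) (nat_lit 5) (nat_lit 445) (nat_lit 435) (nat_lit 320))) (XT.nd (nat_lit 78) (nat_lit 228) (nat_lit 0) (XT.lf (nat_lit 0) (nat_lit 60218470747) (nat_lit 304) (nat_lit 28595410924) (nat_lit 76) (nat_lit 5861342607) (nat_lit 56) (nat_lit 5) (nat_lit 60) (nat_lit 5) (nat_lit 57) (nat_lit 5) (nat_lit 446) (nat_lit 435) (nat_lit 319)) (XT.nd (nat_lit 78) (nat_lit 0) (nat_lit 0) (XT.lf (nat_lit 0) (nat_lit 24500990790) (nat_lit 228) (nat_lit 51857381838) (nat_lit 304) (nat_lit 22596031277) (nat_lit 53) (nat_lit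 5) (nat_lit 56) (nat_lit 5) (nat_lit 57) (nat_lit 5) (nat_lit 447) (nat_lit 435) (nat_lit 318)) (XT.lf (nat_lit 0) (nat_lit 83470341002) (nat_lit 228) (nat_lit 11100122488) (nat_lit 304) (nat_lit 8942975122) (nat_lit 53) (nat_lit 5) (nat_lit 56) (nat_lit 5) (nat_lit 57) (nat_lit 5) (nat_lit 448) (nat_lit 435) (nat_lit 317))))) (XT.nd (nat_lit 234) (nat_lit 304) (nat_lit 0) (XT.nd (nat_lit 78) (nat_lit 228) (nat_lit 0) (XT.lf (nat_lit 0) (nat_lit 7308617416) (nat_lit 228) (nat_lit 68557575124) (nat_lit 76) (nat_lit 32416116441) (nat_lit 50) (nat_lit 5) (nat_lit 53) (nat_lit 5) (nat_lit 51) (nat_lit 5) (nat_lit 449) (nat_lit 435) (nat_lit 316)) (XT.nd (nat_lit 78) (nat_lit 228) (nat_lit 0) (XT.lf (nat_lit 0) (nat_lit 25226969818) (nat_lit 228) (nat_lit 8510832709) (nat_lit 76) (nat_lit 79608321176) (nat_lit 50) (nat_lit 5) (nat_lit 53) (nat_lit 5) (nat_lit 51) (nat_lit 5) (nat_lit 450) (nat_lit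 435) (nat_lit 315)) (XT.lf (nat_lit 0) (nat_lit 46324257509) (nat_lit 304) (nat_lit 59715478742) (nat_lit 76) (nat_lit 12635670319) (nat_lit 47) (nat_lit 5) (nat_lit 51) (nat_lit 5) (nat_lit 48) (nat_lit 5) (nat_lit 451) (nat_lit 435) (nat_lit 314)))) (XT.nd (nat_lit 78) (nat_lit 152) (nat_lit 0) (XT.lf (nat_lit 0) (nat_lit 7386122130) (nat_lit 152) (nat_lit 63015200655) (nat_lit 228) (nat_lit 53926350024) (nat_lit 45) (nat_lit 5) (nat_lit 47) (nat_lit 5) (nat_lit 48) (nat_lit 5) (nat_lit 452) (nat_lit 435) (nat_lit 313)) (XT.nd (nat_lit 78) (nat_lit 152) (nat_lit 0) (XT.lf (nat_lit 0) (nat_lit 83250984928) (nat_lit 152) (nat_lit 14785630358) (nat_lit 228) (nat_lit 32264940388) (nat_lit 45) (nat_lit 5) (nat_lit 47) (nat_lit 5) (nat_lit 48) (nat_lit 5) (nat_lit 453) (nat_lit 435) (nat_lit 312)) (XT.lf (nat_lit 0) (nat_lit 28983527393) (nat_lit 152) (nat_lit 100492757833) (nat_lit 228) (nat_lit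 7149579884) (nat_lit 43) (nat_lit 5) (nat_lit 45) (nat_lit 5) (nat_lit 46) (nat_lit 5) (nat_lit 454) (nat_lit 435) (nat_lit 311)))))) (XT.nd (nat_lit 468) (nat_lit 532) (nat_lit 0) (XT.nd (nat_lit 234) (nat_lit 304) (nat_lit 0) (XT.nd (nat_lit 78) (nat_lit 152) (nat_lit 0) (XT.lf (nat_lit 0) (nat_lit 20679068195) (nat_lit 228) (nat_lit 30475820248) (nat_lit 76) (nat_lit 92126535960) (nat_lit 42) (nat_lit 5) (nat_lit 45) (nat_lit 5) (nat_lit 43) (nat_lit 5) (nat_lit 455) (nat_lit 435) (nat_lit 310)) (XT.nd (nat_lit 78) (nat_lit 0) (nat_lit 0) (XT.lf (nat_lit 0) (nat_lit 51771466756) (nat_lit 228) (nat_lit 94987248144) (nat_lit 76) (nat_lit 3581959749) (nat_lit 40) (nat_lit 5) (nat_lit 43) (nat_lit 5) (nat_lit 41) (nat_lit 5) (nat_lit 456) (nat_lit 435) (nat_lit 309)) (XT.lf (nat_lit 0) (nat_lit 87534309371) (nat_lit 228) (nat_lit 9467014313) (nat_lit 76) (nat_lit 60788697251) (nat_lit 40)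 (nat_lit 5) (nat_lit 43) (nat_lit 5) (nat_lit 41) (nat_lit 5) (nat_lit 457) (nat_lit 435) (nat_lit 308)))) (XT.nd (nat_lit 78) (nat_lit 152) (nat_lit 0) (XT.lf (nat_lit 0) (nat_lit 87259086753) (nat_lit 152) (nat_lit 40997164335) (nat_lit 228) (nat_lit 37411218282) (nat_lit 38) (nat_lit 5) (nat_lit 40) (nat_lit 5) (nat_lit 41) (nat_lit 5) (nat_lit 458) (nat_lit 435) (nat_lit 307)) (XT.nd (nat_lit 78) (nat_lit 76) (nat_lit 0) (XT.lf (nat_lit 0) (nat_lit 18559477001) (nat_lit 76) (nat_lit 154856566478) (nat_lit 152) (nat_lit 664662739) (nat_lit 37) (nat_lit 5) (nat_lit 38) (nat_lit 5) (nat_lit 39) (nat_lit 4) (nat_lit 459) (nat_lit 435) (nat_lit 306)) (XT.lf (nat_lit 0) (nat_lit 40333472971) (nat_lit 152) (nat_lit 57311414558) (nat_lit 76) (nat_lit 85185926959) (nat_lit 36) (nat_lit 5) (nat_lit 38) (nat_lit 5) (nat_lit 37) (nat_lit 5) (nat_lit 460) (nat_lit 435) (nat_lit 305))))) (XT.nd (nat_lit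 234) (nat_lit 304) (nat_lit 0) (XT.nd (nat_lit 78) (nat_lit 76) (nat_lit 0) (XT.lf (nat_lit 0) (nat_lit 51303572615) (nat_lit 152) (nat_lit 34505372408) (nat_lit 228) (nat_lit 106371933847) (nat_lit 34) (nat_lit 5) (nat_lit 36) (nat_lit 5) (nat_lit 37) (nat_lit 5) (nat_lit 461) (nat_lit 435) (nat_lit 304)) (XT.nd (nat_lit 78) (nat_lit 76) (nat_lit 0) (XT.lf (nat_lit 0) (nat_lit 137339835246) (nat_lit 228) (nat_lit 31138082746) (nat_lit 76) (nat_lit 33607640103) (nat_lit 34) (nat_lit 5) (nat_lit 37) (nat_lit 5) (nat_lit 35) (nat_lit 4) (nat_lit 462) (nat_lit 435) (nat_lit 303)) (XT.lf (nat_lit 0) (nat_lit 91037380603) (nat_lit 76) (nat_lit 105041095170) (nat_lit 152) (nat_lit 16457313670) (nat_lit 33) (nat_lit 5) (nat_lit 34) (nat_lit 5) (nat_lit 35) (nat_lit 4) (nat_lit 463) (nat_lit 435) (nat_lit 302)))) (XT.nd (nat_lit 78) (nat_lit 76) (nat_lit 0) (XT.lf (nat_lit 0) (nat_lit 128977751)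 (nat_lit 152) (nat_lit 34655797425) (nat_lit 228) (nat_lit 188898494669) (nat_lit 30) (nat_lit 5) (nat_lit 32) (nat_lit 5) (nat_lit 33) (nat_lit 5) (nat_lit 464) (nat_lit 435) (nat_lit 301)) (XT.nd (nat_lit 78) (nat_lit 76) (nat_lit 0) (XT.lf (nat_lit 0) (nat_lit 93639687059) (nat_lit 228) (nat_lit 98569700825) (nat_lit 76) (nat_lit 43126757603) (nat_lit 30) (nat_lit 5) (nat_lit 33) (nat_lit 5) (nat_lit 31) (nat_lit 4) (nat_lit 465) (nat_lit 435) (nat_lit 300)) (XT.lf (nat_lit 0) (nat_lit 37382880422) (nat_lit 76) (nat_lit 121618945748) (nat_lit 152) (nat_lit 88775518353) (nat_lit 29) (nat_lit 5) (nat_lit 30) (nat_lit 5) (nat_lit 31) (nat_lit 4) (nat_lit 466) (nat_lit 435) (nat_lit 299))))))))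
noncomputable def xc179 : XT := (XT.nd (nat_lit 1716) (nat_lit 684) (nat_lit 0) (XT.nd (nat_lit 858) (nat_lit 532) (nat_lit 0) (XT.nd (nat_lit 390) (nat_lit 456) (nat_lit 0) (XT.nd (nat_lit 156) (nat_lit 76) (nat_lit 0) (XT.nd (nat_lit 78) (nat_lit 152) (nat_lit 0) (XT.lf (nat_lit 0) (nat_lit 189816761535) (nat_lit 76) (nat_lit 42470881812) (nat_lit 152) (nat_lit 28710619657) (nat_lit 29) (nat_lit 5) (nat_lit 30) (nat_lit 5) (nat_lit 31) (nat_lit 4) (nat_lit 467) (nat_lit 435) (nat_lit 298)) (XT.lf (nat_lit 0) (nat_lit 37440952413) (nat_lit 152) (nat_lit 193735883259) (nat_lit 76) (nat_lit 43783222495) (nat_lit 27) (nat_lit 5) (nat_lit 29) (nat_lit 5) (nat_lit 28) (nat_lit 4) (nat_lit 468) (nat_lit 435) (nat_lit 297))) (XT.nd (nat_lit 78) (nat_lit 76) (nat_lit 0) (XT.lf (nat_lit 0) (nat_lit 110433109788) (nat_lit 152) (nat_lit 41912686995) (nat_lit 76) (nat_lit 137385375490) (nat_lit 27)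 (nat_lit 5) (nat_lit 29) (nat_lit 5) (nat_lit 28) (nat_lit 4) (nat_lit 469) (nat_lit 435) (nat_lit 296)) (XT.nd (nat_lit 78) (nat_lit 0) (nat_lit 0) (XT.lf (nat_lit 0) (nat_lit 128483025497) (nat_lit 76) (nat_lit 63871318518) (nat_lit 152) (nat_lit 113082455209) (nat_lit 26) (nat_lit 5) (nat_lit 27) (nat_lit 5) (nat_lit 28) (nat_lit 4) (nat_lit 470) (nat_lit 435) (nat_lit 295)) (XT.lf (nat_lit 0) (nat_lit 282766629063) (nat_lit 152) (nat_lit 8205473679) (nat_lit 0) (nat_lit 31271785476) (nat_lit 26) (nat_lit 5) (nat_lit 28) (nat_lit 4) (nat_lit 26) (nat_lit 4) (nat_lit 471) (nat_lit 435) (nat_lit 294))))) (XT.nd (nat_lit 234) (nat_lit 228) (nat_lit 0) (XT.nd (nat_lit 78) (nat_lit 76) (nat_lit 0) (XT.lf (nat_lit 0) (nat_lit 44193846632) (nat_lit 152) (nat_lit 159572003547) (nat_lit 76) (nat_lit 136058360731) (nat_lit 24) (nat_lit 5) (nat_lit 26) (nat_lit 5) (nat_lit 25) (nat_lit 4) (nat_lit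 472) (nat_lit 435) (nat_lit 293)) (XT.nd (nat_lit 78) (nat_lit 0) (nat_lit 0) (XT.lf (nat_lit 0) (nat_lit 25714746771) (nat_lit 76) (nat_lit 107559428965) (nat_lit 152) (nat_lit 225386886477) (nat_lit 23) (nat_lit 5) (nat_lit 24) (nat_lit 5) (nat_lit 25) (nat_lit 4) (nat_lit 473) (nat_lit 435) (nat_lit 292)) (XT.lf (nat_lit 0) (nat_lit 233869012962) (nat_lit 152) (nat_lit 143782315326) (nat_lit 0) (nat_lit 1002486829) (nat_lit 23) (nat_lit 5) (nat_lit 25) (nat_lit 4) (nat_lit 23) (nat_lit 4) (nat_lit 474) (nat_lit 435) (nat_lit 291)))) (XT.nd (nat_lit 78) (nat_lit 152) (nat_lit 0) (XT.lf (nat_lit 0) (nat_lit 60760010437) (nat_lit 76) (nat_lit 286006193960) (nat_lit 76) (nat_lit 53139402513) (nat_lit 22) (nat_lit 4) (nat_lit 23) (nat_lit 5) (nat_lit 23) (nat_lit 4) (nat_lit 475) (nat_lit 435) (nat_lit 290)) (XT.nd (nat_lit 78) (nat_lit 76) (nat_lit 0) (XT.lf (nat_lit 0) (nat_lit 47577756436)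 (nat_lit 152) (nat_lit 133905303718) (nat_lit 76) (nat_lit 240963641340) (nat_lit 21) (nat_lit 5) (nat_lit 23) (nat_lit 5) (nat_lit 22) (nat_lit 4) (nat_lit 476) (nat_lit 435) (nat_lit 289)) (XT.lf (nat_lit 0) (nat_lit 90921775287) (nat_lit 76) (nat_lit 64746032336) (nat_lit 152) (nat_lit 290837942314) (nat_lit 20) (nat_lit 5) (nat_lit 21) (nat_lit 5) (nat_lit 22) (nat_lit 4) (nat_lit 477) (nat_lit 435) (nat_lit 288)))))) (XT.nd (nat_lit 390) (nat_lit 304) (nat_lit 0) (XT.nd (nat_lit 156) (nat_lit 152) (nat_lit 0) (XT.nd (nat_lit 78) (nat_lit 76) (nat_lit 0) (XT.lf (nat_lit 0) (nat_lit 277636112858) (nat_lit 152) (nat_lit 132416845147) (nat_lit 0) (nat_lit 62018080280) (nat_lit 20) (nat_lit 5) (nat_lit 22) (nat_lit 4) (nat_lit 20) (nat_lit 4) (nat_lit 478) (nat_lit 435) (nat_lit 287)) (XT.lf (nat_lit 0) (nat_lit 112551801186) (nat_lit 76) (nat_lit 301198446246) (nat_lit 76) (nat_lit 85580233100)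 (nat_lit 19) (nat_lit 4) (nat_lit 20) (nat_lit 5) (nat_lit 20) (nat_lit 4) (nat_lit 479) (nat_lit 435) (nat_lit 286))) (XT.nd (nat_lit 78) (nat_lit 76) (nat_lit 0) (XT.lf (nat_lit 0) (nat_lit 34097251126) (nat_lit 152) (nat_lit 144696097995) (nat_lit 76) (nat_lit 349618647828) (nat_lit 18) (nat_lit 5) (nat_lit 20) (nat_lit 5) (nat_lit 19) (nat_lit 4) (nat_lit 480) (nat_lit 435) (nat_lit 285)) (XT.nd (nat_lit 78) (nat_lit 0) (nat_lit 0) (XT.lf (nat_lit 0) (nat_lit 120560760396) (nat_lit 76) (nat_lit 41063900922) (nat_lit 152) (nat_lit 397785601712) (nat_lit 17) (nat_lit 5) (nat_lit 18) (nat_lit 5) (nat_lit 19) (nat_lit 4) (nat_lit 481) (nat_lit 435) (nat_lit 284)) (XT.lf (nat_lit 0) (nat_lit 306002866894) (nat_lit 152) (nat_lit 179997692945) (nat_lit 0) (nat_lit 106355942369) (nat_lit 17) (nat_lit 5) (nat_lit 19) (nat_lit 4) (nat_lit 17) (nat_lit 4) (nat_lit 482) (nat_lit 435) (nat_lit 283)))))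 (XT.nd (nat_lit 234) (nat_lit 76) (nat_lit 0) (XT.nd (nat_lit 78) (nat_lit 152) (nat_lit 0) (XT.lf (nat_lit 0) (nat_lit 103681879210) (nat_lit 76) (nat_lit 361809406116) (nat_lit 76) (nat_lit 162162358700) (nat_lit 16) (nat_lit 4) (nat_lit 17) (nat_lit 5) (nat_lit 17) (nat_lit 4) (nat_lit 483) (nat_lit 435) (nat_lit 282)) (XT.nd (nat_lit 78) (nat_lit 152) (nat_lit 0) (XT.lf (nat_lit 0) (nat_lit 420292079931) (nat_lit 76) (nat_lit 222367968395) (nat_lit 76) (nat_lit 22720807190) (nat_lit 16) (nat_lit 4) (nat_lit 17) (nat_lit 5) (nat_lit 17) (nat_lit 4) (nat_lit 484) (nat_lit 435) (nat_lit 281)) (XT.lf (nat_lit 0) (nat_lit 55821500092) (nat_lit 76) (nat_lit 67000022339) (nat_lit 152) (nat_lit 582951301081) (nat_lit 14) (nat_lit 5) (nat_lit 15) (nat_lit 5) (nat_lit 16) (nat_lit 4) (nat_lit 485) (nat_lit 435) (nat_lit 280)))) (XT.nd (nat_lit 78) (nat_lit 76) (nat_lit 0) (XT.lf (nat_lit 0) (nat_lit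 288078946430) (nat_lit 152) (nat_lit 357305776772) (nat_lit 0) (nat_lit 103220275949) (nat_lit 14) (nat_lit 5) (nat_lit 16) (nat_lit 4) (nat_lit 14) (nat_lit 4) (nat_lit 486) (nat_lit 435) (nat_lit 279)) (XT.nd (nat_lit 78) (nat_lit 76) (nat_lit 0) (XT.lf (nat_lit 0) (nat_lit 468297062844) (nat_lit 152) (nat_lit 42989169405) (nat_lit 0) (nat_lit 283438308725) (nat_lit 14) (nat_lit 5) (nat_lit 16) (nat_lit 4) (nat_lit 14) (nat_lit 4) (nat_lit 487) (nat_lit 435) (nat_lit 278)) (XT.lf (nat_lit 0) (nat_lit 312084182521) (nat_lit 76) (nat_lit 358353928306) (nat_lit 76) (nat_lit 173495096744) (nat_lit 13) (nat_lit 4) (nat_lit 14) (nat_lit 5) (nat_lit 14) (nat_lit 4) (nat_lit 488) (nat_lit 435) (nat_lit 277))))))) (XT.nd (nat_lit 858) (nat_lit 228) (nat_lit 0) (XT.nd (nat_lit 390) (nat_lit 228) (nat_lit 0) (XT.nd (nat_lit 156) (nat_lit 76) (nat_lit 0) (XT.nd (nat_lit 78) (nat_lit 152) (nat_lit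 0) (XT.lf (nat_lit 0) (nat_lit 698007943534) (nat_lit 76) (nat_lit 191917753447) (nat_lit 76) (nat_lit 7058850179) (nat_lit 13) (nat_lit 4) (nat_lit 14) (nat_lit 5) (nat_lit 14) (nat_lit 4) (nat_lit 489) (nat_lit 435) (nat_lit 276)) (XT.lf (nat_lit 0) (nat_lit 164606357337) (nat_lit 76) (nat_lit 3405819104) (nat_lit 152) (nat_lit 785618865302) (nat_lit 11) (nat_lit 5) (nat_lit 12) (nat_lit 5) (nat_lit 13) (nat_lit 4) (nat_lit 490) (nat_lit 435) (nat_lit 275))) (XT.nd (nat_lit 78) (nat_lit 76) (nat_lit 0) (XT.lf (nat_lit 0) (nat_lit 367103571183) (nat_lit 152) (nat_lit 450921531586) (nat_lit 0) (nat_lit 195937801611) (nat_lit 11) (nat_lit 5) (nat_lit 13) (nat_lit 4) (nat_lit 11) (nat_lit 4) (nat_lit 491) (nat_lit 435) (nat_lit 274)) (XT.nd (nat_lit 78) (nat_lit 76) (nat_lit 0) (XT.lf (nat_lit 0) (nat_lit 582210612608) (nat_lit 152) (nat_lit 85858846291) (nat_lit 0) (nat_lit 411044790329)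 (nat_lit 11) (nat_lit 5) (nat_lit 13) (nat_lit 4) (nat_lit 11) (nat_lit 4) (nat_lit 492) (nat_lit 435) (nat_lit 273)) (XT.lf (nat_lit 0) (nat_lit 324648867108) (nat_lit 76) (nat_lit 497685045029) (nat_lit 76) (nat_lit 326519173949) (nat_lit 10) (nat_lit 4) (nat_lit 11) (nat_lit 5) (nat_lit 11) (nat_lit 4) (nat_lit 493) (nat_lit 435) (nat_lit 272))))) (XT.nd (nat_lit 234) (nat_lit 76) (nat_lit 0) (XT.nd (nat_lit 78) (nat_lit 152) (nat_lit 0) (XT.lf (nat_lit 0) (nat_lit 772879834383) (nat_lit 76) (nat_lit 311134659175) (nat_lit 76) (nat_lit 139968742907) (nat_lit 10) (nat_lit 4) (nat_lit 11) (nat_lit 5) (nat_lit 11) (nat_lit 4) (nat_lit 494) (nat_lit 435) (nat_lit 271)) (XT.nd (nat_lit 78) (nat_lit 76) (nat_lit 0) (XT.lf (nat_lit 0) (nat_lit 58428847938) (nat_lit 152) (nat_lit 49633954395) (nat_lit 76) (nat_lit 1196942668165) (nat_lit 9) (nat_lit 5) (nat_lit 11) (nat_lit 5) (nat_lit 10) (nat_lit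 4) (nat_lit 495) (nat_lit 435) (nat_lit 270)) (XT.lf (nat_lit 0) (nat_lit 277784676532) (nat_lit 152) (nat_lit 994124449919) (nat_lit 0) (nat_lit 119297642413) (nat_lit 8) (nat_lit 5) (nat_lit 10) (nat_lit 4) (nat_lit 8) (nat_lit 4) (nat_lit 496) (nat_lit 435) (nat_lit 269)))) (XT.nd (nat_lit 78) (nat_lit 76) (nat_lit 0) (XT.lf (nat_lit 0) (nat_lit 518888025622) (nat_lit 152) (nat_lit 604679262856) (nat_lit 0) (nat_lit 360400958290) (nat_lit 8) (nat_lit 5) (nat_lit 10) (nat_lit 4) (nat_lit 8) (nat_lit 4) (nat_lit 497) (nat_lit 435) (nat_lit 268)) (XT.nd (nat_lit 78) (nat_lit 76) (nat_lit 0) (XT.lf (nat_lit 0) (nat_lit 779279549180) (nat_lit 152) (nat_lit 184078650111) (nat_lit 0) (nat_lit 620792451094) (nat_lit 8) (nat_lit 5) (nat_lit 10) (nat_lit 4) (nat_lit 8) (nat_lit 4) (nat_lit 498) (nat_lit 435) (nat_lit 267)) (XT.lf (nat_lit 0) (nat_lit 284396501194) (nat_lit 76) (nat_lit 782945549585)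 (nat_lit 76) (nat_lit 624458423024) (nat_lit 7) (nat_lit 4) (nat_lit 8) (nat_lit 5) (nat_lit 8) (nat_lit 4) (nat_lit 499) (nat_lit 435) (nat_lit 266)))))) (XT.nd (nat_lit 468) (nat_lit 76) (nat_lit 0) (XT.nd (nat_lit 234) (nat_lit 76) (nat_lit 0) (XT.nd (nat_lit 78) (nat_lit 76) (nat_lit 0) (XT.lf (nat_lit 0) (nat_lit 800818209720) (nat_lit 76) (nat_lit 582664295061) (nat_lit 76) (nat_lit 424177142134) (nat_lit 7) (nat_lit 4) (nat_lit 8) (nat_lit 5) (nat_lit 8) (nat_lit 4) (nat_lit 500) (nat_lit 435) (nat_lit 265)) (XT.nd (nat_lit 78) (nat_lit 76) (nat_lit 0) (XT.lf (nat_lit 0) (nat_lit 1358553496757) (nat_lit 76) (nat_lit 366360620352) (nat_lit 76) (nat_lit 207873443012) (nat_lit 7) (nat_lit 4) (nat_lit 8) (nat_lit 5) (nat_lit 8) (nat_lit 4) (nat_lit 501) (nat_lit 435) (nat_lit 264)) (XT.lf (nat_lit 0) (nat_lit 24447131425) (nat_lit 152) (nat_lit 107637166579) (nat_lit 76) (nat_lit 1935791900980)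 (nat_lit 6) (nat_lit 5) (nat_lit 8) (nat_lit 5) (nat_lit 7) (nat_lit 4) (nat_lit 502) (nat_lit 435) (nat_lit 263)))) (XT.nd (nat_lit 78) (nat_lit 0) (nat_lit 0) (XT.lf (nat_lit 0) (nat_lit 277324362750) (nat_lit 152) (nat_lit 1804382559286) (nat_lit 0) (nat_lit 130576936014) (nat_lit 5) (nat_lit 5) (nat_lit 7) (nat_lit 4) (nat_lit 5) (nat_lit 4) (nat_lit 503) (nat_lit 435) (nat_lit 262)) (XT.nd (nat_lit 78) (nat_lit 0) (nat_lit 0) (XT.lf (nat_lit 0) (nat_lit 556881897327) (nat_lit 152) (nat_lit 1400711769890) (nat_lit 0) (nat_lit 410134452647) (nat_lit 5) (nat_lit 5) (nat_lit 7) (nat_lit 4) (nat_lit 5) (nat_lit 4) (nat_lit 504) (nat_lit 435) (nat_lit 261)) (XT.lf (nat_lit 0) (nat_lit 858803971294) (nat_lit 152) (nat_lit 964747446402) (nat_lit 0) (nat_lit 712056509998) (nat_lit 5) (nat_lit 5) (nat_lit 7) (nat_lit 4) (nat_lit 5) (nat_lit 4) (nat_lit 505) (nat_lit 435) (nat_lit 260))))) (XT.nd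 (nat_lit 234) (nat_lit 0) (nat_lit 0) (XT.nd (nat_lit 78) (nat_lit 76) (nat_lit 0) (XT.lf (nat_lit 0) (nat_lit 1184879752497) (nat_lit 152) (nat_lit 493906096536) (nat_lit 0) (nat_lit 1038132275817) (nat_lit 5) (nat_lit 5) (nat_lit 7) (nat_lit 4) (nat_lit 5) (nat_lit 4) (nat_lit 506) (nat_lit 435) (nat_lit 259)) (XT.nd (nat_lit 78) (nat_lit 0) (nat_lit 0) (XT.lf (nat_lit 0) (nat_lit 15371389845) (nat_lit 76) (nat_lit 1522039834310) (nat_lit 76) (nat_lit 1375292343385) (nat_lit 4) (nat_lit 4) (nat_lit 5) (nat_lit 5) (nat_lit 5) (nat_lit 4) (nat_lit 507) (nat_lit 435) (nat_lit 258)) (XT.lf (nat_lit 0) (nat_lit 593479844639) (nat_lit 76) (nat_lit 1338169583961) (nat_lit 76) (nat_lit 1191422079846) (nat_lit 4) (nat_lit 4) (nat_lit 5) (nat_lit 5) (nat_lit 5) (nat_lit 4) (nat_lit 508) (nat_lit 435) (nat_lit 257)))) (XT.nd (nat_lit 78) (nat_lit 0) (nat_lit 0) (XT.lf (nat_lit 0) (nat_lit 1217836875958)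 (nat_lit 76) (nat_lit 1139589764456) (nat_lit 76) (nat_lit 992842248129) (nat_lit 4) (nat_lit 4) (nat_lit 5) (nat_lit 5) (nat_lit 5) (nat_lit 4) (nat_lit 509) (nat_lit 435) (nat_lit 256)) (XT.nd (nat_lit 78) (nat_lit 0) (nat_lit 0) (XT.lf (nat_lit 0) (nat_lit 1892142377321) (nat_lit 76) (nat_lit 925123606496) (nat_lit 76) (nat_lit 778376078861) (nat_lit 4) (nat_lit 4) (nat_lit 5) (nat_lit 5) (nat_lit 5) (nat_lit 4) (nat_lit 510) (nat_lit 435) (nat_lit 255)) (XT.lf (nat_lit 0) (nat_lit 2620392233181) (nat_lit 76) (nat_lit 693500199515) (nat_lit 76) (nat_lit 546752661410) (nat_lit 4) (nat_lit 4) (nat_lit 5) (nat_lit 5) (nat_lit 5) (nat_lit 4) (nat_lit 511) (nat_lit 435) (nat_lit 254))))))))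
noncomputable def xc180 : XT := (XT.nd (nat_lit 57252) (nat_lit 0) (nat_lit 2052) (XT.nd (nat_lit 858) (nat_lit 0) (nat_lit 0) (XT.nd (nat_lit 390) (nat_lit 0) (nat_lit 0) (XT.nd (nat_lit 156) (nat_lit 152) (nat_lit 0) (XT.nd (nat_lit 78) (nat_lit 0) (nat_lit 0) (XT.lf (nat_lit 0) (nat_lit 3406901998239) (nat_lit 76) (nat_lit 443346960361) (nat_lit 76) (nat_lit 296599412561) (nat_lit 4) (nat_lit 4) (nat_lit 5) (nat_lit 5) (nat_lit 5) (nat_lit 4) (nat_lit 512) (nat_lit 435) (nat_lit 253)) (XT.lf (nat_lit 0) (nat_lit 4256332471102) (nat_lit 76) (nat_lit 173181499467) (nat_lit 76) (nat_lit 26433942691) (nat_lit 4) (nat_lit 4) (nat_lit 5) (nat_lit 5) (nat_lit 5) (nat_lit 4) (nat_lit 513) (nat_lit 435) (nat_lit 252))) (XT.nd (nat_lit 78) (nat_lit 0) (nat_lit 0) (XT.lf (nat_lit 0) (nat_lit 264895892101) (nat_lit 152) (nat_lit 4394324506000) (nat_lit 0) (nat_lit 129018517019) (nat_lit 2) (nat_lit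 5) (nat_lit 4) (nat_lit 4) (nat_lit 2) (nat_lit 4) (nat_lit 514) (nat_lit 435) (nat_lit 251)) (XT.nd (nat_lit 78) (nat_lit 0) (nat_lit 0) (XT.lf (nat_lit 0) (nat_lit 588201782815) (nat_lit 152) (nat_lit 4105724262947) (nat_lit 0) (nat_lit 452324400607) (nat_lit 2) (nat_lit 5) (nat_lit 4) (nat_lit 4) (nat_lit 2) (nat_lit 4) (nat_lit 515) (nat_lit 435) (nat_lit 250)) (XT.lf (nat_lit 0) (nat_lit 937372113173) (nat_lit 152) (nat_lit 3794036065106) (nat_lit 0) (nat_lit 801494724366) (nat_lit 2) (nat_lit 5) (nat_lit 4) (nat_lit 4) (nat_lit 2) (nat_lit 4) (nat_lit 516) (nat_lit 435) (nat_lit 249))))) (XT.nd (nat_lit 234) (nat_lit 0) (nat_lit 0) (XT.nd (nat_lit 78) (nat_lit 0) (nat_lit 0) (XT.lf (nat_lit 0) (nat_lit 1314476040688) (nat_lit 152) (nat_lit 3457412871305) (nat_lit 0) (nat_lit 1178598645773) (nat_lit 2) (nat_lit 5) (nat_lit 4) (nat_lit 4) (nat_lit 2) (nat_lit 4) (nat_lit 517) (nat_lit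 435) (nat_lit 248)) (XT.nd (nat_lit 78) (nat_lit 0) (nat_lit 0) (XT.lf (nat_lit 0) (nat_lit 1721748255303) (nat_lit 152) (nat_lit 3093859877433) (nat_lit 0) (nat_lit 1585870854731) (nat_lit 2) (nat_lit 5) (nat_lit 4) (nat_lit 4) (nat_lit 2) (nat_lit 4) (nat_lit 518) (nat_lit 435) (nat_lit 247)) (XT.lf (nat_lit 0) (nat_lit 2161602221992) (nat_lit 152) (nat_lit 2701222695377) (nat_lit 0) (nat_lit 2025724816182) (nat_lit 2) (nat_lit 5) (nat_lit 4) (nat_lit 4) (nat_lit 2) (nat_lit 4) (nat_lit 519) (nat_lit 435) (nat_lit 246)))) (XT.nd (nat_lit 78) (nat_lit 0) (nat_lit 0) (XT.lf (nat_lit 0) (nat_lit 2636644482780) (nat_lit 152) (nat_lit 2277174586282) (nat_lit 0) (nat_lit 2500767072120) (nat_lit 2) (nat_lit 5) (nat_lit 4) (nat_lit 4) (nat_lit 2) (nat_lit 4) (nat_lit 520) (nat_lit 435) (nat_lit 245)) (XT.nd (nat_lit 78) (nat_lit 0) (nat_lit 0) (XT.lf (nat_lit 0) (nat_lit 3149690102916) (nat_lit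 152) (nat_lit 1819202672463) (nat_lit 0) (nat_lit 3013812687765) (nat_lit 2) (nat_lit 5) (nat_lit 4) (nat_lit 4) (nat_lit 2) (nat_lit 4) (nat_lit 521) (nat_lit 435) (nat_lit 244)) (XT.lf (nat_lit 0) (nat_lit 3703779352742) (nat_lit 152) (nat_lit 1324593046283) (nat_lit 0) (nat_lit 3567901933433) (nat_lit 2) (nat_lit 5) (nat_lit 4) (nat_lit 4) (nat_lit 2) (nat_lit 4) (nat_lit 522) (nat_lit 435) (nat_lit 243)))))) (XT.nd (nat_lit 55926) (nat_lit 0) (nat_lit 4332) (XT.nd (nat_lit 55692) (nat_lit 0) (nat_lit 5092) (XT.nd (nat_lit 78) (nat_lit 0) (nat_lit 0) (XT.lf (nat_lit 0) (nat_lit 4302195724108) (nat_lit 152) (nat_lit 790414687735) (nat_lit 0) (nat_lit 4166318300950) (nat_lit 2) (nat_lit 5) (nat_lit 4) (nat_lit 4) (nat_lit 2) (nat_lit 4) (nat_lit 523) (nat_lit 435) (nat_lit 242)) (XT.lf (nat_lit 0) (nat_lit 4948485388105) (nat_lit 152) (nat_lit 213502095436) (nat_lit 0) (nat_lit 4812607961382)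 (nat_lit 2) (nat_lit 5) (nat_lit 4) (nat_lit 4) (nat_lit 2) (nat_lit 4) (nat_lit 524) (nat_lit 435) (nat_lit 241))) (XT.nd (nat_lit 78) (nat_lit 0) (nat_lit 0) (XT.lf (nat_lit 0) (nat_lit 29688698809) (nat_lit 532) (nat_lit 1384212914) (nat_lit 532) (nat_lit 1384212914) (nat_lit 69) (nat_lit 3) (nat_lit 76) (nat_lit 3) (nat_lit 76) (nat_lit 5) (nat_lit 436) (nat_lit 436) (nat_lit 328)) (XT.nd (nat_lit 78) (nat_lit 0) (nat_lit 76) (XT.lf (nat_lit 76) (nat_lit 30569931704) (nat_lit 0) (nat_lit 31932348215) (nat_lit 532) (nat_lit 4948546607) (nat_lit 70) (nat_lit 5) (nat_lit 69) (nat_lit 3) (nat_lit 76) (nat_lit 5) (nat_lit 437) (nat_lit 436) (nat_lit 327)) (XT.lf (nat_lit 0) (nat_lit 65970141463) (nat_lit 456) (nat_lit 3471196208) (nat_lit 532) (nat_lit 741554175) (nat_lit 70) (nat_lit 5) (nat_lit 76) (nat_lit 5) (nat_lit 77) (nat_lit 5) (nat_lit 438) (nat_lit 436) (nat_lit 326))))) (XT.nd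 (nat_lit 234) (nat_lit 304) (nat_lit 0) (XT.nd (nat_lit 78) (nat_lit 532) (nat_lit 0) (XT.lf (nat_lit 76) (nat_lit 33454503349) (nat_lit 0) (nat_lit 37893567269) (nat_lit 532) (nat_lit 1654841588) (nat_lit 71) (nat_lit 5) (nat_lit 70) (nat_lit 5) (nat_lit 77) (nat_lit 5) (nat_lit 439) (nat_lit 436) (nat_lit 325)) (XT.nd (nat_lit 78) (nat_lit 0) (nat_lit 76) (XT.lf (nat_lit 0) (nat_lit 1148353012) (nat_lit 532) (nat_lit 2539318150) (nat_lit 608) (nat_lit 72351047415) (nat_lit 63) (nat_lit 5) (nat_lit 70) (nat_lit 5) (nat_lit 71) (nat_lit 5) (nat_lit 440) (nat_lit 436) (nat_lit 324)) (XT.lf (nat_lit 0) (nat_lit 5857169275) (nat_lit 532) (nat_lit 40708453038) (nat_lit 608) (nat_lit 32606667592) (nat_lit 64) (nat_lit 5) (nat_lit 71) (nat_lit 5) (nat_lit 72) (nat_lit 5) (nat_lit 441) (nat_lit 436) (nat_lit 323)))) (XT.nd (nat_lit 78) (nat_lit 380) (nat_lit 0) (XT.lf (nat_lit 76) (nat_lit 254880461)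 (nat_lit 0) (nat_lit 10859821092) (nat_lit 608) (nat_lit 71428085198) (nat_lit 65) (nat_lit 5) (nat_lit 64) (nat_lit 5) (nat_lit 72) (nat_lit 5) (nat_lit 442) (nat_lit 436) (nat_lit 322)) (XT.nd (nat_lit 78) (nat_lit 456) (nat_lit 0) (XT.lf (nat_lit 0) (nat_lit 18599962139) (nat_lit 532) (nat_lit 39979641998) (nat_lit 76) (nat_lit 27458749767) (nat_lit 65) (nat_lit 5) (nat_lit 72) (nat_lit 5) (nat_lit 66) (nat_lit 5) (nat_lit 443) (nat_lit 436) (nat_lit 321)) (XT.lf (nat_lit 0) (nat_lit 5716219954) (nat_lit 456) (nat_lit 21386381254) (nat_lit 532) (nat_lit 62677481184) (nat_lit 59) (nat_lit 5) (nat_lit 65) (nat_lit 5) (nat_lit 66) (nat_lit 5) (nat_lit 444) (nat_lit 436) (nat_lit 320))))))) (XT.nd (nat_lit 858) (nat_lit 1064) (nat_lit 0) (XT.nd (nat_lit 390) (nat_lit 760) (nat_lit 0) (XT.nd (nat_lit 156) (nat_lit 228) (nat_lit 0) (XT.nd (nat_lit 78) (nat_lit 228) (nat_lit 0) (XT.lf (nat_lit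 0) (nat_lit 37857734116) (nat_lit 532) (nat_lit 36873370018) (nat_lit 76) (nat_lit 18964262937) (nat_lit 59) (nat_lit 5) (nat_lit 66) (nat_lit 5) (nat_lit 60) (nat_lit 5) (nat_lit 445) (nat_lit 436) (nat_lit 319)) (XT.lf (nat_lit 0) (nat_lit 14248732928) (nat_lit 228) (nat_lit 36121848185) (nat_lit 304) (nat_lit 47481509626) (nat_lit 56) (nat_lit 5) (nat_lit 59) (nat_lit 5) (nat_lit 60) (nat_lit 5) (nat_lit 446) (nat_lit 436) (nat_lit 318))) (XT.nd (nat_lit 78) (nat_lit 228) (nat_lit 0) (XT.lf (nat_lit 0) (nat_lit 65052104139) (nat_lit 304) (nat_lit 30864324853) (nat_lit 76) (nat_lit 6331511901) (nat_lit 56) (nat_lit 5) (nat_lit 60) (nat_lit 5) (nat_lit 57) (nat_lit 5) (nat_lit 447) (nat_lit 436) (nat_lit 317)) (XT.nd (nat_lit 78) (nat_lit 0) (nat_lit 0) (XT.lf (nat_lit 0) (nat_lit 26479315100) (nat_lit 228) (nat_lit 56003125144) (nat_lit 304) (nat_lit 24387075939) (nat_lit 53) (nat_lit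 5) (nat_lit 56) (nat_lit 5) (nat_lit 57) (nat_lit 5) (nat_lit 448) (nat_lit 436) (nat_lit 316)) (XT.lf (nat_lit 0) (nat_lit 90164861844) (nat_lit 228) (nat_lit 11985495952) (nat_lit 304) (nat_lit 9643007724) (nat_lit 53) (nat_lit 5) (nat_lit 56) (nat_lit 5) (nat_lit 57) (nat_lit 5) (nat_lit 449) (nat_lit 436) (nat_lit 315))))) (XT.nd (nat_lit 234) (nat_lit 304) (nat_lit 0) (XT.nd (nat_lit 78) (nat_lit 228) (nat_lit 0) (XT.lf (nat_lit 0) (nat_lit 7907350131) (nat_lit 228) (nat_lit 74023911929) (nat_lit 76) (nat_lit 35012501656) (nat_lit 50) (nat_lit 5) (nat_lit 53) (nat_lit 5) (nat_lit 51) (nat_lit 5) (nat_lit 450) (nat_lit 436) (nat_lit 314)) (XT.nd (nat_lit 78) (nat_lit 228) (nat_lit 0) (XT.lf (nat_lit 0) (nat_lit 27258130480) (nat_lit 228) (nat_lit 9174783395) (nat_lit 76) (nat_lit 85979853444) (nat_lit 50) (nat_lit 5) (nat_lit 53) (nat_lit 5) (nat_lit 51) (nat_lit 5) (nat_lit 451) (nat_lit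 436) (nat_lit 313)) (XT.lf (nat_lit 0) (nat_lit 50042731957) (nat_lit 304) (nat_lit 64475326294) (nat_lit 76) (nat_lit 13650372549) (nat_lit 47) (nat_lit 5) (nat_lit 51) (nat_lit 5) (nat_lit 48) (nat_lit 5) (nat_lit 452) (nat_lit 436) (nat_lit 312)))) (XT.nd (nat_lit 78) (nat_lit 152) (nat_lit 0) (XT.lf (nat_lit 0) (nat_lit 7993962375) (nat_lit 152) (nat_lit 68051479306) (nat_lit 228) (nat_lit 58227478733) (nat_lit 45) (nat_lit 5) (nat_lit 47) (nat_lit 5) (nat_lit 48) (nat_lit 5) (nat_lit 453) (nat_lit 436) (nat_lit 311)) (XT.nd (nat_lit 78) (nat_lit 152) (nat_lit 0) (XT.lf (nat_lit 0) (nat_lit 89926758607) (nat_lit 152) (nat_lit 15963909118) (nat_lit 228) (nat_lit 34834117755) (nat_lit 45) (nat_lit 5) (nat_lit 47) (nat_lit 5) (nat_lit 48) (nat_lit 5) (nat_lit 454) (nat_lit 436) (nat_lit 310)) (XT.lf (nat_lit 0) (nat_lit 31318271964) (nat_lit 152) (nat_lit 108526903460) (nat_lit 228) (nat_lit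 7709891470) (nat_lit 43) (nat_lit 5) (nat_lit 45) (nat_lit 5) (nat_lit 46) (nat_lit 5) (nat_lit 455) (nat_lit 436) (nat_lit 309)))))) (XT.nd (nat_lit 468) (nat_lit 532) (nat_lit 0) (XT.nd (nat_lit 234) (nat_lit 304) (nat_lit 0) (XT.nd (nat_lit 78) (nat_lit 152) (nat_lit 0) (XT.lf (nat_lit 0) (nat_lit 22343645303) (nat_lit 228) (nat_lit 32898469658) (nat_lit 76) (nat_lit 99500999460) (nat_lit 42) (nat_lit 5) (nat_lit 45) (nat_lit 5) (nat_lit 43) (nat_lit 5) (nat_lit 456) (nat_lit 436) (nat_lit 308)) (XT.nd (nat_lit 78) (nat_lit 0) (nat_lit 0) (XT.lf (nat_lit 0) (nat_lit 55923162134) (nat_lit 228) (nat_lit 102570534650) (nat_lit 76) (nat_lit 3873430073) (nat_lit 40) (nat_lit 5) (nat_lit 43) (nat_lit 5) (nat_lit 41) (nat_lit 5) (nat_lit 457) (nat_lit 436) (nat_lit 307)) (XT.lf (nat_lit 0) (nat_lit 94546293045) (nat_lit 228) (nat_lit 10209844583) (nat_lit 76) (nat_lit 65656342608) (nat_lit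 40) (nat_lit 5) (nat_lit 43) (nat_lit 5) (nat_lit 41) (nat_lit 5) (nat_lit 458) (nat_lit 436) (nat_lit 306)))) (XT.nd (nat_lit 78) (nat_lit 152) (nat_lit 0) (XT.lf (nat_lit 0) (nat_lit 94253976699) (nat_lit 152) (nat_lit 44271669656) (nat_lit 228) (nat_lit 40394505931) (nat_lit 38) (nat_lit 5) (nat_lit 40) (nat_lit 5) (nat_lit 41) (nat_lit 5) (nat_lit 459) (nat_lit 436) (nat_lit 305)) (XT.nd (nat_lit 78) (nat_lit 76) (nat_lit 0) (XT.lf (nat_lit 0) (nat_lit 20058612667) (nat_lit 76) (nat_lit 167239413655) (nat_lit 152) (nat_lit 708437650) (nat_lit 37) (nat_lit 5) (nat_lit 38) (nat_lit 5) (nat_lit 39) (nat_lit 4) (nat_lit 460) (nat_lit 436) (nat_lit 304)) (XT.lf (nat_lit 0) (nat_lit 43568417454) (nat_lit 152) (nat_lit 61882577513) (nat_lit 76) (nat_lit 92005620951) (nat_lit 36) (nat_lit 5) (nat_lit 38) (nat_lit 5) (nat_lit 37) (nat_lit 5) (nat_lit 461) (nat_lit 436) (nat_lit 303))))) (XT.nd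 (nat_lit 234) (nat_lit 304) (nat_lit 0) (XT.nd (nat_lit 78) (nat_lit 76) (nat_lit 0) (XT.lf (nat_lit 0) (nat_lit 55421260527) (nat_lit 152) (nat_lit 37260376720) (nat_lit 228) (nat_lit 114873071584) (nat_lit 34) (nat_lit 5) (nat_lit 36) (nat_lit 5) (nat_lit 37) (nat_lit 5) (nat_lit 462) (nat_lit 436) (nat_lit 302)) (XT.nd (nat_lit 78) (nat_lit 76) (nat_lit 0) (XT.lf (nat_lit 0) (nat_lit 148334528644) (nat_lit 228) (nat_lit 33616247914) (nat_lit 76) (nat_lit 36301023603) (nat_lit 34) (nat_lit 5) (nat_lit 37) (nat_lit 5) (nat_lit 35) (nat_lit 4) (nat_lit 463) (nat_lit 436) (nat_lit 301)) (XT.lf (nat_lit 0) (nat_lit 98332926390) (nat_lit 76) (nat_lit 113439079937) (nat_lit 152) (nat_lit 17766064169) (nat_lit 33) (nat_lit 5) (nat_lit 34) (nat_lit 5) (nat_lit 35) (nat_lit 4) (nat_lit 464) (nat_lit 436) (nat_lit 300)))) (XT.nd (nat_lit 78) (nat_lit 76) (nat_lit 0) (XT.lf (nat_lit 0) (nat_lit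 151917167) (nat_lit 152) (nat_lit 37422834929) (nat_lit 228) (nat_lit 204002602112) (nat_lit 30) (nat_lit 5) (nat_lit 32) (nat_lit 5) (nat_lit 33) (nat_lit 5) (nat_lit 465) (nat_lit 436) (nat_lit 299)) (XT.nd (nat_lit 78) (nat_lit 76) (nat_lit 0) (XT.lf (nat_lit 0) (nat_lit 101137644810) (nat_lit 228) (nat_lit 106443176968) (nat_lit 76) (nat_lit 46581671216) (nat_lit 30) (nat_lit 5) (nat_lit 33) (nat_lit 5) (nat_lit 31) (nat_lit 4) (nat_lit 466) (nat_lit 436) (nat_lit 298)) (XT.lf (nat_lit 0) (nat_lit 40385304452) (nat_lit 76) (nat_lit 131343231806) (nat_lit 152) (nat_lit 95870469310) (nat_lit 29) (nat_lit 5) (nat_lit 30) (nat_lit 5) (nat_lit 31) (nat_lit 4) (nat_lit 467) (nat_lit 436) (nat_lit 297))))))))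
noncomputable def xc181 : XT := (XT.nd (nat_lit 1716) (nat_lit 684) (nat_lit 0) (XT.nd (nat_lit 858) (nat_lit 532) (nat_lit 0) (XT.nd (nat_lit 390) (nat_lit 456) (nat_lit 0) (XT.nd (nat_lit 156) (nat_lit 76) (nat_lit 0) (XT.nd (nat_lit 78) (nat_lit 152) (nat_lit 0) (XT.lf (nat_lit 0) (nat_lit 205013022455) (nat_lit 76) (nat_lit 45863710133) (nat_lit 152) (nat_lit 31000903941) (nat_lit 29) (nat_lit 5) (nat_lit 30) (nat_lit 5) (nat_lit 31) (nat_lit 4) (nat_lit 468) (nat_lit 436) (nat_lit 296)) (XT.lf (nat_lit 0) (nat_lit 40442385662) (nat_lit 152) (nat_lit 209223423382) (nat_lit 76) (nat_lit 47290560101) (nat_lit 27) (nat_lit 5) (nat_lit 29) (nat_lit 5) (nat_lit 28) (nat_lit 4) (nat_lit 469) (nat_lit 436) (nat_lit 295))) (XT.nd (nat_lit 78) (nat_lit 76) (nat_lit 0) (XT.lf (nat_lit 0) (nat_lit 119273459549) (nat_lit 152) (nat_lit 45255210716) (nat_lit 76) (nat_lit 148380538684) (nat_lit 27)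 (nat_lit 5) (nat_lit 29) (nat_lit 5) (nat_lit 28) (nat_lit 4) (nat_lit 470) (nat_lit 436) (nat_lit 294)) (XT.nd (nat_lit 78) (nat_lit 0) (nat_lit 0) (XT.lf (nat_lit 0) (nat_lit 138771893174) (nat_lit 76) (nat_lit 68976322972) (nat_lit 152) (nat_lit 122123084095) (nat_lit 26) (nat_lit 5) (nat_lit 27) (nat_lit 5) (nat_lit 28) (nat_lit 4) (nat_lit 471) (nat_lit 436) (nat_lit 293)) (XT.lf (nat_lit 0) (nat_lit 305393179454) (nat_lit 152) (nat_lit 8852137963) (nat_lit 0) (nat_lit 33777663372) (nat_lit 26) (nat_lit 5) (nat_lit 28) (nat_lit 4) (nat_lit 26) (nat_lit 4) (nat_lit 472) (nat_lit 436) (nat_lit 292))))) (XT.nd (nat_lit 234) (nat_lit 228) (nat_lit 0) (XT.nd (nat_lit 78) (nat_lit 76) (nat_lit 0) (XT.lf (nat_lit 0) (nat_lit 47734549130) (nat_lit 152) (nat_lit 172327963352) (nat_lit 76) (nat_lit 146947218965) (nat_lit 24) (nat_lit 5) (nat_lit 26) (nat_lit 5) (nat_lit 25) (nat_lit 4) (nat_lit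 473) (nat_lit 436) (nat_lit 291)) (XT.nd (nat_lit 78) (nat_lit 0) (nat_lit 0) (XT.lf (nat_lit 0) (nat_lit 27781478879) (nat_lit 76) (nat_lit 116159670621) (nat_lit 152) (nat_lit 243412393816) (nat_lit 23) (nat_lit 5) (nat_lit 24) (nat_lit 5) (nat_lit 25) (nat_lit 4) (nat_lit 474) (nat_lit 436) (nat_lit 290)) (XT.lf (nat_lit 0) (nat_lit 252583300882) (nat_lit 152) (nat_lit 155275782301) (nat_lit 0) (nat_lit 1086655146) (nat_lit 23) (nat_lit 5) (nat_lit 25) (nat_lit 4) (nat_lit 23) (nat_lit 4) (nat_lit 475) (nat_lit 436) (nat_lit 289)))) (XT.nd (nat_lit 78) (nat_lit 152) (nat_lit 0) (XT.lf (nat_lit 0) (nat_lit 65629698682) (nat_lit 76) (nat_lit 308882429589) (nat_lit 76) (nat_lit 57385556390) (nat_lit 22) (nat_lit 4) (nat_lit 23) (nat_lit 5) (nat_lit 23) (nat_lit 4) (nat_lit 476) (nat_lit 436) (nat_lit 288)) (XT.nd (nat_lit 78) (nat_lit 76) (nat_lit 0) (XT.lf (nat_lit 0) (nat_lit 51388373514)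 (nat_lit 152) (nat_lit 144609266903) (nat_lit 76) (nat_lit 260244444958) (nat_lit 21) (nat_lit 5) (nat_lit 23) (nat_lit 5) (nat_lit 22) (nat_lit 4) (nat_lit 477) (nat_lit 436) (nat_lit 287)) (XT.lf (nat_lit 0) (nat_lit 98203764217) (nat_lit 76) (nat_lit 69921737246) (nat_lit 152) (nat_lit 314100366455) (nat_lit 20) (nat_lit 5) (nat_lit 21) (nat_lit 5) (nat_lit 22) (nat_lit 4) (nat_lit 478) (nat_lit 436) (nat_lit 286)))))) (XT.nd (nat_lit 390) (nat_lit 304) (nat_lit 0) (XT.nd (nat_lit 156) (nat_lit 152) (nat_lit 0) (XT.nd (nat_lit 78) (nat_lit 76) (nat_lit 0) (XT.lf (nat_lit 0) (nat_lit 299851043455) (nat_lit 152) (nat_lit 143002328631) (nat_lit 0) (nat_lit 66983025496) (nat_lit 20) (nat_lit 5) (nat_lit 22) (nat_lit 4) (nat_lit 20) (nat_lit 4) (nat_lit 479) (nat_lit 436) (nat_lit 285)) (XT.lf (nat_lit 0) (nat_lit 121563610317) (nat_lit 76) (nat_lit 325290583446) (nat_lit 76) (nat_lit 92422410680)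 (nat_lit 19) (nat_lit 4) (nat_lit 20) (nat_lit 5) (nat_lit 20) (nat_lit 4) (nat_lit 480) (nat_lit 436) (nat_lit 284))) (XT.nd (nat_lit 78) (nat_lit 76) (nat_lit 0) (XT.lf (nat_lit 0) (nat_lit 36828761691) (nat_lit 152) (nat_lit 156264491789) (nat_lit 76) (nat_lit 377591404438) (nat_lit 18) (nat_lit 5) (nat_lit 20) (nat_lit 5) (nat_lit 19) (nat_lit 4) (nat_lit 481) (nat_lit 436) (nat_lit 283)) (XT.nd (nat_lit 78) (nat_lit 0) (nat_lit 0) (XT.lf (nat_lit 0) (nat_lit 130212730614) (nat_lit 76) (nat_lit 44345528733) (nat_lit 152) (nat_lit 429604534391) (nat_lit 17) (nat_lit 5) (nat_lit 18) (nat_lit 5) (nat_lit 19) (nat_lit 4) (nat_lit 482) (nat_lit 436) (nat_lit 282)) (XT.lf (nat_lit 0) (nat_lit 330486530432) (nat_lit 152) (nat_lit 194390734377) (nat_lit 0) (nat_lit 114867482542) (nat_lit 17) (nat_lit 5) (nat_lit 19) (nat_lit 4) (nat_lit 17) (nat_lit 4) (nat_lit 483) (nat_lit 436) (nat_lit 281)))))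 (XT.nd (nat_lit 234) (nat_lit 76) (nat_lit 0) (XT.nd (nat_lit 78) (nat_lit 152) (nat_lit 0) (XT.lf (nat_lit 0) (nat_lit 111983032057) (nat_lit 76) (nat_lit 390750894688) (nat_lit 76) (nat_lit 175131741438) (nat_lit 16) (nat_lit 4) (nat_lit 17) (nat_lit 5) (nat_lit 17) (nat_lit 4) (nat_lit 484) (nat_lit 436) (nat_lit 280)) (XT.nd (nat_lit 78) (nat_lit 152) (nat_lit 0) (XT.lf (nat_lit 0) (nat_lit 453921559761) (nat_lit 76) (nat_lit 240154383721) (nat_lit 76) (nat_lit 24535132916) (nat_lit 16) (nat_lit 4) (nat_lit 17) (nat_lit 5) (nat_lit 17) (nat_lit 4) (nat_lit 485) (nat_lit 436) (nat_lit 279)) (XT.lf (nat_lit 0) (nat_lit 60293341790) (nat_lit 76) (nat_lit 72356986538) (nat_lit 152) (nat_lit 629584074115) (nat_lit 14) (nat_lit 5) (nat_lit 15) (nat_lit 5) (nat_lit 16) (nat_lit 4) (nat_lit 486) (nat_lit 436) (nat_lit 278)))) (XT.nd (nat_lit 78) (nat_lit 76) (nat_lit 0) (XT.lf (nat_lit 0) (nat_lit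 311128185438) (nat_lit 152) (nat_lit 385884409668) (nat_lit 0) (nat_lit 111480569909) (nat_lit 14) (nat_lit 5) (nat_lit 16) (nat_lit 4) (nat_lit 14) (nat_lit 4) (nat_lit 487) (nat_lit 436) (nat_lit 277)) (XT.nd (nat_lit 78) (nat_lit 76) (nat_lit 0) (XT.lf (nat_lit 0) (nat_lit 505763534625) (nat_lit 152) (nat_lit 46422905507) (nat_lit 0) (nat_lit 306115847390) (nat_lit 14) (nat_lit 5) (nat_lit 16) (nat_lit 4) (nat_lit 14) (nat_lit 4) (nat_lit 488) (nat_lit 436) (nat_lit 276)) (XT.lf (nat_lit 0) (nat_lit 337056177929) (nat_lit 76) (nat_lit 387019614540) (nat_lit 76) (nat_lit 187371860911) (nat_lit 13) (nat_lit 4) (nat_lit 14) (nat_lit 5) (nat_lit 14) (nat_lit 4) (nat_lit 489) (nat_lit 436) (nat_lit 275))))))) (XT.nd (nat_lit 858) (nat_lit 228) (nat_lit 0) (XT.nd (nat_lit 390) (nat_lit 228) (nat_lit 0) (XT.nd (nat_lit 156) (nat_lit 76) (nat_lit 0) (XT.nd (nat_lit 78) (nat_lit 152) (nat_lit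 0) (XT.lf (nat_lit 0) (nat_lit 753853450133) (nat_lit 76) (nat_lit 207268740362) (nat_lit 76) (nat_lit 7620925256) (nat_lit 13) (nat_lit 4) (nat_lit 14) (nat_lit 5) (nat_lit 14) (nat_lit 4) (nat_lit 490) (nat_lit 436) (nat_lit 274)) (XT.lf (nat_lit 0) (nat_lit 177779742243) (nat_lit 76) (nat_lit 3675841540) (nat_lit 152) (nat_lit 848465746502) (nat_lit 11) (nat_lit 5) (nat_lit 12) (nat_lit 5) (nat_lit 13) (nat_lit 4) (nat_lit 491) (nat_lit 436) (nat_lit 273))) (XT.nd (nat_lit 78) (nat_lit 76) (nat_lit 0) (XT.lf (nat_lit 0) (nat_lit 396474164270) (nat_lit 152) (nat_lit 486990613039) (nat_lit 0) (nat_lit 211614974702) (nat_lit 11) (nat_lit 5) (nat_lit 13) (nat_lit 4) (nat_lit 11) (nat_lit 4) (nat_lit 492) (nat_lit 436) (nat_lit 272)) (XT.nd (nat_lit 78) (nat_lit 76) (nat_lit 0) (XT.lf (nat_lit 0) (nat_lit 628789598090) (nat_lit 152) (nat_lit 92723256704) (nat_lit 0) (nat_lit 443930363335)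 (nat_lit 11) (nat_lit 5) (nat_lit 13) (nat_lit 4) (nat_lit 11) (nat_lit 4) (nat_lit 493) (nat_lit 436) (nat_lit 271)) (XT.lf (nat_lit 0) (nat_lit 350624964975) (nat_lit 76) (nat_lit 537497739084) (nat_lit 76) (nat_lit 352638462488) (nat_lit 10) (nat_lit 4) (nat_lit 11) (nat_lit 5) (nat_lit 11) (nat_lit 4) (nat_lit 494) (nat_lit 436) (nat_lit 270))))) (XT.nd (nat_lit 234) (nat_lit 76) (nat_lit 0) (XT.nd (nat_lit 78) (nat_lit 152) (nat_lit 0) (XT.lf (nat_lit 0) (nat_lit 834714099373) (nat_lit 76) (nat_lit 336023478623) (nat_lit 76) (nat_lit 151164163288) (nat_lit 10) (nat_lit 4) (nat_lit 11) (nat_lit 5) (nat_lit 11) (nat_lit 4) (nat_lit 495) (nat_lit 436) (nat_lit 269)) (XT.nd (nat_lit 78) (nat_lit 76) (nat_lit 0) (XT.lf (nat_lit 0) (nat_lit 63104984523) (nat_lit 152) (nat_lit 53600983398) (nat_lit 76) (nat_lit 1292699793829) (nat_lit 9) (nat_lit 5) (nat_lit 11) (nat_lit 5) (nat_lit 10) (nat_lit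 4) (nat_lit 496) (nat_lit 436) (nat_lit 268)) (XT.lf (nat_lit 0) (nat_lit 300009274010) (nat_lit 152) (nat_lit 1073650713089) (nat_lit 0) (nat_lit 128843177325) (nat_lit 8) (nat_lit 5) (nat_lit 10) (nat_lit 4) (nat_lit 8) (nat_lit 4) (nat_lit 497) (nat_lit 436) (nat_lit 267)))) (XT.nd (nat_lit 78) (nat_lit 76) (nat_lit 0) (XT.lf (nat_lit 0) (nat_lit 560400755964) (nat_lit 152) (nat_lit 653050184604) (nat_lit 0) (nat_lit 389234630803) (nat_lit 8) (nat_lit 5) (nat_lit 10) (nat_lit 4) (nat_lit 8) (nat_lit 4) (nat_lit 498) (nat_lit 436) (nat_lit 266)) (XT.nd (nat_lit 78) (nat_lit 76) (nat_lit 0) (XT.lf (nat_lit 0) (nat_lit 841623476348) (nat_lit 152) (nat_lit 198801776119) (nat_lit 0) (nat_lit 670457324821) (nat_lit 8) (nat_lit 5) (nat_lit 10) (nat_lit 4) (nat_lit 8) (nat_lit 4) (nat_lit 499) (nat_lit 436) (nat_lit 265)) (XT.lf (nat_lit 0) (nat_lit 307151307139) (nat_lit 76) (nat_lit 845579629356)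 (nat_lit 76) (nat_lit 674413453416) (nat_lit 7) (nat_lit 4) (nat_lit 8) (nat_lit 5) (nat_lit 8) (nat_lit 4) (nat_lit 500) (nat_lit 436) (nat_lit 264)))))) (XT.nd (nat_lit 468) (nat_lit 76) (nat_lit 0) (XT.nd (nat_lit 234) (nat_lit 76) (nat_lit 0) (XT.nd (nat_lit 78) (nat_lit 76) (nat_lit 0) (XT.lf (nat_lit 0) (nat_lit 864886523765) (nat_lit 76) (nat_lit 629275990337) (nat_lit 76) (nat_lit 458109791792) (nat_lit 7) (nat_lit 4) (nat_lit 8) (nat_lit 5) (nat_lit 8) (nat_lit 4) (nat_lit 501) (nat_lit 436) (nat_lit 263)) (XT.nd (nat_lit 78) (nat_lit 76) (nat_lit 0) (XT.lf (nat_lit 0) (nat_lit 1467240422116) (nat_lit 76) (nat_lit 395668128934) (nat_lit 76) (nat_lit 224501909459) (nat_lit 7) (nat_lit 4) (nat_lit 8) (nat_lit 5) (nat_lit 8) (nat_lit 4) (nat_lit 502) (nat_lit 436) (nat_lit 262)) (XT.lf (nat_lit 0) (nat_lit 26404141300) (nat_lit 152) (nat_lit 116245624949) (nat_lit 76) (nat_lit 2090656429457)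 (nat_lit 6) (nat_lit 5) (nat_lit 8) (nat_lit 5) (nat_lit 7) (nat_lit 4) (nat_lit 503) (nat_lit 436) (nat_lit 261)))) (XT.nd (nat_lit 78) (nat_lit 0) (nat_lit 0) (XT.lf (nat_lit 0) (nat_lit 299511548217) (nat_lit 152) (nat_lit 1948730646115) (nat_lit 0) (nat_lit 141024273403) (nat_lit 5) (nat_lit 5) (nat_lit 7) (nat_lit 4) (nat_lit 5) (nat_lit 4) (nat_lit 504) (nat_lit 436) (nat_lit 260)) (XT.nd (nat_lit 78) (nat_lit 0) (nat_lit 0) (XT.lf (nat_lit 0) (nat_lit 601433593972) (nat_lit 152) (nat_lit 1512766380079) (nat_lit 0) (nat_lit 442946303773) (nat_lit 5) (nat_lit 5) (nat_lit 7) (nat_lit 4) (nat_lit 5) (nat_lit 4) (nat_lit 505) (nat_lit 436) (nat_lit 259)) (XT.lf (nat_lit 0) (nat_lit 927509349052) (nat_lit 152) (nat_lit 1041925083409) (nat_lit 0) (nat_lit 769022044608) (nat_lit 5) (nat_lit 5) (nat_lit 7) (nat_lit 4) (nat_lit 5) (nat_lit 4) (nat_lit 506) (nat_lit 436) (nat_lit 258))))) (XT.nd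 (nat_lit 234) (nat_lit 0) (nat_lit 0) (XT.nd (nat_lit 78) (nat_lit 76) (nat_lit 0) (XT.lf (nat_lit 0) (nat_lit 1279671114228) (nat_lit 152) (nat_lit 533416585457) (nat_lit 0) (nat_lit 1121183796595) (nat_lit 5) (nat_lit 5) (nat_lit 7) (nat_lit 4) (nat_lit 5) (nat_lit 4) (nat_lit 507) (nat_lit 436) (nat_lit 257)) (XT.nd (nat_lit 78) (nat_lit 0) (nat_lit 0) (XT.lf (nat_lit 0) (nat_lit 16603049232) (nat_lit 76) (nat_lit 1643802028536) (nat_lit 76) (nat_lit 1485314698690) (nat_lit 4) (nat_lit 4) (nat_lit 5) (nat_lit 5) (nat_lit 5) (nat_lit 4) (nat_lit 508) (nat_lit 436) (nat_lit 256)) (XT.lf (nat_lit 0) (nat_lit 640960036098) (nat_lit 76) (nat_lit 1445222231678) (nat_lit 76) (nat_lit 1286734890524) (nat_lit 4) (nat_lit 4) (nat_lit 5) (nat_lit 5) (nat_lit 5) (nat_lit 4) (nat_lit 509) (nat_lit 436) (nat_lit 255)))) (XT.nd (nat_lit 78) (nat_lit 0) (nat_lit 0) (XT.lf (nat_lit 0) (nat_lit 1315265496302)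 (nat_lit 76) (nat_lit 1230756094687) (nat_lit 76) (nat_lit 1072268743063) (nat_lit 4) (nat_lit 4) (nat_lit 5) (nat_lit 5) (nat_lit 5) (nat_lit 4) (nat_lit 510) (nat_lit 436) (nat_lit 254)) (XT.nd (nat_lit 78) (nat_lit 0) (nat_lit 0) (XT.lf (nat_lit 0) (nat_lit 2043515314050) (nat_lit 76) (nat_lit 999132707122) (nat_lit 76) (nat_lit 840645345803) (nat_lit 4) (nat_lit 4) (nat_lit 5) (nat_lit 5) (nat_lit 5) (nat_lit 4) (nat_lit 511) (nat_lit 436) (nat_lit 253)) (XT.lf (nat_lit 0) (nat_lit 2830025043820) (nat_lit 76) (nat_lit 748979485945) (nat_lit 76) (nat_lit 590492115650) (nat_lit 4) (nat_lit 4) (nat_lit 5) (nat_lit 5) (nat_lit 5) (nat_lit 4) (nat_lit 512) (nat_lit 436) (nat_lit 252))))))))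
noncomputable def xc182 : XT := (XT.nd (nat_lit 57330) (nat_lit 0) (nat_lit 2052) (XT.nd (nat_lit 858) (nat_lit 0) (nat_lit 0) (XT.nd (nat_lit 390) (nat_lit 0) (nat_lit 0) (XT.nd (nat_lit 156) (nat_lit 152) (nat_lit 0) (XT.nd (nat_lit 78) (nat_lit 0) (nat_lit 0) (XT.lf (nat_lit 0) (nat_lit 3679455484009) (nat_lit 76) (nat_lit 478814041698) (nat_lit 76) (nat_lit 320326663091) (nat_lit 4) (nat_lit 4) (nat_lit 5) (nat_lit 5) (nat_lit 5) (nat_lit 4) (nat_lit 513) (nat_lit 436) (nat_lit 251)) (XT.lf (nat_lit 0) (nat_lit 4596840296486) (nat_lit 76) (nat_lit 187035393969) (nat_lit 76) (nat_lit 28548007666) (nat_lit 4) (nat_lit 4) (nat_lit 5) (nat_lit 5) (nat_lit 5) (nat_lit 4) (nat_lit 514) (nat_lit 436) (nat_lit 250))) (XT.nd (nat_lit 78) (nat_lit 0) (nat_lit 0) (XT.lf (nat_lit 0) (nat_lit 286088180215) (nat_lit 152) (nat_lit 4745869205054) (nat_lit 0) (nat_lit 139340593706) (nat_lit 2) (nat_lit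 5) (nat_lit 4) (nat_lit 4) (nat_lit 2) (nat_lit 4) (nat_lit 515) (nat_lit 436) (nat_lit 249)) (XT.nd (nat_lit 78) (nat_lit 0) (nat_lit 0) (XT.lf (nat_lit 0) (nat_lit 635258496500) (nat_lit 152) (nat_lit 4434181035995) (nat_lit 0) (nat_lit 488510903882) (nat_lit 2) (nat_lit 5) (nat_lit 4) (nat_lit 4) (nat_lit 2) (nat_lit 4) (nat_lit 516) (nat_lit 436) (nat_lit 248)) (XT.lf (nat_lit 0) (nat_lit 1012362410986) (nat_lit 152) (nat_lit 4097557868844) (nat_lit 0) (nat_lit 865614812711) (nat_lit 2) (nat_lit 5) (nat_lit 4) (nat_lit 4) (nat_lit 2) (nat_lit 4) (nat_lit 517) (nat_lit 436) (nat_lit 247))))) (XT.nd (nat_lit 234) (nat_lit 0) (nat_lit 0) (XT.nd (nat_lit 78) (nat_lit 0) (nat_lit 0) (XT.lf (nat_lit 0) (nat_lit 1419634613536) (nat_lit 152) (nat_lit 3734004899648) (nat_lit 0) (nat_lit 1272887010023) (nat_lit 2) (nat_lit 5) (nat_lit 4) (nat_lit 4) (nat_lit 2) (nat_lit 4) (nat_lit 518) (nat_lit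 436) (nat_lit 246)) (XT.nd (nat_lit 78) (nat_lit 0) (nat_lit 0) (XT.lf (nat_lit 0) (nat_lit 1859488569053) (nat_lit 152) (nat_lit 3341367740441) (nat_lit 0) (nat_lit 1712740960691) (nat_lit 2) (nat_lit 5) (nat_lit 4) (nat_lit 4) (nat_lit 2) (nat_lit 4) (nat_lit 519) (nat_lit 436) (nat_lit 245)) (XT.lf (nat_lit 0) (nat_lit 2334530819497) (nat_lit 152) (nat_lit 2917319652501) (nat_lit 0) (nat_lit 2187783206644) (nat_lit 2) (nat_lit 5) (nat_lit 4) (nat_lit 4) (nat_lit 2) (nat_lit 4) (nat_lit 520) (nat_lit 436) (nat_lit 244)))) (XT.nd (nat_lit 78) (nat_lit 0) (nat_lit 0) (XT.lf (nat_lit 0) (nat_lit 2847576430056) (nat_lit 152) (nat_lit 2459347758271) (nat_lit 0) (nat_lit 2700828813045) (nat_lit 2) (nat_lit 5) (nat_lit 4) (nat_lit 4) (nat_lit 2) (nat_lit 4) (nat_lit 521) (nat_lit 436) (nat_lit 243)) (XT.nd (nat_lit 78) (nat_lit 0) (nat_lit 0) (XT.lf (nat_lit 0) (nat_lit 3401665671014) (nat_lit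 152) (nat_lit 1964738150229) (nat_lit 0) (nat_lit 3254918050153) (nat_lit 2) (nat_lit 5) (nat_lit 4) (nat_lit 4) (nat_lit 2) (nat_lit 4) (nat_lit 522) (nat_lit 436) (nat_lit 242)) (XT.lf (nat_lit 0) (nat_lit 4000082034169) (nat_lit 152) (nat_lit 1430559808476) (nat_lit 0) (nat_lit 3853334409744) (nat_lit 2) (nat_lit 5) (nat_lit 4) (nat_lit 4) (nat_lit 2) (nat_lit 4) (nat_lit 523) (nat_lit 436) (nat_lit 241)))))) (XT.nd (nat_lit 56004) (nat_lit 0) (nat_lit 4332) (XT.nd (nat_lit 55770) (nat_lit 0) (nat_lit 5092) (XT.nd (nat_lit 55692) (nat_lit 0) (nat_lit 5092) (XT.lf (nat_lit 0) (nat_lit 4646371690563) (nat_lit 152) (nat_lit 853647231727) (nat_lit 0) (nat_lit 4499624062836) (nat_lit 2) (nat_lit 5) (nat_lit 4) (nat_lit 4) (nat_lit 2) (nat_lit 4) (nat_lit 524) (nat_lit 436) (nat_lit 240)) (XT.lf (nat_lit 0) (nat_lit 32078022897) (nat_lit 532) (nat_lit 1487261942) (nat_lit 532) (nat_lit 1487261942)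 (nat_lit 69) (nat_lit 3) (nat_lit 76) (nat_lit 3) (nat_lit 76) (nat_lit 5) (nat_lit 437) (nat_lit 437) (nat_lit 326))) (XT.nd (nat_lit 78) (nat_lit 0) (nat_lit 76) (XT.lf (nat_lit 76) (nat_lit 33030512984) (nat_lit 0) (nat_lit 34498658248) (nat_lit 532) (nat_lit 5315566977) (nat_lit 70) (nat_lit 5) (nat_lit 69) (nat_lit 3) (nat_lit 76) (nat_lit 5) (nat_lit 438) (nat_lit 437) (nat_lit 325)) (XT.nd (nat_lit 78) (nat_lit 0) (nat_lit 0) (XT.lf (nat_lit 0) (nat_lit 71272222225) (nat_lit 456) (nat_lit 3732759403) (nat_lit 532) (nat_lit 790567598) (nat_lit 70) (nat_lit 5) (nat_lit 76) (nat_lit 5) (nat_lit 77) (nat_lit 5) (nat_lit 439) (nat_lit 437) (nat_lit 324)) (XT.lf (nat_lit 76) (nat_lit 36146587702) (nat_lit 0) (nat_lit 40932363624) (nat_lit 532) (nat_lit 1762335855) (nat_lit 71) (nat_lit 5) (nat_lit 70) (nat_lit 5) (nat_lit 77) (nat_lit 5) (nat_lit 440) (nat_lit 437) (nat_lit 323))))) (XT.nd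 (nat_lit 234) (nat_lit 304) (nat_lit 0) (XT.nd (nat_lit 78) (nat_lit 0) (nat_lit 76) (XT.lf (nat_lit 0) (nat_lit 1262117372) (nat_lit 532) (nat_lit 2726738225) (nat_lit 608) (nat_lit 78131195748) (nat_lit 63) (nat_lit 5) (nat_lit 70) (nat_lit 5) (nat_lit 71) (nat_lit 5) (nat_lit 441) (nat_lit 437) (nat_lit 322)) (XT.nd (nat_lit 78) (nat_lit 0) (nat_lit 0) (XT.lf (nat_lit 0) (nat_lit 6346257783) (nat_lit 532) (nat_lit 43948010688) (nat_lit 608) (nat_lit 35210151366) (nat_lit 64) (nat_lit 5) (nat_lit 71) (nat_lit 5) (nat_lit 72) (nat_lit 5) (nat_lit 442) (nat_lit 437) (nat_lit 321)) (XT.lf (nat_lit 76) (nat_lit 291956109) (nat_lit 0) (nat_lit 11731318187) (nat_lit 608) (nat_lit 77121372495) (nat_lit 65) (nat_lit 5) (nat_lit 64) (nat_lit 5) (nat_lit 72) (nat_lit 5) (nat_lit 443) (nat_lit 437) (nat_lit 320)))) (XT.nd (nat_lit 78) (nat_lit 456) (nat_lit 0) (XT.lf (nat_lit 0) (nat_lit 20105858564)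 (nat_lit 532) (nat_lit 43161056579) (nat_lit 76) (nat_lit 29653064775) (nat_lit 65) (nat_lit 5) (nat_lit 72) (nat_lit 5) (nat_lit 66) (nat_lit 5) (nat_lit 444) (nat_lit 437) (nat_lit 319)) (XT.nd (nat_lit 78) (nat_lit 0) (nat_lit 0) (XT.lf (nat_lit 0) (nat_lit 6190045043) (nat_lit 456) (nat_lit 23097735316) (nat_lit 532) (nat_lit 67673341362) (nat_lit 59) (nat_lit 5) (nat_lit 65) (nat_lit 5) (nat_lit 66) (nat_lit 5) (nat_lit 445) (nat_lit 437) (nat_lit 318)) (XT.lf (nat_lit 0) (nat_lit 40902056908) (nat_lit 532) (nat_lit 39806660525) (nat_lit 76) (nat_lit 20481013813) (nat_lit 59) (nat_lit 5) (nat_lit 66) (nat_lit 5) (nat_lit 60) (nat_lit 5) (nat_lit 446) (nat_lit 437) (nat_lit 317))))))) (XT.nd (nat_lit 858) (nat_lit 988) (nat_lit 0) (XT.nd (nat_lit 390) (nat_lit 608) (nat_lit 0) (XT.nd (nat_lit 156) (nat_lit 456) (nat_lit 0) (XT.nd (nat_lit 78) (nat_lit 0) (nat_lit 0) (XT.lf (nat_lit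 0) (nat_lit 15404790933) (nat_lit 228) (nat_lit 39010366100) (nat_lit 304) (nat_lit 51263898400) (nat_lit 56) (nat_lit 5) (nat_lit 59) (nat_lit 5) (nat_lit 60) (nat_lit 5) (nat_lit 447) (nat_lit 437) (nat_lit 316)) (XT.lf (nat_lit 0) (nat_lit 70270123407) (nat_lit 304) (nat_lit 33317422364) (nat_lit 76) (nat_lit 6839114717) (nat_lit 56) (nat_lit 5) (nat_lit 60) (nat_lit 5) (nat_lit 57) (nat_lit 5) (nat_lit 448) (nat_lit 437) (nat_lit 315))) (XT.nd (nat_lit 78) (nat_lit 228) (nat_lit 0) (XT.lf (nat_lit 0) (nat_lit 28613302495) (nat_lit 228) (nat_lit 60480934105) (nat_lit 304) (nat_lit 26323777748) (nat_lit 53) (nat_lit 5) (nat_lit 56) (nat_lit 5) (nat_lit 57) (nat_lit 5) (nat_lit 449) (nat_lit 437) (nat_lit 314)) (XT.nd (nat_lit 78) (nat_lit 228) (nat_lit 0) (XT.lf (nat_lit 0) (nat_lit 97392534298) (nat_lit 228) (nat_lit 12942075396) (nat_lit 304) (nat_lit 10401240688) (nat_lit 53) (nat_lit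 5) (nat_lit 56) (nat_lit 5) (nat_lit 57) (nat_lit 5) (nat_lit 450) (nat_lit 437) (nat_lit 313)) (XT.lf (nat_lit 0) (nat_lit 8551978026) (nat_lit 228) (nat_lit 79930161984) (nat_lit 76) (nat_lit 37816156024) (nat_lit 50) (nat_lit 5) (nat_lit 53) (nat_lit 5) (nat_lit 51) (nat_lit 5) (nat_lit 451) (nat_lit 437) (nat_lit 312))))) (XT.nd (nat_lit 234) (nat_lit 228) (nat_lit 0) (XT.nd (nat_lit 78) (nat_lit 380) (nat_lit 0) (XT.lf (nat_lit 0) (nat_lit 29449928959) (nat_lit 228) (nat_lit 9894263382) (nat_lit 76) (nat_lit 92860699345) (nat_lit 50) (nat_lit 5) (nat_lit 53) (nat_lit 5) (nat_lit 51) (nat_lit 5) (nat_lit 452) (nat_lit 437) (nat_lit 311)) (XT.nd (nat_lit 78) (nat_lit 152) (nat_lit 0) (XT.lf (nat_lit 0) (nat_lit 54056896267) (nat_lit 304) (nat_lit 69618442635) (nat_lit 76) (nat_lit 14745701911) (nat_lit 47) (nat_lit 5) (nat_lit 51) (nat_lit 5) (nat_lit 48) (nat_lit 5) (nat_lit 453) (nat_lit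 437) (nat_lit 310)) (XT.lf (nat_lit 0) (nat_lit 8648011666) (nat_lit 152) (nat_lit 73491364624) (nat_lit 228) (nat_lit 62874549380) (nat_lit 45) (nat_lit 5) (nat_lit 47) (nat_lit 5) (nat_lit 48) (nat_lit 5) (nat_lit 454) (nat_lit 437) (nat_lit 309)))) (XT.nd (nat_lit 78) (nat_lit 228) (nat_lit 0) (XT.lf (nat_lit 0) (nat_lit 97134355129) (nat_lit 152) (nat_lit 17237102379) (nat_lit 228) (nat_lit 37610543794) (nat_lit 45) (nat_lit 5) (nat_lit 47) (nat_lit 5) (nat_lit 48) (nat_lit 5) (nat_lit 455) (nat_lit 437) (nat_lit 308)) (XT.nd (nat_lit 78) (nat_lit 76) (nat_lit 0) (XT.lf (nat_lit 0) (nat_lit 33837504622) (nat_lit 152) (nat_lit 117204533274) (nat_lit 228) (nat_lit 8316690671) (nat_lit 43) (nat_lit 5) (nat_lit 45) (nat_lit 5) (nat_lit 46) (nat_lit 5) (nat_lit 456) (nat_lit 437) (nat_lit 307)) (XT.lf (nat_lit 0) (nat_lit 24139926067) (nat_lit 228) (nat_lit 35517130315) (nat_lit 76) (nat_lit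 107464800801) (nat_lit 42) (nat_lit 5) (nat_lit 45) (nat_lit 5) (nat_lit 43) (nat_lit 5) (nat_lit 457) (nat_lit 437) (nat_lit 306)))))) (XT.nd (nat_lit 468) (nat_lit 380) (nat_lit 0) (XT.nd (nat_lit 234) (nat_lit 304) (nat_lit 0) (XT.nd (nat_lit 78) (nat_lit 152) (nat_lit 0) (XT.lf (nat_lit 0) (nat_lit 60405569665) (nat_lit 228) (nat_lit 110762722907) (nat_lit 76) (nat_lit 4187517050) (nat_lit 40) (nat_lit 5) (nat_lit 43) (nat_lit 5) (nat_lit 41) (nat_lit 5) (nat_lit 458) (nat_lit 437) (nat_lit 305)) (XT.nd (nat_lit 78) (nat_lit 152) (nat_lit 0) (XT.lf (nat_lit 0) (nat_lit 102117917377) (nat_lit 228) (nat_lit 11014174265) (nat_lit 76) (nat_lit 70912750546) (nat_lit 40) (nat_lit 5) (nat_lit 43) (nat_lit 5) (nat_lit 41) (nat_lit 5) (nat_lit 459) (nat_lit 437) (nat_lit 304)) (XT.lf (nat_lit 0) (nat_lit 101806437330) (nat_lit 152) (nat_lit 47808886917) (nat_lit 228) (nat_lit 43617827539) (nat_lit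 38) (nat_lit 5) (nat_lit 40) (nat_lit 5) (nat_lit 41) (nat_lit 5) (nat_lit 460) (nat_lit 437) (nat_lit 303)))) (XT.nd (nat_lit 78) (nat_lit 228) (nat_lit 0) (XT.lf (nat_lit 0) (nat_lit 21675628075) (nat_lit 76) (nat_lit 180613698656) (nat_lit 152) (nat_lit 757055298) (nat_lit 37) (nat_lit 5) (nat_lit 38) (nat_lit 5) (nat_lit 39) (nat_lit 4) (nat_lit 461) (nat_lit 437) (nat_lit 302)) (XT.nd (nat_lit 78) (nat_lit 152) (nat_lit 0) (XT.lf (nat_lit 0) (nat_lit 47060978167) (nat_lit 152) (nat_lit 66821395127) (nat_lit 76) (nat_lit 99370202859) (nat_lit 36) (nat_lit 5) (nat_lit 38) (nat_lit 5) (nat_lit 37) (nat_lit 5) (nat_lit 462) (nat_lit 437) (nat_lit 301)) (XT.lf (nat_lit 0) (nat_lit 59866451512) (nat_lit 152) (nat_lit 40236555383) (nat_lit 228) (nat_lit 124055529647) (nat_lit 34) (nat_lit 5) (nat_lit 36) (nat_lit 5) (nat_lit 37) (nat_lit 5) (nat_lit 463) (nat_lit 437) (nat_lit 300))))) (XT.nd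 (nat_lit 234) (nat_lit 76) (nat_lit 0) (XT.nd (nat_lit 78) (nat_lit 304) (nat_lit 0) (XT.lf (nat_lit 0) (nat_lit 160207726617) (nat_lit 228) (nat_lit 36294503978) (nat_lit 76) (nat_lit 39209196963) (nat_lit 34) (nat_lit 5) (nat_lit 37) (nat_lit 5) (nat_lit 35) (nat_lit 4) (nat_lit 464) (nat_lit 437) (nat_lit 299)) (XT.nd (nat_lit 78) (nat_lit 228) (nat_lit 0) (XT.lf (nat_lit 0) (nat_lit 106210324682) (nat_lit 76) (nat_lit 122509659995) (nat_lit 152) (nat_lit 19180632401) (nat_lit 33) (nat_lit 5) (nat_lit 34) (nat_lit 5) (nat_lit 35) (nat_lit 4) (nat_lit 465) (nat_lit 437) (nat_lit 298)) (XT.lf (nat_lit 0) (nat_lit 174891182) (nat_lit 152) (nat_lit 40412009555) (nat_lit 228) (nat_lit 220316146932) (nat_lit 30) (nat_lit 5) (nat_lit 32) (nat_lit 5) (nat_lit 33) (nat_lit 5) (nat_lit 466) (nat_lit 437) (nat_lit 297)))) (XT.nd (nat_lit 78) (nat_lit 76) (nat_lit 0) (XT.lf (nat_lit 0) (nat_lit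 109234471541) (nat_lit 228) (nat_lit 114948257392) (nat_lit 76) (nat_lit 50312296995) (nat_lit 30) (nat_lit 5) (nat_lit 33) (nat_lit 5) (nat_lit 31) (nat_lit 4) (nat_lit 467) (nat_lit 437) (nat_lit 296)) (XT.nd (nat_lit 78) (nat_lit 0) (nat_lit 0) (XT.lf (nat_lit 0) (nat_lit 43626239916) (nat_lit 76) (nat_lit 141846206809) (nat_lit 152) (nat_lit 103534027883) (nat_lit 29) (nat_lit 5) (nat_lit 30) (nat_lit 5) (nat_lit 31) (nat_lit 4) (nat_lit 468) (nat_lit 437) (nat_lit 295)) (XT.lf (nat_lit 0) (nat_lit 221423426388) (nat_lit 76) (nat_lit 49528655517) (nat_lit 152) (nat_lit 33475347580) (nat_lit 29) (nat_lit 5) (nat_lit 30) (nat_lit 5) (nat_lit 31) (nat_lit 4) (nat_lit 469) (nat_lit 437) (nat_lit 294))))))))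
noncomputable def xc183 : XT := (XT.nd (nat_lit 1794) (nat_lit 532) (nat_lit 0) (XT.nd (nat_lit 858) (nat_lit 684) (nat_lit 0) (XT.nd (nat_lit 390) (nat_lit 304) (nat_lit 0) (XT.nd (nat_lit 156) (nat_lit 228) (nat_lit 0) (XT.nd (nat_lit 78) (nat_lit 0) (nat_lit 0) (XT.lf (nat_lit 0) (nat_lit 43683055199) (nat_lit 152) (nat_lit 225951583143) (nat_lit 76) (nat_lit 51077817089) (nat_lit 27) (nat_lit 5) (nat_lit 29) (nat_lit 5) (nat_lit 28) (nat_lit 4) (nat_lit 470) (nat_lit 437) (nat_lit 293)) (XT.lf (nat_lit 0) (nat_lit 128820223983) (nat_lit 152) (nat_lit 48866633027) (nat_lit 76) (nat_lit 160254696760) (nat_lit 27) (nat_lit 5) (nat_lit 29) (nat_lit 5) (nat_lit 28) (nat_lit 4) (nat_lit 471) (nat_lit 437) (nat_lit 292))) (XT.nd (nat_lit 78) (nat_lit 152) (nat_lit 0) (XT.lf (nat_lit 0) (nat_lit 149882411464) (nat_lit 76) (nat_lit 74490398437) (nat_lit 152) (nat_lit 131887814627) (nat_lit 26)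 (nat_lit 5) (nat_lit 27) (nat_lit 5) (nat_lit 28) (nat_lit 4) (nat_lit 472) (nat_lit 437) (nat_lit 291)) (XT.nd (nat_lit 78) (nat_lit 152) (nat_lit 0) (XT.lf (nat_lit 0) (nat_lit 329829109174) (nat_lit 152) (nat_lit 9551929706) (nat_lit 0) (nat_lit 36483421587) (nat_lit 26) (nat_lit 5) (nat_lit 28) (nat_lit 4) (nat_lit 26) (nat_lit 4) (nat_lit 473) (nat_lit 437) (nat_lit 290)) (XT.lf (nat_lit 0) (nat_lit 51557766736) (nat_lit 152) (nat_lit 186105798089) (nat_lit 76) (nat_lit 158706588197) (nat_lit 24) (nat_lit 5) (nat_lit 26) (nat_lit 5) (nat_lit 25) (nat_lit 4) (nat_lit 474) (nat_lit 437) (nat_lit 289))))) (XT.nd (nat_lit 234) (nat_lit 152) (nat_lit 0) (XT.nd (nat_lit 78) (nat_lit 76) (nat_lit 0) (XT.lf (nat_lit 0) (nat_lit 30012186803) (nat_lit 76) (nat_lit 125448575390) (nat_lit 152) (nat_lit 262880718329) (nat_lit 23) (nat_lit 5) (nat_lit 24) (nat_lit 5) (nat_lit 25) (nat_lit 4) (nat_lit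 475) (nat_lit 437) (nat_lit 288)) (XT.nd (nat_lit 78) (nat_lit 76) (nat_lit 0) (XT.lf (nat_lit 0) (nat_lit 272794051786) (nat_lit 152) (nat_lit 167690027454) (nat_lit 0) (nat_lit 1176990653) (nat_lit 23) (nat_lit 5) (nat_lit 25) (nat_lit 4) (nat_lit 23) (nat_lit 4) (nat_lit 476) (nat_lit 437) (nat_lit 287)) (XT.lf (nat_lit 0) (nat_lit 70887694098) (nat_lit 76) (nat_lit 333589371790) (nat_lit 76) (nat_lit 61972115643) (nat_lit 22) (nat_lit 4) (nat_lit 23) (nat_lit 5) (nat_lit 23) (nat_lit 4) (nat_lit 477) (nat_lit 437) (nat_lit 286)))) (XT.nd (nat_lit 78) (nat_lit 76) (nat_lit 0) (XT.lf (nat_lit 0) (nat_lit 55503212740) (nat_lit 152) (nat_lit 156170754214) (nat_lit 76) (nat_lit 281067183263) (nat_lit 21) (nat_lit 5) (nat_lit 23) (nat_lit 5) (nat_lit 22) (nat_lit 4) (nat_lit 478) (nat_lit 437) (nat_lit 285)) (XT.nd (nat_lit 78) (nat_lit 0) (nat_lit 0) (XT.lf (nat_lit 0) (nat_lit 106067135748)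 (nat_lit 76) (nat_lit 75512066008) (nat_lit 152) (nat_lit 339224442372) (nat_lit 20) (nat_lit 5) (nat_lit 21) (nat_lit 5) (nat_lit 22) (nat_lit 4) (nat_lit 479) (nat_lit 437) (nat_lit 284)) (XT.lf (nat_lit 0) (nat_lit 323842591924) (nat_lit 152) (nat_lit 154435772699) (nat_lit 0) (nat_lit 72344667188) (nat_lit 20) (nat_lit 5) (nat_lit 22) (nat_lit 4) (nat_lit 20) (nat_lit 4) (nat_lit 480) (nat_lit 437) (nat_lit 283)))))) (XT.nd (nat_lit 468) (nat_lit 380) (nat_lit 0) (XT.nd (nat_lit 234) (nat_lit 76) (nat_lit 0) (XT.nd (nat_lit 78) (nat_lit 152) (nat_lit 0) (XT.lf (nat_lit 0) (nat_lit 131295270676) (nat_lit 76) (nat_lit 351310624961) (nat_lit 76) (nat_lit 99812567502) (nat_lit 19) (nat_lit 4) (nat_lit 20) (nat_lit 5) (nat_lit 20) (nat_lit 4) (nat_lit 481) (nat_lit 437) (nat_lit 282)) (XT.nd (nat_lit 78) (nat_lit 76) (nat_lit 0) (XT.lf (nat_lit 0) (nat_lit 39778260907) (nat_lit 152) (nat_lit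 168759397663) (nat_lit 76) (nat_lit 407801515819) (nat_lit 18) (nat_lit 5) (nat_lit 20) (nat_lit 5) (nat_lit 19) (nat_lit 4) (nat_lit 482) (nat_lit 437) (nat_lit 281)) (XT.lf (nat_lit 0) (nat_lit 140635844216) (nat_lit 76) (nat_lit 47890183838) (nat_lit 152) (nat_lit 463969540268) (nat_lit 17) (nat_lit 5) (nat_lit 18) (nat_lit 5) (nat_lit 19) (nat_lit 4) (nat_lit 483) (nat_lit 437) (nat_lit 280)))) (XT.nd (nat_lit 78) (nat_lit 76) (nat_lit 0) (XT.lf (nat_lit 0) (nat_lit 356928397127) (nat_lit 152) (nat_lit 209936185511) (nat_lit 0) (nat_lit 124059508703) (nat_lit 17) (nat_lit 5) (nat_lit 19) (nat_lit 4) (nat_lit 17) (nat_lit 4) (nat_lit 484) (nat_lit 437) (nat_lit 279)) (XT.nd (nat_lit 78) (nat_lit 0) (nat_lit 0) (XT.lf (nat_lit 0) (nat_lit 120947335210) (nat_lit 76) (nat_lit 422008167979) (nat_lit 76) (nat_lit 189139189226) (nat_lit 16) (nat_lit 4) (nat_lit 17) (nat_lit 5) (nat_lit 17)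 (nat_lit 4) (nat_lit 485) (nat_lit 437) (nat_lit 278)) (XT.lf (nat_lit 0) (nat_lit 490240525827) (nat_lit 76) (nat_lit 259364143415) (nat_lit 76) (nat_lit 26495081024) (nat_lit 16) (nat_lit 4) (nat_lit 17) (nat_lit 5) (nat_lit 17) (nat_lit 4) (nat_lit 486) (nat_lit 437) (nat_lit 277))))) (XT.nd (nat_lit 234) (nat_lit 228) (nat_lit 0) (XT.nd (nat_lit 78) (nat_lit 0) (nat_lit 0) (XT.lf (nat_lit 0) (nat_lit 65122057497) (nat_lit 76) (nat_lit 78142941219) (nat_lit 152) (nat_lit 679947944204) (nat_lit 14) (nat_lit 5) (nat_lit 15) (nat_lit 5) (nat_lit 16) (nat_lit 4) (nat_lit 487) (nat_lit 437) (nat_lit 276)) (XT.nd (nat_lit 78) (nat_lit 0) (nat_lit 0) (XT.lf (nat_lit 0) (nat_lit 336020946526) (nat_lit 152) (nat_lit 416750164802) (nat_lit 0) (nat_lit 120401306212) (nat_lit 14) (nat_lit 5) (nat_lit 16) (nat_lit 4) (nat_lit 14) (nat_lit 4) (nat_lit 488) (nat_lit 437) (nat_lit 275)) (XT.lf (nat_lit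 0) (nat_lit 546226938000) (nat_lit 152) (nat_lit 50132110504) (nat_lit 0) (nat_lit 330607236209) (nat_lit 14) (nat_lit 5) (nat_lit 16) (nat_lit 4) (nat_lit 14) (nat_lit 4) (nat_lit 489) (nat_lit 437) (nat_lit 274)))) (XT.nd (nat_lit 78) (nat_lit 152) (nat_lit 0) (XT.lf (nat_lit 0) (nat_lit 364025182456) (nat_lit 76) (nat_lit 417978930591) (nat_lit 76) (nat_lit 202359171878) (nat_lit 13) (nat_lit 4) (nat_lit 14) (nat_lit 5) (nat_lit 14) (nat_lit 4) (nat_lit 490) (nat_lit 437) (nat_lit 273)) (XT.nd (nat_lit 78) (nat_lit 152) (nat_lit 0) (XT.lf (nat_lit 0) (nat_lit 814165902341) (nat_lit 76) (nat_lit 223848153376) (nat_lit 76) (nat_lit 8228341957) (nat_lit 13) (nat_lit 4) (nat_lit 14) (nat_lit 5) (nat_lit 14) (nat_lit 4) (nat_lit 491) (nat_lit 437) (nat_lit 272)) (XT.lf (nat_lit 0) (nat_lit 192006302280) (nat_lit 76) (nat_lit 3967814306) (nat_lit 152) (nat_lit 916340753115) (nat_lit 11) (nat_lit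 5) (nat_lit 12) (nat_lit 5) (nat_lit 13) (nat_lit 4) (nat_lit 492) (nat_lit 437) (nat_lit 271))))))) (XT.nd (nat_lit 858) (nat_lit 228) (nat_lit 0) (XT.nd (nat_lit 390) (nat_lit 152) (nat_lit 0) (XT.nd (nat_lit 156) (nat_lit 152) (nat_lit 0) (XT.nd (nat_lit 78) (nat_lit 0) (nat_lit 0) (XT.lf (nat_lit 0) (nat_lit 428194075629) (nat_lit 152) (nat_lit 525945883110) (nat_lit 0) (nat_lit 228546015066) (nat_lit 11) (nat_lit 5) (nat_lit 13) (nat_lit 4) (nat_lit 11) (nat_lit 4) (nat_lit 493) (nat_lit 437) (nat_lit 270)) (XT.lf (nat_lit 0) (nat_lit 679094597620) (nat_lit 152) (nat_lit 100137433006) (nat_lit 0) (nat_lit 479446498317) (nat_lit 11) (nat_lit 5) (nat_lit 13) (nat_lit 4) (nat_lit 11) (nat_lit 4) (nat_lit 494) (nat_lit 437) (nat_lit 269))) (XT.nd (nat_lit 78) (nat_lit 76) (nat_lit 0) (XT.lf (nat_lit 0) (nat_lit 378678553136) (nat_lit 76) (nat_lit 580495749613) (nat_lit 76) (nat_lit 380847614439)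 (nat_lit 10) (nat_lit 4) (nat_lit 11) (nat_lit 5) (nat_lit 11) (nat_lit 4) (nat_lit 495) (nat_lit 437) (nat_lit 268)) (XT.nd (nat_lit 78) (nat_lit 76) (nat_lit 0) (XT.lf (nat_lit 0) (nat_lit 901494552288) (nat_lit 76) (nat_lit 362903682286) (nat_lit 76) (nat_lit 163255513898) (nat_lit 10) (nat_lit 4) (nat_lit 11) (nat_lit 5) (nat_lit 11) (nat_lit 4) (nat_lit 496) (nat_lit 437) (nat_lit 267)) (XT.lf (nat_lit 0) (nat_lit 68154951143) (nat_lit 152) (nat_lit 57885900762) (nat_lit 76) (nat_lit 1396117245281) (nat_lit 9) (nat_lit 5) (nat_lit 11) (nat_lit 5) (nat_lit 10) (nat_lit 4) (nat_lit 497) (nat_lit 437) (nat_lit 266))))) (XT.nd (nat_lit 234) (nat_lit 76) (nat_lit 0) (XT.nd (nat_lit 78) (nat_lit 0) (nat_lit 0) (XT.lf (nat_lit 0) (nat_lit 324011579165) (nat_lit 152) (nat_lit 1159539604135) (nat_lit 0) (nat_lit 139152109149) (nat_lit 8) (nat_lit 5) (nat_lit 10) (nat_lit 4) (nat_lit 8) (nat_lit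 4) (nat_lit 498) (nat_lit 437) (nat_lit 265)) (XT.nd (nat_lit 78) (nat_lit 0) (nat_lit 0) (XT.lf (nat_lit 0) (nat_lit 605234263880) (nat_lit 152) (nat_lit 705291267890) (nat_lit 0) (nat_lit 420374769451) (nat_lit 8) (nat_lit 5) (nat_lit 10) (nat_lit 4) (nat_lit 8) (nat_lit 4) (nat_lit 499) (nat_lit 437) (nat_lit 264)) (XT.lf (nat_lit 0) (nat_lit 908954694677) (nat_lit 152) (nat_lit 214703203873) (nat_lit 0) (nat_lit 724095177644) (nat_lit 8) (nat_lit 5) (nat_lit 10) (nat_lit 4) (nat_lit 8) (nat_lit 4) (nat_lit 500) (nat_lit 437) (nat_lit 263)))) (XT.nd (nat_lit 78) (nat_lit 0) (nat_lit 0) (XT.lf (nat_lit 0) (nat_lit 331726057328) (nat_lit 76) (nat_lit 913224658659) (nat_lit 76) (nat_lit 728365120695) (nat_lit 7) (nat_lit 4) (nat_lit 8) (nat_lit 5) (nat_lit 8) (nat_lit 4) (nat_lit 501) (nat_lit 437) (nat_lit 262)) (XT.nd (nat_lit 78) (nat_lit 0) (nat_lit 0) (XT.lf (nat_lit 0) (nat_lit 934079895313)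 (nat_lit 76) (nat_lit 679616827855) (nat_lit 76) (nat_lit 494757270512) (nat_lit 7) (nat_lit 4) (nat_lit 8) (nat_lit 5) (nat_lit 8) (nat_lit 4) (nat_lit 502) (nat_lit 437) (nat_lit 261)) (XT.lf (nat_lit 0) (nat_lit 1584621924076) (nat_lit 76) (nat_lit 427320429519) (nat_lit 76) (nat_lit 242460854231) (nat_lit 7) (nat_lit 4) (nat_lit 8) (nat_lit 5) (nat_lit 8) (nat_lit 4) (nat_lit 503) (nat_lit 437) (nat_lit 260)))))) (XT.nd (nat_lit 468) (nat_lit 0) (nat_lit 0) (XT.nd (nat_lit 234) (nat_lit 76) (nat_lit 0) (XT.nd (nat_lit 78) (nat_lit 76) (nat_lit 0) (XT.lf (nat_lit 0) (nat_lit 28517535157) (nat_lit 152) (nat_lit 125543118776) (nat_lit 76) (nat_lit 2257909952386) (nat_lit 6) (nat_lit 5) (nat_lit 8) (nat_lit 5) (nat_lit 7) (nat_lit 4) (nat_lit 504) (nat_lit 437) (nat_lit 259)) (XT.nd (nat_lit 78) (nat_lit 0) (nat_lit 0) (XT.lf (nat_lit 0) (nat_lit 323473532129) (nat_lit 152) (nat_lit 2104626939098)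 (nat_lit 0) (nat_lit 152307229085) (nat_lit 5) (nat_lit 5) (nat_lit 7) (nat_lit 4) (nat_lit 5) (nat_lit 4) (nat_lit 505) (nat_lit 437) (nat_lit 258)) (XT.lf (nat_lit 0) (nat_lit 649549263021) (nat_lit 152) (nat_lit 1633785691684) (nat_lit 0) (nat_lit 478382946788) (nat_lit 5) (nat_lit 5) (nat_lit 7) (nat_lit 4) (nat_lit 5) (nat_lit 4) (nat_lit 506) (nat_lit 437) (nat_lit 257)))) (XT.nd (nat_lit 78) (nat_lit 76) (nat_lit 0) (XT.lf (nat_lit 0) (nat_lit 1001711005802) (nat_lit 152) (nat_lit 1125277239339) (nat_lit 0) (nat_lit 830544677355) (nat_lit 5) (nat_lit 5) (nat_lit 7) (nat_lit 4) (nat_lit 5) (nat_lit 4) (nat_lit 507) (nat_lit 437) (nat_lit 256)) (XT.nd (nat_lit 78) (nat_lit 76) (nat_lit 0) (XT.lf (nat_lit 0) (nat_lit 1382045644872) (nat_lit 152) (nat_lit 576088198644) (nat_lit 0) (nat_lit 1210879305117) (nat_lit 5) (nat_lit 5) (nat_lit 7) (nat_lit 4) (nat_lit 5) (nat_lit 4) (nat_lit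 508) (nat_lit 437) (nat_lit 255)) (XT.lf (nat_lit 0) (nat_lit 17932963437) (nat_lit 76) (nat_lit 1775305339894) (nat_lit 76) (nat_lit 1604138989669) (nat_lit 4) (nat_lit 4) (nat_lit 5) (nat_lit 5) (nat_lit 5) (nat_lit 4) (nat_lit 509) (nat_lit 437) (nat_lit 254))))) (XT.nd (nat_lit 234) (nat_lit 0) (nat_lit 0) (XT.nd (nat_lit 78) (nat_lit 0) (nat_lit 0) (XT.lf (nat_lit 0) (nat_lit 692238385530) (nat_lit 76) (nat_lit 1560839222319) (nat_lit 76) (nat_lit 1389672862399) (nat_lit 4) (nat_lit 4) (nat_lit 5) (nat_lit 5) (nat_lit 5) (nat_lit 4) (nat_lit 510) (nat_lit 437) (nat_lit 253)) (XT.nd (nat_lit 78) (nat_lit 0) (nat_lit 0) (XT.lf (nat_lit 0) (nat_lit 1420488167990) (nat_lit 76) (nat_lit 1329215852731) (nat_lit 76) (nat_lit 1158049483835) (nat_lit 4) (nat_lit 4) (nat_lit 5) (nat_lit 5) (nat_lit 5) (nat_lit 4) (nat_lit 511) (nat_lit 437) (nat_lit 252)) (XT.lf (nat_lit 0) (nat_lit 2206997865086)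 (nat_lit 76) (nat_lit 1079062648200) (nat_lit 76) (nat_lit 907896270993) (nat_lit 4) (nat_lit 4) (nat_lit 5) (nat_lit 5) (nat_lit 5) (nat_lit 4) (nat_lit 512) (nat_lit 437) (nat_lit 251)))) (XT.nd (nat_lit 78) (nat_lit 0) (nat_lit 0) (XT.lf (nat_lit 0) (nat_lit 3056428275022) (nat_lit 76) (nat_lit 808897219366) (nat_lit 76) (nat_lit 637730834462) (nat_lit 4) (nat_lit 4) (nat_lit 5) (nat_lit 5) (nat_lit 5) (nat_lit 4) (nat_lit 513) (nat_lit 437) (nat_lit 250)) (XT.nd (nat_lit 78) (nat_lit 0) (nat_lit 0) (XT.lf (nat_lit 0) (nat_lit 3973813059486) (nat_lit 76) (nat_lit 517118585908) (nat_lit 76) (nat_lit 345952193879) (nat_lit 4) (nat_lit 4) (nat_lit 5) (nat_lit 5) (nat_lit 5) (nat_lit 4) (nat_lit 514) (nat_lit 437) (nat_lit 249)) (XT.lf (nat_lit 0) (nat_lit 4964588572756) (nat_lit 76) (nat_lit 201997689260) (nat_lit 76) (nat_lit 30831290632) (nat_lit 4) (nat_lit 4) (nat_lit 5) (nat_lit 5)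 (nat_lit 5) (nat_lit 4) (nat_lit 515) (nat_lit 437) (nat_lit 248))))))))
noncomputable def xc184 : XT := (XT.nd (nat_lit 57408) (nat_lit 0) (nat_lit 1824) (XT.nd (nat_lit 56550) (nat_lit 0) (nat_lit 3876) (XT.nd (nat_lit 390) (nat_lit 0) (nat_lit 0) (XT.nd (nat_lit 156) (nat_lit 0) (nat_lit 0) (XT.nd (nat_lit 78) (nat_lit 0) (nat_lit 0) (XT.lf (nat_lit 0) (nat_lit 308975763391) (nat_lit 152) (nat_lit 5125537659988) (nat_lit 0) (nat_lit 150488351598) (nat_lit 2) (nat_lit 5) (nat_lit 4) (nat_lit 4) (nat_lit 2) (nat_lit 4) (nat_lit 516) (nat_lit 437) (nat_lit 247)) (XT.lf (nat_lit 0) (nat_lit 686079665812) (nat_lit 152) (nat_lit 4788914517513) (nat_lit 0) (nat_lit 527592248781) (nat_lit 2) (nat_lit 5) (nat_lit 4) (nat_lit 4) (nat_lit 2) (nat_lit 4) (nat_lit 517) (nat_lit 437) (nat_lit 246))) (XT.nd (nat_lit 78) (nat_lit 0) (nat_lit 0) (XT.lf (nat_lit 0) (nat_lit 1093351857191) (nat_lit 152)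 (nat_lit 4425361571165) (nat_lit 0) (nat_lit 934864435310) (nat_lit 2) (nat_lit 5) (nat_lit 4) (nat_lit 4) (nat_lit 2) (nat_lit 4) (nat_lit 518) (nat_lit 437) (nat_lit 245)) (XT.nd (nat_lit 78) (nat_lit 0) (nat_lit 0) (XT.lf (nat_lit 0) (nat_lit 1533205802365) (nat_lit 152) (nat_lit 4032724433114) (nat_lit 0) (nat_lit 1374718375993) (nat_lit 2) (nat_lit 5) (nat_lit 4) (nat_lit 4) (nat_lit 2) (nat_lit 4) (nat_lit 519) (nat_lit 437) (nat_lit 244)) (XT.lf (nat_lit 0) (nat_lit 2008248043231) (nat_lit 152) (nat_lit 3608676364763) (nat_lit 0) (nat_lit 1849760612702) (nat_lit 2) (nat_lit 5) (nat_lit 4) (nat_lit 4) (nat_lit 2) (nat_lit 4) (nat_lit 520) (nat_lit 437) (nat_lit 243))))) (XT.nd (nat_lit 234) (nat_lit 0) (nat_lit 0) (XT.nd (nat_lit 78) (nat_lit 0) (nat_lit 0) (XT.lf (nat_lit 0) (nat_lit 2521293644922) (nat_lit 152) (nat_lit 3150704488671) (nat_lit 0) (nat_lit 2362806210542) (nat_lit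 2) (nat_lit 5) (nat_lit 4) (nat_lit 4) (nat_lit 2) (nat_lit 4) (nat_lit 521) (nat_lit 437) (nat_lit 242)) (XT.nd (nat_lit 78) (nat_lit 0) (nat_lit 0) (XT.lf (nat_lit 0) (nat_lit 3075382877669) (nat_lit 152) (nat_lit 2656094897423) (nat_lit 0) (nat_lit 2916895439724) (nat_lit 2) (nat_lit 5) (nat_lit 4) (nat_lit 4) (nat_lit 2) (nat_lit 4) (nat_lit 522) (nat_lit 437) (nat_lit 241)) (XT.lf (nat_lit 0) (nat_lit 3673799233221) (nat_lit 152) (nat_lit 2121916571220) (nat_lit 0) (nat_lit 3515311791976) (nat_lit 2) (nat_lit 5) (nat_lit 4) (nat_lit 4) (nat_lit 2) (nat_lit 4) (nat_lit 523) (nat_lit 437) (nat_lit 240)))) (XT.nd (nat_lit 55770) (nat_lit 0) (nat_lit 5092) (XT.lf (nat_lit 0) (nat_lit 4320088882575) (nat_lit 152) (nat_lit 1545004008869) (nat_lit 0) (nat_lit 4161601438274) (nat_lit 2) (nat_lit 5) (nat_lit 4) (nat_lit 4) (nat_lit 2) (nat_lit 4) (nat_lit 524) (nat_lit 437) (nat_lit 239)) (XT.nd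 (nat_lit 78) (nat_lit 0) (nat_lit 0) (XT.lf (nat_lit 0) (nat_lit 34656463103) (nat_lit 532) (nat_lit 1599651672) (nat_lit 532) (nat_lit 1599651672) (nat_lit 69) (nat_lit 3) (nat_lit 76) (nat_lit 3) (nat_lit 76) (nat_lit 5) (nat_lit 438) (nat_lit 438) (nat_lit 324)) (XT.lf (nat_lit 76) (nat_lit 35685802741) (nat_lit 0) (nat_lit 37268600784) (nat_lit 532) (nat_lit 5716066657) (nat_lit 70) (nat_lit 5) (nat_lit 69) (nat_lit 3) (nat_lit 76) (nat_lit 5) (nat_lit 439) (nat_lit 438) (nat_lit 323)))))) (XT.nd (nat_lit 390) (nat_lit 760) (nat_lit 0) (XT.nd (nat_lit 156) (nat_lit 532) (nat_lit 0) (XT.nd (nat_lit 78) (nat_lit 0) (nat_lit 0) (XT.lf (nat_lit 0) (nat_lit 76994978608) (nat_lit 456) (nat_lit 4017549135) (nat_lit 532) (nat_lit 844973061) (nat_lit 70) (nat_lit 5) (nat_lit 76) (nat_lit 5) (nat_lit 77) (nat_lit 5) (nat_lit 440) (nat_lit 438) (nat_lit 322)) (XT.lf (nat_lit 76) (nat_lit 39051795586)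 (nat_lit 0) (nat_lit 44213220696) (nat_lit 532) (nat_lit 1881980936) (nat_lit 71) (nat_lit 5) (nat_lit 70) (nat_lit 5) (nat_lit 77) (nat_lit 5) (nat_lit 441) (nat_lit 438) (nat_lit 321))) (XT.nd (nat_lit 78) (nat_lit 0) (nat_lit 76) (XT.lf (nat_lit 0) (nat_lit 1381859155) (nat_lit 532) (nat_lit 2931395306) (nat_lit 608) (nat_lit 84374888029) (nat_lit 63) (nat_lit 5) (nat_lit 70) (nat_lit 5) (nat_lit 71) (nat_lit 5) (nat_lit 442) (nat_lit 438) (nat_lit 320)) (XT.nd (nat_lit 78) (nat_lit 0) (nat_lit 0) (XT.lf (nat_lit 0) (nat_lit 6871546683) (nat_lit 532) (nat_lit 47449175107) (nat_lit 608) (nat_lit 38022634228) (nat_lit 64) (nat_lit 5) (nat_lit 71) (nat_lit 5) (nat_lit 72) (nat_lit 5) (nat_lit 443) (nat_lit 438) (nat_lit 319)) (XT.lf (nat_lit 76) (nat_lit 329617478) (nat_lit 0) (nat_lit 12672148237) (nat_lit 608) (nat_lit 83273112885) (nat_lit 65) (nat_lit 5) (nat_lit 64) (nat_lit 5) (nat_lit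 72) (nat_lit 5) (nat_lit 444) (nat_lit 438) (nat_lit 318))))) (XT.nd (nat_lit 234) (nat_lit 456) (nat_lit 0) (XT.nd (nat_lit 78) (nat_lit 456) (nat_lit 0) (XT.lf (nat_lit 0) (nat_lit 21729673145) (nat_lit 532) (nat_lit 46599403400) (nat_lit 76) (nat_lit 32023265226) (nat_lit 65) (nat_lit 5) (nat_lit 72) (nat_lit 5) (nat_lit 66) (nat_lit 5) (nat_lit 445) (nat_lit 438) (nat_lit 317)) (XT.nd (nat_lit 78) (nat_lit 0) (nat_lit 0) (XT.lf (nat_lit 0) (nat_lit 6699418309) (nat_lit 456) (nat_lit 24945934424) (nat_lit 532) (nat_lit 73071486522) (nat_lit 59) (nat_lit 5) (nat_lit 65) (nat_lit 5) (nat_lit 66) (nat_lit 5) (nat_lit 446) (nat_lit 438) (nat_lit 316)) (XT.lf (nat_lit 0) (nat_lit 44187685162) (nat_lit 532) (nat_lit 42976979465) (nat_lit 76) (nat_lit 22119160418) (nat_lit 59) (nat_lit 5) (nat_lit 66) (nat_lit 5) (nat_lit 60) (nat_lit 5) (nat_lit 447) (nat_lit 438) (nat_lit 315)))) (XT.nd (nat_lit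 78) (nat_lit 228) (nat_lit 0) (XT.lf (nat_lit 0) (nat_lit 16651028264) (nat_lit 228) (nat_lit 42130140914) (nat_lit 304) (nat_lit 55351179685) (nat_lit 56) (nat_lit 5) (nat_lit 59) (nat_lit 5) (nat_lit 60) (nat_lit 5) (nat_lit 448) (nat_lit 438) (nat_lit 314)) (XT.nd (nat_lit 78) (nat_lit 228) (nat_lit 0) (XT.lf (nat_lit 0) (nat_lit 75903608225) (nat_lit 304) (nat_lit 35969057171) (nat_lit 76) (nat_lit 7387171418) (nat_lit 56) (nat_lit 5) (nat_lit 60) (nat_lit 5) (nat_lit 57) (nat_lit 5) (nat_lit 449) (nat_lit 438) (nat_lit 313)) (XT.lf (nat_lit 0) (nat_lit 30915777349) (nat_lit 228) (nat_lit 65317316026) (nat_lit 304) (nat_lit 28417450658) (nat_lit 53) (nat_lit 5) (nat_lit 56) (nat_lit 5) (nat_lit 57) (nat_lit 5) (nat_lit 450) (nat_lit 438) (nat_lit 312))))))) (XT.nd (nat_lit 858) (nat_lit 912) (nat_lit 0) (XT.nd (nat_lit 390) (nat_lit 532) (nat_lit 0) (XT.nd (nat_lit 156) (nat_lit 380)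 (nat_lit 0) (XT.nd (nat_lit 78) (nat_lit 228) (nat_lit 0) (XT.lf (nat_lit 0) (nat_lit 105196354314) (nat_lit 228) (nat_lit 13975503643) (nat_lit 304) (nat_lit 11222016508) (nat_lit 53) (nat_lit 5) (nat_lit 56) (nat_lit 5) (nat_lit 57) (nat_lit 5) (nat_lit 451) (nat_lit 438) (nat_lit 311)) (XT.lf (nat_lit 0) (nat_lit 9246458529) (nat_lit 228) (nat_lit 86311146532) (nat_lit 76) (nat_lit 40843724084) (nat_lit 50) (nat_lit 5) (nat_lit 53) (nat_lit 5) (nat_lit 51) (nat_lit 5) (nat_lit 452) (nat_lit 438) (nat_lit 310))) (XT.nd (nat_lit 78) (nat_lit 380) (nat_lit 0) (XT.lf (nat_lit 0) (nat_lit 31815480925) (nat_lit 228) (nat_lit 10673370739) (nat_lit 76) (nat_lit 100291662310) (nat_lit 50) (nat_lit 5) (nat_lit 53) (nat_lit 5) (nat_lit 51) (nat_lit 5) (nat_lit 453) (nat_lit 438) (nat_lit 309)) (XT.nd (nat_lit 78) (nat_lit 152) (nat_lit 0) (XT.lf (nat_lit 0) (nat_lit 58390660720) (nat_lit 304) (nat_lit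 75175135327) (nat_lit 76) (nat_lit 15928186903) (nat_lit 47) (nat_lit 5) (nat_lit 51) (nat_lit 5) (nat_lit 48) (nat_lit 5) (nat_lit 454) (nat_lit 438) (nat_lit 308)) (XT.lf (nat_lit 0) (nat_lit 9352311705) (nat_lit 152) (nat_lit 79367044656) (nat_lit 228) (nat_lit 67894973163) (nat_lit 45) (nat_lit 5) (nat_lit 47) (nat_lit 5) (nat_lit 48) (nat_lit 5) (nat_lit 455) (nat_lit 438) (nat_lit 307))))) (XT.nd (nat_lit 234) (nat_lit 304) (nat_lit 0) (XT.nd (nat_lit 78) (nat_lit 228) (nat_lit 0) (XT.lf (nat_lit 0) (nat_lit 104916639748) (nat_lit 152) (nat_lit 18612710256) (nat_lit 228) (nat_lit 40610553809) (nat_lit 45) (nat_lit 5) (nat_lit 47) (nat_lit 5) (nat_lit 48) (nat_lit 5) (nat_lit 456) (nat_lit 438) (nat_lit 306)) (XT.nd (nat_lit 78) (nat_lit 76) (nat_lit 0) (XT.lf (nat_lit 0) (nat_lit 36556311320) (nat_lit 152) (nat_lit 126577018654) (nat_lit 228) (nat_lit 8973459295) (nat_lit 43) (nat_lit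 5) (nat_lit 45) (nat_lit 5) (nat_lit 46) (nat_lit 5) (nat_lit 457) (nat_lit 438) (nat_lit 305)) (XT.lf (nat_lit 0) (nat_lit 26078655423) (nat_lit 228) (nat_lit 38347169366) (nat_lit 76) (nat_lit 116065175352) (nat_lit 42) (nat_lit 5) (nat_lit 45) (nat_lit 5) (nat_lit 43) (nat_lit 5) (nat_lit 458) (nat_lit 438) (nat_lit 304)))) (XT.nd (nat_lit 78) (nat_lit 152) (nat_lit 0) (XT.lf (nat_lit 0) (nat_lit 65245349394) (nat_lit 228) (nat_lit 119612205662) (nat_lit 76) (nat_lit 4526130015) (nat_lit 40) (nat_lit 5) (nat_lit 43) (nat_lit 5) (nat_lit 41) (nat_lit 5) (nat_lit 459) (nat_lit 438) (nat_lit 303)) (XT.nd (nat_lit 78) (nat_lit 152) (nat_lit 0) (XT.lf (nat_lit 0) (nat_lit 110294141652) (nat_lit 228) (nat_lit 11884627579) (nat_lit 76) (nat_lit 76589114665) (nat_lit 40) (nat_lit 5) (nat_lit 43) (nat_lit 5) (nat_lit 41) (nat_lit 5) (nat_lit 460) (nat_lit 438) (nat_lit 302)) (XT.lf (nat_lit 0)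 (nat_lit 109961362548) (nat_lit 152) (nat_lit 51629725862) (nat_lit 228) (nat_lit 47100190242) (nat_lit 38) (nat_lit 5) (nat_lit 40) (nat_lit 5) (nat_lit 41) (nat_lit 5) (nat_lit 461) (nat_lit 438) (nat_lit 301)))))) (XT.nd (nat_lit 468) (nat_lit 304) (nat_lit 0) (XT.nd (nat_lit 234) (nat_lit 304) (nat_lit 0) (XT.nd (nat_lit 78) (nat_lit 228) (nat_lit 0) (XT.lf (nat_lit 0) (nat_lit 23420246217) (nat_lit 76) (nat_lit 195058620944) (nat_lit 152) (nat_lit 810711832) (nat_lit 37) (nat_lit 5) (nat_lit 38) (nat_lit 5) (nat_lit 39) (nat_lit 4) (nat_lit 462) (nat_lit 438) (nat_lit 300)) (XT.nd (nat_lit 78) (nat_lit 152) (nat_lit 0) (XT.lf (nat_lit 0) (nat_lit 50831932651) (nat_lit 152) (nat_lit 72156999923) (nat_lit 76) (nat_lit 107323361810) (nat_lit 36) (nat_lit 5) (nat_lit 38) (nat_lit 5) (nat_lit 37) (nat_lit 5) (nat_lit 463) (nat_lit 438) (nat_lit 299)) (XT.lf (nat_lit 0) (nat_lit 64665618578)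 (nat_lit 152) (nat_lit 43451491924) (nat_lit 228) (nat_lit 133973638288) (nat_lit 34) (nat_lit 5) (nat_lit 36) (nat_lit 5) (nat_lit 37) (nat_lit 5) (nat_lit 464) (nat_lit 438) (nat_lit 298)))) (XT.nd (nat_lit 78) (nat_lit 304) (nat_lit 0) (XT.lf (nat_lit 0) (nat_lit 173029862306) (nat_lit 228) (nat_lit 39188596044) (nat_lit 76) (nat_lit 42349440497) (nat_lit 34) (nat_lit 5) (nat_lit 37) (nat_lit 5) (nat_lit 35) (nat_lit 4) (nat_lit 465) (nat_lit 438) (nat_lit 297)) (XT.nd (nat_lit 78) (nat_lit 228) (nat_lit 0) (XT.lf (nat_lit 0) (nat_lit 114716379205) (nat_lit 76) (nat_lit 132306535044) (nat_lit 152) (nat_lit 20709324333) (nat_lit 33) (nat_lit 5) (nat_lit 34) (nat_lit 5) (nat_lit 35) (nat_lit 4) (nat_lit 466) (nat_lit 438) (nat_lit 296)) (XT.lf (nat_lit 0) (nat_lit 198159432) (nat_lit 152) (nat_lit 43640981835) (nat_lit 228) (nat_lit 237935725939) (nat_lit 30) (nat_lit 5) (nat_lit 32) (nat_lit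 5) (nat_lit 33) (nat_lit 5) (nat_lit 467) (nat_lit 438) (nat_lit 295))))) (XT.nd (nat_lit 234) (nat_lit 228) (nat_lit 0) (XT.nd (nat_lit 78) (nat_lit 76) (nat_lit 0) (XT.lf (nat_lit 0) (nat_lit 117978214814) (nat_lit 228) (nat_lit 124135224178) (nat_lit 76) (nat_lit 54340789055) (nat_lit 30) (nat_lit 5) (nat_lit 33) (nat_lit 5) (nat_lit 31) (nat_lit 4) (nat_lit 468) (nat_lit 438) (nat_lit 294)) (XT.nd (nat_lit 78) (nat_lit 0) (nat_lit 0) (XT.lf (nat_lit 0) (nat_lit 47125007755) (nat_lit 76) (nat_lit 153190059440) (nat_lit 152) (nat_lit 111811538376) (nat_lit 29) (nat_lit 5) (nat_lit 30) (nat_lit 5) (nat_lit 31) (nat_lit 4) (nat_lit 469) (nat_lit 438) (nat_lit 293)) (XT.lf (nat_lit 0) (nat_lit 239145327022) (nat_lit 76) (nat_lit 53487388779) (nat_lit 152) (nat_lit 36148549703) (nat_lit 29) (nat_lit 5) (nat_lit 30) (nat_lit 5) (nat_lit 31) (nat_lit 4) (nat_lit 470) (nat_lit 438) (nat_lit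 292)))) (XT.nd (nat_lit 78) (nat_lit 76) (nat_lit 0) (XT.lf (nat_lit 0) (nat_lit 47182225235) (nat_lit 152) (nat_lit 244019381511) (nat_lit 76) (nat_lit 55167482253) (nat_lit 27) (nat_lit 5) (nat_lit 29) (nat_lit 5) (nat_lit 28) (nat_lit 4) (nat_lit 471) (nat_lit 438) (nat_lit 291)) (XT.nd (nat_lit 78) (nat_lit 76) (nat_lit 0) (XT.lf (nat_lit 0) (nat_lit 139130032291) (nat_lit 152) (nat_lit 52768252296) (nat_lit 76) (nat_lit 173078257498) (nat_lit 27) (nat_lit 5) (nat_lit 29) (nat_lit 5) (nat_lit 28) (nat_lit 4) (nat_lit 472) (nat_lit 438) (nat_lit 290)) (XT.lf (nat_lit 0) (nat_lit 161880520530) (nat_lit 76) (nat_lit 80446174917) (nat_lit 152) (nat_lit 142434453484) (nat_lit 26) (nat_lit 5) (nat_lit 27) (nat_lit 5) (nat_lit 28) (nat_lit 4) (nat_lit 473) (nat_lit 438) (nat_lit 289))))))))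
noncomputable def xc185 : XT := (XT.nd (nat_lit 1716) (nat_lit 684) (nat_lit 0) (XT.nd (nat_lit 858) (nat_lit 456) (nat_lit 0) (XT.nd (nat_lit 390) (nat_lit 380) (nat_lit 0) (XT.nd (nat_lit 156) (nat_lit 152) (nat_lit 0) (XT.nd (nat_lit 78) (nat_lit 152) (nat_lit 0) (XT.lf (nat_lit 0) (nat_lit 356219274812) (nat_lit 152) (nat_lit 10308900188) (nat_lit 0) (nat_lit 39405134706) (nat_lit 26) (nat_lit 5) (nat_lit 28) (nat_lit 4) (nat_lit 26) (nat_lit 4) (nat_lit 474) (nat_lit 438) (nat_lit 288)) (XT.lf (nat_lit 0) (nat_lit 55686206383) (nat_lit 152) (nat_lit 200987058291) (nat_lit 76) (nat_lit 171406194568) (nat_lit 24) (nat_lit 5) (nat_lit 26) (nat_lit 5) (nat_lit 25) (nat_lit 4) (nat_lit 475) (nat_lit 438) (nat_lit 287))) (XT.nd (nat_lit 78) (nat_lit 76) (nat_lit 0) (XT.lf (nat_lit 0) (nat_lit 32420183021) (nat_lit 76) (nat_lit 135481144480) (nat_lit 152) (nat_lit 283907174602) (nat_lit 23)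 (nat_lit 5) (nat_lit 24) (nat_lit 5) (nat_lit 25) (nat_lit 4) (nat_lit 476) (nat_lit 438) (nat_lit 286)) (XT.nd (nat_lit 78) (nat_lit 76) (nat_lit 0) (XT.lf (nat_lit 0) (nat_lit 294621079730) (nat_lit 152) (nat_lit 181098527463) (nat_lit 0) (nat_lit 1274067511) (nat_lit 23) (nat_lit 5) (nat_lit 25) (nat_lit 4) (nat_lit 23) (nat_lit 4) (nat_lit 477) (nat_lit 438) (nat_lit 285)) (XT.lf (nat_lit 0) (nat_lit 76565242137) (nat_lit 76) (nat_lit 360273390389) (nat_lit 76) (nat_lit 66926210977) (nat_lit 22) (nat_lit 4) (nat_lit 23) (nat_lit 5) (nat_lit 23) (nat_lit 4) (nat_lit 478) (nat_lit 438) (nat_lit 284))))) (XT.nd (nat_lit 234) (nat_lit 228) (nat_lit 0) (XT.nd (nat_lit 78) (nat_lit 76) (nat_lit 0) (XT.lf (nat_lit 0) (nat_lit 59946701364) (nat_lit 152) (nat_lit 168658195381) (nat_lit 76) (nat_lit 303555286583) (nat_lit 21) (nat_lit 5) (nat_lit 23) (nat_lit 5) (nat_lit 22) (nat_lit 4) (nat_lit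 479) (nat_lit 438) (nat_lit 283)) (XT.nd (nat_lit 78) (nat_lit 0) (nat_lit 0) (XT.lf (nat_lit 0) (nat_lit 114558568331) (nat_lit 76) (nat_lit 81550107577) (nat_lit 152) (nat_lit 366359008360) (nat_lit 20) (nat_lit 5) (nat_lit 21) (nat_lit 5) (nat_lit 22) (nat_lit 4) (nat_lit 480) (nat_lit 438) (nat_lit 282)) (XT.lf (nat_lit 0) (nat_lit 349752969951) (nat_lit 152) (nat_lit 166784854145) (nat_lit 0) (nat_lit 78134812282) (nat_lit 20) (nat_lit 5) (nat_lit 22) (nat_lit 4) (nat_lit 20) (nat_lit 4) (nat_lit 481) (nat_lit 438) (nat_lit 281)))) (XT.nd (nat_lit 78) (nat_lit 152) (nat_lit 0) (XT.lf (nat_lit 0) (nat_lit 141804526361) (nat_lit 76) (nat_lit 379412727049) (nat_lit 76) (nat_lit 107794455591) (nat_lit 19) (nat_lit 4) (nat_lit 20) (nat_lit 5) (nat_lit 20) (nat_lit 4) (nat_lit 482) (nat_lit 438) (nat_lit 280)) (XT.nd (nat_lit 78) (nat_lit 76) (nat_lit 0) (XT.lf (nat_lit 0) (nat_lit 42963263789)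 (nat_lit 152) (nat_lit 182254788134) (nat_lit 76) (nat_lit 440428036798) (nat_lit 18) (nat_lit 5) (nat_lit 20) (nat_lit 5) (nat_lit 19) (nat_lit 4) (nat_lit 483) (nat_lit 438) (nat_lit 279)) (XT.lf (nat_lit 0) (nat_lit 151891937365) (nat_lit 76) (nat_lit 51718837508) (nat_lit 152) (nat_lit 501084225511) (nat_lit 17) (nat_lit 5) (nat_lit 18) (nat_lit 5) (nat_lit 19) (nat_lit 4) (nat_lit 484) (nat_lit 438) (nat_lit 278)))))) (XT.nd (nat_lit 390) (nat_lit 228) (nat_lit 0) (XT.nd (nat_lit 156) (nat_lit 152) (nat_lit 0) (XT.nd (nat_lit 78) (nat_lit 76) (nat_lit 0) (XT.lf (nat_lit 0) (nat_lit 385485193126) (nat_lit 152) (nat_lit 226726101257) (nat_lit 0) (nat_lit 133986522106) (nat_lit 17) (nat_lit 5) (nat_lit 19) (nat_lit 4) (nat_lit 17) (nat_lit 4) (nat_lit 485) (nat_lit 438) (nat_lit 277)) (XT.lf (nat_lit 0) (nat_lit 130627975068) (nat_lit 76) (nat_lit 455766422341) (nat_lit 76) (nat_lit 204267673878)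 (nat_lit 16) (nat_lit 4) (nat_lit 17) (nat_lit 5) (nat_lit 17) (nat_lit 4) (nat_lit 486) (nat_lit 438) (nat_lit 276))) (XT.nd (nat_lit 78) (nat_lit 152) (nat_lit 0) (XT.lf (nat_lit 0) (nat_lit 529464261451) (nat_lit 76) (nat_lit 280111053521) (nat_lit 76) (nat_lit 28612233352) (nat_lit 16) (nat_lit 4) (nat_lit 17) (nat_lit 5) (nat_lit 17) (nat_lit 4) (nat_lit 487) (nat_lit 438) (nat_lit 275)) (XT.nd (nat_lit 78) (nat_lit 0) (nat_lit 0) (XT.lf (nat_lit 0) (nat_lit 70336321722) (nat_lit 76) (nat_lit 84392143799) (nat_lit 152) (nat_lit 734341331318) (nat_lit 14) (nat_lit 5) (nat_lit 15) (nat_lit 5) (nat_lit 16) (nat_lit 4) (nat_lit 488) (nat_lit 438) (nat_lit 274)) (XT.lf (nat_lit 0) (nat_lit 362904770957) (nat_lit 152) (nat_lit 450085893317) (nat_lit 0) (nat_lit 130035374624) (nat_lit 14) (nat_lit 5) (nat_lit 16) (nat_lit 4) (nat_lit 14) (nat_lit 4) (nat_lit 489) (nat_lit 438) (nat_lit 273)))))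 (XT.nd (nat_lit 234) (nat_lit 152) (nat_lit 0) (XT.nd (nat_lit 78) (nat_lit 76) (nat_lit 0) (XT.lf (nat_lit 0) (nat_lit 589927082584) (nat_lit 152) (nat_lit 54138712057) (nat_lit 0) (nat_lit 357057633546) (nat_lit 14) (nat_lit 5) (nat_lit 16) (nat_lit 4) (nat_lit 14) (nat_lit 4) (nat_lit 490) (nat_lit 438) (nat_lit 272)) (XT.nd (nat_lit 78) (nat_lit 0) (nat_lit 0) (XT.lf (nat_lit 0) (nat_lit 393151063902) (nat_lit 76) (nat_lit 451415313358) (nat_lit 76) (nat_lit 218545815518) (nat_lit 13) (nat_lit 4) (nat_lit 14) (nat_lit 5) (nat_lit 14) (nat_lit 4) (nat_lit 491) (nat_lit 438) (nat_lit 271)) (XT.lf (nat_lit 0) (nat_lit 879302754944) (nat_lit 76) (nat_lit 241754217053) (nat_lit 76) (nat_lit 8884674025) (nat_lit 13) (nat_lit 4) (nat_lit 14) (nat_lit 5) (nat_lit 14) (nat_lit 4) (nat_lit 492) (nat_lit 438) (nat_lit 270)))) (XT.nd (nat_lit 78) (nat_lit 0) (nat_lit 0) (XT.lf (nat_lit 0) (nat_lit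 207370390703) (nat_lit 76) (nat_lit 4283443705) (nat_lit 152) (nat_lit 989646081688) (nat_lit 11) (nat_lit 5) (nat_lit 12) (nat_lit 5) (nat_lit 13) (nat_lit 4) (nat_lit 493) (nat_lit 438) (nat_lit 269)) (XT.nd (nat_lit 78) (nat_lit 0) (nat_lit 0) (XT.lf (nat_lit 0) (nat_lit 462451297681) (nat_lit 152) (nat_lit 568018142431) (nat_lit 0) (nat_lit 246831275822) (nat_lit 11) (nat_lit 5) (nat_lit 13) (nat_lit 4) (nat_lit 11) (nat_lit 4) (nat_lit 494) (nat_lit 438) (nat_lit 268)) (XT.lf (nat_lit 0) (nat_lit 733423735802) (nat_lit 152) (nat_lit 108145269010) (nat_lit 0) (nat_lit 517803680729) (nat_lit 11) (nat_lit 5) (nat_lit 13) (nat_lit 4) (nat_lit 11) (nat_lit 4) (nat_lit 495) (nat_lit 438) (nat_lit 267))))))) (XT.nd (nat_lit 858) (nat_lit 228) (nat_lit 0) (XT.nd (nat_lit 390) (nat_lit 228) (nat_lit 0) (XT.nd (nat_lit 156) (nat_lit 152) (nat_lit 0) (XT.nd (nat_lit 78) (nat_lit 0) (nat_lit 0)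 (XT.lf (nat_lit 0) (nat_lit 408975916058) (nat_lit 76) (nat_lit 626933859001) (nat_lit 76) (nat_lit 411313773175) (nat_lit 10) (nat_lit 4) (nat_lit 11) (nat_lit 5) (nat_lit 11) (nat_lit 4) (nat_lit 496) (nat_lit 438) (nat_lit 266)) (XT.lf (nat_lit 0) (nat_lit 973616967093) (nat_lit 76) (nat_lit 391934541146) (nat_lit 76) (nat_lit 176314426844) (nat_lit 10) (nat_lit 4) (nat_lit 11) (nat_lit 5) (nat_lit 11) (nat_lit 4) (nat_lit 497) (nat_lit 438) (nat_lit 265))) (XT.nd (nat_lit 78) (nat_lit 76) (nat_lit 0) (XT.lf (nat_lit 0) (nat_lit 73608691420) (nat_lit 152) (nat_lit 62514062512) (nat_lit 76) (nat_lit 1507807883429) (nat_lit 9) (nat_lit 5) (nat_lit 11) (nat_lit 5) (nat_lit 10) (nat_lit 4) (nat_lit 498) (nat_lit 438) (nat_lit 264)) (XT.nd (nat_lit 78) (nat_lit 0) (nat_lit 0) (XT.lf (nat_lit 0) (nat_lit 349933845719) (nat_lit 152) (nat_lit 1252300058130) (nat_lit 0) (nat_lit 150285544719)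 (nat_lit 8) (nat_lit 5) (nat_lit 10) (nat_lit 4) (nat_lit 8) (nat_lit 4) (nat_lit 499) (nat_lit 438) (nat_lit 263)) (XT.lf (nat_lit 0) (nat_lit 653654245936) (nat_lit 152) (nat_lit 761712056047) (nat_lit 0) (nat_lit 454005924005) (nat_lit 8) (nat_lit 5) (nat_lit 10) (nat_lit 4) (nat_lit 8) (nat_lit 4) (nat_lit 500) (nat_lit 438) (nat_lit 262))))) (XT.nd (nat_lit 234) (nat_lit 152) (nat_lit 0) (XT.nd (nat_lit 78) (nat_lit 76) (nat_lit 0) (XT.lf (nat_lit 0) (nat_lit 981672219275) (nat_lit 152) (nat_lit 231877133077) (nat_lit 0) (nat_lit 782023877964) (nat_lit 8) (nat_lit 5) (nat_lit 10) (nat_lit 4) (nat_lit 8) (nat_lit 4) (nat_lit 501) (nat_lit 438) (nat_lit 261)) (XT.nd (nat_lit 78) (nat_lit 0) (nat_lit 0) (XT.lf (nat_lit 0) (nat_lit 358266410106) (nat_lit 76) (nat_lit 986281481621) (nat_lit 76) (nat_lit 786633122366) (nat_lit 7) (nat_lit 4) (nat_lit 8) (nat_lit 5) (nat_lit 8) (nat_lit 4)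 (nat_lit 502) (nat_lit 438) (nat_lit 260)) (XT.lf (nat_lit 0) (nat_lit 1008808387115) (nat_lit 76) (nat_lit 733985109518) (nat_lit 76) (nat_lit 534336733648) (nat_lit 7) (nat_lit 4) (nat_lit 8) (nat_lit 5) (nat_lit 8) (nat_lit 4) (nat_lit 503) (nat_lit 438) (nat_lit 259)))) (XT.nd (nat_lit 78) (nat_lit 152) (nat_lit 0) (XT.lf (nat_lit 0) (nat_lit 1711393622611) (nat_lit 76) (nat_lit 461505078172) (nat_lit 76) (nat_lit 261856686917) (nat_lit 7) (nat_lit 4) (nat_lit 8) (nat_lit 5) (nat_lit 8) (nat_lit 4) (nat_lit 504) (nat_lit 438) (nat_lit 258)) (XT.nd (nat_lit 78) (nat_lit 76) (nat_lit 0) (XT.lf (nat_lit 0) (nat_lit 30799848937) (nat_lit 152) (nat_lit 135584719710) (nat_lit 76) (nat_lit 2438543613266) (nat_lit 6) (nat_lit 5) (nat_lit 8) (nat_lit 5) (nat_lit 7) (nat_lit 4) (nat_lit 505) (nat_lit 438) (nat_lit 257)) (XT.lf (nat_lit 0) (nat_lit 349352323524) (nat_lit 152) (nat_lit 2272995243484)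 (nat_lit 0) (nat_lit 164492676590) (nat_lit 5) (nat_lit 5) (nat_lit 7) (nat_lit 4) (nat_lit 5) (nat_lit 4) (nat_lit 506) (nat_lit 438) (nat_lit 256)))))) (XT.nd (nat_lit 468) (nat_lit 152) (nat_lit 0) (XT.nd (nat_lit 234) (nat_lit 76) (nat_lit 0) (XT.nd (nat_lit 78) (nat_lit 0) (nat_lit 0) (XT.lf (nat_lit 0) (nat_lit 701514045568) (nat_lit 152) (nat_lit 1764486833368) (nat_lit 0) (nat_lit 516654387325) (nat_lit 5) (nat_lit 5) (nat_lit 7) (nat_lit 4) (nat_lit 5) (nat_lit 4) (nat_lit 507) (nat_lit 438) (nat_lit 255)) (XT.nd (nat_lit 78) (nat_lit 0) (nat_lit 0) (XT.lf (nat_lit 0) (nat_lit 1081848665437) (nat_lit 152) (nat_lit 1215297831773) (nat_lit 0) (nat_lit 896988996724) (nat_lit 5) (nat_lit 5) (nat_lit 7) (nat_lit 4) (nat_lit 5) (nat_lit 4) (nat_lit 508) (nat_lit 438) (nat_lit 254)) (XT.lf (nat_lit 0) (nat_lit 1492610017916) (nat_lit 152) (nat_lit 622173785356) (nat_lit 0) (nat_lit 1307750339509)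 (nat_lit 5) (nat_lit 5) (nat_lit 7) (nat_lit 4) (nat_lit 5) (nat_lit 4) (nat_lit 509) (nat_lit 438) (nat_lit 253)))) (XT.nd (nat_lit 78) (nat_lit 0) (nat_lit 0) (XT.lf (nat_lit 0) (nat_lit 19369032497) (nat_lit 76) (nat_lit 1917329037554) (nat_lit 76) (nat_lit 1732469350170) (nat_lit 4) (nat_lit 4) (nat_lit 5) (nat_lit 5) (nat_lit 5) (nat_lit 4) (nat_lit 510) (nat_lit 438) (nat_lit 252)) (XT.nd (nat_lit 78) (nat_lit 0) (nat_lit 0) (XT.lf (nat_lit 0) (nat_lit 747618782283) (nat_lit 76) (nat_lit 1685705684612) (nat_lit 76) (nat_lit 1500845988916) (nat_lit 4) (nat_lit 4) (nat_lit 5) (nat_lit 5) (nat_lit 5) (nat_lit 4) (nat_lit 511) (nat_lit 438) (nat_lit 251)) (XT.lf (nat_lit 0) (nat_lit 1534128449125) (nat_lit 76) (nat_lit 1435552495494) (nat_lit 76) (nat_lit 1250692792102) (nat_lit 4) (nat_lit 4) (nat_lit 5) (nat_lit 5) (nat_lit 5) (nat_lit 4) (nat_lit 512) (nat_lit 438) (nat_lit 250)))))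 (XT.nd (nat_lit 234) (nat_lit 152) (nat_lit 0) (XT.nd (nat_lit 78) (nat_lit 0) (nat_lit 0) (XT.lf (nat_lit 0) (nat_lit 2383558831048) (nat_lit 76) (nat_lit 1165387080931) (nat_lit 76) (nat_lit 980527370413) (nat_lit 4) (nat_lit 4) (nat_lit 5) (nat_lit 5) (nat_lit 5) (nat_lit 4) (nat_lit 513) (nat_lit 438) (nat_lit 249)) (XT.nd (nat_lit 78) (nat_lit 0) (nat_lit 0) (XT.lf (nat_lit 0) (nat_lit 3300943589575) (nat_lit 76) (nat_lit 873608460688) (nat_lit 76) (nat_lit 688748743572) (nat_lit 4) (nat_lit 4) (nat_lit 5) (nat_lit 5) (nat_lit 5) (nat_lit 4) (nat_lit 514) (nat_lit 438) (nat_lit 248)) (XT.lf (nat_lit 0) (nat_lit 4291719078829) (nat_lit 76) (nat_lit 558487576274) (nat_lit 76) (nat_lit 373627853049) (nat_lit 4) (nat_lit 4) (nat_lit 5) (nat_lit 5) (nat_lit 5) (nat_lit 4) (nat_lit 515) (nat_lit 438) (nat_lit 247)))) (XT.nd (nat_lit 78) (nat_lit 152) (nat_lit 0) (XT.lf (nat_lit 0) (nat_lit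 5361756560970) (nat_lit 76) (nat_lit 218157044672) (nat_lit 76) (nat_lit 33297315790) (nat_lit 4) (nat_lit 4) (nat_lit 5) (nat_lit 5) (nat_lit 5) (nat_lit 4) (nat_lit 516) (nat_lit 438) (nat_lit 246)) (XT.nd (nat_lit 78) (nat_lit 0) (nat_lit 0) (XT.lf (nat_lit 0) (nat_lit 333694277789) (nat_lit 152) (nat_lit 5535579745600) (nat_lit 0) (nat_lit 162527857307) (nat_lit 2) (nat_lit 5) (nat_lit 4) (nat_lit 4) (nat_lit 2) (nat_lit 4) (nat_lit 517) (nat_lit 438) (nat_lit 245)) (XT.lf (nat_lit 0) (nat_lit 740966458823) (nat_lit 152) (nat_lit 5172026820408) (nat_lit 0) (nat_lit 569800033851) (nat_lit 2) (nat_lit 5) (nat_lit 4) (nat_lit 4) (nat_lit 2) (nat_lit 4) (nat_lit 518) (nat_lit 438) (nat_lit 244))))))))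
noncomputable def xc186 : XT := (XT.nd (nat_lit 57486) (nat_lit 0) (nat_lit 1596) (XT.nd (nat_lit 56628) (nat_lit 0) (nat_lit 3648) (XT.nd (nat_lit 390) (nat_lit 0) (nat_lit 0) (XT.nd (nat_lit 156) (nat_lit 0) (nat_lit 0) (XT.nd (nat_lit 78) (nat_lit 0) (nat_lit 0) (XT.lf (nat_lit 0) (nat_lit 1180820394420) (nat_lit 152) (nat_lit 4779389701946) (nat_lit 0) (nat_lit 1009653965290) (nat_lit 2) (nat_lit 5) (nat_lit 4) (nat_lit 4) (nat_lit 2) (nat_lit 4) (nat_lit 519) (nat_lit 438) (nat_lit 243)) (XT.lf (nat_lit 0) (nat_lit 1655862626419) (nat_lit 152) (nat_lit 4355341651733) (nat_lit 0) (nat_lit 1484696193439) (nat_lit 2) (nat_lit 5) (nat_lit 4) (nat_lit 4) (nat_lit 2) (nat_lit 4) (nat_lit 520) (nat_lit 438) (nat_lit 242))) (XT.nd (nat_lit 78) (nat_lit 0) (nat_lit 0) (XT.lf (nat_lit 0) (nat_lit 2168908219898) (nat_lit 152) (nat_lit 3897369792435) (nat_lit 0) (nat_lit 1997741783354) (nat_lit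 2) (nat_lit 5) (nat_lit 4) (nat_lit 4) (nat_lit 2) (nat_lit 4) (nat_lit 521) (nat_lit 438) (nat_lit 241)) (XT.nd (nat_lit 78) (nat_lit 0) (nat_lit 0) (XT.lf (nat_lit 0) (nat_lit 2722997445042) (nat_lit 152) (nat_lit 3402760216737) (nat_lit 0) (nat_lit 2551831005197) (nat_lit 2) (nat_lit 5) (nat_lit 4) (nat_lit 4) (nat_lit 2) (nat_lit 4) (nat_lit 522) (nat_lit 438) (nat_lit 240)) (XT.lf (nat_lit 0) (nat_lit 3321413793555) (nat_lit 152) (nat_lit 2868581904932) (nat_lit 0) (nat_lit 3150247350653) (nat_lit 2) (nat_lit 5) (nat_lit 4) (nat_lit 4) (nat_lit 2) (nat_lit 4) (nat_lit 523) (nat_lit 438) (nat_lit 239))))) (XT.nd (nat_lit 56004) (nat_lit 0) (nat_lit 4636) (XT.nd (nat_lit 55848) (nat_lit 0) (nat_lit 5092) (XT.lf (nat_lit 0) (nat_lit 3967703436390) (nat_lit 152) (nat_lit 2291669355913) (nat_lit 0) (nat_lit 3796536990659) (nat_lit 2) (nat_lit 5) (nat_lit 4) (nat_lit 4) (nat_lit 2) (nat_lit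 4) (nat_lit 524) (nat_lit 438) (nat_lit 238)) (XT.nd (nat_lit 78) (nat_lit 0) (nat_lit 0) (XT.lf (nat_lit 0) (nat_lit 37439438291) (nat_lit 532) (nat_lit 1721972893) (nat_lit 532) (nat_lit 1721972893) (nat_lit 69) (nat_lit 3) (nat_lit 76) (nat_lit 3) (nat_lit 76) (nat_lit 5) (nat_lit 439) (nat_lit 439) (nat_lit 322)) (XT.lf (nat_lit 76) (nat_lit 38551682664) (nat_lit 0) (nat_lit 40258704995) (nat_lit 532) (nat_lit 6152136559) (nat_lit 70) (nat_lit 5) (nat_lit 69) (nat_lit 3) (nat_lit 76) (nat_lit 5) (nat_lit 440) (nat_lit 439) (nat_lit 321)))) (XT.nd (nat_lit 78) (nat_lit 532) (nat_lit 0) (XT.lf (nat_lit 0) (nat_lit 83172562670) (nat_lit 456) (nat_lit 4327095195) (nat_lit 532) (nat_lit 904992078) (nat_lit 70) (nat_lit 5) (nat_lit 76) (nat_lit 5) (nat_lit 77) (nat_lit 5) (nat_lit 441) (nat_lit 439) (nat_lit 320)) (XT.nd (nat_lit 78) (nat_lit 532) (nat_lit 0) (XT.lf (nat_lit 76) (nat_lit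 42187496904) (nat_lit 0) (nat_lit 47755652136) (nat_lit 532) (nat_lit 2014242269) (nat_lit 71) (nat_lit 5) (nat_lit 70) (nat_lit 5) (nat_lit 77) (nat_lit 5) (nat_lit 442) (nat_lit 439) (nat_lit 319)) (XT.lf (nat_lit 0) (nat_lit 1508502188) (nat_lit 532) (nat_lit 3154348309) (nat_lit 608) (nat_lit 91119046272) (nat_lit 63) (nat_lit 5) (nat_lit 70) (nat_lit 5) (nat_lit 71) (nat_lit 5) (nat_lit 443) (nat_lit 439) (nat_lit 318)))))) (XT.nd (nat_lit 390) (nat_lit 684) (nat_lit 0) (XT.nd (nat_lit 156) (nat_lit 380) (nat_lit 0) (XT.nd (nat_lit 78) (nat_lit 0) (nat_lit 0) (XT.lf (nat_lit 0) (nat_lit 7436349531) (nat_lit 532) (nat_lit 51232526439) (nat_lit 608) (nat_lit 41060733334) (nat_lit 64) (nat_lit 5) (nat_lit 71) (nat_lit 5) (nat_lit 72) (nat_lit 5) (nat_lit 444) (nat_lit 439) (nat_lit 317)) (XT.lf (nat_lit 76) (nat_lit 368251005) (nat_lit 0) (nat_lit 13687913061) (nat_lit 608) (nat_lit 89919556044)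 (nat_lit 65) (nat_lit 5) (nat_lit 64) (nat_lit 5) (nat_lit 72) (nat_lit 5) (nat_lit 445) (nat_lit 439) (nat_lit 316))) (XT.nd (nat_lit 78) (nat_lit 456) (nat_lit 0) (XT.lf (nat_lit 0) (nat_lit 23481203629) (nat_lit 532) (nat_lit 50314891934) (nat_lit 76) (nat_lit 34583373417) (nat_lit 65) (nat_lit 5) (nat_lit 72) (nat_lit 5) (nat_lit 66) (nat_lit 5) (nat_lit 446) (nat_lit 439) (nat_lit 315)) (XT.nd (nat_lit 78) (nat_lit 0) (nat_lit 0) (XT.lf (nat_lit 0) (nat_lit 7247519974) (nat_lit 456) (nat_lit 26941935208) (nat_lit 532) (nat_lit 78903726234) (nat_lit 59) (nat_lit 5) (nat_lit 65) (nat_lit 5) (nat_lit 66) (nat_lit 5) (nat_lit 447) (nat_lit 439) (nat_lit 314)) (XT.lf (nat_lit 0) (nat_lit 47734242930) (nat_lit 532) (nat_lit 46402951693) (nat_lit 76) (nat_lit 23888406473) (nat_lit 59) (nat_lit 5) (nat_lit 66) (nat_lit 5) (nat_lit 60) (nat_lit 5) (nat_lit 448) (nat_lit 439) (nat_lit 313)))))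 (XT.nd (nat_lit 234) (nat_lit 228) (nat_lit 0) (XT.nd (nat_lit 78) (nat_lit 228) (nat_lit 0) (XT.lf (nat_lit 0) (nat_lit 17994988145) (nat_lit 228) (nat_lit 45499648145) (nat_lit 304) (nat_lit 59767416561) (nat_lit 56) (nat_lit 5) (nat_lit 59) (nat_lit 5) (nat_lit 60) (nat_lit 5) (nat_lit 449) (nat_lit 439) (nat_lit 312)) (XT.nd (nat_lit 78) (nat_lit 228) (nat_lit 0) (XT.lf (nat_lit 0) (nat_lit 81986077735) (nat_lit 304) (nat_lit 38834785634) (nat_lit 76) (nat_lit 7978940334) (nat_lit 56) (nat_lit 5) (nat_lit 60) (nat_lit 5) (nat_lit 57) (nat_lit 5) (nat_lit 450) (nat_lit 439) (nat_lit 311)) (XT.lf (nat_lit 0) (nat_lit 33400537011) (nat_lit 228) (nat_lit 70540907062) (nat_lit 304) (nat_lit 30680362049) (nat_lit 53) (nat_lit 5) (nat_lit 56) (nat_lit 5) (nat_lit 57) (nat_lit 5) (nat_lit 451) (nat_lit 439) (nat_lit 310)))) (XT.nd (nat_lit 78) (nat_lit 228) (nat_lit 0) (XT.lf (nat_lit 0) (nat_lit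 113622708469) (nat_lit 228) (nat_lit 15091882596) (nat_lit 304) (nat_lit 12110069809) (nat_lit 53) (nat_lit 5) (nat_lit 56) (nat_lit 5) (nat_lit 57) (nat_lit 5) (nat_lit 452) (nat_lit 439) (nat_lit 309)) (XT.nd (nat_lit 78) (nat_lit 0) (nat_lit 0) (XT.lf (nat_lit 0) (nat_lit 9995024886) (nat_lit 228) (nat_lit 93204525557) (nat_lit 76) (nat_lit 44113172953) (nat_lit 50) (nat_lit 5) (nat_lit 53) (nat_lit 5) (nat_lit 51) (nat_lit 5) (nat_lit 453) (nat_lit 439) (nat_lit 308)) (XT.lf (nat_lit 0) (nat_lit 34368913542) (nat_lit 228) (nat_lit 11516580493) (nat_lit 76) (nat_lit 108316801723) (nat_lit 50) (nat_lit 5) (nat_lit 53) (nat_lit 5) (nat_lit 51) (nat_lit 5) (nat_lit 454) (nat_lit 439) (nat_lit 307))))))) (XT.nd (nat_lit 858) (nat_lit 836) (nat_lit 0) (XT.nd (nat_lit 390) (nat_lit 608) (nat_lit 0) (XT.nd (nat_lit 156) (nat_lit 228) (nat_lit 0) (XT.nd (nat_lit 78) (nat_lit 152) (nat_lit 0)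 (XT.lf (nat_lit 0) (nat_lit 63069812027) (nat_lit 304) (nat_lit 81178187033) (nat_lit 76) (nat_lit 17204867129) (nat_lit 47) (nat_lit 5) (nat_lit 51) (nat_lit 5) (nat_lit 48) (nat_lit 5) (nat_lit 455) (nat_lit 439) (nat_lit 306)) (XT.lf (nat_lit 0) (nat_lit 10111178316) (nat_lit 152) (nat_lit 85713296828) (nat_lit 228) (nat_lit 73318391859) (nat_lit 45) (nat_lit 5) (nat_lit 47) (nat_lit 5) (nat_lit 48) (nat_lit 5) (nat_lit 456) (nat_lit 439) (nat_lit 305))) (XT.nd (nat_lit 78) (nat_lit 228) (nat_lit 0) (XT.lf (nat_lit 0) (nat_lit 113319861367) (nat_lit 152) (nat_lit 20098846150) (nat_lit 228) (nat_lit 43851824821) (nat_lit 45) (nat_lit 5) (nat_lit 47) (nat_lit 5) (nat_lit 48) (nat_lit 5) (nat_lit 457) (nat_lit 439) (nat_lit 304)) (XT.nd (nat_lit 78) (nat_lit 76) (nat_lit 0) (XT.lf (nat_lit 0) (nat_lit 39490938249) (nat_lit 152) (nat_lit 136699856001) (nat_lit 228) (nat_lit 9683991534) (nat_lit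 43) (nat_lit 5) (nat_lit 45) (nat_lit 5) (nat_lit 46) (nat_lit 5) (nat_lit 458) (nat_lit 439) (nat_lit 303)) (XT.lf (nat_lit 0) (nat_lit 28171408137) (nat_lit 228) (nat_lit 41405228088) (nat_lit 76) (nat_lit 125353124708) (nat_lit 42) (nat_lit 5) (nat_lit 45) (nat_lit 5) (nat_lit 43) (nat_lit 5) (nat_lit 459) (nat_lit 439) (nat_lit 302))))) (XT.nd (nat_lit 234) (nat_lit 304) (nat_lit 0) (XT.nd (nat_lit 78) (nat_lit 152) (nat_lit 0) (XT.lf (nat_lit 0) (nat_lit 70471265202) (nat_lit 228) (nat_lit 129171292645) (nat_lit 76) (nat_lit 4891316782) (nat_lit 40) (nat_lit 5) (nat_lit 43) (nat_lit 5) (nat_lit 41) (nat_lit 5) (nat_lit 460) (nat_lit 439) (nat_lit 301)) (XT.nd (nat_lit 78) (nat_lit 152) (nat_lit 0) (XT.lf (nat_lit 0) (nat_lit 119123495074) (nat_lit 228) (nat_lit 12826240869) (nat_lit 76) (nat_lit 82719110843) (nat_lit 40) (nat_lit 5) (nat_lit 43) (nat_lit 5) (nat_lit 41) (nat_lit 5)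 (nat_lit 461) (nat_lit 439) (nat_lit 300)) (XT.lf (nat_lit 0) (nat_lit 118767196648) (nat_lit 152) (nat_lit 55756784307) (nat_lit 228) (nat_lit 50862149649) (nat_lit 38) (nat_lit 5) (nat_lit 40) (nat_lit 5) (nat_lit 41) (nat_lit 5) (nat_lit 462) (nat_lit 439) (nat_lit 299)))) (XT.nd (nat_lit 78) (nat_lit 228) (nat_lit 0) (XT.lf (nat_lit 0) (nat_lit 25302926181) (nat_lit 76) (nat_lit 210659732427) (nat_lit 152) (nat_lit 869646376) (nat_lit 37) (nat_lit 5) (nat_lit 38) (nat_lit 5) (nat_lit 39) (nat_lit 4) (nat_lit 463) (nat_lit 439) (nat_lit 298)) (XT.nd (nat_lit 78) (nat_lit 152) (nat_lit 0) (XT.lf (nat_lit 0) (nat_lit 54903696652) (nat_lit 152) (nat_lit 77920894952) (nat_lit 76) (nat_lit 115912268069) (nat_lit 36) (nat_lit 5) (nat_lit 38) (nat_lit 5) (nat_lit 37) (nat_lit 5) (nat_lit 464) (nat_lit 439) (nat_lit 297)) (XT.lf (nat_lit 0) (nat_lit 69847313662) (nat_lit 152) (nat_lit 46924192305)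 (nat_lit 228) (nat_lit 144686099198) (nat_lit 34) (nat_lit 5) (nat_lit 36) (nat_lit 5) (nat_lit 37) (nat_lit 5) (nat_lit 465) (nat_lit 439) (nat_lit 296)))))) (XT.nd (nat_lit 468) (nat_lit 456) (nat_lit 0) (XT.nd (nat_lit 234) (nat_lit 76) (nat_lit 0) (XT.nd (nat_lit 78) (nat_lit 304) (nat_lit 0) (XT.lf (nat_lit 0) (nat_lit 186876981709) (nat_lit 228) (nat_lit 42315566228) (nat_lit 76) (nat_lit 45740403091) (nat_lit 34) (nat_lit 5) (nat_lit 37) (nat_lit 5) (nat_lit 35) (nat_lit 4) (nat_lit 466) (nat_lit 439) (nat_lit 295)) (XT.nd (nat_lit 78) (nat_lit 228) (nat_lit 0) (XT.lf (nat_lit 0) (nat_lit 123901601536) (nat_lit 76) (nat_lit 142887716154) (nat_lit 152) (nat_lit 22361133156) (nat_lit 33) (nat_lit 5) (nat_lit 34) (nat_lit 5) (nat_lit 35) (nat_lit 4) (nat_lit 467) (nat_lit 439) (nat_lit 294)) (XT.lf (nat_lit 0) (nat_lit 221965681) (nat_lit 152) (nat_lit 47128840900) (nat_lit 228) (nat_lit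 256965686254) (nat_lit 30) (nat_lit 5) (nat_lit 32) (nat_lit 5) (nat_lit 33) (nat_lit 5) (nat_lit 468) (nat_lit 439) (nat_lit 293)))) (XT.nd (nat_lit 78) (nat_lit 76) (nat_lit 0) (XT.lf (nat_lit 0) (nat_lit 127420746305) (nat_lit 228) (nat_lit 134058417109) (nat_lit 76) (nat_lit 58691059981) (nat_lit 30) (nat_lit 5) (nat_lit 33) (nat_lit 5) (nat_lit 31) (nat_lit 4) (nat_lit 469) (nat_lit 439) (nat_lit 292)) (XT.nd (nat_lit 78) (nat_lit 0) (nat_lit 0) (XT.lf (nat_lit 0) (nat_lit 50902440341) (nat_lit 76) (nat_lit 165441968659) (nat_lit 152) (nat_lit 120751993221) (nat_lit 29) (nat_lit 5) (nat_lit 30) (nat_lit 5) (nat_lit 31) (nat_lit 4) (nat_lit 470) (nat_lit 439) (nat_lit 291)) (XT.lf (nat_lit 0) (nat_lit 258283834634) (nat_lit 76) (nat_lit 57763328458) (nat_lit 152) (nat_lit 39036296434) (nat_lit 29) (nat_lit 5) (nat_lit 30) (nat_lit 5) (nat_lit 31) (nat_lit 4) (nat_lit 471) (nat_lit 439)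 (nat_lit 290))))) (XT.nd (nat_lit 234) (nat_lit 228) (nat_lit 0) (XT.nd (nat_lit 78) (nat_lit 76) (nat_lit 0) (XT.lf (nat_lit 0) (nat_lit 50960683244) (nat_lit 152) (nat_lit 263533791871) (nat_lit 76) (nat_lit 59583829905) (nat_lit 27) (nat_lit 5) (nat_lit 29) (nat_lit 5) (nat_lit 28) (nat_lit 4) (nat_lit 472) (nat_lit 439) (nat_lit 289)) (XT.nd (nat_lit 78) (nat_lit 76) (nat_lit 0) (XT.lf (nat_lit 0) (nat_lit 150264027457) (nat_lit 152) (nat_lit 56983101220) (nat_lit 76) (nat_lit 186927248720) (nat_lit 27) (nat_lit 5) (nat_lit 29) (nat_lit 5) (nat_lit 28) (nat_lit 4) (nat_lit 473) (nat_lit 439) (nat_lit 288)) (XT.lf (nat_lit 0) (nat_lit 174837406059) (nat_lit 76) (nat_lit 86878906466) (nat_lit 152) (nat_lit 153825449206) (nat_lit 26) (nat_lit 5) (nat_lit 27) (nat_lit 5) (nat_lit 28) (nat_lit 4) (nat_lit 474) (nat_lit 439) (nat_lit 287)))) (XT.nd (nat_lit 78) (nat_lit 228) (nat_lit 0) (XT.lf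 (nat_lit 0) (nat_lit 384720106323) (nat_lit 152) (nat_lit 11127453171) (nat_lit 0) (nat_lit 42560151270) (nat_lit 26) (nat_lit 5) (nat_lit 28) (nat_lit 4) (nat_lit 26) (nat_lit 4) (nat_lit 475) (nat_lit 439) (nat_lit 286)) (XT.nd (nat_lit 78) (nat_lit 76) (nat_lit 0) (XT.lf (nat_lit 0) (nat_lit 60144376478) (nat_lit 152) (nat_lit 217059846990) (nat_lit 76) (nat_lit 185121330151) (nat_lit 24) (nat_lit 5) (nat_lit 26) (nat_lit 5) (nat_lit 25) (nat_lit 4) (nat_lit 476) (nat_lit 439) (nat_lit 285)) (XT.lf (nat_lit 0) (nat_lit 35019817274) (nat_lit 76) (nat_lit 146316792297) (nat_lit 152) (nat_lit 306616318191) (nat_lit 23) (nat_lit 5) (nat_lit 24) (nat_lit 5) (nat_lit 25) (nat_lit 4) (nat_lit 477) (nat_lit 439) (nat_lit 284))))))))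
noncomputable def xc187 : XT := (XT.nd (nat_lit 1716) (nat_lit 532) (nat_lit 0) (XT.nd (nat_lit 858) (nat_lit 532) (nat_lit 0) (XT.nd (nat_lit 390) (nat_lit 304) (nat_lit 0) (XT.nd (nat_lit 156) (nat_lit 152) (nat_lit 0) (XT.nd (nat_lit 78) (nat_lit 76) (nat_lit 0) (XT.lf (nat_lit 0) (nat_lit 318193770054) (nat_lit 152) (nat_lit 195580663614) (nat_lit 0) (nat_lit 1378494288) (nat_lit 23) (nat_lit 5) (nat_lit 25) (nat_lit 4) (nat_lit 23) (nat_lit 4) (nat_lit 478) (nat_lit 439) (nat_lit 283)) (XT.lf (nat_lit 0) (nat_lit 82696062084) (nat_lit 76) (nat_lit 389092577169) (nat_lit 76) (nat_lit 72277158063) (nat_lit 22) (nat_lit 4) (nat_lit 23) (nat_lit 5) (nat_lit 23) (nat_lit 4) (nat_lit 479) (nat_lit 439) (nat_lit 282))) (XT.nd (nat_lit 78) (nat_lit 76) (nat_lit 0) (XT.lf (nat_lit 0) (nat_lit 64745208054) (nat_lit 152) (nat_lit 182145519076) (nat_lit 76) (nat_lit 327842048894) (nat_lit 21)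 (nat_lit 5) (nat_lit 23) (nat_lit 5) (nat_lit 22) (nat_lit 4) (nat_lit 480) (nat_lit 439) (nat_lit 281)) (XT.nd (nat_lit 78) (nat_lit 0) (nat_lit 0) (XT.lf (nat_lit 0) (nat_lit 123728450748) (nat_lit 76) (nat_lit 88071609572) (nat_lit 152) (nat_lit 395664823162) (nat_lit 20) (nat_lit 5) (nat_lit 21) (nat_lit 5) (nat_lit 22) (nat_lit 4) (nat_lit 481) (nat_lit 439) (nat_lit 280)) (XT.lf (nat_lit 0) (nat_lit 377735754421) (nat_lit 152) (nat_lit 180122686742) (nat_lit 0) (nat_lit 84387802098) (nat_lit 20) (nat_lit 5) (nat_lit 22) (nat_lit 4) (nat_lit 20) (nat_lit 4) (nat_lit 482) (nat_lit 439) (nat_lit 279))))) (XT.nd (nat_lit 234) (nat_lit 76) (nat_lit 0) (XT.nd (nat_lit 78) (nat_lit 152) (nat_lit 0) (XT.lf (nat_lit 0) (nat_lit 153153718743) (nat_lit 76) (nat_lit 409763389324) (nat_lit 76) (nat_lit 116415339446) (nat_lit 19) (nat_lit 4) (nat_lit 20) (nat_lit 5) (nat_lit 20) (nat_lit 4) (nat_lit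 483) (nat_lit 439) (nat_lit 278)) (XT.nd (nat_lit 78) (nat_lit 76) (nat_lit 0) (XT.lf (nat_lit 0) (nat_lit 46402675724) (nat_lit 152) (nat_lit 196830574699) (nat_lit 76) (nat_lit 475664337109) (nat_lit 18) (nat_lit 5) (nat_lit 20) (nat_lit 5) (nat_lit 19) (nat_lit 4) (nat_lit 484) (nat_lit 439) (nat_lit 277)) (XT.lf (nat_lit 0) (nat_lit 164047772474) (nat_lit 76) (nat_lit 55854148832) (nat_lit 152) (nat_lit 541168496150) (nat_lit 17) (nat_lit 5) (nat_lit 18) (nat_lit 5) (nat_lit 19) (nat_lit 4) (nat_lit 485) (nat_lit 439) (nat_lit 276)))) (XT.nd (nat_lit 78) (nat_lit 76) (nat_lit 0) (XT.lf (nat_lit 0) (nat_lit 416326172696) (nat_lit 152) (nat_lit 244859920586) (nat_lit 0) (nat_lit 144707375208) (nat_lit 17) (nat_lit 5) (nat_lit 19) (nat_lit 4) (nat_lit 17) (nat_lit 4) (nat_lit 486) (nat_lit 439) (nat_lit 275)) (XT.nd (nat_lit 78) (nat_lit 0) (nat_lit 0) (XT.lf (nat_lit 0) (nat_lit 141082373775)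 (nat_lit 76) (nat_lit 492225679306) (nat_lit 76) (nat_lit 220606815424) (nat_lit 16) (nat_lit 4) (nat_lit 17) (nat_lit 5) (nat_lit 17) (nat_lit 4) (nat_lit 487) (nat_lit 439) (nat_lit 274)) (XT.lf (nat_lit 0) (nat_lit 571825254868) (nat_lit 76) (nat_lit 302518033338) (nat_lit 76) (nat_lit 30899107979) (nat_lit 16) (nat_lit 4) (nat_lit 17) (nat_lit 5) (nat_lit 17) (nat_lit 4) (nat_lit 488) (nat_lit 439) (nat_lit 273)))))) (XT.nd (nat_lit 390) (nat_lit 304) (nat_lit 0) (XT.nd (nat_lit 156) (nat_lit 76) (nat_lit 0) (XT.nd (nat_lit 78) (nat_lit 0) (nat_lit 0) (XT.lf (nat_lit 0) (nat_lit 75967085164) (nat_lit 76) (nat_lit 91141601107) (nat_lit 152) (nat_lit 793086538696) (nat_lit 14) (nat_lit 5) (nat_lit 15) (nat_lit 5) (nat_lit 16) (nat_lit 4) (nat_lit 489) (nat_lit 439) (nat_lit 272)) (XT.lf (nat_lit 0) (nat_lit 391938994804) (nat_lit 152) (nat_lit 486089091368) (nat_lit 0) (nat_lit 140439888335)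 (nat_lit 14) (nat_lit 5) (nat_lit 16) (nat_lit 4) (nat_lit 14) (nat_lit 4) (nat_lit 490) (nat_lit 439) (nat_lit 271))) (XT.nd (nat_lit 78) (nat_lit 76) (nat_lit 0) (XT.lf (nat_lit 0) (nat_lit 637122954905) (nat_lit 152) (nat_lit 58466407713) (nat_lit 0) (nat_lit 385623803249) (nat_lit 14) (nat_lit 5) (nat_lit 16) (nat_lit 4) (nat_lit 14) (nat_lit 4) (nat_lit 491) (nat_lit 439) (nat_lit 270)) (XT.nd (nat_lit 78) (nat_lit 0) (nat_lit 0) (XT.lf (nat_lit 0) (nat_lit 424606464214) (nat_lit 76) (nat_lit 487526882322) (nat_lit 76) (nat_lit 236027688826) (nat_lit 13) (nat_lit 4) (nat_lit 14) (nat_lit 5) (nat_lit 14) (nat_lit 4) (nat_lit 492) (nat_lit 439) (nat_lit 269)) (XT.lf (nat_lit 0) (nat_lit 949650044970) (nat_lit 76) (nat_lit 261093020987) (nat_lit 76) (nat_lit 9593788750) (nat_lit 13) (nat_lit 4) (nat_lit 14) (nat_lit 5) (nat_lit 14) (nat_lit 4) (nat_lit 493) (nat_lit 439) (nat_lit 268)))))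 (XT.nd (nat_lit 234) (nat_lit 152) (nat_lit 0) (XT.nd (nat_lit 78) (nat_lit 0) (nat_lit 0) (XT.lf (nat_lit 0) (nat_lit 223963094867) (nat_lit 76) (nat_lit 4624579639) (nat_lit 152) (nat_lit 1068816112123) (nat_lit 11) (nat_lit 5) (nat_lit 12) (nat_lit 5) (nat_lit 13) (nat_lit 4) (nat_lit 494) (nat_lit 439) (nat_lit 267)) (XT.nd (nat_lit 78) (nat_lit 0) (nat_lit 0) (XT.lf (nat_lit 0) (nat_lit 499448855544) (nat_lit 152) (nat_lit 613456669161) (nat_lit 0) (nat_lit 266579132099) (nat_lit 11) (nat_lit 5) (nat_lit 13) (nat_lit 4) (nat_lit 11) (nat_lit 4) (nat_lit 495) (nat_lit 439) (nat_lit 266)) (XT.lf (nat_lit 0) (nat_lit 792098981007) (nat_lit 152) (nat_lit 116794182509) (nat_lit 0) (nat_lit 559229229086) (nat_lit 11) (nat_lit 5) (nat_lit 13) (nat_lit 4) (nat_lit 11) (nat_lit 4) (nat_lit 496) (nat_lit 439) (nat_lit 265)))) (XT.nd (nat_lit 78) (nat_lit 76) (nat_lit 0) (XT.lf (nat_lit 0) (nat_lit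 441696628807) (nat_lit 76) (nat_lit 677087238348) (nat_lit 76) (nat_lit 444217460061) (nat_lit 10) (nat_lit 4) (nat_lit 11) (nat_lit 5) (nat_lit 11) (nat_lit 4) (nat_lit 497) (nat_lit 439) (nat_lit 264)) (XT.nd (nat_lit 78) (nat_lit 76) (nat_lit 0) (XT.lf (nat_lit 0) (nat_lit 1051508768409) (nat_lit 76) (nat_lit 423288073537) (nat_lit 76) (nat_lit 190418270836) (nat_lit 10) (nat_lit 4) (nat_lit 11) (nat_lit 5) (nat_lit 11) (nat_lit 4) (nat_lit 498) (nat_lit 439) (nat_lit 263)) (XT.lf (nat_lit 0) (nat_lit 79498539157) (nat_lit 152) (nat_lit 67512863858) (nat_lit 76) (nat_lit 1628433593087) (nat_lit 9) (nat_lit 5) (nat_lit 11) (nat_lit 5) (nat_lit 10) (nat_lit 4) (nat_lit 499) (nat_lit 439) (nat_lit 262))))))) (XT.nd (nat_lit 858) (nat_lit 228) (nat_lit 0) (XT.nd (nat_lit 390) (nat_lit 152) (nat_lit 0) (XT.nd (nat_lit 156) (nat_lit 76) (nat_lit 0) (XT.nd (nat_lit 78) (nat_lit 0) (nat_lit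 0) (XT.lf (nat_lit 0) (nat_lit 377929702401) (nat_lit 152) (nat_lit 1352481735675) (nat_lit 0) (nat_lit 162309474405) (nat_lit 8) (nat_lit 5) (nat_lit 10) (nat_lit 4) (nat_lit 8) (nat_lit 4) (nat_lit 500) (nat_lit 439) (nat_lit 261)) (XT.lf (nat_lit 0) (nat_lit 705947649522) (nat_lit 152) (nat_lit 822646865804) (nat_lit 0) (nat_lit 490327403582) (nat_lit 8) (nat_lit 5) (nat_lit 10) (nat_lit 4) (nat_lit 8) (nat_lit 4) (nat_lit 501) (nat_lit 439) (nat_lit 260))) (XT.nd (nat_lit 78) (nat_lit 76) (nat_lit 0) (XT.lf (nat_lit 0) (nat_lit 1060206981919) (nat_lit 152) (nat_lit 250425308606) (nat_lit 0) (nat_lit 844586719364) (nat_lit 8) (nat_lit 5) (nat_lit 10) (nat_lit 4) (nat_lit 8) (nat_lit 4) (nat_lit 502) (nat_lit 439) (nat_lit 259)) (XT.nd (nat_lit 78) (nat_lit 0) (nat_lit 0) (XT.lf (nat_lit 0) (nat_lit 386929667522) (nat_lit 76) (nat_lit 1065183014443) (nat_lit 76) (nat_lit 849562736503)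 (nat_lit 7) (nat_lit 4) (nat_lit 8) (nat_lit 5) (nat_lit 8) (nat_lit 4) (nat_lit 503) (nat_lit 439) (nat_lit 258)) (XT.lf (nat_lit 0) (nat_lit 1089514858647) (nat_lit 76) (nat_lit 792703005587) (nat_lit 76) (nat_lit 577082713402) (nat_lit 7) (nat_lit 4) (nat_lit 8) (nat_lit 5) (nat_lit 8) (nat_lit 4) (nat_lit 504) (nat_lit 439) (nat_lit 257))))) (XT.nd (nat_lit 234) (nat_lit 0) (nat_lit 0) (XT.nd (nat_lit 78) (nat_lit 152) (nat_lit 0) (XT.lf (nat_lit 0) (nat_lit 1848306779608) (nat_lit 76) (nat_lit 498424639339) (nat_lit 76) (nat_lit 282804333965) (nat_lit 7) (nat_lit 4) (nat_lit 8) (nat_lit 5) (nat_lit 8) (nat_lit 4) (nat_lit 505) (nat_lit 439) (nat_lit 256)) (XT.nd (nat_lit 78) (nat_lit 76) (nat_lit 0) (XT.lf (nat_lit 0) (nat_lit 33264617860) (nat_lit 152) (nat_lit 146429912437) (nat_lit 76) (nat_lit 2633627843658) (nat_lit 6) (nat_lit 5) (nat_lit 8) (nat_lit 5) (nat_lit 7) (nat_lit 4)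 (nat_lit 506) (nat_lit 439) (nat_lit 255)) (XT.lf (nat_lit 0) (nat_lit 377301288578) (nat_lit 152) (nat_lit 2454833276249) (nat_lit 0) (nat_lit 177652835898) (nat_lit 5) (nat_lit 5) (nat_lit 7) (nat_lit 4) (nat_lit 5) (nat_lit 4) (nat_lit 507) (nat_lit 439) (nat_lit 254)))) (XT.nd (nat_lit 78) (nat_lit 0) (nat_lit 0) (XT.lf (nat_lit 0) (nat_lit 757635890668) (nat_lit 152) (nat_lit 1905644310859) (nat_lit 0) (nat_lit 557987428293) (nat_lit 5) (nat_lit 5) (nat_lit 7) (nat_lit 4) (nat_lit 5) (nat_lit 4) (nat_lit 508) (nat_lit 439) (nat_lit 253)) (XT.nd (nat_lit 78) (nat_lit 0) (nat_lit 0) (XT.lf (nat_lit 0) (nat_lit 1168397226686) (nat_lit 152) (nat_lit 1312520297965) (nat_lit 0) (nat_lit 968748755334) (nat_lit 5) (nat_lit 5) (nat_lit 7) (nat_lit 4) (nat_lit 5) (nat_lit 4) (nat_lit 509) (nat_lit 439) (nat_lit 252)) (XT.lf (nat_lit 0) (nat_lit 1612019437881) (nat_lit 152) (nat_lit 671946428601)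 (nat_lit 0) (nat_lit 1412370958218) (nat_lit 5) (nat_lit 5) (nat_lit 7) (nat_lit 4) (nat_lit 5) (nat_lit 4) (nat_lit 510) (nat_lit 439) (nat_lit 251)))))) (XT.nd (nat_lit 468) (nat_lit 152) (nat_lit 0) (XT.nd (nat_lit 234) (nat_lit 0) (nat_lit 0) (XT.nd (nat_lit 78) (nat_lit 0) (nat_lit 0) (XT.lf (nat_lit 0) (nat_lit 20919782792) (nat_lit 76) (nat_lit 2070714735103) (nat_lit 76) (nat_lit 1871066247743) (nat_lit 4) (nat_lit 4) (nat_lit 5) (nat_lit 5) (nat_lit 5) (nat_lit 4) (nat_lit 511) (nat_lit 439) (nat_lit 250)) (XT.nd (nat_lit 78) (nat_lit 0) (nat_lit 0) (XT.lf (nat_lit 0) (nat_lit 807429421622) (nat_lit 76) (nat_lit 1820561560256) (nat_lit 76) (nat_lit 1620913065770) (nat_lit 4) (nat_lit 4) (nat_lit 5) (nat_lit 5) (nat_lit 5) (nat_lit 4) (nat_lit 512) (nat_lit 439) (nat_lit 249)) (XT.lf (nat_lit 0) (nat_lit 1656859777607) (nat_lit 76) (nat_lit 1550396158906) (nat_lit 76) (nat_lit 1350747657823)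 (nat_lit 4) (nat_lit 4) (nat_lit 5) (nat_lit 5) (nat_lit 5) (nat_lit 4) (nat_lit 513) (nat_lit 439) (nat_lit 248)))) (XT.nd (nat_lit 78) (nat_lit 0) (nat_lit 0) (XT.lf (nat_lit 0) (nat_lit 2574244512117) (nat_lit 76) (nat_lit 1258617550899) (nat_lit 76) (nat_lit 1058969043706) (nat_lit 4) (nat_lit 4) (nat_lit 5) (nat_lit 5) (nat_lit 5) (nat_lit 4) (nat_lit 514) (nat_lit 439) (nat_lit 247)) (XT.nd (nat_lit 78) (nat_lit 0) (nat_lit 0) (XT.lf (nat_lit 0) (nat_lit 3565019979134) (nat_lit 76) (nat_lit 943496677814) (nat_lit 76) (nat_lit 743848164965) (nat_lit 4) (nat_lit 4) (nat_lit 5) (nat_lit 5) (nat_lit 5) (nat_lit 4) (nat_lit 515) (nat_lit 439) (nat_lit 246)) (XT.lf (nat_lit 0) (nat_lit 4635057440684) (nat_lit 76) (nat_lit 603166156702) (nat_lit 76) (nat_lit 403517638614) (nat_lit 4) (nat_lit 4) (nat_lit 5) (nat_lit 5) (nat_lit 5) (nat_lit 4) (nat_lit 516) (nat_lit 439) (nat_lit 245)))))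 (XT.nd (nat_lit 234) (nat_lit 0) (nat_lit 0) (XT.nd (nat_lit 78) (nat_lit 152) (nat_lit 0) (XT.lf (nat_lit 0) (nat_lit 5790697859504) (nat_lit 76) (nat_lit 235609214103) (nat_lit 76) (nat_lit 35960691166) (nat_lit 4) (nat_lit 4) (nat_lit 5) (nat_lit 5) (nat_lit 5) (nat_lit 4) (nat_lit 517) (nat_lit 439) (nat_lit 244)) (XT.nd (nat_lit 78) (nat_lit 0) (nat_lit 0) (XT.lf (nat_lit 0) (nat_lit 360390208666) (nat_lit 152) (nat_lit 5978425330335) (nat_lit 0) (nat_lit 175530461047) (nat_lit 2) (nat_lit 5) (nat_lit 4) (nat_lit 4) (nat_lit 2) (nat_lit 4) (nat_lit 518) (nat_lit 439) (nat_lit 243)) (XT.lf (nat_lit 0) (nat_lit 800244135394) (nat_lit 152) (nat_lit 5585788230011) (nat_lit 0) (nat_lit 615384383926) (nat_lit 2) (nat_lit 5) (nat_lit 4) (nat_lit 4) (nat_lit 2) (nat_lit 4) (nat_lit 519) (nat_lit 439) (nat_lit 242)))) (XT.nd (nat_lit 78) (nat_lit 0) (nat_lit 0) (XT.lf (nat_lit 0) (nat_lit 1275286359182)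 (nat_lit 152) (nat_lit 5161740196592) (nat_lit 0) (nat_lit 1090426604149) (nat_lit 2) (nat_lit 5) (nat_lit 4) (nat_lit 4) (nat_lit 2) (nat_lit 4) (nat_lit 520) (nat_lit 439) (nat_lit 241)) (XT.nd (nat_lit 78) (nat_lit 0) (nat_lit 0) (XT.lf (nat_lit 0) (nat_lit 1788331945058) (nat_lit 152) (nat_lit 4703768352844) (nat_lit 0) (nat_lit 1603472186725) (nat_lit 2) (nat_lit 5) (nat_lit 4) (nat_lit 4) (nat_lit 2) (nat_lit 4) (nat_lit 521) (nat_lit 439) (nat_lit 240)) (XT.lf (nat_lit 0) (nat_lit 2342421163162) (nat_lit 152) (nat_lit 4209158791545) (nat_lit 0) (nat_lit 2157561401772) (nat_lit 2) (nat_lit 5) (nat_lit 4) (nat_lit 4) (nat_lit 2) (nat_lit 4) (nat_lit 522) (nat_lit 439) (nat_lit 239))))))))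
noncomputable def xc188 : XT := (XT.nd (nat_lit 57642) (nat_lit 0) (nat_lit 1368) (XT.nd (nat_lit 56784) (nat_lit 0) (nat_lit 3040) (XT.nd (nat_lit 56316) (nat_lit 0) (nat_lit 4332) (XT.nd (nat_lit 56082) (nat_lit 0) (nat_lit 5092) (XT.nd (nat_lit 56004) (nat_lit 0) (nat_lit 5092) (XT.lf (nat_lit 0) (nat_lit 2940837505157) (nat_lit 152) (nat_lit 3674980493072) (nat_lit 0) (nat_lit 2755977740937) (nat_lit 2) (nat_lit 5) (nat_lit 4) (nat_lit 4) (nat_lit 2) (nat_lit 4) (nat_lit 523) (nat_lit 439) (nat_lit 238)) (XT.lf (nat_lit 0) (nat_lit 40443559523) (nat_lit 532) (nat_lit 1854885977) (nat_lit 532) (nat_lit 1854885977) (nat_lit 69) (nat_lit 3) (nat_lit 76) (nat_lit 3) (nat_lit 76) (nat_lit 5) (nat_lit 440) (nat_lit 440) (nat_lit 320))) (XT.nd (nat_lit 78) (nat_lit 0) (nat_lit 76) (XT.lf (nat_lit 76) (nat_lit 41645261468) (nat_lit 0) (nat_lit 43486788353) (nat_lit 532) (nat_lit 6626118672)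 (nat_lit 70) (nat_lit 5) (nat_lit 69) (nat_lit 3) (nat_lit 76) (nat_lit 5) (nat_lit 441) (nat_lit 440) (nat_lit 319)) (XT.nd (nat_lit 78) (nat_lit 0) (nat_lit 0) (XT.lf (nat_lit 0) (nat_lit 89841787584) (nat_lit 456) (nat_lit 4663096598) (nat_lit 532) (nat_lit 970893821) (nat_lit 70) (nat_lit 5) (nat_lit 76) (nat_lit 5) (nat_lit 77) (nat_lit 5) (nat_lit 442) (nat_lit 440) (nat_lit 318)) (XT.lf (nat_lit 76) (nat_lit 45572405497) (nat_lit 0) (nat_lit 51580711460) (nat_lit 532) (nat_lit 2159694800) (nat_lit 71) (nat_lit 5) (nat_lit 70) (nat_lit 5) (nat_lit 77) (nat_lit 5) (nat_lit 443) (nat_lit 440) (nat_lit 317))))) (XT.nd (nat_lit 234) (nat_lit 304) (nat_lit 0) (XT.nd (nat_lit 78) (nat_lit 0) (nat_lit 76) (XT.lf (nat_lit 0) (nat_lit 1642980632) (nat_lit 532) (nat_lit 3396786519) (nat_lit 608) (nat_lit 98403569287) (nat_lit 63) (nat_lit 5) (nat_lit 70) (nat_lit 5) (nat_lit 71) (nat_lit 5)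 (nat_lit 444) (nat_lit 440) (nat_lit 316)) (XT.nd (nat_lit 78) (nat_lit 0) (nat_lit 0) (XT.lf (nat_lit 0) (nat_lit 8044185402) (nat_lit 532) (nat_lit 55320340936) (nat_lit 608) (nat_lit 44342409875) (nat_lit 64) (nat_lit 5) (nat_lit 71) (nat_lit 5) (nat_lit 72) (nat_lit 5) (nat_lit 445) (nat_lit 440) (nat_lit 315)) (XT.lf (nat_lit 76) (nat_lit 408225599) (nat_lit 0) (nat_lit 14784654753) (nat_lit 608) (nat_lit 97099912475) (nat_lit 65) (nat_lit 5) (nat_lit 64) (nat_lit 5) (nat_lit 72) (nat_lit 5) (nat_lit 446) (nat_lit 440) (nat_lit 314)))) (XT.nd (nat_lit 78) (nat_lit 456) (nat_lit 0) (XT.lf (nat_lit 0) (nat_lit 25370979612) (nat_lit 532) (nat_lit 54329397642) (nat_lit 76) (nat_lit 37348540353) (nat_lit 65) (nat_lit 5) (nat_lit 72) (nat_lit 5) (nat_lit 66) (nat_lit 5) (nat_lit 447) (nat_lit 440) (nat_lit 313)) (XT.nd (nat_lit 78) (nat_lit 0) (nat_lit 0) (XT.lf (nat_lit 0) (nat_lit 7837736696)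 (nat_lit 456) (nat_lit 29097569544) (nat_lit 532) (nat_lit 85204468083) (nat_lit 59) (nat_lit 5) (nat_lit 65) (nat_lit 5) (nat_lit 66) (nat_lit 5) (nat_lit 448) (nat_lit 440) (nat_lit 312)) (XT.lf (nat_lit 0) (nat_lit 51562878587) (nat_lit 532) (nat_lit 50104740187) (nat_lit 76) (nat_lit 25799233124) (nat_lit 59) (nat_lit 5) (nat_lit 66) (nat_lit 5) (nat_lit 60) (nat_lit 5) (nat_lit 449) (nat_lit 440) (nat_lit 311)))))) (XT.nd (nat_lit 390) (nat_lit 608) (nat_lit 0) (XT.nd (nat_lit 156) (nat_lit 456) (nat_lit 0) (XT.nd (nat_lit 78) (nat_lit 0) (nat_lit 0) (XT.lf (nat_lit 0) (nat_lit 19444770341) (nat_lit 228) (nat_lit 49138844926) (nat_lit 304) (nat_lit 64538643992) (nat_lit 56) (nat_lit 5) (nat_lit 59) (nat_lit 5) (nat_lit 60) (nat_lit 5) (nat_lit 450) (nat_lit 440) (nat_lit 310)) (XT.lf (nat_lit 0) (nat_lit 88553692393) (nat_lit 304) (nat_lit 41931455222) (nat_lit 76) (nat_lit 8617937318)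 (nat_lit 56) (nat_lit 5) (nat_lit 60) (nat_lit 5) (nat_lit 57) (nat_lit 5) (nat_lit 451) (nat_lit 440) (nat_lit 309))) (XT.nd (nat_lit 78) (nat_lit 228) (nat_lit 0) (XT.lf (nat_lit 0) (nat_lit 36082437203) (nat_lit 228) (nat_lit 76182641351) (nat_lit 304) (nat_lit 33125802106) (nat_lit 53) (nat_lit 5) (nat_lit 56) (nat_lit 5) (nat_lit 57) (nat_lit 5) (nat_lit 452) (nat_lit 440) (nat_lit 308)) (XT.nd (nat_lit 78) (nat_lit 228) (nat_lit 0) (XT.lf (nat_lit 0) (nat_lit 122721652212) (nat_lit 228) (nat_lit 16297808874) (nat_lit 304) (nat_lit 13070552331) (nat_lit 53) (nat_lit 5) (nat_lit 56) (nat_lit 5) (nat_lit 57) (nat_lit 5) (nat_lit 453) (nat_lit 440) (nat_lit 307)) (XT.lf (nat_lit 0) (nat_lit 10802214047) (nat_lit 228) (nat_lit 100651017318) (nat_lit 76) (nat_lit 47643899408) (nat_lit 50) (nat_lit 5) (nat_lit 53) (nat_lit 5) (nat_lit 51) (nat_lit 5) (nat_lit 454) (nat_lit 440) (nat_lit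 306))))) (XT.nd (nat_lit 234) (nat_lit 228) (nat_lit 0) (XT.nd (nat_lit 78) (nat_lit 380) (nat_lit 0) (XT.lf (nat_lit 0) (nat_lit 37125451783) (nat_lit 228) (nat_lit 12428767781) (nat_lit 76) (nat_lit 116983694581) (nat_lit 50) (nat_lit 5) (nat_lit 53) (nat_lit 5) (nat_lit 51) (nat_lit 5) (nat_lit 455) (nat_lit 440) (nat_lit 305)) (XT.nd (nat_lit 78) (nat_lit 152) (nat_lit 0) (XT.lf (nat_lit 0) (nat_lit 68122168637) (nat_lit 304) (nat_lit 87663046316) (nat_lit 76) (nat_lit 18583335781) (nat_lit 47) (nat_lit 5) (nat_lit 51) (nat_lit 5) (nat_lit 48) (nat_lit 5) (nat_lit 456) (nat_lit 440) (nat_lit 304)) (XT.lf (nat_lit 0) (nat_lit 10929230395) (nat_lit 152) (nat_lit 92567693049) (nat_lit 228) (nat_lit 79176850900) (nat_lit 45) (nat_lit 5) (nat_lit 47) (nat_lit 5) (nat_lit 48) (nat_lit 5) (nat_lit 457) (nat_lit 440) (nat_lit 303)))) (XT.nd (nat_lit 78) (nat_lit 228) (nat_lit 0) (XT.lf (nat_lit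 0) (nat_lit 122393929735) (nat_lit 152) (nat_lit 21704283912) (nat_lit 228) (nat_lit 47353477929) (nat_lit 45) (nat_lit 5) (nat_lit 47) (nat_lit 5) (nat_lit 48) (nat_lit 5) (nat_lit 458) (nat_lit 440) (nat_lit 302)) (XT.nd (nat_lit 78) (nat_lit 76) (nat_lit 0) (XT.lf (nat_lit 0) (nat_lit 42658891312) (nat_lit 152) (nat_lit 147632994563) (nat_lit 228) (nat_lit 10452414128) (nat_lit 43) (nat_lit 5) (nat_lit 45) (nat_lit 5) (nat_lit 46) (nat_lit 5) (nat_lit 459) (nat_lit 440) (nat_lit 301)) (XT.lf (nat_lit 0) (nat_lit 30430659437) (nat_lit 228) (nat_lit 44709317436) (nat_lit 76) (nat_lit 135383719788) (nat_lit 42) (nat_lit 5) (nat_lit 45) (nat_lit 5) (nat_lit 43) (nat_lit 5) (nat_lit 460) (nat_lit 440) (nat_lit 300))))))) (XT.nd (nat_lit 858) (nat_lit 684) (nat_lit 0) (XT.nd (nat_lit 390) (nat_lit 532) (nat_lit 0) (XT.nd (nat_lit 156) (nat_lit 304) (nat_lit 0) (XT.nd (nat_lit 78) (nat_lit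 0) (nat_lit 0) (XT.lf (nat_lit 0) (nat_lit 76114357242) (nat_lit 228) (nat_lit 139496517430) (nat_lit 76) (nat_lit 5285276759) (nat_lit 40) (nat_lit 5) (nat_lit 43) (nat_lit 5) (nat_lit 41) (nat_lit 5) (nat_lit 461) (nat_lit 440) (nat_lit 299)) (XT.lf (nat_lit 0) (nat_lit 128658366183) (nat_lit 228) (nat_lit 13844489558) (nat_lit 76) (nat_lit 89339097706) (nat_lit 40) (nat_lit 5) (nat_lit 43) (nat_lit 5) (nat_lit 41) (nat_lit 5) (nat_lit 462) (nat_lit 440) (nat_lit 298))) (XT.nd (nat_lit 78) (nat_lit 152) (nat_lit 0) (XT.lf (nat_lit 0) (nat_lit 128276224211) (nat_lit 152) (nat_lit 60214481010) (nat_lit 228) (nat_lit 54925929738) (nat_lit 38) (nat_lit 5) (nat_lit 40) (nat_lit 5) (nat_lit 41) (nat_lit 5) (nat_lit 463) (nat_lit 440) (nat_lit 297)) (XT.nd (nat_lit 78) (nat_lit 76) (nat_lit 0) (XT.lf (nat_lit 0) (nat_lit 27334927995) (nat_lit 76) (nat_lit 227509443298) (nat_lit 152) (nat_lit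 934140581) (nat_lit 37) (nat_lit 5) (nat_lit 38) (nat_lit 5) (nat_lit 39) (nat_lit 4) (nat_lit 464) (nat_lit 440) (nat_lit 296)) (XT.lf (nat_lit 0) (nat_lit 59300458596) (nat_lit 152) (nat_lit 84147137739) (nat_lit 76) (nat_lit 125187853521) (nat_lit 36) (nat_lit 5) (nat_lit 38) (nat_lit 5) (nat_lit 37) (nat_lit 5) (nat_lit 465) (nat_lit 440) (nat_lit 295))))) (XT.nd (nat_lit 234) (nat_lit 304) (nat_lit 0) (XT.nd (nat_lit 78) (nat_lit 76) (nat_lit 0) (XT.lf (nat_lit 0) (nat_lit 75442339494) (nat_lit 152) (nat_lit 50675196471) (nat_lit 228) (nat_lit 156256331652) (nat_lit 34) (nat_lit 5) (nat_lit 36) (nat_lit 5) (nat_lit 37) (nat_lit 5) (nat_lit 466) (nat_lit 440) (nat_lit 294)) (XT.nd (nat_lit 78) (nat_lit 76) (nat_lit 0) (XT.lf (nat_lit 0) (nat_lit 201831195816) (nat_lit 228) (nat_lit 45693852078) (nat_lit 76) (nat_lit 49402213659) (nat_lit 34) (nat_lit 5) (nat_lit 37) (nat_lit 5) (nat_lit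 35) (nat_lit 4) (nat_lit 467) (nat_lit 440) (nat_lit 293)) (XT.lf (nat_lit 0) (nat_lit 133820512918) (nat_lit 76) (nat_lit 154315868483) (nat_lit 152) (nat_lit 24145791021) (nat_lit 33) (nat_lit 5) (nat_lit 34) (nat_lit 5) (nat_lit 35) (nat_lit 4) (nat_lit 468) (nat_lit 440) (nat_lit 292)))) (XT.nd (nat_lit 78) (nat_lit 76) (nat_lit 0) (XT.lf (nat_lit 0) (nat_lit 246541775) (nat_lit 152) (nat_lit 50896216516) (nat_lit 228) (nat_lit 277518742114) (nat_lit 30) (nat_lit 5) (nat_lit 32) (nat_lit 5) (nat_lit 33) (nat_lit 5) (nat_lit 469) (nat_lit 440) (nat_lit 291)) (XT.nd (nat_lit 78) (nat_lit 76) (nat_lit 0) (XT.lf (nat_lit 0) (nat_lit 137618070538) (nat_lit 228) (nat_lit 144776553265) (nat_lit 76) (nat_lit 63388923485) (nat_lit 30) (nat_lit 5) (nat_lit 33) (nat_lit 5) (nat_lit 31) (nat_lit 4) (nat_lit 470) (nat_lit 440) (nat_lit 290)) (XT.lf (nat_lit 0) (nat_lit 54981007282) (nat_lit 76)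 (nat_lit 178674500761) (nat_lit 152) (nat_lit 130408321896) (nat_lit 29) (nat_lit 5) (nat_lit 30) (nat_lit 5) (nat_lit 31) (nat_lit 4) (nat_lit 471) (nat_lit 440) (nat_lit 289)))))) (XT.nd (nat_lit 468) (nat_lit 304) (nat_lit 0) (XT.nd (nat_lit 234) (nat_lit 228) (nat_lit 0) (XT.nd (nat_lit 78) (nat_lit 152) (nat_lit 0) (XT.lf (nat_lit 0) (nat_lit 278952441139) (nat_lit 76) (nat_lit 62381778632) (nat_lit 152) (nat_lit 42155653127) (nat_lit 29) (nat_lit 5) (nat_lit 30) (nat_lit 5) (nat_lit 31) (nat_lit 4) (nat_lit 472) (nat_lit 440) (nat_lit 288)) (XT.nd (nat_lit 78) (nat_lit 0) (nat_lit 0) (XT.lf (nat_lit 0) (nat_lit 55040864369) (nat_lit 152) (nat_lit 284610373684) (nat_lit 76) (nat_lit 64353064652) (nat_lit 27) (nat_lit 5) (nat_lit 29) (nat_lit 5) (nat_lit 28) (nat_lit 4) (nat_lit 473) (nat_lit 440) (nat_lit 287)) (XT.lf (nat_lit 0) (nat_lit 162288229715) (nat_lit 152) (nat_lit 61536081228)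 (nat_lit 76) (nat_lit 201883769686) (nat_lit 27) (nat_lit 5) (nat_lit 29) (nat_lit 5) (nat_lit 28) (nat_lit 4) (nat_lit 474) (nat_lit 440) (nat_lit 286)))) (XT.nd (nat_lit 78) (nat_lit 152) (nat_lit 0) (XT.lf (nat_lit 0) (nat_lit 188829923137) (nat_lit 76) (nat_lit 93826679164) (nat_lit 152) (nat_lit 166128261071) (nat_lit 26) (nat_lit 5) (nat_lit 27) (nat_lit 5) (nat_lit 28) (nat_lit 4) (nat_lit 475) (nat_lit 440) (nat_lit 285)) (XT.nd (nat_lit 78) (nat_lit 152) (nat_lit 0) (XT.lf (nat_lit 0) (nat_lit 415500535068) (nat_lit 152) (nat_lit 12012369047) (nat_lit 0) (nat_lit 45967197415) (nat_lit 26) (nat_lit 5) (nat_lit 28) (nat_lit 4) (nat_lit 26) (nat_lit 4) (nat_lit 476) (nat_lit 440) (nat_lit 284)) (XT.lf (nat_lit 0) (nat_lit 64958733167) (nat_lit 152) (nat_lit 234419339856) (nat_lit 76) (nat_lit 199933299952) (nat_lit 24) (nat_lit 5) (nat_lit 26) (nat_lit 5) (nat_lit 25) (nat_lit 4)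 (nat_lit 477) (nat_lit 440) (nat_lit 283))))) (XT.nd (nat_lit 234) (nat_lit 152) (nat_lit 0) (XT.nd (nat_lit 78) (nat_lit 76) (nat_lit 0) (XT.lf (nat_lit 0) (nat_lit 37826563502) (nat_lit 76) (nat_lit 158019697630) (nat_lit 152) (nat_lit 331142682650) (nat_lit 23) (nat_lit 5) (nat_lit 24) (nat_lit 5) (nat_lit 25) (nat_lit 4) (nat_lit 478) (nat_lit 440) (nat_lit 282)) (XT.nd (nat_lit 78) (nat_lit 76) (nat_lit 0) (XT.lf (nat_lit 0) (nat_lit 343651847056) (nat_lit 152) (nat_lit 211222190396) (nat_lit 0) (nat_lit 1490918359) (nat_lit 23) (nat_lit 5) (nat_lit 25) (nat_lit 4) (nat_lit 23) (nat_lit 4) (nat_lit 479) (nat_lit 440) (nat_lit 281)) (XT.lf (nat_lit 0) (nat_lit 89316548642) (nat_lit 76) (nat_lit 420217681858) (nat_lit 76) (nat_lit 78056630269) (nat_lit 22) (nat_lit 4) (nat_lit 23) (nat_lit 5) (nat_lit 23) (nat_lit 4) (nat_lit 480) (nat_lit 440) (nat_lit 280)))) (XT.nd (nat_lit 78) (nat_lit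 76) (nat_lit 0) (XT.lf (nat_lit 0) (nat_lit 69927200024) (nat_lit 152) (nat_lit 196712589326) (nat_lit 76) (nat_lit 354071418452) (nat_lit 21) (nat_lit 5) (nat_lit 23) (nat_lit 5) (nat_lit 22) (nat_lit 4) (nat_lit 481) (nat_lit 440) (nat_lit 279)) (XT.nd (nat_lit 78) (nat_lit 0) (nat_lit 0) (XT.lf (nat_lit 0) (nat_lit 133631182356) (nat_lit 76) (nat_lit 95115189323) (nat_lit 152) (nat_lit 427315517703) (nat_lit 20) (nat_lit 5) (nat_lit 21) (nat_lit 5) (nat_lit 22) (nat_lit 4) (nat_lit 482) (nat_lit 440) (nat_lit 278)) (XT.lf (nat_lit 0) (nat_lit 407956798308) (nat_lit 152) (nat_lit 194528252938) (nat_lit 0) (nat_lit 91140716556) (nat_lit 20) (nat_lit 5) (nat_lit 22) (nat_lit 4) (nat_lit 20) (nat_lit 4) (nat_lit 483) (nat_lit 440) (nat_lit 277))))))))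
noncomputable def xc189 : XT := (XT.nd (nat_lit 1716) (nat_lit 380) (nat_lit 0) (XT.nd (nat_lit 858) (nat_lit 456) (nat_lit 0) (XT.nd (nat_lit 390) (nat_lit 228) (nat_lit 0) (XT.nd (nat_lit 156) (nat_lit 152) (nat_lit 0) (XT.nd (nat_lit 78) (nat_lit 76) (nat_lit 0) (XT.lf (nat_lit 0) (nat_lit 165410157423) (nat_lit 76) (nat_lit 442542440675) (nat_lit 76) (nat_lit 125726275285) (nat_lit 19) (nat_lit 4) (nat_lit 20) (nat_lit 5) (nat_lit 20) (nat_lit 4) (nat_lit 484) (nat_lit 440) (nat_lit 276)) (XT.lf (nat_lit 0) (nat_lit 50116905241) (nat_lit 152) (nat_lit 212573079929) (nat_lit 76) (nat_lit 513719247939) (nat_lit 18) (nat_lit 5) (nat_lit 20) (nat_lit 5) (nat_lit 19) (nat_lit 4) (nat_lit 485) (nat_lit 440) (nat_lit 275))) (XT.nd (nat_lit 78) (nat_lit 76) (nat_lit 0) (XT.lf (nat_lit 0) (nat_lit 177175435252) (nat_lit 76) (nat_lit 60320598300) (nat_lit 152) (nat_lit 584459860442) (nat_lit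 17) (nat_lit 5) (nat_lit 18) (nat_lit 5) (nat_lit 19) (nat_lit 4) (nat_lit 486) (nat_lit 440) (nat_lit 274)) (XT.nd (nat_lit 78) (nat_lit 76) (nat_lit 0) (XT.lf (nat_lit 0) (nat_lit 449634121895) (nat_lit 152) (nat_lit 264445054450) (nat_lit 0) (nat_lit 156285621031) (nat_lit 17) (nat_lit 5) (nat_lit 19) (nat_lit 4) (nat_lit 17) (nat_lit 4) (nat_lit 487) (nat_lit 440) (nat_lit 273)) (XT.lf (nat_lit 0) (nat_lit 152372530808) (nat_lit 76) (nat_lit 531601970257) (nat_lit 76) (nat_lit 238253412471) (nat_lit 16) (nat_lit 4) (nat_lit 17) (nat_lit 5) (nat_lit 17) (nat_lit 4) (nat_lit 488) (nat_lit 440) (nat_lit 272))))) (XT.nd (nat_lit 234) (nat_lit 76) (nat_lit 0) (XT.nd (nat_lit 78) (nat_lit 152) (nat_lit 0) (XT.lf (nat_lit 0) (nat_lit 617574578156) (nat_lit 76) (nat_lit 326717843233) (nat_lit 76) (nat_lit 33369232741) (nat_lit 16) (nat_lit 4) (nat_lit 17) (nat_lit 5) (nat_lit 17) (nat_lit 4)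 (nat_lit 489) (nat_lit 440) (nat_lit 271)) (XT.nd (nat_lit 78) (nat_lit 0) (nat_lit 0) (XT.lf (nat_lit 0) (nat_lit 82047759336) (nat_lit 76) (nat_lit 98431288081) (nat_lit 152) (nat_lit 856531662128) (nat_lit 14) (nat_lit 5) (nat_lit 15) (nat_lit 5) (nat_lit 16) (nat_lit 4) (nat_lit 490) (nat_lit 440) (nat_lit 270)) (XT.lf (nat_lit 0) (nat_lit 423295693753) (nat_lit 152) (nat_lit 524973069317) (nat_lit 0) (nat_lit 151676522938) (nat_lit 14) (nat_lit 5) (nat_lit 16) (nat_lit 4) (nat_lit 14) (nat_lit 4) (nat_lit 491) (nat_lit 440) (nat_lit 269)))) (XT.nd (nat_lit 78) (nat_lit 76) (nat_lit 0) (XT.lf (nat_lit 0) (nat_lit 688094253672) (nat_lit 152) (nat_lit 63140804255) (nat_lit 0) (nat_lit 416475044116) (nat_lit 14) (nat_lit 5) (nat_lit 16) (nat_lit 4) (nat_lit 14) (nat_lit 4) (nat_lit 492) (nat_lit 440) (nat_lit 268)) (XT.nd (nat_lit 78) (nat_lit 0) (nat_lit 0) (XT.lf (nat_lit 0) (nat_lit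 458577823601) (nat_lit 76) (nat_lit 526527613065) (nat_lit 76) (nat_lit 254908367638) (nat_lit 13) (nat_lit 4) (nat_lit 14) (nat_lit 5) (nat_lit 14) (nat_lit 4) (nat_lit 493) (nat_lit 440) (nat_lit 267)) (XT.lf (nat_lit 0) (nat_lit 1025624680280) (nat_lit 76) (nat_lit 281979147996) (nat_lit 76) (nat_lit 10359869355) (nat_lit 13) (nat_lit 4) (nat_lit 14) (nat_lit 5) (nat_lit 14) (nat_lit 4) (nat_lit 494) (nat_lit 440) (nat_lit 266)))))) (XT.nd (nat_lit 390) (nat_lit 228) (nat_lit 0) (XT.nd (nat_lit 156) (nat_lit 76) (nat_lit 0) (XT.nd (nat_lit 78) (nat_lit 0) (nat_lit 0) (XT.lf (nat_lit 0) (nat_lit 241882776980) (nat_lit 76) (nat_lit 4993226084) (nat_lit 152) (nat_lit 1154319981253) (nat_lit 11) (nat_lit 5) (nat_lit 12) (nat_lit 5) (nat_lit 13) (nat_lit 4) (nat_lit 495) (nat_lit 440) (nat_lit 265)) (XT.lf (nat_lit 0) (nat_lit 539406010600) (nat_lit 152) (nat_lit 662530695266) (nat_lit 0)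 (nat_lit 287906623684) (nat_lit 11) (nat_lit 5) (nat_lit 13) (nat_lit 4) (nat_lit 11) (nat_lit 4) (nat_lit 496) (nat_lit 440) (nat_lit 264))) (XT.nd (nat_lit 78) (nat_lit 76) (nat_lit 0) (XT.lf (nat_lit 0) (nat_lit 855468053759) (nat_lit 152) (nat_lit 126135395417) (nat_lit 0) (nat_lit 603968642429) (nat_lit 11) (nat_lit 5) (nat_lit 13) (nat_lit 4) (nat_lit 11) (nat_lit 4) (nat_lit 497) (nat_lit 440) (nat_lit 263)) (XT.nd (nat_lit 78) (nat_lit 0) (nat_lit 0) (XT.lf (nat_lit 0) (nat_lit 477034622027) (nat_lit 76) (nat_lit 731253077692) (nat_lit 76) (nat_lit 479753643758) (nat_lit 10) (nat_lit 4) (nat_lit 11) (nat_lit 5) (nat_lit 11) (nat_lit 4) (nat_lit 498) (nat_lit 440) (nat_lit 262)) (XT.lf (nat_lit 0) (nat_lit 1135631565174) (nat_lit 76) (nat_lit 457150064120) (nat_lit 76) (nat_lit 205650609256) (nat_lit 10) (nat_lit 4) (nat_lit 11) (nat_lit 5) (nat_lit 11) (nat_lit 4) (nat_lit 499)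 (nat_lit 440) (nat_lit 261))))) (XT.nd (nat_lit 234) (nat_lit 76) (nat_lit 0) (XT.nd (nat_lit 78) (nat_lit 76) (nat_lit 0) (XT.lf (nat_lit 0) (nat_lit 85859410306) (nat_lit 152) (nat_lit 72911900807) (nat_lit 76) (nat_lit 1758709205589) (nat_lit 9) (nat_lit 5) (nat_lit 11) (nat_lit 5) (nat_lit 10) (nat_lit 4) (nat_lit 500) (nat_lit 440) (nat_lit 260)) (XT.nd (nat_lit 78) (nat_lit 0) (nat_lit 0) (XT.lf (nat_lit 0) (nat_lit 408165063695) (nat_lit 152) (nat_lit 1460678279412) (nat_lit 0) (nat_lit 175295163520) (nat_lit 8) (nat_lit 5) (nat_lit 10) (nat_lit 4) (nat_lit 8) (nat_lit 4) (nat_lit 501) (nat_lit 440) (nat_lit 259)) (XT.lf (nat_lit 0) (nat_lit 762424373616) (nat_lit 152) (nat_lit 888456767737) (nat_lit 0) (nat_lit 529554458056) (nat_lit 8) (nat_lit 5) (nat_lit 10) (nat_lit 4) (nat_lit 8) (nat_lit 4) (nat_lit 502) (nat_lit 440) (nat_lit 258)))) (XT.nd (nat_lit 78) (nat_lit 76) (nat_lit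 0) (XT.lf (nat_lit 0) (nat_lit 1145024385040) (nat_lit 152) (nat_lit 270457622803) (nat_lit 0) (nat_lit 912154455236) (nat_lit 8) (nat_lit 5) (nat_lit 10) (nat_lit 4) (nat_lit 8) (nat_lit 4) (nat_lit 503) (nat_lit 440) (nat_lit 257)) (XT.nd (nat_lit 78) (nat_lit 0) (nat_lit 0) (XT.lf (nat_lit 0) (nat_lit 417885708113) (nat_lit 76) (nat_lit 1150396810512) (nat_lit 76) (nat_lit 917526867518) (nat_lit 7) (nat_lit 4) (nat_lit 8) (nat_lit 5) (nat_lit 8) (nat_lit 4) (nat_lit 504) (nat_lit 440) (nat_lit 256)) (XT.lf (nat_lit 0) (nat_lit 1176677591032) (nat_lit 76) (nat_lit 856118463547) (nat_lit 76) (nat_lit 623248508340) (nat_lit 7) (nat_lit 4) (nat_lit 8) (nat_lit 5) (nat_lit 8) (nat_lit 4) (nat_lit 505) (nat_lit 440) (nat_lit 255))))))) (XT.nd (nat_lit 858) (nat_lit 152) (nat_lit 0) (XT.nd (nat_lit 390) (nat_lit 76) (nat_lit 0) (XT.nd (nat_lit 156) (nat_lit 76) (nat_lit 0) (XT.nd (nat_lit 78)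 (nat_lit 76) (nat_lit 0) (XT.lf (nat_lit 0) (nat_lit 1996172751322) (nat_lit 76) (nat_lit 538297885961) (nat_lit 76) (nat_lit 305427919447) (nat_lit 7) (nat_lit 4) (nat_lit 8) (nat_lit 5) (nat_lit 8) (nat_lit 4) (nat_lit 506) (nat_lit 440) (nat_lit 254)) (XT.lf (nat_lit 0) (nat_lit 35926456877) (nat_lit 152) (nat_lit 158142946680) (nat_lit 76) (nat_lit 2844318706722) (nat_lit 6) (nat_lit 5) (nat_lit 8) (nat_lit 5) (nat_lit 7) (nat_lit 4) (nat_lit 507) (nat_lit 440) (nat_lit 253))) (XT.nd (nat_lit 78) (nat_lit 0) (nat_lit 0) (XT.lf (nat_lit 0) (nat_lit 407486059678) (nat_lit 152) (nat_lit 2651218577999) (nat_lit 0) (nat_lit 191865701642) (nat_lit 5) (nat_lit 5) (nat_lit 7) (nat_lit 4) (nat_lit 5) (nat_lit 4) (nat_lit 508) (nat_lit 440) (nat_lit 252)) (XT.nd (nat_lit 78) (nat_lit 0) (nat_lit 0) (XT.lf (nat_lit 0) (nat_lit 818247380453) (nat_lit 152) (nat_lit 2058094596144) (nat_lit 0) (nat_lit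 602627014105) (nat_lit 5) (nat_lit 5) (nat_lit 7) (nat_lit 4) (nat_lit 5) (nat_lit 4) (nat_lit 509) (nat_lit 440) (nat_lit 251)) (XT.lf (nat_lit 0) (nat_lit 1261869577535) (nat_lit 152) (nat_lit 1417520755520) (nat_lit 0) (nat_lit 1046249203491) (nat_lit 5) (nat_lit 5) (nat_lit 7) (nat_lit 4) (nat_lit 5) (nat_lit 4) (nat_lit 510) (nat_lit 440) (nat_lit 250))))) (XT.nd (nat_lit 234) (nat_lit 0) (nat_lit 0) (XT.nd (nat_lit 78) (nat_lit 76) (nat_lit 0) (XT.lf (nat_lit 0) (nat_lit 1740981523202) (nat_lit 152) (nat_lit 725701062998) (nat_lit 0) (nat_lit 1525361142032) (nat_lit 5) (nat_lit 5) (nat_lit 7) (nat_lit 4) (nat_lit 5) (nat_lit 4) (nat_lit 511) (nat_lit 440) (nat_lit 249)) (XT.nd (nat_lit 78) (nat_lit 0) (nat_lit 0) (XT.lf (nat_lit 0) (nat_lit 22594417967) (nat_lit 76) (nat_lit 2236371377684) (nat_lit 76) (nat_lit 2020750989915) (nat_lit 4) (nat_lit 4) (nat_lit 5) (nat_lit 5) (nat_lit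 5) (nat_lit 4) (nat_lit 512) (nat_lit 440) (nat_lit 248)) (XT.lf (nat_lit 0) (nat_lit 872024749936) (nat_lit 76) (nat_lit 1966205988570) (nat_lit 76) (nat_lit 1750585594692) (nat_lit 4) (nat_lit 4) (nat_lit 5) (nat_lit 5) (nat_lit 5) (nat_lit 4) (nat_lit 513) (nat_lit 440) (nat_lit 247)))) (XT.nd (nat_lit 78) (nat_lit 0) (nat_lit 0) (XT.lf (nat_lit 0) (nat_lit 1789409462208) (nat_lit 76) (nat_lit 1674427391891) (nat_lit 76) (nat_lit 1458806992356) (nat_lit 4) (nat_lit 4) (nat_lit 5) (nat_lit 5) (nat_lit 5) (nat_lit 4) (nat_lit 514) (nat_lit 440) (nat_lit 246)) (XT.nd (nat_lit 78) (nat_lit 0) (nat_lit 0) (XT.lf (nat_lit 0) (nat_lit 2780184908635) (nat_lit 76) (nat_lit 1359306529296) (nat_lit 76) (nat_lit 1143686124524) (nat_lit 4) (nat_lit 4) (nat_lit 5) (nat_lit 5) (nat_lit 5) (nat_lit 4) (nat_lit 515) (nat_lit 440) (nat_lit 245)) (XT.lf (nat_lit 0) (nat_lit 3850222351121) (nat_lit 76)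 (nat_lit 1018976017896) (nat_lit 76) (nat_lit 803355608274) (nat_lit 4) (nat_lit 4) (nat_lit 5) (nat_lit 5) (nat_lit 5) (nat_lit 4) (nat_lit 516) (nat_lit 440) (nat_lit 244)))))) (XT.nd (nat_lit 468) (nat_lit 0) (nat_lit 0) (XT.nd (nat_lit 234) (nat_lit 0) (nat_lit 0) (XT.nd (nat_lit 78) (nat_lit 152) (nat_lit 0) (XT.lf (nat_lit 0) (nat_lit 5005862752288) (nat_lit 76) (nat_lit 651419084291) (nat_lit 76) (nat_lit 435798670178) (nat_lit 4) (nat_lit 4) (nat_lit 5) (nat_lit 5) (nat_lit 5) (nat_lit 4) (nat_lit 517) (nat_lit 440) (nat_lit 243)) (XT.nd (nat_lit 78) (nat_lit 152) (nat_lit 0) (XT.lf (nat_lit 0) (nat_lit 6253954351550) (nat_lit 76) (nat_lit 254457613317) (nat_lit 76) (nat_lit 38837195047) (nat_lit 4) (nat_lit 4) (nat_lit 5) (nat_lit 5) (nat_lit 5) (nat_lit 4) (nat_lit 518) (nat_lit 440) (nat_lit 242)) (XT.lf (nat_lit 0) (nat_lit 389221758567) (nat_lit 152) (nat_lit 6456698675253)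 (nat_lit 0) (nat_lit 189573219567) (nat_lit 2) (nat_lit 5) (nat_lit 4) (nat_lit 4) (nat_lit 2) (nat_lit 4) (nat_lit 519) (nat_lit 440) (nat_lit 241)))) (XT.nd (nat_lit 78) (nat_lit 0) (nat_lit 0) (XT.lf (nat_lit 0) (nat_lit 864263974752) (nat_lit 152) (nat_lit 6032650657384) (nat_lit 0) (nat_lit 664615432451) (nat_lit 2) (nat_lit 5) (nat_lit 4) (nat_lit 4) (nat_lit 2) (nat_lit 4) (nat_lit 520) (nat_lit 440) (nat_lit 240)) (XT.nd (nat_lit 78) (nat_lit 0) (nat_lit 0) (XT.lf (nat_lit 0) (nat_lit 1377309553589) (nat_lit 152) (nat_lit 5574678828034) (nat_lit 0) (nat_lit 1177661008231) (nat_lit 2) (nat_lit 5) (nat_lit 4) (nat_lit 4) (nat_lit 2) (nat_lit 4) (nat_lit 521) (nat_lit 440) (nat_lit 239)) (XT.lf (nat_lit 0) (nat_lit 1931398765174) (nat_lit 152) (nat_lit 5080069280067) (nat_lit 0) (nat_lit 1731750216987) (nat_lit 2) (nat_lit 5) (nat_lit 4) (nat_lit 4) (nat_lit 2) (nat_lit 4) (nat_lit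 522) (nat_lit 440) (nat_lit 238))))) (XT.nd (nat_lit 56238) (nat_lit 0) (nat_lit 4636) (XT.nd (nat_lit 56082) (nat_lit 0) (nat_lit 5092) (XT.lf (nat_lit 0) (nat_lit 2529815101133) (nat_lit 152) (nat_lit 4545890993938) (nat_lit 0) (nat_lit 2330166550326) (nat_lit 2) (nat_lit 5) (nat_lit 4) (nat_lit 4) (nat_lit 2) (nat_lit 4) (nat_lit 523) (nat_lit 440) (nat_lit 237)) (XT.nd (nat_lit 78) (nat_lit 0) (nat_lit 0) (XT.lf (nat_lit 0) (nat_lit 43686731330) (nat_lit 532) (nat_lit 1999123265) (nat_lit 532) (nat_lit 1999123265) (nat_lit 69) (nat_lit 3) (nat_lit 76) (nat_lit 3) (nat_lit 76) (nat_lit 5) (nat_lit 441) (nat_lit 441) (nat_lit 318)) (XT.lf (nat_lit 76) (nat_lit 44984979257) (nat_lit 0) (nat_lit 46972064548) (nat_lit 532) (nat_lit 7140614191) (nat_lit 70) (nat_lit 5) (nat_lit 69) (nat_lit 3) (nat_lit 76) (nat_lit 5) (nat_lit 442) (nat_lit 441) (nat_lit 317)))) (XT.nd (nat_lit 78) (nat_lit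 532) (nat_lit 0) (XT.lf (nat_lit 0) (nat_lit 97042350671) (nat_lit 456) (nat_lit 5027428437) (nat_lit 532) (nat_lit 1042994662) (nat_lit 70) (nat_lit 5) (nat_lit 76) (nat_lit 5) (nat_lit 77) (nat_lit 5) (nat_lit 443) (nat_lit 441) (nat_lit 316)) (XT.nd (nat_lit 78) (nat_lit 532) (nat_lit 0) (XT.lf (nat_lit 76) (nat_lit 49226693170) (nat_lit 0) (nat_lit 55711118269) (nat_lit 532) (nat_lit 2319021438) (nat_lit 71) (nat_lit 5) (nat_lit 70) (nat_lit 5) (nat_lit 77) (nat_lit 5) (nat_lit 444) (nat_lit 441) (nat_lit 315)) (XT.lf (nat_lit 0) (nat_lit 1786248875) (nat_lit 532) (nat_lit 3660033508) (nat_lit 608) (nat_lit 106271567548) (nat_lit 63) (nat_lit 5) (nat_lit 70) (nat_lit 5) (nat_lit 71) (nat_lit 5) (nat_lit 445) (nat_lit 441) (nat_lit 314))))))))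
noncomputable def xc190 : XT := (XT.nd (nat_lit 1716) (nat_lit 1368) (nat_lit 0) (XT.nd (nat_lit 858) (nat_lit 1216) (nat_lit 0) (XT.nd (nat_lit 390) (nat_lit 684) (nat_lit 0) (XT.nd (nat_lit 156) (nat_lit 380) (nat_lit 0) (XT.nd (nat_lit 78) (nat_lit 0) (nat_lit 0) (XT.lf (nat_lit 0) (nat_lit 8698803832) (nat_lit 532) (nat_lit 59736719567) (nat_lit 608) (nat_lit 47887074505) (nat_lit 64) (nat_lit 5) (nat_lit 71) (nat_lit 5) (nat_lit 72) (nat_lit 5) (nat_lit 446) (nat_lit 441) (nat_lit 313)) (XT.lf (nat_lit 76) (nat_lit 449898147) (nat_lit 0) (nat_lit 15968892022) (nat_lit 608) (nat_lit 104856581697) (nat_lit 65) (nat_lit 5) (nat_lit 64) (nat_lit 5) (nat_lit 72) (nat_lit 5) (nat_lit 447) (nat_lit 441) (nat_lit 312))) (XT.nd (nat_lit 78) (nat_lit 456) (nat_lit 0) (XT.lf (nat_lit 0) (nat_lit 27410328498) (nat_lit 532) (nat_lit 58666588233) (nat_lit 76) (nat_lit 40335135054) (nat_lit 65) (nat_lit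 5) (nat_lit 72) (nat_lit 5) (nat_lit 66) (nat_lit 5) (nat_lit 448) (nat_lit 441) (nat_lit 311)) (XT.nd (nat_lit 78) (nat_lit 0) (nat_lit 0) (XT.lf (nat_lit 0) (nat_lit 8473684923) (nat_lit 456) (nat_lit 31425614750) (nat_lit 532) (nat_lit 92010917908) (nat_lit 59) (nat_lit 5) (nat_lit 65) (nat_lit 5) (nat_lit 66) (nat_lit 5) (nat_lit 449) (nat_lit 441) (nat_lit 310)) (XT.lf (nat_lit 0) (nat_lit 55696393290) (nat_lit 532) (nat_lit 54104162233) (nat_lit 76) (nat_lit 27862960983) (nat_lit 59) (nat_lit 5) (nat_lit 66) (nat_lit 5) (nat_lit 60) (nat_lit 5) (nat_lit 450) (nat_lit 441) (nat_lit 309))))) (XT.nd (nat_lit 234) (nat_lit 228) (nat_lit 0) (XT.nd (nat_lit 78) (nat_lit 228) (nat_lit 0) (XT.lf (nat_lit 0) (nat_lit 21009082373) (nat_lit 228) (nat_lit 53069288022) (nat_lit 304) (nat_lit 69693019895) (nat_lit 56) (nat_lit 5) (nat_lit 59) (nat_lit 5) (nat_lit 60) (nat_lit 5) (nat_lit 451) (nat_lit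 441) (nat_lit 308)) (XT.nd (nat_lit 78) (nat_lit 228) (nat_lit 0) (XT.lf (nat_lit 0) (nat_lit 95645471015) (nat_lit 304) (nat_lit 45277301147) (nat_lit 76) (nat_lit 9307956801) (nat_lit 56) (nat_lit 5) (nat_lit 60) (nat_lit 5) (nat_lit 57) (nat_lit 5) (nat_lit 452) (nat_lit 441) (nat_lit 307)) (XT.lf (nat_lit 0) (nat_lit 38977483166) (nat_lit 228) (nat_lit 82275933836) (nat_lit 304) (nat_lit 35768159735) (nat_lit 53) (nat_lit 5) (nat_lit 56) (nat_lit 5) (nat_lit 57) (nat_lit 5) (nat_lit 453) (nat_lit 441) (nat_lit 306)))) (XT.nd (nat_lit 78) (nat_lit 228) (nat_lit 0) (XT.lf (nat_lit 0) (nat_lit 132547209377) (nat_lit 228) (nat_lit 17600412451) (nat_lit 304) (nat_lit 14109060833) (nat_lit 53) (nat_lit 5) (nat_lit 56) (nat_lit 5) (nat_lit 57) (nat_lit 5) (nat_lit 454) (nat_lit 441) (nat_lit 305)) (XT.nd (nat_lit 78) (nat_lit 0) (nat_lit 0) (XT.lf (nat_lit 0) (nat_lit 11672895946) (nat_lit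 228) (nat_lit 108694636527) (nat_lit 76) (nat_lit 51456845361) (nat_lit 50) (nat_lit 5) (nat_lit 53) (nat_lit 5) (nat_lit 51) (nat_lit 5) (nat_lit 455) (nat_lit 441) (nat_lit 304)) (XT.lf (nat_lit 0) (nat_lit 40101510866) (nat_lit 228) (nat_lit 13415233855) (nat_lit 76) (nat_lit 126343717926) (nat_lit 50) (nat_lit 5) (nat_lit 53) (nat_lit 5) (nat_lit 51) (nat_lit 5) (nat_lit 456) (nat_lit 441) (nat_lit 303)))))) (XT.nd (nat_lit 390) (nat_lit 608) (nat_lit 0) (XT.nd (nat_lit 156) (nat_lit 228) (nat_lit 0) (XT.nd (nat_lit 78) (nat_lit 152) (nat_lit 0) (XT.lf (nat_lit 0) (nat_lit 73577747724) (nat_lit 304) (nat_lit 94668034740) (nat_lit 76) (nat_lit 20071785292) (nat_lit 47) (nat_lit 5) (nat_lit 51) (nat_lit 5) (nat_lit 48) (nat_lit 5) (nat_lit 457) (nat_lit 441) (nat_lit 302)) (XT.lf (nat_lit 0) (nat_lit 11811420176) (nat_lit 152) (nat_lit 99970821521) (nat_lit 228) (nat_lit 85504987048)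 (nat_lit 45) (nat_lit 5) (nat_lit 47) (nat_lit 5) (nat_lit 48) (nat_lit 5) (nat_lit 458) (nat_lit 441) (nat_lit 301))) (XT.nd (nat_lit 78) (nat_lit 228) (nat_lit 0) (XT.lf (nat_lit 0) (nat_lit 132192713882) (nat_lit 152) (nat_lit 23438509058) (nat_lit 228) (nat_lit 51136189567) (nat_lit 45) (nat_lit 5) (nat_lit 47) (nat_lit 5) (nat_lit 48) (nat_lit 5) (nat_lit 459) (nat_lit 441) (nat_lit 300)) (XT.nd (nat_lit 78) (nat_lit 76) (nat_lit 0) (XT.lf (nat_lit 0) (nat_lit 46079042607) (nat_lit 152) (nat_lit 159441190782) (nat_lit 228) (nat_lit 11283208829) (nat_lit 43) (nat_lit 5) (nat_lit 45) (nat_lit 5) (nat_lit 46) (nat_lit 5) (nat_lit 460) (nat_lit 441) (nat_lit 299)) (XT.lf (nat_lit 0) (nat_lit 32869860691) (nat_lit 228) (nat_lit 48278922143) (nat_lit 76) (nat_lit 146216427919) (nat_lit 42) (nat_lit 5) (nat_lit 45) (nat_lit 5) (nat_lit 43) (nat_lit 5) (nat_lit 461) (nat_lit 441) (nat_lit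 298))))) (XT.nd (nat_lit 234) (nat_lit 304) (nat_lit 0) (XT.nd (nat_lit 78) (nat_lit 152) (nat_lit 0) (XT.lf (nat_lit 0) (nat_lit 82208127583) (nat_lit 228) (nat_lit 150648969769) (nat_lit 76) (nat_lit 5710374821) (nat_lit 40) (nat_lit 5) (nat_lit 43) (nat_lit 5) (nat_lit 41) (nat_lit 5) (nat_lit 462) (nat_lit 441) (nat_lit 297)) (XT.nd (nat_lit 78) (nat_lit 152) (nat_lit 0) (XT.lf (nat_lit 0) (nat_lit 138955314887) (nat_lit 228) (nat_lit 14945318116) (nat_lit 76) (nat_lit 96488332857) (nat_lit 40) (nat_lit 5) (nat_lit 43) (nat_lit 5) (nat_lit 41) (nat_lit 5) (nat_lit 463) (nat_lit 441) (nat_lit 296)) (XT.lf (nat_lit 0) (nat_lit 138544882359) (nat_lit 152) (nat_lit 65029199468) (nat_lit 228) (nat_lit 59315552914) (nat_lit 38) (nat_lit 5) (nat_lit 40) (nat_lit 5) (nat_lit 41) (nat_lit 5) (nat_lit 464) (nat_lit 441) (nat_lit 295)))) (XT.nd (nat_lit 78) (nat_lit 228) (nat_lit 0) (XT.lf (nat_lit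 0) (nat_lit 29528381802) (nat_lit 76) (nat_lit 245707568684) (nat_lit 152) (nat_lit 1004518684) (nat_lit 37) (nat_lit 5) (nat_lit 38) (nat_lit 5) (nat_lit 39) (nat_lit 4) (nat_lit 465) (nat_lit 441) (nat_lit 294)) (XT.nd (nat_lit 78) (nat_lit 152) (nat_lit 0) (XT.lf (nat_lit 0) (nat_lit 64048324340) (nat_lit 152) (nat_lit 90872539751) (nat_lit 76) (nat_lit 135205114319) (nat_lit 36) (nat_lit 5) (nat_lit 38) (nat_lit 5) (nat_lit 37) (nat_lit 5) (nat_lit 466) (nat_lit 441) (nat_lit 293)) (XT.lf (nat_lit 0) (nat_lit 81483934420) (nat_lit 152) (nat_lit 54726699142) (nat_lit 228) (nat_lit 168752846860) (nat_lit 34) (nat_lit 5) (nat_lit 36) (nat_lit 5) (nat_lit 37) (nat_lit 5) (nat_lit 467) (nat_lit 441) (nat_lit 292))))))) (XT.nd (nat_lit 858) (nat_lit 608) (nat_lit 0) (XT.nd (nat_lit 390) (nat_lit 380) (nat_lit 0) (XT.nd (nat_lit 156) (nat_lit 304) (nat_lit 0) (XT.nd (nat_lit 78) (nat_lit 76)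 (nat_lit 0) (XT.lf (nat_lit 0) (nat_lit 217981168480) (nat_lit 228) (nat_lit 49343393640) (nat_lit 76) (nat_lit 53356601247) (nat_lit 34) (nat_lit 5) (nat_lit 37) (nat_lit 5) (nat_lit 35) (nat_lit 4) (nat_lit 468) (nat_lit 441) (nat_lit 291)) (XT.lf (nat_lit 0) (nat_lit 144531969503) (nat_lit 76) (nat_lit 166658681717) (nat_lit 152) (nat_lit 26073825370) (nat_lit 33) (nat_lit 5) (nat_lit 34) (nat_lit 5) (nat_lit 35) (nat_lit 4) (nat_lit 469) (nat_lit 441) (nat_lit 290))) (XT.nd (nat_lit 78) (nat_lit 76) (nat_lit 0) (XT.lf (nat_lit 0) (nat_lit 272111173) (nat_lit 152) (nat_lit 54965400416) (nat_lit 228) (nat_lit 299716641483) (nat_lit 30) (nat_lit 5) (nat_lit 32) (nat_lit 5) (nat_lit 33) (nat_lit 5) (nat_lit 470) (nat_lit 441) (nat_lit 289)) (XT.nd (nat_lit 78) (nat_lit 76) (nat_lit 0) (XT.lf (nat_lit 0) (nat_lit 148630657924) (nat_lit 228) (nat_lit 156353072921) (nat_lit 76) (nat_lit 68462248188)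 (nat_lit 30) (nat_lit 5) (nat_lit 33) (nat_lit 5) (nat_lit 31) (nat_lit 4) (nat_lit 471) (nat_lit 441) (nat_lit 288)) (XT.lf (nat_lit 0) (nat_lit 59384950581) (nat_lit 76) (nat_lit 192966038504) (nat_lit 152) (nat_lit 140837703369) (nat_lit 29) (nat_lit 5) (nat_lit 30) (nat_lit 5) (nat_lit 31) (nat_lit 4) (nat_lit 472) (nat_lit 441) (nat_lit 287))))) (XT.nd (nat_lit 234) (nat_lit 228) (nat_lit 0) (XT.nd (nat_lit 78) (nat_lit 152) (nat_lit 0) (XT.lf (nat_lit 0) (nat_lit 301273694501) (nat_lit 76) (nat_lit 67370078036) (nat_lit 152) (nat_lit 45525064379) (nat_lit 29) (nat_lit 5) (nat_lit 30) (nat_lit 5) (nat_lit 31) (nat_lit 4) (nat_lit 473) (nat_lit 441) (nat_lit 286)) (XT.nd (nat_lit 78) (nat_lit 0) (nat_lit 0) (XT.lf (nat_lit 0) (nat_lit 59446985427) (nat_lit 152) (nat_lit 307373955348) (nat_lit 76) (nat_lit 69503477480) (nat_lit 27) (nat_lit 5) (nat_lit 29) (nat_lit 5) (nat_lit 28) (nat_lit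 4) (nat_lit 474) (nat_lit 441) (nat_lit 285)) (XT.lf (nat_lit 0) (nat_lit 175273928748) (nat_lit 152) (nat_lit 66454108253) (nat_lit 76) (nat_lit 218036478350) (nat_lit 27) (nat_lit 5) (nat_lit 29) (nat_lit 5) (nat_lit 28) (nat_lit 4) (nat_lit 475) (nat_lit 441) (nat_lit 284)))) (XT.nd (nat_lit 78) (nat_lit 152) (nat_lit 0) (XT.lf (nat_lit 0) (nat_lit 203941053437) (nat_lit 76) (nat_lit 101330636012) (nat_lit 152) (nat_lit 179415757835) (nat_lit 26) (nat_lit 5) (nat_lit 27) (nat_lit 5) (nat_lit 28) (nat_lit 4) (nat_lit 476) (nat_lit 441) (nat_lit 283)) (XT.nd (nat_lit 78) (nat_lit 152) (nat_lit 0) (XT.lf (nat_lit 0) (nat_lit 448742995773) (nat_lit 152) (nat_lit 12968831499) (nat_lit 0) (nat_lit 49646488540) (nat_lit 26) (nat_lit 5) (nat_lit 28) (nat_lit 4) (nat_lit 26) (nat_lit 4) (nat_lit 477) (nat_lit 441) (nat_lit 282)) (XT.lf (nat_lit 0) (nat_lit 70157838003) (nat_lit 152) (nat_lit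 253168347526) (nat_lit 76) (nat_lit 215929904440) (nat_lit 24) (nat_lit 5) (nat_lit 26) (nat_lit 5) (nat_lit 25) (nat_lit 4) (nat_lit 478) (nat_lit 441) (nat_lit 281)))))) (XT.nd (nat_lit 468) (nat_lit 304) (nat_lit 0) (XT.nd (nat_lit 234) (nat_lit 152) (nat_lit 0) (XT.nd (nat_lit 78) (nat_lit 76) (nat_lit 0) (XT.lf (nat_lit 0) (nat_lit 40857113175) (nat_lit 76) (nat_lit 170659183205) (nat_lit 152) (nat_lit 357631575831) (nat_lit 23) (nat_lit 5) (nat_lit 24) (nat_lit 5) (nat_lit 25) (nat_lit 4) (nat_lit 479) (nat_lit 441) (nat_lit 280)) (XT.nd (nat_lit 78) (nat_lit 76) (nat_lit 0) (XT.lf (nat_lit 0) (nat_lit 371146202810) (nat_lit 152) (nat_lit 228115742113) (nat_lit 0) (nat_lit 1612030414) (nat_lit 23) (nat_lit 5) (nat_lit 25) (nat_lit 4) (nat_lit 23) (nat_lit 4) (nat_lit 480) (nat_lit 441) (nat_lit 279)) (XT.lf (nat_lit 0) (nat_lit 96465989123) (nat_lit 76) (nat_lit 453833123255) (nat_lit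 76) (nat_lit 84298845499) (nat_lit 22) (nat_lit 4) (nat_lit 23) (nat_lit 5) (nat_lit 23) (nat_lit 4) (nat_lit 481) (nat_lit 441) (nat_lit 278)))) (XT.nd (nat_lit 78) (nat_lit 76) (nat_lit 0) (XT.lf (nat_lit 0) (nat_lit 75523412485) (nat_lit 152) (nat_lit 212445677340) (nat_lit 76) (nat_lit 382398851446) (nat_lit 21) (nat_lit 5) (nat_lit 23) (nat_lit 5) (nat_lit 22) (nat_lit 4) (nat_lit 482) (nat_lit 441) (nat_lit 277)) (XT.nd (nat_lit 78) (nat_lit 0) (nat_lit 0) (XT.lf (nat_lit 0) (nat_lit 144325496858) (nat_lit 76) (nat_lit 102722562034) (nat_lit 152) (nat_lit 461498623221) (nat_lit 20) (nat_lit 5) (nat_lit 21) (nat_lit 5) (nat_lit 22) (nat_lit 4) (nat_lit 483) (nat_lit 441) (nat_lit 276)) (XT.lf (nat_lit 0) (nat_lit 440595214200) (nat_lit 152) (nat_lit 210086870560) (nat_lit 0) (nat_lit 98433594499) (nat_lit 20) (nat_lit 5) (nat_lit 22) (nat_lit 4) (nat_lit 20) (nat_lit 4) (nat_lit 484)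 (nat_lit 441) (nat_lit 275))))) (XT.nd (nat_lit 234) (nat_lit 76) (nat_lit 0) (XT.nd (nat_lit 78) (nat_lit 152) (nat_lit 0) (XT.lf (nat_lit 0) (nat_lit 178646520412) (nat_lit 76) (nat_lit 477944104280) (nat_lit 76) (nat_lit 135782412873) (nat_lit 19) (nat_lit 4) (nat_lit 20) (nat_lit 5) (nat_lit 20) (nat_lit 4) (nat_lit 485) (nat_lit 441) (nat_lit 274)) (XT.nd (nat_lit 78) (nat_lit 76) (nat_lit 0) (XT.lf (nat_lit 0) (nat_lit 54127985592) (nat_lit 152) (nat_lit 229575547769) (nat_lit 76) (nat_lit 554818300001) (nat_lit 18) (nat_lit 5) (nat_lit 20) (nat_lit 5) (nat_lit 19) (nat_lit 4) (nat_lit 486) (nat_lit 441) (nat_lit 273)) (XT.lf (nat_lit 0) (nat_lit 191352763094) (nat_lit 76) (nat_lit 65144632276) (nat_lit 152) (nat_lit 631214835662) (nat_lit 17) (nat_lit 5) (nat_lit 18) (nat_lit 5) (nat_lit 19) (nat_lit 4) (nat_lit 487) (nat_lit 441) (nat_lit 272)))) (XT.nd (nat_lit 78) (nat_lit 76)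 (nat_lit 0) (XT.lf (nat_lit 0) (nat_lit 485606442339) (nat_lit 152) (nat_lit 285597521131) (nat_lit 0) (nat_lit 168789890302) (nat_lit 17) (nat_lit 5) (nat_lit 19) (nat_lit 4) (nat_lit 17) (nat_lit 4) (nat_lit 488) (nat_lit 441) (nat_lit 271)) (XT.nd (nat_lit 78) (nat_lit 0) (nat_lit 0) (XT.lf (nat_lit 0) (nat_lit 164565391512) (nat_lit 76) (nat_lit 574128616052) (nat_lit 76) (nat_lit 257312015213) (nat_lit 16) (nat_lit 4) (nat_lit 17) (nat_lit 5) (nat_lit 17) (nat_lit 4) (nat_lit 489) (nat_lit 441) (nat_lit 270)) (XT.lf (nat_lit 0) (nat_lit 666983376112) (nat_lit 76) (nat_lit 352853870853) (nat_lit 76) (nat_lit 36037224827) (nat_lit 16) (nat_lit 4) (nat_lit 17) (nat_lit 5) (nat_lit 17) (nat_lit 4) (nat_lit 490) (nat_lit 441) (nat_lit 269))))))))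
noncomputable def xc191 : XT := (XT.nd (nat_lit 1794) (nat_lit 152) (nat_lit 0) (XT.nd (nat_lit 858) (nat_lit 380) (nat_lit 0) (XT.nd (nat_lit 390) (nat_lit 304) (nat_lit 0) (XT.nd (nat_lit 156) (nat_lit 76) (nat_lit 0) (XT.nd (nat_lit 78) (nat_lit 0) (nat_lit 0) (XT.lf (nat_lit 0) (nat_lit 88614415611) (nat_lit 76) (nat_lit 106304384137) (nat_lit 152) (nat_lit 925052652176) (nat_lit 14) (nat_lit 5) (nat_lit 15) (nat_lit 5) (nat_lit 16) (nat_lit 4) (nat_lit 491) (nat_lit 441) (nat_lit 268)) (XT.lf (nat_lit 0) (nat_lit 457160703304) (nat_lit 152) (nat_lit 566968214794) (nat_lit 0) (nat_lit 163811882372) (nat_lit 14) (nat_lit 5) (nat_lit 16) (nat_lit 4) (nat_lit 14) (nat_lit 4) (nat_lit 492) (nat_lit 441) (nat_lit 267))) (XT.nd (nat_lit 78) (nat_lit 76) (nat_lit 0) (XT.lf (nat_lit 0) (nat_lit 743143047717) (nat_lit 152) (nat_lit 68189568532) (nat_lit 0) (nat_lit 449794193571) (nat_lit 14)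 (nat_lit 5) (nat_lit 16) (nat_lit 4) (nat_lit 14) (nat_lit 4) (nat_lit 493) (nat_lit 441) (nat_lit 266)) (XT.nd (nat_lit 78) (nat_lit 0) (nat_lit 0) (XT.lf (nat_lit 0) (nat_lit 495266486260) (nat_lit 76) (nat_lit 568648604824) (nat_lit 76) (nat_lit 275299719925) (nat_lit 13) (nat_lit 4) (nat_lit 14) (nat_lit 5) (nat_lit 14) (nat_lit 4) (nat_lit 494) (nat_lit 441) (nat_lit 265)) (XT.lf (nat_lit 0) (nat_lit 1107676910972) (nat_lit 76) (nat_lit 304536352719) (nat_lit 76) (nat_lit 11187439344) (nat_lit 13) (nat_lit 4) (nat_lit 14) (nat_lit 5) (nat_lit 14) (nat_lit 4) (nat_lit 495) (nat_lit 441) (nat_lit 264))))) (XT.nd (nat_lit 234) (nat_lit 152) (nat_lit 0) (XT.nd (nat_lit 78) (nat_lit 0) (nat_lit 0) (XT.lf (nat_lit 0) (nat_lit 261235657818) (nat_lit 76) (nat_lit 5391552546) (nat_lit 152) (nat_lit 1246664362469) (nat_lit 11) (nat_lit 5) (nat_lit 12) (nat_lit 5) (nat_lit 13) (nat_lit 4) (nat_lit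 496) (nat_lit 441) (nat_lit 263)) (XT.nd (nat_lit 78) (nat_lit 0) (nat_lit 0) (XT.lf (nat_lit 0) (nat_lit 582559560217) (nat_lit 152) (nat_lit 715531001173) (nat_lit 0) (nat_lit 310940148964) (nat_lit 11) (nat_lit 5) (nat_lit 13) (nat_lit 4) (nat_lit 11) (nat_lit 4) (nat_lit 497) (nat_lit 441) (nat_lit 262)) (XT.lf (nat_lit 0) (nat_lit 923906487660) (nat_lit 152) (nat_lit 136224236573) (nat_lit 0) (nat_lit 652287055476) (nat_lit 11) (nat_lit 5) (nat_lit 13) (nat_lit 4) (nat_lit 11) (nat_lit 4) (nat_lit 498) (nat_lit 441) (nat_lit 261)))) (XT.nd (nat_lit 78) (nat_lit 76) (nat_lit 0) (XT.lf (nat_lit 0) (nat_lit 515199331875) (nat_lit 76) (nat_lit 789752346779) (nat_lit 76) (nat_lit 518132895215) (nat_lit 10) (nat_lit 4) (nat_lit 11) (nat_lit 5) (nat_lit 11) (nat_lit 4) (nat_lit 499) (nat_lit 441) (nat_lit 260)) (XT.nd (nat_lit 78) (nat_lit 76) (nat_lit 0) (XT.lf (nat_lit 0) (nat_lit 1226483886763)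 (nat_lit 76) (nat_lit 493721164501) (nat_lit 76) (nat_lit 222101694993) (nat_lit 10) (nat_lit 4) (nat_lit 11) (nat_lit 5) (nat_lit 11) (nat_lit 4) (nat_lit 500) (nat_lit 441) (nat_lit 259)) (XT.lf (nat_lit 0) (nat_lit 92729010195) (nat_lit 152) (nat_lit 78743144915) (nat_lit 76) (nat_lit 1899406735121) (nat_lit 9) (nat_lit 5) (nat_lit 11) (nat_lit 5) (nat_lit 10) (nat_lit 4) (nat_lit 501) (nat_lit 441) (nat_lit 258)))))) (XT.nd (nat_lit 468) (nat_lit 228) (nat_lit 0) (XT.nd (nat_lit 234) (nat_lit 76) (nat_lit 0) (XT.nd (nat_lit 78) (nat_lit 0) (nat_lit 0) (XT.lf (nat_lit 0) (nat_lit 440819113358) (nat_lit 152) (nat_lit 1577530831273) (nat_lit 0) (nat_lit 189319574924) (nat_lit 8) (nat_lit 5) (nat_lit 10) (nat_lit 4) (nat_lit 8) (nat_lit 4) (nat_lit 502) (nat_lit 441) (nat_lit 257)) (XT.nd (nat_lit 78) (nat_lit 0) (nat_lit 0) (XT.lf (nat_lit 0) (nat_lit 823419105511) (nat_lit 152) (nat_lit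 959531725367) (nat_lit 0) (nat_lit 571919553888) (nat_lit 8) (nat_lit 5) (nat_lit 10) (nat_lit 4) (nat_lit 8) (nat_lit 4) (nat_lit 503) (nat_lit 441) (nat_lit 256)) (XT.lf (nat_lit 0) (nat_lit 1236627059923) (nat_lit 152) (nat_lit 292092766156) (nat_lit 0) (nat_lit 985127496087) (nat_lit 8) (nat_lit 5) (nat_lit 10) (nat_lit 4) (nat_lit 8) (nat_lit 4) (nat_lit 504) (nat_lit 441) (nat_lit 255)))) (XT.nd (nat_lit 78) (nat_lit 0) (nat_lit 0) (XT.lf (nat_lit 0) (nat_lit 451317994107) (nat_lit 76) (nat_lit 1242427830828) (nat_lit 76) (nat_lit 990928255684) (nat_lit 7) (nat_lit 4) (nat_lit 8) (nat_lit 5) (nat_lit 8) (nat_lit 4) (nat_lit 505) (nat_lit 441) (nat_lit 254)) (XT.nd (nat_lit 78) (nat_lit 0) (nat_lit 0) (XT.lf (nat_lit 0) (nat_lit 1270813121783) (nat_lit 76) (nat_lit 924607269774) (nat_lit 76) (nat_lit 673107684160) (nat_lit 7) (nat_lit 4) (nat_lit 8) (nat_lit 5) (nat_lit 8) (nat_lit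 4) (nat_lit 506) (nat_lit 441) (nat_lit 253)) (XT.lf (nat_lit 0) (nat_lit 2155867796861) (nat_lit 76) (nat_lit 581361095675) (nat_lit 76) (nat_lit 329861500366) (nat_lit 7) (nat_lit 4) (nat_lit 8) (nat_lit 5) (nat_lit 8) (nat_lit 4) (nat_lit 507) (nat_lit 441) (nat_lit 252))))) (XT.nd (nat_lit 234) (nat_lit 76) (nat_lit 0) (XT.nd (nat_lit 78) (nat_lit 76) (nat_lit 0) (XT.lf (nat_lit 0) (nat_lit 38801147491) (nat_lit 152) (nat_lit 170793217503) (nat_lit 76) (nat_lit 3071864748161) (nat_lit 6) (nat_lit 5) (nat_lit 8) (nat_lit 5) (nat_lit 7) (nat_lit 4) (nat_lit 508) (nat_lit 441) (nat_lit 251)) (XT.nd (nat_lit 78) (nat_lit 0) (nat_lit 0) (XT.lf (nat_lit 0) (nat_lit 440085517166) (nat_lit 152) (nat_lit 2863314897957) (nat_lit 0) (nat_lit 207215505503) (nat_lit 5) (nat_lit 5) (nat_lit 7) (nat_lit 4) (nat_lit 5) (nat_lit 4) (nat_lit 509) (nat_lit 441) (nat_lit 250)) (XT.lf (nat_lit 0) (nat_lit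 883707701181) (nat_lit 152) (nat_lit 2222741083945) (nat_lit 0) (nat_lit 650837682391) (nat_lit 5) (nat_lit 5) (nat_lit 7) (nat_lit 4) (nat_lit 5) (nat_lit 4) (nat_lit 510) (nat_lit 441) (nat_lit 249)))) (XT.nd (nat_lit 78) (nat_lit 76) (nat_lit 0) (XT.lf (nat_lit 0) (nat_lit 1362819634748) (nat_lit 152) (nat_lit 1530921416063) (nat_lit 0) (nat_lit 1129949609360) (nat_lit 5) (nat_lit 5) (nat_lit 7) (nat_lit 4) (nat_lit 5) (nat_lit 4) (nat_lit 511) (nat_lit 441) (nat_lit 248)) (XT.nd (nat_lit 78) (nat_lit 76) (nat_lit 0) (XT.lf (nat_lit 0) (nat_lit 1880260499698) (nat_lit 152) (nat_lit 783756222207) (nat_lit 0) (nat_lit 1647390468201) (nat_lit 5) (nat_lit 5) (nat_lit 7) (nat_lit 4) (nat_lit 5) (nat_lit 4) (nat_lit 512) (nat_lit 441) (nat_lit 247)) (XT.lf (nat_lit 0) (nat_lit 24402873798) (nat_lit 76) (nat_lit 2415280628170) (nat_lit 76) (nat_lit 2182410591016) (nat_lit 4) (nat_lit 4) (nat_lit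 5) (nat_lit 5) (nat_lit 5) (nat_lit 4) (nat_lit 513) (nat_lit 441) (nat_lit 246))))))) (XT.nd (nat_lit 56940) (nat_lit 0) (nat_lit 3876) (XT.nd (nat_lit 390) (nat_lit 152) (nat_lit 0) (XT.nd (nat_lit 156) (nat_lit 0) (nat_lit 0) (XT.nd (nat_lit 78) (nat_lit 0) (nat_lit 0) (XT.lf (nat_lit 0) (nat_lit 941787565480) (nat_lit 76) (nat_lit 2123502041981) (nat_lit 76) (nat_lit 1890631999589) (nat_lit 4) (nat_lit 4) (nat_lit 5) (nat_lit 5) (nat_lit 5) (nat_lit 4) (nat_lit 514) (nat_lit 441) (nat_lit 245)) (XT.lf (nat_lit 0) (nat_lit 1932562992842) (nat_lit 76) (nat_lit 1808381189099) (nat_lit 76) (nat_lit 1575511141857) (nat_lit 4) (nat_lit 4) (nat_lit 5) (nat_lit 5) (nat_lit 5) (nat_lit 4) (nat_lit 515) (nat_lit 441) (nat_lit 244))) (XT.nd (nat_lit 78) (nat_lit 0) (nat_lit 0) (XT.lf (nat_lit 0) (nat_lit 3002600417675) (nat_lit 76) (nat_lit 1468050686692) (nat_lit 76) (nat_lit 1235180634960) (nat_lit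 4) (nat_lit 4) (nat_lit 5) (nat_lit 5) (nat_lit 5) (nat_lit 4) (nat_lit 516) (nat_lit 441) (nat_lit 243)) (XT.nd (nat_lit 78) (nat_lit 0) (nat_lit 0) (XT.lf (nat_lit 0) (nat_lit 4158240802497) (nat_lit 76) (nat_lit 1100493761414) (nat_lit 76) (nat_lit 867623705524) (nat_lit 4) (nat_lit 4) (nat_lit 5) (nat_lit 5) (nat_lit 5) (nat_lit 4) (nat_lit 517) (nat_lit 441) (nat_lit 242)) (XT.lf (nat_lit 0) (nat_lit 5406332386625) (nat_lit 76) (nat_lit 703532298151) (nat_lit 76) (nat_lit 470662238411) (nat_lit 4) (nat_lit 4) (nat_lit 5) (nat_lit 5) (nat_lit 5) (nat_lit 4) (nat_lit 518) (nat_lit 441) (nat_lit 241))))) (XT.nd (nat_lit 234) (nat_lit 0) (nat_lit 0) (XT.nd (nat_lit 78) (nat_lit 152) (nat_lit 0) (XT.lf (nat_lit 0) (nat_lit 6754271268335) (nat_lit 76) (nat_lit 274813932675) (nat_lit 76) (nat_lit 41943869371) (nat_lit 4) (nat_lit 4) (nat_lit 5) (nat_lit 5) (nat_lit 5) (nat_lit 4) (nat_lit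 519) (nat_lit 441) (nat_lit 240)) (XT.nd (nat_lit 78) (nat_lit 0) (nat_lit 0) (XT.lf (nat_lit 0) (nat_lit 420359784925) (nat_lit 152) (nat_lit 6973233984988) (nat_lit 0) (nat_lit 204739352883) (nat_lit 2) (nat_lit 5) (nat_lit 4) (nat_lit 4) (nat_lit 2) (nat_lit 4) (nat_lit 520) (nat_lit 441) (nat_lit 239)) (XT.lf (nat_lit 0) (nat_lit 933405357243) (nat_lit 152) (nat_lit 6515262168970) (nat_lit 0) (nat_lit 717784922371) (nat_lit 2) (nat_lit 5) (nat_lit 4) (nat_lit 4) (nat_lit 2) (nat_lit 4) (nat_lit 521) (nat_lit 441) (nat_lit 238)))) (XT.nd (nat_lit 78) (nat_lit 0) (nat_lit 0) (XT.lf (nat_lit 0) (nat_lit 1487494562794) (nat_lit 152) (nat_lit 6020652633347) (nat_lit 0) (nat_lit 1271874125302) (nat_lit 2) (nat_lit 5) (nat_lit 4) (nat_lit 4) (nat_lit 2) (nat_lit 4) (nat_lit 522) (nat_lit 441) (nat_lit 237)) (XT.nd (nat_lit 56160) (nat_lit 0) (nat_lit 5092) (XT.lf (nat_lit 0) (nat_lit 2085910893164)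 (nat_lit 152) (nat_lit 5486474358648) (nat_lit 0) (nat_lit 1870290453246) (nat_lit 2) (nat_lit 5) (nat_lit 4) (nat_lit 4) (nat_lit 2) (nat_lit 4) (nat_lit 523) (nat_lit 441) (nat_lit 236)) (XT.lf (nat_lit 0) (nat_lit 47188260238) (nat_lit 532) (nat_lit 2155492093) (nat_lit 532) (nat_lit 2155492093) (nat_lit 69) (nat_lit 3) (nat_lit 76) (nat_lit 3) (nat_lit 76) (nat_lit 5) (nat_lit 442) (nat_lit 442) (nat_lit 316)))))) (XT.nd (nat_lit 468) (nat_lit 760) (nat_lit 0) (XT.nd (nat_lit 234) (nat_lit 456) (nat_lit 0) (XT.nd (nat_lit 78) (nat_lit 0) (nat_lit 76) (XT.lf (nat_lit 76) (nat_lit 48590719360) (nat_lit 0) (nat_lit 50735259347) (nat_lit 532) (nat_lit 7698494006) (nat_lit 70) (nat_lit 5) (nat_lit 69) (nat_lit 3) (nat_lit 76) (nat_lit 5) (nat_lit 443) (nat_lit 442) (nat_lit 315)) (XT.nd (nat_lit 78) (nat_lit 0) (nat_lit 0) (XT.lf (nat_lit 0) (nat_lit 104817072812) (nat_lit 456) (nat_lit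 5422150242) (nat_lit 532) (nat_lit 1121658288) (nat_lit 70) (nat_lit 5) (nat_lit 76) (nat_lit 5) (nat_lit 77) (nat_lit 5) (nat_lit 444) (nat_lit 442) (nat_lit 314)) (XT.lf (nat_lit 76) (nat_lit 53172111917) (nat_lit 0) (nat_lit 60171394126) (nat_lit 532) (nat_lit 2493012850) (nat_lit 71) (nat_lit 5) (nat_lit 70) (nat_lit 5) (nat_lit 77) (nat_lit 5) (nat_lit 445) (nat_lit 442) (nat_lit 313)))) (XT.nd (nat_lit 78) (nat_lit 0) (nat_lit 76) (XT.lf (nat_lit 0) (nat_lit 1939290924) (nat_lit 532) (nat_lit 3945552297) (nat_lit 608) (nat_lit 114769617298) (nat_lit 63) (nat_lit 5) (nat_lit 70) (nat_lit 5) (nat_lit 71) (nat_lit 5) (nat_lit 446) (nat_lit 442) (nat_lit 312)) (XT.nd (nat_lit 78) (nat_lit 0) (nat_lit 0) (XT.lf (nat_lit 0) (nat_lit 9404210538) (nat_lit 532) (nat_lit 64507727911) (nat_lit 608) (nat_lit 51715701508) (nat_lit 64) (nat_lit 5) (nat_lit 71) (nat_lit 5) (nat_lit 72) (nat_lit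 5) (nat_lit 447) (nat_lit 442) (nat_lit 311)) (XT.lf (nat_lit 76) (nat_lit 493618481) (nat_lit 0) (nat_lit 17247659290) (nat_lit 608) (nat_lit 113235399920) (nat_lit 65) (nat_lit 5) (nat_lit 64) (nat_lit 5) (nat_lit 72) (nat_lit 5) (nat_lit 448) (nat_lit 442) (nat_lit 310))))) (XT.nd (nat_lit 234) (nat_lit 456) (nat_lit 0) (XT.nd (nat_lit 78) (nat_lit 456) (nat_lit 0) (XT.lf (nat_lit 0) (nat_lit 29611445689) (nat_lit 532) (nat_lit 63352061022) (nat_lit 76) (nat_lit 43560841154) (nat_lit 65) (nat_lit 5) (nat_lit 72) (nat_lit 5) (nat_lit 66) (nat_lit 5) (nat_lit 449) (nat_lit 442) (nat_lit 309)) (XT.nd (nat_lit 78) (nat_lit 0) (nat_lit 0) (XT.lf (nat_lit 0) (nat_lit 9159235144) (nat_lit 456) (nat_lit 33939869385) (nat_lit 532) (nat_lit 99363297152) (nat_lit 59) (nat_lit 5) (nat_lit 65) (nat_lit 5) (nat_lit 66) (nat_lit 5) (nat_lit 450) (nat_lit 442) (nat_lit 308)) (XT.lf (nat_lit 0) (nat_lit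 60159378772) (nat_lit 532) (nat_lit 58424815883) (nat_lit 76) (nat_lit 30091817142) (nat_lit 59) (nat_lit 5) (nat_lit 66) (nat_lit 5) (nat_lit 60) (nat_lit 5) (nat_lit 451) (nat_lit 442) (nat_lit 307)))) (XT.nd (nat_lit 78) (nat_lit 228) (nat_lit 0) (XT.lf (nat_lit 0) (nat_lit 22697293878) (nat_lit 228) (nat_lit 57314261364) (nat_lit 304) (nat_lit 75260989251) (nat_lit 56) (nat_lit 5) (nat_lit 59) (nat_lit 5) (nat_lit 60) (nat_lit 5) (nat_lit 452) (nat_lit 442) (nat_lit 306)) (XT.nd (nat_lit 78) (nat_lit 228) (nat_lit 0) (XT.lf (nat_lit 0) (nat_lit 103303524360) (nat_lit 304) (nat_lit 48892051688) (nat_lit 76) (nat_lit 10053094457) (nat_lit 56) (nat_lit 5) (nat_lit 60) (nat_lit 5) (nat_lit 57) (nat_lit 5) (nat_lit 453) (nat_lit 442) (nat_lit 305)) (XT.lf (nat_lit 0) (nat_lit 42102927179) (nat_lit 228) (nat_lit 88856877864) (nat_lit 304) (nat_lit 38623005399) (nat_lit 53) (nat_lit 5) (nat_lit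 56) (nat_lit 5) (nat_lit 57) (nat_lit 5) (nat_lit 454) (nat_lit 442) (nat_lit 304))))))))
noncomputable def xc192 : XT := (XT.nd (nat_lit 1716) (nat_lit 1216) (nat_lit 0) (XT.nd (nat_lit 858) (nat_lit 836) (nat_lit 0) (XT.nd (nat_lit 390) (nat_lit 532) (nat_lit 0) (XT.nd (nat_lit 156) (nat_lit 380) (nat_lit 0) (XT.nd (nat_lit 78) (nat_lit 228) (nat_lit 0) (XT.lf (nat_lit 0) (nat_lit 143157694793) (nat_lit 228) (nat_lit 19007398522) (nat_lit 304) (nat_lit 15231668001) (nat_lit 53) (nat_lit 5) (nat_lit 56) (nat_lit 5) (nat_lit 57) (nat_lit 5) (nat_lit 455) (nat_lit 442) (nat_lit 303)) (XT.lf (nat_lit 0) (nat_lit 12612304418) (nat_lit 228) (nat_lit 117382952496) (nat_lit 76) (nat_lit 55574622415) (nat_lit 50) (nat_lit 5) (nat_lit 53) (nat_lit 5) (nat_lit 51) (nat_lit 5) (nat_lit 456) (nat_lit 442) (nat_lit 302))) (XT.nd (nat_lit 78) (nat_lit 380) (nat_lit 0) (XT.lf (nat_lit 0) (nat_lit 43314795435)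 (nat_lit 228) (nat_lit 14481735014) (nat_lit 76) (nat_lit 136452353716) (nat_lit 50) (nat_lit 5) (nat_lit 53) (nat_lit 5) (nat_lit 51) (nat_lit 5) (nat_lit 457) (nat_lit 442) (nat_lit 301)) (XT.nd (nat_lit 78) (nat_lit 152) (nat_lit 0) (XT.lf (nat_lit 0) (nat_lit 79468944905) (nat_lit 304) (nat_lit 102234571415) (nat_lit 76) (nat_lit 21679056449) (nat_lit 47) (nat_lit 5) (nat_lit 51) (nat_lit 5) (nat_lit 48) (nat_lit 5) (nat_lit 458) (nat_lit 442) (nat_lit 300)) (XT.lf (nat_lit 0) (nat_lit 12763065058) (nat_lit 152) (nat_lit 107966526532) (nat_lit 228) (nat_lit 92340231756) (nat_lit 45) (nat_lit 5) (nat_lit 47) (nat_lit 5) (nat_lit 48) (nat_lit 5) (nat_lit 459) (nat_lit 442) (nat_lit 299))))) (XT.nd (nat_lit 234) (nat_lit 304) (nat_lit 0) (XT.nd (nat_lit 78) (nat_lit 228) (nat_lit 0) (XT.lf (nat_lit 0) (nat_lit 142774363647) (nat_lit 152) (nat_lit 25311774310) (nat_lit 228) (nat_lit 55222312273)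 (nat_lit 45) (nat_lit 5) (nat_lit 47) (nat_lit 5) (nat_lit 48) (nat_lit 5) (nat_lit 460) (nat_lit 442) (nat_lit 298)) (XT.nd (nat_lit 78) (nat_lit 76) (nat_lit 0) (XT.lf (nat_lit 0) (nat_lit 49771744607) (nat_lit 152) (nat_lit 172194391270) (nat_lit 228) (nat_lit 12181237251) (nat_lit 43) (nat_lit 5) (nat_lit 45) (nat_lit 5) (nat_lit 46) (nat_lit 5) (nat_lit 461) (nat_lit 442) (nat_lit 297)) (XT.lf (nat_lit 0) (nat_lit 35503520618) (nat_lit 228) (nat_lit 52135113925) (nat_lit 76) (nat_lit 157915465874) (nat_lit 42) (nat_lit 5) (nat_lit 45) (nat_lit 5) (nat_lit 43) (nat_lit 5) (nat_lit 462) (nat_lit 442) (nat_lit 296)))) (XT.nd (nat_lit 78) (nat_lit 152) (nat_lit 0) (XT.lf (nat_lit 0) (nat_lit 88788740206) (nat_lit 228) (nat_lit 162694655307) (nat_lit 76) (nat_lit 6169156042) (nat_lit 40) (nat_lit 5) (nat_lit 43) (nat_lit 5) (nat_lit 41) (nat_lit 5) (nat_lit 463) (nat_lit 442) (nat_lit 295))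 (XT.nd (nat_lit 78) (nat_lit 152) (nat_lit 0) (XT.lf (nat_lit 0) (nat_lit 150075408982) (nat_lit 228) (nat_lit 16135173155) (nat_lit 76) (nat_lit 104209206185) (nat_lit 40) (nat_lit 5) (nat_lit 43) (nat_lit 5) (nat_lit 41) (nat_lit 5) (nat_lit 464) (nat_lit 442) (nat_lit 294)) (XT.lf (nat_lit 0) (nat_lit 149634097273) (nat_lit 152) (nat_lit 70229443500) (nat_lit 228) (nat_lit 64056980958) (nat_lit 38) (nat_lit 5) (nat_lit 40) (nat_lit 5) (nat_lit 41) (nat_lit 5) (nat_lit 465) (nat_lit 442) (nat_lit 293)))))) (XT.nd (nat_lit 390) (nat_lit 456) (nat_lit 0) (XT.nd (nat_lit 156) (nat_lit 228) (nat_lit 0) (XT.nd (nat_lit 78) (nat_lit 76) (nat_lit 0) (XT.lf (nat_lit 0) (nat_lit 31896361851) (nat_lit 76) (nat_lit 265361919310) (nat_lit 152) (nat_lit 1081148061) (nat_lit 37) (nat_lit 5) (nat_lit 38) (nat_lit 5) (nat_lit 39) (nat_lit 4) (nat_lit 466) (nat_lit 442) (nat_lit 292)) (XT.lf (nat_lit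 0) (nat_lit 69175473086) (nat_lit 152) (nat_lit 98136882533) (nat_lit 76) (nat_lit 146023437488) (nat_lit 36) (nat_lit 5) (nat_lit 38) (nat_lit 5) (nat_lit 37) (nat_lit 5) (nat_lit 467) (nat_lit 442) (nat_lit 291))) (XT.nd (nat_lit 78) (nat_lit 76) (nat_lit 0) (XT.lf (nat_lit 0) (nat_lit 88007971333) (nat_lit 152) (nat_lit 59102680540) (nat_lit 228) (nat_lit 182249652691) (nat_lit 34) (nat_lit 5) (nat_lit 36) (nat_lit 5) (nat_lit 37) (nat_lit 5) (nat_lit 468) (nat_lit 442) (nat_lit 290)) (XT.nd (nat_lit 78) (nat_lit 76) (nat_lit 0) (XT.lf (nat_lit 0) (nat_lit 235422642924) (nat_lit 228) (nat_lit 53285749729) (nat_lit 76) (nat_lit 57627024489) (nat_lit 34) (nat_lit 5) (nat_lit 37) (nat_lit 5) (nat_lit 35) (nat_lit 4) (nat_lit 469) (nat_lit 442) (nat_lit 289)) (XT.lf (nat_lit 0) (nat_lit 156099512961) (nat_lit 76) (nat_lit 179989270421) (nat_lit 152) (nat_lit 28156620175) (nat_lit 33) (nat_lit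 5) (nat_lit 34) (nat_lit 5) (nat_lit 35) (nat_lit 4) (nat_lit 470) (nat_lit 442) (nat_lit 288))))) (XT.nd (nat_lit 234) (nat_lit 152) (nat_lit 0) (XT.nd (nat_lit 78) (nat_lit 76) (nat_lit 0) (XT.lf (nat_lit 0) (nat_lit 298892117) (nat_lit 152) (nat_lit 59360477595) (nat_lit 228) (nat_lit 323690886382) (nat_lit 30) (nat_lit 5) (nat_lit 32) (nat_lit 5) (nat_lit 33) (nat_lit 5) (nat_lit 471) (nat_lit 442) (nat_lit 287)) (XT.nd (nat_lit 78) (nat_lit 76) (nat_lit 0) (XT.lf (nat_lit 0) (nat_lit 160523804095) (nat_lit 228) (nat_lit 168856513709) (nat_lit 76) (nat_lit 73941123469) (nat_lit 30) (nat_lit 5) (nat_lit 33) (nat_lit 5) (nat_lit 31) (nat_lit 4) (nat_lit 472) (nat_lit 442) (nat_lit 286)) (XT.lf (nat_lit 0) (nat_lit 64140430027) (nat_lit 76) (nat_lit 208401244837) (nat_lit 152) (nat_lit 152101903899) (nat_lit 29) (nat_lit 5) (nat_lit 30) (nat_lit 5) (nat_lit 31) (nat_lit 4) (nat_lit 473)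 (nat_lit 442) (nat_lit 285)))) (XT.nd (nat_lit 78) (nat_lit 152) (nat_lit 0) (XT.lf (nat_lit 0) (nat_lit 325379926542) (nat_lit 76) (nat_lit 72757761365) (nat_lit 152) (nat_lit 49164462362) (nat_lit 29) (nat_lit 5) (nat_lit 30) (nat_lit 5) (nat_lit 31) (nat_lit 4) (nat_lit 474) (nat_lit 442) (nat_lit 284)) (XT.nd (nat_lit 78) (nat_lit 0) (nat_lit 0) (XT.lf (nat_lit 0) (nat_lit 64205189313) (nat_lit 152) (nat_lit 331959372263) (nat_lit 76) (nat_lit 75065614094) (nat_lit 27) (nat_lit 5) (nat_lit 29) (nat_lit 5) (nat_lit 28) (nat_lit 4) (nat_lit 475) (nat_lit 442) (nat_lit 283)) (XT.lf (nat_lit 0) (nat_lit 189298106985) (nat_lit 152) (nat_lit 71766270698) (nat_lit 76) (nat_lit 235481117373) (nat_lit 27) (nat_lit 5) (nat_lit 29) (nat_lit 5) (nat_lit 28) (nat_lit 4) (nat_lit 476) (nat_lit 442) (nat_lit 282))))))) (XT.nd (nat_lit 858) (nat_lit 532) (nat_lit 0) (XT.nd (nat_lit 390) (nat_lit 380)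 (nat_lit 0) (XT.nd (nat_lit 156) (nat_lit 228) (nat_lit 0) (XT.nd (nat_lit 78) (nat_lit 0) (nat_lit 0) (XT.lf (nat_lit 0) (nat_lit 220260398454) (nat_lit 76) (nat_lit 109435220051) (nat_lit 152) (nat_lit 193766648673) (nat_lit 26) (nat_lit 5) (nat_lit 27) (nat_lit 5) (nat_lit 28) (nat_lit 4) (nat_lit 477) (nat_lit 442) (nat_lit 281)) (XT.lf (nat_lit 0) (nat_lit 484644508395) (nat_lit 152) (nat_lit 14002456784) (nat_lit 0) (nat_lit 53619849712) (nat_lit 26) (nat_lit 5) (nat_lit 28) (nat_lit 4) (nat_lit 26) (nat_lit 4) (nat_lit 478) (nat_lit 442) (nat_lit 280))) (XT.nd (nat_lit 78) (nat_lit 76) (nat_lit 0) (XT.lf (nat_lit 0) (nat_lit 75772527956) (nat_lit 152) (nat_lit 273417923423) (nat_lit 76) (nat_lit 233205960454) (nat_lit 24) (nat_lit 5) (nat_lit 26) (nat_lit 5) (nat_lit 25) (nat_lit 4) (nat_lit 479) (nat_lit 442) (nat_lit 279)) (XT.nd (nat_lit 78) (nat_lit 0) (nat_lit 0) (XT.lf (nat_lit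 0) (nat_lit 44129475605) (nat_lit 76) (nat_lit 184310125821) (nat_lit 152) (nat_lit 386239940177) (nat_lit 23) (nat_lit 5) (nat_lit 24) (nat_lit 5) (nat_lit 25) (nat_lit 4) (nat_lit 480) (nat_lit 442) (nat_lit 278)) (XT.lf (nat_lit 0) (nat_lit 400839792030) (nat_lit 152) (nat_lit 246361380499) (nat_lit 0) (nat_lit 1742569139) (nat_lit 23) (nat_lit 5) (nat_lit 25) (nat_lit 4) (nat_lit 23) (nat_lit 4) (nat_lit 481) (nat_lit 442) (nat_lit 277))))) (XT.nd (nat_lit 234) (nat_lit 152) (nat_lit 0) (XT.nd (nat_lit 78) (nat_lit 152) (nat_lit 0) (XT.lf (nat_lit 0) (nat_lit 104186797566) (nat_lit 76) (nat_lit 490138081456) (nat_lit 76) (nat_lit 91040768236) (nat_lit 22) (nat_lit 4) (nat_lit 23) (nat_lit 5) (nat_lit 23) (nat_lit 4) (nat_lit 482) (nat_lit 442) (nat_lit 276)) (XT.nd (nat_lit 78) (nat_lit 76) (nat_lit 0) (XT.lf (nat_lit 0) (nat_lit 81567031420) (nat_lit 152) (nat_lit 229437971502) (nat_lit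 76) (nat_lit 412992233771) (nat_lit 21) (nat_lit 5) (nat_lit 23) (nat_lit 5) (nat_lit 22) (nat_lit 4) (nat_lit 483) (nat_lit 442) (nat_lit 275)) (XT.lf (nat_lit 0) (nat_lit 155874811567) (nat_lit 76) (nat_lit 110938787407) (nat_lit 152) (nat_lit 498416681890) (nat_lit 20) (nat_lit 5) (nat_lit 21) (nat_lit 5) (nat_lit 22) (nat_lit 4) (nat_lit 484) (nat_lit 442) (nat_lit 274)))) (XT.nd (nat_lit 78) (nat_lit 152) (nat_lit 0) (XT.lf (nat_lit 0) (nat_lit 475844436298) (nat_lit 152) (nat_lit 226890697251) (nat_lit 0) (nat_lit 106309671478) (nat_lit 20) (nat_lit 5) (nat_lit 22) (nat_lit 4) (nat_lit 20) (nat_lit 4) (nat_lit 485) (nat_lit 442) (nat_lit 273)) (XT.nd (nat_lit 78) (nat_lit 76) (nat_lit 0) (XT.lf (nat_lit 0) (nat_lit 192941285936) (nat_lit 76) (nat_lit 516178148013) (nat_lit 76) (nat_lit 146643321716) (nat_lit 19) (nat_lit 4) (nat_lit 20) (nat_lit 5) (nat_lit 20) (nat_lit 4) (nat_lit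 486) (nat_lit 442) (nat_lit 272)) (XT.lf (nat_lit 0) (nat_lit 58459705862) (nat_lit 152) (nat_lit 247938695024) (nat_lit 76) (nat_lit 599205060492) (nat_lit 18) (nat_lit 5) (nat_lit 20) (nat_lit 5) (nat_lit 19) (nat_lit 4) (nat_lit 487) (nat_lit 442) (nat_lit 271)))))) (XT.nd (nat_lit 468) (nat_lit 228) (nat_lit 0) (XT.nd (nat_lit 234) (nat_lit 152) (nat_lit 0) (XT.nd (nat_lit 78) (nat_lit 76) (nat_lit 0) (XT.lf (nat_lit 0) (nat_lit 206663807377) (nat_lit 76) (nat_lit 70354819210) (nat_lit 152) (nat_lit 681710467633) (nat_lit 17) (nat_lit 5) (nat_lit 18) (nat_lit 5) (nat_lit 19) (nat_lit 4) (nat_lit 488) (nat_lit 442) (nat_lit 270)) (XT.nd (nat_lit 78) (nat_lit 76) (nat_lit 0) (XT.lf (nat_lit 0) (nat_lit 524456321489) (nat_lit 152) (nat_lit 308442632772) (nat_lit 0) (nat_lit 182294298593) (nat_lit 17) (nat_lit 5) (nat_lit 19) (nat_lit 4) (nat_lit 17) (nat_lit 4) (nat_lit 489) (nat_lit 442)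 (nat_lit 269)) (XT.lf (nat_lit 0) (nat_lit 177733244781) (nat_lit 76) (nat_lit 620057609190) (nat_lit 76) (nat_lit 277895544455) (nat_lit 16) (nat_lit 4) (nat_lit 17) (nat_lit 5) (nat_lit 17) (nat_lit 4) (nat_lit 490) (nat_lit 442) (nat_lit 268)))) (XT.nd (nat_lit 78) (nat_lit 152) (nat_lit 0) (XT.lf (nat_lit 0) (nat_lit 720344473931) (nat_lit 76) (nat_lit 381080980386) (nat_lit 76) (nat_lit 38918876910) (nat_lit 16) (nat_lit 4) (nat_lit 17) (nat_lit 5) (nat_lit 17) (nat_lit 4) (nat_lit 491) (nat_lit 442) (nat_lit 267)) (XT.nd (nat_lit 78) (nat_lit 0) (nat_lit 0) (XT.lf (nat_lit 0) (nat_lit 95705999867) (nat_lit 76) (nat_lit 114807528600) (nat_lit 152) (nat_lit 999055541544) (nat_lit 14) (nat_lit 5) (nat_lit 15) (nat_lit 5) (nat_lit 16) (nat_lit 4) (nat_lit 492) (nat_lit 442) (nat_lit 266)) (XT.lf (nat_lit 0) (nat_lit 493734720449) (nat_lit 152) (nat_lit 612323357103) (nat_lit 0) (nat_lit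 176917894004) (nat_lit 14) (nat_lit 5) (nat_lit 16) (nat_lit 4) (nat_lit 14) (nat_lit 4) (nat_lit 493) (nat_lit 442) (nat_lit 265))))) (XT.nd (nat_lit 234) (nat_lit 152) (nat_lit 0) (XT.nd (nat_lit 78) (nat_lit 76) (nat_lit 0) (XT.lf (nat_lit 0) (nat_lit 802595566423) (nat_lit 152) (nat_lit 73642590613) (nat_lit 0) (nat_lit 485778711503) (nat_lit 14) (nat_lit 5) (nat_lit 16) (nat_lit 4) (nat_lit 14) (nat_lit 4) (nat_lit 494) (nat_lit 442) (nat_lit 264)) (XT.nd (nat_lit 78) (nat_lit 0) (nat_lit 0) (XT.lf (nat_lit 0) (nat_lit 534889894300) (nat_lit 76) (nat_lit 614139449583) (nat_lit 76) (nat_lit 297322568297) (nat_lit 13) (nat_lit 4) (nat_lit 14) (nat_lit 5) (nat_lit 14) (nat_lit 4) (nat_lit 495) (nat_lit 442) (nat_lit 263)) (XT.lf (nat_lit 0) (nat_lit 1196292998237) (nat_lit 76) (nat_lit 328898294615) (nat_lit 76) (nat_lit 12081388916) (nat_lit 13) (nat_lit 4) (nat_lit 14) (nat_lit 5) (nat_lit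 14) (nat_lit 4) (nat_lit 496) (nat_lit 442) (nat_lit 262)))) (XT.nd (nat_lit 78) (nat_lit 0) (nat_lit 0) (XT.lf (nat_lit 0) (nat_lit 282136446897) (nat_lit 76) (nat_lit 5821906564) (nat_lit 152) (nat_lit 1346396467842) (nat_lit 11) (nat_lit 5) (nat_lit 12) (nat_lit 5) (nat_lit 13) (nat_lit 4) (nat_lit 497) (nat_lit 442) (nat_lit 261)) (XT.nd (nat_lit 78) (nat_lit 0) (nat_lit 0) (XT.lf (nat_lit 0) (nat_lit 629165241332) (nat_lit 152) (nat_lit 772771638232) (nat_lit 0) (nat_lit 335816214263) (nat_lit 11) (nat_lit 5) (nat_lit 13) (nat_lit 4) (nat_lit 11) (nat_lit 4) (nat_lit 498) (nat_lit 442) (nat_lit 260)) (XT.lf (nat_lit 0) (nat_lit 997819855096) (nat_lit 152) (nat_lit 147120468986) (nat_lit 0) (nat_lit 704470810083) (nat_lit 11) (nat_lit 5) (nat_lit 13) (nat_lit 4) (nat_lit 11) (nat_lit 4) (nat_lit 499) (nat_lit 442) (nat_lit 259))))))))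
noncomputable def xc193 : XT := (XT.nd (nat_lit 1716) (nat_lit 0) (nat_lit 0) (XT.nd (nat_lit 858) (nat_lit 228) (nat_lit 0) (XT.nd (nat_lit 390) (nat_lit 228) (nat_lit 0) (XT.nd (nat_lit 156) (nat_lit 152) (nat_lit 0) (XT.nd (nat_lit 78) (nat_lit 0) (nat_lit 0) (XT.lf (nat_lit 0) (nat_lit 556416941735) (nat_lit 76) (nat_lit 852931696791) (nat_lit 76) (nat_lit 559582635162) (nat_lit 10) (nat_lit 4) (nat_lit 11) (nat_lit 5) (nat_lit 11) (nat_lit 4) (nat_lit 500) (nat_lit 442) (nat_lit 258)) (XT.lf (nat_lit 0) (nat_lit 1324604137806) (nat_lit 76) (nat_lit 533218081985) (nat_lit 76) (nat_lit 239869004972) (nat_lit 10) (nat_lit 4) (nat_lit 11) (nat_lit 5) (nat_lit 11) (nat_lit 4) (nat_lit 501) (nat_lit 442) (nat_lit 257))) (XT.nd (nat_lit 78) (nat_lit 76) (nat_lit 0) (XT.lf (nat_lit 0) (nat_lit 100148057233) (nat_lit 152) (nat_lit 85041132212) (nat_lit 76) (nat_lit 2051359953873) (nat_lit 9)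 (nat_lit 5) (nat_lit 11) (nat_lit 5) (nat_lit 10) (nat_lit 4) (nat_lit 502) (nat_lit 442) (nat_lit 256)) (XT.nd (nat_lit 78) (nat_lit 0) (nat_lit 0) (XT.lf (nat_lit 0) (nat_lit 476085366506) (nat_lit 152) (nat_lit 1703731831304) (nat_lit 0) (nat_lit 204465825351) (nat_lit 8) (nat_lit 5) (nat_lit 10) (nat_lit 4) (nat_lit 8) (nat_lit 4) (nat_lit 503) (nat_lit 442) (nat_lit 255)) (XT.lf (nat_lit 0) (nat_lit 889293304396) (nat_lit 152) (nat_lit 1036292905553) (nat_lit 0) (nat_lit 617673751933) (nat_lit 8) (nat_lit 5) (nat_lit 10) (nat_lit 4) (nat_lit 8) (nat_lit 4) (nat_lit 504) (nat_lit 442) (nat_lit 254))))) (XT.nd (nat_lit 234) (nat_lit 152) (nat_lit 0) (XT.nd (nat_lit 78) (nat_lit 76) (nat_lit 0) (XT.lf (nat_lit 0) (nat_lit 1335557845498) (nat_lit 152) (nat_lit 315458930186) (nat_lit 0) (nat_lit 1063938282565) (nat_lit 8) (nat_lit 5) (nat_lit 10) (nat_lit 4) (nat_lit 8) (nat_lit 4) (nat_lit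 505) (nat_lit 442) (nat_lit 253)) (XT.nd (nat_lit 78) (nat_lit 0) (nat_lit 0) (XT.lf (nat_lit 0) (nat_lit 487424659069) (nat_lit 76) (nat_lit 1341821436130) (nat_lit 76) (nat_lit 1070201863502) (nat_lit 7) (nat_lit 4) (nat_lit 8) (nat_lit 5) (nat_lit 8) (nat_lit 4) (nat_lit 506) (nat_lit 442) (nat_lit 252)) (XT.lf (nat_lit 0) (nat_lit 1372479306186) (nat_lit 76) (nat_lit 998575276204) (nat_lit 76) (nat_lit 726955694600) (nat_lit 7) (nat_lit 4) (nat_lit 8) (nat_lit 5) (nat_lit 8) (nat_lit 4) (nat_lit 507) (nat_lit 442) (nat_lit 251)))) (XT.nd (nat_lit 78) (nat_lit 152) (nat_lit 0) (XT.lf (nat_lit 0) (nat_lit 2328338271221) (nat_lit 76) (nat_lit 627869450781) (nat_lit 76) (nat_lit 356249860865) (nat_lit 7) (nat_lit 4) (nat_lit 8) (nat_lit 5) (nat_lit 8) (nat_lit 4) (nat_lit 508) (nat_lit 442) (nat_lit 250)) (XT.nd (nat_lit 78) (nat_lit 76) (nat_lit 0) (XT.lf (nat_lit 0) (nat_lit 41905731458)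 (nat_lit 152) (nat_lit 184455676179) (nat_lit 76) (nat_lit 3317614395178) (nat_lit 6) (nat_lit 5) (nat_lit 8) (nat_lit 5) (nat_lit 7) (nat_lit 4) (nat_lit 509) (nat_lit 442) (nat_lit 249)) (XT.lf (nat_lit 0) (nat_lit 475292849550) (nat_lit 152) (nat_lit 3092379089895) (nat_lit 0) (nat_lit 223793215533) (nat_lit 5) (nat_lit 5) (nat_lit 7) (nat_lit 4) (nat_lit 5) (nat_lit 4) (nat_lit 510) (nat_lit 442) (nat_lit 248)))))) (XT.nd (nat_lit 390) (nat_lit 152) (nat_lit 0) (XT.nd (nat_lit 156) (nat_lit 76) (nat_lit 0) (XT.nd (nat_lit 78) (nat_lit 0) (nat_lit 0) (XT.lf (nat_lit 0) (nat_lit 954404771914) (nat_lit 152) (nat_lit 2400559444829) (nat_lit 0) (nat_lit 702905131788) (nat_lit 5) (nat_lit 5) (nat_lit 7) (nat_lit 4) (nat_lit 5) (nat_lit 4) (nat_lit 511) (nat_lit 442) (nat_lit 247)) (XT.lf (nat_lit 0) (nat_lit 1471845626490) (nat_lit 152) (nat_lit 1653394272097) (nat_lit 0) (nat_lit 1220345980707)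 (nat_lit 5) (nat_lit 5) (nat_lit 7) (nat_lit 4) (nat_lit 5) (nat_lit 4) (nat_lit 512) (nat_lit 442) (nat_lit 246))) (XT.nd (nat_lit 78) (nat_lit 76) (nat_lit 0) (XT.lf (nat_lit 0) (nat_lit 2030681729453) (nat_lit 152) (nat_lit 846455926231) (nat_lit 0) (nat_lit 1779182078432) (nat_lit 5) (nat_lit 5) (nat_lit 7) (nat_lit 4) (nat_lit 5) (nat_lit 4) (nat_lit 513) (nat_lit 442) (nat_lit 245)) (XT.nd (nat_lit 78) (nat_lit 0) (nat_lit 0) (XT.lf (nat_lit 0) (nat_lit 26355877358) (nat_lit 76) (nat_lit 2608502684280) (nat_lit 76) (nat_lit 2357003028410) (nat_lit 4) (nat_lit 4) (nat_lit 5) (nat_lit 5) (nat_lit 5) (nat_lit 4) (nat_lit 514) (nat_lit 442) (nat_lit 244)) (XT.lf (nat_lit 0) (nat_lit 1017131287067) (nat_lit 76) (nat_lit 2293381840392) (nat_lit 76) (nat_lit 2041882180031) (nat_lit 4) (nat_lit 4) (nat_lit 5) (nat_lit 5) (nat_lit 5) (nat_lit 4) (nat_lit 515) (nat_lit 442) (nat_lit 243)))))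 (XT.nd (nat_lit 234) (nat_lit 152) (nat_lit 0) (XT.nd (nat_lit 78) (nat_lit 0) (nat_lit 0) (XT.lf (nat_lit 0) (nat_lit 2087168695555) (nat_lit 76) (nat_lit 1953051346313) (nat_lit 76) (nat_lit 1701551681793) (nat_lit 4) (nat_lit 4) (nat_lit 5) (nat_lit 5) (nat_lit 5) (nat_lit 4) (nat_lit 516) (nat_lit 442) (nat_lit 242)) (XT.nd (nat_lit 78) (nat_lit 0) (nat_lit 0) (XT.lf (nat_lit 0) (nat_lit 3242809065242) (nat_lit 76) (nat_lit 1585494428744) (nat_lit 76) (nat_lit 1333994760375) (nat_lit 4) (nat_lit 4) (nat_lit 5) (nat_lit 5) (nat_lit 5) (nat_lit 4) (nat_lit 517) (nat_lit 442) (nat_lit 241)) (XT.lf (nat_lit 0) (nat_lit 4490900635357) (nat_lit 76) (nat_lit 1188532972620) (nat_lit 76) (nat_lit 937033300686) (nat_lit 4) (nat_lit 4) (nat_lit 5) (nat_lit 5) (nat_lit 5) (nat_lit 4) (nat_lit 518) (nat_lit 442) (nat_lit 240)))) (XT.nd (nat_lit 78) (nat_lit 152) (nat_lit 0) (XT.lf (nat_lit 0) (nat_lit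 5838839504092) (nat_lit 76) (nat_lit 759814613755) (nat_lit 76) (nat_lit 508314938521) (nat_lit 4) (nat_lit 4) (nat_lit 5) (nat_lit 5) (nat_lit 5) (nat_lit 4) (nat_lit 519) (nat_lit 442) (nat_lit 239)) (XT.nd (nat_lit 78) (nat_lit 152) (nat_lit 0) (XT.lf (nat_lit 0) (nat_lit 7294613457337) (nat_lit 76) (nat_lit 296798798913) (nat_lit 76) (nat_lit 45299120622) (nat_lit 4) (nat_lit 4) (nat_lit 5) (nat_lit 5) (nat_lit 5) (nat_lit 4) (nat_lit 520) (nat_lit 442) (nat_lit 238)) (XT.lf (nat_lit 0) (nat_lit 453988812637) (nat_lit 152) (nat_lit 7531092202857) (nat_lit 0) (nat_lit 221118737525) (nat_lit 2) (nat_lit 5) (nat_lit 4) (nat_lit 4) (nat_lit 2) (nat_lit 4) (nat_lit 521) (nat_lit 442) (nat_lit 237))))))) (XT.nd (nat_lit 57018) (nat_lit 0) (nat_lit 3040) (XT.nd (nat_lit 56550) (nat_lit 0) (nat_lit 4332) (XT.nd (nat_lit 56316) (nat_lit 0) (nat_lit 5092) (XT.nd (nat_lit 78) (nat_lit 0) (nat_lit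 0) (XT.lf (nat_lit 0) (nat_lit 1008078012599) (nat_lit 152) (nat_lit 7036482678664) (nat_lit 0) (nat_lit 775207935061) (nat_lit 2) (nat_lit 5) (nat_lit 4) (nat_lit 4) (nat_lit 2) (nat_lit 4) (nat_lit 522) (nat_lit 442) (nat_lit 236)) (XT.lf (nat_lit 0) (nat_lit 1606494337795) (nat_lit 152) (nat_lit 6502304414548) (nat_lit 0) (nat_lit 1373624258011) (nat_lit 2) (nat_lit 5) (nat_lit 4) (nat_lit 4) (nat_lit 2) (nat_lit 4) (nat_lit 523) (nat_lit 442) (nat_lit 235))) (XT.nd (nat_lit 78) (nat_lit 0) (nat_lit 0) (XT.lf (nat_lit 0) (nat_lit 50968971264) (nat_lit 532) (nat_lit 2324878448) (nat_lit 532) (nat_lit 2324878448) (nat_lit 69) (nat_lit 3) (nat_lit 76) (nat_lit 3) (nat_lit 76) (nat_lit 5) (nat_lit 443) (nat_lit 443) (nat_lit 314)) (XT.nd (nat_lit 78) (nat_lit 0) (nat_lit 76) (XT.lf (nat_lit 76) (nat_lit 52483928351) (nat_lit 0) (nat_lit 54798735132) (nat_lit 532) (nat_lit 8302911490) (nat_lit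 70) (nat_lit 5) (nat_lit 69) (nat_lit 3) (nat_lit 76) (nat_lit 5) (nat_lit 444) (nat_lit 443) (nat_lit 313)) (XT.lf (nat_lit 0) (nat_lit 113212155790) (nat_lit 456) (nat_lit 5849515823) (nat_lit 532) (nat_lit 1207296346) (nat_lit 70) (nat_lit 5) (nat_lit 76) (nat_lit 5) (nat_lit 77) (nat_lit 5) (nat_lit 445) (nat_lit 443) (nat_lit 312))))) (XT.nd (nat_lit 234) (nat_lit 304) (nat_lit 0) (XT.nd (nat_lit 78) (nat_lit 532) (nat_lit 0) (XT.lf (nat_lit 76) (nat_lit 57432125121) (nat_lit 0) (nat_lit 64988008944) (nat_lit 532) (nat_lit 2682568501) (nat_lit 71) (nat_lit 5) (nat_lit 70) (nat_lit 5) (nat_lit 77) (nat_lit 5) (nat_lit 446) (nat_lit 443) (nat_lit 311)) (XT.nd (nat_lit 78) (nat_lit 0) (nat_lit 76) (XT.lf (nat_lit 0) (nat_lit 2103129448) (nat_lit 532) (nat_lit 4254951717) (nat_lit 608) (nat_lit 123948035402) (nat_lit 63) (nat_lit 5) (nat_lit 70) (nat_lit 5) (nat_lit 71) (nat_lit 5) (nat_lit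 447) (nat_lit 443) (nat_lit 310)) (XT.lf (nat_lit 0) (nat_lit 10164694156) (nat_lit 532) (nat_lit 69661548115) (nat_lit 608) (nat_lit 55850952350) (nat_lit 64) (nat_lit 5) (nat_lit 71) (nat_lit 5) (nat_lit 72) (nat_lit 5) (nat_lit 448) (nat_lit 443) (nat_lit 309)))) (XT.nd (nat_lit 78) (nat_lit 380) (nat_lit 0) (XT.lf (nat_lit 76) (nat_lit 539733886) (nat_lit 0) (nat_lit 18628548771) (nat_lit 608) (nat_lit 122285908600) (nat_lit 65) (nat_lit 5) (nat_lit 64) (nat_lit 5) (nat_lit 72) (nat_lit 5) (nat_lit 449) (nat_lit 443) (nat_lit 308)) (XT.nd (nat_lit 78) (nat_lit 456) (nat_lit 0) (XT.lf (nat_lit 0) (nat_lit 31987469463) (nat_lit 532) (nat_lit 68413492134) (nat_lit 76) (nat_lit 47044761340) (nat_lit 65) (nat_lit 5) (nat_lit 72) (nat_lit 5) (nat_lit 66) (nat_lit 5) (nat_lit 450) (nat_lit 443) (nat_lit 307)) (XT.lf (nat_lit 0) (nat_lit 9898537250) (nat_lit 456) (nat_lit 36655235080) (nat_lit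 532) (nat_lit 107305078527) (nat_lit 59) (nat_lit 5) (nat_lit 65) (nat_lit 5) (nat_lit 66) (nat_lit 5) (nat_lit 451) (nat_lit 443) (nat_lit 306)))))) (XT.nd (nat_lit 468) (nat_lit 608) (nat_lit 0) (XT.nd (nat_lit 234) (nat_lit 456) (nat_lit 0) (XT.nd (nat_lit 78) (nat_lit 228) (nat_lit 0) (XT.lf (nat_lit 0) (nat_lit 64978365373) (nat_lit 532) (nat_lit 63092217367) (nat_lit 76) (nat_lit 32499007575) (nat_lit 59) (nat_lit 5) (nat_lit 66) (nat_lit 5) (nat_lit 60) (nat_lit 5) (nat_lit 452) (nat_lit 443) (nat_lit 305)) (XT.nd (nat_lit 78) (nat_lit 0) (nat_lit 0) (XT.lf (nat_lit 0) (nat_lit 24519494497) (nat_lit 228) (nat_lit 61898913847) (nat_lit 304) (nat_lit 81275462154) (nat_lit 56) (nat_lit 5) (nat_lit 59) (nat_lit 5) (nat_lit 60) (nat_lit 5) (nat_lit 453) (nat_lit 443) (nat_lit 304)) (XT.lf (nat_lit 0) (nat_lit 111573306706) (nat_lit 304) (nat_lit 52797042752) (nat_lit 76) (nat_lit 10857771637)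 (nat_lit 56) (nat_lit 5) (nat_lit 60) (nat_lit 5) (nat_lit 57) (nat_lit 5) (nat_lit 454) (nat_lit 443) (nat_lit 303)))) (XT.nd (nat_lit 78) (nat_lit 228) (nat_lit 0) (XT.lf (nat_lit 0) (nat_lit 45477373081) (nat_lit 228) (nat_lit 95964458718) (nat_lit 304) (nat_lit 41707181294) (nat_lit 53) (nat_lit 5) (nat_lit 56) (nat_lit 5) (nat_lit 57) (nat_lit 5) (nat_lit 455) (nat_lit 443) (nat_lit 302)) (XT.nd (nat_lit 78) (nat_lit 228) (nat_lit 0) (XT.lf (nat_lit 0) (nat_lit 154616061976) (nat_lit 228) (nat_lit 20527092835) (nat_lit 304) (nat_lit 16444956500) (nat_lit 53) (nat_lit 5) (nat_lit 56) (nat_lit 5) (nat_lit 57) (nat_lit 5) (nat_lit 456) (nat_lit 443) (nat_lit 301)) (XT.lf (nat_lit 0) (nat_lit 13626069975) (nat_lit 228) (nat_lit 126767368744) (nat_lit 76) (nat_lit 60021646241) (nat_lit 50) (nat_lit 5) (nat_lit 53) (nat_lit 5) (nat_lit 51) (nat_lit 5) (nat_lit 457) (nat_lit 443) (nat_lit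 300))))) (XT.nd (nat_lit 234) (nat_lit 228) (nat_lit 0) (XT.nd (nat_lit 78) (nat_lit 380) (nat_lit 0) (XT.lf (nat_lit 0) (nat_lit 46784406111) (nat_lit 228) (nat_lit 15634514600) (nat_lit 76) (nat_lit 147369517970) (nat_lit 50) (nat_lit 5) (nat_lit 53) (nat_lit 5) (nat_lit 51) (nat_lit 5) (nat_lit 458) (nat_lit 443) (nat_lit 299)) (XT.nd (nat_lit 78) (nat_lit 152) (nat_lit 0) (XT.lf (nat_lit 0) (nat_lit 85830727784) (nat_lit 304) (nat_lit 110407416256) (nat_lit 76) (nat_lit 23414691265) (nat_lit 47) (nat_lit 5) (nat_lit 51) (nat_lit 5) (nat_lit 48) (nat_lit 5) (nat_lit 459) (nat_lit 443) (nat_lit 298)) (XT.lf (nat_lit 0) (nat_lit 13789881239) (nat_lit 152) (nat_lit 116602167662) (nat_lit 228) (nat_lit 99723031353) (nat_lit 45) (nat_lit 5) (nat_lit 47) (nat_lit 5) (nat_lit 48) (nat_lit 5) (nat_lit 460) (nat_lit 443) (nat_lit 297)))) (XT.nd (nat_lit 78) (nat_lit 228) (nat_lit 0) (XT.lf (nat_lit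 0) (nat_lit 154201656235) (nat_lit 152) (nat_lit 27335159780) (nat_lit 228) (nat_lit 59636005641) (nat_lit 45) (nat_lit 5) (nat_lit 47) (nat_lit 5) (nat_lit 48) (nat_lit 5) (nat_lit 461) (nat_lit 443) (nat_lit 296)) (XT.nd (nat_lit 78) (nat_lit 76) (nat_lit 0) (XT.lf (nat_lit 0) (nat_lit 53758952790) (nat_lit 152) (nat_lit 185968146639) (nat_lit 228) (nat_lit 13151768224) (nat_lit 43) (nat_lit 5) (nat_lit 45) (nat_lit 5) (nat_lit 46) (nat_lit 5) (nat_lit 462) (nat_lit 443) (nat_lit 295)) (XT.lf (nat_lit 0) (nat_lit 38347292556) (nat_lit 228) (nat_lit 56300674420) (nat_lit 76) (nat_lit 170550180957) (nat_lit 42) (nat_lit 5) (nat_lit 45) (nat_lit 5) (nat_lit 43) (nat_lit 5) (nat_lit 463) (nat_lit 443) (nat_lit 294))))))))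
noncomputable def xc194 : XT := (XT.nd (nat_lit 1716) (nat_lit 988) (nat_lit 0) (XT.nd (nat_lit 858) (nat_lit 684) (nat_lit 0) (XT.nd (nat_lit 390) (nat_lit 532) (nat_lit 0) (XT.nd (nat_lit 156) (nat_lit 304) (nat_lit 0) (XT.nd (nat_lit 78) (nat_lit 0) (nat_lit 0) (XT.lf (nat_lit 0) (nat_lit 95895236556) (nat_lit 228) (nat_lit 175704884759) (nat_lit 76) (nat_lit 6664361396) (nat_lit 40) (nat_lit 5) (nat_lit 43) (nat_lit 5) (nat_lit 41) (nat_lit 5) (nat_lit 464) (nat_lit 443) (nat_lit 293)) (XT.lf (nat_lit 0) (nat_lit 162084587195) (nat_lit 228) (nat_lit 17421039810) (nat_lit 76) (nat_lit 112547491633) (nat_lit 40) (nat_lit 5) (nat_lit 43) (nat_lit 5) (nat_lit 41) (nat_lit 5) (nat_lit 465) (nat_lit 443) (nat_lit 292))) (XT.nd (nat_lit 78) (nat_lit 152) (nat_lit 0) (XT.lf (nat_lit 0) (nat_lit 161609647006) (nat_lit 152) (nat_lit 75846005490) (nat_lit 228) (nat_lit 69178267667) (nat_lit 38)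 (nat_lit 5) (nat_lit 40) (nat_lit 5) (nat_lit 41) (nat_lit 5) (nat_lit 466) (nat_lit 443) (nat_lit 291)) (XT.nd (nat_lit 78) (nat_lit 76) (nat_lit 0) (XT.lf (nat_lit 0) (nat_lit 34452965780) (nat_lit 76) (nat_lit 286588939669) (nat_lit 152) (nat_lit 1164440216) (nat_lit 37) (nat_lit 5) (nat_lit 38) (nat_lit 5) (nat_lit 39) (nat_lit 4) (nat_lit 467) (nat_lit 443) (nat_lit 290)) (XT.lf (nat_lit 0) (nat_lit 74712325404) (nat_lit 152) (nat_lit 105983151726) (nat_lit 76) (nat_lit 157706953453) (nat_lit 36) (nat_lit 5) (nat_lit 38) (nat_lit 5) (nat_lit 37) (nat_lit 5) (nat_lit 468) (nat_lit 443) (nat_lit 289))))) (XT.nd (nat_lit 234) (nat_lit 304) (nat_lit 0) (XT.nd (nat_lit 78) (nat_lit 76) (nat_lit 0) (XT.lf (nat_lit 0) (nat_lit 95053171934) (nat_lit 152) (nat_lit 63829047819) (nat_lit 228) (nat_lit 196826691163) (nat_lit 34) (nat_lit 5) (nat_lit 36) (nat_lit 5) (nat_lit 37) (nat_lit 5) (nat_lit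 469) (nat_lit 443) (nat_lit 288)) (XT.nd (nat_lit 78) (nat_lit 76) (nat_lit 0) (XT.lf (nat_lit 0) (nat_lit 254259010056) (nat_lit 228) (nat_lit 57544224075) (nat_lit 76) (nat_lit 62238811228) (nat_lit 34) (nat_lit 5) (nat_lit 37) (nat_lit 5) (nat_lit 35) (nat_lit 4) (nat_lit 470) (nat_lit 443) (nat_lit 287)) (XT.lf (nat_lit 0) (nat_lit 168591748602) (nat_lit 76) (nat_lit 194386606642) (nat_lit 152) (nat_lit 30406482415) (nat_lit 33) (nat_lit 5) (nat_lit 34) (nat_lit 5) (nat_lit 35) (nat_lit 4) (nat_lit 471) (nat_lit 443) (nat_lit 286)))) (XT.nd (nat_lit 78) (nat_lit 76) (nat_lit 0) (XT.lf (nat_lit 0) (nat_lit 327100512) (nat_lit 152) (nat_lit 64107468363) (nat_lit 228) (nat_lit 349583511185) (nat_lit 30) (nat_lit 5) (nat_lit 32) (nat_lit 5) (nat_lit 33) (nat_lit 5) (nat_lit 472) (nat_lit 443) (nat_lit 285)) (XT.nd (nat_lit 78) (nat_lit 76) (nat_lit 0) (XT.lf (nat_lit 0) (nat_lit 173368017697)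 (nat_lit 228) (nat_lit 182360915253) (nat_lit 76) (nat_lit 79858038368) (nat_lit 30) (nat_lit 5) (nat_lit 33) (nat_lit 5) (nat_lit 31) (nat_lit 4) (nat_lit 473) (nat_lit 443) (nat_lit 284)) (XT.lf (nat_lit 0) (nat_lit 69275679689) (nat_lit 76) (nat_lit 225071563948) (nat_lit 152) (nat_lit 164267642168) (nat_lit 29) (nat_lit 5) (nat_lit 30) (nat_lit 5) (nat_lit 31) (nat_lit 4) (nat_lit 474) (nat_lit 443) (nat_lit 283)))))) (XT.nd (nat_lit 390) (nat_lit 456) (nat_lit 0) (XT.nd (nat_lit 156) (nat_lit 76) (nat_lit 0) (XT.nd (nat_lit 78) (nat_lit 152) (nat_lit 0) (XT.lf (nat_lit 0) (nat_lit 351414038499) (nat_lit 76) (nat_lit 78576733685) (nat_lit 152) (nat_lit 53095384126) (nat_lit 29) (nat_lit 5) (nat_lit 30) (nat_lit 5) (nat_lit 31) (nat_lit 4) (nat_lit 475) (nat_lit 443) (nat_lit 282)) (XT.lf (nat_lit 0) (nat_lit 69343700696) (nat_lit 152) (nat_lit 358512264438) (nat_lit 76) (nat_lit 81072456513)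 (nat_lit 27) (nat_lit 5) (nat_lit 29) (nat_lit 5) (nat_lit 28) (nat_lit 4) (nat_lit 476) (nat_lit 443) (nat_lit 281))) (XT.nd (nat_lit 78) (nat_lit 76) (nat_lit 0) (XT.lf (nat_lit 0) (nat_lit 204443896505) (nat_lit 152) (nat_lit 77504000496) (nat_lit 76) (nat_lit 254321082033) (nat_lit 27) (nat_lit 5) (nat_lit 29) (nat_lit 5) (nat_lit 28) (nat_lit 4) (nat_lit 477) (nat_lit 443) (nat_lit 280)) (XT.nd (nat_lit 78) (nat_lit 0) (nat_lit 0) (XT.lf (nat_lit 0) (nat_lit 237884711761) (nat_lit 76) (nat_lit 118188437138) (nat_lit 152) (nat_lit 209265948856) (nat_lit 26) (nat_lit 5) (nat_lit 27) (nat_lit 5) (nat_lit 28) (nat_lit 4) (nat_lit 478) (nat_lit 443) (nat_lit 279)) (XT.lf (nat_lit 0) (nat_lit 523417846295) (nat_lit 152) (nat_lit 15119325794) (nat_lit 0) (nat_lit 57910845515) (nat_lit 26) (nat_lit 5) (nat_lit 28) (nat_lit 4) (nat_lit 26) (nat_lit 4) (nat_lit 479) (nat_lit 443) (nat_lit 278)))))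 (XT.nd (nat_lit 234) (nat_lit 228) (nat_lit 0) (XT.nd (nat_lit 78) (nat_lit 76) (nat_lit 0) (XT.lf (nat_lit 0) (nat_lit 81836098809) (nat_lit 152) (nat_lit 295288020616) (nat_lit 76) (nat_lit 251863863609) (nat_lit 24) (nat_lit 5) (nat_lit 26) (nat_lit 5) (nat_lit 25) (nat_lit 4) (nat_lit 480) (nat_lit 443) (nat_lit 277)) (XT.nd (nat_lit 78) (nat_lit 0) (nat_lit 0) (XT.lf (nat_lit 0) (nat_lit 47663085862) (nat_lit 76) (nat_lit 199053399501) (nat_lit 152) (nat_lit 417137282064) (nat_lit 23) (nat_lit 5) (nat_lit 24) (nat_lit 5) (nat_lit 25) (nat_lit 4) (nat_lit 481) (nat_lit 443) (nat_lit 276)) (XT.lf (nat_lit 0) (nat_lit 432908598330) (nat_lit 152) (nat_lit 266067186529) (nat_lit 0) (nat_lit 1883326086) (nat_lit 23) (nat_lit 5) (nat_lit 25) (nat_lit 4) (nat_lit 23) (nat_lit 4) (nat_lit 482) (nat_lit 443) (nat_lit 275)))) (XT.nd (nat_lit 78) (nat_lit 152) (nat_lit 0) (XT.lf (nat_lit 0) (nat_lit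 112524767188) (nat_lit 76) (nat_lit 529347677646) (nat_lit 76) (nat_lit 98322327960) (nat_lit 22) (nat_lit 4) (nat_lit 23) (nat_lit 5) (nat_lit 23) (nat_lit 4) (nat_lit 483) (nat_lit 443) (nat_lit 274)) (XT.nd (nat_lit 78) (nat_lit 76) (nat_lit 0) (XT.lf (nat_lit 0) (nat_lit 88093890792) (nat_lit 152) (nat_lit 247790128543) (nat_lit 76) (nat_lit 446032876370) (nat_lit 21) (nat_lit 5) (nat_lit 23) (nat_lit 5) (nat_lit 22) (nat_lit 4) (nat_lit 484) (nat_lit 443) (nat_lit 273)) (XT.lf (nat_lit 0) (nat_lit 168347604243) (nat_lit 76) (nat_lit 119812536155) (nat_lit 152) (nat_lit 538288446493) (nat_lit 20) (nat_lit 5) (nat_lit 21) (nat_lit 5) (nat_lit 22) (nat_lit 4) (nat_lit 485) (nat_lit 443) (nat_lit 272))))))) (XT.nd (nat_lit 858) (nat_lit 456) (nat_lit 0) (XT.nd (nat_lit 390) (nat_lit 304) (nat_lit 0) (XT.nd (nat_lit 156) (nat_lit 152) (nat_lit 0) (XT.nd (nat_lit 78) (nat_lit 76) (nat_lit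 0) (XT.lf (nat_lit 0) (nat_lit 513913367199) (nat_lit 152) (nat_lit 245039275602) (nat_lit 0) (nat_lit 114815636399) (nat_lit 20) (nat_lit 5) (nat_lit 22) (nat_lit 4) (nat_lit 20) (nat_lit 4) (nat_lit 486) (nat_lit 443) (nat_lit 271)) (XT.lf (nat_lit 0) (nat_lit 208379198458) (nat_lit 76) (nat_lit 557471127040) (nat_lit 76) (nat_lit 158373343535) (nat_lit 19) (nat_lit 4) (nat_lit 20) (nat_lit 5) (nat_lit 20) (nat_lit 4) (nat_lit 487) (nat_lit 443) (nat_lit 270))) (XT.nd (nat_lit 78) (nat_lit 76) (nat_lit 0) (XT.lf (nat_lit 0) (nat_lit 63137752413) (nat_lit 152) (nat_lit 267771307287) (nat_lit 76) (nat_lit 647142576863) (nat_lit 18) (nat_lit 5) (nat_lit 20) (nat_lit 5) (nat_lit 19) (nat_lit 4) (nat_lit 488) (nat_lit 443) (nat_lit 269)) (XT.nd (nat_lit 78) (nat_lit 0) (nat_lit 0) (XT.lf (nat_lit 0) (nat_lit 223199332437) (nat_lit 76) (nat_lit 75982018491) (nat_lit 152) (nat_lit 736245971983)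 (nat_lit 17) (nat_lit 5) (nat_lit 18) (nat_lit 5) (nat_lit 19) (nat_lit 4) (nat_lit 489) (nat_lit 443) (nat_lit 268)) (XT.lf (nat_lit 0) (nat_lit 566413996414) (nat_lit 152) (nat_lit 333115737109) (nat_lit 0) (nat_lit 196878885920) (nat_lit 17) (nat_lit 5) (nat_lit 19) (nat_lit 4) (nat_lit 17) (nat_lit 4) (nat_lit 490) (nat_lit 443) (nat_lit 267))))) (XT.nd (nat_lit 234) (nat_lit 76) (nat_lit 0) (XT.nd (nat_lit 78) (nat_lit 152) (nat_lit 0) (XT.lf (nat_lit 0) (nat_lit 191954152261) (nat_lit 76) (nat_lit 669661106688) (nat_lit 76) (nat_lit 300125960323) (nat_lit 16) (nat_lit 4) (nat_lit 17) (nat_lit 5) (nat_lit 17) (nat_lit 4) (nat_lit 491) (nat_lit 443) (nat_lit 266)) (XT.nd (nat_lit 78) (nat_lit 152) (nat_lit 0) (XT.lf (nat_lit 0) (nat_lit 777974113232) (nat_lit 76) (nat_lit 411566429894) (nat_lit 76) (nat_lit 42031250315) (nat_lit 16) (nat_lit 4) (nat_lit 17) (nat_lit 5) (nat_lit 17)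 (nat_lit 4) (nat_lit 492) (nat_lit 443) (nat_lit 265)) (XT.lf (nat_lit 0) (nat_lit 103364564054) (nat_lit 76) (nat_lit 123991096708) (nat_lit 152) (nat_lit 1078978850774) (nat_lit 14) (nat_lit 5) (nat_lit 15) (nat_lit 5) (nat_lit 16) (nat_lit 4) (nat_lit 493) (nat_lit 443) (nat_lit 264)))) (XT.nd (nat_lit 78) (nat_lit 76) (nat_lit 0) (XT.lf (nat_lit 0) (nat_lit 533234493353) (nat_lit 152) (nat_lit 661307241041) (nat_lit 0) (nat_lit 191072235197) (nat_lit 14) (nat_lit 5) (nat_lit 16) (nat_lit 4) (nat_lit 14) (nat_lit 4) (nat_lit 494) (nat_lit 443) (nat_lit 263)) (XT.nd (nat_lit 78) (nat_lit 76) (nat_lit 0) (XT.lf (nat_lit 0) (nat_lit 866804133281) (nat_lit 152) (nat_lit 79532160241) (nat_lit 0) (nat_lit 524641850713) (nat_lit 14) (nat_lit 5) (nat_lit 16) (nat_lit 4) (nat_lit 14) (nat_lit 4) (nat_lit 495) (nat_lit 443) (nat_lit 262)) (XT.lf (nat_lit 0) (nat_lit 577682876943) (nat_lit 76)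 (nat_lit 663269710808) (nat_lit 76) (nat_lit 321107405635) (nat_lit 13) (nat_lit 4) (nat_lit 14) (nat_lit 5) (nat_lit 14) (nat_lit 4) (nat_lit 496) (nat_lit 443) (nat_lit 261)))))) (XT.nd (nat_lit 468) (nat_lit 228) (nat_lit 0) (XT.nd (nat_lit 234) (nat_lit 76) (nat_lit 0) (XT.nd (nat_lit 78) (nat_lit 152) (nat_lit 0) (XT.lf (nat_lit 0) (nat_lit 1291998096521) (nat_lit 76) (nat_lit 355209329720) (nat_lit 76) (nat_lit 13047003617) (nat_lit 13) (nat_lit 4) (nat_lit 14) (nat_lit 5) (nat_lit 14) (nat_lit 4) (nat_lit 497) (nat_lit 443) (nat_lit 260)) (XT.nd (nat_lit 78) (nat_lit 0) (nat_lit 0) (XT.lf (nat_lit 0) (nat_lit 304709022846) (nat_lit 76) (nat_lit 6286827312) (nat_lit 152) (nat_lit 1454107290530) (nat_lit 11) (nat_lit 5) (nat_lit 12) (nat_lit 5) (nat_lit 13) (nat_lit 4) (nat_lit 498) (nat_lit 443) (nat_lit 259)) (XT.lf (nat_lit 0) (nat_lit 679499246216) (nat_lit 152) (nat_lit 834591789186)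 (nat_lit 0) (nat_lit 362682243042) (nat_lit 11) (nat_lit 5) (nat_lit 13) (nat_lit 4) (nat_lit 11) (nat_lit 4) (nat_lit 499) (nat_lit 443) (nat_lit 258)))) (XT.nd (nat_lit 78) (nat_lit 76) (nat_lit 0) (XT.lf (nat_lit 0) (nat_lit 1077646170890) (nat_lit 152) (nat_lit 158888643445) (nat_lit 0) (nat_lit 760829152332) (nat_lit 11) (nat_lit 5) (nat_lit 13) (nat_lit 4) (nat_lit 11) (nat_lit 4) (nat_lit 500) (nat_lit 443) (nat_lit 257)) (XT.nd (nat_lit 78) (nat_lit 0) (nat_lit 0) (XT.lf (nat_lit 0) (nat_lit 600931723095) (nat_lit 76) (nat_lit 921165514315) (nat_lit 76) (nat_lit 604348481512) (nat_lit 10) (nat_lit 4) (nat_lit 11) (nat_lit 5) (nat_lit 11) (nat_lit 4) (nat_lit 501) (nat_lit 443) (nat_lit 256)) (XT.lf (nat_lit 0) (nat_lit 1430573789220) (nat_lit 76) (nat_lit 575874863526) (nat_lit 76) (nat_lit 259057817533) (nat_lit 10) (nat_lit 4) (nat_lit 11) (nat_lit 5) (nat_lit 11) (nat_lit 4)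 (nat_lit 502) (nat_lit 443) (nat_lit 255))))) (XT.nd (nat_lit 234) (nat_lit 76) (nat_lit 0) (XT.nd (nat_lit 78) (nat_lit 76) (nat_lit 0) (XT.lf (nat_lit 0) (nat_lit 108160524430) (nat_lit 152) (nat_lit 91843167390) (nat_lit 76) (nat_lit 2215469333125) (nat_lit 9) (nat_lit 5) (nat_lit 11) (nat_lit 5) (nat_lit 10) (nat_lit 4) (nat_lit 503) (nat_lit 443) (nat_lit 254)) (XT.nd (nat_lit 78) (nat_lit 0) (nat_lit 0) (XT.lf (nat_lit 0) (nat_lit 514172816608) (nat_lit 152) (nat_lit 1840029120545) (nat_lit 0) (nat_lit 220823678170) (nat_lit 8) (nat_lit 5) (nat_lit 10) (nat_lit 4) (nat_lit 8) (nat_lit 4) (nat_lit 504) (nat_lit 443) (nat_lit 253)) (XT.lf (nat_lit 0) (nat_lit 960437343546) (nat_lit 152) (nat_lit 1119195173865) (nat_lit 0) (nat_lit 667088195413) (nat_lit 8) (nat_lit 5) (nat_lit 10) (nat_lit 4) (nat_lit 8) (nat_lit 4) (nat_lit 505) (nat_lit 443) (nat_lit 252)))) (XT.nd (nat_lit 78) (nat_lit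 76) (nat_lit 0) (XT.lf (nat_lit 0) (nat_lit 1442403005358) (nat_lit 152) (nat_lit 340694566701) (nat_lit 0) (nat_lit 1149053848249) (nat_lit 8) (nat_lit 5) (nat_lit 10) (nat_lit 4) (nat_lit 8) (nat_lit 4) (nat_lit 506) (nat_lit 443) (nat_lit 251)) (XT.nd (nat_lit 78) (nat_lit 0) (nat_lit 0) (XT.lf (nat_lit 0) (nat_lit 526419682406) (nat_lit 76) (nat_lit 1449166618473) (nat_lit 76) (nat_lit 1155817453052) (nat_lit 7) (nat_lit 4) (nat_lit 8) (nat_lit 5) (nat_lit 8) (nat_lit 4) (nat_lit 507) (nat_lit 443) (nat_lit 250)) (XT.lf (nat_lit 0) (nat_lit 1482278623469) (nat_lit 76) (nat_lit 1078460805201) (nat_lit 76) (nat_lit 785111632084) (nat_lit 7) (nat_lit 4) (nat_lit 8) (nat_lit 5) (nat_lit 8) (nat_lit 4) (nat_lit 508) (nat_lit 443) (nat_lit 249))))))))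
noncomputable def xc195 : XT := (XT.nd (nat_lit 57954) (nat_lit 0) (nat_lit 2128) (XT.nd (nat_lit 858) (nat_lit 152) (nat_lit 0) (XT.nd (nat_lit 390) (nat_lit 76) (nat_lit 0) (XT.nd (nat_lit 156) (nat_lit 76) (nat_lit 0) (XT.nd (nat_lit 78) (nat_lit 76) (nat_lit 0) (XT.lf (nat_lit 0) (nat_lit 2514606233649) (nat_lit 76) (nat_lit 678098550270) (nat_lit 76) (nat_lit 384749370026) (nat_lit 7) (nat_lit 4) (nat_lit 8) (nat_lit 5) (nat_lit 8) (nat_lit 4) (nat_lit 509) (nat_lit 443) (nat_lit 248)) (XT.lf (nat_lit 0) (nat_lit 45258611928) (nat_lit 152) (nat_lit 199211274029) (nat_lit 76) (nat_lit 3583023947310) (nat_lit 6) (nat_lit 5) (nat_lit 8) (nat_lit 5) (nat_lit 7) (nat_lit 4) (nat_lit 510) (nat_lit 443) (nat_lit 247))) (XT.nd (nat_lit 78) (nat_lit 0) (nat_lit 0) (XT.lf (nat_lit 0) (nat_lit 513316698476) (nat_lit 152) (nat_lit 3339768559835) (nat_lit 0) (nat_lit 241697075374) (nat_lit 5) (nat_lit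 5) (nat_lit 7) (nat_lit 4) (nat_lit 5) (nat_lit 4) (nat_lit 511) (nat_lit 443) (nat_lit 246)) (XT.nd (nat_lit 78) (nat_lit 0) (nat_lit 0) (XT.lf (nat_lit 0) (nat_lit 1030757543447) (nat_lit 152) (nat_lit 2592603406663) (nat_lit 0) (nat_lit 759137915107) (nat_lit 5) (nat_lit 5) (nat_lit 7) (nat_lit 4) (nat_lit 5) (nat_lit 4) (nat_lit 512) (nat_lit 443) (nat_lit 245)) (XT.lf (nat_lit 0) (nat_lit 1589593637516) (nat_lit 152) (nat_lit 1785665078909) (nat_lit 0) (nat_lit 1317974004326) (nat_lit 5) (nat_lit 5) (nat_lit 7) (nat_lit 4) (nat_lit 5) (nat_lit 4) (nat_lit 513) (nat_lit 443) (nat_lit 244))))) (XT.nd (nat_lit 234) (nat_lit 0) (nat_lit 0) (XT.nd (nat_lit 78) (nat_lit 76) (nat_lit 0) (XT.lf (nat_lit 0) (nat_lit 2193136601983) (nat_lit 152) (nat_lit 914171719816) (nat_lit 0) (nat_lit 1921516964302) (nat_lit 5) (nat_lit 5) (nat_lit 7) (nat_lit 4) (nat_lit 5) (nat_lit 4) (nat_lit 514) (nat_lit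 443) (nat_lit 243)) (XT.nd (nat_lit 78) (nat_lit 0) (nat_lit 0) (XT.lf (nat_lit 0) (nat_lit 28465010833) (nat_lit 76) (nat_lit 2817182561109) (nat_lit 76) (nat_lit 2545562919270) (nat_lit 4) (nat_lit 4) (nat_lit 5) (nat_lit 5) (nat_lit 5) (nat_lit 4) (nat_lit 515) (nat_lit 443) (nat_lit 242)) (XT.lf (nat_lit 0) (nat_lit 1098502404186) (nat_lit 76) (nat_lit 2476852074740) (nat_lit 76) (nat_lit 2205232429051) (nat_lit 4) (nat_lit 4) (nat_lit 5) (nat_lit 5) (nat_lit 5) (nat_lit 4) (nat_lit 516) (nat_lit 443) (nat_lit 241)))) (XT.nd (nat_lit 78) (nat_lit 0) (nat_lit 0) (XT.lf (nat_lit 0) (nat_lit 2254142759860) (nat_lit 76) (nat_lit 2109295164311) (nat_lit 76) (nat_lit 1837675515057) (nat_lit 4) (nat_lit 4) (nat_lit 5) (nat_lit 5) (nat_lit 5) (nat_lit 4) (nat_lit 517) (nat_lit 443) (nat_lit 240)) (XT.nd (nat_lit 78) (nat_lit 0) (nat_lit 0) (XT.lf (nat_lit 0) (nat_lit 3502234317000) (nat_lit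 76) (nat_lit 1712333714797) (nat_lit 76) (nat_lit 1440714062243) (nat_lit 4) (nat_lit 4) (nat_lit 5) (nat_lit 5) (nat_lit 5) (nat_lit 4) (nat_lit 518) (nat_lit 443) (nat_lit 239)) (XT.lf (nat_lit 0) (nat_lit 4850173173721) (nat_lit 76) (nat_lit 1283615362053) (nat_lit 76) (nat_lit 1011995706443) (nat_lit 4) (nat_lit 4) (nat_lit 5) (nat_lit 5) (nat_lit 5) (nat_lit 4) (nat_lit 519) (nat_lit 443) (nat_lit 238)))))) (XT.nd (nat_lit 56628) (nat_lit 0) (nat_lit 4636) (XT.nd (nat_lit 156) (nat_lit 152) (nat_lit 0) (XT.nd (nat_lit 78) (nat_lit 0) (nat_lit 0) (XT.lf (nat_lit 0) (nat_lit 6305947115841) (nat_lit 76) (nat_lit 820599552877) (nat_lit 76) (nat_lit 548979894437) (nat_lit 4) (nat_lit 4) (nat_lit 5) (nat_lit 5) (nat_lit 5) (nat_lit 4) (nat_lit 520) (nat_lit 443) (nat_lit 237)) (XT.lf (nat_lit 0) (nat_lit 7878182951907) (nat_lit 76) (nat_lit 320542489882) (nat_lit 76) (nat_lit 48922828822)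 (nat_lit 4) (nat_lit 4) (nat_lit 5) (nat_lit 5) (nat_lit 5) (nat_lit 4) (nat_lit 521) (nat_lit 443) (nat_lit 236))) (XT.nd (nat_lit 78) (nat_lit 0) (nat_lit 0) (XT.lf (nat_lit 0) (nat_lit 490308127625) (nat_lit 152) (nat_lit 8133579149619) (nat_lit 0) (nat_lit 238808439212) (nat_lit 2) (nat_lit 5) (nat_lit 4) (nat_lit 4) (nat_lit 2) (nat_lit 4) (nat_lit 522) (nat_lit 443) (nat_lit 235)) (XT.nd (nat_lit 56316) (nat_lit 0) (nat_lit 5092) (XT.lf (nat_lit 0) (nat_lit 1088724448030) (nat_lit 152) (nat_lit 7599400895303) (nat_lit 0) (nat_lit 837224757537) (nat_lit 2) (nat_lit 5) (nat_lit 4) (nat_lit 4) (nat_lit 2) (nat_lit 4) (nat_lit 523) (nat_lit 443) (nat_lit 234)) (XT.lf (nat_lit 0) (nat_lit 55051333108) (nat_lit 532) (nat_lit 2508251257) (nat_lit 532) (nat_lit 2508251257) (nat_lit 69) (nat_lit 3) (nat_lit 76) (nat_lit 3) (nat_lit 76) (nat_lit 5) (nat_lit 444) (nat_lit 444) (nat_lit 312)))))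 (XT.nd (nat_lit 234) (nat_lit 456) (nat_lit 0) (XT.nd (nat_lit 78) (nat_lit 0) (nat_lit 76) (XT.lf (nat_lit 76) (nat_lit 56687745022) (nat_lit 0) (nat_lit 59186624887) (nat_lit 532) (nat_lit 8957317560) (nat_lit 70) (nat_lit 5) (nat_lit 69) (nat_lit 3) (nat_lit 76) (nat_lit 5) (nat_lit 445) (nat_lit 444) (nat_lit 311)) (XT.nd (nat_lit 78) (nat_lit 0) (nat_lit 0) (XT.lf (nat_lit 0) (nat_lit 122277459146) (nat_lit 456) (nat_lit 6311984600) (nat_lit 532) (nat_lit 1300369590) (nat_lit 70) (nat_lit 5) (nat_lit 76) (nat_lit 5) (nat_lit 77) (nat_lit 5) (nat_lit 446) (nat_lit 444) (nat_lit 310)) (XT.lf (nat_lit 76) (nat_lit 62032048569) (nat_lit 0) (nat_lit 70189538762) (nat_lit 532) (nat_lit 2888698864) (nat_lit 71) (nat_lit 5) (nat_lit 70) (nat_lit 5) (nat_lit 77) (nat_lit 5) (nat_lit 447) (nat_lit 444) (nat_lit 309)))) (XT.nd (nat_lit 78) (nat_lit 0) (nat_lit 76) (XT.lf (nat_lit 0) (nat_lit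 2278834580) (nat_lit 532) (nat_lit 4589993976) (nat_lit 608) (nat_lit 133861176519) (nat_lit 63) (nat_lit 5) (nat_lit 70) (nat_lit 5) (nat_lit 71) (nat_lit 5) (nat_lit 448) (nat_lit 444) (nat_lit 308)) (XT.nd (nat_lit 78) (nat_lit 0) (nat_lit 0) (XT.lf (nat_lit 0) (nat_lit 10984854235) (nat_lit 532) (nat_lit 75228643750) (nat_lit 608) (nat_lit 60317309334) (nat_lit 64) (nat_lit 5) (nat_lit 71) (nat_lit 5) (nat_lit 72) (nat_lit 5) (nat_lit 449) (nat_lit 444) (nat_lit 307)) (XT.lf (nat_lit 76) (nat_lit 588593262) (nat_lit 0) (nat_lit 20119755801) (nat_lit 608) (nat_lit 132061645389) (nat_lit 65) (nat_lit 5) (nat_lit 64) (nat_lit 5) (nat_lit 72) (nat_lit 5) (nat_lit 450) (nat_lit 444) (nat_lit 306))))))) (XT.nd (nat_lit 858) (nat_lit 1140) (nat_lit 0) (XT.nd (nat_lit 390) (nat_lit 836) (nat_lit 0) (XT.nd (nat_lit 156) (nat_lit 228) (nat_lit 0) (XT.nd (nat_lit 78) (nat_lit 456) (nat_lit 0)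 (XT.lf (nat_lit 0) (nat_lit 34552561087) (nat_lit 532) (nat_lit 73880798382) (nat_lit 76) (nat_lit 50807530257) (nat_lit 65) (nat_lit 5) (nat_lit 72) (nat_lit 5) (nat_lit 66) (nat_lit 5) (nat_lit 451) (nat_lit 444) (nat_lit 305)) (XT.lf (nat_lit 0) (nat_lit 10696047198) (nat_lit 456) (nat_lit 39587804901) (nat_lit 532) (nat_lit 115883241327) (nat_lit 59) (nat_lit 5) (nat_lit 65) (nat_lit 5) (nat_lit 66) (nat_lit 5) (nat_lit 452) (nat_lit 444) (nat_lit 304))) (XT.nd (nat_lit 78) (nat_lit 228) (nat_lit 0) (XT.lf (nat_lit 0) (nat_lit 70181981224) (nat_lit 532) (nat_lit 68133950220) (nat_lit 76) (nat_lit 35098795347) (nat_lit 59) (nat_lit 5) (nat_lit 66) (nat_lit 5) (nat_lit 60) (nat_lit 5) (nat_lit 453) (nat_lit 444) (nat_lit 303)) (XT.nd (nat_lit 78) (nat_lit 0) (nat_lit 0) (XT.lf (nat_lit 0) (nat_lit 26486555693) (nat_lit 228) (nat_lit 66850408209) (nat_lit 304) (nat_lit 87772006810) (nat_lit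 56) (nat_lit 5) (nat_lit 59) (nat_lit 5) (nat_lit 60) (nat_lit 5) (nat_lit 454) (nat_lit 444) (nat_lit 302)) (XT.lf (nat_lit 0) (nat_lit 120503886947) (nat_lit 304) (nat_lit 57015342291) (nat_lit 76) (nat_lit 11726761700) (nat_lit 56) (nat_lit 5) (nat_lit 60) (nat_lit 5) (nat_lit 57) (nat_lit 5) (nat_lit 455) (nat_lit 444) (nat_lit 301))))) (XT.nd (nat_lit 234) (nat_lit 380) (nat_lit 0) (XT.nd (nat_lit 78) (nat_lit 228) (nat_lit 0) (XT.lf (nat_lit 0) (nat_lit 49120888482) (nat_lit 228) (nat_lit 103640784333) (nat_lit 304) (nat_lit 45038899371) (nat_lit 53) (nat_lit 5) (nat_lit 56) (nat_lit 5) (nat_lit 57) (nat_lit 5) (nat_lit 456) (nat_lit 444) (nat_lit 300)) (XT.nd (nat_lit 78) (nat_lit 228) (nat_lit 0) (XT.lf (nat_lit 0) (nat_lit 166990278004) (nat_lit 228) (nat_lit 22168490741) (nat_lit 304) (nat_lit 17756056328) (nat_lit 53) (nat_lit 5) (nat_lit 56) (nat_lit 5) (nat_lit 57) (nat_lit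 5) (nat_lit 457) (nat_lit 444) (nat_lit 299)) (XT.lf (nat_lit 0) (nat_lit 14720254685) (nat_lit 228) (nat_lit 136903425636) (nat_lit 76) (nat_lit 64824281604) (nat_lit 50) (nat_lit 5) (nat_lit 53) (nat_lit 5) (nat_lit 51) (nat_lit 5) (nat_lit 458) (nat_lit 444) (nat_lit 298)))) (XT.nd (nat_lit 78) (nat_lit 380) (nat_lit 0) (XT.lf (nat_lit 0) (nat_lit 50530954073) (nat_lit 228) (nat_lit 16880338169) (nat_lit 76) (nat_lit 159159916133) (nat_lit 50) (nat_lit 5) (nat_lit 53) (nat_lit 5) (nat_lit 51) (nat_lit 5) (nat_lit 459) (nat_lit 444) (nat_lit 297)) (XT.nd (nat_lit 78) (nat_lit 152) (nat_lit 0) (XT.lf (nat_lit 0) (nat_lit 92700844517) (nat_lit 304) (nat_lit 119234933363) (nat_lit 76) (nat_lit 25288989938) (nat_lit 47) (nat_lit 5) (nat_lit 51) (nat_lit 5) (nat_lit 48) (nat_lit 5) (nat_lit 460) (nat_lit 444) (nat_lit 296)) (XT.lf (nat_lit 0) (nat_lit 14898019420) (nat_lit 152) (nat_lit 125928899894)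 (nat_lit 228) (nat_lit 107697085329) (nat_lit 45) (nat_lit 5) (nat_lit 47) (nat_lit 5) (nat_lit 48) (nat_lit 5) (nat_lit 461) (nat_lit 444) (nat_lit 295)))))) (XT.nd (nat_lit 468) (nat_lit 608) (nat_lit 0) (XT.nd (nat_lit 234) (nat_lit 304) (nat_lit 0) (XT.nd (nat_lit 78) (nat_lit 228) (nat_lit 0) (XT.lf (nat_lit 0) (nat_lit 166542369921) (nat_lit 152) (nat_lit 29520638136) (nat_lit 228) (nat_lit 64403378192) (nat_lit 45) (nat_lit 5) (nat_lit 47) (nat_lit 5) (nat_lit 48) (nat_lit 5) (nat_lit 462) (nat_lit 444) (nat_lit 294)) (XT.nd (nat_lit 78) (nat_lit 76) (nat_lit 0) (XT.lf (nat_lit 0) (nat_lit 58064357469) (nat_lit 152) (nat_lit 200844058648) (nat_lit 228) (nat_lit 14200507756) (nat_lit 43) (nat_lit 5) (nat_lit 45) (nat_lit 5) (nat_lit 46) (nat_lit 5) (nat_lit 463) (nat_lit 444) (nat_lit 293)) (XT.lf (nat_lit 0) (nat_lit 41418068320) (nat_lit 228) (nat_lit 60800228529) (nat_lit 76) (nat_lit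 184195462420) (nat_lit 42) (nat_lit 5) (nat_lit 45) (nat_lit 5) (nat_lit 43) (nat_lit 5) (nat_lit 464) (nat_lit 444) (nat_lit 292)))) (XT.nd (nat_lit 78) (nat_lit 152) (nat_lit 0) (XT.lf (nat_lit 0) (nat_lit 103569767975) (nat_lit 228) (nat_lit 189756694802) (nat_lit 76) (nat_lit 7198944524) (nat_lit 40) (nat_lit 5) (nat_lit 43) (nat_lit 5) (nat_lit 41) (nat_lit 5) (nat_lit 465) (nat_lit 444) (nat_lit 291)) (XT.nd (nat_lit 78) (nat_lit 152) (nat_lit 0) (XT.lf (nat_lit 0) (nat_lit 175054050924) (nat_lit 228) (nat_lit 18810481571) (nat_lit 76) (nat_lit 121552618942) (nat_lit 40) (nat_lit 5) (nat_lit 43) (nat_lit 5) (nat_lit 41) (nat_lit 5) (nat_lit 466) (nat_lit 444) (nat_lit 290)) (XT.lf (nat_lit 0) (nat_lit 174542552813) (nat_lit 152) (nat_lit 81912148301) (nat_lit 228) (nat_lit 74709724068) (nat_lit 38) (nat_lit 5) (nat_lit 40) (nat_lit 5) (nat_lit 41) (nat_lit 5) (nat_lit 467) (nat_lit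 444) (nat_lit 289))))) (XT.nd (nat_lit 234) (nat_lit 304) (nat_lit 0) (XT.nd (nat_lit 78) (nat_lit 228) (nat_lit 0) (XT.lf (nat_lit 0) (nat_lit 37213399700) (nat_lit 76) (nat_lit 309514397447) (nat_lit 152) (nat_lit 1254852215) (nat_lit 37) (nat_lit 5) (nat_lit 38) (nat_lit 5) (nat_lit 39) (nat_lit 4) (nat_lit 468) (nat_lit 444) (nat_lit 288)) (XT.nd (nat_lit 78) (nat_lit 152) (nat_lit 0) (XT.lf (nat_lit 0) (nat_lit 80691724391) (nat_lit 152) (nat_lit 114457790309) (nat_lit 76) (nat_lit 170324916593) (nat_lit 36) (nat_lit 5) (nat_lit 38) (nat_lit 5) (nat_lit 37) (nat_lit 5) (nat_lit 469) (nat_lit 444) (nat_lit 287)) (XT.lf (nat_lit 0) (nat_lit 102661337634) (nat_lit 152) (nat_lit 68933787999) (nat_lit 228) (nat_lit 212570311244) (nat_lit 34) (nat_lit 5) (nat_lit 36) (nat_lit 5) (nat_lit 37) (nat_lit 5) (nat_lit 470) (nat_lit 444) (nat_lit 286)))) (XT.nd (nat_lit 78) (nat_lit 304) (nat_lit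 0) (XT.lf (nat_lit 0) (nat_lit 274601921959) (nat_lit 228) (nat_lit 62144002028) (nat_lit 76) (nat_lit 67219309113) (nat_lit 34) (nat_lit 5) (nat_lit 37) (nat_lit 5) (nat_lit 35) (nat_lit 4) (nat_lit 471) (nat_lit 444) (nat_lit 285)) (XT.nd (nat_lit 78) (nat_lit 228) (nat_lit 0) (XT.lf (nat_lit 0) (nat_lit 182082753274) (nat_lit 76) (nat_lit 209935987323) (nat_lit 152) (nat_lit 32836714165) (nat_lit 33) (nat_lit 5) (nat_lit 34) (nat_lit 5) (nat_lit 35) (nat_lit 4) (nat_lit 472) (nat_lit 444) (nat_lit 284)) (XT.lf (nat_lit 0) (nat_lit 356952560) (nat_lit 152) (nat_lit 69234481950) (nat_lit 228) (nat_lit 377547923469) (nat_lit 30) (nat_lit 5) (nat_lit 32) (nat_lit 5) (nat_lit 33) (nat_lit 5) (nat_lit 473) (nat_lit 444) (nat_lit 283))))))))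
noncomputable def xc196 : XT := (XT.nd (nat_lit 1716) (nat_lit 760) (nat_lit 0) (XT.nd (nat_lit 858) (nat_lit 608) (nat_lit 0) (XT.nd (nat_lit 390) (nat_lit 380) (nat_lit 0) (XT.nd (nat_lit 156) (nat_lit 152) (nat_lit 0) (XT.nd (nat_lit 78) (nat_lit 76) (nat_lit 0) (XT.lf (nat_lit 0) (nat_lit 187239438944) (nat_lit 228) (nat_lit 196946256621) (nat_lit 76) (nat_lit 86248074632) (nat_lit 30) (nat_lit 5) (nat_lit 33) (nat_lit 5) (nat_lit 31) (nat_lit 4) (nat_lit 474) (nat_lit 444) (nat_lit 282)) (XT.lf (nat_lit 0) (nat_lit 74821176502) (nat_lit 76) (nat_lit 243075762593) (nat_lit 152) (nat_lit 177406983889) (nat_lit 29) (nat_lit 5) (nat_lit 30) (nat_lit 5) (nat_lit 31) (nat_lit 4) (nat_lit 475) (nat_lit 444) (nat_lit 281))) (XT.nd (nat_lit 78) (nat_lit 152) (nat_lit 0) (XT.lf (nat_lit 0) (nat_lit 379530349022) (nat_lit 76) (nat_lit 84861458981) (nat_lit 152) (nat_lit 57341098511) (nat_lit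 29) (nat_lit 5) (nat_lit 30) (nat_lit 5) (nat_lit 31) (nat_lit 4) (nat_lit 476) (nat_lit 444) (nat_lit 280)) (XT.nd (nat_lit 78) (nat_lit 0) (nat_lit 0) (XT.lf (nat_lit 0) (nat_lit 74892993938) (nat_lit 152) (nat_lit 387189938317) (nat_lit 76) (nat_lit 87559619025) (nat_lit 27) (nat_lit 5) (nat_lit 29) (nat_lit 5) (nat_lit 28) (nat_lit 4) (nat_lit 477) (nat_lit 444) (nat_lit 279)) (XT.lf (nat_lit 0) (nat_lit 220801072287) (nat_lit 152) (nat_lit 83701258243) (nat_lit 76) (nat_lit 274668033402) (nat_lit 27) (nat_lit 5) (nat_lit 29) (nat_lit 5) (nat_lit 28) (nat_lit 4) (nat_lit 478) (nat_lit 444) (nat_lit 278))))) (XT.nd (nat_lit 234) (nat_lit 152) (nat_lit 0) (XT.nd (nat_lit 78) (nat_lit 152) (nat_lit 0) (XT.lf (nat_lit 0) (nat_lit 256918473468) (nat_lit 76) (nat_lit 127642139924) (nat_lit 152) (nat_lit 226005482899) (nat_lit 26) (nat_lit 5) (nat_lit 27) (nat_lit 5) (nat_lit 28) (nat_lit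 4) (nat_lit 479) (nat_lit 444) (nat_lit 277)) (XT.nd (nat_lit 78) (nat_lit 152) (nat_lit 0) (XT.lf (nat_lit 0) (nat_lit 565292797686) (nat_lit 152) (nat_lit 16326019034) (nat_lit 0) (nat_lit 62544920140) (nat_lit 26) (nat_lit 5) (nat_lit 28) (nat_lit 4) (nat_lit 26) (nat_lit 4) (nat_lit 480) (nat_lit 444) (nat_lit 276)) (XT.lf (nat_lit 0) (nat_lit 88384503016) (nat_lit 152) (nat_lit 318908201599) (nat_lit 76) (nat_lit 272014195537) (nat_lit 24) (nat_lit 5) (nat_lit 26) (nat_lit 5) (nat_lit 25) (nat_lit 4) (nat_lit 481) (nat_lit 444) (nat_lit 275)))) (XT.nd (nat_lit 78) (nat_lit 76) (nat_lit 0) (XT.lf (nat_lit 0) (nat_lit 51478920975) (nat_lit 76) (nat_lit 214976354258) (nat_lit 152) (nat_lit 450506675701) (nat_lit 23) (nat_lit 5) (nat_lit 24) (nat_lit 5) (nat_lit 25) (nat_lit 4) (nat_lit 482) (nat_lit 444) (nat_lit 274)) (XT.nd (nat_lit 78) (nat_lit 76) (nat_lit 0) (XT.lf (nat_lit 0) (nat_lit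 467542677604) (nat_lit 152) (nat_lit 287349899921) (nat_lit 0) (nat_lit 2035150794) (nat_lit 23) (nat_lit 5) (nat_lit 25) (nat_lit 4) (nat_lit 23) (nat_lit 4) (nat_lit 483) (nat_lit 444) (nat_lit 273)) (XT.lf (nat_lit 0) (nat_lit 121529342714) (nat_lit 76) (nat_lit 571694248438) (nat_lit 76) (nat_lit 106186655234) (nat_lit 22) (nat_lit 4) (nat_lit 23) (nat_lit 5) (nat_lit 23) (nat_lit 4) (nat_lit 484) (nat_lit 444) (nat_lit 272)))))) (XT.nd (nat_lit 390) (nat_lit 304) (nat_lit 0) (XT.nd (nat_lit 156) (nat_lit 152) (nat_lit 0) (XT.nd (nat_lit 78) (nat_lit 76) (nat_lit 0) (XT.lf (nat_lit 0) (nat_lit 95142685370) (nat_lit 152) (nat_lit 267610869109) (nat_lit 76) (nat_lit 481716590068) (nat_lit 21) (nat_lit 5) (nat_lit 23) (nat_lit 5) (nat_lit 22) (nat_lit 4) (nat_lit 485) (nat_lit 444) (nat_lit 271)) (XT.lf (nat_lit 0) (nat_lit 181817819776) (nat_lit 76) (nat_lit 129396378002) (nat_lit 152)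 (nat_lit 581350176234) (nat_lit 20) (nat_lit 5) (nat_lit 21) (nat_lit 5) (nat_lit 22) (nat_lit 4) (nat_lit 486) (nat_lit 444) (nat_lit 270))) (XT.nd (nat_lit 78) (nat_lit 152) (nat_lit 0) (XT.lf (nat_lit 0) (nat_lit 555027616270) (nat_lit 152) (nat_lit 264640122186) (nat_lit 0) (nat_lit 124001908576) (nat_lit 20) (nat_lit 5) (nat_lit 22) (nat_lit 4) (nat_lit 20) (nat_lit 4) (nat_lit 487) (nat_lit 444) (nat_lit 269)) (XT.nd (nat_lit 78) (nat_lit 76) (nat_lit 0) (XT.lf (nat_lit 0) (nat_lit 225051771685) (nat_lit 76) (nat_lit 602067725971) (nat_lit 76) (nat_lit 171041973091) (nat_lit 19) (nat_lit 4) (nat_lit 20) (nat_lit 5) (nat_lit 20) (nat_lit 4) (nat_lit 488) (nat_lit 444) (nat_lit 268)) (XT.lf (nat_lit 0) (nat_lit 68189861496) (nat_lit 152) (nat_lit 289190882808) (nat_lit 76) (nat_lit 698914935971) (nat_lit 18) (nat_lit 5) (nat_lit 20) (nat_lit 5) (nat_lit 19) (nat_lit 4) (nat_lit 489)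 (nat_lit 444) (nat_lit 267))))) (XT.nd (nat_lit 234) (nat_lit 152) (nat_lit 0) (XT.nd (nat_lit 78) (nat_lit 76) (nat_lit 0) (XT.lf (nat_lit 0) (nat_lit 241057354194) (nat_lit 76) (nat_lit 82059562947) (nat_lit 152) (nat_lit 795144506857) (nat_lit 17) (nat_lit 5) (nat_lit 18) (nat_lit 5) (nat_lit 19) (nat_lit 4) (nat_lit 490) (nat_lit 444) (nat_lit 266)) (XT.nd (nat_lit 78) (nat_lit 76) (nat_lit 0) (XT.lf (nat_lit 0) (nat_lit 611728118534) (nat_lit 152) (nat_lit 359763018811) (nat_lit 0) (nat_lit 212630091375) (nat_lit 17) (nat_lit 5) (nat_lit 19) (nat_lit 4) (nat_lit 17) (nat_lit 4) (nat_lit 491) (nat_lit 444) (nat_lit 265)) (XT.lf (nat_lit 0) (nat_lit 207312411651) (nat_lit 76) (nat_lit 723233042517) (nat_lit 76) (nat_lit 324134984605) (nat_lit 16) (nat_lit 4) (nat_lit 17) (nat_lit 5) (nat_lit 17) (nat_lit 4) (nat_lit 492) (nat_lit 444) (nat_lit 264)))) (XT.nd (nat_lit 78) (nat_lit 152)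 (nat_lit 0) (XT.lf (nat_lit 0) (nat_lit 840213826744) (nat_lit 76) (nat_lit 444490862150) (nat_lit 76) (nat_lit 45392775762) (nat_lit 16) (nat_lit 4) (nat_lit 17) (nat_lit 5) (nat_lit 17) (nat_lit 4) (nat_lit 493) (nat_lit 444) (nat_lit 263)) (XT.nd (nat_lit 78) (nat_lit 0) (nat_lit 0) (XT.lf (nat_lit 0) (nat_lit 111635516042) (nat_lit 76) (nat_lit 133909497802) (nat_lit 152) (nat_lit 1165296186533) (nat_lit 14) (nat_lit 5) (nat_lit 15) (nat_lit 5) (nat_lit 16) (nat_lit 4) (nat_lit 494) (nat_lit 444) (nat_lit 262)) (XT.lf (nat_lit 0) (nat_lit 575894106103) (nat_lit 152) (nat_lit 714210118822) (nat_lit 0) (nat_lit 206358793911) (nat_lit 14) (nat_lit 5) (nat_lit 16) (nat_lit 4) (nat_lit 14) (nat_lit 4) (nat_lit 495) (nat_lit 444) (nat_lit 261))))))) (XT.nd (nat_lit 858) (nat_lit 304) (nat_lit 0) (XT.nd (nat_lit 390) (nat_lit 228) (nat_lit 0) (XT.nd (nat_lit 156) (nat_lit 152) (nat_lit 0)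 (XT.nd (nat_lit 78) (nat_lit 76) (nat_lit 0) (XT.lf (nat_lit 0) (nat_lit 936149254019) (nat_lit 152) (nat_lit 85893157596) (nat_lit 0) (nat_lit 566613920897) (nat_lit 14) (nat_lit 5) (nat_lit 16) (nat_lit 4) (nat_lit 14) (nat_lit 4) (nat_lit 496) (nat_lit 444) (nat_lit 260)) (XT.lf (nat_lit 0) (nat_lit 623899042678) (nat_lit 76) (nat_lit 716330520575) (nat_lit 76) (nat_lit 346795168074) (nat_lit 13) (nat_lit 4) (nat_lit 14) (nat_lit 5) (nat_lit 14) (nat_lit 4) (nat_lit 497) (nat_lit 444) (nat_lit 259))) (XT.nd (nat_lit 78) (nat_lit 152) (nat_lit 0) (XT.lf (nat_lit 0) (nat_lit 1395359366076) (nat_lit 76) (nat_lit 383625365823) (nat_lit 76) (nat_lit 14089995376) (nat_lit 13) (nat_lit 4) (nat_lit 14) (nat_lit 5) (nat_lit 14) (nat_lit 4) (nat_lit 498) (nat_lit 444) (nat_lit 258)) (XT.nd (nat_lit 78) (nat_lit 0) (nat_lit 0) (XT.lf (nat_lit 0) (nat_lit 329087168024) (nat_lit 76) (nat_lit 6789060381)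 (nat_lit 152) (nat_lit 1570435106677) (nat_lit 11) (nat_lit 5) (nat_lit 12) (nat_lit 5) (nat_lit 13) (nat_lit 4) (nat_lit 499) (nat_lit 444) (nat_lit 257)) (XT.lf (nat_lit 0) (nat_lit 733859859419) (nat_lit 152) (nat_lit 901357777635) (nat_lit 0) (nat_lit 391697449747) (nat_lit 11) (nat_lit 5) (nat_lit 13) (nat_lit 4) (nat_lit 11) (nat_lit 4) (nat_lit 500) (nat_lit 444) (nat_lit 256))))) (XT.nd (nat_lit 234) (nat_lit 152) (nat_lit 0) (XT.nd (nat_lit 78) (nat_lit 76) (nat_lit 0) (XT.lf (nat_lit 0) (nat_lit 1163858488178) (nat_lit 152) (nat_lit 171598480582) (nat_lit 0) (nat_lit 821696065317) (nat_lit 11) (nat_lit 5) (nat_lit 13) (nat_lit 4) (nat_lit 11) (nat_lit 4) (nat_lit 501) (nat_lit 444) (nat_lit 255)) (XT.nd (nat_lit 78) (nat_lit 0) (nat_lit 0) (XT.lf (nat_lit 0) (nat_lit 649007483525) (nat_lit 76) (nat_lit 994858139703) (nat_lit 76) (nat_lit 652695704629) (nat_lit 10) (nat_lit 4)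 (nat_lit 11) (nat_lit 5) (nat_lit 11) (nat_lit 4) (nat_lit 502) (nat_lit 444) (nat_lit 254)) (XT.lf (nat_lit 0) (nat_lit 1545020824379) (nat_lit 76) (nat_lit 621944282462) (nat_lit 76) (nat_lit 279781836080) (nat_lit 10) (nat_lit 4) (nat_lit 11) (nat_lit 5) (nat_lit 11) (nat_lit 4) (nat_lit 503) (nat_lit 444) (nat_lit 253)))) (XT.nd (nat_lit 78) (nat_lit 76) (nat_lit 0) (XT.lf (nat_lit 0) (nat_lit 116813900179) (nat_lit 152) (nat_lit 99189544480) (nat_lit 76) (nat_lit 2392707379553) (nat_lit 9) (nat_lit 5) (nat_lit 11) (nat_lit 5) (nat_lit 10) (nat_lit 4) (nat_lit 504) (nat_lit 444) (nat_lit 252)) (XT.nd (nat_lit 78) (nat_lit 0) (nat_lit 0) (XT.lf (nat_lit 0) (nat_lit 555307174157) (nat_lit 152) (nat_lit 1987230372289) (nat_lit 0) (nat_lit 238490075502) (nat_lit 8) (nat_lit 5) (nat_lit 10) (nat_lit 4) (nat_lit 8) (nat_lit 4) (nat_lit 505) (nat_lit 444) (nat_lit 251)) (XT.lf (nat_lit 0)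 (nat_lit 1037272823826) (nat_lit 152) (nat_lit 1208729789719) (nat_lit 0) (nat_lit 720455716859) (nat_lit 8) (nat_lit 5) (nat_lit 10) (nat_lit 4) (nat_lit 8) (nat_lit 4) (nat_lit 506) (nat_lit 444) (nat_lit 250)))))) (XT.nd (nat_lit 468) (nat_lit 76) (nat_lit 0) (XT.nd (nat_lit 234) (nat_lit 152) (nat_lit 0) (XT.nd (nat_lit 78) (nat_lit 76) (nat_lit 0) (XT.lf (nat_lit 0) (nat_lit 1557795702080) (nat_lit 152) (nat_lit 367949207911) (nat_lit 0) (nat_lit 1240978587417) (nat_lit 8) (nat_lit 5) (nat_lit 10) (nat_lit 4) (nat_lit 8) (nat_lit 4) (nat_lit 507) (nat_lit 444) (nat_lit 249)) (XT.nd (nat_lit 78) (nat_lit 0) (nat_lit 0) (XT.lf (nat_lit 0) (nat_lit 568534157728) (nat_lit 76) (nat_lit 1565099491377) (nat_lit 76) (nat_lit 1248282369588) (nat_lit 7) (nat_lit 4) (nat_lit 8) (nat_lit 5) (nat_lit 8) (nat_lit 4) (nat_lit 508) (nat_lit 444) (nat_lit 248)) (XT.lf (nat_lit 0) (nat_lit 1600861747356)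 (nat_lit 76) (nat_lit 1164737246864) (nat_lit 76) (nat_lit 847920118477) (nat_lit 7) (nat_lit 4) (nat_lit 8) (nat_lit 5) (nat_lit 8) (nat_lit 4) (nat_lit 509) (nat_lit 444) (nat_lit 247)))) (XT.nd (nat_lit 78) (nat_lit 152) (nat_lit 0) (XT.lf (nat_lit 0) (nat_lit 2715775504571) (nat_lit 76) (nat_lit 732346042853) (nat_lit 76) (nat_lit 415528908357) (nat_lit 7) (nat_lit 4) (nat_lit 8) (nat_lit 5) (nat_lit 8) (nat_lit 4) (nat_lit 510) (nat_lit 444) (nat_lit 246)) (XT.nd (nat_lit 78) (nat_lit 76) (nat_lit 0) (XT.lf (nat_lit 0) (nat_lit 48879662640) (nat_lit 152) (nat_lit 215147441859) (nat_lit 76) (nat_lit 3869666206474) (nat_lit 6) (nat_lit 5) (nat_lit 8) (nat_lit 5) (nat_lit 7) (nat_lit 4) (nat_lit 511) (nat_lit 444) (nat_lit 245)) (XT.lf (nat_lit 0) (nat_lit 554382395261) (nat_lit 152) (nat_lit 3606949309667) (nat_lit 0) (nat_lit 261033186566) (nat_lit 5) (nat_lit 5) (nat_lit 7) (nat_lit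 4) (nat_lit 5) (nat_lit 4) (nat_lit 512) (nat_lit 444) (nat_lit 244))))) (XT.nd (nat_lit 234) (nat_lit 76) (nat_lit 0) (XT.nd (nat_lit 78) (nat_lit 0) (nat_lit 0) (XT.lf (nat_lit 0) (nat_lit 1113218481096) (nat_lit 152) (nat_lit 2800010998682) (nat_lit 0) (nat_lit 819869267910) (nat_lit 5) (nat_lit 5) (nat_lit 7) (nat_lit 4) (nat_lit 5) (nat_lit 4) (nat_lit 513) (nat_lit 444) (nat_lit 243)) (XT.nd (nat_lit 78) (nat_lit 0) (nat_lit 0) (XT.lf (nat_lit 0) (nat_lit 1716761437937) (nat_lit 152) (nat_lit 1928517655117) (nat_lit 0) (nat_lit 1423412220594) (nat_lit 5) (nat_lit 5) (nat_lit 7) (nat_lit 4) (nat_lit 5) (nat_lit 4) (nat_lit 514) (nat_lit 444) (nat_lit 242)) (XT.lf (nat_lit 0) (nat_lit 2368587816641) (nat_lit 152) (nat_lit 987304873970) (nat_lit 0) (nat_lit 2075238595448) (nat_lit 5) (nat_lit 5) (nat_lit 7) (nat_lit 4) (nat_lit 5) (nat_lit 4) (nat_lit 515) (nat_lit 444) (nat_lit 241))))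 (XT.nd (nat_lit 78) (nat_lit 0) (nat_lit 0) (XT.lf (nat_lit 0) (nat_lit 30742780360) (nat_lit 76) (nat_lit 3042556876291) (nat_lit 76) (nat_lit 2749207651532) (nat_lit 4) (nat_lit 4) (nat_lit 5) (nat_lit 5) (nat_lit 5) (nat_lit 4) (nat_lit 516) (nat_lit 444) (nat_lit 240)) (XT.nd (nat_lit 78) (nat_lit 0) (nat_lit 0) (XT.lf (nat_lit 0) (nat_lit 1186383123059) (nat_lit 76) (nat_lit 2674999972472) (nat_lit 76) (nat_lit 2381650744413) (nat_lit 4) (nat_lit 4) (nat_lit 5) (nat_lit 5) (nat_lit 5) (nat_lit 4) (nat_lit 517) (nat_lit 444) (nat_lit 239)) (XT.lf (nat_lit 0) (nat_lit 2434474668184) (nat_lit 76) (nat_lit 2278038529079) (nat_lit 76) (nat_lit 1984689297964) (nat_lit 4) (nat_lit 4) (nat_lit 5) (nat_lit 5) (nat_lit 5) (nat_lit 4) (nat_lit 518) (nat_lit 444) (nat_lit 238))))))))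
noncomputable def xc197 : XT := (XT.nd (nat_lit 58032) (nat_lit 0) (nat_lit 1596) (XT.nd (nat_lit 57174) (nat_lit 0) (nat_lit 3420) (XT.nd (nat_lit 56706) (nat_lit 0) (nat_lit 4636) (XT.nd (nat_lit 156) (nat_lit 152) (nat_lit 0) (XT.nd (nat_lit 78) (nat_lit 0) (nat_lit 0) (XT.lf (nat_lit 0) (nat_lit 3782413513781) (nat_lit 76) (nat_lit 1849320182002) (nat_lit 76) (nat_lit 1555970948057) (nat_lit 4) (nat_lit 4) (nat_lit 5) (nat_lit 5) (nat_lit 5) (nat_lit 4) (nat_lit 519) (nat_lit 444) (nat_lit 237)) (XT.lf (nat_lit 0) (nat_lit 5238187445601) (nat_lit 76) (nat_lit 1386304378074) (nat_lit 76) (nat_lit 1092955141509) (nat_lit 4) (nat_lit 4) (nat_lit 5) (nat_lit 5) (nat_lit 5) (nat_lit 4) (nat_lit 520) (nat_lit 444) (nat_lit 236))) (XT.nd (nat_lit 78) (nat_lit 152) (nat_lit 0) (XT.lf (nat_lit 0) (nat_lit 6810423272129) (nat_lit 76) (nat_lit 886247319938) (nat_lit 76) (nat_lit 592898080947)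 (nat_lit 4) (nat_lit 4) (nat_lit 5) (nat_lit 5) (nat_lit 5) (nat_lit 4) (nat_lit 521) (nat_lit 444) (nat_lit 235)) (XT.nd (nat_lit 78) (nat_lit 152) (nat_lit 0) (XT.lf (nat_lit 0) (nat_lit 8508437946412) (nat_lit 76) (nat_lit 346185706509) (nat_lit 76) (nat_lit 52836465271) (nat_lit 4) (nat_lit 4) (nat_lit 5) (nat_lit 5) (nat_lit 5) (nat_lit 4) (nat_lit 522) (nat_lit 444) (nat_lit 234)) (XT.lf (nat_lit 0) (nat_lit 529532957857) (nat_lit 152) (nat_lit 8784265113390) (nat_lit 0) (nat_lit 257913288119) (nat_lit 2) (nat_lit 5) (nat_lit 4) (nat_lit 4) (nat_lit 2) (nat_lit 4) (nat_lit 523) (nat_lit 444) (nat_lit 233))))) (XT.nd (nat_lit 234) (nat_lit 456) (nat_lit 0) (XT.nd (nat_lit 78) (nat_lit 0) (nat_lit 0) (XT.lf (nat_lit 0) (nat_lit 59459592827) (nat_lit 532) (nat_lit 2706667302) (nat_lit 532) (nat_lit 2706667302) (nat_lit 69) (nat_lit 3) (nat_lit 76) (nat_lit 3) (nat_lit 76) (nat_lit 5)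 (nat_lit 445) (nat_lit 445) (nat_lit 310)) (XT.nd (nat_lit 78) (nat_lit 0) (nat_lit 76) (XT.lf (nat_lit 76) (nat_lit 61227139111) (nat_lit 0) (nat_lit 63924976469) (nat_lit 532) (nat_lit 9665478025) (nat_lit 70) (nat_lit 5) (nat_lit 69) (nat_lit 3) (nat_lit 76) (nat_lit 5) (nat_lit 446) (nat_lit 445) (nat_lit 309)) (XT.lf (nat_lit 0) (nat_lit 132066798276) (nat_lit 456) (nat_lit 6812234445) (nat_lit 532) (nat_lit 1401389500) (nat_lit 70) (nat_lit 5) (nat_lit 76) (nat_lit 5) (nat_lit 77) (nat_lit 5) (nat_lit 447) (nat_lit 445) (nat_lit 308)))) (XT.nd (nat_lit 78) (nat_lit 532) (nat_lit 0) (XT.lf (nat_lit 76) (nat_lit 66999202164) (nat_lit 0) (nat_lit 75806835866) (nat_lit 532) (nat_lit 3112528727) (nat_lit 71) (nat_lit 5) (nat_lit 70) (nat_lit 5) (nat_lit 77) (nat_lit 5) (nat_lit 448) (nat_lit 445) (nat_lit 307)) (XT.nd (nat_lit 78) (nat_lit 0) (nat_lit 76) (XT.lf (nat_lit 0) (nat_lit 2467532615)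 (nat_lit 532) (nat_lit 4952603406) (nat_lit 608) (nat_lit 144567754355) (nat_lit 63) (nat_lit 5) (nat_lit 70) (nat_lit 5) (nat_lit 71) (nat_lit 5) (nat_lit 449) (nat_lit 445) (nat_lit 306)) (XT.lf (nat_lit 0) (nat_lit 11869630697) (nat_lit 532) (nat_lit 81241938496) (nat_lit 608) (nat_lit 65141220141) (nat_lit 64) (nat_lit 5) (nat_lit 71) (nat_lit 5) (nat_lit 72) (nat_lit 5) (nat_lit 450) (nat_lit 445) (nat_lit 305)))))) (XT.nd (nat_lit 390) (nat_lit 684) (nat_lit 0) (XT.nd (nat_lit 156) (nat_lit 608) (nat_lit 0) (XT.nd (nat_lit 78) (nat_lit 0) (nat_lit 76) (XT.lf (nat_lit 76) (nat_lit 640550977) (nat_lit 0) (nat_lit 21730127699) (nat_lit 608) (nat_lit 142620459136) (nat_lit 65) (nat_lit 5) (nat_lit 64) (nat_lit 5) (nat_lit 72) (nat_lit 5) (nat_lit 451) (nat_lit 445) (nat_lit 304)) (XT.lf (nat_lit 0) (nat_lit 37321990653) (nat_lit 532) (nat_lit 79786312731) (nat_lit 76) (nat_lit 54871436526)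 (nat_lit 65) (nat_lit 5) (nat_lit 72) (nat_lit 5) (nat_lit 66) (nat_lit 5) (nat_lit 452) (nat_lit 445) (nat_lit 303))) (XT.nd (nat_lit 78) (nat_lit 228) (nat_lit 0) (XT.lf (nat_lit 0) (nat_lit 11556555191) (nat_lit 456) (nat_lit 42754958765) (nat_lit 532) (nat_lit 125148547854) (nat_lit 59) (nat_lit 5) (nat_lit 65) (nat_lit 5) (nat_lit 66) (nat_lit 5) (nat_lit 453) (nat_lit 445) (nat_lit 302)) (XT.nd (nat_lit 78) (nat_lit 228) (nat_lit 0) (XT.lf (nat_lit 0) (nat_lit 75801123588) (nat_lit 532) (nat_lit 73579826958) (nat_lit 76) (nat_lit 37906585091) (nat_lit 59) (nat_lit 5) (nat_lit 66) (nat_lit 5) (nat_lit 60) (nat_lit 5) (nat_lit 454) (nat_lit 445) (nat_lit 301)) (XT.lf (nat_lit 0) (nat_lit 28610196915) (nat_lit 228) (nat_lit 72198081858) (nat_lit 304) (nat_lit 94789058579) (nat_lit 56) (nat_lit 5) (nat_lit 59) (nat_lit 5) (nat_lit 60) (nat_lit 5) (nat_lit 455) (nat_lit 445) (nat_lit 300)))))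 (XT.nd (nat_lit 234) (nat_lit 456) (nat_lit 0) (XT.nd (nat_lit 78) (nat_lit 228) (nat_lit 0) (XT.lf (nat_lit 0) (nat_lit 130148240859) (nat_lit 304) (nat_lit 61571885277) (nat_lit 76) (nat_lit 12665218422) (nat_lit 56) (nat_lit 5) (nat_lit 60) (nat_lit 5) (nat_lit 57) (nat_lit 5) (nat_lit 456) (nat_lit 445) (nat_lit 299)) (XT.nd (nat_lit 78) (nat_lit 0) (nat_lit 0) (XT.lf (nat_lit 0) (nat_lit 53055125366) (nat_lit 228) (nat_lit 111931334560) (nat_lit 304) (nat_lit 48637847717) (nat_lit 53) (nat_lit 5) (nat_lit 56) (nat_lit 5) (nat_lit 57) (nat_lit 5) (nat_lit 457) (nat_lit 445) (nat_lit 298)) (XT.lf (nat_lit 0) (nat_lit 180353727842) (nat_lit 228) (nat_lit 23941310260) (nat_lit 304) (nat_lit 19172685646) (nat_lit 53) (nat_lit 5) (nat_lit 56) (nat_lit 5) (nat_lit 57) (nat_lit 5) (nat_lit 458) (nat_lit 445) (nat_lit 297)))) (XT.nd (nat_lit 78) (nat_lit 228) (nat_lit 0) (XT.lf (nat_lit 0)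 (nat_lit 15901389387) (nat_lit 228) (nat_lit 147851127836) (nat_lit 76) (nat_lit 70010998878) (nat_lit 50) (nat_lit 5) (nat_lit 53) (nat_lit 5) (nat_lit 51) (nat_lit 5) (nat_lit 459) (nat_lit 445) (nat_lit 296)) (XT.nd (nat_lit 78) (nat_lit 228) (nat_lit 0) (XT.lf (nat_lit 0) (nat_lit 54576684406) (nat_lit 228) (nat_lit 18226532028) (nat_lit 76) (nat_lit 171893426781) (nat_lit 50) (nat_lit 5) (nat_lit 53) (nat_lit 5) (nat_lit 51) (nat_lit 5) (nat_lit 460) (nat_lit 445) (nat_lit 295)) (XT.lf (nat_lit 0) (nat_lit 100120048662) (nat_lit 304) (nat_lit 128769376015) (nat_lit 76) (nat_lit 27313072242) (nat_lit 47) (nat_lit 5) (nat_lit 51) (nat_lit 5) (nat_lit 48) (nat_lit 5) (nat_lit 461) (nat_lit 445) (nat_lit 294))))))) (XT.nd (nat_lit 858) (nat_lit 836) (nat_lit 0) (XT.nd (nat_lit 390) (nat_lit 456) (nat_lit 0) (XT.nd (nat_lit 156) (nat_lit 380) (nat_lit 0) (XT.nd (nat_lit 78) (nat_lit 0)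 (nat_lit 0) (XT.lf (nat_lit 0) (nat_lit 16094102813) (nat_lit 152) (nat_lit 136001976306) (nat_lit 228) (nat_lit 116309604100) (nat_lit 45) (nat_lit 5) (nat_lit 47) (nat_lit 5) (nat_lit 48) (nat_lit 5) (nat_lit 462) (nat_lit 445) (nat_lit 293)) (XT.lf (nat_lit 0) (nat_lit 179869687144) (nat_lit 152) (nat_lit 31881145131) (nat_lit 228) (nat_lit 69552640989) (nat_lit 45) (nat_lit 5) (nat_lit 47) (nat_lit 5) (nat_lit 48) (nat_lit 5) (nat_lit 463) (nat_lit 445) (nat_lit 292))) (XT.nd (nat_lit 78) (nat_lit 228) (nat_lit 0) (XT.lf (nat_lit 0) (nat_lit 62713525661) (nat_lit 152) (nat_lit 216910263276) (nat_lit 228) (nat_lit 15333631773) (nat_lit 43) (nat_lit 5) (nat_lit 45) (nat_lit 5) (nat_lit 46) (nat_lit 5) (nat_lit 464) (nat_lit 445) (nat_lit 291)) (XT.nd (nat_lit 78) (nat_lit 152) (nat_lit 0) (XT.lf (nat_lit 0) (nat_lit 44734079252) (nat_lit 228) (nat_lit 65660388920) (nat_lit 76) (nat_lit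 198932185650) (nat_lit 42) (nat_lit 5) (nat_lit 45) (nat_lit 5) (nat_lit 43) (nat_lit 5) (nat_lit 465) (nat_lit 445) (nat_lit 290)) (XT.lf (nat_lit 0) (nat_lit 111857846407) (nat_lit 228) (nat_lit 204933303141) (nat_lit 76) (nat_lit 7776089695) (nat_lit 40) (nat_lit 5) (nat_lit 43) (nat_lit 5) (nat_lit 41) (nat_lit 5) (nat_lit 466) (nat_lit 445) (nat_lit 289))))) (XT.nd (nat_lit 234) (nat_lit 228) (nat_lit 0) (XT.nd (nat_lit 78) (nat_lit 228) (nat_lit 0) (XT.lf (nat_lit 0) (nat_lit 189060687030) (nat_lit 228) (nat_lit 20311683759) (nat_lit 76) (nat_lit 131277966985) (nat_lit 40) (nat_lit 5) (nat_lit 43) (nat_lit 5) (nat_lit 41) (nat_lit 5) (nat_lit 467) (nat_lit 445) (nat_lit 288)) (XT.nd (nat_lit 78) (nat_lit 76) (nat_lit 0) (XT.lf (nat_lit 0) (nat_lit 188509501316) (nat_lit 152) (nat_lit 88463801897) (nat_lit 228) (nat_lit 80684097147) (nat_lit 38) (nat_lit 5) (nat_lit 40) (nat_lit 5)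 (nat_lit 41) (nat_lit 5) (nat_lit 468) (nat_lit 445) (nat_lit 287)) (XT.lf (nat_lit 0) (nat_lit 40194069633) (nat_lit 76) (nat_lit 334274128294) (nat_lit 152) (nat_lit 1352888525) (nat_lit 37) (nat_lit 5) (nat_lit 38) (nat_lit 5) (nat_lit 39) (nat_lit 4) (nat_lit 469) (nat_lit 445) (nat_lit 286)))) (XT.nd (nat_lit 78) (nat_lit 152) (nat_lit 0) (XT.lf (nat_lit 0) (nat_lit 87149131062) (nat_lit 152) (nat_lit 123610972557) (nat_lit 76) (nat_lit 183952116080) (nat_lit 36) (nat_lit 5) (nat_lit 38) (nat_lit 5) (nat_lit 37) (nat_lit 5) (nat_lit 470) (nat_lit 445) (nat_lit 285)) (XT.nd (nat_lit 78) (nat_lit 0) (nat_lit 0) (XT.lf (nat_lit 0) (nat_lit 110877598508) (nat_lit 152) (nat_lit 74447133317) (nat_lit 228) (nat_lit 229573779755) (nat_lit 34) (nat_lit 5) (nat_lit 36) (nat_lit 5) (nat_lit 37) (nat_lit 5) (nat_lit 471) (nat_lit 445) (nat_lit 284)) (XT.lf (nat_lit 0) (nat_lit 296571954230) (nat_lit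 228) (nat_lit 67112298619) (nat_lit 76) (nat_lit 72598048104) (nat_lit 34) (nat_lit 5) (nat_lit 37) (nat_lit 5) (nat_lit 35) (nat_lit 4) (nat_lit 472) (nat_lit 445) (nat_lit 283)))))) (XT.nd (nat_lit 468) (nat_lit 304) (nat_lit 0) (XT.nd (nat_lit 234) (nat_lit 228) (nat_lit 0) (XT.nd (nat_lit 78) (nat_lit 228) (nat_lit 0) (XT.lf (nat_lit 0) (nat_lit 196652515497) (nat_lit 76) (nat_lit 226729539276) (nat_lit 152) (nat_lit 35461690698) (nat_lit 33) (nat_lit 5) (nat_lit 34) (nat_lit 5) (nat_lit 35) (nat_lit 4) (nat_lit 473) (nat_lit 445) (nat_lit 282)) (XT.nd (nat_lit 78) (nat_lit 0) (nat_lit 0) (XT.lf (nat_lit 0) (nat_lit 388667207) (nat_lit 152) (nat_lit 74771882582) (nat_lit 228) (nat_lit 407749812378) (nat_lit 30) (nat_lit 5) (nat_lit 32) (nat_lit 5) (nat_lit 33) (nat_lit 5) (nat_lit 474) (nat_lit 445) (nat_lit 281)) (XT.lf (nat_lit 0) (nat_lit 202220291445) (nat_lit 228) (nat_lit 212698929156)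 (nat_lit 76) (nat_lit 93149115042) (nat_lit 30) (nat_lit 5) (nat_lit 33) (nat_lit 5) (nat_lit 31) (nat_lit 4) (nat_lit 475) (nat_lit 445) (nat_lit 280)))) (XT.nd (nat_lit 78) (nat_lit 152) (nat_lit 0) (XT.lf (nat_lit 0) (nat_lit 80809821959) (nat_lit 76) (nat_lit 262520514898) (nat_lit 152) (nat_lit 191597768206) (nat_lit 29) (nat_lit 5) (nat_lit 30) (nat_lit 5) (nat_lit 31) (nat_lit 4) (nat_lit 476) (nat_lit 445) (nat_lit 279)) (XT.nd (nat_lit 78) (nat_lit 152) (nat_lit 0) (XT.lf (nat_lit 0) (nat_lit 409895509662) (nat_lit 76) (nat_lit 91649163938) (nat_lit 152) (nat_lit 61926743435) (nat_lit 29) (nat_lit 5) (nat_lit 30) (nat_lit 5) (nat_lit 31) (nat_lit 4) (nat_lit 477) (nat_lit 445) (nat_lit 278)) (XT.lf (nat_lit 0) (nat_lit 80885974250) (nat_lit 152) (nat_lit 418162297926) (nat_lit 76) (nat_lit 94565559664) (nat_lit 27) (nat_lit 5) (nat_lit 29) (nat_lit 5) (nat_lit 28) (nat_lit 4) (nat_lit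 478) (nat_lit 445) (nat_lit 277))))) (XT.nd (nat_lit 234) (nat_lit 228) (nat_lit 0) (XT.nd (nat_lit 78) (nat_lit 76) (nat_lit 0) (XT.lf (nat_lit 0) (nat_lit 238466584734) (nat_lit 152) (nat_lit 90394733480) (nat_lit 76) (nat_lit 296642560442) (nat_lit 27) (nat_lit 5) (nat_lit 29) (nat_lit 5) (nat_lit 28) (nat_lit 4) (nat_lit 479) (nat_lit 445) (nat_lit 276)) (XT.nd (nat_lit 78) (nat_lit 0) (nat_lit 0) (XT.lf (nat_lit 0) (nat_lit 277474510301) (nat_lit 76) (nat_lit 137852334691) (nat_lit 152) (nat_lit 244084428162) (nat_lit 26) (nat_lit 5) (nat_lit 27) (nat_lit 5) (nat_lit 28) (nat_lit 4) (nat_lit 480) (nat_lit 445) (nat_lit 275)) (XT.lf (nat_lit 0) (nat_lit 610517527817) (nat_lit 152) (nat_lit 17629654720) (nat_lit 0) (nat_lit 67549548546) (nat_lit 26) (nat_lit 5) (nat_lit 28) (nat_lit 4) (nat_lit 26) (nat_lit 4) (nat_lit 481) (nat_lit 445) (nat_lit 274)))) (XT.nd (nat_lit 78) (nat_lit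 76) (nat_lit 0) (XT.lf (nat_lit 0) (nat_lit 95456563243) (nat_lit 152) (nat_lit 344418405166) (nat_lit 76) (nat_lit 293776379567) (nat_lit 24) (nat_lit 5) (nat_lit 26) (nat_lit 5) (nat_lit 25) (nat_lit 4) (nat_lit 482) (nat_lit 445) (nat_lit 273)) (XT.nd (nat_lit 78) (nat_lit 0) (nat_lit 0) (XT.lf (nat_lit 0) (nat_lit 55599625124) (nat_lit 76) (nat_lit 232173333310) (nat_lit 152) (nat_lit 486545847506) (nat_lit 23) (nat_lit 5) (nat_lit 24) (nat_lit 5) (nat_lit 25) (nat_lit 4) (nat_lit 483) (nat_lit 445) (nat_lit 272)) (XT.lf (nat_lit 0) (nat_lit 504947284720) (nat_lit 152) (nat_lit 310335610081) (nat_lit 0) (nat_lit 2198956189) (nat_lit 23) (nat_lit 5) (nat_lit 25) (nat_lit 4) (nat_lit 23) (nat_lit 4) (nat_lit 484) (nat_lit 445) (nat_lit 271))))))))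
noncomputable def xc198 : XT := (XT.nd (nat_lit 1716) (nat_lit 304) (nat_lit 0) (XT.nd (nat_lit 858) (nat_lit 456) (nat_lit 0) (XT.nd (nat_lit 390) (nat_lit 380) (nat_lit 0) (XT.nd (nat_lit 156) (nat_lit 152) (nat_lit 0) (XT.nd (nat_lit 78) (nat_lit 76) (nat_lit 0) (XT.lf (nat_lit 0) (nat_lit 131253914196) (nat_lit 76) (nat_lit 617428722280) (nat_lit 76) (nat_lit 114680336826) (nat_lit 22) (nat_lit 4) (nat_lit 23) (nat_lit 5) (nat_lit 23) (nat_lit 4) (nat_lit 485) (nat_lit 445) (nat_lit 270)) (XT.lf (nat_lit 0) (nat_lit 102755200436) (nat_lit 152) (nat_lit 289017621252) (nat_lit 76) (nat_lit 520254846275) (nat_lit 21) (nat_lit 5) (nat_lit 23) (nat_lit 5) (nat_lit 22) (nat_lit 4) (nat_lit 486) (nat_lit 445) (nat_lit 269))) (XT.nd (nat_lit 78) (nat_lit 76) (nat_lit 0) (XT.lf (nat_lit 0) (nat_lit 196365309139) (nat_lit 76) (nat_lit 139747092832) (nat_lit 152) (nat_lit 627857036373) (nat_lit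 20) (nat_lit 5) (nat_lit 21) (nat_lit 5) (nat_lit 22) (nat_lit 4) (nat_lit 487) (nat_lit 445) (nat_lit 268)) (XT.nd (nat_lit 78) (nat_lit 76) (nat_lit 0) (XT.lf (nat_lit 0) (nat_lit 599430836970) (nat_lit 152) (nat_lit 285809363971) (nat_lit 0) (nat_lit 133922936832) (nat_lit 20) (nat_lit 5) (nat_lit 22) (nat_lit 4) (nat_lit 20) (nat_lit 4) (nat_lit 488) (nat_lit 445) (nat_lit 267)) (XT.lf (nat_lit 0) (nat_lit 243057831588) (nat_lit 76) (nat_lit 650232208493) (nat_lit 76) (nat_lit 184724269615) (nat_lit 19) (nat_lit 4) (nat_lit 20) (nat_lit 5) (nat_lit 20) (nat_lit 4) (nat_lit 489) (nat_lit 445) (nat_lit 266))))) (XT.nd (nat_lit 234) (nat_lit 228) (nat_lit 0) (XT.nd (nat_lit 78) (nat_lit 76) (nat_lit 0) (XT.lf (nat_lit 0) (nat_lit 73645983963) (nat_lit 152) (nat_lit 312324328105) (nat_lit 76) (nat_lit 754828947858) (nat_lit 18) (nat_lit 5) (nat_lit 20) (nat_lit 5) (nat_lit 19) (nat_lit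 4) (nat_lit 490) (nat_lit 445) (nat_lit 265)) (XT.nd (nat_lit 78) (nat_lit 0) (nat_lit 0) (XT.lf (nat_lit 0) (nat_lit 260343721646) (nat_lit 76) (nat_lit 88623456050) (nat_lit 152) (nat_lit 858755087566) (nat_lit 17) (nat_lit 5) (nat_lit 18) (nat_lit 5) (nat_lit 19) (nat_lit 4) (nat_lit 491) (nat_lit 445) (nat_lit 264)) (XT.lf (nat_lit 0) (nat_lit 660667227418) (nat_lit 152) (nat_lit 388542365128) (nat_lit 0) (nat_lit 229641265644) (nat_lit 17) (nat_lit 5) (nat_lit 19) (nat_lit 4) (nat_lit 17) (nat_lit 4) (nat_lit 492) (nat_lit 445) (nat_lit 263)))) (XT.nd (nat_lit 78) (nat_lit 152) (nat_lit 0) (XT.lf (nat_lit 0) (nat_lit 223899056855) (nat_lit 76) (nat_lit 781090869126) (nat_lit 76) (nat_lit 350064880986) (nat_lit 16) (nat_lit 4) (nat_lit 17) (nat_lit 5) (nat_lit 17) (nat_lit 4) (nat_lit 493) (nat_lit 445) (nat_lit 262)) (XT.nd (nat_lit 78) (nat_lit 152) (nat_lit 0) (XT.lf (nat_lit 0)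 (nat_lit 907432462764) (nat_lit 76) (nat_lit 480049374833) (nat_lit 76) (nat_lit 49023362279) (nat_lit 16) (nat_lit 4) (nat_lit 17) (nat_lit 5) (nat_lit 17) (nat_lit 4) (nat_lit 494) (nat_lit 445) (nat_lit 261)) (XT.lf (nat_lit 0) (nat_lit 120567889272) (nat_lit 76) (nat_lit 144621497472) (nat_lit 152) (nat_lit 1258519047864) (nat_lit 14) (nat_lit 5) (nat_lit 15) (nat_lit 5) (nat_lit 16) (nat_lit 4) (nat_lit 495) (nat_lit 445) (nat_lit 260)))))) (XT.nd (nat_lit 390) (nat_lit 228) (nat_lit 0) (XT.nd (nat_lit 156) (nat_lit 228) (nat_lit 0) (XT.nd (nat_lit 78) (nat_lit 0) (nat_lit 0) (XT.lf (nat_lit 0) (nat_lit 621966366142) (nat_lit 152) (nat_lit 771345469565) (nat_lit 0) (nat_lit 222868166060) (nat_lit 14) (nat_lit 5) (nat_lit 16) (nat_lit 4) (nat_lit 14) (nat_lit 4) (nat_lit 496) (nat_lit 445) (nat_lit 259)) (XT.lf (nat_lit 0) (nat_lit 1011041871703) (nat_lit 152) (nat_lit 92763259497)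 (nat_lit 0) (nat_lit 611943653677) (nat_lit 14) (nat_lit 5) (nat_lit 16) (nat_lit 4) (nat_lit 14) (nat_lit 4) (nat_lit 497) (nat_lit 445) (nat_lit 258))) (XT.nd (nat_lit 78) (nat_lit 152) (nat_lit 0) (XT.lf (nat_lit 0) (nat_lit 673812282603) (nat_lit 76) (nat_lit 773636304560) (nat_lit 76) (nat_lit 374538069918) (nat_lit 13) (nat_lit 4) (nat_lit 14) (nat_lit 5) (nat_lit 14) (nat_lit 4) (nat_lit 498) (nat_lit 445) (nat_lit 257)) (XT.nd (nat_lit 78) (nat_lit 152) (nat_lit 0) (XT.lf (nat_lit 0) (nat_lit 1506989334354) (nat_lit 76) (nat_lit 414314786142) (nat_lit 76) (nat_lit 15216536116) (nat_lit 13) (nat_lit 4) (nat_lit 14) (nat_lit 5) (nat_lit 14) (nat_lit 4) (nat_lit 499) (nat_lit 445) (nat_lit 256)) (XT.lf (nat_lit 0) (nat_lit 355415361760) (nat_lit 76) (nat_lit 7331573831) (nat_lit 152) (nat_lit 1696069257551) (nat_lit 11) (nat_lit 5) (nat_lit 12) (nat_lit 5) (nat_lit 13) (nat_lit 4)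 (nat_lit 500) (nat_lit 445) (nat_lit 255))))) (XT.nd (nat_lit 234) (nat_lit 152) (nat_lit 0) (XT.nd (nat_lit 78) (nat_lit 76) (nat_lit 0) (XT.lf (nat_lit 0) (nat_lit 792569225595) (nat_lit 152) (nat_lit 973465238422) (nat_lit 0) (nat_lit 423033783502) (nat_lit 11) (nat_lit 5) (nat_lit 13) (nat_lit 4) (nat_lit 11) (nat_lit 4) (nat_lit 501) (nat_lit 445) (nat_lit 254)) (XT.nd (nat_lit 78) (nat_lit 76) (nat_lit 0) (XT.lf (nat_lit 0) (nat_lit 1256967701883) (nat_lit 152) (nat_lit 185325283636) (nat_lit 0) (nat_lit 887432248482) (nat_lit 11) (nat_lit 5) (nat_lit 13) (nat_lit 4) (nat_lit 11) (nat_lit 4) (nat_lit 502) (nat_lit 445) (nat_lit 253)) (XT.lf (nat_lit 0) (nat_lit 700929130375) (nat_lit 76) (nat_lit 1074446262967) (nat_lit 76) (nat_lit 704910799096) (nat_lit 10) (nat_lit 4) (nat_lit 11) (nat_lit 5) (nat_lit 11) (nat_lit 4) (nat_lit 503) (nat_lit 445) (nat_lit 252)))) (XT.nd (nat_lit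 78) (nat_lit 152) (nat_lit 0) (XT.lf (nat_lit 0) (nat_lit 1668623460855) (nat_lit 76) (nat_lit 671699336252) (nat_lit 76) (nat_lit 302163862686) (nat_lit 10) (nat_lit 4) (nat_lit 11) (nat_lit 5) (nat_lit 11) (nat_lit 4) (nat_lit 504) (nat_lit 445) (nat_lit 251)) (XT.nd (nat_lit 78) (nat_lit 76) (nat_lit 0) (XT.lf (nat_lit 0) (nat_lit 126159469836) (nat_lit 152) (nat_lit 107123785283) (nat_lit 76) (nat_lit 2584124398396) (nat_lit 9) (nat_lit 5) (nat_lit 11) (nat_lit 5) (nat_lit 10) (nat_lit 4) (nat_lit 505) (nat_lit 445) (nat_lit 250)) (XT.lf (nat_lit 0) (nat_lit 599732204383) (nat_lit 152) (nat_lit 2146207877947) (nat_lit 0) (nat_lit 257569712851) (nat_lit 8) (nat_lit 5) (nat_lit 10) (nat_lit 4) (nat_lit 8) (nat_lit 4) (nat_lit 506) (nat_lit 445) (nat_lit 249))))))) (XT.nd (nat_lit 858) (nat_lit 0) (nat_lit 0) (XT.nd (nat_lit 390) (nat_lit 228) (nat_lit 0) (XT.nd (nat_lit 156) (nat_lit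 76) (nat_lit 0) (XT.nd (nat_lit 78) (nat_lit 0) (nat_lit 0) (XT.lf (nat_lit 0) (nat_lit 1120255072226) (nat_lit 152) (nat_lit 1305427317225) (nat_lit 0) (nat_lit 778092573568) (nat_lit 8) (nat_lit 5) (nat_lit 10) (nat_lit 4) (nat_lit 8) (nat_lit 4) (nat_lit 507) (nat_lit 445) (nat_lit 248)) (XT.lf (nat_lit 0) (nat_lit 1682419749444) (nat_lit 152) (nat_lit 397384352255) (nat_lit 0) (nat_lit 1340257244189) (nat_lit 8) (nat_lit 5) (nat_lit 10) (nat_lit 4) (nat_lit 8) (nat_lit 4) (nat_lit 508) (nat_lit 445) (nat_lit 247))) (XT.nd (nat_lit 78) (nat_lit 0) (nat_lit 0) (XT.lf (nat_lit 0) (nat_lit 614017662577) (nat_lit 76) (nat_lit 1690307059249) (nat_lit 76) (nat_lit 1348144547884) (nat_lit 7) (nat_lit 4) (nat_lit 8) (nat_lit 5) (nat_lit 8) (nat_lit 4) (nat_lit 509) (nat_lit 445) (nat_lit 246)) (XT.nd (nat_lit 78) (nat_lit 0) (nat_lit 0) (XT.lf (nat_lit 0) (nat_lit 1728931402172) (nat_lit 76)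 (nat_lit 1257915864170) (nat_lit 76) (nat_lit 915753347148) (nat_lit 7) (nat_lit 4) (nat_lit 8) (nat_lit 5) (nat_lit 8) (nat_lit 4) (nat_lit 510) (nat_lit 445) (nat_lit 245)) (XT.lf (nat_lit 0) (nat_lit 2933038207000) (nat_lit 76) (nat_lit 790933390686) (nat_lit 76) (nat_lit 448770868426) (nat_lit 7) (nat_lit 4) (nat_lit 8) (nat_lit 5) (nat_lit 8) (nat_lit 4) (nat_lit 511) (nat_lit 445) (nat_lit 244))))) (XT.nd (nat_lit 234) (nat_lit 76) (nat_lit 0) (XT.nd (nat_lit 78) (nat_lit 76) (nat_lit 0) (XT.lf (nat_lit 0) (nat_lit 52790345801) (nat_lit 152) (nat_lit 232358607843) (nat_lit 76) (nat_lit 4179239797385) (nat_lit 6) (nat_lit 5) (nat_lit 8) (nat_lit 5) (nat_lit 7) (nat_lit 4) (nat_lit 512) (nat_lit 445) (nat_lit 243)) (XT.nd (nat_lit 78) (nat_lit 0) (nat_lit 0) (XT.lf (nat_lit 0) (nat_lit 598733296302) (nat_lit 152) (nat_lit 3895504624335) (nat_lit 0) (nat_lit 281916137413) (nat_lit 5)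 (nat_lit 5) (nat_lit 7) (nat_lit 4) (nat_lit 5) (nat_lit 4) (nat_lit 513) (nat_lit 445) (nat_lit 242)) (XT.lf (nat_lit 0) (nat_lit 1202276246083) (nat_lit 152) (nat_lit 3024011295146) (nat_lit 0) (nat_lit 885459083344) (nat_lit 5) (nat_lit 5) (nat_lit 7) (nat_lit 4) (nat_lit 5) (nat_lit 4) (nat_lit 514) (nat_lit 445) (nat_lit 241)))) (XT.nd (nat_lit 78) (nat_lit 76) (nat_lit 0) (XT.lf (nat_lit 0) (nat_lit 1854102618250) (nat_lit 152) (nat_lit 2082798527312) (nat_lit 0) (nat_lit 1537285451946) (nat_lit 5) (nat_lit 5) (nat_lit 7) (nat_lit 4) (nat_lit 5) (nat_lit 4) (nat_lit 515) (nat_lit 445) (nat_lit 240)) (XT.nd (nat_lit 78) (nat_lit 76) (nat_lit 0) (XT.lf (nat_lit 0) (nat_lit 2558075087600) (nat_lit 152) (nat_lit 1066288763690) (nat_lit 0) (nat_lit 2241257917996) (nat_lit 5) (nat_lit 5) (nat_lit 7) (nat_lit 4) (nat_lit 5) (nat_lit 4) (nat_lit 516) (nat_lit 445) (nat_lit 239)) (XT.lf (nat_lit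 0) (nat_lit 33202690324) (nat_lit 76) (nat_lit 3285961178017) (nat_lit 76) (nat_lit 2969144005356) (nat_lit 4) (nat_lit 4) (nat_lit 5) (nat_lit 5) (nat_lit 5) (nat_lit 4) (nat_lit 517) (nat_lit 445) (nat_lit 238)))))) (XT.nd (nat_lit 56862) (nat_lit 0) (nat_lit 4484) (XT.nd (nat_lit 234) (nat_lit 0) (nat_lit 0) (XT.nd (nat_lit 78) (nat_lit 0) (nat_lit 0) (XT.lf (nat_lit 0) (nat_lit 1281294224325) (nat_lit 76) (nat_lit 2888999740291) (nat_lit 76) (nat_lit 2572182564801) (nat_lit 4) (nat_lit 4) (nat_lit 5) (nat_lit 5) (nat_lit 5) (nat_lit 4) (nat_lit 518) (nat_lit 445) (nat_lit 237)) (XT.nd (nat_lit 78) (nat_lit 0) (nat_lit 0) (XT.lf (nat_lit 0) (nat_lit 2629233059621) (nat_lit 76) (nat_lit 2460281398462) (nat_lit 76) (nat_lit 2143464220351) (nat_lit 4) (nat_lit 4) (nat_lit 5) (nat_lit 5) (nat_lit 5) (nat_lit 4) (nat_lit 519) (nat_lit 445) (nat_lit 236)) (XT.lf (nat_lit 0) (nat_lit 4085006981904)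 (nat_lit 76) (nat_lit 1997265599392) (nat_lit 76) (nat_lit 1680448418856) (nat_lit 4) (nat_lit 4) (nat_lit 5) (nat_lit 5) (nat_lit 5) (nat_lit 4) (nat_lit 520) (nat_lit 445) (nat_lit 235)))) (XT.nd (nat_lit 78) (nat_lit 0) (nat_lit 0) (XT.lf (nat_lit 0) (nat_lit 5657242799602) (nat_lit 76) (nat_lit 1497208545755) (nat_lit 76) (nat_lit 1180391362972) (nat_lit 4) (nat_lit 4) (nat_lit 5) (nat_lit 5) (nat_lit 5) (nat_lit 4) (nat_lit 521) (nat_lit 445) (nat_lit 234)) (XT.nd (nat_lit 78) (nat_lit 0) (nat_lit 0) (XT.lf (nat_lit 0) (nat_lit 7355257465708) (nat_lit 76) (nat_lit 957146936492) (nat_lit 76) (nat_lit 640329751629) (nat_lit 4) (nat_lit 4) (nat_lit 5) (nat_lit 5) (nat_lit 5) (nat_lit 4) (nat_lit 522) (nat_lit 445) (nat_lit 233)) (XT.lf (nat_lit 0) (nat_lit 9189113289354) (nat_lit 76) (nat_lit 373880406510) (nat_lit 76) (nat_lit 57063219721) (nat_lit 4) (nat_lit 4) (nat_lit 5) (nat_lit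 5) (nat_lit 5) (nat_lit 4) (nat_lit 523) (nat_lit 445) (nat_lit 232))))) (XT.nd (nat_lit 234) (nat_lit 456) (nat_lit 0) (XT.nd (nat_lit 78) (nat_lit 0) (nat_lit 0) (XT.lf (nat_lit 0) (nat_lit 64219920843) (nat_lit 532) (nat_lit 2921276771) (nat_lit 532) (nat_lit 2921276771) (nat_lit 69) (nat_lit 3) (nat_lit 76) (nat_lit 3) (nat_lit 76) (nat_lit 5) (nat_lit 446) (nat_lit 446) (nat_lit 308)) (XT.nd (nat_lit 78) (nat_lit 0) (nat_lit 76) (XT.lf (nat_lit 76) (nat_lit 66129060659) (nat_lit 0) (nat_lit 69041908050) (nat_lit 532) (nat_lit 10431493240) (nat_lit 70) (nat_lit 5) (nat_lit 69) (nat_lit 3) (nat_lit 76) (nat_lit 5) (nat_lit 447) (nat_lit 446) (nat_lit 307)) (XT.lf (nat_lit 0) (nat_lit 142638265593) (nat_lit 456) (nat_lit 7353176057) (nat_lit 532) (nat_lit 1510920365) (nat_lit 70) (nat_lit 5) (nat_lit 76) (nat_lit 5) (nat_lit 77) (nat_lit 5) (nat_lit 448) (nat_lit 446) (nat_lit 306))))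 (XT.nd (nat_lit 78) (nat_lit 532) (nat_lit 0) (XT.lf (nat_lit 76) (nat_lit 72363073274) (nat_lit 0) (nat_lit 81873212299) (nat_lit 532) (nat_lit 3355301561) (nat_lit 71) (nat_lit 5) (nat_lit 70) (nat_lit 5) (nat_lit 77) (nat_lit 5) (nat_lit 449) (nat_lit 446) (nat_lit 305)) (XT.nd (nat_lit 78) (nat_lit 0) (nat_lit 76) (XT.lf (nat_lit 0) (nat_lit 2670414706) (nat_lit 532) (nat_lit 5344876418) (nat_lit 608) (nat_lit 156131188862) (nat_lit 63) (nat_lit 5) (nat_lit 70) (nat_lit 5) (nat_lit 71) (nat_lit 5) (nat_lit 450) (nat_lit 446) (nat_lit 304)) (XT.lf (nat_lit 0) (nat_lit 12824335004) (nat_lit 532) (nat_lit 87737009664) (nat_lit 608) (nat_lit 70351254086) (nat_lit 64) (nat_lit 5) (nat_lit 71) (nat_lit 5) (nat_lit 72) (nat_lit 5) (nat_lit 451) (nat_lit 446) (nat_lit 303))))))))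
noncomputable def xc199 : XT := (XT.nd (nat_lit 1716) (nat_lit 1520) (nat_lit 0) (XT.nd (nat_lit 858) (nat_lit 988) (nat_lit 0) (XT.nd (nat_lit 390) (nat_lit 684) (nat_lit 0) (XT.nd (nat_lit 156) (nat_lit 608) (nat_lit 0) (XT.nd (nat_lit 78) (nat_lit 0) (nat_lit 76) (XT.lf (nat_lit 76) (nat_lit 695970513) (nat_lit 0) (nat_lit 23469216442) (nat_lit 608) (nat_lit 154024850768) (nat_lit 65) (nat_lit 5) (nat_lit 64) (nat_lit 5) (nat_lit 72) (nat_lit 5) (nat_lit 452) (nat_lit 446) (nat_lit 302)) (XT.lf (nat_lit 0) (nat_lit 40312229226) (nat_lit 532) (nat_lit 86164974332) (nat_lit 76) (nat_lit 59260554611) (nat_lit 65) (nat_lit 5) (nat_lit 72) (nat_lit 5) (nat_lit 66) (nat_lit 5) (nat_lit 453) (nat_lit 446) (nat_lit 301))) (XT.nd (nat_lit 78) (nat_lit 228) (nat_lit 0) (XT.lf (nat_lit 0) (nat_lit 12485215596) (nat_lit 456) (nat_lit 46175466467) (nat_lit 532) (nat_lit 135155842537) (nat_lit 59)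 (nat_lit 5) (nat_lit 65) (nat_lit 5) (nat_lit 66) (nat_lit 5) (nat_lit 454) (nat_lit 446) (nat_lit 300)) (XT.nd (nat_lit 78) (nat_lit 228) (nat_lit 0) (XT.lf (nat_lit 0) (nat_lit 81869143402) (nat_lit 532) (nat_lit 79462064213) (nat_lit 76) (nat_lit 40939014261) (nat_lit 59) (nat_lit 5) (nat_lit 66) (nat_lit 5) (nat_lit 60) (nat_lit 5) (nat_lit 455) (nat_lit 446) (nat_lit 299)) (XT.lf (nat_lit 0) (nat_lit 30903056535) (nat_lit 228) (nat_lit 77973620616) (nat_lit 304) (nat_lit 102368146249) (nat_lit 56) (nat_lit 5) (nat_lit 59) (nat_lit 5) (nat_lit 60) (nat_lit 5) (nat_lit 456) (nat_lit 446) (nat_lit 298))))) (XT.nd (nat_lit 234) (nat_lit 456) (nat_lit 0) (XT.nd (nat_lit 78) (nat_lit 228) (nat_lit 0) (XT.lf (nat_lit 0) (nat_lit 140563566311) (nat_lit 304) (nat_lit 66493619983) (nat_lit 76) (nat_lit 13678706631) (nat_lit 56) (nat_lit 5) (nat_lit 60) (nat_lit 5) (nat_lit 57) (nat_lit 5) (nat_lit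 457) (nat_lit 446) (nat_lit 297)) (XT.nd (nat_lit 78) (nat_lit 0) (nat_lit 0) (XT.lf (nat_lit 0) (nat_lit 57303449838) (nat_lit 228) (nat_lit 120885230455) (nat_lit 304) (nat_lit 52525305916) (nat_lit 53) (nat_lit 5) (nat_lit 56) (nat_lit 5) (nat_lit 57) (nat_lit 5) (nat_lit 458) (nat_lit 446) (nat_lit 296)) (XT.lf (nat_lit 0) (nat_lit 194785650553) (nat_lit 228) (nat_lit 25856049460) (nat_lit 304) (nat_lit 20703195295) (nat_lit 53) (nat_lit 5) (nat_lit 56) (nat_lit 5) (nat_lit 57) (nat_lit 5) (nat_lit 459) (nat_lit 446) (nat_lit 295)))) (XT.nd (nat_lit 78) (nat_lit 228) (nat_lit 0) (XT.lf (nat_lit 0) (nat_lit 17176513508) (nat_lit 228) (nat_lit 159675298438) (nat_lit 76) (nat_lit 75612543008) (nat_lit 50) (nat_lit 5) (nat_lit 53) (nat_lit 5) (nat_lit 51) (nat_lit 5) (nat_lit 460) (nat_lit 446) (nat_lit 294)) (XT.nd (nat_lit 78) (nat_lit 228) (nat_lit 0) (XT.lf (nat_lit 0) (nat_lit 58945608945)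 (nat_lit 228) (nat_lit 19681025307) (nat_lit 76) (nat_lit 185645515942) (nat_lit 50) (nat_lit 5) (nat_lit 53) (nat_lit 5) (nat_lit 51) (nat_lit 5) (nat_lit 461) (nat_lit 446) (nat_lit 293)) (XT.lf (nat_lit 0) (nat_lit 108132341669) (nat_lit 304) (nat_lit 139067194942) (nat_lit 76) (nat_lit 29498943733) (nat_lit 47) (nat_lit 5) (nat_lit 51) (nat_lit 5) (nat_lit 48) (nat_lit 5) (nat_lit 462) (nat_lit 446) (nat_lit 292)))))) (XT.nd (nat_lit 390) (nat_lit 456) (nat_lit 0) (XT.nd (nat_lit 156) (nat_lit 380) (nat_lit 0) (XT.nd (nat_lit 78) (nat_lit 0) (nat_lit 0) (XT.lf (nat_lit 0) (nat_lit 17385267733) (nat_lit 152) (nat_lit 146881075099) (nat_lit 228) (nat_lit 125611587744) (nat_lit 45) (nat_lit 5) (nat_lit 47) (nat_lit 5) (nat_lit 48) (nat_lit 5) (nat_lit 463) (nat_lit 446) (nat_lit 291)) (XT.lf (nat_lit 0) (nat_lit 194262629425) (nat_lit 152) (nat_lit 34430655898) (nat_lit 228) (nat_lit 75114273857)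 (nat_lit 45) (nat_lit 5) (nat_lit 47) (nat_lit 5) (nat_lit 48) (nat_lit 5) (nat_lit 464) (nat_lit 446) (nat_lit 290))) (XT.nd (nat_lit 78) (nat_lit 228) (nat_lit 0) (XT.lf (nat_lit 0) (nat_lit 67734053868) (nat_lit 152) (nat_lit 234261952597) (nat_lit 228) (nat_lit 16557821797) (nat_lit 43) (nat_lit 5) (nat_lit 45) (nat_lit 5) (nat_lit 46) (nat_lit 5) (nat_lit 465) (nat_lit 446) (nat_lit 289)) (XT.nd (nat_lit 78) (nat_lit 152) (nat_lit 0) (XT.lf (nat_lit 0) (nat_lit 48315005066) (nat_lit 228) (nat_lit 70909912513) (nat_lit 76) (nat_lit 214847691775) (nat_lit 42) (nat_lit 5) (nat_lit 45) (nat_lit 5) (nat_lit 43) (nat_lit 5) (nat_lit 466) (nat_lit 446) (nat_lit 288)) (XT.lf (nat_lit 0) (nat_lit 120808614890) (nat_lit 228) (nat_lit 221324600413) (nat_lit 76) (nat_lit 8399231063) (nat_lit 40) (nat_lit 5) (nat_lit 43) (nat_lit 5) (nat_lit 41) (nat_lit 5) (nat_lit 467) (nat_lit 446) (nat_lit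 287))))) (XT.nd (nat_lit 234) (nat_lit 228) (nat_lit 0) (XT.nd (nat_lit 78) (nat_lit 228) (nat_lit 0) (XT.lf (nat_lit 0) (nat_lit 204187524187) (nat_lit 228) (nat_lit 21933500886) (nat_lit 76) (nat_lit 141781180447) (nat_lit 40) (nat_lit 5) (nat_lit 43) (nat_lit 5) (nat_lit 41) (nat_lit 5) (nat_lit 468) (nat_lit 446) (nat_lit 286)) (XT.nd (nat_lit 78) (nat_lit 76) (nat_lit 0) (XT.lf (nat_lit 0) (nat_lit 203593300069) (nat_lit 152) (nat_lit 95539775847) (nat_lit 228) (nat_lit 87136763150) (nat_lit 38) (nat_lit 5) (nat_lit 40) (nat_lit 5) (nat_lit 41) (nat_lit 5) (nat_lit 469) (nat_lit 446) (nat_lit 285)) (XT.lf (nat_lit 0) (nat_lit 43412679871) (nat_lit 76) (nat_lit 361014840322) (nat_lit 152) (nat_lit 1459103259) (nat_lit 37) (nat_lit 5) (nat_lit 38) (nat_lit 5) (nat_lit 39) (nat_lit 4) (nat_lit 470) (nat_lit 446) (nat_lit 284)))) (XT.nd (nat_lit 78) (nat_lit 152) (nat_lit 0) (XT.lf (nat_lit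 0) (nat_lit 94122835141) (nat_lit 152) (nat_lit 133496900279) (nat_lit 76) (nat_lit 198669319453) (nat_lit 36) (nat_lit 5) (nat_lit 38) (nat_lit 5) (nat_lit 37) (nat_lit 5) (nat_lit 471) (nat_lit 446) (nat_lit 283)) (XT.nd (nat_lit 78) (nat_lit 0) (nat_lit 0) (XT.lf (nat_lit 0) (nat_lit 119750681786) (nat_lit 152) (nat_lit 80401739956) (nat_lit 228) (nat_lit 247937833380) (nat_lit 34) (nat_lit 5) (nat_lit 36) (nat_lit 5) (nat_lit 37) (nat_lit 5) (nat_lit 472) (nat_lit 446) (nat_lit 282)) (XT.lf (nat_lit 0) (nat_lit 320299321091) (nat_lit 228) (nat_lit 72478518816) (nat_lit 76) (nat_lit 78406915839) (nat_lit 34) (nat_lit 5) (nat_lit 37) (nat_lit 5) (nat_lit 35) (nat_lit 4) (nat_lit 473) (nat_lit 446) (nat_lit 281))))))) (XT.nd (nat_lit 858) (nat_lit 684) (nat_lit 0) (XT.nd (nat_lit 390) (nat_lit 456) (nat_lit 0) (XT.nd (nat_lit 156) (nat_lit 76) (nat_lit 0) (XT.nd (nat_lit 78) (nat_lit 228)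 (nat_lit 0) (XT.lf (nat_lit 0) (nat_lit 212387410463) (nat_lit 76) (nat_lit 244866764702) (nat_lit 152) (nat_lit 38296945056) (nat_lit 33) (nat_lit 5) (nat_lit 34) (nat_lit 5) (nat_lit 35) (nat_lit 4) (nat_lit 474) (nat_lit 446) (nat_lit 280)) (XT.lf (nat_lit 0) (nat_lit 422468439) (nat_lit 152) (nat_lit 80752468988) (nat_lit 228) (nat_lit 440368129872) (nat_lit 30) (nat_lit 5) (nat_lit 32) (nat_lit 5) (nat_lit 33) (nat_lit 5) (nat_lit 475) (nat_lit 446) (nat_lit 279))) (XT.nd (nat_lit 78) (nat_lit 76) (nat_lit 0) (XT.lf (nat_lit 0) (nat_lit 218399369995) (nat_lit 228) (nat_lit 229712247472) (nat_lit 76) (nat_lit 100602068285) (nat_lit 30) (nat_lit 5) (nat_lit 33) (nat_lit 5) (nat_lit 31) (nat_lit 4) (nat_lit 476) (nat_lit 446) (nat_lit 278)) (XT.nd (nat_lit 78) (nat_lit 0) (nat_lit 0) (XT.lf (nat_lit 0) (nat_lit 87277138010) (nat_lit 76) (nat_lit 283521034088) (nat_lit 152) (nat_lit 206924068406)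 (nat_lit 29) (nat_lit 5) (nat_lit 30) (nat_lit 5) (nat_lit 31) (nat_lit 4) (nat_lit 477) (nat_lit 446) (nat_lit 277)) (XT.lf (nat_lit 0) (nat_lit 442689493301) (nat_lit 76) (nat_lit 98980058162) (nat_lit 152) (nat_lit 66879474339) (nat_lit 29) (nat_lit 5) (nat_lit 30) (nat_lit 5) (nat_lit 31) (nat_lit 4) (nat_lit 478) (nat_lit 446) (nat_lit 276))))) (XT.nd (nat_lit 234) (nat_lit 228) (nat_lit 0) (XT.nd (nat_lit 78) (nat_lit 76) (nat_lit 0) (XT.lf (nat_lit 0) (nat_lit 87358173176) (nat_lit 152) (nat_lit 451612850814) (nat_lit 76) (nat_lit 102131808482) (nat_lit 27) (nat_lit 5) (nat_lit 29) (nat_lit 5) (nat_lit 28) (nat_lit 4) (nat_lit 479) (nat_lit 446) (nat_lit 275)) (XT.nd (nat_lit 78) (nat_lit 76) (nat_lit 0) (XT.lf (nat_lit 0) (nat_lit 257545134647) (nat_lit 152) (nat_lit 97624061283) (nat_lit 76) (nat_lit 320374894948) (nat_lit 27) (nat_lit 5) (nat_lit 29) (nat_lit 5) (nat_lit 28) (nat_lit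 4) (nat_lit 480) (nat_lit 446) (nat_lit 274)) (XT.lf (nat_lit 0) (nat_lit 299674665018) (nat_lit 76) (nat_lit 148879512869) (nat_lit 152) (nat_lit 263609902092) (nat_lit 26) (nat_lit 5) (nat_lit 27) (nat_lit 5) (nat_lit 28) (nat_lit 4) (nat_lit 481) (nat_lit 446) (nat_lit 273)))) (XT.nd (nat_lit 78) (nat_lit 228) (nat_lit 0) (XT.lf (nat_lit 0) (nat_lit 659360049998) (nat_lit 152) (nat_lit 19037930187) (nat_lit 0) (nat_lit 72954399599) (nat_lit 26) (nat_lit 5) (nat_lit 28) (nat_lit 4) (nat_lit 26) (nat_lit 4) (nat_lit 482) (nat_lit 446) (nat_lit 272)) (XT.nd (nat_lit 78) (nat_lit 76) (nat_lit 0) (XT.lf (nat_lit 0) (nat_lit 103094202830) (nat_lit 152) (nat_lit 371969774904) (nat_lit 76) (nat_lit 317279388755) (nat_lit 24) (nat_lit 5) (nat_lit 26) (nat_lit 5) (nat_lit 25) (nat_lit 4) (nat_lit 483) (nat_lit 446) (nat_lit 271)) (XT.lf (nat_lit 0) (nat_lit 60049644577) (nat_lit 76) (nat_lit 250746231791)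 (nat_lit 152) (nat_lit 525468347396) (nat_lit 23) (nat_lit 5) (nat_lit 24) (nat_lit 5) (nat_lit 25) (nat_lit 4) (nat_lit 484) (nat_lit 446) (nat_lit 270)))))) (XT.nd (nat_lit 468) (nat_lit 380) (nat_lit 0) (XT.nd (nat_lit 234) (nat_lit 152) (nat_lit 0) (XT.nd (nat_lit 78) (nat_lit 152) (nat_lit 0) (XT.lf (nat_lit 0) (nat_lit 545344090224) (nat_lit 152) (nat_lit 335160502583) (nat_lit 0) (nat_lit 2375724305) (nat_lit 23) (nat_lit 5) (nat_lit 25) (nat_lit 4) (nat_lit 23) (nat_lit 4) (nat_lit 485) (nat_lit 446) (nat_lit 269)) (XT.nd (nat_lit 78) (nat_lit 76) (nat_lit 0) (XT.lf (nat_lit 0) (nat_lit 141756134110) (nat_lit 76) (nat_lit 666822106112) (nat_lit 76) (nat_lit 123853691391) (nat_lit 22) (nat_lit 4) (nat_lit 23) (nat_lit 5) (nat_lit 23) (nat_lit 4) (nat_lit 486) (nat_lit 446) (nat_lit 268)) (XT.lf (nat_lit 0) (nat_lit 110976559745) (nat_lit 152) (nat_lit 312137215636) (nat_lit 76) (nat_lit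 561876030447) (nat_lit 21) (nat_lit 5) (nat_lit 23) (nat_lit 5) (nat_lit 22) (nat_lit 4) (nat_lit 487) (nat_lit 446) (nat_lit 267)))) (XT.nd (nat_lit 78) (nat_lit 76) (nat_lit 0) (XT.lf (nat_lit 0) (nat_lit 212076303229) (nat_lit 76) (nat_lit 150926006855) (nat_lit 152) (nat_lit 678084609949) (nat_lit 20) (nat_lit 5) (nat_lit 21) (nat_lit 5) (nat_lit 22) (nat_lit 4) (nat_lit 488) (nat_lit 446) (nat_lit 266)) (XT.nd (nat_lit 78) (nat_lit 76) (nat_lit 0) (XT.lf (nat_lit 0) (nat_lit 647386171039) (nat_lit 152) (nat_lit 308672425854) (nat_lit 0) (nat_lit 144637522439) (nat_lit 20) (nat_lit 5) (nat_lit 22) (nat_lit 4) (nat_lit 20) (nat_lit 4) (nat_lit 489) (nat_lit 446) (nat_lit 265)) (XT.lf (nat_lit 0) (nat_lit 262504102635) (nat_lit 76) (nat_lit 702249983084) (nat_lit 76) (nat_lit 199501301271) (nat_lit 19) (nat_lit 4) (nat_lit 20) (nat_lit 5) (nat_lit 20) (nat_lit 4) (nat_lit 490) (nat_lit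 446) (nat_lit 264))))) (XT.nd (nat_lit 234) (nat_lit 228) (nat_lit 0) (XT.nd (nat_lit 78) (nat_lit 76) (nat_lit 0) (XT.lf (nat_lit 0) (nat_lit 79538463047) (nat_lit 152) (nat_lit 337308709429) (nat_lit 76) (nat_lit 815215964140) (nat_lit 18) (nat_lit 5) (nat_lit 20) (nat_lit 5) (nat_lit 19) (nat_lit 4) (nat_lit 491) (nat_lit 446) (nat_lit 263)) (XT.nd (nat_lit 78) (nat_lit 0) (nat_lit 0) (XT.lf (nat_lit 0) (nat_lit 281172744684) (nat_lit 76) (nat_lit 95712584991) (nat_lit 152) (nat_lit 927454654517) (nat_lit 17) (nat_lit 5) (nat_lit 18) (nat_lit 5) (nat_lit 19) (nat_lit 4) (nat_lit 492) (nat_lit 446) (nat_lit 262)) (XT.lf (nat_lit 0) (nat_lit 713521342410) (nat_lit 152) (nat_lit 419624300988) (nat_lit 0) (nat_lit 248013224439) (nat_lit 17) (nat_lit 5) (nat_lit 19) (nat_lit 4) (nat_lit 17) (nat_lit 4) (nat_lit 493) (nat_lit 446) (nat_lit 261)))) (XT.nd (nat_lit 78) (nat_lit 152) (nat_lit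 0) (XT.lf (nat_lit 0) (nat_lit 241812397960) (nat_lit 76) (nat_lit 843577438388) (nat_lit 76) (nat_lit 378069297813) (nat_lit 16) (nat_lit 4) (nat_lit 17) (nat_lit 5) (nat_lit 17) (nat_lit 4) (nat_lit 494) (nat_lit 446) (nat_lit 260)) (XT.nd (nat_lit 78) (nat_lit 152) (nat_lit 0) (XT.lf (nat_lit 0) (nat_lit 980028371412) (nat_lit 76) (nat_lit 518452676423) (nat_lit 76) (nat_lit 52944514917) (nat_lit 16) (nat_lit 4) (nat_lit 17) (nat_lit 5) (nat_lit 17) (nat_lit 4) (nat_lit 495) (nat_lit 446) (nat_lit 259)) (XT.lf (nat_lit 0) (nat_lit 130214633812) (nat_lit 76) (nat_lit 156190565561) (nat_lit 152) (nat_lit 1359199857022) (nat_lit 14) (nat_lit 5) (nat_lit 15) (nat_lit 5) (nat_lit 16) (nat_lit 4) (nat_lit 496) (nat_lit 446) (nat_lit 258))))))))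
noncomputable def xc200 : XT := (XT.nd (nat_lit 1716) (nat_lit 0) (nat_lit 0) (XT.nd (nat_lit 858) (nat_lit 304) (nat_lit 0) (XT.nd (nat_lit 390) (nat_lit 228) (nat_lit 0) (XT.nd (nat_lit 156) (nat_lit 228) (nat_lit 0) (XT.nd (nat_lit 78) (nat_lit 0) (nat_lit 0) (XT.lf (nat_lit 0) (nat_lit 671724302621) (nat_lit 152) (nat_lit 833051856476) (nat_lit 0) (nat_lit 240698192593) (nat_lit 14) (nat_lit 5) (nat_lit 16) (nat_lit 4) (nat_lit 14) (nat_lit 4) (nat_lit 497) (nat_lit 446) (nat_lit 257)) (XT.lf (nat_lit 0) (nat_lit 1091925802169) (nat_lit 152) (nat_lit 100183162243) (nat_lit 0) (nat_lit 660899676756) (nat_lit 14) (nat_lit 5) (nat_lit 16) (nat_lit 4) (nat_lit 14) (nat_lit 4) (nat_lit 498) (nat_lit 446) (nat_lit 256))) (XT.nd (nat_lit 78) (nat_lit 152) (nat_lit 0) (XT.lf (nat_lit 0) (nat_lit 727718393908) (nat_lit 76) (nat_lit 835526645085) (nat_lit 76) (nat_lit 404500505428) (nat_lit 13)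 (nat_lit 4) (nat_lit 14) (nat_lit 5) (nat_lit 14) (nat_lit 4) (nat_lit 499) (nat_lit 446) (nat_lit 255)) (XT.nd (nat_lit 78) (nat_lit 152) (nat_lit 0) (XT.lf (nat_lit 0) (nat_lit 1627549526191) (nat_lit 76) (nat_lit 447459446960) (nat_lit 76) (nat_lit 16433294114) (nat_lit 13) (nat_lit 4) (nat_lit 14) (nat_lit 5) (nat_lit 14) (nat_lit 4) (nat_lit 500) (nat_lit 446) (nat_lit 254)) (XT.lf (nat_lit 0) (nat_lit 383849636907) (nat_lit 76) (nat_lit 7917575576) (nat_lit 152) (nat_lit 1831754234317) (nat_lit 11) (nat_lit 5) (nat_lit 12) (nat_lit 5) (nat_lit 13) (nat_lit 4) (nat_lit 501) (nat_lit 446) (nat_lit 253))))) (XT.nd (nat_lit 234) (nat_lit 152) (nat_lit 0) (XT.nd (nat_lit 78) (nat_lit 76) (nat_lit 0) (XT.lf (nat_lit 0) (nat_lit 855975258689) (nat_lit 152) (nat_lit 1051341461762) (nat_lit 0) (nat_lit 456876947238) (nat_lit 11) (nat_lit 5) (nat_lit 13) (nat_lit 4) (nat_lit 11) (nat_lit 4)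 (nat_lit 502) (nat_lit 446) (nat_lit 252)) (XT.nd (nat_lit 78) (nat_lit 76) (nat_lit 0) (XT.lf (nat_lit 0) (nat_lit 1357525576410) (nat_lit 152) (nat_lit 200150384351) (nat_lit 0) (nat_lit 958427255264) (nat_lit 11) (nat_lit 5) (nat_lit 13) (nat_lit 4) (nat_lit 11) (nat_lit 4) (nat_lit 503) (nat_lit 446) (nat_lit 251)) (XT.lf (nat_lit 0) (nat_lit 757004359440) (nat_lit 76) (nat_lit 1160401511405) (nat_lit 76) (nat_lit 761303181282) (nat_lit 10) (nat_lit 4) (nat_lit 11) (nat_lit 5) (nat_lit 11) (nat_lit 4) (nat_lit 504) (nat_lit 446) (nat_lit 250)))) (XT.nd (nat_lit 78) (nat_lit 152) (nat_lit 0) (XT.lf (nat_lit 0) (nat_lit 1802114169792) (nat_lit 76) (nat_lit 725434864078) (nat_lit 76) (nat_lit 326336525644) (nat_lit 10) (nat_lit 4) (nat_lit 11) (nat_lit 5) (nat_lit 11) (nat_lit 4) (nat_lit 505) (nat_lit 446) (nat_lit 249)) (XT.nd (nat_lit 78) (nat_lit 76) (nat_lit 0) (XT.lf (nat_lit 0)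 (nat_lit 136252619778) (nat_lit 152) (nat_lit 115692896991) (nat_lit 76) (nat_lit 2790854717620) (nat_lit 9) (nat_lit 5) (nat_lit 11) (nat_lit 5) (nat_lit 10) (nat_lit 4) (nat_lit 506) (nat_lit 446) (nat_lit 248)) (XT.lf (nat_lit 0) (nat_lit 647711171931) (nat_lit 152) (nat_lit 2317903715894) (nat_lit 0) (nat_lit 278175659657) (nat_lit 8) (nat_lit 5) (nat_lit 10) (nat_lit 4) (nat_lit 8) (nat_lit 4) (nat_lit 507) (nat_lit 446) (nat_lit 247)))))) (XT.nd (nat_lit 390) (nat_lit 228) (nat_lit 0) (XT.nd (nat_lit 156) (nat_lit 76) (nat_lit 0) (XT.nd (nat_lit 78) (nat_lit 0) (nat_lit 0) (XT.lf (nat_lit 0) (nat_lit 1209875840224) (nat_lit 152) (nat_lit 1409860769002) (nat_lit 0) (nat_lit 840340321840) (nat_lit 8) (nat_lit 5) (nat_lit 10) (nat_lit 4) (nat_lit 8) (nat_lit 4) (nat_lit 508) (nat_lit 446) (nat_lit 246)) (XT.lf (nat_lit 0) (nat_lit 1817013664789) (nat_lit 152) (nat_lit 429174421176) (nat_lit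 0) (nat_lit 1447478140748) (nat_lit 8) (nat_lit 5) (nat_lit 10) (nat_lit 4) (nat_lit 8) (nat_lit 4) (nat_lit 509) (nat_lit 446) (nat_lit 245))) (XT.nd (nat_lit 78) (nat_lit 0) (nat_lit 0) (XT.lf (nat_lit 0) (nat_lit 663139737647) (nat_lit 76) (nat_lit 1825531288394) (nat_lit 76) (nat_lit 1455995759115) (nat_lit 7) (nat_lit 4) (nat_lit 8) (nat_lit 5) (nat_lit 8) (nat_lit 4) (nat_lit 510) (nat_lit 446) (nat_lit 244)) (XT.nd (nat_lit 78) (nat_lit 0) (nat_lit 0) (XT.lf (nat_lit 0) (nat_lit 1867246527368) (nat_lit 76) (nat_lit 1358548822567) (nat_lit 76) (nat_lit 989013288439) (nat_lit 7) (nat_lit 4) (nat_lit 8) (nat_lit 5) (nat_lit 8) (nat_lit 4) (nat_lit 511) (nat_lit 446) (nat_lit 243)) (XT.lf (nat_lit 0) (nat_lit 3167681831173) (nat_lit 76) (nat_lit 854207774222) (nat_lit 76) (nat_lit 484672235603) (nat_lit 7) (nat_lit 4) (nat_lit 8) (nat_lit 5) (nat_lit 8) (nat_lit 4) (nat_lit 512) (nat_lit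 446) (nat_lit 242))))) (XT.nd (nat_lit 234) (nat_lit 76) (nat_lit 0) (XT.nd (nat_lit 78) (nat_lit 76) (nat_lit 0) (XT.lf (nat_lit 0) (nat_lit 57013839368) (nat_lit 152) (nat_lit 250946756891) (nat_lit 76) (nat_lit 4513579233570) (nat_lit 6) (nat_lit 5) (nat_lit 8) (nat_lit 5) (nat_lit 7) (nat_lit 4) (nat_lit 513) (nat_lit 446) (nat_lit 241)) (XT.nd (nat_lit 78) (nat_lit 0) (nat_lit 0) (XT.lf (nat_lit 0) (nat_lit 646632225284) (nat_lit 152) (nat_lit 4207144454067) (nat_lit 0) (nat_lit 304469682111) (nat_lit 5) (nat_lit 5) (nat_lit 7) (nat_lit 4) (nat_lit 5) (nat_lit 4) (nat_lit 514) (nat_lit 446) (nat_lit 240)) (XT.lf (nat_lit 0) (nat_lit 1298458591397) (nat_lit 152) (nat_lit 3265931698560) (nat_lit 0) (nat_lit 956296044924) (nat_lit 5) (nat_lit 5) (nat_lit 7) (nat_lit 4) (nat_lit 5) (nat_lit 4) (nat_lit 515) (nat_lit 446) (nat_lit 239)))) (XT.nd (nat_lit 78) (nat_lit 76) (nat_lit 0) (XT.lf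 (nat_lit 0) (nat_lit 2002431055143) (nat_lit 152) (nat_lit 2249421946350) (nat_lit 0) (nat_lit 1660268505613) (nat_lit 5) (nat_lit 5) (nat_lit 7) (nat_lit 4) (nat_lit 5) (nat_lit 4) (nat_lit 516) (nat_lit 446) (nat_lit 238)) (XT.nd (nat_lit 78) (nat_lit 76) (nat_lit 0) (XT.lf (nat_lit 0) (nat_lit 2762721305194) (nat_lit 152) (nat_lit 1151591435946) (nat_lit 0) (nat_lit 2420558752834) (nat_lit 5) (nat_lit 5) (nat_lit 7) (nat_lit 4) (nat_lit 5) (nat_lit 4) (nat_lit 517) (nat_lit 446) (nat_lit 237)) (XT.lf (nat_lit 0) (nat_lit 35859323532) (nat_lit 76) (nat_lit 3548837859315) (nat_lit 76) (nat_lit 3206675304335) (nat_lit 4) (nat_lit 4) (nat_lit 5) (nat_lit 5) (nat_lit 5) (nat_lit 4) (nat_lit 518) (nat_lit 446) (nat_lit 236))))))) (XT.nd (nat_lit 57330) (nat_lit 0) (nat_lit 3116) (XT.nd (nat_lit 56862) (nat_lit 0) (nat_lit 4484) (XT.nd (nat_lit 156) (nat_lit 0) (nat_lit 0) (XT.nd (nat_lit 78)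 (nat_lit 0) (nat_lit 0) (XT.lf (nat_lit 0) (nat_lit 1383798149292) (nat_lit 76) (nat_lit 3120119522345) (nat_lit 76) (nat_lit 2777956964939) (nat_lit 4) (nat_lit 4) (nat_lit 5) (nat_lit 5) (nat_lit 5) (nat_lit 4) (nat_lit 519) (nat_lit 446) (nat_lit 235)) (XT.lf (nat_lit 0) (nat_lit 2839572062744) (nat_lit 76) (nat_lit 2657103727774) (nat_lit 76) (nat_lit 2314941168122) (nat_lit 4) (nat_lit 4) (nat_lit 5) (nat_lit 5) (nat_lit 5) (nat_lit 4) (nat_lit 520) (nat_lit 446) (nat_lit 234))) (XT.nd (nat_lit 78) (nat_lit 0) (nat_lit 0) (XT.lf (nat_lit 0) (nat_lit 4411807872265) (nat_lit 76) (nat_lit 2157046678303) (nat_lit 76) (nat_lit 1814884116571) (nat_lit 4) (nat_lit 4) (nat_lit 5) (nat_lit 5) (nat_lit 5) (nat_lit 4) (nat_lit 521) (nat_lit 446) (nat_lit 233)) (XT.nd (nat_lit 78) (nat_lit 0) (nat_lit 0) (XT.lf (nat_lit 0) (nat_lit 6109822530800) (nat_lit 76) (nat_lit 1616985072896) (nat_lit 76)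 (nat_lit 1274822509238) (nat_lit 4) (nat_lit 4) (nat_lit 5) (nat_lit 5) (nat_lit 5) (nat_lit 4) (nat_lit 522) (nat_lit 446) (nat_lit 232)) (XT.lf (nat_lit 0) (nat_lit 7943678347436) (nat_lit 76) (nat_lit 1033718546485) (nat_lit 76) (nat_lit 691555981044) (nat_lit 4) (nat_lit 4) (nat_lit 5) (nat_lit 5) (nat_lit 5) (nat_lit 4) (nat_lit 523) (nat_lit 446) (nat_lit 231))))) (XT.nd (nat_lit 234) (nat_lit 456) (nat_lit 0) (XT.nd (nat_lit 78) (nat_lit 0) (nat_lit 0) (XT.lf (nat_lit 0) (nat_lit 69360567141) (nat_lit 532) (nat_lit 3153329465) (nat_lit 532) (nat_lit 3153329465) (nat_lit 69) (nat_lit 3) (nat_lit 76) (nat_lit 3) (nat_lit 76) (nat_lit 5) (nat_lit 447) (nat_lit 447) (nat_lit 306)) (XT.nd (nat_lit 78) (nat_lit 0) (nat_lit 76) (XT.lf (nat_lit 76) (nat_lit 71422600890) (nat_lit 0) (nat_lit 74567775665) (nat_lit 532) (nat_lit 11259820117) (nat_lit 70) (nat_lit 5) (nat_lit 69) (nat_lit 3)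 (nat_lit 76) (nat_lit 5) (nat_lit 448) (nat_lit 447) (nat_lit 305)) (XT.lf (nat_lit 0) (nat_lit 154054576716) (nat_lit 456) (nat_lit 7937968943) (nat_lit 532) (nat_lit 1629581806) (nat_lit 70) (nat_lit 5) (nat_lit 76) (nat_lit 5) (nat_lit 77) (nat_lit 5) (nat_lit 449) (nat_lit 447) (nat_lit 304)))) (XT.nd (nat_lit 78) (nat_lit 532) (nat_lit 0) (XT.lf (nat_lit 76) (nat_lit 78155492711) (nat_lit 0) (nat_lit 88424637840) (nat_lit 532) (nat_lit 3618384924) (nat_lit 71) (nat_lit 5) (nat_lit 70) (nat_lit 5) (nat_lit 77) (nat_lit 5) (nat_lit 450) (nat_lit 447) (nat_lit 303)) (XT.nd (nat_lit 78) (nat_lit 0) (nat_lit 76) (XT.lf (nat_lit 0) (nat_lit 2888745656) (nat_lit 532) (nat_lit 5769092680) (nat_lit 608) (nat_lit 168619981433) (nat_lit 63) (nat_lit 5) (nat_lit 70) (nat_lit 5) (nat_lit 71) (nat_lit 5) (nat_lit 451) (nat_lit 447) (nat_lit 302)) (XT.lf (nat_lit 0) (nat_lit 13854683253) (nat_lit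 532) (nat_lit 94752297674) (nat_lit 608) (nat_lit 75978271023) (nat_lit 64) (nat_lit 5) (nat_lit 71) (nat_lit 5) (nat_lit 72) (nat_lit 5) (nat_lit 452) (nat_lit 447) (nat_lit 301)))))) (XT.nd (nat_lit 468) (nat_lit 836) (nat_lit 0) (XT.nd (nat_lit 234) (nat_lit 228) (nat_lit 0) (XT.nd (nat_lit 78) (nat_lit 380) (nat_lit 0) (XT.lf (nat_lit 76) (nat_lit 755227937) (nat_lit 0) (nat_lit 25347335485) (nat_lit 608) (nat_lit 166342342002) (nat_lit 65) (nat_lit 5) (nat_lit 64) (nat_lit 5) (nat_lit 72) (nat_lit 5) (nat_lit 453) (nat_lit 447) (nat_lit 300)) (XT.nd (nat_lit 78) (nat_lit 456) (nat_lit 0) (XT.lf (nat_lit 0) (nat_lit 43541047860) (nat_lit 532) (nat_lit 93054534232) (nat_lit 76) (nat_lit 64000887288) (nat_lit 65) (nat_lit 5) (nat_lit 72) (nat_lit 5) (nat_lit 66) (nat_lit 5) (nat_lit 454) (nat_lit 447) (nat_lit 299)) (XT.lf (nat_lit 0) (nat_lit 13487578788) (nat_lit 456) (nat_lit 49869598950)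 (nat_lit 532) (nat_lit 145964375487) (nat_lit 59) (nat_lit 5) (nat_lit 65) (nat_lit 5) (nat_lit 66) (nat_lit 5) (nat_lit 455) (nat_lit 447) (nat_lit 298)))) (XT.nd (nat_lit 78) (nat_lit 228) (nat_lit 0) (XT.lf (nat_lit 0) (nat_lit 88422044152) (nat_lit 532) (nat_lit 85815472335) (nat_lit 76) (nat_lit 44214051694) (nat_lit 59) (nat_lit 5) (nat_lit 66) (nat_lit 5) (nat_lit 60) (nat_lit 5) (nat_lit 456) (nat_lit 447) (nat_lit 297)) (XT.nd (nat_lit 78) (nat_lit 0) (nat_lit 0) (XT.lf (nat_lit 0) (nat_lit 33378768022) (nat_lit 228) (nat_lit 84211246384) (nat_lit 304) (nat_lit 110554136858) (nat_lit 56) (nat_lit 5) (nat_lit 59) (nat_lit 5) (nat_lit 60) (nat_lit 5) (nat_lit 457) (nat_lit 447) (nat_lit 296)) (XT.lf (nat_lit 0) (nat_lit 151811623310) (nat_lit 304) (nat_lit 71809666409) (nat_lit 76) (nat_lit 14773235273) (nat_lit 56) (nat_lit 5) (nat_lit 60) (nat_lit 5) (nat_lit 57) (nat_lit 5) (nat_lit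 458) (nat_lit 447) (nat_lit 295))))) (XT.nd (nat_lit 234) (nat_lit 380) (nat_lit 0) (XT.nd (nat_lit 78) (nat_lit 228) (nat_lit 0) (XT.lf (nat_lit 0) (nat_lit 61891081828) (nat_lit 228) (nat_lit 130555525168) (nat_lit 304) (nat_lit 56724270016) (nat_lit 53) (nat_lit 5) (nat_lit 56) (nat_lit 5) (nat_lit 57) (nat_lit 5) (nat_lit 459) (nat_lit 447) (nat_lit 294)) (XT.nd (nat_lit 78) (nat_lit 228) (nat_lit 0) (XT.lf (nat_lit 0) (nat_lit 210371610007) (nat_lit 228) (nat_lit 27924048488) (nat_lit 304) (nat_lit 22356617241) (nat_lit 53) (nat_lit 5) (nat_lit 56) (nat_lit 5) (nat_lit 57) (nat_lit 5) (nat_lit 460) (nat_lit 447) (nat_lit 293)) (XT.lf (nat_lit 0) (nat_lit 18553217724) (nat_lit 228) (nat_lit 172445961866) (nat_lit 76) (nat_lit 81662115910) (nat_lit 50) (nat_lit 5) (nat_lit 53) (nat_lit 5) (nat_lit 51) (nat_lit 5) (nat_lit 461) (nat_lit 447) (nat_lit 292)))) (XT.nd (nat_lit 78) (nat_lit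 380) (nat_lit 0) (XT.lf (nat_lit 0) (nat_lit 63663649453) (nat_lit 228) (nat_lit 21252395807) (nat_lit 76) (nat_lit 200497684497) (nat_lit 50) (nat_lit 5) (nat_lit 53) (nat_lit 5) (nat_lit 51) (nat_lit 5) (nat_lit 462) (nat_lit 447) (nat_lit 291)) (XT.nd (nat_lit 78) (nat_lit 152) (nat_lit 0) (XT.lf (nat_lit 0) (nat_lit 116785234485) (nat_lit 304) (nat_lit 150189371675) (nat_lit 76) (nat_lit 31859567146) (nat_lit 47) (nat_lit 5) (nat_lit 51) (nat_lit 5) (nat_lit 48) (nat_lit 5) (nat_lit 463) (nat_lit 447) (nat_lit 290)) (XT.lf (nat_lit 0) (nat_lit 18779207030) (nat_lit 152) (nat_lit 158630652919) (nat_lit 228) (nat_lit 135658127346) (nat_lit 45) (nat_lit 5) (nat_lit 47) (nat_lit 5) (nat_lit 48) (nat_lit 5) (nat_lit 464) (nat_lit 447) (nat_lit 289))))))))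
noncomputable def xc201 : XT := (XT.nd (nat_lit 1716) (nat_lit 1140) (nat_lit 0) (XT.nd (nat_lit 858) (nat_lit 760) (nat_lit 0) (XT.nd (nat_lit 390) (nat_lit 532) (nat_lit 0) (XT.nd (nat_lit 156) (nat_lit 228) (nat_lit 0) (XT.nd (nat_lit 78) (nat_lit 152) (nat_lit 0) (XT.lf (nat_lit 0) (nat_lit 209806526704) (nat_lit 152) (nat_lit 37184267455) (nat_lit 228) (nat_lit 81121205193) (nat_lit 45) (nat_lit 5) (nat_lit 47) (nat_lit 5) (nat_lit 48) (nat_lit 5) (nat_lit 465) (nat_lit 447) (nat_lit 288)) (XT.lf (nat_lit 0) (nat_lit 73155732700) (nat_lit 152) (nat_lit 253001938518) (nat_lit 228) (nat_lit 17880303750) (nat_lit 43) (nat_lit 5) (nat_lit 45) (nat_lit 5) (nat_lit 46) (nat_lit 5) (nat_lit 466) (nat_lit 447) (nat_lit 287))) (XT.nd (nat_lit 78) (nat_lit 152) (nat_lit 0) (XT.lf (nat_lit 0) (nat_lit 52182091165) (nat_lit 228) (nat_lit 76579869849) (nat_lit 76) (nat_lit 232036305533) (nat_lit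 42) (nat_lit 5) (nat_lit 45) (nat_lit 5) (nat_lit 43) (nat_lit 5) (nat_lit 467) (nat_lit 447) (nat_lit 286)) (XT.nd (nat_lit 78) (nat_lit 0) (nat_lit 0) (XT.lf (nat_lit 0) (nat_lit 130475139446) (nat_lit 228) (nat_lit 239027681805) (nat_lit 76) (nat_lit 9072073348) (nat_lit 40) (nat_lit 5) (nat_lit 43) (nat_lit 5) (nat_lit 41) (nat_lit 5) (nat_lit 468) (nat_lit 447) (nat_lit 285)) (XT.lf (nat_lit 0) (nat_lit 220524225534) (nat_lit 228) (nat_lit 23685508141) (nat_lit 76) (nat_lit 153124511735) (nat_lit 40) (nat_lit 5) (nat_lit 43) (nat_lit 5) (nat_lit 41) (nat_lit 5) (nat_lit 469) (nat_lit 447) (nat_lit 284))))) (XT.nd (nat_lit 234) (nat_lit 228) (nat_lit 0) (XT.nd (nat_lit 78) (nat_lit 152) (nat_lit 0) (XT.lf (nat_lit 0) (nat_lit 219883369225) (nat_lit 152) (nat_lit 103181988948) (nat_lit 228) (nat_lit 94105936568) (nat_lit 38) (nat_lit 5) (nat_lit 40) (nat_lit 5) (nat_lit 41) (nat_lit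 5) (nat_lit 470) (nat_lit 447) (nat_lit 283)) (XT.nd (nat_lit 78) (nat_lit 76) (nat_lit 0) (XT.lf (nat_lit 0) (nat_lit 46888338867) (nat_lit 76) (nat_lit 389894983107) (nat_lit 152) (nat_lit 1574102827) (nat_lit 37) (nat_lit 5) (nat_lit 38) (nat_lit 5) (nat_lit 39) (nat_lit 4) (nat_lit 471) (nat_lit 447) (nat_lit 282)) (XT.lf (nat_lit 0) (nat_lit 101654182523) (nat_lit 152) (nat_lit 144174123081) (nat_lit 76) (nat_lit 214563751573) (nat_lit 36) (nat_lit 5) (nat_lit 38) (nat_lit 5) (nat_lit 37) (nat_lit 5) (nat_lit 472) (nat_lit 447) (nat_lit 281)))) (XT.nd (nat_lit 78) (nat_lit 76) (nat_lit 0) (XT.lf (nat_lit 0) (nat_lit 129333201519) (nat_lit 152) (nat_lit 86832881187) (nat_lit 228) (nat_lit 267771275040) (nat_lit 34) (nat_lit 5) (nat_lit 36) (nat_lit 5) (nat_lit 37) (nat_lit 5) (nat_lit 473) (nat_lit 447) (nat_lit 280)) (XT.nd (nat_lit 78) (nat_lit 76) (nat_lit 0) (XT.lf (nat_lit 0) (nat_lit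 345924647543) (nat_lit 228) (nat_lit 78274430901) (nat_lit 76) (nat_lit 84680346924) (nat_lit 34) (nat_lit 5) (nat_lit 37) (nat_lit 5) (nat_lit 35) (nat_lit 4) (nat_lit 474) (nat_lit 447) (nat_lit 279)) (XT.lf (nat_lit 0) (nat_lit 229380712735) (nat_lit 76) (nat_lit 264455130469) (nat_lit 152) (nat_lit 41359259561) (nat_lit 33) (nat_lit 5) (nat_lit 34) (nat_lit 5) (nat_lit 35) (nat_lit 4) (nat_lit 475) (nat_lit 447) (nat_lit 278)))))) (XT.nd (nat_lit 390) (nat_lit 304) (nat_lit 0) (XT.nd (nat_lit 156) (nat_lit 228) (nat_lit 0) (XT.nd (nat_lit 78) (nat_lit 0) (nat_lit 0) (XT.lf (nat_lit 0) (nat_lit 458587463) (nat_lit 152) (nat_lit 87211668393) (nat_lit 228) (nat_lit 475596150652) (nat_lit 30) (nat_lit 5) (nat_lit 32) (nat_lit 5) (nat_lit 33) (nat_lit 5) (nat_lit 476) (nat_lit 447) (nat_lit 277)) (XT.lf (nat_lit 0) (nat_lit 235872567224) (nat_lit 228) (nat_lit 248087001604) (nat_lit 76)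 (nat_lit 108651111697) (nat_lit 30) (nat_lit 5) (nat_lit 33) (nat_lit 5) (nat_lit 31) (nat_lit 4) (nat_lit 477) (nat_lit 447) (nat_lit 276))) (XT.nd (nat_lit 78) (nat_lit 152) (nat_lit 0) (XT.lf (nat_lit 0) (nat_lit 94261478371) (nat_lit 76) (nat_lit 306201754879) (nat_lit 152) (nat_lit 223476689646) (nat_lit 29) (nat_lit 5) (nat_lit 30) (nat_lit 5) (nat_lit 31) (nat_lit 4) (nat_lit 478) (nat_lit 447) (nat_lit 275)) (XT.nd (nat_lit 78) (nat_lit 152) (nat_lit 0) (XT.lf (nat_lit 0) (nat_lit 478106661395) (nat_lit 76) (nat_lit 106897572134) (nat_lit 152) (nat_lit 72228624664) (nat_lit 29) (nat_lit 5) (nat_lit 30) (nat_lit 5) (nat_lit 31) (nat_lit 4) (nat_lit 479) (nat_lit 447) (nat_lit 274)) (XT.lf (nat_lit 0) (nat_lit 94347959562) (nat_lit 152) (nat_lit 487739794734) (nat_lit 76) (nat_lit 110303213966) (nat_lit 27) (nat_lit 5) (nat_lit 29) (nat_lit 5) (nat_lit 28) (nat_lit 4) (nat_lit 480)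 (nat_lit 447) (nat_lit 273))))) (XT.nd (nat_lit 234) (nat_lit 228) (nat_lit 0) (XT.nd (nat_lit 78) (nat_lit 76) (nat_lit 0) (XT.lf (nat_lit 0) (nat_lit 278149794060) (nat_lit 152) (nat_lit 105432056421) (nat_lit 76) (nat_lit 346005683586) (nat_lit 27) (nat_lit 5) (nat_lit 29) (nat_lit 5) (nat_lit 28) (nat_lit 4) (nat_lit 481) (nat_lit 447) (nat_lit 272)) (XT.nd (nat_lit 78) (nat_lit 0) (nat_lit 0) (XT.lf (nat_lit 0) (nat_lit 323650519128) (nat_lit 76) (nat_lit 160789009189) (nat_lit 152) (nat_lit 284697596588) (nat_lit 26) (nat_lit 5) (nat_lit 27) (nat_lit 5) (nat_lit 28) (nat_lit 4) (nat_lit 482) (nat_lit 447) (nat_lit 271)) (XT.lf (nat_lit 0) (nat_lit 712109814179) (nat_lit 152) (nat_lit 20559166840) (nat_lit 0) (nat_lit 78791512172) (nat_lit 26) (nat_lit 5) (nat_lit 28) (nat_lit 4) (nat_lit 26) (nat_lit 4) (nat_lit 483) (nat_lit 447) (nat_lit 270)))) (XT.nd (nat_lit 78) (nat_lit 76)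 (nat_lit 0) (XT.lf (nat_lit 0) (nat_lit 111342694585) (nat_lit 152) (nat_lit 401725554192) (nat_lit 76) (nat_lit 342662510451) (nat_lit 24) (nat_lit 5) (nat_lit 26) (nat_lit 5) (nat_lit 25) (nat_lit 4) (nat_lit 484) (nat_lit 447) (nat_lit 269)) (XT.nd (nat_lit 78) (nat_lit 0) (nat_lit 0) (XT.lf (nat_lit 0) (nat_lit 64855373210) (nat_lit 76) (nat_lit 270805100273) (nat_lit 152) (nat_lit 567504813893) (nat_lit 23) (nat_lit 5) (nat_lit 24) (nat_lit 5) (nat_lit 25) (nat_lit 4) (nat_lit 485) (nat_lit 447) (nat_lit 268)) (XT.lf (nat_lit 0) (nat_lit 588972494265) (nat_lit 152) (nat_lit 361971665574) (nat_lit 0) (nat_lit 2566512378) (nat_lit 23) (nat_lit 5) (nat_lit 25) (nat_lit 4) (nat_lit 23) (nat_lit 4) (nat_lit 486) (nat_lit 447) (nat_lit 267))))))) (XT.nd (nat_lit 858) (nat_lit 456) (nat_lit 0) (XT.nd (nat_lit 390) (nat_lit 380) (nat_lit 0) (XT.nd (nat_lit 156) (nat_lit 152) (nat_lit 0) (XT.nd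 (nat_lit 78) (nat_lit 76) (nat_lit 0) (XT.lf (nat_lit 0) (nat_lit 153098259594) (nat_lit 76) (nat_lit 720167091035) (nat_lit 76) (nat_lit 133761067308) (nat_lit 22) (nat_lit 4) (nat_lit 23) (nat_lit 5) (nat_lit 23) (nat_lit 4) (nat_lit 487) (nat_lit 447) (nat_lit 266)) (XT.lf (nat_lit 0) (nat_lit 119855493231) (nat_lit 152) (nat_lit 337106636546) (nat_lit 76) (nat_lit 606826795727) (nat_lit 21) (nat_lit 5) (nat_lit 23) (nat_lit 5) (nat_lit 22) (nat_lit 4) (nat_lit 488) (nat_lit 447) (nat_lit 265))) (XT.nd (nat_lit 78) (nat_lit 76) (nat_lit 0) (XT.lf (nat_lit 0) (nat_lit 229043924428) (nat_lit 76) (nat_lit 162999355747) (nat_lit 152) (nat_lit 732330530550) (nat_lit 20) (nat_lit 5) (nat_lit 21) (nat_lit 5) (nat_lit 22) (nat_lit 4) (nat_lit 489) (nat_lit 447) (nat_lit 264)) (XT.nd (nat_lit 78) (nat_lit 76) (nat_lit 0) (XT.lf (nat_lit 0) (nat_lit 699177808130) (nat_lit 152) (nat_lit 333364773390)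 (nat_lit 0) (nat_lit 156209167804) (nat_lit 20) (nat_lit 5) (nat_lit 22) (nat_lit 4) (nat_lit 20) (nat_lit 4) (nat_lit 490) (nat_lit 447) (nat_lit 263)) (XT.lf (nat_lit 0) (nat_lit 283505840757) (nat_lit 76) (nat_lit 758429294069) (nat_lit 76) (nat_lit 215460625268) (nat_lit 19) (nat_lit 4) (nat_lit 20) (nat_lit 5) (nat_lit 20) (nat_lit 4) (nat_lit 491) (nat_lit 447) (nat_lit 262))))) (XT.nd (nat_lit 234) (nat_lit 228) (nat_lit 0) (XT.nd (nat_lit 78) (nat_lit 76) (nat_lit 0) (XT.lf (nat_lit 0) (nat_lit 85902226276) (nat_lit 152) (nat_lit 364292064512) (nat_lit 76) (nat_lit 880433841797) (nat_lit 18) (nat_lit 5) (nat_lit 20) (nat_lit 5) (nat_lit 19) (nat_lit 4) (nat_lit 492) (nat_lit 447) (nat_lit 261)) (XT.nd (nat_lit 78) (nat_lit 0) (nat_lit 0) (XT.lf (nat_lit 0) (nat_lit 303667871963) (nat_lit 76) (nat_lit 103368950894) (nat_lit 152) (nat_lit 1001650306667) (nat_lit 17) (nat_lit 5) (nat_lit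 18) (nat_lit 5) (nat_lit 19) (nat_lit 4) (nat_lit 493) (nat_lit 447) (nat_lit 260)) (XT.lf (nat_lit 0) (nat_lit 770603681489) (nat_lit 152) (nat_lit 453192999054) (nat_lit 0) (nat_lit 267854846132) (nat_lit 17) (nat_lit 5) (nat_lit 19) (nat_lit 4) (nat_lit 17) (nat_lit 4) (nat_lit 494) (nat_lit 447) (nat_lit 259)))) (XT.nd (nat_lit 78) (nat_lit 152) (nat_lit 0) (XT.lf (nat_lit 0) (nat_lit 261158604266) (nat_lit 76) (nat_lit 911063033093) (nat_lit 76) (nat_lit 408314178356) (nat_lit 16) (nat_lit 4) (nat_lit 17) (nat_lit 5) (nat_lit 17) (nat_lit 4) (nat_lit 495) (nat_lit 447) (nat_lit 258)) (XT.nd (nat_lit 78) (nat_lit 152) (nat_lit 0) (XT.lf (nat_lit 0) (nat_lit 1058431765633) (nat_lit 76) (nat_lit 559928334642) (nat_lit 76) (nat_lit 57179461961) (nat_lit 16) (nat_lit 4) (nat_lit 17) (nat_lit 5) (nat_lit 17) (nat_lit 4) (nat_lit 496) (nat_lit 447) (nat_lit 257)) (XT.lf (nat_lit 0) (nat_lit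 140632930544) (nat_lit 76) (nat_lit 168685252071) (nat_lit 152) (nat_lit 1467935232868) (nat_lit 14) (nat_lit 5) (nat_lit 15) (nat_lit 5) (nat_lit 16) (nat_lit 4) (nat_lit 497) (nat_lit 447) (nat_lit 256)))))) (XT.nd (nat_lit 468) (nat_lit 228) (nat_lit 0) (XT.nd (nat_lit 234) (nat_lit 152) (nat_lit 0) (XT.nd (nat_lit 78) (nat_lit 76) (nat_lit 0) (XT.lf (nat_lit 0) (nat_lit 725462784543) (nat_lit 152) (nat_lit 899694932760) (nat_lit 0) (nat_lit 259954539468) (nat_lit 14) (nat_lit 5) (nat_lit 16) (nat_lit 4) (nat_lit 14) (nat_lit 4) (nat_lit 498) (nat_lit 447) (nat_lit 255)) (XT.nd (nat_lit 78) (nat_lit 76) (nat_lit 0) (XT.lf (nat_lit 0) (nat_lit 1179280364224) (nat_lit 152) (nat_lit 108196822413) (nat_lit 0) (nat_lit 713772105960) (nat_lit 14) (nat_lit 5) (nat_lit 16) (nat_lit 4) (nat_lit 14) (nat_lit 4) (nat_lit 499) (nat_lit 447) (nat_lit 254)) (XT.lf (nat_lit 0) (nat_lit 785936833096)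 (nat_lit 76) (nat_lit 902368293291) (nat_lit 76) (nat_lit 436860022814) (nat_lit 13) (nat_lit 4) (nat_lit 14) (nat_lit 5) (nat_lit 14) (nat_lit 4) (nat_lit 500) (nat_lit 447) (nat_lit 253)))) (XT.nd (nat_lit 78) (nat_lit 152) (nat_lit 0) (XT.lf (nat_lit 0) (nat_lit 1757754384282) (nat_lit 76) (nat_lit 483255755124) (nat_lit 76) (nat_lit 17747473339) (nat_lit 13) (nat_lit 4) (nat_lit 14) (nat_lit 5) (nat_lit 14) (nat_lit 4) (nat_lit 501) (nat_lit 447) (nat_lit 252)) (XT.nd (nat_lit 78) (nat_lit 0) (nat_lit 0) (XT.lf (nat_lit 0) (nat_lit 414558504812) (nat_lit 76) (nat_lit 8550532239) (nat_lit 152) (nat_lit 1978294089662) (nat_lit 11) (nat_lit 5) (nat_lit 12) (nat_lit 5) (nat_lit 13) (nat_lit 4) (nat_lit 502) (nat_lit 447) (nat_lit 251)) (XT.lf (nat_lit 0) (nat_lit 924453703807) (nat_lit 152) (nat_lit 1135447925021) (nat_lit 0) (nat_lit 493427498298) (nat_lit 11) (nat_lit 5) (nat_lit 13)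 (nat_lit 4) (nat_lit 11) (nat_lit 4) (nat_lit 503) (nat_lit 447) (nat_lit 250))))) (XT.nd (nat_lit 234) (nat_lit 152) (nat_lit 0) (XT.nd (nat_lit 78) (nat_lit 76) (nat_lit 0) (XT.lf (nat_lit 0) (nat_lit 1466128015507) (nat_lit 152) (nat_lit 216161624653) (nat_lit 0) (nat_lit 1035101801687) (nat_lit 11) (nat_lit 5) (nat_lit 13) (nat_lit 4) (nat_lit 11) (nat_lit 4) (nat_lit 504) (nat_lit 447) (nat_lit 249)) (XT.nd (nat_lit 78) (nat_lit 0) (nat_lit 0) (XT.lf (nat_lit 0) (nat_lit 817565478630) (nat_lit 76) (nat_lit 1253233244286) (nat_lit 76) (nat_lit 822207022769) (nat_lit 10) (nat_lit 4) (nat_lit 11) (nat_lit 5) (nat_lit 11) (nat_lit 4) (nat_lit 505) (nat_lit 447) (nat_lit 248)) (XT.lf (nat_lit 0) (nat_lit 1946284016741) (nat_lit 76) (nat_lit 783469293916) (nat_lit 76) (nat_lit 352443065273) (nat_lit 10) (nat_lit 4) (nat_lit 11) (nat_lit 5) (nat_lit 11) (nat_lit 4) (nat_lit 506) (nat_lit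 447) (nat_lit 247)))) (XT.nd (nat_lit 78) (nat_lit 76) (nat_lit 0) (XT.lf (nat_lit 0) (nat_lit 147153165741) (nat_lit 152) (nat_lit 124947650498) (nat_lit 76) (nat_lit 3014123409974) (nat_lit 9) (nat_lit 5) (nat_lit 11) (nat_lit 5) (nat_lit 10) (nat_lit 4) (nat_lit 507) (nat_lit 447) (nat_lit 246)) (XT.nd (nat_lit 78) (nat_lit 0) (nat_lit 0) (XT.lf (nat_lit 0) (nat_lit 699528401075) (nat_lit 152) (nat_lit 2503335333905) (nat_lit 0) (nat_lit 300430029454) (nat_lit 8) (nat_lit 5) (nat_lit 10) (nat_lit 4) (nat_lit 8) (nat_lit 4) (nat_lit 508) (nat_lit 447) (nat_lit 245)) (XT.lf (nat_lit 0) (nat_lit 1306666217987) (nat_lit 152) (nat_lit 1522649001578) (nat_lit 0) (nat_lit 907567841129) (nat_lit 8) (nat_lit 5) (nat_lit 10) (nat_lit 4) (nat_lit 8) (nat_lit 4) (nat_lit 509) (nat_lit 447) (nat_lit 244))))))))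
noncomputable def xc202 : XT := (XT.nd (nat_lit 58344) (nat_lit 0) (nat_lit 1900) (XT.nd (nat_lit 858) (nat_lit 0) (nat_lit 0) (XT.nd (nat_lit 390) (nat_lit 152) (nat_lit 0) (XT.nd (nat_lit 156) (nat_lit 76) (nat_lit 0) (XT.nd (nat_lit 78) (nat_lit 76) (nat_lit 0) (XT.lf (nat_lit 0) (nat_lit 1962375045514) (nat_lit 152) (nat_lit 463507792514) (nat_lit 0) (nat_lit 1563276663806) (nat_lit 8) (nat_lit 5) (nat_lit 10) (nat_lit 4) (nat_lit 8) (nat_lit 4) (nat_lit 510) (nat_lit 447) (nat_lit 243)) (XT.lf (nat_lit 0) (nat_lit 716191484271) (nat_lit 76) (nat_lit 1971573503746) (nat_lit 76) (nat_lit 1572475117547) (nat_lit 7) (nat_lit 4) (nat_lit 8) (nat_lit 5) (nat_lit 8) (nat_lit 4) (nat_lit 511) (nat_lit 447) (nat_lit 242))) (XT.nd (nat_lit 78) (nat_lit 76) (nat_lit 0) (XT.lf (nat_lit 0) (nat_lit 2016626775125) (nat_lit 76) (nat_lit 1467232461966) (nat_lit 76) (nat_lit 1068134071609) (nat_lit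 7) (nat_lit 4) (nat_lit 8) (nat_lit 5) (nat_lit 8) (nat_lit 4) (nat_lit 512) (nat_lit 447) (nat_lit 241)) (XT.nd (nat_lit 78) (nat_lit 76) (nat_lit 0) (XT.lf (nat_lit 0) (nat_lit 3421096864303) (nat_lit 76) (nat_lit 922544149487) (nat_lit 76) (nat_lit 523445755280) (nat_lit 7) (nat_lit 4) (nat_lit 8) (nat_lit 5) (nat_lit 8) (nat_lit 4) (nat_lit 513) (nat_lit 447) (nat_lit 240)) (XT.lf (nat_lit 0) (nat_lit 61575174486) (nat_lit 152) (nat_lit 271022034840) (nat_lit 76) (nat_lit 4874665788643) (nat_lit 6) (nat_lit 5) (nat_lit 8) (nat_lit 5) (nat_lit 7) (nat_lit 4) (nat_lit 514) (nat_lit 447) (nat_lit 239))))) (XT.nd (nat_lit 234) (nat_lit 76) (nat_lit 0) (XT.nd (nat_lit 78) (nat_lit 0) (nat_lit 0) (XT.lf (nat_lit 0) (nat_lit 698363030739) (nat_lit 152) (nat_lit 4543715547246) (nat_lit 0) (nat_lit 328827474191) (nat_lit 5) (nat_lit 5) (nat_lit 7) (nat_lit 4) (nat_lit 5) (nat_lit 4) (nat_lit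 515) (nat_lit 447) (nat_lit 238)) (XT.nd (nat_lit 78) (nat_lit 0) (nat_lit 0) (XT.lf (nat_lit 0) (nat_lit 1402335489295) (nat_lit 152) (nat_lit 3527205805605) (nat_lit 0) (nat_lit 1032799929917) (nat_lit 5) (nat_lit 5) (nat_lit 7) (nat_lit 4) (nat_lit 5) (nat_lit 4) (nat_lit 516) (nat_lit 447) (nat_lit 237)) (XT.lf (nat_lit 0) (nat_lit 2162625734541) (nat_lit 152) (nat_lit 2429375304985) (nat_lit 0) (nat_lit 1793090172543) (nat_lit 5) (nat_lit 5) (nat_lit 7) (nat_lit 4) (nat_lit 5) (nat_lit 4) (nat_lit 517) (nat_lit 447) (nat_lit 236)))) (XT.nd (nat_lit 78) (nat_lit 76) (nat_lit 0) (XT.lf (nat_lit 0) (nat_lit 2983739190153) (nat_lit 152) (nat_lit 1243718383161) (nat_lit 0) (nat_lit 2614203625728) (nat_lit 5) (nat_lit 5) (nat_lit 7) (nat_lit 4) (nat_lit 5) (nat_lit 4) (nat_lit 518) (nat_lit 447) (nat_lit 235)) (XT.nd (nat_lit 78) (nat_lit 0) (nat_lit 0) (XT.lf (nat_lit 0) (nat_lit 38728427768)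 (nat_lit 76) (nat_lit 3832744705496) (nat_lit 76) (nat_lit 3463209138825) (nat_lit 4) (nat_lit 4) (nat_lit 5) (nat_lit 5) (nat_lit 5) (nat_lit 4) (nat_lit 519) (nat_lit 447) (nat_lit 234)) (XT.lf (nat_lit 0) (nat_lit 1494502333043) (nat_lit 76) (nat_lit 3369728915091) (nat_lit 76) (nat_lit 3000193346340) (nat_lit 4) (nat_lit 4) (nat_lit 5) (nat_lit 5) (nat_lit 5) (nat_lit 4) (nat_lit 520) (nat_lit 447) (nat_lit 233)))))) (XT.nd (nat_lit 57018) (nat_lit 0) (nat_lit 4180) (XT.nd (nat_lit 56784) (nat_lit 0) (nat_lit 4940) (XT.nd (nat_lit 78) (nat_lit 0) (nat_lit 0) (XT.lf (nat_lit 0) (nat_lit 3066738134993) (nat_lit 76) (nat_lit 2869671869477) (nat_lit 76) (nat_lit 2500136298800) (nat_lit 4) (nat_lit 4) (nat_lit 5) (nat_lit 5) (nat_lit 5) (nat_lit 4) (nat_lit 521) (nat_lit 447) (nat_lit 232)) (XT.lf (nat_lit 0) (nat_lit 4764752786518) (nat_lit 76) (nat_lit 2329610267641) (nat_lit 76) (nat_lit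 1960074695182) (nat_lit 4) (nat_lit 4) (nat_lit 5) (nat_lit 5) (nat_lit 5) (nat_lit 4) (nat_lit 522) (nat_lit 447) (nat_lit 231))) (XT.nd (nat_lit 78) (nat_lit 0) (nat_lit 0) (XT.lf (nat_lit 0) (nat_lit 74912029652) (nat_lit 532) (nat_lit 3404181686) (nat_lit 532) (nat_lit 3404181686) (nat_lit 69) (nat_lit 3) (nat_lit 76) (nat_lit 3) (nat_lit 76) (nat_lit 5) (nat_lit 448) (nat_lit 448) (nat_lit 304)) (XT.nd (nat_lit 78) (nat_lit 0) (nat_lit 76) (XT.lf (nat_lit 76) (nat_lit 77139165631) (nat_lit 0) (nat_lit 80535353902) (nat_lit 532) (nat_lit 12155296586) (nat_lit 70) (nat_lit 5) (nat_lit 69) (nat_lit 3) (nat_lit 76) (nat_lit 5) (nat_lit 449) (nat_lit 448) (nat_lit 303)) (XT.lf (nat_lit 0) (nat_lit 166383443775) (nat_lit 456) (nat_lit 8570039038) (nat_lit 532) (nat_lit 1758051757) (nat_lit 70) (nat_lit 5) (nat_lit 76) (nat_lit 5) (nat_lit 77) (nat_lit 5) (nat_lit 450) (nat_lit 448) (nat_lit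 302))))) (XT.nd (nat_lit 234) (nat_lit 304) (nat_lit 0) (XT.nd (nat_lit 78) (nat_lit 532) (nat_lit 0) (XT.lf (nat_lit 76) (nat_lit 84410824423) (nat_lit 0) (nat_lit 95499953651) (nat_lit 532) (nat_lit 3903276876) (nat_lit 71) (nat_lit 5) (nat_lit 70) (nat_lit 5) (nat_lit 77) (nat_lit 5) (nat_lit 451) (nat_lit 448) (nat_lit 301)) (XT.nd (nat_lit 78) (nat_lit 0) (nat_lit 76) (XT.lf (nat_lit 0) (nat_lit 3123872892) (nat_lit 532) (nat_lit 6227727561) (nat_lit 608) (nat_lit 182108120295) (nat_lit 63) (nat_lit 5) (nat_lit 70) (nat_lit 5) (nat_lit 71) (nat_lit 5) (nat_lit 452) (nat_lit 448) (nat_lit 300)) (XT.lf (nat_lit 0) (nat_lit 14966831447) (nat_lit 532) (nat_lit 102329332685) (nat_lit 608) (nat_lit 82055603873) (nat_lit 64) (nat_lit 5) (nat_lit 71) (nat_lit 5) (nat_lit 72) (nat_lit 5) (nat_lit 453) (nat_lit 448) (nat_lit 299)))) (XT.nd (nat_lit 78) (nat_lit 380) (nat_lit 0) (XT.lf (nat_lit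 76) (nat_lit 818715258) (nat_lit 0) (nat_lit 27375621061) (nat_lit 608) (nat_lit 179645874058) (nat_lit 65) (nat_lit 5) (nat_lit 64) (nat_lit 5) (nat_lit 72) (nat_lit 5) (nat_lit 454) (nat_lit 448) (nat_lit 298)) (XT.nd (nat_lit 78) (nat_lit 456) (nat_lit 0) (XT.lf (nat_lit 0) (nat_lit 47027624124) (nat_lit 532) (nat_lit 100495777932) (nat_lit 76) (nat_lit 69120519578) (nat_lit 65) (nat_lit 5) (nat_lit 72) (nat_lit 5) (nat_lit 66) (nat_lit 5) (nat_lit 455) (nat_lit 448) (nat_lit 297)) (XT.lf (nat_lit 0) (nat_lit 14569625166) (nat_lit 456) (nat_lit 53859248455) (nat_lit 532) (nat_lit 157638152367) (nat_lit 59) (nat_lit 5) (nat_lit 65) (nat_lit 5) (nat_lit 66) (nat_lit 5) (nat_lit 456) (nat_lit 448) (nat_lit 296))))))) (XT.nd (nat_lit 858) (nat_lit 1064) (nat_lit 0) (XT.nd (nat_lit 390) (nat_lit 760) (nat_lit 0) (XT.nd (nat_lit 156) (nat_lit 228) (nat_lit 0) (XT.nd (nat_lit 78) (nat_lit 228)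 (nat_lit 0) (XT.lf (nat_lit 0) (nat_lit 95498696297) (nat_lit 532) (nat_lit 92677660554) (nat_lit 76) (nat_lit 47751104064) (nat_lit 59) (nat_lit 5) (nat_lit 66) (nat_lit 5) (nat_lit 60) (nat_lit 5) (nat_lit 457) (nat_lit 448) (nat_lit 295)) (XT.lf (nat_lit 0) (nat_lit 36052041826) (nat_lit 228) (nat_lit 90947919859) (nat_lit 304) (nat_lit 119395500479) (nat_lit 56) (nat_lit 5) (nat_lit 59) (nat_lit 5) (nat_lit 60) (nat_lit 5) (nat_lit 458) (nat_lit 448) (nat_lit 294))) (XT.nd (nat_lit 78) (nat_lit 228) (nat_lit 0) (XT.lf (nat_lit 0) (nat_lit 163959100923) (nat_lit 304) (nat_lit 77551487757) (nat_lit 76) (nat_lit 15955293094) (nat_lit 56) (nat_lit 5) (nat_lit 60) (nat_lit 5) (nat_lit 57) (nat_lit 5) (nat_lit 459) (nat_lit 448) (nat_lit 293)) (XT.nd (nat_lit 78) (nat_lit 0) (nat_lit 0) (XT.lf (nat_lit 0) (nat_lit 66845245606) (nat_lit 228) (nat_lit 140999518173) (nat_lit 304) (nat_lit 61259587841)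 (nat_lit 53) (nat_lit 5) (nat_lit 56) (nat_lit 5) (nat_lit 57) (nat_lit 5) (nat_lit 460) (nat_lit 448) (nat_lit 292)) (XT.lf (nat_lit 0) (nat_lit 227204002911) (nat_lit 228) (nat_lit 30157556619) (nat_lit 304) (nat_lit 24142717197) (nat_lit 53) (nat_lit 5) (nat_lit 56) (nat_lit 5) (nat_lit 57) (nat_lit 5) (nat_lit 461) (nat_lit 448) (nat_lit 291))))) (XT.nd (nat_lit 234) (nat_lit 304) (nat_lit 0) (XT.nd (nat_lit 78) (nat_lit 228) (nat_lit 0) (XT.lf (nat_lit 0) (nat_lit 20039689765) (nat_lit 228) (nat_lit 186238757774) (nat_lit 76) (nat_lit 88195573405) (nat_lit 50) (nat_lit 5) (nat_lit 53) (nat_lit 5) (nat_lit 51) (nat_lit 5) (nat_lit 462) (nat_lit 448) (nat_lit 290)) (XT.nd (nat_lit 78) (nat_lit 228) (nat_lit 0) (XT.lf (nat_lit 0) (nat_lit 68758791986) (nat_lit 228) (nat_lit 22949919841) (nat_lit 76) (nat_lit 216537951313) (nat_lit 50) (nat_lit 5) (nat_lit 53) (nat_lit 5) (nat_lit 51)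 (nat_lit 5) (nat_lit 463) (nat_lit 448) (nat_lit 289)) (XT.lf (nat_lit 0) (nat_lit 126130029823) (nat_lit 304) (nat_lit 162201778899) (nat_lit 76) (nat_lit 34408939440) (nat_lit 47) (nat_lit 5) (nat_lit 51) (nat_lit 5) (nat_lit 48) (nat_lit 5) (nat_lit 464) (nat_lit 448) (nat_lit 288)))) (XT.nd (nat_lit 78) (nat_lit 152) (nat_lit 0) (XT.lf (nat_lit 0) (nat_lit 20284216671) (nat_lit 152) (nat_lit 171320326528) (nat_lit 228) (nat_lit 146508730708) (nat_lit 45) (nat_lit 5) (nat_lit 47) (nat_lit 5) (nat_lit 48) (nat_lit 5) (nat_lit 465) (nat_lit 448) (nat_lit 287)) (XT.nd (nat_lit 78) (nat_lit 152) (nat_lit 0) (XT.lf (nat_lit 0) (nat_lit 226593523914) (nat_lit 152) (nat_lit 40158287903) (nat_lit 228) (nat_lit 87609006400) (nat_lit 45) (nat_lit 5) (nat_lit 47) (nat_lit 5) (nat_lit 48) (nat_lit 5) (nat_lit 466) (nat_lit 448) (nat_lit 286)) (XT.lf (nat_lit 0) (nat_lit 79010724343) (nat_lit 152)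 (nat_lit 273241261736) (nat_lit 228) (nat_lit 19308890095) (nat_lit 43) (nat_lit 5) (nat_lit 45) (nat_lit 5) (nat_lit 46) (nat_lit 5) (nat_lit 467) (nat_lit 448) (nat_lit 285)))))) (XT.nd (nat_lit 468) (nat_lit 532) (nat_lit 0) (XT.nd (nat_lit 234) (nat_lit 304) (nat_lit 0) (XT.nd (nat_lit 78) (nat_lit 152) (nat_lit 0) (XT.lf (nat_lit 0) (nat_lit 56358275137) (nat_lit 228) (nat_lit 82703828310) (nat_lit 76) (nat_lit 250599894489) (nat_lit 42) (nat_lit 5) (nat_lit 45) (nat_lit 5) (nat_lit 43) (nat_lit 5) (nat_lit 468) (nat_lit 448) (nat_lit 284)) (XT.nd (nat_lit 78) (nat_lit 0) (nat_lit 0) (XT.lf (nat_lit 0) (nat_lit 140914724132) (nat_lit 228) (nat_lit 258147421519) (nat_lit 76) (nat_lit 9798614078) (nat_lit 40) (nat_lit 5) (nat_lit 43) (nat_lit 5) (nat_lit 41) (nat_lit 5) (nat_lit 469) (nat_lit 448) (nat_lit 283)) (XT.lf (nat_lit 0) (nat_lit 238167620550) (nat_lit 228) (nat_lit 25578057283)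 (nat_lit 76) (nat_lit 165375190139) (nat_lit 40) (nat_lit 5) (nat_lit 43) (nat_lit 5) (nat_lit 41) (nat_lit 5) (nat_lit 470) (nat_lit 448) (nat_lit 282)))) (XT.nd (nat_lit 78) (nat_lit 152) (nat_lit 0) (XT.lf (nat_lit 0) (nat_lit 237476272260) (nat_lit 152) (nat_lit 111435717331) (nat_lit 228) (nat_lit 101632896033) (nat_lit 38) (nat_lit 5) (nat_lit 40) (nat_lit 5) (nat_lit 41) (nat_lit 5) (nat_lit 471) (nat_lit 448) (nat_lit 281)) (XT.nd (nat_lit 78) (nat_lit 76) (nat_lit 0) (XT.lf (nat_lit 0) (nat_lit 50641673299) (nat_lit 76) (nat_lit 421085686317) (nat_lit 152) (nat_lit 1698548978) (nat_lit 37) (nat_lit 5) (nat_lit 38) (nat_lit 5) (nat_lit 39) (nat_lit 4) (nat_lit 472) (nat_lit 448) (nat_lit 280)) (XT.lf (nat_lit 0) (nat_lit 109787820770) (nat_lit 152) (nat_lit 155705884529) (nat_lit 76) (nat_lit 231729611783) (nat_lit 36) (nat_lit 5) (nat_lit 38) (nat_lit 5) (nat_lit 37) (nat_lit 5)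 (nat_lit 473) (nat_lit 448) (nat_lit 279))))) (XT.nd (nat_lit 234) (nat_lit 304) (nat_lit 0) (XT.nd (nat_lit 78) (nat_lit 76) (nat_lit 0) (XT.lf (nat_lit 0) (nat_lit 139681971143) (nat_lit 152) (nat_lit 93778656087) (nat_lit 228) (nat_lit 289191618153) (nat_lit 34) (nat_lit 5) (nat_lit 36) (nat_lit 5) (nat_lit 37) (nat_lit 5) (nat_lit 474) (nat_lit 448) (nat_lit 278)) (XT.nd (nat_lit 78) (nat_lit 76) (nat_lit 0) (XT.lf (nat_lit 0) (nat_lit 373599803129) (nat_lit 228) (nat_lit 84534353977) (nat_lit 76) (nat_lit 91455527265) (nat_lit 34) (nat_lit 5) (nat_lit 37) (nat_lit 5) (nat_lit 35) (nat_lit 4) (nat_lit 475) (nat_lit 448) (nat_lit 277)) (XT.lf (nat_lit 0) (nat_lit 247733149723) (nat_lit 76) (nat_lit 285610704652) (nat_lit 152) (nat_lit 44666764816) (nat_lit 33) (nat_lit 5) (nat_lit 34) (nat_lit 5) (nat_lit 35) (nat_lit 4) (nat_lit 476) (nat_lit 448) (nat_lit 276)))) (XT.nd (nat_lit 78)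 (nat_lit 76) (nat_lit 0) (XT.lf (nat_lit 0) (nat_lit 497264814) (nat_lit 152) (nat_lit 94187746142) (nat_lit 228) (nat_lit 513642617045) (nat_lit 30) (nat_lit 5) (nat_lit 32) (nat_lit 5) (nat_lit 33) (nat_lit 5) (nat_lit 477) (nat_lit 448) (nat_lit 275)) (XT.nd (nat_lit 78) (nat_lit 76) (nat_lit 0) (XT.lf (nat_lit 0) (nat_lit 254743442243) (nat_lit 228) (nat_lit 267932053582) (nat_lit 76) (nat_lit 117343953332) (nat_lit 30) (nat_lit 5) (nat_lit 33) (nat_lit 5) (nat_lit 31) (nat_lit 4) (nat_lit 478) (nat_lit 448) (nat_lit 274)) (XT.lf (nat_lit 0) (nat_lit 101804256483) (nat_lit 76) (nat_lit 330697070565) (nat_lit 152) (nat_lit 241353706649) (nat_lit 29) (nat_lit 5) (nat_lit 30) (nat_lit 5) (nat_lit 31) (nat_lit 4) (nat_lit 479) (nat_lit 448) (nat_lit 273))))))))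
noncomputable def xc203 : XT := (XT.nd (nat_lit 1716) (nat_lit 684) (nat_lit 0) (XT.nd (nat_lit 858) (nat_lit 532) (nat_lit 0) (XT.nd (nat_lit 390) (nat_lit 456) (nat_lit 0) (XT.nd (nat_lit 156) (nat_lit 76) (nat_lit 0) (XT.nd (nat_lit 78) (nat_lit 152) (nat_lit 0) (XT.lf (nat_lit 0) (nat_lit 516356916383) (nat_lit 76) (nat_lit 115448614289) (nat_lit 152) (nat_lit 78005879295) (nat_lit 29) (nat_lit 5) (nat_lit 30) (nat_lit 5) (nat_lit 31) (nat_lit 4) (nat_lit 480) (nat_lit 448) (nat_lit 272)) (XT.lf (nat_lit 0) (nat_lit 101896767291) (nat_lit 152) (nat_lit 526757191495) (nat_lit 76) (nat_lit 119128209086) (nat_lit 27) (nat_lit 5) (nat_lit 29) (nat_lit 5) (nat_lit 28) (nat_lit 4) (nat_lit 481) (nat_lit 448) (nat_lit 271))) (XT.nd (nat_lit 78) (nat_lit 76) (nat_lit 0) (XT.lf (nat_lit 0) (nat_lit 300402676625) (nat_lit 152) (nat_lit 113864966474) (nat_lit 76) (nat_lit 373686821609) (nat_lit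 27) (nat_lit 5) (nat_lit 29) (nat_lit 5) (nat_lit 28) (nat_lit 4) (nat_lit 482) (nat_lit 448) (nat_lit 270)) (XT.nd (nat_lit 78) (nat_lit 0) (nat_lit 0) (XT.lf (nat_lit 0) (nat_lit 349544173235) (nat_lit 76) (nat_lit 173651388576) (nat_lit 152) (nat_lit 307472463240) (nat_lit 26) (nat_lit 5) (nat_lit 27) (nat_lit 5) (nat_lit 28) (nat_lit 4) (nat_lit 483) (nat_lit 448) (nat_lit 269)) (XT.lf (nat_lit 0) (nat_lit 769079422514) (nat_lit 152) (nat_lit 22202358895) (nat_lit 0) (nat_lit 85095485241) (nat_lit 26) (nat_lit 5) (nat_lit 28) (nat_lit 4) (nat_lit 26) (nat_lit 4) (nat_lit 484) (nat_lit 448) (nat_lit 268))))) (XT.nd (nat_lit 234) (nat_lit 228) (nat_lit 0) (XT.nd (nat_lit 78) (nat_lit 76) (nat_lit 0) (XT.lf (nat_lit 0) (nat_lit 120250929363) (nat_lit 152) (nat_lit 433862052998) (nat_lit 76) (nat_lit 370076171949) (nat_lit 24) (nat_lit 5) (nat_lit 26) (nat_lit 5) (nat_lit 25) (nat_lit 4)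 (nat_lit 485) (nat_lit 448) (nat_lit 267)) (XT.nd (nat_lit 78) (nat_lit 0) (nat_lit 0) (XT.lf (nat_lit 0) (nat_lit 70045309468) (nat_lit 76) (nat_lit 292468796651) (nat_lit 152) (nat_lit 612904340556) (nat_lit 23) (nat_lit 5) (nat_lit 24) (nat_lit 5) (nat_lit 25) (nat_lit 4) (nat_lit 486) (nat_lit 448) (nat_lit 266)) (XT.lf (nat_lit 0) (nat_lit 636091045541) (nat_lit 152) (nat_lit 390927960877) (nat_lit 0) (nat_lit 2772459335) (nat_lit 23) (nat_lit 5) (nat_lit 25) (nat_lit 4) (nat_lit 23) (nat_lit 4) (nat_lit 487) (nat_lit 448) (nat_lit 265)))) (XT.nd (nat_lit 78) (nat_lit 152) (nat_lit 0) (XT.lf (nat_lit 0) (nat_lit 165347521900) (nat_lit 76) (nat_lit 777779786536) (nat_lit 76) (nat_lit 144461164460) (nat_lit 22) (nat_lit 4) (nat_lit 23) (nat_lit 5) (nat_lit 23) (nat_lit 4) (nat_lit 488) (nat_lit 448) (nat_lit 264)) (XT.nd (nat_lit 78) (nat_lit 76) (nat_lit 0) (XT.lf (nat_lit 0) (nat_lit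 129444626024) (nat_lit 152) (nat_lit 364073833157) (nat_lit 76) (nat_lit 655373524814) (nat_lit 21) (nat_lit 5) (nat_lit 23) (nat_lit 5) (nat_lit 22) (nat_lit 4) (nat_lit 489) (nat_lit 448) (nat_lit 263)) (XT.lf (nat_lit 0) (nat_lit 247368738914) (nat_lit 76) (nat_lit 176038676930) (nat_lit 152) (nat_lit 790916245804) (nat_lit 20) (nat_lit 5) (nat_lit 21) (nat_lit 5) (nat_lit 22) (nat_lit 4) (nat_lit 490) (nat_lit 448) (nat_lit 262)))))) (XT.nd (nat_lit 390) (nat_lit 304) (nat_lit 0) (XT.nd (nat_lit 156) (nat_lit 152) (nat_lit 0) (XT.nd (nat_lit 78) (nat_lit 76) (nat_lit 0) (XT.lf (nat_lit 0) (nat_lit 755112670133) (nat_lit 152) (nat_lit 360032715094) (nat_lit 0) (nat_lit 168706452986) (nat_lit 20) (nat_lit 5) (nat_lit 22) (nat_lit 4) (nat_lit 20) (nat_lit 4) (nat_lit 491) (nat_lit 448) (nat_lit 261)) (XT.lf (nat_lit 0) (nat_lit 306187516788) (nat_lit 76) (nat_lit 819103048036) (nat_lit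 76) (nat_lit 232696806476) (nat_lit 19) (nat_lit 4) (nat_lit 20) (nat_lit 5) (nat_lit 20) (nat_lit 4) (nat_lit 492) (nat_lit 448) (nat_lit 260))) (XT.nd (nat_lit 78) (nat_lit 76) (nat_lit 0) (XT.lf (nat_lit 0) (nat_lit 92774992671) (nat_lit 152) (nat_lit 393434279407) (nat_lit 76) (nat_lit 950869063995) (nat_lit 18) (nat_lit 5) (nat_lit 20) (nat_lit 5) (nat_lit 19) (nat_lit 4) (nat_lit 493) (nat_lit 448) (nat_lit 259)) (XT.nd (nat_lit 78) (nat_lit 0) (nat_lit 0) (XT.lf (nat_lit 0) (nat_lit 327962422866) (nat_lit 76) (nat_lit 111637917499) (nat_lit 152) (nat_lit 1081781713735) (nat_lit 17) (nat_lit 5) (nat_lit 18) (nat_lit 5) (nat_lit 19) (nat_lit 4) (nat_lit 494) (nat_lit 448) (nat_lit 258)) (XT.lf (nat_lit 0) (nat_lit 832252517577) (nat_lit 152) (nat_lit 489447370722) (nat_lit 0) (nat_lit 289283717137) (nat_lit 17) (nat_lit 5) (nat_lit 19) (nat_lit 4) (nat_lit 17) (nat_lit 4) (nat_lit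 495) (nat_lit 448) (nat_lit 257))))) (XT.nd (nat_lit 234) (nat_lit 76) (nat_lit 0) (XT.nd (nat_lit 78) (nat_lit 152) (nat_lit 0) (XT.lf (nat_lit 0) (nat_lit 282052333819) (nat_lit 76) (nat_lit 983947561023) (nat_lit 76) (nat_lit 440978743968) (nat_lit 16) (nat_lit 4) (nat_lit 17) (nat_lit 5) (nat_lit 17) (nat_lit 4) (nat_lit 496) (nat_lit 448) (nat_lit 256)) (XT.nd (nat_lit 78) (nat_lit 152) (nat_lit 0) (XT.lf (nat_lit 0) (nat_lit 1143107270969) (nat_lit 76) (nat_lit 604722124823) (nat_lit 76) (nat_lit 61753292384) (nat_lit 16) (nat_lit 4) (nat_lit 17) (nat_lit 5) (nat_lit 17) (nat_lit 4) (nat_lit 497) (nat_lit 448) (nat_lit 255)) (XT.lf (nat_lit 0) (nat_lit 151884530374) (nat_lit 76) (nat_lit 182179593211) (nat_lit 152) (nat_lit 1585369526193) (nat_lit 14) (nat_lit 5) (nat_lit 15) (nat_lit 5) (nat_lit 16) (nat_lit 4) (nat_lit 498) (nat_lit 448) (nat_lit 254)))) (XT.nd (nat_lit 78) (nat_lit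 76) (nat_lit 0) (XT.lf (nat_lit 0) (nat_lit 783500268308) (nat_lit 152) (nat_lit 971669608112) (nat_lit 0) (nat_lit 280751323980) (nat_lit 14) (nat_lit 5) (nat_lit 16) (nat_lit 4) (nat_lit 14) (nat_lit 4) (nat_lit 499) (nat_lit 448) (nat_lit 253)) (XT.nd (nat_lit 78) (nat_lit 76) (nat_lit 0) (XT.lf (nat_lit 0) (nat_lit 1273623220215) (nat_lit 152) (nat_lit 116851717032) (nat_lit 0) (nat_lit 770874264580) (nat_lit 14) (nat_lit 5) (nat_lit 16) (nat_lit 4) (nat_lit 14) (nat_lit 4) (nat_lit 500) (nat_lit 448) (nat_lit 252)) (XT.lf (nat_lit 0) (nat_lit 848812609369) (nat_lit 76) (nat_lit 974557342316) (nat_lit 76) (nat_lit 471808376210) (nat_lit 13) (nat_lit 4) (nat_lit 14) (nat_lit 5) (nat_lit 14) (nat_lit 4) (nat_lit 501) (nat_lit 448) (nat_lit 251))))))) (XT.nd (nat_lit 858) (nat_lit 228) (nat_lit 0) (XT.nd (nat_lit 390) (nat_lit 228) (nat_lit 0) (XT.nd (nat_lit 156) (nat_lit 76) (nat_lit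 0) (XT.nd (nat_lit 78) (nat_lit 152) (nat_lit 0) (XT.lf (nat_lit 0) (nat_lit 1898375503197) (nat_lit 76) (nat_lit 521915831794) (nat_lit 76) (nat_lit 19166855993) (nat_lit 13) (nat_lit 4) (nat_lit 14) (nat_lit 5) (nat_lit 14) (nat_lit 4) (nat_lit 502) (nat_lit 448) (nat_lit 250)) (XT.lf (nat_lit 0) (nat_lit 447723954189) (nat_lit 76) (nat_lit 9234189544) (nat_lit 152) (nat_lit 2136557202397) (nat_lit 11) (nat_lit 5) (nat_lit 12) (nat_lit 5) (nat_lit 13) (nat_lit 4) (nat_lit 503) (nat_lit 448) (nat_lit 249))) (XT.nd (nat_lit 78) (nat_lit 76) (nat_lit 0) (XT.lf (nat_lit 0) (nat_lit 998410363986) (nat_lit 152) (nat_lit 1226283027129) (nat_lit 0) (nat_lit 532902037052) (nat_lit 11) (nat_lit 5) (nat_lit 13) (nat_lit 4) (nat_lit 11) (nat_lit 4) (nat_lit 504) (nat_lit 448) (nat_lit 248)) (XT.nd (nat_lit 78) (nat_lit 76) (nat_lit 0) (XT.lf (nat_lit 0) (nat_lit 1583418593669) (nat_lit 152) (nat_lit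 233453876946) (nat_lit 0) (nat_lit 1117910259609) (nat_lit 11) (nat_lit 5) (nat_lit 13) (nat_lit 4) (nat_lit 11) (nat_lit 4) (nat_lit 505) (nat_lit 448) (nat_lit 247)) (XT.lf (nat_lit 0) (nat_lit 882971377444) (nat_lit 76) (nat_lit 1353491571154) (nat_lit 76) (nat_lit 887983230496) (nat_lit 10) (nat_lit 4) (nat_lit 11) (nat_lit 5) (nat_lit 11) (nat_lit 4) (nat_lit 506) (nat_lit 448) (nat_lit 246))))) (XT.nd (nat_lit 234) (nat_lit 76) (nat_lit 0) (XT.nd (nat_lit 78) (nat_lit 152) (nat_lit 0) (XT.lf (nat_lit 0) (nat_lit 2101987349676) (nat_lit 76) (nat_lit 846146529398) (nat_lit 76) (nat_lit 380638182630) (nat_lit 10) (nat_lit 4) (nat_lit 11) (nat_lit 5) (nat_lit 11) (nat_lit 4) (nat_lit 507) (nat_lit 448) (nat_lit 245)) (XT.nd (nat_lit 78) (nat_lit 76) (nat_lit 0) (XT.lf (nat_lit 0) (nat_lit 158925707393) (nat_lit 152) (nat_lit 134942881045) (nat_lit 76) (nat_lit 3255253552787) (nat_lit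 9) (nat_lit 5) (nat_lit 11) (nat_lit 5) (nat_lit 10) (nat_lit 4) (nat_lit 508) (nat_lit 448) (nat_lit 244)) (XT.lf (nat_lit 0) (nat_lit 755490960703) (nat_lit 152) (nat_lit 2703601578262) (nat_lit 0) (nat_lit 324464703608) (nat_lit 8) (nat_lit 5) (nat_lit 10) (nat_lit 4) (nat_lit 8) (nat_lit 4) (nat_lit 509) (nat_lit 448) (nat_lit 243)))) (XT.nd (nat_lit 78) (nat_lit 76) (nat_lit 0) (XT.lf (nat_lit 0) (nat_lit 1411199781669) (nat_lit 152) (nat_lit 1644460382486) (nat_lit 0) (nat_lit 980173520084) (nat_lit 8) (nat_lit 5) (nat_lit 10) (nat_lit 4) (nat_lit 8) (nat_lit 4) (nat_lit 510) (nat_lit 448) (nat_lit 242)) (XT.nd (nat_lit 78) (nat_lit 76) (nat_lit 0) (XT.lf (nat_lit 0) (nat_lit 2119365295676) (nat_lit 152) (nat_lit 500587916639) (nat_lit 0) (nat_lit 1688339029933) (nat_lit 8) (nat_lit 5) (nat_lit 10) (nat_lit 4) (nat_lit 8) (nat_lit 4) (nat_lit 511) (nat_lit 448) (nat_lit 241)) (XT.lf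 (nat_lit 0) (nat_lit 773487289649) (nat_lit 76) (nat_lit 2129299137373) (nat_lit 76) (nat_lit 1698272867780) (nat_lit 7) (nat_lit 4) (nat_lit 8) (nat_lit 5) (nat_lit 8) (nat_lit 4) (nat_lit 512) (nat_lit 448) (nat_lit 240)))))) (XT.nd (nat_lit 468) (nat_lit 76) (nat_lit 0) (XT.nd (nat_lit 234) (nat_lit 76) (nat_lit 0) (XT.nd (nat_lit 78) (nat_lit 76) (nat_lit 0) (XT.lf (nat_lit 0) (nat_lit 2177957367724) (nat_lit 76) (nat_lit 1584610830523) (nat_lit 76) (nat_lit 1153584557365) (nat_lit 7) (nat_lit 4) (nat_lit 8) (nat_lit 5) (nat_lit 8) (nat_lit 4) (nat_lit 513) (nat_lit 448) (nat_lit 239)) (XT.nd (nat_lit 78) (nat_lit 76) (nat_lit 0) (XT.lf (nat_lit 0) (nat_lit 3694785030660) (nat_lit 76) (nat_lit 996347469964) (nat_lit 76) (nat_lit 565321193505) (nat_lit 7) (nat_lit 4) (nat_lit 8) (nat_lit 5) (nat_lit 8) (nat_lit 4) (nat_lit 514) (nat_lit 448) (nat_lit 238)) (XT.lf (nat_lit 0) (nat_lit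 66501383891) (nat_lit 152) (nat_lit 292703401020) (nat_lit 76) (nat_lit 5264639237252) (nat_lit 6) (nat_lit 5) (nat_lit 8) (nat_lit 5) (nat_lit 7) (nat_lit 4) (nat_lit 515) (nat_lit 448) (nat_lit 237)))) (XT.nd (nat_lit 78) (nat_lit 0) (nat_lit 0) (XT.lf (nat_lit 0) (nat_lit 754232268185) (nat_lit 152) (nat_lit 4907212393953) (nat_lit 0) (nat_lit 355133858607) (nat_lit 5) (nat_lit 5) (nat_lit 7) (nat_lit 4) (nat_lit 5) (nat_lit 4) (nat_lit 516) (nat_lit 448) (nat_lit 236)) (XT.nd (nat_lit 78) (nat_lit 0) (nat_lit 0) (XT.lf (nat_lit 0) (nat_lit 1514522508982) (nat_lit 152) (nat_lit 3809381902393) (nat_lit 0) (nat_lit 1115424096978) (nat_lit 5) (nat_lit 5) (nat_lit 7) (nat_lit 4) (nat_lit 5) (nat_lit 4) (nat_lit 517) (nat_lit 448) (nat_lit 235)) (XT.lf (nat_lit 0) (nat_lit 2335635960474) (nat_lit 152) (nat_lit 2623724988958) (nat_lit 0) (nat_lit 1936537546223) (nat_lit 5) (nat_lit 5) (nat_lit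 7) (nat_lit 4) (nat_lit 5) (nat_lit 4) (nat_lit 518) (nat_lit 448) (nat_lit 234))))) (XT.nd (nat_lit 234) (nat_lit 0) (nat_lit 0) (XT.nd (nat_lit 78) (nat_lit 76) (nat_lit 0) (XT.lf (nat_lit 0) (nat_lit 3222438480152) (nat_lit 152) (nat_lit 1343215538604) (nat_lit 0) (nat_lit 2823340063821) (nat_lit 5) (nat_lit 5) (nat_lit 7) (nat_lit 4) (nat_lit 5) (nat_lit 4) (nat_lit 519) (nat_lit 448) (nat_lit 233)) (XT.nd (nat_lit 78) (nat_lit 0) (nat_lit 0) (XT.lf (nat_lit 0) (nat_lit 41827009219) (nat_lit 76) (nat_lit 4139364125416) (nat_lit 76) (nat_lit 3740265707159) (nat_lit 4) (nat_lit 4) (nat_lit 5) (nat_lit 5) (nat_lit 5) (nat_lit 4) (nat_lit 520) (nat_lit 448) (nat_lit 232)) (XT.lf (nat_lit 0) (nat_lit 1614062804159) (nat_lit 76) (nat_lit 3639307083373) (nat_lit 76) (nat_lit 3240208663333) (nat_lit 4) (nat_lit 4) (nat_lit 5) (nat_lit 5) (nat_lit 5) (nat_lit 4) (nat_lit 521) (nat_lit 448) (nat_lit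 231)))) (XT.nd (nat_lit 56784) (nat_lit 0) (nat_lit 4940) (XT.lf (nat_lit 0) (nat_lit 3312077449192) (nat_lit 76) (nat_lit 3099245484844) (nat_lit 76) (nat_lit 2700147063153) (nat_lit 4) (nat_lit 4) (nat_lit 5) (nat_lit 5) (nat_lit 5) (nat_lit 4) (nat_lit 522) (nat_lit 448) (nat_lit 230)) (XT.nd (nat_lit 78) (nat_lit 0) (nat_lit 0) (XT.lf (nat_lit 0) (nat_lit 80907235799) (nat_lit 532) (nat_lit 3675303828) (nat_lit 532) (nat_lit 3675303828) (nat_lit 69) (nat_lit 3) (nat_lit 76) (nat_lit 3) (nat_lit 76) (nat_lit 5) (nat_lit 449) (nat_lit 449) (nat_lit 302)) (XT.lf (nat_lit 76) (nat_lit 83312662281) (nat_lit 0) (nat_lit 86980030793) (nat_lit 532) (nat_lit 13123168580) (nat_lit 70) (nat_lit 5) (nat_lit 69) (nat_lit 3) (nat_lit 76) (nat_lit 5) (nat_lit 450) (nat_lit 449) (nat_lit 301))))))))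
noncomputable def xc204 : XT := (XT.nd (nat_lit 1716) (nat_lit 1596) (nat_lit 0) (XT.nd (nat_lit 858) (nat_lit 1140) (nat_lit 0) (XT.nd (nat_lit 390) (nat_lit 760) (nat_lit 0) (XT.nd (nat_lit 156) (nat_lit 532) (nat_lit 0) (XT.nd (nat_lit 78) (nat_lit 0) (nat_lit 0) (XT.lf (nat_lit 0) (nat_lit 179697978093) (nat_lit 456) (nat_lit 9253098076) (nat_lit 532) (nat_lit 1897069873) (nat_lit 70) (nat_lit 5) (nat_lit 76) (nat_lit 5) (nat_lit 77) (nat_lit 5) (nat_lit 451) (nat_lit 449) (nat_lit 300)) (XT.lf (nat_lit 76) (nat_lit 91166170055) (nat_lit 0) (nat_lit 103141102879) (nat_lit 532) (nat_lit 4211613407) (nat_lit 71) (nat_lit 5) (nat_lit 70) (nat_lit 5) (nat_lit 77) (nat_lit 5) (nat_lit 452) (nat_lit 449) (nat_lit 299))) (XT.nd (nat_lit 78) (nat_lit 0) (nat_lit 76) (XT.lf (nat_lit 0) (nat_lit 3377235727) (nat_lit 532) (nat_lit 6723465884) (nat_lit 608) (nat_lit 196675518502) (nat_lit 63) (nat_lit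 5) (nat_lit 70) (nat_lit 5) (nat_lit 71) (nat_lit 5) (nat_lit 453) (nat_lit 449) (nat_lit 298)) (XT.nd (nat_lit 78) (nat_lit 0) (nat_lit 0) (XT.lf (nat_lit 0) (nat_lit 16167413159) (nat_lit 532) (nat_lit 110512979709) (nat_lit 608) (nat_lit 88619255859) (nat_lit 64) (nat_lit 5) (nat_lit 71) (nat_lit 5) (nat_lit 72) (nat_lit 5) (nat_lit 454) (nat_lit 449) (nat_lit 297)) (XT.lf (nat_lit 76) (nat_lit 886843725) (nat_lit 0) (nat_lit 29566098333) (nat_lit 608) (nat_lit 194014238680) (nat_lit 65) (nat_lit 5) (nat_lit 64) (nat_lit 5) (nat_lit 72) (nat_lit 5) (nat_lit 455) (nat_lit 449) (nat_lit 296))))) (XT.nd (nat_lit 234) (nat_lit 456) (nat_lit 0) (XT.nd (nat_lit 78) (nat_lit 456) (nat_lit 0) (XT.lf (nat_lit 0) (nat_lit 50792656785) (nat_lit 532) (nat_lit 108532766094) (nat_lit 76) (nat_lit 74649785036) (nat_lit 65) (nat_lit 5) (nat_lit 72) (nat_lit 5) (nat_lit 66) (nat_lit 5) (nat_lit 456)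 (nat_lit 449) (nat_lit 295)) (XT.nd (nat_lit 78) (nat_lit 0) (nat_lit 0) (XT.lf (nat_lit 0) (nat_lit 15737801554) (nat_lit 456) (nat_lit 58168058280) (nat_lit 532) (nat_lit 170246312616) (nat_lit 59) (nat_lit 5) (nat_lit 65) (nat_lit 5) (nat_lit 66) (nat_lit 5) (nat_lit 457) (nat_lit 449) (nat_lit 294)) (XT.lf (nat_lit 0) (nat_lit 103141068521) (nat_lit 532) (nat_lit 100089258887) (nat_lit 76) (nat_lit 51571130861) (nat_lit 59) (nat_lit 5) (nat_lit 66) (nat_lit 5) (nat_lit 60) (nat_lit 5) (nat_lit 458) (nat_lit 449) (nat_lit 293)))) (XT.nd (nat_lit 78) (nat_lit 228) (nat_lit 0) (XT.lf (nat_lit 0) (nat_lit 38938753495) (nat_lit 228) (nat_lit 98223559487) (nat_lit 304) (nat_lit 128944596512) (nat_lit 56) (nat_lit 5) (nat_lit 59) (nat_lit 5) (nat_lit 60) (nat_lit 5) (nat_lit 459) (nat_lit 449) (nat_lit 292)) (XT.nd (nat_lit 78) (nat_lit 228) (nat_lit 0) (XT.lf (nat_lit 0) (nat_lit 177078013280)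 (nat_lit 304) (nat_lit 83753075943) (nat_lit 76) (nat_lit 17231887151) (nat_lit 56) (nat_lit 5) (nat_lit 60) (nat_lit 5) (nat_lit 57) (nat_lit 5) (nat_lit 460) (nat_lit 449) (nat_lit 291)) (XT.lf (nat_lit 0) (nat_lit 72195332017) (nat_lit 228) (nat_lit 152279094675) (nat_lit 304) (nat_lit 66158105403) (nat_lit 53) (nat_lit 5) (nat_lit 56) (nat_lit 5) (nat_lit 57) (nat_lit 5) (nat_lit 461) (nat_lit 449) (nat_lit 290)))))) (XT.nd (nat_lit 390) (nat_lit 532) (nat_lit 0) (XT.nd (nat_lit 156) (nat_lit 380) (nat_lit 0) (XT.nd (nat_lit 78) (nat_lit 228) (nat_lit 0) (XT.lf (nat_lit 0) (nat_lit 245382607184) (nat_lit 228) (nat_lit 32569804711) (nat_lit 304) (nat_lit 26072051735) (nat_lit 53) (nat_lit 5) (nat_lit 56) (nat_lit 5) (nat_lit 57) (nat_lit 5) (nat_lit 462) (nat_lit 449) (nat_lit 289)) (XT.lf (nat_lit 0) (nat_lit 21644763628) (nat_lit 228) (nat_lit 201135388368) (nat_lit 76) (nat_lit 95251637848)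 (nat_lit 50) (nat_lit 5) (nat_lit 53) (nat_lit 5) (nat_lit 51) (nat_lit 5) (nat_lit 463) (nat_lit 449) (nat_lit 288))) (XT.nd (nat_lit 78) (nat_lit 380) (nat_lit 0) (XT.lf (nat_lit 0) (nat_lit 74261253384) (nat_lit 228) (nat_lit 24783626364) (nat_lit 76) (nat_lit 233861374984) (nat_lit 50) (nat_lit 5) (nat_lit 53) (nat_lit 5) (nat_lit 51) (nat_lit 5) (nat_lit 464) (nat_lit 449) (nat_lit 287)) (XT.nd (nat_lit 78) (nat_lit 152) (nat_lit 0) (XT.lf (nat_lit 0) (nat_lit 136222126807) (nat_lit 304) (nat_lit 175175569952) (nat_lit 76) (nat_lit 37162174933) (nat_lit 47) (nat_lit 5) (nat_lit 51) (nat_lit 5) (nat_lit 48) (nat_lit 5) (nat_lit 465) (nat_lit 449) (nat_lit 286)) (XT.lf (nat_lit 0) (nat_lit 21909245739) (nat_lit 152) (nat_lit 185025285105) (nat_lit 228) (nat_lit 158227674341) (nat_lit 45) (nat_lit 5) (nat_lit 47) (nat_lit 5) (nat_lit 48) (nat_lit 5) (nat_lit 466) (nat_lit 449) (nat_lit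 285))))) (XT.nd (nat_lit 234) (nat_lit 304) (nat_lit 0) (XT.nd (nat_lit 78) (nat_lit 228) (nat_lit 0) (XT.lf (nat_lit 0) (nat_lit 244723127803) (nat_lit 152) (nat_lit 43370332837) (nat_lit 228) (nat_lit 94616102075) (nat_lit 45) (nat_lit 5) (nat_lit 47) (nat_lit 5) (nat_lit 48) (nat_lit 5) (nat_lit 467) (nat_lit 449) (nat_lit 284)) (XT.nd (nat_lit 78) (nat_lit 76) (nat_lit 0) (XT.lf (nat_lit 0) (nat_lit 85333753952) (nat_lit 152) (nat_lit 295099849485) (nat_lit 228) (nat_lit 20852025552) (nat_lit 43) (nat_lit 5) (nat_lit 45) (nat_lit 5) (nat_lit 46) (nat_lit 5) (nat_lit 468) (nat_lit 449) (nat_lit 283)) (XT.lf (nat_lit 0) (nat_lit 60868323190) (nat_lit 228) (nat_lit 89318050276) (nat_lit 76) (nat_lit 270648472908) (nat_lit 42) (nat_lit 5) (nat_lit 45) (nat_lit 5) (nat_lit 43) (nat_lit 5) (nat_lit 469) (nat_lit 449) (nat_lit 282)))) (XT.nd (nat_lit 78) (nat_lit 152) (nat_lit 0) (XT.lf (nat_lit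 0) (nat_lit 152189251111) (nat_lit 228) (nat_lit 278797093472) (nat_lit 76) (nat_lit 10583167524) (nat_lit 40) (nat_lit 5) (nat_lit 43) (nat_lit 5) (nat_lit 41) (nat_lit 5) (nat_lit 470) (nat_lit 449) (nat_lit 281)) (XT.nd (nat_lit 78) (nat_lit 152) (nat_lit 0) (XT.lf (nat_lit 0) (nat_lit 257222279312) (nat_lit 228) (nat_lit 27622337265) (nat_lit 76) (nat_lit 178605820461) (nat_lit 40) (nat_lit 5) (nat_lit 43) (nat_lit 5) (nat_lit 41) (nat_lit 5) (nat_lit 471) (nat_lit 449) (nat_lit 280)) (XT.lf (nat_lit 0) (nat_lit 256476288904) (nat_lit 152) (nat_lit 120349862499) (nat_lit 228) (nat_lit 109762228452) (nat_lit 38) (nat_lit 5) (nat_lit 40) (nat_lit 5) (nat_lit 41) (nat_lit 5) (nat_lit 472) (nat_lit 449) (nat_lit 279))))))) (XT.nd (nat_lit 858) (nat_lit 760) (nat_lit 0) (XT.nd (nat_lit 390) (nat_lit 456) (nat_lit 0) (XT.nd (nat_lit 156) (nat_lit 228) (nat_lit 0) (XT.nd (nat_lit 78) (nat_lit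 76) (nat_lit 0) (XT.lf (nat_lit 0) (nat_lit 54694951027) (nat_lit 76) (nat_lit 454771773527) (nat_lit 152) (nat_lit 1833162256) (nat_lit 37) (nat_lit 5) (nat_lit 38) (nat_lit 5) (nat_lit 39) (nat_lit 4) (nat_lit 473) (nat_lit 449) (nat_lit 278)) (XT.lf (nat_lit 0) (nat_lit 118571964096) (nat_lit 152) (nat_lit 168160496239) (nat_lit 76) (nat_lit 250268632376) (nat_lit 36) (nat_lit 5) (nat_lit 38) (nat_lit 5) (nat_lit 37) (nat_lit 5) (nat_lit 474) (nat_lit 449) (nat_lit 277))) (XT.nd (nat_lit 78) (nat_lit 76) (nat_lit 0) (XT.lf (nat_lit 0) (nat_lit 150858340822) (nat_lit 152) (nat_lit 101280215039) (nat_lit 228) (nat_lit 312325782576) (nat_lit 34) (nat_lit 5) (nat_lit 36) (nat_lit 5) (nat_lit 37) (nat_lit 5) (nat_lit 475) (nat_lit 449) (nat_lit 276)) (XT.nd (nat_lit 78) (nat_lit 76) (nat_lit 0) (XT.lf (nat_lit 0) (nat_lit 403488802282) (nat_lit 228) (nat_lit 91295360700) (nat_lit 76) (nat_lit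 98772614669) (nat_lit 34) (nat_lit 5) (nat_lit 37) (nat_lit 5) (nat_lit 35) (nat_lit 4) (nat_lit 476) (nat_lit 449) (nat_lit 275)) (XT.lf (nat_lit 0) (nat_lit 267553499205) (nat_lit 76) (nat_lit 308458844069) (nat_lit 152) (nat_lit 48239046750) (nat_lit 33) (nat_lit 5) (nat_lit 34) (nat_lit 5) (nat_lit 35) (nat_lit 4) (nat_lit 477) (nat_lit 449) (nat_lit 274))))) (XT.nd (nat_lit 234) (nat_lit 152) (nat_lit 0) (XT.nd (nat_lit 78) (nat_lit 76) (nat_lit 0) (XT.lf (nat_lit 0) (nat_lit 538752407) (nat_lit 152) (nat_lit 101722032190) (nat_lit 228) (nat_lit 554732975602) (nat_lit 30) (nat_lit 5) (nat_lit 32) (nat_lit 5) (nat_lit 33) (nat_lit 5) (nat_lit 478) (nat_lit 449) (nat_lit 273)) (XT.nd (nat_lit 78) (nat_lit 76) (nat_lit 0) (XT.lf (nat_lit 0) (nat_lit 275123834667) (nat_lit 228) (nat_lit 289364981938) (nat_lit 76) (nat_lit 126732114917) (nat_lit 30) (nat_lit 5) (nat_lit 33) (nat_lit 5)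 (nat_lit 31) (nat_lit 4) (nat_lit 479) (nat_lit 449) (nat_lit 272)) (XT.lf (nat_lit 0) (nat_lit 109950191517) (nat_lit 76) (nat_lit 357152129159) (nat_lit 152) (nat_lit 260661044531) (nat_lit 29) (nat_lit 5) (nat_lit 30) (nat_lit 5) (nat_lit 31) (nat_lit 4) (nat_lit 480) (nat_lit 449) (nat_lit 271)))) (XT.nd (nat_lit 78) (nat_lit 152) (nat_lit 0) (XT.lf (nat_lit 0) (nat_lit 557666946096) (nat_lit 76) (nat_lit 124683848755) (nat_lit 152) (nat_lit 84245462000) (nat_lit 29) (nat_lit 5) (nat_lit 30) (nat_lit 5) (nat_lit 31) (nat_lit 4) (nat_lit 481) (nat_lit 449) (nat_lit 270)) (XT.nd (nat_lit 78) (nat_lit 0) (nat_lit 0) (XT.lf (nat_lit 0) (nat_lit 110049341119) (nat_lit 152) (nat_lit 568896234906) (nat_lit 76) (nat_lit 128659098531) (nat_lit 27) (nat_lit 5) (nat_lit 29) (nat_lit 5) (nat_lit 28) (nat_lit 4) (nat_lit 482) (nat_lit 449) (nat_lit 269)) (XT.lf (nat_lit 0) (nat_lit 324435661538)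 (nat_lit 152) (nat_lit 122972745358) (nat_lit 76) (nat_lit 403582353188) (nat_lit 27) (nat_lit 5) (nat_lit 29) (nat_lit 5) (nat_lit 28) (nat_lit 4) (nat_lit 483) (nat_lit 449) (nat_lit 268)))))) (XT.nd (nat_lit 468) (nat_lit 380) (nat_lit 0) (XT.nd (nat_lit 234) (nat_lit 152) (nat_lit 0) (XT.nd (nat_lit 78) (nat_lit 152) (nat_lit 0) (XT.lf (nat_lit 0) (nat_lit 377509089618) (nat_lit 76) (nat_lit 187542864074) (nat_lit 152) (nat_lit 332069453478) (nat_lit 26) (nat_lit 5) (nat_lit 27) (nat_lit 5) (nat_lit 28) (nat_lit 4) (nat_lit 484) (nat_lit 449) (nat_lit 267)) (XT.nd (nat_lit 78) (nat_lit 152) (nat_lit 0) (XT.lf (nat_lit 0) (nat_lit 830606482078) (nat_lit 152) (nat_lit 23977226198) (nat_lit 0) (nat_lit 91903683128) (nat_lit 26) (nat_lit 5) (nat_lit 28) (nat_lit 4) (nat_lit 26) (nat_lit 4) (nat_lit 485) (nat_lit 449) (nat_lit 266)) (XT.lf (nat_lit 0) (nat_lit 129871706054) (nat_lit 152)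 (nat_lit 468569692196) (nat_lit 76) (nat_lit 399682832116) (nat_lit 24) (nat_lit 5) (nat_lit 26) (nat_lit 5) (nat_lit 25) (nat_lit 4) (nat_lit 486) (nat_lit 449) (nat_lit 265)))) (XT.nd (nat_lit 78) (nat_lit 76) (nat_lit 0) (XT.lf (nat_lit 0) (nat_lit 75650225722) (nat_lit 76) (nat_lit 315865690264) (nat_lit 152) (nat_lit 661935951819) (nat_lit 23) (nat_lit 5) (nat_lit 24) (nat_lit 5) (nat_lit 25) (nat_lit 4) (nat_lit 487) (nat_lit 449) (nat_lit 264)) (XT.nd (nat_lit 78) (nat_lit 76) (nat_lit 0) (XT.lf (nat_lit 0) (nat_lit 686978973675) (nat_lit 152) (nat_lit 422200964944) (nat_lit 0) (nat_lit 2994792748) (nat_lit 23) (nat_lit 5) (nat_lit 25) (nat_lit 4) (nat_lit 23) (nat_lit 4) (nat_lit 488) (nat_lit 449) (nat_lit 263)) (XT.lf (nat_lit 0) (nat_lit 178576525245) (nat_lit 76) (nat_lit 840001593515) (nat_lit 76) (nat_lit 156017381835) (nat_lit 22) (nat_lit 4) (nat_lit 23) (nat_lit 5) (nat_lit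 23) (nat_lit 4) (nat_lit 489) (nat_lit 449) (nat_lit 262))))) (XT.nd (nat_lit 234) (nat_lit 228) (nat_lit 0) (XT.nd (nat_lit 78) (nat_lit 76) (nat_lit 0) (XT.lf (nat_lit 0) (nat_lit 139800790529) (nat_lit 152) (nat_lit 393198595853) (nat_lit 76) (nat_lit 707803908710) (nat_lit 21) (nat_lit 5) (nat_lit 23) (nat_lit 5) (nat_lit 22) (nat_lit 4) (nat_lit 490) (nat_lit 449) (nat_lit 261)) (XT.nd (nat_lit 78) (nat_lit 0) (nat_lit 0) (XT.lf (nat_lit 0) (nat_lit 267159353023) (nat_lit 76) (nat_lit 190121233296) (nat_lit 152) (nat_lit 854188922020) (nat_lit 20) (nat_lit 5) (nat_lit 21) (nat_lit 5) (nat_lit 22) (nat_lit 4) (nat_lit 491) (nat_lit 449) (nat_lit 260)) (XT.lf (nat_lit 0) (nat_lit 815522230170) (nat_lit 152) (nat_lit 388834269057) (nat_lit 0) (nat_lit 182203442268) (nat_lit 20) (nat_lit 5) (nat_lit 22) (nat_lit 4) (nat_lit 20) (nat_lit 4) (nat_lit 492) (nat_lit 449) (nat_lit 259)))) (XT.nd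 (nat_lit 78) (nat_lit 152) (nat_lit 0) (XT.lf (nat_lit 0) (nat_lit 330683554458) (nat_lit 76) (nat_lit 884630786427) (nat_lit 76) (nat_lit 251311977594) (nat_lit 19) (nat_lit 4) (nat_lit 20) (nat_lit 5) (nat_lit 20) (nat_lit 4) (nat_lit 493) (nat_lit 449) (nat_lit 258)) (XT.nd (nat_lit 78) (nat_lit 76) (nat_lit 0) (XT.lf (nat_lit 0) (nat_lit 100197496452) (nat_lit 152) (nat_lit 424908035592) (nat_lit 76) (nat_lit 1026939030519) (nat_lit 18) (nat_lit 5) (nat_lit 20) (nat_lit 5) (nat_lit 19) (nat_lit 4) (nat_lit 494) (nat_lit 449) (nat_lit 257)) (XT.lf (nat_lit 0) (nat_lit 354200377897) (nat_lit 76) (nat_lit 120568479821) (nat_lit 152) (nat_lit 1168323721457) (nat_lit 17) (nat_lit 5) (nat_lit 18) (nat_lit 5) (nat_lit 19) (nat_lit 4) (nat_lit 495) (nat_lit 449) (nat_lit 256))))))))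
noncomputable def xc205 : XT := (XT.nd (nat_lit 1716) (nat_lit 76) (nat_lit 0) (XT.nd (nat_lit 858) (nat_lit 456) (nat_lit 0) (XT.nd (nat_lit 390) (nat_lit 228) (nat_lit 0) (XT.nd (nat_lit 156) (nat_lit 152) (nat_lit 0) (XT.nd (nat_lit 78) (nat_lit 76) (nat_lit 0) (XT.lf (nat_lit 0) (nat_lit 898833183291) (nat_lit 152) (nat_lit 528602244522) (nat_lit 0) (nat_lit 312426828872) (nat_lit 17) (nat_lit 5) (nat_lit 19) (nat_lit 4) (nat_lit 17) (nat_lit 4) (nat_lit 496) (nat_lit 449) (nat_lit 255)) (XT.lf (nat_lit 0) (nat_lit 304617413195) (nat_lit 76) (nat_lit 1062662924617) (nat_lit 76) (nat_lit 476256555954) (nat_lit 16) (nat_lit 4) (nat_lit 17) (nat_lit 5) (nat_lit 17) (nat_lit 4) (nat_lit 497) (nat_lit 449) (nat_lit 254))) (XT.nd (nat_lit 78) (nat_lit 152) (nat_lit 0) (XT.lf (nat_lit 0) (nat_lit 1234556679194) (nat_lit 76) (nat_lit 653099486209) (nat_lit 76) (nat_lit 66693104356) (nat_lit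 16) (nat_lit 4) (nat_lit 17) (nat_lit 5) (nat_lit 17) (nat_lit 4) (nat_lit 498) (nat_lit 449) (nat_lit 253)) (XT.nd (nat_lit 78) (nat_lit 0) (nat_lit 0) (XT.lf (nat_lit 0) (nat_lit 164036120468) (nat_lit 76) (nat_lit 196753549980) (nat_lit 152) (nat_lit 1712198637924) (nat_lit 14) (nat_lit 5) (nat_lit 15) (nat_lit 5) (nat_lit 16) (nat_lit 4) (nat_lit 499) (nat_lit 449) (nat_lit 252)) (XT.lf (nat_lit 0) (nat_lit 846180685007) (nat_lit 152) (nat_lit 1049402388637) (nat_lit 0) (nat_lit 303211791142) (nat_lit 14) (nat_lit 5) (nat_lit 16) (nat_lit 4) (nat_lit 14) (nat_lit 4) (nat_lit 500) (nat_lit 449) (nat_lit 251))))) (XT.nd (nat_lit 234) (nat_lit 152) (nat_lit 0) (XT.nd (nat_lit 78) (nat_lit 76) (nat_lit 0) (XT.lf (nat_lit 0) (nat_lit 1375513443790) (nat_lit 152) (nat_lit 126199124650) (nat_lit 0) (nat_lit 832544540231) (nat_lit 14) (nat_lit 5) (nat_lit 16) (nat_lit 4) (nat_lit 14) (nat_lit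 4) (nat_lit 501) (nat_lit 449) (nat_lit 250)) (XT.nd (nat_lit 78) (nat_lit 0) (nat_lit 0) (XT.lf (nat_lit 0) (nat_lit 916718329389) (nat_lit 76) (nat_lit 1052521574387) (nat_lit 76) (nat_lit 509552661851) (nat_lit 13) (nat_lit 4) (nat_lit 14) (nat_lit 5) (nat_lit 14) (nat_lit 4) (nat_lit 502) (nat_lit 449) (nat_lit 249)) (XT.lf (nat_lit 0) (nat_lit 2050246202036) (nat_lit 76) (nat_lit 563668769343) (nat_lit 76) (nat_lit 20699848495) (nat_lit 13) (nat_lit 4) (nat_lit 14) (nat_lit 5) (nat_lit 14) (nat_lit 4) (nat_lit 503) (nat_lit 449) (nat_lit 248)))) (XT.nd (nat_lit 78) (nat_lit 0) (nat_lit 0) (XT.lf (nat_lit 0) (nat_lit 483542529812) (nat_lit 76) (nat_lit 9972594397) (nat_lit 152) (nat_lit 2307481423276) (nat_lit 11) (nat_lit 5) (nat_lit 12) (nat_lit 5) (nat_lit 13) (nat_lit 4) (nat_lit 504) (nat_lit 449) (nat_lit 247)) (XT.nd (nat_lit 78) (nat_lit 0) (nat_lit 0) (XT.lf (nat_lit 0) (nat_lit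 1078283505069) (nat_lit 152) (nat_lit 1324385041818) (nat_lit 0) (nat_lit 575534490560) (nat_lit 11) (nat_lit 5) (nat_lit 13) (nat_lit 4) (nat_lit 11) (nat_lit 4) (nat_lit 505) (nat_lit 449) (nat_lit 246)) (XT.lf (nat_lit 0) (nat_lit 1710092370017) (nat_lit 152) (nat_lit 252129606100) (nat_lit 0) (nat_lit 1207343349399) (nat_lit 11) (nat_lit 5) (nat_lit 13) (nat_lit 4) (nat_lit 11) (nat_lit 4) (nat_lit 506) (nat_lit 449) (nat_lit 245)))))) (XT.nd (nat_lit 390) (nat_lit 228) (nat_lit 0) (XT.nd (nat_lit 156) (nat_lit 152) (nat_lit 0) (XT.nd (nat_lit 78) (nat_lit 0) (nat_lit 0) (XT.lf (nat_lit 0) (nat_lit 953609653931) (nat_lit 76) (nat_lit 1461770611632) (nat_lit 76) (nat_lit 959021585357) (nat_lit 10) (nat_lit 4) (nat_lit 11) (nat_lit 5) (nat_lit 11) (nat_lit 4) (nat_lit 507) (nat_lit 449) (nat_lit 244)) (XT.lf (nat_lit 0) (nat_lit 2270146861995) (nat_lit 76) (nat_lit 913837987662) (nat_lit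 76) (nat_lit 411088956149) (nat_lit 10) (nat_lit 4) (nat_lit 11) (nat_lit 5) (nat_lit 11) (nat_lit 4) (nat_lit 508) (nat_lit 449) (nat_lit 243))) (XT.nd (nat_lit 78) (nat_lit 76) (nat_lit 0) (XT.lf (nat_lit 0) (nat_lit 171640011235) (nat_lit 152) (nat_lit 145737812993) (nat_lit 76) (nat_lit 3515674068504) (nat_lit 9) (nat_lit 5) (nat_lit 11) (nat_lit 5) (nat_lit 10) (nat_lit 4) (nat_lit 509) (nat_lit 449) (nat_lit 242)) (XT.nd (nat_lit 78) (nat_lit 0) (nat_lit 0) (XT.lf (nat_lit 0) (nat_lit 815930484080) (nat_lit 152) (nat_lit 2919889205247) (nat_lit 0) (nat_lit 350422112920) (nat_lit 8) (nat_lit 5) (nat_lit 10) (nat_lit 4) (nat_lit 8) (nat_lit 4) (nat_lit 510) (nat_lit 449) (nat_lit 241)) (XT.lf (nat_lit 0) (nat_lit 1524095992463) (nat_lit 152) (nat_lit 1776016750792) (nat_lit 0) (nat_lit 1058587617452) (nat_lit 8) (nat_lit 5) (nat_lit 10) (nat_lit 4) (nat_lit 8) (nat_lit 4) (nat_lit 511)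 (nat_lit 449) (nat_lit 240))))) (XT.nd (nat_lit 234) (nat_lit 152) (nat_lit 0) (XT.nd (nat_lit 78) (nat_lit 76) (nat_lit 0) (XT.lf (nat_lit 0) (nat_lit 2288914730682) (nat_lit 152) (nat_lit 540634521921) (nat_lit 0) (nat_lit 1823406352107) (nat_lit 8) (nat_lit 5) (nat_lit 10) (nat_lit 4) (nat_lit 8) (nat_lit 4) (nat_lit 512) (nat_lit 449) (nat_lit 239)) (XT.nd (nat_lit 78) (nat_lit 0) (nat_lit 0) (XT.lf (nat_lit 0) (nat_lit 835366690033) (nat_lit 76) (nat_lit 2299642856881) (nat_lit 76) (nat_lit 1834134475005) (nat_lit 7) (nat_lit 4) (nat_lit 8) (nat_lit 5) (nat_lit 8) (nat_lit 4) (nat_lit 513) (nat_lit 449) (nat_lit 238)) (XT.lf (nat_lit 0) (nat_lit 2352194343450) (nat_lit 76) (nat_lit 1711379501148) (nat_lit 76) (nat_lit 1245871116216) (nat_lit 7) (nat_lit 4) (nat_lit 8) (nat_lit 5) (nat_lit 8) (nat_lit 4) (nat_lit 514) (nat_lit 449) (nat_lit 237)))) (XT.nd (nat_lit 78) (nat_lit 152)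 (nat_lit 0) (XT.lf (nat_lit 0) (nat_lit 3990368190805) (nat_lit 76) (nat_lit 1076055086249) (nat_lit 76) (nat_lit 610546698488) (nat_lit 7) (nat_lit 4) (nat_lit 8) (nat_lit 5) (nat_lit 8) (nat_lit 4) (nat_lit 515) (nat_lit 449) (nat_lit 236)) (XT.nd (nat_lit 78) (nat_lit 76) (nat_lit 0) (XT.lf (nat_lit 0) (nat_lit 71821662166) (nat_lit 152) (nat_lit 316119333075) (nat_lit 76) (nat_lit 5685810535284) (nat_lit 6) (nat_lit 5) (nat_lit 8) (nat_lit 5) (nat_lit 7) (nat_lit 4) (nat_lit 516) (nat_lit 449) (nat_lit 235)) (XT.lf (nat_lit 0) (nat_lit 814571016810) (nat_lit 152) (nat_lit 5299789045043) (nat_lit 0) (nat_lit 383544727173) (nat_lit 5) (nat_lit 5) (nat_lit 7) (nat_lit 4) (nat_lit 5) (nat_lit 4) (nat_lit 517) (nat_lit 449) (nat_lit 234))))))) (XT.nd (nat_lit 57642) (nat_lit 0) (nat_lit 3116) (XT.nd (nat_lit 57174) (nat_lit 0) (nat_lit 4484) (XT.nd (nat_lit 156) (nat_lit 76) (nat_lit 0)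 (XT.nd (nat_lit 78) (nat_lit 0) (nat_lit 0) (XT.lf (nat_lit 0) (nat_lit 1635684464488) (nat_lit 152) (nat_lit 4114132139375) (nat_lit 0) (nat_lit 1204658172770) (nat_lit 5) (nat_lit 5) (nat_lit 7) (nat_lit 4) (nat_lit 5) (nat_lit 4) (nat_lit 518) (nat_lit 449) (nat_lit 233)) (XT.lf (nat_lit 0) (nat_lit 2522486980633) (nat_lit 152) (nat_lit 2833622696213) (nat_lit 0) (nat_lit 2091460686990) (nat_lit 5) (nat_lit 5) (nat_lit 7) (nat_lit 4) (nat_lit 5) (nat_lit 4) (nat_lit 519) (nat_lit 449) (nat_lit 232))) (XT.nd (nat_lit 78) (nat_lit 76) (nat_lit 0) (XT.lf (nat_lit 0) (nat_lit 3480233691269) (nat_lit 152) (nat_lit 1450672511451) (nat_lit 0) (nat_lit 3049207395842) (nat_lit 5) (nat_lit 5) (nat_lit 7) (nat_lit 4) (nat_lit 5) (nat_lit 4) (nat_lit 520) (nat_lit 449) (nat_lit 231)) (XT.nd (nat_lit 78) (nat_lit 0) (nat_lit 0) (XT.lf (nat_lit 0) (nat_lit 45173433356) (nat_lit 76) (nat_lit 4470513121259)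 (nat_lit 76) (nat_lit 4039486824181) (nat_lit 4) (nat_lit 4) (nat_lit 5) (nat_lit 5) (nat_lit 5) (nat_lit 4) (nat_lit 521) (nat_lit 449) (nat_lit 230)) (XT.lf (nat_lit 0) (nat_lit 1743188072380) (nat_lit 76) (nat_lit 3930451525792) (nat_lit 76) (nat_lit 3499425227186) (nat_lit 4) (nat_lit 4) (nat_lit 5) (nat_lit 5) (nat_lit 5) (nat_lit 4) (nat_lit 522) (nat_lit 449) (nat_lit 229))))) (XT.nd (nat_lit 234) (nat_lit 456) (nat_lit 0) (XT.nd (nat_lit 78) (nat_lit 0) (nat_lit 0) (XT.lf (nat_lit 0) (nat_lit 87381738339) (nat_lit 532) (nat_lit 3968288703) (nat_lit 532) (nat_lit 3968288703) (nat_lit 69) (nat_lit 3) (nat_lit 76) (nat_lit 3) (nat_lit 76) (nat_lit 5) (nat_lit 450) (nat_lit 450) (nat_lit 300)) (XT.nd (nat_lit 78) (nat_lit 0) (nat_lit 76) (XT.lf (nat_lit 76) (nat_lit 89979701498) (nat_lit 0) (nat_lit 93940018115) (nat_lit 532) (nat_lit 14169119689) (nat_lit 70) (nat_lit 5) (nat_lit 69)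 (nat_lit 3) (nat_lit 76) (nat_lit 5) (nat_lit 451) (nat_lit 450) (nat_lit 299)) (XT.lf (nat_lit 0) (nat_lit 194077124652) (nat_lit 456) (nat_lit 9991164779) (nat_lit 532) (nat_lit 2047441410) (nat_lit 70) (nat_lit 5) (nat_lit 76) (nat_lit 5) (nat_lit 77) (nat_lit 5) (nat_lit 452) (nat_lit 450) (nat_lit 298)))) (XT.nd (nat_lit 78) (nat_lit 532) (nat_lit 0) (XT.lf (nat_lit 76) (nat_lit 98461589583) (nat_lit 0) (nat_lit 111393379566) (nat_lit 532) (nat_lit 4545176894) (nat_lit 71) (nat_lit 5) (nat_lit 70) (nat_lit 5) (nat_lit 77) (nat_lit 5) (nat_lit 453) (nat_lit 450) (nat_lit 297)) (XT.nd (nat_lit 78) (nat_lit 0) (nat_lit 76) (XT.lf (nat_lit 0) (nat_lit 3650374979) (nat_lit 532) (nat_lit 7259217056) (nat_lit 608) (nat_lit 212408487094) (nat_lit 63) (nat_lit 5) (nat_lit 70) (nat_lit 5) (nat_lit 71) (nat_lit 5) (nat_lit 454) (nat_lit 450) (nat_lit 296)) (XT.lf (nat_lit 0) (nat_lit 17463579872)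 (nat_lit 532) (nat_lit 119351703621) (nat_lit 608) (nat_lit 95708113608) (nat_lit 64) (nat_lit 5) (nat_lit 71) (nat_lit 5) (nat_lit 72) (nat_lit 5) (nat_lit 455) (nat_lit 450) (nat_lit 295)))))) (XT.nd (nat_lit 468) (nat_lit 836) (nat_lit 0) (XT.nd (nat_lit 234) (nat_lit 228) (nat_lit 0) (XT.nd (nat_lit 78) (nat_lit 380) (nat_lit 0) (XT.lf (nat_lit 76) (nat_lit 960047094) (nat_lit 0) (nat_lit 31931752787) (nat_lit 608) (nat_lit 209532544011) (nat_lit 65) (nat_lit 5) (nat_lit 64) (nat_lit 5) (nat_lit 72) (nat_lit 5) (nat_lit 456) (nat_lit 450) (nat_lit 294)) (XT.nd (nat_lit 78) (nat_lit 456) (nat_lit 0) (XT.lf (nat_lit 0) (nat_lit 54858489366) (nat_lit 532) (nat_lit 117213094795) (nat_lit 76) (nat_lit 80621445386) (nat_lit 65) (nat_lit 5) (nat_lit 72) (nat_lit 5) (nat_lit 66) (nat_lit 5) (nat_lit 457) (nat_lit 450) (nat_lit 293)) (XT.lf (nat_lit 0) (nat_lit 16999060225) (nat_lit 456) (nat_lit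 62821562913) (nat_lit 532) (nat_lit 183863538252) (nat_lit 59) (nat_lit 5) (nat_lit 65) (nat_lit 5) (nat_lit 66) (nat_lit 5) (nat_lit 458) (nat_lit 450) (nat_lit 292)))) (XT.nd (nat_lit 78) (nat_lit 228) (nat_lit 0) (XT.lf (nat_lit 0) (nat_lit 111394477220) (nat_lit 532) (nat_lit 108094158075) (nat_lit 76) (nat_lit 55696768580) (nat_lit 59) (nat_lit 5) (nat_lit 66) (nat_lit 5) (nat_lit 60) (nat_lit 5) (nat_lit 459) (nat_lit 450) (nat_lit 291)) (XT.nd (nat_lit 78) (nat_lit 0) (nat_lit 0) (XT.lf (nat_lit 0) (nat_lit 42056038550) (nat_lit 228) (nat_lit 106081277956) (nat_lit 304) (nat_lit 139257983158) (nat_lit 56) (nat_lit 5) (nat_lit 59) (nat_lit 5) (nat_lit 60) (nat_lit 5) (nat_lit 460) (nat_lit 450) (nat_lit 290)) (XT.lf (nat_lit 0) (nat_lit 191246127014) (nat_lit 304) (nat_lit 90451152237) (nat_lit 76) (nat_lit 18610584393) (nat_lit 56) (nat_lit 5) (nat_lit 60) (nat_lit 5) (nat_lit 57)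 (nat_lit 5) (nat_lit 461) (nat_lit 450) (nat_lit 289))))) (XT.nd (nat_lit 234) (nat_lit 380) (nat_lit 0) (XT.nd (nat_lit 78) (nat_lit 228) (nat_lit 0) (XT.lf (nat_lit 0) (nat_lit 77973073430) (nat_lit 228) (nat_lit 164461092215) (nat_lit 304) (nat_lit 71448825281) (nat_lit 53) (nat_lit 5) (nat_lit 56) (nat_lit 5) (nat_lit 57) (nat_lit 5) (nat_lit 462) (nat_lit 450) (nat_lit 288)) (XT.nd (nat_lit 78) (nat_lit 228) (nat_lit 0) (XT.lf (nat_lit 0) (nat_lit 265015173954) (nat_lit 228) (nat_lit 35175083501) (nat_lit 304) (nat_lit 28156030176) (nat_lit 53) (nat_lit 5) (nat_lit 56) (nat_lit 5) (nat_lit 57) (nat_lit 5) (nat_lit 463) (nat_lit 450) (nat_lit 287)) (XT.lf (nat_lit 0) (nat_lit 23377972532) (nat_lit 228) (nat_lit 217224101786) (nat_lit 76) (nat_lit 102872127733) (nat_lit 50) (nat_lit 5) (nat_lit 53) (nat_lit 5) (nat_lit 51) (nat_lit 5) (nat_lit 464) (nat_lit 450) (nat_lit 286)))) (XT.nd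 (nat_lit 78) (nat_lit 380) (nat_lit 0) (XT.lf (nat_lit 0) (nat_lit 80203660889) (nat_lit 228) (nat_lit 26764355685) (nat_lit 76) (nat_lit 252570617258) (nat_lit 50) (nat_lit 5) (nat_lit 53) (nat_lit 5) (nat_lit 51) (nat_lit 5) (nat_lit 465) (nat_lit 450) (nat_lit 285)) (XT.nd (nat_lit 78) (nat_lit 152) (nat_lit 0) (XT.lf (nat_lit 0) (nat_lit 147121349796) (nat_lit 304) (nat_lit 189187599722) (nat_lit 76) (nat_lit 40135595034) (nat_lit 47) (nat_lit 5) (nat_lit 51) (nat_lit 5) (nat_lit 48) (nat_lit 5) (nat_lit 466) (nat_lit 450) (nat_lit 284)) (XT.lf (nat_lit 0) (nat_lit 23663950191) (nat_lit 152) (nat_lit 199826735600) (nat_lit 228) (nat_lit 170884383810) (nat_lit 45) (nat_lit 5) (nat_lit 47) (nat_lit 5) (nat_lit 48) (nat_lit 5) (nat_lit 467) (nat_lit 450) (nat_lit 283))))))))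
noncomputable def xc206 : XT := (XT.nd (nat_lit 1716) (nat_lit 1140) (nat_lit 0) (XT.nd (nat_lit 858) (nat_lit 760) (nat_lit 0) (XT.nd (nat_lit 390) (nat_lit 532) (nat_lit 0) (XT.nd (nat_lit 156) (nat_lit 228) (nat_lit 0) (XT.nd (nat_lit 78) (nat_lit 152) (nat_lit 0) (XT.lf (nat_lit 0) (nat_lit 264302797280) (nat_lit 152) (nat_lit 46839429545) (nat_lit 228) (nat_lit 102183997206) (nat_lit 45) (nat_lit 5) (nat_lit 47) (nat_lit 5) (nat_lit 48) (nat_lit 5) (nat_lit 468) (nat_lit 450) (nat_lit 282)) (XT.lf (nat_lit 0) (nat_lit 92162316119) (nat_lit 152) (nat_lit 318707225999) (nat_lit 228) (nat_lit 22518836645) (nat_lit 43) (nat_lit 5) (nat_lit 45) (nat_lit 5) (nat_lit 46) (nat_lit 5) (nat_lit 469) (nat_lit 450) (nat_lit 281))) (XT.nd (nat_lit 78) (nat_lit 152) (nat_lit 0) (XT.lf (nat_lit 0) (nat_lit 65738977352) (nat_lit 228) (nat_lit 96461707348) (nat_lit 76) (nat_lit 292300853878) (nat_lit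 42) (nat_lit 5) (nat_lit 45) (nat_lit 5) (nat_lit 43) (nat_lit 5) (nat_lit 470) (nat_lit 450) (nat_lit 280)) (XT.nd (nat_lit 78) (nat_lit 0) (nat_lit 0) (XT.lf (nat_lit 0) (nat_lit 164365547792) (nat_lit 228) (nat_lit 301099041876) (nat_lit 76) (nat_lit 11430390473) (nat_lit 40) (nat_lit 5) (nat_lit 43) (nat_lit 5) (nat_lit 41) (nat_lit 5) (nat_lit 471) (nat_lit 450) (nat_lit 279)) (XT.lf (nat_lit 0) (nat_lit 277801132575) (nat_lit 228) (nat_lit 29830439919) (nat_lit 76) (nat_lit 192894813456) (nat_lit 40) (nat_lit 5) (nat_lit 43) (nat_lit 5) (nat_lit 41) (nat_lit 5) (nat_lit 472) (nat_lit 450) (nat_lit 278))))) (XT.nd (nat_lit 234) (nat_lit 228) (nat_lit 0) (XT.nd (nat_lit 78) (nat_lit 152) (nat_lit 0) (XT.lf (nat_lit 0) (nat_lit 276996033703) (nat_lit 152) (nat_lit 129977240885) (nat_lit 228) (nat_lit 118542092818) (nat_lit 38) (nat_lit 5) (nat_lit 40) (nat_lit 5) (nat_lit 41) (nat_lit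 5) (nat_lit 473) (nat_lit 450) (nat_lit 277)) (XT.nd (nat_lit 78) (nat_lit 76) (nat_lit 0) (XT.lf (nat_lit 0) (nat_lit 59072213660) (nat_lit 76) (nat_lit 491152857235) (nat_lit 152) (nat_lit 1978725866) (nat_lit 37) (nat_lit 5) (nat_lit 38) (nat_lit 5) (nat_lit 39) (nat_lit 4) (nat_lit 474) (nat_lit 450) (nat_lit 276)) (XT.lf (nat_lit 0) (nat_lit 128058679442) (nat_lit 152) (nat_lit 181611742100) (nat_lit 76) (nat_lit 270290681652) (nat_lit 36) (nat_lit 5) (nat_lit 38) (nat_lit 5) (nat_lit 37) (nat_lit 5) (nat_lit 475) (nat_lit 450) (nat_lit 275)))) (XT.nd (nat_lit 78) (nat_lit 76) (nat_lit 0) (XT.lf (nat_lit 0) (nat_lit 162928561575) (nat_lit 152) (nat_lit 109382003355) (nat_lit 228) (nat_lit 337310846357) (nat_lit 34) (nat_lit 5) (nat_lit 36) (nat_lit 5) (nat_lit 37) (nat_lit 5) (nat_lit 476) (nat_lit 450) (nat_lit 274)) (XT.nd (nat_lit 78) (nat_lit 76) (nat_lit 0) (XT.lf (nat_lit 0)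 (nat_lit 435768776580) (nat_lit 228) (nat_lit 98597496419) (nat_lit 76) (nat_lit 106674977016) (nat_lit 34) (nat_lit 5) (nat_lit 37) (nat_lit 5) (nat_lit 35) (nat_lit 4) (nat_lit 477) (nat_lit 450) (nat_lit 273)) (XT.lf (nat_lit 0) (nat_lit 288959234477) (nat_lit 76) (nat_lit 333134936922) (nat_lit 152) (nat_lit 52097262354) (nat_lit 33) (nat_lit 5) (nat_lit 34) (nat_lit 5) (nat_lit 35) (nat_lit 4) (nat_lit 478) (nat_lit 450) (nat_lit 272)))))) (XT.nd (nat_lit 390) (nat_lit 304) (nat_lit 0) (XT.nd (nat_lit 156) (nat_lit 228) (nat_lit 0) (XT.nd (nat_lit 78) (nat_lit 0) (nat_lit 0) (XT.lf (nat_lit 0) (nat_lit 583315570) (nat_lit 152) (nat_lit 109859165784) (nat_lit 228) (nat_lit 599110712754) (nat_lit 30) (nat_lit 5) (nat_lit 32) (nat_lit 5) (nat_lit 33) (nat_lit 5) (nat_lit 479) (nat_lit 450) (nat_lit 271)) (XT.lf (nat_lit 0) (nat_lit 297134527658) (nat_lit 228) (nat_lit 312512777946) (nat_lit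 76) (nat_lit 136871237367) (nat_lit 30) (nat_lit 5) (nat_lit 33) (nat_lit 5) (nat_lit 31) (nat_lit 4) (nat_lit 480) (nat_lit 450) (nat_lit 270))) (XT.nd (nat_lit 78) (nat_lit 152) (nat_lit 0) (XT.lf (nat_lit 0) (nat_lit 118747573878) (nat_lit 76) (nat_lit 385723693309) (nat_lit 152) (nat_lit 281513106206) (nat_lit 29) (nat_lit 5) (nat_lit 30) (nat_lit 5) (nat_lit 31) (nat_lit 4) (nat_lit 481) (nat_lit 450) (nat_lit 269)) (XT.nd (nat_lit 78) (nat_lit 152) (nat_lit 0) (XT.lf (nat_lit 0) (nat_lit 602281567561) (nat_lit 76) (nat_lit 134657995375) (nat_lit 152) (nat_lit 90984337954) (nat_lit 29) (nat_lit 5) (nat_lit 30) (nat_lit 5) (nat_lit 31) (nat_lit 4) (nat_lit 482) (nat_lit 450) (nat_lit 268)) (XT.lf (nat_lit 0) (nat_lit 118854002096) (nat_lit 152) (nat_lit 614406620334) (nat_lit 76) (nat_lit 138952368867) (nat_lit 27) (nat_lit 5) (nat_lit 29) (nat_lit 5) (nat_lit 28) (nat_lit 4) (nat_lit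 483) (nat_lit 450) (nat_lit 267))))) (XT.nd (nat_lit 234) (nat_lit 228) (nat_lit 0) (XT.nd (nat_lit 78) (nat_lit 76) (nat_lit 0) (XT.lf (nat_lit 0) (nat_lit 350391175282) (nat_lit 152) (nat_lit 132809348908) (nat_lit 76) (nat_lit 435869443715) (nat_lit 27) (nat_lit 5) (nat_lit 29) (nat_lit 5) (nat_lit 28) (nat_lit 4) (nat_lit 484) (nat_lit 450) (nat_lit 266)) (XT.nd (nat_lit 78) (nat_lit 0) (nat_lit 0) (XT.lf (nat_lit 0) (nat_lit 407711002079) (nat_lit 76) (nat_lit 202545748287) (nat_lit 152) (nat_lit 358634318038) (nat_lit 26) (nat_lit 5) (nat_lit 27) (nat_lit 5) (nat_lit 28) (nat_lit 4) (nat_lit 485) (nat_lit 450) (nat_lit 265)) (XT.lf (nat_lit 0) (nat_lit 897055605721) (nat_lit 152) (nat_lit 25894271398) (nat_lit 0) (nat_lit 99256457088) (nat_lit 26) (nat_lit 5) (nat_lit 28) (nat_lit 4) (nat_lit 26) (nat_lit 4) (nat_lit 486) (nat_lit 450) (nat_lit 264)))) (XT.nd (nat_lit 78) (nat_lit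 76) (nat_lit 0) (XT.lf (nat_lit 0) (nat_lit 140262044683) (nat_lit 152) (nat_lit 506054131562) (nat_lit 76) (nat_lit 431657944291) (nat_lit 24) (nat_lit 5) (nat_lit 26) (nat_lit 5) (nat_lit 25) (nat_lit 4) (nat_lit 487) (nat_lit 450) (nat_lit 263)) (XT.nd (nat_lit 78) (nat_lit 0) (nat_lit 0) (XT.lf (nat_lit 0) (nat_lit 81703351031) (nat_lit 76) (nat_lit 341134422405) (nat_lit 152) (nat_lit 714890196979) (nat_lit 23) (nat_lit 5) (nat_lit 24) (nat_lit 5) (nat_lit 25) (nat_lit 4) (nat_lit 488) (nat_lit 450) (nat_lit 262)) (XT.lf (nat_lit 0) (nat_lit 741937844116) (nat_lit 152) (nat_lit 455975985209) (nat_lit 0) (nat_lit 3234836273) (nat_lit 23) (nat_lit 5) (nat_lit 25) (nat_lit 4) (nat_lit 23) (nat_lit 4) (nat_lit 489) (nat_lit 450) (nat_lit 261))))))) (XT.nd (nat_lit 858) (nat_lit 456) (nat_lit 0) (XT.nd (nat_lit 390) (nat_lit 380) (nat_lit 0) (XT.nd (nat_lit 156) (nat_lit 152) (nat_lit 0)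 (XT.nd (nat_lit 78) (nat_lit 76) (nat_lit 0) (XT.lf (nat_lit 0) (nat_lit 192863677438) (nat_lit 76) (nat_lit 907201227217) (nat_lit 76) (nat_lit 168498193007) (nat_lit 22) (nat_lit 4) (nat_lit 23) (nat_lit 5) (nat_lit 23) (nat_lit 4) (nat_lit 490) (nat_lit 450) (nat_lit 260)) (XT.lf (nat_lit 0) (nat_lit 150985363394) (nat_lit 152) (nat_lit 424653502762) (nat_lit 76) (nat_lit 764428651715) (nat_lit 21) (nat_lit 5) (nat_lit 23) (nat_lit 5) (nat_lit 22) (nat_lit 4) (nat_lit 491) (nat_lit 450) (nat_lit 259))) (XT.nd (nat_lit 78) (nat_lit 76) (nat_lit 0) (XT.lf (nat_lit 0) (nat_lit 288533057195) (nat_lit 76) (nat_lit 205330470892) (nat_lit 152) (nat_lit 922523501275) (nat_lit 20) (nat_lit 5) (nat_lit 21) (nat_lit 5) (nat_lit 22) (nat_lit 4) (nat_lit 492) (nat_lit 450) (nat_lit 258)) (XT.nd (nat_lit 78) (nat_lit 76) (nat_lit 0) (XT.lf (nat_lit 0) (nat_lit 880764477057) (nat_lit 152) (nat_lit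 419940099022) (nat_lit 0) (nat_lit 196780123208) (nat_lit 20) (nat_lit 5) (nat_lit 22) (nat_lit 4) (nat_lit 20) (nat_lit 4) (nat_lit 493) (nat_lit 450) (nat_lit 257)) (XT.lf (nat_lit 0) (nat_lit 357139127297) (nat_lit 76) (nat_lit 955400815998) (nat_lit 76) (nat_lit 271416444204) (nat_lit 19) (nat_lit 4) (nat_lit 20) (nat_lit 5) (nat_lit 20) (nat_lit 4) (nat_lit 494) (nat_lit 450) (nat_lit 256))))) (XT.nd (nat_lit 234) (nat_lit 228) (nat_lit 0) (XT.nd (nat_lit 78) (nat_lit 76) (nat_lit 0) (XT.lf (nat_lit 0) (nat_lit 108213728581) (nat_lit 152) (nat_lit 458899832959) (nat_lit 76) (nat_lit 1109094531394) (nat_lit 18) (nat_lit 5) (nat_lit 20) (nat_lit 5) (nat_lit 19) (nat_lit 4) (nat_lit 495) (nat_lit 450) (nat_lit 255)) (XT.nd (nat_lit 78) (nat_lit 0) (nat_lit 0) (XT.lf (nat_lit 0) (nat_lit 382537232204) (nat_lit 76) (nat_lit 130213554332) (nat_lit 152) (nat_lit 1261789165318) (nat_lit 17)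 (nat_lit 5) (nat_lit 18) (nat_lit 5) (nat_lit 19) (nat_lit 4) (nat_lit 496) (nat_lit 450) (nat_lit 254)) (XT.lf (nat_lit 0) (nat_lit 970740236023) (nat_lit 152) (nat_lit 570889638884) (nat_lit 0) (nat_lit 337421330432) (nat_lit 17) (nat_lit 5) (nat_lit 19) (nat_lit 4) (nat_lit 17) (nat_lit 4) (nat_lit 497) (nat_lit 450) (nat_lit 253)))) (XT.nd (nat_lit 78) (nat_lit 152) (nat_lit 0) (XT.lf (nat_lit 0) (nat_lit 328987571573) (nat_lit 76) (nat_lit 1147675580254) (nat_lit 76) (nat_lit 514356662450) (nat_lit 16) (nat_lit 4) (nat_lit 17) (nat_lit 5) (nat_lit 17) (nat_lit 4) (nat_lit 498) (nat_lit 450) (nat_lit 252)) (XT.nd (nat_lit 78) (nat_lit 152) (nat_lit 0) (XT.lf (nat_lit 0) (nat_lit 1333321922160) (nat_lit 76) (nat_lit 705347094798) (nat_lit 76) (nat_lit 72028165686) (nat_lit 16) (nat_lit 4) (nat_lit 17) (nat_lit 5) (nat_lit 17) (nat_lit 4) (nat_lit 499) (nat_lit 450) (nat_lit 251)) (XT.lf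 (nat_lit 0) (nat_lit 177159719693) (nat_lit 76) (nat_lit 212493481881) (nat_lit 152) (nat_lit 1849174142843) (nat_lit 14) (nat_lit 5) (nat_lit 15) (nat_lit 5) (nat_lit 16) (nat_lit 4) (nat_lit 500) (nat_lit 450) (nat_lit 250)))))) (XT.nd (nat_lit 468) (nat_lit 228) (nat_lit 0) (XT.nd (nat_lit 234) (nat_lit 152) (nat_lit 0) (XT.nd (nat_lit 78) (nat_lit 76) (nat_lit 0) (XT.lf (nat_lit 0) (nat_lit 913875478658) (nat_lit 152) (nat_lit 1133353904038) (nat_lit 0) (nat_lit 327469044142) (nat_lit 14) (nat_lit 5) (nat_lit 16) (nat_lit 4) (nat_lit 14) (nat_lit 4) (nat_lit 501) (nat_lit 450) (nat_lit 249)) (XT.nd (nat_lit 78) (nat_lit 76) (nat_lit 0) (XT.lf (nat_lit 0) (nat_lit 1485554833043) (nat_lit 152) (nat_lit 136294428983) (nat_lit 0) (nat_lit 899148390216) (nat_lit 14) (nat_lit 5) (nat_lit 16) (nat_lit 4) (nat_lit 14) (nat_lit 4) (nat_lit 502) (nat_lit 450) (nat_lit 248)) (XT.lf (nat_lit 0)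 (nat_lit 990056405540) (nat_lit 76) (nat_lit 1136722995713) (nat_lit 76) (nat_lit 550316545190) (nat_lit 13) (nat_lit 4) (nat_lit 14) (nat_lit 5) (nat_lit 14) (nat_lit 4) (nat_lit 503) (nat_lit 450) (nat_lit 247)))) (XT.nd (nat_lit 78) (nat_lit 152) (nat_lit 0) (XT.lf (nat_lit 0) (nat_lit 2214266462828) (nat_lit 76) (nat_lit 608761988830) (nat_lit 76) (nat_lit 22355531181) (nat_lit 13) (nat_lit 4) (nat_lit 14) (nat_lit 5) (nat_lit 14) (nat_lit 4) (nat_lit 504) (nat_lit 450) (nat_lit 246)) (XT.nd (nat_lit 78) (nat_lit 0) (nat_lit 0) (XT.lf (nat_lit 0) (nat_lit 522226497429) (nat_lit 76) (nat_lit 10770118761) (nat_lit 152) (nat_lit 2492079632514) (nat_lit 11) (nat_lit 5) (nat_lit 12) (nat_lit 5) (nat_lit 13) (nat_lit 4) (nat_lit 505) (nat_lit 450) (nat_lit 245)) (XT.lf (nat_lit 0) (nat_lit 1164546452933) (nat_lit 152) (nat_lit 1430335307199) (nat_lit 0) (nat_lit 621577498899) (nat_lit 11)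 (nat_lit 5) (nat_lit 13) (nat_lit 4) (nat_lit 11) (nat_lit 4) (nat_lit 506) (nat_lit 450) (nat_lit 244))))) (XT.nd (nat_lit 234) (nat_lit 152) (nat_lit 0) (XT.nd (nat_lit 78) (nat_lit 76) (nat_lit 0) (XT.lf (nat_lit 0) (nat_lit 1846900007265) (nat_lit 152) (nat_lit 272299476473) (nat_lit 0) (nat_lit 1303931047994) (nat_lit 11) (nat_lit 5) (nat_lit 13) (nat_lit 4) (nat_lit 11) (nat_lit 4) (nat_lit 507) (nat_lit 450) (nat_lit 243)) (XT.nd (nat_lit 78) (nat_lit 0) (nat_lit 0) (XT.lf (nat_lit 0) (nat_lit 1029898911750) (nat_lit 76) (nat_lit 1578712016037) (nat_lit 76) (nat_lit 1035743051916) (nat_lit 10) (nat_lit 4) (nat_lit 11) (nat_lit 5) (nat_lit 11) (nat_lit 4) (nat_lit 508) (nat_lit 450) (nat_lit 242)) (XT.lf (nat_lit 0) (nat_lit 2451759060496) (nat_lit 76) (nat_lit 986944800262) (nat_lit 76) (nat_lit 443975831650) (nat_lit 10) (nat_lit 4) (nat_lit 11) (nat_lit 5) (nat_lit 11) (nat_lit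 4) (nat_lit 509) (nat_lit 450) (nat_lit 241)))) (XT.nd (nat_lit 78) (nat_lit 76) (nat_lit 0) (XT.lf (nat_lit 0) (nat_lit 185371424111) (nat_lit 152) (nat_lit 157396410618) (nat_lit 76) (nat_lit 3796928192453) (nat_lit 9) (nat_lit 5) (nat_lit 11) (nat_lit 5) (nat_lit 10) (nat_lit 4) (nat_lit 510) (nat_lit 450) (nat_lit 240)) (XT.nd (nat_lit 78) (nat_lit 0) (nat_lit 0) (XT.lf (nat_lit 0) (nat_lit 881205134159) (nat_lit 152) (nat_lit 3153479913618) (nat_lit 0) (nat_lit 378456081733) (nat_lit 8) (nat_lit 5) (nat_lit 10) (nat_lit 4) (nat_lit 8) (nat_lit 4) (nat_lit 511) (nat_lit 450) (nat_lit 239)) (XT.lf (nat_lit 0) (nat_lit 1646023867556) (nat_lit 152) (nat_lit 1918097694514) (nat_lit 0) (nat_lit 1143274811829) (nat_lit 8) (nat_lit 5) (nat_lit 10) (nat_lit 4) (nat_lit 8) (nat_lit 4) (nat_lit 512) (nat_lit 450) (nat_lit 238))))))))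
noncomputable def xc207 : XT := (XT.nd (nat_lit 58656) (nat_lit 0) (nat_lit 1672) (XT.nd (nat_lit 57720) (nat_lit 0) (nat_lit 3724) (XT.nd (nat_lit 390) (nat_lit 152) (nat_lit 0) (XT.nd (nat_lit 156) (nat_lit 76) (nat_lit 0) (XT.nd (nat_lit 78) (nat_lit 76) (nat_lit 0) (XT.lf (nat_lit 0) (nat_lit 2472028090337) (nat_lit 152) (nat_lit 583884916692) (nat_lit 0) (nat_lit 1969279031555) (nat_lit 8) (nat_lit 5) (nat_lit 10) (nat_lit 4) (nat_lit 8) (nat_lit 4) (nat_lit 513) (nat_lit 450) (nat_lit 237)) (XT.lf (nat_lit 0) (nat_lit 902196382928) (nat_lit 76) (nat_lit 2483614104120) (nat_lit 76) (nat_lit 1980865042507) (nat_lit 7) (nat_lit 4) (nat_lit 8) (nat_lit 5) (nat_lit 8) (nat_lit 4) (nat_lit 514) (nat_lit 450) (nat_lit 236))) (XT.nd (nat_lit 78) (nat_lit 76) (nat_lit 0) (XT.lf (nat_lit 0) (nat_lit 2540370222122) (nat_lit 76) (nat_lit 1848289693359) (nat_lit 76) (nat_lit 1345540629126) (nat_lit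 7) (nat_lit 4) (nat_lit 8) (nat_lit 5) (nat_lit 8) (nat_lit 4) (nat_lit 515) (nat_lit 450) (nat_lit 235)) (XT.nd (nat_lit 78) (nat_lit 76) (nat_lit 0) (XT.lf (nat_lit 0) (nat_lit 4309597952733) (nat_lit 76) (nat_lit 1162139337704) (nat_lit 76) (nat_lit 659390271045) (nat_lit 7) (nat_lit 4) (nat_lit 8) (nat_lit 5) (nat_lit 8) (nat_lit 4) (nat_lit 516) (nat_lit 450) (nat_lit 234)) (XT.lf (nat_lit 0) (nat_lit 77567538798) (nat_lit 152) (nat_lit 341408588203) (nat_lit 76) (nat_lit 6140675514467) (nat_lit 6) (nat_lit 5) (nat_lit 8) (nat_lit 5) (nat_lit 7) (nat_lit 4) (nat_lit 517) (nat_lit 450) (nat_lit 233))))) (XT.nd (nat_lit 234) (nat_lit 76) (nat_lit 0) (XT.nd (nat_lit 78) (nat_lit 0) (nat_lit 0) (XT.lf (nat_lit 0) (nat_lit 879736841476) (nat_lit 152) (nat_lit 5723771876785) (nat_lit 0) (nat_lit 414228442415) (nat_lit 5) (nat_lit 5) (nat_lit 7) (nat_lit 4) (nat_lit 5) (nat_lit 4) (nat_lit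 518) (nat_lit 450) (nat_lit 232)) (XT.nd (nat_lit 78) (nat_lit 0) (nat_lit 0) (XT.lf (nat_lit 0) (nat_lit 1766539354351) (nat_lit 152) (nat_lit 4443262440283) (nat_lit 0) (nat_lit 1301030953508) (nat_lit 5) (nat_lit 5) (nat_lit 7) (nat_lit 4) (nat_lit 5) (nat_lit 4) (nat_lit 519) (nat_lit 450) (nat_lit 231)) (XT.lf (nat_lit 0) (nat_lit 2724286061959) (nat_lit 152) (nat_lit 3060312261687) (nat_lit 0) (nat_lit 2258777659464) (nat_lit 5) (nat_lit 5) (nat_lit 7) (nat_lit 4) (nat_lit 5) (nat_lit 4) (nat_lit 520) (nat_lit 450) (nat_lit 230)))) (XT.nd (nat_lit 78) (nat_lit 76) (nat_lit 0) (XT.lf (nat_lit 0) (nat_lit 3758652500343) (nat_lit 152) (nat_lit 1566726080678) (nat_lit 0) (nat_lit 3293144096320) (nat_lit 5) (nat_lit 5) (nat_lit 7) (nat_lit 4) (nat_lit 5) (nat_lit 4) (nat_lit 521) (nat_lit 450) (nat_lit 229)) (XT.nd (nat_lit 56940) (nat_lit 0) (nat_lit 4940) (XT.lf (nat_lit 0) (nat_lit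 48787533848) (nat_lit 76) (nat_lit 4828154055913) (nat_lit 76) (nat_lit 4362645650474) (nat_lit 4) (nat_lit 4) (nat_lit 5) (nat_lit 5) (nat_lit 5) (nat_lit 4) (nat_lit 522) (nat_lit 450) (nat_lit 228)) (XT.lf (nat_lit 0) (nat_lit 94373926648) (nat_lit 532) (nat_lit 4284860654) (nat_lit 532) (nat_lit 4284860654) (nat_lit 69) (nat_lit 3) (nat_lit 76) (nat_lit 3) (nat_lit 76) (nat_lit 5) (nat_lit 451) (nat_lit 451) (nat_lit 298)))))) (XT.nd (nat_lit 468) (nat_lit 760) (nat_lit 0) (XT.nd (nat_lit 234) (nat_lit 456) (nat_lit 0) (XT.nd (nat_lit 78) (nat_lit 0) (nat_lit 76) (XT.lf (nat_lit 76) (nat_lit 97179814787) (nat_lit 0) (nat_lit 101456578325) (nat_lit 532) (nat_lit 15299303605) (nat_lit 70) (nat_lit 5) (nat_lit 69) (nat_lit 3) (nat_lit 76) (nat_lit 5) (nat_lit 452) (nat_lit 451) (nat_lit 297)) (XT.nd (nat_lit 78) (nat_lit 0) (nat_lit 0) (XT.lf (nat_lit 0) (nat_lit 209606130969) (nat_lit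 456) (nat_lit 10788587983) (nat_lit 532) (nat_lit 2210041546) (nat_lit 70) (nat_lit 5) (nat_lit 76) (nat_lit 5) (nat_lit 77) (nat_lit 5) (nat_lit 453) (nat_lit 451) (nat_lit 296)) (XT.lf (nat_lit 76) (nat_lit 106340339387) (nat_lit 0) (nat_lit 120305697374) (nat_lit 532) (nat_lit 4905905598) (nat_lit 71) (nat_lit 5) (nat_lit 70) (nat_lit 5) (nat_lit 77) (nat_lit 5) (nat_lit 454) (nat_lit 451) (nat_lit 295)))) (XT.nd (nat_lit 78) (nat_lit 0) (nat_lit 76) (XT.lf (nat_lit 0) (nat_lit 3944943038) (nat_lit 532) (nat_lit 7838131633) (nat_lit 608) (nat_lit 229400246232) (nat_lit 63) (nat_lit 5) (nat_lit 70) (nat_lit 5) (nat_lit 71) (nat_lit 5) (nat_lit 455) (nat_lit 451) (nat_lit 294)) (XT.nd (nat_lit 78) (nat_lit 0) (nat_lit 0) (XT.lf (nat_lit 0) (nat_lit 18863044228) (nat_lit 532) (nat_lit 128897855631) (nat_lit 608) (nat_lit 103364177375) (nat_lit 64) (nat_lit 5) (nat_lit 71) (nat_lit 5) (nat_lit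 72) (nat_lit 5) (nat_lit 456) (nat_lit 451) (nat_lit 293)) (XT.lf (nat_lit 76) (nat_lit 1038784906) (nat_lit 0) (nat_lit 34486607299) (nat_lit 608) (nat_lit 226292718036) (nat_lit 65) (nat_lit 5) (nat_lit 64) (nat_lit 5) (nat_lit 72) (nat_lit 5) (nat_lit 457) (nat_lit 451) (nat_lit 292))))) (XT.nd (nat_lit 234) (nat_lit 456) (nat_lit 0) (XT.nd (nat_lit 78) (nat_lit 456) (nat_lit 0) (XT.lf (nat_lit 0) (nat_lit 59249243308) (nat_lit 532) (nat_lit 126588176855) (nat_lit 76) (nat_lit 87070884565) (nat_lit 65) (nat_lit 5) (nat_lit 72) (nat_lit 5) (nat_lit 66) (nat_lit 5) (nat_lit 458) (nat_lit 451) (nat_lit 291)) (XT.nd (nat_lit 78) (nat_lit 0) (nat_lit 0) (XT.lf (nat_lit 0) (nat_lit 18360900806) (nat_lit 456) (nat_lit 67847339361) (nat_lit 532) (nat_lit 198570495650) (nat_lit 59) (nat_lit 5) (nat_lit 65) (nat_lit 5) (nat_lit 66) (nat_lit 5) (nat_lit 459) (nat_lit 451) (nat_lit 290)) (XT.lf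 (nat_lit 0) (nat_lit 120307855714) (nat_lit 532) (nat_lit 116739768976) (nat_lit 76) (nat_lit 60152464841) (nat_lit 59) (nat_lit 5) (nat_lit 66) (nat_lit 5) (nat_lit 60) (nat_lit 5) (nat_lit 460) (nat_lit 451) (nat_lit 289)))) (XT.nd (nat_lit 78) (nat_lit 228) (nat_lit 0) (XT.lf (nat_lit 0) (nat_lit 45422394726) (nat_lit 228) (nat_lit 114567637625) (nat_lit 304) (nat_lit 150396751891) (nat_lit 56) (nat_lit 5) (nat_lit 59) (nat_lit 5) (nat_lit 60) (nat_lit 5) (nat_lit 461) (nat_lit 451) (nat_lit 288)) (XT.nd (nat_lit 78) (nat_lit 228) (nat_lit 0) (XT.lf (nat_lit 0) (nat_lit 206547422688) (nat_lit 304) (nat_lit 97685384177) (nat_lit 76) (nat_lit 20099556547) (nat_lit 56) (nat_lit 5) (nat_lit 60) (nat_lit 5) (nat_lit 57) (nat_lit 5) (nat_lit 462) (nat_lit 451) (nat_lit 287)) (XT.lf (nat_lit 0) (nat_lit 84212732448) (nat_lit 228) (nat_lit 177617696641) (nat_lit 304) (nat_lit 77163077880) (nat_lit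 53) (nat_lit 5) (nat_lit 56) (nat_lit 5) (nat_lit 57) (nat_lit 5) (nat_lit 463) (nat_lit 451) (nat_lit 286))))))) (XT.nd (nat_lit 858) (nat_lit 912) (nat_lit 0) (XT.nd (nat_lit 390) (nat_lit 532) (nat_lit 0) (XT.nd (nat_lit 156) (nat_lit 380) (nat_lit 0) (XT.nd (nat_lit 78) (nat_lit 228) (nat_lit 0) (XT.lf (nat_lit 0) (nat_lit 286218066708) (nat_lit 228) (nat_lit 37988828189) (nat_lit 304) (nat_lit 30406981641) (nat_lit 53) (nat_lit 5) (nat_lit 56) (nat_lit 5) (nat_lit 57) (nat_lit 5) (nat_lit 464) (nat_lit 451) (nat_lit 285)) (XT.lf (nat_lit 0) (nat_lit 25249605922) (nat_lit 228) (nat_lit 234600214384) (nat_lit 76) (nat_lit 111102205614) (nat_lit 50) (nat_lit 5) (nat_lit 53) (nat_lit 5) (nat_lit 51) (nat_lit 5) (nat_lit 465) (nat_lit 451) (nat_lit 284))) (XT.nd (nat_lit 78) (nat_lit 380) (nat_lit 0) (XT.lf (nat_lit 0) (nat_lit 86621245971) (nat_lit 228) (nat_lit 28903823080) (nat_lit 76)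 (nat_lit 272776551512) (nat_lit 50) (nat_lit 5) (nat_lit 53) (nat_lit 5) (nat_lit 51) (nat_lit 5) (nat_lit 466) (nat_lit 451) (nat_lit 283)) (XT.nd (nat_lit 78) (nat_lit 152) (nat_lit 0) (XT.lf (nat_lit 0) (nat_lit 158892303361) (nat_lit 304) (nat_lit 204320879453) (nat_lit 76) (nat_lit 43346825101) (nat_lit 47) (nat_lit 5) (nat_lit 51) (nat_lit 5) (nat_lit 48) (nat_lit 5) (nat_lit 467) (nat_lit 451) (nat_lit 282)) (XT.lf (nat_lit 0) (nat_lit 25558750699) (nat_lit 152) (nat_lit 215812383782) (nat_lit 228) (nat_lit 184553844667) (nat_lit 45) (nat_lit 5) (nat_lit 47) (nat_lit 5) (nat_lit 48) (nat_lit 5) (nat_lit 468) (nat_lit 451) (nat_lit 281))))) (XT.nd (nat_lit 234) (nat_lit 304) (nat_lit 0) (XT.nd (nat_lit 78) (nat_lit 228) (nat_lit 0) (XT.lf (nat_lit 0) (nat_lit 285448580778) (nat_lit 152) (nat_lit 50586129589) (nat_lit 228) (nat_lit 110357522679) (nat_lit 45) (nat_lit 5) (nat_lit 47)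 (nat_lit 5) (nat_lit 48) (nat_lit 5) (nat_lit 469) (nat_lit 451) (nat_lit 280)) (XT.nd (nat_lit 78) (nat_lit 76) (nat_lit 0) (XT.lf (nat_lit 0) (nat_lit 99536897644) (nat_lit 152) (nat_lit 344203279864) (nat_lit 228) (nat_lit 24319185353) (nat_lit 43) (nat_lit 5) (nat_lit 45) (nat_lit 5) (nat_lit 46) (nat_lit 5) (nat_lit 470) (nat_lit 451) (nat_lit 279)) (XT.lf (nat_lit 0) (nat_lit 70999114322) (nat_lit 228) (nat_lit 104177111914) (nat_lit 76) (nat_lit 315685353548) (nat_lit 42) (nat_lit 5) (nat_lit 45) (nat_lit 5) (nat_lit 43) (nat_lit 5) (nat_lit 471) (nat_lit 451) (nat_lit 278)))) (XT.nd (nat_lit 78) (nat_lit 152) (nat_lit 0) (XT.lf (nat_lit 0) (nat_lit 177515783206) (nat_lit 228) (nat_lit 325185405663) (nat_lit 76) (nat_lit 12345310006) (nat_lit 40) (nat_lit 5) (nat_lit 43) (nat_lit 5) (nat_lit 41) (nat_lit 5) (nat_lit 472) (nat_lit 451) (nat_lit 277)) (XT.nd (nat_lit 78) (nat_lit 152)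 (nat_lit 0) (XT.lf (nat_lit 0) (nat_lit 300026141321) (nat_lit 228) (nat_lit 32215431072) (nat_lit 76) (nat_lit 208326850657) (nat_lit 40) (nat_lit 5) (nat_lit 43) (nat_lit 5) (nat_lit 41) (nat_lit 5) (nat_lit 473) (nat_lit 451) (nat_lit 276)) (XT.lf (nat_lit 0) (nat_lit 299157123881) (nat_lit 152) (nat_lit 140374896654) (nat_lit 228) (nat_lit 128024505246) (nat_lit 38) (nat_lit 5) (nat_lit 40) (nat_lit 5) (nat_lit 41) (nat_lit 5) (nat_lit 474) (nat_lit 451) (nat_lit 275)))))) (XT.nd (nat_lit 468) (nat_lit 304) (nat_lit 0) (XT.nd (nat_lit 234) (nat_lit 304) (nat_lit 0) (XT.nd (nat_lit 78) (nat_lit 228) (nat_lit 0) (XT.lf (nat_lit 0) (nat_lit 63799419551) (nat_lit 76) (nat_lit 530444521535) (nat_lit 152) (nat_lit 2136089977) (nat_lit 37) (nat_lit 5) (nat_lit 38) (nat_lit 5) (nat_lit 39) (nat_lit 4) (nat_lit 475) (nat_lit 451) (nat_lit 274)) (XT.nd (nat_lit 78) (nat_lit 152) (nat_lit 0) (XT.lf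 (nat_lit 0) (nat_lit 138304195314) (nat_lit 152) (nat_lit 196139315009) (nat_lit 76) (nat_lit 291914415166) (nat_lit 36) (nat_lit 5) (nat_lit 38) (nat_lit 5) (nat_lit 37) (nat_lit 5) (nat_lit 476) (nat_lit 451) (nat_lit 273)) (XT.lf (nat_lit 0) (nat_lit 175964178367) (nat_lit 152) (nat_lit 118132024454) (nat_lit 228) (nat_lit 364294857734) (nat_lit 34) (nat_lit 5) (nat_lit 36) (nat_lit 5) (nat_lit 37) (nat_lit 5) (nat_lit 477) (nat_lit 451) (nat_lit 272)))) (XT.nd (nat_lit 78) (nat_lit 304) (nat_lit 0) (XT.lf (nat_lit 0) (nat_lit 470631024690) (nat_lit 228) (nat_lit 106484016008) (nat_lit 76) (nat_lit 115209449435) (nat_lit 34) (nat_lit 5) (nat_lit 37) (nat_lit 5) (nat_lit 35) (nat_lit 4) (nat_lit 478) (nat_lit 451) (nat_lit 271)) (XT.nd (nat_lit 78) (nat_lit 228) (nat_lit 0) (XT.lf (nat_lit 0) (nat_lit 312077220951) (nat_lit 76) (nat_lit 359785204893) (nat_lit 152) (nat_lit 56264264761)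 (nat_lit 33) (nat_lit 5) (nat_lit 34) (nat_lit 5) (nat_lit 35) (nat_lit 4) (nat_lit 479) (nat_lit 451) (nat_lit 270)) (XT.lf (nat_lit 0) (nat_lit 631235076) (nat_lit 152) (nat_lit 118647359796) (nat_lit 228) (nat_lit 647038797401) (nat_lit 30) (nat_lit 5) (nat_lit 32) (nat_lit 5) (nat_lit 33) (nat_lit 5) (nat_lit 480) (nat_lit 451) (nat_lit 269))))) (XT.nd (nat_lit 234) (nat_lit 228) (nat_lit 0) (XT.nd (nat_lit 78) (nat_lit 76) (nat_lit 0) (XT.lf (nat_lit 0) (nat_lit 320905963926) (nat_lit 228) (nat_lit 337512597724) (nat_lit 76) (nat_lit 147821410685) (nat_lit 30) (nat_lit 5) (nat_lit 33) (nat_lit 5) (nat_lit 31) (nat_lit 4) (nat_lit 481) (nat_lit 451) (nat_lit 268)) (XT.nd (nat_lit 78) (nat_lit 0) (nat_lit 0) (XT.lf (nat_lit 0) (nat_lit 128248551804) (nat_lit 76) (nat_lit 416581069069) (nat_lit 152) (nat_lit 304033450066) (nat_lit 29) (nat_lit 5) (nat_lit 30) (nat_lit 5) (nat_lit 31)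 (nat_lit 4) (nat_lit 482) (nat_lit 451) (nat_lit 267)) (XT.lf (nat_lit 0) (nat_lit 650465178166) (nat_lit 76) (nat_lit 145430153798) (nat_lit 152) (nat_lit 98262432549) (nat_lit 29) (nat_lit 5) (nat_lit 30) (nat_lit 5) (nat_lit 31) (nat_lit 4) (nat_lit 483) (nat_lit 451) (nat_lit 266)))) (XT.nd (nat_lit 78) (nat_lit 76) (nat_lit 0) (XT.lf (nat_lit 0) (nat_lit 128362934136) (nat_lit 152) (nat_lit 663558023962) (nat_lit 76) (nat_lit 150069023443) (nat_lit 27) (nat_lit 5) (nat_lit 29) (nat_lit 5) (nat_lit 28) (nat_lit 4) (nat_lit 484) (nat_lit 451) (nat_lit 265)) (XT.nd (nat_lit 78) (nat_lit 76) (nat_lit 0) (XT.lf (nat_lit 0) (nat_lit 378423035853) (nat_lit 152) (nat_lit 143433054229) (nat_lit 76) (nat_lit 470739429829) (nat_lit 27) (nat_lit 5) (nat_lit 29) (nat_lit 5) (nat_lit 28) (nat_lit 4) (nat_lit 485) (nat_lit 451) (nat_lit 264)) (XT.lf (nat_lit 0) (nat_lit 440328898442) (nat_lit 76)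 (nat_lit 218748940974) (nat_lit 152) (nat_lit 387324470444) (nat_lit 26) (nat_lit 5) (nat_lit 27) (nat_lit 5) (nat_lit 28) (nat_lit 4) (nat_lit 486) (nat_lit 451) (nat_lit 263))))))))
noncomputable def xc208 : XT := (XT.nd (nat_lit 1716) (nat_lit 456) (nat_lit 0) (XT.nd (nat_lit 858) (nat_lit 456) (nat_lit 0) (XT.nd (nat_lit 390) (nat_lit 380) (nat_lit 0) (XT.nd (nat_lit 156) (nat_lit 152) (nat_lit 0) (XT.nd (nat_lit 78) (nat_lit 152) (nat_lit 0) (XT.lf (nat_lit 0) (nat_lit 968820572935) (nat_lit 152) (nat_lit 27964841835) (nat_lit 0) (nat_lit 107197384586) (nat_lit 26) (nat_lit 5) (nat_lit 28) (nat_lit 4) (nat_lit 26) (nat_lit 4) (nat_lit 487) (nat_lit 451) (nat_lit 262)) (XT.lf (nat_lit 0) (nat_lit 151483524500) (nat_lit 152) (nat_lit 546537488141) (nat_lit 76) (nat_lit 466190996164) (nat_lit 24) (nat_lit 5) (nat_lit 26) (nat_lit 5) (nat_lit 25) (nat_lit 4) (nat_lit 488) (nat_lit 451)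 (nat_lit 261))) (XT.nd (nat_lit 78) (nat_lit 76) (nat_lit 0) (XT.lf (nat_lit 0) (nat_lit 88240568402) (nat_lit 76) (nat_lit 368424727741) (nat_lit 152) (nat_lit 772080871769) (nat_lit 23) (nat_lit 5) (nat_lit 24) (nat_lit 5) (nat_lit 25) (nat_lit 4) (nat_lit 489) (nat_lit 451) (nat_lit 260)) (XT.nd (nat_lit 78) (nat_lit 76) (nat_lit 0) (XT.lf (nat_lit 0) (nat_lit 801293345365) (nat_lit 152) (nat_lit 492453157878) (nat_lit 0) (nat_lit 3494017640) (nat_lit 23) (nat_lit 5) (nat_lit 25) (nat_lit 4) (nat_lit 23) (nat_lit 4) (nat_lit 490) (nat_lit 451) (nat_lit 259)) (XT.lf (nat_lit 0) (nat_lit 208293654840) (nat_lit 76) (nat_lit 979776902058) (nat_lit 76) (nat_lit 181977551728) (nat_lit 22) (nat_lit 4) (nat_lit 23) (nat_lit 5) (nat_lit 23) (nat_lit 4) (nat_lit 491) (nat_lit 451) (nat_lit 258))))) (XT.nd (nat_lit 234) (nat_lit 228) (nat_lit 0) (XT.nd (nat_lit 78) (nat_lit 76) (nat_lit 0) (XT.lf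 (nat_lit 0) (nat_lit 163064629384) (nat_lit 152) (nat_lit 458624942140) (nat_lit 76) (nat_lit 825583312772) (nat_lit 21) (nat_lit 5) (nat_lit 23) (nat_lit 5) (nat_lit 22) (nat_lit 4) (nat_lit 492) (nat_lit 451) (nat_lit 257)) (XT.nd (nat_lit 78) (nat_lit 0) (nat_lit 0) (XT.lf (nat_lit 0) (nat_lit 311616521326) (nat_lit 76) (nat_lit 221756513273) (nat_lit 152) (nat_lit 996324923124) (nat_lit 20) (nat_lit 5) (nat_lit 21) (nat_lit 5) (nat_lit 22) (nat_lit 4) (nat_lit 493) (nat_lit 451) (nat_lit 256)) (XT.lf (nat_lit 0) (nat_lit 951226036862) (nat_lit 152) (nat_lit 453534525427) (nat_lit 0) (nat_lit 212522880765) (nat_lit 20) (nat_lit 5) (nat_lit 22) (nat_lit 4) (nat_lit 20) (nat_lit 4) (nat_lit 494) (nat_lit 451) (nat_lit 255)))) (XT.nd (nat_lit 78) (nat_lit 152) (nat_lit 0) (XT.lf (nat_lit 0) (nat_lit 385711019212) (nat_lit 76) (nat_lit 1031832509756) (nat_lit 76) (nat_lit 293129338274) (nat_lit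 19) (nat_lit 4) (nat_lit 20) (nat_lit 5) (nat_lit 20) (nat_lit 4) (nat_lit 495) (nat_lit 451) (nat_lit 254)) (XT.nd (nat_lit 78) (nat_lit 76) (nat_lit 0) (XT.lf (nat_lit 0) (nat_lit 116871197592) (nat_lit 152) (nat_lit 495611094733) (nat_lit 76) (nat_lit 1197822418351) (nat_lit 18) (nat_lit 5) (nat_lit 20) (nat_lit 5) (nat_lit 19) (nat_lit 4) (nat_lit 496) (nat_lit 451) (nat_lit 253)) (XT.lf (nat_lit 0) (nat_lit 413140917292) (nat_lit 76) (nat_lit 140630292422) (nat_lit 152) (nat_lit 1362731909436) (nat_lit 17) (nat_lit 5) (nat_lit 18) (nat_lit 5) (nat_lit 19) (nat_lit 4) (nat_lit 497) (nat_lit 451) (nat_lit 252)))))) (XT.nd (nat_lit 390) (nat_lit 228) (nat_lit 0) (XT.nd (nat_lit 156) (nat_lit 152) (nat_lit 0) (XT.nd (nat_lit 78) (nat_lit 76) (nat_lit 0) (XT.lf (nat_lit 0) (nat_lit 1048399796185) (nat_lit 152) (nat_lit 616560136813) (nat_lit 0) (nat_lit 364415341437) (nat_lit 17) (nat_lit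 5) (nat_lit 19) (nat_lit 4) (nat_lit 17) (nat_lit 4) (nat_lit 498) (nat_lit 451) (nat_lit 251)) (XT.lf (nat_lit 0) (nat_lit 355307233438) (nat_lit 76) (nat_lit 1239489302315) (nat_lit 76) (nat_lit 555504837096) (nat_lit 16) (nat_lit 4) (nat_lit 17) (nat_lit 5) (nat_lit 17) (nat_lit 4) (nat_lit 499) (nat_lit 451) (nat_lit 250))) (XT.nd (nat_lit 78) (nat_lit 152) (nat_lit 0) (XT.lf (nat_lit 0) (nat_lit 1439988283470) (nat_lit 76) (nat_lit 761774562049) (nat_lit 76) (nat_lit 77790087135) (nat_lit 16) (nat_lit 4) (nat_lit 17) (nat_lit 5) (nat_lit 17) (nat_lit 4) (nat_lit 500) (nat_lit 451) (nat_lit 249)) (XT.nd (nat_lit 78) (nat_lit 0) (nat_lit 0) (XT.lf (nat_lit 0) (nat_lit 191333105626) (nat_lit 76) (nat_lit 229492658564) (nat_lit 152) (nat_lit 1997107743240) (nat_lit 14) (nat_lit 5) (nat_lit 15) (nat_lit 5) (nat_lit 16) (nat_lit 4) (nat_lit 501) (nat_lit 451) (nat_lit 248)) (XT.lf (nat_lit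 0) (nat_lit 986985807459) (nat_lit 152) (nat_lit 1224021637067) (nat_lit 0) (nat_lit 353666833198) (nat_lit 14) (nat_lit 5) (nat_lit 16) (nat_lit 4) (nat_lit 14) (nat_lit 4) (nat_lit 502) (nat_lit 451) (nat_lit 247))))) (XT.nd (nat_lit 234) (nat_lit 152) (nat_lit 0) (XT.nd (nat_lit 78) (nat_lit 76) (nat_lit 0) (XT.lf (nat_lit 0) (nat_lit 1604399488677) (nat_lit 152) (nat_lit 147197446918) (nat_lit 0) (nat_lit 971080507290) (nat_lit 14) (nat_lit 5) (nat_lit 16) (nat_lit 4) (nat_lit 14) (nat_lit 4) (nat_lit 503) (nat_lit 451) (nat_lit 246)) (XT.nd (nat_lit 78) (nat_lit 0) (nat_lit 0) (XT.lf (nat_lit 0) (nat_lit 1069261440788) (nat_lit 76) (nat_lit 1227660574203) (nat_lit 76) (nat_lit 594341586218) (nat_lit 13) (nat_lit 4) (nat_lit 14) (nat_lit 5) (nat_lit 14) (nat_lit 4) (nat_lit 504) (nat_lit 451) (nat_lit 245)) (XT.lf (nat_lit 0) (nat_lit 2391408263933) (nat_lit 76) (nat_lit 657462706116)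 (nat_lit 76) (nat_lit 24143712021) (nat_lit 13) (nat_lit 4) (nat_lit 14) (nat_lit 5) (nat_lit 14) (nat_lit 4) (nat_lit 505) (nat_lit 451) (nat_lit 244)))) (XT.nd (nat_lit 78) (nat_lit 0) (nat_lit 0) (XT.lf (nat_lit 0) (nat_lit 564005101819) (nat_lit 76) (nat_lit 11631485474) (nat_lit 152) (nat_lit 2691445741949) (nat_lit 11) (nat_lit 5) (nat_lit 12) (nat_lit 5) (nat_lit 13) (nat_lit 4) (nat_lit 506) (nat_lit 451) (nat_lit 243)) (XT.nd (nat_lit 78) (nat_lit 0) (nat_lit 0) (XT.lf (nat_lit 0) (nat_lit 1257710398470) (nat_lit 152) (nat_lit 1544761670557) (nat_lit 0) (nat_lit 671303912369) (nat_lit 11) (nat_lit 5) (nat_lit 13) (nat_lit 4) (nat_lit 11) (nat_lit 4) (nat_lit 507) (nat_lit 451) (nat_lit 242)) (XT.lf (nat_lit 0) (nat_lit 1994652220164) (nat_lit 152) (nat_lit 294083007538) (nat_lit 0) (nat_lit 1408245729572) (nat_lit 11) (nat_lit 5) (nat_lit 13) (nat_lit 4) (nat_lit 11) (nat_lit 4)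 (nat_lit 508) (nat_lit 451) (nat_lit 241))))))) (XT.nd (nat_lit 858) (nat_lit 0) (nat_lit 0) (XT.nd (nat_lit 390) (nat_lit 228) (nat_lit 0) (XT.nd (nat_lit 156) (nat_lit 152) (nat_lit 0) (XT.nd (nat_lit 78) (nat_lit 0) (nat_lit 0) (XT.lf (nat_lit 0) (nat_lit 1112291240932) (nat_lit 76) (nat_lit 1705008767679) (nat_lit 76) (nat_lit 1118602272929) (nat_lit 10) (nat_lit 4) (nat_lit 11) (nat_lit 5) (nat_lit 11) (nat_lit 4) (nat_lit 509) (nat_lit 451) (nat_lit 240)) (XT.lf (nat_lit 0) (nat_lit 2647900170745) (nat_lit 76) (nat_lit 1065900190171) (nat_lit 76) (nat_lit 479493691571) (nat_lit 10) (nat_lit 4) (nat_lit 11) (nat_lit 5) (nat_lit 11) (nat_lit 4) (nat_lit 510) (nat_lit 451) (nat_lit 239))) (XT.nd (nat_lit 78) (nat_lit 76) (nat_lit 0) (XT.lf (nat_lit 0) (nat_lit 200201319776) (nat_lit 152) (nat_lit 169987757028) (nat_lit 76) (nat_lit 4100682618004) (nat_lit 9) (nat_lit 5) (nat_lit 11)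 (nat_lit 5) (nat_lit 10) (nat_lit 4) (nat_lit 511) (nat_lit 451) (nat_lit 238)) (XT.nd (nat_lit 78) (nat_lit 0) (nat_lit 0) (XT.lf (nat_lit 0) (nat_lit 951701726092) (nat_lit 152) (nat_lit 3405757939724) (nat_lit 0) (nat_lit 408732739550) (nat_lit 8) (nat_lit 5) (nat_lit 10) (nat_lit 4) (nat_lit 8) (nat_lit 4) (nat_lit 512) (nat_lit 451) (nat_lit 237)) (XT.lf (nat_lit 0) (nat_lit 1777705944738) (nat_lit 152) (nat_lit 2071545170276) (nat_lit 0) (nat_lit 1234736955367) (nat_lit 8) (nat_lit 5) (nat_lit 10) (nat_lit 4) (nat_lit 8) (nat_lit 4) (nat_lit 513) (nat_lit 451) (nat_lit 236))))) (XT.nd (nat_lit 234) (nat_lit 152) (nat_lit 0) (XT.nd (nat_lit 78) (nat_lit 76) (nat_lit 0) (XT.lf (nat_lit 0) (nat_lit 2669790492914) (nat_lit 152) (nat_lit 630595395399) (nat_lit 0) (nat_lit 2126821500923) (nat_lit 8) (nat_lit 5) (nat_lit 10) (nat_lit 4) (nat_lit 8) (nat_lit 4) (nat_lit 514) (nat_lit 451)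 (nat_lit 235)) (XT.nd (nat_lit 78) (nat_lit 0) (nat_lit 0) (XT.lf (nat_lit 0) (nat_lit 974372400226) (nat_lit 76) (nat_lit 2682303077004) (nat_lit 76) (nat_lit 2139334082586) (nat_lit 7) (nat_lit 4) (nat_lit 8) (nat_lit 5) (nat_lit 8) (nat_lit 4) (nat_lit 515) (nat_lit 451) (nat_lit 234)) (XT.lf (nat_lit 0) (nat_lit 2743600123840) (nat_lit 76) (nat_lit 1996152724896) (nat_lit 76) (nat_lit 1453183728232) (nat_lit 7) (nat_lit 4) (nat_lit 8) (nat_lit 5) (nat_lit 8) (nat_lit 4) (nat_lit 516) (nat_lit 451) (nat_lit 233)))) (XT.nd (nat_lit 78) (nat_lit 152) (nat_lit 0) (XT.lf (nat_lit 0) (nat_lit 4654366051866) (nat_lit 76) (nat_lit 1255110351451) (nat_lit 76) (nat_lit 712141352706) (nat_lit 7) (nat_lit 4) (nat_lit 8) (nat_lit 5) (nat_lit 8) (nat_lit 4) (nat_lit 517) (nat_lit 451) (nat_lit 232)) (XT.nd (nat_lit 78) (nat_lit 76) (nat_lit 0) (XT.lf (nat_lit 0) (nat_lit 83773065067) (nat_lit 152)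 (nat_lit 368721025330) (nat_lit 76) (nat_lit 6631929672532) (nat_lit 6) (nat_lit 5) (nat_lit 8) (nat_lit 5) (nat_lit 7) (nat_lit 4) (nat_lit 518) (nat_lit 451) (nat_lit 231)) (XT.lf (nat_lit 0) (nat_lit 950115911669) (nat_lit 152) (nat_lit 6181673376704) (nat_lit 0) (nat_lit 447366835323) (nat_lit 5) (nat_lit 5) (nat_lit 7) (nat_lit 4) (nat_lit 5) (nat_lit 4) (nat_lit 519) (nat_lit 451) (nat_lit 230)))))) (XT.nd (nat_lit 57408) (nat_lit 0) (nat_lit 4104) (XT.nd (nat_lit 57174) (nat_lit 0) (nat_lit 4864) (XT.nd (nat_lit 78) (nat_lit 0) (nat_lit 0) (XT.lf (nat_lit 0) (nat_lit 1907862616473) (nat_lit 152) (nat_lit 4798723203817) (nat_lit 0) (nat_lit 1405113538598) (nat_lit 5) (nat_lit 5) (nat_lit 7) (nat_lit 4) (nat_lit 5) (nat_lit 4) (nat_lit 520) (nat_lit 451) (nat_lit 229)) (XT.nd (nat_lit 78) (nat_lit 0) (nat_lit 0) (XT.lf (nat_lit 0) (nat_lit 2942229052261) (nat_lit 152) (nat_lit 3305137028095)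 (nat_lit 0) (nat_lit 2439479972971) (nat_lit 5) (nat_lit 5) (nat_lit 7) (nat_lit 4) (nat_lit 5) (nat_lit 4) (nat_lit 521) (nat_lit 451) (nat_lit 228)) (XT.lf (nat_lit 0) (nat_lit 4059344797913) (nat_lit 152) (nat_lit 1692063968497) (nat_lit 0) (nat_lit 3556595717312) (nat_lit 5) (nat_lit 5) (nat_lit 7) (nat_lit 4) (nat_lit 5) (nat_lit 4) (nat_lit 522) (nat_lit 451) (nat_lit 227)))) (XT.nd (nat_lit 78) (nat_lit 0) (nat_lit 0) (XT.lf (nat_lit 0) (nat_lit 101925254738) (nat_lit 532) (nat_lit 4626885492) (nat_lit 532) (nat_lit 4626885492) (nat_lit 69) (nat_lit 3) (nat_lit 76) (nat_lit 3) (nat_lit 76) (nat_lit 5) (nat_lit 452) (nat_lit 452) (nat_lit 296)) (XT.nd (nat_lit 78) (nat_lit 0) (nat_lit 76) (XT.lf (nat_lit 76) (nat_lit 104955689313) (nat_lit 0) (nat_lit 109574269510) (nat_lit 532) (nat_lit 16520379530) (nat_lit 70) (nat_lit 5) (nat_lit 69) (nat_lit 3) (nat_lit 76) (nat_lit 5) (nat_lit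 453) (nat_lit 452) (nat_lit 295)) (XT.lf (nat_lit 0) (nat_lit 226377053155) (nat_lit 456) (nat_lit 11650071817) (nat_lit 532) (nat_lit 2385820199) (nat_lit 70) (nat_lit 5) (nat_lit 76) (nat_lit 5) (nat_lit 77) (nat_lit 5) (nat_lit 454) (nat_lit 452) (nat_lit 294))))) (XT.nd (nat_lit 234) (nat_lit 304) (nat_lit 0) (XT.nd (nat_lit 78) (nat_lit 532) (nat_lit 0) (XT.lf (nat_lit 76) (nat_lit 114849129156) (nat_lit 0) (nat_lit 129930879709) (nat_lit 532) (nat_lit 5295904240) (nat_lit 71) (nat_lit 5) (nat_lit 70) (nat_lit 5) (nat_lit 77) (nat_lit 5) (nat_lit 455) (nat_lit 452) (nat_lit 293)) (XT.nd (nat_lit 78) (nat_lit 0) (nat_lit 76) (XT.lf (nat_lit 0) (nat_lit 4262714458) (nat_lit 532) (nat_lit 8463619418) (nat_lit 608) (nat_lit 247751477326) (nat_lit 63) (nat_lit 5) (nat_lit 70) (nat_lit 5) (nat_lit 71) (nat_lit 5) (nat_lit 456) (nat_lit 452) (nat_lit 292)) (XT.lf (nat_lit 0) (nat_lit 20374126489)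 (nat_lit 532) (nat_lit 139207982881) (nat_lit 608) (nat_lit 111632809746) (nat_lit 64) (nat_lit 5) (nat_lit 71) (nat_lit 5) (nat_lit 72) (nat_lit 5) (nat_lit 457) (nat_lit 452) (nat_lit 291)))) (XT.nd (nat_lit 78) (nat_lit 380) (nat_lit 0) (XT.lf (nat_lit 76) (nat_lit 1123545830) (nat_lit 0) (nat_lit 37245805336) (nat_lit 608) (nat_lit 244394052578) (nat_lit 65) (nat_lit 5) (nat_lit 64) (nat_lit 5) (nat_lit 72) (nat_lit 5) (nat_lit 458) (nat_lit 452) (nat_lit 290)) (XT.nd (nat_lit 78) (nat_lit 456) (nat_lit 0) (XT.lf (nat_lit 0) (nat_lit 63990961572) (nat_lit 532) (nat_lit 136713545884) (nat_lit 76) (nat_lit 94036318318) (nat_lit 65) (nat_lit 5) (nat_lit 72) (nat_lit 5) (nat_lit 66) (nat_lit 5) (nat_lit 459) (nat_lit 452) (nat_lit 289)) (XT.lf (nat_lit 0) (nat_lit 19831415329) (nat_lit 456) (nat_lit 73275170590) (nat_lit 532) (nat_lit 214454312889) (nat_lit 59) (nat_lit 5) (nat_lit 65)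 (nat_lit 5) (nat_lit 66) (nat_lit 5) (nat_lit 460) (nat_lit 452) (nat_lit 288))))))))
noncomputable def xc209 : XT := (XT.nd (nat_lit 1716) (nat_lit 1292) (nat_lit 0) (XT.nd (nat_lit 858) (nat_lit 988) (nat_lit 0) (XT.nd (nat_lit 390) (nat_lit 760) (nat_lit 0) (XT.nd (nat_lit 156) (nat_lit 228) (nat_lit 0) (XT.nd (nat_lit 78) (nat_lit 228) (nat_lit 0) (XT.lf (nat_lit 0) (nat_lit 129934044799) (nat_lit 532) (nat_lit 126077302908) (nat_lit 76) (nat_lit 64964623255) (nat_lit 59) (nat_lit 5) (nat_lit 66) (nat_lit 5) (nat_lit 60) (nat_lit 5) (nat_lit 461) (nat_lit 452) (nat_lit 287)) (XT.lf (nat_lit 0) (nat_lit 49057792180) (nat_lit 228) (nat_lit 123732926407) (nat_lit 304) (nat_lit 162426888888) (nat_lit 56) (nat_lit 5) (nat_lit 59) (nat_lit 5) (nat_lit 60) (nat_lit 5) (nat_lit 462) (nat_lit 452) (nat_lit 286))) (XT.nd (nat_lit 78) (nat_lit 228) (nat_lit 0) (XT.lf (nat_lit 0) (nat_lit 223072592972)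 (nat_lit 304) (nat_lit 105498620056) (nat_lit 76) (nat_lit 21707628583) (nat_lit 56) (nat_lit 5) (nat_lit 60) (nat_lit 5) (nat_lit 57) (nat_lit 5) (nat_lit 463) (nat_lit 452) (nat_lit 285)) (XT.nd (nat_lit 78) (nat_lit 0) (nat_lit 0) (XT.lf (nat_lit 0) (nat_lit 90951305523) (nat_lit 228) (nat_lit 191826869787) (nat_lit 304) (nat_lit 83334706566) (nat_lit 53) (nat_lit 5) (nat_lit 56) (nat_lit 5) (nat_lit 57) (nat_lit 5) (nat_lit 464) (nat_lit 452) (nat_lit 284)) (XT.lf (nat_lit 0) (nat_lit 309116951377) (nat_lit 228) (nat_lit 41027709828) (nat_lit 304) (nat_lit 32838227631) (nat_lit 53) (nat_lit 5) (nat_lit 56) (nat_lit 5) (nat_lit 57) (nat_lit 5) (nat_lit 465) (nat_lit 452) (nat_lit 283))))) (XT.nd (nat_lit 234) (nat_lit 304) (nat_lit 0) (XT.nd (nat_lit 78) (nat_lit 228) (nat_lit 0) (XT.lf (nat_lit 0) (nat_lit 27270770888) (nat_lit 228) (nat_lit 253366674997) (nat_lit 76) (nat_lit 119990645834)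 (nat_lit 50) (nat_lit 5) (nat_lit 53) (nat_lit 5) (nat_lit 51) (nat_lit 5) (nat_lit 466) (nat_lit 452) (nat_lit 282)) (XT.nd (nat_lit 78) (nat_lit 228) (nat_lit 0) (XT.lf (nat_lit 0) (nat_lit 93552053512) (nat_lit 228) (nat_lit 31214687688) (nat_lit 76) (nat_lit 294598919865) (nat_lit 50) (nat_lit 5) (nat_lit 53) (nat_lit 5) (nat_lit 51) (nat_lit 5) (nat_lit 467) (nat_lit 452) (nat_lit 281)) (XT.lf (nat_lit 0) (nat_lit 171604755514) (nat_lit 304) (nat_lit 220665068117) (nat_lit 76) (nat_lit 46814899010) (nat_lit 47) (nat_lit 5) (nat_lit 51) (nat_lit 5) (nat_lit 48) (nat_lit 5) (nat_lit 468) (nat_lit 452) (nat_lit 280)))) (XT.nd (nat_lit 78) (nat_lit 152) (nat_lit 0) (XT.lf (nat_lit 0) (nat_lit 27604894937) (nat_lit 152) (nat_lit 233076953818) (nat_lit 228) (nat_lit 199317046405) (nat_lit 45) (nat_lit 5) (nat_lit 47) (nat_lit 5) (nat_lit 48) (nat_lit 5) (nat_lit 469) (nat_lit 452) (nat_lit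 279)) (XT.nd (nat_lit 78) (nat_lit 152) (nat_lit 0) (XT.lf (nat_lit 0) (nat_lit 308285804445) (nat_lit 152) (nat_lit 54632630449) (nat_lit 228) (nat_lit 119185100571) (nat_lit 45) (nat_lit 5) (nat_lit 47) (nat_lit 5) (nat_lit 48) (nat_lit 5) (nat_lit 470) (nat_lit 452) (nat_lit 278)) (XT.lf (nat_lit 0) (nat_lit 107501217971) (nat_lit 152) (nat_lit 371739092823) (nat_lit 228) (nat_lit 26263727191) (nat_lit 43) (nat_lit 5) (nat_lit 45) (nat_lit 5) (nat_lit 46) (nat_lit 5) (nat_lit 471) (nat_lit 452) (nat_lit 277)))))) (XT.nd (nat_lit 390) (nat_lit 532) (nat_lit 0) (XT.nd (nat_lit 156) (nat_lit 228) (nat_lit 0) (XT.nd (nat_lit 78) (nat_lit 152) (nat_lit 0) (XT.lf (nat_lit 0) (nat_lit 76679916909) (nat_lit 228) (nat_lit 112509967406) (nat_lit 76) (nat_lit 340940551653) (nat_lit 42) (nat_lit 5) (nat_lit 45) (nat_lit 5) (nat_lit 43) (nat_lit 5) (nat_lit 472) (nat_lit 452) (nat_lit 276)) (XT.lf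 (nat_lit 0) (nat_lit 191717895992) (nat_lit 228) (nat_lit 351198901043) (nat_lit 76) (nat_lit 13333353440) (nat_lit 40) (nat_lit 5) (nat_lit 43) (nat_lit 5) (nat_lit 41) (nat_lit 5) (nat_lit 473) (nat_lit 452) (nat_lit 275))) (XT.nd (nat_lit 78) (nat_lit 228) (nat_lit 0) (XT.lf (nat_lit 0) (nat_lit 324029019784) (nat_lit 228) (nat_lit 34791427527) (nat_lit 76) (nat_lit 224993386334) (nat_lit 40) (nat_lit 5) (nat_lit 43) (nat_lit 5) (nat_lit 41) (nat_lit 5) (nat_lit 474) (nat_lit 452) (nat_lit 274)) (XT.nd (nat_lit 78) (nat_lit 76) (nat_lit 0) (XT.lf (nat_lit 0) (nat_lit 323090900480) (nat_lit 152) (nat_lit 151604439567) (nat_lit 228) (nat_lit 138265646910) (nat_lit 38) (nat_lit 5) (nat_lit 40) (nat_lit 5) (nat_lit 41) (nat_lit 5) (nat_lit 475) (nat_lit 452) (nat_lit 273)) (XT.lf (nat_lit 0) (nat_lit 68904598079) (nat_lit 76) (nat_lit 572879599480) (nat_lit 152) (nat_lit 2306176456) (nat_lit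 37) (nat_lit 5) (nat_lit 38) (nat_lit 5) (nat_lit 39) (nat_lit 4) (nat_lit 476) (nat_lit 452) (nat_lit 272))))) (XT.nd (nat_lit 234) (nat_lit 304) (nat_lit 0) (XT.nd (nat_lit 78) (nat_lit 152) (nat_lit 0) (XT.lf (nat_lit 0) (nat_lit 149369235258) (nat_lit 152) (nat_lit 211829288691) (nat_lit 76) (nat_lit 315267979030) (nat_lit 36) (nat_lit 5) (nat_lit 38) (nat_lit 5) (nat_lit 37) (nat_lit 5) (nat_lit 477) (nat_lit 452) (nat_lit 271)) (XT.nd (nat_lit 78) (nat_lit 0) (nat_lit 0) (XT.lf (nat_lit 0) (nat_lit 190042454496) (nat_lit 152) (nat_lit 127582124159) (nat_lit 228) (nat_lit 393437712186) (nat_lit 34) (nat_lit 5) (nat_lit 36) (nat_lit 5) (nat_lit 37) (nat_lit 5) (nat_lit 478) (nat_lit 452) (nat_lit 270)) (XT.lf (nat_lit 0) (nat_lit 508282146226) (nat_lit 228) (nat_lit 115001639788) (nat_lit 76) (nat_lit 124426611990) (nat_lit 34) (nat_lit 5) (nat_lit 37) (nat_lit 5) (nat_lit 35) (nat_lit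 4) (nat_lit 479) (nat_lit 452) (nat_lit 269)))) (XT.nd (nat_lit 78) (nat_lit 228) (nat_lit 0) (XT.lf (nat_lit 0) (nat_lit 337044468343) (nat_lit 76) (nat_lit 388567569482) (nat_lit 152) (nat_lit 60764738434) (nat_lit 33) (nat_lit 5) (nat_lit 34) (nat_lit 5) (nat_lit 35) (nat_lit 4) (nat_lit 480) (nat_lit 452) (nat_lit 268)) (XT.nd (nat_lit 78) (nat_lit 0) (nat_lit 0) (XT.lf (nat_lit 0) (nat_lit 682809209) (nat_lit 152) (nat_lit 128138686260) (nat_lit 228) (nat_lit 698801239007) (nat_lit 30) (nat_lit 5) (nat_lit 32) (nat_lit 5) (nat_lit 33) (nat_lit 5) (nat_lit 481) (nat_lit 452) (nat_lit 267)) (XT.lf (nat_lit 0) (nat_lit 346579018934) (nat_lit 228) (nat_lit 364512574628) (nat_lit 76) (nat_lit 159647530200) (nat_lit 30) (nat_lit 5) (nat_lit 33) (nat_lit 5) (nat_lit 31) (nat_lit 4) (nat_lit 482) (nat_lit 452) (nat_lit 266))))))) (XT.nd (nat_lit 858) (nat_lit 608) (nat_lit 0) (XT.nd (nat_lit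 390) (nat_lit 380) (nat_lit 0) (XT.nd (nat_lit 156) (nat_lit 228) (nat_lit 0) (XT.nd (nat_lit 78) (nat_lit 0) (nat_lit 0) (XT.lf (nat_lit 0) (nat_lit 138509440764) (nat_lit 76) (nat_lit 449907109033) (nat_lit 152) (nat_lit 328355521960) (nat_lit 29) (nat_lit 5) (nat_lit 30) (nat_lit 5) (nat_lit 31) (nat_lit 4) (nat_lit 483) (nat_lit 452) (nat_lit 265)) (XT.lf (nat_lit 0) (nat_lit 702503322804) (nat_lit 76) (nat_lit 157064153544) (nat_lit 152) (nat_lit 106122867790) (nat_lit 29) (nat_lit 5) (nat_lit 30) (nat_lit 5) (nat_lit 31) (nat_lit 4) (nat_lit 484) (nat_lit 452) (nat_lit 264))) (XT.nd (nat_lit 78) (nat_lit 76) (nat_lit 0) (XT.lf (nat_lit 0) (nat_lit 138632493448) (nat_lit 152) (nat_lit 716641700517) (nat_lit 76) (nat_lit 162074944038) (nat_lit 27) (nat_lit 5) (nat_lit 29) (nat_lit 5) (nat_lit 28) (nat_lit 4) (nat_lit 485) (nat_lit 452) (nat_lit 263)) (XT.nd (nat_lit 78) (nat_lit 76)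 (nat_lit 0) (XT.lf (nat_lit 0) (nat_lit 408697364445) (nat_lit 152) (nat_lit 154906804714) (nat_lit 76) (nat_lit 508398953400) (nat_lit 27) (nat_lit 5) (nat_lit 29) (nat_lit 5) (nat_lit 28) (nat_lit 4) (nat_lit 486) (nat_lit 452) (nat_lit 262)) (XT.lf (nat_lit 0) (nat_lit 475556081542) (nat_lit 76) (nat_lit 236248455725) (nat_lit 152) (nat_lit 418309919645) (nat_lit 26) (nat_lit 5) (nat_lit 27) (nat_lit 5) (nat_lit 28) (nat_lit 4) (nat_lit 487) (nat_lit 452) (nat_lit 261))))) (XT.nd (nat_lit 234) (nat_lit 152) (nat_lit 0) (XT.nd (nat_lit 78) (nat_lit 228) (nat_lit 0) (XT.lf (nat_lit 0) (nat_lit 1046326663519) (nat_lit 152) (nat_lit 30201196470) (nat_lit 0) (nat_lit 115773527660) (nat_lit 26) (nat_lit 5) (nat_lit 28) (nat_lit 4) (nat_lit 26) (nat_lit 4) (nat_lit 488) (nat_lit 452) (nat_lit 260)) (XT.nd (nat_lit 78) (nat_lit 76) (nat_lit 0) (XT.lf (nat_lit 0) (nat_lit 163602649054) (nat_lit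 152) (nat_lit 590259652191) (nat_lit 76) (nat_lit 503486632792) (nat_lit 24) (nat_lit 5) (nat_lit 26) (nat_lit 5) (nat_lit 25) (nat_lit 4) (nat_lit 489) (nat_lit 452) (nat_lit 259)) (XT.lf (nat_lit 0) (nat_lit 95300627736) (nat_lit 76) (nat_lit 397898321482) (nat_lit 152) (nat_lit 833846877717) (nat_lit 23) (nat_lit 5) (nat_lit 24) (nat_lit 5) (nat_lit 25) (nat_lit 4) (nat_lit 490) (nat_lit 452) (nat_lit 258)))) (XT.nd (nat_lit 78) (nat_lit 152) (nat_lit 0) (XT.lf (nat_lit 0) (nat_lit 865397219133) (nat_lit 152) (nat_lit 531848633633) (nat_lit 0) (nat_lit 3773877242) (nat_lit 23) (nat_lit 5) (nat_lit 25) (nat_lit 4) (nat_lit 23) (nat_lit 4) (nat_lit 491) (nat_lit 452) (nat_lit 257)) (XT.nd (nat_lit 78) (nat_lit 76) (nat_lit 0) (XT.lf (nat_lit 0) (nat_lit 224957904435) (nat_lit 76) (nat_lit 1058158691280) (nat_lit 76) (nat_lit 196535330008) (nat_lit 22) (nat_lit 4) (nat_lit 23) (nat_lit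 5) (nat_lit 23) (nat_lit 4) (nat_lit 492) (nat_lit 452) (nat_lit 256)) (XT.lf (nat_lit 0) (nat_lit 176110174322) (nat_lit 152) (nat_lit 495314216624) (nat_lit 76) (nat_lit 891630294083) (nat_lit 21) (nat_lit 5) (nat_lit 23) (nat_lit 5) (nat_lit 22) (nat_lit 4) (nat_lit 493) (nat_lit 452) (nat_lit 255)))))) (XT.nd (nat_lit 468) (nat_lit 304) (nat_lit 0) (XT.nd (nat_lit 234) (nat_lit 152) (nat_lit 0) (XT.nd (nat_lit 78) (nat_lit 76) (nat_lit 0) (XT.lf (nat_lit 0) (nat_lit 336546545669) (nat_lit 76) (nat_lit 239496695436) (nat_lit 152) (nat_lit 1076030524095) (nat_lit 20) (nat_lit 5) (nat_lit 21) (nat_lit 5) (nat_lit 22) (nat_lit 4) (nat_lit 494) (nat_lit 452) (nat_lit 254)) (XT.nd (nat_lit 78) (nat_lit 76) (nat_lit 0) (XT.lf (nat_lit 0) (nat_lit 1027324464153) (nat_lit 152) (nat_lit 489816617437) (nat_lit 0) (nat_lit 229525009324) (nat_lit 20) (nat_lit 5) (nat_lit 22) (nat_lit 4) (nat_lit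 20) (nat_lit 4) (nat_lit 495) (nat_lit 452) (nat_lit 253)) (XT.lf (nat_lit 0) (nat_lit 416568553811) (nat_lit 76) (nat_lit 1114378792016) (nat_lit 76) (nat_lit 316579323997) (nat_lit 19) (nat_lit 4) (nat_lit 20) (nat_lit 5) (nat_lit 20) (nat_lit 4) (nat_lit 496) (nat_lit 452) (nat_lit 252)))) (XT.nd (nat_lit 78) (nat_lit 76) (nat_lit 0) (XT.lf (nat_lit 0) (nat_lit 126221211236) (nat_lit 152) (nat_lit 535259360859) (nat_lit 76) (nat_lit 1293648489979) (nat_lit 18) (nat_lit 5) (nat_lit 20) (nat_lit 5) (nat_lit 19) (nat_lit 4) (nat_lit 497) (nat_lit 452) (nat_lit 251)) (XT.nd (nat_lit 78) (nat_lit 0) (nat_lit 0) (XT.lf (nat_lit 0) (nat_lit 446192796396) (nat_lit 76) (nat_lit 151880418957) (nat_lit 152) (nat_lit 1471750128594) (nat_lit 17) (nat_lit 5) (nat_lit 18) (nat_lit 5) (nat_lit 19) (nat_lit 4) (nat_lit 498) (nat_lit 452) (nat_lit 250)) (XT.lf (nat_lit 0) (nat_lit 1132272072473) (nat_lit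 152) (nat_lit 665884370612) (nat_lit 0) (nat_lit 393568829871) (nat_lit 17) (nat_lit 5) (nat_lit 19) (nat_lit 4) (nat_lit 17) (nat_lit 4) (nat_lit 499) (nat_lit 452) (nat_lit 249))))) (XT.nd (nat_lit 234) (nat_lit 76) (nat_lit 0) (XT.nd (nat_lit 78) (nat_lit 152) (nat_lit 0) (XT.lf (nat_lit 0) (nat_lit 383732374648) (nat_lit 76) (nat_lit 1338648168414) (nat_lit 76) (nat_lit 599944916836) (nat_lit 16) (nat_lit 4) (nat_lit 17) (nat_lit 5) (nat_lit 17) (nat_lit 4) (nat_lit 500) (nat_lit 452) (nat_lit 248)) (XT.nd (nat_lit 78) (nat_lit 152) (nat_lit 0) (XT.lf (nat_lit 0) (nat_lit 1555187867012) (nat_lit 76) (nat_lit 822716269526) (nat_lit 76) (nat_lit 84013009636) (nat_lit 16) (nat_lit 4) (nat_lit 17) (nat_lit 5) (nat_lit 17) (nat_lit 4) (nat_lit 501) (nat_lit 452) (nat_lit 247)) (XT.lf (nat_lit 0) (nat_lit 206640275645) (nat_lit 76) (nat_lit 247851812446) (nat_lit 152) (nat_lit 2156876078893)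 (nat_lit 14) (nat_lit 5) (nat_lit 15) (nat_lit 5) (nat_lit 16) (nat_lit 4) (nat_lit 502) (nat_lit 452) (nat_lit 246)))) (XT.nd (nat_lit 78) (nat_lit 76) (nat_lit 0) (XT.lf (nat_lit 0) (nat_lit 1065944921121) (nat_lit 152) (nat_lit 1321942871380) (nat_lit 0) (nat_lit 381960407499) (nat_lit 14) (nat_lit 5) (nat_lit 16) (nat_lit 4) (nat_lit 14) (nat_lit 4) (nat_lit 503) (nat_lit 452) (nat_lit 245)) (XT.nd (nat_lit 78) (nat_lit 76) (nat_lit 0) (XT.lf (nat_lit 0) (nat_lit 1732751678386) (nat_lit 152) (nat_lit 158972782808) (nat_lit 0) (nat_lit 1048767158655) (nat_lit 14) (nat_lit 5) (nat_lit 16) (nat_lit 4) (nat_lit 14) (nat_lit 4) (nat_lit 504) (nat_lit 452) (nat_lit 244)) (XT.lf (nat_lit 0) (nat_lit 1154802804272) (nat_lit 76) (nat_lit 1325873196231) (nat_lit 76) (nat_lit 641888670843) (nat_lit 13) (nat_lit 4) (nat_lit 14) (nat_lit 5) (nat_lit 14) (nat_lit 4) (nat_lit 505) (nat_lit 452) (nat_lit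 243))))))))
noncomputable def xc210 : XT := (XT.nd (nat_lit 58734) (nat_lit 0) (nat_lit 2204) (XT.nd (nat_lit 858) (nat_lit 152) (nat_lit 0) (XT.nd (nat_lit 390) (nat_lit 228) (nat_lit 0) (XT.nd (nat_lit 156) (nat_lit 76) (nat_lit 0) (XT.nd (nat_lit 78) (nat_lit 152) (nat_lit 0) (XT.lf (nat_lit 0) (nat_lit 2582721340067) (nat_lit 76) (nat_lit 710059515283) (nat_lit 76) (nat_lit 26074984657) (nat_lit 13) (nat_lit 4) (nat_lit 14) (nat_lit 5) (nat_lit 14) (nat_lit 4) (nat_lit 506) (nat_lit 452) (nat_lit 242)) (XT.lf (nat_lit 0) (nat_lit 609125925427) (nat_lit 76) (nat_lit 12561796160) (nat_lit 152) (nat_lit 2906761177397) (nat_lit 11) (nat_lit 5) (nat_lit 12) (nat_lit 5) (nat_lit 13) (nat_lit 4) (nat_lit 507) (nat_lit 452) (nat_lit 241))) (XT.nd (nat_lit 78) (nat_lit 76) (nat_lit 0) (XT.lf (nat_lit 0) (nat_lit 1358327426937) (nat_lit 152) (nat_lit 1668342208782) (nat_lit 0) (nat_lit 725008408450)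 (nat_lit 11) (nat_lit 5) (nat_lit 13) (nat_lit 4) (nat_lit 11) (nat_lit 4) (nat_lit 508) (nat_lit 452) (nat_lit 240)) (XT.nd (nat_lit 78) (nat_lit 76) (nat_lit 0) (XT.lf (nat_lit 0) (nat_lit 2154224579805) (nat_lit 152) (nat_lit 317609282011) (nat_lit 0) (nat_lit 1520905557467) (nat_lit 11) (nat_lit 5) (nat_lit 13) (nat_lit 4) (nat_lit 11) (nat_lit 4) (nat_lit 509) (nat_lit 452) (nat_lit 239)) (XT.lf (nat_lit 0) (nat_lit 1201274897067) (nat_lit 76) (nat_lit 1841409289360) (nat_lit 76) (nat_lit 1208090263458) (nat_lit 10) (nat_lit 4) (nat_lit 11) (nat_lit 5) (nat_lit 11) (nat_lit 4) (nat_lit 510) (nat_lit 452) (nat_lit 238))))) (XT.nd (nat_lit 234) (nat_lit 76) (nat_lit 0) (XT.nd (nat_lit 78) (nat_lit 152) (nat_lit 0) (XT.lf (nat_lit 0) (nat_lit 2859732514831) (nat_lit 76) (nat_lit 1151172038965) (nat_lit 76) (nat_lit 517853009762) (nat_lit 10) (nat_lit 4) (nat_lit 11) (nat_lit 5) (nat_lit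 11) (nat_lit 4) (nat_lit 511) (nat_lit 452) (nat_lit 237)) (XT.nd (nat_lit 78) (nat_lit 76) (nat_lit 0) (XT.lf (nat_lit 0) (nat_lit 216217581168) (nat_lit 152) (nat_lit 183586463428) (nat_lit 76) (nat_lit 4428737373325) (nat_lit 9) (nat_lit 5) (nat_lit 11) (nat_lit 5) (nat_lit 10) (nat_lit 4) (nat_lit 512) (nat_lit 452) (nat_lit 236)) (XT.lf (nat_lit 0) (nat_lit 1027838019529) (nat_lit 152) (nat_lit 3678218260273) (nat_lit 0) (nat_lit 441431505558) (nat_lit 8) (nat_lit 5) (nat_lit 10) (nat_lit 4) (nat_lit 8) (nat_lit 4) (nat_lit 513) (nat_lit 452) (nat_lit 235)))) (XT.nd (nat_lit 78) (nat_lit 76) (nat_lit 0) (XT.lf (nat_lit 0) (nat_lit 1919922564160) (nat_lit 152) (nat_lit 2237268492575) (nat_lit 0) (nat_lit 1333516047763) (nat_lit 8) (nat_lit 5) (nat_lit 10) (nat_lit 4) (nat_lit 8) (nat_lit 4) (nat_lit 514) (nat_lit 452) (nat_lit 234)) (XT.nd (nat_lit 78) (nat_lit 76) (nat_lit 0) (XT.lf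 (nat_lit 0) (nat_lit 2883373865535) (nat_lit 152) (nat_lit 681042757288) (nat_lit 0) (nat_lit 2296967346891) (nat_lit 8) (nat_lit 5) (nat_lit 10) (nat_lit 4) (nat_lit 8) (nat_lit 4) (nat_lit 515) (nat_lit 452) (nat_lit 233)) (XT.lf (nat_lit 0) (nat_lit 1052322455159) (nat_lit 76) (nat_lit 2896887189895) (nat_lit 76) (nat_lit 2310480669171) (nat_lit 7) (nat_lit 4) (nat_lit 8) (nat_lit 5) (nat_lit 8) (nat_lit 4) (nat_lit 516) (nat_lit 452) (nat_lit 232)))))) (XT.nd (nat_lit 390) (nat_lit 0) (nat_lit 0) (XT.nd (nat_lit 156) (nat_lit 152) (nat_lit 0) (XT.nd (nat_lit 78) (nat_lit 0) (nat_lit 0) (XT.lf (nat_lit 0) (nat_lit 2963088377186) (nat_lit 76) (nat_lit 2155844819490) (nat_lit 76) (nat_lit 1569438296841) (nat_lit 7) (nat_lit 4) (nat_lit 8) (nat_lit 5) (nat_lit 8) (nat_lit 4) (nat_lit 517) (nat_lit 452) (nat_lit 231)) (XT.lf (nat_lit 0) (nat_lit 5026715561422) (nat_lit 76) (nat_lit 1355519065310)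 (nat_lit 76) (nat_lit 769112540877) (nat_lit 7) (nat_lit 4) (nat_lit 8) (nat_lit 5) (nat_lit 8) (nat_lit 4) (nat_lit 518) (nat_lit 452) (nat_lit 230))) (XT.nd (nat_lit 78) (nat_lit 76) (nat_lit 0) (XT.lf (nat_lit 0) (nat_lit 90475015866) (nat_lit 152) (nat_lit 398218493082) (nat_lit 76) (nat_lit 7162484146564) (nat_lit 6) (nat_lit 5) (nat_lit 8) (nat_lit 5) (nat_lit 7) (nat_lit 4) (nat_lit 519) (nat_lit 452) (nat_lit 229)) (XT.nd (nat_lit 78) (nat_lit 0) (nat_lit 0) (XT.lf (nat_lit 0) (nat_lit 1026125289948) (nat_lit 152) (nat_lit 6676207032314) (nat_lit 0) (nat_lit 483156282899) (nat_lit 5) (nat_lit 5) (nat_lit 7) (nat_lit 4) (nat_lit 5) (nat_lit 4) (nat_lit 520) (nat_lit 452) (nat_lit 228)) (XT.lf (nat_lit 0) (nat_lit 2060491723332) (nat_lit 152) (nat_lit 5182620861487) (nat_lit 0) (nat_lit 1517522714973) (nat_lit 5) (nat_lit 5) (nat_lit 7) (nat_lit 4) (nat_lit 5) (nat_lit 4) (nat_lit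 521) (nat_lit 452) (nat_lit 227))))) (XT.nd (nat_lit 57252) (nat_lit 0) (nat_lit 4408) (XT.nd (nat_lit 57096) (nat_lit 0) (nat_lit 4864) (XT.lf (nat_lit 0) (nat_lit 3177607466759) (nat_lit 152) (nat_lit 3569547806421) (nat_lit 0) (nat_lit 2634638457185) (nat_lit 5) (nat_lit 5) (nat_lit 7) (nat_lit 4) (nat_lit 5) (nat_lit 4) (nat_lit 522) (nat_lit 452) (nat_lit 226)) (XT.nd (nat_lit 78) (nat_lit 0) (nat_lit 0) (XT.lf (nat_lit 0) (nat_lit 110080487359) (nat_lit 532) (nat_lit 4996381313) (nat_lit 532) (nat_lit 4996381313) (nat_lit 69) (nat_lit 3) (nat_lit 76) (nat_lit 3) (nat_lit 76) (nat_lit 5) (nat_lit 453) (nat_lit 453) (nat_lit 294)) (XT.lf (nat_lit 76) (nat_lit 113353421329) (nat_lit 0) (nat_lit 118341209801) (nat_lit 532) (nat_lit 17839550733) (nat_lit 70) (nat_lit 5) (nat_lit 69) (nat_lit 3) (nat_lit 76) (nat_lit 5) (nat_lit 454) (nat_lit 453) (nat_lit 293)))) (XT.nd (nat_lit 78) (nat_lit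 532) (nat_lit 0) (XT.lf (nat_lit 0) (nat_lit 244489302205) (nat_lit 456) (nat_lit 12580703072) (nat_lit 532) (nat_lit 2575807325) (nat_lit 70) (nat_lit 5) (nat_lit 76) (nat_lit 5) (nat_lit 77) (nat_lit 5) (nat_lit 455) (nat_lit 453) (nat_lit 292)) (XT.nd (nat_lit 78) (nat_lit 532) (nat_lit 0) (XT.lf (nat_lit 76) (nat_lit 124038399181) (nat_lit 0) (nat_lit 140325972981) (nat_lit 532) (nat_lit 5717455690) (nat_lit 71) (nat_lit 5) (nat_lit 70) (nat_lit 5) (nat_lit 77) (nat_lit 5) (nat_lit 456) (nat_lit 453) (nat_lit 291)) (XT.lf (nat_lit 0) (nat_lit 4605597165) (nat_lit 532) (nat_lit 9139369169) (nat_lit 608) (nat_lit 267570919411) (nat_lit 63) (nat_lit 5) (nat_lit 70) (nat_lit 5) (nat_lit 71) (nat_lit 5) (nat_lit 457) (nat_lit 453) (nat_lit 290))))))) (XT.nd (nat_lit 858) (nat_lit 1216) (nat_lit 0) (XT.nd (nat_lit 390) (nat_lit 684) (nat_lit 0) (XT.nd (nat_lit 156) (nat_lit 380) (nat_lit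 0) (XT.nd (nat_lit 78) (nat_lit 0) (nat_lit 0) (XT.lf (nat_lit 0) (nat_lit 22005804484) (nat_lit 532) (nat_lit 150343163007) (nat_lit 608) (nat_lit 120563004296) (nat_lit 64) (nat_lit 5) (nat_lit 71) (nat_lit 5) (nat_lit 72) (nat_lit 5) (nat_lit 458) (nat_lit 453) (nat_lit 289)) (XT.lf (nat_lit 76) (nat_lit 1214851078) (nat_lit 0) (nat_lit 40225700775) (nat_lit 608) (nat_lit 263943791032) (nat_lit 65) (nat_lit 5) (nat_lit 64) (nat_lit 5) (nat_lit 72) (nat_lit 5) (nat_lit 459) (nat_lit 453) (nat_lit 288))) (XT.nd (nat_lit 78) (nat_lit 456) (nat_lit 0) (XT.lf (nat_lit 0) (nat_lit 69111763532) (nat_lit 532) (nat_lit 147649184836) (nat_lit 76) (nat_lit 101559020584) (nat_lit 65) (nat_lit 5) (nat_lit 72) (nat_lit 5) (nat_lit 66) (nat_lit 5) (nat_lit 460) (nat_lit 453) (nat_lit 287)) (XT.nd (nat_lit 78) (nat_lit 0) (nat_lit 0) (XT.lf (nat_lit 0) (nat_lit 21419336698) (nat_lit 456) (nat_lit 79137222028)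 (nat_lit 532) (nat_lit 231609095495) (nat_lit 59) (nat_lit 5) (nat_lit 65) (nat_lit 5) (nat_lit 66) (nat_lit 5) (nat_lit 461) (nat_lit 453) (nat_lit 286)) (XT.lf (nat_lit 0) (nat_lit 140330106370) (nat_lit 532) (nat_lit 136162074601) (nat_lit 76) (nat_lit 70161759874) (nat_lit 59) (nat_lit 5) (nat_lit 66) (nat_lit 5) (nat_lit 60) (nat_lit 5) (nat_lit 462) (nat_lit 453) (nat_lit 285))))) (XT.nd (nat_lit 234) (nat_lit 228) (nat_lit 0) (XT.nd (nat_lit 78) (nat_lit 228) (nat_lit 0) (XT.lf (nat_lit 0) (nat_lit 52983792333) (nat_lit 228) (nat_lit 133631455729) (nat_lit 304) (nat_lit 175419665552) (nat_lit 56) (nat_lit 5) (nat_lit 59) (nat_lit 5) (nat_lit 60) (nat_lit 5) (nat_lit 463) (nat_lit 453) (nat_lit 284)) (XT.nd (nat_lit 78) (nat_lit 228) (nat_lit 0) (XT.lf (nat_lit 0) (nat_lit 240919580511) (nat_lit 304) (nat_lit 113937142330) (nat_lit 76) (nat_lit 23444331045) (nat_lit 56) (nat_lit 5)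 (nat_lit 60) (nat_lit 5) (nat_lit 57) (nat_lit 5) (nat_lit 464) (nat_lit 453) (nat_lit 283)) (XT.lf (nat_lit 0) (nat_lit 98228742680) (nat_lit 228) (nat_lit 207172811392) (nat_lit 304) (nat_lit 90000267775) (nat_lit 53) (nat_lit 5) (nat_lit 56) (nat_lit 5) (nat_lit 57) (nat_lit 5) (nat_lit 465) (nat_lit 453) (nat_lit 282)))) (XT.nd (nat_lit 78) (nat_lit 228) (nat_lit 0) (XT.lf (nat_lit 0) (nat_lit 333847541482) (nat_lit 228) (nat_lit 44309734043) (nat_lit 304) (nat_lit 35464160549) (nat_lit 53) (nat_lit 5) (nat_lit 56) (nat_lit 5) (nat_lit 57) (nat_lit 5) (nat_lit 466) (nat_lit 453) (nat_lit 281)) (XT.nd (nat_lit 78) (nat_lit 0) (nat_lit 0) (XT.lf (nat_lit 0) (nat_lit 29453458357) (nat_lit 228) (nat_lit 273634674517) (nat_lit 76) (nat_lit 129590123642) (nat_lit 50) (nat_lit 5) (nat_lit 53) (nat_lit 5) (nat_lit 51) (nat_lit 5) (nat_lit 467) (nat_lit 453) (nat_lit 280)) (XT.lf (nat_lit 0)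 (nat_lit 101037167606) (nat_lit 228) (nat_lit 33710627074) (nat_lit 76) (nat_lit 318167042844) (nat_lit 50) (nat_lit 5) (nat_lit 53) (nat_lit 5) (nat_lit 51) (nat_lit 5) (nat_lit 468) (nat_lit 453) (nat_lit 279)))))) (XT.nd (nat_lit 468) (nat_lit 456) (nat_lit 0) (XT.nd (nat_lit 234) (nat_lit 380) (nat_lit 0) (XT.nd (nat_lit 78) (nat_lit 152) (nat_lit 0) (XT.lf (nat_lit 0) (nat_lit 185334051494) (nat_lit 304) (nat_lit 238317003254) (nat_lit 76) (nat_lit 50560372054) (nat_lit 47) (nat_lit 5) (nat_lit 51) (nat_lit 5) (nat_lit 48) (nat_lit 5) (nat_lit 469) (nat_lit 453) (nat_lit 278)) (XT.nd (nat_lit 78) (nat_lit 0) (nat_lit 0) (XT.lf (nat_lit 0) (nat_lit 29814524684) (nat_lit 152) (nat_lit 251722749470) (nat_lit 228) (nat_lit 215261462041) (nat_lit 45) (nat_lit 5) (nat_lit 47) (nat_lit 5) (nat_lit 48) (nat_lit 5) (nat_lit 470) (nat_lit 453) (nat_lit 277)) (XT.lf (nat_lit 0) (nat_lit 332949815238)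 (nat_lit 152) (nat_lit 59002906947) (nat_lit 228) (nat_lit 128719030768) (nat_lit 45) (nat_lit 5) (nat_lit 47) (nat_lit 5) (nat_lit 48) (nat_lit 5) (nat_lit 471) (nat_lit 453) (nat_lit 276)))) (XT.nd (nat_lit 78) (nat_lit 228) (nat_lit 0) (XT.lf (nat_lit 0) (nat_lit 116102488691) (nat_lit 152) (nat_lit 401477834935) (nat_lit 228) (nat_lit 28363974038) (nat_lit 43) (nat_lit 5) (nat_lit 45) (nat_lit 5) (nat_lit 46) (nat_lit 5) (nat_lit 472) (nat_lit 453) (nat_lit 275)) (XT.nd (nat_lit 78) (nat_lit 152) (nat_lit 0) (XT.lf (nat_lit 0) (nat_lit 82815059097) (nat_lit 228) (nat_lit 121509638716) (nat_lit 76) (nat_lit 368216112847) (nat_lit 42) (nat_lit 5) (nat_lit 45) (nat_lit 5) (nat_lit 43) (nat_lit 5) (nat_lit 473) (nat_lit 453) (nat_lit 274)) (XT.lf (nat_lit 0) (nat_lit 207056056520) (nat_lit 228) (nat_lit 379293666801) (nat_lit 76) (nat_lit 14400380627) (nat_lit 40) (nat_lit 5) (nat_lit 43)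 (nat_lit 5) (nat_lit 41) (nat_lit 5) (nat_lit 474) (nat_lit 453) (nat_lit 273))))) (XT.nd (nat_lit 234) (nat_lit 228) (nat_lit 0) (XT.nd (nat_lit 78) (nat_lit 228) (nat_lit 0) (XT.lf (nat_lit 0) (nat_lit 349952016226) (nat_lit 228) (nat_lit 37573680317) (nat_lit 76) (nat_lit 242993189566) (nat_lit 40) (nat_lit 5) (nat_lit 43) (nat_lit 5) (nat_lit 41) (nat_lit 5) (nat_lit 475) (nat_lit 453) (nat_lit 272)) (XT.nd (nat_lit 78) (nat_lit 76) (nat_lit 0) (XT.lf (nat_lit 0) (nat_lit 348939207059) (nat_lit 152) (nat_lit 163732409943) (nat_lit 228) (nat_lit 149326196711) (nat_lit 38) (nat_lit 5) (nat_lit 40) (nat_lit 5) (nat_lit 41) (nat_lit 5) (nat_lit 476) (nat_lit 453) (nat_lit 271)) (XT.lf (nat_lit 0) (nat_lit 74418016135) (nat_lit 76) (nat_lit 618709552677) (nat_lit 152) (nat_lit 2489984084) (nat_lit 37) (nat_lit 5) (nat_lit 38) (nat_lit 5) (nat_lit 39) (nat_lit 4) (nat_lit 477) (nat_lit 453)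 (nat_lit 270)))) (XT.nd (nat_lit 78) (nat_lit 152) (nat_lit 0) (XT.lf (nat_lit 0) (nat_lit 161319377919) (nat_lit 152) (nat_lit 228774627398) (nat_lit 76) (nat_lit 340489769418) (nat_lit 36) (nat_lit 5) (nat_lit 38) (nat_lit 5) (nat_lit 37) (nat_lit 5) (nat_lit 478) (nat_lit 453) (nat_lit 269)) (XT.nd (nat_lit 78) (nat_lit 0) (nat_lit 0) (XT.lf (nat_lit 0) (nat_lit 205246829816) (nat_lit 152) (nat_lit 137788297786) (nat_lit 228) (nat_lit 424912099732) (nat_lit 34) (nat_lit 5) (nat_lit 36) (nat_lit 5) (nat_lit 37) (nat_lit 5) (nat_lit 479) (nat_lit 453) (nat_lit 268)) (XT.lf (nat_lit 0) (nat_lit 548945266245) (nat_lit 228) (nat_lit 124200830042) (nat_lit 76) (nat_lit 134381089542) (nat_lit 34) (nat_lit 5) (nat_lit 37) (nat_lit 5) (nat_lit 35) (nat_lit 4) (nat_lit 480) (nat_lit 453) (nat_lit 267))))))))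
noncomputable def xc211 : XT := (XT.nd (nat_lit 1716) (nat_lit 836) (nat_lit 0) (XT.nd (nat_lit 858) (nat_lit 532) (nat_lit 0) (XT.nd (nat_lit 390) (nat_lit 456) (nat_lit 0) (XT.nd (nat_lit 156) (nat_lit 76) (nat_lit 0) (XT.nd (nat_lit 78) (nat_lit 228) (nat_lit 0) (XT.lf (nat_lit 0) (nat_lit 364008942919) (nat_lit 76) (nat_lit 419652587692) (nat_lit 152) (nat_lit 65625345228) (nat_lit 33) (nat_lit 5) (nat_lit 34) (nat_lit 5) (nat_lit 35) (nat_lit 4) (nat_lit 481) (nat_lit 453) (nat_lit 266)) (XT.lf (nat_lit 0) (nat_lit 738355864) (nat_lit 152) (nat_lit 138389384796) (nat_lit 228) (nat_lit 754704770410) (nat_lit 30) (nat_lit 5) (nat_lit 32) (nat_lit 5) (nat_lit 33) (nat_lit 5) (nat_lit 482) (nat_lit 453) (nat_lit 265))) (XT.nd (nat_lit 78) (nat_lit 76) (nat_lit 0) (XT.lf (nat_lit 0) (nat_lit 374305835900) (nat_lit 228) (nat_lit 393672696755) (nat_lit 76) (nat_lit 172419681262) (nat_lit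 30) (nat_lit 5) (nat_lit 33) (nat_lit 5) (nat_lit 31) (nat_lit 4) (nat_lit 483) (nat_lit 453) (nat_lit 264)) (XT.nd (nat_lit 78) (nat_lit 0) (nat_lit 0) (XT.lf (nat_lit 0) (nat_lit 149591057492) (nat_lit 76) (nat_lit 485899295757) (nat_lit 152) (nat_lit 354623445788) (nat_lit 29) (nat_lit 5) (nat_lit 30) (nat_lit 5) (nat_lit 31) (nat_lit 4) (nat_lit 484) (nat_lit 453) (nat_lit 263)) (XT.lf (nat_lit 0) (nat_lit 758704386283) (nat_lit 76) (nat_lit 169628932126) (nat_lit 152) (nat_lit 114612217650) (nat_lit 29) (nat_lit 5) (nat_lit 30) (nat_lit 5) (nat_lit 31) (nat_lit 4) (nat_lit 485) (nat_lit 453) (nat_lit 262))))) (XT.nd (nat_lit 234) (nat_lit 228) (nat_lit 0) (XT.nd (nat_lit 78) (nat_lit 76) (nat_lit 0) (XT.lf (nat_lit 0) (nat_lit 149723542668) (nat_lit 152) (nat_lit 773972208915) (nat_lit 76) (nat_lit 175041281399) (nat_lit 27) (nat_lit 5) (nat_lit 29) (nat_lit 5) (nat_lit 28) (nat_lit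 4) (nat_lit 486) (nat_lit 453) (nat_lit 261)) (XT.nd (nat_lit 78) (nat_lit 76) (nat_lit 0) (XT.lf (nat_lit 0) (nat_lit 441393570030) (nat_lit 152) (nat_lit 167298582755) (nat_lit 76) (nat_lit 549071186189) (nat_lit 27) (nat_lit 5) (nat_lit 29) (nat_lit 5) (nat_lit 28) (nat_lit 4) (nat_lit 487) (nat_lit 453) (nat_lit 260)) (XT.lf (nat_lit 0) (nat_lit 513601315000) (nat_lit 76) (nat_lit 255147988795) (nat_lit 152) (nat_lit 451774277317) (nat_lit 26) (nat_lit 5) (nat_lit 27) (nat_lit 5) (nat_lit 28) (nat_lit 4) (nat_lit 488) (nat_lit 453) (nat_lit 259)))) (XT.nd (nat_lit 78) (nat_lit 228) (nat_lit 0) (XT.lf (nat_lit 0) (nat_lit 1130033177902) (nat_lit 152) (nat_lit 32616578271) (nat_lit 0) (nat_lit 125035711920) (nat_lit 26) (nat_lit 5) (nat_lit 28) (nat_lit 4) (nat_lit 26) (nat_lit 4) (nat_lit 489) (nat_lit 453) (nat_lit 258)) (XT.nd (nat_lit 78) (nat_lit 76) (nat_lit 0) (XT.lf (nat_lit 0)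 (nat_lit 176691240432) (nat_lit 152) (nat_lit 637479708487) (nat_lit 76) (nat_lit 543765869429) (nat_lit 24) (nat_lit 5) (nat_lit 26) (nat_lit 5) (nat_lit 25) (nat_lit 4) (nat_lit 490) (nat_lit 453) (nat_lit 257)) (XT.lf (nat_lit 0) (nat_lit 102925375710) (nat_lit 76) (nat_lit 429729857572) (nat_lit 152) (nat_lit 900554230306) (nat_lit 23) (nat_lit 5) (nat_lit 24) (nat_lit 5) (nat_lit 25) (nat_lit 4) (nat_lit 491) (nat_lit 453) (nat_lit 256)))))) (XT.nd (nat_lit 390) (nat_lit 304) (nat_lit 0) (XT.nd (nat_lit 156) (nat_lit 152) (nat_lit 0) (XT.nd (nat_lit 78) (nat_lit 76) (nat_lit 0) (XT.lf (nat_lit 0) (nat_lit 934629344862) (nat_lit 152) (nat_lit 574395858278) (nat_lit 0) (nat_lit 4076077365) (nat_lit 23) (nat_lit 5) (nat_lit 25) (nat_lit 4) (nat_lit 23) (nat_lit 4) (nat_lit 492) (nat_lit 453) (nat_lit 255)) (XT.lf (nat_lit 0) (nat_lit 242955185973) (nat_lit 76) (nat_lit 1142811075418)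 (nat_lit 76) (nat_lit 212257791305) (nat_lit 22) (nat_lit 4) (nat_lit 23) (nat_lit 5) (nat_lit 23) (nat_lit 4) (nat_lit 493) (nat_lit 453) (nat_lit 254))) (XT.nd (nat_lit 78) (nat_lit 76) (nat_lit 0) (XT.lf (nat_lit 0) (nat_lit 190199309416) (nat_lit 152) (nat_lit 534938735910) (nat_lit 76) (nat_lit 962960988776) (nat_lit 21) (nat_lit 5) (nat_lit 23) (nat_lit 5) (nat_lit 22) (nat_lit 4) (nat_lit 494) (nat_lit 453) (nat_lit 253)) (XT.nd (nat_lit 78) (nat_lit 0) (nat_lit 0) (XT.lf (nat_lit 0) (nat_lit 363470871720) (nat_lit 76) (nat_lit 258656140520) (nat_lit 152) (nat_lit 1162112629193) (nat_lit 20) (nat_lit 5) (nat_lit 21) (nat_lit 5) (nat_lit 22) (nat_lit 4) (nat_lit 495) (nat_lit 453) (nat_lit 252)) (XT.lf (nat_lit 0) (nat_lit 1109510716503) (nat_lit 152) (nat_lit 529001372395) (nat_lit 0) (nat_lit 247887265640) (nat_lit 20) (nat_lit 5) (nat_lit 22) (nat_lit 4) (nat_lit 20) (nat_lit 4)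 (nat_lit 496) (nat_lit 453) (nat_lit 251))))) (XT.nd (nat_lit 234) (nat_lit 76) (nat_lit 0) (XT.nd (nat_lit 78) (nat_lit 152) (nat_lit 0) (XT.lf (nat_lit 0) (nat_lit 449894598010) (nat_lit 76) (nat_lit 1203528822297) (nat_lit 76) (nat_lit 341905360127) (nat_lit 19) (nat_lit 4) (nat_lit 20) (nat_lit 5) (nat_lit 20) (nat_lit 4) (nat_lit 497) (nat_lit 453) (nat_lit 250)) (XT.nd (nat_lit 78) (nat_lit 76) (nat_lit 0) (XT.lf (nat_lit 0) (nat_lit 136319180629) (nat_lit 152) (nat_lit 578079576932) (nat_lit 76) (nat_lit 1397140607654) (nat_lit 18) (nat_lit 5) (nat_lit 20) (nat_lit 5) (nat_lit 19) (nat_lit 4) (nat_lit 498) (nat_lit 453) (nat_lit 249)) (XT.lf (nat_lit 0) (nat_lit 481888739415) (nat_lit 76) (nat_lit 164030597964) (nat_lit 152) (nat_lit 1589489852876) (nat_lit 17) (nat_lit 5) (nat_lit 18) (nat_lit 5) (nat_lit 19) (nat_lit 4) (nat_lit 499) (nat_lit 453) (nat_lit 248)))) (XT.nd (nat_lit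 78) (nat_lit 76) (nat_lit 0) (XT.lf (nat_lit 0) (nat_lit 1222854089122) (nat_lit 152) (nat_lit 719154625452) (nat_lit 0) (nat_lit 425054560129) (nat_lit 17) (nat_lit 5) (nat_lit 19) (nat_lit 4) (nat_lit 17) (nat_lit 4) (nat_lit 500) (nat_lit 453) (nat_lit 247)) (XT.nd (nat_lit 78) (nat_lit 0) (nat_lit 0) (XT.lf (nat_lit 0) (nat_lit 414431446902) (nat_lit 76) (nat_lit 1445739783473) (nat_lit 76) (nat_lit 647940246784) (nat_lit 16) (nat_lit 4) (nat_lit 17) (nat_lit 5) (nat_lit 17) (nat_lit 4) (nat_lit 501) (nat_lit 453) (nat_lit 246)) (XT.lf (nat_lit 0) (nat_lit 1679603342931) (nat_lit 76) (nat_lit 888533350334) (nat_lit 76) (nat_lit 90733806520) (nat_lit 16) (nat_lit 4) (nat_lit 17) (nat_lit 5) (nat_lit 17) (nat_lit 4) (nat_lit 502) (nat_lit 453) (nat_lit 245))))))) (XT.nd (nat_lit 858) (nat_lit 304) (nat_lit 0) (XT.nd (nat_lit 390) (nat_lit 304) (nat_lit 0) (XT.nd (nat_lit 156) (nat_lit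 76) (nat_lit 0) (XT.nd (nat_lit 78) (nat_lit 0) (nat_lit 0) (XT.lf (nat_lit 0) (nat_lit 223171944857) (nat_lit 76) (nat_lit 267679735561) (nat_lit 152) (nat_lit 2329425921887) (nat_lit 14) (nat_lit 5) (nat_lit 15) (nat_lit 5) (nat_lit 16) (nat_lit 4) (nat_lit 503) (nat_lit 453) (nat_lit 244)) (XT.lf (nat_lit 0) (nat_lit 1151220728343) (nat_lit 152) (nat_lit 1427697875291) (nat_lit 0) (nat_lit 412517435267) (nat_lit 14) (nat_lit 5) (nat_lit 16) (nat_lit 4) (nat_lit 14) (nat_lit 4) (nat_lit 504) (nat_lit 453) (nat_lit 243))) (XT.nd (nat_lit 78) (nat_lit 76) (nat_lit 0) (XT.lf (nat_lit 0) (nat_lit 1871372010373) (nat_lit 152) (nat_lit 171690211174) (nat_lit 0) (nat_lit 1132668712059) (nat_lit 14) (nat_lit 5) (nat_lit 16) (nat_lit 4) (nat_lit 14) (nat_lit 4) (nat_lit 505) (nat_lit 453) (nat_lit 242)) (XT.nd (nat_lit 78) (nat_lit 0) (nat_lit 0) (XT.lf (nat_lit 0) (nat_lit 1247187412891) (nat_lit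 76) (nat_lit 1431942859965) (nat_lit 76) (nat_lit 693239556801) (nat_lit 13) (nat_lit 4) (nat_lit 14) (nat_lit 5) (nat_lit 14) (nat_lit 4) (nat_lit 506) (nat_lit 453) (nat_lit 241)) (XT.lf (nat_lit 0) (nat_lit 2789339403085) (nat_lit 76) (nat_lit 766864098760) (nat_lit 76) (nat_lit 28160791106) (nat_lit 13) (nat_lit 4) (nat_lit 14) (nat_lit 5) (nat_lit 14) (nat_lit 4) (nat_lit 507) (nat_lit 453) (nat_lit 240))))) (XT.nd (nat_lit 234) (nat_lit 152) (nat_lit 0) (XT.nd (nat_lit 78) (nat_lit 0) (nat_lit 0) (XT.lf (nat_lit 0) (nat_lit 657856355653) (nat_lit 76) (nat_lit 13566561397) (nat_lit 152) (nat_lit 3139301879624) (nat_lit 11) (nat_lit 5) (nat_lit 12) (nat_lit 5) (nat_lit 13) (nat_lit 4) (nat_lit 508) (nat_lit 453) (nat_lit 239)) (XT.nd (nat_lit 78) (nat_lit 0) (nat_lit 0) (XT.lf (nat_lit 0) (nat_lit 1466993789637) (nat_lit 152) (nat_lit 1801809246476) (nat_lit 0) (nat_lit 783009238097)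 (nat_lit 11) (nat_lit 5) (nat_lit 13) (nat_lit 4) (nat_lit 11) (nat_lit 4) (nat_lit 509) (nat_lit 453) (nat_lit 238)) (XT.lf (nat_lit 0) (nat_lit 2326562702248) (nat_lit 152) (nat_lit 343017710676) (nat_lit 0) (nat_lit 1642578147409) (nat_lit 11) (nat_lit 5) (nat_lit 13) (nat_lit 4) (nat_lit 11) (nat_lit 4) (nat_lit 510) (nat_lit 453) (nat_lit 237)))) (XT.nd (nat_lit 78) (nat_lit 76) (nat_lit 0) (XT.lf (nat_lit 0) (nat_lit 1297377194783) (nat_lit 76) (nat_lit 1988721878416) (nat_lit 76) (nat_lit 1304737320520) (nat_lit 10) (nat_lit 4) (nat_lit 11) (nat_lit 5) (nat_lit 11) (nat_lit 4) (nat_lit 511) (nat_lit 453) (nat_lit 236)) (XT.nd (nat_lit 78) (nat_lit 76) (nat_lit 0) (XT.lf (nat_lit 0) (nat_lit 3088511399304) (nat_lit 76) (nat_lit 1243265659404) (nat_lit 76) (nat_lit 559281098678) (nat_lit 10) (nat_lit 4) (nat_lit 11) (nat_lit 5) (nat_lit 11) (nat_lit 4) (nat_lit 512) (nat_lit 453) (nat_lit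 235)) (XT.lf (nat_lit 0) (nat_lit 233515121243) (nat_lit 152) (nat_lit 198273111159) (nat_lit 76) (nat_lit 4783036488260) (nat_lit 9) (nat_lit 5) (nat_lit 11) (nat_lit 5) (nat_lit 10) (nat_lit 4) (nat_lit 513) (nat_lit 453) (nat_lit 234)))))) (XT.nd (nat_lit 468) (nat_lit 152) (nat_lit 0) (XT.nd (nat_lit 234) (nat_lit 76) (nat_lit 0) (XT.nd (nat_lit 78) (nat_lit 0) (nat_lit 0) (XT.lf (nat_lit 0) (nat_lit 1110065194279) (nat_lit 152) (nat_lit 3972475451352) (nat_lit 0) (nat_lit 476746151897) (nat_lit 8) (nat_lit 5) (nat_lit 10) (nat_lit 4) (nat_lit 8) (nat_lit 4) (nat_lit 514) (nat_lit 453) (nat_lit 233)) (XT.nd (nat_lit 78) (nat_lit 0) (nat_lit 0) (XT.lf (nat_lit 0) (nat_lit 2073516492615) (nat_lit 152) (nat_lit 2416249722219) (nat_lit 0) (nat_lit 1440197448153) (nat_lit 8) (nat_lit 5) (nat_lit 10) (nat_lit 4) (nat_lit 8) (nat_lit 4) (nat_lit 515) (nat_lit 453) (nat_lit 232)) (XT.lf (nat_lit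 0) (nat_lit 3114043888965) (nat_lit 152) (nat_lit 735525946609) (nat_lit 0) (nat_lit 2480724842577) (nat_lit 8) (nat_lit 5) (nat_lit 10) (nat_lit 4) (nat_lit 8) (nat_lit 4) (nat_lit 516) (nat_lit 453) (nat_lit 231)))) (XT.nd (nat_lit 78) (nat_lit 0) (nat_lit 0) (XT.lf (nat_lit 0) (nat_lit 1136508476978) (nat_lit 76) (nat_lit 3128638050829) (nat_lit 76) (nat_lit 2495319002659) (nat_lit 7) (nat_lit 4) (nat_lit 8) (nat_lit 5) (nat_lit 8) (nat_lit 4) (nat_lit 517) (nat_lit 453) (nat_lit 230)) (XT.nd (nat_lit 78) (nat_lit 0) (nat_lit 0) (XT.lf (nat_lit 0) (nat_lit 3200135656071) (nat_lit 76) (nat_lit 2328312299256) (nat_lit 76) (nat_lit 1694993249434) (nat_lit 7) (nat_lit 4) (nat_lit 8) (nat_lit 5) (nat_lit 8) (nat_lit 4) (nat_lit 518) (nat_lit 453) (nat_lit 229)) (XT.lf (nat_lit 0) (nat_lit 5428852999586) (nat_lit 76) (nat_lit 1463960492577) (nat_lit 76) (nat_lit 830641441227) (nat_lit 7) (nat_lit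 4) (nat_lit 8) (nat_lit 5) (nat_lit 8) (nat_lit 4) (nat_lit 519) (nat_lit 453) (nat_lit 228))))) (XT.nd (nat_lit 57330) (nat_lit 0) (nat_lit 4864) (XT.nd (nat_lit 78) (nat_lit 76) (nat_lit 0) (XT.lf (nat_lit 0) (nat_lit 97713107665) (nat_lit 152) (nat_lit 430075788822) (nat_lit 76) (nat_lit 7735482964219) (nat_lit 6) (nat_lit 5) (nat_lit 8) (nat_lit 5) (nat_lit 7) (nat_lit 4) (nat_lit 520) (nat_lit 453) (nat_lit 227)) (XT.nd (nat_lit 78) (nat_lit 0) (nat_lit 0) (XT.lf (nat_lit 0) (nat_lit 1108215403460) (nat_lit 152) (nat_lit 7210303410978) (nat_lit 0) (nat_lit 521808871907) (nat_lit 5) (nat_lit 5) (nat_lit 7) (nat_lit 4) (nat_lit 5) (nat_lit 4) (nat_lit 521) (nat_lit 453) (nat_lit 226)) (XT.lf (nat_lit 0) (nat_lit 2225331144826) (nat_lit 152) (nat_lit 5597230360108) (nat_lit 0) (nat_lit 1638924612149) (nat_lit 5) (nat_lit 5) (nat_lit 7) (nat_lit 4) (nat_lit 5) (nat_lit 4) (nat_lit 522)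 (nat_lit 453) (nat_lit 225)))) (XT.nd (nat_lit 78) (nat_lit 0) (nat_lit 0) (XT.lf (nat_lit 0) (nat_lit 118887965650) (nat_lit 532) (nat_lit 5395530246) (nat_lit 532) (nat_lit 5395530246) (nat_lit 69) (nat_lit 3) (nat_lit 76) (nat_lit 3) (nat_lit 76) (nat_lit 5) (nat_lit 454) (nat_lit 454) (nat_lit 292)) (XT.nd (nat_lit 78) (nat_lit 0) (nat_lit 76) (XT.lf (nat_lit 76) (nat_lit 122422789747) (nat_lit 0) (nat_lit 127809362835) (nat_lit 532) (nat_lit 19264606459) (nat_lit 70) (nat_lit 5) (nat_lit 69) (nat_lit 3) (nat_lit 76) (nat_lit 5) (nat_lit 455) (nat_lit 454) (nat_lit 291)) (XT.lf (nat_lit 0) (nat_lit 264050233760) (nat_lit 456) (nat_lit 13585980914) (nat_lit 532) (nat_lit 2781118747) (nat_lit 70) (nat_lit 5) (nat_lit 76) (nat_lit 5) (nat_lit 77) (nat_lit 5) (nat_lit 456) (nat_lit 454) (nat_lit 290))))))))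
noncomputable def xc212 : XT := (XT.nd (nat_lit 1716) (nat_lit 1520) (nat_lit 0) (XT.nd (nat_lit 858) (nat_lit 1216) (nat_lit 0) (XT.nd (nat_lit 390) (nat_lit 760) (nat_lit 0) (XT.nd (nat_lit 156) (nat_lit 0) (nat_lit 76) (XT.nd (nat_lit 78) (nat_lit 532) (nat_lit 0) (XT.lf (nat_lit 76) (nat_lit 133962619686) (nat_lit 0) (nat_lit 151552584851) (nat_lit 532) (nat_lit 6173033824) (nat_lit 71) (nat_lit 5) (nat_lit 70) (nat_lit 5) (nat_lit 77) (nat_lit 5) (nat_lit 457) (nat_lit 454) (nat_lit 289)) (XT.lf (nat_lit 0) (nat_lit 4975644347) (nat_lit 532) (nat_lit 9869370037) (nat_lit 608) (nat_lit 288976013315) (nat_lit 63) (nat_lit 5) (nat_lit 70) (nat_lit 5) (nat_lit 71) (nat_lit 5) (nat_lit 458) (nat_lit 454) (nat_lit 288))) (XT.nd (nat_lit 78) (nat_lit 0) (nat_lit 0) (XT.lf (nat_lit 0) (nat_lit 23767767365) (nat_lit 532) (nat_lit 162369365615) (nat_lit 608) (nat_lit 130207675788) (nat_lit 64)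 (nat_lit 5) (nat_lit 71) (nat_lit 5) (nat_lit 72) (nat_lit 5) (nat_lit 459) (nat_lit 454) (nat_lit 287)) (XT.nd (nat_lit 78) (nat_lit 0) (nat_lit 76) (XT.lf (nat_lit 76) (nat_lit 1313257940) (nat_lit 0) (nat_lit 43443954892) (nat_lit 608) (nat_lit 285057763320) (nat_lit 65) (nat_lit 5) (nat_lit 64) (nat_lit 5) (nat_lit 72) (nat_lit 5) (nat_lit 460) (nat_lit 454) (nat_lit 286)) (XT.lf (nat_lit 0) (nat_lit 74642012086) (nat_lit 532) (nat_lit 159459881010) (nat_lit 76) (nat_lit 109683568020) (nat_lit 65) (nat_lit 5) (nat_lit 72) (nat_lit 5) (nat_lit 66) (nat_lit 5) (nat_lit 461) (nat_lit 454) (nat_lit 285))))) (XT.nd (nat_lit 234) (nat_lit 228) (nat_lit 0) (XT.nd (nat_lit 78) (nat_lit 228) (nat_lit 0) (XT.lf (nat_lit 0) (nat_lit 23134090890) (nat_lit 456) (nat_lit 85468232191) (nat_lit 532) (nat_lit 250136483607) (nat_lit 59) (nat_lit 5) (nat_lit 65) (nat_lit 5) (nat_lit 66) (nat_lit 5) (nat_lit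 462) (nat_lit 454) (nat_lit 284)) (XT.nd (nat_lit 78) (nat_lit 228) (nat_lit 0) (XT.lf (nat_lit 0) (nat_lit 151557661987) (nat_lit 532) (nat_lit 147053829544) (nat_lit 76) (nat_lit 75774672165) (nat_lit 59) (nat_lit 5) (nat_lit 66) (nat_lit 5) (nat_lit 60) (nat_lit 5) (nat_lit 463) (nat_lit 454) (nat_lit 283)) (XT.lf (nat_lit 0) (nat_lit 57223676086) (nat_lit 228) (nat_lit 144321882346) (nat_lit 304) (nat_lit 189452060430) (nat_lit 56) (nat_lit 5) (nat_lit 59) (nat_lit 5) (nat_lit 60) (nat_lit 5) (nat_lit 464) (nat_lit 454) (nat_lit 282)))) (XT.nd (nat_lit 78) (nat_lit 228) (nat_lit 0) (XT.lf (nat_lit 0) (nat_lit 260194158698) (nat_lit 304) (nat_lit 123050941450) (nat_lit 76) (nat_lit 25319956554) (nat_lit 56) (nat_lit 5) (nat_lit 60) (nat_lit 5) (nat_lit 57) (nat_lit 5) (nat_lit 465) (nat_lit 454) (nat_lit 281)) (XT.nd (nat_lit 78) (nat_lit 0) (nat_lit 0) (XT.lf (nat_lit 0) (nat_lit 106088184683)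 (nat_lit 228) (nat_lit 223746457996) (nat_lit 304) (nat_lit 97199247259) (nat_lit 53) (nat_lit 5) (nat_lit 56) (nat_lit 5) (nat_lit 57) (nat_lit 5) (nat_lit 466) (nat_lit 454) (nat_lit 280)) (XT.lf (nat_lit 0) (nat_lit 360556402753) (nat_lit 228) (nat_lit 47854347667) (nat_lit 304) (nat_lit 38300328636) (nat_lit 53) (nat_lit 5) (nat_lit 56) (nat_lit 5) (nat_lit 57) (nat_lit 5) (nat_lit 467) (nat_lit 454) (nat_lit 279)))))) (XT.nd (nat_lit 390) (nat_lit 608) (nat_lit 0) (XT.nd (nat_lit 156) (nat_lit 380) (nat_lit 0) (XT.nd (nat_lit 78) (nat_lit 0) (nat_lit 0) (XT.lf (nat_lit 0) (nat_lit 31810614483) (nat_lit 228) (nat_lit 295524304377) (nat_lit 76) (nat_lit 139957527413) (nat_lit 50) (nat_lit 5) (nat_lit 53) (nat_lit 5) (nat_lit 51) (nat_lit 5) (nat_lit 468) (nat_lit 454) (nat_lit 278)) (XT.lf (nat_lit 0) (nat_lit 109120955327) (nat_lit 228) (nat_lit 36406417887) (nat_lit 76) (nat_lit 343620585789)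 (nat_lit 50) (nat_lit 5) (nat_lit 53) (nat_lit 5) (nat_lit 51) (nat_lit 5) (nat_lit 469) (nat_lit 454) (nat_lit 277))) (XT.nd (nat_lit 78) (nat_lit 152) (nat_lit 0) (XT.lf (nat_lit 0) (nat_lit 200161560540) (nat_lit 304) (nat_lit 257381274426) (nat_lit 76) (nat_lit 54605442835) (nat_lit 47) (nat_lit 5) (nat_lit 51) (nat_lit 5) (nat_lit 48) (nat_lit 5) (nat_lit 470) (nat_lit 454) (nat_lit 276)) (XT.nd (nat_lit 78) (nat_lit 0) (nat_lit 0) (XT.lf (nat_lit 0) (nat_lit 32200748175) (nat_lit 152) (nat_lit 271860260225) (nat_lit 228) (nat_lit 232481566181) (nat_lit 45) (nat_lit 5) (nat_lit 47) (nat_lit 5) (nat_lit 48) (nat_lit 5) (nat_lit 471) (nat_lit 454) (nat_lit 275)) (XT.lf (nat_lit 0) (nat_lit 359586783343) (nat_lit 152) (nat_lit 63722853204) (nat_lit 228) (nat_lit 139015800616) (nat_lit 45) (nat_lit 5) (nat_lit 47) (nat_lit 5) (nat_lit 48) (nat_lit 5) (nat_lit 472) (nat_lit 454) (nat_lit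 274))))) (XT.nd (nat_lit 234) (nat_lit 228) (nat_lit 0) (XT.nd (nat_lit 78) (nat_lit 228) (nat_lit 0) (XT.lf (nat_lit 0) (nat_lit 125391693686) (nat_lit 152) (nat_lit 433595731385) (nat_lit 228) (nat_lit 30632362084) (nat_lit 43) (nat_lit 5) (nat_lit 45) (nat_lit 5) (nat_lit 46) (nat_lit 5) (nat_lit 473) (nat_lit 454) (nat_lit 273)) (XT.nd (nat_lit 78) (nat_lit 152) (nat_lit 0) (XT.lf (nat_lit 0) (nat_lit 89440905830) (nat_lit 228) (nat_lit 131229444380) (nat_lit 76) (nat_lit 397673673705) (nat_lit 42) (nat_lit 5) (nat_lit 45) (nat_lit 5) (nat_lit 43) (nat_lit 5) (nat_lit 474) (nat_lit 454) (nat_lit 272)) (XT.lf (nat_lit 0) (nat_lit 223621165912) (nat_lit 228) (nat_lit 409636177356) (nat_lit 76) (nat_lit 15552718786) (nat_lit 40) (nat_lit 5) (nat_lit 43) (nat_lit 5) (nat_lit 41) (nat_lit 5) (nat_lit 475) (nat_lit 454) (nat_lit 271)))) (XT.nd (nat_lit 78) (nat_lit 228) (nat_lit 0) (XT.lf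 (nat_lit 0) (nat_lit 377948756108) (nat_lit 228) (nat_lit 40578664752) (nat_lit 76) (nat_lit 262432929647) (nat_lit 40) (nat_lit 5) (nat_lit 43) (nat_lit 5) (nat_lit 41) (nat_lit 5) (nat_lit 476) (nat_lit 454) (nat_lit 270)) (XT.nd (nat_lit 78) (nat_lit 76) (nat_lit 0) (XT.lf (nat_lit 0) (nat_lit 376855230576) (nat_lit 152) (nat_lit 176830672843) (nat_lit 228) (nat_lit 161271690637) (nat_lit 38) (nat_lit 5) (nat_lit 40) (nat_lit 5) (nat_lit 41) (nat_lit 5) (nat_lit 477) (nat_lit 454) (nat_lit 269)) (XT.lf (nat_lit 0) (nat_lit 80372357811) (nat_lit 76) (nat_lit 668205961300) (nat_lit 152) (nat_lit 2688594259) (nat_lit 37) (nat_lit 5) (nat_lit 38) (nat_lit 5) (nat_lit 39) (nat_lit 4) (nat_lit 478) (nat_lit 454) (nat_lit 268))))))) (XT.nd (nat_lit 858) (nat_lit 684) (nat_lit 0) (XT.nd (nat_lit 390) (nat_lit 304) (nat_lit 0) (XT.nd (nat_lit 156) (nat_lit 304) (nat_lit 0) (XT.nd (nat_lit 78)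 (nat_lit 152) (nat_lit 0) (XT.lf (nat_lit 0) (nat_lit 174225445847) (nat_lit 152) (nat_lit 247075736489) (nat_lit 76) (nat_lit 367729252812) (nat_lit 36) (nat_lit 5) (nat_lit 38) (nat_lit 5) (nat_lit 37) (nat_lit 5) (nat_lit 479) (nat_lit 454) (nat_lit 267)) (XT.lf (nat_lit 0) (nat_lit 221667415503) (nat_lit 152) (nat_lit 148811021840) (nat_lit 228) (nat_lit 458904528076) (nat_lit 34) (nat_lit 5) (nat_lit 36) (nat_lit 5) (nat_lit 37) (nat_lit 5) (nat_lit 480) (nat_lit 454) (nat_lit 266))) (XT.nd (nat_lit 78) (nat_lit 304) (nat_lit 0) (XT.lf (nat_lit 0) (nat_lit 592861357641) (nat_lit 228) (nat_lit 134136089750) (nat_lit 76) (nat_lit 145131875569) (nat_lit 34) (nat_lit 5) (nat_lit 37) (nat_lit 5) (nat_lit 35) (nat_lit 4) (nat_lit 481) (nat_lit 454) (nat_lit 265)) (XT.nd (nat_lit 78) (nat_lit 228) (nat_lit 0) (XT.lf (nat_lit 0) (nat_lit 393130444626) (nat_lit 76) (nat_lit 453224462619) (nat_lit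 152) (nat_lit 70874882209) (nat_lit 33) (nat_lit 5) (nat_lit 34) (nat_lit 5) (nat_lit 35) (nat_lit 4) (nat_lit 482) (nat_lit 454) (nat_lit 264)) (XT.lf (nat_lit 0) (nat_lit 798214731) (nat_lit 152) (nat_lit 149460195760) (nat_lit 228) (nat_lit 815080665317) (nat_lit 30) (nat_lit 5) (nat_lit 32) (nat_lit 5) (nat_lit 33) (nat_lit 5) (nat_lit 483) (nat_lit 454) (nat_lit 263))))) (XT.nd (nat_lit 234) (nat_lit 228) (nat_lit 0) (XT.nd (nat_lit 78) (nat_lit 76) (nat_lit 0) (XT.lf (nat_lit 0) (nat_lit 404250727541) (nat_lit 228) (nat_lit 425165754743) (nat_lit 76) (nat_lit 186213554670) (nat_lit 30) (nat_lit 5) (nat_lit 33) (nat_lit 5) (nat_lit 31) (nat_lit 4) (nat_lit 484) (nat_lit 454) (nat_lit 262)) (XT.nd (nat_lit 78) (nat_lit 0) (nat_lit 0) (XT.lf (nat_lit 0) (nat_lit 161559080660) (nat_lit 76) (nat_lit 524770911916) (nat_lit 152) (nat_lit 382992877411) (nat_lit 29) (nat_lit 5) (nat_lit 30)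 (nat_lit 5) (nat_lit 31) (nat_lit 4) (nat_lit 485) (nat_lit 454) (nat_lit 261)) (XT.lf (nat_lit 0) (nat_lit 819401421045) (nat_lit 76) (nat_lit 183198943454) (nat_lit 152) (nat_lit 123780783913) (nat_lit 29) (nat_lit 5) (nat_lit 30) (nat_lit 5) (nat_lit 31) (nat_lit 4) (nat_lit 486) (nat_lit 454) (nat_lit 260)))) (XT.nd (nat_lit 78) (nat_lit 76) (nat_lit 0) (XT.lf (nat_lit 0) (nat_lit 161701811664) (nat_lit 152) (nat_lit 835889276058) (nat_lit 76) (nat_lit 189044876982) (nat_lit 27) (nat_lit 5) (nat_lit 29) (nat_lit 5) (nat_lit 28) (nat_lit 4) (nat_lit 487) (nat_lit 454) (nat_lit 259)) (XT.nd (nat_lit 78) (nat_lit 76) (nat_lit 0) (XT.lf (nat_lit 0) (nat_lit 476705412654) (nat_lit 152) (nat_lit 180681812366) (nat_lit 76) (nat_lit 592997152446) (nat_lit 27) (nat_lit 5) (nat_lit 29) (nat_lit 5) (nat_lit 28) (nat_lit 4) (nat_lit 488) (nat_lit 454) (nat_lit 258)) (XT.lf (nat_lit 0) (nat_lit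 554690060577) (nat_lit 76) (nat_lit 275559533498) (nat_lit 152) (nat_lit 487915845788) (nat_lit 26) (nat_lit 5) (nat_lit 27) (nat_lit 5) (nat_lit 28) (nat_lit 4) (nat_lit 489) (nat_lit 454) (nat_lit 257)))))) (XT.nd (nat_lit 468) (nat_lit 304) (nat_lit 0) (XT.nd (nat_lit 234) (nat_lit 152) (nat_lit 0) (XT.nd (nat_lit 78) (nat_lit 228) (nat_lit 0) (XT.lf (nat_lit 0) (nat_lit 1220436159039) (nat_lit 152) (nat_lit 35225292464) (nat_lit 0) (nat_lit 135038827830) (nat_lit 26) (nat_lit 5) (nat_lit 28) (nat_lit 4) (nat_lit 26) (nat_lit 4) (nat_lit 490) (nat_lit 454) (nat_lit 256)) (XT.nd (nat_lit 78) (nat_lit 76) (nat_lit 0) (XT.lf (nat_lit 0) (nat_lit 190826864986) (nat_lit 152) (nat_lit 688477471416) (nat_lit 76) (nat_lit 587267401342) (nat_lit 24) (nat_lit 5) (nat_lit 26) (nat_lit 5) (nat_lit 25) (nat_lit 4) (nat_lit 491) (nat_lit 454) (nat_lit 255)) (XT.lf (nat_lit 0) (nat_lit 111160003980)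 (nat_lit 76) (nat_lit 464107963574) (nat_lit 152) (nat_lit 972598227829) (nat_lit 23) (nat_lit 5) (nat_lit 24) (nat_lit 5) (nat_lit 25) (nat_lit 4) (nat_lit 492) (nat_lit 454) (nat_lit 254)))) (XT.nd (nat_lit 78) (nat_lit 152) (nat_lit 0) (XT.lf (nat_lit 0) (nat_lit 1009399990975) (nat_lit 152) (nat_lit 620346955914) (nat_lit 0) (nat_lit 4402412134) (nat_lit 23) (nat_lit 5) (nat_lit 25) (nat_lit 4) (nat_lit 23) (nat_lit 4) (nat_lit 493) (nat_lit 454) (nat_lit 253)) (XT.nd (nat_lit 78) (nat_lit 76) (nat_lit 0) (XT.lf (nat_lit 0) (nat_lit 262392157421) (nat_lit 76) (nat_lit 1234235694678) (nat_lit 76) (nat_lit 229238101592) (nat_lit 22) (nat_lit 4) (nat_lit 23) (nat_lit 5) (nat_lit 23) (nat_lit 4) (nat_lit 494) (nat_lit 454) (nat_lit 252)) (XT.lf (nat_lit 0) (nat_lit 205415529503) (nat_lit 152) (nat_lit 577733304909) (nat_lit 76) (nat_lit 1039998100360) (nat_lit 21) (nat_lit 5) (nat_lit 23)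 (nat_lit 5) (nat_lit 22) (nat_lit 4) (nat_lit 495) (nat_lit 454) (nat_lit 251))))) (XT.nd (nat_lit 234) (nat_lit 152) (nat_lit 0) (XT.nd (nat_lit 78) (nat_lit 76) (nat_lit 0) (XT.lf (nat_lit 0) (nat_lit 392549057917) (nat_lit 76) (nat_lit 279348382662) (nat_lit 152) (nat_lit 1255081350752) (nat_lit 20) (nat_lit 5) (nat_lit 21) (nat_lit 5) (nat_lit 22) (nat_lit 4) (nat_lit 496) (nat_lit 454) (nat_lit 250)) (XT.nd (nat_lit 78) (nat_lit 76) (nat_lit 0) (XT.lf (nat_lit 0) (nat_lit 1198271826924) (nat_lit 152) (nat_lit 571320989699) (nat_lit 0) (nat_lit 267718466002) (nat_lit 20) (nat_lit 5) (nat_lit 22) (nat_lit 4) (nat_lit 20) (nat_lit 4) (nat_lit 497) (nat_lit 454) (nat_lit 249)) (XT.lf (nat_lit 0) (nat_lit 485886645871) (nat_lit 76) (nat_lit 1299810893959) (nat_lit 76) (nat_lit 369257523342) (nat_lit 19) (nat_lit 4) (nat_lit 20) (nat_lit 5) (nat_lit 20) (nat_lit 4) (nat_lit 498) (nat_lit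 454) (nat_lit 248)))) (XT.nd (nat_lit 78) (nat_lit 76) (nat_lit 0) (XT.lf (nat_lit 0) (nat_lit 147224948698) (nat_lit 152) (nat_lit 624325486300) (nat_lit 76) (nat_lit 1508912060722) (nat_lit 18) (nat_lit 5) (nat_lit 20) (nat_lit 5) (nat_lit 19) (nat_lit 4) (nat_lit 499) (nat_lit 454) (nat_lit 247)) (XT.nd (nat_lit 78) (nat_lit 0) (nat_lit 0) (XT.lf (nat_lit 0) (nat_lit 520440283790) (nat_lit 76) (nat_lit 177152827601) (nat_lit 152) (nat_lit 1716648795902) (nat_lit 17) (nat_lit 5) (nat_lit 18) (nat_lit 5) (nat_lit 19) (nat_lit 4) (nat_lit 500) (nat_lit 454) (nat_lit 246)) (XT.lf (nat_lit 0) (nat_lit 1320682631316) (nat_lit 152) (nat_lit 776686571269) (nat_lit 0) (nat_lit 459059116870) (nat_lit 17) (nat_lit 5) (nat_lit 19) (nat_lit 4) (nat_lit 17) (nat_lit 4) (nat_lit 501) (nat_lit 454) (nat_lit 245))))))))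
noncomputable def xc213 : XT := (XT.nd (nat_lit 58890) (nat_lit 0) (nat_lit 2508) (XT.nd (nat_lit 858) (nat_lit 380) (nat_lit 0) (XT.nd (nat_lit 390) (nat_lit 304) (nat_lit 0) (XT.nd (nat_lit 156) (nat_lit 152) (nat_lit 0) (XT.nd (nat_lit 78) (nat_lit 0) (nat_lit 0) (XT.lf (nat_lit 0) (nat_lit 447586376133) (nat_lit 76) (nat_lit 1561398761749) (nat_lit 76) (nat_lit 699775240705) (nat_lit 16) (nat_lit 4) (nat_lit 17) (nat_lit 5) (nat_lit 17) (nat_lit 4) (nat_lit 502) (nat_lit 454) (nat_lit 244)) (XT.lf (nat_lit 0) (nat_lit 1813971993217) (nat_lit 76) (nat_lit 959615829101) (nat_lit 76) (nat_lit 97992301947) (nat_lit 16) (nat_lit 4) (nat_lit 17) (nat_lit 5) (nat_lit 17) (nat_lit 4) (nat_lit 503) (nat_lit 454) (nat_lit 243))) (XT.nd (nat_lit 78) (nat_lit 0) (nat_lit 0) (XT.lf (nat_lit 0) (nat_lit 241026083814) (nat_lit 76) (nat_lit 289093924178) (nat_lit 152) (nat_lit 2515779787032) (nat_lit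 14) (nat_lit 5) (nat_lit 15) (nat_lit 5) (nat_lit 16) (nat_lit 4) (nat_lit 504) (nat_lit 454) (nat_lit 242)) (XT.nd (nat_lit 78) (nat_lit 0) (nat_lit 0) (XT.lf (nat_lit 0) (nat_lit 1243318569681) (nat_lit 152) (nat_lit 1541913340260) (nat_lit 0) (nat_lit 445518997414) (nat_lit 14) (nat_lit 5) (nat_lit 16) (nat_lit 4) (nat_lit 14) (nat_lit 4) (nat_lit 505) (nat_lit 454) (nat_lit 241)) (XT.lf (nat_lit 0) (nat_lit 2021081940712) (nat_lit 152) (nat_lit 185425090055) (nat_lit 0) (nat_lit 1223282363955) (nat_lit 14) (nat_lit 5) (nat_lit 16) (nat_lit 4) (nat_lit 14) (nat_lit 4) (nat_lit 506) (nat_lit 454) (nat_lit 240))))) (XT.nd (nat_lit 234) (nat_lit 76) (nat_lit 0) (XT.nd (nat_lit 78) (nat_lit 152) (nat_lit 0) (XT.lf (nat_lit 0) (nat_lit 1346962735378) (nat_lit 76) (nat_lit 1546498124183) (nat_lit 76) (nat_lit 748698543267) (nat_lit 13) (nat_lit 4) (nat_lit 14) (nat_lit 5) (nat_lit 14) (nat_lit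 4) (nat_lit 507) (nat_lit 454) (nat_lit 239)) (XT.nd (nat_lit 78) (nat_lit 152) (nat_lit 0) (XT.lf (nat_lit 0) (nat_lit 3012486860384) (nat_lit 76) (nat_lit 828213074273) (nat_lit 76) (nat_lit 30413489507) (nat_lit 13) (nat_lit 4) (nat_lit 14) (nat_lit 5) (nat_lit 14) (nat_lit 4) (nat_lit 508) (nat_lit 454) (nat_lit 238)) (XT.lf (nat_lit 0) (nat_lit 710485169483) (nat_lit 76) (nat_lit 14651733311) (nat_lit 152) (nat_lit 3390445865415) (nat_lit 11) (nat_lit 5) (nat_lit 12) (nat_lit 5) (nat_lit 13) (nat_lit 4) (nat_lit 509) (nat_lit 454) (nat_lit 237)))) (XT.nd (nat_lit 78) (nat_lit 76) (nat_lit 0) (XT.lf (nat_lit 0) (nat_lit 1584353437307) (nat_lit 152) (nat_lit 1945953695549) (nat_lit 0) (nat_lit 845650111723) (nat_lit 11) (nat_lit 5) (nat_lit 13) (nat_lit 4) (nat_lit 11) (nat_lit 4) (nat_lit 510) (nat_lit 454) (nat_lit 236)) (XT.nd (nat_lit 78) (nat_lit 76) (nat_lit 0) (XT.lf (nat_lit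 0) (nat_lit 2512687852224) (nat_lit 152) (nat_lit 370458858414) (nat_lit 0) (nat_lit 1773984523811) (nat_lit 11) (nat_lit 5) (nat_lit 13) (nat_lit 4) (nat_lit 11) (nat_lit 4) (nat_lit 511) (nat_lit 454) (nat_lit 235)) (XT.lf (nat_lit 0) (nat_lit 1401167632668) (nat_lit 76) (nat_lit 2147819496580) (nat_lit 76) (nat_lit 1409116165546) (nat_lit 10) (nat_lit 4) (nat_lit 11) (nat_lit 5) (nat_lit 11) (nat_lit 4) (nat_lit 512) (nat_lit 454) (nat_lit 234)))))) (XT.nd (nat_lit 390) (nat_lit 228) (nat_lit 0) (XT.nd (nat_lit 156) (nat_lit 76) (nat_lit 0) (XT.nd (nat_lit 78) (nat_lit 76) (nat_lit 0) (XT.lf (nat_lit 0) (nat_lit 3335592554122) (nat_lit 76) (nat_lit 1342726789832) (nat_lit 76) (nat_lit 604023456372) (nat_lit 10) (nat_lit 4) (nat_lit 11) (nat_lit 5) (nat_lit 11) (nat_lit 4) (nat_lit 513) (nat_lit 454) (nat_lit 233)) (XT.lf (nat_lit 0) (nat_lit 252196445467) (nat_lit 152) (nat_lit 214134729133)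 (nat_lit 76) (nat_lit 5165679514548) (nat_lit 9) (nat_lit 5) (nat_lit 11) (nat_lit 5) (nat_lit 10) (nat_lit 4) (nat_lit 514) (nat_lit 454) (nat_lit 232))) (XT.nd (nat_lit 78) (nat_lit 0) (nat_lit 0) (XT.lf (nat_lit 0) (nat_lit 1198870524008) (nat_lit 152) (nat_lit 4290273256199) (nat_lit 0) (nat_lit 514885951984) (nat_lit 8) (nat_lit 5) (nat_lit 10) (nat_lit 4) (nat_lit 8) (nat_lit 4) (nat_lit 515) (nat_lit 454) (nat_lit 231)) (XT.nd (nat_lit 78) (nat_lit 0) (nat_lit 0) (XT.lf (nat_lit 0) (nat_lit 2239397917753) (nat_lit 152) (nat_lit 2609549485865) (nat_lit 0) (nat_lit 1555413343945) (nat_lit 8) (nat_lit 5) (nat_lit 10) (nat_lit 4) (nat_lit 8) (nat_lit 4) (nat_lit 516) (nat_lit 454) (nat_lit 230)) (XT.lf (nat_lit 0) (nat_lit 3363167497979) (nat_lit 152) (nat_lit 794367824068) (nat_lit 0) (nat_lit 2679182922520) (nat_lit 8) (nat_lit 5) (nat_lit 10) (nat_lit 4) (nat_lit 8) (nat_lit 4) (nat_lit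 517) (nat_lit 454) (nat_lit 229))))) (XT.nd (nat_lit 234) (nat_lit 152) (nat_lit 0) (XT.nd (nat_lit 78) (nat_lit 0) (nat_lit 0) (XT.lf (nat_lit 0) (nat_lit 1227429348386) (nat_lit 76) (nat_lit 3378928996939) (nat_lit 76) (nat_lit 2694944419951) (nat_lit 7) (nat_lit 4) (nat_lit 8) (nat_lit 5) (nat_lit 8) (nat_lit 4) (nat_lit 518) (nat_lit 454) (nat_lit 228)) (XT.nd (nat_lit 78) (nat_lit 0) (nat_lit 0) (XT.lf (nat_lit 0) (nat_lit 3456146687492) (nat_lit 76) (nat_lit 2514577192495) (nat_lit 76) (nat_lit 1830592614092) (nat_lit 7) (nat_lit 4) (nat_lit 8) (nat_lit 5) (nat_lit 8) (nat_lit 4) (nat_lit 519) (nat_lit 454) (nat_lit 227)) (XT.lf (nat_lit 0) (nat_lit 5863161405234) (nat_lit 76) (nat_lit 1581077248001) (nat_lit 76) (nat_lit 897092668287) (nat_lit 7) (nat_lit 4) (nat_lit 8) (nat_lit 5) (nat_lit 8) (nat_lit 4) (nat_lit 520) (nat_lit 454) (nat_lit 226)))) (XT.nd (nat_lit 78) (nat_lit 76)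 (nat_lit 0) (XT.lf (nat_lit 0) (nat_lit 105530233892) (nat_lit 152) (nat_lit 464481694430) (nat_lit 76) (nat_lit 8354321675028) (nat_lit 6) (nat_lit 5) (nat_lit 8) (nat_lit 5) (nat_lit 7) (nat_lit 4) (nat_lit 521) (nat_lit 454) (nat_lit 225)) (XT.nd (nat_lit 57252) (nat_lit 0) (nat_lit 4864) (XT.lf (nat_lit 0) (nat_lit 1196872713169) (nat_lit 152) (nat_lit 7787127526173) (nat_lit 0) (nat_lit 563553655714) (nat_lit 5) (nat_lit 5) (nat_lit 7) (nat_lit 4) (nat_lit 5) (nat_lit 4) (nat_lit 522) (nat_lit 454) (nat_lit 224)) (XT.lf (nat_lit 0) (nat_lit 128399893936) (nat_lit 532) (nat_lit 5826691208) (nat_lit 532) (nat_lit 5826691208) (nat_lit 69) (nat_lit 3) (nat_lit 76) (nat_lit 3) (nat_lit 76) (nat_lit 5) (nat_lit 455) (nat_lit 455) (nat_lit 290))))))) (XT.nd (nat_lit 858) (nat_lit 1368) (nat_lit 0) (XT.nd (nat_lit 390) (nat_lit 532) (nat_lit 0) (XT.nd (nat_lit 156) (nat_lit 456) (nat_lit 0)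 (XT.nd (nat_lit 78) (nat_lit 0) (nat_lit 76) (XT.lf (nat_lit 76) (nat_lit 132217551465) (nat_lit 0) (nat_lit 138034845958) (nat_lit 532) (nat_lit 20803967420) (nat_lit 70) (nat_lit 5) (nat_lit 69) (nat_lit 3) (nat_lit 76) (nat_lit 5) (nat_lit 456) (nat_lit 455) (nat_lit 289)) (XT.lf (nat_lit 0) (nat_lit 285175784849) (nat_lit 456) (nat_lit 14671849097) (nat_lit 532) (nat_lit 3002962531) (nat_lit 70) (nat_lit 5) (nat_lit 76) (nat_lit 5) (nat_lit 77) (nat_lit 5) (nat_lit 457) (nat_lit 455) (nat_lit 288))) (XT.nd (nat_lit 78) (nat_lit 532) (nat_lit 0) (XT.lf (nat_lit 76) (nat_lit 144680613975) (nat_lit 0) (nat_lit 163677249486) (nat_lit 532) (nat_lit 6665317613) (nat_lit 71) (nat_lit 5) (nat_lit 70) (nat_lit 5) (nat_lit 77) (nat_lit 5) (nat_lit 458) (nat_lit 455) (nat_lit 287)) (XT.nd (nat_lit 78) (nat_lit 0) (nat_lit 76) (XT.lf (nat_lit 0) (nat_lit 5375067130) (nat_lit 532) (nat_lit 10657934845)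 (nat_lit 608) (nat_lit 312093597426) (nat_lit 63) (nat_lit 5) (nat_lit 70) (nat_lit 5) (nat_lit 71) (nat_lit 5) (nat_lit 459) (nat_lit 455) (nat_lit 286)) (XT.lf (nat_lit 0) (nat_lit 25670473495) (nat_lit 532) (nat_lit 175357842819) (nat_lit 608) (nat_lit 140623973620) (nat_lit 64) (nat_lit 5) (nat_lit 71) (nat_lit 5) (nat_lit 72) (nat_lit 5) (nat_lit 460) (nat_lit 455) (nat_lit 285))))) (XT.nd (nat_lit 234) (nat_lit 228) (nat_lit 0) (XT.nd (nat_lit 78) (nat_lit 380) (nat_lit 0) (XT.lf (nat_lit 76) (nat_lit 1419363480) (nat_lit 0) (nat_lit 46919641084) (nat_lit 608) (nat_lit 307861071805) (nat_lit 65) (nat_lit 5) (nat_lit 64) (nat_lit 5) (nat_lit 72) (nat_lit 5) (nat_lit 461) (nat_lit 455) (nat_lit 284)) (XT.nd (nat_lit 78) (nat_lit 456) (nat_lit 0) (XT.lf (nat_lit 0) (nat_lit 80614493999) (nat_lit 532) (nat_lit 172215609580) (nat_lit 76) (nat_lit 118458104103) (nat_lit 65) (nat_lit 5)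 (nat_lit 72) (nat_lit 5) (nat_lit 66) (nat_lit 5) (nat_lit 462) (nat_lit 455) (nat_lit 283)) (XT.lf (nat_lit 0) (nat_lit 24985853189) (nat_lit 456) (nat_lit 92305718544) (nat_lit 532) (nat_lit 270146253866) (nat_lit 59) (nat_lit 5) (nat_lit 65) (nat_lit 5) (nat_lit 66) (nat_lit 5) (nat_lit 463) (nat_lit 455) (nat_lit 282)))) (XT.nd (nat_lit 78) (nat_lit 228) (nat_lit 0) (XT.lf (nat_lit 0) (nat_lit 163683258406) (nat_lit 532) (nat_lit 158817097649) (nat_lit 76) (nat_lit 81836621504) (nat_lit 59) (nat_lit 5) (nat_lit 66) (nat_lit 5) (nat_lit 60) (nat_lit 5) (nat_lit 464) (nat_lit 455) (nat_lit 281)) (XT.nd (nat_lit 78) (nat_lit 0) (nat_lit 0) (XT.lf (nat_lit 0) (nat_lit 61802582147) (nat_lit 228) (nat_lit 155867555910) (nat_lit 304) (nat_lit 204607215005) (nat_lit 56) (nat_lit 5) (nat_lit 59) (nat_lit 5) (nat_lit 60) (nat_lit 5) (nat_lit 465) (nat_lit 455) (nat_lit 280)) (XT.lf (nat_lit 0)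 (nat_lit 281010558802) (nat_lit 304) (nat_lit 132894011737) (nat_lit 76) (nat_lit 27345620829) (nat_lit 56) (nat_lit 5) (nat_lit 60) (nat_lit 5) (nat_lit 57) (nat_lit 5) (nat_lit 466) (nat_lit 455) (nat_lit 279)))))) (XT.nd (nat_lit 468) (nat_lit 532) (nat_lit 0) (XT.nd (nat_lit 234) (nat_lit 380) (nat_lit 0) (XT.nd (nat_lit 78) (nat_lit 228) (nat_lit 0) (XT.lf (nat_lit 0) (nat_lit 114576219043) (nat_lit 228) (nat_lit 241646021766) (nat_lit 304) (nat_lit 104974293746) (nat_lit 53) (nat_lit 5) (nat_lit 56) (nat_lit 5) (nat_lit 57) (nat_lit 5) (nat_lit 467) (nat_lit 455) (nat_lit 278)) (XT.nd (nat_lit 78) (nat_lit 228) (nat_lit 0) (XT.lf (nat_lit 0) (nat_lit 389401821997) (nat_lit 228) (nat_lit 51682553934) (nat_lit 304) (nat_lit 41363527803) (nat_lit 53) (nat_lit 5) (nat_lit 56) (nat_lit 5) (nat_lit 57) (nat_lit 5) (nat_lit 468) (nat_lit 455) (nat_lit 277)) (XT.lf (nat_lit 0) (nat_lit 34356217634)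 (nat_lit 228) (nat_lit 319165267845) (nat_lit 76) (nat_lit 151154295826) (nat_lit 50) (nat_lit 5) (nat_lit 53) (nat_lit 5) (nat_lit 51) (nat_lit 5) (nat_lit 469) (nat_lit 455) (nat_lit 276)))) (XT.nd (nat_lit 78) (nat_lit 380) (nat_lit 0) (XT.lf (nat_lit 0) (nat_lit 117851329895) (nat_lit 228) (nat_lit 39318023094) (nat_lit 76) (nat_lit 371110386560) (nat_lit 50) (nat_lit 5) (nat_lit 53) (nat_lit 5) (nat_lit 51) (nat_lit 5) (nat_lit 470) (nat_lit 455) (nat_lit 275)) (XT.nd (nat_lit 78) (nat_lit 152) (nat_lit 0) (XT.lf (nat_lit 0) (nat_lit 216175158331) (nat_lit 304) (nat_lit 277970842663) (nat_lit 76) (nat_lit 58974084895) (nat_lit 47) (nat_lit 5) (nat_lit 51) (nat_lit 5) (nat_lit 48) (nat_lit 5) (nat_lit 471) (nat_lit 455) (nat_lit 274)) (XT.lf (nat_lit 0) (nat_lit 34777718109) (nat_lit 152) (nat_lit 293608815951) (nat_lit 228) (nat_lit 251079394611) (nat_lit 45) (nat_lit 5) (nat_lit 47)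 (nat_lit 5) (nat_lit 48) (nat_lit 5) (nat_lit 472) (nat_lit 455) (nat_lit 273))))) (XT.nd (nat_lit 234) (nat_lit 304) (nat_lit 0) (XT.nd (nat_lit 78) (nat_lit 228) (nat_lit 0) (XT.lf (nat_lit 0) (nat_lit 388354568676) (nat_lit 152) (nat_lit 68820436005) (nat_lit 228) (nat_lit 150136419420) (nat_lit 45) (nat_lit 5) (nat_lit 47) (nat_lit 5) (nat_lit 48) (nat_lit 5) (nat_lit 473) (nat_lit 455) (nat_lit 272)) (XT.nd (nat_lit 78) (nat_lit 76) (nat_lit 0) (XT.lf (nat_lit 0) (nat_lit 135423891577) (nat_lit 152) (nat_lit 468283106678) (nat_lit 228) (nat_lit 33082325298) (nat_lit 43) (nat_lit 5) (nat_lit 45) (nat_lit 5) (nat_lit 46) (nat_lit 5) (nat_lit 474) (nat_lit 455) (nat_lit 271)) (XT.lf (nat_lit 0) (nat_lit 96596728713) (nat_lit 228) (nat_lit 141726972227) (nat_lit 76) (nat_lit 429487800651) (nat_lit 42) (nat_lit 5) (nat_lit 45) (nat_lit 5) (nat_lit 43) (nat_lit 5) (nat_lit 475) (nat_lit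 455) (nat_lit 270)))) (XT.nd (nat_lit 78) (nat_lit 152) (nat_lit 0) (XT.lf (nat_lit 0) (nat_lit 241511394911) (nat_lit 228) (nat_lit 442406228961) (nat_lit 76) (nat_lit 16797200099) (nat_lit 40) (nat_lit 5) (nat_lit 43) (nat_lit 5) (nat_lit 41) (nat_lit 5) (nat_lit 476) (nat_lit 455) (nat_lit 269)) (XT.nd (nat_lit 78) (nat_lit 152) (nat_lit 0) (XT.lf (nat_lit 0) (nat_lit 408185152639) (nat_lit 228) (nat_lit 43824177763) (nat_lit 76) (nat_lit 283427808288) (nat_lit 40) (nat_lit 5) (nat_lit 43) (nat_lit 5) (nat_lit 41) (nat_lit 5) (nat_lit 477) (nat_lit 455) (nat_lit 268)) (XT.lf (nat_lit 0) (nat_lit 407004409441) (nat_lit 152) (nat_lit 190976843838) (nat_lit 228) (nat_lit 174172909932) (nat_lit 38) (nat_lit 5) (nat_lit 40) (nat_lit 5) (nat_lit 41) (nat_lit 5) (nat_lit 478) (nat_lit 455) (nat_lit 267))))))))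
noncomputable def xc214 : XT := (XT.nd (nat_lit 1716) (nat_lit 912) (nat_lit 0) (XT.nd (nat_lit 858) (nat_lit 684) (nat_lit 0) (XT.nd (nat_lit 390) (nat_lit 456) (nat_lit 0) (XT.nd (nat_lit 156) (nat_lit 228) (nat_lit 0) (XT.nd (nat_lit 78) (nat_lit 76) (nat_lit 0) (XT.lf (nat_lit 0) (nat_lit 86802918371) (nat_lit 76) (nat_lit 721662133342) (nat_lit 152) (nat_lit 2903177210) (nat_lit 37) (nat_lit 5) (nat_lit 38) (nat_lit 5) (nat_lit 39) (nat_lit 4) (nat_lit 479) (nat_lit 455) (nat_lit 266)) (XT.lf (nat_lit 0) (nat_lit 188163925355) (nat_lit 152) (nat_lit 266841057153) (nat_lit 76) (nat_lit 397147851816) (nat_lit 36) (nat_lit 5) (nat_lit 38) (nat_lit 5) (nat_lit 37) (nat_lit 5) (nat_lit 480) (nat_lit 455) (nat_lit 265))) (XT.nd (nat_lit 78) (nat_lit 76) (nat_lit 0) (XT.lf (nat_lit 0) (nat_lit 239401528308) (nat_lit 152) (nat_lit 160715612291) (nat_lit 228) (nat_lit 495616427673) (nat_lit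 34) (nat_lit 5) (nat_lit 36) (nat_lit 5) (nat_lit 37) (nat_lit 5) (nat_lit 481) (nat_lit 455) (nat_lit 264)) (XT.nd (nat_lit 78) (nat_lit 76) (nat_lit 0) (XT.lf (nat_lit 0) (nat_lit 640290669284) (nat_lit 228) (nat_lit 144866285318) (nat_lit 76) (nat_lit 156742681841) (nat_lit 34) (nat_lit 5) (nat_lit 37) (nat_lit 5) (nat_lit 35) (nat_lit 4) (nat_lit 482) (nat_lit 455) (nat_lit 263)) (XT.lf (nat_lit 0) (nat_lit 424581554298) (nat_lit 76) (nat_lit 489482134917) (nat_lit 152) (nat_lit 76544452142) (nat_lit 33) (nat_lit 5) (nat_lit 34) (nat_lit 5) (nat_lit 35) (nat_lit 4) (nat_lit 483) (nat_lit 455) (nat_lit 262))))) (XT.nd (nat_lit 234) (nat_lit 152) (nat_lit 0) (XT.nd (nat_lit 78) (nat_lit 76) (nat_lit 0) (XT.lf (nat_lit 0) (nat_lit 862749547) (nat_lit 152) (nat_lit 161416720081) (nat_lit 228) (nat_lit 880286701253) (nat_lit 30) (nat_lit 5) (nat_lit 32) (nat_lit 5) (nat_lit 33) (nat_lit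 5) (nat_lit 484) (nat_lit 455) (nat_lit 261)) (XT.nd (nat_lit 78) (nat_lit 76) (nat_lit 0) (XT.lf (nat_lit 0) (nat_lit 436591149915) (nat_lit 228) (nat_lit 459178365472) (nat_lit 76) (nat_lit 201110895309) (nat_lit 30) (nat_lit 5) (nat_lit 33) (nat_lit 5) (nat_lit 31) (nat_lit 4) (nat_lit 485) (nat_lit 455) (nat_lit 260)) (XT.lf (nat_lit 0) (nat_lit 174484440317) (nat_lit 76) (nat_lit 566752304090) (nat_lit 152) (nat_lit 413631926911) (nat_lit 29) (nat_lit 5) (nat_lit 30) (nat_lit 5) (nat_lit 31) (nat_lit 4) (nat_lit 486) (nat_lit 455) (nat_lit 259)))) (XT.nd (nat_lit 78) (nat_lit 152) (nat_lit 0) (XT.lf (nat_lit 0) (nat_lit 884954121029) (nat_lit 76) (nat_lit 197854598949) (nat_lit 152) (nat_lit 133682894133) (nat_lit 29) (nat_lit 5) (nat_lit 30) (nat_lit 5) (nat_lit 31) (nat_lit 4) (nat_lit 487) (nat_lit 455) (nat_lit 258)) (XT.nd (nat_lit 78) (nat_lit 0) (nat_lit 0) (XT.lf (nat_lit 0)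 (nat_lit 174638287173) (nat_lit 152) (nat_lit 902759809801) (nat_lit 76) (nat_lit 204168718402) (nat_lit 27) (nat_lit 5) (nat_lit 29) (nat_lit 5) (nat_lit 28) (nat_lit 4) (nat_lit 488) (nat_lit 455) (nat_lit 257)) (XT.lf (nat_lit 0) (nat_lit 514842151755) (nat_lit 152) (nat_lit 195135794076) (nat_lit 76) (nat_lit 640437157291) (nat_lit 27) (nat_lit 5) (nat_lit 29) (nat_lit 5) (nat_lit 28) (nat_lit 4) (nat_lit 489) (nat_lit 455) (nat_lit 256)))))) (XT.nd (nat_lit 390) (nat_lit 380) (nat_lit 0) (XT.nd (nat_lit 156) (nat_lit 228) (nat_lit 0) (XT.nd (nat_lit 78) (nat_lit 0) (nat_lit 0) (XT.lf (nat_lit 0) (nat_lit 599065814442) (nat_lit 76) (nat_lit 297604043778) (nat_lit 152) (nat_lit 526948793052) (nat_lit 26) (nat_lit 5) (nat_lit 27) (nat_lit 5) (nat_lit 28) (nat_lit 4) (nat_lit 490) (nat_lit 455) (nat_lit 255)) (XT.lf (nat_lit 0) (nat_lit 1318071332030) (nat_lit 152) (nat_lit 38042791112)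 (nat_lit 0) (nat_lit 145842156069) (nat_lit 26) (nat_lit 5) (nat_lit 28) (nat_lit 4) (nat_lit 26) (nat_lit 4) (nat_lit 491) (nat_lit 455) (nat_lit 254))) (XT.nd (nat_lit 78) (nat_lit 76) (nat_lit 0) (XT.lf (nat_lit 0) (nat_lit 206093293095) (nat_lit 152) (nat_lit 743555142937) (nat_lit 76) (nat_lit 634249018378) (nat_lit 24) (nat_lit 5) (nat_lit 26) (nat_lit 5) (nat_lit 25) (nat_lit 4) (nat_lit 492) (nat_lit 455) (nat_lit 253)) (XT.nd (nat_lit 78) (nat_lit 0) (nat_lit 0) (XT.lf (nat_lit 0) (nat_lit 120053317169) (nat_lit 76) (nat_lit 501236358373) (nat_lit 152) (nat_lit 1050405793787) (nat_lit 23) (nat_lit 5) (nat_lit 24) (nat_lit 5) (nat_lit 25) (nat_lit 4) (nat_lit 493) (nat_lit 455) (nat_lit 252)) (XT.lf (nat_lit 0) (nat_lit 1090152246190) (nat_lit 152) (nat_lit 669974222824) (nat_lit 0) (nat_lit 4754818222) (nat_lit 23) (nat_lit 5) (nat_lit 25) (nat_lit 4) (nat_lit 23) (nat_lit 4) (nat_lit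 494) (nat_lit 455) (nat_lit 251))))) (XT.nd (nat_lit 234) (nat_lit 152) (nat_lit 0) (XT.nd (nat_lit 78) (nat_lit 152) (nat_lit 0) (XT.lf (nat_lit 0) (nat_lit 283384007185) (nat_lit 76) (nat_lit 1332974321536) (nat_lit 76) (nat_lit 247576881356) (nat_lit 22) (nat_lit 4) (nat_lit 23) (nat_lit 5) (nat_lit 23) (nat_lit 4) (nat_lit 495) (nat_lit 455) (nat_lit 250)) (XT.nd (nat_lit 78) (nat_lit 76) (nat_lit 0) (XT.lf (nat_lit 0) (nat_lit 221849007916) (nat_lit 152) (nat_lit 623951515020) (nat_lit 76) (nat_lit 1123198147705) (nat_lit 21) (nat_lit 5) (nat_lit 23) (nat_lit 5) (nat_lit 22) (nat_lit 4) (nat_lit 496) (nat_lit 455) (nat_lit 249)) (XT.lf (nat_lit 0) (nat_lit 423953425331) (nat_lit 76) (nat_lit 301696039711) (nat_lit 152) (nat_lit 1355487611232) (nat_lit 20) (nat_lit 5) (nat_lit 21) (nat_lit 5) (nat_lit 22) (nat_lit 4) (nat_lit 497) (nat_lit 455) (nat_lit 248)))) (XT.nd (nat_lit 78) (nat_lit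 152) (nat_lit 0) (XT.lf (nat_lit 0) (nat_lit 1294133790072) (nat_lit 152) (nat_lit 617026246646) (nat_lit 0) (nat_lit 289136131134) (nat_lit 20) (nat_lit 5) (nat_lit 22) (nat_lit 4) (nat_lit 20) (nat_lit 4) (nat_lit 498) (nat_lit 455) (nat_lit 247)) (XT.nd (nat_lit 78) (nat_lit 76) (nat_lit 0) (XT.lf (nat_lit 0) (nat_lit 524757989080) (nat_lit 76) (nat_lit 1403795564754) (nat_lit 76) (nat_lit 398797897504) (nat_lit 19) (nat_lit 4) (nat_lit 20) (nat_lit 5) (nat_lit 20) (nat_lit 4) (nat_lit 499) (nat_lit 455) (nat_lit 246)) (XT.lf (nat_lit 0) (nat_lit 159003144885) (nat_lit 152) (nat_lit 674271133583) (nat_lit 76) (nat_lit 1629625200868) (nat_lit 18) (nat_lit 5) (nat_lit 20) (nat_lit 5) (nat_lit 19) (nat_lit 4) (nat_lit 500) (nat_lit 455) (nat_lit 245))))))) (XT.nd (nat_lit 858) (nat_lit 380) (nat_lit 0) (XT.nd (nat_lit 390) (nat_lit 228) (nat_lit 0) (XT.nd (nat_lit 156) (nat_lit 228) (nat_lit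 0) (XT.nd (nat_lit 78) (nat_lit 0) (nat_lit 0) (XT.lf (nat_lit 0) (nat_lit 562075888200) (nat_lit 76) (nat_lit 191324866737) (nat_lit 152) (nat_lit 1853980489351) (nat_lit 17) (nat_lit 5) (nat_lit 18) (nat_lit 5) (nat_lit 19) (nat_lit 4) (nat_lit 501) (nat_lit 455) (nat_lit 244)) (XT.lf (nat_lit 0) (nat_lit 1426337426205) (nat_lit 152) (nat_lit 838821133271) (nat_lit 0) (nat_lit 495784010770) (nat_lit 17) (nat_lit 5) (nat_lit 19) (nat_lit 4) (nat_lit 17) (nat_lit 4) (nat_lit 502) (nat_lit 455) (nat_lit 243))) (XT.nd (nat_lit 78) (nat_lit 152) (nat_lit 0) (XT.lf (nat_lit 0) (nat_lit 483393640716) (nat_lit 76) (nat_lit 1686310487448) (nat_lit 76) (nat_lit 755757066356) (nat_lit 16) (nat_lit 4) (nat_lit 17) (nat_lit 5) (nat_lit 17) (nat_lit 4) (nat_lit 503) (nat_lit 455) (nat_lit 242)) (XT.nd (nat_lit 78) (nat_lit 152) (nat_lit 0) (XT.lf (nat_lit 0) (nat_lit 1959090080908) (nat_lit 76) (nat_lit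 1036384933168) (nat_lit 76) (nat_lit 105831506838) (nat_lit 16) (nat_lit 4) (nat_lit 17) (nat_lit 5) (nat_lit 17) (nat_lit 4) (nat_lit 504) (nat_lit 455) (nat_lit 241)) (XT.lf (nat_lit 0) (nat_lit 260308499195) (nat_lit 76) (nat_lit 312221275022) (nat_lit 152) (nat_lit 2717041991149) (nat_lit 14) (nat_lit 5) (nat_lit 15) (nat_lit 5) (nat_lit 16) (nat_lit 4) (nat_lit 505) (nat_lit 455) (nat_lit 240))))) (XT.nd (nat_lit 234) (nat_lit 152) (nat_lit 0) (XT.nd (nat_lit 78) (nat_lit 76) (nat_lit 0) (XT.lf (nat_lit 0) (nat_lit 1342784212209) (nat_lit 152) (nat_lit 1665266094506) (nat_lit 0) (nat_lit 481160660662) (nat_lit 14) (nat_lit 5) (nat_lit 16) (nat_lit 4) (nat_lit 14) (nat_lit 4) (nat_lit 506) (nat_lit 455) (nat_lit 239)) (XT.nd (nat_lit 78) (nat_lit 76) (nat_lit 0) (XT.lf (nat_lit 0) (nat_lit 2182768641296) (nat_lit 152) (nat_lit 200258807468) (nat_lit 0) (nat_lit 1321145085900) (nat_lit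 14) (nat_lit 5) (nat_lit 16) (nat_lit 4) (nat_lit 14) (nat_lit 4) (nat_lit 507) (nat_lit 455) (nat_lit 238)) (XT.lf (nat_lit 0) (nat_lit 1454720036664) (nat_lit 76) (nat_lit 1670217833017) (nat_lit 76) (nat_lit 808594274056) (nat_lit 13) (nat_lit 4) (nat_lit 14) (nat_lit 5) (nat_lit 14) (nat_lit 4) (nat_lit 508) (nat_lit 455) (nat_lit 237)))) (XT.nd (nat_lit 78) (nat_lit 152) (nat_lit 0) (XT.lf (nat_lit 0) (nat_lit 3253486070747) (nat_lit 76) (nat_lit 894469989566) (nat_lit 76) (nat_lit 32846427304) (nat_lit 13) (nat_lit 4) (nat_lit 14) (nat_lit 5) (nat_lit 14) (nat_lit 4) (nat_lit 509) (nat_lit 455) (nat_lit 236)) (XT.nd (nat_lit 78) (nat_lit 0) (nat_lit 0) (XT.lf (nat_lit 0) (nat_lit 767324244854) (nat_lit 76) (nat_lit 15823740805) (nat_lit 152) (nat_lit 3661681393548) (nat_lit 11) (nat_lit 5) (nat_lit 12) (nat_lit 5) (nat_lit 13) (nat_lit 4) (nat_lit 510) (nat_lit 455) (nat_lit 235))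 (XT.lf (nat_lit 0) (nat_lit 1711101836177) (nat_lit 152) (nat_lit 2101629742012) (nat_lit 0) (nat_lit 913302236040) (nat_lit 11) (nat_lit 5) (nat_lit 13) (nat_lit 4) (nat_lit 11) (nat_lit 4) (nat_lit 511) (nat_lit 455) (nat_lit 234)))))) (XT.nd (nat_lit 468) (nat_lit 152) (nat_lit 0) (XT.nd (nat_lit 234) (nat_lit 152) (nat_lit 0) (XT.nd (nat_lit 78) (nat_lit 76) (nat_lit 0) (XT.lf (nat_lit 0) (nat_lit 2713702995111) (nat_lit 152) (nat_lit 400095336363) (nat_lit 0) (nat_lit 1915903392548) (nat_lit 11) (nat_lit 5) (nat_lit 13) (nat_lit 4) (nat_lit 11) (nat_lit 4) (nat_lit 512) (nat_lit 455) (nat_lit 233)) (XT.nd (nat_lit 78) (nat_lit 0) (nat_lit 0) (XT.lf (nat_lit 0) (nat_lit 1513261268164) (nat_lit 76) (nat_lit 2319644943044) (nat_lit 76) (nat_lit 1521845338234) (nat_lit 10) (nat_lit 4) (nat_lit 11) (nat_lit 5) (nat_lit 11) (nat_lit 4) (nat_lit 513) (nat_lit 455) (nat_lit 232)) (XT.lf (nat_lit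 0) (nat_lit 3602440166676) (nat_lit 76) (nat_lit 1450144828146) (nat_lit 76) (nat_lit 652345221257) (nat_lit 10) (nat_lit 4) (nat_lit 11) (nat_lit 5) (nat_lit 11) (nat_lit 4) (nat_lit 514) (nat_lit 455) (nat_lit 231)))) (XT.nd (nat_lit 78) (nat_lit 76) (nat_lit 0) (XT.lf (nat_lit 0) (nat_lit 272372259291) (nat_lit 152) (nat_lit 231265309488) (nat_lit 76) (nat_lit 5578933967641) (nat_lit 9) (nat_lit 5) (nat_lit 11) (nat_lit 5) (nat_lit 10) (nat_lit 4) (nat_lit 515) (nat_lit 455) (nat_lit 230)) (XT.nd (nat_lit 78) (nat_lit 0) (nat_lit 0) (XT.lf (nat_lit 0) (nat_lit 1294780263826) (nat_lit 152) (nat_lit 4633494918425) (nat_lit 0) (nat_lit 556076920679) (nat_lit 8) (nat_lit 5) (nat_lit 10) (nat_lit 4) (nat_lit 8) (nat_lit 4) (nat_lit 516) (nat_lit 455) (nat_lit 229)) (XT.lf (nat_lit 0) (nat_lit 2418549841818) (nat_lit 152) (nat_lit 2818313261152) (nat_lit 0) (nat_lit 1679846497143) (nat_lit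 8) (nat_lit 5) (nat_lit 10) (nat_lit 4) (nat_lit 8) (nat_lit 4) (nat_lit 517) (nat_lit 455) (nat_lit 228))))) (XT.nd (nat_lit 234) (nat_lit 76) (nat_lit 0) (XT.nd (nat_lit 78) (nat_lit 76) (nat_lit 0) (XT.lf (nat_lit 0) (nat_lit 3632220981748) (nat_lit 152) (nat_lit 857917080010) (nat_lit 0) (nat_lit 2893517635657) (nat_lit 8) (nat_lit 5) (nat_lit 10) (nat_lit 4) (nat_lit 8) (nat_lit 4) (nat_lit 518) (nat_lit 455) (nat_lit 227)) (XT.nd (nat_lit 78) (nat_lit 0) (nat_lit 0) (XT.lf (nat_lit 0) (nat_lit 1325623861938) (nat_lit 76) (nat_lit 3649243232711) (nat_lit 76) (nat_lit 2910539885309) (nat_lit 7) (nat_lit 4) (nat_lit 8) (nat_lit 5) (nat_lit 8) (nat_lit 4) (nat_lit 519) (nat_lit 455) (nat_lit 226)) (XT.lf (nat_lit 0) (nat_lit 3732638575899) (nat_lit 76) (nat_lit 2715743290133) (nat_lit 76) (nat_lit 1977039941518) (nat_lit 7) (nat_lit 4) (nat_lit 8) (nat_lit 5) (nat_lit 8) (nat_lit 4) (nat_lit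 520) (nat_lit 455) (nat_lit 225)))) (XT.nd (nat_lit 78) (nat_lit 76) (nat_lit 0) (XT.lf (nat_lit 0) (nat_lit 6332214459697) (nat_lit 76) (nat_lit 1707563355840) (nat_lit 76) (nat_lit 968860006100) (nat_lit 7) (nat_lit 4) (nat_lit 8) (nat_lit 5) (nat_lit 8) (nat_lit 4) (nat_lit 521) (nat_lit 455) (nat_lit 224)) (XT.nd (nat_lit 57330) (nat_lit 0) (nat_lit 4788) (XT.lf (nat_lit 0) (nat_lit 113972719146) (nat_lit 152) (nat_lit 501640094955) (nat_lit 76) (nat_lit 9022667472192) (nat_lit 6) (nat_lit 5) (nat_lit 8) (nat_lit 5) (nat_lit 7) (nat_lit 4) (nat_lit 522) (nat_lit 455) (nat_lit 223)) (XT.lf (nat_lit 0) (nat_lit 138672649369) (nat_lit 532) (nat_lit 6292413732) (nat_lit 532) (nat_lit 6292413732) (nat_lit 69) (nat_lit 3) (nat_lit 76) (nat_lit 3) (nat_lit 76) (nat_lit 5) (nat_lit 456) (nat_lit 456) (nat_lit 288))))))))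
noncomputable def xc215 : XT := (XT.nd (nat_lit 1716) (nat_lit 1672) (nat_lit 0) (XT.nd (nat_lit 858) (nat_lit 1216) (nat_lit 0) (XT.nd (nat_lit 390) (nat_lit 532) (nat_lit 0) (XT.nd (nat_lit 156) (nat_lit 456) (nat_lit 0) (XT.nd (nat_lit 78) (nat_lit 0) (nat_lit 76) (XT.lf (nat_lit 76) (nat_lit 142795760227) (nat_lit 0) (nat_lit 149078263004) (nat_lit 532) (nat_lit 22466735126) (nat_lit 70) (nat_lit 5) (nat_lit 69) (nat_lit 3) (nat_lit 76) (nat_lit 5) (nat_lit 457) (nat_lit 456) (nat_lit 287)) (XT.lf (nat_lit 0) (nat_lit 307991161413) (nat_lit 456) (nat_lit 15844730863) (nat_lit 532) (nat_lit 3242645935) (nat_lit 70) (nat_lit 5) (nat_lit 76) (nat_lit 5) (nat_lit 77) (nat_lit 5) (nat_lit 458) (nat_lit 456) (nat_lit 286))) (XT.nd (nat_lit 78) (nat_lit 532) (nat_lit 0) (XT.lf (nat_lit 76) (nat_lit 156255907327) (nat_lit 0) (nat_lit 176771821975) (nat_lit 532) (nat_lit 7197206501) (nat_lit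 71) (nat_lit 5) (nat_lit 70) (nat_lit 5) (nat_lit 77) (nat_lit 5) (nat_lit 459) (nat_lit 456) (nat_lit 285)) (XT.nd (nat_lit 78) (nat_lit 0) (nat_lit 76) (XT.lf (nat_lit 0) (nat_lit 5806248114) (nat_lit 532) (nat_lit 11509725330) (nat_lit 608) (nat_lit 337060659161) (nat_lit 63) (nat_lit 5) (nat_lit 70) (nat_lit 5) (nat_lit 71) (nat_lit 5) (nat_lit 460) (nat_lit 456) (nat_lit 284)) (XT.lf (nat_lit 0) (nat_lit 27725212833) (nat_lit 532) (nat_lit 189385551139) (nat_lit 608) (nat_lit 151873620392) (nat_lit 64) (nat_lit 5) (nat_lit 71) (nat_lit 5) (nat_lit 72) (nat_lit 5) (nat_lit 461) (nat_lit 456) (nat_lit 283))))) (XT.nd (nat_lit 234) (nat_lit 228) (nat_lit 0) (XT.nd (nat_lit 78) (nat_lit 380) (nat_lit 0) (XT.lf (nat_lit 76) (nat_lit 1533808395) (nat_lit 0) (nat_lit 50673357948) (nat_lit 608) (nat_lit 332488832222) (nat_lit 65) (nat_lit 5) (nat_lit 64) (nat_lit 5) (nat_lit 72) (nat_lit 5)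 (nat_lit 462) (nat_lit 456) (nat_lit 282)) (XT.nd (nat_lit 78) (nat_lit 456) (nat_lit 0) (XT.lf (nat_lit 0) (nat_lit 87064614549) (nat_lit 532) (nat_lit 185991947929) (nat_lit 76) (nat_lit 127934624381) (nat_lit 65) (nat_lit 5) (nat_lit 72) (nat_lit 5) (nat_lit 66) (nat_lit 5) (nat_lit 463) (nat_lit 456) (nat_lit 281)) (XT.lf (nat_lit 0) (nat_lit 26985608813) (nat_lit 456) (nat_lit 99690199843) (nat_lit 532) (nat_lit 291756969583) (nat_lit 59) (nat_lit 5) (nat_lit 65) (nat_lit 5) (nat_lit 66) (nat_lit 5) (nat_lit 464) (nat_lit 456) (nat_lit 280)))) (XT.nd (nat_lit 78) (nat_lit 228) (nat_lit 0) (XT.lf (nat_lit 0) (nat_lit 176778762238) (nat_lit 532) (nat_lit 171521575322) (nat_lit 76) (nat_lit 88383530277) (nat_lit 59) (nat_lit 5) (nat_lit 66) (nat_lit 5) (nat_lit 60) (nat_lit 5) (nat_lit 465) (nat_lit 456) (nat_lit 279)) (XT.nd (nat_lit 78) (nat_lit 0) (nat_lit 0) (XT.lf (nat_lit 0) (nat_lit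 66747656323) (nat_lit 228) (nat_lit 168336894346) (nat_lit 304) (nat_lit 220974926071) (nat_lit 56) (nat_lit 5) (nat_lit 59) (nat_lit 5) (nat_lit 60) (nat_lit 5) (nat_lit 466) (nat_lit 456) (nat_lit 278)) (XT.lf (nat_lit 0) (nat_lit 303492147170) (nat_lit 304) (nat_lit 143524671025) (nat_lit 76) (nat_lit 29533328581) (nat_lit 56) (nat_lit 5) (nat_lit 60) (nat_lit 5) (nat_lit 57) (nat_lit 5) (nat_lit 467) (nat_lit 456) (nat_lit 277)))))) (XT.nd (nat_lit 390) (nat_lit 532) (nat_lit 0) (XT.nd (nat_lit 156) (nat_lit 456) (nat_lit 0) (XT.nd (nat_lit 78) (nat_lit 0) (nat_lit 0) (XT.lf (nat_lit 0) (nat_lit 123743156403) (nat_lit 228) (nat_lit 260977572447) (nat_lit 304) (nat_lit 113371471390) (nat_lit 53) (nat_lit 5) (nat_lit 56) (nat_lit 5) (nat_lit 57) (nat_lit 5) (nat_lit 468) (nat_lit 456) (nat_lit 276)) (XT.lf (nat_lit 0) (nat_lit 420554745383) (nat_lit 228) (nat_lit 55817036896) (nat_lit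 304) (nat_lit 44671900902) (nat_lit 53) (nat_lit 5) (nat_lit 56) (nat_lit 5) (nat_lit 57) (nat_lit 5) (nat_lit 469) (nat_lit 456) (nat_lit 275))) (XT.nd (nat_lit 78) (nat_lit 228) (nat_lit 0) (XT.lf (nat_lit 0) (nat_lit 37105361472) (nat_lit 228) (nat_lit 344697648324) (nat_lit 76) (nat_lit 163246782000) (nat_lit 50) (nat_lit 5) (nat_lit 53) (nat_lit 5) (nat_lit 51) (nat_lit 5) (nat_lit 470) (nat_lit 456) (nat_lit 274)) (XT.nd (nat_lit 78) (nat_lit 228) (nat_lit 0) (XT.lf (nat_lit 0) (nat_lit 127280034830) (nat_lit 228) (nat_lit 42462686285) (nat_lit 76) (nat_lit 400799349436) (nat_lit 50) (nat_lit 5) (nat_lit 53) (nat_lit 5) (nat_lit 51) (nat_lit 5) (nat_lit 471) (nat_lit 456) (nat_lit 273)) (XT.lf (nat_lit 0) (nat_lit 233469747943) (nat_lit 304) (nat_lit 300207709564) (nat_lit 76) (nat_lit 63692188842) (nat_lit 47) (nat_lit 5) (nat_lit 51) (nat_lit 5) (nat_lit 48) (nat_lit 5) (nat_lit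 472) (nat_lit 456) (nat_lit 272))))) (XT.nd (nat_lit 234) (nat_lit 228) (nat_lit 0) (XT.nd (nat_lit 78) (nat_lit 152) (nat_lit 0) (XT.lf (nat_lit 0) (nat_lit 37560715804) (nat_lit 152) (nat_lit 317097293954) (nat_lit 228) (nat_lit 271165148731) (nat_lit 45) (nat_lit 5) (nat_lit 47) (nat_lit 5) (nat_lit 48) (nat_lit 5) (nat_lit 473) (nat_lit 456) (nat_lit 271)) (XT.nd (nat_lit 78) (nat_lit 152) (nat_lit 0) (XT.lf (nat_lit 0) (nat_lit 419423656620) (nat_lit 152) (nat_lit 74325860447) (nat_lit 228) (nat_lit 162146779781) (nat_lit 45) (nat_lit 5) (nat_lit 47) (nat_lit 5) (nat_lit 48) (nat_lit 5) (nat_lit 474) (nat_lit 456) (nat_lit 270)) (XT.lf (nat_lit 0) (nat_lit 146258542270) (nat_lit 152) (nat_lit 505745512399) (nat_lit 228) (nat_lit 35728374841) (nat_lit 43) (nat_lit 5) (nat_lit 45) (nat_lit 5) (nat_lit 46) (nat_lit 5) (nat_lit 475) (nat_lit 456) (nat_lit 269)))) (XT.nd (nat_lit 78) (nat_lit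 152) (nat_lit 0) (XT.lf (nat_lit 0) (nat_lit 104324938903) (nat_lit 228) (nat_lit 153064420382) (nat_lit 76) (nat_lit 463847024507) (nat_lit 42) (nat_lit 5) (nat_lit 45) (nat_lit 5) (nat_lit 43) (nat_lit 5) (nat_lit 476) (nat_lit 456) (nat_lit 268)) (XT.nd (nat_lit 78) (nat_lit 0) (nat_lit 0) (XT.lf (nat_lit 0) (nat_lit 260832765802) (nat_lit 228) (nat_lit 477798004898) (nat_lit 76) (nat_lit 18141202282) (nat_lit 40) (nat_lit 5) (nat_lit 43) (nat_lit 5) (nat_lit 41) (nat_lit 5) (nat_lit 477) (nat_lit 456) (nat_lit 267)) (XT.lf (nat_lit 0) (nat_lit 440840390127) (nat_lit 228) (nat_lit 47329443114) (nat_lit 76) (nat_lit 306102242372) (nat_lit 40) (nat_lit 5) (nat_lit 43) (nat_lit 5) (nat_lit 41) (nat_lit 5) (nat_lit 478) (nat_lit 456) (nat_lit 266))))))) (XT.nd (nat_lit 858) (nat_lit 684) (nat_lit 0) (XT.nd (nat_lit 390) (nat_lit 532) (nat_lit 0) (XT.nd (nat_lit 156) (nat_lit 228) (nat_lit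 0) (XT.nd (nat_lit 78) (nat_lit 76) (nat_lit 0) (XT.lf (nat_lit 0) (nat_lit 439565414133) (nat_lit 152) (nat_lit 206254748862) (nat_lit 228) (nat_lit 188106300378) (nat_lit 38) (nat_lit 5) (nat_lit 40) (nat_lit 5) (nat_lit 41) (nat_lit 5) (nat_lit 479) (nat_lit 456) (nat_lit 265)) (XT.lf (nat_lit 0) (nat_lit 93747813651) (nat_lit 76) (nat_lit 779394842639) (nat_lit 152) (nat_lit 3134998784) (nat_lit 37) (nat_lit 5) (nat_lit 38) (nat_lit 5) (nat_lit 39) (nat_lit 4) (nat_lit 480) (nat_lit 456) (nat_lit 264))) (XT.nd (nat_lit 78) (nat_lit 152) (nat_lit 0) (XT.lf (nat_lit 0) (nat_lit 203217419905) (nat_lit 152) (nat_lit 288187708790) (nat_lit 76) (nat_lit 428919901823) (nat_lit 36) (nat_lit 5) (nat_lit 38) (nat_lit 5) (nat_lit 37) (nat_lit 5) (nat_lit 481) (nat_lit 456) (nat_lit 263)) (XT.nd (nat_lit 78) (nat_lit 0) (nat_lit 0) (XT.lf (nat_lit 0) (nat_lit 258554267484) (nat_lit 152) (nat_lit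 173572611534) (nat_lit 228) (nat_lit 535265345239) (nat_lit 34) (nat_lit 5) (nat_lit 36) (nat_lit 5) (nat_lit 37) (nat_lit 5) (nat_lit 482) (nat_lit 456) (nat_lit 262)) (XT.lf (nat_lit 0) (nat_lit 691514268361) (nat_lit 228) (nat_lit 156454995199) (nat_lit 76) (nat_lit 169282316061) (nat_lit 34) (nat_lit 5) (nat_lit 37) (nat_lit 5) (nat_lit 35) (nat_lit 4) (nat_lit 483) (nat_lit 456) (nat_lit 261))))) (XT.nd (nat_lit 234) (nat_lit 228) (nat_lit 0) (XT.nd (nat_lit 78) (nat_lit 228) (nat_lit 0) (XT.lf (nat_lit 0) (nat_lit 458548656576) (nat_lit 76) (nat_lit 528640461615) (nat_lit 152) (nat_lit 82667647680) (nat_lit 33) (nat_lit 5) (nat_lit 34) (nat_lit 5) (nat_lit 35) (nat_lit 4) (nat_lit 484) (nat_lit 456) (nat_lit 260)) (XT.nd (nat_lit 78) (nat_lit 0) (nat_lit 0) (XT.lf (nat_lit 0) (nat_lit 932350477) (nat_lit 152) (nat_lit 174329807910) (nat_lit 228) (nat_lit 950709279595) (nat_lit 30)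 (nat_lit 5) (nat_lit 32) (nat_lit 5) (nat_lit 33) (nat_lit 5) (nat_lit 485) (nat_lit 456) (nat_lit 259)) (XT.lf (nat_lit 0) (nat_lit 471518754126) (nat_lit 228) (nat_lit 495912077739) (nat_lit 76) (nat_lit 217199986639) (nat_lit 30) (nat_lit 5) (nat_lit 33) (nat_lit 5) (nat_lit 31) (nat_lit 4) (nat_lit 486) (nat_lit 456) (nat_lit 258)))) (XT.nd (nat_lit 78) (nat_lit 152) (nat_lit 0) (XT.lf (nat_lit 0) (nat_lit 188443738412) (nat_lit 76) (nat_lit 612092247694) (nat_lit 152) (nat_lit 446722154681) (nat_lit 29) (nat_lit 5) (nat_lit 30) (nat_lit 5) (nat_lit 31) (nat_lit 4) (nat_lit 487) (nat_lit 456) (nat_lit 257)) (XT.nd (nat_lit 78) (nat_lit 152) (nat_lit 0) (XT.lf (nat_lit 0) (nat_lit 955750953369) (nat_lit 76) (nat_lit 213682743973) (nat_lit 152) (nat_lit 144377223457) (nat_lit 29) (nat_lit 5) (nat_lit 30) (nat_lit 5) (nat_lit 31) (nat_lit 4) (nat_lit 488) (nat_lit 456) (nat_lit 256)) (XT.lf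 (nat_lit 0) (nat_lit 188609633562) (nat_lit 152) (nat_lit 974980073030) (nat_lit 76) (nat_lit 220502431290) (nat_lit 27) (nat_lit 5) (nat_lit 29) (nat_lit 5) (nat_lit 28) (nat_lit 4) (nat_lit 489) (nat_lit 456) (nat_lit 255)))))) (XT.nd (nat_lit 468) (nat_lit 380) (nat_lit 0) (XT.nd (nat_lit 234) (nat_lit 228) (nat_lit 0) (XT.nd (nat_lit 78) (nat_lit 76) (nat_lit 0) (XT.lf (nat_lit 0) (nat_lit 556029786316) (nat_lit 152) (nat_lit 210746174681) (nat_lit 76) (nat_lit 691672329333) (nat_lit 27) (nat_lit 5) (nat_lit 29) (nat_lit 5) (nat_lit 28) (nat_lit 4) (nat_lit 490) (nat_lit 456) (nat_lit 254)) (XT.nd (nat_lit 78) (nat_lit 0) (nat_lit 0) (XT.lf (nat_lit 0) (nat_lit 646991550293) (nat_lit 76) (nat_lit 321412150888) (nat_lit 152) (nat_lit 569104421805) (nat_lit 26) (nat_lit 5) (nat_lit 27) (nat_lit 5) (nat_lit 28) (nat_lit 4) (nat_lit 491) (nat_lit 456) (nat_lit 253)) (XT.lf (nat_lit 0) (nat_lit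 1423517278877) (nat_lit 152) (nat_lit 41085764512) (nat_lit 0) (nat_lit 157509718895) (nat_lit 26) (nat_lit 5) (nat_lit 28) (nat_lit 4) (nat_lit 26) (nat_lit 4) (nat_lit 492) (nat_lit 456) (nat_lit 252)))) (XT.nd (nat_lit 78) (nat_lit 76) (nat_lit 0) (XT.lf (nat_lit 0) (nat_lit 222580995663) (nat_lit 152) (nat_lit 803039103246) (nat_lit 76) (nat_lit 684989132690) (nat_lit 24) (nat_lit 5) (nat_lit 26) (nat_lit 5) (nat_lit 25) (nat_lit 4) (nat_lit 493) (nat_lit 456) (nat_lit 251)) (XT.nd (nat_lit 78) (nat_lit 0) (nat_lit 0) (XT.lf (nat_lit 0) (nat_lit 129658022247) (nat_lit 76) (nat_lit 541335059321) (nat_lit 152) (nat_lit 1134438006717) (nat_lit 23) (nat_lit 5) (nat_lit 24) (nat_lit 5) (nat_lit 25) (nat_lit 4) (nat_lit 494) (nat_lit 456) (nat_lit 250)) (XT.lf (nat_lit 0) (nat_lit 1177364645309) (nat_lit 152) (nat_lit 723571740928) (nat_lit 0) (nat_lit 5135386394) (nat_lit 23) (nat_lit 5)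 (nat_lit 25) (nat_lit 4) (nat_lit 23) (nat_lit 4) (nat_lit 495) (nat_lit 456) (nat_lit 249))))) (XT.nd (nat_lit 234) (nat_lit 152) (nat_lit 0) (XT.nd (nat_lit 78) (nat_lit 152) (nat_lit 0) (XT.lf (nat_lit 0) (nat_lit 306055136855) (nat_lit 76) (nat_lit 1439612071173) (nat_lit 76) (nat_lit 267382801787) (nat_lit 22) (nat_lit 4) (nat_lit 23) (nat_lit 5) (nat_lit 23) (nat_lit 4) (nat_lit 496) (nat_lit 456) (nat_lit 248)) (XT.nd (nat_lit 78) (nat_lit 76) (nat_lit 0) (XT.lf (nat_lit 0) (nat_lit 239597130928) (nat_lit 152) (nat_lit 673867246749) (nat_lit 76) (nat_lit 1213054170402) (nat_lit 21) (nat_lit 5) (nat_lit 23) (nat_lit 5) (nat_lit 22) (nat_lit 4) (nat_lit 497) (nat_lit 456) (nat_lit 247)) (XT.lf (nat_lit 0) (nat_lit 457870078970) (nat_lit 76) (nat_lit 325831539792) (nat_lit 152) (nat_lit 1463926407871) (nat_lit 20) (nat_lit 5) (nat_lit 21) (nat_lit 5) (nat_lit 22) (nat_lit 4) (nat_lit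 498) (nat_lit 456) (nat_lit 246)))) (XT.nd (nat_lit 78) (nat_lit 152) (nat_lit 0) (XT.lf (nat_lit 0) (nat_lit 1397664679315) (nat_lit 152) (nat_lit 666387984384) (nat_lit 0) (nat_lit 312267182677) (nat_lit 20) (nat_lit 5) (nat_lit 22) (nat_lit 4) (nat_lit 20) (nat_lit 4) (nat_lit 499) (nat_lit 456) (nat_lit 245)) (XT.nd (nat_lit 78) (nat_lit 76) (nat_lit 0) (XT.lf (nat_lit 0) (nat_lit 566738981035) (nat_lit 76) (nat_lit 1516099037848) (nat_lit 76) (nat_lit 430701534085) (nat_lit 19) (nat_lit 4) (nat_lit 20) (nat_lit 5) (nat_lit 20) (nat_lit 4) (nat_lit 500) (nat_lit 456) (nat_lit 244)) (XT.lf (nat_lit 0) (nat_lit 171723568193) (nat_lit 152) (nat_lit 728212488518) (nat_lit 76) (nat_lit 1759995367219) (nat_lit 18) (nat_lit 5) (nat_lit 20) (nat_lit 5) (nat_lit 19) (nat_lit 4) (nat_lit 501) (nat_lit 456) (nat_lit 243))))))))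
noncomputable def xc216 : XT := (XT.nd (nat_lit 59046) (nat_lit 0) (nat_lit 2356) (XT.nd (nat_lit 858) (nat_lit 304) (nat_lit 0) (XT.nd (nat_lit 390) (nat_lit 228) (nat_lit 0) (XT.nd (nat_lit 156) (nat_lit 228) (nat_lit 0) (XT.nd (nat_lit 78) (nat_lit 0) (nat_lit 0) (XT.lf (nat_lit 0) (nat_lit 607042286508) (nat_lit 76) (nat_lit 206630695693) (nat_lit 152) (nat_lit 2002298748267) (nat_lit 17) (nat_lit 5) (nat_lit 18) (nat_lit 5) (nat_lit 19) (nat_lit 4) (nat_lit 502) (nat_lit 456) (nat_lit 242)) (XT.lf (nat_lit 0) (nat_lit 1540444578380) (nat_lit 152) (nat_lit 905926512119) (nat_lit 0) (nat_lit 535446872706) (nat_lit 17) (nat_lit 5) (nat_lit 19) (nat_lit 4) (nat_lit 17) (nat_lit 4) (nat_lit 503) (nat_lit 456) (nat_lit 241))) (XT.nd (nat_lit 78) (nat_lit 152) (nat_lit 0) (XT.lf (nat_lit 0) (nat_lit 522065435893) (nat_lit 76) (nat_lit 1821215176203) (nat_lit 76) (nat_lit 816217465679) (nat_lit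 16) (nat_lit 4) (nat_lit 17) (nat_lit 5) (nat_lit 17) (nat_lit 4) (nat_lit 504) (nat_lit 456) (nat_lit 240)) (XT.nd (nat_lit 78) (nat_lit 152) (nat_lit 0) (XT.lf (nat_lit 0) (nat_lit 2115817568787) (nat_lit 76) (nat_lit 1119295588709) (nat_lit 76) (nat_lit 114297873695) (nat_lit 16) (nat_lit 4) (nat_lit 17) (nat_lit 5) (nat_lit 17) (nat_lit 4) (nat_lit 505) (nat_lit 456) (nat_lit 239)) (XT.lf (nat_lit 0) (nat_lit 281133460918) (nat_lit 76) (nat_lit 337198837201) (nat_lit 152) (nat_lit 2934405197110) (nat_lit 14) (nat_lit 5) (nat_lit 15) (nat_lit 5) (nat_lit 16) (nat_lit 4) (nat_lit 506) (nat_lit 456) (nat_lit 238))))) (XT.nd (nat_lit 234) (nat_lit 152) (nat_lit 0) (XT.nd (nat_lit 78) (nat_lit 76) (nat_lit 0) (XT.lf (nat_lit 0) (nat_lit 1450207083747) (nat_lit 152) (nat_lit 1798487113741) (nat_lit 0) (nat_lit 519653636505) (nat_lit 14) (nat_lit 5) (nat_lit 16) (nat_lit 4) (nat_lit 14) (nat_lit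 4) (nat_lit 507) (nat_lit 456) (nat_lit 237)) (XT.nd (nat_lit 78) (nat_lit 76) (nat_lit 0) (XT.lf (nat_lit 0) (nat_lit 2357390257194) (nat_lit 152) (nat_lit 216279263616) (nat_lit 0) (nat_lit 1426836806651) (nat_lit 14) (nat_lit 5) (nat_lit 16) (nat_lit 4) (nat_lit 14) (nat_lit 4) (nat_lit 508) (nat_lit 456) (nat_lit 236)) (XT.lf (nat_lit 0) (nat_lit 1571097881756) (nat_lit 76) (nat_lit 1803835138688) (nat_lit 76) (nat_lit 873281685088) (nat_lit 13) (nat_lit 4) (nat_lit 14) (nat_lit 5) (nat_lit 14) (nat_lit 4) (nat_lit 509) (nat_lit 456) (nat_lit 235)))) (XT.nd (nat_lit 78) (nat_lit 152) (nat_lit 0) (XT.lf (nat_lit 0) (nat_lit 3513765180629) (nat_lit 76) (nat_lit 966027476721) (nat_lit 76) (nat_lit 35474020292) (nat_lit 13) (nat_lit 4) (nat_lit 14) (nat_lit 5) (nat_lit 14) (nat_lit 4) (nat_lit 510) (nat_lit 456) (nat_lit 234)) (XT.nd (nat_lit 78) (nat_lit 0) (nat_lit 0) (XT.lf (nat_lit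 0) (nat_lit 828710408903) (nat_lit 76) (nat_lit 17089527612) (nat_lit 152) (nat_lit 3954615784062) (nat_lit 11) (nat_lit 5) (nat_lit 12) (nat_lit 5) (nat_lit 13) (nat_lit 4) (nat_lit 511) (nat_lit 456) (nat_lit 233)) (XT.lf (nat_lit 0) (nat_lit 1847990089282) (nat_lit 152) (nat_lit 2269759907740) (nat_lit 0) (nat_lit 986366513842) (nat_lit 11) (nat_lit 5) (nat_lit 13) (nat_lit 4) (nat_lit 11) (nat_lit 4) (nat_lit 512) (nat_lit 456) (nat_lit 232)))))) (XT.nd (nat_lit 390) (nat_lit 76) (nat_lit 0) (XT.nd (nat_lit 156) (nat_lit 152) (nat_lit 0) (XT.nd (nat_lit 78) (nat_lit 76) (nat_lit 0) (XT.lf (nat_lit 0) (nat_lit 2930799333063) (nat_lit 152) (nat_lit 432102765464) (nat_lit 0) (nat_lit 2069175755543) (nat_lit 11) (nat_lit 5) (nat_lit 13) (nat_lit 4) (nat_lit 11) (nat_lit 4) (nat_lit 513) (nat_lit 456) (nat_lit 231)) (XT.lf (nat_lit 0) (nat_lit 1634322362418) (nat_lit 76) (nat_lit 2505216441383)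 (nat_lit 76) (nat_lit 1643592861936) (nat_lit 10) (nat_lit 4) (nat_lit 11) (nat_lit 5) (nat_lit 11) (nat_lit 4) (nat_lit 514) (nat_lit 456) (nat_lit 230))) (XT.nd (nat_lit 78) (nat_lit 152) (nat_lit 0) (XT.lf (nat_lit 0) (nat_lit 3890635558529) (nat_lit 76) (nat_lit 1566156324486) (nat_lit 76) (nat_lit 704532743257) (nat_lit 10) (nat_lit 4) (nat_lit 11) (nat_lit 5) (nat_lit 11) (nat_lit 4) (nat_lit 515) (nat_lit 456) (nat_lit 229)) (XT.nd (nat_lit 78) (nat_lit 76) (nat_lit 0) (XT.lf (nat_lit 0) (nat_lit 294162124213) (nat_lit 152) (nat_lit 249766364516) (nat_lit 76) (nat_lit 6025248763867) (nat_lit 9) (nat_lit 5) (nat_lit 11) (nat_lit 5) (nat_lit 10) (nat_lit 4) (nat_lit 516) (nat_lit 456) (nat_lit 228)) (XT.lf (nat_lit 0) (nat_lit 1398362768863) (nat_lit 152) (nat_lit 5004174341915) (nat_lit 0) (nat_lit 600563153669) (nat_lit 8) (nat_lit 5) (nat_lit 10) (nat_lit 4) (nat_lit 8) (nat_lit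 4) (nat_lit 517) (nat_lit 456) (nat_lit 227))))) (XT.nd (nat_lit 234) (nat_lit 0) (nat_lit 0) (XT.nd (nat_lit 78) (nat_lit 76) (nat_lit 0) (XT.lf (nat_lit 0) (nat_lit 2612033906877) (nat_lit 152) (nat_lit 3043778164651) (nat_lit 0) (nat_lit 1814234290373) (nat_lit 8) (nat_lit 5) (nat_lit 10) (nat_lit 4) (nat_lit 8) (nat_lit 4) (nat_lit 518) (nat_lit 456) (nat_lit 226)) (XT.nd (nat_lit 78) (nat_lit 76) (nat_lit 0) (XT.lf (nat_lit 0) (nat_lit 3922798732245) (nat_lit 152) (nat_lit 926550300677) (nat_lit 0) (nat_lit 3124999114527) (nat_lit 8) (nat_lit 5) (nat_lit 10) (nat_lit 4) (nat_lit 8) (nat_lit 4) (nat_lit 519) (nat_lit 456) (nat_lit 225)) (XT.lf (nat_lit 0) (nat_lit 1431673912938) (nat_lit 76) (nat_lit 3941182619327) (nat_lit 76) (nat_lit 3143383000485) (nat_lit 7) (nat_lit 4) (nat_lit 8) (nat_lit 5) (nat_lit 8) (nat_lit 4) (nat_lit 520) (nat_lit 456) (nat_lit 224)))) (XT.nd (nat_lit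 78) (nat_lit 0) (nat_lit 0) (XT.lf (nat_lit 0) (nat_lit 4031249793494) (nat_lit 76) (nat_lit 2933002686676) (nat_lit 76) (nat_lit 2135203066793) (nat_lit 7) (nat_lit 4) (nat_lit 8) (nat_lit 5) (nat_lit 8) (nat_lit 4) (nat_lit 521) (nat_lit 456) (nat_lit 223)) (XT.nd (nat_lit 57408) (nat_lit 0) (nat_lit 4712) (XT.lf (nat_lit 0) (nat_lit 6838791738253) (nat_lit 76) (nat_lit 1844168362578) (nat_lit 76) (nat_lit 1046368741731) (nat_lit 7) (nat_lit 4) (nat_lit 8) (nat_lit 5) (nat_lit 8) (nat_lit 4) (nat_lit 522) (nat_lit 456) (nat_lit 222)) (XT.lf (nat_lit 0) (nat_lit 149767116255) (nat_lit 532) (nat_lit 6795452944) (nat_lit 532) (nat_lit 6795452944) (nat_lit 69) (nat_lit 3) (nat_lit 76) (nat_lit 3) (nat_lit 76) (nat_lit 5) (nat_lit 457) (nat_lit 457) (nat_lit 286))))))) (XT.nd (nat_lit 858) (nat_lit 1368) (nat_lit 0) (XT.nd (nat_lit 390) (nat_lit 532) (nat_lit 0) (XT.nd (nat_lit 156) (nat_lit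 456) (nat_lit 0) (XT.nd (nat_lit 78) (nat_lit 0) (nat_lit 76) (XT.lf (nat_lit 76) (nat_lit 154220110900) (nat_lit 0) (nat_lit 161005063627) (nat_lit 532) (nat_lit 24262745329) (nat_lit 70) (nat_lit 5) (nat_lit 69) (nat_lit 3) (nat_lit 76) (nat_lit 5) (nat_lit 458) (nat_lit 457) (nat_lit 285)) (XT.lf (nat_lit 0) (nat_lit 332631580678) (nat_lit 456) (nat_lit 17111566737) (nat_lit 532) (nat_lit 3501582989) (nat_lit 70) (nat_lit 5) (nat_lit 76) (nat_lit 5) (nat_lit 77) (nat_lit 5) (nat_lit 459) (nat_lit 457) (nat_lit 284))) (XT.nd (nat_lit 78) (nat_lit 532) (nat_lit 0) (XT.lf (nat_lit 76) (nat_lit 168757103707) (nat_lit 0) (nat_lit 190913904264) (nat_lit 532) (nat_lit 7771837171) (nat_lit 71) (nat_lit 5) (nat_lit 70) (nat_lit 5) (nat_lit 77) (nat_lit 5) (nat_lit 460) (nat_lit 457) (nat_lit 283)) (XT.nd (nat_lit 78) (nat_lit 0) (nat_lit 76) (XT.lf (nat_lit 0) (nat_lit 6271755862) (nat_lit 532)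 (nat_lit 12429779502) (nat_lit 608) (nat_lit 364025146618) (nat_lit 63) (nat_lit 5) (nat_lit 70) (nat_lit 5) (nat_lit 71) (nat_lit 5) (nat_lit 461) (nat_lit 457) (nat_lit 282)) (XT.lf (nat_lit 0) (nat_lit 29944174183) (nat_lit 532) (nat_lit 204535607245) (nat_lit 608) (nat_lit 164023277584) (nat_lit 64) (nat_lit 5) (nat_lit 71) (nat_lit 5) (nat_lit 72) (nat_lit 5) (nat_lit 462) (nat_lit 457) (nat_lit 281))))) (XT.nd (nat_lit 234) (nat_lit 228) (nat_lit 0) (XT.nd (nat_lit 78) (nat_lit 380) (nat_lit 0) (XT.lf (nat_lit 76) (nat_lit 1657281103) (nat_lit 0) (nat_lit 54727351393) (nat_lit 608) (nat_lit 359086974014) (nat_lit 65) (nat_lit 5) (nat_lit 64) (nat_lit 5) (nat_lit 72) (nat_lit 5) (nat_lit 463) (nat_lit 457) (nat_lit 280)) (XT.nd (nat_lit 78) (nat_lit 456) (nat_lit 0) (XT.lf (nat_lit 0) (nat_lit 94030607641) (nat_lit 532) (nat_lit 200870523227) (nat_lit 76) (nat_lit 138169284549) (nat_lit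 65) (nat_lit 5) (nat_lit 72) (nat_lit 5) (nat_lit 66) (nat_lit 5) (nat_lit 464) (nat_lit 457) (nat_lit 279)) (XT.lf (nat_lit 0) (nat_lit 29145218294) (nat_lit 456) (nat_lit 107665436248) (nat_lit 532) (nat_lit 315096683019) (nat_lit 59) (nat_lit 5) (nat_lit 65) (nat_lit 5) (nat_lit 66) (nat_lit 5) (nat_lit 465) (nat_lit 457) (nat_lit 278)))) (XT.nd (nat_lit 78) (nat_lit 228) (nat_lit 0) (XT.lf (nat_lit 0) (nat_lit 190921786089) (nat_lit 532) (nat_lit 185242538196) (nat_lit 76) (nat_lit 95454194740) (nat_lit 59) (nat_lit 5) (nat_lit 66) (nat_lit 5) (nat_lit 60) (nat_lit 5) (nat_lit 466) (nat_lit 457) (nat_lit 277)) (XT.nd (nat_lit 78) (nat_lit 0) (nat_lit 0) (XT.lf (nat_lit 0) (nat_lit 72088212660) (nat_lit 228) (nat_lit 181803789279) (nat_lit 304) (nat_lit 238652177585) (nat_lit 56) (nat_lit 5) (nat_lit 59) (nat_lit 5) (nat_lit 60) (nat_lit 5) (nat_lit 467) (nat_lit 457) (nat_lit 276))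 (XT.lf (nat_lit 0) (nat_lit 327772156515) (nat_lit 304) (nat_lit 155005905981) (nat_lit 76) (nat_lit 31896044667) (nat_lit 56) (nat_lit 5) (nat_lit 60) (nat_lit 5) (nat_lit 57) (nat_lit 5) (nat_lit 468) (nat_lit 457) (nat_lit 275)))))) (XT.nd (nat_lit 468) (nat_lit 532) (nat_lit 0) (XT.nd (nat_lit 234) (nat_lit 380) (nat_lit 0) (XT.nd (nat_lit 78) (nat_lit 228) (nat_lit 0) (XT.lf (nat_lit 0) (nat_lit 133643328940) (nat_lit 228) (nat_lit 281855665879) (nat_lit 304) (nat_lit 122440532504) (nat_lit 53) (nat_lit 5) (nat_lit 56) (nat_lit 5) (nat_lit 57) (nat_lit 5) (nat_lit 469) (nat_lit 457) (nat_lit 274)) (XT.nd (nat_lit 78) (nat_lit 228) (nat_lit 0) (XT.lf (nat_lit 0) (nat_lit 454199791703) (nat_lit 228) (nat_lit 60282295807) (nat_lit 304) (nat_lit 48245045014) (nat_lit 53) (nat_lit 5) (nat_lit 56) (nat_lit 5) (nat_lit 57) (nat_lit 5) (nat_lit 470) (nat_lit 457) (nat_lit 273)) (XT.lf (nat_lit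 0) (nat_lit 40074344597) (nat_lit 228) (nat_lit 372272739213) (nat_lit 76) (nat_lit 176306646737) (nat_lit 50) (nat_lit 5) (nat_lit 53) (nat_lit 5) (nat_lit 51) (nat_lit 5) (nat_lit 471) (nat_lit 457) (nat_lit 272)))) (XT.nd (nat_lit 78) (nat_lit 380) (nat_lit 0) (XT.lf (nat_lit 0) (nat_lit 137462950771) (nat_lit 228) (nat_lit 45859033616) (nat_lit 76) (nat_lit 432863410518) (nat_lit 50) (nat_lit 5) (nat_lit 53) (nat_lit 5) (nat_lit 51) (nat_lit 5) (nat_lit 472) (nat_lit 457) (nat_lit 271)) (XT.nd (nat_lit 78) (nat_lit 152) (nat_lit 0) (XT.lf (nat_lit 0) (nat_lit 252147822415) (nat_lit 304) (nat_lit 324223640018) (nat_lit 76) (nat_lit 68787715831) (nat_lit 47) (nat_lit 5) (nat_lit 51) (nat_lit 5) (nat_lit 48) (nat_lit 5) (nat_lit 473) (nat_lit 457) (nat_lit 270)) (XT.lf (nat_lit 0) (nat_lit 40566242003) (nat_lit 152) (nat_lit 342464882620) (nat_lit 228) (nat_lit 292857848413) (nat_lit 45)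 (nat_lit 5) (nat_lit 47) (nat_lit 5) (nat_lit 48) (nat_lit 5) (nat_lit 474) (nat_lit 457) (nat_lit 269))))) (XT.nd (nat_lit 234) (nat_lit 304) (nat_lit 0) (XT.nd (nat_lit 78) (nat_lit 228) (nat_lit 0) (XT.lf (nat_lit 0) (nat_lit 452978168535) (nat_lit 152) (nat_lit 80271748866) (nat_lit 228) (nat_lit 175118047889) (nat_lit 45) (nat_lit 5) (nat_lit 47) (nat_lit 5) (nat_lit 48) (nat_lit 5) (nat_lit 475) (nat_lit 457) (nat_lit 268)) (XT.nd (nat_lit 78) (nat_lit 76) (nat_lit 0) (XT.lf (nat_lit 0) (nat_lit 157959859539) (nat_lit 152) (nat_lit 546204945218) (nat_lit 228) (nat_lit 38586184882) (nat_lit 43) (nat_lit 5) (nat_lit 45) (nat_lit 5) (nat_lit 46) (nat_lit 5) (nat_lit 476) (nat_lit 457) (nat_lit 267)) (XT.lf (nat_lit 0) (nat_lit 112671338588) (nat_lit 228) (nat_lit 165308965626) (nat_lit 76) (nat_lit 500954957766) (nat_lit 42) (nat_lit 5) (nat_lit 45) (nat_lit 5) (nat_lit 43) (nat_lit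 5) (nat_lit 477) (nat_lit 457) (nat_lit 266)))) (XT.nd (nat_lit 78) (nat_lit 152) (nat_lit 0) (XT.lf (nat_lit 0) (nat_lit 281699780840) (nat_lit 228) (nat_lit 516021225966) (nat_lit 76) (nat_lit 19592692373) (nat_lit 40) (nat_lit 5) (nat_lit 43) (nat_lit 5) (nat_lit 41) (nat_lit 5) (nat_lit 478) (nat_lit 457) (nat_lit 265)) (XT.nd (nat_lit 78) (nat_lit 152) (nat_lit 0) (XT.lf (nat_lit 0) (nat_lit 476107985943) (nat_lit 228) (nat_lit 51115225115) (nat_lit 76) (nat_lit 330590601307) (nat_lit 40) (nat_lit 5) (nat_lit 43) (nat_lit 5) (nat_lit 41) (nat_lit 5) (nat_lit 479) (nat_lit 457) (nat_lit 264)) (XT.lf (nat_lit 0) (nat_lit 474731206194) (nat_lit 152) (nat_lit 222754920881) (nat_lit 228) (nat_lit 203154425166) (nat_lit 38) (nat_lit 5) (nat_lit 40) (nat_lit 5) (nat_lit 41) (nat_lit 5) (nat_lit 480) (nat_lit 457) (nat_lit 263))))))))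
noncomputable def xc217 : XT := (XT.nd (nat_lit 1716) (nat_lit 836) (nat_lit 0) (XT.nd (nat_lit 858) (nat_lit 684) (nat_lit 0) (XT.nd (nat_lit 390) (nat_lit 456) (nat_lit 0) (XT.nd (nat_lit 156) (nat_lit 228) (nat_lit 0) (XT.nd (nat_lit 78) (nat_lit 76) (nat_lit 0) (XT.lf (nat_lit 0) (nat_lit 101248206138) (nat_lit 76) (nat_lit 841746205968) (nat_lit 152) (nat_lit 3385427798) (nat_lit 37) (nat_lit 5) (nat_lit 38) (nat_lit 5) (nat_lit 39) (nat_lit 4) (nat_lit 481) (nat_lit 457) (nat_lit 262)) (XT.lf (nat_lit 0) (nat_lit 219475139733) (nat_lit 152) (nat_lit 311242182854) (nat_lit 76) (nat_lit 463233684179) (nat_lit 36) (nat_lit 5) (nat_lit 38) (nat_lit 5) (nat_lit 37) (nat_lit 5) (nat_lit 482) (nat_lit 457) (nat_lit 261))) (XT.nd (nat_lit 78) (nat_lit 76) (nat_lit 0) (XT.lf (nat_lit 0) (nat_lit 279239137785) (nat_lit 152) (nat_lit 187458206345) (nat_lit 228) (nat_lit 578086232798) (nat_lit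 34) (nat_lit 5) (nat_lit 36) (nat_lit 5) (nat_lit 37) (nat_lit 5) (nat_lit 483) (nat_lit 457) (nat_lit 260)) (XT.nd (nat_lit 78) (nat_lit 76) (nat_lit 0) (XT.lf (nat_lit 0) (nat_lit 746835706071) (nat_lit 228) (nat_lit 168970886459) (nat_lit 76) (nat_lit 182825089680) (nat_lit 34) (nat_lit 5) (nat_lit 37) (nat_lit 5) (nat_lit 35) (nat_lit 4) (nat_lit 484) (nat_lit 457) (nat_lit 259)) (XT.lf (nat_lit 0) (nat_lit 495233044587) (nat_lit 76) (nat_lit 570931489272) (nat_lit 152) (nat_lit 89280750309) (nat_lit 33) (nat_lit 5) (nat_lit 34) (nat_lit 5) (nat_lit 35) (nat_lit 4) (nat_lit 485) (nat_lit 457) (nat_lit 258))))) (XT.nd (nat_lit 234) (nat_lit 152) (nat_lit 0) (XT.nd (nat_lit 78) (nat_lit 76) (nat_lit 0) (XT.lf (nat_lit 0) (nat_lit 1007436599) (nat_lit 152) (nat_lit 188275978400) (nat_lit 228) (nat_lit 1026765715242) (nat_lit 30) (nat_lit 5) (nat_lit 32) (nat_lit 5) (nat_lit 33) (nat_lit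 5) (nat_lit 486) (nat_lit 457) (nat_lit 257)) (XT.nd (nat_lit 78) (nat_lit 76) (nat_lit 0) (XT.lf (nat_lit 0) (nat_lit 509240522133) (nat_lit 228) (nat_lit 535584566446) (nat_lit 76) (nat_lit 234576173933) (nat_lit 30) (nat_lit 5) (nat_lit 33) (nat_lit 5) (nat_lit 31) (nat_lit 4) (nat_lit 487) (nat_lit 457) (nat_lit 256)) (XT.lf (nat_lit 0) (nat_lit 203519702909) (nat_lit 76) (nat_lit 661059421128) (nat_lit 152) (nat_lit 482459647235) (nat_lit 29) (nat_lit 5) (nat_lit 30) (nat_lit 5) (nat_lit 31) (nat_lit 4) (nat_lit 488) (nat_lit 457) (nat_lit 255)))) (XT.nd (nat_lit 78) (nat_lit 152) (nat_lit 0) (XT.lf (nat_lit 0) (nat_lit 1032211460586) (nat_lit 76) (nat_lit 230777172396) (nat_lit 152) (nat_lit 155927142241) (nat_lit 29) (nat_lit 5) (nat_lit 30) (nat_lit 5) (nat_lit 31) (nat_lit 4) (nat_lit 489) (nat_lit 457) (nat_lit 254)) (XT.nd (nat_lit 78) (nat_lit 0) (nat_lit 0) (XT.lf (nat_lit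 0) (nat_lit 203698647230) (nat_lit 152) (nat_lit 1052978031723) (nat_lit 76) (nat_lit 238142810478) (nat_lit 27) (nat_lit 5) (nat_lit 29) (nat_lit 5) (nat_lit 28) (nat_lit 4) (nat_lit 490) (nat_lit 457) (nat_lit 253)) (XT.lf (nat_lit 0) (nat_lit 600512394206) (nat_lit 152) (nat_lit 227605454628) (nat_lit 76) (nat_lit 747006286684) (nat_lit 27) (nat_lit 5) (nat_lit 29) (nat_lit 5) (nat_lit 28) (nat_lit 4) (nat_lit 491) (nat_lit 457) (nat_lit 252)))))) (XT.nd (nat_lit 390) (nat_lit 380) (nat_lit 0) (XT.nd (nat_lit 156) (nat_lit 228) (nat_lit 0) (XT.nd (nat_lit 78) (nat_lit 0) (nat_lit 0) (XT.lf (nat_lit 0) (nat_lit 698751277862) (nat_lit 76) (nat_lit 347124937437) (nat_lit 152) (nat_lit 614632540046) (nat_lit 26) (nat_lit 5) (nat_lit 27) (nat_lit 5) (nat_lit 28) (nat_lit 4) (nat_lit 492) (nat_lit 457) (nat_lit 251)) (XT.lf (nat_lit 0) (nat_lit 1537398867192) (nat_lit 152) (nat_lit 44372239967)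 (nat_lit 0) (nat_lit 170110659593) (nat_lit 26) (nat_lit 5) (nat_lit 28) (nat_lit 4) (nat_lit 26) (nat_lit 4) (nat_lit 493) (nat_lit 457) (nat_lit 250))) (XT.nd (nat_lit 78) (nat_lit 76) (nat_lit 0) (XT.lf (nat_lit 0) (nat_lit 240387680322) (nat_lit 152) (nat_lit 867281844739) (nat_lit 76) (nat_lit 739788428635) (nat_lit 24) (nat_lit 5) (nat_lit 26) (nat_lit 5) (nat_lit 25) (nat_lit 4) (nat_lit 494) (nat_lit 457) (nat_lit 249)) (XT.nd (nat_lit 78) (nat_lit 0) (nat_lit 0) (XT.lf (nat_lit 0) (nat_lit 140031041003) (nat_lit 76) (nat_lit 584641685978) (nat_lit 152) (nat_lit 1225192832428) (nat_lit 23) (nat_lit 5) (nat_lit 24) (nat_lit 5) (nat_lit 25) (nat_lit 4) (nat_lit 495) (nat_lit 457) (nat_lit 248)) (XT.lf (nat_lit 0) (nat_lit 1271554005055) (nat_lit 152) (nat_lit 781457120358) (nat_lit 0) (nat_lit 5546373953) (nat_lit 23) (nat_lit 5) (nat_lit 25) (nat_lit 4) (nat_lit 23) (nat_lit 4) (nat_lit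 496) (nat_lit 457) (nat_lit 247))))) (XT.nd (nat_lit 234) (nat_lit 152) (nat_lit 0) (XT.nd (nat_lit 78) (nat_lit 152) (nat_lit 0) (XT.lf (nat_lit 0) (nat_lit 330539898537) (nat_lit 76) (nat_lit 1554780868754) (nat_lit 76) (nat_lit 288773228676) (nat_lit 22) (nat_lit 4) (nat_lit 23) (nat_lit 5) (nat_lit 23) (nat_lit 4) (nat_lit 497) (nat_lit 457) (nat_lit 246)) (XT.nd (nat_lit 78) (nat_lit 76) (nat_lit 0) (XT.lf (nat_lit 0) (nat_lit 258765074908) (nat_lit 152) (nat_lit 727776292579) (nat_lit 76) (nat_lit 1310098650537) (nat_lit 21) (nat_lit 5) (nat_lit 23) (nat_lit 5) (nat_lit 22) (nat_lit 4) (nat_lit 498) (nat_lit 457) (nat_lit 245)) (XT.lf (nat_lit 0) (nat_lit 494500010745) (nat_lit 76) (nat_lit 351897906000) (nat_lit 152) (nat_lit 1581040338522) (nat_lit 20) (nat_lit 5) (nat_lit 21) (nat_lit 5) (nat_lit 22) (nat_lit 4) (nat_lit 499) (nat_lit 457) (nat_lit 244)))) (XT.nd (nat_lit 78) (nat_lit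 152) (nat_lit 0) (XT.lf (nat_lit 0) (nat_lit 1509478013157) (nat_lit 152) (nat_lit 719698712784) (nat_lit 0) (nat_lit 337248695369) (nat_lit 20) (nat_lit 5) (nat_lit 22) (nat_lit 4) (nat_lit 20) (nat_lit 4) (nat_lit 500) (nat_lit 457) (nat_lit 243)) (XT.nd (nat_lit 78) (nat_lit 76) (nat_lit 0) (XT.lf (nat_lit 0) (nat_lit 612078402012) (nat_lit 76) (nat_lit 1637386813339) (nat_lit 76) (nat_lit 465157489441) (nat_lit 19) (nat_lit 4) (nat_lit 20) (nat_lit 5) (nat_lit 20) (nat_lit 4) (nat_lit 501) (nat_lit 457) (nat_lit 242)) (XT.lf (nat_lit 0) (nat_lit 185461600869) (nat_lit 152) (nat_lit 786469199747) (nat_lit 76) (nat_lit 1900795125438) (nat_lit 18) (nat_lit 5) (nat_lit 20) (nat_lit 5) (nat_lit 19) (nat_lit 4) (nat_lit 502) (nat_lit 457) (nat_lit 241))))))) (XT.nd (nat_lit 858) (nat_lit 304) (nat_lit 0) (XT.nd (nat_lit 390) (nat_lit 228) (nat_lit 0) (XT.nd (nat_lit 156) (nat_lit 228) (nat_lit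 0) (XT.nd (nat_lit 78) (nat_lit 0) (nat_lit 0) (XT.lf (nat_lit 0) (nat_lit 655605949994) (nat_lit 76) (nat_lit 223161013845) (nat_lit 152) (nat_lit 2162482493608) (nat_lit 17) (nat_lit 5) (nat_lit 18) (nat_lit 5) (nat_lit 19) (nat_lit 4) (nat_lit 503) (nat_lit 457) (nat_lit 240)) (XT.lf (nat_lit 0) (nat_lit 1663680280177) (nat_lit 152) (nat_lit 978400365759) (nat_lit 0) (nat_lit 578282743471) (nat_lit 17) (nat_lit 5) (nat_lit 19) (nat_lit 4) (nat_lit 17) (nat_lit 4) (nat_lit 504) (nat_lit 457) (nat_lit 239))) (XT.nd (nat_lit 78) (nat_lit 152) (nat_lit 0) (XT.lf (nat_lit 0) (nat_lit 563830931327) (nat_lit 76) (nat_lit 1966912261491) (nat_lit 76) (nat_lit 881514720628) (nat_lit 16) (nat_lit 4) (nat_lit 17) (nat_lit 5) (nat_lit 17) (nat_lit 4) (nat_lit 505) (nat_lit 457) (nat_lit 238)) (XT.nd (nat_lit 78) (nat_lit 152) (nat_lit 0) (XT.lf (nat_lit 0) (nat_lit 2285083215552) (nat_lit 76) (nat_lit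 1208839116540) (nat_lit 76) (nat_lit 123441571826) (nat_lit 16) (nat_lit 4) (nat_lit 17) (nat_lit 5) (nat_lit 17) (nat_lit 4) (nat_lit 506) (nat_lit 457) (nat_lit 237)) (XT.lf (nat_lit 0) (nat_lit 303624379379) (nat_lit 76) (nat_lit 364174624302) (nat_lit 152) (nat_lit 3169157481421) (nat_lit 14) (nat_lit 5) (nat_lit 15) (nat_lit 5) (nat_lit 16) (nat_lit 4) (nat_lit 507) (nat_lit 457) (nat_lit 236))))) (XT.nd (nat_lit 234) (nat_lit 152) (nat_lit 0) (XT.nd (nat_lit 78) (nat_lit 76) (nat_lit 0) (XT.lf (nat_lit 0) (nat_lit 1566223765812) (nat_lit 152) (nat_lit 1942365852795) (nat_lit 0) (nat_lit 561226032869) (nat_lit 14) (nat_lit 5) (nat_lit 16) (nat_lit 4) (nat_lit 14) (nat_lit 4) (nat_lit 508) (nat_lit 457) (nat_lit 235)) (XT.nd (nat_lit 78) (nat_lit 76) (nat_lit 0) (XT.lf (nat_lit 0) (nat_lit 2545981584589) (nat_lit 152) (nat_lit 233581391700) (nat_lit 0) (nat_lit 1540983848816) (nat_lit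 14) (nat_lit 5) (nat_lit 16) (nat_lit 4) (nat_lit 14) (nat_lit 4) (nat_lit 509) (nat_lit 457) (nat_lit 234)) (XT.lf (nat_lit 0) (nat_lit 1696785919910) (nat_lit 76) (nat_lit 1948141846070) (nat_lit 76) (nat_lit 943144107676) (nat_lit 13) (nat_lit 4) (nat_lit 14) (nat_lit 5) (nat_lit 14) (nat_lit 4) (nat_lit 510) (nat_lit 457) (nat_lit 233)))) (XT.nd (nat_lit 78) (nat_lit 152) (nat_lit 0) (XT.lf (nat_lit 0) (nat_lit 3794866587313) (nat_lit 76) (nat_lit 1043309578829) (nat_lit 76) (nat_lit 38311838009) (nat_lit 13) (nat_lit 4) (nat_lit 14) (nat_lit 5) (nat_lit 14) (nat_lit 4) (nat_lit 511) (nat_lit 457) (nat_lit 232)) (XT.nd (nat_lit 78) (nat_lit 0) (nat_lit 0) (XT.lf (nat_lit 0) (nat_lit 895007434055) (nat_lit 76) (nat_lit 18456593406) (nat_lit 152) (nat_lit 4270984943074) (nat_lit 11) (nat_lit 5) (nat_lit 12) (nat_lit 5) (nat_lit 13) (nat_lit 4) (nat_lit 512) (nat_lit 457) (nat_lit 231))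 (XT.lf (nat_lit 0) (nat_lit 1995829387484) (nat_lit 152) (nat_lit 2451340517203) (nat_lit 0) (nat_lit 1065275919756) (nat_lit 11) (nat_lit 5) (nat_lit 13) (nat_lit 4) (nat_lit 11) (nat_lit 4) (nat_lit 513) (nat_lit 457) (nat_lit 230)))))) (XT.nd (nat_lit 468) (nat_lit 76) (nat_lit 0) (XT.nd (nat_lit 234) (nat_lit 152) (nat_lit 0) (XT.nd (nat_lit 78) (nat_lit 76) (nat_lit 0) (XT.lf (nat_lit 0) (nat_lit 3165263364022) (nat_lit 152) (nat_lit 466670817112) (nat_lit 0) (nat_lit 2234709894511) (nat_lit 11) (nat_lit 5) (nat_lit 13) (nat_lit 4) (nat_lit 11) (nat_lit 4) (nat_lit 514) (nat_lit 457) (nat_lit 229)) (XT.nd (nat_lit 78) (nat_lit 0) (nat_lit 0) (XT.lf (nat_lit 0) (nat_lit 1765068316707) (nat_lit 76) (nat_lit 2705633673442) (nat_lit 76) (nat_lit 1775080202279) (nat_lit 10) (nat_lit 4) (nat_lit 11) (nat_lit 5) (nat_lit 11) (nat_lit 4) (nat_lit 515) (nat_lit 457) (nat_lit 228)) (XT.lf (nat_lit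 0) (nat_lit 4201886556263) (nat_lit 76) (nat_lit 1691448753360) (nat_lit 76) (nat_lit 760895280669) (nat_lit 10) (nat_lit 4) (nat_lit 11) (nat_lit 5) (nat_lit 11) (nat_lit 4) (nat_lit 516) (nat_lit 457) (nat_lit 227)))) (XT.nd (nat_lit 78) (nat_lit 76) (nat_lit 0) (XT.lf (nat_lit 0) (nat_lit 317695166320) (nat_lit 152) (nat_lit 269747528159) (nat_lit 76) (nat_lit 6507268732547) (nat_lit 9) (nat_lit 5) (nat_lit 11) (nat_lit 5) (nat_lit 10) (nat_lit 4) (nat_lit 517) (nat_lit 457) (nat_lit 226)) (XT.nd (nat_lit 78) (nat_lit 0) (nat_lit 0) (XT.lf (nat_lit 0) (nat_lit 1510231862329) (nat_lit 152) (nat_lit 5404508143534) (nat_lit 0) (nat_lit 648608273979) (nat_lit 8) (nat_lit 5) (nat_lit 10) (nat_lit 4) (nat_lit 8) (nat_lit 4) (nat_lit 518) (nat_lit 457) (nat_lit 225)) (XT.lf (nat_lit 0) (nat_lit 2820996686055) (nat_lit 152) (nat_lit 3287280282885) (nat_lit 0) (nat_lit 1959373096581) (nat_lit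 8) (nat_lit 5) (nat_lit 10) (nat_lit 4) (nat_lit 8) (nat_lit 4) (nat_lit 519) (nat_lit 457) (nat_lit 224))))) (XT.nd (nat_lit 57642) (nat_lit 0) (nat_lit 4712) (XT.nd (nat_lit 78) (nat_lit 76) (nat_lit 0) (XT.lf (nat_lit 0) (nat_lit 4236622692516) (nat_lit 152) (nat_lit 1000674199787) (nat_lit 0) (nat_lit 3374999102003) (nat_lit 8) (nat_lit 5) (nat_lit 10) (nat_lit 4) (nat_lit 8) (nat_lit 4) (nat_lit 520) (nat_lit 457) (nat_lit 223)) (XT.nd (nat_lit 78) (nat_lit 0) (nat_lit 0) (XT.lf (nat_lit 0) (nat_lit 1546207947753) (nat_lit 76) (nat_lit 4256477167144) (nat_lit 76) (nat_lit 3394853575666) (nat_lit 7) (nat_lit 4) (nat_lit 8) (nat_lit 5) (nat_lit 8) (nat_lit 4) (nat_lit 521) (nat_lit 457) (nat_lit 222)) (XT.lf (nat_lit 0) (nat_lit 4353749889733) (nat_lit 76) (nat_lit 3167642844453) (nat_lit 76) (nat_lit 2306019252084) (nat_lit 7) (nat_lit 4) (nat_lit 8) (nat_lit 5) (nat_lit 8) (nat_lit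 4) (nat_lit 522) (nat_lit 457) (nat_lit 221)))) (XT.nd (nat_lit 78) (nat_lit 0) (nat_lit 0) (XT.lf (nat_lit 0) (nat_lit 161749047058) (nat_lit 532) (nat_lit 7338785779) (nat_lit 532) (nat_lit 7338785779) (nat_lit 69) (nat_lit 3) (nat_lit 76) (nat_lit 3) (nat_lit 76) (nat_lit 5) (nat_lit 458) (nat_lit 458) (nat_lit 284)) (XT.nd (nat_lit 78) (nat_lit 0) (nat_lit 76) (XT.lf (nat_lit 76) (nat_lit 166558311210) (nat_lit 0) (nat_lit 173885931322) (nat_lit 532) (nat_lit 26202625889) (nat_lit 70) (nat_lit 5) (nat_lit 69) (nat_lit 3) (nat_lit 76) (nat_lit 5) (nat_lit 459) (nat_lit 458) (nat_lit 283)) (XT.lf (nat_lit 0) (nat_lit 359243072797) (nat_lit 456) (nat_lit 18479855422) (nat_lit 532) (nat_lit 3781302718) (nat_lit 70) (nat_lit 5) (nat_lit 76) (nat_lit 5) (nat_lit 77) (nat_lit 5) (nat_lit 460) (nat_lit 458) (nat_lit 282))))))))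
noncomputable def xc218 : XT := (XT.nd (nat_lit 1716) (nat_lit 1520) (nat_lit 0) (XT.nd (nat_lit 858) (nat_lit 1216) (nat_lit 0) (XT.nd (nat_lit 390) (nat_lit 760) (nat_lit 0) (XT.nd (nat_lit 156) (nat_lit 0) (nat_lit 76) (XT.nd (nat_lit 78) (nat_lit 532) (nat_lit 0) (XT.lf (nat_lit 76) (nat_lit 182258292541) (nat_lit 0) (nat_lit 206187305126) (nat_lit 532) (nat_lit 8392601762) (nat_lit 71) (nat_lit 5) (nat_lit 70) (nat_lit 5) (nat_lit 77) (nat_lit 5) (nat_lit 461) (nat_lit 458) (nat_lit 281)) (XT.lf (nat_lit 0) (nat_lit 6774360442) (nat_lit 532) (nat_lit 13423541274) (nat_lit 608) (nat_lit 393146845181) (nat_lit 63) (nat_lit 5) (nat_lit 70) (nat_lit 5) (nat_lit 71) (nat_lit 5) (nat_lit 462) (nat_lit 458) (nat_lit 280))) (XT.nd (nat_lit 78) (nat_lit 0) (nat_lit 0) (XT.lf (nat_lit 0) (nat_lit 32340517722) (nat_lit 532) (nat_lit 220897780255) (nat_lit 608) (nat_lit 177144940512) (nat_lit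 64) (nat_lit 5) (nat_lit 71) (nat_lit 5) (nat_lit 72) (nat_lit 5) (nat_lit 463) (nat_lit 458) (nat_lit 279)) (XT.nd (nat_lit 78) (nat_lit 0) (nat_lit 76) (XT.lf (nat_lit 76) (nat_lit 1790522058) (nat_lit 0) (nat_lit 59105646507) (nat_lit 608) (nat_lit 387813104786) (nat_lit 65) (nat_lit 5) (nat_lit 64) (nat_lit 5) (nat_lit 72) (nat_lit 5) (nat_lit 464) (nat_lit 458) (nat_lit 278)) (XT.lf (nat_lit 0) (nat_lit 101553762638) (nat_lit 532) (nat_lit 216939495901) (nat_lit 76) (nat_lit 149222733192) (nat_lit 65) (nat_lit 5) (nat_lit 72) (nat_lit 5) (nat_lit 66) (nat_lit 5) (nat_lit 465) (nat_lit 458) (nat_lit 277))))) (XT.nd (nat_lit 234) (nat_lit 228) (nat_lit 0) (XT.nd (nat_lit 78) (nat_lit 228) (nat_lit 0) (XT.lf (nat_lit 0) (nat_lit 31477488000) (nat_lit 456) (nat_lit 116278688652) (nat_lit 532) (nat_lit 340303693956) (nat_lit 59) (nat_lit 5) (nat_lit 65) (nat_lit 5) (nat_lit 66) (nat_lit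 5) (nat_lit 466) (nat_lit 458) (nat_lit 276)) (XT.nd (nat_lit 78) (nat_lit 228) (nat_lit 0) (XT.lf (nat_lit 0) (nat_lit 206196148723) (nat_lit 532) (nat_lit 200061286973) (nat_lit 76) (nat_lit 103090514922) (nat_lit 59) (nat_lit 5) (nat_lit 66) (nat_lit 5) (nat_lit 60) (nat_lit 5) (nat_lit 467) (nat_lit 458) (nat_lit 275)) (XT.lf (nat_lit 0) (nat_lit 77855907388) (nat_lit 228) (nat_lit 196348043883) (nat_lit 304) (nat_lit 257743715157) (nat_lit 56) (nat_lit 5) (nat_lit 59) (nat_lit 5) (nat_lit 60) (nat_lit 5) (nat_lit 468) (nat_lit 458) (nat_lit 274)))) (XT.nd (nat_lit 78) (nat_lit 228) (nat_lit 0) (XT.lf (nat_lit 0) (nat_lit 353994475651) (nat_lit 304) (nat_lit 167405745121) (nat_lit 76) (nat_lit 34447770935) (nat_lit 56) (nat_lit 5) (nat_lit 60) (nat_lit 5) (nat_lit 57) (nat_lit 5) (nat_lit 469) (nat_lit 458) (nat_lit 273)) (XT.nd (nat_lit 78) (nat_lit 0) (nat_lit 0) (XT.lf (nat_lit 0)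 (nat_lit 144335412560) (nat_lit 228) (nat_lit 304404022815) (nat_lit 304) (nat_lit 132235212178) (nat_lit 53) (nat_lit 5) (nat_lit 56) (nat_lit 5) (nat_lit 57) (nat_lit 5) (nat_lit 470) (nat_lit 458) (nat_lit 272)) (XT.lf (nat_lit 0) (nat_lit 490536346618) (nat_lit 228) (nat_lit 65104790273) (nat_lit 304) (nat_lit 52104127386) (nat_lit 53) (nat_lit 5) (nat_lit 56) (nat_lit 5) (nat_lit 57) (nat_lit 5) (nat_lit 471) (nat_lit 458) (nat_lit 271)))))) (XT.nd (nat_lit 390) (nat_lit 608) (nat_lit 0) (XT.nd (nat_lit 156) (nat_lit 380) (nat_lit 0) (XT.nd (nat_lit 78) (nat_lit 0) (nat_lit 0) (XT.lf (nat_lit 0) (nat_lit 43280767309) (nat_lit 228) (nat_lit 402053940227) (nat_lit 76) (nat_lit 190411283223) (nat_lit 50) (nat_lit 5) (nat_lit 53) (nat_lit 5) (nat_lit 51) (nat_lit 5) (nat_lit 472) (nat_lit 458) (nat_lit 270)) (XT.lf (nat_lit 0) (nat_lit 148460426780) (nat_lit 228) (nat_lit 49527183970)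 (nat_lit 76) (nat_lit 467492580347) (nat_lit 50) (nat_lit 5) (nat_lit 53) (nat_lit 5) (nat_lit 51) (nat_lit 5) (nat_lit 473) (nat_lit 458) (nat_lit 269))) (XT.nd (nat_lit 78) (nat_lit 152) (nat_lit 0) (XT.lf (nat_lit 0) (nat_lit 272320072280) (nat_lit 304) (nat_lit 350160942819) (nat_lit 76) (nat_lit 74290863312) (nat_lit 47) (nat_lit 5) (nat_lit 51) (nat_lit 5) (nat_lit 48) (nat_lit 5) (nat_lit 474) (nat_lit 458) (nat_lit 268)) (XT.nd (nat_lit 78) (nat_lit 0) (nat_lit 0) (XT.lf (nat_lit 0) (nat_lit 43812114868) (nat_lit 152) (nat_lit 369861906177) (nat_lit 228) (nat_lit 316286037144) (nat_lit 45) (nat_lit 5) (nat_lit 47) (nat_lit 5) (nat_lit 48) (nat_lit 5) (nat_lit 475) (nat_lit 458) (nat_lit 267)) (XT.lf (nat_lit 0) (nat_lit 489216953040) (nat_lit 152) (nat_lit 86693334097) (nat_lit 228) (nat_lit 189127085106) (nat_lit 45) (nat_lit 5) (nat_lit 47) (nat_lit 5) (nat_lit 48) (nat_lit 5)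 (nat_lit 476) (nat_lit 458) (nat_lit 266))))) (XT.nd (nat_lit 234) (nat_lit 228) (nat_lit 0) (XT.nd (nat_lit 78) (nat_lit 228) (nat_lit 0) (XT.lf (nat_lit 0) (nat_lit 170597191758) (nat_lit 152) (nat_lit 589901162361) (nat_lit 228) (nat_lit 41672685342) (nat_lit 43) (nat_lit 5) (nat_lit 45) (nat_lit 5) (nat_lit 46) (nat_lit 5) (nat_lit 477) (nat_lit 458) (nat_lit 265)) (XT.nd (nat_lit 78) (nat_lit 152) (nat_lit 0) (XT.lf (nat_lit 0) (nat_lit 121685392531) (nat_lit 228) (nat_lit 178533161283) (nat_lit 76) (nat_lit 541031501248) (nat_lit 42) (nat_lit 5) (nat_lit 45) (nat_lit 5) (nat_lit 43) (nat_lit 5) (nat_lit 478) (nat_lit 458) (nat_lit 264)) (XT.lf (nat_lit 0) (nat_lit 304236100906) (nat_lit 228) (nat_lit 557302393073) (nat_lit 76) (nat_lit 21160274008) (nat_lit 40) (nat_lit 5) (nat_lit 43) (nat_lit 5) (nat_lit 41) (nat_lit 5) (nat_lit 479) (nat_lit 458) (nat_lit 263)))) (XT.nd (nat_lit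 78) (nat_lit 228) (nat_lit 0) (XT.lf (nat_lit 0) (nat_lit 514196937409) (nat_lit 228) (nat_lit 55203951485) (nat_lit 76) (nat_lit 357038003342) (nat_lit 40) (nat_lit 5) (nat_lit 43) (nat_lit 5) (nat_lit 41) (nat_lit 5) (nat_lit 480) (nat_lit 458) (nat_lit 262)) (XT.nd (nat_lit 78) (nat_lit 76) (nat_lit 0) (XT.lf (nat_lit 0) (nat_lit 512710181882) (nat_lit 152) (nat_lit 240575136320) (nat_lit 228) (nat_lit 219406454040) (nat_lit 38) (nat_lit 5) (nat_lit 40) (nat_lit 5) (nat_lit 41) (nat_lit 5) (nat_lit 481) (nat_lit 458) (nat_lit 261)) (XT.lf (nat_lit 0) (nat_lit 109348549079) (nat_lit 76) (nat_lit 909085710330) (nat_lit 152) (nat_lit 3655944046) (nat_lit 37) (nat_lit 5) (nat_lit 38) (nat_lit 5) (nat_lit 39) (nat_lit 4) (nat_lit 482) (nat_lit 458) (nat_lit 260))))))) (XT.nd (nat_lit 858) (nat_lit 684) (nat_lit 0) (XT.nd (nat_lit 390) (nat_lit 304) (nat_lit 0) (XT.nd (nat_lit 156) (nat_lit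 304) (nat_lit 0) (XT.nd (nat_lit 78) (nat_lit 152) (nat_lit 0) (XT.lf (nat_lit 0) (nat_lit 237033430607) (nat_lit 152) (nat_lit 336141092256) (nat_lit 76) (nat_lit 500292541989) (nat_lit 36) (nat_lit 5) (nat_lit 38) (nat_lit 5) (nat_lit 37) (nat_lit 5) (nat_lit 483) (nat_lit 458) (nat_lit 259)) (XT.lf (nat_lit 0) (nat_lit 301578722256) (nat_lit 152) (nat_lit 202454679287) (nat_lit 228) (nat_lit 624332839874) (nat_lit 34) (nat_lit 5) (nat_lit 36) (nat_lit 5) (nat_lit 37) (nat_lit 5) (nat_lit 484) (nat_lit 458) (nat_lit 258))) (XT.nd (nat_lit 78) (nat_lit 304) (nat_lit 0) (XT.lf (nat_lit 0) (nat_lit 806582816535) (nat_lit 228) (nat_lit 182488121544) (nat_lit 76) (nat_lit 197451258321) (nat_lit 34) (nat_lit 5) (nat_lit 37) (nat_lit 5) (nat_lit 35) (nat_lit 4) (nat_lit 485) (nat_lit 458) (nat_lit 257)) (XT.nd (nat_lit 78) (nat_lit 228) (nat_lit 0) (XT.lf (nat_lit 0) (nat_lit 534852112953) (nat_lit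 76) (nat_lit 616605828997) (nat_lit 152) (nat_lit 96422945257) (nat_lit 33) (nat_lit 5) (nat_lit 34) (nat_lit 5) (nat_lit 35) (nat_lit 4) (nat_lit 486) (nat_lit 458) (nat_lit 256)) (XT.lf (nat_lit 0) (nat_lit 1088458554) (nat_lit 152) (nat_lit 203337873078) (nat_lit 228) (nat_lit 1108906709498) (nat_lit 30) (nat_lit 5) (nat_lit 32) (nat_lit 5) (nat_lit 33) (nat_lit 5) (nat_lit 487) (nat_lit 458) (nat_lit 255))))) (XT.nd (nat_lit 234) (nat_lit 228) (nat_lit 0) (XT.nd (nat_lit 78) (nat_lit 76) (nat_lit 0) (XT.lf (nat_lit 0) (nat_lit 549979993393) (nat_lit 228) (nat_lit 578430922371) (nat_lit 76) (nat_lit 253342429338) (nat_lit 30) (nat_lit 5) (nat_lit 33) (nat_lit 5) (nat_lit 31) (nat_lit 4) (nat_lit 488) (nat_lit 458) (nat_lit 254)) (XT.nd (nat_lit 78) (nat_lit 0) (nat_lit 0) (XT.lf (nat_lit 0) (nat_lit 219801678168) (nat_lit 76) (nat_lit 713943997879) (nat_lit 152) (nat_lit 521056179112)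 (nat_lit 29) (nat_lit 5) (nat_lit 30) (nat_lit 5) (nat_lit 31) (nat_lit 4) (nat_lit 489) (nat_lit 458) (nat_lit 253)) (XT.lf (nat_lit 0) (nat_lit 1114788746902) (nat_lit 76) (nat_lit 249239182356) (nat_lit 152) (nat_lit 168401091489) (nat_lit 29) (nat_lit 5) (nat_lit 30) (nat_lit 5) (nat_lit 31) (nat_lit 4) (nat_lit 490) (nat_lit 458) (nat_lit 252)))) (XT.nd (nat_lit 78) (nat_lit 76) (nat_lit 0) (XT.lf (nat_lit 0) (nat_lit 219994747327) (nat_lit 152) (nat_lit 1137215890902) (nat_lit 76) (nat_lit 257194393653) (nat_lit 27) (nat_lit 5) (nat_lit 29) (nat_lit 5) (nat_lit 28) (nat_lit 4) (nat_lit 491) (nat_lit 458) (nat_lit 251)) (XT.nd (nat_lit 78) (nat_lit 76) (nat_lit 0) (XT.lf (nat_lit 0) (nat_lit 648553578630) (nat_lit 152) (nat_lit 245813536036) (nat_lit 76) (nat_lit 806766936227) (nat_lit 27) (nat_lit 5) (nat_lit 29) (nat_lit 5) (nat_lit 28) (nat_lit 4) (nat_lit 492) (nat_lit 458) (nat_lit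 250)) (XT.lf (nat_lit 0) (nat_lit 754651726067) (nat_lit 76) (nat_lit 374894773377) (nat_lit 152) (nat_lit 663802941344) (nat_lit 26) (nat_lit 5) (nat_lit 27) (nat_lit 5) (nat_lit 28) (nat_lit 4) (nat_lit 493) (nat_lit 458) (nat_lit 249)))))) (XT.nd (nat_lit 468) (nat_lit 304) (nat_lit 0) (XT.nd (nat_lit 234) (nat_lit 152) (nat_lit 0) (XT.nd (nat_lit 78) (nat_lit 228) (nat_lit 0) (XT.lf (nat_lit 0) (nat_lit 1660390953184) (nat_lit 152) (nat_lit 47921688483) (nat_lit 0) (nat_lit 183719652267) (nat_lit 26) (nat_lit 5) (nat_lit 28) (nat_lit 4) (nat_lit 26) (nat_lit 4) (nat_lit 494) (nat_lit 458) (nat_lit 248)) (XT.nd (nat_lit 78) (nat_lit 76) (nat_lit 0) (XT.lf (nat_lit 0) (nat_lit 259618870509) (nat_lit 152) (nat_lit 936664060728) (nat_lit 76) (nat_lit 798971644669) (nat_lit 24) (nat_lit 5) (nat_lit 26) (nat_lit 5) (nat_lit 25) (nat_lit 4) (nat_lit 495) (nat_lit 458) (nat_lit 247)) (XT.lf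 (nat_lit 0) (nat_lit 151233847479) (nat_lit 76) (nat_lit 631412868175) (nat_lit 152) (nat_lit 1323208074844) (nat_lit 23) (nat_lit 5) (nat_lit 24) (nat_lit 5) (nat_lit 25) (nat_lit 4) (nat_lit 496) (nat_lit 458) (nat_lit 246)))) (XT.nd (nat_lit 78) (nat_lit 152) (nat_lit 0) (XT.lf (nat_lit 0) (nat_lit 1373278486742) (nat_lit 152) (nat_lit 843973381479) (nat_lit 0) (nat_lit 5990218170) (nat_lit 23) (nat_lit 5) (nat_lit 25) (nat_lit 4) (nat_lit 23) (nat_lit 4) (nat_lit 497) (nat_lit 458) (nat_lit 245)) (XT.nd (nat_lit 78) (nat_lit 76) (nat_lit 0) (XT.lf (nat_lit 0) (nat_lit 356983391118) (nat_lit 76) (nat_lit 1679163194125) (nat_lit 76) (nat_lit 311874917856) (nat_lit 22) (nat_lit 4) (nat_lit 23) (nat_lit 5) (nat_lit 23) (nat_lit 4) (nat_lit 498) (nat_lit 458) (nat_lit 244)) (XT.lf (nat_lit 0) (nat_lit 279466429655) (nat_lit 152) (nat_lit 785998109711) (nat_lit 76) (nat_lit 1414906668183)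 (nat_lit 21) (nat_lit 5) (nat_lit 23) (nat_lit 5) (nat_lit 22) (nat_lit 4) (nat_lit 499) (nat_lit 458) (nat_lit 243))))) (XT.nd (nat_lit 234) (nat_lit 152) (nat_lit 0) (XT.nd (nat_lit 78) (nat_lit 76) (nat_lit 0) (XT.lf (nat_lit 0) (nat_lit 534060290631) (nat_lit 76) (nat_lit 380049603899) (nat_lit 152) (nat_lit 1707523409586) (nat_lit 20) (nat_lit 5) (nat_lit 21) (nat_lit 5) (nat_lit 22) (nat_lit 4) (nat_lit 500) (nat_lit 458) (nat_lit 242)) (XT.nd (nat_lit 78) (nat_lit 76) (nat_lit 0) (XT.lf (nat_lit 0) (nat_lit 1630236390953) (nat_lit 152) (nat_lit 777274343731) (nat_lit 0) (nat_lit 364228709377) (nat_lit 20) (nat_lit 5) (nat_lit 22) (nat_lit 4) (nat_lit 20) (nat_lit 4) (nat_lit 501) (nat_lit 458) (nat_lit 241)) (XT.lf (nat_lit 0) (nat_lit 661044933513) (nat_lit 76) (nat_lit 1768377631918) (nat_lit 76) (nat_lit 502369945104) (nat_lit 19) (nat_lit 4) (nat_lit 20) (nat_lit 5) (nat_lit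 20) (nat_lit 4) (nat_lit 502) (nat_lit 458) (nat_lit 240)))) (XT.nd (nat_lit 78) (nat_lit 76) (nat_lit 0) (XT.lf (nat_lit 0) (nat_lit 200298655155) (nat_lit 152) (nat_lit 849386488939) (nat_lit 76) (nat_lit 2052858845934) (nat_lit 18) (nat_lit 5) (nat_lit 20) (nat_lit 5) (nat_lit 19) (nat_lit 4) (nat_lit 503) (nat_lit 458) (nat_lit 239)) (XT.nd (nat_lit 78) (nat_lit 0) (nat_lit 0) (XT.lf (nat_lit 0) (nat_lit 708054666534) (nat_lit 76) (nat_lit 241013777066) (nat_lit 152) (nat_lit 2335480960621) (nat_lit 17) (nat_lit 5) (nat_lit 18) (nat_lit 5) (nat_lit 19) (nat_lit 4) (nat_lit 504) (nat_lit 458) (nat_lit 238)) (XT.lf (nat_lit 0) (nat_lit 1796774818784) (nat_lit 152) (nat_lit 1056672165827) (nat_lit 0) (nat_lit 624545466643) (nat_lit 17) (nat_lit 5) (nat_lit 19) (nat_lit 4) (nat_lit 17) (nat_lit 4) (nat_lit 505) (nat_lit 458) (nat_lit 237))))))))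
noncomputable def xc219 : XT := (XT.nd (nat_lit 59280) (nat_lit 0) (nat_lit 1900) (XT.nd (nat_lit 858) (nat_lit 152) (nat_lit 0) (XT.nd (nat_lit 390) (nat_lit 304) (nat_lit 0) (XT.nd (nat_lit 156) (nat_lit 152) (nat_lit 0) (XT.nd (nat_lit 78) (nat_lit 0) (nat_lit 0) (XT.lf (nat_lit 0) (nat_lit 608937629223) (nat_lit 76) (nat_lit 2124265131979) (nat_lit 76) (nat_lit 952035776274) (nat_lit 16) (nat_lit 4) (nat_lit 17) (nat_lit 5) (nat_lit 17) (nat_lit 4) (nat_lit 506) (nat_lit 458) (nat_lit 236)) (XT.lf (nat_lit 0) (nat_lit 2467890079638) (nat_lit 76) (nat_lit 1305546143611) (nat_lit 76) (nat_lit 133316784605) (nat_lit 16) (nat_lit 4) (nat_lit 17) (nat_lit 5) (nat_lit 17) (nat_lit 4) (nat_lit 507) (nat_lit 458) (nat_lit 235))) (XT.nd (nat_lit 78) (nat_lit 0) (nat_lit 0) (XT.lf (nat_lit 0) (nat_lit 327914536851) (nat_lit 76) (nat_lit 393308491472) (nat_lit 152) (nat_lit 3422689967232) (nat_lit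 14) (nat_lit 5) (nat_lit 15) (nat_lit 5) (nat_lit 16) (nat_lit 4) (nat_lit 508) (nat_lit 458) (nat_lit 234)) (XT.nd (nat_lit 78) (nat_lit 0) (nat_lit 0) (XT.lf (nat_lit 0) (nat_lit 1691521765984) (nat_lit 152) (nat_lit 2097754923791) (nat_lit 0) (nat_lit 606124205899) (nat_lit 14) (nat_lit 5) (nat_lit 16) (nat_lit 4) (nat_lit 14) (nat_lit 4) (nat_lit 509) (nat_lit 458) (nat_lit 233)) (XT.lf (nat_lit 0) (nat_lit 2749660202937) (nat_lit 152) (nat_lit 252267720418) (nat_lit 0) (nat_lit 1664262640426) (nat_lit 14) (nat_lit 5) (nat_lit 16) (nat_lit 4) (nat_lit 14) (nat_lit 4) (nat_lit 510) (nat_lit 458) (nat_lit 232))))) (XT.nd (nat_lit 234) (nat_lit 76) (nat_lit 0) (XT.nd (nat_lit 78) (nat_lit 152) (nat_lit 0) (XT.lf (nat_lit 0) (nat_lit 1832528971498) (nat_lit 76) (nat_lit 2103993104838) (nat_lit 76) (nat_lit 1018595540081) (nat_lit 13) (nat_lit 4) (nat_lit 14) (nat_lit 5) (nat_lit 14) (nat_lit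 4) (nat_lit 511) (nat_lit 458) (nat_lit 231)) (XT.nd (nat_lit 78) (nat_lit 152) (nat_lit 0) (XT.lf (nat_lit 0) (nat_lit 4098456079108) (nat_lit 76) (nat_lit 1126774262805) (nat_lit 76) (nat_lit 41376695967) (nat_lit 13) (nat_lit 4) (nat_lit 14) (nat_lit 5) (nat_lit 14) (nat_lit 4) (nat_lit 512) (nat_lit 458) (nat_lit 230)) (XT.lf (nat_lit 0) (nat_lit 966608193766) (nat_lit 76) (nat_lit 19933038219) (nat_lit 152) (nat_lit 4612663649603) (nat_lit 11) (nat_lit 5) (nat_lit 12) (nat_lit 5) (nat_lit 13) (nat_lit 4) (nat_lit 513) (nat_lit 458) (nat_lit 229)))) (XT.nd (nat_lit 78) (nat_lit 76) (nat_lit 0) (XT.lf (nat_lit 0) (nat_lit 2155495816551) (nat_lit 152) (nat_lit 2647447601553) (nat_lit 0) (nat_lit 1150498066045) (nat_lit 11) (nat_lit 5) (nat_lit 13) (nat_lit 4) (nat_lit 11) (nat_lit 4) (nat_lit 514) (nat_lit 458) (nat_lit 228)) (XT.nd (nat_lit 78) (nat_lit 76) (nat_lit 0) (XT.lf (nat_lit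 0) (nat_lit 3418484505430) (nat_lit 152) (nat_lit 504004337086) (nat_lit 0) (nat_lit 2413486753395) (nat_lit 11) (nat_lit 5) (nat_lit 13) (nat_lit 4) (nat_lit 11) (nat_lit 4) (nat_lit 515) (nat_lit 458) (nat_lit 227)) (XT.lf (nat_lit 0) (nat_lit 1906273923758) (nat_lit 76) (nat_lit 2922084295942) (nat_lit 76) (nat_lit 1917086542492) (nat_lit 10) (nat_lit 4) (nat_lit 11) (nat_lit 5) (nat_lit 11) (nat_lit 4) (nat_lit 516) (nat_lit 458) (nat_lit 226)))))) (XT.nd (nat_lit 57954) (nat_lit 0) (nat_lit 4180) (XT.nd (nat_lit 156) (nat_lit 76) (nat_lit 0) (XT.nd (nat_lit 78) (nat_lit 76) (nat_lit 0) (XT.lf (nat_lit 0) (nat_lit 4538037611981) (nat_lit 76) (nat_lit 1826764587542) (nat_lit 76) (nat_lit 821766832780) (nat_lit 10) (nat_lit 4) (nat_lit 11) (nat_lit 5) (nat_lit 11) (nat_lit 4) (nat_lit 517) (nat_lit 458) (nat_lit 225)) (XT.lf (nat_lit 0) (nat_lit 343110841500) (nat_lit 152) (nat_lit 291327205653)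 (nat_lit 76) (nat_lit 7027850289082) (nat_lit 9) (nat_lit 5) (nat_lit 11) (nat_lit 5) (nat_lit 10) (nat_lit 4) (nat_lit 518) (nat_lit 458) (nat_lit 224))) (XT.nd (nat_lit 78) (nat_lit 0) (nat_lit 0) (XT.lf (nat_lit 0) (nat_lit 1631050473007) (nat_lit 152) (nat_lit 5836868670074) (nat_lit 0) (nat_lit 700496994211) (nat_lit 8) (nat_lit 5) (nat_lit 10) (nat_lit 4) (nat_lit 8) (nat_lit 4) (nat_lit 519) (nat_lit 458) (nat_lit 223)) (XT.nd (nat_lit 78) (nat_lit 0) (nat_lit 0) (XT.lf (nat_lit 0) (nat_lit 3046676478061) (nat_lit 152) (nat_lit 3550262589827) (nat_lit 0) (nat_lit 2116122998302) (nat_lit 8) (nat_lit 5) (nat_lit 10) (nat_lit 4) (nat_lit 8) (nat_lit 4) (nat_lit 520) (nat_lit 458) (nat_lit 222)) (XT.lf (nat_lit 0) (nat_lit 4575552560808) (nat_lit 152) (nat_lit 1080728028651) (nat_lit 0) (nat_lit 3644999080157) (nat_lit 8) (nat_lit 5) (nat_lit 10) (nat_lit 4) (nat_lit 8) (nat_lit 4) (nat_lit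 521) (nat_lit 458) (nat_lit 221))))) (XT.nd (nat_lit 234) (nat_lit 456) (nat_lit 0) (XT.nd (nat_lit 78) (nat_lit 0) (nat_lit 0) (XT.lf (nat_lit 0) (nat_lit 174689452221) (nat_lit 532) (nat_lit 7925628525) (nat_lit 532) (nat_lit 7925628525) (nat_lit 69) (nat_lit 3) (nat_lit 76) (nat_lit 3) (nat_lit 76) (nat_lit 5) (nat_lit 459) (nat_lit 459) (nat_lit 282)) (XT.nd (nat_lit 78) (nat_lit 0) (nat_lit 76) (XT.lf (nat_lit 76) (nat_lit 179883483170) (nat_lit 0) (nat_lit 187797202437) (nat_lit 532) (nat_lit 28297859394) (nat_lit 70) (nat_lit 5) (nat_lit 69) (nat_lit 3) (nat_lit 76) (nat_lit 5) (nat_lit 460) (nat_lit 459) (nat_lit 281)) (XT.lf (nat_lit 0) (nat_lit 387983346522) (nat_lit 456) (nat_lit 19957698027) (nat_lit 532) (nat_lit 4083458075) (nat_lit 70) (nat_lit 5) (nat_lit 76) (nat_lit 5) (nat_lit 77) (nat_lit 5) (nat_lit 461) (nat_lit 459) (nat_lit 280)))) (XT.nd (nat_lit 78) (nat_lit 532)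 (nat_lit 0) (XT.lf (nat_lit 76) (nat_lit 196839487955) (nat_lit 0) (nat_lit 222682536897) (nat_lit 532) (nat_lit 9063167668) (nat_lit 71) (nat_lit 5) (nat_lit 70) (nat_lit 5) (nat_lit 77) (nat_lit 5) (nat_lit 462) (nat_lit 459) (nat_lit 279)) (XT.nd (nat_lit 78) (nat_lit 0) (nat_lit 76) (XT.lf (nat_lit 0) (nat_lit 7317050113) (nat_lit 532) (nat_lit 14496892522) (nat_lit 608) (nat_lit 424598324307) (nat_lit 63) (nat_lit 5) (nat_lit 70) (nat_lit 5) (nat_lit 71) (nat_lit 5) (nat_lit 463) (nat_lit 459) (nat_lit 278)) (XT.lf (nat_lit 0) (nat_lit 34928453246) (nat_lit 532) (nat_lit 238569023483) (nat_lit 608) (nat_lit 191316364903) (nat_lit 64) (nat_lit 5) (nat_lit 71) (nat_lit 5) (nat_lit 72) (nat_lit 5) (nat_lit 464) (nat_lit 459) (nat_lit 277))))))) (XT.nd (nat_lit 858) (nat_lit 1064) (nat_lit 0) (XT.nd (nat_lit 390) (nat_lit 684) (nat_lit 0) (XT.nd (nat_lit 156) (nat_lit 608) (nat_lit 0)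 (XT.nd (nat_lit 78) (nat_lit 0) (nat_lit 76) (XT.lf (nat_lit 76) (nat_lit 1934328352) (nat_lit 0) (nat_lit 63834189966) (nat_lit 608) (nat_lit 418837444023) (nat_lit 65) (nat_lit 5) (nat_lit 64) (nat_lit 5) (nat_lit 72) (nat_lit 5) (nat_lit 465) (nat_lit 459) (nat_lit 276)) (XT.lf (nat_lit 0) (nat_lit 109678669262) (nat_lit 532) (nat_lit 234294081856) (nat_lit 76) (nat_lit 161160471154) (nat_lit 65) (nat_lit 5) (nat_lit 72) (nat_lit 5) (nat_lit 66) (nat_lit 5) (nat_lit 466) (nat_lit 459) (nat_lit 275))) (XT.nd (nat_lit 78) (nat_lit 228) (nat_lit 0) (XT.lf (nat_lit 0) (nat_lit 33996246233) (nat_lit 456) (nat_lit 125580998752) (nat_lit 532) (nat_lit 367527369012) (nat_lit 59) (nat_lit 5) (nat_lit 65) (nat_lit 5) (nat_lit 66) (nat_lit 5) (nat_lit 467) (nat_lit 459) (nat_lit 274)) (XT.nd (nat_lit 78) (nat_lit 228) (nat_lit 0) (XT.lf (nat_lit 0) (nat_lit 222692371954) (nat_lit 532) (nat_lit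 216065628992) (nat_lit 76) (nat_lit 111337742915) (nat_lit 59) (nat_lit 5) (nat_lit 66) (nat_lit 5) (nat_lit 60) (nat_lit 5) (nat_lit 468) (nat_lit 459) (nat_lit 273)) (XT.lf (nat_lit 0) (nat_lit 84084926716) (nat_lit 228) (nat_lit 212055845780) (nat_lit 304) (nat_lit 278362666558) (nat_lit 56) (nat_lit 5) (nat_lit 59) (nat_lit 5) (nat_lit 60) (nat_lit 5) (nat_lit 469) (nat_lit 459) (nat_lit 272))))) (XT.nd (nat_lit 234) (nat_lit 456) (nat_lit 0) (XT.nd (nat_lit 78) (nat_lit 228) (nat_lit 0) (XT.lf (nat_lit 0) (nat_lit 382314502338) (nat_lit 304) (nat_lit 180797661745) (nat_lit 76) (nat_lit 37203629214) (nat_lit 56) (nat_lit 5) (nat_lit 60) (nat_lit 5) (nat_lit 57) (nat_lit 5) (nat_lit 470) (nat_lit 459) (nat_lit 271)) (XT.nd (nat_lit 78) (nat_lit 0) (nat_lit 0) (XT.lf (nat_lit 0) (nat_lit 155882774804) (nat_lit 228) (nat_lit 328756262049) (nat_lit 304) (nat_lit 142813546534) (nat_lit 53)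 (nat_lit 5) (nat_lit 56) (nat_lit 5) (nat_lit 57) (nat_lit 5) (nat_lit 471) (nat_lit 459) (nat_lit 270)) (XT.lf (nat_lit 0) (nat_lit 529779744384) (nat_lit 228) (nat_lit 70313097022) (nat_lit 304) (nat_lit 56272010708) (nat_lit 53) (nat_lit 5) (nat_lit 56) (nat_lit 5) (nat_lit 57) (nat_lit 5) (nat_lit 472) (nat_lit 459) (nat_lit 269)))) (XT.nd (nat_lit 78) (nat_lit 228) (nat_lit 0) (XT.lf (nat_lit 0) (nat_lit 46743636052) (nat_lit 228) (nat_lit 434217725505) (nat_lit 76) (nat_lit 205644275684) (nat_lit 50) (nat_lit 5) (nat_lit 53) (nat_lit 5) (nat_lit 51) (nat_lit 5) (nat_lit 473) (nat_lit 459) (nat_lit 268)) (XT.nd (nat_lit 78) (nat_lit 228) (nat_lit 0) (XT.lf (nat_lit 0) (nat_lit 160337638107) (nat_lit 228) (nat_lit 53488868002) (nat_lit 76) (nat_lit 504892069927) (nat_lit 50) (nat_lit 5) (nat_lit 53) (nat_lit 5) (nat_lit 51) (nat_lit 5) (nat_lit 474) (nat_lit 459) (nat_lit 267)) (XT.lf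 (nat_lit 0) (nat_lit 294106041635) (nat_lit 304) (nat_lit 378173313786) (nat_lit 76) (nat_lit 80234244014) (nat_lit 47) (nat_lit 5) (nat_lit 51) (nat_lit 5) (nat_lit 48) (nat_lit 5) (nat_lit 475) (nat_lit 459) (nat_lit 266)))))) (XT.nd (nat_lit 468) (nat_lit 532) (nat_lit 0) (XT.nd (nat_lit 234) (nat_lit 228) (nat_lit 0) (XT.nd (nat_lit 78) (nat_lit 152) (nat_lit 0) (XT.lf (nat_lit 0) (nat_lit 47317575745) (nat_lit 152) (nat_lit 399450715451) (nat_lit 228) (nat_lit 341588543621) (nat_lit 45) (nat_lit 5) (nat_lit 47) (nat_lit 5) (nat_lit 48) (nat_lit 5) (nat_lit 476) (nat_lit 459) (nat_lit 265)) (XT.nd (nat_lit 78) (nat_lit 152) (nat_lit 0) (XT.lf (nat_lit 0) (nat_lit 528354764549) (nat_lit 152) (nat_lit 93628668213) (nat_lit 228) (nat_lit 204256903309) (nat_lit 45) (nat_lit 5) (nat_lit 47) (nat_lit 5) (nat_lit 48) (nat_lit 5) (nat_lit 477) (nat_lit 459) (nat_lit 264)) (XT.lf (nat_lit 0)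 (nat_lit 184245433025) (nat_lit 152) (nat_lit 637093102336) (nat_lit 228) (nat_lit 45006162095) (nat_lit 43) (nat_lit 5) (nat_lit 45) (nat_lit 5) (nat_lit 46) (nat_lit 5) (nat_lit 478) (nat_lit 459) (nat_lit 263)))) (XT.nd (nat_lit 78) (nat_lit 152) (nat_lit 0) (XT.lf (nat_lit 0) (nat_lit 131420521306) (nat_lit 228) (nat_lit 192815367003) (nat_lit 76) (nat_lit 584314147258) (nat_lit 42) (nat_lit 5) (nat_lit 45) (nat_lit 5) (nat_lit 43) (nat_lit 5) (nat_lit 479) (nat_lit 459) (nat_lit 262)) (XT.nd (nat_lit 78) (nat_lit 0) (nat_lit 0) (XT.lf (nat_lit 0) (nat_lit 328575278414) (nat_lit 228) (nat_lit 601886129298) (nat_lit 76) (nat_lit 22853238458) (nat_lit 40) (nat_lit 5) (nat_lit 43) (nat_lit 5) (nat_lit 41) (nat_lit 5) (nat_lit 480) (nat_lit 459) (nat_lit 261)) (XT.lf (nat_lit 0) (nat_lit 555332960398) (nat_lit 228) (nat_lit 59619846103) (nat_lit 76) (nat_lit 385601175581) (nat_lit 40) (nat_lit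 5) (nat_lit 43) (nat_lit 5) (nat_lit 41) (nat_lit 5) (nat_lit 481) (nat_lit 459) (nat_lit 260))))) (XT.nd (nat_lit 234) (nat_lit 228) (nat_lit 0) (XT.nd (nat_lit 78) (nat_lit 152) (nat_lit 0) (XT.lf (nat_lit 0) (nat_lit 553727407263) (nat_lit 152) (nat_lit 259820994420) (nat_lit 228) (nat_lit 236958691608) (nat_lit 38) (nat_lit 5) (nat_lit 40) (nat_lit 5) (nat_lit 41) (nat_lit 5) (nat_lit 482) (nat_lit 459) (nat_lit 259)) (XT.nd (nat_lit 78) (nat_lit 76) (nat_lit 0) (XT.lf (nat_lit 0) (nat_lit 118096850058) (nat_lit 76) (nat_lit 981812402449) (nat_lit 152) (nat_lit 3948146956) (nat_lit 37) (nat_lit 5) (nat_lit 38) (nat_lit 5) (nat_lit 39) (nat_lit 4) (nat_lit 483) (nat_lit 459) (nat_lit 258)) (XT.lf (nat_lit 0) (nat_lit 255996344848) (nat_lit 152) (nat_lit 363031980780) (nat_lit 76) (nat_lit 540316085158) (nat_lit 36) (nat_lit 5) (nat_lit 38) (nat_lit 5) (nat_lit 37) (nat_lit 5) (nat_lit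 484) (nat_lit 459) (nat_lit 257)))) (XT.nd (nat_lit 78) (nat_lit 76) (nat_lit 0) (XT.lf (nat_lit 0) (nat_lit 325705408795) (nat_lit 152) (nat_lit 218650896251) (nat_lit 228) (nat_lit 674279217109) (nat_lit 34) (nat_lit 5) (nat_lit 36) (nat_lit 5) (nat_lit 37) (nat_lit 5) (nat_lit 485) (nat_lit 459) (nat_lit 256)) (XT.nd (nat_lit 78) (nat_lit 76) (nat_lit 0) (XT.lf (nat_lit 0) (nat_lit 871109659603) (nat_lit 228) (nat_lit 197086797611) (nat_lit 76) (nat_lit 213247497418) (nat_lit 34) (nat_lit 5) (nat_lit 37) (nat_lit 5) (nat_lit 35) (nat_lit 4) (nat_lit 486) (nat_lit 459) (nat_lit 255)) (XT.lf (nat_lit 0) (nat_lit 577640646185) (nat_lit 76) (nat_lit 665934141495) (nat_lit 152) (nat_lit 104136553618) (nat_lit 33) (nat_lit 5) (nat_lit 34) (nat_lit 5) (nat_lit 35) (nat_lit 4) (nat_lit 487) (nat_lit 459) (nat_lit 254))))))))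
noncomputable def xc220 : XT := (XT.nd (nat_lit 1716) (nat_lit 456) (nat_lit 0) (XT.nd (nat_lit 858) (nat_lit 684) (nat_lit 0) (XT.nd (nat_lit 390) (nat_lit 304) (nat_lit 0) (XT.nd (nat_lit 156) (nat_lit 228) (nat_lit 0) (XT.nd (nat_lit 78) (nat_lit 0) (nat_lit 0) (XT.lf (nat_lit 0) (nat_lit 1175901345) (nat_lit 152) (nat_lit 219604745522) (nat_lit 228) (nat_lit 1197619020810) (nat_lit 30) (nat_lit 5) (nat_lit 32) (nat_lit 5) (nat_lit 33) (nat_lit 5) (nat_lit 488) (nat_lit 459) (nat_lit 253)) (XT.lf (nat_lit 0) (nat_lit 593978589615) (nat_lit 228) (nat_lit 624705045175) (nat_lit 76) (nat_lit 273609962137) (nat_lit 30) (nat_lit 5) (nat_lit 33) (nat_lit 5) (nat_lit 31) (nat_lit 4) (nat_lit 489) (nat_lit 459) (nat_lit 252))) (XT.nd (nat_lit 78) (nat_lit 152) (nat_lit 0) (XT.lf (nat_lit 0) (nat_lit 237386154521) (nat_lit 76) (nat_lit 771059366013) (nat_lit 152) (nat_lit 562740467765) (nat_lit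 29) (nat_lit 5) (nat_lit 30) (nat_lit 5) (nat_lit 31) (nat_lit 4) (nat_lit 490) (nat_lit 459) (nat_lit 251)) (XT.nd (nat_lit 78) (nat_lit 152) (nat_lit 0) (XT.lf (nat_lit 0) (nat_lit 1203972163413) (nat_lit 76) (nat_lit 269178176484) (nat_lit 152) (nat_lit 181872988367) (nat_lit 29) (nat_lit 5) (nat_lit 30) (nat_lit 5) (nat_lit 31) (nat_lit 4) (nat_lit 491) (nat_lit 459) (nat_lit 250)) (XT.lf (nat_lit 0) (nat_lit 237594505712) (nat_lit 152) (nat_lit 1228192833506) (nat_lit 76) (nat_lit 277770080894) (nat_lit 27) (nat_lit 5) (nat_lit 29) (nat_lit 5) (nat_lit 28) (nat_lit 4) (nat_lit 492) (nat_lit 459) (nat_lit 249))))) (XT.nd (nat_lit 234) (nat_lit 228) (nat_lit 0) (XT.nd (nat_lit 78) (nat_lit 76) (nat_lit 0) (XT.lf (nat_lit 0) (nat_lit 700438030290) (nat_lit 152) (nat_lit 265478314597) (nat_lit 76) (nat_lit 871308416819) (nat_lit 27) (nat_lit 5) (nat_lit 29) (nat_lit 5) (nat_lit 28) (nat_lit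 4) (nat_lit 493) (nat_lit 459) (nat_lit 248)) (XT.nd (nat_lit 78) (nat_lit 0) (nat_lit 0) (XT.lf (nat_lit 0) (nat_lit 815024160770) (nat_lit 76) (nat_lit 404886218883) (nat_lit 152) (nat_lit 716907003549) (nat_lit 26) (nat_lit 5) (nat_lit 27) (nat_lit 5) (nat_lit 28) (nat_lit 4) (nat_lit 494) (nat_lit 459) (nat_lit 247)) (XT.lf (nat_lit 0) (nat_lit 1793222380858) (nat_lit 152) (nat_lit 51755140055) (nat_lit 0) (nat_lit 198417344395) (nat_lit 26) (nat_lit 5) (nat_lit 28) (nat_lit 4) (nat_lit 26) (nat_lit 4) (nat_lit 495) (nat_lit 459) (nat_lit 246)))) (XT.nd (nat_lit 78) (nat_lit 76) (nat_lit 0) (XT.lf (nat_lit 0) (nat_lit 280388530835) (nat_lit 152) (nat_lit 1011596901300) (nat_lit 76) (nat_lit 862889497765) (nat_lit 24) (nat_lit 5) (nat_lit 26) (nat_lit 5) (nat_lit 25) (nat_lit 4) (nat_lit 496) (nat_lit 459) (nat_lit 245)) (XT.nd (nat_lit 78) (nat_lit 0) (nat_lit 0) (XT.lf (nat_lit 0)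 (nat_lit 163332832365) (nat_lit 76) (nat_lit 681925766728) (nat_lit 152) (nat_lit 1429064562928) (nat_lit 23) (nat_lit 5) (nat_lit 24) (nat_lit 5) (nat_lit 25) (nat_lit 4) (nat_lit 497) (nat_lit 459) (nat_lit 244)) (XT.lf (nat_lit 0) (nat_lit 1483140903956) (nat_lit 152) (nat_lit 911490987502) (nat_lit 0) (nat_lit 6469550764) (nat_lit 23) (nat_lit 5) (nat_lit 25) (nat_lit 4) (nat_lit 23) (nat_lit 4) (nat_lit 498) (nat_lit 459) (nat_lit 243)))))) (XT.nd (nat_lit 390) (nat_lit 380) (nat_lit 0) (XT.nd (nat_lit 156) (nat_lit 152) (nat_lit 0) (XT.nd (nat_lit 78) (nat_lit 76) (nat_lit 0) (XT.lf (nat_lit 0) (nat_lit 385542320207) (nat_lit 76) (nat_lit 1813496126087) (nat_lit 76) (nat_lit 336824766297) (nat_lit 22) (nat_lit 4) (nat_lit 23) (nat_lit 5) (nat_lit 23) (nat_lit 4) (nat_lit 499) (nat_lit 459) (nat_lit 242)) (XT.lf (nat_lit 0) (nat_lit 301823871560) (nat_lit 152) (nat_lit 848877713054)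 (nat_lit 76) (nat_lit 1528099309322) (nat_lit 21) (nat_lit 5) (nat_lit 23) (nat_lit 5) (nat_lit 22) (nat_lit 4) (nat_lit 500) (nat_lit 459) (nat_lit 241))) (XT.nd (nat_lit 78) (nat_lit 76) (nat_lit 0) (XT.lf (nat_lit 0) (nat_lit 576785353102) (nat_lit 76) (nat_lit 410453456829) (nat_lit 152) (nat_lit 1844125148593) (nat_lit 20) (nat_lit 5) (nat_lit 21) (nat_lit 5) (nat_lit 22) (nat_lit 4) (nat_lit 501) (nat_lit 459) (nat_lit 240)) (XT.nd (nat_lit 78) (nat_lit 76) (nat_lit 0) (XT.lf (nat_lit 0) (nat_lit 1760655419464) (nat_lit 152) (nat_lit 839456063113) (nat_lit 0) (nat_lit 393367107617) (nat_lit 20) (nat_lit 5) (nat_lit 22) (nat_lit 4) (nat_lit 20) (nat_lit 4) (nat_lit 502) (nat_lit 459) (nat_lit 239)) (XT.lf (nat_lit 0) (nat_lit 713928750536) (nat_lit 76) (nat_lit 1909847734027) (nat_lit 76) (nat_lit 542559417690) (nat_lit 19) (nat_lit 4) (nat_lit 20) (nat_lit 5) (nat_lit 20) (nat_lit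 4) (nat_lit 503) (nat_lit 459) (nat_lit 238))))) (XT.nd (nat_lit 234) (nat_lit 228) (nat_lit 0) (XT.nd (nat_lit 78) (nat_lit 76) (nat_lit 0) (XT.lf (nat_lit 0) (nat_lit 216322655779) (nat_lit 152) (nat_lit 917337196473) (nat_lit 76) (nat_lit 2217087648311) (nat_lit 18) (nat_lit 5) (nat_lit 20) (nat_lit 5) (nat_lit 19) (nat_lit 4) (nat_lit 504) (nat_lit 459) (nat_lit 237)) (XT.nd (nat_lit 78) (nat_lit 0) (nat_lit 0) (XT.lf (nat_lit 0) (nat_lit 764699246080) (nat_lit 76) (nat_lit 260294778162) (nat_lit 152) (nat_lit 2522319323894) (nat_lit 17) (nat_lit 5) (nat_lit 18) (nat_lit 5) (nat_lit 19) (nat_lit 4) (nat_lit 505) (nat_lit 459) (nat_lit 236)) (XT.lf (nat_lit 0) (nat_lit 1940516903903) (nat_lit 152) (nat_lit 1141205742598) (nat_lit 0) (nat_lit 674509192876) (nat_lit 17) (nat_lit 5) (nat_lit 19) (nat_lit 4) (nat_lit 17) (nat_lit 4) (nat_lit 506) (nat_lit 459) (nat_lit 235)))) (XT.nd (nat_lit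 78) (nat_lit 152) (nat_lit 0) (XT.lf (nat_lit 0) (nat_lit 657652831082) (nat_lit 76) (nat_lit 2294206247860) (nat_lit 76) (nat_lit 1028198533776) (nat_lit 16) (nat_lit 4) (nat_lit 17) (nat_lit 5) (nat_lit 17) (nat_lit 4) (nat_lit 507) (nat_lit 459) (nat_lit 234)) (XT.nd (nat_lit 78) (nat_lit 152) (nat_lit 0) (XT.lf (nat_lit 0) (nat_lit 2665321463344) (nat_lit 76) (nat_lit 1409989747436) (nat_lit 76) (nat_lit 143982030523) (nat_lit 16) (nat_lit 4) (nat_lit 17) (nat_lit 5) (nat_lit 17) (nat_lit 4) (nat_lit 508) (nat_lit 459) (nat_lit 233)) (XT.lf (nat_lit 0) (nat_lit 354147877373) (nat_lit 76) (nat_lit 424773082677) (nat_lit 152) (nat_lit 3696505067986) (nat_lit 14) (nat_lit 5) (nat_lit 15) (nat_lit 5) (nat_lit 16) (nat_lit 4) (nat_lit 509) (nat_lit 459) (nat_lit 232))))))) (XT.nd (nat_lit 858) (nat_lit 0) (nat_lit 0) (XT.nd (nat_lit 390) (nat_lit 228) (nat_lit 0) (XT.nd (nat_lit 156) (nat_lit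 228) (nat_lit 0) (XT.nd (nat_lit 78) (nat_lit 0) (nat_lit 0) (XT.lf (nat_lit 0) (nat_lit 1826843592060) (nat_lit 152) (nat_lit 2265575148603) (nat_lit 0) (nat_lit 654614219875) (nat_lit 14) (nat_lit 5) (nat_lit 16) (nat_lit 4) (nat_lit 14) (nat_lit 4) (nat_lit 510) (nat_lit 459) (nat_lit 231)) (XT.lf (nat_lit 0) (nat_lit 2969633097688) (nat_lit 152) (nat_lit 272448981486) (nat_lit 0) (nat_lit 1797403723423) (nat_lit 14) (nat_lit 5) (nat_lit 16) (nat_lit 4) (nat_lit 14) (nat_lit 4) (nat_lit 511) (nat_lit 459) (nat_lit 230))) (XT.nd (nat_lit 78) (nat_lit 152) (nat_lit 0) (XT.lf (nat_lit 0) (nat_lit 1979131441819) (nat_lit 76) (nat_lit 2272312476994) (nat_lit 76) (nat_lit 1100083100803) (nat_lit 13) (nat_lit 4) (nat_lit 14) (nat_lit 5) (nat_lit 14) (nat_lit 4) (nat_lit 512) (nat_lit 459) (nat_lit 229)) (XT.nd (nat_lit 78) (nat_lit 152) (nat_lit 0) (XT.lf (nat_lit 0) (nat_lit 4426332706735)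 (nat_lit 76) (nat_lit 1216916133244) (nat_lit 76) (nat_lit 44686755270) (nat_lit 13) (nat_lit 4) (nat_lit 14) (nat_lit 5) (nat_lit 14) (nat_lit 4) (nat_lit 513) (nat_lit 459) (nat_lit 228)) (XT.lf (nat_lit 0) (nat_lit 1043936990716) (nat_lit 76) (nat_lit 21527610409) (nat_lit 152) (nat_lit 4981676665340) (nat_lit 11) (nat_lit 5) (nat_lit 12) (nat_lit 5) (nat_lit 13) (nat_lit 4) (nat_lit 514) (nat_lit 459) (nat_lit 227))))) (XT.nd (nat_lit 234) (nat_lit 152) (nat_lit 0) (XT.nd (nat_lit 78) (nat_lit 76) (nat_lit 0) (XT.lf (nat_lit 0) (nat_lit 2327935548807) (nat_lit 152) (nat_lit 2859243275052) (nat_lit 0) (nat_lit 1242537973664) (nat_lit 11) (nat_lit 5) (nat_lit 13) (nat_lit 4) (nat_lit 11) (nat_lit 4) (nat_lit 515) (nat_lit 459) (nat_lit 226)) (XT.nd (nat_lit 78) (nat_lit 76) (nat_lit 0) (XT.lf (nat_lit 0) (nat_lit 3691963327838) (nat_lit 152) (nat_lit 544324559400) (nat_lit 0) (nat_lit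 2606565751384) (nat_lit 11) (nat_lit 5) (nat_lit 13) (nat_lit 4) (nat_lit 11) (nat_lit 4) (nat_lit 516) (nat_lit 459) (nat_lit 225)) (XT.lf (nat_lit 0) (nat_lit 2058775959155) (nat_lit 76) (nat_lit 3155850978426) (nat_lit 76) (nat_lit 2070453400759) (nat_lit 10) (nat_lit 4) (nat_lit 11) (nat_lit 5) (nat_lit 11) (nat_lit 4) (nat_lit 517) (nat_lit 459) (nat_lit 224)))) (XT.nd (nat_lit 78) (nat_lit 152) (nat_lit 0) (XT.lf (nat_lit 0) (nat_lit 4901080733436) (nat_lit 76) (nat_lit 1972905697886) (nat_lit 76) (nat_lit 887508119095) (nat_lit 10) (nat_lit 4) (nat_lit 11) (nat_lit 5) (nat_lit 11) (nat_lit 4) (nat_lit 518) (nat_lit 459) (nat_lit 223)) (XT.nd (nat_lit 78) (nat_lit 76) (nat_lit 0) (XT.lf (nat_lit 0) (nat_lit 370559761867) (nat_lit 152) (nat_lit 314633275146) (nat_lit 76) (nat_lit 7590078361875) (nat_lit 9) (nat_lit 5) (nat_lit 11) (nat_lit 5) (nat_lit 10) (nat_lit 4) (nat_lit 519)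 (nat_lit 459) (nat_lit 222)) (XT.lf (nat_lit 0) (nat_lit 1761534563738) (nat_lit 152) (nat_lit 6303818056561) (nat_lit 0) (nat_lit 756536803743) (nat_lit 8) (nat_lit 5) (nat_lit 10) (nat_lit 4) (nat_lit 8) (nat_lit 4) (nat_lit 520) (nat_lit 459) (nat_lit 221)))))) (XT.nd (nat_lit 58110) (nat_lit 0) (nat_lit 3648) (XT.nd (nat_lit 57876) (nat_lit 0) (nat_lit 4180) (XT.nd (nat_lit 57720) (nat_lit 0) (nat_lit 4636) (XT.lf (nat_lit 0) (nat_lit 3290410645279) (nat_lit 152) (nat_lit 3834283497829) (nat_lit 0) (nat_lit 2285412884458) (nat_lit 8) (nat_lit 5) (nat_lit 10) (nat_lit 4) (nat_lit 8) (nat_lit 4) (nat_lit 521) (nat_lit 459) (nat_lit 220)) (XT.nd (nat_lit 78) (nat_lit 0) (nat_lit 0) (XT.lf (nat_lit 0) (nat_lit 188665021119) (nat_lit 532) (nat_lit 8559455799) (nat_lit 532) (nat_lit 8559455799) (nat_lit 69) (nat_lit 3) (nat_lit 76) (nat_lit 3) (nat_lit 76) (nat_lit 5) (nat_lit 460) (nat_lit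 460) (nat_lit 280)) (XT.lf (nat_lit 76) (nat_lit 194274596549) (nat_lit 0) (nat_lit 202821318661) (nat_lit 532) (nat_lit 30560850897) (nat_lit 70) (nat_lit 5) (nat_lit 69) (nat_lit 3) (nat_lit 76) (nat_lit 5) (nat_lit 461) (nat_lit 460) (nat_lit 279)))) (XT.nd (nat_lit 78) (nat_lit 532) (nat_lit 0) (XT.lf (nat_lit 0) (nat_lit 419022724037) (nat_lit 456) (nat_lit 21553845909) (nat_lit 532) (nat_lit 4409835629) (nat_lit 70) (nat_lit 5) (nat_lit 76) (nat_lit 5) (nat_lit 77) (nat_lit 5) (nat_lit 462) (nat_lit 460) (nat_lit 278)) (XT.nd (nat_lit 78) (nat_lit 532) (nat_lit 0) (XT.lf (nat_lit 76) (nat_lit 212587103104) (nat_lit 0) (nat_lit 240497351920) (nat_lit 532) (nat_lit 9787499001) (nat_lit 71) (nat_lit 5) (nat_lit 70) (nat_lit 5) (nat_lit 77) (nat_lit 5) (nat_lit 463) (nat_lit 460) (nat_lit 277)) (XT.lf (nat_lit 0) (nat_lit 7903049269) (nat_lit 532) (nat_lit 15656187773) (nat_lit 608) (nat_lit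 458565960065) (nat_lit 63) (nat_lit 5) (nat_lit 70) (nat_lit 5) (nat_lit 71) (nat_lit 5) (nat_lit 464) (nat_lit 460) (nat_lit 276))))) (XT.nd (nat_lit 234) (nat_lit 608) (nat_lit 0) (XT.nd (nat_lit 78) (nat_lit 0) (nat_lit 0) (XT.lf (nat_lit 0) (nat_lit 37723324589) (nat_lit 532) (nat_lit 257654048798) (nat_lit 608) (nat_lit 206621527619) (nat_lit 64) (nat_lit 5) (nat_lit 71) (nat_lit 5) (nat_lit 72) (nat_lit 5) (nat_lit 465) (nat_lit 460) (nat_lit 275)) (XT.nd (nat_lit 78) (nat_lit 0) (nat_lit 76) (XT.lf (nat_lit 76) (nat_lit 2089558613) (nat_lit 0) (nat_lit 68941003814) (nat_lit 608) (nat_lit 452343831565) (nat_lit 65) (nat_lit 5) (nat_lit 64) (nat_lit 5) (nat_lit 72) (nat_lit 5) (nat_lit 466) (nat_lit 460) (nat_lit 274)) (XT.lf (nat_lit 0) (nat_lit 118453482017) (nat_lit 532) (nat_lit 253037116534) (nat_lit 76) (nat_lit 174053239665) (nat_lit 65) (nat_lit 5) (nat_lit 72) (nat_lit 5)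 (nat_lit 66) (nat_lit 5) (nat_lit 467) (nat_lit 460) (nat_lit 273)))) (XT.nd (nat_lit 78) (nat_lit 228) (nat_lit 0) (XT.lf (nat_lit 0) (nat_lit 36716425350) (nat_lit 456) (nat_lit 135627491519) (nat_lit 532) (nat_lit 396929026588) (nat_lit 59) (nat_lit 5) (nat_lit 65) (nat_lit 5) (nat_lit 66) (nat_lit 5) (nat_lit 468) (nat_lit 460) (nat_lit 272)) (XT.nd (nat_lit 78) (nat_lit 228) (nat_lit 0) (XT.lf (nat_lit 0) (nat_lit 240508217243) (nat_lit 532) (nat_lit 233350398396) (nat_lit 76) (nat_lit 120244751030) (nat_lit 59) (nat_lit 5) (nat_lit 66) (nat_lit 5) (nat_lit 60) (nat_lit 5) (nat_lit 469) (nat_lit 460) (nat_lit 271)) (XT.lf (nat_lit 0) (nat_lit 90812189593) (nat_lit 228) (nat_lit 229020277765) (nat_lit 304) (nat_lit 300631211937) (nat_lit 56) (nat_lit 5) (nat_lit 59) (nat_lit 5) (nat_lit 60) (nat_lit 5) (nat_lit 470) (nat_lit 460) (nat_lit 270))))))))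
noncomputable def xc221 : XT := (XT.nd (nat_lit 1716) (nat_lit 1368) (nat_lit 0) (XT.nd (nat_lit 858) (nat_lit 836) (nat_lit 0) (XT.nd (nat_lit 390) (nat_lit 760) (nat_lit 0) (XT.nd (nat_lit 156) (nat_lit 228) (nat_lit 0) (XT.nd (nat_lit 78) (nat_lit 228) (nat_lit 0) (XT.lf (nat_lit 0) (nat_lit 412900064303) (nat_lit 304) (nat_lit 195261009161) (nat_lit 76) (nat_lit 40179950933) (nat_lit 56) (nat_lit 5) (nat_lit 60) (nat_lit 5) (nat_lit 57) (nat_lit 5) (nat_lit 471) (nat_lit 460) (nat_lit 269)) (XT.lf (nat_lit 0) (nat_lit 168353850526) (nat_lit 228) (nat_lit 355056692205) (nat_lit 304) (nat_lit 154238216489) (nat_lit 53) (nat_lit 5) (nat_lit 56) (nat_lit 5) (nat_lit 57) (nat_lit 5) (nat_lit 472) (nat_lit 460) (nat_lit 268))) (XT.nd (nat_lit 78) (nat_lit 228) (nat_lit 0) (XT.lf (nat_lit 0) (nat_lit 572162544062) (nat_lit 228) (nat_lit 75938079221) (nat_lit 304) (nat_lit 60773388447) (nat_lit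 53) (nat_lit 5) (nat_lit 56) (nat_lit 5) (nat_lit 57) (nat_lit 5) (nat_lit 473) (nat_lit 460) (nat_lit 267)) (XT.nd (nat_lit 78) (nat_lit 0) (nat_lit 0) (XT.lf (nat_lit 0) (nat_lit 50483476181) (nat_lit 228) (nat_lit 468954689207) (nat_lit 76) (nat_lit 222095894731) (nat_lit 50) (nat_lit 5) (nat_lit 53) (nat_lit 5) (nat_lit 51) (nat_lit 5) (nat_lit 474) (nat_lit 460) (nat_lit 266)) (XT.lf (nat_lit 0) (nat_lit 173164972530) (nat_lit 228) (nat_lit 57767556759) (nat_lit 76) (nat_lit 545283506810) (nat_lit 50) (nat_lit 5) (nat_lit 53) (nat_lit 5) (nat_lit 51) (nat_lit 5) (nat_lit 475) (nat_lit 460) (nat_lit 265))))) (XT.nd (nat_lit 234) (nat_lit 380) (nat_lit 0) (XT.nd (nat_lit 78) (nat_lit 152) (nat_lit 0) (XT.lf (nat_lit 0) (nat_lit 317634836672) (nat_lit 304) (nat_lit 408426746398) (nat_lit 76) (nat_lit 86653079247) (nat_lit 47) (nat_lit 5) (nat_lit 51) (nat_lit 5) (nat_lit 48) (nat_lit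 5) (nat_lit 476) (nat_lit 460) (nat_lit 264)) (XT.nd (nat_lit 78) (nat_lit 0) (nat_lit 0) (XT.lf (nat_lit 0) (nat_lit 51103403347) (nat_lit 152) (nat_lit 431406649898) (nat_lit 228) (nat_lit 368915304328) (nat_lit 45) (nat_lit 5) (nat_lit 47) (nat_lit 5) (nat_lit 48) (nat_lit 5) (nat_lit 477) (nat_lit 460) (nat_lit 263)) (XT.lf (nat_lit 0) (nat_lit 570623536031) (nat_lit 152) (nat_lit 101118847977) (nat_lit 228) (nat_lit 220597156701) (nat_lit 45) (nat_lit 5) (nat_lit 47) (nat_lit 5) (nat_lit 48) (nat_lit 5) (nat_lit 478) (nat_lit 460) (nat_lit 262)))) (XT.nd (nat_lit 78) (nat_lit 228) (nat_lit 0) (XT.lf (nat_lit 0) (nat_lit 198985467124) (nat_lit 152) (nat_lit 688060419339) (nat_lit 228) (nat_lit 48606365219) (nat_lit 43) (nat_lit 5) (nat_lit 45) (nat_lit 5) (nat_lit 46) (nat_lit 5) (nat_lit 479) (nat_lit 460) (nat_lit 261)) (XT.nd (nat_lit 78) (nat_lit 152) (nat_lit 0) (XT.lf (nat_lit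 0) (nat_lit 141934417959) (nat_lit 228) (nat_lit 208240212976) (nat_lit 76) (nat_lit 631059386986) (nat_lit 42) (nat_lit 5) (nat_lit 45) (nat_lit 5) (nat_lit 43) (nat_lit 5) (nat_lit 480) (nat_lit 460) (nat_lit 260)) (XT.lf (nat_lit 0) (nat_lit 354861548832) (nat_lit 228) (nat_lit 650036629363) (nat_lit 76) (nat_lit 24681619730) (nat_lit 40) (nat_lit 5) (nat_lit 43) (nat_lit 5) (nat_lit 41) (nat_lit 5) (nat_lit 481) (nat_lit 460) (nat_lit 259)))))) (XT.nd (nat_lit 390) (nat_lit 380) (nat_lit 0) (XT.nd (nat_lit 156) (nat_lit 304) (nat_lit 0) (XT.nd (nat_lit 78) (nat_lit 152) (nat_lit 0) (XT.lf (nat_lit 0) (nat_lit 599759826994) (nat_lit 228) (nat_lit 64389072421) (nat_lit 76) (nat_lit 416449382771) (nat_lit 40) (nat_lit 5) (nat_lit 43) (nat_lit 5) (nat_lit 41) (nat_lit 5) (nat_lit 482) (nat_lit 460) (nat_lit 258)) (XT.lf (nat_lit 0) (nat_lit 598025952065) (nat_lit 152) (nat_lit 280606542967)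 (nat_lit 228) (nat_lit 255915147950) (nat_lit 38) (nat_lit 5) (nat_lit 40) (nat_lit 5) (nat_lit 41) (nat_lit 5) (nat_lit 483) (nat_lit 460) (nat_lit 257))) (XT.nd (nat_lit 78) (nat_lit 228) (nat_lit 0) (XT.lf (nat_lit 0) (nat_lit 127544955619) (nat_lit 76) (nat_lit 1060357253435) (nat_lit 152) (nat_lit 4263764990) (nat_lit 37) (nat_lit 5) (nat_lit 38) (nat_lit 5) (nat_lit 39) (nat_lit 4) (nat_lit 484) (nat_lit 460) (nat_lit 256)) (XT.nd (nat_lit 78) (nat_lit 152) (nat_lit 0) (XT.lf (nat_lit 0) (nat_lit 276476258020) (nat_lit 152) (nat_lit 392074197288) (nat_lit 76) (nat_lit 583541491836) (nat_lit 36) (nat_lit 5) (nat_lit 38) (nat_lit 5) (nat_lit 37) (nat_lit 5) (nat_lit 485) (nat_lit 460) (nat_lit 255)) (XT.lf (nat_lit 0) (nat_lit 351762174797) (nat_lit 152) (nat_lit 236142833025) (nat_lit 228) (nat_lit 728221340181) (nat_lit 34) (nat_lit 5) (nat_lit 36) (nat_lit 5) (nat_lit 37) (nat_lit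 5) (nat_lit 486) (nat_lit 460) (nat_lit 254))))) (XT.nd (nat_lit 234) (nat_lit 76) (nat_lit 0) (XT.nd (nat_lit 78) (nat_lit 304) (nat_lit 0) (XT.lf (nat_lit 0) (nat_lit 940798619053) (nat_lit 228) (nat_lit 212853421070) (nat_lit 76) (nat_lit 230307415894) (nat_lit 34) (nat_lit 5) (nat_lit 37) (nat_lit 5) (nat_lit 35) (nat_lit 4) (nat_lit 487) (nat_lit 460) (nat_lit 253)) (XT.nd (nat_lit 78) (nat_lit 228) (nat_lit 0) (XT.lf (nat_lit 0) (nat_lit 623852210120) (nat_lit 76) (nat_lit 719208740938) (nat_lit 152) (nat_lit 112467283068) (nat_lit 33) (nat_lit 5) (nat_lit 34) (nat_lit 5) (nat_lit 35) (nat_lit 4) (nat_lit 488) (nat_lit 460) (nat_lit 252)) (XT.lf (nat_lit 0) (nat_lit 1270287330) (nat_lit 152) (nat_lit 237172990217) (nat_lit 228) (nat_lit 1293428349189) (nat_lit 30) (nat_lit 5) (nat_lit 32) (nat_lit 5) (nat_lit 33) (nat_lit 5) (nat_lit 489) (nat_lit 460) (nat_lit 251)))) (XT.nd (nat_lit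 78) (nat_lit 76) (nat_lit 0) (XT.lf (nat_lit 0) (nat_lit 641497045466) (nat_lit 228) (nat_lit 674681147875) (nat_lit 76) (nat_lit 295498877808) (nat_lit 30) (nat_lit 5) (nat_lit 33) (nat_lit 5) (nat_lit 31) (nat_lit 4) (nat_lit 490) (nat_lit 460) (nat_lit 250)) (XT.nd (nat_lit 78) (nat_lit 0) (nat_lit 0) (XT.lf (nat_lit 0) (nat_lit 256377340179) (nat_lit 76) (nat_lit 832743985238) (nat_lit 152) (nat_lit 607759528852) (nat_lit 29) (nat_lit 5) (nat_lit 30) (nat_lit 5) (nat_lit 31) (nat_lit 4) (nat_lit 491) (nat_lit 460) (nat_lit 249)) (XT.lf (nat_lit 0) (nat_lit 1300290208057) (nat_lit 76) (nat_lit 290712310182) (nat_lit 152) (nat_lit 196422664164) (nat_lit 29) (nat_lit 5) (nat_lit 30) (nat_lit 5) (nat_lit 31) (nat_lit 4) (nat_lit 492) (nat_lit 460) (nat_lit 248))))))) (XT.nd (nat_lit 858) (nat_lit 684) (nat_lit 0) (XT.nd (nat_lit 390) (nat_lit 304) (nat_lit 0) (XT.nd (nat_lit 156) (nat_lit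 228) (nat_lit 0) (XT.nd (nat_lit 78) (nat_lit 0) (nat_lit 0) (XT.lf (nat_lit 0) (nat_lit 256602219290) (nat_lit 152) (nat_lit 1326447978407) (nat_lit 76) (nat_lit 299991803748) (nat_lit 27) (nat_lit 5) (nat_lit 29) (nat_lit 5) (nat_lit 28) (nat_lit 4) (nat_lit 493) (nat_lit 460) (nat_lit 247)) (XT.lf (nat_lit 0) (nat_lit 756473214491) (nat_lit 152) (nat_lit 286716318857) (nat_lit 76) (nat_lit 941013197926) (nat_lit 27) (nat_lit 5) (nat_lit 29) (nat_lit 5) (nat_lit 28) (nat_lit 4) (nat_lit 494) (nat_lit 460) (nat_lit 246))) (XT.nd (nat_lit 78) (nat_lit 152) (nat_lit 0) (XT.lf (nat_lit 0) (nat_lit 880226347934) (nat_lit 76) (nat_lit 437276999483) (nat_lit 152) (nat_lit 774259415426) (nat_lit 26) (nat_lit 5) (nat_lit 27) (nat_lit 5) (nat_lit 28) (nat_lit 4) (nat_lit 495) (nat_lit 460) (nat_lit 245)) (XT.nd (nat_lit 78) (nat_lit 152) (nat_lit 0) (XT.lf (nat_lit 0) (nat_lit 1936680301145) (nat_lit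 152) (nat_lit 55895308199) (nat_lit 0) (nat_lit 214290834782) (nat_lit 26) (nat_lit 5) (nat_lit 28) (nat_lit 4) (nat_lit 26) (nat_lit 4) (nat_lit 496) (nat_lit 460) (nat_lit 244)) (XT.lf (nat_lit 0) (nat_lit 302819742491) (nat_lit 152) (nat_lit 1092524409676) (nat_lit 76) (nat_lit 931920761773) (nat_lit 24) (nat_lit 5) (nat_lit 26) (nat_lit 5) (nat_lit 25) (nat_lit 4) (nat_lit 497) (nat_lit 460) (nat_lit 243))))) (XT.nd (nat_lit 234) (nat_lit 152) (nat_lit 0) (XT.nd (nat_lit 78) (nat_lit 76) (nat_lit 0) (XT.lf (nat_lit 0) (nat_lit 176399696513) (nat_lit 76) (nat_lit 736479715841) (nat_lit 152) (nat_lit 1543389592586) (nat_lit 23) (nat_lit 5) (nat_lit 24) (nat_lit 5) (nat_lit 25) (nat_lit 4) (nat_lit 498) (nat_lit 460) (nat_lit 242)) (XT.nd (nat_lit 78) (nat_lit 76) (nat_lit 0) (XT.lf (nat_lit 0) (nat_lit 1601792294821) (nat_lit 152) (nat_lit 984410039739) (nat_lit 0) (nat_lit 6987213540)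 (nat_lit 23) (nat_lit 5) (nat_lit 25) (nat_lit 4) (nat_lit 23) (nat_lit 4) (nat_lit 499) (nat_lit 460) (nat_lit 241)) (XT.lf (nat_lit 0) (nat_lit 416385926845) (nat_lit 76) (nat_lit 1958575710235) (nat_lit 76) (nat_lit 363770623297) (nat_lit 22) (nat_lit 4) (nat_lit 23) (nat_lit 5) (nat_lit 23) (nat_lit 4) (nat_lit 500) (nat_lit 460) (nat_lit 240)))) (XT.nd (nat_lit 78) (nat_lit 76) (nat_lit 0) (XT.lf (nat_lit 0) (nat_lit 325969890623) (nat_lit 152) (nat_lit 916787719678) (nat_lit 76) (nat_lit 1650347346389) (nat_lit 21) (nat_lit 5) (nat_lit 23) (nat_lit 5) (nat_lit 22) (nat_lit 4) (nat_lit 501) (nat_lit 460) (nat_lit 239)) (XT.nd (nat_lit 78) (nat_lit 0) (nat_lit 0) (XT.lf (nat_lit 0) (nat_lit 622928386443) (nat_lit 76) (nat_lit 443289634454) (nat_lit 152) (nat_lit 1991655045803) (nat_lit 20) (nat_lit 5) (nat_lit 21) (nat_lit 5) (nat_lit 22) (nat_lit 4) (nat_lit 502) (nat_lit 460) (nat_lit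 238)) (XT.lf (nat_lit 0) (nat_lit 1901507953531) (nat_lit 152) (nat_lit 906612352588) (nat_lit 0) (nat_lit 424836563239) (nat_lit 20) (nat_lit 5) (nat_lit 22) (nat_lit 4) (nat_lit 20) (nat_lit 4) (nat_lit 503) (nat_lit 460) (nat_lit 237)))))) (XT.nd (nat_lit 468) (nat_lit 380) (nat_lit 0) (XT.nd (nat_lit 234) (nat_lit 76) (nat_lit 0) (XT.nd (nat_lit 78) (nat_lit 152) (nat_lit 0) (XT.lf (nat_lit 0) (nat_lit 771043241201) (nat_lit 76) (nat_lit 2062635459777) (nat_lit 76) (nat_lit 585964065634) (nat_lit 19) (nat_lit 4) (nat_lit 20) (nat_lit 5) (nat_lit 20) (nat_lit 4) (nat_lit 504) (nat_lit 460) (nat_lit 236)) (XT.nd (nat_lit 78) (nat_lit 76) (nat_lit 0) (XT.lf (nat_lit 0) (nat_lit 233628561015) (nat_lit 152) (nat_lit 990723990795) (nat_lit 76) (nat_lit 2394454741368) (nat_lit 18) (nat_lit 5) (nat_lit 20) (nat_lit 5) (nat_lit 19) (nat_lit 4) (nat_lit 505) (nat_lit 460) (nat_lit 235)) (XT.lf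 (nat_lit 0) (nat_lit 825875362571) (nat_lit 76) (nat_lit 281118273764) (nat_lit 152) (nat_lit 2724104772432) (nat_lit 17) (nat_lit 5) (nat_lit 18) (nat_lit 5) (nat_lit 19) (nat_lit 4) (nat_lit 506) (nat_lit 460) (nat_lit 234)))) (XT.nd (nat_lit 78) (nat_lit 76) (nat_lit 0) (XT.lf (nat_lit 0) (nat_lit 2095758341621) (nat_lit 152) (nat_lit 1232502033543) (nat_lit 0) (nat_lit 728470004524) (nat_lit 17) (nat_lit 5) (nat_lit 19) (nat_lit 4) (nat_lit 17) (nat_lit 4) (nat_lit 507) (nat_lit 460) (nat_lit 233)) (XT.nd (nat_lit 78) (nat_lit 0) (nat_lit 0) (XT.lf (nat_lit 0) (nat_lit 710265221767) (nat_lit 76) (nat_lit 2477742666518) (nat_lit 76) (nat_lit 1110454326802) (nat_lit 16) (nat_lit 4) (nat_lit 17) (nat_lit 5) (nat_lit 17) (nat_lit 4) (nat_lit 508) (nat_lit 460) (nat_lit 232)) (XT.lf (nat_lit 0) (nat_lit 2878547332447) (nat_lit 76) (nat_lit 1522788852073) (nat_lit 76) (nat_lit 155500509931)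 (nat_lit 16) (nat_lit 4) (nat_lit 17) (nat_lit 5) (nat_lit 17) (nat_lit 4) (nat_lit 509) (nat_lit 460) (nat_lit 231))))) (XT.nd (nat_lit 234) (nat_lit 228) (nat_lit 0) (XT.nd (nat_lit 78) (nat_lit 0) (nat_lit 0) (XT.lf (nat_lit 0) (nat_lit 382479859804) (nat_lit 76) (nat_lit 458754853750) (nat_lit 152) (nat_lit 3992225390585) (nat_lit 14) (nat_lit 5) (nat_lit 15) (nat_lit 5) (nat_lit 16) (nat_lit 4) (nat_lit 510) (nat_lit 460) (nat_lit 230)) (XT.nd (nat_lit 78) (nat_lit 0) (nat_lit 0) (XT.lf (nat_lit 0) (nat_lit 1972991152124) (nat_lit 152) (nat_lit 2446821015524) (nat_lit 0) (nat_lit 706983423912) (nat_lit 14) (nat_lit 5) (nat_lit 16) (nat_lit 4) (nat_lit 14) (nat_lit 4) (nat_lit 511) (nat_lit 460) (nat_lit 229)) (XT.lf (nat_lit 0) (nat_lit 3207203812817) (nat_lit 152) (nat_lit 294244765775) (nat_lit 0) (nat_lit 1941196082822) (nat_lit 14) (nat_lit 5) (nat_lit 16) (nat_lit 4) (nat_lit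 14) (nat_lit 4) (nat_lit 512) (nat_lit 460) (nat_lit 228)))) (XT.nd (nat_lit 78) (nat_lit 152) (nat_lit 0) (XT.lf (nat_lit 0) (nat_lit 2137462087996) (nat_lit 76) (nat_lit 2454097409796) (nat_lit 76) (nat_lit 1188089678150) (nat_lit 13) (nat_lit 4) (nat_lit 14) (nat_lit 5) (nat_lit 14) (nat_lit 4) (nat_lit 513) (nat_lit 460) (nat_lit 227)) (XT.nd (nat_lit 78) (nat_lit 152) (nat_lit 0) (XT.lf (nat_lit 0) (nat_lit 4780439444414) (nat_lit 76) (nat_lit 1314269363388) (nat_lit 76) (nat_lit 48261630213) (nat_lit 13) (nat_lit 4) (nat_lit 14) (nat_lit 5) (nat_lit 14) (nat_lit 4) (nat_lit 514) (nat_lit 460) (nat_lit 226)) (XT.lf (nat_lit 0) (nat_lit 1127452071243) (nat_lit 76) (nat_lit 23249758484) (nat_lit 152) (nat_lit 5380210733210) (nat_lit 11) (nat_lit 5) (nat_lit 12) (nat_lit 5) (nat_lit 13) (nat_lit 4) (nat_lit 515) (nat_lit 460) (nat_lit 225))))))))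
noncomputable def xc222 : XT := (XT.nd (nat_lit 59436) (nat_lit 0) (nat_lit 1140) (XT.nd (nat_lit 58578) (nat_lit 0) (nat_lit 3192) (XT.nd (nat_lit 390) (nat_lit 76) (nat_lit 0) (XT.nd (nat_lit 156) (nat_lit 152) (nat_lit 0) (XT.nd (nat_lit 78) (nat_lit 0) (nat_lit 0) (XT.lf (nat_lit 0) (nat_lit 2514170450094) (nat_lit 152) (nat_lit 3087982621637) (nat_lit 0) (nat_lit 1341941065000) (nat_lit 11) (nat_lit 5) (nat_lit 13) (nat_lit 4) (nat_lit 11) (nat_lit 4) (nat_lit 516) (nat_lit 460) (nat_lit 224)) (XT.lf (nat_lit 0) (nat_lit 3987320447197) (nat_lit 152) (nat_lit 587870417283) (nat_lit 0) (nat_lit 2815091060979) (nat_lit 11) (nat_lit 5) (nat_lit 13) (nat_lit 4) (nat_lit 11) (nat_lit 4) (nat_lit 517) (nat_lit 460) (nat_lit 223))) (XT.nd (nat_lit 78) (nat_lit 76) (nat_lit 0) (XT.lf (nat_lit 0) (nat_lit 2223478140052) (nat_lit 76) (nat_lit 3408319004237) (nat_lit 76) (nat_lit 2236089616979)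 (nat_lit 10) (nat_lit 4) (nat_lit 11) (nat_lit 5) (nat_lit 11) (nat_lit 4) (nat_lit 518) (nat_lit 460) (nat_lit 222)) (XT.nd (nat_lit 78) (nat_lit 76) (nat_lit 0) (XT.lf (nat_lit 0) (nat_lit 5293167288560) (nat_lit 76) (nat_lit 2130738105140) (nat_lit 76) (nat_lit 958508716918) (nat_lit 10) (nat_lit 4) (nat_lit 11) (nat_lit 5) (nat_lit 11) (nat_lit 4) (nat_lit 519) (nat_lit 460) (nat_lit 221)) (XT.lf (nat_lit 0) (nat_lit 400204588296) (nat_lit 152) (nat_lit 339803845456) (nat_lit 76) (nat_lit 8197284673407) (nat_lit 9) (nat_lit 5) (nat_lit 11) (nat_lit 5) (nat_lit 10) (nat_lit 4) (nat_lit 520) (nat_lit 460) (nat_lit 220))))) (XT.nd (nat_lit 57954) (nat_lit 0) (nat_lit 4180) (XT.nd (nat_lit 57798) (nat_lit 0) (nat_lit 4636) (XT.lf (nat_lit 0) (nat_lit 1902457374182) (nat_lit 152) (nat_lit 6808123409248) (nat_lit 0) (nat_lit 817059790905) (nat_lit 8) (nat_lit 5) (nat_lit 10) (nat_lit 4) (nat_lit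 8) (nat_lit 4) (nat_lit 521) (nat_lit 460) (nat_lit 219)) (XT.nd (nat_lit 78) (nat_lit 0) (nat_lit 0) (XT.lf (nat_lit 0) (nat_lit 203758576651) (nat_lit 532) (nat_lit 9244021069) (nat_lit 532) (nat_lit 9244021069) (nat_lit 69) (nat_lit 3) (nat_lit 76) (nat_lit 3) (nat_lit 76) (nat_lit 5) (nat_lit 461) (nat_lit 461) (nat_lit 278)) (XT.lf (nat_lit 76) (nat_lit 209816936979) (nat_lit 0) (nat_lit 219047315673) (nat_lit 532) (nat_lit 33005001164) (nat_lit 70) (nat_lit 5) (nat_lit 69) (nat_lit 3) (nat_lit 76) (nat_lit 5) (nat_lit 462) (nat_lit 461) (nat_lit 277)))) (XT.nd (nat_lit 78) (nat_lit 532) (nat_lit 0) (XT.lf (nat_lit 0) (nat_lit 452545150492) (nat_lit 456) (nat_lit 23277752381) (nat_lit 532) (nat_lit 4762366056) (nat_lit 70) (nat_lit 5) (nat_lit 76) (nat_lit 5) (nat_lit 77) (nat_lit 5) (nat_lit 463) (nat_lit 461) (nat_lit 276)) (XT.nd (nat_lit 78) (nat_lit 532) (nat_lit 0) (XT.lf (nat_lit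 76) (nat_lit 229594462396) (nat_lit 0) (nat_lit 259737321891) (nat_lit 532) (nat_lit 10569879854) (nat_lit 71) (nat_lit 5) (nat_lit 70) (nat_lit 5) (nat_lit 77) (nat_lit 5) (nat_lit 464) (nat_lit 461) (nat_lit 275)) (XT.lf (nat_lit 0) (nat_lit 8535837747) (nat_lit 532) (nat_lit 16908291720) (nat_lit 608) (nat_lit 495251039522) (nat_lit 63) (nat_lit 5) (nat_lit 70) (nat_lit 5) (nat_lit 71) (nat_lit 5) (nat_lit 465) (nat_lit 461) (nat_lit 274)))))) (XT.nd (nat_lit 390) (nat_lit 684) (nat_lit 0) (XT.nd (nat_lit 156) (nat_lit 380) (nat_lit 0) (XT.nd (nat_lit 78) (nat_lit 0) (nat_lit 0) (XT.lf (nat_lit 0) (nat_lit 40741700744) (nat_lit 532) (nat_lit 278265946978) (nat_lit 608) (nat_lit 223151124249) (nat_lit 64) (nat_lit 5) (nat_lit 71) (nat_lit 5) (nat_lit 72) (nat_lit 5) (nat_lit 466) (nat_lit 461) (nat_lit 273)) (XT.lf (nat_lit 76) (nat_lit 2257138248) (nat_lit 0) (nat_lit 74456351549) (nat_lit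 608) (nat_lit 488530816847) (nat_lit 65) (nat_lit 5) (nat_lit 64) (nat_lit 5) (nat_lit 72) (nat_lit 5) (nat_lit 467) (nat_lit 461) (nat_lit 272))) (XT.nd (nat_lit 78) (nat_lit 456) (nat_lit 0) (XT.lf (nat_lit 0) (nat_lit 127930205722) (nat_lit 532) (nat_lit 273279664157) (nat_lit 76) (nat_lit 187977439526) (nat_lit 65) (nat_lit 5) (nat_lit 72) (nat_lit 5) (nat_lit 66) (nat_lit 5) (nat_lit 468) (nat_lit 461) (nat_lit 271)) (XT.nd (nat_lit 78) (nat_lit 0) (nat_lit 0) (XT.lf (nat_lit 0) (nat_lit 39654150401) (nat_lit 456) (nat_lit 146477701871) (nat_lit 532) (nat_lit 428682892658) (nat_lit 59) (nat_lit 5) (nat_lit 65) (nat_lit 5) (nat_lit 66) (nat_lit 5) (nat_lit 469) (nat_lit 461) (nat_lit 270)) (XT.lf (nat_lit 0) (nat_lit 259749265168) (nat_lit 532) (nat_lit 252018017961) (nat_lit 76) (nat_lit 129864321410) (nat_lit 59) (nat_lit 5) (nat_lit 66) (nat_lit 5) (nat_lit 60) (nat_lit 5) (nat_lit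 470) (nat_lit 461) (nat_lit 269))))) (XT.nd (nat_lit 234) (nat_lit 228) (nat_lit 0) (XT.nd (nat_lit 78) (nat_lit 228) (nat_lit 0) (XT.lf (nat_lit 0) (nat_lit 98077566630) (nat_lit 228) (nat_lit 247341869398) (nat_lit 304) (nat_lit 324681307705) (nat_lit 56) (nat_lit 5) (nat_lit 59) (nat_lit 5) (nat_lit 60) (nat_lit 5) (nat_lit 471) (nat_lit 461) (nat_lit 268)) (XT.nd (nat_lit 78) (nat_lit 228) (nat_lit 0) (XT.lf (nat_lit 0) (nat_lit 445932413907) (nat_lit 304) (nat_lit 210881490783) (nat_lit 76) (nat_lit 43394373913) (nat_lit 56) (nat_lit 5) (nat_lit 60) (nat_lit 5) (nat_lit 57) (nat_lit 5) (nat_lit 472) (nat_lit 461) (nat_lit 267)) (XT.lf (nat_lit 0) (nat_lit 181822547575) (nat_lit 228) (nat_lit 383461166875) (nat_lit 304) (nat_lit 166576919069) (nat_lit 53) (nat_lit 5) (nat_lit 56) (nat_lit 5) (nat_lit 57) (nat_lit 5) (nat_lit 473) (nat_lit 461) (nat_lit 266)))) (XT.nd (nat_lit 78) (nat_lit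 228) (nat_lit 0) (XT.lf (nat_lit 0) (nat_lit 617935907778) (nat_lit 228) (nat_lit 82013069349) (nat_lit 304) (nat_lit 65634931060) (nat_lit 53) (nat_lit 5) (nat_lit 56) (nat_lit 5) (nat_lit 57) (nat_lit 5) (nat_lit 474) (nat_lit 461) (nat_lit 265)) (XT.nd (nat_lit 78) (nat_lit 0) (nat_lit 0) (XT.lf (nat_lit 0) (nat_lit 54522453696) (nat_lit 228) (nat_lit 506470674822) (nat_lit 76) (nat_lit 239863632318) (nat_lit 50) (nat_lit 5) (nat_lit 53) (nat_lit 5) (nat_lit 51) (nat_lit 5) (nat_lit 475) (nat_lit 461) (nat_lit 264)) (XT.lf (nat_lit 0) (nat_lit 187018447574) (nat_lit 228) (nat_lit 62388600631) (nat_lit 76) (nat_lit 588906248474) (nat_lit 50) (nat_lit 5) (nat_lit 53) (nat_lit 5) (nat_lit 51) (nat_lit 5) (nat_lit 476) (nat_lit 461) (nat_lit 263))))))) (XT.nd (nat_lit 858) (nat_lit 836) (nat_lit 0) (XT.nd (nat_lit 390) (nat_lit 608) (nat_lit 0) (XT.nd (nat_lit 156) (nat_lit 228) (nat_lit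 0) (XT.nd (nat_lit 78) (nat_lit 152) (nat_lit 0) (XT.lf (nat_lit 0) (nat_lit 343045890842) (nat_lit 304) (nat_lit 441100515317) (nat_lit 76) (nat_lit 93585407643) (nat_lit 47) (nat_lit 5) (nat_lit 51) (nat_lit 5) (nat_lit 48) (nat_lit 5) (nat_lit 477) (nat_lit 461) (nat_lit 262)) (XT.lf (nat_lit 0) (nat_lit 55192037020) (nat_lit 152) (nat_lit 465919076619) (nat_lit 228) (nat_lit 398428251939) (nat_lit 45) (nat_lit 5) (nat_lit 47) (nat_lit 5) (nat_lit 48) (nat_lit 5) (nat_lit 478) (nat_lit 461) (nat_lit 261))) (XT.nd (nat_lit 78) (nat_lit 228) (nat_lit 0) (XT.lf (nat_lit 0) (nat_lit 616273753547) (nat_lit 152) (nat_lit 109208258341) (nat_lit 228) (nat_lit 238244673001) (nat_lit 45) (nat_lit 5) (nat_lit 47) (nat_lit 5) (nat_lit 48) (nat_lit 5) (nat_lit 479) (nat_lit 461) (nat_lit 260)) (XT.nd (nat_lit 78) (nat_lit 76) (nat_lit 0) (XT.lf (nat_lit 0) (nat_lit 214904646964) (nat_lit 152) (nat_lit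 743105140416) (nat_lit 228) (nat_lit 52494625941) (nat_lit 43) (nat_lit 5) (nat_lit 45) (nat_lit 5) (nat_lit 46) (nat_lit 5) (nat_lit 480) (nat_lit 461) (nat_lit 259)) (XT.lf (nat_lit 0) (nat_lit 153289389974) (nat_lit 228) (nat_lit 224899101321) (nat_lit 76) (nat_lit 681544230492) (nat_lit 42) (nat_lit 5) (nat_lit 45) (nat_lit 5) (nat_lit 43) (nat_lit 5) (nat_lit 481) (nat_lit 461) (nat_lit 258))))) (XT.nd (nat_lit 234) (nat_lit 304) (nat_lit 0) (XT.nd (nat_lit 78) (nat_lit 152) (nat_lit 0) (XT.lf (nat_lit 0) (nat_lit 383250685483) (nat_lit 228) (nat_lit 702039225110) (nat_lit 76) (nat_lit 26656254071) (nat_lit 40) (nat_lit 5) (nat_lit 43) (nat_lit 5) (nat_lit 41) (nat_lit 5) (nat_lit 482) (nat_lit 461) (nat_lit 257)) (XT.nd (nat_lit 78) (nat_lit 152) (nat_lit 0) (XT.lf (nat_lit 0) (nat_lit 647740810138) (nat_lit 228) (nat_lit 69539888399) (nat_lit 76) (nat_lit 449765430395) (nat_lit 40)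 (nat_lit 5) (nat_lit 43) (nat_lit 5) (nat_lit 41) (nat_lit 5) (nat_lit 483) (nat_lit 461) (nat_lit 256)) (XT.lf (nat_lit 0) (nat_lit 645868330203) (nat_lit 152) (nat_lit 303054954088) (nat_lit 228) (nat_lit 276388154893) (nat_lit 38) (nat_lit 5) (nat_lit 40) (nat_lit 5) (nat_lit 41) (nat_lit 5) (nat_lit 484) (nat_lit 461) (nat_lit 255)))) (XT.nd (nat_lit 78) (nat_lit 228) (nat_lit 0) (XT.lf (nat_lit 0) (nat_lit 137748858614) (nat_lit 76) (nat_lit 1145185712645) (nat_lit 152) (nat_lit 4604665810) (nat_lit 37) (nat_lit 5) (nat_lit 38) (nat_lit 5) (nat_lit 39) (nat_lit 4) (nat_lit 485) (nat_lit 461) (nat_lit 254)) (XT.nd (nat_lit 78) (nat_lit 152) (nat_lit 0) (XT.lf (nat_lit 0) (nat_lit 298594534917) (nat_lit 152) (nat_lit 423439839899) (nat_lit 76) (nat_lit 630224913948) (nat_lit 36) (nat_lit 5) (nat_lit 38) (nat_lit 5) (nat_lit 37) (nat_lit 5) (nat_lit 486) (nat_lit 461) (nat_lit 253)) (XT.lf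 (nat_lit 0) (nat_lit 379903434530) (nat_lit 152) (nat_lit 255034143989) (nat_lit 228) (nat_lit 786478863671) (nat_lit 34) (nat_lit 5) (nat_lit 36) (nat_lit 5) (nat_lit 37) (nat_lit 5) (nat_lit 487) (nat_lit 461) (nat_lit 252)))))) (XT.nd (nat_lit 468) (nat_lit 456) (nat_lit 0) (XT.nd (nat_lit 234) (nat_lit 76) (nat_lit 0) (XT.nd (nat_lit 78) (nat_lit 304) (nat_lit 0) (XT.lf (nat_lit 0) (nat_lit 1016062668627) (nat_lit 228) (nat_lit 229881420108) (nat_lit 76) (nat_lit 248732110917) (nat_lit 34) (nat_lit 5) (nat_lit 37) (nat_lit 5) (nat_lit 35) (nat_lit 4) (nat_lit 488) (nat_lit 461) (nat_lit 251)) (XT.nd (nat_lit 78) (nat_lit 228) (nat_lit 0) (XT.lf (nat_lit 0) (nat_lit 673760654625) (nat_lit 76) (nat_lit 776745327150) (nat_lit 152) (nat_lit 121464498670) (nat_lit 33) (nat_lit 5) (nat_lit 34) (nat_lit 5) (nat_lit 35) (nat_lit 4) (nat_lit 489) (nat_lit 461) (nat_lit 250)) (XT.lf (nat_lit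 0) (nat_lit 1372179416) (nat_lit 152) (nat_lit 256146713739) (nat_lit 228) (nat_lit 1396902451413) (nat_lit 30) (nat_lit 5) (nat_lit 32) (nat_lit 5) (nat_lit 33) (nat_lit 5) (nat_lit 490) (nat_lit 461) (nat_lit 249)))) (XT.nd (nat_lit 78) (nat_lit 76) (nat_lit 0) (XT.lf (nat_lit 0) (nat_lit 692816953721) (nat_lit 228) (nat_lit 728655381720) (nat_lit 76) (nat_lit 319138889799) (nat_lit 30) (nat_lit 5) (nat_lit 33) (nat_lit 5) (nat_lit 31) (nat_lit 4) (nat_lit 491) (nat_lit 461) (nat_lit 248)) (XT.nd (nat_lit 78) (nat_lit 0) (nat_lit 0) (XT.lf (nat_lit 0) (nat_lit 276887778847) (nat_lit 76) (nat_lit 899363392556) (nat_lit 152) (nat_lit 656380139981) (nat_lit 29) (nat_lit 5) (nat_lit 30) (nat_lit 5) (nat_lit 31) (nat_lit 4) (nat_lit 492) (nat_lit 461) (nat_lit 247)) (XT.lf (nat_lit 0) (nat_lit 1404313657529) (nat_lit 76) (nat_lit 313969191754) (nat_lit 152) (nat_lit 212136337317) (nat_lit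 29) (nat_lit 5) (nat_lit 30) (nat_lit 5) (nat_lit 31) (nat_lit 4) (nat_lit 493) (nat_lit 461) (nat_lit 246))))) (XT.nd (nat_lit 234) (nat_lit 228) (nat_lit 0) (XT.nd (nat_lit 78) (nat_lit 76) (nat_lit 0) (XT.lf (nat_lit 0) (nat_lit 277130528109) (nat_lit 152) (nat_lit 1432563575098) (nat_lit 76) (nat_lit 323991247827) (nat_lit 27) (nat_lit 5) (nat_lit 29) (nat_lit 5) (nat_lit 28) (nat_lit 4) (nat_lit 494) (nat_lit 461) (nat_lit 245)) (XT.nd (nat_lit 78) (nat_lit 76) (nat_lit 0) (XT.lf (nat_lit 0) (nat_lit 816991193203) (nat_lit 152) (nat_lit 309653400680) (nat_lit 76) (nat_lit 1016294346148) (nat_lit 27) (nat_lit 5) (nat_lit 29) (nat_lit 5) (nat_lit 28) (nat_lit 4) (nat_lit 495) (nat_lit 461) (nat_lit 244)) (XT.lf (nat_lit 0) (nat_lit 950644673792) (nat_lit 76) (nat_lit 472259059210) (nat_lit 152) (nat_lit 836200041425) (nat_lit 26) (nat_lit 5) (nat_lit 27) (nat_lit 5) (nat_lit 28) (nat_lit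 4) (nat_lit 496) (nat_lit 461) (nat_lit 243)))) (XT.nd (nat_lit 78) (nat_lit 228) (nat_lit 0) (XT.lf (nat_lit 0) (nat_lit 2091614836535) (nat_lit 152) (nat_lit 60366724470) (nat_lit 0) (nat_lit 231434189729) (nat_lit 26) (nat_lit 5) (nat_lit 28) (nat_lit 4) (nat_lit 26) (nat_lit 4) (nat_lit 497) (nat_lit 461) (nat_lit 242)) (XT.nd (nat_lit 78) (nat_lit 76) (nat_lit 0) (XT.lf (nat_lit 0) (nat_lit 327045432650) (nat_lit 152) (nat_lit 1179926153491) (nat_lit 76) (nat_lit 1006474512037) (nat_lit 24) (nat_lit 5) (nat_lit 26) (nat_lit 5) (nat_lit 25) (nat_lit 4) (nat_lit 498) (nat_lit 461) (nat_lit 241)) (XT.lf (nat_lit 0) (nat_lit 190511875902) (nat_lit 76) (nat_lit 795397996893) (nat_lit 152) (nat_lit 1666860643929) (nat_lit 23) (nat_lit 5) (nat_lit 24) (nat_lit 5) (nat_lit 25) (nat_lit 4) (nat_lit 499) (nat_lit 461) (nat_lit 240))))))))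
noncomputable def xc223 : XT := (XT.nd (nat_lit 59592) (nat_lit 0) (nat_lit 2204) (XT.nd (nat_lit 858) (nat_lit 532) (nat_lit 0) (XT.nd (nat_lit 390) (nat_lit 304) (nat_lit 0) (XT.nd (nat_lit 156) (nat_lit 152) (nat_lit 0) (XT.nd (nat_lit 78) (nat_lit 76) (nat_lit 0) (XT.lf (nat_lit 0) (nat_lit 1729935780042) (nat_lit 152) (nat_lit 1063162648506) (nat_lit 0) (nat_lit 7546275255) (nat_lit 23) (nat_lit 5) (nat_lit 25) (nat_lit 4) (nat_lit 23) (nat_lit 4) (nat_lit 500) (nat_lit 461) (nat_lit 239)) (XT.lf (nat_lit 0) (nat_lit 449696990484) (nat_lit 76) (nat_lit 2115261676228) (nat_lit 76) (nat_lit 392872166591) (nat_lit 22) (nat_lit 4) (nat_lit 23) (nat_lit 5) (nat_lit 23) (nat_lit 4) (nat_lit 501) (nat_lit 461) (nat_lit 238))) (XT.nd (nat_lit 78) (nat_lit 76) (nat_lit 0) (XT.lf (nat_lit 0) (nat_lit 352047575613) (nat_lit 152) (nat_lit 990130556851) (nat_lit 76) (nat_lit 1782375213252) (nat_lit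 21) (nat_lit 5) (nat_lit 23) (nat_lit 5) (nat_lit 22) (nat_lit 4) (nat_lit 502) (nat_lit 461) (nat_lit 237)) (XT.nd (nat_lit 78) (nat_lit 0) (nat_lit 0) (XT.lf (nat_lit 0) (nat_lit 672762833193) (nat_lit 76) (nat_lit 478752720402) (nat_lit 152) (nat_lit 2150987351150) (nat_lit 20) (nat_lit 5) (nat_lit 21) (nat_lit 5) (nat_lit 22) (nat_lit 4) (nat_lit 503) (nat_lit 461) (nat_lit 236)) (XT.lf (nat_lit 0) (nat_lit 2053628675985) (nat_lit 152) (nat_lit 979141173123) (nat_lit 0) (nat_lit 458823562896) (nat_lit 20) (nat_lit 5) (nat_lit 22) (nat_lit 4) (nat_lit 20) (nat_lit 4) (nat_lit 504) (nat_lit 461) (nat_lit 235))))) (XT.nd (nat_lit 234) (nat_lit 76) (nat_lit 0) (XT.nd (nat_lit 78) (nat_lit 152) (nat_lit 0) (XT.lf (nat_lit 0) (nat_lit 832726863925) (nat_lit 76) (nat_lit 2227646216849) (nat_lit 76) (nat_lit 632841100460) (nat_lit 19) (nat_lit 4) (nat_lit 20) (nat_lit 5) (nat_lit 20) (nat_lit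 4) (nat_lit 505) (nat_lit 461) (nat_lit 234)) (XT.nd (nat_lit 78) (nat_lit 76) (nat_lit 0) (XT.lf (nat_lit 0) (nat_lit 252318925434) (nat_lit 152) (nat_lit 1069981754541) (nat_lit 76) (nat_lit 2586011190287) (nat_lit 18) (nat_lit 5) (nat_lit 20) (nat_lit 5) (nat_lit 19) (nat_lit 4) (nat_lit 506) (nat_lit 461) (nat_lit 233)) (XT.lf (nat_lit 0) (nat_lit 891945543157) (nat_lit 76) (nat_lit 303607661377) (nat_lit 152) (nat_lit 2942033070744) (nat_lit 17) (nat_lit 5) (nat_lit 18) (nat_lit 5) (nat_lit 19) (nat_lit 4) (nat_lit 507) (nat_lit 461) (nat_lit 232)))) (XT.nd (nat_lit 78) (nat_lit 76) (nat_lit 0) (XT.lf (nat_lit 0) (nat_lit 2263419082171) (nat_lit 152) (nat_lit 1331102051796) (nat_lit 0) (nat_lit 786747670231) (nat_lit 17) (nat_lit 5) (nat_lit 19) (nat_lit 4) (nat_lit 17) (nat_lit 4) (nat_lit 508) (nat_lit 461) (nat_lit 231)) (XT.nd (nat_lit 78) (nat_lit 0) (nat_lit 0) (XT.lf (nat_lit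 0) (nat_lit 767086580282) (nat_lit 76) (nat_lit 2675962010249) (nat_lit 76) (nat_lit 1199290596063) (nat_lit 16) (nat_lit 4) (nat_lit 17) (nat_lit 5) (nat_lit 17) (nat_lit 4) (nat_lit 509) (nat_lit 461) (nat_lit 230)) (XT.lf (nat_lit 0) (nat_lit 3108831249389) (nat_lit 76) (nat_lit 1644611895803) (nat_lit 76) (nat_lit 167940479537) (nat_lit 16) (nat_lit 4) (nat_lit 17) (nat_lit 5) (nat_lit 17) (nat_lit 4) (nat_lit 510) (nat_lit 461) (nat_lit 229)))))) (XT.nd (nat_lit 468) (nat_lit 152) (nat_lit 0) (XT.nd (nat_lit 234) (nat_lit 228) (nat_lit 0) (XT.nd (nat_lit 78) (nat_lit 0) (nat_lit 0) (XT.lf (nat_lit 0) (nat_lit 413078379110) (nat_lit 76) (nat_lit 495455177285) (nat_lit 152) (nat_lit 4311603350809) (nat_lit 14) (nat_lit 5) (nat_lit 15) (nat_lit 5) (nat_lit 16) (nat_lit 4) (nat_lit 511) (nat_lit 461) (nat_lit 228)) (XT.nd (nat_lit 78) (nat_lit 0) (nat_lit 0) (XT.lf (nat_lit 0) (nat_lit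 2130830506623) (nat_lit 152) (nat_lit 2642566572479) (nat_lit 0) (nat_lit 763542154793) (nat_lit 14) (nat_lit 5) (nat_lit 16) (nat_lit 4) (nat_lit 14) (nat_lit 4) (nat_lit 512) (nat_lit 461) (nat_lit 227)) (XT.lf (nat_lit 0) (nat_lit 3463780175554) (nat_lit 152) (nat_lit 317784231957) (nat_lit 0) (nat_lit 2096491822196) (nat_lit 14) (nat_lit 5) (nat_lit 16) (nat_lit 4) (nat_lit 14) (nat_lit 4) (nat_lit 513) (nat_lit 461) (nat_lit 226)))) (XT.nd (nat_lit 78) (nat_lit 152) (nat_lit 0) (XT.lf (nat_lit 0) (nat_lit 2308459167203) (nat_lit 76) (nat_lit 2650425146547) (nat_lit 76) (nat_lit 1283136791774) (nat_lit 13) (nat_lit 4) (nat_lit 14) (nat_lit 5) (nat_lit 14) (nat_lit 4) (nat_lit 514) (nat_lit 461) (nat_lit 225)) (XT.nd (nat_lit 78) (nat_lit 152) (nat_lit 0) (XT.lf (nat_lit 0) (nat_lit 5162874703825) (nat_lit 76) (nat_lit 1419410860577) (nat_lit 76) (nat_lit 52122504492) (nat_lit 13) (nat_lit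 4) (nat_lit 14) (nat_lit 5) (nat_lit 14) (nat_lit 4) (nat_lit 515) (nat_lit 461) (nat_lit 224)) (XT.lf (nat_lit 0) (nat_lit 1217648340911) (nat_lit 76) (nat_lit 25109687073) (nat_lit 152) (nat_lit 5810627535834) (nat_lit 11) (nat_lit 5) (nat_lit 12) (nat_lit 5) (nat_lit 13) (nat_lit 4) (nat_lit 516) (nat_lit 461) (nat_lit 223))))) (XT.nd (nat_lit 234) (nat_lit 76) (nat_lit 0) (XT.nd (nat_lit 78) (nat_lit 76) (nat_lit 0) (XT.lf (nat_lit 0) (nat_lit 2715304135298) (nat_lit 152) (nat_lit 3335021132415) (nat_lit 0) (nat_lit 1449296396018) (nat_lit 11) (nat_lit 5) (nat_lit 13) (nat_lit 4) (nat_lit 11) (nat_lit 4) (nat_lit 517) (nat_lit 461) (nat_lit 222)) (XT.nd (nat_lit 78) (nat_lit 76) (nat_lit 0) (XT.lf (nat_lit 0) (nat_lit 4306306128525) (nat_lit 152) (nat_lit 634899959042) (nat_lit 0) (nat_lit 3040298388282) (nat_lit 11) (nat_lit 5) (nat_lit 13) (nat_lit 4) (nat_lit 11) (nat_lit 4) (nat_lit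 518) (nat_lit 461) (nat_lit 221)) (XT.lf (nat_lit 0) (nat_lit 2401356480560) (nat_lit 76) (nat_lit 3680984479598) (nat_lit 76) (nat_lit 2414976738463) (nat_lit 10) (nat_lit 4) (nat_lit 11) (nat_lit 5) (nat_lit 11) (nat_lit 4) (nat_lit 519) (nat_lit 461) (nat_lit 220)))) (XT.nd (nat_lit 78) (nat_lit 76) (nat_lit 0) (XT.lf (nat_lit 0) (nat_lit 5716620754333) (nat_lit 76) (nat_lit 2301197111905) (nat_lit 76) (nat_lit 1035189369944) (nat_lit 10) (nat_lit 4) (nat_lit 11) (nat_lit 5) (nat_lit 11) (nat_lit 4) (nat_lit 520) (nat_lit 461) (nat_lit 219)) (XT.nd (nat_lit 57876) (nat_lit 0) (nat_lit 4560) (XT.lf (nat_lit 0) (nat_lit 432220994351) (nat_lit 152) (nat_lit 366988074474) (nat_lit 76) (nat_lit 8853067483786) (nat_lit 9) (nat_lit 5) (nat_lit 11) (nat_lit 5) (nat_lit 10) (nat_lit 4) (nat_lit 521) (nat_lit 461) (nat_lit 218)) (XT.lf (nat_lit 0) (nat_lit 220059566145) (nat_lit 532) (nat_lit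 9983378837) (nat_lit 532) (nat_lit 9983378837) (nat_lit 69) (nat_lit 3) (nat_lit 76) (nat_lit 3) (nat_lit 76) (nat_lit 5) (nat_lit 462) (nat_lit 462) (nat_lit 276))))))) (XT.nd (nat_lit 858) (nat_lit 1368) (nat_lit 0) (XT.nd (nat_lit 390) (nat_lit 532) (nat_lit 0) (XT.nd (nat_lit 156) (nat_lit 456) (nat_lit 0) (XT.nd (nat_lit 78) (nat_lit 0) (nat_lit 76) (XT.lf (nat_lit 76) (nat_lit 226602611473) (nat_lit 0) (nat_lit 236571350858) (nat_lit 532) (nat_lit 35644785855) (nat_lit 70) (nat_lit 5) (nat_lit 69) (nat_lit 3) (nat_lit 76) (nat_lit 5) (nat_lit 463) (nat_lit 462) (nat_lit 275)) (XT.lf (nat_lit 0) (nat_lit 488749284250) (nat_lit 456) (nat_lit 25139628607) (nat_lit 532) (nat_lit 5143135500) (nat_lit 70) (nat_lit 5) (nat_lit 76) (nat_lit 5) (nat_lit 77) (nat_lit 5) (nat_lit 464) (nat_lit 462) (nat_lit 274))) (XT.nd (nat_lit 78) (nat_lit 532) (nat_lit 0) (XT.lf (nat_lit 76) (nat_lit 247962354645)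 (nat_lit 0) (nat_lit 280516463521) (nat_lit 532) (nat_lit 11414939492) (nat_lit 71) (nat_lit 5) (nat_lit 70) (nat_lit 5) (nat_lit 77) (nat_lit 5) (nat_lit 465) (nat_lit 462) (nat_lit 273)) (XT.nd (nat_lit 78) (nat_lit 0) (nat_lit 76) (XT.lf (nat_lit 0) (nat_lit 9219171619) (nat_lit 532) (nat_lit 18260619773) (nat_lit 608) (nat_lit 534870953491) (nat_lit 63) (nat_lit 5) (nat_lit 70) (nat_lit 5) (nat_lit 71) (nat_lit 5) (nat_lit 466) (nat_lit 462) (nat_lit 272)) (XT.lf (nat_lit 0) (nat_lit 44001474208) (nat_lit 532) (nat_lit 300526857747) (nat_lit 608) (nat_lit 241003106524) (nat_lit 64) (nat_lit 5) (nat_lit 71) (nat_lit 5) (nat_lit 72) (nat_lit 5) (nat_lit 467) (nat_lit 462) (nat_lit 271))))) (XT.nd (nat_lit 234) (nat_lit 228) (nat_lit 0) (XT.nd (nat_lit 78) (nat_lit 380) (nat_lit 0) (XT.lf (nat_lit 76) (nat_lit 2438065057) (nat_lit 0) (nat_lit 80412917484) (nat_lit 608) (nat_lit 527612835312)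 (nat_lit 65) (nat_lit 5) (nat_lit 64) (nat_lit 5) (nat_lit 72) (nat_lit 5) (nat_lit 468) (nat_lit 462) (nat_lit 270)) (XT.nd (nat_lit 78) (nat_lit 456) (nat_lit 0) (XT.lf (nat_lit 0) (nat_lit 138165003818) (nat_lit 532) (nat_lit 295141675750) (nat_lit 76) (nat_lit 203015583838) (nat_lit 65) (nat_lit 5) (nat_lit 72) (nat_lit 5) (nat_lit 66) (nat_lit 5) (nat_lit 469) (nat_lit 462) (nat_lit 269)) (XT.lf (nat_lit 0) (nat_lit 42826834820) (nat_lit 456) (nat_lit 158195927478) (nat_lit 532) (nat_lit 462977133075) (nat_lit 59) (nat_lit 5) (nat_lit 65) (nat_lit 5) (nat_lit 66) (nat_lit 5) (nat_lit 470) (nat_lit 462) (nat_lit 268)))) (XT.nd (nat_lit 78) (nat_lit 228) (nat_lit 0) (XT.lf (nat_lit 0) (nat_lit 280529541211) (nat_lit 532) (nat_lit 272179105911) (nat_lit 76) (nat_lit 140253458804) (nat_lit 59) (nat_lit 5) (nat_lit 66) (nat_lit 5) (nat_lit 60) (nat_lit 5) (nat_lit 471) (nat_lit 462) (nat_lit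 267)) (XT.nd (nat_lit 78) (nat_lit 0) (nat_lit 0) (XT.lf (nat_lit 0) (nat_lit 105924116498) (nat_lit 228) (nat_lit 267129192727) (nat_lit 304) (nat_lit 350655468367) (nat_lit 56) (nat_lit 5) (nat_lit 59) (nat_lit 5) (nat_lit 60) (nat_lit 5) (nat_lit 472) (nat_lit 462) (nat_lit 266)) (XT.lf (nat_lit 0) (nat_lit 481607302339) (nat_lit 304) (nat_lit 227751667873) (nat_lit 76) (nat_lit 46865946893) (nat_lit 56) (nat_lit 5) (nat_lit 60) (nat_lit 5) (nat_lit 57) (nat_lit 5) (nat_lit 473) (nat_lit 462) (nat_lit 265)))))) (XT.nd (nat_lit 468) (nat_lit 532) (nat_lit 0) (XT.nd (nat_lit 234) (nat_lit 380) (nat_lit 0) (XT.nd (nat_lit 78) (nat_lit 228) (nat_lit 0) (XT.lf (nat_lit 0) (nat_lit 196368684891) (nat_lit 228) (nat_lit 414138008179) (nat_lit 304) (nat_lit 179902768462) (nat_lit 53) (nat_lit 5) (nat_lit 56) (nat_lit 5) (nat_lit 57) (nat_lit 5) (nat_lit 474) (nat_lit 462) (nat_lit 264)) (XT.nd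 (nat_lit 78) (nat_lit 228) (nat_lit 0) (XT.lf (nat_lit 0) (nat_lit 667371089207) (nat_lit 228) (nat_lit 88574066706) (nat_lit 304) (nat_lit 70885443942) (nat_lit 53) (nat_lit 5) (nat_lit 56) (nat_lit 5) (nat_lit 57) (nat_lit 5) (nat_lit 475) (nat_lit 462) (nat_lit 263)) (XT.lf (nat_lit 0) (nat_lit 58884506697) (nat_lit 228) (nat_lit 546987994856) (nat_lit 76) (nat_lit 259052779495) (nat_lit 50) (nat_lit 5) (nat_lit 53) (nat_lit 5) (nat_lit 51) (nat_lit 5) (nat_lit 476) (nat_lit 462) (nat_lit 262)))) (XT.nd (nat_lit 78) (nat_lit 380) (nat_lit 0) (XT.lf (nat_lit 0) (nat_lit 201980161070) (nat_lit 228) (nat_lit 67379379466) (nat_lit 76) (nat_lit 636018800751) (nat_lit 50) (nat_lit 5) (nat_lit 53) (nat_lit 5) (nat_lit 51) (nat_lit 5) (nat_lit 477) (nat_lit 462) (nat_lit 261)) (XT.nd (nat_lit 78) (nat_lit 152) (nat_lit 0) (XT.lf (nat_lit 0) (nat_lit 370489791222) (nat_lit 304) (nat_lit 476388238648)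 (nat_lit 76) (nat_lit 101072310606) (nat_lit 47) (nat_lit 5) (nat_lit 51) (nat_lit 5) (nat_lit 48) (nat_lit 5) (nat_lit 478) (nat_lit 462) (nat_lit 260)) (XT.lf (nat_lit 0) (nat_lit 59607709828) (nat_lit 152) (nat_lit 503192512495) (nat_lit 228) (nat_lit 430302274839) (nat_lit 45) (nat_lit 5) (nat_lit 47) (nat_lit 5) (nat_lit 48) (nat_lit 5) (nat_lit 479) (nat_lit 462) (nat_lit 259))))) (XT.nd (nat_lit 234) (nat_lit 304) (nat_lit 0) (XT.nd (nat_lit 78) (nat_lit 228) (nat_lit 0) (XT.lf (nat_lit 0) (nat_lit 665575940726) (nat_lit 152) (nat_lit 117944835441) (nat_lit 228) (nat_lit 257304027160) (nat_lit 45) (nat_lit 5) (nat_lit 47) (nat_lit 5) (nat_lit 48) (nat_lit 5) (nat_lit 480) (nat_lit 462) (nat_lit 258)) (XT.nd (nat_lit 78) (nat_lit 76) (nat_lit 0) (XT.lf (nat_lit 0) (nat_lit 232097312333) (nat_lit 152) (nat_lit 802553455225) (nat_lit 228) (nat_lit 56693982973) (nat_lit 43) (nat_lit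 5) (nat_lit 45) (nat_lit 5) (nat_lit 46) (nat_lit 5) (nat_lit 481) (nat_lit 462) (nat_lit 257)) (XT.lf (nat_lit 0) (nat_lit 165552728567) (nat_lit 228) (nat_lit 242890747626) (nat_lit 76) (nat_lit 736067848276) (nat_lit 42) (nat_lit 5) (nat_lit 45) (nat_lit 5) (nat_lit 43) (nat_lit 5) (nat_lit 482) (nat_lit 462) (nat_lit 256)))) (XT.nd (nat_lit 78) (nat_lit 152) (nat_lit 0) (XT.lf (nat_lit 0) (nat_lit 413910922715) (nat_lit 228) (nat_lit 758202076252) (nat_lit 76) (nat_lit 28788844214) (nat_lit 40) (nat_lit 5) (nat_lit 43) (nat_lit 5) (nat_lit 41) (nat_lit 5) (nat_lit 483) (nat_lit 462) (nat_lit 255)) (XT.nd (nat_lit 78) (nat_lit 152) (nat_lit 0) (XT.lf (nat_lit 0) (nat_lit 699560243832) (nat_lit 228) (nat_lit 75102813854) (nat_lit 76) (nat_lit 485746747991) (nat_lit 40) (nat_lit 5) (nat_lit 43) (nat_lit 5) (nat_lit 41) (nat_lit 5) (nat_lit 484) (nat_lit 462) (nat_lit 254)) (XT.lf (nat_lit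 0) (nat_lit 697538055512) (nat_lit 152) (nat_lit 327299254122) (nat_lit 228) (nat_lit 298499031621) (nat_lit 38) (nat_lit 5) (nat_lit 40) (nat_lit 5) (nat_lit 41) (nat_lit 5) (nat_lit 485) (nat_lit 462) (nat_lit 253))))))))
noncomputable def xc224 : XT := (XT.nd (nat_lit 1716) (nat_lit 608) (nat_lit 0) (XT.nd (nat_lit 858) (nat_lit 684) (nat_lit 0) (XT.nd (nat_lit 390) (nat_lit 456) (nat_lit 0) (XT.nd (nat_lit 156) (nat_lit 228) (nat_lit 0) (XT.nd (nat_lit 78) (nat_lit 76) (nat_lit 0) (XT.lf (nat_lit 0) (nat_lit 148769030117) (nat_lit 76) (nat_lit 1236800465863) (nat_lit 152) (nat_lit 4972867282) (nat_lit 37) (nat_lit 5) (nat_lit 38) (nat_lit 5) (nat_lit 39) (nat_lit 4) (nat_lit 486) (nat_lit 462) (nat_lit 252)) (XT.lf (nat_lit 0) (nat_lit 322482248820) (nat_lit 152) (nat_lit 457314775744) (nat_lit 76) (nat_lit 680642995168) (nat_lit 36) (nat_lit 5) (nat_lit 38) (nat_lit 5) (nat_lit 37)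 (nat_lit 5) (nat_lit 487) (nat_lit 462) (nat_lit 251))) (XT.nd (nat_lit 78) (nat_lit 76) (nat_lit 0) (XT.lf (nat_lit 0) (nat_lit 410295954276) (nat_lit 152) (nat_lit 275436776333) (nat_lit 228) (nat_lit 849397015251) (nat_lit 34) (nat_lit 5) (nat_lit 36) (nat_lit 5) (nat_lit 37) (nat_lit 5) (nat_lit 488) (nat_lit 462) (nat_lit 250)) (XT.nd (nat_lit 78) (nat_lit 76) (nat_lit 0) (XT.lf (nat_lit 0) (nat_lit 1097347819334) (nat_lit 228) (nat_lit 248271698249) (nat_lit 76) (nat_lit 268630767025) (nat_lit 34) (nat_lit 5) (nat_lit 37) (nat_lit 5) (nat_lit 35) (nat_lit 4) (nat_lit 489) (nat_lit 462) (nat_lit 249)) (XT.lf (nat_lit 0) (nat_lit 727661736501) (nat_lit 76) (nat_lit 838884856388) (nat_lit 152) (nat_lit 131181515351) (nat_lit 33) (nat_lit 5) (nat_lit 34) (nat_lit 5) (nat_lit 35) (nat_lit 4) (nat_lit 490) (nat_lit 462) (nat_lit 248))))) (XT.nd (nat_lit 234) (nat_lit 152) (nat_lit 0) (XT.nd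 (nat_lit 78) (nat_lit 76) (nat_lit 0) (XT.lf (nat_lit 0) (nat_lit 1482184479) (nat_lit 152) (nat_lit 276638351649) (nat_lit 228) (nat_lit 1508654505455) (nat_lit 30) (nat_lit 5) (nat_lit 32) (nat_lit 5) (nat_lit 33) (nat_lit 5) (nat_lit 491) (nat_lit 462) (nat_lit 247)) (XT.nd (nat_lit 78) (nat_lit 76) (nat_lit 0) (XT.lf (nat_lit 0) (nat_lit 748242434005) (nat_lit 228) (nat_lit 786947591076) (nat_lit 76) (nat_lit 344670088231) (nat_lit 30) (nat_lit 5) (nat_lit 33) (nat_lit 5) (nat_lit 31) (nat_lit 4) (nat_lit 492) (nat_lit 462) (nat_lit 246)) (XT.lf (nat_lit 0) (nat_lit 299039016736) (nat_lit 76) (nat_lit 971312368366) (nat_lit 152) (nat_lit 708890421569) (nat_lit 29) (nat_lit 5) (nat_lit 30) (nat_lit 5) (nat_lit 31) (nat_lit 4) (nat_lit 493) (nat_lit 462) (nat_lit 245)))) (XT.nd (nat_lit 78) (nat_lit 152) (nat_lit 0) (XT.lf (nat_lit 0) (nat_lit 1516658949744) (nat_lit 76) (nat_lit 339086638581)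 (nat_lit 152) (nat_lit 229107124292) (nat_lit 29) (nat_lit 5) (nat_lit 30) (nat_lit 5) (nat_lit 31) (nat_lit 4) (nat_lit 494) (nat_lit 462) (nat_lit 244)) (XT.nd (nat_lit 78) (nat_lit 0) (nat_lit 0) (XT.lf (nat_lit 0) (nat_lit 299301082906) (nat_lit 152) (nat_lit 1547168453989) (nat_lit 76) (nat_lit 349910633198) (nat_lit 27) (nat_lit 5) (nat_lit 29) (nat_lit 5) (nat_lit 28) (nat_lit 4) (nat_lit 495) (nat_lit 462) (nat_lit 243)) (XT.lf (nat_lit 0) (nat_lit 882350592870) (nat_lit 152) (nat_lit 334425480959) (nat_lit 76) (nat_lit 1097597973048) (nat_lit 27) (nat_lit 5) (nat_lit 29) (nat_lit 5) (nat_lit 28) (nat_lit 4) (nat_lit 496) (nat_lit 462) (nat_lit 242)))))) (XT.nd (nat_lit 390) (nat_lit 380) (nat_lit 0) (XT.nd (nat_lit 156) (nat_lit 228) (nat_lit 0) (XT.nd (nat_lit 78) (nat_lit 0) (nat_lit 0) (XT.lf (nat_lit 0) (nat_lit 1026696434615) (nat_lit 76) (nat_lit 510039698015) (nat_lit 152)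 (nat_lit 903095935656) (nat_lit 26) (nat_lit 5) (nat_lit 27) (nat_lit 5) (nat_lit 28) (nat_lit 4) (nat_lit 497) (nat_lit 462) (nat_lit 241)) (XT.lf (nat_lit 0) (nat_lit 2258944118878) (nat_lit 152) (nat_lit 65195883771) (nat_lit 0) (nat_lit 249949000494) (nat_lit 26) (nat_lit 5) (nat_lit 28) (nat_lit 4) (nat_lit 26) (nat_lit 4) (nat_lit 498) (nat_lit 462) (nat_lit 240))) (XT.nd (nat_lit 78) (nat_lit 76) (nat_lit 0) (XT.lf (nat_lit 0) (nat_lit 353209162219) (nat_lit 152) (nat_lit 1274320066623) (nat_lit 76) (nat_lit 1086992549580) (nat_lit 24) (nat_lit 5) (nat_lit 26) (nat_lit 5) (nat_lit 25) (nat_lit 4) (nat_lit 499) (nat_lit 462) (nat_lit 239)) (XT.nd (nat_lit 78) (nat_lit 0) (nat_lit 0) (XT.lf (nat_lit 0) (nat_lit 205753000587) (nat_lit 76) (nat_lit 859029754155) (nat_lit 152) (nat_lit 1800209395937) (nat_lit 23) (nat_lit 5) (nat_lit 24) (nat_lit 5) (nat_lit 25) (nat_lit 4) (nat_lit 500)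 (nat_lit 462) (nat_lit 238)) (XT.lf (nat_lit 0) (nat_lit 1868330729582) (nat_lit 152) (nat_lit 1148215493710) (nat_lit 0) (nat_lit 8150049833) (nat_lit 23) (nat_lit 5) (nat_lit 25) (nat_lit 4) (nat_lit 23) (nat_lit 4) (nat_lit 501) (nat_lit 462) (nat_lit 237))))) (XT.nd (nat_lit 234) (nat_lit 152) (nat_lit 0) (XT.nd (nat_lit 78) (nat_lit 152) (nat_lit 0) (XT.lf (nat_lit 0) (nat_lit 485672912180) (nat_lit 76) (nat_lit 2284482532457) (nat_lit 76) (nat_lit 424301848551) (nat_lit 22) (nat_lit 4) (nat_lit 23) (nat_lit 5) (nat_lit 23) (nat_lit 4) (nat_lit 502) (nat_lit 462) (nat_lit 236)) (XT.nd (nat_lit 78) (nat_lit 76) (nat_lit 0) (XT.lf (nat_lit 0) (nat_lit 380211462029) (nat_lit 152) (nat_lit 1069340846734) (nat_lit 76) (nat_lit 1924965298171) (nat_lit 21) (nat_lit 5) (nat_lit 23) (nat_lit 5) (nat_lit 22) (nat_lit 4) (nat_lit 503) (nat_lit 462) (nat_lit 235)) (XT.lf (nat_lit 0) (nat_lit 726584010598)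 (nat_lit 76) (nat_lit 517052865324) (nat_lit 152) (nat_lit 2323066254951) (nat_lit 20) (nat_lit 5) (nat_lit 21) (nat_lit 5) (nat_lit 22) (nat_lit 4) (nat_lit 504) (nat_lit 462) (nat_lit 234)))) (XT.nd (nat_lit 78) (nat_lit 152) (nat_lit 0) (XT.lf (nat_lit 0) (nat_lit 2217919043941) (nat_lit 152) (nat_lit 1057472323220) (nat_lit 0) (nat_lit 495529511884) (nat_lit 20) (nat_lit 5) (nat_lit 22) (nat_lit 4) (nat_lit 20) (nat_lit 4) (nat_lit 505) (nat_lit 462) (nat_lit 233)) (XT.nd (nat_lit 78) (nat_lit 76) (nat_lit 0) (XT.lf (nat_lit 0) (nat_lit 899345153152) (nat_lit 76) (nat_lit 2405857845859) (nat_lit 76) (nat_lit 683468310972) (nat_lit 19) (nat_lit 4) (nat_lit 20) (nat_lit 5) (nat_lit 20) (nat_lit 4) (nat_lit 506) (nat_lit 462) (nat_lit 232)) (XT.lf (nat_lit 0) (nat_lit 272504507660) (nat_lit 152) (nat_lit 1155580161572) (nat_lit 76) (nat_lit 2792892145189) (nat_lit 18) (nat_lit 5) (nat_lit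 20) (nat_lit 5) (nat_lit 19) (nat_lit 4) (nat_lit 507) (nat_lit 462) (nat_lit 231))))))) (XT.nd (nat_lit 858) (nat_lit 76) (nat_lit 0) (XT.nd (nat_lit 390) (nat_lit 228) (nat_lit 0) (XT.nd (nat_lit 156) (nat_lit 228) (nat_lit 0) (XT.nd (nat_lit 78) (nat_lit 0) (nat_lit 0) (XT.lf (nat_lit 0) (nat_lit 963301316566) (nat_lit 76) (nat_lit 327896210596) (nat_lit 152) (nat_lit 3177395644831) (nat_lit 17) (nat_lit 5) (nat_lit 18) (nat_lit 5) (nat_lit 19) (nat_lit 4) (nat_lit 508) (nat_lit 462) (nat_lit 230)) (XT.lf (nat_lit 0) (nat_lit 2444492671520) (nat_lit 152) (nat_lit 1437590092114) (nat_lit 0) (nat_lit 849687539873) (nat_lit 17) (nat_lit 5) (nat_lit 19) (nat_lit 4) (nat_lit 17) (nat_lit 4) (nat_lit 509) (nat_lit 462) (nat_lit 229))) (XT.nd (nat_lit 78) (nat_lit 152) (nat_lit 0) (XT.lf (nat_lit 0) (nat_lit 828453627395) (nat_lit 76) (nat_lit 2890038911406) (nat_lit 76) (nat_lit 1295233777832)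 (nat_lit 16) (nat_lit 4) (nat_lit 17) (nat_lit 5) (nat_lit 17) (nat_lit 4) (nat_lit 510) (nat_lit 462) (nat_lit 228)) (XT.nd (nat_lit 78) (nat_lit 152) (nat_lit 0) (XT.lf (nat_lit 0) (nat_lit 3357537861090) (nat_lit 76) (nat_lit 1776180792224) (nat_lit 76) (nat_lit 181375656867) (nat_lit 16) (nat_lit 4) (nat_lit 17) (nat_lit 5) (nat_lit 17) (nat_lit 4) (nat_lit 511) (nat_lit 462) (nat_lit 227)) (XT.lf (nat_lit 0) (nat_lit 446124761341) (nat_lit 76) (nat_lit 535091535942) (nat_lit 152) (nat_lit 4656531557984) (nat_lit 14) (nat_lit 5) (nat_lit 15) (nat_lit 5) (nat_lit 16) (nat_lit 4) (nat_lit 512) (nat_lit 462) (nat_lit 226))))) (XT.nd (nat_lit 234) (nat_lit 152) (nat_lit 0) (XT.nd (nat_lit 78) (nat_lit 76) (nat_lit 0) (XT.lf (nat_lit 0) (nat_lit 2301297000589) (nat_lit 152) (nat_lit 2853971791722) (nat_lit 0) (nat_lit 824625576018) (nat_lit 14) (nat_lit 5) (nat_lit 16) (nat_lit 4) (nat_lit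 14) (nat_lit 4) (nat_lit 513) (nat_lit 462) (nat_lit 225)) (XT.nd (nat_lit 78) (nat_lit 76) (nat_lit 0) (XT.lf (nat_lit 0) (nat_lit 3740882639076) (nat_lit 152) (nat_lit 343206871851) (nat_lit 0) (nat_lit 2264211213194) (nat_lit 14) (nat_lit 5) (nat_lit 16) (nat_lit 4) (nat_lit 14) (nat_lit 4) (nat_lit 514) (nat_lit 462) (nat_lit 224)) (XT.lf (nat_lit 0) (nat_lit 2493135996744) (nat_lit 76) (nat_lit 2862459110232) (nat_lit 76) (nat_lit 1385787683136) (nat_lit 13) (nat_lit 4) (nat_lit 14) (nat_lit 5) (nat_lit 14) (nat_lit 4) (nat_lit 515) (nat_lit 462) (nat_lit 223)))) (XT.nd (nat_lit 78) (nat_lit 152) (nat_lit 0) (XT.lf (nat_lit 0) (nat_lit 5575904769173) (nat_lit 76) (nat_lit 1532963684942) (nat_lit 76) (nat_lit 56292256723) (nat_lit 13) (nat_lit 4) (nat_lit 14) (nat_lit 5) (nat_lit 14) (nat_lit 4) (nat_lit 516) (nat_lit 462) (nat_lit 222)) (XT.nd (nat_lit 78) (nat_lit 0) (nat_lit 0) (XT.lf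 (nat_lit 0) (nat_lit 1315060297321) (nat_lit 76) (nat_lit 27118417381) (nat_lit 152) (nat_lit 6275477690662) (nat_lit 11) (nat_lit 5) (nat_lit 12) (nat_lit 5) (nat_lit 13) (nat_lit 4) (nat_lit 517) (nat_lit 462) (nat_lit 221)) (XT.lf (nat_lit 0) (nat_lit 2932528508300) (nat_lit 152) (nat_lit 3601822738171) (nat_lit 0) (nat_lit 1565240146982) (nat_lit 11) (nat_lit 5) (nat_lit 13) (nat_lit 4) (nat_lit 11) (nat_lit 4) (nat_lit 518) (nat_lit 462) (nat_lit 220)))))) (XT.nd (nat_lit 58344) (nat_lit 0) (nat_lit 3724) (XT.nd (nat_lit 58110) (nat_lit 0) (nat_lit 4484) (XT.nd (nat_lit 78) (nat_lit 76) (nat_lit 0) (XT.lf (nat_lit 0) (nat_lit 4650810657861) (nat_lit 152) (nat_lit 685691877213) (nat_lit 0) (nat_lit 3283522295717) (nat_lit 11) (nat_lit 5) (nat_lit 13) (nat_lit 4) (nat_lit 11) (nat_lit 4) (nat_lit 519) (nat_lit 462) (nat_lit 219)) (XT.nd (nat_lit 78) (nat_lit 0) (nat_lit 0) (XT.lf (nat_lit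 0) (nat_lit 2593465075569) (nat_lit 76) (nat_lit 3975463199404) (nat_lit 76) (nat_lit 2608174836496) (nat_lit 10) (nat_lit 4) (nat_lit 11) (nat_lit 5) (nat_lit 11) (nat_lit 4) (nat_lit 520) (nat_lit 462) (nat_lit 218)) (XT.lf (nat_lit 0) (nat_lit 6173950485572) (nat_lit 76) (nat_lit 2485292845152) (nat_lit 76) (nat_lit 1118004481535) (nat_lit 10) (nat_lit 4) (nat_lit 11) (nat_lit 5) (nat_lit 11) (nat_lit 4) (nat_lit 521) (nat_lit 462) (nat_lit 217)))) (XT.nd (nat_lit 78) (nat_lit 0) (nat_lit 0) (XT.lf (nat_lit 0) (nat_lit 237664591521) (nat_lit 532) (nat_lit 10781908611) (nat_lit 532) (nat_lit 10781908611) (nat_lit 69) (nat_lit 3) (nat_lit 76) (nat_lit 3) (nat_lit 76) (nat_lit 5) (nat_lit 463) (nat_lit 463) (nat_lit 274)) (XT.nd (nat_lit 78) (nat_lit 0) (nat_lit 76) (XT.lf (nat_lit 76) (nat_lit 244731094342) (nat_lit 0) (nat_lit 255497273203) (nat_lit 532) (nat_lit 38495841115) (nat_lit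 70) (nat_lit 5) (nat_lit 69) (nat_lit 3) (nat_lit 76) (nat_lit 5) (nat_lit 464) (nat_lit 463) (nat_lit 273)) (XT.lf (nat_lit 0) (nat_lit 527849674280) (nat_lit 456) (nat_lit 27150504001) (nat_lit 532) (nat_lit 5554397861) (nat_lit 70) (nat_lit 5) (nat_lit 76) (nat_lit 5) (nat_lit 77) (nat_lit 5) (nat_lit 465) (nat_lit 463) (nat_lit 272))))) (XT.nd (nat_lit 234) (nat_lit 304) (nat_lit 0) (XT.nd (nat_lit 78) (nat_lit 532) (nat_lit 0) (XT.lf (nat_lit 76) (nat_lit 267799630445) (nat_lit 0) (nat_lit 302957914244) (nat_lit 532) (nat_lit 12327679618) (nat_lit 71) (nat_lit 5) (nat_lit 70) (nat_lit 5) (nat_lit 77) (nat_lit 5) (nat_lit 466) (nat_lit 463) (nat_lit 271)) (XT.nd (nat_lit 78) (nat_lit 0) (nat_lit 76) (XT.lf (nat_lit 0) (nat_lit 9957105599) (nat_lit 532) (nat_lit 19721181903) (nat_lit 608) (nat_lit 577660484713) (nat_lit 63) (nat_lit 5) (nat_lit 70) (nat_lit 5) (nat_lit 71) (nat_lit 5)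 (nat_lit 467) (nat_lit 463) (nat_lit 270)) (XT.lf (nat_lit 0) (nat_lit 47521967149) (nat_lit 532) (nat_lit 324568693447) (nat_lit 608) (nat_lit 260283262741) (nat_lit 64) (nat_lit 5) (nat_lit 71) (nat_lit 5) (nat_lit 72) (nat_lit 5) (nat_lit 468) (nat_lit 463) (nat_lit 269)))) (XT.nd (nat_lit 78) (nat_lit 380) (nat_lit 0) (XT.lf (nat_lit 76) (nat_lit 2633415260) (nat_lit 0) (nat_lit 86846000446) (nat_lit 608) (nat_lit 569821479007) (nat_lit 65) (nat_lit 5) (nat_lit 64) (nat_lit 5) (nat_lit 72) (nat_lit 5) (nat_lit 469) (nat_lit 463) (nat_lit 268)) (XT.nd (nat_lit 78) (nat_lit 456) (nat_lit 0) (XT.lf (nat_lit 0) (nat_lit 149218531317) (nat_lit 532) (nat_lit 318752699848) (nat_lit 76) (nat_lit 219256786949) (nat_lit 65) (nat_lit 5) (nat_lit 72) (nat_lit 5) (nat_lit 66) (nat_lit 5) (nat_lit 470) (nat_lit 463) (nat_lit 267)) (XT.lf (nat_lit 0) (nat_lit 46253283720) (nat_lit 456) (nat_lit 170851609784)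 (nat_lit 532) (nat_lit 500014968506) (nat_lit 59) (nat_lit 5) (nat_lit 65) (nat_lit 5) (nat_lit 66) (nat_lit 5) (nat_lit 471) (nat_lit 463) (nat_lit 266))))))))
noncomputable def xc225 : XT := (XT.nd (nat_lit 1716) (nat_lit 1292) (nat_lit 0) (XT.nd (nat_lit 858) (nat_lit 988) (nat_lit 0) (XT.nd (nat_lit 390) (nat_lit 760) (nat_lit 0) (XT.nd (nat_lit 156) (nat_lit 228) (nat_lit 0) (XT.nd (nat_lit 78) (nat_lit 228) (nat_lit 0) (XT.lf (nat_lit 0) (nat_lit 302972191571) (nat_lit 532) (nat_lit 293953131327) (nat_lit 76) (nat_lit 151473728377) (nat_lit 59) (nat_lit 5) (nat_lit 66) (nat_lit 5) (nat_lit 60) (nat_lit 5) (nat_lit 472) (nat_lit 463) (nat_lit 265)) (XT.lf (nat_lit 0) (nat_lit 114398341203) (nat_lit 228) (nat_lit 288499505662) (nat_lit 304) (nat_lit 378707610951) (nat_lit 56) (nat_lit 5) (nat_lit 59) (nat_lit 5) (nat_lit 60) (nat_lit 5) (nat_lit 473) (nat_lit 463) (nat_lit 264))) (XT.nd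 (nat_lit 78) (nat_lit 228) (nat_lit 0) (XT.lf (nat_lit 0) (nat_lit 520136139714) (nat_lit 304) (nat_lit 245971507944) (nat_lit 76) (nat_lit 50615242420) (nat_lit 56) (nat_lit 5) (nat_lit 60) (nat_lit 5) (nat_lit 57) (nat_lit 5) (nat_lit 474) (nat_lit 463) (nat_lit 263)) (XT.nd (nat_lit 78) (nat_lit 0) (nat_lit 0) (XT.lf (nat_lit 0) (nat_lit 212078465614) (nat_lit 228) (nat_lit 447269004212) (nat_lit 304) (nat_lit 194294729196) (nat_lit 53) (nat_lit 5) (nat_lit 56) (nat_lit 5) (nat_lit 57) (nat_lit 5) (nat_lit 475) (nat_lit 463) (nat_lit 262)) (XT.lf (nat_lit 0) (nat_lit 720761041095) (nat_lit 228) (nat_lit 95659950726) (nat_lit 304) (nat_lit 76556038027) (nat_lit 53) (nat_lit 5) (nat_lit 56) (nat_lit 5) (nat_lit 57) (nat_lit 5) (nat_lit 476) (nat_lit 463) (nat_lit 261))))) (XT.nd (nat_lit 234) (nat_lit 304) (nat_lit 0) (XT.nd (nat_lit 78) (nat_lit 228) (nat_lit 0) (XT.lf (nat_lit 0) (nat_lit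 63595487316) (nat_lit 228) (nat_lit 590746748134) (nat_lit 76) (nat_lit 279777050373) (nat_lit 50) (nat_lit 5) (nat_lit 53) (nat_lit 5) (nat_lit 51) (nat_lit 5) (nat_lit 477) (nat_lit 463) (nat_lit 260)) (XT.nd (nat_lit 78) (nat_lit 228) (nat_lit 0) (XT.lf (nat_lit 0) (nat_lit 218138777736) (nat_lit 228) (nat_lit 72769464722) (nat_lit 76) (nat_lit 686900349735) (nat_lit 50) (nat_lit 5) (nat_lit 53) (nat_lit 5) (nat_lit 51) (nat_lit 5) (nat_lit 478) (nat_lit 463) (nat_lit 259)) (XT.lf (nat_lit 0) (nat_lit 400129170947) (nat_lit 304) (nat_lit 514499025197) (nat_lit 76) (nat_lit 109158155768) (nat_lit 47) (nat_lit 5) (nat_lit 51) (nat_lit 5) (nat_lit 48) (nat_lit 5) (nat_lit 479) (nat_lit 463) (nat_lit 258)))) (XT.nd (nat_lit 78) (nat_lit 152) (nat_lit 0) (XT.lf (nat_lit 0) (nat_lit 64376592258) (nat_lit 152) (nat_lit 543447836117) (nat_lit 228) (nat_lit 464726253419) (nat_lit 45) (nat_lit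 5) (nat_lit 47) (nat_lit 5) (nat_lit 48) (nat_lit 5) (nat_lit 480) (nat_lit 463) (nat_lit 257)) (XT.nd (nat_lit 78) (nat_lit 152) (nat_lit 0) (XT.lf (nat_lit 0) (nat_lit 718822261950) (nat_lit 152) (nat_lit 127380350630) (nat_lit 228) (nat_lit 277888160993) (nat_lit 45) (nat_lit 5) (nat_lit 47) (nat_lit 5) (nat_lit 48) (nat_lit 5) (nat_lit 481) (nat_lit 463) (nat_lit 256)) (XT.lf (nat_lit 0) (nat_lit 250665349045) (nat_lit 152) (nat_lit 866757648975) (nat_lit 228) (nat_lit 61229318959) (nat_lit 43) (nat_lit 5) (nat_lit 45) (nat_lit 5) (nat_lit 46) (nat_lit 5) (nat_lit 482) (nat_lit 463) (nat_lit 255)))))) (XT.nd (nat_lit 390) (nat_lit 532) (nat_lit 0) (XT.nd (nat_lit 156) (nat_lit 228) (nat_lit 0) (XT.nd (nat_lit 78) (nat_lit 152) (nat_lit 0) (XT.lf (nat_lit 0) (nat_lit 178797107514) (nat_lit 228) (nat_lit 262321765838) (nat_lit 76) (nat_lit 794953344163) (nat_lit 42) (nat_lit 5) (nat_lit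 45) (nat_lit 5) (nat_lit 43) (nat_lit 5) (nat_lit 483) (nat_lit 463) (nat_lit 254)) (XT.lf (nat_lit 0) (nat_lit 447023952905) (nat_lit 228) (nat_lit 818857996411) (nat_lit 76) (nat_lit 31092028754) (nat_lit 40) (nat_lit 5) (nat_lit 43) (nat_lit 5) (nat_lit 41) (nat_lit 5) (nat_lit 484) (nat_lit 463) (nat_lit 253))) (XT.nd (nat_lit 78) (nat_lit 228) (nat_lit 0) (XT.lf (nat_lit 0) (nat_lit 755525208129) (nat_lit 228) (nat_lit 81110811238) (nat_lit 76) (nat_lit 524606559130) (nat_lit 40) (nat_lit 5) (nat_lit 43) (nat_lit 5) (nat_lit 41) (nat_lit 5) (nat_lit 485) (nat_lit 463) (nat_lit 252)) (XT.nd (nat_lit 78) (nat_lit 76) (nat_lit 0) (XT.lf (nat_lit 0) (nat_lit 753341321912) (nat_lit 152) (nat_lit 353483111896) (nat_lit 228) (nat_lit 322378803549) (nat_lit 38) (nat_lit 5) (nat_lit 40) (nat_lit 5) (nat_lit 41) (nat_lit 5) (nat_lit 486) (nat_lit 463) (nat_lit 251)) (XT.lf (nat_lit 0) (nat_lit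 160670777847) (nat_lit 76) (nat_lit 1335744414146) (nat_lit 152) (nat_lit 5370549380) (nat_lit 37) (nat_lit 5) (nat_lit 38) (nat_lit 5) (nat_lit 39) (nat_lit 4) (nat_lit 487) (nat_lit 463) (nat_lit 250))))) (XT.nd (nat_lit 234) (nat_lit 304) (nat_lit 0) (XT.nd (nat_lit 78) (nat_lit 152) (nat_lit 0) (XT.lf (nat_lit 0) (nat_lit 348280958279) (nat_lit 152) (nat_lit 493899742314) (nat_lit 76) (nat_lit 735094510316) (nat_lit 36) (nat_lit 5) (nat_lit 38) (nat_lit 5) (nat_lit 37) (nat_lit 5) (nat_lit 488) (nat_lit 463) (nat_lit 249)) (XT.nd (nat_lit 78) (nat_lit 0) (nat_lit 0) (XT.lf (nat_lit 0) (nat_lit 443119840653) (nat_lit 152) (nat_lit 297471633413) (nat_lit 228) (nat_lit 917348641428) (nat_lit 34) (nat_lit 5) (nat_lit 36) (nat_lit 5) (nat_lit 37) (nat_lit 5) (nat_lit 489) (nat_lit 463) (nat_lit 248)) (XT.lf (nat_lit 0) (nat_lit 1185135762522) (nat_lit 228) (nat_lit 268133232235) (nat_lit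 76) (nat_lit 290121303178) (nat_lit 34) (nat_lit 5) (nat_lit 37) (nat_lit 5) (nat_lit 35) (nat_lit 4) (nat_lit 490) (nat_lit 463) (nat_lit 247)))) (XT.nd (nat_lit 78) (nat_lit 228) (nat_lit 0) (XT.lf (nat_lit 0) (nat_lit 785874872185) (nat_lit 76) (nat_lit 905995561795) (nat_lit 152) (nat_lit 141675913798) (nat_lit 33) (nat_lit 5) (nat_lit 34) (nat_lit 5) (nat_lit 35) (nat_lit 4) (nat_lit 491) (nat_lit 463) (nat_lit 246)) (XT.nd (nat_lit 78) (nat_lit 0) (nat_lit 0) (XT.lf (nat_lit 0) (nat_lit 1600957033) (nat_lit 152) (nat_lit 298769334741) (nat_lit 228) (nat_lit 1629346744088) (nat_lit 30) (nat_lit 5) (nat_lit 32) (nat_lit 5) (nat_lit 33) (nat_lit 5) (nat_lit 492) (nat_lit 463) (nat_lit 245)) (XT.lf (nat_lit 0) (nat_lit 808101935023) (nat_lit 228) (nat_lit 849903208736) (nat_lit 76) (nat_lit 372243770091) (nat_lit 30) (nat_lit 5) (nat_lit 33) (nat_lit 5) (nat_lit 31) (nat_lit 4) (nat_lit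 493) (nat_lit 463) (nat_lit 244))))))) (XT.nd (nat_lit 858) (nat_lit 608) (nat_lit 0) (XT.nd (nat_lit 390) (nat_lit 380) (nat_lit 0) (XT.nd (nat_lit 156) (nat_lit 228) (nat_lit 0) (XT.nd (nat_lit 78) (nat_lit 0) (nat_lit 0) (XT.lf (nat_lit 0) (nat_lit 322962322901) (nat_lit 76) (nat_lit 1049017275878) (nat_lit 152) (nat_lit 765601544174) (nat_lit 29) (nat_lit 5) (nat_lit 30) (nat_lit 5) (nat_lit 31) (nat_lit 4) (nat_lit 494) (nat_lit 463) (nat_lit 243)) (XT.lf (nat_lit 0) (nat_lit 1637991836858) (nat_lit 76) (nat_lit 366213493781) (nat_lit 152) (nat_lit 247435591346) (nat_lit 29) (nat_lit 5) (nat_lit 30) (nat_lit 5) (nat_lit 31) (nat_lit 4) (nat_lit 495) (nat_lit 463) (nat_lit 242))) (XT.nd (nat_lit 78) (nat_lit 76) (nat_lit 0) (XT.lf (nat_lit 0) (nat_lit 323245266030) (nat_lit 152) (nat_lit 1670941752739) (nat_lit 76) (nat_lit 377903557194) (nat_lit 27) (nat_lit 5) (nat_lit 29) (nat_lit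 5) (nat_lit 28) (nat_lit 4) (nat_lit 496) (nat_lit 463) (nat_lit 241)) (XT.nd (nat_lit 78) (nat_lit 76) (nat_lit 0) (XT.lf (nat_lit 0) (nat_lit 952938729644) (nat_lit 152) (nat_lit 361179355020) (nat_lit 76) (nat_lit 1185405878800) (nat_lit 27) (nat_lit 5) (nat_lit 29) (nat_lit 5) (nat_lit 28) (nat_lit 4) (nat_lit 497) (nat_lit 463) (nat_lit 240)) (XT.lf (nat_lit 0) (nat_lit 1108832309638) (nat_lit 76) (nat_lit 550842800183) (nat_lit 152) (nat_lit 975343516987) (nat_lit 26) (nat_lit 5) (nat_lit 27) (nat_lit 5) (nat_lit 28) (nat_lit 4) (nat_lit 498) (nat_lit 463) (nat_lit 239))))) (XT.nd (nat_lit 234) (nat_lit 152) (nat_lit 0) (XT.nd (nat_lit 78) (nat_lit 228) (nat_lit 0) (XT.lf (nat_lit 0) (nat_lit 2439659730196) (nat_lit 152) (nat_lit 70411401303) (nat_lit 0) (nat_lit 269944985337) (nat_lit 26) (nat_lit 5) (nat_lit 28) (nat_lit 4) (nat_lit 26) (nat_lit 4) (nat_lit 499) (nat_lit 463) (nat_lit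 238)) (XT.nd (nat_lit 78) (nat_lit 76) (nat_lit 0) (XT.lf (nat_lit 0) (nat_lit 381465976608) (nat_lit 152) (nat_lit 1376265518362) (nat_lit 76) (nat_lit 1173952019201) (nat_lit 24) (nat_lit 5) (nat_lit 26) (nat_lit 5) (nat_lit 25) (nat_lit 4) (nat_lit 500) (nat_lit 463) (nat_lit 237)) (XT.lf (nat_lit 0) (nat_lit 222213390336) (nat_lit 76) (nat_lit 927752063766) (nat_lit 152) (nat_lit 1944226062302) (nat_lit 23) (nat_lit 5) (nat_lit 24) (nat_lit 5) (nat_lit 25) (nat_lit 4) (nat_lit 501) (nat_lit 463) (nat_lit 236)))) (XT.nd (nat_lit 78) (nat_lit 152) (nat_lit 0) (XT.lf (nat_lit 0) (nat_lit 2017797262654) (nat_lit 152) (nat_lit 1240072590308) (nat_lit 0) (nat_lit 8802116027) (nat_lit 23) (nat_lit 5) (nat_lit 25) (nat_lit 4) (nat_lit 23) (nat_lit 4) (nat_lit 502) (nat_lit 463) (nat_lit 235)) (XT.nd (nat_lit 78) (nat_lit 76) (nat_lit 0) (XT.lf (nat_lit 0) (nat_lit 524526884436) (nat_lit 76)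 (nat_lit 2467241068294) (nat_lit 76) (nat_lit 458245918103) (nat_lit 22) (nat_lit 4) (nat_lit 23) (nat_lit 5) (nat_lit 23) (nat_lit 4) (nat_lit 503) (nat_lit 463) (nat_lit 234)) (XT.lf (nat_lit 0) (nat_lit 410628447893) (nat_lit 152) (nat_lit 1154887981873) (nat_lit 76) (nat_lit 2078962580203) (nat_lit 21) (nat_lit 5) (nat_lit 23) (nat_lit 5) (nat_lit 22) (nat_lit 4) (nat_lit 504) (nat_lit 463) (nat_lit 233)))))) (XT.nd (nat_lit 468) (nat_lit 304) (nat_lit 0) (XT.nd (nat_lit 234) (nat_lit 152) (nat_lit 0) (XT.nd (nat_lit 78) (nat_lit 76) (nat_lit 0) (XT.lf (nat_lit 0) (nat_lit 784710860689) (nat_lit 76) (nat_lit 558417032213) (nat_lit 152) (nat_lit 2508911483081) (nat_lit 20) (nat_lit 5) (nat_lit 21) (nat_lit 5) (nat_lit 22) (nat_lit 4) (nat_lit 505) (nat_lit 463) (nat_lit 232)) (XT.nd (nat_lit 78) (nat_lit 76) (nat_lit 0) (XT.lf (nat_lit 0) (nat_lit 2395352630795) (nat_lit 152) (nat_lit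 1142069985833) (nat_lit 0) (nat_lit 535171927667) (nat_lit 20) (nat_lit 5) (nat_lit 22) (nat_lit 4) (nat_lit 20) (nat_lit 4) (nat_lit 506) (nat_lit 463) (nat_lit 231)) (XT.lf (nat_lit 0) (nat_lit 971292885529) (nat_lit 76) (nat_lit 2598326414939) (nat_lit 76) (nat_lit 738145709385) (nat_lit 19) (nat_lit 4) (nat_lit 20) (nat_lit 5) (nat_lit 20) (nat_lit 4) (nat_lit 507) (nat_lit 463) (nat_lit 230)))) (XT.nd (nat_lit 78) (nat_lit 76) (nat_lit 0) (XT.lf (nat_lit 0) (nat_lit 294304926736) (nat_lit 152) (nat_lit 1248026460188) (nat_lit 76) (nat_lit 3016323567969) (nat_lit 18) (nat_lit 5) (nat_lit 20) (nat_lit 5) (nat_lit 19) (nat_lit 4) (nat_lit 508) (nat_lit 463) (nat_lit 229)) (XT.nd (nat_lit 78) (nat_lit 0) (nat_lit 0) (XT.lf (nat_lit 0) (nat_lit 1040365533308) (nat_lit 76) (nat_lit 354127852840) (nat_lit 152) (nat_lit 3431587235055) (nat_lit 17) (nat_lit 5) (nat_lit 18) (nat_lit 5) (nat_lit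 19) (nat_lit 4) (nat_lit 509) (nat_lit 463) (nat_lit 228)) (XT.lf (nat_lit 0) (nat_lit 2640052139062) (nat_lit 152) (nat_lit 1552597193323) (nat_lit 0) (nat_lit 917662591093) (nat_lit 17) (nat_lit 5) (nat_lit 19) (nat_lit 4) (nat_lit 17) (nat_lit 4) (nat_lit 510) (nat_lit 463) (nat_lit 227))))) (XT.nd (nat_lit 234) (nat_lit 76) (nat_lit 0) (XT.nd (nat_lit 78) (nat_lit 152) (nat_lit 0) (XT.lf (nat_lit 0) (nat_lit 894730021059) (nat_lit 76) (nat_lit 3121241973167) (nat_lit 76) (nat_lit 1398852423547) (nat_lit 16) (nat_lit 4) (nat_lit 17) (nat_lit 5) (nat_lit 17) (nat_lit 4) (nat_lit 511) (nat_lit 463) (nat_lit 226)) (XT.nd (nat_lit 78) (nat_lit 152) (nat_lit 0) (XT.lf (nat_lit 0) (nat_lit 3626140985786) (nat_lit 76) (nat_lit 1918275208240) (nat_lit 76) (nat_lit 195885657091) (nat_lit 16) (nat_lit 4) (nat_lit 17) (nat_lit 5) (nat_lit 17) (nat_lit 4) (nat_lit 512) (nat_lit 463) (nat_lit 225))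 (XT.lf (nat_lit 0) (nat_lit 481814838185) (nat_lit 76) (nat_lit 577898811213) (nat_lit 152) (nat_lit 5029054030419) (nat_lit 14) (nat_lit 5) (nat_lit 15) (nat_lit 5) (nat_lit 16) (nat_lit 4) (nat_lit 513) (nat_lit 463) (nat_lit 224)))) (XT.nd (nat_lit 78) (nat_lit 76) (nat_lit 0) (XT.lf (nat_lit 0) (nat_lit 2485400806449) (nat_lit 152) (nat_lit 3082289443705) (nat_lit 0) (nat_lit 890595663972) (nat_lit 14) (nat_lit 5) (nat_lit 16) (nat_lit 4) (nat_lit 14) (nat_lit 4) (nat_lit 514) (nat_lit 463) (nat_lit 223)) (XT.nd (nat_lit 78) (nat_lit 76) (nat_lit 0) (XT.lf (nat_lit 0) (nat_lit 4040153292622) (nat_lit 152) (nat_lit 370663337011) (nat_lit 0) (nat_lit 2445348149021) (nat_lit 14) (nat_lit 5) (nat_lit 16) (nat_lit 4) (nat_lit 14) (nat_lit 4) (nat_lit 515) (nat_lit 463) (nat_lit 222)) (XT.lf (nat_lit 0) (nat_lit 2692586958929) (nat_lit 76) (nat_lit 3091455797865) (nat_lit 76) (nat_lit 1496650653224)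 (nat_lit 13) (nat_lit 4) (nat_lit 14) (nat_lit 5) (nat_lit 14) (nat_lit 4) (nat_lit 516) (nat_lit 463) (nat_lit 221))))))))
noncomputable def xc226 : XT := (XT.nd (nat_lit 59670) (nat_lit 0) (nat_lit 988) (XT.nd (nat_lit 58812) (nat_lit 0) (nat_lit 2812) (XT.nd (nat_lit 58344) (nat_lit 0) (nat_lit 4028) (XT.nd (nat_lit 156) (nat_lit 76) (nat_lit 0) (XT.nd (nat_lit 78) (nat_lit 152) (nat_lit 0) (XT.lf (nat_lit 0) (nat_lit 6021977227046) (nat_lit 76) (nat_lit 1655600741603) (nat_lit 76) (nat_lit 60795595998) (nat_lit 13) (nat_lit 4) (nat_lit 14) (nat_lit 5) (nat_lit 14) (nat_lit 4) (nat_lit 517) (nat_lit 463) (nat_lit 220)) (XT.lf (nat_lit 0) (nat_lit 1420265197527) (nat_lit 76) (nat_lit 29287852484) (nat_lit 152) (nat_lit 6777515864730) (nat_lit 11) (nat_lit 5) (nat_lit 12) (nat_lit 5) (nat_lit 13) (nat_lit 4) (nat_lit 518) (nat_lit 463) (nat_lit 219))) (XT.nd (nat_lit 78) (nat_lit 76) (nat_lit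 0) (XT.lf (nat_lit 0) (nat_lit 3167130825125) (nat_lit 152) (nat_lit 3889968484491) (nat_lit 0) (nat_lit 1690459392418) (nat_lit 11) (nat_lit 5) (nat_lit 13) (nat_lit 4) (nat_lit 11) (nat_lit 4) (nat_lit 519) (nat_lit 463) (nat_lit 218)) (XT.nd (nat_lit 78) (nat_lit 76) (nat_lit 0) (XT.lf (nat_lit 0) (nat_lit 5022875543972) (nat_lit 152) (nat_lit 740547160044) (nat_lit 0) (nat_lit 3546204110557) (nat_lit 11) (nat_lit 5) (nat_lit 13) (nat_lit 4) (nat_lit 11) (nat_lit 4) (nat_lit 520) (nat_lit 463) (nat_lit 217)) (XT.lf (nat_lit 0) (nat_lit 2800942347255) (nat_lit 76) (nat_lit 4293500222297) (nat_lit 76) (nat_lit 2816828788226) (nat_lit 10) (nat_lit 4) (nat_lit 11) (nat_lit 5) (nat_lit 11) (nat_lit 4) (nat_lit 521) (nat_lit 463) (nat_lit 216))))) (XT.nd (nat_lit 234) (nat_lit 456) (nat_lit 0) (XT.nd (nat_lit 78) (nat_lit 0) (nat_lit 0) (XT.lf (nat_lit 0) (nat_lit 256677981823) (nat_lit 532)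 (nat_lit 11644340815) (nat_lit 532) (nat_lit 11644340815) (nat_lit 69) (nat_lit 3) (nat_lit 76) (nat_lit 3) (nat_lit 76) (nat_lit 5) (nat_lit 464) (nat_lit 464) (nat_lit 272)) (XT.nd (nat_lit 78) (nat_lit 0) (nat_lit 76) (XT.lf (nat_lit 76) (nat_lit 264309816757) (nat_lit 0) (nat_lit 275937238766) (nat_lit 532) (nat_lit 41575056065) (nat_lit 70) (nat_lit 5) (nat_lit 69) (nat_lit 3) (nat_lit 76) (nat_lit 5) (nat_lit 465) (nat_lit 464) (nat_lit 271)) (XT.lf (nat_lit 0) (nat_lit 570078031701) (nat_lit 456) (nat_lit 29322291496) (nat_lit 532) (nat_lit 5998588100) (nat_lit 70) (nat_lit 5) (nat_lit 76) (nat_lit 5) (nat_lit 77) (nat_lit 5) (nat_lit 466) (nat_lit 464) (nat_lit 270)))) (XT.nd (nat_lit 78) (nat_lit 532) (nat_lit 0) (XT.lf (nat_lit 76) (nat_lit 289223847304) (nat_lit 0) (nat_lit 327194661959) (nat_lit 532) (nat_lit 13313503870) (nat_lit 71) (nat_lit 5) (nat_lit 70) (nat_lit 5) (nat_lit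 77) (nat_lit 5) (nat_lit 467) (nat_lit 464) (nat_lit 269)) (XT.nd (nat_lit 78) (nat_lit 0) (nat_lit 76) (XT.lf (nat_lit 0) (nat_lit 10754017197) (nat_lit 532) (nat_lit 21298630011) (nat_lit 608) (nat_lit 623873199128) (nat_lit 63) (nat_lit 5) (nat_lit 70) (nat_lit 5) (nat_lit 71) (nat_lit 5) (nat_lit 468) (nat_lit 464) (nat_lit 268)) (XT.lf (nat_lit 0) (nat_lit 51324046026) (nat_lit 532) (nat_lit 350533920644) (nat_lit 608) (nat_lit 281105844624) (nat_lit 64) (nat_lit 5) (nat_lit 71) (nat_lit 5) (nat_lit 72) (nat_lit 5) (nat_lit 469) (nat_lit 464) (nat_lit 267)))))) (XT.nd (nat_lit 390) (nat_lit 684) (nat_lit 0) (XT.nd (nat_lit 156) (nat_lit 608) (nat_lit 0) (XT.nd (nat_lit 78) (nat_lit 0) (nat_lit 76) (XT.lf (nat_lit 76) (nat_lit 2844349967) (nat_lit 0) (nat_lit 93793722974) (nat_lit 608) (nat_lit 615406868855) (nat_lit 65) (nat_lit 5) (nat_lit 64) (nat_lit 5) (nat_lit 72) (nat_lit 5)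 (nat_lit 470) (nat_lit 464) (nat_lit 266)) (XT.lf (nat_lit 0) (nat_lit 161156294338) (nat_lit 532) (nat_lit 344252650094) (nat_lit 76) (nat_lit 236797292528) (nat_lit 65) (nat_lit 5) (nat_lit 72) (nat_lit 5) (nat_lit 66) (nat_lit 5) (nat_lit 471) (nat_lit 464) (nat_lit 265))) (XT.nd (nat_lit 78) (nat_lit 228) (nat_lit 0) (XT.lf (nat_lit 0) (nat_lit 49953805432) (nat_lit 456) (nat_lit 184519745519) (nat_lit 532) (nat_lit 540015878593) (nat_lit 59) (nat_lit 5) (nat_lit 65) (nat_lit 5) (nat_lit 66) (nat_lit 5) (nat_lit 472) (nat_lit 464) (nat_lit 264)) (XT.nd (nat_lit 78) (nat_lit 228) (nat_lit 0) (XT.lf (nat_lit 0) (nat_lit 327210213007) (nat_lit 532) (nat_lit 317469122009) (nat_lit 76) (nat_lit 163591620532) (nat_lit 59) (nat_lit 5) (nat_lit 66) (nat_lit 5) (nat_lit 60) (nat_lit 5) (nat_lit 473) (nat_lit 464) (nat_lit 263)) (XT.lf (nat_lit 0) (nat_lit 123550461745) (nat_lit 228) (nat_lit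 311579446840) (nat_lit 304) (nat_lit 409003967011) (nat_lit 56) (nat_lit 5) (nat_lit 59) (nat_lit 5) (nat_lit 60) (nat_lit 5) (nat_lit 474) (nat_lit 464) (nat_lit 262))))) (XT.nd (nat_lit 234) (nat_lit 456) (nat_lit 0) (XT.nd (nat_lit 78) (nat_lit 228) (nat_lit 0) (XT.lf (nat_lit 0) (nat_lit 561747247960) (nat_lit 304) (nat_lit 265648977072) (nat_lit 76) (nat_lit 54664478768) (nat_lit 56) (nat_lit 5) (nat_lit 60) (nat_lit 5) (nat_lit 57) (nat_lit 5) (nat_lit 475) (nat_lit 464) (nat_lit 261)) (XT.nd (nat_lit 78) (nat_lit 0) (nat_lit 0) (XT.lf (nat_lit 0) (nat_lit 229044988004) (nat_lit 228) (nat_lit 483050486293) (nat_lit 304) (nat_lit 209838083985) (nat_lit 53) (nat_lit 5) (nat_lit 56) (nat_lit 5) (nat_lit 57) (nat_lit 5) (nat_lit 476) (nat_lit 464) (nat_lit 260)) (XT.lf (nat_lit 0) (nat_lit 778422151364) (nat_lit 228) (nat_lit 103312711363) (nat_lit 304) (nat_lit 82680314083) (nat_lit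 53) (nat_lit 5) (nat_lit 56) (nat_lit 5) (nat_lit 57) (nat_lit 5) (nat_lit 477) (nat_lit 464) (nat_lit 259)))) (XT.nd (nat_lit 78) (nat_lit 228) (nat_lit 0) (XT.lf (nat_lit 0) (nat_lit 68683314987) (nat_lit 228) (nat_lit 638006242520) (nat_lit 76) (nat_lit 302159255999) (nat_lit 50) (nat_lit 5) (nat_lit 53) (nat_lit 5) (nat_lit 51) (nat_lit 5) (nat_lit 478) (nat_lit 464) (nat_lit 258)) (XT.nd (nat_lit 78) (nat_lit 228) (nat_lit 0) (XT.lf (nat_lit 0) (nat_lit 235590054664) (nat_lit 228) (nat_lit 78590794617) (nat_lit 76) (nat_lit 741852416229) (nat_lit 50) (nat_lit 5) (nat_lit 53) (nat_lit 5) (nat_lit 51) (nat_lit 5) (nat_lit 479) (nat_lit 464) (nat_lit 257)) (XT.lf (nat_lit 0) (nat_lit 432139673028) (nat_lit 304) (nat_lit 555658713551) (nat_lit 76) (nat_lit 117890859940) (nat_lit 47) (nat_lit 5) (nat_lit 51) (nat_lit 5) (nat_lit 48) (nat_lit 5) (nat_lit 480) (nat_lit 464) (nat_lit 256)))))))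 (XT.nd (nat_lit 858) (nat_lit 836) (nat_lit 0) (XT.nd (nat_lit 390) (nat_lit 456) (nat_lit 0) (XT.nd (nat_lit 156) (nat_lit 380) (nat_lit 0) (XT.nd (nat_lit 78) (nat_lit 0) (nat_lit 0) (XT.lf (nat_lit 0) (nat_lit 69526947385) (nat_lit 152) (nat_lit 586923596667) (nat_lit 228) (nat_lit 501904179302) (nat_lit 45) (nat_lit 5) (nat_lit 47) (nat_lit 5) (nat_lit 48) (nat_lit 5) (nat_lit 481) (nat_lit 464) (nat_lit 255)) (XT.lf (nat_lit 0) (nat_lit 776328253783) (nat_lit 152) (nat_lit 137570717256) (nat_lit 228) (nat_lit 300119052400) (nat_lit 45) (nat_lit 5) (nat_lit 47) (nat_lit 5) (nat_lit 48) (nat_lit 5) (nat_lit 482) (nat_lit 464) (nat_lit 254))) (XT.nd (nat_lit 78) (nat_lit 228) (nat_lit 0) (XT.lf (nat_lit 0) (nat_lit 270718792783) (nat_lit 152) (nat_lit 936098190018) (nat_lit 228) (nat_lit 66127507882) (nat_lit 43) (nat_lit 5) (nat_lit 45) (nat_lit 5) (nat_lit 46) (nat_lit 5) (nat_lit 483)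 (nat_lit 464) (nat_lit 253)) (XT.nd (nat_lit 78) (nat_lit 152) (nat_lit 0) (XT.lf (nat_lit 0) (nat_lit 193101013856) (nat_lit 228) (nat_lit 283307299973) (nat_lit 76) (nat_lit 858549670017) (nat_lit 42) (nat_lit 5) (nat_lit 45) (nat_lit 5) (nat_lit 43) (nat_lit 5) (nat_lit 484) (nat_lit 464) (nat_lit 252)) (XT.lf (nat_lit 0) (nat_lit 482786003203) (nat_lit 228) (nat_lit 884366425268) (nat_lit 76) (nat_lit 33579457073) (nat_lit 40) (nat_lit 5) (nat_lit 43) (nat_lit 5) (nat_lit 41) (nat_lit 5) (nat_lit 485) (nat_lit 464) (nat_lit 251))))) (XT.nd (nat_lit 234) (nat_lit 228) (nat_lit 0) (XT.nd (nat_lit 78) (nat_lit 228) (nat_lit 0) (XT.lf (nat_lit 0) (nat_lit 815967348914) (nat_lit 228) (nat_lit 87599480900) (nat_lit 76) (nat_lit 566575144989) (nat_lit 40) (nat_lit 5) (nat_lit 43) (nat_lit 5) (nat_lit 41) (nat_lit 5) (nat_lit 486) (nat_lit 464) (nat_lit 250)) (XT.nd (nat_lit 78) (nat_lit 76)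 (nat_lit 0) (XT.lf (nat_lit 0) (nat_lit 813608817959) (nat_lit 152) (nat_lit 381761690069) (nat_lit 228) (nat_lit 348168978715) (nat_lit 38) (nat_lit 5) (nat_lit 40) (nat_lit 5) (nat_lit 41) (nat_lit 5) (nat_lit 487) (nat_lit 464) (nat_lit 249)) (XT.lf (nat_lit 0) (nat_lit 173524633251) (nat_lit 76) (nat_lit 1442603890986) (nat_lit 152) (nat_lit 5800067057) (nat_lit 37) (nat_lit 5) (nat_lit 38) (nat_lit 5) (nat_lit 39) (nat_lit 4) (nat_lit 488) (nat_lit 464) (nat_lit 248)))) (XT.nd (nat_lit 78) (nat_lit 152) (nat_lit 0) (XT.lf (nat_lit 0) (nat_lit 376143546012) (nat_lit 152) (nat_lit 533411536952) (nat_lit 76) (nat_lit 793902135901) (nat_lit 36) (nat_lit 5) (nat_lit 38) (nat_lit 5) (nat_lit 37) (nat_lit 5) (nat_lit 489) (nat_lit 464) (nat_lit 247)) (XT.nd (nat_lit 78) (nat_lit 0) (nat_lit 0) (XT.lf (nat_lit 0) (nat_lit 478569607975) (nat_lit 152) (nat_lit 321269291189) (nat_lit 228) (nat_lit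 990736416965) (nat_lit 34) (nat_lit 5) (nat_lit 36) (nat_lit 5) (nat_lit 37) (nat_lit 5) (nat_lit 490) (nat_lit 464) (nat_lit 246)) (XT.lf (nat_lit 0) (nat_lit 1279946724382) (nat_lit 228) (nat_lit 289583717738) (nat_lit 76) (nat_lit 313331071552) (nat_lit 34) (nat_lit 5) (nat_lit 37) (nat_lit 5) (nat_lit 35) (nat_lit 4) (nat_lit 491) (nat_lit 464) (nat_lit 245)))))) (XT.nd (nat_lit 468) (nat_lit 304) (nat_lit 0) (XT.nd (nat_lit 234) (nat_lit 228) (nat_lit 0) (XT.nd (nat_lit 78) (nat_lit 228) (nat_lit 0) (XT.lf (nat_lit 0) (nat_lit 848745030653) (nat_lit 76) (nat_lit 978475135489) (nat_lit 152) (nat_lit 153009881636) (nat_lit 33) (nat_lit 5) (nat_lit 34) (nat_lit 5) (nat_lit 35) (nat_lit 4) (nat_lit 492) (nat_lit 464) (nat_lit 244)) (XT.nd (nat_lit 78) (nat_lit 0) (nat_lit 0) (XT.lf (nat_lit 0) (nat_lit 1729203174) (nat_lit 152) (nat_lit 322670808613) (nat_lit 228) (nat_lit 1759694379189)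 (nat_lit 30) (nat_lit 5) (nat_lit 32) (nat_lit 5) (nat_lit 33) (nat_lit 5) (nat_lit 493) (nat_lit 464) (nat_lit 243)) (XT.lf (nat_lit 0) (nat_lit 872750180958) (nat_lit 228) (nat_lit 917895302860) (nat_lit 76) (nat_lit 402023335828) (nat_lit 30) (nat_lit 5) (nat_lit 33) (nat_lit 5) (nat_lit 31) (nat_lit 4) (nat_lit 494) (nat_lit 464) (nat_lit 242)))) (XT.nd (nat_lit 78) (nat_lit 152) (nat_lit 0) (XT.lf (nat_lit 0) (nat_lit 348799467192) (nat_lit 76) (nat_lit 1132938587684) (nat_lit 152) (nat_lit 826849572439) (nat_lit 29) (nat_lit 5) (nat_lit 30) (nat_lit 5) (nat_lit 31) (nat_lit 4) (nat_lit 495) (nat_lit 464) (nat_lit 241)) (XT.nd (nat_lit 78) (nat_lit 152) (nat_lit 0) (XT.lf (nat_lit 0) (nat_lit 1769031330528) (nat_lit 76) (nat_lit 395510508224) (nat_lit 152) (nat_lit 267230350443) (nat_lit 29) (nat_lit 5) (nat_lit 30) (nat_lit 5) (nat_lit 31) (nat_lit 4) (nat_lit 496) (nat_lit 464) (nat_lit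 240)) (XT.lf (nat_lit 0) (nat_lit 349104970038) (nat_lit 152) (nat_lit 1804616940722) (nat_lit 76) (nat_lit 408135904648) (nat_lit 27) (nat_lit 5) (nat_lit 29) (nat_lit 5) (nat_lit 28) (nat_lit 4) (nat_lit 497) (nat_lit 464) (nat_lit 239))))) (XT.nd (nat_lit 234) (nat_lit 228) (nat_lit 0) (XT.nd (nat_lit 78) (nat_lit 76) (nat_lit 0) (XT.lf (nat_lit 0) (nat_lit 1029173904614) (nat_lit 152) (nat_lit 390073562462) (nat_lit 76) (nat_lit 1280238407324) (nat_lit 27) (nat_lit 5) (nat_lit 29) (nat_lit 5) (nat_lit 28) (nat_lit 4) (nat_lit 498) (nat_lit 464) (nat_lit 238)) (XT.nd (nat_lit 78) (nat_lit 0) (nat_lit 0) (XT.lf (nat_lit 0) (nat_lit 1197539031801) (nat_lit 76) (nat_lit 594910161034) (nat_lit 152) (nat_lit 1053370918166) (nat_lit 26) (nat_lit 5) (nat_lit 27) (nat_lit 5) (nat_lit 28) (nat_lit 4) (nat_lit 499) (nat_lit 464) (nat_lit 237)) (XT.lf (nat_lit 0) (nat_lit 2634832578748) (nat_lit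 152) (nat_lit 76044182089) (nat_lit 0) (nat_lit 291540639723) (nat_lit 26) (nat_lit 5) (nat_lit 28) (nat_lit 4) (nat_lit 26) (nat_lit 4) (nat_lit 500) (nat_lit 464) (nat_lit 236)))) (XT.nd (nat_lit 78) (nat_lit 76) (nat_lit 0) (XT.lf (nat_lit 0) (nat_lit 411983324534) (nat_lit 152) (nat_lit 1486366628152) (nat_lit 76) (nat_lit 1267868237026) (nat_lit 24) (nat_lit 5) (nat_lit 26) (nat_lit 5) (nat_lit 25) (nat_lit 4) (nat_lit 501) (nat_lit 464) (nat_lit 235)) (XT.nd (nat_lit 78) (nat_lit 0) (nat_lit 0) (XT.lf (nat_lit 0) (nat_lit 239990589909) (nat_lit 76) (nat_lit 1001972168236) (nat_lit 152) (nat_lit 2099764074146) (nat_lit 23) (nat_lit 5) (nat_lit 24) (nat_lit 5) (nat_lit 25) (nat_lit 4) (nat_lit 502) (nat_lit 464) (nat_lit 234)) (XT.lf (nat_lit 0) (nat_lit 2179221107714) (nat_lit 152) (nat_lit 1339278275019) (nat_lit 0) (nat_lit 9506338642) (nat_lit 23) (nat_lit 5) (nat_lit 25) (nat_lit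 4) (nat_lit 23) (nat_lit 4) (nat_lit 503) (nat_lit 464) (nat_lit 233))))))))
noncomputable def xc227 : XT := (XT.nd (nat_lit 59826) (nat_lit 0) (nat_lit 1748) (XT.nd (nat_lit 858) (nat_lit 228) (nat_lit 0) (XT.nd (nat_lit 390) (nat_lit 380) (nat_lit 0) (XT.nd (nat_lit 156) (nat_lit 152) (nat_lit 0) (XT.nd (nat_lit 78) (nat_lit 76) (nat_lit 0) (XT.lf (nat_lit 0) (nat_lit 566489154602) (nat_lit 76) (nat_lit 2664620296522) (nat_lit 76) (nat_lit 494905524393) (nat_lit 22) (nat_lit 4) (nat_lit 23) (nat_lit 5) (nat_lit 23) (nat_lit 4) (nat_lit 504) (nat_lit 464) (nat_lit 232)) (XT.lf (nat_lit 0) (nat_lit 443478782797) (nat_lit 152) (nat_lit 1247278906739) (nat_lit 76) (nat_lit 2245279636498) (nat_lit 21) (nat_lit 5) (nat_lit 23) (nat_lit 5) (nat_lit 22) (nat_lit 4) (nat_lit 505) (nat_lit 464) (nat_lit 231))) (XT.nd (nat_lit 78) (nat_lit 76) (nat_lit 0) (XT.lf (nat_lit 0) (nat_lit 847487840350)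 (nat_lit 76) (nat_lit 603090341346) (nat_lit 152) (nat_lit 2709624339771) (nat_lit 20) (nat_lit 5) (nat_lit 21) (nat_lit 5) (nat_lit 22) (nat_lit 4) (nat_lit 506) (nat_lit 464) (nat_lit 230)) (XT.nd (nat_lit 78) (nat_lit 76) (nat_lit 0) (XT.lf (nat_lit 0) (nat_lit 2586980895561) (nat_lit 152) (nat_lit 1233435479037) (nat_lit 0) (nat_lit 577985728891) (nat_lit 20) (nat_lit 5) (nat_lit 22) (nat_lit 4) (nat_lit 20) (nat_lit 4) (nat_lit 507) (nat_lit 464) (nat_lit 229)) (XT.lf (nat_lit 0) (nat_lit 1048996419359) (nat_lit 76) (nat_lit 2806192477904) (nat_lit 76) (nat_lit 797197309153) (nat_lit 19) (nat_lit 4) (nat_lit 20) (nat_lit 5) (nat_lit 20) (nat_lit 4) (nat_lit 508) (nat_lit 464) (nat_lit 228))))) (XT.nd (nat_lit 234) (nat_lit 228) (nat_lit 0) (XT.nd (nat_lit 78) (nat_lit 76) (nat_lit 0) (XT.lf (nat_lit 0) (nat_lit 317849370998) (nat_lit 152) (nat_lit 1347868479000) (nat_lit 76) (nat_lit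 3257629497272) (nat_lit 18) (nat_lit 5) (nat_lit 20) (nat_lit 5) (nat_lit 19) (nat_lit 4) (nat_lit 509) (nat_lit 464) (nat_lit 227)) (XT.nd (nat_lit 78) (nat_lit 0) (nat_lit 0) (XT.lf (nat_lit 0) (nat_lit 1123594871494) (nat_lit 76) (nat_lit 382458034252) (nat_lit 152) (nat_lit 3706114161252) (nat_lit 17) (nat_lit 5) (nat_lit 18) (nat_lit 5) (nat_lit 19) (nat_lit 4) (nat_lit 510) (nat_lit 464) (nat_lit 226)) (XT.lf (nat_lit 0) (nat_lit 2851256356328) (nat_lit 152) (nat_lit 1676804877774) (nat_lit 0) (nat_lit 991075639559) (nat_lit 17) (nat_lit 5) (nat_lit 19) (nat_lit 4) (nat_lit 17) (nat_lit 4) (nat_lit 511) (nat_lit 464) (nat_lit 225)))) (XT.nd (nat_lit 78) (nat_lit 152) (nat_lit 0) (XT.lf (nat_lit 0) (nat_lit 966308511455) (nat_lit 76) (nat_lit 3370941287167) (nat_lit 76) (nat_lit 1510760568982) (nat_lit 16) (nat_lit 4) (nat_lit 17) (nat_lit 5) (nat_lit 17) (nat_lit 4) (nat_lit 512)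 (nat_lit 464) (nat_lit 224)) (XT.nd (nat_lit 78) (nat_lit 152) (nat_lit 0) (XT.lf (nat_lit 0) (nat_lit 3916232346789) (nat_lit 76) (nat_lit 2071737184293) (nat_lit 76) (nat_lit 211556464797) (nat_lit 16) (nat_lit 4) (nat_lit 17) (nat_lit 5) (nat_lit 17) (nat_lit 4) (nat_lit 513) (nat_lit 464) (nat_lit 223)) (XT.lf (nat_lit 0) (nat_lit 520360107491) (nat_lit 76) (nat_lit 624130675297) (nat_lit 152) (nat_lit 5431378308097) (nat_lit 14) (nat_lit 5) (nat_lit 15) (nat_lit 5) (nat_lit 16) (nat_lit 4) (nat_lit 514) (nat_lit 464) (nat_lit 222)))))) (XT.nd (nat_lit 390) (nat_lit 0) (nat_lit 0) (XT.nd (nat_lit 156) (nat_lit 228) (nat_lit 0) (XT.nd (nat_lit 78) (nat_lit 0) (nat_lit 0) (XT.lf (nat_lit 0) (nat_lit 2684232910242) (nat_lit 152) (nat_lit 3328872520880) (nat_lit 0) (nat_lit 961843352989) (nat_lit 14) (nat_lit 5) (nat_lit 16) (nat_lit 4) (nat_lit 14) (nat_lit 4) (nat_lit 515) (nat_lit 464)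 (nat_lit 221)) (XT.lf (nat_lit 0) (nat_lit 4363365592400) (nat_lit 152) (nat_lit 400316331452) (nat_lit 0) (nat_lit 2640976034183) (nat_lit 14) (nat_lit 5) (nat_lit 16) (nat_lit 4) (nat_lit 14) (nat_lit 4) (nat_lit 516) (nat_lit 464) (nat_lit 220))) (XT.nd (nat_lit 78) (nat_lit 152) (nat_lit 0) (XT.lf (nat_lit 0) (nat_lit 2907993986328) (nat_lit 76) (nat_lit 3338772226384) (nat_lit 76) (nat_lit 1616382667275) (nat_lit 13) (nat_lit 4) (nat_lit 14) (nat_lit 5) (nat_lit 14) (nat_lit 4) (nat_lit 517) (nat_lit 464) (nat_lit 219)) (XT.nd (nat_lit 78) (nat_lit 152) (nat_lit 0) (XT.lf (nat_lit 0) (nat_lit 6503735470658) (nat_lit 76) (nat_lit 1788048768236) (nat_lit 76) (nat_lit 65659208302) (nat_lit 13) (nat_lit 4) (nat_lit 14) (nat_lit 5) (nat_lit 14) (nat_lit 4) (nat_lit 518) (nat_lit 464) (nat_lit 218)) (XT.lf (nat_lit 0) (nat_lit 1533886478848) (nat_lit 76) (nat_lit 31630847857) (nat_lit 152)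 (nat_lit 7319717098598) (nat_lit 11) (nat_lit 5) (nat_lit 12) (nat_lit 5) (nat_lit 13) (nat_lit 4) (nat_lit 519) (nat_lit 464) (nat_lit 217))))) (XT.nd (nat_lit 58344) (nat_lit 0) (nat_lit 3952) (XT.nd (nat_lit 58188) (nat_lit 0) (nat_lit 4408) (XT.lf (nat_lit 0) (nat_lit 3420501322137) (nat_lit 152) (nat_lit 4201165900893) (nat_lit 0) (nat_lit 1825696172685) (nat_lit 11) (nat_lit 5) (nat_lit 13) (nat_lit 4) (nat_lit 11) (nat_lit 4) (nat_lit 520) (nat_lit 464) (nat_lit 216)) (XT.nd (nat_lit 78) (nat_lit 0) (nat_lit 0) (XT.lf (nat_lit 0) (nat_lit 277212411539) (nat_lit 532) (nat_lit 12575784785) (nat_lit 532) (nat_lit 12575784785) (nat_lit 69) (nat_lit 3) (nat_lit 76) (nat_lit 3) (nat_lit 76) (nat_lit 5) (nat_lit 465) (nat_lit 465) (nat_lit 270)) (XT.lf (nat_lit 76) (nat_lit 285454803460) (nat_lit 0) (nat_lit 298012375366) (nat_lit 532) (nat_lit 44900672742) (nat_lit 70) (nat_lit 5) (nat_lit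 69) (nat_lit 3) (nat_lit 76) (nat_lit 5) (nat_lit 466) (nat_lit 465) (nat_lit 269)))) (XT.nd (nat_lit 78) (nat_lit 532) (nat_lit 0) (XT.lf (nat_lit 0) (nat_lit 615684603009) (nat_lit 456) (nat_lit 31667858060) (nat_lit 532) (nat_lit 6478336611) (nat_lit 70) (nat_lit 5) (nat_lit 76) (nat_lit 5) (nat_lit 77) (nat_lit 5) (nat_lit 467) (nat_lit 465) (nat_lit 268)) (XT.nd (nat_lit 78) (nat_lit 532) (nat_lit 0) (XT.lf (nat_lit 76) (nat_lit 312361966357) (nat_lit 0) (nat_lit 353370333146) (nat_lit 532) (nat_lit 14378249717) (nat_lit 71) (nat_lit 5) (nat_lit 70) (nat_lit 5) (nat_lit 77) (nat_lit 5) (nat_lit 468) (nat_lit 465) (nat_lit 267)) (XT.lf (nat_lit 0) (nat_lit 11614632769) (nat_lit 532) (nat_lit 23002309126) (nat_lit 608) (nat_lit 673782948438) (nat_lit 63) (nat_lit 5) (nat_lit 70) (nat_lit 5) (nat_lit 71) (nat_lit 5) (nat_lit 469) (nat_lit 465) (nat_lit 266))))))) (XT.nd (nat_lit 858)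 (nat_lit 1216) (nat_lit 0) (XT.nd (nat_lit 390) (nat_lit 684) (nat_lit 0) (XT.nd (nat_lit 156) (nat_lit 380) (nat_lit 0) (XT.nd (nat_lit 78) (nat_lit 0) (nat_lit 0) (XT.lf (nat_lit 0) (nat_lit 55430245347) (nat_lit 532) (nat_lit 378576404291) (nat_lit 608) (nat_lit 303594244347) (nat_lit 64) (nat_lit 5) (nat_lit 71) (nat_lit 5) (nat_lit 72) (nat_lit 5) (nat_lit 470) (nat_lit 465) (nat_lit 265)) (XT.lf (nat_lit 76) (nat_lit 3072122146) (nat_lit 0) (nat_lit 101297257242) (nat_lit 608) (nat_lit 664639136752) (nat_lit 65) (nat_lit 5) (nat_lit 64) (nat_lit 5) (nat_lit 72) (nat_lit 5) (nat_lit 471) (nat_lit 465) (nat_lit 264))) (XT.nd (nat_lit 78) (nat_lit 456) (nat_lit 0) (XT.lf (nat_lit 0) (nat_lit 174049038382) (nat_lit 532) (nat_lit 371792634271) (nat_lit 76) (nat_lit 255741043886) (nat_lit 65) (nat_lit 5) (nat_lit 72) (nat_lit 5) (nat_lit 66) (nat_lit 5) (nat_lit 472) (nat_lit 465) (nat_lit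 263)) (XT.nd (nat_lit 78) (nat_lit 0) (nat_lit 0) (XT.lf (nat_lit 0) (nat_lit 53950331930) (nat_lit 456) (nat_lit 199281331120) (nat_lit 532) (nat_lit 583216902487) (nat_lit 59) (nat_lit 5) (nat_lit 65) (nat_lit 5) (nat_lit 66) (nat_lit 5) (nat_lit 473) (nat_lit 465) (nat_lit 262)) (XT.lf (nat_lit 0) (nat_lit 353387241047) (nat_lit 532) (nat_lit 342866429014) (nat_lit 76) (nat_lit 176678944933) (nat_lit 59) (nat_lit 5) (nat_lit 66) (nat_lit 5) (nat_lit 60) (nat_lit 5) (nat_lit 474) (nat_lit 465) (nat_lit 261))))) (XT.nd (nat_lit 234) (nat_lit 228) (nat_lit 0) (XT.nd (nat_lit 78) (nat_lit 228) (nat_lit 0) (XT.lf (nat_lit 0) (nat_lit 133434715802) (nat_lit 228) (nat_lit 336505786062) (nat_lit 304) (nat_lit 441724067622) (nat_lit 56) (nat_lit 5) (nat_lit 59) (nat_lit 5) (nat_lit 60) (nat_lit 5) (nat_lit 475) (nat_lit 465) (nat_lit 260)) (XT.nd (nat_lit 78) (nat_lit 228) (nat_lit 0) (XT.lf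 (nat_lit 0) (nat_lit 606687213898) (nat_lit 304) (nat_lit 286900679611) (nat_lit 76) (nat_lit 59037651606) (nat_lit 56) (nat_lit 5) (nat_lit 60) (nat_lit 5) (nat_lit 57) (nat_lit 5) (nat_lit 476) (nat_lit 465) (nat_lit 259)) (XT.lf (nat_lit 0) (nat_lit 247368797212) (nat_lit 228) (nat_lit 521694492399) (nat_lit 304) (nat_lit 226624939050) (nat_lit 53) (nat_lit 5) (nat_lit 56) (nat_lit 5) (nat_lit 57) (nat_lit 5) (nat_lit 477) (nat_lit 465) (nat_lit 258)))) (XT.nd (nat_lit 78) (nat_lit 228) (nat_lit 0) (XT.lf (nat_lit 0) (nat_lit 840696118074) (nat_lit 228) (nat_lit 111577697903) (nat_lit 304) (nat_lit 89294561751) (nat_lit 53) (nat_lit 5) (nat_lit 56) (nat_lit 5) (nat_lit 57) (nat_lit 5) (nat_lit 478) (nat_lit 465) (nat_lit 257)) (XT.nd (nat_lit 78) (nat_lit 0) (nat_lit 0) (XT.lf (nat_lit 0) (nat_lit 74178141954) (nat_lit 228) (nat_lit 689046531475) (nat_lit 76) (nat_lit 326332032141) (nat_lit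 50) (nat_lit 5) (nat_lit 53) (nat_lit 5) (nat_lit 51) (nat_lit 5) (nat_lit 479) (nat_lit 465) (nat_lit 256)) (XT.lf (nat_lit 0) (nat_lit 254437408822) (nat_lit 228) (nat_lit 84877863329) (nat_lit 76) (nat_lit 801200642548) (nat_lit 50) (nat_lit 5) (nat_lit 53) (nat_lit 5) (nat_lit 51) (nat_lit 5) (nat_lit 480) (nat_lit 465) (nat_lit 255)))))) (XT.nd (nat_lit 468) (nat_lit 456) (nat_lit 0) (XT.nd (nat_lit 234) (nat_lit 380) (nat_lit 0) (XT.nd (nat_lit 78) (nat_lit 152) (nat_lit 0) (XT.lf (nat_lit 0) (nat_lit 466710991250) (nat_lit 304) (nat_lit 600111210307) (nat_lit 76) (nat_lit 127322173068) (nat_lit 47) (nat_lit 5) (nat_lit 51) (nat_lit 5) (nat_lit 48) (nat_lit 5) (nat_lit 481) (nat_lit 465) (nat_lit 254)) (XT.nd (nat_lit 78) (nat_lit 0) (nat_lit 0) (XT.lf (nat_lit 0) (nat_lit 75089298431) (nat_lit 152) (nat_lit 633877427526) (nat_lit 228) (nat_lit 542056364136) (nat_lit 45) (nat_lit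 5) (nat_lit 47) (nat_lit 5) (nat_lit 48) (nat_lit 5) (nat_lit 482) (nat_lit 465) (nat_lit 253)) (XT.lf (nat_lit 0) (nat_lit 838434694878) (nat_lit 152) (nat_lit 148576321974) (nat_lit 228) (nat_lit 324128438156) (nat_lit 45) (nat_lit 5) (nat_lit 47) (nat_lit 5) (nat_lit 48) (nat_lit 5) (nat_lit 483) (nat_lit 465) (nat_lit 252)))) (XT.nd (nat_lit 78) (nat_lit 228) (nat_lit 0) (XT.lf (nat_lit 0) (nat_lit 292376481231) (nat_lit 152) (nat_lit 1010985984456) (nat_lit 228) (nat_lit 71417574259) (nat_lit 43) (nat_lit 5) (nat_lit 45) (nat_lit 5) (nat_lit 46) (nat_lit 5) (nat_lit 484) (nat_lit 465) (nat_lit 251)) (XT.nd (nat_lit 78) (nat_lit 152) (nat_lit 0) (XT.lf (nat_lit 0) (nat_lit 208549213055) (nat_lit 228) (nat_lit 305971706388) (nat_lit 76) (nat_lit 927233693619) (nat_lit 42) (nat_lit 5) (nat_lit 45) (nat_lit 5) (nat_lit 43) (nat_lit 5) (nat_lit 485) (nat_lit 465) (nat_lit 250)) (XT.lf (nat_lit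 0) (nat_lit 521408998398) (nat_lit 228) (nat_lit 955115558515) (nat_lit 76) (nat_lit 36265870239) (nat_lit 40) (nat_lit 5) (nat_lit 43) (nat_lit 5) (nat_lit 41) (nat_lit 5) (nat_lit 486) (nat_lit 465) (nat_lit 249))))) (XT.nd (nat_lit 234) (nat_lit 228) (nat_lit 0) (XT.nd (nat_lit 78) (nat_lit 228) (nat_lit 0) (XT.lf (nat_lit 0) (nat_lit 881244843252) (nat_lit 228) (nat_lit 94607271988) (nat_lit 76) (nat_lit 611901208995) (nat_lit 40) (nat_lit 5) (nat_lit 43) (nat_lit 5) (nat_lit 41) (nat_lit 5) (nat_lit 487) (nat_lit 465) (nat_lit 248)) (XT.nd (nat_lit 78) (nat_lit 76) (nat_lit 0) (XT.lf (nat_lit 0) (nat_lit 878697686543) (nat_lit 152) (nat_lit 412302564594) (nat_lit 228) (nat_lit 376022386315) (nat_lit 38) (nat_lit 5) (nat_lit 40) (nat_lit 5) (nat_lit 41) (nat_lit 5) (nat_lit 488) (nat_lit 465) (nat_lit 247)) (XT.lf (nat_lit 0) (nat_lit 187406769528) (nat_lit 76) (nat_lit 1558012136857)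 (nat_lit 152) (nat_lit 6263964163) (nat_lit 37) (nat_lit 5) (nat_lit 38) (nat_lit 5) (nat_lit 39) (nat_lit 4) (nat_lit 489) (nat_lit 465) (nat_lit 246)))) (XT.nd (nat_lit 78) (nat_lit 152) (nat_lit 0) (XT.lf (nat_lit 0) (nat_lit 406235124918) (nat_lit 152) (nat_lit 576084301516) (nat_lit 76) (nat_lit 857414362294) (nat_lit 36) (nat_lit 5) (nat_lit 38) (nat_lit 5) (nat_lit 37) (nat_lit 5) (nat_lit 490) (nat_lit 465) (nat_lit 245)) (XT.nd (nat_lit 78) (nat_lit 0) (nat_lit 0) (XT.lf (nat_lit 0) (nat_lit 516855330995) (nat_lit 152) (nat_lit 346970771987) (nat_lit 228) (nat_lit 1069995231062) (nat_lit 34) (nat_lit 5) (nat_lit 36) (nat_lit 5) (nat_lit 37) (nat_lit 5) (nat_lit 491) (nat_lit 465) (nat_lit 244)) (XT.lf (nat_lit 0) (nat_lit 1382342548802) (nat_lit 228) (nat_lit 312750266774) (nat_lit 76) (nat_lit 338397612250) (nat_lit 34) (nat_lit 5) (nat_lit 37) (nat_lit 5) (nat_lit 35) (nat_lit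 4) (nat_lit 492) (nat_lit 465) (nat_lit 243))))))))
noncomputable def xc228 : XT := (XT.nd (nat_lit 1716) (nat_lit 380) (nat_lit 0) (XT.nd (nat_lit 858) (nat_lit 532) (nat_lit 0) (XT.nd (nat_lit 390) (nat_lit 456) (nat_lit 0) (XT.nd (nat_lit 156) (nat_lit 76) (nat_lit 0) (XT.nd (nat_lit 78) (nat_lit 228) (nat_lit 0) (XT.lf (nat_lit 0) (nat_lit 916644777733) (nat_lit 76) (nat_lit 1056753085244) (nat_lit 152) (nat_lit 165250581919) (nat_lit 33) (nat_lit 5) (nat_lit 34) (nat_lit 5) (nat_lit 35) (nat_lit 4) (nat_lit 493) (nat_lit 465) (nat_lit 242)) (XT.lf (nat_lit 0) (nat_lit 1867684814) (nat_lit 152) (nat_lit 348484410796) (nat_lit 228) (nat_lit 1900469839996) (nat_lit 30) (nat_lit 5) (nat_lit 32) (nat_lit 5) (nat_lit 33) (nat_lit 5) (nat_lit 494) (nat_lit 465) (nat_lit 241))) (XT.nd (nat_lit 78) (nat_lit 76) (nat_lit 0) (XT.lf (nat_lit 0) (nat_lit 942570273567) (nat_lit 228) (nat_lit 991326787708)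 (nat_lit 76) (nat_lit 434185257676) (nat_lit 30) (nat_lit 5) (nat_lit 33) (nat_lit 5) (nat_lit 31) (nat_lit 4) (nat_lit 495) (nat_lit 465) (nat_lit 240)) (XT.nd (nat_lit 78) (nat_lit 0) (nat_lit 0) (XT.lf (nat_lit 0) (nat_lit 376703560420) (nat_lit 76) (nat_lit 1223573614458) (nat_lit 152) (nat_lit 892997456558) (nat_lit 29) (nat_lit 5) (nat_lit 30) (nat_lit 5) (nat_lit 31) (nat_lit 4) (nat_lit 496) (nat_lit 465) (nat_lit 239)) (XT.lf (nat_lit 0) (nat_lit 1910553962760) (nat_lit 76) (nat_lit 427151293103) (nat_lit 152) (nat_lit 288608702851) (nat_lit 29) (nat_lit 5) (nat_lit 30) (nat_lit 5) (nat_lit 31) (nat_lit 4) (nat_lit 497) (nat_lit 465) (nat_lit 238))))) (XT.nd (nat_lit 234) (nat_lit 228) (nat_lit 0) (XT.nd (nat_lit 78) (nat_lit 76) (nat_lit 0) (XT.lf (nat_lit 0) (nat_lit 377033438566) (nat_lit 152) (nat_lit 1948986165461) (nat_lit 76) (nat_lit 440786830927) (nat_lit 27) (nat_lit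 5) (nat_lit 29) (nat_lit 5) (nat_lit 28) (nat_lit 4) (nat_lit 498) (nat_lit 465) (nat_lit 237)) (XT.nd (nat_lit 78) (nat_lit 76) (nat_lit 0) (XT.lf (nat_lit 0) (nat_lit 1111507882654) (nat_lit 152) (nat_lit 421279326608) (nat_lit 76) (nat_lit 1382657529825) (nat_lit 27) (nat_lit 5) (nat_lit 29) (nat_lit 5) (nat_lit 28) (nat_lit 4) (nat_lit 499) (nat_lit 465) (nat_lit 236)) (XT.lf (nat_lit 0) (nat_lit 1293342272136) (nat_lit 76) (nat_lit 642502919765) (nat_lit 152) (nat_lit 1137640522878) (nat_lit 26) (nat_lit 5) (nat_lit 27) (nat_lit 5) (nat_lit 28) (nat_lit 4) (nat_lit 500) (nat_lit 465) (nat_lit 235)))) (XT.nd (nat_lit 78) (nat_lit 228) (nat_lit 0) (XT.lf (nat_lit 0) (nat_lit 2845619245179) (nat_lit 152) (nat_lit 82127604072) (nat_lit 0) (nat_lit 314863938533) (nat_lit 26) (nat_lit 5) (nat_lit 28) (nat_lit 4) (nat_lit 26) (nat_lit 4) (nat_lit 501) (nat_lit 465) (nat_lit 234)) (XT.nd (nat_lit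 78) (nat_lit 76) (nat_lit 0) (XT.lf (nat_lit 0) (nat_lit 444942050336) (nat_lit 152) (nat_lit 1605275845510) (nat_lit 76) (nat_lit 1369297744246) (nat_lit 24) (nat_lit 5) (nat_lit 26) (nat_lit 5) (nat_lit 25) (nat_lit 4) (nat_lit 502) (nat_lit 465) (nat_lit 233)) (XT.lf (nat_lit 0) (nat_lit 259189947137) (nat_lit 76) (nat_lit 1082129889712) (nat_lit 152) (nat_lit 2267745137372) (nat_lit 23) (nat_lit 5) (nat_lit 24) (nat_lit 5) (nat_lit 25) (nat_lit 4) (nat_lit 503) (nat_lit 465) (nat_lit 232)))))) (XT.nd (nat_lit 390) (nat_lit 304) (nat_lit 0) (XT.nd (nat_lit 156) (nat_lit 152) (nat_lit 0) (XT.nd (nat_lit 78) (nat_lit 76) (nat_lit 0) (XT.lf (nat_lit 0) (nat_lit 2353558851242) (nat_lit 152) (nat_lit 1446420431986) (nat_lit 0) (nat_lit 10266891457) (nat_lit 23) (nat_lit 5) (nat_lit 25) (nat_lit 4) (nat_lit 23) (nat_lit 4) (nat_lit 504) (nat_lit 465) (nat_lit 231)) (XT.lf (nat_lit 0) (nat_lit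 611808389346) (nat_lit 76) (nat_lit 2877789871173) (nat_lit 76) (nat_lit 534497908768) (nat_lit 22) (nat_lit 4) (nat_lit 23) (nat_lit 5) (nat_lit 23) (nat_lit 4) (nat_lit 505) (nat_lit 465) (nat_lit 230))) (XT.nd (nat_lit 78) (nat_lit 76) (nat_lit 0) (XT.lf (nat_lit 0) (nat_lit 478957136066) (nat_lit 152) (nat_lit 1347061121813) (nat_lit 76) (nat_lit 2424902050181) (nat_lit 21) (nat_lit 5) (nat_lit 23) (nat_lit 5) (nat_lit 22) (nat_lit 4) (nat_lit 506) (nat_lit 465) (nat_lit 229)) (XT.nd (nat_lit 78) (nat_lit 0) (nat_lit 0) (XT.lf (nat_lit 0) (nat_lit 915286962576) (nat_lit 76) (nat_lit 651337522834) (nat_lit 152) (nat_lit 2926394233835) (nat_lit 20) (nat_lit 5) (nat_lit 21) (nat_lit 5) (nat_lit 22) (nat_lit 4) (nat_lit 507) (nat_lit 465) (nat_lit 228)) (XT.lf (nat_lit 0) (nat_lit 2793939413762) (nat_lit 152) (nat_lit 1332110226772) (nat_lit 0) (nat_lit 624224627505) (nat_lit 20) (nat_lit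 5) (nat_lit 22) (nat_lit 4) (nat_lit 20) (nat_lit 4) (nat_lit 508) (nat_lit 465) (nat_lit 227))))) (XT.nd (nat_lit 234) (nat_lit 76) (nat_lit 0) (XT.nd (nat_lit 78) (nat_lit 152) (nat_lit 0) (XT.lf (nat_lit 0) (nat_lit 1132916221203) (nat_lit 76) (nat_lit 3030687833072) (nat_lit 76) (nat_lit 860973045032) (nat_lit 19) (nat_lit 4) (nat_lit 20) (nat_lit 5) (nat_lit 20) (nat_lit 4) (nat_lit 509) (nat_lit 465) (nat_lit 226)) (XT.nd (nat_lit 78) (nat_lit 76) (nat_lit 0) (XT.lf (nat_lit 0) (nat_lit 343277363650) (nat_lit 152) (nat_lit 1455697873299) (nat_lit 76) (nat_lit 3518239894661) (nat_lit 18) (nat_lit 5) (nat_lit 20) (nat_lit 5) (nat_lit 19) (nat_lit 4) (nat_lit 510) (nat_lit 465) (nat_lit 225)) (XT.lf (nat_lit 0) (nat_lit 1213482543108) (nat_lit 76) (nat_lit 413054636857) (nat_lit 152) (nat_lit 4002603249049) (nat_lit 17) (nat_lit 5) (nat_lit 18) (nat_lit 5) (nat_lit 19) (nat_lit 4) (nat_lit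 511) (nat_lit 465) (nat_lit 224)))) (XT.nd (nat_lit 78) (nat_lit 76) (nat_lit 0) (XT.lf (nat_lit 0) (nat_lit 3079356904394) (nat_lit 152) (nat_lit 1810949189964) (nat_lit 0) (nat_lit 1070361726028) (nat_lit 17) (nat_lit 5) (nat_lit 19) (nat_lit 4) (nat_lit 17) (nat_lit 4) (nat_lit 512) (nat_lit 465) (nat_lit 223)) (XT.nd (nat_lit 78) (nat_lit 0) (nat_lit 0) (XT.lf (nat_lit 0) (nat_lit 1043613268427) (nat_lit 76) (nat_lit 3640616552542) (nat_lit 76) (nat_lit 1631621372962) (nat_lit 16) (nat_lit 4) (nat_lit 17) (nat_lit 5) (nat_lit 17) (nat_lit 4) (nat_lit 513) (nat_lit 465) (nat_lit 222)) (XT.lf (nat_lit 0) (nat_lit 4229531004954) (nat_lit 76) (nat_lit 2237476124224) (nat_lit 76) (nat_lit 228480943520) (nat_lit 16) (nat_lit 4) (nat_lit 17) (nat_lit 5) (nat_lit 17) (nat_lit 4) (nat_lit 514) (nat_lit 465) (nat_lit 221))))))) (XT.nd (nat_lit 59046) (nat_lit 0) (nat_lit 2736) (XT.nd (nat_lit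 390) (nat_lit 152) (nat_lit 0) (XT.nd (nat_lit 156) (nat_lit 76) (nat_lit 0) (XT.nd (nat_lit 78) (nat_lit 0) (nat_lit 0) (XT.lf (nat_lit 0) (nat_lit 561988986608) (nat_lit 76) (nat_lit 674061094330) (nat_lit 152) (nat_lit 5865888534374) (nat_lit 14) (nat_lit 5) (nat_lit 15) (nat_lit 5) (nat_lit 16) (nat_lit 4) (nat_lit 515) (nat_lit 465) (nat_lit 220)) (XT.lf (nat_lit 0) (nat_lit 2898971576736) (nat_lit 152) (nat_lit 3595182255402) (nat_lit 0) (nat_lit 1038790852007) (nat_lit 14) (nat_lit 5) (nat_lit 16) (nat_lit 4) (nat_lit 14) (nat_lit 4) (nat_lit 516) (nat_lit 465) (nat_lit 219))) (XT.nd (nat_lit 78) (nat_lit 76) (nat_lit 0) (XT.lf (nat_lit 0) (nat_lit 4712434870972) (nat_lit 152) (nat_lit 432341575794) (nat_lit 0) (nat_lit 2852254145416) (nat_lit 14) (nat_lit 5) (nat_lit 16) (nat_lit 4) (nat_lit 14) (nat_lit 4) (nat_lit 517) (nat_lit 465) (nat_lit 218)) (XT.nd (nat_lit 78) (nat_lit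 0) (nat_lit 0) (XT.lf (nat_lit 0) (nat_lit 3140633565835) (nat_lit 76) (nat_lit 3605873974222) (nat_lit 76) (nat_lit 1745693247902) (nat_lit 13) (nat_lit 4) (nat_lit 14) (nat_lit 5) (nat_lit 14) (nat_lit 4) (nat_lit 518) (nat_lit 465) (nat_lit 217)) (XT.lf (nat_lit 0) (nat_lit 7024034364422) (nat_lit 76) (nat_lit 1931092641665) (nat_lit 76) (nat_lit 70911914636) (nat_lit 13) (nat_lit 4) (nat_lit 14) (nat_lit 5) (nat_lit 14) (nat_lit 4) (nat_lit 519) (nat_lit 465) (nat_lit 216))))) (XT.nd (nat_lit 58422) (nat_lit 0) (nat_lit 3952) (XT.nd (nat_lit 58266) (nat_lit 0) (nat_lit 4408) (XT.lf (nat_lit 0) (nat_lit 1656597453327) (nat_lit 76) (nat_lit 34161287543) (nat_lit 152) (nat_lit 7905294436213) (nat_lit 11) (nat_lit 5) (nat_lit 12) (nat_lit 5) (nat_lit 13) (nat_lit 4) (nat_lit 520) (nat_lit 465) (nat_lit 215)) (XT.nd (nat_lit 78) (nat_lit 0) (nat_lit 0) (XT.lf (nat_lit 0) (nat_lit 299389568360)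 (nat_lit 532) (nat_lit 13581759008) (nat_lit 532) (nat_lit 13581759008) (nat_lit 69) (nat_lit 3) (nat_lit 76) (nat_lit 3) (nat_lit 76) (nat_lit 5) (nat_lit 466) (nat_lit 466) (nat_lit 268)) (XT.lf (nat_lit 76) (nat_lit 308291360372) (nat_lit 0) (nat_lit 321853500426) (nat_lit 532) (nat_lit 48492394079) (nat_lit 70) (nat_lit 5) (nat_lit 69) (nat_lit 3) (nat_lit 76) (nat_lit 5) (nat_lit 467) (nat_lit 466) (nat_lit 267)))) (XT.nd (nat_lit 78) (nat_lit 532) (nat_lit 0) (XT.lf (nat_lit 0) (nat_lit 664939653118) (nat_lit 456) (nat_lit 34201100871) (nat_lit 532) (nat_lit 6996484766) (nat_lit 70) (nat_lit 5) (nat_lit 76) (nat_lit 5) (nat_lit 77) (nat_lit 5) (nat_lit 468) (nat_lit 466) (nat_lit 266)) (XT.nd (nat_lit 78) (nat_lit 532) (nat_lit 0) (XT.lf (nat_lit 76) (nat_lit 337351104795) (nat_lit 0) (nat_lit 381640044014) (nat_lit 532) (nat_lit 15528222946) (nat_lit 71) (nat_lit 5) (nat_lit 70)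 (nat_lit 5) (nat_lit 77) (nat_lit 5) (nat_lit 469) (nat_lit 466) (nat_lit 265)) (XT.lf (nat_lit 0) (nat_lit 12544055617) (nat_lit 532) (nat_lit 24842312712) (nat_lit 608) (nat_lit 727685492903) (nat_lit 63) (nat_lit 5) (nat_lit 70) (nat_lit 5) (nat_lit 71) (nat_lit 5) (nat_lit 470) (nat_lit 466) (nat_lit 264)))))) (XT.nd (nat_lit 468) (nat_lit 684) (nat_lit 0) (XT.nd (nat_lit 234) (nat_lit 608) (nat_lit 0) (XT.nd (nat_lit 78) (nat_lit 0) (nat_lit 0) (XT.lf (nat_lit 0) (nat_lit 59864901291) (nat_lit 532) (nat_lit 408862319442) (nat_lit 608) (nat_lit 327881725727) (nat_lit 64) (nat_lit 5) (nat_lit 71) (nat_lit 5) (nat_lit 72) (nat_lit 5) (nat_lit 471) (nat_lit 466) (nat_lit 263)) (XT.nd (nat_lit 78) (nat_lit 0) (nat_lit 76) (XT.lf (nat_lit 76) (nat_lit 3318084118) (nat_lit 0) (nat_lit 109401069055) (nat_lit 608) (nat_lit 717810026255) (nat_lit 65) (nat_lit 5) (nat_lit 64) (nat_lit 5) (nat_lit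 72) (nat_lit 5) (nat_lit 472) (nat_lit 466) (nat_lit 262)) (XT.lf (nat_lit 0) (nat_lit 187973167639) (nat_lit 532) (nat_lit 401535849684) (nat_lit 76) (nat_lit 276200299924) (nat_lit 65) (nat_lit 5) (nat_lit 72) (nat_lit 5) (nat_lit 66) (nat_lit 5) (nat_lit 473) (nat_lit 466) (nat_lit 261)))) (XT.nd (nat_lit 78) (nat_lit 228) (nat_lit 0) (XT.lf (nat_lit 0) (nat_lit 58266548868) (nat_lit 456) (nat_lit 215223842719) (nat_lit 532) (nat_lit 629874043443) (nat_lit 59) (nat_lit 5) (nat_lit 65) (nat_lit 5) (nat_lit 66) (nat_lit 5) (nat_lit 474) (nat_lit 466) (nat_lit 260)) (XT.nd (nat_lit 78) (nat_lit 228) (nat_lit 0) (XT.lf (nat_lit 0) (nat_lit 381658401229) (nat_lit 532) (nat_lit 370295552357) (nat_lit 76) (nat_lit 190813256033) (nat_lit 59) (nat_lit 5) (nat_lit 66) (nat_lit 5) (nat_lit 60) (nat_lit 5) (nat_lit 475) (nat_lit 466) (nat_lit 259)) (XT.lf (nat_lit 0) (nat_lit 144109679209) (nat_lit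 228) (nat_lit 363426234779) (nat_lit 304) (nat_lit 477061807205) (nat_lit 56) (nat_lit 5) (nat_lit 59) (nat_lit 5) (nat_lit 60) (nat_lit 5) (nat_lit 476) (nat_lit 466) (nat_lit 258))))) (XT.nd (nat_lit 234) (nat_lit 456) (nat_lit 0) (XT.nd (nat_lit 78) (nat_lit 228) (nat_lit 0) (XT.lf (nat_lit 0) (nat_lit 655222350561) (nat_lit 304) (nat_lit 309852549114) (nat_lit 76) (nat_lit 63760676197) (nat_lit 56) (nat_lit 5) (nat_lit 60) (nat_lit 5) (nat_lit 57) (nat_lit 5) (nat_lit 477) (nat_lit 466) (nat_lit 257)) (XT.nd (nat_lit 78) (nat_lit 0) (nat_lit 0) (XT.lf (nat_lit 0) (nat_lit 267158481175) (nat_lit 228) (nat_lit 563430023672) (nat_lit 304) (nat_lit 244754769861) (nat_lit 53) (nat_lit 5) (nat_lit 56) (nat_lit 5) (nat_lit 57) (nat_lit 5) (nat_lit 478) (nat_lit 466) (nat_lit 256)) (XT.lf (nat_lit 0) (nat_lit 907951974358) (nat_lit 228) (nat_lit 120503887700) (nat_lit 304) (nat_lit 96437974550)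 (nat_lit 53) (nat_lit 5) (nat_lit 56) (nat_lit 5) (nat_lit 57) (nat_lit 5) (nat_lit 479) (nat_lit 466) (nat_lit 255)))) (XT.nd (nat_lit 78) (nat_lit 228) (nat_lit 0) (XT.lf (nat_lit 0) (nat_lit 80112532000) (nat_lit 228) (nat_lit 744170073569) (nat_lit 76) (nat_lit 352438625287) (nat_lit 50) (nat_lit 5) (nat_lit 53) (nat_lit 5) (nat_lit 51) (nat_lit 5) (nat_lit 480) (nat_lit 466) (nat_lit 254)) (XT.nd (nat_lit 78) (nat_lit 228) (nat_lit 0) (XT.lf (nat_lit 0) (nat_lit 274792529945) (nat_lit 228) (nat_lit 91667925336) (nat_lit 76) (nat_lit 865296722262) (nat_lit 50) (nat_lit 5) (nat_lit 53) (nat_lit 5) (nat_lit 51) (nat_lit 5) (nat_lit 481) (nat_lit 466) (nat_lit 253)) (XT.lf (nat_lit 0) (nat_lit 504047994333) (nat_lit 304) (nat_lit 648119935384) (nat_lit 76) (nat_lit 137507984921) (nat_lit 47) (nat_lit 5) (nat_lit 51) (nat_lit 5) (nat_lit 48) (nat_lit 5) (nat_lit 482) (nat_lit 466) (nat_lit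 252))))))))
noncomputable def xc229 : XT := (XT.nd (nat_lit 1716) (nat_lit 760) (nat_lit 0) (XT.nd (nat_lit 858) (nat_lit 836) (nat_lit 0) (XT.nd (nat_lit 390) (nat_lit 456) (nat_lit 0) (XT.nd (nat_lit 156) (nat_lit 380) (nat_lit 0) (XT.nd (nat_lit 78) (nat_lit 0) (nat_lit 0) (XT.lf (nat_lit 0) (nat_lit 81096609706) (nat_lit 152) (nat_lit 684587572967) (nat_lit 228) (nat_lit 585420745085) (nat_lit 45) (nat_lit 5) (nat_lit 47) (nat_lit 5) (nat_lit 48) (nat_lit 5) (nat_lit 483) (nat_lit 466) (nat_lit 251)) (XT.lf (nat_lit 0) (nat_lit 905509625469) (nat_lit 152) (nat_lit 160462382583) (nat_lit 228) (nat_lit 350058594522) (nat_lit 45) (nat_lit 5) (nat_lit 47) (nat_lit 5) (nat_lit 48) (nat_lit 5) (nat_lit 484) (nat_lit 466) (nat_lit 250))) (XT.nd (nat_lit 78) (nat_lit 228) (nat_lit 0) (XT.lf (nat_lit 0) (nat_lit 315766758360) (nat_lit 152) (nat_lit 1091864811117) (nat_lit 228) (nat_lit 77130865099)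 (nat_lit 43) (nat_lit 5) (nat_lit 45) (nat_lit 5) (nat_lit 46) (nat_lit 5) (nat_lit 485) (nat_lit 466) (nat_lit 249)) (XT.nd (nat_lit 78) (nat_lit 152) (nat_lit 0) (XT.lf (nat_lit 0) (nat_lit 225233251344) (nat_lit 228) (nat_lit 330449290651) (nat_lit 76) (nat_lit 1001412431976) (nat_lit 42) (nat_lit 5) (nat_lit 45) (nat_lit 5) (nat_lit 43) (nat_lit 5) (nat_lit 486) (nat_lit 466) (nat_lit 248)) (XT.lf (nat_lit 0) (nat_lit 563121816812) (nat_lit 228) (nat_lit 1031524648211) (nat_lit 76) (nat_lit 39167188384) (nat_lit 40) (nat_lit 5) (nat_lit 43) (nat_lit 5) (nat_lit 41) (nat_lit 5) (nat_lit 487) (nat_lit 466) (nat_lit 247))))) (XT.nd (nat_lit 234) (nat_lit 228) (nat_lit 0) (XT.nd (nat_lit 78) (nat_lit 228) (nat_lit 0) (XT.lf (nat_lit 0) (nat_lit 951744521954) (nat_lit 228) (nat_lit 102175710243) (nat_lit 76) (nat_lit 660853350646) (nat_lit 40) (nat_lit 5) (nat_lit 43) (nat_lit 5) (nat_lit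 41) (nat_lit 5) (nat_lit 488) (nat_lit 466) (nat_lit 246)) (XT.nd (nat_lit 78) (nat_lit 76) (nat_lit 0) (XT.lf (nat_lit 0) (nat_lit 948993641338) (nat_lit 152) (nat_lit 445286717737) (nat_lit 228) (nat_lit 406104082315) (nat_lit 38) (nat_lit 5) (nat_lit 40) (nat_lit 5) (nat_lit 41) (nat_lit 5) (nat_lit 489) (nat_lit 466) (nat_lit 245)) (XT.lf (nat_lit 0) (nat_lit 202399453081) (nat_lit 76) (nat_lit 1682653051729) (nat_lit 152) (nat_lit 6764988482) (nat_lit 37) (nat_lit 5) (nat_lit 38) (nat_lit 5) (nat_lit 39) (nat_lit 4) (nat_lit 490) (nat_lit 466) (nat_lit 244)))) (XT.nd (nat_lit 78) (nat_lit 152) (nat_lit 0) (XT.lf (nat_lit 0) (nat_lit 438734016551) (nat_lit 152) (nat_lit 622170909843) (nat_lit 76) (nat_lit 926007558877) (nat_lit 36) (nat_lit 5) (nat_lit 38) (nat_lit 5) (nat_lit 37) (nat_lit 5) (nat_lit 491) (nat_lit 466) (nat_lit 243)) (XT.nd (nat_lit 78) (nat_lit 0) (nat_lit 0) (XT.lf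 (nat_lit 0) (nat_lit 558203889832) (nat_lit 152) (nat_lit 374728380165) (nat_lit 228) (nat_lit 1155594764447) (nat_lit 34) (nat_lit 5) (nat_lit 36) (nat_lit 5) (nat_lit 37) (nat_lit 5) (nat_lit 492) (nat_lit 466) (nat_lit 242)) (XT.lf (nat_lit 0) (nat_lit 1492930026840) (nat_lit 228) (nat_lit 337770160900) (nat_lit 76) (nat_lit 365469468360) (nat_lit 34) (nat_lit 5) (nat_lit 37) (nat_lit 5) (nat_lit 35) (nat_lit 4) (nat_lit 493) (nat_lit 466) (nat_lit 241)))))) (XT.nd (nat_lit 390) (nat_lit 456) (nat_lit 0) (XT.nd (nat_lit 156) (nat_lit 76) (nat_lit 0) (XT.nd (nat_lit 78) (nat_lit 228) (nat_lit 0) (XT.lf (nat_lit 0) (nat_lit 989976483946) (nat_lit 76) (nat_lit 1141293279693) (nat_lit 152) (nat_lit 178470551099) (nat_lit 33) (nat_lit 5) (nat_lit 34) (nat_lit 5) (nat_lit 35) (nat_lit 4) (nat_lit 494) (nat_lit 466) (nat_lit 240)) (XT.lf (nat_lit 0) (nat_lit 2017224244) (nat_lit 152) (nat_lit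 376363110070) (nat_lit 228) (nat_lit 2052507350439) (nat_lit 30) (nat_lit 5) (nat_lit 32) (nat_lit 5) (nat_lit 33) (nat_lit 5) (nat_lit 495) (nat_lit 466) (nat_lit 239))) (XT.nd (nat_lit 78) (nat_lit 76) (nat_lit 0) (XT.lf (nat_lit 0) (nat_lit 1017975962439) (nat_lit 228) (nat_lit 1070632811227) (nat_lit 76) (nat_lit 468920125427) (nat_lit 30) (nat_lit 5) (nat_lit 33) (nat_lit 5) (nat_lit 31) (nat_lit 4) (nat_lit 496) (nat_lit 466) (nat_lit 238)) (XT.nd (nat_lit 78) (nat_lit 0) (nat_lit 0) (XT.lf (nat_lit 0) (nat_lit 406839961726) (nat_lit 76) (nat_lit 1321459451967) (nat_lit 152) (nat_lit 964437183057) (nat_lit 29) (nat_lit 5) (nat_lit 30) (nat_lit 5) (nat_lit 31) (nat_lit 4) (nat_lit 497) (nat_lit 466) (nat_lit 237)) (XT.lf (nat_lit 0) (nat_lit 2063398387625) (nat_lit 76) (nat_lit 461323348730) (nat_lit 152) (nat_lit 311697334242) (nat_lit 29) (nat_lit 5) (nat_lit 30) (nat_lit 5) (nat_lit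 31) (nat_lit 4) (nat_lit 498) (nat_lit 466) (nat_lit 236))))) (XT.nd (nat_lit 234) (nat_lit 228) (nat_lit 0) (XT.nd (nat_lit 78) (nat_lit 76) (nat_lit 0) (XT.lf (nat_lit 0) (nat_lit 407196174457) (nat_lit 152) (nat_lit 2104904946799) (nat_lit 76) (nat_lit 476049823619) (nat_lit 27) (nat_lit 5) (nat_lit 29) (nat_lit 5) (nat_lit 28) (nat_lit 4) (nat_lit 499) (nat_lit 466) (nat_lit 235)) (XT.nd (nat_lit 78) (nat_lit 76) (nat_lit 0) (XT.lf (nat_lit 0) (nat_lit 1200428569568) (nat_lit 152) (nat_lit 454981569127) (nat_lit 76) (nat_lit 1493270175004) (nat_lit 27) (nat_lit 5) (nat_lit 29) (nat_lit 5) (nat_lit 28) (nat_lit 4) (nat_lit 500) (nat_lit 466) (nat_lit 234)) (XT.lf (nat_lit 0) (nat_lit 1396809754894) (nat_lit 76) (nat_lit 693903106920) (nat_lit 152) (nat_lit 1228651705774) (nat_lit 26) (nat_lit 5) (nat_lit 27) (nat_lit 5) (nat_lit 28) (nat_lit 4) (nat_lit 501) (nat_lit 466) (nat_lit 233))))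 (XT.nd (nat_lit 78) (nat_lit 228) (nat_lit 0) (XT.lf (nat_lit 0) (nat_lit 3073268836346) (nat_lit 152) (nat_lit 88697715875) (nat_lit 0) (nat_lit 340053094453) (nat_lit 26) (nat_lit 5) (nat_lit 28) (nat_lit 4) (nat_lit 26) (nat_lit 4) (nat_lit 502) (nat_lit 466) (nat_lit 232)) (XT.nd (nat_lit 78) (nat_lit 76) (nat_lit 0) (XT.lf (nat_lit 0) (nat_lit 480537465665) (nat_lit 152) (nat_lit 1733697816363) (nat_lit 76) (nat_lit 1478841605159) (nat_lit 24) (nat_lit 5) (nat_lit 26) (nat_lit 5) (nat_lit 25) (nat_lit 4) (nat_lit 503) (nat_lit 466) (nat_lit 231)) (XT.lf (nat_lit 0) (nat_lit 279925237246) (nat_lit 76) (nat_lit 1168700236323) (nat_lit 152) (nat_lit 2449164694602) (nat_lit 23) (nat_lit 5) (nat_lit 24) (nat_lit 5) (nat_lit 25) (nat_lit 4) (nat_lit 504) (nat_lit 466) (nat_lit 230))))))) (XT.nd (nat_lit 858) (nat_lit 228) (nat_lit 0) (XT.nd (nat_lit 390) (nat_lit 304) (nat_lit 0) (XT.nd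 (nat_lit 156) (nat_lit 152) (nat_lit 0) (XT.nd (nat_lit 78) (nat_lit 76) (nat_lit 0) (XT.lf (nat_lit 0) (nat_lit 2541843606418) (nat_lit 152) (nat_lit 1562133976494) (nat_lit 0) (nat_lit 11088281975) (nat_lit 23) (nat_lit 5) (nat_lit 25) (nat_lit 4) (nat_lit 23) (nat_lit 4) (nat_lit 505) (nat_lit 466) (nat_lit 229)) (XT.lf (nat_lit 0) (nat_lit 660753148264) (nat_lit 76) (nat_lit 3108013018797) (nat_lit 76) (nat_lit 577257692107) (nat_lit 22) (nat_lit 4) (nat_lit 23) (nat_lit 5) (nat_lit 23) (nat_lit 4) (nat_lit 506) (nat_lit 466) (nat_lit 228))) (XT.nd (nat_lit 78) (nat_lit 76) (nat_lit 0) (XT.lf (nat_lit 0) (nat_lit 517273750371) (nat_lit 152) (nat_lit 1454825927997) (nat_lit 76) (nat_lit 2618894250857) (nat_lit 21) (nat_lit 5) (nat_lit 23) (nat_lit 5) (nat_lit 22) (nat_lit 4) (nat_lit 507) (nat_lit 466) (nat_lit 227)) (XT.nd (nat_lit 78) (nat_lit 0) (nat_lit 0) (XT.lf (nat_lit 0) (nat_lit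 988510001027) (nat_lit 76) (nat_lit 703444485377) (nat_lit 152) (nat_lit 3160505727001) (nat_lit 20) (nat_lit 5) (nat_lit 21) (nat_lit 5) (nat_lit 22) (nat_lit 4) (nat_lit 508) (nat_lit 466) (nat_lit 226)) (XT.lf (nat_lit 0) (nat_lit 3017454606777) (nat_lit 152) (nat_lit 1438678967249) (nat_lit 0) (nat_lit 674162632259) (nat_lit 20) (nat_lit 5) (nat_lit 22) (nat_lit 4) (nat_lit 20) (nat_lit 4) (nat_lit 509) (nat_lit 466) (nat_lit 225))))) (XT.nd (nat_lit 234) (nat_lit 76) (nat_lit 0) (XT.nd (nat_lit 78) (nat_lit 152) (nat_lit 0) (XT.lf (nat_lit 0) (nat_lit 1223549594598) (nat_lit 76) (nat_lit 3273142822797) (nat_lit 76) (nat_lit 929850846750) (nat_lit 19) (nat_lit 4) (nat_lit 20) (nat_lit 5) (nat_lit 20) (nat_lit 4) (nat_lit 510) (nat_lit 466) (nat_lit 224)) (XT.nd (nat_lit 78) (nat_lit 76) (nat_lit 0) (XT.lf (nat_lit 0) (nat_lit 370739589583) (nat_lit 152) (nat_lit 1572153631128) (nat_lit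 76) (nat_lit 3799699118477) (nat_lit 18) (nat_lit 5) (nat_lit 20) (nat_lit 5) (nat_lit 19) (nat_lit 4) (nat_lit 511) (nat_lit 466) (nat_lit 223)) (XT.lf (nat_lit 0) (nat_lit 1310561216768) (nat_lit 76) (nat_lit 446098973395) (nat_lit 152) (nat_lit 4322811470304) (nat_lit 17) (nat_lit 5) (nat_lit 18) (nat_lit 5) (nat_lit 19) (nat_lit 4) (nat_lit 512) (nat_lit 466) (nat_lit 222)))) (XT.nd (nat_lit 78) (nat_lit 76) (nat_lit 0) (XT.lf (nat_lit 0) (nat_lit 3325705490661) (nat_lit 152) (nat_lit 1955825058263) (nat_lit 0) (nat_lit 1155990694377) (nat_lit 17) (nat_lit 5) (nat_lit 19) (nat_lit 4) (nat_lit 17) (nat_lit 4) (nat_lit 513) (nat_lit 466) (nat_lit 221)) (XT.nd (nat_lit 78) (nat_lit 0) (nat_lit 0) (XT.lf (nat_lit 0) (nat_lit 1127102395107) (nat_lit 76) (nat_lit 3931865844512) (nat_lit 76) (nat_lit 1762151047188) (nat_lit 16) (nat_lit 4) (nat_lit 17) (nat_lit 5) (nat_lit 17) (nat_lit 4)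 (nat_lit 514) (nat_lit 466) (nat_lit 220)) (XT.lf (nat_lit 0) (nat_lit 4567893545725) (nat_lit 76) (nat_lit 2416474184316) (nat_lit 76) (nat_lit 246759386028) (nat_lit 16) (nat_lit 4) (nat_lit 17) (nat_lit 5) (nat_lit 17) (nat_lit 4) (nat_lit 515) (nat_lit 466) (nat_lit 219)))))) (XT.nd (nat_lit 58734) (nat_lit 0) (nat_lit 3800) (XT.nd (nat_lit 234) (nat_lit 76) (nat_lit 0) (XT.nd (nat_lit 78) (nat_lit 0) (nat_lit 0) (XT.lf (nat_lit 0) (nat_lit 606948165993) (nat_lit 76) (nat_lit 727985951878) (nat_lit 152) (nat_lit 6335159584227) (nat_lit 14) (nat_lit 5) (nat_lit 15) (nat_lit 5) (nat_lit 16) (nat_lit 4) (nat_lit 516) (nat_lit 466) (nat_lit 218)) (XT.nd (nat_lit 78) (nat_lit 0) (nat_lit 0) (XT.lf (nat_lit 0) (nat_lit 3130889331745) (nat_lit 152) (nat_lit 3882796778265) (nat_lit 0) (nat_lit 1121894146554) (nat_lit 14) (nat_lit 5) (nat_lit 16) (nat_lit 4) (nat_lit 14) (nat_lit 4) (nat_lit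 517) (nat_lit 466) (nat_lit 217)) (XT.lf (nat_lit 0) (nat_lit 5089429687381) (nat_lit 152) (nat_lit 466928848554) (nat_lit 0) (nat_lit 3080434501482) (nat_lit 14) (nat_lit 5) (nat_lit 16) (nat_lit 4) (nat_lit 14) (nat_lit 4) (nat_lit 518) (nat_lit 466) (nat_lit 216)))) (XT.nd (nat_lit 78) (nat_lit 0) (nat_lit 0) (XT.lf (nat_lit 0) (nat_lit 3391884303056) (nat_lit 76) (nat_lit 3894343866206) (nat_lit 76) (nat_lit 1885348679651) (nat_lit 13) (nat_lit 4) (nat_lit 14) (nat_lit 5) (nat_lit 14) (nat_lit 4) (nat_lit 519) (nat_lit 466) (nat_lit 215)) (XT.nd (nat_lit 58344) (nat_lit 0) (nat_lit 4256) (XT.lf (nat_lit 0) (nat_lit 7585957161682) (nat_lit 76) (nat_lit 2085580028966) (nat_lit 76) (nat_lit 76584841805) (nat_lit 13) (nat_lit 4) (nat_lit 14) (nat_lit 5) (nat_lit 14) (nat_lit 4) (nat_lit 520) (nat_lit 466) (nat_lit 214)) (XT.lf (nat_lit 0) (nat_lit 323340874344) (nat_lit 532) (nat_lit 14668223803)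 (nat_lit 532) (nat_lit 14668223803) (nat_lit 69) (nat_lit 3) (nat_lit 76) (nat_lit 3) (nat_lit 76) (nat_lit 5) (nat_lit 467) (nat_lit 467) (nat_lit 266))))) (XT.nd (nat_lit 234) (nat_lit 456) (nat_lit 0) (XT.nd (nat_lit 78) (nat_lit 0) (nat_lit 76) (XT.lf (nat_lit 76) (nat_lit 332954817208) (nat_lit 0) (nat_lit 347601896226) (nat_lit 532) (nat_lit 52371500555) (nat_lit 70) (nat_lit 5) (nat_lit 69) (nat_lit 3) (nat_lit 76) (nat_lit 5) (nat_lit 468) (nat_lit 467) (nat_lit 265)) (XT.nd (nat_lit 78) (nat_lit 0) (nat_lit 0) (XT.lf (nat_lit 0) (nat_lit 718135067024) (nat_lit 456) (nat_lit 36937029619) (nat_lit 532) (nat_lit 7556101719) (nat_lit 70) (nat_lit 5) (nat_lit 76) (nat_lit 5) (nat_lit 77) (nat_lit 5) (nat_lit 469) (nat_lit 467) (nat_lit 264)) (XT.lf (nat_lit 76) (nat_lit 364339348467) (nat_lit 0) (nat_lit 412171319737) (nat_lit 532) (nat_lit 16770234942) (nat_lit 71) (nat_lit 5) (nat_lit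 70) (nat_lit 5) (nat_lit 77) (nat_lit 5) (nat_lit 470) (nat_lit 467) (nat_lit 263)))) (XT.nd (nat_lit 78) (nat_lit 0) (nat_lit 76) (XT.lf (nat_lit 0) (nat_lit 13547796309) (nat_lit 532) (nat_lit 26829542428) (nat_lit 608) (nat_lit 785900253965) (nat_lit 63) (nat_lit 5) (nat_lit 70) (nat_lit 5) (nat_lit 71) (nat_lit 5) (nat_lit 471) (nat_lit 467) (nat_lit 262)) (XT.nd (nat_lit 78) (nat_lit 0) (nat_lit 0) (XT.lf (nat_lit 0) (nat_lit 64654295997) (nat_lit 532) (nat_lit 441571135936) (nat_lit 608) (nat_lit 354112213916) (nat_lit 64) (nat_lit 5) (nat_lit 71) (nat_lit 5) (nat_lit 72) (nat_lit 5) (nat_lit 472) (nat_lit 467) (nat_lit 261)) (XT.lf (nat_lit 76) (nat_lit 3583695629) (nat_lit 0) (nat_lit 118153181357) (nat_lit 608) (nat_lit 775234621363) (nat_lit 65) (nat_lit 5) (nat_lit 64) (nat_lit 5) (nat_lit 72) (nat_lit 5) (nat_lit 473) (nat_lit 467) (nat_lit 260))))))))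
noncomputable def xc230 : XT := (XT.nd (nat_lit 1716) (nat_lit 1444) (nat_lit 0) (XT.nd (nat_lit 858) (nat_lit 912) (nat_lit 0) (XT.nd (nat_lit 390) (nat_lit 836) (nat_lit 0) (XT.nd (nat_lit 156) (nat_lit 228) (nat_lit 0) (XT.nd (nat_lit 78) (nat_lit 456) (nat_lit 0) (XT.lf (nat_lit 0) (nat_lit 203011197823) (nat_lit 532) (nat_lit 433658550196) (nat_lit 76) (nat_lit 298296300364) (nat_lit 65) (nat_lit 5) (nat_lit 72) (nat_lit 5) (nat_lit 66) (nat_lit 5) (nat_lit 474) (nat_lit 467) (nat_lit 259)) (XT.lf (nat_lit 0) (nat_lit 62928036001) (nat_lit 456) (nat_lit 232441754517) (nat_lit 532) (nat_lit 680263785812) (nat_lit 59) (nat_lit 5) (nat_lit 65) (nat_lit 5) (nat_lit 66) (nat_lit 5) (nat_lit 475) (nat_lit 467) (nat_lit 258))) (XT.nd (nat_lit 78) (nat_lit 228) (nat_lit 0) (XT.lf (nat_lit 0) (nat_lit 412191228418) (nat_lit 532) (nat_lit 399919032813) (nat_lit 76) (nat_lit 206078312663) (nat_lit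 59) (nat_lit 5) (nat_lit 66) (nat_lit 5) (nat_lit 60) (nat_lit 5) (nat_lit 476) (nat_lit 467) (nat_lit 257)) (XT.nd (nat_lit 78) (nat_lit 0) (nat_lit 0) (XT.lf (nat_lit 0) (nat_lit 155638613133) (nat_lit 228) (nat_lit 392500321414) (nat_lit 304) (nat_lit 515226592464) (nat_lit 56) (nat_lit 5) (nat_lit 59) (nat_lit 5) (nat_lit 60) (nat_lit 5) (nat_lit 477) (nat_lit 467) (nat_lit 256)) (XT.lf (nat_lit 0) (nat_lit 707640275396) (nat_lit 304) (nat_lit 334640594551) (nat_lit 76) (nat_lit 68861540977) (nat_lit 56) (nat_lit 5) (nat_lit 60) (nat_lit 5) (nat_lit 57) (nat_lit 5) (nat_lit 478) (nat_lit 467) (nat_lit 255))))) (XT.nd (nat_lit 234) (nat_lit 380) (nat_lit 0) (XT.nd (nat_lit 78) (nat_lit 228) (nat_lit 0) (XT.lf (nat_lit 0) (nat_lit 288531314149) (nat_lit 228) (nat_lit 608504401458) (nat_lit 304) (nat_lit 264335010578) (nat_lit 53) (nat_lit 5) (nat_lit 56) (nat_lit 5) (nat_lit 57) (nat_lit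 5) (nat_lit 479) (nat_lit 467) (nat_lit 254)) (XT.nd (nat_lit 78) (nat_lit 228) (nat_lit 0) (XT.lf (nat_lit 0) (nat_lit 980588275343) (nat_lit 228) (nat_lit 130144176394) (nat_lit 304) (nat_lit 104152882077) (nat_lit 53) (nat_lit 5) (nat_lit 56) (nat_lit 5) (nat_lit 57) (nat_lit 5) (nat_lit 480) (nat_lit 467) (nat_lit 253)) (XT.lf (nat_lit 0) (nat_lit 86521653465) (nat_lit 228) (nat_lit 803703524770) (nat_lit 76) (nat_lit 380633741523) (nat_lit 50) (nat_lit 5) (nat_lit 53) (nat_lit 5) (nat_lit 51) (nat_lit 5) (nat_lit 481) (nat_lit 467) (nat_lit 252)))) (XT.nd (nat_lit 78) (nat_lit 380) (nat_lit 0) (XT.lf (nat_lit 0) (nat_lit 296776042437) (nat_lit 228) (nat_lit 99001216136) (nat_lit 76) (nat_lit 934520484314) (nat_lit 50) (nat_lit 5) (nat_lit 53) (nat_lit 5) (nat_lit 51) (nat_lit 5) (nat_lit 482) (nat_lit 467) (nat_lit 251)) (XT.nd (nat_lit 78) (nat_lit 152) (nat_lit 0) (XT.lf (nat_lit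 0) (nat_lit 544371940003) (nat_lit 304) (nat_lit 699969382968) (nat_lit 76) (nat_lit 148508656301) (nat_lit 47) (nat_lit 5) (nat_lit 51) (nat_lit 5) (nat_lit 48) (nat_lit 5) (nat_lit 483) (nat_lit 467) (nat_lit 250)) (XT.lf (nat_lit 0) (nat_lit 87584482002) (nat_lit 152) (nat_lit 739354537000) (nat_lit 228) (nat_lit 632254294797) (nat_lit 45) (nat_lit 5) (nat_lit 47) (nat_lit 5) (nat_lit 48) (nat_lit 5) (nat_lit 484) (nat_lit 467) (nat_lit 249)))))) (XT.nd (nat_lit 390) (nat_lit 532) (nat_lit 0) (XT.nd (nat_lit 156) (nat_lit 228) (nat_lit 0) (XT.nd (nat_lit 78) (nat_lit 152) (nat_lit 0) (XT.lf (nat_lit 0) (nat_lit 977950528394) (nat_lit 152) (nat_lit 173299334482) (nat_lit 228) (nat_lit 378063180329) (nat_lit 45) (nat_lit 5) (nat_lit 47) (nat_lit 5) (nat_lit 48) (nat_lit 5) (nat_lit 485) (nat_lit 467) (nat_lit 248)) (XT.lf (nat_lit 0) (nat_lit 341028235028) (nat_lit 152) (nat_lit 1179213951343)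 (nat_lit 228) (nat_lit 83301235626) (nat_lit 43) (nat_lit 5) (nat_lit 45) (nat_lit 5) (nat_lit 46) (nat_lit 5) (nat_lit 486) (nat_lit 467) (nat_lit 247))) (XT.nd (nat_lit 78) (nat_lit 152) (nat_lit 0) (XT.lf (nat_lit 0) (nat_lit 243251998252) (nat_lit 228) (nat_lit 356885103375) (nat_lit 76) (nat_lit 1081525463286) (nat_lit 42) (nat_lit 5) (nat_lit 45) (nat_lit 5) (nat_lit 43) (nat_lit 5) (nat_lit 487) (nat_lit 467) (nat_lit 246)) (XT.nd (nat_lit 78) (nat_lit 0) (nat_lit 0) (XT.lf (nat_lit 0) (nat_lit 608171646640) (nat_lit 228) (nat_lit 1114046487193) (nat_lit 76) (nat_lit 42300605057) (nat_lit 40) (nat_lit 5) (nat_lit 43) (nat_lit 5) (nat_lit 41) (nat_lit 5) (nat_lit 488) (nat_lit 467) (nat_lit 245)) (XT.lf (nat_lit 0) (nat_lit 1027884161936) (nat_lit 228) (nat_lit 110349644030) (nat_lit 76) (nat_lit 713721657219) (nat_lit 40) (nat_lit 5) (nat_lit 43) (nat_lit 5) (nat_lit 41) (nat_lit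 5) (nat_lit 489) (nat_lit 467) (nat_lit 244))))) (XT.nd (nat_lit 234) (nat_lit 228) (nat_lit 0) (XT.nd (nat_lit 78) (nat_lit 152) (nat_lit 0) (XT.lf (nat_lit 0) (nat_lit 1024913252562) (nat_lit 152) (nat_lit 480909610554) (nat_lit 228) (nat_lit 438592327535) (nat_lit 38) (nat_lit 5) (nat_lit 40) (nat_lit 5) (nat_lit 41) (nat_lit 5) (nat_lit 490) (nat_lit 467) (nat_lit 243)) (XT.nd (nat_lit 78) (nat_lit 76) (nat_lit 0) (XT.lf (nat_lit 0) (nat_lit 218591531061) (nat_lit 76) (nat_lit 1817265247791) (nat_lit 152) (nat_lit 7306107987) (nat_lit 37) (nat_lit 5) (nat_lit 38) (nat_lit 5) (nat_lit 39) (nat_lit 4) (nat_lit 491) (nat_lit 467) (nat_lit 242)) (XT.lf (nat_lit 0) (nat_lit 473832807869) (nat_lit 152) (nat_lit 671944466208) (nat_lit 76) (nat_lit 1000088204397) (nat_lit 36) (nat_lit 5) (nat_lit 38) (nat_lit 5) (nat_lit 37) (nat_lit 5) (nat_lit 492) (nat_lit 467) (nat_lit 241)))) (XT.nd (nat_lit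 78) (nat_lit 76) (nat_lit 0) (XT.lf (nat_lit 0) (nat_lit 602860314493) (nat_lit 152) (nat_lit 404706604641) (nat_lit 228) (nat_lit 1248042272643) (nat_lit 34) (nat_lit 5) (nat_lit 36) (nat_lit 5) (nat_lit 37) (nat_lit 5) (nat_lit 493) (nat_lit 467) (nat_lit 240)) (XT.nd (nat_lit 78) (nat_lit 76) (nat_lit 0) (XT.lf (nat_lit 0) (nat_lit 1612364492545) (nat_lit 228) (nat_lit 364791664706) (nat_lit 76) (nat_lit 394707066236) (nat_lit 34) (nat_lit 5) (nat_lit 37) (nat_lit 5) (nat_lit 35) (nat_lit 4) (nat_lit 494) (nat_lit 467) (nat_lit 239)) (XT.lf (nat_lit 0) (nat_lit 1069174708967) (nat_lit 76) (nat_lit 1232596697170) (nat_lit 152) (nat_lit 192748128852) (nat_lit 33) (nat_lit 5) (nat_lit 34) (nat_lit 5) (nat_lit 35) (nat_lit 4) (nat_lit 495) (nat_lit 467) (nat_lit 238))))))) (XT.nd (nat_lit 858) (nat_lit 684) (nat_lit 0) (XT.nd (nat_lit 390) (nat_lit 304) (nat_lit 0) (XT.nd (nat_lit 156) (nat_lit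 228) (nat_lit 0) (XT.nd (nat_lit 78) (nat_lit 0) (nat_lit 0) (XT.lf (nat_lit 0) (nat_lit 2178709047) (nat_lit 152) (nat_lit 406472112932) (nat_lit 228) (nat_lit 2216707872668) (nat_lit 30) (nat_lit 5) (nat_lit 32) (nat_lit 5) (nat_lit 33) (nat_lit 5) (nat_lit 496) (nat_lit 467) (nat_lit 237)) (XT.lf (nat_lit 0) (nat_lit 1099414096863) (nat_lit 228) (nat_lit 1156283333676) (nat_lit 76) (nat_lit 506433775875) (nat_lit 30) (nat_lit 5) (nat_lit 33) (nat_lit 5) (nat_lit 31) (nat_lit 4) (nat_lit 497) (nat_lit 467) (nat_lit 236))) (XT.nd (nat_lit 78) (nat_lit 152) (nat_lit 0) (XT.lf (nat_lit 0) (nat_lit 439387258520) (nat_lit 76) (nat_lit 1427176163846) (nat_lit 152) (nat_lit 1041592097667) (nat_lit 29) (nat_lit 5) (nat_lit 30) (nat_lit 5) (nat_lit 31) (nat_lit 4) (nat_lit 498) (nat_lit 467) (nat_lit 235)) (XT.nd (nat_lit 78) (nat_lit 152) (nat_lit 0) (XT.lf (nat_lit 0) (nat_lit 2228470351094)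 (nat_lit 76) (nat_lit 498229175630) (nat_lit 152) (nat_lit 336633065393) (nat_lit 29) (nat_lit 5) (nat_lit 30) (nat_lit 5) (nat_lit 31) (nat_lit 4) (nat_lit 499) (nat_lit 467) (nat_lit 234)) (XT.lf (nat_lit 0) (nat_lit 439771920545) (nat_lit 152) (nat_lit 2273297246608) (nat_lit 76) (nat_lit 514133849132) (nat_lit 27) (nat_lit 5) (nat_lit 29) (nat_lit 5) (nat_lit 28) (nat_lit 4) (nat_lit 500) (nat_lit 467) (nat_lit 233))))) (XT.nd (nat_lit 234) (nat_lit 228) (nat_lit 0) (XT.nd (nat_lit 78) (nat_lit 76) (nat_lit 0) (XT.lf (nat_lit 0) (nat_lit 1296462903403) (nat_lit 152) (nat_lit 491380005828) (nat_lit 76) (nat_lit 1612731825693) (nat_lit 27) (nat_lit 5) (nat_lit 29) (nat_lit 5) (nat_lit 28) (nat_lit 4) (nat_lit 501) (nat_lit 467) (nat_lit 232)) (XT.nd (nat_lit 78) (nat_lit 0) (nat_lit 0) (XT.lf (nat_lit 0) (nat_lit 1508554621865) (nat_lit 76) (nat_lit 749415315670) (nat_lit 152) (nat_lit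 1326943791709) (nat_lit 26) (nat_lit 5) (nat_lit 27) (nat_lit 5) (nat_lit 28) (nat_lit 4) (nat_lit 502) (nat_lit 467) (nat_lit 231)) (XT.lf (nat_lit 0) (nat_lit 3319130387452) (nat_lit 152) (nat_lit 95793450392) (nat_lit 0) (nat_lit 367257377021) (nat_lit 26) (nat_lit 5) (nat_lit 28) (nat_lit 4) (nat_lit 26) (nat_lit 4) (nat_lit 503) (nat_lit 467) (nat_lit 230)))) (XT.nd (nat_lit 78) (nat_lit 76) (nat_lit 0) (XT.lf (nat_lit 0) (nat_lit 518980506903) (nat_lit 152) (nat_lit 1872393558692) (nat_lit 76) (nat_lit 1597148969043) (nat_lit 24) (nat_lit 5) (nat_lit 26) (nat_lit 5) (nat_lit 25) (nat_lit 4) (nat_lit 504) (nat_lit 467) (nat_lit 229)) (XT.nd (nat_lit 78) (nat_lit 0) (nat_lit 0) (XT.lf (nat_lit 0) (nat_lit 302319337105) (nat_lit 76) (nat_lit 1262196217020) (nat_lit 152) (nat_lit 2645097824079) (nat_lit 23) (nat_lit 5) (nat_lit 24) (nat_lit 5) (nat_lit 25) (nat_lit 4) (nat_lit 505) (nat_lit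 467) (nat_lit 228)) (XT.lf (nat_lit 0) (nat_lit 2745191135292) (nat_lit 152) (nat_lit 1687104617410) (nat_lit 0) (nat_lit 11975378141) (nat_lit 23) (nat_lit 5) (nat_lit 25) (nat_lit 4) (nat_lit 23) (nat_lit 4) (nat_lit 506) (nat_lit 467) (nat_lit 227)))))) (XT.nd (nat_lit 468) (nat_lit 304) (nat_lit 0) (XT.nd (nat_lit 234) (nat_lit 152) (nat_lit 0) (XT.nd (nat_lit 78) (nat_lit 152) (nat_lit 0) (XT.lf (nat_lit 0) (nat_lit 713613475374) (nat_lit 76) (nat_lit 3356654024232) (nat_lit 76) (nat_lit 623438265155) (nat_lit 22) (nat_lit 4) (nat_lit 23) (nat_lit 5) (nat_lit 23) (nat_lit 4) (nat_lit 507) (nat_lit 467) (nat_lit 226)) (XT.nd (nat_lit 78) (nat_lit 76) (nat_lit 0) (XT.lf (nat_lit 0) (nat_lit 558655687626) (nat_lit 152) (nat_lit 1571211930597) (nat_lit 76) (nat_lit 2828405822358) (nat_lit 21) (nat_lit 5) (nat_lit 23) (nat_lit 5) (nat_lit 22) (nat_lit 4) (nat_lit 508) (nat_lit 467) (nat_lit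 225)) (XT.lf (nat_lit 0) (nat_lit 1067590870935) (nat_lit 76) (nat_lit 759720010529) (nat_lit 152) (nat_lit 3413346146118) (nat_lit 20) (nat_lit 5) (nat_lit 21) (nat_lit 5) (nat_lit 22) (nat_lit 4) (nat_lit 509) (nat_lit 467) (nat_lit 224)))) (XT.nd (nat_lit 78) (nat_lit 152) (nat_lit 0) (XT.lf (nat_lit 0) (nat_lit 3258851009539) (nat_lit 152) (nat_lit 1553773218044) (nat_lit 0) (nat_lit 728095672464) (nat_lit 20) (nat_lit 5) (nat_lit 22) (nat_lit 4) (nat_lit 20) (nat_lit 4) (nat_lit 510) (nat_lit 467) (nat_lit 223)) (XT.nd (nat_lit 78) (nat_lit 76) (nat_lit 0) (XT.lf (nat_lit 0) (nat_lit 1321433627065) (nat_lit 76) (nat_lit 3534994216967) (nat_lit 76) (nat_lit 1004238878581) (nat_lit 19) (nat_lit 4) (nat_lit 20) (nat_lit 5) (nat_lit 20) (nat_lit 4) (nat_lit 511) (nat_lit 467) (nat_lit 222)) (XT.lf (nat_lit 0) (nat_lit 400398788336) (nat_lit 152) (nat_lit 1697925859859) (nat_lit 76) (nat_lit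 4103675075598) (nat_lit 18) (nat_lit 5) (nat_lit 20) (nat_lit 5) (nat_lit 19) (nat_lit 4) (nat_lit 512) (nat_lit 467) (nat_lit 221))))) (XT.nd (nat_lit 234) (nat_lit 152) (nat_lit 0) (XT.nd (nat_lit 78) (nat_lit 76) (nat_lit 0) (XT.lf (nat_lit 0) (nat_lit 1415406174304) (nat_lit 76) (nat_lit 481786861766) (nat_lit 152) (nat_lit 4668636354777) (nat_lit 17) (nat_lit 5) (nat_lit 18) (nat_lit 5) (nat_lit 19) (nat_lit 4) (nat_lit 513) (nat_lit 467) (nat_lit 220)) (XT.nd (nat_lit 78) (nat_lit 76) (nat_lit 0) (XT.lf (nat_lit 0) (nat_lit 3591761958991) (nat_lit 152) (nat_lit 2112291005568) (nat_lit 0) (nat_lit 1248469975877) (nat_lit 17) (nat_lit 5) (nat_lit 19) (nat_lit 4) (nat_lit 17) (nat_lit 4) (nat_lit 514) (nat_lit 467) (nat_lit 219)) (XT.lf (nat_lit 0) (nat_lit 1217270642619) (nat_lit 76) (nat_lit 4246415084438) (nat_lit 76) (nat_lit 1903123100431) (nat_lit 16) (nat_lit 4) (nat_lit 17) (nat_lit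 5) (nat_lit 17) (nat_lit 4) (nat_lit 515) (nat_lit 467) (nat_lit 218)))) (XT.nd (nat_lit 78) (nat_lit 152) (nat_lit 0) (XT.lf (nat_lit 0) (nat_lit 4933325081146) (nat_lit 76) (nat_lit 2609792093473) (nat_lit 76) (nat_lit 266500108641) (nat_lit 16) (nat_lit 4) (nat_lit 17) (nat_lit 5) (nat_lit 17) (nat_lit 4) (nat_lit 516) (nat_lit 467) (nat_lit 217)) (XT.nd (nat_lit 78) (nat_lit 0) (nat_lit 0) (XT.lf (nat_lit 0) (nat_lit 655504071105) (nat_lit 76) (nat_lit 786224802309) (nat_lit 152) (nat_lit 6841972322761) (nat_lit 14) (nat_lit 5) (nat_lit 15) (nat_lit 5) (nat_lit 16) (nat_lit 4) (nat_lit 517) (nat_lit 467) (nat_lit 216)) (XT.lf (nat_lit 0) (nat_lit 3381360503036) (nat_lit 152) (nat_lit 4193420471171) (nat_lit 0) (nat_lit 1211645700901) (nat_lit 14) (nat_lit 5) (nat_lit 16) (nat_lit 4) (nat_lit 14) (nat_lit 4) (nat_lit 518) (nat_lit 467) (nat_lit 215))))))))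
noncomputable def xc231 : XT := (XT.nd (nat_lit 60060) (nat_lit 0) (nat_lit 532) (XT.nd (nat_lit 59202) (nat_lit 0) (nat_lit 2280) (XT.nd (nat_lit 58734) (nat_lit 0) (nat_lit 3496) (XT.nd (nat_lit 58500) (nat_lit 0) (nat_lit 4256) (XT.nd (nat_lit 78) (nat_lit 76) (nat_lit 0) (XT.lf (nat_lit 0) (nat_lit 5496584085289) (nat_lit 152) (nat_lit 504283110738) (nat_lit 0) (nat_lit 3326869282548) (nat_lit 14) (nat_lit 5) (nat_lit 16) (nat_lit 4) (nat_lit 14) (nat_lit 4) (nat_lit 519) (nat_lit 467) (nat_lit 214)) (XT.lf (nat_lit 0) (nat_lit 3663235091844) (nat_lit 76) (nat_lit 4205891353251) (nat_lit 76) (nat_lit 2036176549947) (nat_lit 13) (nat_lit 4) (nat_lit 14) (nat_lit 5) (nat_lit 14) (nat_lit 4) (nat_lit 520) (nat_lit 467) (nat_lit 213))) (XT.nd (nat_lit 78) (nat_lit 0) (nat_lit 0) (XT.lf (nat_lit 0) (nat_lit 349208264761) (nat_lit 532) (nat_lit 15841616613) (nat_lit 532) (nat_lit 15841616613)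 (nat_lit 69) (nat_lit 3) (nat_lit 76) (nat_lit 3) (nat_lit 76) (nat_lit 5) (nat_lit 468) (nat_lit 468) (nat_lit 264)) (XT.nd (nat_lit 78) (nat_lit 0) (nat_lit 76) (XT.lf (nat_lit 76) (nat_lit 359591329477) (nat_lit 0) (nat_lit 375410147176) (nat_lit 532) (nat_lit 56560976215) (nat_lit 70) (nat_lit 5) (nat_lit 69) (nat_lit 3) (nat_lit 76) (nat_lit 5) (nat_lit 469) (nat_lit 468) (nat_lit 263)) (XT.lf (nat_lit 0) (nat_lit 775586079568) (nat_lit 456) (nat_lit 39891855395) (nat_lit 532) (nat_lit 8160502554) (nat_lit 70) (nat_lit 5) (nat_lit 76) (nat_lit 5) (nat_lit 77) (nat_lit 5) (nat_lit 470) (nat_lit 468) (nat_lit 262))))) (XT.nd (nat_lit 234) (nat_lit 304) (nat_lit 0) (XT.nd (nat_lit 78) (nat_lit 532) (nat_lit 0) (XT.lf (nat_lit 76) (nat_lit 393486629480) (nat_lit 0) (nat_lit 445145087218) (nat_lit 532) (nat_lit 18111642969) (nat_lit 71) (nat_lit 5) (nat_lit 70) (nat_lit 5) (nat_lit 77)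 (nat_lit 5) (nat_lit 471) (nat_lit 468) (nat_lit 261)) (XT.nd (nat_lit 78) (nat_lit 0) (nat_lit 76) (XT.lf (nat_lit 0) (nat_lit 14631805407) (nat_lit 532) (nat_lit 28975772676) (nat_lit 608) (nat_lit 848772207093) (nat_lit 63) (nat_lit 5) (nat_lit 70) (nat_lit 5) (nat_lit 71) (nat_lit 5) (nat_lit 472) (nat_lit 468) (nat_lit 260)) (XT.lf (nat_lit 0) (nat_lit 69826813376) (nat_lit 532) (nat_lit 476896681869) (nat_lit 608) (nat_lit 382441148274) (nat_lit 64) (nat_lit 5) (nat_lit 71) (nat_lit 5) (nat_lit 72) (nat_lit 5) (nat_lit 473) (nat_lit 468) (nat_lit 259)))) (XT.nd (nat_lit 78) (nat_lit 380) (nat_lit 0) (XT.lf (nat_lit 76) (nat_lit 3870532552) (nat_lit 0) (nat_lit 127605458823) (nat_lit 608) (nat_lit 837253213609) (nat_lit 65) (nat_lit 5) (nat_lit 64) (nat_lit 5) (nat_lit 72) (nat_lit 5) (nat_lit 474) (nat_lit 468) (nat_lit 258)) (XT.nd (nat_lit 78) (nat_lit 456) (nat_lit 0) (XT.lf (nat_lit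 0) (nat_lit 219252245203) (nat_lit 532) (nat_lit 468351090639) (nat_lit 76) (nat_lit 322159984200) (nat_lit 65) (nat_lit 5) (nat_lit 72) (nat_lit 5) (nat_lit 66) (nat_lit 5) (nat_lit 475) (nat_lit 468) (nat_lit 257)) (XT.lf (nat_lit 0) (nat_lit 67962418818) (nat_lit 456) (nat_lit 251037098634) (nat_lit 532) (nat_lit 734684733407) (nat_lit 59) (nat_lit 5) (nat_lit 65) (nat_lit 5) (nat_lit 66) (nat_lit 5) (nat_lit 476) (nat_lit 468) (nat_lit 256)))))) (XT.nd (nat_lit 390) (nat_lit 760) (nat_lit 0) (XT.nd (nat_lit 156) (nat_lit 228) (nat_lit 0) (XT.nd (nat_lit 78) (nat_lit 228) (nat_lit 0) (XT.lf (nat_lit 0) (nat_lit 445166659657) (nat_lit 532) (nat_lit 431912415064) (nat_lit 76) (nat_lit 222564574372) (nat_lit 59) (nat_lit 5) (nat_lit 66) (nat_lit 5) (nat_lit 60) (nat_lit 5) (nat_lit 477) (nat_lit 468) (nat_lit 255)) (XT.lf (nat_lit 0) (nat_lit 168089839004) (nat_lit 228) (nat_lit 423900336714)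 (nat_lit 304) (nat_lit 556444583272) (nat_lit 56) (nat_lit 5) (nat_lit 59) (nat_lit 5) (nat_lit 60) (nat_lit 5) (nat_lit 478) (nat_lit 468) (nat_lit 254))) (XT.nd (nat_lit 78) (nat_lit 228) (nat_lit 0) (XT.lf (nat_lit 0) (nat_lit 764251614703) (nat_lit 304) (nat_lit 361411706233) (nat_lit 76) (nat_lit 74370473415) (nat_lit 56) (nat_lit 5) (nat_lit 60) (nat_lit 5) (nat_lit 57) (nat_lit 5) (nat_lit 479) (nat_lit 468) (nat_lit 253)) (XT.nd (nat_lit 78) (nat_lit 0) (nat_lit 0) (XT.lf (nat_lit 0) (nat_lit 311613951723) (nat_lit 228) (nat_lit 657184732907) (nat_lit 304) (nat_lit 285481690649) (nat_lit 53) (nat_lit 5) (nat_lit 56) (nat_lit 5) (nat_lit 57) (nat_lit 5) (nat_lit 480) (nat_lit 468) (nat_lit 252)) (XT.lf (nat_lit 0) (nat_lit 1059035460002) (nat_lit 228) (nat_lit 140555691368) (nat_lit 304) (nat_lit 112485000815) (nat_lit 53) (nat_lit 5) (nat_lit 56) (nat_lit 5) (nat_lit 57) (nat_lit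 5) (nat_lit 481) (nat_lit 468) (nat_lit 251))))) (XT.nd (nat_lit 234) (nat_lit 304) (nat_lit 0) (XT.nd (nat_lit 78) (nat_lit 228) (nat_lit 0) (XT.lf (nat_lit 0) (nat_lit 93443487683) (nat_lit 228) (nat_lit 867999674135) (nat_lit 76) (nat_lit 411084463318) (nat_lit 50) (nat_lit 5) (nat_lit 53) (nat_lit 5) (nat_lit 51) (nat_lit 5) (nat_lit 482) (nat_lit 468) (nat_lit 250)) (XT.nd (nat_lit 78) (nat_lit 228) (nat_lit 0) (XT.lf (nat_lit 0) (nat_lit 320518220222) (nat_lit 228) (nat_lit 106921190633) (nat_lit 76) (nat_lit 1009282143868) (nat_lit 50) (nat_lit 5) (nat_lit 53) (nat_lit 5) (nat_lit 51) (nat_lit 5) (nat_lit 483) (nat_lit 468) (nat_lit 249)) (XT.lf (nat_lit 0) (nat_lit 587921786187) (nat_lit 304) (nat_lit 755966807365) (nat_lit 76) (nat_lit 160389376742) (nat_lit 47) (nat_lit 5) (nat_lit 51) (nat_lit 5) (nat_lit 48) (nat_lit 5) (nat_lit 484) (nat_lit 468) (nat_lit 248)))) (XT.nd (nat_lit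 78) (nat_lit 152) (nat_lit 0) (XT.lf (nat_lit 0) (nat_lit 94591363606) (nat_lit 152) (nat_lit 798502864119) (nat_lit 228) (nat_lit 682834544163) (nat_lit 45) (nat_lit 5) (nat_lit 47) (nat_lit 5) (nat_lit 48) (nat_lit 5) (nat_lit 485) (nat_lit 468) (nat_lit 247)) (XT.nd (nat_lit 78) (nat_lit 152) (nat_lit 0) (XT.lf (nat_lit 0) (nat_lit 1056186684596) (nat_lit 152) (nat_lit 187163248054) (nat_lit 228) (nat_lit 408308147517) (nat_lit 45) (nat_lit 5) (nat_lit 47) (nat_lit 5) (nat_lit 48) (nat_lit 5) (nat_lit 486) (nat_lit 468) (nat_lit 246)) (XT.lf (nat_lit 0) (nat_lit 368310610428) (nat_lit 152) (nat_lit 1273551029159) (nat_lit 228) (nat_lit 89965249873) (nat_lit 43) (nat_lit 5) (nat_lit 45) (nat_lit 5) (nat_lit 46) (nat_lit 5) (nat_lit 487) (nat_lit 468) (nat_lit 245))))))) (XT.nd (nat_lit 858) (nat_lit 760) (nat_lit 0) (XT.nd (nat_lit 390) (nat_lit 532) (nat_lit 0) (XT.nd (nat_lit 156) (nat_lit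 228) (nat_lit 0) (XT.nd (nat_lit 78) (nat_lit 152) (nat_lit 0) (XT.lf (nat_lit 0) (nat_lit 262712232529) (nat_lit 228) (nat_lit 385435799738) (nat_lit 76) (nat_lit 1168047531857) (nat_lit 42) (nat_lit 5) (nat_lit 45) (nat_lit 5) (nat_lit 43) (nat_lit 5) (nat_lit 488) (nat_lit 468) (nat_lit 244)) (XT.lf (nat_lit 0) (nat_lit 656825450802) (nat_lit 228) (nat_lit 1203170092249) (nat_lit 76) (nat_lit 45684689130) (nat_lit 40) (nat_lit 5) (nat_lit 43) (nat_lit 5) (nat_lit 41) (nat_lit 5) (nat_lit 489) (nat_lit 468) (nat_lit 243))) (XT.nd (nat_lit 78) (nat_lit 228) (nat_lit 0) (XT.lf (nat_lit 0) (nat_lit 1110114961957) (nat_lit 228) (nat_lit 119177510072) (nat_lit 76) (nat_lit 770819422822) (nat_lit 40) (nat_lit 5) (nat_lit 43) (nat_lit 5) (nat_lit 41) (nat_lit 5) (nat_lit 490) (nat_lit 468) (nat_lit 242)) (XT.nd (nat_lit 78) (nat_lit 76) (nat_lit 0) (XT.lf (nat_lit 0) (nat_lit 1106906415577)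 (nat_lit 152) (nat_lit 519382341159) (nat_lit 228) (nat_lit 473679643980) (nat_lit 38) (nat_lit 5) (nat_lit 40) (nat_lit 5) (nat_lit 41) (nat_lit 5) (nat_lit 491) (nat_lit 468) (nat_lit 241)) (XT.lf (nat_lit 0) (nat_lit 236078957913) (nat_lit 76) (nat_lit 1962646426396) (nat_lit 152) (nat_lit 7890528405) (nat_lit 37) (nat_lit 5) (nat_lit 38) (nat_lit 5) (nat_lit 39) (nat_lit 4) (nat_lit 492) (nat_lit 468) (nat_lit 240))))) (XT.nd (nat_lit 234) (nat_lit 304) (nat_lit 0) (XT.nd (nat_lit 78) (nat_lit 152) (nat_lit 0) (XT.lf (nat_lit 0) (nat_lit 511739492506) (nat_lit 152) (nat_lit 725699923691) (nat_lit 76) (nat_lit 1080095295736) (nat_lit 36) (nat_lit 5) (nat_lit 38) (nat_lit 5) (nat_lit 37) (nat_lit 5) (nat_lit 493) (nat_lit 468) (nat_lit 239)) (XT.nd (nat_lit 78) (nat_lit 0) (nat_lit 0) (XT.lf (nat_lit 0) (nat_lit 651089236939) (nat_lit 152) (nat_lit 437083093628) (nat_lit 228) (nat_lit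 1347885591904) (nat_lit 34) (nat_lit 5) (nat_lit 36) (nat_lit 5) (nat_lit 37) (nat_lit 5) (nat_lit 494) (nat_lit 468) (nat_lit 238)) (XT.lf (nat_lit 0) (nat_lit 1741353706439) (nat_lit 228) (nat_lit 393974904375) (nat_lit 76) (nat_lit 426283666177) (nat_lit 34) (nat_lit 5) (nat_lit 37) (nat_lit 5) (nat_lit 35) (nat_lit 4) (nat_lit 495) (nat_lit 468) (nat_lit 237)))) (XT.nd (nat_lit 78) (nat_lit 228) (nat_lit 0) (XT.lf (nat_lit 0) (nat_lit 1154708776824) (nat_lit 76) (nat_lit 1331204394450) (nat_lit 152) (nat_lit 208167922288) (nat_lit 33) (nat_lit 5) (nat_lit 34) (nat_lit 5) (nat_lit 35) (nat_lit 4) (nat_lit 496) (nat_lit 468) (nat_lit 236)) (XT.nd (nat_lit 78) (nat_lit 0) (nat_lit 0) (XT.lf (nat_lit 0) (nat_lit 2353097388) (nat_lit 152) (nat_lit 438989842576) (nat_lit 228) (nat_lit 2394044446063) (nat_lit 30) (nat_lit 5) (nat_lit 32) (nat_lit 5) (nat_lit 33) (nat_lit 5) (nat_lit 497) (nat_lit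 468) (nat_lit 235)) (XT.lf (nat_lit 0) (nat_lit 1187367273849) (nat_lit 228) (nat_lit 1248785912536) (nat_lit 76) (nat_lit 546948512592) (nat_lit 30) (nat_lit 5) (nat_lit 33) (nat_lit 5) (nat_lit 31) (nat_lit 4) (nat_lit 498) (nat_lit 468) (nat_lit 234)))))) (XT.nd (nat_lit 468) (nat_lit 456) (nat_lit 0) (XT.nd (nat_lit 234) (nat_lit 76) (nat_lit 0) (XT.nd (nat_lit 78) (nat_lit 152) (nat_lit 0) (XT.lf (nat_lit 0) (nat_lit 474538324812) (nat_lit 76) (nat_lit 1541350218992) (nat_lit 152) (nat_lit 1124919414010) (nat_lit 29) (nat_lit 5) (nat_lit 30) (nat_lit 5) (nat_lit 31) (nat_lit 4) (nat_lit 499) (nat_lit 468) (nat_lit 233)) (XT.nd (nat_lit 78) (nat_lit 152) (nat_lit 0) (XT.lf (nat_lit 0) (nat_lit 2406748058451) (nat_lit 76) (nat_lit 538087474530) (nat_lit 152) (nat_lit 363563662967) (nat_lit 29) (nat_lit 5) (nat_lit 30) (nat_lit 5) (nat_lit 31) (nat_lit 4) (nat_lit 500) (nat_lit 468) (nat_lit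 232)) (XT.lf (nat_lit 0) (nat_lit 474953718884) (nat_lit 152) (nat_lit 2455160944087) (nat_lit 76) (nat_lit 555264591033) (nat_lit 27) (nat_lit 5) (nat_lit 29) (nat_lit 5) (nat_lit 28) (nat_lit 4) (nat_lit 501) (nat_lit 468) (nat_lit 231)))) (XT.nd (nat_lit 78) (nat_lit 76) (nat_lit 0) (XT.lf (nat_lit 0) (nat_lit 1400179977059) (nat_lit 152) (nat_lit 530690330138) (nat_lit 76) (nat_lit 1741750403203) (nat_lit 27) (nat_lit 5) (nat_lit 29) (nat_lit 5) (nat_lit 28) (nat_lit 4) (nat_lit 502) (nat_lit 468) (nat_lit 230)) (XT.nd (nat_lit 78) (nat_lit 0) (nat_lit 0) (XT.lf (nat_lit 0) (nat_lit 1629239065843) (nat_lit 76) (nat_lit 809368506799) (nat_lit 152) (nat_lit 1433099251727) (nat_lit 26) (nat_lit 5) (nat_lit 27) (nat_lit 5) (nat_lit 28) (nat_lit 4) (nat_lit 503) (nat_lit 468) (nat_lit 229)) (XT.lf (nat_lit 0) (nat_lit 3584660856341) (nat_lit 152) (nat_lit 103456855477) (nat_lit 0) (nat_lit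 396637997199) (nat_lit 26) (nat_lit 5) (nat_lit 28) (nat_lit 4) (nat_lit 26) (nat_lit 4) (nat_lit 504) (nat_lit 468) (nat_lit 228))))) (XT.nd (nat_lit 234) (nat_lit 228) (nat_lit 0) (XT.nd (nat_lit 78) (nat_lit 76) (nat_lit 0) (XT.lf (nat_lit 0) (nat_lit 560498985164) (nat_lit 152) (nat_lit 2022184972245) (nat_lit 76) (nat_lit 1724920916978) (nat_lit 24) (nat_lit 5) (nat_lit 26) (nat_lit 5) (nat_lit 25) (nat_lit 4) (nat_lit 505) (nat_lit 468) (nat_lit 227)) (XT.nd (nat_lit 78) (nat_lit 0) (nat_lit 0) (XT.lf (nat_lit 0) (nat_lit 326504953415) (nat_lit 76) (nat_lit 1363171881624) (nat_lit 152) (nat_lit 2856705610491) (nat_lit 23) (nat_lit 5) (nat_lit 24) (nat_lit 5) (nat_lit 25) (nat_lit 4) (nat_lit 506) (nat_lit 468) (nat_lit 226)) (XT.lf (nat_lit 0) (nat_lit 2964806460719) (nat_lit 152) (nat_lit 1822072920613) (nat_lit 0) (nat_lit 12933437206) (nat_lit 23) (nat_lit 5) (nat_lit 25) (nat_lit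 4) (nat_lit 23) (nat_lit 4) (nat_lit 507) (nat_lit 468) (nat_lit 225)))) (XT.nd (nat_lit 78) (nat_lit 152) (nat_lit 0) (XT.lf (nat_lit 0) (nat_lit 770702617919) (nat_lit 76) (nat_lit 3625186315248) (nat_lit 76) (nat_lit 673313290084) (nat_lit 22) (nat_lit 4) (nat_lit 23) (nat_lit 5) (nat_lit 23) (nat_lit 4) (nat_lit 508) (nat_lit 468) (nat_lit 224)) (XT.nd (nat_lit 78) (nat_lit 76) (nat_lit 0) (XT.lf (nat_lit 0) (nat_lit 603348174551) (nat_lit 152) (nat_lit 1696908823626) (nat_lit 76) (nat_lit 3054678315094) (nat_lit 21) (nat_lit 5) (nat_lit 23) (nat_lit 5) (nat_lit 22) (nat_lit 4) (nat_lit 509) (nat_lit 468) (nat_lit 223)) (XT.lf (nat_lit 0) (nat_lit 1152998200475) (nat_lit 76) (nat_lit 820497582497) (nat_lit 152) (nat_lit 3686413804335) (nat_lit 20) (nat_lit 5) (nat_lit 21) (nat_lit 5) (nat_lit 22) (nat_lit 4) (nat_lit 510) (nat_lit 468) (nat_lit 222))))))))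
noncomputable def xc232 : XT := (XT.nd (nat_lit 60216) (nat_lit 0) (nat_lit 912) (XT.nd (nat_lit 59358) (nat_lit 0) (nat_lit 2964) (XT.nd (nat_lit 390) (nat_lit 228) (nat_lit 0) (XT.nd (nat_lit 156) (nat_lit 152) (nat_lit 0) (XT.nd (nat_lit 78) (nat_lit 76) (nat_lit 0) (XT.lf (nat_lit 0) (nat_lit 3519559119640) (nat_lit 152) (nat_lit 1678075018401) (nat_lit 0) (nat_lit 786343351659) (nat_lit 20) (nat_lit 5) (nat_lit 22) (nat_lit 4) (nat_lit 20) (nat_lit 4) (nat_lit 511) (nat_lit 468) (nat_lit 221)) (XT.lf (nat_lit 0) (nat_lit 1427148372871) (nat_lit 76) (nat_lit 3817793727186) (nat_lit 76) (nat_lit 1084577958082) (nat_lit 19) (nat_lit 4) (nat_lit 20) (nat_lit 5) (nat_lit 20) (nat_lit 4) (nat_lit 512) (nat_lit 468) (nat_lit 220))) (XT.nd (nat_lit 78) (nat_lit 76) (nat_lit 0) (XT.lf (nat_lit 0) (nat_lit 432430718482) (nat_lit 152) (nat_lit 1833759875700) (nat_lit 76) (nat_lit 4431969105345)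 (nat_lit 18) (nat_lit 5) (nat_lit 20) (nat_lit 5) (nat_lit 19) (nat_lit 4) (nat_lit 513) (nat_lit 468) (nat_lit 219)) (XT.nd (nat_lit 78) (nat_lit 0) (nat_lit 0) (XT.lf (nat_lit 0) (nat_lit 1528638719856) (nat_lit 76) (nat_lit 520329785414) (nat_lit 152) (nat_lit 5042127234736) (nat_lit 17) (nat_lit 5) (nat_lit 18) (nat_lit 5) (nat_lit 19) (nat_lit 4) (nat_lit 514) (nat_lit 468) (nat_lit 218)) (XT.lf (nat_lit 0) (nat_lit 3879102940639) (nat_lit 152) (nat_lit 2281274236841) (nat_lit 0) (nat_lit 1348347596194) (nat_lit 17) (nat_lit 5) (nat_lit 19) (nat_lit 4) (nat_lit 17) (nat_lit 4) (nat_lit 515) (nat_lit 468) (nat_lit 217))))) (XT.nd (nat_lit 234) (nat_lit 0) (nat_lit 0) (XT.nd (nat_lit 78) (nat_lit 152) (nat_lit 0) (XT.lf (nat_lit 0) (nat_lit 1314652341956) (nat_lit 76) (nat_lit 4586128267500) (nat_lit 76) (nat_lit 2055372922290) (nat_lit 16) (nat_lit 4) (nat_lit 17) (nat_lit 5) (nat_lit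 17) (nat_lit 4) (nat_lit 516) (nat_lit 468) (nat_lit 216)) (XT.nd (nat_lit 78) (nat_lit 152) (nat_lit 0) (XT.lf (nat_lit 0) (nat_lit 5327991132015) (nat_lit 76) (nat_lit 2818575439013) (nat_lit 76) (nat_lit 287820093095) (nat_lit 16) (nat_lit 4) (nat_lit 17) (nat_lit 5) (nat_lit 17) (nat_lit 4) (nat_lit 517) (nat_lit 468) (nat_lit 215)) (XT.lf (nat_lit 0) (nat_lit 707944441231) (nat_lit 76) (nat_lit 849122764444) (nat_lit 152) (nat_lit 7389330084402) (nat_lit 14) (nat_lit 5) (nat_lit 15) (nat_lit 5) (nat_lit 16) (nat_lit 4) (nat_lit 518) (nat_lit 468) (nat_lit 214)))) (XT.nd (nat_lit 58578) (nat_lit 0) (nat_lit 4180) (XT.lf (nat_lit 0) (nat_lit 3651869364499) (nat_lit 152) (nat_lit 4528894066549) (nat_lit 0) (nat_lit 1308577376369) (nat_lit 14) (nat_lit 5) (nat_lit 16) (nat_lit 4) (nat_lit 14) (nat_lit 4) (nat_lit 519) (nat_lit 468) (nat_lit 213)) (XT.nd (nat_lit 78) (nat_lit 0) (nat_lit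 0) (XT.lf (nat_lit 0) (nat_lit 377145029225) (nat_lit 532) (nat_lit 17108890135) (nat_lit 532) (nat_lit 17108890135) (nat_lit 69) (nat_lit 3) (nat_lit 76) (nat_lit 3) (nat_lit 76) (nat_lit 5) (nat_lit 469) (nat_lit 469) (nat_lit 262)) (XT.lf (nat_lit 76) (nat_lit 388358744625) (nat_lit 0) (nat_lit 405443044042) (nat_lit 532) (nat_lit 61085644792) (nat_lit 70) (nat_lit 5) (nat_lit 69) (nat_lit 3) (nat_lit 76) (nat_lit 5) (nat_lit 470) (nat_lit 469) (nat_lit 261)))))) (XT.nd (nat_lit 390) (nat_lit 760) (nat_lit 0) (XT.nd (nat_lit 156) (nat_lit 532) (nat_lit 0) (XT.nd (nat_lit 78) (nat_lit 0) (nat_lit 0) (XT.lf (nat_lit 0) (nat_lit 837633143558) (nat_lit 456) (nat_lit 43083086720) (nat_lit 532) (nat_lit 8813267911) (nat_lit 70) (nat_lit 5) (nat_lit 76) (nat_lit 5) (nat_lit 77) (nat_lit 5) (nat_lit 471) (nat_lit 469) (nat_lit 260)) (XT.lf (nat_lit 76) (nat_lit 424965673980) (nat_lit 0) (nat_lit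 480756747266) (nat_lit 532) (nat_lit 19560393706) (nat_lit 71) (nat_lit 5) (nat_lit 70) (nat_lit 5) (nat_lit 77) (nat_lit 5) (nat_lit 472) (nat_lit 469) (nat_lit 259))) (XT.nd (nat_lit 78) (nat_lit 0) (nat_lit 76) (XT.lf (nat_lit 0) (nat_lit 15802508785) (nat_lit 532) (nat_lit 31293720339) (nat_lit 608) (nat_lit 916673926057) (nat_lit 63) (nat_lit 5) (nat_lit 70) (nat_lit 5) (nat_lit 71) (nat_lit 5) (nat_lit 473) (nat_lit 469) (nat_lit 258)) (XT.nd (nat_lit 78) (nat_lit 0) (nat_lit 0) (XT.lf (nat_lit 0) (nat_lit 75413107365) (nat_lit 532) (nat_lit 515048292154) (nat_lit 608) (nat_lit 413036403481) (nat_lit 64) (nat_lit 5) (nat_lit 71) (nat_lit 5) (nat_lit 72) (nat_lit 5) (nat_lit 474) (nat_lit 469) (nat_lit 257)) (XT.lf (nat_lit 76) (nat_lit 4180296275) (nat_lit 0) (nat_lit 137813915211) (nat_lit 608) (nat_lit 904233318551) (nat_lit 65) (nat_lit 5) (nat_lit 64) (nat_lit 5) (nat_lit 72)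 (nat_lit 5) (nat_lit 475) (nat_lit 469) (nat_lit 256))))) (XT.nd (nat_lit 234) (nat_lit 456) (nat_lit 0) (XT.nd (nat_lit 78) (nat_lit 456) (nat_lit 0) (XT.lf (nat_lit 0) (nat_lit 236792554752) (nat_lit 532) (nat_lit 505819054801) (nat_lit 76) (nat_lit 347932765623) (nat_lit 65) (nat_lit 5) (nat_lit 72) (nat_lit 5) (nat_lit 66) (nat_lit 5) (nat_lit 476) (nat_lit 469) (nat_lit 255)) (XT.nd (nat_lit 78) (nat_lit 0) (nat_lit 0) (XT.lf (nat_lit 0) (nat_lit 73399532298) (nat_lit 456) (nat_lit 271120069745) (nat_lit 532) (nat_lit 793459378961) (nat_lit 59) (nat_lit 5) (nat_lit 65) (nat_lit 5) (nat_lit 66) (nat_lit 5) (nat_lit 477) (nat_lit 469) (nat_lit 254)) (XT.lf (nat_lit 0) (nat_lit 480780106426) (nat_lit 532) (nat_lit 466465287920) (nat_lit 76) (nat_lit 240369737490) (nat_lit 59) (nat_lit 5) (nat_lit 66) (nat_lit 5) (nat_lit 60) (nat_lit 5) (nat_lit 478) (nat_lit 469) (nat_lit 253)))) (XT.nd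 (nat_lit 78) (nat_lit 228) (nat_lit 0) (XT.lf (nat_lit 0) (nat_lit 181537143426) (nat_lit 228) (nat_lit 457812354722) (nat_lit 304) (nat_lit 600960032831) (nat_lit 56) (nat_lit 5) (nat_lit 59) (nat_lit 5) (nat_lit 60) (nat_lit 5) (nat_lit 479) (nat_lit 469) (nat_lit 252)) (XT.nd (nat_lit 78) (nat_lit 228) (nat_lit 0) (XT.lf (nat_lit 0) (nat_lit 825391844424) (nat_lit 304) (nat_lit 390324526235) (nat_lit 76) (nat_lit 80320119141) (nat_lit 56) (nat_lit 5) (nat_lit 60) (nat_lit 5) (nat_lit 57) (nat_lit 5) (nat_lit 480) (nat_lit 469) (nat_lit 251)) (XT.lf (nat_lit 0) (nat_lit 336543181408) (nat_lit 228) (nat_lit 709759493820) (nat_lit 304) (nat_lit 308320122356) (nat_lit 53) (nat_lit 5) (nat_lit 56) (nat_lit 5) (nat_lit 57) (nat_lit 5) (nat_lit 481) (nat_lit 469) (nat_lit 250))))))) (XT.nd (nat_lit 858) (nat_lit 912) (nat_lit 0) (XT.nd (nat_lit 390) (nat_lit 532) (nat_lit 0) (XT.nd (nat_lit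 156) (nat_lit 380) (nat_lit 0) (XT.nd (nat_lit 78) (nat_lit 228) (nat_lit 0) (XT.lf (nat_lit 0) (nat_lit 1143758401939) (nat_lit 228) (nat_lit 151800130270) (nat_lit 304) (nat_lit 121483705005) (nat_lit 53) (nat_lit 5) (nat_lit 56) (nat_lit 5) (nat_lit 57) (nat_lit 5) (nat_lit 482) (nat_lit 469) (nat_lit 249)) (XT.lf (nat_lit 0) (nat_lit 100919054096) (nat_lit 228) (nat_lit 937439534368) (nat_lit 76) (nat_lit 443971239651) (nat_lit 50) (nat_lit 5) (nat_lit 53) (nat_lit 5) (nat_lit 51) (nat_lit 5) (nat_lit 483) (nat_lit 469) (nat_lit 248))) (XT.nd (nat_lit 78) (nat_lit 380) (nat_lit 0) (XT.lf (nat_lit 0) (nat_lit 346159758764) (nat_lit 228) (nat_lit 115474780608) (nat_lit 76) (nat_lit 1090024733218) (nat_lit 50) (nat_lit 5) (nat_lit 53) (nat_lit 5) (nat_lit 51) (nat_lit 5) (nat_lit 484) (nat_lit 469) (nat_lit 247)) (XT.nd (nat_lit 78) (nat_lit 152) (nat_lit 0) (XT.lf (nat_lit 0) (nat_lit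 634955607086) (nat_lit 304) (nat_lit 816444043723) (nat_lit 76) (nat_lit 173220550834) (nat_lit 47) (nat_lit 5) (nat_lit 51) (nat_lit 5) (nat_lit 48) (nat_lit 5) (nat_lit 485) (nat_lit 469) (nat_lit 246)) (XT.lf (nat_lit 0) (nat_lit 102158778186) (nat_lit 152) (nat_lit 862383062521) (nat_lit 228) (nat_lit 737461226920) (nat_lit 45) (nat_lit 5) (nat_lit 47) (nat_lit 5) (nat_lit 48) (nat_lit 5) (nat_lit 486) (nat_lit 469) (nat_lit 245))))) (XT.nd (nat_lit 234) (nat_lit 304) (nat_lit 0) (XT.nd (nat_lit 78) (nat_lit 228) (nat_lit 0) (XT.lf (nat_lit 0) (nat_lit 1140681717040) (nat_lit 152) (nat_lit 202136279447) (nat_lit 228) (nat_lit 440972724526) (nat_lit 45) (nat_lit 5) (nat_lit 47) (nat_lit 5) (nat_lit 48) (nat_lit 5) (nat_lit 487) (nat_lit 469) (nat_lit 244)) (XT.nd (nat_lit 78) (nat_lit 76) (nat_lit 0) (XT.lf (nat_lit 0) (nat_lit 397775559226) (nat_lit 152) (nat_lit 1375435078663) (nat_lit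 228) (nat_lit 97162397330) (nat_lit 43) (nat_lit 5) (nat_lit 45) (nat_lit 5) (nat_lit 46) (nat_lit 5) (nat_lit 488) (nat_lit 469) (nat_lit 243)) (XT.lf (nat_lit 0) (nat_lit 283729274932) (nat_lit 228) (nat_lit 416270567775) (nat_lit 76) (nat_lit 1261491361420) (nat_lit 42) (nat_lit 5) (nat_lit 45) (nat_lit 5) (nat_lit 43) (nat_lit 5) (nat_lit 489) (nat_lit 469) (nat_lit 242)))) (XT.nd (nat_lit 78) (nat_lit 152) (nat_lit 0) (XT.lf (nat_lit 0) (nat_lit 709371548965) (nat_lit 228) (nat_lit 1299423601962) (nat_lit 76) (nat_lit 49339494839) (nat_lit 40) (nat_lit 5) (nat_lit 43) (nat_lit 5) (nat_lit 41) (nat_lit 5) (nat_lit 490) (nat_lit 469) (nat_lit 241)) (XT.nd (nat_lit 78) (nat_lit 152) (nat_lit 0) (XT.lf (nat_lit 0) (nat_lit 1198924216411) (nat_lit 228) (nat_lit 128711620445) (nat_lit 76) (nat_lit 832485004962) (nat_lit 40) (nat_lit 5) (nat_lit 43) (nat_lit 5) (nat_lit 41) (nat_lit 5) (nat_lit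 491) (nat_lit 469) (nat_lit 240)) (XT.lf (nat_lit 0) (nat_lit 1195459016967) (nat_lit 152) (nat_lit 560932895667) (nat_lit 228) (nat_lit 511573955692) (nat_lit 38) (nat_lit 5) (nat_lit 40) (nat_lit 5) (nat_lit 41) (nat_lit 5) (nat_lit 492) (nat_lit 469) (nat_lit 239)))))) (XT.nd (nat_lit 468) (nat_lit 304) (nat_lit 0) (XT.nd (nat_lit 234) (nat_lit 304) (nat_lit 0) (XT.nd (nat_lit 78) (nat_lit 228) (nat_lit 0) (XT.lf (nat_lit 0) (nat_lit 254965364024) (nat_lit 76) (nat_lit 2119658105170) (nat_lit 152) (nat_lit 8521712188) (nat_lit 37) (nat_lit 5) (nat_lit 38) (nat_lit 5) (nat_lit 39) (nat_lit 4) (nat_lit 493) (nat_lit 469) (nat_lit 238)) (XT.nd (nat_lit 78) (nat_lit 152) (nat_lit 0) (XT.lf (nat_lit 0) (nat_lit 552678703354) (nat_lit 152) (nat_lit 783755832013) (nat_lit 76) (nat_lit 1166502949391) (nat_lit 36) (nat_lit 5) (nat_lit 38) (nat_lit 5) (nat_lit 37) (nat_lit 5) (nat_lit 494) (nat_lit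 469) (nat_lit 237)) (XT.lf (nat_lit 0) (nat_lit 703176459302) (nat_lit 152) (nat_lit 472049707353) (nat_lit 228) (nat_lit 1455716385629) (nat_lit 34) (nat_lit 5) (nat_lit 36) (nat_lit 5) (nat_lit 37) (nat_lit 5) (nat_lit 495) (nat_lit 469) (nat_lit 236)))) (XT.nd (nat_lit 78) (nat_lit 304) (nat_lit 0) (XT.lf (nat_lit 0) (nat_lit 1880662049671) (nat_lit 228) (nat_lit 425492816558) (nat_lit 76) (nat_lit 460386389171) (nat_lit 34) (nat_lit 5) (nat_lit 37) (nat_lit 5) (nat_lit 35) (nat_lit 4) (nat_lit 496) (nat_lit 469) (nat_lit 235)) (XT.nd (nat_lit 78) (nat_lit 228) (nat_lit 0) (XT.lf (nat_lit 0) (nat_lit 1247085557108) (nat_lit 76) (nat_lit 1437700713004) (nat_lit 152) (nat_lit 224821307313) (nat_lit 33) (nat_lit 5) (nat_lit 34) (nat_lit 5) (nat_lit 35) (nat_lit 4) (nat_lit 497) (nat_lit 469) (nat_lit 234)) (XT.lf (nat_lit 0) (nat_lit 2541423727) (nat_lit 152) (nat_lit 474108996212) (nat_lit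 228) (nat_lit 2585567953379) (nat_lit 30) (nat_lit 5) (nat_lit 32) (nat_lit 5) (nat_lit 33) (nat_lit 5) (nat_lit 498) (nat_lit 469) (nat_lit 233))))) (XT.nd (nat_lit 234) (nat_lit 228) (nat_lit 0) (XT.nd (nat_lit 78) (nat_lit 76) (nat_lit 0) (XT.lf (nat_lit 0) (nat_lit 1282356697969) (nat_lit 228) (nat_lit 1348688710236) (nat_lit 76) (nat_lit 590704423304) (nat_lit 30) (nat_lit 5) (nat_lit 33) (nat_lit 5) (nat_lit 31) (nat_lit 4) (nat_lit 499) (nat_lit 469) (nat_lit 232)) (XT.nd (nat_lit 78) (nat_lit 0) (nat_lit 0) (XT.lf (nat_lit 0) (nat_lit 512501464194) (nat_lit 76) (nat_lit 1664658203965) (nat_lit 152) (nat_lit 1214912923003) (nat_lit 29) (nat_lit 5) (nat_lit 30) (nat_lit 5) (nat_lit 31) (nat_lit 4) (nat_lit 500) (nat_lit 469) (nat_lit 231)) (XT.lf (nat_lit 0) (nat_lit 2599287971087) (nat_lit 76) (nat_lit 581134442357) (nat_lit 152) (nat_lit 392648715145) (nat_lit 29) (nat_lit 5) (nat_lit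 30) (nat_lit 5) (nat_lit 31) (nat_lit 4) (nat_lit 501) (nat_lit 469) (nat_lit 230)))) (XT.nd (nat_lit 78) (nat_lit 76) (nat_lit 0) (XT.lf (nat_lit 0) (nat_lit 512950054712) (nat_lit 152) (nat_lit 2651573749099) (nat_lit 76) (nat_lit 599685787441) (nat_lit 27) (nat_lit 5) (nat_lit 29) (nat_lit 5) (nat_lit 28) (nat_lit 4) (nat_lit 502) (nat_lit 469) (nat_lit 229)) (XT.nd (nat_lit 78) (nat_lit 76) (nat_lit 0) (XT.lf (nat_lit 0) (nat_lit 1512194410704) (nat_lit 152) (nat_lit 573145491257) (nat_lit 76) (nat_lit 1881090462427) (nat_lit 27) (nat_lit 5) (nat_lit 29) (nat_lit 5) (nat_lit 28) (nat_lit 4) (nat_lit 503) (nat_lit 469) (nat_lit 228)) (XT.lf (nat_lit 0) (nat_lit 1759578254749) (nat_lit 76) (nat_lit 874117958086) (nat_lit 152) (nat_lit 1547747154727) (nat_lit 26) (nat_lit 5) (nat_lit 27) (nat_lit 5) (nat_lit 28) (nat_lit 4) (nat_lit 504) (nat_lit 469) (nat_lit 227))))))))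
noncomputable def xc233 : XT := (XT.nd (nat_lit 60294) (nat_lit 0) (nat_lit 1216) (XT.nd (nat_lit 858) (nat_lit 228) (nat_lit 0) (XT.nd (nat_lit 390) (nat_lit 380) (nat_lit 0) (XT.nd (nat_lit 156) (nat_lit 152) (nat_lit 0) (XT.nd (nat_lit 78) (nat_lit 152) (nat_lit 0) (XT.lf (nat_lit 0) (nat_lit 3871433757335) (nat_lit 152) (nat_lit 111733343089) (nat_lit 0) (nat_lit 428369062710) (nat_lit 26) (nat_lit 5) (nat_lit 28) (nat_lit 4) (nat_lit 26) (nat_lit 4) (nat_lit 505) (nat_lit 469) (nat_lit 226)) (XT.lf (nat_lit 0) (nat_lit 605338936307) (nat_lit 152) (nat_lit 2183959709032) (nat_lit 76) (nat_lit 1862914616409) (nat_lit 24) (nat_lit 5) (nat_lit 26) (nat_lit 5) (nat_lit 25) (nat_lit 4) (nat_lit 506) (nat_lit 469) (nat_lit 225))) (XT.nd (nat_lit 78) (nat_lit 76) (nat_lit 0) (XT.lf (nat_lit 0) (nat_lit 352625409137) (nat_lit 76) (nat_lit 1472225604070) (nat_lit 152) (nat_lit 3085242025452)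 (nat_lit 23) (nat_lit 5) (nat_lit 24) (nat_lit 5) (nat_lit 25) (nat_lit 4) (nat_lit 507) (nat_lit 469) (nat_lit 224)) (XT.nd (nat_lit 78) (nat_lit 76) (nat_lit 0) (XT.lf (nat_lit 0) (nat_lit 3201991007243) (nat_lit 152) (nat_lit 1967838697515) (nat_lit 0) (nat_lit 13968136886) (nat_lit 23) (nat_lit 5) (nat_lit 25) (nat_lit 4) (nat_lit 23) (nat_lit 4) (nat_lit 508) (nat_lit 469) (nat_lit 223)) (XT.lf (nat_lit 0) (nat_lit 832358882663) (nat_lit 76) (nat_lit 3915201193957) (nat_lit 76) (nat_lit 727178322184) (nat_lit 22) (nat_lit 4) (nat_lit 23) (nat_lit 5) (nat_lit 23) (nat_lit 4) (nat_lit 509) (nat_lit 469) (nat_lit 222))))) (XT.nd (nat_lit 234) (nat_lit 228) (nat_lit 0) (XT.nd (nat_lit 78) (nat_lit 76) (nat_lit 0) (XT.lf (nat_lit 0) (nat_lit 651616055877) (nat_lit 152) (nat_lit 1832661476858) (nat_lit 76) (nat_lit 3299052603405) (nat_lit 21) (nat_lit 5) (nat_lit 23) (nat_lit 5) (nat_lit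 22) (nat_lit 4) (nat_lit 510) (nat_lit 469) (nat_lit 221)) (XT.nd (nat_lit 78) (nat_lit 0) (nat_lit 0) (XT.lf (nat_lit 0) (nat_lit 1245238107837) (nat_lit 76) (nat_lit 886137364342) (nat_lit 152) (nat_lit 3981326879984) (nat_lit 20) (nat_lit 5) (nat_lit 21) (nat_lit 5) (nat_lit 22) (nat_lit 4) (nat_lit 511) (nat_lit 469) (nat_lit 220)) (XT.lf (nat_lit 0) (nat_lit 3801123874364) (nat_lit 152) (nat_lit 1812320970931) (nat_lit 0) (nat_lit 849250841566) (nat_lit 20) (nat_lit 5) (nat_lit 22) (nat_lit 4) (nat_lit 20) (nat_lit 4) (nat_lit 512) (nat_lit 469) (nat_lit 219)))) (XT.nd (nat_lit 78) (nat_lit 152) (nat_lit 0) (XT.lf (nat_lit 0) (nat_lit 1541320290404) (nat_lit 76) (nat_lit 4123217202095) (nat_lit 76) (nat_lit 1171344168334) (nat_lit 19) (nat_lit 4) (nat_lit 20) (nat_lit 5) (nat_lit 20) (nat_lit 4) (nat_lit 513) (nat_lit 469) (nat_lit 218)) (XT.nd (nat_lit 78) (nat_lit 76) (nat_lit 0)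 (XT.lf (nat_lit 0) (nat_lit 467025199177) (nat_lit 152) (nat_lit 1980460620362) (nat_lit 76) (nat_lit 4786526654091) (nat_lit 18) (nat_lit 5) (nat_lit 20) (nat_lit 5) (nat_lit 19) (nat_lit 4) (nat_lit 514) (nat_lit 469) (nat_lit 217)) (XT.lf (nat_lit 0) (nat_lit 1650929861690) (nat_lit 76) (nat_lit 561956146564) (nat_lit 152) (nat_lit 5445497389148) (nat_lit 17) (nat_lit 5) (nat_lit 18) (nat_lit 5) (nat_lit 19) (nat_lit 4) (nat_lit 515) (nat_lit 469) (nat_lit 216)))))) (XT.nd (nat_lit 58968) (nat_lit 0) (nat_lit 3724) (XT.nd (nat_lit 156) (nat_lit 152) (nat_lit 0) (XT.nd (nat_lit 78) (nat_lit 76) (nat_lit 0) (XT.lf (nat_lit 0) (nat_lit 4189431197263) (nat_lit 152) (nat_lit 2463776133631) (nat_lit 0) (nat_lit 1456215422963) (nat_lit 17) (nat_lit 5) (nat_lit 19) (nat_lit 4) (nat_lit 17) (nat_lit 4) (nat_lit 516) (nat_lit 469) (nat_lit 215)) (XT.lf (nat_lit 0) (nat_lit 1419824570403) (nat_lit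 76) (nat_lit 4953018508587) (nat_lit 76) (nat_lit 2219802733632) (nat_lit 16) (nat_lit 4) (nat_lit 17) (nat_lit 5) (nat_lit 17) (nat_lit 4) (nat_lit 517) (nat_lit 469) (nat_lit 214))) (XT.nd (nat_lit 78) (nat_lit 152) (nat_lit 0) (XT.lf (nat_lit 0) (nat_lit 5754230460623) (nat_lit 76) (nat_lit 3044061455326) (nat_lit 76) (nat_lit 310845679763) (nat_lit 16) (nat_lit 4) (nat_lit 17) (nat_lit 5) (nat_lit 17) (nat_lit 4) (nat_lit 518) (nat_lit 469) (nat_lit 213)) (XT.nd (nat_lit 58656) (nat_lit 0) (nat_lit 4180) (XT.lf (nat_lit 0) (nat_lit 764580034627) (nat_lit 76) (nat_lit 917052566695) (nat_lit 152) (nat_lit 7980476470423) (nat_lit 14) (nat_lit 5) (nat_lit 15) (nat_lit 5) (nat_lit 16) (nat_lit 4) (nat_lit 519) (nat_lit 469) (nat_lit 212)) (XT.lf (nat_lit 0) (nat_lit 407316720111) (nat_lit 532) (nat_lit 18477553500) (nat_lit 532) (nat_lit 18477553500) (nat_lit 69) (nat_lit 3) (nat_lit 76)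 (nat_lit 3) (nat_lit 76) (nat_lit 5) (nat_lit 470) (nat_lit 470) (nat_lit 260))))) (XT.nd (nat_lit 234) (nat_lit 456) (nat_lit 0) (XT.nd (nat_lit 78) (nat_lit 0) (nat_lit 76) (XT.lf (nat_lit 76) (nat_lit 419427537464) (nat_lit 0) (nat_lit 437878560517) (nat_lit 532) (nat_lit 65972316745) (nat_lit 70) (nat_lit 5) (nat_lit 69) (nat_lit 3) (nat_lit 76) (nat_lit 5) (nat_lit 471) (nat_lit 470) (nat_lit 259)) (XT.nd (nat_lit 78) (nat_lit 0) (nat_lit 0) (XT.lf (nat_lit 0) (nat_lit 904643947327) (nat_lit 456) (nat_lit 46529633258) (nat_lit 532) (nat_lit 9518265174) (nat_lit 70) (nat_lit 5) (nat_lit 76) (nat_lit 5) (nat_lit 77) (nat_lit 5) (nat_lit 472) (nat_lit 470) (nat_lit 258)) (XT.lf (nat_lit 76) (nat_lit 458963025756) (nat_lit 0) (nat_lit 519217332547) (nat_lit 532) (nat_lit 21125070282) (nat_lit 71) (nat_lit 5) (nat_lit 70) (nat_lit 5) (nat_lit 77) (nat_lit 5) (nat_lit 473) (nat_lit 470)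 (nat_lit 257)))) (XT.nd (nat_lit 78) (nat_lit 0) (nat_lit 76) (XT.lf (nat_lit 0) (nat_lit 17066845757) (nat_lit 532) (nat_lit 33797120099) (nat_lit 608) (nat_lit 990007790756) (nat_lit 63) (nat_lit 5) (nat_lit 70) (nat_lit 5) (nat_lit 71) (nat_lit 5) (nat_lit 474) (nat_lit 470) (nat_lit 256)) (XT.nd (nat_lit 78) (nat_lit 0) (nat_lit 0) (XT.lf (nat_lit 0) (nat_lit 81446283628) (nat_lit 532) (nat_lit 556252048989) (nat_lit 608) (nat_lit 446079284333) (nat_lit 64) (nat_lit 5) (nat_lit 71) (nat_lit 5) (nat_lit 72) (nat_lit 5) (nat_lit 475) (nat_lit 470) (nat_lit 255)) (XT.lf (nat_lit 76) (nat_lit 4514823817) (nat_lit 0) (nat_lit 148839045302) (nat_lit 608) (nat_lit 976571853594) (nat_lit 65) (nat_lit 5) (nat_lit 64) (nat_lit 5) (nat_lit 72) (nat_lit 5) (nat_lit 476) (nat_lit 470) (nat_lit 254))))))) (XT.nd (nat_lit 858) (nat_lit 1140) (nat_lit 0) (XT.nd (nat_lit 390) (nat_lit 836) (nat_lit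 0) (XT.nd (nat_lit 156) (nat_lit 228) (nat_lit 0) (XT.nd (nat_lit 78) (nat_lit 456) (nat_lit 0) (XT.lf (nat_lit 0) (nat_lit 255736070529) (nat_lit 532) (nat_lit 546284473655) (nat_lit 76) (nat_lit 375767372030) (nat_lit 65) (nat_lit 5) (nat_lit 72) (nat_lit 5) (nat_lit 66) (nat_lit 5) (nat_lit 477) (nat_lit 470) (nat_lit 253)) (XT.lf (nat_lit 0) (nat_lit 79271597740) (nat_lit 456) (nat_lit 292809678085) (nat_lit 532) (nat_lit 856936015150) (nat_lit 59) (nat_lit 5) (nat_lit 65) (nat_lit 5) (nat_lit 66) (nat_lit 5) (nat_lit 478) (nat_lit 470) (nat_lit 252))) (XT.nd (nat_lit 78) (nat_lit 228) (nat_lit 0) (XT.lf (nat_lit 0) (nat_lit 519242612674) (nat_lit 532) (nat_lit 503782407774) (nat_lit 76) (nat_lit 259599314061) (nat_lit 59) (nat_lit 5) (nat_lit 66) (nat_lit 5) (nat_lit 60) (nat_lit 5) (nat_lit 479) (nat_lit 470) (nat_lit 251)) (XT.nd (nat_lit 78) (nat_lit 0) (nat_lit 0) (XT.lf (nat_lit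 0) (nat_lit 196060215468) (nat_lit 228) (nat_lit 494437335446) (nat_lit 304) (nat_lit 649036735061) (nat_lit 56) (nat_lit 5) (nat_lit 59) (nat_lit 5) (nat_lit 60) (nat_lit 5) (nat_lit 480) (nat_lit 470) (nat_lit 250)) (XT.lf (nat_lit 0) (nat_lit 891423278179) (nat_lit 304) (nat_lit 421550388457) (nat_lit 76) (nat_lit 86745735406) (nat_lit 56) (nat_lit 5) (nat_lit 60) (nat_lit 5) (nat_lit 57) (nat_lit 5) (nat_lit 481) (nat_lit 470) (nat_lit 249))))) (XT.nd (nat_lit 234) (nat_lit 380) (nat_lit 0) (XT.nd (nat_lit 78) (nat_lit 228) (nat_lit 0) (XT.lf (nat_lit 0) (nat_lit 363466733269) (nat_lit 228) (nat_lit 766540238133) (nat_lit 304) (nat_lit 332985643372) (nat_lit 53) (nat_lit 5) (nat_lit 56) (nat_lit 5) (nat_lit 57) (nat_lit 5) (nat_lit 482) (nat_lit 470) (nat_lit 248)) (XT.nd (nat_lit 78) (nat_lit 228) (nat_lit 0) (XT.lf (nat_lit 0) (nat_lit 1235259164232) (nat_lit 228) (nat_lit 163944126626)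 (nat_lit 304) (nat_lit 131202319208) (nat_lit 53) (nat_lit 5) (nat_lit 56) (nat_lit 5) (nat_lit 57) (nat_lit 5) (nat_lit 483) (nat_lit 470) (nat_lit 247)) (XT.lf (nat_lit 0) (nat_lit 108992653353) (nat_lit 228) (nat_lit 1012434599640) (nat_lit 76) (nat_lit 479488955342) (nat_lit 50) (nat_lit 5) (nat_lit 53) (nat_lit 5) (nat_lit 51) (nat_lit 5) (nat_lit 484) (nat_lit 470) (nat_lit 246)))) (XT.nd (nat_lit 78) (nat_lit 380) (nat_lit 0) (XT.lf (nat_lit 0) (nat_lit 373852608844) (nat_lit 228) (nat_lit 124712672800) (nat_lit 76) (nat_lit 1177226727170) (nat_lit 50) (nat_lit 5) (nat_lit 53) (nat_lit 5) (nat_lit 51) (nat_lit 5) (nat_lit 485) (nat_lit 470) (nat_lit 245)) (XT.nd (nat_lit 78) (nat_lit 152) (nat_lit 0) (XT.lf (nat_lit 0) (nat_lit 685752122528) (nat_lit 304) (nat_lit 881759474431) (nat_lit 76) (nat_lit 187078215435) (nat_lit 47) (nat_lit 5) (nat_lit 51) (nat_lit 5) (nat_lit 48) (nat_lit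 5) (nat_lit 486) (nat_lit 470) (nat_lit 244)) (XT.lf (nat_lit 0) (nat_lit 110331570882) (nat_lit 152) (nat_lit 931373681178) (nat_lit 228) (nat_lit 796458055821) (nat_lit 45) (nat_lit 5) (nat_lit 47) (nat_lit 5) (nat_lit 48) (nat_lit 5) (nat_lit 487) (nat_lit 470) (nat_lit 243)))))) (XT.nd (nat_lit 468) (nat_lit 608) (nat_lit 0) (XT.nd (nat_lit 234) (nat_lit 304) (nat_lit 0) (XT.nd (nat_lit 78) (nat_lit 228) (nat_lit 0) (XT.lf (nat_lit 0) (nat_lit 1231936338145) (nat_lit 152) (nat_lit 218307157410) (nat_lit 228) (nat_lit 476250478365) (nat_lit 45) (nat_lit 5) (nat_lit 47) (nat_lit 5) (nat_lit 48) (nat_lit 5) (nat_lit 488) (nat_lit 470) (nat_lit 242)) (XT.nd (nat_lit 78) (nat_lit 76) (nat_lit 0) (XT.lf (nat_lit 0) (nat_lit 429597689666) (nat_lit 152) (nat_lit 1485469856811) (nat_lit 228) (nat_lit 104935326931) (nat_lit 43) (nat_lit 5) (nat_lit 45) (nat_lit 5) (nat_lit 46) (nat_lit 5) (nat_lit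 489) (nat_lit 470) (nat_lit 241)) (XT.lf (nat_lit 0) (nat_lit 306427671626) (nat_lit 228) (nat_lit 449572130942) (nat_lit 76) (nat_lit 1362410693493) (nat_lit 42) (nat_lit 5) (nat_lit 45) (nat_lit 5) (nat_lit 43) (nat_lit 5) (nat_lit 490) (nat_lit 470) (nat_lit 240)))) (XT.nd (nat_lit 78) (nat_lit 152) (nat_lit 0) (XT.lf (nat_lit 0) (nat_lit 766121326121) (nat_lit 228) (nat_lit 1403377406386) (nat_lit 76) (nat_lit 53286680643) (nat_lit 40) (nat_lit 5) (nat_lit 43) (nat_lit 5) (nat_lit 41) (nat_lit 5) (nat_lit 491) (nat_lit 470) (nat_lit 239)) (XT.nd (nat_lit 78) (nat_lit 152) (nat_lit 0) (XT.lf (nat_lit 0) (nat_lit 1294838203020) (nat_lit 228) (nat_lit 139008472550) (nat_lit 76) (nat_lit 899083829633) (nat_lit 40) (nat_lit 5) (nat_lit 43) (nat_lit 5) (nat_lit 41) (nat_lit 5) (nat_lit 492) (nat_lit 470) (nat_lit 238)) (XT.lf (nat_lit 0) (nat_lit 1291095813892) (nat_lit 152) (nat_lit 605807499213)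 (nat_lit 228) (nat_lit 552499820873) (nat_lit 38) (nat_lit 5) (nat_lit 40) (nat_lit 5) (nat_lit 41) (nat_lit 5) (nat_lit 493) (nat_lit 470) (nat_lit 237))))) (XT.nd (nat_lit 234) (nat_lit 304) (nat_lit 0) (XT.nd (nat_lit 78) (nat_lit 228) (nat_lit 0) (XT.lf (nat_lit 0) (nat_lit 275362669859) (nat_lit 76) (nat_lit 2289230723288) (nat_lit 152) (nat_lit 9203399019) (nat_lit 37) (nat_lit 5) (nat_lit 38) (nat_lit 5) (nat_lit 39) (nat_lit 4) (nat_lit 494) (nat_lit 470) (nat_lit 236)) (XT.nd (nat_lit 78) (nat_lit 152) (nat_lit 0) (XT.lf (nat_lit 0) (nat_lit 596893043730) (nat_lit 152) (nat_lit 846456225208) (nat_lit 76) (nat_lit 1259823211059) (nat_lit 36) (nat_lit 5) (nat_lit 38) (nat_lit 5) (nat_lit 37) (nat_lit 5) (nat_lit 495) (nat_lit 470) (nat_lit 235)) (XT.lf (nat_lit 0) (nat_lit 759430647555) (nat_lit 152) (nat_lit 509813654993) (nat_lit 228) (nat_lit 1572173650502) (nat_lit 34) (nat_lit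 5) (nat_lit 36) (nat_lit 5) (nat_lit 37) (nat_lit 5) (nat_lit 496) (nat_lit 470) (nat_lit 234)))) (XT.nd (nat_lit 78) (nat_lit 304) (nat_lit 0) (XT.lf (nat_lit 0) (nat_lit 2031115053697) (nat_lit 228) (nat_lit 459532173152) (nat_lit 76) (nat_lit 497217325768) (nat_lit 34) (nat_lit 5) (nat_lit 37) (nat_lit 5) (nat_lit 35) (nat_lit 4) (nat_lit 497) (nat_lit 470) (nat_lit 233)) (XT.nd (nat_lit 78) (nat_lit 228) (nat_lit 0) (XT.lf (nat_lit 0) (nat_lit 1346852468667) (nat_lit 76) (nat_lit 1552716741750) (nat_lit 152) (nat_lit 242806970096) (nat_lit 33) (nat_lit 5) (nat_lit 34) (nat_lit 5) (nat_lit 35) (nat_lit 4) (nat_lit 498) (nat_lit 470) (nat_lit 232)) (XT.lf (nat_lit 0) (nat_lit 2744804967) (nat_lit 152) (nat_lit 512037686957) (nat_lit 228) (nat_lit 2792413348180) (nat_lit 30) (nat_lit 5) (nat_lit 32) (nat_lit 5) (nat_lit 33) (nat_lit 5) (nat_lit 499) (nat_lit 470) (nat_lit 231))))))))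
noncomputable def xc234 : XT := (XT.nd (nat_lit 60372) (nat_lit 0) (nat_lit 1596) (XT.nd (nat_lit 858) (nat_lit 456) (nat_lit 0) (XT.nd (nat_lit 390) (nat_lit 380) (nat_lit 0) (XT.nd (nat_lit 156) (nat_lit 152) (nat_lit 0) (XT.nd (nat_lit 78) (nat_lit 76) (nat_lit 0) (XT.lf (nat_lit 0) (nat_lit 1384945269997) (nat_lit 228) (nat_lit 1456583742494) (nat_lit 76) (nat_lit 637960802635) (nat_lit 30) (nat_lit 5) (nat_lit 33) (nat_lit 5) (nat_lit 31) (nat_lit 4) (nat_lit 500) (nat_lit 470) (nat_lit 230)) (XT.lf (nat_lit 0) (nat_lit 553501644255) (nat_lit 76) (nat_lit 1797830832379) (nat_lit 152) (nat_lit 1312105919011) (nat_lit 29) (nat_lit 5) (nat_lit 30) (nat_lit 5) (nat_lit 31) (nat_lit 4) (nat_lit 501) (nat_lit 470) (nat_lit 229))) (XT.nd (nat_lit 78) (nat_lit 152) (nat_lit 0) (XT.lf (nat_lit 0) (nat_lit 2807231067039) (nat_lit 76) (nat_lit 627625171910) (nat_lit 152) (nat_lit 424060577327)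 (nat_lit 29) (nat_lit 5) (nat_lit 30) (nat_lit 5) (nat_lit 31) (nat_lit 4) (nat_lit 502) (nat_lit 470) (nat_lit 228)) (XT.nd (nat_lit 78) (nat_lit 0) (nat_lit 0) (XT.lf (nat_lit 0) (nat_lit 553986091941) (nat_lit 152) (nat_lit 2863699588572) (nat_lit 76) (nat_lit 647660675406) (nat_lit 27) (nat_lit 5) (nat_lit 29) (nat_lit 5) (nat_lit 28) (nat_lit 4) (nat_lit 503) (nat_lit 470) (nat_lit 227)) (XT.lf (nat_lit 0) (nat_lit 1633169993978) (nat_lit 152) (nat_lit 618997074581) (nat_lit 76) (nat_lit 2031577722541) (nat_lit 27) (nat_lit 5) (nat_lit 29) (nat_lit 5) (nat_lit 28) (nat_lit 4) (nat_lit 504) (nat_lit 470) (nat_lit 226))))) (XT.nd (nat_lit 234) (nat_lit 152) (nat_lit 0) (XT.nd (nat_lit 78) (nat_lit 152) (nat_lit 0) (XT.lf (nat_lit 0) (nat_lit 1900344569689) (nat_lit 76) (nat_lit 944047369650) (nat_lit 152) (nat_lit 1671566895265) (nat_lit 26) (nat_lit 5) (nat_lit 27) (nat_lit 5) (nat_lit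 28) (nat_lit 4) (nat_lit 505) (nat_lit 470) (nat_lit 225)) (XT.nd (nat_lit 78) (nat_lit 152) (nat_lit 0) (XT.lf (nat_lit 0) (nat_lit 4181148485774) (nat_lit 152) (nat_lit 120671958388) (nat_lit 0) (nat_lit 462638609790) (nat_lit 26) (nat_lit 5) (nat_lit 28) (nat_lit 4) (nat_lit 26) (nat_lit 4) (nat_lit 506) (nat_lit 470) (nat_lit 224)) (XT.lf (nat_lit 0) (nat_lit 653766078928) (nat_lit 152) (nat_lit 2358676433463) (nat_lit 76) (nat_lit 2011947808074) (nat_lit 24) (nat_lit 5) (nat_lit 26) (nat_lit 5) (nat_lit 25) (nat_lit 4) (nat_lit 507) (nat_lit 470) (nat_lit 223)))) (XT.nd (nat_lit 78) (nat_lit 76) (nat_lit 0) (XT.lf (nat_lit 0) (nat_lit 380835492835) (nat_lit 76) (nat_lit 1590003628318) (nat_lit 152) (nat_lit 3332061358443) (nat_lit 23) (nat_lit 5) (nat_lit 24) (nat_lit 5) (nat_lit 25) (nat_lit 4) (nat_lit 508) (nat_lit 470) (nat_lit 222)) (XT.nd (nat_lit 78) (nat_lit 76) (nat_lit 0)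 (XT.lf (nat_lit 0) (nat_lit 3458150313257) (nat_lit 152) (nat_lit 2125265744665) (nat_lit 0) (nat_lit 15085609016) (nat_lit 23) (nat_lit 5) (nat_lit 25) (nat_lit 4) (nat_lit 23) (nat_lit 4) (nat_lit 509) (nat_lit 470) (nat_lit 221)) (XT.lf (nat_lit 0) (nat_lit 898947640695) (nat_lit 76) (nat_lit 4228417266744) (nat_lit 76) (nat_lit 785352561290) (nat_lit 22) (nat_lit 4) (nat_lit 23) (nat_lit 5) (nat_lit 23) (nat_lit 4) (nat_lit 510) (nat_lit 470) (nat_lit 220)))))) (XT.nd (nat_lit 390) (nat_lit 152) (nat_lit 0) (XT.nd (nat_lit 156) (nat_lit 152) (nat_lit 0) (XT.nd (nat_lit 78) (nat_lit 76) (nat_lit 0) (XT.lf (nat_lit 0) (nat_lit 703745363805) (nat_lit 152) (nat_lit 1979274349862) (nat_lit 76) (nat_lit 3562976831485) (nat_lit 21) (nat_lit 5) (nat_lit 23) (nat_lit 5) (nat_lit 22) (nat_lit 4) (nat_lit 511) (nat_lit 470) (nat_lit 219)) (XT.lf (nat_lit 0) (nat_lit 1344857200467) (nat_lit 76)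 (nat_lit 957028332266) (nat_lit 152) (nat_lit 4299833005778) (nat_lit 20) (nat_lit 5) (nat_lit 21) (nat_lit 5) (nat_lit 22) (nat_lit 4) (nat_lit 512) (nat_lit 470) (nat_lit 218))) (XT.nd (nat_lit 78) (nat_lit 152) (nat_lit 0) (XT.lf (nat_lit 0) (nat_lit 4105213805877) (nat_lit 152) (nat_lit 1957306606646) (nat_lit 0) (nat_lit 917190927560) (nat_lit 20) (nat_lit 5) (nat_lit 22) (nat_lit 4) (nat_lit 20) (nat_lit 4) (nat_lit 513) (nat_lit 470) (nat_lit 217)) (XT.nd (nat_lit 78) (nat_lit 76) (nat_lit 0) (XT.lf (nat_lit 0) (nat_lit 1664625954534) (nat_lit 76) (nat_lit 4453074558315) (nat_lit 76) (nat_lit 1265051679172) (nat_lit 19) (nat_lit 4) (nat_lit 20) (nat_lit 5) (nat_lit 20) (nat_lit 4) (nat_lit 514) (nat_lit 470) (nat_lit 216)) (XT.lf (nat_lit 0) (nat_lit 504387235016) (nat_lit 152) (nat_lit 2138897431073) (nat_lit 76) (nat_lit 5169448803838) (nat_lit 18) (nat_lit 5) (nat_lit 20) (nat_lit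 5) (nat_lit 19) (nat_lit 4) (nat_lit 515) (nat_lit 470) (nat_lit 215))))) (XT.nd (nat_lit 234) (nat_lit 0) (nat_lit 0) (XT.nd (nat_lit 78) (nat_lit 76) (nat_lit 0) (XT.lf (nat_lit 0) (nat_lit 1783004288558) (nat_lit 76) (nat_lit 606912619698) (nat_lit 152) (nat_lit 5881137159388) (nat_lit 17) (nat_lit 5) (nat_lit 18) (nat_lit 5) (nat_lit 19) (nat_lit 4) (nat_lit 516) (nat_lit 470) (nat_lit 214)) (XT.nd (nat_lit 78) (nat_lit 76) (nat_lit 0) (XT.lf (nat_lit 0) (nat_lit 4524585711367) (nat_lit 152) (nat_lit 2660878188178) (nat_lit 0) (nat_lit 1572712673153) (nat_lit 17) (nat_lit 5) (nat_lit 19) (nat_lit 4) (nat_lit 17) (nat_lit 4) (nat_lit 517) (nat_lit 470) (nat_lit 213)) (XT.lf (nat_lit 0) (nat_lit 1533410571264) (nat_lit 76) (nat_lit 5349259971859) (nat_lit 76) (nat_lit 2397386933082) (nat_lit 16) (nat_lit 4) (nat_lit 17) (nat_lit 5) (nat_lit 17) (nat_lit 4) (nat_lit 518) (nat_lit 470)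 (nat_lit 212)))) (XT.nd (nat_lit 58734) (nat_lit 0) (nat_lit 4028) (XT.lf (nat_lit 0) (nat_lit 6214568930092) (nat_lit 76) (nat_lit 3287586355627) (nat_lit 76) (nat_lit 335713316330) (nat_lit 16) (nat_lit 4) (nat_lit 17) (nat_lit 5) (nat_lit 17) (nat_lit 4) (nat_lit 519) (nat_lit 470) (nat_lit 211)) (XT.nd (nat_lit 78) (nat_lit 0) (nat_lit 0) (XT.lf (nat_lit 0) (nat_lit 439902133636) (nat_lit 532) (nat_lit 19955716759) (nat_lit 532) (nat_lit 19955716759) (nat_lit 69) (nat_lit 3) (nat_lit 76) (nat_lit 3) (nat_lit 76) (nat_lit 5) (nat_lit 471) (nat_lit 471) (nat_lit 258)) (XT.lf (nat_lit 76) (nat_lit 452981820425) (nat_lit 0) (nat_lit 472908907904) (nat_lit 532) (nat_lit 71249948081) (nat_lit 70) (nat_lit 5) (nat_lit 69) (nat_lit 3) (nat_lit 76) (nat_lit 5) (nat_lit 472) (nat_lit 471) (nat_lit 257))))))) (XT.nd (nat_lit 858) (nat_lit 1216) (nat_lit 0) (XT.nd (nat_lit 390) (nat_lit 760) (nat_lit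 0) (XT.nd (nat_lit 156) (nat_lit 532) (nat_lit 0) (XT.nd (nat_lit 78) (nat_lit 0) (nat_lit 0) (XT.lf (nat_lit 0) (nat_lit 977015593673) (nat_lit 456) (nat_lit 50251917842) (nat_lit 532) (nat_lit 10279671373) (nat_lit 70) (nat_lit 5) (nat_lit 76) (nat_lit 5) (nat_lit 77) (nat_lit 5) (nat_lit 473) (nat_lit 471) (nat_lit 256)) (XT.lf (nat_lit 76) (nat_lit 495680151715) (nat_lit 0) (nat_lit 560754758160) (nat_lit 532) (nat_lit 22814943084) (nat_lit 71) (nat_lit 5) (nat_lit 70) (nat_lit 5) (nat_lit 77) (nat_lit 5) (nat_lit 474) (nat_lit 471) (nat_lit 255))) (XT.nd (nat_lit 78) (nat_lit 0) (nat_lit 76) (XT.lf (nat_lit 0) (nat_lit 18432310247) (nat_lit 532) (nat_lit 36500805803) (nat_lit 608) (nat_lit 1069208371676) (nat_lit 63) (nat_lit 5) (nat_lit 70) (nat_lit 5) (nat_lit 71) (nat_lit 5) (nat_lit 475) (nat_lit 471) (nat_lit 254)) (XT.nd (nat_lit 78) (nat_lit 0) (nat_lit 0) (XT.lf (nat_lit 0)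 (nat_lit 87962095779) (nat_lit 532) (nat_lit 600752121570) (nat_lit 608) (nat_lit 481765600137) (nat_lit 64) (nat_lit 5) (nat_lit 71) (nat_lit 5) (nat_lit 72) (nat_lit 5) (nat_lit 476) (nat_lit 471) (nat_lit 253)) (XT.lf (nat_lit 76) (nat_lit 4876098748) (nat_lit 0) (nat_lit 160746183393) (nat_lit 608) (nat_lit 1054697490050) (nat_lit 65) (nat_lit 5) (nat_lit 64) (nat_lit 5) (nat_lit 72) (nat_lit 5) (nat_lit 477) (nat_lit 471) (nat_lit 252))))) (XT.nd (nat_lit 234) (nat_lit 456) (nat_lit 0) (XT.nd (nat_lit 78) (nat_lit 456) (nat_lit 0) (XT.lf (nat_lit 0) (nat_lit 276195051676) (nat_lit 532) (nat_lit 589987141072) (nat_lit 76) (nat_lit 405828749067) (nat_lit 65) (nat_lit 5) (nat_lit 72) (nat_lit 5) (nat_lit 66) (nat_lit 5) (nat_lit 478) (nat_lit 471) (nat_lit 251)) (XT.nd (nat_lit 78) (nat_lit 0) (nat_lit 0) (XT.lf (nat_lit 0) (nat_lit 85613413743) (nat_lit 456) (nat_lit 316234454698) (nat_lit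 532) (nat_lit 925490798516) (nat_lit 59) (nat_lit 5) (nat_lit 65) (nat_lit 5) (nat_lit 66) (nat_lit 5) (nat_lit 479) (nat_lit 471) (nat_lit 250)) (XT.lf (nat_lit 0) (nat_lit 560782105479) (nat_lit 532) (nat_lit 544084911937) (nat_lit 76) (nat_lit 280367257104) (nat_lit 59) (nat_lit 5) (nat_lit 66) (nat_lit 5) (nat_lit 60) (nat_lit 5) (nat_lit 480) (nat_lit 471) (nat_lit 249)))) (XT.nd (nat_lit 78) (nat_lit 228) (nat_lit 0) (XT.lf (nat_lit 0) (nat_lit 211745118926) (nat_lit 228) (nat_lit 533992315719) (nat_lit 304) (nat_lit 700959587791) (nat_lit 56) (nat_lit 5) (nat_lit 59) (nat_lit 5) (nat_lit 60) (nat_lit 5) (nat_lit 481) (nat_lit 471) (nat_lit 248)) (XT.nd (nat_lit 78) (nat_lit 228) (nat_lit 0) (XT.lf (nat_lit 0) (nat_lit 962737214336) (nat_lit 304) (nat_lit 455274333905) (nat_lit 76) (nat_lit 93685400011) (nat_lit 56) (nat_lit 5) (nat_lit 60) (nat_lit 5) (nat_lit 57) (nat_lit 5) (nat_lit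 482) (nat_lit 471) (nat_lit 247)) (XT.lf (nat_lit 0) (nat_lit 392544155391) (nat_lit 228) (nat_lit 827863444160) (nat_lit 304) (nat_lit 359624418733) (nat_lit 53) (nat_lit 5) (nat_lit 56) (nat_lit 5) (nat_lit 57) (nat_lit 5) (nat_lit 483) (nat_lit 471) (nat_lit 246)))))) (XT.nd (nat_lit 468) (nat_lit 608) (nat_lit 0) (XT.nd (nat_lit 234) (nat_lit 380) (nat_lit 0) (XT.nd (nat_lit 78) (nat_lit 228) (nat_lit 0) (XT.lf (nat_lit 0) (nat_lit 1334079974649) (nat_lit 228) (nat_lit 177059644696) (nat_lit 304) (nat_lit 141698434274) (nat_lit 53) (nat_lit 5) (nat_lit 56) (nat_lit 5) (nat_lit 57) (nat_lit 5) (nat_lit 484) (nat_lit 471) (nat_lit 245)) (XT.nd (nat_lit 78) (nat_lit 0) (nat_lit 0) (XT.lf (nat_lit 0) (nat_lit 117712129862) (nat_lit 228) (nat_lit 1093429284040) (nat_lit 76) (nat_lit 517848085931) (nat_lit 50) (nat_lit 5) (nat_lit 53) (nat_lit 5) (nat_lit 51) (nat_lit 5) (nat_lit 485) (nat_lit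 471) (nat_lit 244)) (XT.lf (nat_lit 0) (nat_lit 403760877034) (nat_lit 228) (nat_lit 134689609244) (nat_lit 76) (nat_lit 1271404878457) (nat_lit 50) (nat_lit 5) (nat_lit 53) (nat_lit 5) (nat_lit 51) (nat_lit 5) (nat_lit 486) (nat_lit 471) (nat_lit 243)))) (XT.nd (nat_lit 78) (nat_lit 152) (nat_lit 0) (XT.lf (nat_lit 0) (nat_lit 740612349666) (nat_lit 304) (nat_lit 952300152833) (nat_lit 76) (nat_lit 202044490275) (nat_lit 47) (nat_lit 5) (nat_lit 51) (nat_lit 5) (nat_lit 48) (nat_lit 5) (nat_lit 487) (nat_lit 471) (nat_lit 242)) (XT.nd (nat_lit 78) (nat_lit 0) (nat_lit 0) (XT.lf (nat_lit 0) (nat_lit 119158174091) (nat_lit 152) (nat_lit 1005883553087) (nat_lit 228) (nat_lit 860174640914) (nat_lit 45) (nat_lit 5) (nat_lit 47) (nat_lit 5) (nat_lit 48) (nat_lit 5) (nat_lit 488) (nat_lit 471) (nat_lit 241)) (XT.lf (nat_lit 0) (nat_lit 1330491316992) (nat_lit 152) (nat_lit 235771709091) (nat_lit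 228) (nat_lit 514350461659) (nat_lit 45) (nat_lit 5) (nat_lit 47) (nat_lit 5) (nat_lit 48) (nat_lit 5) (nat_lit 489) (nat_lit 471) (nat_lit 240))))) (XT.nd (nat_lit 234) (nat_lit 228) (nat_lit 0) (XT.nd (nat_lit 78) (nat_lit 228) (nat_lit 0) (XT.lf (nat_lit 0) (nat_lit 463965578316) (nat_lit 152) (nat_lit 1604307421226) (nat_lit 228) (nat_lit 113330099771) (nat_lit 43) (nat_lit 5) (nat_lit 45) (nat_lit 5) (nat_lit 46) (nat_lit 5) (nat_lit 490) (nat_lit 471) (nat_lit 239)) (XT.nd (nat_lit 78) (nat_lit 152) (nat_lit 0) (XT.lf (nat_lit 0) (nat_lit 330941932251) (nat_lit 228) (nat_lit 485537830897) (nat_lit 76) (nat_lit 1471403568829) (nat_lit 42) (nat_lit 5) (nat_lit 45) (nat_lit 5) (nat_lit 43) (nat_lit 5) (nat_lit 491) (nat_lit 471) (nat_lit 238)) (XT.lf (nat_lit 0) (nat_lit 827411077854) (nat_lit 228) (nat_lit 1515647527108) (nat_lit 76) (nat_lit 57549637571) (nat_lit 40) (nat_lit 5) (nat_lit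 43) (nat_lit 5) (nat_lit 41) (nat_lit 5) (nat_lit 492) (nat_lit 471) (nat_lit 237)))) (XT.nd (nat_lit 78) (nat_lit 228) (nat_lit 0) (XT.lf (nat_lit 0) (nat_lit 1398425301524) (nat_lit 228) (nat_lit 150129083883) (nat_lit 76) (nat_lit 971010556816) (nat_lit 40) (nat_lit 5) (nat_lit 43) (nat_lit 5) (nat_lit 41) (nat_lit 5) (nat_lit 493) (nat_lit 471) (nat_lit 236)) (XT.nd (nat_lit 78) (nat_lit 76) (nat_lit 0) (XT.lf (nat_lit 0) (nat_lit 1394383543791) (nat_lit 152) (nat_lit 654272075053) (nat_lit 228) (nat_lit 596699762583) (nat_lit 38) (nat_lit 5) (nat_lit 40) (nat_lit 5) (nat_lit 41) (nat_lit 5) (nat_lit 494) (nat_lit 471) (nat_lit 235)) (XT.lf (nat_lit 0) (nat_lit 297391749216) (nat_lit 76) (nat_lit 2472369155176) (nat_lit 152) (nat_lit 9939627949) (nat_lit 37) (nat_lit 5) (nat_lit 38) (nat_lit 5) (nat_lit 39) (nat_lit 4) (nat_lit 495) (nat_lit 471) (nat_lit 234))))))))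
noncomputable def xc235 : XT := (XT.nd (nat_lit 1716) (nat_lit 0) (nat_lit 0) (XT.nd (nat_lit 858) (nat_lit 684) (nat_lit 0) (XT.nd (nat_lit 390) (nat_lit 304) (nat_lit 0) (XT.nd (nat_lit 156) (nat_lit 304) (nat_lit 0) (XT.nd (nat_lit 78) (nat_lit 152) (nat_lit 0) (XT.lf (nat_lit 0) (nat_lit 644644525044) (nat_lit 152) (nat_lit 914172660325) (nat_lit 76) (nat_lit 1360609089992) (nat_lit 36) (nat_lit 5) (nat_lit 38) (nat_lit 5) (nat_lit 37) (nat_lit 5) (nat_lit 496) (nat_lit 471) (nat_lit 233)) (XT.lf (nat_lit 0) (nat_lit 820185160666) (nat_lit 152) (nat_lit 550598722574) (nat_lit 228) (nat_lit 1697947503124) (nat_lit 34) (nat_lit 5) (nat_lit 36) (nat_lit 5) (nat_lit 37) (nat_lit 5) (nat_lit 497) (nat_lit 471) (nat_lit 232))) (XT.nd (nat_lit 78) (nat_lit 304) (nat_lit 0) (XT.lf (nat_lit 0) (nat_lit 2193604292332) (nat_lit 228) (nat_lit 496294688079) (nat_lit 76) (nat_lit 536994733660) (nat_lit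 34) (nat_lit 5) (nat_lit 37) (nat_lit 5) (nat_lit 35) (nat_lit 4) (nat_lit 498) (nat_lit 471) (nat_lit 231)) (XT.nd (nat_lit 78) (nat_lit 228) (nat_lit 0) (XT.lf (nat_lit 0) (nat_lit 1454600723594) (nat_lit 76) (nat_lit 1676934056832) (nat_lit 152) (nat_lit 262231491865) (nat_lit 33) (nat_lit 5) (nat_lit 34) (nat_lit 5) (nat_lit 35) (nat_lit 4) (nat_lit 499) (nat_lit 471) (nat_lit 230)) (XT.lf (nat_lit 0) (nat_lit 2964447099) (nat_lit 152) (nat_lit 553000677091) (nat_lit 228) (nat_lit 3015806380481) (nat_lit 30) (nat_lit 5) (nat_lit 32) (nat_lit 5) (nat_lit 33) (nat_lit 5) (nat_lit 500) (nat_lit 471) (nat_lit 229))))) (XT.nd (nat_lit 234) (nat_lit 228) (nat_lit 0) (XT.nd (nat_lit 78) (nat_lit 76) (nat_lit 0) (XT.lf (nat_lit 0) (nat_lit 1495740922624) (nat_lit 228) (nat_lit 1573110386543) (nat_lit 76) (nat_lit 688997688680) (nat_lit 30) (nat_lit 5) (nat_lit 33) (nat_lit 5) (nat_lit 31) (nat_lit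 4) (nat_lit 501) (nat_lit 471) (nat_lit 228)) (XT.nd (nat_lit 78) (nat_lit 0) (nat_lit 0) (XT.lf (nat_lit 0) (nat_lit 597781829745) (nat_lit 76) (nat_lit 1941657275047) (nat_lit 152) (nat_lit 1417074360097) (nat_lit 29) (nat_lit 5) (nat_lit 30) (nat_lit 5) (nat_lit 31) (nat_lit 4) (nat_lit 502) (nat_lit 471) (nat_lit 227)) (XT.lf (nat_lit 0) (nat_lit 3031809602355) (nat_lit 76) (nat_lit 677835163512) (nat_lit 152) (nat_lit 457985393481) (nat_lit 29) (nat_lit 5) (nat_lit 30) (nat_lit 5) (nat_lit 31) (nat_lit 4) (nat_lit 503) (nat_lit 471) (nat_lit 226)))) (XT.nd (nat_lit 78) (nat_lit 76) (nat_lit 0) (XT.lf (nat_lit 0) (nat_lit 598305007462) (nat_lit 152) (nat_lit 3092795503827) (nat_lit 76) (nat_lit 699473550845) (nat_lit 27) (nat_lit 5) (nat_lit 29) (nat_lit 5) (nat_lit 28) (nat_lit 4) (nat_lit 504) (nat_lit 471) (nat_lit 225)) (XT.nd (nat_lit 78) (nat_lit 76) (nat_lit 0) (XT.lf (nat_lit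 0) (nat_lit 1763823619575) (nat_lit 152) (nat_lit 668516792556) (nat_lit 76) (nat_lit 2194103960166) (nat_lit 27) (nat_lit 5) (nat_lit 29) (nat_lit 5) (nat_lit 28) (nat_lit 4) (nat_lit 505) (nat_lit 471) (nat_lit 224)) (XT.lf (nat_lit 0) (nat_lit 2052372182041) (nat_lit 76) (nat_lit 1019571137717) (nat_lit 152) (nat_lit 1805292219588) (nat_lit 26) (nat_lit 5) (nat_lit 27) (nat_lit 5) (nat_lit 28) (nat_lit 4) (nat_lit 506) (nat_lit 471) (nat_lit 223)))))) (XT.nd (nat_lit 390) (nat_lit 380) (nat_lit 0) (XT.nd (nat_lit 156) (nat_lit 152) (nat_lit 0) (XT.nd (nat_lit 78) (nat_lit 152) (nat_lit 0) (XT.lf (nat_lit 0) (nat_lit 4515640388515) (nat_lit 152) (nat_lit 130325670351) (nat_lit 0) (nat_lit 499649717488) (nat_lit 26) (nat_lit 5) (nat_lit 28) (nat_lit 4) (nat_lit 26) (nat_lit 4) (nat_lit 507) (nat_lit 471) (nat_lit 222)) (XT.lf (nat_lit 0) (nat_lit 706067389006) (nat_lit 152) (nat_lit 2547370503309)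 (nat_lit 76) (nat_lit 2172903651884) (nat_lit 24) (nat_lit 5) (nat_lit 26) (nat_lit 5) (nat_lit 25) (nat_lit 4) (nat_lit 508) (nat_lit 471) (nat_lit 221))) (XT.nd (nat_lit 78) (nat_lit 76) (nat_lit 0) (XT.lf (nat_lit 0) (nat_lit 411302375959) (nat_lit 76) (nat_lit 1717203897940) (nat_lit 152) (nat_lit 3598626242217) (nat_lit 23) (nat_lit 5) (nat_lit 24) (nat_lit 5) (nat_lit 25) (nat_lit 4) (nat_lit 509) (nat_lit 471) (nat_lit 220)) (XT.nd (nat_lit 78) (nat_lit 76) (nat_lit 0) (XT.lf (nat_lit 0) (nat_lit 3734802360123) (nat_lit 152) (nat_lit 2295286962527) (nat_lit 0) (nat_lit 16292475895) (nat_lit 23) (nat_lit 5) (nat_lit 25) (nat_lit 4) (nat_lit 23) (nat_lit 4) (nat_lit 510) (nat_lit 471) (nat_lit 219)) (XT.lf (nat_lit 0) (nat_lit 970863492606) (nat_lit 76) (nat_lit 4566690628597) (nat_lit 76) (nat_lit 848180743329) (nat_lit 22) (nat_lit 4) (nat_lit 23) (nat_lit 5) (nat_lit 23) (nat_lit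 4) (nat_lit 511) (nat_lit 471) (nat_lit 218))))) (XT.nd (nat_lit 234) (nat_lit 228) (nat_lit 0) (XT.nd (nat_lit 78) (nat_lit 76) (nat_lit 0) (XT.lf (nat_lit 0) (nat_lit 760045013022) (nat_lit 152) (nat_lit 2137616259146) (nat_lit 76) (nat_lit 3848014994986) (nat_lit 21) (nat_lit 5) (nat_lit 23) (nat_lit 5) (nat_lit 22) (nat_lit 4) (nat_lit 512) (nat_lit 471) (nat_lit 217)) (XT.nd (nat_lit 78) (nat_lit 0) (nat_lit 0) (XT.lf (nat_lit 0) (nat_lit 1452445814229) (nat_lit 76) (nat_lit 1033590580652) (nat_lit 152) (nat_lit 4643819625147) (nat_lit 20) (nat_lit 5) (nat_lit 21) (nat_lit 5) (nat_lit 22) (nat_lit 4) (nat_lit 513) (nat_lit 471) (nat_lit 216)) (XT.lf (nat_lit 0) (nat_lit 4433630928835) (nat_lit 152) (nat_lit 2113891099203) (nat_lit 0) (nat_lit 990566217770) (nat_lit 20) (nat_lit 5) (nat_lit 22) (nat_lit 4) (nat_lit 20) (nat_lit 4) (nat_lit 514) (nat_lit 471) (nat_lit 215)))) (XT.nd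 (nat_lit 78) (nat_lit 152) (nat_lit 0) (XT.lf (nat_lit 0) (nat_lit 1797796065960) (nat_lit 76) (nat_lit 4809320505879) (nat_lit 76) (nat_lit 1366255794106) (nat_lit 19) (nat_lit 4) (nat_lit 20) (nat_lit 5) (nat_lit 20) (nat_lit 4) (nat_lit 515) (nat_lit 471) (nat_lit 214)) (XT.nd (nat_lit 78) (nat_lit 76) (nat_lit 0) (XT.lf (nat_lit 0) (nat_lit 544738230882) (nat_lit 152) (nat_lit 2310009192193) (nat_lit 76) (nat_lit 5583004723079) (nat_lit 18) (nat_lit 5) (nat_lit 20) (nat_lit 5) (nat_lit 19) (nat_lit 4) (nat_lit 516) (nat_lit 471) (nat_lit 213)) (XT.lf (nat_lit 0) (nat_lit 1925644664164) (nat_lit 76) (nat_lit 655465613335) (nat_lit 152) (nat_lit 6351628114228) (nat_lit 17) (nat_lit 5) (nat_lit 18) (nat_lit 5) (nat_lit 19) (nat_lit 4) (nat_lit 517) (nat_lit 471) (nat_lit 212))))))) (XT.nd (nat_lit 59670) (nat_lit 0) (nat_lit 1748) (XT.nd (nat_lit 59202) (nat_lit 0) (nat_lit 3192) (XT.nd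 (nat_lit 58968) (nat_lit 0) (nat_lit 3952) (XT.nd (nat_lit 58890) (nat_lit 0) (nat_lit 3952) (XT.lf (nat_lit 0) (nat_lit 4886552583986) (nat_lit 152) (nat_lit 2873748412245) (nat_lit 0) (nat_lit 1698529701025) (nat_lit 17) (nat_lit 5) (nat_lit 19) (nat_lit 4) (nat_lit 17) (nat_lit 4) (nat_lit 518) (nat_lit 471) (nat_lit 211)) (XT.lf (nat_lit 0) (nat_lit 475094369413) (nat_lit 532) (nat_lit 21552138932) (nat_lit 532) (nat_lit 21552138932) (nat_lit 69) (nat_lit 3) (nat_lit 76) (nat_lit 3) (nat_lit 76) (nat_lit 5) (nat_lit 472) (nat_lit 472) (nat_lit 256))) (XT.nd (nat_lit 78) (nat_lit 0) (nat_lit 76) (XT.lf (nat_lit 76) (nat_lit 489220434615) (nat_lit 0) (nat_lit 510741674158) (nat_lit 532) (nat_lit 76949811894) (nat_lit 70) (nat_lit 5) (nat_lit 69) (nat_lit 3) (nat_lit 76) (nat_lit 5) (nat_lit 473) (nat_lit 472) (nat_lit 255)) (XT.nd (nat_lit 78) (nat_lit 0) (nat_lit 0) (XT.lf (nat_lit 0)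 (nat_lit 1055176953101) (nat_lit 456) (nat_lit 54271997472) (nat_lit 532) (nat_lit 11101997917) (nat_lit 70) (nat_lit 5) (nat_lit 76) (nat_lit 5) (nat_lit 77) (nat_lit 5) (nat_lit 474) (nat_lit 472) (nat_lit 254)) (XT.lf (nat_lit 76) (nat_lit 535334635781) (nat_lit 0) (nat_lit 605615172256) (nat_lit 532) (nat_lit 24640024660) (nat_lit 71) (nat_lit 5) (nat_lit 70) (nat_lit 5) (nat_lit 77) (nat_lit 5) (nat_lit 475) (nat_lit 472) (nat_lit 253))))) (XT.nd (nat_lit 234) (nat_lit 304) (nat_lit 0) (XT.nd (nat_lit 78) (nat_lit 0) (nat_lit 76) (XT.lf (nat_lit 0) (nat_lit 19906995229) (nat_lit 532) (nat_lit 39420798332) (nat_lit 608) (nat_lit 1154745005109) (nat_lit 63) (nat_lit 5) (nat_lit 70) (nat_lit 5) (nat_lit 71) (nat_lit 5) (nat_lit 476) (nat_lit 472) (nat_lit 252)) (XT.nd (nat_lit 78) (nat_lit 0) (nat_lit 0) (XT.lf (nat_lit 0) (nat_lit 94999157285) (nat_lit 532) (nat_lit 648812212988) (nat_lit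 608) (nat_lit 520306825049) (nat_lit 64) (nat_lit 5) (nat_lit 71) (nat_lit 5) (nat_lit 72) (nat_lit 5) (nat_lit 477) (nat_lit 472) (nat_lit 251)) (XT.lf (nat_lit 76) (nat_lit 5266262973) (nat_lit 0) (nat_lit 173605890468) (nat_lit 608) (nat_lit 1139073193376) (nat_lit 65) (nat_lit 5) (nat_lit 64) (nat_lit 5) (nat_lit 72) (nat_lit 5) (nat_lit 478) (nat_lit 472) (nat_lit 250)))) (XT.nd (nat_lit 78) (nat_lit 456) (nat_lit 0) (XT.lf (nat_lit 0) (nat_lit 298290737690) (nat_lit 532) (nat_lit 637186034790) (nat_lit 76) (nat_lit 438295038083) (nat_lit 65) (nat_lit 5) (nat_lit 72) (nat_lit 5) (nat_lit 66) (nat_lit 5) (nat_lit 479) (nat_lit 472) (nat_lit 249)) (XT.nd (nat_lit 78) (nat_lit 0) (nat_lit 0) (XT.lf (nat_lit 0) (nat_lit 92462562447) (nat_lit 456) (nat_lit 341533213103) (nat_lit 532) (nat_lit 999529978510) (nat_lit 59) (nat_lit 5) (nat_lit 65) (nat_lit 5) (nat_lit 66) (nat_lit 5) (nat_lit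 480) (nat_lit 472) (nat_lit 248)) (XT.lf (nat_lit 0) (nat_lit 605644745754) (nat_lit 532) (nat_lit 587611629052) (nat_lit 76) (nat_lit 302796635888) (nat_lit 59) (nat_lit 5) (nat_lit 66) (nat_lit 5) (nat_lit 60) (nat_lit 5) (nat_lit 481) (nat_lit 472) (nat_lit 247)))))) (XT.nd (nat_lit 468) (nat_lit 760) (nat_lit 0) (XT.nd (nat_lit 234) (nat_lit 228) (nat_lit 0) (XT.nd (nat_lit 78) (nat_lit 228) (nat_lit 0) (XT.lf (nat_lit 0) (nat_lit 228684802360) (nat_lit 228) (nat_lit 576711695350) (nat_lit 304) (nat_lit 757036281020) (nat_lit 56) (nat_lit 5) (nat_lit 59) (nat_lit 5) (nat_lit 60) (nat_lit 5) (nat_lit 482) (nat_lit 472) (nat_lit 246)) (XT.nd (nat_lit 78) (nat_lit 228) (nat_lit 0) (XT.lf (nat_lit 0) (nat_lit 1039756254843) (nat_lit 304) (nat_lit 491696207205) (nat_lit 76) (nat_lit 101180236960) (nat_lit 56) (nat_lit 5) (nat_lit 60) (nat_lit 5) (nat_lit 57) (nat_lit 5) (nat_lit 483) (nat_lit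 472) (nat_lit 245)) (XT.lf (nat_lit 0) (nat_lit 423947759377) (nat_lit 228) (nat_lit 894092508526) (nat_lit 304) (nat_lit 388394306981) (nat_lit 53) (nat_lit 5) (nat_lit 56) (nat_lit 5) (nat_lit 57) (nat_lit 5) (nat_lit 484) (nat_lit 472) (nat_lit 244)))) (XT.nd (nat_lit 78) (nat_lit 228) (nat_lit 0) (XT.lf (nat_lit 0) (nat_lit 1440806438874) (nat_lit 228) (nat_lit 191224405932) (nat_lit 304) (nat_lit 153034248598) (nat_lit 53) (nat_lit 5) (nat_lit 56) (nat_lit 5) (nat_lit 57) (nat_lit 5) (nat_lit 485) (nat_lit 472) (nat_lit 243)) (XT.nd (nat_lit 78) (nat_lit 0) (nat_lit 0) (XT.lf (nat_lit 0) (nat_lit 127129155326) (nat_lit 228) (nat_lit 1180903555114) (nat_lit 76) (nat_lit 559275944947) (nat_lit 50) (nat_lit 5) (nat_lit 53) (nat_lit 5) (nat_lit 51) (nat_lit 5) (nat_lit 486) (nat_lit 472) (nat_lit 242)) (XT.lf (nat_lit 0) (nat_lit 436061798192) (nat_lit 228) (nat_lit 145464711642) (nat_lit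 76) (nat_lit 1373117279976) (nat_lit 50) (nat_lit 5) (nat_lit 53) (nat_lit 5) (nat_lit 51) (nat_lit 5) (nat_lit 487) (nat_lit 472) (nat_lit 241))))) (XT.nd (nat_lit 234) (nat_lit 380) (nat_lit 0) (XT.nd (nat_lit 78) (nat_lit 152) (nat_lit 0) (XT.lf (nat_lit 0) (nat_lit 799861386795) (nat_lit 304) (nat_lit 1028484096856) (nat_lit 76) (nat_lit 218208064591) (nat_lit 47) (nat_lit 5) (nat_lit 51) (nat_lit 5) (nat_lit 48) (nat_lit 5) (nat_lit 488) (nat_lit 472) (nat_lit 240)) (XT.nd (nat_lit 78) (nat_lit 0) (nat_lit 0) (XT.lf (nat_lit 0) (nat_lit 128690894495) (nat_lit 152) (nat_lit 1086354217970) (nat_lit 228) (nat_lit 928988561285) (nat_lit 45) (nat_lit 5) (nat_lit 47) (nat_lit 5) (nat_lit 48) (nat_lit 5) (nat_lit 489) (nat_lit 472) (nat_lit 239)) (XT.lf (nat_lit 0) (nat_lit 1436930683904) (nat_lit 152) (nat_lit 254633427888) (nat_lit 228) (nat_lit 555498451460) (nat_lit 45) (nat_lit 5) (nat_lit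 47) (nat_lit 5) (nat_lit 48) (nat_lit 5) (nat_lit 490) (nat_lit 472) (nat_lit 238)))) (XT.nd (nat_lit 78) (nat_lit 228) (nat_lit 0) (XT.lf (nat_lit 0) (nat_lit 501082887575) (nat_lit 152) (nat_lit 1732651994236) (nat_lit 228) (nat_lit 122396462044) (nat_lit 43) (nat_lit 5) (nat_lit 45) (nat_lit 5) (nat_lit 46) (nat_lit 5) (nat_lit 491) (nat_lit 472) (nat_lit 237)) (XT.nd (nat_lit 78) (nat_lit 152) (nat_lit 0) (XT.lf (nat_lit 0) (nat_lit 357417327037) (nat_lit 228) (nat_lit 524380796908) (nat_lit 76) (nat_lit 1589115871358) (nat_lit 42) (nat_lit 5) (nat_lit 45) (nat_lit 5) (nat_lit 43) (nat_lit 5) (nat_lit 492) (nat_lit 472) (nat_lit 236)) (XT.lf (nat_lit 0) (nat_lit 893604003215) (nat_lit 228) (nat_lit 1636899267730) (nat_lit 76) (nat_lit 62153627847) (nat_lit 40) (nat_lit 5) (nat_lit 43) (nat_lit 5) (nat_lit 41) (nat_lit 5) (nat_lit 493) (nat_lit 472) (nat_lit 235))))))))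
noncomputable def xc236 : XT := (XT.nd (nat_lit 1716) (nat_lit 228) (nat_lit 0) (XT.nd (nat_lit 858) (nat_lit 684) (nat_lit 0) (XT.nd (nat_lit 390) (nat_lit 380) (nat_lit 0) (XT.nd (nat_lit 156) (nat_lit 304) (nat_lit 0) (XT.nd (nat_lit 78) (nat_lit 152) (nat_lit 0) (XT.lf (nat_lit 0) (nat_lit 1510299361880) (nat_lit 228) (nat_lit 162139353606) (nat_lit 76) (nat_lit 1048691419204) (nat_lit 40) (nat_lit 5) (nat_lit 43) (nat_lit 5) (nat_lit 41) (nat_lit 5) (nat_lit 494) (nat_lit 472) (nat_lit 234)) (XT.lf (nat_lit 0) (nat_lit 1505934282840) (nat_lit 152) (nat_lit 706613820398) (nat_lit 228) (nat_lit 644435705902) (nat_lit 38) (nat_lit 5) (nat_lit 40) (nat_lit 5) (nat_lit 41) (nat_lit 5) (nat_lit 495) (nat_lit 472) (nat_lit 233))) (XT.nd (nat_lit 78) (nat_lit 228) (nat_lit 0) (XT.lf (nat_lit 0) (nat_lit 321183145540) (nat_lit 76) (nat_lit 2670158665322) (nat_lit 152) (nat_lit 10734761328)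 (nat_lit 37) (nat_lit 5) (nat_lit 38) (nat_lit 5) (nat_lit 39) (nat_lit 4) (nat_lit 496) (nat_lit 472) (nat_lit 232)) (XT.nd (nat_lit 78) (nat_lit 152) (nat_lit 0) (XT.lf (nat_lit 0) (nat_lit 696216119468) (nat_lit 152) (nat_lit 987306419225) (nat_lit 76) (nat_lit 1469457836094) (nat_lit 36) (nat_lit 5) (nat_lit 38) (nat_lit 5) (nat_lit 37) (nat_lit 5) (nat_lit 497) (nat_lit 472) (nat_lit 231)) (XT.lf (nat_lit 0) (nat_lit 885800026080) (nat_lit 152) (nat_lit 594646599102) (nat_lit 228) (nat_lit 1833783269580) (nat_lit 34) (nat_lit 5) (nat_lit 36) (nat_lit 5) (nat_lit 37) (nat_lit 5) (nat_lit 498) (nat_lit 472) (nat_lit 230))))) (XT.nd (nat_lit 234) (nat_lit 76) (nat_lit 0) (XT.nd (nat_lit 78) (nat_lit 304) (nat_lit 0) (XT.lf (nat_lit 0) (nat_lit 2369092665158) (nat_lit 228) (nat_lit 535998212606) (nat_lit 76) (nat_lit 579954331069) (nat_lit 34) (nat_lit 5) (nat_lit 37) (nat_lit 5) (nat_lit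 35) (nat_lit 4) (nat_lit 499) (nat_lit 472) (nat_lit 229)) (XT.nd (nat_lit 78) (nat_lit 228) (nat_lit 0) (XT.lf (nat_lit 0) (nat_lit 1570968830722) (nat_lit 76) (nat_lit 1811088760582) (nat_lit 152) (nat_lit 283209980488) (nat_lit 33) (nat_lit 5) (nat_lit 34) (nat_lit 5) (nat_lit 35) (nat_lit 4) (nat_lit 500) (nat_lit 472) (nat_lit 228)) (XT.lf (nat_lit 0) (nat_lit 3201652366) (nat_lit 152) (nat_lit 597240709977) (nat_lit 228) (nat_lit 3257070860439) (nat_lit 30) (nat_lit 5) (nat_lit 32) (nat_lit 5) (nat_lit 33) (nat_lit 5) (nat_lit 501) (nat_lit 472) (nat_lit 227)))) (XT.nd (nat_lit 78) (nat_lit 76) (nat_lit 0) (XT.lf (nat_lit 0) (nat_lit 1615400223035) (nat_lit 228) (nat_lit 1698959170013) (nat_lit 76) (nat_lit 744117522493) (nat_lit 30) (nat_lit 5) (nat_lit 33) (nat_lit 5) (nat_lit 31) (nat_lit 4) (nat_lit 502) (nat_lit 472) (nat_lit 226)) (XT.nd (nat_lit 78) (nat_lit 0) (nat_lit 0)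 (XT.lf (nat_lit 0) (nat_lit 645604422377) (nat_lit 76) (nat_lit 2096989836541) (nat_lit 152) (nat_lit 1530440281097) (nat_lit 29) (nat_lit 5) (nat_lit 30) (nat_lit 5) (nat_lit 31) (nat_lit 4) (nat_lit 503) (nat_lit 472) (nat_lit 225)) (XT.lf (nat_lit 0) (nat_lit 3274354413370) (nat_lit 76) (nat_lit 732061957603) (nat_lit 152) (nat_lit 494624199211) (nat_lit 29) (nat_lit 5) (nat_lit 30) (nat_lit 5) (nat_lit 31) (nat_lit 4) (nat_lit 504) (nat_lit 472) (nat_lit 224)))))) (XT.nd (nat_lit 390) (nat_lit 304) (nat_lit 0) (XT.nd (nat_lit 156) (nat_lit 228) (nat_lit 0) (XT.nd (nat_lit 78) (nat_lit 0) (nat_lit 0) (XT.lf (nat_lit 0) (nat_lit 646169432206) (nat_lit 152) (nat_lit 3340219099696) (nat_lit 76) (nat_lit 755431453267) (nat_lit 27) (nat_lit 5) (nat_lit 29) (nat_lit 5) (nat_lit 28) (nat_lit 4) (nat_lit 505) (nat_lit 472) (nat_lit 223)) (XT.lf (nat_lit 0) (nat_lit 1904929531500) (nat_lit 152)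 (nat_lit 721998094815) (nat_lit 76) (nat_lit 2369632293973) (nat_lit 27) (nat_lit 5) (nat_lit 29) (nat_lit 5) (nat_lit 28) (nat_lit 4) (nat_lit 506) (nat_lit 472) (nat_lit 222))) (XT.nd (nat_lit 78) (nat_lit 152) (nat_lit 0) (XT.lf (nat_lit 0) (nat_lit 2216561996707) (nat_lit 76) (nat_lit 1101136810298) (nat_lit 152) (nat_lit 1949715573751) (nat_lit 26) (nat_lit 5) (nat_lit 27) (nat_lit 5) (nat_lit 28) (nat_lit 4) (nat_lit 507) (nat_lit 472) (nat_lit 221)) (XT.nd (nat_lit 78) (nat_lit 152) (nat_lit 0) (XT.lf (nat_lit 0) (nat_lit 4876891640068) (nat_lit 152) (nat_lit 140751685648) (nat_lit 0) (nat_lit 539621711105) (nat_lit 26) (nat_lit 5) (nat_lit 28) (nat_lit 4) (nat_lit 26) (nat_lit 4) (nat_lit 508) (nat_lit 472) (nat_lit 220)) (XT.lf (nat_lit 0) (nat_lit 762552800499) (nat_lit 152) (nat_lit 2751160105137) (nat_lit 76) (nat_lit 2346735960465) (nat_lit 24) (nat_lit 5) (nat_lit 26) (nat_lit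 5) (nat_lit 25) (nat_lit 4) (nat_lit 509) (nat_lit 472) (nat_lit 219))))) (XT.nd (nat_lit 234) (nat_lit 152) (nat_lit 0) (XT.nd (nat_lit 78) (nat_lit 76) (nat_lit 0) (XT.lf (nat_lit 0) (nat_lit 444206603499) (nat_lit 76) (nat_lit 1854580192078) (nat_lit 152) (nat_lit 3886516320246) (nat_lit 23) (nat_lit 5) (nat_lit 24) (nat_lit 5) (nat_lit 25) (nat_lit 4) (nat_lit 510) (nat_lit 472) (nat_lit 218)) (XT.nd (nat_lit 78) (nat_lit 76) (nat_lit 0) (XT.lf (nat_lit 0) (nat_lit 4033586567628) (nat_lit 152) (nat_lit 2478909883769) (nat_lit 0) (nat_lit 17595889534) (nat_lit 23) (nat_lit 5) (nat_lit 25) (nat_lit 4) (nat_lit 23) (nat_lit 4) (nat_lit 511) (nat_lit 472) (nat_lit 217)) (XT.lf (nat_lit 0) (nat_lit 1048532606869) (nat_lit 76) (nat_lit 4932025862179) (nat_lit 76) (nat_lit 916035183192) (nat_lit 22) (nat_lit 4) (nat_lit 23) (nat_lit 5) (nat_lit 23) (nat_lit 4) (nat_lit 512) (nat_lit 472) (nat_lit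 216)))) (XT.nd (nat_lit 78) (nat_lit 76) (nat_lit 0) (XT.lf (nat_lit 0) (nat_lit 820848631306) (nat_lit 152) (nat_lit 2308625526695) (nat_lit 76) (nat_lit 4155856209144) (nat_lit 21) (nat_lit 5) (nat_lit 23) (nat_lit 5) (nat_lit 22) (nat_lit 4) (nat_lit 513) (nat_lit 472) (nat_lit 215)) (XT.nd (nat_lit 78) (nat_lit 0) (nat_lit 0) (XT.lf (nat_lit 0) (nat_lit 1568641511711) (nat_lit 76) (nat_lit 1116277811504) (nat_lit 152) (nat_lit 5015325177074) (nat_lit 20) (nat_lit 5) (nat_lit 21) (nat_lit 5) (nat_lit 22) (nat_lit 4) (nat_lit 514) (nat_lit 472) (nat_lit 214)) (XT.lf (nat_lit 0) (nat_lit 4788321418992) (nat_lit 152) (nat_lit 2283002356298) (nat_lit 0) (nat_lit 1069811528913) (nat_lit 20) (nat_lit 5) (nat_lit 22) (nat_lit 4) (nat_lit 20) (nat_lit 4) (nat_lit 515) (nat_lit 472) (nat_lit 213))))))) (XT.nd (nat_lit 59748) (nat_lit 0) (nat_lit 1976) (XT.nd (nat_lit 59280) (nat_lit 0) (nat_lit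 3496) (XT.nd (nat_lit 156) (nat_lit 76) (nat_lit 0) (XT.nd (nat_lit 78) (nat_lit 76) (nat_lit 0) (XT.lf (nat_lit 0) (nat_lit 1941619781298) (nat_lit 76) (nat_lit 5194066131688) (nat_lit 76) (nat_lit 1475556241001) (nat_lit 19) (nat_lit 4) (nat_lit 20) (nat_lit 5) (nat_lit 20) (nat_lit 4) (nat_lit 516) (nat_lit 472) (nat_lit 212)) (XT.lf (nat_lit 0) (nat_lit 588317303983) (nat_lit 152) (nat_lit 2494809898962) (nat_lit 76) (nat_lit 6029645113729) (nat_lit 18) (nat_lit 5) (nat_lit 20) (nat_lit 5) (nat_lit 19) (nat_lit 4) (nat_lit 517) (nat_lit 472) (nat_lit 211))) (XT.nd (nat_lit 58968) (nat_lit 0) (nat_lit 3952) (XT.lf (nat_lit 0) (nat_lit 2079696265179) (nat_lit 76) (nat_lit 707902848737) (nat_lit 152) (nat_lit 6859758348011) (nat_lit 17) (nat_lit 5) (nat_lit 18) (nat_lit 5) (nat_lit 19) (nat_lit 4) (nat_lit 518) (nat_lit 472) (nat_lit 210)) (XT.nd (nat_lit 78) (nat_lit 0) (nat_lit 0) (XT.lf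 (nat_lit 0) (nat_lit 513101974767) (nat_lit 532) (nat_lit 23276279895) (nat_lit 532) (nat_lit 23276279895) (nat_lit 69) (nat_lit 3) (nat_lit 76) (nat_lit 3) (nat_lit 76) (nat_lit 5) (nat_lit 473) (nat_lit 473) (nat_lit 254)) (XT.lf (nat_lit 76) (nat_lit 528358128160) (nat_lit 0) (nat_lit 551601054064) (nat_lit 532) (nat_lit 83105683648) (nat_lit 70) (nat_lit 5) (nat_lit 69) (nat_lit 3) (nat_lit 76) (nat_lit 5) (nat_lit 474) (nat_lit 473) (nat_lit 253))))) (XT.nd (nat_lit 234) (nat_lit 0) (nat_lit 76) (XT.nd (nat_lit 78) (nat_lit 532) (nat_lit 0) (XT.lf (nat_lit 0) (nat_lit 1139591205314) (nat_lit 456) (nat_lit 58613694001) (nat_lit 532) (nat_lit 11990117312) (nat_lit 70) (nat_lit 5) (nat_lit 76) (nat_lit 5) (nat_lit 77) (nat_lit 5) (nat_lit 475) (nat_lit 473) (nat_lit 252)) (XT.nd (nat_lit 78) (nat_lit 532) (nat_lit 0) (XT.lf (nat_lit 76) (nat_lit 578161468311) (nat_lit 0) (nat_lit 654064414709)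 (nat_lit 532) (nat_lit 26611129006) (nat_lit 71) (nat_lit 5) (nat_lit 70) (nat_lit 5) (nat_lit 77) (nat_lit 5) (nat_lit 476) (nat_lit 473) (nat_lit 251)) (XT.lf (nat_lit 0) (nat_lit 21499640720) (nat_lit 532) (nat_lit 42574400527) (nat_lit 608) (nat_lit 1247124574397) (nat_lit 63) (nat_lit 5) (nat_lit 70) (nat_lit 5) (nat_lit 71) (nat_lit 5) (nat_lit 477) (nat_lit 473) (nat_lit 250)))) (XT.nd (nat_lit 78) (nat_lit 0) (nat_lit 0) (XT.lf (nat_lit 0) (nat_lit 102599170325) (nat_lit 532) (nat_lit 700717122891) (nat_lit 608) (nat_lit 561931351249) (nat_lit 64) (nat_lit 5) (nat_lit 71) (nat_lit 5) (nat_lit 72) (nat_lit 5) (nat_lit 478) (nat_lit 473) (nat_lit 249)) (XT.nd (nat_lit 78) (nat_lit 0) (nat_lit 76) (XT.lf (nat_lit 76) (nat_lit 5687629448) (nat_lit 0) (nat_lit 187494372339) (nat_lit 608) (nat_lit 1230198966647) (nat_lit 65) (nat_lit 5) (nat_lit 64) (nat_lit 5) (nat_lit 72) (nat_lit 5)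 (nat_lit 479) (nat_lit 473) (nat_lit 248)) (XT.lf (nat_lit 0) (nat_lit 322154066904) (nat_lit 532) (nat_lit 688160851072) (nat_lit 76) (nat_lit 473358631776) (nat_lit 65) (nat_lit 5) (nat_lit 72) (nat_lit 5) (nat_lit 66) (nat_lit 5) (nat_lit 480) (nat_lit 473) (nat_lit 247)))))) (XT.nd (nat_lit 468) (nat_lit 760) (nat_lit 0) (XT.nd (nat_lit 234) (nat_lit 228) (nat_lit 0) (XT.nd (nat_lit 78) (nat_lit 228) (nat_lit 0) (XT.lf (nat_lit 0) (nat_lit 99859632261) (nat_lit 456) (nat_lit 368855871891) (nat_lit 532) (nat_lit 1079492304871) (nat_lit 59) (nat_lit 5) (nat_lit 65) (nat_lit 5) (nat_lit 66) (nat_lit 5) (nat_lit 481) (nat_lit 473) (nat_lit 246)) (XT.nd (nat_lit 78) (nat_lit 228) (nat_lit 0) (XT.lf (nat_lit 0) (nat_lit 654096387004) (nat_lit 532) (nat_lit 634620494356) (nat_lit 76) (nat_lit 327020365229) (nat_lit 59) (nat_lit 5) (nat_lit 66) (nat_lit 5) (nat_lit 60) (nat_lit 5) (nat_lit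 482) (nat_lit 473) (nat_lit 245)) (XT.lf (nat_lit 0) (nat_lit 246979649923) (nat_lit 228) (nat_lit 622848626155) (nat_lit 304) (nat_lit 817599120235) (nat_lit 56) (nat_lit 5) (nat_lit 59) (nat_lit 5) (nat_lit 60) (nat_lit 5) (nat_lit 483) (nat_lit 473) (nat_lit 244)))) (XT.nd (nat_lit 78) (nat_lit 228) (nat_lit 0) (XT.lf (nat_lit 0) (nat_lit 1122936809552) (nat_lit 304) (nat_lit 531031840842) (nat_lit 76) (nat_lit 109274660160) (nat_lit 56) (nat_lit 5) (nat_lit 60) (nat_lit 5) (nat_lit 57) (nat_lit 5) (nat_lit 484) (nat_lit 473) (nat_lit 243)) (XT.nd (nat_lit 78) (nat_lit 0) (nat_lit 0) (XT.lf (nat_lit 0) (nat_lit 457863641473) (nat_lit 228) (nat_lit 965619899635) (nat_lit 304) (nat_lit 419465795597) (nat_lit 53) (nat_lit 5) (nat_lit 56) (nat_lit 5) (nat_lit 57) (nat_lit 5) (nat_lit 485) (nat_lit 473) (nat_lit 242)) (XT.lf (nat_lit 0) (nat_lit 1556071010786) (nat_lit 228) (nat_lit 206522349543)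 (nat_lit 304) (nat_lit 165276936688) (nat_lit 53) (nat_lit 5) (nat_lit 56) (nat_lit 5) (nat_lit 57) (nat_lit 5) (nat_lit 486) (nat_lit 473) (nat_lit 241))))) (XT.nd (nat_lit 234) (nat_lit 304) (nat_lit 0) (XT.nd (nat_lit 78) (nat_lit 228) (nat_lit 0) (XT.lf (nat_lit 0) (nat_lit 137299534971) (nat_lit 228) (nat_lit 1275375778096) (nat_lit 76) (nat_lit 604018030953) (nat_lit 50) (nat_lit 5) (nat_lit 53) (nat_lit 5) (nat_lit 51) (nat_lit 5) (nat_lit 487) (nat_lit 473) (nat_lit 240)) (XT.nd (nat_lit 78) (nat_lit 228) (nat_lit 0) (XT.lf (nat_lit 0) (nat_lit 470946785768) (nat_lit 228) (nat_lit 157101831696) (nat_lit 76) (nat_lit 1482966672012) (nat_lit 50) (nat_lit 5) (nat_lit 53) (nat_lit 5) (nat_lit 51) (nat_lit 5) (nat_lit 488) (nat_lit 473) (nat_lit 239)) (XT.lf (nat_lit 0) (nat_lit 863850339882) (nat_lit 304) (nat_lit 1110762766130) (nat_lit 76) (nat_lit 235664722698) (nat_lit 47) (nat_lit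 5) (nat_lit 51) (nat_lit 5) (nat_lit 48) (nat_lit 5) (nat_lit 489) (nat_lit 473) (nat_lit 238)))) (XT.nd (nat_lit 78) (nat_lit 152) (nat_lit 0) (XT.lf (nat_lit 0) (nat_lit 138986223048) (nat_lit 152) (nat_lit 1173262538806) (nat_lit 228) (nat_lit 1003307602546) (nat_lit 45) (nat_lit 5) (nat_lit 47) (nat_lit 5) (nat_lit 48) (nat_lit 5) (nat_lit 490) (nat_lit 473) (nat_lit 237)) (XT.nd (nat_lit 78) (nat_lit 152) (nat_lit 0) (XT.lf (nat_lit 0) (nat_lit 1551885191388) (nat_lit 152) (nat_lit 275004086748) (nat_lit 228) (nat_lit 599938287169) (nat_lit 45) (nat_lit 5) (nat_lit 47) (nat_lit 5) (nat_lit 48) (nat_lit 5) (nat_lit 491) (nat_lit 473) (nat_lit 236)) (XT.lf (nat_lit 0) (nat_lit 541169572589) (nat_lit 152) (nat_lit 1871264136039) (nat_lit 228) (nat_lit 132188139821) (nat_lit 43) (nat_lit 5) (nat_lit 45) (nat_lit 5) (nat_lit 46) (nat_lit 5) (nat_lit 492) (nat_lit 473) (nat_lit 235))))))))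
noncomputable def xc237 : XT := (XT.nd (nat_lit 1716) (nat_lit 228) (nat_lit 0) (XT.nd (nat_lit 858) (nat_lit 684) (nat_lit 0) (XT.nd (nat_lit 390) (nat_lit 532) (nat_lit 0) (XT.nd (nat_lit 156) (nat_lit 228) (nat_lit 0) (XT.nd (nat_lit 78) (nat_lit 152) (nat_lit 0) (XT.lf (nat_lit 0) (nat_lit 386010747669) (nat_lit 228) (nat_lit 566331208827) (nat_lit 76) (nat_lit 1716245155662) (nat_lit 42) (nat_lit 5) (nat_lit 45) (nat_lit 5) (nat_lit 43) (nat_lit 5) (nat_lit 493) (nat_lit 473) (nat_lit 234)) (XT.lf (nat_lit 0) (nat_lit 965092357022) (nat_lit 228) (nat_lit 1767851156382) (nat_lit 76) (nat_lit 67125934596) (nat_lit 40) (nat_lit 5) (nat_lit 43) (nat_lit 5) (nat_lit 41) (nat_lit 5) (nat_lit 494) (nat_lit 473) (nat_lit 233))) (XT.nd (nat_lit 78) (nat_lit 228) (nat_lit 0) (XT.lf (nat_lit 0) (nat_lit 1631123341895) (nat_lit 228) (nat_lit 175110453037) (nat_lit 76) (nat_lit 1132586748037) (nat_lit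 40) (nat_lit 5) (nat_lit 43) (nat_lit 5) (nat_lit 41) (nat_lit 5) (nat_lit 495) (nat_lit 473) (nat_lit 232)) (XT.nd (nat_lit 78) (nat_lit 76) (nat_lit 0) (XT.lf (nat_lit 0) (nat_lit 1626409073088) (nat_lit 152) (nat_lit 763142908318) (nat_lit 228) (nat_lit 695990530062) (nat_lit 38) (nat_lit 5) (nat_lit 40) (nat_lit 5) (nat_lit 41) (nat_lit 5) (nat_lit 496) (nat_lit 473) (nat_lit 231)) (XT.lf (nat_lit 0) (nat_lit 346877845525) (nat_lit 76) (nat_lit 2883771339456) (nat_lit 152) (nat_lit 11593510634) (nat_lit 37) (nat_lit 5) (nat_lit 38) (nat_lit 5) (nat_lit 39) (nat_lit 4) (nat_lit 497) (nat_lit 473) (nat_lit 230))))) (XT.nd (nat_lit 234) (nat_lit 304) (nat_lit 0) (XT.nd (nat_lit 78) (nat_lit 152) (nat_lit 0) (XT.lf (nat_lit 0) (nat_lit 751913436820) (nat_lit 152) (nat_lit 1066290886530) (nat_lit 76) (nat_lit 1587014479187) (nat_lit 36) (nat_lit 5) (nat_lit 38) (nat_lit 5) (nat_lit 37) (nat_lit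 5) (nat_lit 498) (nat_lit 473) (nat_lit 229)) (XT.nd (nat_lit 78) (nat_lit 0) (nat_lit 0) (XT.lf (nat_lit 0) (nat_lit 956664073229) (nat_lit 152) (nat_lit 642218308788) (nat_lit 228) (nat_lit 1980485902173) (nat_lit 34) (nat_lit 5) (nat_lit 36) (nat_lit 5) (nat_lit 37) (nat_lit 5) (nat_lit 499) (nat_lit 473) (nat_lit 228)) (XT.lf (nat_lit 0) (nat_lit 2558620103610) (nat_lit 228) (nat_lit 578878026303) (nat_lit 76) (nat_lit 626350693601) (nat_lit 34) (nat_lit 5) (nat_lit 37) (nat_lit 5) (nat_lit 35) (nat_lit 4) (nat_lit 500) (nat_lit 473) (nat_lit 227)))) (XT.nd (nat_lit 78) (nat_lit 228) (nat_lit 0) (XT.lf (nat_lit 0) (nat_lit 1696646379395) (nat_lit 76) (nat_lit 1955975843599) (nat_lit 152) (nat_lit 305866752584) (nat_lit 33) (nat_lit 5) (nat_lit 34) (nat_lit 5) (nat_lit 35) (nat_lit 4) (nat_lit 501) (nat_lit 473) (nat_lit 226)) (XT.nd (nat_lit 78) (nat_lit 0) (nat_lit 0) (XT.lf (nat_lit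 0) (nat_lit 3457826992) (nat_lit 152) (nat_lit 645019948531) (nat_lit 228) (nat_lit 3517636503141) (nat_lit 30) (nat_lit 5) (nat_lit 32) (nat_lit 5) (nat_lit 33) (nat_lit 5) (nat_lit 502) (nat_lit 473) (nat_lit 225)) (XT.lf (nat_lit 0) (nat_lit 1744632263684) (nat_lit 228) (nat_lit 1834875862930) (nat_lit 76) (nat_lit 803646940341) (nat_lit 30) (nat_lit 5) (nat_lit 33) (nat_lit 5) (nat_lit 31) (nat_lit 4) (nat_lit 503) (nat_lit 473) (nat_lit 224)))))) (XT.nd (nat_lit 390) (nat_lit 380) (nat_lit 0) (XT.nd (nat_lit 156) (nat_lit 228) (nat_lit 0) (XT.nd (nat_lit 78) (nat_lit 0) (nat_lit 0) (XT.lf (nat_lit 0) (nat_lit 697252815821) (nat_lit 76) (nat_lit 2264749005881) (nat_lit 152) (nat_lit 1652875479744) (nat_lit 29) (nat_lit 5) (nat_lit 30) (nat_lit 5) (nat_lit 31) (nat_lit 4) (nat_lit 504) (nat_lit 473) (nat_lit 223)) (XT.lf (nat_lit 0) (nat_lit 3536302803156) (nat_lit 76) (nat_lit 790626897930)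 (nat_lit 152) (nat_lit 534194113073) (nat_lit 29) (nat_lit 5) (nat_lit 30) (nat_lit 5) (nat_lit 31) (nat_lit 4) (nat_lit 505) (nat_lit 473) (nat_lit 222))) (XT.nd (nat_lit 78) (nat_lit 76) (nat_lit 0) (XT.lf (nat_lit 0) (nat_lit 697863007484) (nat_lit 152) (nat_lit 3607436589575) (nat_lit 76) (nat_lit 815865985263) (nat_lit 27) (nat_lit 5) (nat_lit 29) (nat_lit 5) (nat_lit 28) (nat_lit 4) (nat_lit 506) (nat_lit 473) (nat_lit 221)) (XT.nd (nat_lit 78) (nat_lit 76) (nat_lit 0) (XT.lf (nat_lit 0) (nat_lit 2057323913189) (nat_lit 152) (nat_lit 779757907125) (nat_lit 76) (nat_lit 2559202892061) (nat_lit 27) (nat_lit 5) (nat_lit 29) (nat_lit 5) (nat_lit 28) (nat_lit 4) (nat_lit 507) (nat_lit 473) (nat_lit 220)) (XT.lf (nat_lit 0) (nat_lit 2393886990826) (nat_lit 76) (nat_lit 1189227739315) (nat_lit 152) (nat_lit 2105692799586) (nat_lit 26) (nat_lit 5) (nat_lit 27) (nat_lit 5) (nat_lit 28) (nat_lit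 4) (nat_lit 508) (nat_lit 473) (nat_lit 219))))) (XT.nd (nat_lit 234) (nat_lit 152) (nat_lit 0) (XT.nd (nat_lit 78) (nat_lit 228) (nat_lit 0) (XT.lf (nat_lit 0) (nat_lit 5267042988826) (nat_lit 152) (nat_lit 152011787638) (nat_lit 0) (nat_lit 582791461896) (nat_lit 26) (nat_lit 5) (nat_lit 28) (nat_lit 4) (nat_lit 26) (nat_lit 4) (nat_lit 509) (nat_lit 473) (nat_lit 218)) (XT.nd (nat_lit 78) (nat_lit 76) (nat_lit 0) (XT.lf (nat_lit 0) (nat_lit 823557042006) (nat_lit 152) (nat_lit 2971252880596) (nat_lit 76) (nat_lit 2534474851388) (nat_lit 24) (nat_lit 5) (nat_lit 26) (nat_lit 5) (nat_lit 25) (nat_lit 4) (nat_lit 510) (nat_lit 473) (nat_lit 217)) (XT.lf (nat_lit 0) (nat_lit 479743163897) (nat_lit 76) (nat_lit 2002946592271) (nat_lit 152) (nat_lit 4197437607563) (nat_lit 23) (nat_lit 5) (nat_lit 24) (nat_lit 5) (nat_lit 25) (nat_lit 4) (nat_lit 511) (nat_lit 473) (nat_lit 216)))) (XT.nd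 (nat_lit 78) (nat_lit 152) (nat_lit 0) (XT.lf (nat_lit 0) (nat_lit 4356273509066) (nat_lit 152) (nat_lit 2677222643812) (nat_lit 0) (nat_lit 19003574043) (nat_lit 23) (nat_lit 5) (nat_lit 25) (nat_lit 4) (nat_lit 23) (nat_lit 4) (nat_lit 512) (nat_lit 473) (nat_lit 215)) (XT.nd (nat_lit 78) (nat_lit 76) (nat_lit 0) (XT.lf (nat_lit 0) (nat_lit 1132415245302) (nat_lit 76) (nat_lit 5326587916830) (nat_lit 76) (nat_lit 989317981042) (nat_lit 22) (nat_lit 4) (nat_lit 23) (nat_lit 5) (nat_lit 23) (nat_lit 4) (nat_lit 513) (nat_lit 473) (nat_lit 214)) (XT.lf (nat_lit 0) (nat_lit 886516536593) (nat_lit 152) (nat_lit 2493315540381) (nat_lit 76) (nat_lit 4488324718358) (nat_lit 21) (nat_lit 5) (nat_lit 23) (nat_lit 5) (nat_lit 22) (nat_lit 4) (nat_lit 514) (nat_lit 473) (nat_lit 213))))))) (XT.nd (nat_lit 59826) (nat_lit 0) (nat_lit 2052) (XT.nd (nat_lit 59358) (nat_lit 0) (nat_lit 3420) (XT.nd (nat_lit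 156) (nat_lit 152) (nat_lit 0) (XT.nd (nat_lit 78) (nat_lit 0) (nat_lit 0) (XT.lf (nat_lit 0) (nat_lit 1694132860376) (nat_lit 76) (nat_lit 1205580023050) (nat_lit 152) (nat_lit 5416551175736) (nat_lit 20) (nat_lit 5) (nat_lit 21) (nat_lit 5) (nat_lit 22) (nat_lit 4) (nat_lit 515) (nat_lit 473) (nat_lit 212)) (XT.lf (nat_lit 0) (nat_lit 5171387146101) (nat_lit 152) (nat_lit 2465642518360) (nat_lit 0) (nat_lit 1155396462990) (nat_lit 20) (nat_lit 5) (nat_lit 22) (nat_lit 4) (nat_lit 20) (nat_lit 4) (nat_lit 516) (nat_lit 473) (nat_lit 211))) (XT.nd (nat_lit 78) (nat_lit 76) (nat_lit 0) (XT.lf (nat_lit 0) (nat_lit 2096949389574) (nat_lit 76) (nat_lit 5609591409652) (nat_lit 76) (nat_lit 1593600726022) (nat_lit 19) (nat_lit 4) (nat_lit 20) (nat_lit 5) (nat_lit 20) (nat_lit 4) (nat_lit 517) (nat_lit 473) (nat_lit 210)) (XT.nd (nat_lit 59046) (nat_lit 0) (nat_lit 3876) (XT.lf (nat_lit 0) (nat_lit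 635382700845) (nat_lit 152) (nat_lit 2694394666354) (nat_lit 76) (nat_lit 6512016733805) (nat_lit 18) (nat_lit 5) (nat_lit 20) (nat_lit 5) (nat_lit 19) (nat_lit 4) (nat_lit 518) (nat_lit 473) (nat_lit 209)) (XT.lf (nat_lit 0) (nat_lit 554150180588) (nat_lit 532) (nat_lit 25138356437) (nat_lit 532) (nat_lit 25138356437) (nat_lit 69) (nat_lit 3) (nat_lit 76) (nat_lit 3) (nat_lit 76) (nat_lit 5) (nat_lit 474) (nat_lit 474) (nat_lit 252))))) (XT.nd (nat_lit 234) (nat_lit 456) (nat_lit 0) (XT.nd (nat_lit 78) (nat_lit 0) (nat_lit 76) (XT.lf (nat_lit 76) (nat_lit 570626828803) (nat_lit 0) (nat_lit 595729177803) (nat_lit 532) (nat_lit 89754041291) (nat_lit 70) (nat_lit 5) (nat_lit 69) (nat_lit 3) (nat_lit 76) (nat_lit 5) (nat_lit 475) (nat_lit 474) (nat_lit 251)) (XT.nd (nat_lit 78) (nat_lit 0) (nat_lit 0) (XT.lf (nat_lit 0) (nat_lit 1230758584014) (nat_lit 456) (nat_lit 63302735278) (nat_lit 532)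 (nat_lit 12949292029) (nat_lit 70) (nat_lit 5) (nat_lit 76) (nat_lit 5) (nat_lit 77) (nat_lit 5) (nat_lit 476) (nat_lit 474) (nat_lit 250)) (XT.lf (nat_lit 76) (nat_lit 624414438645) (nat_lit 0) (nat_lit 706389592468) (nat_lit 532) (nat_lit 28739935627) (nat_lit 71) (nat_lit 5) (nat_lit 70) (nat_lit 5) (nat_lit 77) (nat_lit 5) (nat_lit 477) (nat_lit 474) (nat_lit 249)))) (XT.nd (nat_lit 78) (nat_lit 0) (nat_lit 76) (XT.lf (nat_lit 0) (nat_lit 23219685600) (nat_lit 532) (nat_lit 45980299695) (nat_lit 608) (nat_lit 1346894513667) (nat_lit 63) (nat_lit 5) (nat_lit 70) (nat_lit 5) (nat_lit 71) (nat_lit 5) (nat_lit 478) (nat_lit 474) (nat_lit 248)) (XT.nd (nat_lit 78) (nat_lit 0) (nat_lit 0) (XT.lf (nat_lit 0) (nat_lit 110807172929) (nat_lit 532) (nat_lit 756774435163) (nat_lit 608) (nat_lit 606885842370) (nat_lit 64) (nat_lit 5) (nat_lit 71) (nat_lit 5) (nat_lit 72) (nat_lit 5) (nat_lit 479)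 (nat_lit 474) (nat_lit 247)) (XT.lf (nat_lit 76) (nat_lit 6142695905) (nat_lit 0) (nat_lit 202493931243) (nat_lit 608) (nat_lit 1328614813505) (nat_lit 65) (nat_lit 5) (nat_lit 64) (nat_lit 5) (nat_lit 72) (nat_lit 5) (nat_lit 480) (nat_lit 474) (nat_lit 246)))))) (XT.nd (nat_lit 468) (nat_lit 608) (nat_lit 0) (XT.nd (nat_lit 234) (nat_lit 456) (nat_lit 0) (XT.nd (nat_lit 78) (nat_lit 456) (nat_lit 0) (XT.lf (nat_lit 0) (nat_lit 347926452440) (nat_lit 532) (nat_lit 743213662143) (nat_lit 76) (nat_lit 511227314299) (nat_lit 65) (nat_lit 5) (nat_lit 72) (nat_lit 5) (nat_lit 66) (nat_lit 5) (nat_lit 481) (nat_lit 474) (nat_lit 245)) (XT.nd (nat_lit 78) (nat_lit 0) (nat_lit 0) (XT.lf (nat_lit 0) (nat_lit 107848458413) (nat_lit 456) (nat_lit 398364343134) (nat_lit 532) (nat_lit 1165851627601) (nat_lit 59) (nat_lit 5) (nat_lit 65) (nat_lit 5) (nat_lit 66) (nat_lit 5) (nat_lit 482) (nat_lit 474)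 (nat_lit 244)) (XT.lf (nat_lit 0) (nat_lit 706424150766) (nat_lit 532) (nat_lit 685390078159) (nat_lit 76) (nat_lit 353181993135) (nat_lit 59) (nat_lit 5) (nat_lit 66) (nat_lit 5) (nat_lit 60) (nat_lit 5) (nat_lit 483) (nat_lit 474) (nat_lit 243)))) (XT.nd (nat_lit 78) (nat_lit 228) (nat_lit 0) (XT.lf (nat_lit 0) (nat_lit 266738076250) (nat_lit 228) (nat_lit 672676512112) (nat_lit 304) (nat_lit 883006995612) (nat_lit 56) (nat_lit 5) (nat_lit 59) (nat_lit 5) (nat_lit 60) (nat_lit 5) (nat_lit 484) (nat_lit 474) (nat_lit 242)) (XT.nd (nat_lit 78) (nat_lit 228) (nat_lit 0) (XT.lf (nat_lit 0) (nat_lit 1212771800888) (nat_lit 304) (nat_lit 573514334149) (nat_lit 76) (nat_lit 118016636611) (nat_lit 56) (nat_lit 5) (nat_lit 60) (nat_lit 5) (nat_lit 57) (nat_lit 5) (nat_lit 485) (nat_lit 474) (nat_lit 241)) (XT.lf (nat_lit 0) (nat_lit 494492785385) (nat_lit 228) (nat_lit 1042869483398) (nat_lit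 304) (nat_lit 453023011283) (nat_lit 53) (nat_lit 5) (nat_lit 56) (nat_lit 5) (nat_lit 57) (nat_lit 5) (nat_lit 486) (nat_lit 474) (nat_lit 240))))) (XT.nd (nat_lit 234) (nat_lit 380) (nat_lit 0) (XT.nd (nat_lit 78) (nat_lit 228) (nat_lit 0) (XT.lf (nat_lit 0) (nat_lit 1680556740348) (nat_lit 228) (nat_lit 223044129907) (nat_lit 304) (nat_lit 178499047214) (nat_lit 53) (nat_lit 5) (nat_lit 56) (nat_lit 5) (nat_lit 57) (nat_lit 5) (nat_lit 487) (nat_lit 474) (nat_lit 239)) (XT.nd (nat_lit 78) (nat_lit 0) (nat_lit 0) (XT.lf (nat_lit 0) (nat_lit 148283538251) (nat_lit 228) (nat_lit 1377405787680) (nat_lit 76) (nat_lit 652339482353) (nat_lit 50) (nat_lit 5) (nat_lit 53) (nat_lit 5) (nat_lit 51) (nat_lit 5) (nat_lit 488) (nat_lit 474) (nat_lit 238)) (XT.lf (nat_lit 0) (nat_lit 508622566113) (nat_lit 228) (nat_lit 169669929468) (nat_lit 76) (nat_lit 1601604014036) (nat_lit 50) (nat_lit 5) (nat_lit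 53) (nat_lit 5) (nat_lit 51) (nat_lit 5) (nat_lit 489) (nat_lit 474) (nat_lit 237)))) (XT.nd (nat_lit 78) (nat_lit 152) (nat_lit 0) (XT.lf (nat_lit 0) (nat_lit 932958403203) (nat_lit 304) (nat_lit 1199623737289) (nat_lit 76) (nat_lit 254517911608) (nat_lit 47) (nat_lit 5) (nat_lit 51) (nat_lit 5) (nat_lit 48) (nat_lit 5) (nat_lit 490) (nat_lit 474) (nat_lit 236)) (XT.nd (nat_lit 78) (nat_lit 0) (nat_lit 0) (XT.lf (nat_lit 0) (nat_lit 150105169755) (nat_lit 152) (nat_lit 1267123527678) (nat_lit 228) (nat_lit 1083572173335) (nat_lit 45) (nat_lit 5) (nat_lit 47) (nat_lit 5) (nat_lit 48) (nat_lit 5) (nat_lit 491) (nat_lit 474) (nat_lit 235)) (XT.lf (nat_lit 0) (nat_lit 1676036051942) (nat_lit 152) (nat_lit 297004400509) (nat_lit 228) (nat_lit 647933315499) (nat_lit 45) (nat_lit 5) (nat_lit 47) (nat_lit 5) (nat_lit 48) (nat_lit 5) (nat_lit 492) (nat_lit 474) (nat_lit 234))))))))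
noncomputable def xc238 : XT := (XT.nd (nat_lit 1716) (nat_lit 152) (nat_lit 0) (XT.nd (nat_lit 858) (nat_lit 608) (nat_lit 0) (XT.nd (nat_lit 390) (nat_lit 608) (nat_lit 0) (XT.nd (nat_lit 156) (nat_lit 304) (nat_lit 0) (XT.nd (nat_lit 78) (nat_lit 76) (nat_lit 0) (XT.lf (nat_lit 0) (nat_lit 584463184698) (nat_lit 152) (nat_lit 2020965251716) (nat_lit 228) (nat_lit 142763157409) (nat_lit 43) (nat_lit 5) (nat_lit 45) (nat_lit 5) (nat_lit 46) (nat_lit 5) (nat_lit 493) (nat_lit 474) (nat_lit 233)) (XT.lf (nat_lit 0) (nat_lit 416891637035) (nat_lit 228) (nat_lit 611637661093) (nat_lit 76) (nat_lit 1853544780627) (nat_lit 42) (nat_lit 5) (nat_lit 45) (nat_lit 5) (nat_lit 43) (nat_lit 5) (nat_lit 494) (nat_lit 474) (nat_lit 232))) (XT.nd (nat_lit 78) (nat_lit 152) (nat_lit 0) (XT.lf (nat_lit 0) (nat_lit 1042299774347) (nat_lit 228) (nat_lit 1909279203654) (nat_lit 76) (nat_lit 72496023528) (nat_lit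 40) (nat_lit 5) (nat_lit 43) (nat_lit 5) (nat_lit 41) (nat_lit 5) (nat_lit 495) (nat_lit 474) (nat_lit 231)) (XT.nd (nat_lit 78) (nat_lit 152) (nat_lit 0) (XT.lf (nat_lit 0) (nat_lit 1761613235879) (nat_lit 228) (nat_lit 189119247392) (nat_lit 76) (nat_lit 1223193700995) (nat_lit 40) (nat_lit 5) (nat_lit 43) (nat_lit 5) (nat_lit 41) (nat_lit 5) (nat_lit 496) (nat_lit 474) (nat_lit 230)) (XT.lf (nat_lit 0) (nat_lit 1756521839762) (nat_lit 152) (nat_lit 824194325798) (nat_lit 228) (nat_lit 751669744766) (nat_lit 38) (nat_lit 5) (nat_lit 40) (nat_lit 5) (nat_lit 41) (nat_lit 5) (nat_lit 497) (nat_lit 474) (nat_lit 229))))) (XT.nd (nat_lit 234) (nat_lit 304) (nat_lit 0) (XT.nd (nat_lit 78) (nat_lit 228) (nat_lit 0) (XT.lf (nat_lit 0) (nat_lit 374628114613) (nat_lit 76) (nat_lit 3114473030244) (nat_lit 152) (nat_lit 12520964393) (nat_lit 37) (nat_lit 5) (nat_lit 38) (nat_lit 5) (nat_lit 39)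 (nat_lit 4) (nat_lit 498) (nat_lit 474) (nat_lit 228)) (XT.nd (nat_lit 78) (nat_lit 152) (nat_lit 0) (XT.lf (nat_lit 0) (nat_lit 812066535596) (nat_lit 152) (nat_lit 1151594117815) (nat_lit 76) (nat_lit 1713975651416) (nat_lit 36) (nat_lit 5) (nat_lit 38) (nat_lit 5) (nat_lit 37) (nat_lit 5) (nat_lit 499) (nat_lit 474) (nat_lit 227)) (XT.lf (nat_lit 0) (nat_lit 1033197237721) (nat_lit 152) (nat_lit 693595757851) (nat_lit 228) (nat_lit 2138924749507) (nat_lit 34) (nat_lit 5) (nat_lit 36) (nat_lit 5) (nat_lit 37) (nat_lit 5) (nat_lit 500) (nat_lit 474) (nat_lit 226)))) (XT.nd (nat_lit 78) (nat_lit 304) (nat_lit 0) (XT.lf (nat_lit 0) (nat_lit 2763309733538) (nat_lit 228) (nat_lit 625188231274) (nat_lit 76) (nat_lit 676458762846) (nat_lit 34) (nat_lit 5) (nat_lit 37) (nat_lit 5) (nat_lit 35) (nat_lit 4) (nat_lit 501) (nat_lit 474) (nat_lit 225)) (XT.nd (nat_lit 78) (nat_lit 228) (nat_lit 0)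 (XT.lf (nat_lit 0) (nat_lit 1832378125939) (nat_lit 76) (nat_lit 2112453895800) (nat_lit 152) (nat_lit 330336070206) (nat_lit 33) (nat_lit 5) (nat_lit 34) (nat_lit 5) (nat_lit 35) (nat_lit 4) (nat_lit 502) (nat_lit 474) (nat_lit 224)) (XT.lf (nat_lit 0) (nat_lit 3734489534) (nat_lit 152) (nat_lit 696621528771) (nat_lit 228) (nat_lit 3799047400988) (nat_lit 30) (nat_lit 5) (nat_lit 32) (nat_lit 5) (nat_lit 33) (nat_lit 5) (nat_lit 503) (nat_lit 474) (nat_lit 223)))))) (XT.nd (nat_lit 390) (nat_lit 380) (nat_lit 0) (XT.nd (nat_lit 156) (nat_lit 152) (nat_lit 0) (XT.nd (nat_lit 78) (nat_lit 76) (nat_lit 0) (XT.lf (nat_lit 0) (nat_lit 1884202864332) (nat_lit 228) (nat_lit 1981665897084) (nat_lit 76) (nat_lit 867938709328) (nat_lit 30) (nat_lit 5) (nat_lit 33) (nat_lit 5) (nat_lit 31) (nat_lit 4) (nat_lit 504) (nat_lit 474) (nat_lit 222)) (XT.lf (nat_lit 0) (nat_lit 753033075084) (nat_lit 76)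 (nat_lit 2445928911276) (nat_lit 152) (nat_lit 1785105497684) (nat_lit 29) (nat_lit 5) (nat_lit 30) (nat_lit 5) (nat_lit 31) (nat_lit 4) (nat_lit 505) (nat_lit 474) (nat_lit 221))) (XT.nd (nat_lit 78) (nat_lit 152) (nat_lit 0) (XT.lf (nat_lit 0) (nat_lit 3819207058887) (nat_lit 76) (nat_lit 853877035806) (nat_lit 152) (nat_lit 576929623194) (nat_lit 29) (nat_lit 5) (nat_lit 30) (nat_lit 5) (nat_lit 31) (nat_lit 4) (nat_lit 506) (nat_lit 474) (nat_lit 220)) (XT.nd (nat_lit 78) (nat_lit 0) (nat_lit 0) (XT.lf (nat_lit 0) (nat_lit 753692065832) (nat_lit 152) (nat_lit 3896031484079) (nat_lit 76) (nat_lit 881135277574) (nat_lit 27) (nat_lit 5) (nat_lit 29) (nat_lit 5) (nat_lit 28) (nat_lit 4) (nat_lit 507) (nat_lit 474) (nat_lit 219)) (XT.lf (nat_lit 0) (nat_lit 2221909842678) (nat_lit 152) (nat_lit 842138509453) (nat_lit 76) (nat_lit 2763939135917) (nat_lit 27) (nat_lit 5) (nat_lit 29) (nat_lit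 5) (nat_lit 28) (nat_lit 4) (nat_lit 508) (nat_lit 474) (nat_lit 218))))) (XT.nd (nat_lit 234) (nat_lit 152) (nat_lit 0) (XT.nd (nat_lit 78) (nat_lit 152) (nat_lit 0) (XT.lf (nat_lit 0) (nat_lit 2585397979569) (nat_lit 76) (nat_lit 1284365944909) (nat_lit 152) (nat_lit 2274148206351) (nat_lit 26) (nat_lit 5) (nat_lit 27) (nat_lit 5) (nat_lit 28) (nat_lit 4) (nat_lit 509) (nat_lit 474) (nat_lit 217)) (XT.nd (nat_lit 78) (nat_lit 152) (nat_lit 0) (XT.lf (nat_lit 0) (nat_lit 5688406442979) (nat_lit 152) (nat_lit 164172702475) (nat_lit 0) (nat_lit 629414790768) (nat_lit 26) (nat_lit 5) (nat_lit 28) (nat_lit 4) (nat_lit 26) (nat_lit 4) (nat_lit 510) (nat_lit 474) (nat_lit 216)) (XT.lf (nat_lit 0) (nat_lit 889441620341) (nat_lit 152) (nat_lit 3208953082792) (nat_lit 76) (nat_lit 2737232851576) (nat_lit 24) (nat_lit 5) (nat_lit 26) (nat_lit 5) (nat_lit 25) (nat_lit 4) (nat_lit 511) (nat_lit 474)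 (nat_lit 215)))) (XT.nd (nat_lit 78) (nat_lit 76) (nat_lit 0) (XT.lf (nat_lit 0) (nat_lit 518122644545) (nat_lit 76) (nat_lit 2163182306644) (nat_lit 152) (nat_lit 4533232600476) (nat_lit 23) (nat_lit 5) (nat_lit 24) (nat_lit 5) (nat_lit 25) (nat_lit 4) (nat_lit 512) (nat_lit 474) (nat_lit 214)) (XT.nd (nat_lit 78) (nat_lit 76) (nat_lit 0) (XT.lf (nat_lit 0) (nat_lit 4704775403533) (nat_lit 152) (nat_lit 2891400429032) (nat_lit 0) (nat_lit 20523871409) (nat_lit 23) (nat_lit 5) (nat_lit 25) (nat_lit 4) (nat_lit 23) (nat_lit 4) (nat_lit 513) (nat_lit 474) (nat_lit 213)) (XT.lf (nat_lit 0) (nat_lit 1223008490545) (nat_lit 76) (nat_lit 5752714937896) (nat_lit 76) (nat_lit 1068463405116) (nat_lit 22) (nat_lit 4) (nat_lit 23) (nat_lit 5) (nat_lit 23) (nat_lit 4) (nat_lit 514) (nat_lit 474) (nat_lit 212))))))) (XT.nd (nat_lit 59982) (nat_lit 0) (nat_lit 1748) (XT.nd (nat_lit 59514) (nat_lit 0)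 (nat_lit 3268) (XT.nd (nat_lit 156) (nat_lit 0) (nat_lit 0) (XT.nd (nat_lit 78) (nat_lit 76) (nat_lit 0) (XT.lf (nat_lit 0) (nat_lit 957437872194) (nat_lit 152) (nat_lit 2692780759221) (nat_lit 76) (nat_lit 4847390706528) (nat_lit 21) (nat_lit 5) (nat_lit 23) (nat_lit 5) (nat_lit 22) (nat_lit 4) (nat_lit 515) (nat_lit 474) (nat_lit 211)) (XT.lf (nat_lit 0) (nat_lit 1829663512980) (nat_lit 76) (nat_lit 1302026413428) (nat_lit 152) (nat_lit 5849875256502) (nat_lit 20) (nat_lit 5) (nat_lit 21) (nat_lit 5) (nat_lit 22) (nat_lit 4) (nat_lit 516) (nat_lit 474) (nat_lit 210))) (XT.nd (nat_lit 59202) (nat_lit 0) (nat_lit 3724) (XT.lf (nat_lit 0) (nat_lit 5585098129439) (nat_lit 152) (nat_lit 2662893897159) (nat_lit 0) (nat_lit 1247828190116) (nat_lit 20) (nat_lit 5) (nat_lit 22) (nat_lit 4) (nat_lit 20) (nat_lit 4) (nat_lit 517) (nat_lit 474) (nat_lit 209)) (XT.nd (nat_lit 78) (nat_lit 0) (nat_lit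 0) (XT.lf (nat_lit 0) (nat_lit 598482236051) (nat_lit 532) (nat_lit 27149402790) (nat_lit 532) (nat_lit 27149402790) (nat_lit 69) (nat_lit 3) (nat_lit 76) (nat_lit 3) (nat_lit 76) (nat_lit 5) (nat_lit 475) (nat_lit 475) (nat_lit 250)) (XT.lf (nat_lit 76) (nat_lit 616277018309) (nat_lit 0) (nat_lit 643387545818) (nat_lit 532) (nat_lit 96934281391) (nat_lit 70) (nat_lit 5) (nat_lit 69) (nat_lit 3) (nat_lit 76) (nat_lit 5) (nat_lit 476) (nat_lit 475) (nat_lit 249))))) (XT.nd (nat_lit 234) (nat_lit 0) (nat_lit 76) (XT.nd (nat_lit 78) (nat_lit 532) (nat_lit 0) (XT.lf (nat_lit 0) (nat_lit 1329219341272) (nat_lit 456) (nat_lit 68366907596) (nat_lit 532) (nat_lit 13985205668) (nat_lit 70) (nat_lit 5) (nat_lit 76) (nat_lit 5) (nat_lit 77) (nat_lit 5) (nat_lit 477) (nat_lit 475) (nat_lit 248)) (XT.nd (nat_lit 78) (nat_lit 532) (nat_lit 0) (XT.lf (nat_lit 76) (nat_lit 674367639064) (nat_lit 0) (nat_lit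 762900780940) (nat_lit 532) (nat_lit 31039058719) (nat_lit 71) (nat_lit 5) (nat_lit 70) (nat_lit 5) (nat_lit 77) (nat_lit 5) (nat_lit 478) (nat_lit 475) (nat_lit 247)) (XT.lf (nat_lit 0) (nat_lit 25077323568) (nat_lit 532) (nat_lit 49658678339) (nat_lit 608) (nat_lit 1454646051885) (nat_lit 63) (nat_lit 5) (nat_lit 70) (nat_lit 5) (nat_lit 71) (nat_lit 5) (nat_lit 479) (nat_lit 475) (nat_lit 246)))) (XT.nd (nat_lit 78) (nat_lit 0) (nat_lit 0) (XT.lf (nat_lit 0) (nat_lit 119671805901) (nat_lit 532) (nat_lit 817316340629) (nat_lit 608) (nat_lit 655436695204) (nat_lit 64) (nat_lit 5) (nat_lit 71) (nat_lit 5) (nat_lit 72) (nat_lit 5) (nat_lit 480) (nat_lit 475) (nat_lit 245)) (XT.nd (nat_lit 78) (nat_lit 0) (nat_lit 76) (XT.lf (nat_lit 76) (nat_lit 6634159675) (nat_lit 0) (nat_lit 218693453559) (nat_lit 608) (nat_lit 1434903938166) (nat_lit 65) (nat_lit 5) (nat_lit 64) (nat_lit 5) (nat_lit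 72) (nat_lit 5) (nat_lit 481) (nat_lit 475) (nat_lit 244)) (XT.lf (nat_lit 0) (nat_lit 375760620233) (nat_lit 532) (nat_lit 802670706234) (nat_lit 76) (nat_lit 552125492568) (nat_lit 65) (nat_lit 5) (nat_lit 72) (nat_lit 5) (nat_lit 66) (nat_lit 5) (nat_lit 482) (nat_lit 475) (nat_lit 243)))))) (XT.nd (nat_lit 468) (nat_lit 760) (nat_lit 0) (XT.nd (nat_lit 234) (nat_lit 228) (nat_lit 0) (XT.nd (nat_lit 78) (nat_lit 228) (nat_lit 0) (XT.lf (nat_lit 0) (nat_lit 116476382729) (nat_lit 456) (nat_lit 430233491863) (nat_lit 532) (nat_lit 1259119704946) (nat_lit 59) (nat_lit 5) (nat_lit 65) (nat_lit 5) (nat_lit 66) (nat_lit 5) (nat_lit 483) (nat_lit 475) (nat_lit 242)) (XT.nd (nat_lit 78) (nat_lit 228) (nat_lit 0) (XT.lf (nat_lit 0) (nat_lit 762938128097) (nat_lit 532) (nat_lit 740221236620) (nat_lit 76) (nat_lit 381436551461) (nat_lit 59) (nat_lit 5) (nat_lit 66) (nat_lit 5) (nat_lit 60) (nat_lit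 5) (nat_lit 484) (nat_lit 475) (nat_lit 241)) (XT.lf (nat_lit 0) (nat_lit 288077168932) (nat_lit 228) (nat_lit 726490629535) (nat_lit 304) (nat_lit 953647508758) (nat_lit 56) (nat_lit 5) (nat_lit 59) (nat_lit 5) (nat_lit 60) (nat_lit 5) (nat_lit 485) (nat_lit 475) (nat_lit 240)))) (XT.nd (nat_lit 78) (nat_lit 228) (nat_lit 0) (XT.lf (nat_lit 0) (nat_lit 1309793584886) (nat_lit 304) (nat_lit 619395434619) (nat_lit 76) (nat_lit 127457970658) (nat_lit 56) (nat_lit 5) (nat_lit 60) (nat_lit 5) (nat_lit 57) (nat_lit 5) (nat_lit 486) (nat_lit 475) (nat_lit 239)) (XT.nd (nat_lit 78) (nat_lit 0) (nat_lit 0) (XT.lf (nat_lit 0) (nat_lit 534052253307) (nat_lit 228) (nat_lit 1126299035033) (nat_lit 304) (nat_lit 489264811067) (nat_lit 53) (nat_lit 5) (nat_lit 56) (nat_lit 5) (nat_lit 57) (nat_lit 5) (nat_lit 487) (nat_lit 475) (nat_lit 238)) (XT.lf (nat_lit 0) (nat_lit 1815001321327) (nat_lit 228) (nat_lit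 240887653784) (nat_lit 304) (nat_lit 192778932918) (nat_lit 53) (nat_lit 5) (nat_lit 56) (nat_lit 5) (nat_lit 57) (nat_lit 5) (nat_lit 488) (nat_lit 475) (nat_lit 237))))) (XT.nd (nat_lit 234) (nat_lit 304) (nat_lit 0) (XT.nd (nat_lit 78) (nat_lit 228) (nat_lit 0) (XT.lf (nat_lit 0) (nat_lit 160146256018) (nat_lit 228) (nat_lit 1487598205543) (nat_lit 76) (nat_lit 704526648593) (nat_lit 50) (nat_lit 5) (nat_lit 53) (nat_lit 5) (nat_lit 51) (nat_lit 5) (nat_lit 489) (nat_lit 475) (nat_lit 236)) (XT.nd (nat_lit 78) (nat_lit 228) (nat_lit 0) (XT.lf (nat_lit 0) (nat_lit 549312403539) (nat_lit 228) (nat_lit 183243482020) (nat_lit 76) (nat_lit 1729732342244) (nat_lit 50) (nat_lit 5) (nat_lit 53) (nat_lit 5) (nat_lit 51) (nat_lit 5) (nat_lit 490) (nat_lit 475) (nat_lit 235)) (XT.lf (nat_lit 0) (nat_lit 1007595106436) (nat_lit 304) (nat_lit 1295593593292) (nat_lit 76) (nat_lit 274879354049) (nat_lit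 47) (nat_lit 5) (nat_lit 51) (nat_lit 5) (nat_lit 48) (nat_lit 5) (nat_lit 491) (nat_lit 475) (nat_lit 234)))) (XT.nd (nat_lit 78) (nat_lit 152) (nat_lit 0) (XT.lf (nat_lit 0) (nat_lit 162113625227) (nat_lit 152) (nat_lit 1368493397690) (nat_lit 228) (nat_lit 1170257915125) (nat_lit 45) (nat_lit 5) (nat_lit 47) (nat_lit 5) (nat_lit 48) (nat_lit 5) (nat_lit 492) (nat_lit 475) (nat_lit 233)) (XT.nd (nat_lit 78) (nat_lit 152) (nat_lit 0) (XT.lf (nat_lit 0) (nat_lit 1810118974886) (nat_lit 152) (nat_lit 320764741252) (nat_lit 228) (nat_lit 699767951038) (nat_lit 45) (nat_lit 5) (nat_lit 47) (nat_lit 5) (nat_lit 48) (nat_lit 5) (nat_lit 493) (nat_lit 475) (nat_lit 232)) (XT.lf (nat_lit 0) (nat_lit 631220279171) (nat_lit 152) (nat_lit 2182642458817) (nat_lit 228) (nat_lit 154184181198) (nat_lit 43) (nat_lit 5) (nat_lit 45) (nat_lit 5) (nat_lit 46) (nat_lit 5) (nat_lit 494) (nat_lit 475) (nat_lit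 231))))))))
noncomputable def xc239 : XT := (XT.nd (nat_lit 60996) (nat_lit 0) (nat_lit 1520) (XT.nd (nat_lit 858) (nat_lit 760) (nat_lit 0) (XT.nd (nat_lit 390) (nat_lit 532) (nat_lit 0) (XT.nd (nat_lit 156) (nat_lit 228) (nat_lit 0) (XT.nd (nat_lit 78) (nat_lit 152) (nat_lit 0) (XT.lf (nat_lit 0) (nat_lit 450242993334) (nat_lit 228) (nat_lit 660568635880) (nat_lit 76) (nat_lit 2001828373805) (nat_lit 42) (nat_lit 5) (nat_lit 45) (nat_lit 5) (nat_lit 43) (nat_lit 5) (nat_lit 495) (nat_lit 475) (nat_lit 230)) (XT.lf (nat_lit 0) (nat_lit 1125683780955) (nat_lit 228) (nat_lit 2062021501162) (nat_lit 76) (nat_lit 78295717554) (nat_lit 40) (nat_lit 5) (nat_lit 43) (nat_lit 5) (nat_lit 41) (nat_lit 5) (nat_lit 496) (nat_lit 475) (nat_lit 229))) (XT.nd (nat_lit 78) (nat_lit 228) (nat_lit 0) (XT.lf (nat_lit 0) (nat_lit 1902542317583) (nat_lit 228) (nat_lit 204248751272) (nat_lit 76) (nat_lit 1321049208319)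 (nat_lit 40) (nat_lit 5) (nat_lit 43) (nat_lit 5) (nat_lit 41) (nat_lit 5) (nat_lit 497) (nat_lit 475) (nat_lit 228)) (XT.nd (nat_lit 78) (nat_lit 76) (nat_lit 0) (XT.lf (nat_lit 0) (nat_lit 1897043621946) (nat_lit 152) (nat_lit 890129858843) (nat_lit 228) (nat_lit 811803300597) (nat_lit 38) (nat_lit 5) (nat_lit 40) (nat_lit 5) (nat_lit 41) (nat_lit 5) (nat_lit 498) (nat_lit 475) (nat_lit 227)) (XT.lf (nat_lit 0) (nat_lit 404598399315) (nat_lit 76) (nat_lit 3363630858631) (nat_lit 152) (nat_lit 13522618318) (nat_lit 37) (nat_lit 5) (nat_lit 38) (nat_lit 5) (nat_lit 39) (nat_lit 4) (nat_lit 499) (nat_lit 475) (nat_lit 226))))) (XT.nd (nat_lit 234) (nat_lit 304) (nat_lit 0) (XT.nd (nat_lit 78) (nat_lit 152) (nat_lit 0) (XT.lf (nat_lit 0) (nat_lit 877031878874) (nat_lit 152) (nat_lit 1243721613258) (nat_lit 76) (nat_lit 1851093715441) (nat_lit 36) (nat_lit 5) (nat_lit 38) (nat_lit 5) (nat_lit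 37) (nat_lit 5) (nat_lit 500) (nat_lit 475) (nat_lit 225)) (XT.nd (nat_lit 78) (nat_lit 0) (nat_lit 0) (XT.lf (nat_lit 0) (nat_lit 1115853049861) (nat_lit 152) (nat_lit 749083405071) (nat_lit 228) (nat_lit 2310038708172) (nat_lit 34) (nat_lit 5) (nat_lit 36) (nat_lit 5) (nat_lit 37) (nat_lit 5) (nat_lit 501) (nat_lit 475) (nat_lit 224)) (XT.lf (nat_lit 0) (nat_lit 2984374530773) (nat_lit 228) (nat_lit 675203257941) (nat_lit 76) (nat_lit 730575475668) (nat_lit 34) (nat_lit 5) (nat_lit 37) (nat_lit 5) (nat_lit 35) (nat_lit 4) (nat_lit 502) (nat_lit 475) (nat_lit 223)))) (XT.nd (nat_lit 78) (nat_lit 228) (nat_lit 0) (XT.lf (nat_lit 0) (nat_lit 1978968407044) (nat_lit 76) (nat_lit 2281450194359) (nat_lit 152) (nat_lit 356762936460) (nat_lit 33) (nat_lit 5) (nat_lit 34) (nat_lit 5) (nat_lit 35) (nat_lit 4) (nat_lit 503) (nat_lit 475) (nat_lit 222)) (XT.nd (nat_lit 78) (nat_lit 0) (nat_lit 0)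 (XT.lf (nat_lit 0) (nat_lit 4033279889) (nat_lit 152) (nat_lit 752351237662) (nat_lit 228) (nat_lit 4102971173859) (nat_lit 30) (nat_lit 5) (nat_lit 32) (nat_lit 5) (nat_lit 33) (nat_lit 5) (nat_lit 504) (nat_lit 475) (nat_lit 221)) (XT.lf (nat_lit 0) (nat_lit 2034939110241) (nat_lit 228) (nat_lit 2140199138947) (nat_lit 76) (nat_lit 937373817870) (nat_lit 30) (nat_lit 5) (nat_lit 33) (nat_lit 5) (nat_lit 31) (nat_lit 4) (nat_lit 505) (nat_lit 475) (nat_lit 220)))))) (XT.nd (nat_lit 468) (nat_lit 456) (nat_lit 0) (XT.nd (nat_lit 234) (nat_lit 76) (nat_lit 0) (XT.nd (nat_lit 78) (nat_lit 152) (nat_lit 0) (XT.lf (nat_lit 0) (nat_lit 813275750238) (nat_lit 76) (nat_lit 2641603211254) (nat_lit 152) (nat_lit 1927913919976) (nat_lit 29) (nat_lit 5) (nat_lit 30) (nat_lit 5) (nat_lit 31) (nat_lit 4) (nat_lit 506) (nat_lit 475) (nat_lit 219)) (XT.nd (nat_lit 78) (nat_lit 152) (nat_lit 0) (XT.lf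 (nat_lit 0) (nat_lit 4124743650586) (nat_lit 76) (nat_lit 922187186703) (nat_lit 152) (nat_lit 623083976824) (nat_lit 29) (nat_lit 5) (nat_lit 30) (nat_lit 5) (nat_lit 31) (nat_lit 4) (nat_lit 507) (nat_lit 475) (nat_lit 218)) (XT.lf (nat_lit 0) (nat_lit 813987446315) (nat_lit 152) (nat_lit 4207713974803) (nat_lit 76) (nat_lit 951626111346) (nat_lit 27) (nat_lit 5) (nat_lit 29) (nat_lit 5) (nat_lit 28) (nat_lit 4) (nat_lit 508) (nat_lit 475) (nat_lit 217)))) (XT.nd (nat_lit 78) (nat_lit 76) (nat_lit 0) (XT.lf (nat_lit 0) (nat_lit 2399662644181) (nat_lit 152) (nat_lit 909509564281) (nat_lit 76) (nat_lit 2985054277499) (nat_lit 27) (nat_lit 5) (nat_lit 29) (nat_lit 5) (nat_lit 28) (nat_lit 4) (nat_lit 509) (nat_lit 475) (nat_lit 216)) (XT.nd (nat_lit 78) (nat_lit 0) (nat_lit 0) (XT.lf (nat_lit 0) (nat_lit 2792229843207) (nat_lit 76) (nat_lit 1387115208884) (nat_lit 152) (nat_lit 2456080048111)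 (nat_lit 26) (nat_lit 5) (nat_lit 27) (nat_lit 5) (nat_lit 28) (nat_lit 4) (nat_lit 510) (nat_lit 475) (nat_lit 215)) (XT.lf (nat_lit 0) (nat_lit 6143478971319) (nat_lit 152) (nat_lit 177306494518) (nat_lit 0) (nat_lit 679767984249) (nat_lit 26) (nat_lit 5) (nat_lit 28) (nat_lit 4) (nat_lit 26) (nat_lit 4) (nat_lit 511) (nat_lit 475) (nat_lit 214))))) (XT.nd (nat_lit 234) (nat_lit 228) (nat_lit 0) (XT.nd (nat_lit 78) (nat_lit 76) (nat_lit 0) (XT.lf (nat_lit 0) (nat_lit 960596962807) (nat_lit 152) (nat_lit 3465669305194) (nat_lit 76) (nat_lit 2956211490056) (nat_lit 24) (nat_lit 5) (nat_lit 26) (nat_lit 5) (nat_lit 25) (nat_lit 4) (nat_lit 512) (nat_lit 475) (nat_lit 213)) (XT.nd (nat_lit 78) (nat_lit 0) (nat_lit 0) (XT.lf (nat_lit 0) (nat_lit 559572479717) (nat_lit 76) (nat_lit 2336236880023) (nat_lit 152) (nat_lit 4895891195060) (nat_lit 23) (nat_lit 5) (nat_lit 24) (nat_lit 5) (nat_lit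 25) (nat_lit 4) (nat_lit 513) (nat_lit 475) (nat_lit 212)) (XT.lf (nat_lit 0) (nat_lit 5081157447596) (nat_lit 152) (nat_lit 3122712440820) (nat_lit 0) (nat_lit 22165790931) (nat_lit 23) (nat_lit 5) (nat_lit 25) (nat_lit 4) (nat_lit 23) (nat_lit 4) (nat_lit 514) (nat_lit 475) (nat_lit 211)))) (XT.nd (nat_lit 78) (nat_lit 152) (nat_lit 0) (XT.lf (nat_lit 0) (nat_lit 1320849191753) (nat_lit 76) (nat_lit 6212932122400) (nat_lit 76) (nat_lit 1153940465173) (nat_lit 22) (nat_lit 4) (nat_lit 23) (nat_lit 5) (nat_lit 23) (nat_lit 4) (nat_lit 515) (nat_lit 475) (nat_lit 210)) (XT.nd (nat_lit 78) (nat_lit 76) (nat_lit 0) (XT.lf (nat_lit 0) (nat_lit 1034032912836) (nat_lit 152) (nat_lit 2908203199048) (nat_lit 76) (nat_lit 5235181972224) (nat_lit 21) (nat_lit 5) (nat_lit 23) (nat_lit 5) (nat_lit 22) (nat_lit 4) (nat_lit 516) (nat_lit 475) (nat_lit 209)) (XT.lf (nat_lit 0) (nat_lit 1976036614400)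 (nat_lit 76) (nat_lit 1406188516671) (nat_lit 152) (nat_lit 6317865265626) (nat_lit 20) (nat_lit 5) (nat_lit 21) (nat_lit 5) (nat_lit 22) (nat_lit 4) (nat_lit 517) (nat_lit 475) (nat_lit 208))))))) (XT.nd (nat_lit 858) (nat_lit 1216) (nat_lit 0) (XT.nd (nat_lit 390) (nat_lit 532) (nat_lit 0) (XT.nd (nat_lit 156) (nat_lit 456) (nat_lit 0) (XT.nd (nat_lit 78) (nat_lit 0) (nat_lit 0) (XT.lf (nat_lit 0) (nat_lit 646360850098) (nat_lit 532) (nat_lit 29321336013) (nat_lit 532) (nat_lit 29321336013) (nat_lit 69) (nat_lit 3) (nat_lit 76) (nat_lit 3) (nat_lit 76) (nat_lit 5) (nat_lit 476) (nat_lit 476) (nat_lit 248)) (XT.lf (nat_lit 76) (nat_lit 665579216812) (nat_lit 0) (nat_lit 694858578454) (nat_lit 532) (nat_lit 104688952569) (nat_lit 70) (nat_lit 5) (nat_lit 69) (nat_lit 3) (nat_lit 76) (nat_lit 5) (nat_lit 477) (nat_lit 476) (nat_lit 247))) (XT.nd (nat_lit 78) (nat_lit 532) (nat_lit 0) (XT.lf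 (nat_lit 0) (nat_lit 1435556949048) (nat_lit 456) (nat_lit 73836220333) (nat_lit 532) (nat_lit 15103996639) (nat_lit 70) (nat_lit 5) (nat_lit 76) (nat_lit 5) (nat_lit 77) (nat_lit 5) (nat_lit 478) (nat_lit 476) (nat_lit 246)) (XT.nd (nat_lit 78) (nat_lit 532) (nat_lit 0) (XT.lf (nat_lit 76) (nat_lit 728317089050) (nat_lit 0) (nat_lit 823932861484) (nat_lit 532) (nat_lit 33522121896) (nat_lit 71) (nat_lit 5) (nat_lit 70) (nat_lit 5) (nat_lit 77) (nat_lit 5) (nat_lit 479) (nat_lit 476) (nat_lit 245)) (XT.lf (nat_lit 0) (nat_lit 27083563568) (nat_lit 532) (nat_lit 53631333742) (nat_lit 608) (nat_lit 1571017716424) (nat_lit 63) (nat_lit 5) (nat_lit 70) (nat_lit 5) (nat_lit 71) (nat_lit 5) (nat_lit 480) (nat_lit 476) (nat_lit 244))))) (XT.nd (nat_lit 234) (nat_lit 608) (nat_lit 0) (XT.nd (nat_lit 78) (nat_lit 0) (nat_lit 0) (XT.lf (nat_lit 0) (nat_lit 129245601074) (nat_lit 532) (nat_lit 882701605572)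 (nat_lit 608) (nat_lit 707871618340) (nat_lit 64) (nat_lit 5) (nat_lit 71) (nat_lit 5) (nat_lit 72) (nat_lit 5) (nat_lit 481) (nat_lit 476) (nat_lit 243)) (XT.nd (nat_lit 78) (nat_lit 0) (nat_lit 76) (XT.lf (nat_lit 76) (nat_lit 7164933686) (nat_lit 0) (nat_lit 236188936544) (nat_lit 608) (nat_lit 1549696201420) (nat_lit 65) (nat_lit 5) (nat_lit 64) (nat_lit 5) (nat_lit 72) (nat_lit 5) (nat_lit 482) (nat_lit 476) (nat_lit 242)) (XT.lf (nat_lit 0) (nat_lit 405821514089) (nat_lit 532) (nat_lit 866884320825) (nat_lit 76) (nat_lit 596295526079) (nat_lit 65) (nat_lit 5) (nat_lit 72) (nat_lit 5) (nat_lit 66) (nat_lit 5) (nat_lit 483) (nat_lit 476) (nat_lit 241)))) (XT.nd (nat_lit 78) (nat_lit 228) (nat_lit 0) (XT.lf (nat_lit 0) (nat_lit 125794534194) (nat_lit 456) (nat_lit 464652172308) (nat_lit 532) (nat_lit 1359849236020) (nat_lit 59) (nat_lit 5) (nat_lit 65) (nat_lit 5) (nat_lit 66) (nat_lit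 5) (nat_lit 484) (nat_lit 476) (nat_lit 240)) (XT.nd (nat_lit 78) (nat_lit 228) (nat_lit 0) (XT.lf (nat_lit 0) (nat_lit 823973217157) (nat_lit 532) (nat_lit 799438894576) (nat_lit 76) (nat_lit 411951474614) (nat_lit 59) (nat_lit 5) (nat_lit 66) (nat_lit 5) (nat_lit 60) (nat_lit 5) (nat_lit 485) (nat_lit 476) (nat_lit 239)) (XT.lf (nat_lit 0) (nat_lit 311123382383) (nat_lit 228) (nat_lit 784609876858) (nat_lit 304) (nat_lit 1029939269590) (nat_lit 56) (nat_lit 5) (nat_lit 59) (nat_lit 5) (nat_lit 60) (nat_lit 5) (nat_lit 486) (nat_lit 476) (nat_lit 238)))))) (XT.nd (nat_lit 468) (nat_lit 532) (nat_lit 0) (XT.nd (nat_lit 234) (nat_lit 456) (nat_lit 0) (XT.nd (nat_lit 78) (nat_lit 228) (nat_lit 0) (XT.lf (nat_lit 0) (nat_lit 1414577105909) (nat_lit 304) (nat_lit 668947029725) (nat_lit 76) (nat_lit 137654610985) (nat_lit 56) (nat_lit 5) (nat_lit 60) (nat_lit 5) (nat_lit 57) (nat_lit 5) (nat_lit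 487) (nat_lit 476) (nat_lit 237)) (XT.nd (nat_lit 78) (nat_lit 0) (nat_lit 0) (XT.lf (nat_lit 0) (nat_lit 576776472231) (nat_lit 228) (nat_lit 1216402951803) (nat_lit 304) (nat_lit 528405960699) (nat_lit 53) (nat_lit 5) (nat_lit 56) (nat_lit 5) (nat_lit 57) (nat_lit 5) (nat_lit 488) (nat_lit 476) (nat_lit 236)) (XT.lf (nat_lit 0) (nat_lit 1960201462828) (nat_lit 228) (nat_lit 260158660500) (nat_lit 304) (nat_lit 208201214910) (nat_lit 53) (nat_lit 5) (nat_lit 56) (nat_lit 5) (nat_lit 57) (nat_lit 5) (nat_lit 489) (nat_lit 476) (nat_lit 235)))) (XT.nd (nat_lit 78) (nat_lit 228) (nat_lit 0) (XT.lf (nat_lit 0) (nat_lit 172957986255) (nat_lit 228) (nat_lit 1606606023277) (nat_lit 76) (nat_lit 760888787040) (nat_lit 50) (nat_lit 5) (nat_lit 53) (nat_lit 5) (nat_lit 51) (nat_lit 5) (nat_lit 490) (nat_lit 476) (nat_lit 234)) (XT.nd (nat_lit 78) (nat_lit 228) (nat_lit 0) (XT.lf (nat_lit 0) (nat_lit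 593257423373) (nat_lit 228) (nat_lit 197902924739) (nat_lit 76) (nat_lit 1868110935697) (nat_lit 50) (nat_lit 5) (nat_lit 53) (nat_lit 5) (nat_lit 51) (nat_lit 5) (nat_lit 491) (nat_lit 476) (nat_lit 233)) (XT.lf (nat_lit 0) (nat_lit 1088202741508) (nat_lit 304) (nat_lit 1399241043907) (nat_lit 76) (nat_lit 296869710527) (nat_lit 47) (nat_lit 5) (nat_lit 51) (nat_lit 5) (nat_lit 48) (nat_lit 5) (nat_lit 492) (nat_lit 476) (nat_lit 232))))) (XT.nd (nat_lit 234) (nat_lit 228) (nat_lit 0) (XT.nd (nat_lit 78) (nat_lit 152) (nat_lit 0) (XT.lf (nat_lit 0) (nat_lit 175082751161) (nat_lit 152) (nat_lit 1477972859044) (nat_lit 228) (nat_lit 1263878520834) (nat_lit 45) (nat_lit 5) (nat_lit 47) (nat_lit 5) (nat_lit 48) (nat_lit 5) (nat_lit 493) (nat_lit 476) (nat_lit 231)) (XT.nd (nat_lit 78) (nat_lit 152) (nat_lit 0) (XT.lf (nat_lit 0) (nat_lit 1954928526132) (nat_lit 152) (nat_lit 346425910865)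 (nat_lit 228) (nat_lit 755749361657) (nat_lit 45) (nat_lit 5) (nat_lit 47) (nat_lit 5) (nat_lit 48) (nat_lit 5) (nat_lit 494) (nat_lit 476) (nat_lit 230)) (XT.lf (nat_lit 0) (nat_lit 681717935538) (nat_lit 152) (nat_lit 2357253844345) (nat_lit 228) (nat_lit 166518890999) (nat_lit 43) (nat_lit 5) (nat_lit 45) (nat_lit 5) (nat_lit 46) (nat_lit 5) (nat_lit 495) (nat_lit 476) (nat_lit 229)))) (XT.nd (nat_lit 78) (nat_lit 152) (nat_lit 0) (XT.lf (nat_lit 0) (nat_lit 486262454522) (nat_lit 228) (nat_lit 713414094086) (nat_lit 76) (nat_lit 2161974652906) (nat_lit 42) (nat_lit 5) (nat_lit 45) (nat_lit 5) (nat_lit 43) (nat_lit 5) (nat_lit 496) (nat_lit 476) (nat_lit 228)) (XT.nd (nat_lit 78) (nat_lit 0) (nat_lit 0) (XT.lf (nat_lit 0) (nat_lit 1215738504573) (nat_lit 228) (nat_lit 2226983188003) (nat_lit 76) (nat_lit 84559385369) (nat_lit 40) (nat_lit 5) (nat_lit 43) (nat_lit 5) (nat_lit 41) (nat_lit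 5) (nat_lit 497) (nat_lit 476) (nat_lit 227)) (XT.lf (nat_lit 0) (nat_lit 2054745722565) (nat_lit 228) (nat_lit 220588620585) (nat_lit 76) (nat_lit 1426733154624) (nat_lit 40) (nat_lit 5) (nat_lit 43) (nat_lit 5) (nat_lit 41) (nat_lit 5) (nat_lit 498) (nat_lit 476) (nat_lit 226))))))))
noncomputable def xc240 : XT := (XT.nd (nat_lit 60996) (nat_lit 0) (nat_lit 1140) (XT.nd (nat_lit 858) (nat_lit 456) (nat_lit 0) (XT.nd (nat_lit 390) (nat_lit 532) (nat_lit 0) (XT.nd (nat_lit 156) (nat_lit 228) (nat_lit 0) (XT.nd (nat_lit 78) (nat_lit 76) (nat_lit 0) (XT.lf (nat_lit 0) (nat_lit 2048807141711) (nat_lit 152) (nat_lit 961340236388) (nat_lit 228) (nat_lit 876747544283) (nat_lit 38) (nat_lit 5) (nat_lit 40) (nat_lit 5) (nat_lit 41) (nat_lit 5) (nat_lit 499) (nat_lit 476) (nat_lit 225)) (XT.lf (nat_lit 0) (nat_lit 436966301724) (nat_lit 76) (nat_lit 3632721315290) (nat_lit 152) (nat_lit 14604407870)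 (nat_lit 37) (nat_lit 5) (nat_lit 38) (nat_lit 5) (nat_lit 39) (nat_lit 4) (nat_lit 500) (nat_lit 476) (nat_lit 224))) (XT.nd (nat_lit 78) (nat_lit 152) (nat_lit 0) (XT.lf (nat_lit 0) (nat_lit 947194446700) (nat_lit 152) (nat_lit 1343219313184) (nat_lit 76) (nat_lit 1999181222889) (nat_lit 36) (nat_lit 5) (nat_lit 38) (nat_lit 5) (nat_lit 37) (nat_lit 5) (nat_lit 501) (nat_lit 476) (nat_lit 223)) (XT.nd (nat_lit 78) (nat_lit 0) (nat_lit 0) (XT.lf (nat_lit 0) (nat_lit 1205121322247) (nat_lit 152) (nat_lit 809010065981) (nat_lit 228) (nat_lit 2494841786568) (nat_lit 34) (nat_lit 5) (nat_lit 36) (nat_lit 5) (nat_lit 37) (nat_lit 5) (nat_lit 502) (nat_lit 476) (nat_lit 222)) (XT.lf (nat_lit 0) (nat_lit 3223124509140) (nat_lit 228) (nat_lit 729219491282) (nat_lit 76) (nat_lit 789021523833) (nat_lit 34) (nat_lit 5) (nat_lit 37) (nat_lit 5) (nat_lit 35) (nat_lit 4) (nat_lit 503) (nat_lit 476)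 (nat_lit 221))))) (XT.nd (nat_lit 234) (nat_lit 228) (nat_lit 0) (XT.nd (nat_lit 78) (nat_lit 228) (nat_lit 0) (XT.lf (nat_lit 0) (nat_lit 2137285906211) (nat_lit 76) (nat_lit 2463966198672) (nat_lit 152) (nat_lit 385303954777) (nat_lit 33) (nat_lit 5) (nat_lit 34) (nat_lit 5) (nat_lit 35) (nat_lit 4) (nat_lit 504) (nat_lit 476) (nat_lit 220)) (XT.nd (nat_lit 78) (nat_lit 0) (nat_lit 0) (XT.lf (nat_lit 0) (nat_lit 4355969022) (nat_lit 152) (nat_lit 812539325177) (nat_lit 228) (nat_lit 4431208851300) (nat_lit 30) (nat_lit 5) (nat_lit 32) (nat_lit 5) (nat_lit 33) (nat_lit 5) (nat_lit 505) (nat_lit 476) (nat_lit 219)) (XT.lf (nat_lit 0) (nat_lit 2197734253432) (nat_lit 228) (nat_lit 2311415044425) (nat_lit 76) (nat_lit 1012363733413) (nat_lit 30) (nat_lit 5) (nat_lit 33) (nat_lit 5) (nat_lit 31) (nat_lit 4) (nat_lit 506) (nat_lit 476) (nat_lit 218)))) (XT.nd (nat_lit 78) (nat_lit 152) (nat_lit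 0) (XT.lf (nat_lit 0) (nat_lit 878337835246) (nat_lit 76) (nat_lit 2852931457073) (nat_lit 152) (nat_lit 2082147018550) (nat_lit 29) (nat_lit 5) (nat_lit 30) (nat_lit 5) (nat_lit 31) (nat_lit 4) (nat_lit 507) (nat_lit 476) (nat_lit 217)) (XT.nd (nat_lit 78) (nat_lit 152) (nat_lit 0) (XT.lf (nat_lit 0) (nat_lit 4454723165771) (nat_lit 76) (nat_lit 995962151379) (nat_lit 152) (nat_lit 672930681059) (nat_lit 29) (nat_lit 5) (nat_lit 30) (nat_lit 5) (nat_lit 31) (nat_lit 4) (nat_lit 508) (nat_lit 476) (nat_lit 216)) (XT.lf (nat_lit 0) (nat_lit 879106455066) (nat_lit 152) (nat_lit 4544331068779) (nat_lit 76) (nat_lit 1027756210170) (nat_lit 27) (nat_lit 5) (nat_lit 29) (nat_lit 5) (nat_lit 28) (nat_lit 4) (nat_lit 509) (nat_lit 476) (nat_lit 215)))))) (XT.nd (nat_lit 390) (nat_lit 152) (nat_lit 0) (XT.nd (nat_lit 156) (nat_lit 228) (nat_lit 0) (XT.nd (nat_lit 78) (nat_lit 76) (nat_lit 0) (XT.lf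 (nat_lit 0) (nat_lit 2591635667796) (nat_lit 152) (nat_lit 982270307194) (nat_lit 76) (nat_lit 3223858628880) (nat_lit 27) (nat_lit 5) (nat_lit 29) (nat_lit 5) (nat_lit 28) (nat_lit 4) (nat_lit 510) (nat_lit 476) (nat_lit 214)) (XT.lf (nat_lit 0) (nat_lit 3015608252330) (nat_lit 76) (nat_lit 1498084415634) (nat_lit 152) (nat_lit 2652566439315) (nat_lit 26) (nat_lit 5) (nat_lit 27) (nat_lit 5) (nat_lit 28) (nat_lit 4) (nat_lit 511) (nat_lit 476) (nat_lit 213))) (XT.nd (nat_lit 78) (nat_lit 228) (nat_lit 0) (XT.lf (nat_lit 0) (nat_lit 6634957300085) (nat_lit 152) (nat_lit 191490993371) (nat_lit 0) (nat_lit 734149431751) (nat_lit 26) (nat_lit 5) (nat_lit 28) (nat_lit 4) (nat_lit 26) (nat_lit 4) (nat_lit 512) (nat_lit 476) (nat_lit 212)) (XT.nd (nat_lit 78) (nat_lit 76) (nat_lit 0) (XT.lf (nat_lit 0) (nat_lit 1037444730839) (nat_lit 152) (nat_lit 3742922828844) (nat_lit 76) (nat_lit 3192708418137)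 (nat_lit 24) (nat_lit 5) (nat_lit 26) (nat_lit 5) (nat_lit 25) (nat_lit 4) (nat_lit 513) (nat_lit 476) (nat_lit 211)) (XT.lf (nat_lit 0) (nat_lit 604338298334) (nat_lit 76) (nat_lit 2523135820863) (nat_lit 152) (nat_lit 5287562479131) (nat_lit 23) (nat_lit 5) (nat_lit 24) (nat_lit 5) (nat_lit 25) (nat_lit 4) (nat_lit 514) (nat_lit 476) (nat_lit 210))))) (XT.nd (nat_lit 59514) (nat_lit 0) (nat_lit 3648) (XT.nd (nat_lit 78) (nat_lit 152) (nat_lit 0) (XT.lf (nat_lit 0) (nat_lit 5487650053504) (nat_lit 152) (nat_lit 3372529416766) (nat_lit 0) (nat_lit 23939062616) (nat_lit 23) (nat_lit 5) (nat_lit 25) (nat_lit 4) (nat_lit 23) (nat_lit 4) (nat_lit 515) (nat_lit 476) (nat_lit 209)) (XT.nd (nat_lit 78) (nat_lit 76) (nat_lit 0) (XT.lf (nat_lit 0) (nat_lit 1426517145925) (nat_lit 76) (nat_lit 6709966683166) (nat_lit 76) (nat_lit 1246255691796) (nat_lit 22) (nat_lit 4) (nat_lit 23) (nat_lit 5) (nat_lit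 23) (nat_lit 4) (nat_lit 516) (nat_lit 476) (nat_lit 208)) (XT.lf (nat_lit 0) (nat_lit 1116755555178) (nat_lit 152) (nat_lit 3140859437044) (nat_lit 76) (nat_lit 5653996537868) (nat_lit 21) (nat_lit 5) (nat_lit 23) (nat_lit 5) (nat_lit 22) (nat_lit 4) (nat_lit 517) (nat_lit 476) (nat_lit 207)))) (XT.nd (nat_lit 78) (nat_lit 0) (nat_lit 0) (XT.lf (nat_lit 0) (nat_lit 698069748254) (nat_lit 532) (nat_lit 31667026605) (nat_lit 532) (nat_lit 31667026605) (nat_lit 69) (nat_lit 3) (nat_lit 76) (nat_lit 3) (nat_lit 76) (nat_lit 5) (nat_lit 477) (nat_lit 477) (nat_lit 246)) (XT.nd (nat_lit 78) (nat_lit 0) (nat_lit 76) (XT.lf (nat_lit 76) (nat_lit 718825585912) (nat_lit 0) (nat_lit 750447289568) (nat_lit 532) (nat_lit 113064007618) (nat_lit 70) (nat_lit 5) (nat_lit 69) (nat_lit 3) (nat_lit 76) (nat_lit 5) (nat_lit 478) (nat_lit 477) (nat_lit 245)) (XT.lf (nat_lit 0) (nat_lit 1550401556819) (nat_lit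 456) (nat_lit 79743083778) (nat_lit 532) (nat_lit 16312294523) (nat_lit 70) (nat_lit 5) (nat_lit 76) (nat_lit 5) (nat_lit 77) (nat_lit 5) (nat_lit 479) (nat_lit 477) (nat_lit 244))))))) (XT.nd (nat_lit 858) (nat_lit 1292) (nat_lit 0) (XT.nd (nat_lit 390) (nat_lit 760) (nat_lit 0) (XT.nd (nat_lit 156) (nat_lit 0) (nat_lit 76) (XT.nd (nat_lit 78) (nat_lit 532) (nat_lit 0) (XT.lf (nat_lit 76) (nat_lit 786582489491) (nat_lit 0) (nat_lit 889847505894) (nat_lit 532) (nat_lit 36203838903) (nat_lit 71) (nat_lit 5) (nat_lit 70) (nat_lit 5) (nat_lit 77) (nat_lit 5) (nat_lit 480) (nat_lit 477) (nat_lit 243)) (XT.lf (nat_lit 0) (nat_lit 29250295048) (nat_lit 532) (nat_lit 57921807122) (nat_lit 608) (nat_lit 1696699116924) (nat_lit 63) (nat_lit 5) (nat_lit 70) (nat_lit 5) (nat_lit 71) (nat_lit 5) (nat_lit 481) (nat_lit 477) (nat_lit 242))) (XT.nd (nat_lit 78) (nat_lit 0) (nat_lit 0) (XT.lf (nat_lit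 0) (nat_lit 139585292629) (nat_lit 532) (nat_lit 953317697746) (nat_lit 608) (nat_lit 764501337108) (nat_lit 64) (nat_lit 5) (nat_lit 71) (nat_lit 5) (nat_lit 72) (nat_lit 5) (nat_lit 482) (nat_lit 477) (nat_lit 241)) (XT.nd (nat_lit 78) (nat_lit 0) (nat_lit 76) (XT.lf (nat_lit 76) (nat_lit 7738163734) (nat_lit 0) (nat_lit 255084057213) (nat_lit 608) (nat_lit 1673671853123) (nat_lit 65) (nat_lit 5) (nat_lit 64) (nat_lit 5) (nat_lit 72) (nat_lit 5) (nat_lit 483) (nat_lit 477) (nat_lit 240)) (XT.lf (nat_lit 0) (nat_lit 438287273143) (nat_lit 532) (nat_lit 936235030563) (nat_lit 76) (nat_lit 643999163112) (nat_lit 65) (nat_lit 5) (nat_lit 72) (nat_lit 5) (nat_lit 66) (nat_lit 5) (nat_lit 484) (nat_lit 477) (nat_lit 239))))) (XT.nd (nat_lit 234) (nat_lit 228) (nat_lit 0) (XT.nd (nat_lit 78) (nat_lit 228) (nat_lit 0) (XT.lf (nat_lit 0) (nat_lit 135858131949) (nat_lit 456) (nat_lit 501824347033)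 (nat_lit 532) (nat_lit 1468637136046) (nat_lit 59) (nat_lit 5) (nat_lit 65) (nat_lit 5) (nat_lit 66) (nat_lit 5) (nat_lit 485) (nat_lit 477) (nat_lit 238)) (XT.nd (nat_lit 78) (nat_lit 228) (nat_lit 0) (XT.lf (nat_lit 0) (nat_lit 889891107804) (nat_lit 532) (nat_lit 863393971013) (nat_lit 76) (nat_lit 444907591756) (nat_lit 59) (nat_lit 5) (nat_lit 66) (nat_lit 5) (nat_lit 60) (nat_lit 5) (nat_lit 486) (nat_lit 477) (nat_lit 237)) (XT.lf (nat_lit 0) (nat_lit 336013287213) (nat_lit 228) (nat_lit 847378664401) (nat_lit 304) (nat_lit 1112334376976) (nat_lit 56) (nat_lit 5) (nat_lit 59) (nat_lit 5) (nat_lit 60) (nat_lit 5) (nat_lit 487) (nat_lit 477) (nat_lit 236)))) (XT.nd (nat_lit 78) (nat_lit 228) (nat_lit 0) (XT.lf (nat_lit 0) (nat_lit 1527743303730) (nat_lit 304) (nat_lit 722462758099) (nat_lit 76) (nat_lit 148666982156) (nat_lit 56) (nat_lit 5) (nat_lit 60) (nat_lit 5) (nat_lit 57) (nat_lit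 5) (nat_lit 488) (nat_lit 477) (nat_lit 235)) (XT.nd (nat_lit 78) (nat_lit 0) (nat_lit 0) (XT.lf (nat_lit 0) (nat_lit 622918623152) (nat_lit 228) (nat_lit 1313715182775) (nat_lit 304) (nat_lit 570678407331) (nat_lit 53) (nat_lit 5) (nat_lit 56) (nat_lit 5) (nat_lit 57) (nat_lit 5) (nat_lit 489) (nat_lit 477) (nat_lit 234)) (XT.lf (nat_lit 0) (nat_lit 2117017610542) (nat_lit 228) (nat_lit 280971348551) (nat_lit 304) (nat_lit 224857284118) (nat_lit 53) (nat_lit 5) (nat_lit 56) (nat_lit 5) (nat_lit 57) (nat_lit 5) (nat_lit 490) (nat_lit 477) (nat_lit 233)))))) (XT.nd (nat_lit 468) (nat_lit 532) (nat_lit 0) (XT.nd (nat_lit 234) (nat_lit 304) (nat_lit 0) (XT.nd (nat_lit 78) (nat_lit 228) (nat_lit 0) (XT.lf (nat_lit 0) (nat_lit 186794650666) (nat_lit 228) (nat_lit 1735134471952) (nat_lit 76) (nat_lit 821759895627) (nat_lit 50) (nat_lit 5) (nat_lit 53) (nat_lit 5) (nat_lit 51) (nat_lit 5) (nat_lit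 491) (nat_lit 477) (nat_lit 232)) (XT.nd (nat_lit 78) (nat_lit 228) (nat_lit 0) (XT.lf (nat_lit 0) (nat_lit 640718040864) (nat_lit 228) (nat_lit 213735127989) (nat_lit 76) (nat_lit 2017559815760) (nat_lit 50) (nat_lit 5) (nat_lit 53) (nat_lit 5) (nat_lit 51) (nat_lit 5) (nat_lit 492) (nat_lit 477) (nat_lit 231)) (XT.lf (nat_lit 0) (nat_lit 1175258983597) (nat_lit 304) (nat_lit 1511180295829) (nat_lit 76) (nat_lit 320619294361) (nat_lit 47) (nat_lit 5) (nat_lit 51) (nat_lit 5) (nat_lit 48) (nat_lit 5) (nat_lit 493) (nat_lit 477) (nat_lit 230)))) (XT.nd (nat_lit 78) (nat_lit 152) (nat_lit 0) (XT.lf (nat_lit 0) (nat_lit 189089402045) (nat_lit 152) (nat_lit 1596210678798) (nat_lit 228) (nat_lit 1364988778923) (nat_lit 45) (nat_lit 5) (nat_lit 47) (nat_lit 5) (nat_lit 48) (nat_lit 5) (nat_lit 494) (nat_lit 477) (nat_lit 229)) (XT.nd (nat_lit 78) (nat_lit 152) (nat_lit 0) (XT.lf (nat_lit 0) (nat_lit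 2111322836733) (nat_lit 152) (nat_lit 374139975430) (nat_lit 228) (nat_lit 816209288758) (nat_lit 45) (nat_lit 5) (nat_lit 47) (nat_lit 5) (nat_lit 48) (nat_lit 5) (nat_lit 495) (nat_lit 477) (nat_lit 228)) (XT.lf (nat_lit 0) (nat_lit 736255399560) (nat_lit 152) (nat_lit 2545834142310) (nat_lit 228) (nat_lit 179840381108) (nat_lit 43) (nat_lit 5) (nat_lit 45) (nat_lit 5) (nat_lit 46) (nat_lit 5) (nat_lit 496) (nat_lit 477) (nat_lit 227))))) (XT.nd (nat_lit 234) (nat_lit 304) (nat_lit 0) (XT.nd (nat_lit 78) (nat_lit 152) (nat_lit 0) (XT.lf (nat_lit 0) (nat_lit 525163469507) (nat_lit 228) (nat_lit 770487193609) (nat_lit 76) (nat_lit 2334932633024) (nat_lit 42) (nat_lit 5) (nat_lit 45) (nat_lit 5) (nat_lit 43) (nat_lit 5) (nat_lit 497) (nat_lit 477) (nat_lit 226)) (XT.nd (nat_lit 78) (nat_lit 0) (nat_lit 0) (XT.lf (nat_lit 0) (nat_lit 1312997603065) (nat_lit 228) (nat_lit 2405141814535) (nat_lit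 76) (nat_lit 91324145124) (nat_lit 40) (nat_lit 5) (nat_lit 43) (nat_lit 5) (nat_lit 41) (nat_lit 5) (nat_lit 498) (nat_lit 477) (nat_lit 225)) (XT.lf (nat_lit 0) (nat_lit 2219125397154) (nat_lit 228) (nat_lit 238235683835) (nat_lit 76) (nat_lit 1540871815259) (nat_lit 40) (nat_lit 5) (nat_lit 43) (nat_lit 5) (nat_lit 41) (nat_lit 5) (nat_lit 499) (nat_lit 477) (nat_lit 224)))) (XT.nd (nat_lit 78) (nat_lit 152) (nat_lit 0) (XT.lf (nat_lit 0) (nat_lit 2212711738776) (nat_lit 152) (nat_lit 1038247445730) (nat_lit 228) (nat_lit 946887330369) (nat_lit 38) (nat_lit 5) (nat_lit 40) (nat_lit 5) (nat_lit 41) (nat_lit 5) (nat_lit 500) (nat_lit 477) (nat_lit 223)) (XT.nd (nat_lit 78) (nat_lit 76) (nat_lit 0) (XT.lf (nat_lit 0) (nat_lit 471923631980) (nat_lit 76) (nat_lit 3923339010198) (nat_lit 152) (nat_lit 15772743428) (nat_lit 37) (nat_lit 5) (nat_lit 38) (nat_lit 5) (nat_lit 39) (nat_lit 4) (nat_lit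 501) (nat_lit 477) (nat_lit 222)) (XT.lf (nat_lit 0) (nat_lit 1022970017453) (nat_lit 152) (nat_lit 1450676833260) (nat_lit 76) (nat_lit 2159115729476) (nat_lit 36) (nat_lit 5) (nat_lit 38) (nat_lit 5) (nat_lit 37) (nat_lit 5) (nat_lit 502) (nat_lit 477) (nat_lit 221))))))))
noncomputable def xc241 : XT := (XT.nd (nat_lit 61152) (nat_lit 0) (nat_lit 532) (XT.nd (nat_lit 858) (nat_lit 228) (nat_lit 0) (XT.nd (nat_lit 390) (nat_lit 304) (nat_lit 0) (XT.nd (nat_lit 156) (nat_lit 304) (nat_lit 0) (XT.nd (nat_lit 78) (nat_lit 0) (nat_lit 0) (XT.lf (nat_lit 0) (nat_lit 1301531052373) (nat_lit 152) (nat_lit 873730861404) (nat_lit 228) (nat_lit 2694429113840) (nat_lit 34) (nat_lit 5) (nat_lit 36) (nat_lit 5) (nat_lit 37) (nat_lit 5) (nat_lit 503) (nat_lit 477) (nat_lit 220)) (XT.lf (nat_lit 0) (nat_lit 3480974483508) (nat_lit 228) (nat_lit 787557027185) (nat_lit 76) (nat_lit 852143254409) (nat_lit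 34) (nat_lit 5) (nat_lit 37) (nat_lit 5) (nat_lit 35) (nat_lit 4) (nat_lit 504) (nat_lit 477) (nat_lit 219))) (XT.nd (nat_lit 78) (nat_lit 228) (nat_lit 0) (XT.lf (nat_lit 0) (nat_lit 2308268801515) (nat_lit 76) (nat_lit 2661083484933) (nat_lit 152) (nat_lit 416128256927) (nat_lit 33) (nat_lit 5) (nat_lit 34) (nat_lit 5) (nat_lit 35) (nat_lit 4) (nat_lit 505) (nat_lit 477) (nat_lit 218)) (XT.nd (nat_lit 78) (nat_lit 0) (nat_lit 0) (XT.lf (nat_lit 0) (nat_lit 4704469472) (nat_lit 152) (nat_lit 877542461334) (nat_lit 228) (nat_lit 4785705545285) (nat_lit 30) (nat_lit 5) (nat_lit 32) (nat_lit 5) (nat_lit 33) (nat_lit 5) (nat_lit 506) (nat_lit 477) (nat_lit 217)) (XT.lf (nat_lit 0) (nat_lit 2373553006028) (nat_lit 228) (nat_lit 2496328225999) (nat_lit 76) (nat_lit 1093352840756) (nat_lit 30) (nat_lit 5) (nat_lit 33) (nat_lit 5) (nat_lit 31) (nat_lit 4) (nat_lit 507) (nat_lit 477) (nat_lit 216)))))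 (XT.nd (nat_lit 234) (nat_lit 76) (nat_lit 0) (XT.nd (nat_lit 78) (nat_lit 152) (nat_lit 0) (XT.lf (nat_lit 0) (nat_lit 948604883489) (nat_lit 76) (nat_lit 3081165964139) (nat_lit 152) (nat_lit 2248718767154) (nat_lit 29) (nat_lit 5) (nat_lit 30) (nat_lit 5) (nat_lit 31) (nat_lit 4) (nat_lit 508) (nat_lit 477) (nat_lit 215)) (XT.nd (nat_lit 78) (nat_lit 152) (nat_lit 0) (XT.lf (nat_lit 0) (nat_lit 4811101038870) (nat_lit 76) (nat_lit 1075639114693) (nat_lit 152) (nat_lit 726765123617) (nat_lit 29) (nat_lit 5) (nat_lit 30) (nat_lit 5) (nat_lit 31) (nat_lit 4) (nat_lit 509) (nat_lit 477) (nat_lit 214)) (XT.lf (nat_lit 0) (nat_lit 949434982656) (nat_lit 152) (nat_lit 4907877533699) (nat_lit 76) (nat_lit 1109976715485) (nat_lit 27) (nat_lit 5) (nat_lit 29) (nat_lit 5) (nat_lit 28) (nat_lit 4) (nat_lit 510) (nat_lit 477) (nat_lit 213)))) (XT.nd (nat_lit 78) (nat_lit 76) (nat_lit 0) (XT.lf (nat_lit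 0) (nat_lit 2798966531575) (nat_lit 152) (nat_lit 1060851912711) (nat_lit 76) (nat_lit 3481767327062) (nat_lit 27) (nat_lit 5) (nat_lit 29) (nat_lit 5) (nat_lit 28) (nat_lit 4) (nat_lit 511) (nat_lit 477) (nat_lit 212)) (XT.nd (nat_lit 78) (nat_lit 0) (nat_lit 0) (XT.lf (nat_lit 0) (nat_lit 3256856931092) (nat_lit 76) (nat_lit 1617931160345) (nat_lit 152) (nat_lit 2864771743620) (nat_lit 26) (nat_lit 5) (nat_lit 27) (nat_lit 5) (nat_lit 28) (nat_lit 4) (nat_lit 512) (nat_lit 477) (nat_lit 211)) (XT.lf (nat_lit 0) (nat_lit 7165753893574) (nat_lit 152) (nat_lit 206810255086) (nat_lit 0) (nat_lit 792881393802) (nat_lit 26) (nat_lit 5) (nat_lit 28) (nat_lit 4) (nat_lit 26) (nat_lit 4) (nat_lit 513) (nat_lit 477) (nat_lit 210)))))) (XT.nd (nat_lit 59826) (nat_lit 0) (nat_lit 3040) (XT.nd (nat_lit 156) (nat_lit 0) (nat_lit 0) (XT.nd (nat_lit 78) (nat_lit 76) (nat_lit 0) (XT.lf (nat_lit 0) (nat_lit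 1120440318742) (nat_lit 152) (nat_lit 4042356637348) (nat_lit 76) (nat_lit 3448125099198) (nat_lit 24) (nat_lit 5) (nat_lit 26) (nat_lit 5) (nat_lit 25) (nat_lit 4) (nat_lit 514) (nat_lit 477) (nat_lit 209)) (XT.lf (nat_lit 0) (nat_lit 652685379553) (nat_lit 76) (nat_lit 2724986678334) (nat_lit 152) (nat_lit 5710567467573) (nat_lit 23) (nat_lit 5) (nat_lit 24) (nat_lit 5) (nat_lit 25) (nat_lit 4) (nat_lit 515) (nat_lit 477) (nat_lit 208))) (XT.nd (nat_lit 59514) (nat_lit 0) (nat_lit 3496) (XT.lf (nat_lit 0) (nat_lit 5926662066444) (nat_lit 152) (nat_lit 3642331753543) (nat_lit 0) (nat_lit 25854194836) (nat_lit 23) (nat_lit 5) (nat_lit 25) (nat_lit 4) (nat_lit 23) (nat_lit 4) (nat_lit 516) (nat_lit 477) (nat_lit 207)) (XT.nd (nat_lit 78) (nat_lit 0) (nat_lit 0) (XT.lf (nat_lit 0) (nat_lit 753915353961) (nat_lit 532) (nat_lit 34200374767) (nat_lit 532) (nat_lit 34200374767) (nat_lit 69) (nat_lit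 3) (nat_lit 76) (nat_lit 3) (nat_lit 76) (nat_lit 5) (nat_lit 478) (nat_lit 478) (nat_lit 244)) (XT.lf (nat_lit 76) (nat_lit 776331660010) (nat_lit 0) (nat_lit 810483094028) (nat_lit 532) (nat_lit 122109075795) (nat_lit 70) (nat_lit 5) (nat_lit 69) (nat_lit 3) (nat_lit 76) (nat_lit 5) (nat_lit 479) (nat_lit 478) (nat_lit 243))))) (XT.nd (nat_lit 234) (nat_lit 0) (nat_lit 76) (XT.nd (nat_lit 78) (nat_lit 532) (nat_lit 0) (XT.lf (nat_lit 0) (nat_lit 1674433725815) (nat_lit 456) (nat_lit 86122501174) (nat_lit 532) (nat_lit 17617259354) (nat_lit 70) (nat_lit 5) (nat_lit 76) (nat_lit 5) (nat_lit 77) (nat_lit 5) (nat_lit 480) (nat_lit 478) (nat_lit 242)) (XT.nd (nat_lit 78) (nat_lit 532) (nat_lit 0) (XT.lf (nat_lit 76) (nat_lit 849509117214) (nat_lit 0) (nat_lit 961035319646) (nat_lit 532) (nat_lit 39100100795) (nat_lit 71) (nat_lit 5) (nat_lit 70) (nat_lit 5) (nat_lit 77) (nat_lit 5) (nat_lit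 481) (nat_lit 478) (nat_lit 241)) (XT.lf (nat_lit 0) (nat_lit 31590358427) (nat_lit 532) (nat_lit 62555523126) (nat_lit 608) (nat_lit 1832435031862) (nat_lit 63) (nat_lit 5) (nat_lit 70) (nat_lit 5) (nat_lit 71) (nat_lit 5) (nat_lit 482) (nat_lit 478) (nat_lit 240)))) (XT.nd (nat_lit 78) (nat_lit 0) (nat_lit 0) (XT.lf (nat_lit 0) (nat_lit 150752153306) (nat_lit 532) (nat_lit 1029583082469) (nat_lit 608) (nat_lit 825661434904) (nat_lit 64) (nat_lit 5) (nat_lit 71) (nat_lit 5) (nat_lit 72) (nat_lit 5) (nat_lit 483) (nat_lit 478) (nat_lit 239)) (XT.nd (nat_lit 78) (nat_lit 0) (nat_lit 76) (XT.lf (nat_lit 76) (nat_lit 8357247143) (nat_lit 0) (nat_lit 275490786715) (nat_lit 608) (nat_lit 1807565563299) (nat_lit 65) (nat_lit 5) (nat_lit 64) (nat_lit 5) (nat_lit 72) (nat_lit 5) (nat_lit 484) (nat_lit 478) (nat_lit 238)) (XT.lf (nat_lit 0) (nat_lit 473350287510) (nat_lit 532) (nat_lit 1011133802205)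 (nat_lit 76) (nat_lit 695519091828) (nat_lit 65) (nat_lit 5) (nat_lit 72) (nat_lit 5) (nat_lit 66) (nat_lit 5) (nat_lit 485) (nat_lit 478) (nat_lit 237))))))) (XT.nd (nat_lit 858) (nat_lit 1140) (nat_lit 0) (XT.nd (nat_lit 390) (nat_lit 608) (nat_lit 0) (XT.nd (nat_lit 156) (nat_lit 456) (nat_lit 0) (XT.nd (nat_lit 78) (nat_lit 0) (nat_lit 0) (XT.lf (nat_lit 0) (nat_lit 146726812528) (nat_lit 456) (nat_lit 541970295601) (nat_lit 532) (nat_lit 1586128073616) (nat_lit 59) (nat_lit 5) (nat_lit 65) (nat_lit 5) (nat_lit 66) (nat_lit 5) (nat_lit 486) (nat_lit 478) (nat_lit 236)) (XT.lf (nat_lit 0) (nat_lit 961082424956) (nat_lit 532) (nat_lit 932465458577) (nat_lit 76) (nat_lit 480500198388) (nat_lit 59) (nat_lit 5) (nat_lit 66) (nat_lit 5) (nat_lit 60) (nat_lit 5) (nat_lit 487) (nat_lit 478) (nat_lit 235))) (XT.nd (nat_lit 78) (nat_lit 228) (nat_lit 0) (XT.lf (nat_lit 0) (nat_lit 362894379545)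 (nat_lit 228) (nat_lit 915168955319) (nat_lit 304) (nat_lit 1201321097829) (nat_lit 56) (nat_lit 5) (nat_lit 59) (nat_lit 5) (nat_lit 60) (nat_lit 5) (nat_lit 488) (nat_lit 478) (nat_lit 234)) (XT.nd (nat_lit 78) (nat_lit 228) (nat_lit 0) (XT.lf (nat_lit 0) (nat_lit 1649962793189) (nat_lit 304) (nat_lit 780259749594) (nat_lit 76) (nat_lit 160560342694) (nat_lit 56) (nat_lit 5) (nat_lit 60) (nat_lit 5) (nat_lit 57) (nat_lit 5) (nat_lit 489) (nat_lit 478) (nat_lit 233)) (XT.lf (nat_lit 0) (nat_lit 672752141420) (nat_lit 228) (nat_lit 1418812392962) (nat_lit 304) (nat_lit 616332654006) (nat_lit 53) (nat_lit 5) (nat_lit 56) (nat_lit 5) (nat_lit 57) (nat_lit 5) (nat_lit 490) (nat_lit 478) (nat_lit 232))))) (XT.nd (nat_lit 234) (nat_lit 380) (nat_lit 0) (XT.nd (nat_lit 78) (nat_lit 228) (nat_lit 0) (XT.lf (nat_lit 0) (nat_lit 2286379045696) (nat_lit 228) (nat_lit 303449052330) (nat_lit 304) (nat_lit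 242845842855) (nat_lit 53) (nat_lit 5) (nat_lit 56) (nat_lit 5) (nat_lit 57) (nat_lit 5) (nat_lit 491) (nat_lit 478) (nat_lit 231)) (XT.nd (nat_lit 78) (nat_lit 0) (nat_lit 0) (XT.lf (nat_lit 0) (nat_lit 201738244591) (nat_lit 228) (nat_lit 1873945201255) (nat_lit 76) (nat_lit 887500692099) (nat_lit 50) (nat_lit 5) (nat_lit 53) (nat_lit 5) (nat_lit 51) (nat_lit 5) (nat_lit 492) (nat_lit 478) (nat_lit 230)) (XT.lf (nat_lit 0) (nat_lit 691975504385) (nat_lit 228) (nat_lit 230833911883) (nat_lit 76) (nat_lit 2178964605486) (nat_lit 50) (nat_lit 5) (nat_lit 53) (nat_lit 5) (nat_lit 51) (nat_lit 5) (nat_lit 493) (nat_lit 478) (nat_lit 229)))) (XT.nd (nat_lit 78) (nat_lit 152) (nat_lit 0) (XT.lf (nat_lit 0) (nat_lit 1269279721806) (nat_lit 304) (nat_lit 1632074692410) (nat_lit 76) (nat_lit 346268843903) (nat_lit 47) (nat_lit 5) (nat_lit 51) (nat_lit 5) (nat_lit 48) (nat_lit 5) (nat_lit 494) (nat_lit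 478) (nat_lit 228)) (XT.nd (nat_lit 78) (nat_lit 0) (nat_lit 0) (XT.lf (nat_lit 0) (nat_lit 204216580608) (nat_lit 152) (nat_lit 1723907525412) (nat_lit 228) (nat_lit 1474187861022) (nat_lit 45) (nat_lit 5) (nat_lit 47) (nat_lit 5) (nat_lit 48) (nat_lit 5) (nat_lit 495) (nat_lit 478) (nat_lit 227)) (XT.lf (nat_lit 0) (nat_lit 2280228688116) (nat_lit 152) (nat_lit 404071166344) (nat_lit 228) (nat_lit 881506013142) (nat_lit 45) (nat_lit 5) (nat_lit 47) (nat_lit 5) (nat_lit 48) (nat_lit 5) (nat_lit 496) (nat_lit 478) (nat_lit 226)))))) (XT.nd (nat_lit 468) (nat_lit 532) (nat_lit 0) (XT.nd (nat_lit 234) (nat_lit 228) (nat_lit 0) (XT.nd (nat_lit 78) (nat_lit 228) (nat_lit 0) (XT.lf (nat_lit 0) (nat_lit 795155856541) (nat_lit 152) (nat_lit 2749500865480) (nat_lit 228) (nat_lit 194227593445) (nat_lit 43) (nat_lit 5) (nat_lit 45) (nat_lit 5) (nat_lit 46) (nat_lit 5) (nat_lit 497) (nat_lit 478)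 (nat_lit 225)) (XT.nd (nat_lit 78) (nat_lit 152) (nat_lit 0) (XT.lf (nat_lit 0) (nat_lit 567176563034) (nat_lit 228) (nat_lit 832126145088) (nat_lit 76) (nat_lit 2521727250426) (nat_lit 42) (nat_lit 5) (nat_lit 45) (nat_lit 5) (nat_lit 43) (nat_lit 5) (nat_lit 498) (nat_lit 478) (nat_lit 224)) (XT.lf (nat_lit 0) (nat_lit 1418037426850) (nat_lit 228) (nat_lit 2597553135257) (nat_lit 76) (nat_lit 98630084387) (nat_lit 40) (nat_lit 5) (nat_lit 43) (nat_lit 5) (nat_lit 41) (nat_lit 5) (nat_lit 499) (nat_lit 478) (nat_lit 223)))) (XT.nd (nat_lit 78) (nat_lit 228) (nat_lit 0) (XT.lf (nat_lit 0) (nat_lit 2396655443315) (nat_lit 228) (nat_lit 257294515912) (nat_lit 76) (nat_lit 1664141567565) (nat_lit 40) (nat_lit 5) (nat_lit 43) (nat_lit 5) (nat_lit 41) (nat_lit 5) (nat_lit 500) (nat_lit 478) (nat_lit 222)) (XT.nd (nat_lit 78) (nat_lit 76) (nat_lit 0) (XT.lf (nat_lit 0) (nat_lit 2389728699936)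 (nat_lit 152) (nat_lit 1121307233184) (nat_lit 228) (nat_lit 1022638301832) (nat_lit 38) (nat_lit 5) (nat_lit 40) (nat_lit 5) (nat_lit 41) (nat_lit 5) (nat_lit 501) (nat_lit 478) (nat_lit 221)) (XT.lf (nat_lit 0) (nat_lit 509677544930) (nat_lit 76) (nat_lit 4237206122171) (nat_lit 152) (nat_lit 17034548265) (nat_lit 37) (nat_lit 5) (nat_lit 38) (nat_lit 5) (nat_lit 39) (nat_lit 4) (nat_lit 502) (nat_lit 478) (nat_lit 220))))) (XT.nd (nat_lit 234) (nat_lit 304) (nat_lit 0) (XT.nd (nat_lit 78) (nat_lit 152) (nat_lit 0) (XT.lf (nat_lit 0) (nat_lit 1104807631724) (nat_lit 152) (nat_lit 1566730958507) (nat_lit 76) (nat_lit 2331844995341) (nat_lit 36) (nat_lit 5) (nat_lit 38) (nat_lit 5) (nat_lit 37) (nat_lit 5) (nat_lit 503) (nat_lit 478) (nat_lit 219)) (XT.nd (nat_lit 78) (nat_lit 0) (nat_lit 0) (XT.lf (nat_lit 0) (nat_lit 1405653557435) (nat_lit 152) (nat_lit 943629321866) (nat_lit 228) (nat_lit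 2909983429527) (nat_lit 34) (nat_lit 5) (nat_lit 36) (nat_lit 5) (nat_lit 37) (nat_lit 5) (nat_lit 504) (nat_lit 478) (nat_lit 218)) (XT.lf (nat_lit 0) (nat_lit 3759452453879) (nat_lit 228) (nat_lit 850561569298) (nat_lit 76) (nat_lit 920314722194) (nat_lit 34) (nat_lit 5) (nat_lit 37) (nat_lit 5) (nat_lit 35) (nat_lit 4) (nat_lit 505) (nat_lit 478) (nat_lit 217)))) (XT.nd (nat_lit 78) (nat_lit 228) (nat_lit 0) (XT.lf (nat_lit 0) (nat_lit 2492930325190) (nat_lit 76) (nat_lit 2873970155468) (nat_lit 152) (nat_lit 449418505280) (nat_lit 33) (nat_lit 5) (nat_lit 34) (nat_lit 5) (nat_lit 35) (nat_lit 4) (nat_lit 506) (nat_lit 478) (nat_lit 216)) (XT.nd (nat_lit 78) (nat_lit 0) (nat_lit 0) (XT.lf (nat_lit 0) (nat_lit 5080846686) (nat_lit 152) (nat_lit 947745849790) (nat_lit 228) (nat_lit 5168561976804) (nat_lit 30) (nat_lit 5) (nat_lit 32) (nat_lit 5) (nat_lit 33) (nat_lit 5) (nat_lit 507) (nat_lit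 478) (nat_lit 215)) (XT.lf (nat_lit 0) (nat_lit 2563437257074) (nat_lit 228) (nat_lit 2696034465234) (nat_lit 76) (nat_lit 1180821075451) (nat_lit 30) (nat_lit 5) (nat_lit 33) (nat_lit 5) (nat_lit 31) (nat_lit 4) (nat_lit 508) (nat_lit 478) (nat_lit 214))))))))
noncomputable def xc242 : XT := (XT.nd (nat_lit 61230) (nat_lit 0) (nat_lit 228) (XT.nd (nat_lit 60372) (nat_lit 0) (nat_lit 2280) (XT.nd (nat_lit 390) (nat_lit 228) (nat_lit 0) (XT.nd (nat_lit 156) (nat_lit 228) (nat_lit 0) (XT.nd (nat_lit 78) (nat_lit 0) (nat_lit 0) (XT.lf (nat_lit 0) (nat_lit 1024493292536) (nat_lit 76) (nat_lit 3327659233126) (nat_lit 152) (nat_lit 2428616257483) (nat_lit 29) (nat_lit 5) (nat_lit 30) (nat_lit 5) (nat_lit 31) (nat_lit 4) (nat_lit 509) (nat_lit 478) (nat_lit 213)) (XT.lf (nat_lit 0) (nat_lit 5195989138986) (nat_lit 76) (nat_lit 1161690236328) (nat_lit 152) (nat_lit 784906323282) (nat_lit 29) (nat_lit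 5) (nat_lit 30) (nat_lit 5) (nat_lit 31) (nat_lit 4) (nat_lit 510) (nat_lit 478) (nat_lit 212))) (XT.nd (nat_lit 78) (nat_lit 76) (nat_lit 0) (XT.lf (nat_lit 0) (nat_lit 1025389790858) (nat_lit 152) (nat_lit 5300507718748) (nat_lit 76) (nat_lit 1198774860012) (nat_lit 27) (nat_lit 5) (nat_lit 29) (nat_lit 5) (nat_lit 28) (nat_lit 4) (nat_lit 511) (nat_lit 478) (nat_lit 211)) (XT.nd (nat_lit 78) (nat_lit 76) (nat_lit 0) (XT.lf (nat_lit 0) (nat_lit 3022883862980) (nat_lit 152) (nat_lit 1145720049389) (nat_lit 76) (nat_lit 3760308719976) (nat_lit 27) (nat_lit 5) (nat_lit 29) (nat_lit 5) (nat_lit 28) (nat_lit 4) (nat_lit 512) (nat_lit 478) (nat_lit 210)) (XT.lf (nat_lit 0) (nat_lit 3517405501505) (nat_lit 76) (nat_lit 1747365645851) (nat_lit 152) (nat_lit 3093953473816) (nat_lit 26) (nat_lit 5) (nat_lit 27) (nat_lit 5) (nat_lit 28) (nat_lit 4) (nat_lit 513) (nat_lit 478) (nat_lit 209))))) (XT.nd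 (nat_lit 59748) (nat_lit 0) (nat_lit 3496) (XT.nd (nat_lit 78) (nat_lit 228) (nat_lit 0) (XT.lf (nat_lit 0) (nat_lit 7739014213190) (nat_lit 152) (nat_lit 223355060271) (nat_lit 0) (nat_lit 856311911747) (nat_lit 26) (nat_lit 5) (nat_lit 28) (nat_lit 4) (nat_lit 26) (nat_lit 4) (nat_lit 514) (nat_lit 478) (nat_lit 208)) (XT.nd (nat_lit 78) (nat_lit 76) (nat_lit 0) (XT.lf (nat_lit 0) (nat_lit 1210075552332) (nat_lit 152) (nat_lit 4365745153073) (nat_lit 76) (nat_lit 3723975113659) (nat_lit 24) (nat_lit 5) (nat_lit 26) (nat_lit 5) (nat_lit 25) (nat_lit 4) (nat_lit 515) (nat_lit 478) (nat_lit 207)) (XT.lf (nat_lit 0) (nat_lit 704900224794) (nat_lit 76) (nat_lit 2942985605573) (nat_lit 152) (nat_lit 6167412856501) (nat_lit 23) (nat_lit 5) (nat_lit 24) (nat_lit 5) (nat_lit 25) (nat_lit 4) (nat_lit 516) (nat_lit 478) (nat_lit 206)))) (XT.nd (nat_lit 78) (nat_lit 0) (nat_lit 0) (XT.lf (nat_lit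 0) (nat_lit 814228604437) (nat_lit 532) (nat_lit 36936392775) (nat_lit 532) (nat_lit 36936392775) (nat_lit 69) (nat_lit 3) (nat_lit 76) (nat_lit 3) (nat_lit 76) (nat_lit 5) (nat_lit 479) (nat_lit 479) (nat_lit 242)) (XT.nd (nat_lit 78) (nat_lit 0) (nat_lit 76) (XT.lf (nat_lit 76) (nat_lit 838438216151) (nat_lit 0) (nat_lit 875321759806) (nat_lit 532) (nat_lit 131877756906) (nat_lit 70) (nat_lit 5) (nat_lit 69) (nat_lit 3) (nat_lit 76) (nat_lit 5) (nat_lit 480) (nat_lit 479) (nat_lit 241)) (XT.lf (nat_lit 0) (nat_lit 1808388461990) (nat_lit 456) (nat_lit 93012276143) (nat_lit 532) (nat_lit 19026624044) (nat_lit 70) (nat_lit 5) (nat_lit 76) (nat_lit 5) (nat_lit 77) (nat_lit 5) (nat_lit 481) (nat_lit 479) (nat_lit 240)))))) (XT.nd (nat_lit 390) (nat_lit 760) (nat_lit 0) (XT.nd (nat_lit 156) (nat_lit 0) (nat_lit 76) (XT.nd (nat_lit 78) (nat_lit 532) (nat_lit 0) (XT.lf (nat_lit 76) (nat_lit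 917469871080) (nat_lit 0) (nat_lit 1037918156604) (nat_lit 532) (nat_lit 42228070090) (nat_lit 71) (nat_lit 5) (nat_lit 70) (nat_lit 5) (nat_lit 77) (nat_lit 5) (nat_lit 482) (nat_lit 479) (nat_lit 239)) (XT.lf (nat_lit 0) (nat_lit 34117621203) (nat_lit 532) (nat_lit 67559940485) (nat_lit 608) (nat_lit 1979029822052) (nat_lit 63) (nat_lit 5) (nat_lit 70) (nat_lit 5) (nat_lit 71) (nat_lit 5) (nat_lit 483) (nat_lit 479) (nat_lit 238))) (XT.nd (nat_lit 78) (nat_lit 0) (nat_lit 0) (XT.lf (nat_lit 0) (nat_lit 162812357521) (nat_lit 532) (nat_lit 1111949702406) (nat_lit 608) (nat_lit 891714341832) (nat_lit 64) (nat_lit 5) (nat_lit 71) (nat_lit 5) (nat_lit 72) (nat_lit 5) (nat_lit 484) (nat_lit 479) (nat_lit 237)) (XT.nd (nat_lit 78) (nat_lit 0) (nat_lit 76) (XT.lf (nat_lit 76) (nat_lit 9025852900) (nat_lit 0) (nat_lit 297530053876) (nat_lit 608) (nat_lit 1952170775720) (nat_lit 65) (nat_lit 5)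 (nat_lit 64) (nat_lit 5) (nat_lit 72) (nat_lit 5) (nat_lit 485) (nat_lit 479) (nat_lit 236)) (XT.lf (nat_lit 0) (nat_lit 511218338387) (nat_lit 532) (nat_lit 1092024479972) (nat_lit 76) (nat_lit 751160615460) (nat_lit 65) (nat_lit 5) (nat_lit 72) (nat_lit 5) (nat_lit 66) (nat_lit 5) (nat_lit 486) (nat_lit 479) (nat_lit 235))))) (XT.nd (nat_lit 234) (nat_lit 228) (nat_lit 0) (XT.nd (nat_lit 78) (nat_lit 228) (nat_lit 0) (XT.lf (nat_lit 0) (nat_lit 158464983270) (nat_lit 456) (nat_lit 585327919940) (nat_lit 532) (nat_lit 1713018290945) (nat_lit 59) (nat_lit 5) (nat_lit 65) (nat_lit 5) (nat_lit 66) (nat_lit 5) (nat_lit 487) (nat_lit 479) (nat_lit 234)) (XT.nd (nat_lit 78) (nat_lit 228) (nat_lit 0) (XT.lf (nat_lit 0) (nat_lit 1037969043410) (nat_lit 532) (nat_lit 1007062669443) (nat_lit 76) (nat_lit 518940213652) (nat_lit 59) (nat_lit 5) (nat_lit 66) (nat_lit 5) (nat_lit 60) (nat_lit 5) (nat_lit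 488) (nat_lit 479) (nat_lit 233)) (XT.lf (nat_lit 0) (nat_lit 391925955076) (nat_lit 228) (nat_lit 988382469829) (nat_lit 304) (nat_lit 1297426760531) (nat_lit 56) (nat_lit 5) (nat_lit 59) (nat_lit 5) (nat_lit 60) (nat_lit 5) (nat_lit 489) (nat_lit 479) (nat_lit 232)))) (XT.nd (nat_lit 78) (nat_lit 228) (nat_lit 0) (XT.lf (nat_lit 0) (nat_lit 1781959838216) (nat_lit 304) (nat_lit 842680504568) (nat_lit 76) (nat_lit 173405171794) (nat_lit 56) (nat_lit 5) (nat_lit 60) (nat_lit 5) (nat_lit 57) (nat_lit 5) (nat_lit 490) (nat_lit 479) (nat_lit 231)) (XT.nd (nat_lit 78) (nat_lit 0) (nat_lit 0) (XT.lf (nat_lit 0) (nat_lit 726572337095) (nat_lit 228) (nat_lit 1532317380598) (nat_lit 304) (nat_lit 665639244111) (nat_lit 53) (nat_lit 5) (nat_lit 56) (nat_lit 5) (nat_lit 57) (nat_lit 5) (nat_lit 491) (nat_lit 479) (nat_lit 230)) (XT.lf (nat_lit 0) (nat_lit 2469289391909) (nat_lit 228) (nat_lit 327724972996)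 (nat_lit 304) (nat_lit 262273489713) (nat_lit 53) (nat_lit 5) (nat_lit 56) (nat_lit 5) (nat_lit 57) (nat_lit 5) (nat_lit 492) (nat_lit 479) (nat_lit 229))))))) (XT.nd (nat_lit 858) (nat_lit 836) (nat_lit 0) (XT.nd (nat_lit 390) (nat_lit 608) (nat_lit 0) (XT.nd (nat_lit 156) (nat_lit 380) (nat_lit 0) (XT.nd (nat_lit 78) (nat_lit 0) (nat_lit 0) (XT.lf (nat_lit 0) (nat_lit 217877322909) (nat_lit 228) (nat_lit 2023860792962) (nat_lit 76) (nat_lit 958500751601) (nat_lit 50) (nat_lit 5) (nat_lit 53) (nat_lit 5) (nat_lit 51) (nat_lit 5) (nat_lit 493) (nat_lit 479) (nat_lit 228)) (XT.lf (nat_lit 0) (nat_lit 747333562098) (nat_lit 228) (nat_lit 249300602247) (nat_lit 76) (nat_lit 2353281777752) (nat_lit 50) (nat_lit 5) (nat_lit 53) (nat_lit 5) (nat_lit 51) (nat_lit 5) (nat_lit 494) (nat_lit 479) (nat_lit 227))) (XT.nd (nat_lit 78) (nat_lit 152) (nat_lit 0) (XT.lf (nat_lit 0) (nat_lit 1370822116286)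 (nat_lit 304) (nat_lit 1762640644583) (nat_lit 76) (nat_lit 373970356554) (nat_lit 47) (nat_lit 5) (nat_lit 51) (nat_lit 5) (nat_lit 48) (nat_lit 5) (nat_lit 495) (nat_lit 479) (nat_lit 226)) (XT.nd (nat_lit 78) (nat_lit 0) (nat_lit 0) (XT.lf (nat_lit 0) (nat_lit 220553929690) (nat_lit 152) (nat_lit 1861820120853) (nat_lit 228) (nat_lit 1592122872574) (nat_lit 45) (nat_lit 5) (nat_lit 47) (nat_lit 5) (nat_lit 48) (nat_lit 5) (nat_lit 496) (nat_lit 479) (nat_lit 225)) (XT.lf (nat_lit 0) (nat_lit 2462647004121) (nat_lit 152) (nat_lit 436396853547) (nat_lit 228) (nat_lit 952026478146) (nat_lit 45) (nat_lit 5) (nat_lit 47) (nat_lit 5) (nat_lit 48) (nat_lit 5) (nat_lit 497) (nat_lit 479) (nat_lit 224))))) (XT.nd (nat_lit 234) (nat_lit 228) (nat_lit 0) (XT.nd (nat_lit 78) (nat_lit 228) (nat_lit 0) (XT.lf (nat_lit 0) (nat_lit 858768346511) (nat_lit 152) (nat_lit 2969460927675) (nat_lit 228) (nat_lit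 209765785359) (nat_lit 43) (nat_lit 5) (nat_lit 45) (nat_lit 5) (nat_lit 46) (nat_lit 5) (nat_lit 498) (nat_lit 479) (nat_lit 223)) (XT.nd (nat_lit 78) (nat_lit 152) (nat_lit 0) (XT.lf (nat_lit 0) (nat_lit 612550701765) (nat_lit 228) (nat_lit 898696216111) (nat_lit 76) (nat_lit 2723465436256) (nat_lit 42) (nat_lit 5) (nat_lit 45) (nat_lit 5) (nat_lit 43) (nat_lit 5) (nat_lit 499) (nat_lit 479) (nat_lit 222)) (XT.lf (nat_lit 0) (nat_lit 1531480434321) (nat_lit 228) (nat_lit 2805357365123) (nat_lit 76) (nat_lit 106520497698) (nat_lit 40) (nat_lit 5) (nat_lit 43) (nat_lit 5) (nat_lit 41) (nat_lit 5) (nat_lit 500) (nat_lit 479) (nat_lit 221)))) (XT.nd (nat_lit 78) (nat_lit 228) (nat_lit 0) (XT.lf (nat_lit 0) (nat_lit 2588387891116) (nat_lit 228) (nat_lit 277878057783) (nat_lit 76) (nat_lit 1797272899045) (nat_lit 40) (nat_lit 5) (nat_lit 43) (nat_lit 5) (nat_lit 41) (nat_lit 5) (nat_lit 501)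 (nat_lit 479) (nat_lit 220)) (XT.nd (nat_lit 78) (nat_lit 76) (nat_lit 0) (XT.lf (nat_lit 0) (nat_lit 2580907014842) (nat_lit 152) (nat_lit 1211011804805) (nat_lit 228) (nat_lit 1104449353147) (nat_lit 38) (nat_lit 5) (nat_lit 40) (nat_lit 5) (nat_lit 41) (nat_lit 5) (nat_lit 502) (nat_lit 479) (nat_lit 219)) (XT.lf (nat_lit 0) (nat_lit 550451767721) (nat_lit 76) (nat_lit 4576182604363) (nat_lit 152) (nat_lit 18397299578) (nat_lit 37) (nat_lit 5) (nat_lit 38) (nat_lit 5) (nat_lit 39) (nat_lit 4) (nat_lit 503) (nat_lit 479) (nat_lit 218)))))) (XT.nd (nat_lit 468) (nat_lit 304) (nat_lit 0) (XT.nd (nat_lit 234) (nat_lit 304) (nat_lit 0) (XT.nd (nat_lit 78) (nat_lit 152) (nat_lit 0) (XT.lf (nat_lit 0) (nat_lit 1193192253300) (nat_lit 152) (nat_lit 1692069416827) (nat_lit 76) (nat_lit 2518392601403) (nat_lit 36) (nat_lit 5) (nat_lit 38) (nat_lit 5) (nat_lit 37) (nat_lit 5) (nat_lit 504) (nat_lit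 479) (nat_lit 217)) (XT.nd (nat_lit 78) (nat_lit 0) (nat_lit 0) (XT.lf (nat_lit 0) (nat_lit 1518105859925) (nat_lit 152) (nat_lit 1019119660371) (nat_lit 228) (nat_lit 3142782092383) (nat_lit 34) (nat_lit 5) (nat_lit 36) (nat_lit 5) (nat_lit 37) (nat_lit 5) (nat_lit 505) (nat_lit 479) (nat_lit 216)) (XT.lf (nat_lit 0) (nat_lit 4060208660212) (nat_lit 228) (nat_lit 918606477642) (nat_lit 76) (nat_lit 993939906342) (nat_lit 34) (nat_lit 5) (nat_lit 37) (nat_lit 5) (nat_lit 35) (nat_lit 4) (nat_lit 506) (nat_lit 479) (nat_lit 215)))) (XT.nd (nat_lit 78) (nat_lit 228) (nat_lit 0) (XT.lf (nat_lit 0) (nat_lit 2692364767970) (nat_lit 76) (nat_lit 3103887760825) (nat_lit 152) (nat_lit 485371975241) (nat_lit 33) (nat_lit 5) (nat_lit 34) (nat_lit 5) (nat_lit 35) (nat_lit 4) (nat_lit 507) (nat_lit 479) (nat_lit 214)) (XT.nd (nat_lit 78) (nat_lit 0) (nat_lit 0) (XT.lf (nat_lit 0) (nat_lit 5487331273)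 (nat_lit 152) (nat_lit 1023565510528) (nat_lit 228) (nat_lit 5582046924570) (nat_lit 30) (nat_lit 5) (nat_lit 32) (nat_lit 5) (nat_lit 33) (nat_lit 5) (nat_lit 508) (nat_lit 479) (nat_lit 213)) (XT.lf (nat_lit 0) (nat_lit 2768512246697) (nat_lit 228) (nat_lit 2911717206296) (nat_lit 76) (nat_lit 1275286767860) (nat_lit 30) (nat_lit 5) (nat_lit 33) (nat_lit 5) (nat_lit 31) (nat_lit 4) (nat_lit 509) (nat_lit 479) (nat_lit 212))))) (XT.nd (nat_lit 234) (nat_lit 76) (nat_lit 0) (XT.nd (nat_lit 78) (nat_lit 152) (nat_lit 0) (XT.lf (nat_lit 0) (nat_lit 1106452771686) (nat_lit 76) (nat_lit 3593871964793) (nat_lit 152) (nat_lit 2622905548614) (nat_lit 29) (nat_lit 5) (nat_lit 30) (nat_lit 5) (nat_lit 31) (nat_lit 4) (nat_lit 510) (nat_lit 479) (nat_lit 211)) (XT.nd (nat_lit 78) (nat_lit 152) (nat_lit 0) (XT.lf (nat_lit 0) (nat_lit 5611668284686) (nat_lit 76) (nat_lit 1254625448768) (nat_lit 152)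 (nat_lit 847698820378) (nat_lit 29) (nat_lit 5) (nat_lit 30) (nat_lit 5) (nat_lit 31) (nat_lit 4) (nat_lit 511) (nat_lit 479) (nat_lit 210)) (XT.lf (nat_lit 0) (nat_lit 1107420982347) (nat_lit 152) (nat_lit 5724548321119) (nat_lit 76) (nat_lit 1294676855061) (nat_lit 27) (nat_lit 5) (nat_lit 29) (nat_lit 5) (nat_lit 28) (nat_lit 4) (nat_lit 512) (nat_lit 479) (nat_lit 209)))) (XT.nd (nat_lit 78) (nat_lit 76) (nat_lit 0) (XT.lf (nat_lit 0) (nat_lit 3264714579631) (nat_lit 152) (nat_lit 1237377639332) (nat_lit 76) (nat_lit 4061133423360) (nat_lit 27) (nat_lit 5) (nat_lit 29) (nat_lit 5) (nat_lit 28) (nat_lit 4) (nat_lit 513) (nat_lit 479) (nat_lit 208)) (XT.nd (nat_lit 78) (nat_lit 0) (nat_lit 0) (XT.lf (nat_lit 0) (nat_lit 3798797955279) (nat_lit 76) (nat_lit 1887154891242) (nat_lit 152) (nat_lit 3341469743753) (nat_lit 26) (nat_lit 5) (nat_lit 27) (nat_lit 5) (nat_lit 28) (nat_lit 4) (nat_lit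 514) (nat_lit 479) (nat_lit 207)) (XT.lf (nat_lit 0) (nat_lit 8358135357215) (nat_lit 152) (nat_lit 241223452043) (nat_lit 0) (nat_lit 924816870208) (nat_lit 26) (nat_lit 5) (nat_lit 28) (nat_lit 4) (nat_lit 26) (nat_lit 4) (nat_lit 515) (nat_lit 479) (nat_lit 206))))))))
noncomputable def xc243 : XT := (XT.nd (nat_lit 61308) (nat_lit 0) (nat_lit 152) (XT.nd (nat_lit 60450) (nat_lit 0) (nat_lit 1368) (XT.nd (nat_lit 59982) (nat_lit 0) (nat_lit 2660) (XT.nd (nat_lit 59748) (nat_lit 0) (nat_lit 3420) (XT.nd (nat_lit 59670) (nat_lit 0) (nat_lit 3420) (XT.lf (nat_lit 0) (nat_lit 1306881603455) (nat_lit 152) (nat_lit 4715004752233) (nat_lit 76) (nat_lit 4021893128345) (nat_lit 24) (nat_lit 5) (nat_lit 26) (nat_lit 5) (nat_lit 25) (nat_lit 4) (nat_lit 516) (nat_lit 479) (nat_lit 205)) (XT.lf (nat_lit 0) (nat_lit 879366911790) (nat_lit 532) (nat_lit 39891293932) (nat_lit 532) (nat_lit 39891293932)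 (nat_lit 69) (nat_lit 3) (nat_lit 76) (nat_lit 3) (nat_lit 76) (nat_lit 5) (nat_lit 480) (nat_lit 480) (nat_lit 240))) (XT.nd (nat_lit 78) (nat_lit 0) (nat_lit 76) (XT.lf (nat_lit 76) (nat_lit 905513293454) (nat_lit 0) (nat_lit 945347516243) (nat_lit 532) (nat_lit 142427938919) (nat_lit 70) (nat_lit 5) (nat_lit 69) (nat_lit 3) (nat_lit 76) (nat_lit 5) (nat_lit 481) (nat_lit 480) (nat_lit 239)) (XT.nd (nat_lit 78) (nat_lit 0) (nat_lit 0) (XT.lf (nat_lit 0) (nat_lit 1953059571621) (nat_lit 456) (nat_lit 100453236694) (nat_lit 532) (nat_lit 20548740200) (nat_lit 70) (nat_lit 5) (nat_lit 76) (nat_lit 5) (nat_lit 77) (nat_lit 5) (nat_lit 482) (nat_lit 480) (nat_lit 238)) (XT.lf (nat_lit 76) (nat_lit 990867481762) (nat_lit 0) (nat_lit 1120951618894) (nat_lit 532) (nat_lit 45606282459) (nat_lit 71) (nat_lit 5) (nat_lit 70) (nat_lit 5) (nat_lit 77) (nat_lit 5) (nat_lit 483) (nat_lit 480) (nat_lit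 237))))) (XT.nd (nat_lit 234) (nat_lit 304) (nat_lit 0) (XT.nd (nat_lit 78) (nat_lit 0) (nat_lit 76) (XT.lf (nat_lit 0) (nat_lit 36847060136) (nat_lit 532) (nat_lit 72964714727) (nat_lit 608) (nat_lit 2137352197221) (nat_lit 63) (nat_lit 5) (nat_lit 70) (nat_lit 5) (nat_lit 71) (nat_lit 5) (nat_lit 484) (nat_lit 480) (nat_lit 236)) (XT.nd (nat_lit 78) (nat_lit 0) (nat_lit 0) (XT.lf (nat_lit 0) (nat_lit 175837373515) (nat_lit 532) (nat_lit 1200905655741) (nat_lit 608) (nat_lit 963051482436) (nat_lit 64) (nat_lit 5) (nat_lit 71) (nat_lit 5) (nat_lit 72) (nat_lit 5) (nat_lit 485) (nat_lit 480) (nat_lit 235)) (XT.lf (nat_lit 76) (nat_lit 9747943410) (nat_lit 0) (nat_lit 321332461806) (nat_lit 608) (nat_lit 2108344409792) (nat_lit 65) (nat_lit 5) (nat_lit 64) (nat_lit 5) (nat_lit 72) (nat_lit 5) (nat_lit 486) (nat_lit 480) (nat_lit 234)))) (XT.nd (nat_lit 78) (nat_lit 456) (nat_lit 0) (XT.lf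 (nat_lit 0) (nat_lit 552115829358) (nat_lit 532) (nat_lit 1179386415729) (nat_lit 76) (nat_lit 811253461512) (nat_lit 65) (nat_lit 5) (nat_lit 72) (nat_lit 5) (nat_lit 66) (nat_lit 5) (nat_lit 487) (nat_lit 480) (nat_lit 233)) (XT.nd (nat_lit 78) (nat_lit 0) (nat_lit 0) (XT.lf (nat_lit 0) (nat_lit 171142204000) (nat_lit 456) (nat_lit 632154154128) (nat_lit 532) (nat_lit 1850059729735) (nat_lit 59) (nat_lit 5) (nat_lit 65) (nat_lit 5) (nat_lit 66) (nat_lit 5) (nat_lit 488) (nat_lit 480) (nat_lit 232)) (XT.lf (nat_lit 0) (nat_lit 1121006587851) (nat_lit 532) (nat_lit 1087627660862) (nat_lit 76) (nat_lit 560455430223) (nat_lit 59) (nat_lit 5) (nat_lit 66) (nat_lit 5) (nat_lit 60) (nat_lit 5) (nat_lit 489) (nat_lit 480) (nat_lit 231)))))) (XT.nd (nat_lit 390) (nat_lit 608) (nat_lit 0) (XT.nd (nat_lit 156) (nat_lit 456) (nat_lit 0) (XT.nd (nat_lit 78) (nat_lit 0) (nat_lit 0) (XT.lf (nat_lit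 0) (nat_lit 423280053058) (nat_lit 228) (nat_lit 1067453065773) (nat_lit 304) (nat_lit 1401220879834) (nat_lit 56) (nat_lit 5) (nat_lit 59) (nat_lit 5) (nat_lit 60) (nat_lit 5) (nat_lit 490) (nat_lit 480) (nat_lit 230)) (XT.lf (nat_lit 0) (nat_lit 1924516643768) (nat_lit 304) (nat_lit 910094923505) (nat_lit 76) (nat_lit 187277586982) (nat_lit 56) (nat_lit 5) (nat_lit 60) (nat_lit 5) (nat_lit 57) (nat_lit 5) (nat_lit 491) (nat_lit 480) (nat_lit 229))) (XT.nd (nat_lit 78) (nat_lit 228) (nat_lit 0) (XT.lf (nat_lit 0) (nat_lit 784698144948) (nat_lit 228) (nat_lit 1654902767786) (nat_lit 304) (nat_lit 718890364594) (nat_lit 53) (nat_lit 5) (nat_lit 56) (nat_lit 5) (nat_lit 57) (nat_lit 5) (nat_lit 492) (nat_lit 480) (nat_lit 228)) (XT.nd (nat_lit 78) (nat_lit 228) (nat_lit 0) (XT.lf (nat_lit 0) (nat_lit 2666832562600) (nat_lit 228) (nat_lit 353942967818) (nat_lit 304) (nat_lit 283255351255)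 (nat_lit 53) (nat_lit 5) (nat_lit 56) (nat_lit 5) (nat_lit 57) (nat_lit 5) (nat_lit 493) (nat_lit 480) (nat_lit 227)) (XT.lf (nat_lit 0) (nat_lit 235307524818) (nat_lit 228) (nat_lit 2185769635486) (nat_lit 76) (nat_lit 1035180815273) (nat_lit 50) (nat_lit 5) (nat_lit 53) (nat_lit 5) (nat_lit 51) (nat_lit 5) (nat_lit 494) (nat_lit 480) (nat_lit 226))))) (XT.nd (nat_lit 234) (nat_lit 228) (nat_lit 0) (XT.nd (nat_lit 78) (nat_lit 380) (nat_lit 0) (XT.lf (nat_lit 0) (nat_lit 807120261951) (nat_lit 228) (nat_lit 269244631062) (nat_lit 76) (nat_lit 2541544323254) (nat_lit 50) (nat_lit 5) (nat_lit 53) (nat_lit 5) (nat_lit 51) (nat_lit 5) (nat_lit 495) (nat_lit 480) (nat_lit 225)) (XT.nd (nat_lit 78) (nat_lit 152) (nat_lit 0) (XT.lf (nat_lit 0) (nat_lit 1480487899937) (nat_lit 304) (nat_lit 1903651876241) (nat_lit 76) (nat_lit 403887989485) (nat_lit 47) (nat_lit 5) (nat_lit 51) (nat_lit 5) (nat_lit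 48) (nat_lit 5) (nat_lit 496) (nat_lit 480) (nat_lit 224)) (XT.lf (nat_lit 0) (nat_lit 238198263469) (nat_lit 152) (nat_lit 2010765724869) (nat_lit 228) (nat_lit 1719492687522) (nat_lit 45) (nat_lit 5) (nat_lit 47) (nat_lit 5) (nat_lit 48) (nat_lit 5) (nat_lit 497) (nat_lit 480) (nat_lit 223)))) (XT.nd (nat_lit 78) (nat_lit 228) (nat_lit 0) (XT.lf (nat_lit 0) (nat_lit 2659658782418) (nat_lit 152) (nat_lit 471308596598) (nat_lit 228) (nat_lit 1028188582641) (nat_lit 45) (nat_lit 5) (nat_lit 47) (nat_lit 5) (nat_lit 48) (nat_lit 5) (nat_lit 498) (nat_lit 480) (nat_lit 222)) (XT.nd (nat_lit 78) (nat_lit 76) (nat_lit 0) (XT.lf (nat_lit 0) (nat_lit 927469832619) (nat_lit 152) (nat_lit 3207017795850) (nat_lit 228) (nat_lit 226547034845) (nat_lit 43) (nat_lit 5) (nat_lit 45) (nat_lit 5) (nat_lit 46) (nat_lit 5) (nat_lit 499) (nat_lit 480) (nat_lit 221)) (XT.lf (nat_lit 0) (nat_lit 661554769641)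 (nat_lit 228) (nat_lit 970591895752) (nat_lit 76) (nat_lit 2941342676125) (nat_lit 42) (nat_lit 5) (nat_lit 45) (nat_lit 5) (nat_lit 43) (nat_lit 5) (nat_lit 500) (nat_lit 480) (nat_lit 220))))))) (XT.nd (nat_lit 858) (nat_lit 228) (nat_lit 0) (XT.nd (nat_lit 390) (nat_lit 532) (nat_lit 0) (XT.nd (nat_lit 156) (nat_lit 304) (nat_lit 0) (XT.nd (nat_lit 78) (nat_lit 0) (nat_lit 0) (XT.lf (nat_lit 0) (nat_lit 1653998880489) (nat_lit 228) (nat_lit 3029785936368) (nat_lit 76) (nat_lit 115042143139) (nat_lit 40) (nat_lit 5) (nat_lit 43) (nat_lit 5) (nat_lit 41) (nat_lit 5) (nat_lit 501) (nat_lit 480) (nat_lit 219)) (XT.lf (nat_lit 0) (nat_lit 2795458932982) (nat_lit 228) (nat_lit 300108285771) (nat_lit 76) (nat_lit 1941054736177) (nat_lit 40) (nat_lit 5) (nat_lit 43) (nat_lit 5) (nat_lit 41) (nat_lit 5) (nat_lit 502) (nat_lit 480) (nat_lit 218))) (XT.nd (nat_lit 78) (nat_lit 152) (nat_lit 0)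 (XT.lf (nat_lit 0) (nat_lit 2787379592242) (nat_lit 152) (nat_lit 1307892743159) (nat_lit 228) (nat_lit 1192805290398) (nat_lit 38) (nat_lit 5) (nat_lit 40) (nat_lit 5) (nat_lit 41) (nat_lit 5) (nat_lit 503) (nat_lit 480) (nat_lit 217)) (XT.nd (nat_lit 78) (nat_lit 76) (nat_lit 0) (XT.lf (nat_lit 0) (nat_lit 594487925598) (nat_lit 76) (nat_lit 4942277206212) (nat_lit 152) (nat_lit 19869072786) (nat_lit 37) (nat_lit 5) (nat_lit 38) (nat_lit 5) (nat_lit 39) (nat_lit 4) (nat_lit 504) (nat_lit 480) (nat_lit 216)) (XT.lf (nat_lit 0) (nat_lit 1288647643027) (nat_lit 152) (nat_lit 1827434954433) (nat_lit 76) (nat_lit 2719864015033) (nat_lit 36) (nat_lit 5) (nat_lit 38) (nat_lit 5) (nat_lit 37) (nat_lit 5) (nat_lit 505) (nat_lit 480) (nat_lit 215))))) (XT.nd (nat_lit 234) (nat_lit 304) (nat_lit 0) (XT.nd (nat_lit 78) (nat_lit 76) (nat_lit 0) (XT.lf (nat_lit 0) (nat_lit 1639554344061) (nat_lit 152)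 (nat_lit 1100649226990) (nat_lit 228) (nat_lit 3394204649910) (nat_lit 34) (nat_lit 5) (nat_lit 36) (nat_lit 5) (nat_lit 37) (nat_lit 5) (nat_lit 506) (nat_lit 480) (nat_lit 214)) (XT.nd (nat_lit 78) (nat_lit 76) (nat_lit 0) (XT.lf (nat_lit 0) (nat_lit 4385025361623) (nat_lit 228) (nat_lit 992094981107) (nat_lit 76) (nat_lit 1073455104312) (nat_lit 34) (nat_lit 5) (nat_lit 37) (nat_lit 5) (nat_lit 35) (nat_lit 4) (nat_lit 507) (nat_lit 480) (nat_lit 213)) (XT.lf (nat_lit 0) (nat_lit 2907753963780) (nat_lit 76) (nat_lit 3352198775621) (nat_lit 152) (nat_lit 524201724292) (nat_lit 33) (nat_lit 5) (nat_lit 34) (nat_lit 5) (nat_lit 35) (nat_lit 4) (nat_lit 508) (nat_lit 480) (nat_lit 212)))) (XT.nd (nat_lit 78) (nat_lit 76) (nat_lit 0) (XT.lf (nat_lit 0) (nat_lit 5926332223) (nat_lit 152) (nat_lit 1105450745159) (nat_lit 228) (nat_lit 6028610669639) (nat_lit 30) (nat_lit 5) (nat_lit 32) (nat_lit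 5) (nat_lit 33) (nat_lit 5) (nat_lit 509) (nat_lit 480) (nat_lit 211)) (XT.nd (nat_lit 78) (nat_lit 76) (nat_lit 0) (XT.lf (nat_lit 0) (nat_lit 2989993234197) (nat_lit 228) (nat_lit 3144654568949) (nat_lit 76) (nat_lit 1377309714752) (nat_lit 30) (nat_lit 5) (nat_lit 33) (nat_lit 5) (nat_lit 31) (nat_lit 4) (nat_lit 510) (nat_lit 480) (nat_lit 210)) (XT.lf (nat_lit 0) (nat_lit 1194969006922) (nat_lit 76) (nat_lit 3881381715990) (nat_lit 152) (nat_lit 2832737984387) (nat_lit 29) (nat_lit 5) (nat_lit 30) (nat_lit 5) (nat_lit 31) (nat_lit 4) (nat_lit 511) (nat_lit 480) (nat_lit 209)))))) (XT.nd (nat_lit 60138) (nat_lit 0) (nat_lit 2812) (XT.nd (nat_lit 234) (nat_lit 76) (nat_lit 0) (XT.nd (nat_lit 78) (nat_lit 152) (nat_lit 0) (XT.lf (nat_lit 0) (nat_lit 6060601759961) (nat_lit 76) (nat_lit 1354995479127) (nat_lit 152) (nat_lit 915514718493) (nat_lit 29) (nat_lit 5) (nat_lit 30) (nat_lit 5)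 (nat_lit 31) (nat_lit 4) (nat_lit 512) (nat_lit 480) (nat_lit 208)) (XT.nd (nat_lit 78) (nat_lit 0) (nat_lit 0) (XT.lf (nat_lit 0) (nat_lit 1196014667984) (nat_lit 152) (nat_lit 6182512173838) (nat_lit 76) (nat_lit 1398251008824) (nat_lit 27) (nat_lit 5) (nat_lit 29) (nat_lit 5) (nat_lit 28) (nat_lit 4) (nat_lit 513) (nat_lit 480) (nat_lit 207)) (XT.lf (nat_lit 0) (nat_lit 3525891752528) (nat_lit 152) (nat_lit 1336367838469) (nat_lit 76) (nat_lit 4386024102189) (nat_lit 27) (nat_lit 5) (nat_lit 29) (nat_lit 5) (nat_lit 28) (nat_lit 4) (nat_lit 514) (nat_lit 480) (nat_lit 206)))) (XT.nd (nat_lit 78) (nat_lit 0) (nat_lit 0) (XT.lf (nat_lit 0) (nat_lit 4102701803407) (nat_lit 76) (nat_lit 2038127277160) (nat_lit 152) (nat_lit 3608787316422) (nat_lit 26) (nat_lit 5) (nat_lit 27) (nat_lit 5) (nat_lit 28) (nat_lit 4) (nat_lit 515) (nat_lit 480) (nat_lit 205)) (XT.nd (nat_lit 59748) (nat_lit 0)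 (nat_lit 3268) (XT.lf (nat_lit 0) (nat_lit 9026786191768) (nat_lit 152) (nat_lit 260521317018) (nat_lit 0) (nat_lit 998802224558) (nat_lit 26) (nat_lit 5) (nat_lit 28) (nat_lit 4) (nat_lit 26) (nat_lit 4) (nat_lit 516) (nat_lit 480) (nat_lit 204)) (XT.lf (nat_lit 0) (nat_lit 949716281020) (nat_lit 532) (nat_lit 43082588646) (nat_lit 532) (nat_lit 43082588646) (nat_lit 69) (nat_lit 3) (nat_lit 76) (nat_lit 3) (nat_lit 76) (nat_lit 5) (nat_lit 481) (nat_lit 481) (nat_lit 238))))) (XT.nd (nat_lit 234) (nat_lit 456) (nat_lit 0) (XT.nd (nat_lit 78) (nat_lit 0) (nat_lit 76) (XT.lf (nat_lit 76) (nat_lit 977954374086) (nat_lit 0) (nat_lit 1020975330961) (nat_lit 532) (nat_lit 153822140992) (nat_lit 70) (nat_lit 5) (nat_lit 69) (nat_lit 3) (nat_lit 76) (nat_lit 5) (nat_lit 482) (nat_lit 481) (nat_lit 237)) (XT.nd (nat_lit 78) (nat_lit 0) (nat_lit 0) (XT.lf (nat_lit 0) (nat_lit 2109304365362) (nat_lit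 456) (nat_lit 108489477162) (nat_lit 532) (nat_lit 22192627613) (nat_lit 70) (nat_lit 5) (nat_lit 76) (nat_lit 5) (nat_lit 77) (nat_lit 5) (nat_lit 483) (nat_lit 481) (nat_lit 236)) (XT.lf (nat_lit 76) (nat_lit 1070136898303) (nat_lit 0) (nat_lit 1210627756775) (nat_lit 532) (nat_lit 49254756559) (nat_lit 71) (nat_lit 5) (nat_lit 70) (nat_lit 5) (nat_lit 77) (nat_lit 5) (nat_lit 484) (nat_lit 481) (nat_lit 235)))) (XT.nd (nat_lit 78) (nat_lit 0) (nat_lit 76) (XT.lf (nat_lit 0) (nat_lit 39794850012) (nat_lit 532) (nat_lit 78801873903) (nat_lit 608) (nat_lit 2308340363915) (nat_lit 63) (nat_lit 5) (nat_lit 70) (nat_lit 5) (nat_lit 71) (nat_lit 5) (nat_lit 485) (nat_lit 481) (nat_lit 234)) (XT.nd (nat_lit 78) (nat_lit 0) (nat_lit 0) (XT.lf (nat_lit 0) (nat_lit 189904386880) (nat_lit 532) (nat_lit 1296978088604) (nat_lit 608) (nat_lit 1040095595250) (nat_lit 64) (nat_lit 5) (nat_lit 71) (nat_lit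 5) (nat_lit 72) (nat_lit 5) (nat_lit 486) (nat_lit 481) (nat_lit 233)) (XT.lf (nat_lit 76) (nat_lit 10527797984) (nat_lit 0) (nat_lit 347039061854) (nat_lit 608) (nat_lit 2277011938582) (nat_lit 65) (nat_lit 5) (nat_lit 64) (nat_lit 5) (nat_lit 72) (nat_lit 5) (nat_lit 487) (nat_lit 481) (nat_lit 232))))))))
noncomputable def xc244 : XT := (XT.nd (nat_lit 1716) (nat_lit 456) (nat_lit 0) (XT.nd (nat_lit 858) (nat_lit 912) (nat_lit 0) (XT.nd (nat_lit 390) (nat_lit 836) (nat_lit 0) (XT.nd (nat_lit 156) (nat_lit 228) (nat_lit 0) (XT.nd (nat_lit 78) (nat_lit 456) (nat_lit 0) (XT.lf (nat_lit 0) (nat_lit 596285116197) (nat_lit 532) (nat_lit 1273737309576) (nat_lit 76) (nat_lit 876153735703) (nat_lit 65) (nat_lit 5) (nat_lit 72) (nat_lit 5) (nat_lit 66) (nat_lit 5) (nat_lit 488) (nat_lit 481) (nat_lit 231)) (XT.lf (nat_lit 0) (nat_lit 184833599240) (nat_lit 456) (nat_lit 682726486966) (nat_lit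 532) (nat_lit 1998064487121) (nat_lit 59) (nat_lit 5) (nat_lit 65) (nat_lit 5) (nat_lit 66) (nat_lit 5) (nat_lit 489) (nat_lit 481) (nat_lit 230))) (XT.nd (nat_lit 78) (nat_lit 228) (nat_lit 0) (XT.lf (nat_lit 0) (nat_lit 1210687132856) (nat_lit 532) (nat_lit 1174637854752) (nat_lit 76) (nat_lit 605291864194) (nat_lit 59) (nat_lit 5) (nat_lit 66) (nat_lit 5) (nat_lit 60) (nat_lit 5) (nat_lit 490) (nat_lit 481) (nat_lit 229)) (XT.nd (nat_lit 78) (nat_lit 0) (nat_lit 0) (XT.lf (nat_lit 0) (nat_lit 457142475801) (nat_lit 228) (nat_lit 1152849309627) (nat_lit 304) (nat_lit 1513318531753) (nat_lit 56) (nat_lit 5) (nat_lit 59) (nat_lit 5) (nat_lit 60) (nat_lit 5) (nat_lit 491) (nat_lit 481) (nat_lit 228)) (XT.lf (nat_lit 0) (nat_lit 2078477991125) (nat_lit 304) (nat_lit 982902499013) (nat_lit 76) (nat_lit 202259795179) (nat_lit 56) (nat_lit 5) (nat_lit 60) (nat_lit 5) (nat_lit 57) (nat_lit 5)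 (nat_lit 492) (nat_lit 481) (nat_lit 227))))) (XT.nd (nat_lit 234) (nat_lit 380) (nat_lit 0) (XT.nd (nat_lit 78) (nat_lit 228) (nat_lit 0) (XT.lf (nat_lit 0) (nat_lit 847474014451) (nat_lit 228) (nat_lit 1787294986415) (nat_lit 304) (nat_lit 776401577432) (nat_lit 53) (nat_lit 5) (nat_lit 56) (nat_lit 5) (nat_lit 57) (nat_lit 5) (nat_lit 493) (nat_lit 481) (nat_lit 226)) (XT.nd (nat_lit 78) (nat_lit 228) (nat_lit 0) (XT.lf (nat_lit 0) (nat_lit 2880179184188) (nat_lit 228) (nat_lit 382258402656) (nat_lit 304) (nat_lit 305915764236) (nat_lit 53) (nat_lit 5) (nat_lit 56) (nat_lit 5) (nat_lit 57) (nat_lit 5) (nat_lit 494) (nat_lit 481) (nat_lit 225)) (XT.lf (nat_lit 0) (nat_lit 254132140586) (nat_lit 228) (nat_lit 2360631188394) (nat_lit 76) (nat_lit 1117995283533) (nat_lit 50) (nat_lit 5) (nat_lit 53) (nat_lit 5) (nat_lit 51) (nat_lit 5) (nat_lit 495) (nat_lit 481) (nat_lit 224)))) (XT.nd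 (nat_lit 78) (nat_lit 380) (nat_lit 0) (XT.lf (nat_lit 0) (nat_lit 871689895668) (nat_lit 228) (nat_lit 290784184946) (nat_lit 76) (nat_lit 2744867871928) (nat_lit 50) (nat_lit 5) (nat_lit 53) (nat_lit 5) (nat_lit 51) (nat_lit 5) (nat_lit 496) (nat_lit 481) (nat_lit 223)) (XT.nd (nat_lit 78) (nat_lit 152) (nat_lit 0) (XT.lf (nat_lit 0) (nat_lit 1598926944233) (nat_lit 304) (nat_lit 2055944009273) (nat_lit 76) (nat_lit 436199032420) (nat_lit 47) (nat_lit 5) (nat_lit 51) (nat_lit 5) (nat_lit 48) (nat_lit 5) (nat_lit 497) (nat_lit 481) (nat_lit 222)) (XT.lf (nat_lit 0) (nat_lit 257254141182) (nat_lit 152) (nat_lit 2171626978013) (nat_lit 228) (nat_lit 1857052089785) (nat_lit 45) (nat_lit 5) (nat_lit 47) (nat_lit 5) (nat_lit 48) (nat_lit 5) (nat_lit 498) (nat_lit 481) (nat_lit 221)))))) (XT.nd (nat_lit 390) (nat_lit 532) (nat_lit 0) (XT.nd (nat_lit 156) (nat_lit 228) (nat_lit 0) (XT.nd (nat_lit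 78) (nat_lit 152) (nat_lit 0) (XT.lf (nat_lit 0) (nat_lit 2872431500415) (nat_lit 152) (nat_lit 509013279839) (nat_lit 228) (nat_lit 1110443657457) (nat_lit 45) (nat_lit 5) (nat_lit 47) (nat_lit 5) (nat_lit 48) (nat_lit 5) (nat_lit 499) (nat_lit 481) (nat_lit 220)) (XT.lf (nat_lit 0) (nat_lit 1001667434993) (nat_lit 152) (nat_lit 3463579214341) (nat_lit 228) (nat_lit 244670786195) (nat_lit 43) (nat_lit 5) (nat_lit 45) (nat_lit 5) (nat_lit 46) (nat_lit 5) (nat_lit 500) (nat_lit 481) (nat_lit 219))) (XT.nd (nat_lit 78) (nat_lit 152) (nat_lit 0) (XT.lf (nat_lit 0) (nat_lit 714479161274) (nat_lit 228) (nat_lit 1048239232282) (nat_lit 76) (nat_lit 3176650094476) (nat_lit 42) (nat_lit 5) (nat_lit 45) (nat_lit 5) (nat_lit 43) (nat_lit 5) (nat_lit 501) (nat_lit 481) (nat_lit 218)) (XT.nd (nat_lit 78) (nat_lit 0) (nat_lit 0) (XT.lf (nat_lit 0) (nat_lit 1786318800721) (nat_lit 228) (nat_lit 3272168795876)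 (nat_lit 76) (nat_lit 124245519413) (nat_lit 40) (nat_lit 5) (nat_lit 43) (nat_lit 5) (nat_lit 41) (nat_lit 5) (nat_lit 502) (nat_lit 481) (nat_lit 217)) (XT.lf (nat_lit 0) (nat_lit 3019095656688) (nat_lit 228) (nat_lit 324116934372) (nat_lit 76) (nat_lit 2096339119536) (nat_lit 40) (nat_lit 5) (nat_lit 43) (nat_lit 5) (nat_lit 41) (nat_lit 5) (nat_lit 503) (nat_lit 481) (nat_lit 216))))) (XT.nd (nat_lit 234) (nat_lit 228) (nat_lit 0) (XT.nd (nat_lit 78) (nat_lit 152) (nat_lit 0) (XT.lf (nat_lit 0) (nat_lit 3010369973522) (nat_lit 152) (nat_lit 1412524157442) (nat_lit 228) (nat_lit 1288229704199) (nat_lit 38) (nat_lit 5) (nat_lit 40) (nat_lit 5) (nat_lit 41) (nat_lit 5) (nat_lit 504) (nat_lit 481) (nat_lit 215)) (XT.nd (nat_lit 78) (nat_lit 76) (nat_lit 0) (XT.lf (nat_lit 0) (nat_lit 642046973756) (nat_lit 76) (nat_lit 5337659377137) (nat_lit 152) (nat_lit 21458589385) (nat_lit 37) (nat_lit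 5) (nat_lit 38) (nat_lit 5) (nat_lit 39) (nat_lit 4) (nat_lit 505) (nat_lit 481) (nat_lit 214)) (XT.lf (nat_lit 0) (nat_lit 1391739462582) (nat_lit 152) (nat_lit 1973629737293) (nat_lit 76) (nat_lit 2937453140966) (nat_lit 36) (nat_lit 5) (nat_lit 38) (nat_lit 5) (nat_lit 37) (nat_lit 5) (nat_lit 506) (nat_lit 481) (nat_lit 213)))) (XT.nd (nat_lit 78) (nat_lit 76) (nat_lit 0) (XT.lf (nat_lit 0) (nat_lit 1770718704740) (nat_lit 152) (nat_lit 1188701159825) (nat_lit 228) (nat_lit 3665741013445) (nat_lit 34) (nat_lit 5) (nat_lit 36) (nat_lit 5) (nat_lit 37) (nat_lit 5) (nat_lit 507) (nat_lit 481) (nat_lit 212)) (XT.nd (nat_lit 78) (nat_lit 76) (nat_lit 0) (XT.lf (nat_lit 0) (nat_lit 4735827397920) (nat_lit 228) (nat_lit 1071462566954) (nat_lit 76) (nat_lit 1159331517341) (nat_lit 34) (nat_lit 5) (nat_lit 37) (nat_lit 5) (nat_lit 35) (nat_lit 4) (nat_lit 508) (nat_lit 481) (nat_lit 211)) (XT.lf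 (nat_lit 0) (nat_lit 3140374293205) (nat_lit 76) (nat_lit 3620374672466) (nat_lit 152) (nat_lit 566137854546) (nat_lit 33) (nat_lit 5) (nat_lit 34) (nat_lit 5) (nat_lit 35) (nat_lit 4) (nat_lit 509) (nat_lit 481) (nat_lit 210))))))) (XT.nd (nat_lit 60684) (nat_lit 0) (nat_lit 1520) (XT.nd (nat_lit 390) (nat_lit 0) (nat_lit 0) (XT.nd (nat_lit 156) (nat_lit 228) (nat_lit 0) (XT.nd (nat_lit 78) (nat_lit 0) (nat_lit 0) (XT.lf (nat_lit 0) (nat_lit 6400451188) (nat_lit 152) (nat_lit 1193886799446) (nat_lit 228) (nat_lit 6510899515582) (nat_lit 30) (nat_lit 5) (nat_lit 32) (nat_lit 5) (nat_lit 33) (nat_lit 5) (nat_lit 510) (nat_lit 481) (nat_lit 209)) (XT.lf (nat_lit 0) (nat_lit 3229192699590) (nat_lit 228) (nat_lit 3396226922589) (nat_lit 76) (nat_lit 1487494496617) (nat_lit 30) (nat_lit 5) (nat_lit 33) (nat_lit 5) (nat_lit 31) (nat_lit 4) (nat_lit 511) (nat_lit 481) (nat_lit 208))) (XT.nd (nat_lit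 78) (nat_lit 152) (nat_lit 0) (XT.lf (nat_lit 0) (nat_lit 1290566539050) (nat_lit 76) (nat_lit 4191892248137) (nat_lit 152) (nat_lit 3059357016179) (nat_lit 29) (nat_lit 5) (nat_lit 30) (nat_lit 5) (nat_lit 31) (nat_lit 4) (nat_lit 512) (nat_lit 481) (nat_lit 207)) (XT.nd (nat_lit 78) (nat_lit 152) (nat_lit 0) (XT.lf (nat_lit 0) (nat_lit 6545449911476) (nat_lit 76) (nat_lit 1463395112704) (nat_lit 152) (nat_lit 988755889529) (nat_lit 29) (nat_lit 5) (nat_lit 30) (nat_lit 5) (nat_lit 31) (nat_lit 4) (nat_lit 513) (nat_lit 481) (nat_lit 206)) (XT.lf (nat_lit 0) (nat_lit 1291695847465) (nat_lit 152) (nat_lit 6677113136625) (nat_lit 76) (nat_lit 1510111094122) (nat_lit 27) (nat_lit 5) (nat_lit 29) (nat_lit 5) (nat_lit 28) (nat_lit 4) (nat_lit 514) (nat_lit 481) (nat_lit 205))))) (XT.nd (nat_lit 60060) (nat_lit 0) (nat_lit 2736) (XT.nd (nat_lit 59904) (nat_lit 0) (nat_lit 3192) (XT.lf (nat_lit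 0) (nat_lit 3807963098325) (nat_lit 152) (nat_lit 1443277255250) (nat_lit 76) (nat_lit 4736906034617) (nat_lit 27) (nat_lit 5) (nat_lit 29) (nat_lit 5) (nat_lit 28) (nat_lit 4) (nat_lit 515) (nat_lit 481) (nat_lit 204)) (XT.nd (nat_lit 78) (nat_lit 0) (nat_lit 0) (XT.lf (nat_lit 0) (nat_lit 1025693597466) (nat_lit 532) (nat_lit 46529188192) (nat_lit 532) (nat_lit 46529188192) (nat_lit 69) (nat_lit 3) (nat_lit 76) (nat_lit 3) (nat_lit 76) (nat_lit 5) (nat_lit 482) (nat_lit 482) (nat_lit 236)) (XT.lf (nat_lit 76) (nat_lit 1056190738722) (nat_lit 0) (nat_lit 1102653368942) (nat_lit 532) (nat_lit 166127883944) (nat_lit 70) (nat_lit 5) (nat_lit 69) (nat_lit 3) (nat_lit 76) (nat_lit 5) (nat_lit 483) (nat_lit 482) (nat_lit 235)))) (XT.nd (nat_lit 78) (nat_lit 532) (nat_lit 0) (XT.lf (nat_lit 0) (nat_lit 2278048738607) (nat_lit 456) (nat_lit 117168619502) (nat_lit 532) (nat_lit 23968027702) (nat_lit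 70) (nat_lit 5) (nat_lit 76) (nat_lit 5) (nat_lit 77) (nat_lit 5) (nat_lit 484) (nat_lit 482) (nat_lit 234)) (XT.nd (nat_lit 78) (nat_lit 532) (nat_lit 0) (XT.lf (nat_lit 76) (nat_lit 1155747865600) (nat_lit 0) (nat_lit 1307477984492) (nat_lit 532) (nat_lit 53195112653) (nat_lit 71) (nat_lit 5) (nat_lit 70) (nat_lit 5) (nat_lit 77) (nat_lit 5) (nat_lit 485) (nat_lit 482) (nat_lit 233)) (XT.lf (nat_lit 0) (nat_lit 42978459503) (nat_lit 532) (nat_lit 85106008382) (nat_lit 608) (nat_lit 2493007585240) (nat_lit 63) (nat_lit 5) (nat_lit 70) (nat_lit 5) (nat_lit 71) (nat_lit 5) (nat_lit 486) (nat_lit 482) (nat_lit 232)))))) (XT.nd (nat_lit 468) (nat_lit 684) (nat_lit 0) (XT.nd (nat_lit 234) (nat_lit 608) (nat_lit 0) (XT.nd (nat_lit 78) (nat_lit 0) (nat_lit 0) (XT.lf (nat_lit 0) (nat_lit 205096757965) (nat_lit 532) (nat_lit 1400736318891) (nat_lit 608) (nat_lit 1123303237914) (nat_lit 64) (nat_lit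 5) (nat_lit 71) (nat_lit 5) (nat_lit 72) (nat_lit 5) (nat_lit 487) (nat_lit 482) (nat_lit 231)) (XT.nd (nat_lit 78) (nat_lit 0) (nat_lit 76) (XT.lf (nat_lit 76) (nat_lit 11370038198) (nat_lit 0) (nat_lit 374802189464) (nat_lit 608) (nat_lit 2459172873098) (nat_lit 65) (nat_lit 5) (nat_lit 64) (nat_lit 5) (nat_lit 72) (nat_lit 5) (nat_lit 488) (nat_lit 482) (nat_lit 230)) (XT.lf (nat_lit 0) (nat_lit 643987943060) (nat_lit 532) (nat_lit 1375636277700) (nat_lit 76) (nat_lit 946246032219) (nat_lit 65) (nat_lit 5) (nat_lit 72) (nat_lit 5) (nat_lit 66) (nat_lit 5) (nat_lit 489) (nat_lit 482) (nat_lit 229)))) (XT.nd (nat_lit 78) (nat_lit 228) (nat_lit 0) (XT.lf (nat_lit 0) (nat_lit 199620303400) (nat_lit 456) (nat_lit 737344606359) (nat_lit 532) (nat_lit 2157909628093) (nat_lit 59) (nat_lit 5) (nat_lit 65) (nat_lit 5) (nat_lit 66) (nat_lit 5) (nat_lit 490) (nat_lit 482) (nat_lit 228)) (XT.nd (nat_lit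 78) (nat_lit 228) (nat_lit 0) (XT.lf (nat_lit 0) (nat_lit 1307542118898) (nat_lit 532) (nat_lit 1268608866861) (nat_lit 76) (nat_lit 653715212947) (nat_lit 59) (nat_lit 5) (nat_lit 66) (nat_lit 5) (nat_lit 60) (nat_lit 5) (nat_lit 491) (nat_lit 482) (nat_lit 227)) (XT.lf (nat_lit 0) (nat_lit 493713889725) (nat_lit 228) (nat_lit 1245077253190) (nat_lit 304) (nat_lit 1634383998461) (nat_lit 56) (nat_lit 5) (nat_lit 59) (nat_lit 5) (nat_lit 60) (nat_lit 5) (nat_lit 492) (nat_lit 482) (nat_lit 226))))) (XT.nd (nat_lit 234) (nat_lit 456) (nat_lit 0) (XT.nd (nat_lit 78) (nat_lit 228) (nat_lit 0) (XT.lf (nat_lit 0) (nat_lit 2244756244009) (nat_lit 304) (nat_lit 1061534683184) (nat_lit 76) (nat_lit 218440579855) (nat_lit 56) (nat_lit 5) (nat_lit 60) (nat_lit 5) (nat_lit 57) (nat_lit 5) (nat_lit 493) (nat_lit 482) (nat_lit 225)) (XT.nd (nat_lit 78) (nat_lit 0) (nat_lit 0) (XT.lf (nat_lit 0) (nat_lit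 915271950959) (nat_lit 228) (nat_lit 1930278582932) (nat_lit 304) (nat_lit 838513689628) (nat_lit 53) (nat_lit 5) (nat_lit 56) (nat_lit 5) (nat_lit 57) (nat_lit 5) (nat_lit 494) (nat_lit 482) (nat_lit 224)) (XT.lf (nat_lit 0) (nat_lit 3110593533138) (nat_lit 228) (nat_lit 412839072650) (nat_lit 304) (nat_lit 330389012413) (nat_lit 53) (nat_lit 5) (nat_lit 56) (nat_lit 5) (nat_lit 57) (nat_lit 5) (nat_lit 495) (nat_lit 482) (nat_lit 223)))) (XT.nd (nat_lit 78) (nat_lit 228) (nat_lit 0) (XT.lf (nat_lit 0) (nat_lit 274462723650) (nat_lit 228) (nat_lit 2549481668094) (nat_lit 76) (nat_lit 1207434908821) (nat_lit 50) (nat_lit 5) (nat_lit 53) (nat_lit 5) (nat_lit 51) (nat_lit 5) (nat_lit 496) (nat_lit 482) (nat_lit 222)) (XT.nd (nat_lit 78) (nat_lit 228) (nat_lit 0) (XT.lf (nat_lit 0) (nat_lit 941425098263) (nat_lit 228) (nat_lit 314046905508) (nat_lit 76) (nat_lit 2964457304094) (nat_lit 50)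 (nat_lit 5) (nat_lit 53) (nat_lit 5) (nat_lit 51) (nat_lit 5) (nat_lit 497) (nat_lit 482) (nat_lit 221)) (XT.lf (nat_lit 0) (nat_lit 1726841110318) (nat_lit 304) (nat_lit 2220419515381) (nat_lit 76) (nat_lit 471094958252) (nat_lit 47) (nat_lit 5) (nat_lit 51) (nat_lit 5) (nat_lit 48) (nat_lit 5) (nat_lit 498) (nat_lit 482) (nat_lit 220))))))))
noncomputable def xc245 : XT := (XT.nd (nat_lit 61620) (nat_lit 0) (nat_lit 532) (XT.nd (nat_lit 858) (nat_lit 532) (nat_lit 0) (XT.nd (nat_lit 390) (nat_lit 456) (nat_lit 0) (XT.nd (nat_lit 156) (nat_lit 380) (nat_lit 0) (XT.nd (nat_lit 78) (nat_lit 0) (nat_lit 0) (XT.lf (nat_lit 0) (nat_lit 277834486739) (nat_lit 152) (nat_lit 2345357132099) (nat_lit 228) (nat_lit 2005616246047) (nat_lit 45) (nat_lit 5) (nat_lit 47) (nat_lit 5) (nat_lit 48) (nat_lit 5) (nat_lit 499) (nat_lit 482) (nat_lit 219)) (XT.lf (nat_lit 0) (nat_lit 3102226033654) (nat_lit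 152) (nat_lit 549734338379) (nat_lit 228) (nat_lit 1199279139942) (nat_lit 45) (nat_lit 5) (nat_lit 47) (nat_lit 5) (nat_lit 48) (nat_lit 5) (nat_lit 500) (nat_lit 482) (nat_lit 218))) (XT.nd (nat_lit 78) (nat_lit 228) (nat_lit 0) (XT.lf (nat_lit 0) (nat_lit 1081800843308) (nat_lit 152) (nat_lit 3740665547050) (nat_lit 228) (nat_lit 264244439284) (nat_lit 43) (nat_lit 5) (nat_lit 45) (nat_lit 5) (nat_lit 46) (nat_lit 5) (nat_lit 501) (nat_lit 482) (nat_lit 217)) (XT.nd (nat_lit 78) (nat_lit 152) (nat_lit 0) (XT.lf (nat_lit 0) (nat_lit 771637502802) (nat_lit 228) (nat_lit 1132098357893) (nat_lit 76) (nat_lit 3430782105686) (nat_lit 42) (nat_lit 5) (nat_lit 45) (nat_lit 5) (nat_lit 43) (nat_lit 5) (nat_lit 502) (nat_lit 482) (nat_lit 216)) (XT.lf (nat_lit 0) (nat_lit 1929224313174) (nat_lit 228) (nat_lit 3533942286341) (nat_lit 76) (nat_lit 134185165100) (nat_lit 40) (nat_lit 5) (nat_lit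 43) (nat_lit 5) (nat_lit 41) (nat_lit 5) (nat_lit 503) (nat_lit 482) (nat_lit 215))))) (XT.nd (nat_lit 234) (nat_lit 228) (nat_lit 0) (XT.nd (nat_lit 78) (nat_lit 228) (nat_lit 0) (XT.lf (nat_lit 0) (nat_lit 3260623316997) (nat_lit 228) (nat_lit 350046276895) (nat_lit 76) (nat_lit 2264046252927) (nat_lit 40) (nat_lit 5) (nat_lit 43) (nat_lit 5) (nat_lit 41) (nat_lit 5) (nat_lit 504) (nat_lit 482) (nat_lit 214)) (XT.nd (nat_lit 78) (nat_lit 76) (nat_lit 0) (XT.lf (nat_lit 0) (nat_lit 3251199583320) (nat_lit 152) (nat_lit 1525526085605) (nat_lit 228) (nat_lit 1391288072449) (nat_lit 38) (nat_lit 5) (nat_lit 40) (nat_lit 5) (nat_lit 41) (nat_lit 5) (nat_lit 505) (nat_lit 482) (nat_lit 213)) (XT.lf (nat_lit 0) (nat_lit 693410743754) (nat_lit 76) (nat_lit 5764672122530) (nat_lit 152) (nat_lit 23175268628) (nat_lit 37) (nat_lit 5) (nat_lit 38) (nat_lit 5) (nat_lit 39) (nat_lit 4) (nat_lit 506)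 (nat_lit 482) (nat_lit 212)))) (XT.nd (nat_lit 78) (nat_lit 152) (nat_lit 0) (XT.lf (nat_lit 0) (nat_lit 1503078626545) (nat_lit 152) (nat_lit 2131520104707) (nat_lit 76) (nat_lit 3172449396299) (nat_lit 36) (nat_lit 5) (nat_lit 38) (nat_lit 5) (nat_lit 37) (nat_lit 5) (nat_lit 507) (nat_lit 482) (nat_lit 211)) (XT.nd (nat_lit 78) (nat_lit 0) (nat_lit 0) (XT.lf (nat_lit 0) (nat_lit 1912376212396) (nat_lit 152) (nat_lit 1283797248046) (nat_lit 228) (nat_lit 3959000287271) (nat_lit 34) (nat_lit 5) (nat_lit 36) (nat_lit 5) (nat_lit 37) (nat_lit 5) (nat_lit 508) (nat_lit 482) (nat_lit 210)) (XT.lf (nat_lit 0) (nat_lit 5114693596070) (nat_lit 228) (nat_lit 1157179561471) (nat_lit 76) (nat_lit 1252078042744) (nat_lit 34) (nat_lit 5) (nat_lit 37) (nat_lit 5) (nat_lit 35) (nat_lit 4) (nat_lit 509) (nat_lit 482) (nat_lit 209)))))) (XT.nd (nat_lit 390) (nat_lit 152) (nat_lit 0) (XT.nd (nat_lit 156)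 (nat_lit 76) (nat_lit 0) (XT.nd (nat_lit 78) (nat_lit 228) (nat_lit 0) (XT.lf (nat_lit 0) (nat_lit 3391604247226) (nat_lit 76) (nat_lit 3910004641802) (nat_lit 152) (nat_lit 611428876317) (nat_lit 33) (nat_lit 5) (nat_lit 34) (nat_lit 5) (nat_lit 35) (nat_lit 4) (nat_lit 510) (nat_lit 482) (nat_lit 208)) (XT.lf (nat_lit 0) (nat_lit 6912497902) (nat_lit 152) (nat_lit 1289397738836) (nat_lit 228) (nat_lit 7031771470289) (nat_lit 30) (nat_lit 5) (nat_lit 32) (nat_lit 5) (nat_lit 33) (nat_lit 5) (nat_lit 511) (nat_lit 482) (nat_lit 207))) (XT.nd (nat_lit 78) (nat_lit 76) (nat_lit 0) (XT.lf (nat_lit 0) (nat_lit 3487528121264) (nat_lit 228) (nat_lit 3667925066215) (nat_lit 76) (nat_lit 1606494060363) (nat_lit 30) (nat_lit 5) (nat_lit 33) (nat_lit 5) (nat_lit 31) (nat_lit 4) (nat_lit 512) (nat_lit 482) (nat_lit 206)) (XT.nd (nat_lit 78) (nat_lit 0) (nat_lit 0) (XT.lf (nat_lit 0) (nat_lit 1393811872098)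 (nat_lit 76) (nat_lit 4527243623587) (nat_lit 152) (nat_lit 3304105571507) (nat_lit 29) (nat_lit 5) (nat_lit 30) (nat_lit 5) (nat_lit 31) (nat_lit 4) (nat_lit 513) (nat_lit 482) (nat_lit 205)) (XT.lf (nat_lit 0) (nat_lit 7069085913582) (nat_lit 76) (nat_lit 1580466717646) (nat_lit 152) (nat_lit 1067856355167) (nat_lit 29) (nat_lit 5) (nat_lit 30) (nat_lit 5) (nat_lit 31) (nat_lit 4) (nat_lit 514) (nat_lit 482) (nat_lit 204))))) (XT.nd (nat_lit 60138) (nat_lit 0) (nat_lit 2736) (XT.nd (nat_lit 59982) (nat_lit 0) (nat_lit 3192) (XT.lf (nat_lit 0) (nat_lit 1395031520443) (nat_lit 152) (nat_lit 7211282178022) (nat_lit 76) (nat_lit 1630919985590) (nat_lit 27) (nat_lit 5) (nat_lit 29) (nat_lit 5) (nat_lit 28) (nat_lit 4) (nat_lit 515) (nat_lit 482) (nat_lit 203)) (XT.nd (nat_lit 78) (nat_lit 0) (nat_lit 0) (XT.lf (nat_lit 0) (nat_lit 1107749097235) (nat_lit 532) (nat_lit 50251516779) (nat_lit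 532) (nat_lit 50251516779) (nat_lit 69) (nat_lit 3) (nat_lit 76) (nat_lit 3) (nat_lit 76) (nat_lit 5) (nat_lit 483) (nat_lit 483) (nat_lit 234)) (XT.lf (nat_lit 76) (nat_lit 1140686010430) (nat_lit 0) (nat_lit 1190865648321) (nat_lit 532) (nat_lit 179418090373) (nat_lit 70) (nat_lit 5) (nat_lit 69) (nat_lit 3) (nat_lit 76) (nat_lit 5) (nat_lit 484) (nat_lit 483) (nat_lit 233)))) (XT.nd (nat_lit 78) (nat_lit 532) (nat_lit 0) (XT.lf (nat_lit 0) (nat_lit 2460292658284) (nat_lit 456) (nat_lit 126542095488) (nat_lit 532) (nat_lit 25885461243) (nat_lit 70) (nat_lit 5) (nat_lit 76) (nat_lit 5) (nat_lit 77) (nat_lit 5) (nat_lit 485) (nat_lit 483) (nat_lit 232)) (XT.nd (nat_lit 78) (nat_lit 532) (nat_lit 0) (XT.lf (nat_lit 76) (nat_lit 1248207708079) (nat_lit 0) (nat_lit 1412076229403) (nat_lit 532) (nat_lit 57450700720) (nat_lit 71) (nat_lit 5) (nat_lit 70) (nat_lit 5) (nat_lit 77) (nat_lit 5)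 (nat_lit 486) (nat_lit 483) (nat_lit 231)) (XT.lf (nat_lit 0) (nat_lit 46416754687) (nat_lit 532) (nat_lit 91914475821) (nat_lit 608) (nat_lit 2692448185382) (nat_lit 63) (nat_lit 5) (nat_lit 70) (nat_lit 5) (nat_lit 71) (nat_lit 5) (nat_lit 487) (nat_lit 483) (nat_lit 230))))))) (XT.nd (nat_lit 858) (nat_lit 1216) (nat_lit 0) (XT.nd (nat_lit 390) (nat_lit 684) (nat_lit 0) (XT.nd (nat_lit 156) (nat_lit 380) (nat_lit 0) (XT.nd (nat_lit 78) (nat_lit 0) (nat_lit 0) (XT.lf (nat_lit 0) (nat_lit 221504515864) (nat_lit 532) (nat_lit 1512795209999) (nat_lit 608) (nat_lit 1213167492698) (nat_lit 64) (nat_lit 5) (nat_lit 71) (nat_lit 5) (nat_lit 72) (nat_lit 5) (nat_lit 488) (nat_lit 483) (nat_lit 229)) (XT.lf (nat_lit 76) (nat_lit 12279655293) (nat_lit 0) (nat_lit 404786366902) (nat_lit 608) (nat_lit 2655906685310) (nat_lit 65) (nat_lit 5) (nat_lit 64) (nat_lit 5) (nat_lit 72) (nat_lit 5) (nat_lit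 489) (nat_lit 483) (nat_lit 228))) (XT.nd (nat_lit 78) (nat_lit 456) (nat_lit 0) (XT.lf (nat_lit 0) (nat_lit 695506993566) (nat_lit 532) (nat_lit 1485687165648) (nat_lit 76) (nat_lit 1021945712790) (nat_lit 65) (nat_lit 5) (nat_lit 72) (nat_lit 5) (nat_lit 66) (nat_lit 5) (nat_lit 490) (nat_lit 483) (nat_lit 227)) (XT.nd (nat_lit 78) (nat_lit 0) (nat_lit 0) (XT.lf (nat_lit 0) (nat_lit 215589941578) (nat_lit 456) (nat_lit 796332175240) (nat_lit 532) (nat_lit 2330542382910) (nat_lit 59) (nat_lit 5) (nat_lit 65) (nat_lit 5) (nat_lit 66) (nat_lit 5) (nat_lit 491) (nat_lit 483) (nat_lit 226)) (XT.lf (nat_lit 0) (nat_lit 1412145501623) (nat_lit 532) (nat_lit 1370097562259) (nat_lit 76) (nat_lit 706012429654) (nat_lit 59) (nat_lit 5) (nat_lit 66) (nat_lit 5) (nat_lit 60) (nat_lit 5) (nat_lit 492) (nat_lit 483) (nat_lit 225))))) (XT.nd (nat_lit 234) (nat_lit 228) (nat_lit 0) (XT.nd (nat_lit 78)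 (nat_lit 228) (nat_lit 0) (XT.lf (nat_lit 0) (nat_lit 533211014500) (nat_lit 228) (nat_lit 1344683432410) (nat_lit 304) (nat_lit 1765134704764) (nat_lit 56) (nat_lit 5) (nat_lit 59) (nat_lit 5) (nat_lit 60) (nat_lit 5) (nat_lit 493) (nat_lit 483) (nat_lit 224)) (XT.nd (nat_lit 78) (nat_lit 228) (nat_lit 0) (XT.lf (nat_lit 0) (nat_lit 2424336755184) (nat_lit 304) (nat_lit 1146457444335) (nat_lit 76) (nat_lit 235915827154) (nat_lit 56) (nat_lit 5) (nat_lit 60) (nat_lit 5) (nat_lit 57) (nat_lit 5) (nat_lit 494) (nat_lit 483) (nat_lit 223)) (XT.lf (nat_lit 0) (nat_lit 988493720197) (nat_lit 228) (nat_lit 2084700867513) (nat_lit 304) (nat_lit 905594772796) (nat_lit 53) (nat_lit 5) (nat_lit 56) (nat_lit 5) (nat_lit 57) (nat_lit 5) (nat_lit 495) (nat_lit 483) (nat_lit 222)))) (XT.nd (nat_lit 78) (nat_lit 228) (nat_lit 0) (XT.lf (nat_lit 0) (nat_lit 3359441027976) (nat_lit 228) (nat_lit 445866196560)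 (nat_lit 304) (nat_lit 356820122292) (nat_lit 53) (nat_lit 5) (nat_lit 56) (nat_lit 5) (nat_lit 57) (nat_lit 5) (nat_lit 496) (nat_lit 483) (nat_lit 221)) (XT.nd (nat_lit 78) (nat_lit 0) (nat_lit 0) (XT.lf (nat_lit 0) (nat_lit 296419751672) (nat_lit 228) (nat_lit 2753440188362) (nat_lit 76) (nat_lit 1304029703760) (nat_lit 50) (nat_lit 5) (nat_lit 53) (nat_lit 5) (nat_lit 51) (nat_lit 5) (nat_lit 497) (nat_lit 483) (nat_lit 220)) (XT.lf (nat_lit 0) (nat_lit 1016739115504) (nat_lit 228) (nat_lit 339170645746) (nat_lit 76) (nat_lit 3201613890489) (nat_lit 50) (nat_lit 5) (nat_lit 53) (nat_lit 5) (nat_lit 51) (nat_lit 5) (nat_lit 498) (nat_lit 483) (nat_lit 219)))))) (XT.nd (nat_lit 468) (nat_lit 456) (nat_lit 0) (XT.nd (nat_lit 234) (nat_lit 380) (nat_lit 0) (XT.nd (nat_lit 78) (nat_lit 152) (nat_lit 0) (XT.lf (nat_lit 0) (nat_lit 1864988408185) (nat_lit 304) (nat_lit 2398053064067) (nat_lit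 76) (nat_lit 508782557689) (nat_lit 47) (nat_lit 5) (nat_lit 51) (nat_lit 5) (nat_lit 48) (nat_lit 5) (nat_lit 499) (nat_lit 483) (nat_lit 218)) (XT.nd (nat_lit 78) (nat_lit 0) (nat_lit 0) (XT.lf (nat_lit 0) (nat_lit 300061257906) (nat_lit 152) (nat_lit 2532985699106) (nat_lit 228) (nat_lit 2166065536368) (nat_lit 45) (nat_lit 5) (nat_lit 47) (nat_lit 5) (nat_lit 48) (nat_lit 5) (nat_lit 500) (nat_lit 483) (nat_lit 217)) (XT.lf (nat_lit 0) (nat_lit 3350404127668) (nat_lit 152) (nat_lit 593713082152) (nat_lit 228) (nat_lit 1295221462468) (nat_lit 45) (nat_lit 5) (nat_lit 47) (nat_lit 5) (nat_lit 48) (nat_lit 5) (nat_lit 501) (nat_lit 483) (nat_lit 216)))) (XT.nd (nat_lit 78) (nat_lit 228) (nat_lit 0) (XT.lf (nat_lit 0) (nat_lit 1168344922360) (nat_lit 152) (nat_lit 4039918787009) (nat_lit 228) (nat_lit 285383986019) (nat_lit 43) (nat_lit 5) (nat_lit 45) (nat_lit 5) (nat_lit 46) (nat_lit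 5) (nat_lit 502) (nat_lit 483) (nat_lit 215)) (XT.nd (nat_lit 78) (nat_lit 152) (nat_lit 0) (XT.lf (nat_lit 0) (nat_lit 833368510422) (nat_lit 228) (nat_lit 1222666215404) (nat_lit 76) (nat_lit 3705244677272) (nat_lit 42) (nat_lit 5) (nat_lit 45) (nat_lit 5) (nat_lit 43) (nat_lit 5) (nat_lit 503) (nat_lit 483) (nat_lit 214)) (XT.lf (nat_lit 0) (nat_lit 2083562265426) (nat_lit 228) (nat_lit 3816657657928) (nat_lit 76) (nat_lit 144919981852) (nat_lit 40) (nat_lit 5) (nat_lit 43) (nat_lit 5) (nat_lit 41) (nat_lit 5) (nat_lit 504) (nat_lit 483) (nat_lit 213))))) (XT.nd (nat_lit 234) (nat_lit 228) (nat_lit 0) (XT.nd (nat_lit 78) (nat_lit 228) (nat_lit 0) (XT.lf (nat_lit 0) (nat_lit 3521473189021) (nat_lit 228) (nat_lit 378049968564) (nat_lit 76) (nat_lit 2445169956443) (nat_lit 40) (nat_lit 5) (nat_lit 43) (nat_lit 5) (nat_lit 41) (nat_lit 5) (nat_lit 505) (nat_lit 483) (nat_lit 212)) (XT.nd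 (nat_lit 78) (nat_lit 76) (nat_lit 0) (XT.lf (nat_lit 0) (nat_lit 3511295560203) (nat_lit 152) (nat_lit 1647568168653) (nat_lit 228) (nat_lit 1502591111312) (nat_lit 38) (nat_lit 5) (nat_lit 40) (nat_lit 5) (nat_lit 41) (nat_lit 5) (nat_lit 506) (nat_lit 483) (nat_lit 211)) (XT.lf (nat_lit 0) (nat_lit 748883613627) (nat_lit 76) (nat_lit 6225845888236) (nat_lit 152) (nat_lit 25029283339) (nat_lit 37) (nat_lit 5) (nat_lit 38) (nat_lit 5) (nat_lit 39) (nat_lit 4) (nat_lit 507) (nat_lit 483) (nat_lit 210)))) (XT.nd (nat_lit 78) (nat_lit 152) (nat_lit 0) (XT.lf (nat_lit 0) (nat_lit 1623324922632) (nat_lit 152) (nat_lit 2302041703164) (nat_lit 76) (nat_lit 3426245351480) (nat_lit 36) (nat_lit 5) (nat_lit 38) (nat_lit 5) (nat_lit 37) (nat_lit 5) (nat_lit 508) (nat_lit 483) (nat_lit 209)) (XT.nd (nat_lit 78) (nat_lit 0) (nat_lit 0) (XT.lf (nat_lit 0) (nat_lit 2065366319055) (nat_lit 152) (nat_lit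 1386501023976) (nat_lit 228) (nat_lit 4275720304036) (nat_lit 34) (nat_lit 5) (nat_lit 36) (nat_lit 5) (nat_lit 37) (nat_lit 5) (nat_lit 509) (nat_lit 483) (nat_lit 208)) (XT.lf (nat_lit 0) (nat_lit 5523869089170) (nat_lit 228) (nat_lit 1249753917096) (nat_lit 76) (nat_lit 1352244289606) (nat_lit 34) (nat_lit 5) (nat_lit 37) (nat_lit 5) (nat_lit 35) (nat_lit 4) (nat_lit 510) (nat_lit 483) (nat_lit 207))))))))
noncomputable def xc246 : XT := (XT.nd (nat_lit 61698) (nat_lit 0) (nat_lit 0) (XT.nd (nat_lit 60840) (nat_lit 0) (nat_lit 1368) (XT.nd (nat_lit 60372) (nat_lit 0) (nat_lit 2584) (XT.nd (nat_lit 156) (nat_lit 76) (nat_lit 0) (XT.nd (nat_lit 78) (nat_lit 228) (nat_lit 0) (XT.lf (nat_lit 0) (nat_lit 3662932596061) (nat_lit 76) (nat_lit 4222805009321) (nat_lit 152) (nat_lit 660343180771) (nat_lit 33) (nat_lit 5) (nat_lit 34) (nat_lit 5) (nat_lit 35) (nat_lit 4) (nat_lit 511) (nat_lit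 483) (nat_lit 206)) (XT.lf (nat_lit 0) (nat_lit 7465506839) (nat_lit 152) (nat_lit 1392549554028) (nat_lit 228) (nat_lit 7594313182306) (nat_lit 30) (nat_lit 5) (nat_lit 32) (nat_lit 5) (nat_lit 33) (nat_lit 5) (nat_lit 512) (nat_lit 483) (nat_lit 205))) (XT.nd (nat_lit 78) (nat_lit 76) (nat_lit 0) (XT.lf (nat_lit 0) (nat_lit 3766530375858) (nat_lit 228) (nat_lit 3961359062784) (nat_lit 76) (nat_lit 1735013588635) (nat_lit 30) (nat_lit 5) (nat_lit 33) (nat_lit 5) (nat_lit 31) (nat_lit 4) (nat_lit 513) (nat_lit 483) (nat_lit 204)) (XT.nd (nat_lit 78) (nat_lit 0) (nat_lit 0) (XT.lf (nat_lit 0) (nat_lit 1505316830373) (nat_lit 76) (nat_lit 4889423109702) (nat_lit 152) (nat_lit 3568434012112) (nat_lit 29) (nat_lit 5) (nat_lit 30) (nat_lit 5) (nat_lit 31) (nat_lit 4) (nat_lit 514) (nat_lit 483) (nat_lit 203)) (XT.lf (nat_lit 0) (nat_lit 7634612794546) (nat_lit 76) (nat_lit 1706904051565) (nat_lit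 152) (nat_lit 1153284858844) (nat_lit 29) (nat_lit 5) (nat_lit 30) (nat_lit 5) (nat_lit 31) (nat_lit 4) (nat_lit 515) (nat_lit 483) (nat_lit 202))))) (XT.nd (nat_lit 234) (nat_lit 456) (nat_lit 0) (XT.nd (nat_lit 78) (nat_lit 0) (nat_lit 0) (XT.lf (nat_lit 0) (nat_lit 1196369035278) (nat_lit 532) (nat_lit 54271632575) (nat_lit 532) (nat_lit 54271632575) (nat_lit 69) (nat_lit 3) (nat_lit 76) (nat_lit 3) (nat_lit 76) (nat_lit 5) (nat_lit 484) (nat_lit 484) (nat_lit 232)) (XT.nd (nat_lit 78) (nat_lit 0) (nat_lit 76) (XT.lf (nat_lit 76) (nat_lit 1231940902075) (nat_lit 0) (nat_lit 1286134908643) (nat_lit 532) (nat_lit 193771516781) (nat_lit 70) (nat_lit 5) (nat_lit 69) (nat_lit 3) (nat_lit 76) (nat_lit 5) (nat_lit 485) (nat_lit 484) (nat_lit 231)) (XT.lf (nat_lit 0) (nat_lit 2657116088599) (nat_lit 456) (nat_lit 136665451489) (nat_lit 532) (nat_lit 27956290704) (nat_lit 70) (nat_lit 5) (nat_lit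 76) (nat_lit 5) (nat_lit 77) (nat_lit 5) (nat_lit 486) (nat_lit 484) (nat_lit 230)))) (XT.nd (nat_lit 78) (nat_lit 532) (nat_lit 0) (XT.lf (nat_lit 76) (nat_lit 1348064336068) (nat_lit 0) (nat_lit 1525042333030) (nat_lit 532) (nat_lit 62046738820) (nat_lit 71) (nat_lit 5) (nat_lit 70) (nat_lit 5) (nat_lit 77) (nat_lit 5) (nat_lit 487) (nat_lit 484) (nat_lit 229)) (XT.nd (nat_lit 78) (nat_lit 0) (nat_lit 76) (XT.lf (nat_lit 0) (nat_lit 50130110857) (nat_lit 532) (nat_lit 99267622543) (nat_lit 608) (nat_lit 2907844034488) (nat_lit 63) (nat_lit 5) (nat_lit 70) (nat_lit 5) (nat_lit 71) (nat_lit 5) (nat_lit 488) (nat_lit 484) (nat_lit 228)) (XT.lf (nat_lit 0) (nat_lit 239224891932) (nat_lit 532) (nat_lit 1633818814450) (nat_lit 608) (nat_lit 1310220888472) (nat_lit 64) (nat_lit 5) (nat_lit 71) (nat_lit 5) (nat_lit 72) (nat_lit 5) (nat_lit 489) (nat_lit 484) (nat_lit 227)))))) (XT.nd (nat_lit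 390) (nat_lit 684) (nat_lit 0) (XT.nd (nat_lit 156) (nat_lit 608) (nat_lit 0) (XT.nd (nat_lit 78) (nat_lit 0) (nat_lit 76) (XT.lf (nat_lit 76) (nat_lit 13262039753) (nat_lit 0) (nat_lit 437169278211) (nat_lit 608) (nat_lit 2868379205015) (nat_lit 65) (nat_lit 5) (nat_lit 64) (nat_lit 5) (nat_lit 72) (nat_lit 5) (nat_lit 490) (nat_lit 484) (nat_lit 226)) (XT.lf (nat_lit 0) (nat_lit 751147565964) (nat_lit 532) (nat_lit 1604542126668) (nat_lit 76) (nat_lit 1103701368092) (nat_lit 65) (nat_lit 5) (nat_lit 72) (nat_lit 5) (nat_lit 66) (nat_lit 5) (nat_lit 491) (nat_lit 484) (nat_lit 225))) (XT.nd (nat_lit 78) (nat_lit 228) (nat_lit 0) (XT.lf (nat_lit 0) (nat_lit 232837148827) (nat_lit 456) (nat_lit 860038749580) (nat_lit 532) (nat_lit 2516985760314) (nat_lit 59) (nat_lit 5) (nat_lit 65) (nat_lit 5) (nat_lit 66) (nat_lit 5) (nat_lit 492) (nat_lit 484) (nat_lit 224)) (XT.nd (nat_lit 78) (nat_lit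 228) (nat_lit 0) (XT.lf (nat_lit 0) (nat_lit 1525117153082) (nat_lit 532) (nat_lit 1479705355280) (nat_lit 76) (nat_lit 762493423745) (nat_lit 59) (nat_lit 5) (nat_lit 66) (nat_lit 5) (nat_lit 60) (nat_lit 5) (nat_lit 493) (nat_lit 484) (nat_lit 223)) (XT.lf (nat_lit 0) (nat_lit 575867907317) (nat_lit 228) (nat_lit 1452258106116) (nat_lit 304) (nat_lit 1906345469508) (nat_lit 56) (nat_lit 5) (nat_lit 59) (nat_lit 5) (nat_lit 60) (nat_lit 5) (nat_lit 494) (nat_lit 484) (nat_lit 222))))) (XT.nd (nat_lit 234) (nat_lit 456) (nat_lit 0) (XT.nd (nat_lit 78) (nat_lit 228) (nat_lit 0) (XT.lf (nat_lit 0) (nat_lit 2618283705590) (nat_lit 304) (nat_lit 1238174028305) (nat_lit 76) (nat_lit 254789094107) (nat_lit 56) (nat_lit 5) (nat_lit 60) (nat_lit 5) (nat_lit 57) (nat_lit 5) (nat_lit 495) (nat_lit 484) (nat_lit 221)) (XT.nd (nat_lit 78) (nat_lit 0) (nat_lit 0) (XT.lf (nat_lit 0) (nat_lit 1067573229097)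 (nat_lit 228) (nat_lit 2251476935153) (nat_lit 304) (nat_lit 978042344329) (nat_lit 53) (nat_lit 5) (nat_lit 56) (nat_lit 5) (nat_lit 57) (nat_lit 5) (nat_lit 496) (nat_lit 484) (nat_lit 220)) (XT.lf (nat_lit 0) (nat_lit 3628196320662) (nat_lit 228) (nat_lit 481535490655) (nat_lit 304) (nat_lit 385365722548) (nat_lit 53) (nat_lit 5) (nat_lit 56) (nat_lit 5) (nat_lit 57) (nat_lit 5) (nat_lit 497) (nat_lit 484) (nat_lit 219)))) (XT.nd (nat_lit 78) (nat_lit 228) (nat_lit 0) (XT.lf (nat_lit 0) (nat_lit 320133340491) (nat_lit 228) (nat_lit 2973715392132) (nat_lit 76) (nat_lit 1408352081975) (nat_lit 50) (nat_lit 5) (nat_lit 53) (nat_lit 5) (nat_lit 51) (nat_lit 5) (nat_lit 498) (nat_lit 484) (nat_lit 218)) (XT.nd (nat_lit 78) (nat_lit 228) (nat_lit 0) (XT.lf (nat_lit 0) (nat_lit 1098078252787) (nat_lit 228) (nat_lit 366304286943) (nat_lit 76) (nat_lit 3457743003501) (nat_lit 50) (nat_lit 5)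 (nat_lit 53) (nat_lit 5) (nat_lit 51) (nat_lit 5) (nat_lit 499) (nat_lit 484) (nat_lit 217)) (XT.lf (nat_lit 0) (nat_lit 2014187488592) (nat_lit 304) (nat_lit 2589897298436) (nat_lit 76) (nat_lit 549485164684) (nat_lit 47) (nat_lit 5) (nat_lit 51) (nat_lit 5) (nat_lit 48) (nat_lit 5) (nat_lit 500) (nat_lit 484) (nat_lit 216))))))) (XT.nd (nat_lit 858) (nat_lit 380) (nat_lit 0) (XT.nd (nat_lit 390) (nat_lit 456) (nat_lit 0) (XT.nd (nat_lit 156) (nat_lit 380) (nat_lit 0) (XT.nd (nat_lit 78) (nat_lit 0) (nat_lit 0) (XT.lf (nat_lit 0) (nat_lit 324066169022) (nat_lit 152) (nat_lit 2735624551980) (nat_lit 228) (nat_lit 2339350771250) (nat_lit 45) (nat_lit 5) (nat_lit 47) (nat_lit 5) (nat_lit 48) (nat_lit 5) (nat_lit 501) (nat_lit 484) (nat_lit 215)) (XT.lf (nat_lit 0) (nat_lit 3618436467589) (nat_lit 152) (nat_lit 641210125896) (nat_lit 228) (nat_lit 1398839172032) (nat_lit 45) (nat_lit 5) (nat_lit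 47) (nat_lit 5) (nat_lit 48) (nat_lit 5) (nat_lit 502) (nat_lit 484) (nat_lit 214))) (XT.nd (nat_lit 78) (nat_lit 228) (nat_lit 0) (XT.lf (nat_lit 0) (nat_lit 1261812526083) (nat_lit 152) (nat_lit 4363112286707) (nat_lit 228) (nat_lit 308214697692) (nat_lit 43) (nat_lit 5) (nat_lit 45) (nat_lit 5) (nat_lit 46) (nat_lit 5) (nat_lit 503) (nat_lit 484) (nat_lit 213)) (XT.nd (nat_lit 78) (nat_lit 152) (nat_lit 0) (XT.lf (nat_lit 0) (nat_lit 900037997596) (nat_lit 228) (nat_lit 1320479503102) (nat_lit 76) (nat_lit 4001664254138) (nat_lit 42) (nat_lit 5) (nat_lit 45) (nat_lit 5) (nat_lit 43) (nat_lit 5) (nat_lit 504) (nat_lit 484) (nat_lit 212)) (XT.lf (nat_lit 0) (nat_lit 2250247252832) (nat_lit 228) (nat_lit 4121990260856) (nat_lit 76) (nat_lit 156513583440) (nat_lit 40) (nat_lit 5) (nat_lit 43) (nat_lit 5) (nat_lit 41) (nat_lit 5) (nat_lit 505) (nat_lit 484) (nat_lit 211))))) (XT.nd (nat_lit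 234) (nat_lit 228) (nat_lit 0) (XT.nd (nat_lit 78) (nat_lit 228) (nat_lit 0) (XT.lf (nat_lit 0) (nat_lit 3803191049857) (nat_lit 228) (nat_lit 408293957062) (nat_lit 76) (nat_lit 2640783555773) (nat_lit 40) (nat_lit 5) (nat_lit 43) (nat_lit 5) (nat_lit 41) (nat_lit 5) (nat_lit 506) (nat_lit 484) (nat_lit 210)) (XT.nd (nat_lit 78) (nat_lit 76) (nat_lit 0) (XT.lf (nat_lit 0) (nat_lit 3792199213779) (nat_lit 152) (nat_lit 1779373618888) (nat_lit 228) (nat_lit 1622798394274) (nat_lit 38) (nat_lit 5) (nat_lit 40) (nat_lit 5) (nat_lit 41) (nat_lit 5) (nat_lit 507) (nat_lit 484) (nat_lit 209)) (XT.lf (nat_lit 0) (nat_lit 808794311609) (nat_lit 76) (nat_lit 6723913555783) (nat_lit 152) (nat_lit 27031620193) (nat_lit 37) (nat_lit 5) (nat_lit 38) (nat_lit 5) (nat_lit 39) (nat_lit 4) (nat_lit 508) (nat_lit 484) (nat_lit 208)))) (XT.nd (nat_lit 78) (nat_lit 152) (nat_lit 0) (XT.lf (nat_lit 0) (nat_lit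 1753190921555) (nat_lit 152) (nat_lit 2486205030913) (nat_lit 76) (nat_lit 3700344982580) (nat_lit 36) (nat_lit 5) (nat_lit 38) (nat_lit 5) (nat_lit 37) (nat_lit 5) (nat_lit 509) (nat_lit 484) (nat_lit 207)) (XT.nd (nat_lit 78) (nat_lit 0) (nat_lit 0) (XT.lf (nat_lit 0) (nat_lit 2230595632869) (nat_lit 152) (nat_lit 1497421102538) (nat_lit 228) (nat_lit 4617777923030) (nat_lit 34) (nat_lit 5) (nat_lit 36) (nat_lit 5) (nat_lit 37) (nat_lit 5) (nat_lit 510) (nat_lit 484) (nat_lit 206)) (XT.lf (nat_lit 0) (nat_lit 5965778620947) (nat_lit 228) (nat_lit 1349734222497) (nat_lit 76) (nat_lit 1460423835726) (nat_lit 34) (nat_lit 5) (nat_lit 37) (nat_lit 5) (nat_lit 35) (nat_lit 4) (nat_lit 511) (nat_lit 484) (nat_lit 205)))))) (XT.nd (nat_lit 60528) (nat_lit 0) (nat_lit 2584) (XT.nd (nat_lit 234) (nat_lit 76) (nat_lit 0) (XT.nd (nat_lit 78) (nat_lit 228) (nat_lit 0) (XT.lf (nat_lit 0) (nat_lit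 3955967211511) (nat_lit 76) (nat_lit 4560629406787) (nat_lit 152) (nat_lit 713170630387) (nat_lit 33) (nat_lit 5) (nat_lit 34) (nat_lit 5) (nat_lit 35) (nat_lit 4) (nat_lit 512) (nat_lit 484) (nat_lit 204)) (XT.nd (nat_lit 78) (nat_lit 0) (nat_lit 0) (XT.lf (nat_lit 0) (nat_lit 8062755193) (nat_lit 152) (nat_lit 1503953514994) (nat_lit 228) (nat_lit 8201858232083) (nat_lit 30) (nat_lit 5) (nat_lit 32) (nat_lit 5) (nat_lit 33) (nat_lit 5) (nat_lit 513) (nat_lit 484) (nat_lit 203)) (XT.lf (nat_lit 0) (nat_lit 4067852810122) (nat_lit 228) (nat_lit 4278267780323) (nat_lit 76) (nat_lit 1873814678678) (nat_lit 30) (nat_lit 5) (nat_lit 33) (nat_lit 5) (nat_lit 31) (nat_lit 4) (nat_lit 514) (nat_lit 484) (nat_lit 202)))) (XT.nd (nat_lit 60138) (nat_lit 0) (nat_lit 3040) (XT.lf (nat_lit 0) (nat_lit 1625742184097) (nat_lit 76) (nat_lit 5280576955244) (nat_lit 152) (nat_lit 3853908728696) (nat_lit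 29) (nat_lit 5) (nat_lit 30) (nat_lit 5) (nat_lit 31) (nat_lit 4) (nat_lit 515) (nat_lit 484) (nat_lit 201)) (XT.nd (nat_lit 78) (nat_lit 0) (nat_lit 0) (XT.lf (nat_lit 0) (nat_lit 1292078566900) (nat_lit 532) (nat_lit 58613358426) (nat_lit 532) (nat_lit 58613358426) (nat_lit 69) (nat_lit 3) (nat_lit 76) (nat_lit 3) (nat_lit 76) (nat_lit 5) (nat_lit 485) (nat_lit 485) (nat_lit 230)) (XT.lf (nat_lit 76) (nat_lit 1330496183510) (nat_lit 0) (nat_lit 1389025708584) (nat_lit 532) (nat_lit 209273220272) (nat_lit 70) (nat_lit 5) (nat_lit 69) (nat_lit 3) (nat_lit 76) (nat_lit 5) (nat_lit 486) (nat_lit 485) (nat_lit 229))))) (XT.nd (nat_lit 234) (nat_lit 0) (nat_lit 76) (XT.nd (nat_lit 78) (nat_lit 532) (nat_lit 0) (XT.lf (nat_lit 0) (nat_lit 2869685390821) (nat_lit 456) (nat_lit 147598677631) (nat_lit 532) (nat_lit 30192787584) (nat_lit 70) (nat_lit 5) (nat_lit 76) (nat_lit 5) (nat_lit 77) (nat_lit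 5) (nat_lit 487) (nat_lit 485) (nat_lit 228)) (XT.nd (nat_lit 78) (nat_lit 532) (nat_lit 0) (XT.lf (nat_lit 76) (nat_lit 1455909492678) (nat_lit 0) (nat_lit 1647045724194) (nat_lit 532) (nat_lit 67010462530) (nat_lit 71) (nat_lit 5) (nat_lit 70) (nat_lit 5) (nat_lit 77) (nat_lit 5) (nat_lit 488) (nat_lit 485) (nat_lit 227)) (XT.lf (nat_lit 0) (nat_lit 54140533268) (nat_lit 532) (nat_lit 107209022620) (nat_lit 608) (nat_lit 3140471552339) (nat_lit 63) (nat_lit 5) (nat_lit 70) (nat_lit 5) (nat_lit 71) (nat_lit 5) (nat_lit 489) (nat_lit 485) (nat_lit 226)))) (XT.nd (nat_lit 78) (nat_lit 0) (nat_lit 0) (XT.lf (nat_lit 0) (nat_lit 258362895975) (nat_lit 532) (nat_lit 1764524309018) (nat_lit 608) (nat_lit 1415038556426) (nat_lit 64) (nat_lit 5) (nat_lit 71) (nat_lit 5) (nat_lit 72) (nat_lit 5) (nat_lit 490) (nat_lit 485) (nat_lit 225)) (XT.nd (nat_lit 78) (nat_lit 0) (nat_lit 76) (XT.lf (nat_lit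 76) (nat_lit 14323013253) (nat_lit 0) (nat_lit 472142822144) (nat_lit 608) (nat_lit 3097849528454) (nat_lit 65) (nat_lit 5) (nat_lit 64) (nat_lit 5) (nat_lit 72) (nat_lit 5) (nat_lit 491) (nat_lit 485) (nat_lit 224)) (XT.lf (nat_lit 0) (nat_lit 811239382312) (nat_lit 532) (nat_lit 1732905486314) (nat_lit 76) (nat_lit 1191997476065) (nat_lit 65) (nat_lit 5) (nat_lit 72) (nat_lit 5) (nat_lit 66) (nat_lit 5) (nat_lit 492) (nat_lit 485) (nat_lit 223))))))))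
noncomputable def xc247 : XT := (XT.nd (nat_lit 62010) (nat_lit 0) (nat_lit 608) (XT.nd (nat_lit 858) (nat_lit 1140) (nat_lit 0) (XT.nd (nat_lit 390) (nat_lit 608) (nat_lit 0) (XT.nd (nat_lit 156) (nat_lit 456) (nat_lit 0) (XT.nd (nat_lit 78) (nat_lit 0) (nat_lit 0) (XT.lf (nat_lit 0) (nat_lit 251464130955) (nat_lit 456) (nat_lit 928841849820) (nat_lit 532) (nat_lit 2718344609798) (nat_lit 59) (nat_lit 5) (nat_lit 65) (nat_lit 5) (nat_lit 66) (nat_lit 5) (nat_lit 493) (nat_lit 485) (nat_lit 222)) (XT.lf (nat_lit 0) (nat_lit 1647126535041) (nat_lit 532) (nat_lit 1598081773449) (nat_lit 76) (nat_lit 823492897404) (nat_lit 59) (nat_lit 5) (nat_lit 66) (nat_lit 5) (nat_lit 60) (nat_lit 5) (nat_lit 494) (nat_lit 485) (nat_lit 221))) (XT.nd (nat_lit 78) (nat_lit 228) (nat_lit 0) (XT.lf (nat_lit 0) (nat_lit 621937349896) (nat_lit 228) (nat_lit 1568438753844) (nat_lit 304) (nat_lit 2058853097091)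 (nat_lit 56) (nat_lit 5) (nat_lit 59) (nat_lit 5) (nat_lit 60) (nat_lit 5) (nat_lit 495) (nat_lit 485) (nat_lit 220)) (XT.nd (nat_lit 78) (nat_lit 228) (nat_lit 0) (XT.lf (nat_lit 0) (nat_lit 2827746410604) (nat_lit 304) (nat_lit 1337227940644) (nat_lit 76) (nat_lit 275172222305) (nat_lit 56) (nat_lit 5) (nat_lit 60) (nat_lit 5) (nat_lit 57) (nat_lit 5) (nat_lit 496) (nat_lit 485) (nat_lit 219)) (XT.lf (nat_lit 0) (nat_lit 1152979097099) (nat_lit 228) (nat_lit 2431595088456) (nat_lit 304) (nat_lit 1056285723054) (nat_lit 53) (nat_lit 5) (nat_lit 56) (nat_lit 5) (nat_lit 57) (nat_lit 5) (nat_lit 497) (nat_lit 485) (nat_lit 218))))) (XT.nd (nat_lit 234) (nat_lit 380) (nat_lit 0) (XT.nd (nat_lit 78) (nat_lit 228) (nat_lit 0) (XT.lf (nat_lit 0) (nat_lit 3918452035273) (nat_lit 228) (nat_lit 520058328509) (nat_lit 304) (nat_lit 416194972183) (nat_lit 53) (nat_lit 5) (nat_lit 56) (nat_lit 5)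 (nat_lit 57) (nat_lit 5) (nat_lit 498) (nat_lit 485) (nat_lit 217)) (XT.nd (nat_lit 78) (nat_lit 0) (nat_lit 0) (XT.lf (nat_lit 0) (nat_lit 345744015177) (nat_lit 228) (nat_lit 3211612613816) (nat_lit 76) (nat_lit 1521020250175) (nat_lit 50) (nat_lit 5) (nat_lit 53) (nat_lit 5) (nat_lit 51) (nat_lit 5) (nat_lit 499) (nat_lit 485) (nat_lit 216)) (XT.lf (nat_lit 0) (nat_lit 1185924519904) (nat_lit 228) (nat_lit 395608620929) (nat_lit 76) (nat_lit 3734362445302) (nat_lit 50) (nat_lit 5) (nat_lit 53) (nat_lit 5) (nat_lit 51) (nat_lit 5) (nat_lit 500) (nat_lit 485) (nat_lit 215)))) (XT.nd (nat_lit 78) (nat_lit 152) (nat_lit 0) (XT.lf (nat_lit 0) (nat_lit 2175322494325) (nat_lit 304) (nat_lit 2797089073090) (nat_lit 76) (nat_lit 593443979900) (nat_lit 47) (nat_lit 5) (nat_lit 51) (nat_lit 5) (nat_lit 48) (nat_lit 5) (nat_lit 501) (nat_lit 485) (nat_lit 214)) (XT.nd (nat_lit 78) (nat_lit 0) (nat_lit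 0) (XT.lf (nat_lit 0) (nat_lit 349991471532) (nat_lit 152) (nat_lit 2954474513521) (nat_lit 228) (nat_lit 2526498826068) (nat_lit 45) (nat_lit 5) (nat_lit 47) (nat_lit 5) (nat_lit 48) (nat_lit 5) (nat_lit 502) (nat_lit 485) (nat_lit 213)) (XT.lf (nat_lit 0) (nat_lit 3907911393318) (nat_lit 152) (nat_lit 692506933544) (nat_lit 228) (nat_lit 1510746299423) (nat_lit 45) (nat_lit 5) (nat_lit 47) (nat_lit 5) (nat_lit 48) (nat_lit 5) (nat_lit 503) (nat_lit 485) (nat_lit 212)))))) (XT.nd (nat_lit 468) (nat_lit 532) (nat_lit 0) (XT.nd (nat_lit 234) (nat_lit 228) (nat_lit 0) (XT.nd (nat_lit 78) (nat_lit 228) (nat_lit 0) (XT.lf (nat_lit 0) (nat_lit 1362757536686) (nat_lit 152) (nat_lit 4712161266847) (nat_lit 228) (nat_lit 332871867328) (nat_lit 43) (nat_lit 5) (nat_lit 45) (nat_lit 5) (nat_lit 46) (nat_lit 5) (nat_lit 504) (nat_lit 485) (nat_lit 211)) (XT.nd (nat_lit 78) (nat_lit 152) (nat_lit 0)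 (XT.lf (nat_lit 0) (nat_lit 972041042839) (nat_lit 228) (nat_lit 1426117855176) (nat_lit 76) (nat_lit 4321797396771) (nat_lit 42) (nat_lit 5) (nat_lit 45) (nat_lit 5) (nat_lit 43) (nat_lit 5) (nat_lit 505) (nat_lit 485) (nat_lit 210)) (XT.lf (nat_lit 0) (nat_lit 2430267038349) (nat_lit 228) (nat_lit 4451749473403) (nat_lit 76) (nat_lit 169034672720) (nat_lit 40) (nat_lit 5) (nat_lit 43) (nat_lit 5) (nat_lit 41) (nat_lit 5) (nat_lit 506) (nat_lit 485) (nat_lit 209)))) (XT.nd (nat_lit 78) (nat_lit 228) (nat_lit 0) (XT.lf (nat_lit 0) (nat_lit 4107446338744) (nat_lit 228) (nat_lit 440957465922) (nat_lit 76) (nat_lit 2852046242647) (nat_lit 40) (nat_lit 5) (nat_lit 43) (nat_lit 5) (nat_lit 41) (nat_lit 5) (nat_lit 507) (nat_lit 485) (nat_lit 208)) (XT.nd (nat_lit 78) (nat_lit 76) (nat_lit 0) (XT.lf (nat_lit 0) (nat_lit 4095575158391) (nat_lit 152) (nat_lit 1921723505606) (nat_lit 228) (nat_lit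 1752622260720) (nat_lit 38) (nat_lit 5) (nat_lit 40) (nat_lit 5) (nat_lit 41) (nat_lit 5) (nat_lit 508) (nat_lit 485) (nat_lit 207)) (XT.lf (nat_lit 0) (nat_lit 873497864161) (nat_lit 76) (nat_lit 7261826637235) (nat_lit 152) (nat_lit 29194144826) (nat_lit 37) (nat_lit 5) (nat_lit 38) (nat_lit 5) (nat_lit 39) (nat_lit 4) (nat_lit 509) (nat_lit 485) (nat_lit 206))))) (XT.nd (nat_lit 234) (nat_lit 304) (nat_lit 0) (XT.nd (nat_lit 78) (nat_lit 152) (nat_lit 0) (XT.lf (nat_lit 0) (nat_lit 1893446199663) (nat_lit 152) (nat_lit 2685101426095) (nat_lit 76) (nat_lit 3996372583742) (nat_lit 36) (nat_lit 5) (nat_lit 38) (nat_lit 5) (nat_lit 37) (nat_lit 5) (nat_lit 510) (nat_lit 485) (nat_lit 205)) (XT.nd (nat_lit 78) (nat_lit 0) (nat_lit 0) (XT.lf (nat_lit 0) (nat_lit 2409043290604) (nat_lit 152) (nat_lit 1617214787864) (nat_lit 228) (nat_lit 4987200152303) (nat_lit 34) (nat_lit 5) (nat_lit 36)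 (nat_lit 5) (nat_lit 37) (nat_lit 5) (nat_lit 511) (nat_lit 485) (nat_lit 204)) (XT.lf (nat_lit 0) (nat_lit 6443040914603) (nat_lit 228) (nat_lit 1457712953467) (nat_lit 76) (nat_lit 1577257745115) (nat_lit 34) (nat_lit 5) (nat_lit 37) (nat_lit 5) (nat_lit 35) (nat_lit 4) (nat_lit 512) (nat_lit 485) (nat_lit 203)))) (XT.nd (nat_lit 78) (nat_lit 228) (nat_lit 0) (XT.lf (nat_lit 0) (nat_lit 4272444595089) (nat_lit 76) (nat_lit 4925479756518) (nat_lit 152) (nat_lit 770224276664) (nat_lit 33) (nat_lit 5) (nat_lit 34) (nat_lit 5) (nat_lit 35) (nat_lit 4) (nat_lit 513) (nat_lit 485) (nat_lit 202)) (XT.nd (nat_lit 60294) (nat_lit 0) (nat_lit 2964) (XT.lf (nat_lit 0) (nat_lit 8707782300) (nat_lit 152) (nat_lit 1624269793317) (nat_lit 228) (nat_lit 8858006886529) (nat_lit 30) (nat_lit 5) (nat_lit 32) (nat_lit 5) (nat_lit 33) (nat_lit 5) (nat_lit 514) (nat_lit 485) (nat_lit 201)) (XT.lf (nat_lit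 0) (nat_lit 1395444859797) (nat_lit 532) (nat_lit 63302423024) (nat_lit 532) (nat_lit 63302423024) (nat_lit 69) (nat_lit 3) (nat_lit 76) (nat_lit 3) (nat_lit 76) (nat_lit 5) (nat_lit 486) (nat_lit 486) (nat_lit 228))))))) (XT.nd (nat_lit 858) (nat_lit 1368) (nat_lit 0) (XT.nd (nat_lit 390) (nat_lit 532) (nat_lit 0) (XT.nd (nat_lit 156) (nat_lit 456) (nat_lit 0) (XT.nd (nat_lit 78) (nat_lit 0) (nat_lit 76) (XT.lf (nat_lit 76) (nat_lit 1436935886138) (nat_lit 0) (nat_lit 1500147771487) (nat_lit 532) (nat_lit 226015062590) (nat_lit 70) (nat_lit 5) (nat_lit 69) (nat_lit 3) (nat_lit 76) (nat_lit 5) (nat_lit 487) (nat_lit 486) (nat_lit 227)) (XT.lf (nat_lit 0) (nat_lit 3099260235061) (nat_lit 456) (nat_lit 159406563287) (nat_lit 532) (nat_lit 32608205123) (nat_lit 70) (nat_lit 5) (nat_lit 76) (nat_lit 5) (nat_lit 77) (nat_lit 5) (nat_lit 488) (nat_lit 486) (nat_lit 226))) (XT.nd (nat_lit 78)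 (nat_lit 532) (nat_lit 0) (XT.lf (nat_lit 76) (nat_lit 1572382260430) (nat_lit 0) (nat_lit 1778809386006) (nat_lit 532) (nat_lit 72371286333) (nat_lit 71) (nat_lit 5) (nat_lit 70) (nat_lit 5) (nat_lit 77) (nat_lit 5) (nat_lit 489) (nat_lit 486) (nat_lit 225)) (XT.nd (nat_lit 78) (nat_lit 0) (nat_lit 76) (XT.lf (nat_lit 0) (nat_lit 58471787540) (nat_lit 532) (nat_lit 115785736092) (nat_lit 608) (nat_lit 3391709272318) (nat_lit 63) (nat_lit 5) (nat_lit 70) (nat_lit 5) (nat_lit 71) (nat_lit 5) (nat_lit 490) (nat_lit 486) (nat_lit 224)) (XT.lf (nat_lit 0) (nat_lit 279031938530) (nat_lit 532) (nat_lit 1905686244663) (nat_lit 608) (nat_lit 1528241638263) (nat_lit 64) (nat_lit 5) (nat_lit 71) (nat_lit 5) (nat_lit 72) (nat_lit 5) (nat_lit 491) (nat_lit 486) (nat_lit 223))))) (XT.nd (nat_lit 234) (nat_lit 228) (nat_lit 0) (XT.nd (nat_lit 78) (nat_lit 380) (nat_lit 0) (XT.lf (nat_lit 76) (nat_lit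 15468863160) (nat_lit 0) (nat_lit 509914249354) (nat_lit 608) (nat_lit 3345677479617) (nat_lit 65) (nat_lit 5) (nat_lit 64) (nat_lit 5) (nat_lit 72) (nat_lit 5) (nat_lit 492) (nat_lit 486) (nat_lit 222)) (XT.nd (nat_lit 78) (nat_lit 456) (nat_lit 0) (XT.lf (nat_lit 0) (nat_lit 876138542387) (nat_lit 532) (nat_lit 1871537916228) (nat_lit 76) (nat_lit 1287357272885) (nat_lit 65) (nat_lit 5) (nat_lit 72) (nat_lit 5) (nat_lit 66) (nat_lit 5) (nat_lit 493) (nat_lit 486) (nat_lit 221)) (XT.lf (nat_lit 0) (nat_lit 271581270195) (nat_lit 456) (nat_lit 1003149198041) (nat_lit 532) (nat_lit 2935812168858) (nat_lit 59) (nat_lit 5) (nat_lit 65) (nat_lit 5) (nat_lit 66) (nat_lit 5) (nat_lit 494) (nat_lit 486) (nat_lit 220)))) (XT.nd (nat_lit 78) (nat_lit 228) (nat_lit 0) (XT.lf (nat_lit 0) (nat_lit 1778896666171) (nat_lit 532) (nat_lit 1725928306534) (nat_lit 76) (nat_lit 889372328989) (nat_lit 59)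 (nat_lit 5) (nat_lit 66) (nat_lit 5) (nat_lit 60) (nat_lit 5) (nat_lit 495) (nat_lit 486) (nat_lit 219)) (XT.nd (nat_lit 78) (nat_lit 0) (nat_lit 0) (XT.lf (nat_lit 0) (nat_lit 671692346456) (nat_lit 228) (nat_lit 1693913853500) (nat_lit 304) (nat_lit 2223561336305) (nat_lit 56) (nat_lit 5) (nat_lit 59) (nat_lit 5) (nat_lit 60) (nat_lit 5) (nat_lit 496) (nat_lit 486) (nat_lit 218)) (XT.lf (nat_lit 0) (nat_lit 3053966130797) (nat_lit 304) (nat_lit 1444206167386) (nat_lit 76) (nat_lit 297186000663) (nat_lit 56) (nat_lit 5) (nat_lit 60) (nat_lit 5) (nat_lit 57) (nat_lit 5) (nat_lit 497) (nat_lit 486) (nat_lit 217)))))) (XT.nd (nat_lit 468) (nat_lit 532) (nat_lit 0) (XT.nd (nat_lit 234) (nat_lit 380) (nat_lit 0) (XT.nd (nat_lit 78) (nat_lit 228) (nat_lit 0) (XT.lf (nat_lit 0) (nat_lit 1245217433161) (nat_lit 228) (nat_lit 2626122694238) (nat_lit 304) (nat_lit 1140788573334) (nat_lit 53) (nat_lit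 5) (nat_lit 56) (nat_lit 5) (nat_lit 57) (nat_lit 5) (nat_lit 498) (nat_lit 486) (nat_lit 216)) (XT.nd (nat_lit 78) (nat_lit 228) (nat_lit 0) (XT.lf (nat_lit 0) (nat_lit 4231928205774) (nat_lit 228) (nat_lit 561662993592) (nat_lit 304) (nat_lit 449490562955) (nat_lit 53) (nat_lit 5) (nat_lit 56) (nat_lit 5) (nat_lit 57) (nat_lit 5) (nat_lit 499) (nat_lit 486) (nat_lit 215)) (XT.lf (nat_lit 0) (nat_lit 373403542775) (nat_lit 228) (nat_lit 3468541614616) (nat_lit 76) (nat_lit 1642701871597) (nat_lit 50) (nat_lit 5) (nat_lit 53) (nat_lit 5) (nat_lit 51) (nat_lit 5) (nat_lit 500) (nat_lit 486) (nat_lit 214)))) (XT.nd (nat_lit 78) (nat_lit 380) (nat_lit 0) (XT.lf (nat_lit 0) (nat_lit 1280798487408) (nat_lit 228) (nat_lit 427257302914) (nat_lit 76) (nat_lit 4033111442229) (nat_lit 50) (nat_lit 5) (nat_lit 53) (nat_lit 5) (nat_lit 51) (nat_lit 5) (nat_lit 501) (nat_lit 486) (nat_lit 213)) (XT.nd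 (nat_lit 78) (nat_lit 152) (nat_lit 0) (XT.lf (nat_lit 0) (nat_lit 2349348299569) (nat_lit 304) (nat_lit 3020856191031) (nat_lit 76) (nat_lit 640919500042) (nat_lit 47) (nat_lit 5) (nat_lit 51) (nat_lit 5) (nat_lit 48) (nat_lit 5) (nat_lit 502) (nat_lit 486) (nat_lit 212)) (XT.lf (nat_lit 0) (nat_lit 377990796960) (nat_lit 152) (nat_lit 3190832472358) (nat_lit 228) (nat_lit 2728618726253) (nat_lit 45) (nat_lit 5) (nat_lit 47) (nat_lit 5) (nat_lit 48) (nat_lit 5) (nat_lit 503) (nat_lit 486) (nat_lit 211))))) (XT.nd (nat_lit 234) (nat_lit 304) (nat_lit 0) (XT.nd (nat_lit 78) (nat_lit 228) (nat_lit 0) (XT.lf (nat_lit 0) (nat_lit 4220544311918) (nat_lit 152) (nat_lit 747907486149) (nat_lit 228) (nat_lit 1631605997913) (nat_lit 45) (nat_lit 5) (nat_lit 47) (nat_lit 5) (nat_lit 48) (nat_lit 5) (nat_lit 504) (nat_lit 486) (nat_lit 210)) (XT.nd (nat_lit 78) (nat_lit 76) (nat_lit 0) (XT.lf (nat_lit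 0) (nat_lit 1471778146923) (nat_lit 152) (nat_lit 5089134165797) (nat_lit 228) (nat_lit 359501611416) (nat_lit 43) (nat_lit 5) (nat_lit 45) (nat_lit 5) (nat_lit 46) (nat_lit 5) (nat_lit 505) (nat_lit 486) (nat_lit 209)) (XT.lf (nat_lit 0) (nat_lit 1049804330927) (nat_lit 228) (nat_lit 1540207276582) (nat_lit 76) (nat_lit 4667541190486) (nat_lit 42) (nat_lit 5) (nat_lit 45) (nat_lit 5) (nat_lit 43) (nat_lit 5) (nat_lit 506) (nat_lit 486) (nat_lit 208)))) (XT.nd (nat_lit 78) (nat_lit 152) (nat_lit 0) (XT.lf (nat_lit 0) (nat_lit 2624688405953) (nat_lit 228) (nat_lit 4807889424141) (nat_lit 76) (nat_lit 182557448772) (nat_lit 40) (nat_lit 5) (nat_lit 43) (nat_lit 5) (nat_lit 41) (nat_lit 5) (nat_lit 507) (nat_lit 486) (nat_lit 207)) (XT.nd (nat_lit 78) (nat_lit 152) (nat_lit 0) (XT.lf (nat_lit 0) (nat_lit 4436042050044) (nat_lit 228) (nat_lit 476234056591) (nat_lit 76) (nat_lit 3080209944127)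 (nat_lit 40) (nat_lit 5) (nat_lit 43) (nat_lit 5) (nat_lit 41) (nat_lit 5) (nat_lit 508) (nat_lit 486) (nat_lit 206)) (XT.lf (nat_lit 0) (nat_lit 4423221177501) (nat_lit 152) (nat_lit 2075461383659) (nat_lit 228) (nat_lit 1892832037209) (nat_lit 38) (nat_lit 5) (nat_lit 40) (nat_lit 5) (nat_lit 41) (nat_lit 5) (nat_lit 509) (nat_lit 486) (nat_lit 205))))))))
noncomputable def xc248 : XT := (XT.nd (nat_lit 62010) (nat_lit 0) (nat_lit 76) (XT.nd (nat_lit 61152) (nat_lit 0) (nat_lit 1064) (XT.nd (nat_lit 60684) (nat_lit 0) (nat_lit 2280) (XT.nd (nat_lit 156) (nat_lit 228) (nat_lit 0) (XT.nd (nat_lit 78) (nat_lit 76) (nat_lit 0) (XT.lf (nat_lit 0) (nat_lit 943377699830) (nat_lit 76) (nat_lit 7842772765633) (nat_lit 152) (nat_lit 31529672139) (nat_lit 37) (nat_lit 5) (nat_lit 38) (nat_lit 5) (nat_lit 39) (nat_lit 4) (nat_lit 510) (nat_lit 486) (nat_lit 204)) (XT.lf (nat_lit 0) (nat_lit 2044921899394)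 (nat_lit 152) (nat_lit 2899909533932) (nat_lit 76) (nat_lit 4316082392632) (nat_lit 36) (nat_lit 5) (nat_lit 38) (nat_lit 5) (nat_lit 37) (nat_lit 5) (nat_lit 511) (nat_lit 486) (nat_lit 203))) (XT.nd (nat_lit 78) (nat_lit 76) (nat_lit 0) (XT.lf (nat_lit 0) (nat_lit 2601766759945) (nat_lit 152) (nat_lit 1746591968427) (nat_lit 228) (nat_lit 5386176160570) (nat_lit 34) (nat_lit 5) (nat_lit 36) (nat_lit 5) (nat_lit 37) (nat_lit 5) (nat_lit 512) (nat_lit 486) (nat_lit 202)) (XT.nd (nat_lit 78) (nat_lit 76) (nat_lit 0) (XT.lf (nat_lit 0) (nat_lit 6958484191183) (nat_lit 228) (nat_lit 1574329983888) (nat_lit 76) (nat_lit 1703438366893) (nat_lit 34) (nat_lit 5) (nat_lit 37) (nat_lit 5) (nat_lit 35) (nat_lit 4) (nat_lit 513) (nat_lit 486) (nat_lit 201)) (XT.lf (nat_lit 0) (nat_lit 4614240168404) (nat_lit 76) (nat_lit 5319518134629) (nat_lit 152) (nat_lit 831842215236) (nat_lit 33) (nat_lit 5)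 (nat_lit 34) (nat_lit 5) (nat_lit 35) (nat_lit 4) (nat_lit 514) (nat_lit 486) (nat_lit 200))))) (XT.nd (nat_lit 234) (nat_lit 456) (nat_lit 0) (XT.nd (nat_lit 78) (nat_lit 0) (nat_lit 0) (XT.lf (nat_lit 0) (nat_lit 1507080455048) (nat_lit 532) (nat_lit 68366613371) (nat_lit 532) (nat_lit 68366613371) (nat_lit 69) (nat_lit 3) (nat_lit 76) (nat_lit 3) (nat_lit 76) (nat_lit 5) (nat_lit 487) (nat_lit 487) (nat_lit 226)) (XT.nd (nat_lit 78) (nat_lit 0) (nat_lit 76) (XT.lf (nat_lit 76) (nat_lit 1551890763842) (nat_lit 0) (nat_lit 1620159598535) (nat_lit 532) (nat_lit 244096254476) (nat_lit 70) (nat_lit 5) (nat_lit 69) (nat_lit 3) (nat_lit 76) (nat_lit 5) (nat_lit 488) (nat_lit 487) (nat_lit 225)) (XT.lf (nat_lit 0) (nat_lit 3347201064989) (nat_lit 456) (nat_lit 172159081016) (nat_lit 532) (nat_lit 35216856846) (nat_lit 70) (nat_lit 5) (nat_lit 76) (nat_lit 5) (nat_lit 77) (nat_lit 5) (nat_lit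 489) (nat_lit 487) (nat_lit 224)))) (XT.nd (nat_lit 78) (nat_lit 532) (nat_lit 0) (XT.lf (nat_lit 76) (nat_lit 1698172848413) (nat_lit 0) (nat_lit 1921114140210) (nat_lit 532) (nat_lit 78160977924) (nat_lit 71) (nat_lit 5) (nat_lit 70) (nat_lit 5) (nat_lit 77) (nat_lit 5) (nat_lit 490) (nat_lit 487) (nat_lit 223)) (XT.nd (nat_lit 78) (nat_lit 0) (nat_lit 76) (XT.lf (nat_lit 0) (nat_lit 63149540497) (nat_lit 532) (nat_lit 125048587831) (nat_lit 608) (nat_lit 3663046010497) (nat_lit 63) (nat_lit 5) (nat_lit 70) (nat_lit 5) (nat_lit 71) (nat_lit 5) (nat_lit 491) (nat_lit 487) (nat_lit 222)) (XT.lf (nat_lit 0) (nat_lit 301354502939) (nat_lit 532) (nat_lit 2058141136454) (nat_lit 608) (nat_lit 1650500967028) (nat_lit 64) (nat_lit 5) (nat_lit 71) (nat_lit 5) (nat_lit 72) (nat_lit 5) (nat_lit 492) (nat_lit 487) (nat_lit 221)))))) (XT.nd (nat_lit 390) (nat_lit 684) (nat_lit 0) (XT.nd (nat_lit 156)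 (nat_lit 608) (nat_lit 0) (XT.nd (nat_lit 78) (nat_lit 0) (nat_lit 76) (XT.lf (nat_lit 76) (nat_lit 16706379798) (nat_lit 0) (nat_lit 550707390535) (nat_lit 608) (nat_lit 3613331668458) (nat_lit 65) (nat_lit 5) (nat_lit 64) (nat_lit 5) (nat_lit 72) (nat_lit 5) (nat_lit 493) (nat_lit 487) (nat_lit 220)) (XT.lf (nat_lit 0) (nat_lit 946229633915) (nat_lit 532) (nat_lit 2021260941818) (nat_lit 76) (nat_lit 1390345853632) (nat_lit 65) (nat_lit 5) (nat_lit 72) (nat_lit 5) (nat_lit 66) (nat_lit 5) (nat_lit 494) (nat_lit 487) (nat_lit 219))) (XT.nd (nat_lit 78) (nat_lit 228) (nat_lit 0) (XT.lf (nat_lit 0) (nat_lit 293307779324) (nat_lit 456) (nat_lit 1083401134086) (nat_lit 532) (nat_lit 3170677134030) (nat_lit 59) (nat_lit 5) (nat_lit 65) (nat_lit 5) (nat_lit 66) (nat_lit 5) (nat_lit 495) (nat_lit 487) (nat_lit 218)) (XT.nd (nat_lit 78) (nat_lit 228) (nat_lit 0) (XT.lf (nat_lit 0) (nat_lit 1921208406604)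 (nat_lit 532) (nat_lit 1864002563520) (nat_lit 76) (nat_lit 960522115131) (nat_lit 59) (nat_lit 5) (nat_lit 66) (nat_lit 5) (nat_lit 60) (nat_lit 5) (nat_lit 496) (nat_lit 487) (nat_lit 217)) (XT.lf (nat_lit 0) (nat_lit 725427741519) (nat_lit 228) (nat_lit 1829426961221) (nat_lit 304) (nat_lit 2401446235876) (nat_lit 56) (nat_lit 5) (nat_lit 59) (nat_lit 5) (nat_lit 60) (nat_lit 5) (nat_lit 497) (nat_lit 487) (nat_lit 216))))) (XT.nd (nat_lit 234) (nat_lit 456) (nat_lit 0) (XT.nd (nat_lit 78) (nat_lit 228) (nat_lit 0) (XT.lf (nat_lit 0) (nat_lit 3298283427557) (nat_lit 304) (nat_lit 1559742653481) (nat_lit 76) (nat_lit 320960881208) (nat_lit 56) (nat_lit 5) (nat_lit 60) (nat_lit 5) (nat_lit 57) (nat_lit 5) (nat_lit 498) (nat_lit 487) (nat_lit 215)) (XT.nd (nat_lit 78) (nat_lit 0) (nat_lit 0) (XT.lf (nat_lit 0) (nat_lit 1344834834925) (nat_lit 228) (nat_lit 2836212508667) (nat_lit 304) (nat_lit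 1232051652717) (nat_lit 53) (nat_lit 5) (nat_lit 56) (nat_lit 5) (nat_lit 57) (nat_lit 5) (nat_lit 499) (nat_lit 487) (nat_lit 214)) (XT.lf (nat_lit 0) (nat_lit 4570482468820) (nat_lit 228) (nat_lit 606596032051) (nat_lit 304) (nat_lit 485449801987) (nat_lit 53) (nat_lit 5) (nat_lit 56) (nat_lit 5) (nat_lit 57) (nat_lit 5) (nat_lit 500) (nat_lit 487) (nat_lit 213)))) (XT.nd (nat_lit 78) (nat_lit 228) (nat_lit 0) (XT.lf (nat_lit 0) (nat_lit 403275831671) (nat_lit 228) (nat_lit 3746024936665) (nat_lit 76) (nat_lit 1774118022531) (nat_lit 50) (nat_lit 5) (nat_lit 53) (nat_lit 5) (nat_lit 51) (nat_lit 5) (nat_lit 501) (nat_lit 487) (nat_lit 212)) (XT.nd (nat_lit 78) (nat_lit 228) (nat_lit 0) (XT.lf (nat_lit 0) (nat_lit 1383262371469) (nat_lit 228) (nat_lit 461437880554) (nat_lit 76) (nat_lit 4355760358724) (nat_lit 50) (nat_lit 5) (nat_lit 53) (nat_lit 5) (nat_lit 51) (nat_lit 5) (nat_lit 502)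 (nat_lit 487) (nat_lit 211)) (XT.lf (nat_lit 0) (nat_lit 2537296168419) (nat_lit 304) (nat_lit 3262524679536) (nat_lit 76) (nat_lit 692193061545) (nat_lit 47) (nat_lit 5) (nat_lit 51) (nat_lit 5) (nat_lit 48) (nat_lit 5) (nat_lit 503) (nat_lit 487) (nat_lit 210))))))) (XT.nd (nat_lit 61230) (nat_lit 0) (nat_lit 1672) (XT.nd (nat_lit 390) (nat_lit 456) (nat_lit 0) (XT.nd (nat_lit 156) (nat_lit 380) (nat_lit 0) (XT.nd (nat_lit 78) (nat_lit 0) (nat_lit 0) (XT.lf (nat_lit 0) (nat_lit 408230067323) (nat_lit 152) (nat_lit 3446099068222) (nat_lit 228) (nat_lit 2946908219294) (nat_lit 45) (nat_lit 5) (nat_lit 47) (nat_lit 5) (nat_lit 48) (nat_lit 5) (nat_lit 504) (nat_lit 487) (nat_lit 209)) (XT.lf (nat_lit 0) (nat_lit 4558187862989) (nat_lit 152) (nat_lit 807740083260) (nat_lit 228) (nat_lit 1762134473063) (nat_lit 45) (nat_lit 5) (nat_lit 47) (nat_lit 5) (nat_lit 48) (nat_lit 5) (nat_lit 505)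 (nat_lit 487) (nat_lit 208))) (XT.nd (nat_lit 78) (nat_lit 228) (nat_lit 0) (XT.lf (nat_lit 0) (nat_lit 1589520404937) (nat_lit 152) (nat_lit 5496264897005) (nat_lit 228) (nat_lit 388261735787) (nat_lit 43) (nat_lit 5) (nat_lit 45) (nat_lit 5) (nat_lit 46) (nat_lit 5) (nat_lit 506) (nat_lit 487) (nat_lit 207)) (XT.nd (nat_lit 78) (nat_lit 152) (nat_lit 0) (XT.lf (nat_lit 0) (nat_lit 1133788681397) (nat_lit 228) (nat_lit 1663423852700) (nat_lit 76) (nat_lit 5040944487417) (nat_lit 42) (nat_lit 5) (nat_lit 45) (nat_lit 5) (nat_lit 43) (nat_lit 5) (nat_lit 507) (nat_lit 487) (nat_lit 206)) (XT.lf (nat_lit 0) (nat_lit 2834663482318) (nat_lit 228) (nat_lit 5192520571956) (nat_lit 76) (nat_lit 197162046588) (nat_lit 40) (nat_lit 5) (nat_lit 43) (nat_lit 5) (nat_lit 41) (nat_lit 5) (nat_lit 508) (nat_lit 487) (nat_lit 205))))) (XT.nd (nat_lit 234) (nat_lit 228) (nat_lit 0) (XT.nd (nat_lit 78)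 (nat_lit 228) (nat_lit 0) (XT.lf (nat_lit 0) (nat_lit 4790925417648) (nat_lit 228) (nat_lit 514332775455) (nat_lit 76) (nat_lit 3326626741430) (nat_lit 40) (nat_lit 5) (nat_lit 43) (nat_lit 5) (nat_lit 41) (nat_lit 5) (nat_lit 509) (nat_lit 487) (nat_lit 204)) (XT.nd (nat_lit 78) (nat_lit 76) (nat_lit 0) (XT.lf (nat_lit 0) (nat_lit 4777078877221) (nat_lit 152) (nat_lit 2241498292299) (nat_lit 228) (nat_lit 2044258596441) (nat_lit 38) (nat_lit 5) (nat_lit 40) (nat_lit 5) (nat_lit 41) (nat_lit 5) (nat_lit 510) (nat_lit 487) (nat_lit 203)) (XT.lf (nat_lit 0) (nat_lit 1018847921420) (nat_lit 76) (nat_lit 8470194584670) (nat_lit 152) (nat_lit 34052042248) (nat_lit 37) (nat_lit 5) (nat_lit 38) (nat_lit 5) (nat_lit 39) (nat_lit 4) (nat_lit 511) (nat_lit 487) (nat_lit 202)))) (XT.nd (nat_lit 78) (nat_lit 152) (nat_lit 0) (XT.lf (nat_lit 0) (nat_lit 2208515654567) (nat_lit 152) (nat_lit 3131902291288)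 (nat_lit 76) (nat_lit 4661368985921) (nat_lit 36) (nat_lit 5) (nat_lit 38) (nat_lit 5) (nat_lit 37) (nat_lit 5) (nat_lit 512) (nat_lit 487) (nat_lit 201)) (XT.nd (nat_lit 78) (nat_lit 0) (nat_lit 0) (XT.lf (nat_lit 0) (nat_lit 2809908105964) (nat_lit 152) (nat_lit 1886319323787) (nat_lit 228) (nat_lit 5817070250057) (nat_lit 34) (nat_lit 5) (nat_lit 36) (nat_lit 5) (nat_lit 37) (nat_lit 5) (nat_lit 513) (nat_lit 487) (nat_lit 200)) (XT.lf (nat_lit 0) (nat_lit 7515162929404) (nat_lit 228) (nat_lit 1700276377579) (nat_lit 76) (nat_lit 1839713438105) (nat_lit 34) (nat_lit 5) (nat_lit 37) (nat_lit 5) (nat_lit 35) (nat_lit 4) (nat_lit 514) (nat_lit 487) (nat_lit 199)))))) (XT.nd (nat_lit 468) (nat_lit 532) (nat_lit 0) (XT.nd (nat_lit 234) (nat_lit 456) (nat_lit 0) (XT.nd (nat_lit 78) (nat_lit 0) (nat_lit 0) (XT.lf (nat_lit 0) (nat_lit 1627646896998) (nat_lit 532) (nat_lit 73835939444) (nat_lit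 532) (nat_lit 73835939444) (nat_lit 69) (nat_lit 3) (nat_lit 76) (nat_lit 3) (nat_lit 76) (nat_lit 5) (nat_lit 488) (nat_lit 488) (nat_lit 224)) (XT.nd (nat_lit 78) (nat_lit 0) (nat_lit 76) (XT.lf (nat_lit 76) (nat_lit 1676042030790) (nat_lit 0) (nat_lit 1749772370986) (nat_lit 532) (nat_lit 263623943585) (nat_lit 70) (nat_lit 5) (nat_lit 69) (nat_lit 3) (nat_lit 76) (nat_lit 5) (nat_lit 489) (nat_lit 488) (nat_lit 223)) (XT.lf (nat_lit 0) (nat_lit 3614977159725) (nat_lit 456) (nat_lit 185931801210) (nat_lit 532) (nat_lit 38034201375) (nat_lit 70) (nat_lit 5) (nat_lit 76) (nat_lit 5) (nat_lit 77) (nat_lit 5) (nat_lit 490) (nat_lit 488) (nat_lit 222)))) (XT.nd (nat_lit 78) (nat_lit 532) (nat_lit 0) (XT.lf (nat_lit 76) (nat_lit 1834026682414) (nat_lit 0) (nat_lit 2074803274276) (nat_lit 532) (nat_lit 84413846456) (nat_lit 71) (nat_lit 5) (nat_lit 70) (nat_lit 5) (nat_lit 77) (nat_lit 5) (nat_lit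 491) (nat_lit 488) (nat_lit 221)) (XT.nd (nat_lit 78) (nat_lit 0) (nat_lit 76) (XT.lf (nat_lit 0) (nat_lit 68201512270) (nat_lit 532) (nat_lit 135052468728) (nat_lit 608) (nat_lit 3956089688244) (nat_lit 63) (nat_lit 5) (nat_lit 70) (nat_lit 5) (nat_lit 71) (nat_lit 5) (nat_lit 492) (nat_lit 488) (nat_lit 220)) (XT.lf (nat_lit 0) (nat_lit 325462871170) (nat_lit 532) (nat_lit 2222792420698) (nat_lit 608) (nat_lit 1782541042423) (nat_lit 64) (nat_lit 5) (nat_lit 71) (nat_lit 5) (nat_lit 72) (nat_lit 5) (nat_lit 493) (nat_lit 488) (nat_lit 219))))) (XT.nd (nat_lit 234) (nat_lit 228) (nat_lit 0) (XT.nd (nat_lit 78) (nat_lit 380) (nat_lit 0) (XT.lf (nat_lit 76) (nat_lit 18042896685) (nat_lit 0) (nat_lit 594763982834) (nat_lit 608) (nat_lit 3902398193766) (nat_lit 65) (nat_lit 5) (nat_lit 64) (nat_lit 5) (nat_lit 72) (nat_lit 5) (nat_lit 494) (nat_lit 488) (nat_lit 218)) (XT.nd (nat_lit 78) (nat_lit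 456) (nat_lit 0) (XT.lf (nat_lit 0) (nat_lit 1021928011605) (nat_lit 532) (nat_lit 2182961810554) (nat_lit 76) (nat_lit 1501573520993) (nat_lit 65) (nat_lit 5) (nat_lit 72) (nat_lit 5) (nat_lit 66) (nat_lit 5) (nat_lit 495) (nat_lit 488) (nat_lit 217)) (XT.lf (nat_lit 0) (nat_lit 316772408112) (nat_lit 456) (nat_lit 1170073224986) (nat_lit 532) (nat_lit 3424331297605) (nat_lit 59) (nat_lit 5) (nat_lit 65) (nat_lit 5) (nat_lit 66) (nat_lit 5) (nat_lit 496) (nat_lit 488) (nat_lit 216)))) (XT.nd (nat_lit 78) (nat_lit 228) (nat_lit 0) (XT.lf (nat_lit 0) (nat_lit 2074905085253) (nat_lit 532) (nat_lit 2013122762140) (nat_lit 76) (nat_lit 1037363884189) (nat_lit 59) (nat_lit 5) (nat_lit 66) (nat_lit 5) (nat_lit 60) (nat_lit 5) (nat_lit 497) (nat_lit 488) (nat_lit 215)) (XT.nd (nat_lit 78) (nat_lit 0) (nat_lit 0) (XT.lf (nat_lit 0) (nat_lit 783461967138) (nat_lit 228) (nat_lit 1975781117639) (nat_lit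 304) (nat_lit 2593561928459) (nat_lit 56) (nat_lit 5) (nat_lit 59) (nat_lit 5) (nat_lit 60) (nat_lit 5) (nat_lit 498) (nat_lit 488) (nat_lit 214)) (XT.lf (nat_lit 0) (nat_lit 3562146107160) (nat_lit 304) (nat_lit 1684522059505) (nat_lit 76) (nat_lit 346637752126) (nat_lit 56) (nat_lit 5) (nat_lit 60) (nat_lit 5) (nat_lit 57) (nat_lit 5) (nat_lit 499) (nat_lit 488) (nat_lit 213))))))))
noncomputable def xc249 : XT := (XT.nd (nat_lit 62166) (nat_lit 0) (nat_lit 152) (XT.nd (nat_lit 858) (nat_lit 456) (nat_lit 0) (XT.nd (nat_lit 390) (nat_lit 532) (nat_lit 0) (XT.nd (nat_lit 156) (nat_lit 456) (nat_lit 0) (XT.nd (nat_lit 78) (nat_lit 0) (nat_lit 0) (XT.lf (nat_lit 0) (nat_lit 1452421627815) (nat_lit 228) (nat_lit 3063109508409) (nat_lit 304) (nat_lit 1330615779375) (nat_lit 53) (nat_lit 5) (nat_lit 56) (nat_lit 5) (nat_lit 57) (nat_lit 5) (nat_lit 500) (nat_lit 488) (nat_lit 212)) (XT.lf (nat_lit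 0) (nat_lit 4936121071971) (nat_lit 228) (nat_lit 655123713735) (nat_lit 304) (nat_lit 524285780999) (nat_lit 53) (nat_lit 5) (nat_lit 56) (nat_lit 5) (nat_lit 57) (nat_lit 5) (nat_lit 501) (nat_lit 488) (nat_lit 211))) (XT.nd (nat_lit 78) (nat_lit 228) (nat_lit 0) (XT.lf (nat_lit 0) (nat_lit 435537902897) (nat_lit 228) (nat_lit 4045706925494) (nat_lit 76) (nat_lit 1916047465368) (nat_lit 50) (nat_lit 5) (nat_lit 53) (nat_lit 5) (nat_lit 51) (nat_lit 5) (nat_lit 502) (nat_lit 488) (nat_lit 210)) (XT.nd (nat_lit 78) (nat_lit 228) (nat_lit 0) (XT.lf (nat_lit 0) (nat_lit 1493923365531) (nat_lit 228) (nat_lit 498352905346) (nat_lit 76) (nat_lit 4704221188380) (nat_lit 50) (nat_lit 5) (nat_lit 53) (nat_lit 5) (nat_lit 51) (nat_lit 5) (nat_lit 503) (nat_lit 488) (nat_lit 209)) (XT.lf (nat_lit 0) (nat_lit 2740279866081) (nat_lit 304) (nat_lit 3523526648088) (nat_lit 76) (nat_lit 747568507754)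 (nat_lit 47) (nat_lit 5) (nat_lit 51) (nat_lit 5) (nat_lit 48) (nat_lit 5) (nat_lit 504) (nat_lit 488) (nat_lit 208))))) (XT.nd (nat_lit 234) (nat_lit 228) (nat_lit 0) (XT.nd (nat_lit 78) (nat_lit 152) (nat_lit 0) (XT.lf (nat_lit 0) (nat_lit 440888478373) (nat_lit 152) (nat_lit 3721786992031) (nat_lit 228) (nat_lit 3182660872501) (nat_lit 45) (nat_lit 5) (nat_lit 47) (nat_lit 5) (nat_lit 48) (nat_lit 5) (nat_lit 505) (nat_lit 488) (nat_lit 207)) (XT.nd (nat_lit 78) (nat_lit 152) (nat_lit 0) (XT.lf (nat_lit 0) (nat_lit 4922842897272) (nat_lit 152) (nat_lit 872359288393) (nat_lit 228) (nat_lit 1903105226892) (nat_lit 45) (nat_lit 5) (nat_lit 47) (nat_lit 5) (nat_lit 48) (nat_lit 5) (nat_lit 506) (nat_lit 488) (nat_lit 206)) (XT.lf (nat_lit 0) (nat_lit 1716682042699) (nat_lit 152) (nat_lit 5935966087003) (nat_lit 228) (nat_lit 419322670755) (nat_lit 43) (nat_lit 5) (nat_lit 45) (nat_lit 5)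 (nat_lit 46) (nat_lit 5) (nat_lit 507) (nat_lit 488) (nat_lit 205)))) (XT.nd (nat_lit 78) (nat_lit 152) (nat_lit 0) (XT.lf (nat_lit 0) (nat_lit 1224491779334) (nat_lit 228) (nat_lit 1796497755765) (nat_lit 76) (nat_lit 5444220047861) (nat_lit 42) (nat_lit 5) (nat_lit 45) (nat_lit 5) (nat_lit 43) (nat_lit 5) (nat_lit 508) (nat_lit 488) (nat_lit 204)) (XT.nd (nat_lit 78) (nat_lit 0) (nat_lit 0) (XT.lf (nat_lit 0) (nat_lit 3061436564237) (nat_lit 228) (nat_lit 5607922212469) (nat_lit 76) (nat_lit 212935011957) (nat_lit 40) (nat_lit 5) (nat_lit 43) (nat_lit 5) (nat_lit 41) (nat_lit 5) (nat_lit 509) (nat_lit 488) (nat_lit 203)) (XT.lf (nat_lit 0) (nat_lit 5174199454147) (nat_lit 228) (nat_lit 555479392636) (nat_lit 76) (nat_lit 3592756882265) (nat_lit 40) (nat_lit 5) (nat_lit 43) (nat_lit 5) (nat_lit 41) (nat_lit 5) (nat_lit 510) (nat_lit 488) (nat_lit 202)))))) (XT.nd (nat_lit 60840) (nat_lit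 0) (nat_lit 2204) (XT.nd (nat_lit 156) (nat_lit 228) (nat_lit 0) (XT.nd (nat_lit 78) (nat_lit 76) (nat_lit 0) (XT.lf (nat_lit 0) (nat_lit 5159245192131) (nat_lit 152) (nat_lit 2420818153923) (nat_lit 228) (nat_lit 2207799280945) (nat_lit 38) (nat_lit 5) (nat_lit 40) (nat_lit 5) (nat_lit 41) (nat_lit 5) (nat_lit 511) (nat_lit 488) (nat_lit 201)) (XT.lf (nat_lit 0) (nat_lit 1100355759938) (nat_lit 76) (nat_lit 9147810149547) (nat_lit 152) (nat_lit 36776202487) (nat_lit 37) (nat_lit 5) (nat_lit 38) (nat_lit 5) (nat_lit 39) (nat_lit 4) (nat_lit 512) (nat_lit 488) (nat_lit 200))) (XT.nd (nat_lit 78) (nat_lit 152) (nat_lit 0) (XT.lf (nat_lit 0) (nat_lit 2385196909695) (nat_lit 152) (nat_lit 3382454469996) (nat_lit 76) (nat_lit 5034278506405) (nat_lit 36) (nat_lit 5) (nat_lit 38) (nat_lit 5) (nat_lit 37) (nat_lit 5) (nat_lit 513) (nat_lit 488) (nat_lit 199)) (XT.nd (nat_lit 60528) (nat_lit 0)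 (nat_lit 2660) (XT.lf (nat_lit 0) (nat_lit 3034700758920) (nat_lit 152) (nat_lit 2037224867877) (nat_lit 228) (nat_lit 6282435867183) (nat_lit 34) (nat_lit 5) (nat_lit 36) (nat_lit 5) (nat_lit 37) (nat_lit 5) (nat_lit 514) (nat_lit 488) (nat_lit 198)) (XT.lf (nat_lit 0) (nat_lit 1757858653512) (nat_lit 532) (nat_lit 79742812031) (nat_lit 532) (nat_lit 79742812031) (nat_lit 69) (nat_lit 3) (nat_lit 76) (nat_lit 3) (nat_lit 76) (nat_lit 5) (nat_lit 489) (nat_lit 489) (nat_lit 222))))) (XT.nd (nat_lit 234) (nat_lit 456) (nat_lit 0) (XT.nd (nat_lit 78) (nat_lit 0) (nat_lit 76) (XT.lf (nat_lit 76) (nat_lit 1810125398261) (nat_lit 0) (nat_lit 1889754164582) (nat_lit 532) (nat_lit 284713849427) (nat_lit 70) (nat_lit 5) (nat_lit 69) (nat_lit 3) (nat_lit 76) (nat_lit 5) (nat_lit 490) (nat_lit 489) (nat_lit 221)) (XT.nd (nat_lit 78) (nat_lit 0) (nat_lit 0) (XT.lf (nat_lit 0) (nat_lit 3904175340680)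 (nat_lit 456) (nat_lit 200806339917) (nat_lit 532) (nat_lit 41076934039) (nat_lit 70) (nat_lit 5) (nat_lit 76) (nat_lit 5) (nat_lit 77) (nat_lit 5) (nat_lit 491) (nat_lit 489) (nat_lit 220)) (XT.lf (nat_lit 76) (nat_lit 1980748822261) (nat_lit 0) (nat_lit 2240787538661) (nat_lit 532) (nat_lit 91166945854) (nat_lit 71) (nat_lit 5) (nat_lit 70) (nat_lit 5) (nat_lit 77) (nat_lit 5) (nat_lit 492) (nat_lit 489) (nat_lit 219)))) (XT.nd (nat_lit 78) (nat_lit 0) (nat_lit 76) (XT.lf (nat_lit 0) (nat_lit 73657640568) (nat_lit 532) (nat_lit 145856660972) (nat_lit 608) (nat_lit 4272576860651) (nat_lit 63) (nat_lit 5) (nat_lit 70) (nat_lit 5) (nat_lit 71) (nat_lit 5) (nat_lit 493) (nat_lit 489) (nat_lit 218)) (XT.nd (nat_lit 78) (nat_lit 0) (nat_lit 0) (XT.lf (nat_lit 0) (nat_lit 351499907718) (nat_lit 532) (nat_lit 2400615808634) (nat_lit 608) (nat_lit 1925144324129) (nat_lit 64) (nat_lit 5) (nat_lit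 71) (nat_lit 5) (nat_lit 72) (nat_lit 5) (nat_lit 494) (nat_lit 489) (nat_lit 217)) (XT.lf (nat_lit 76) (nat_lit 19486333995) (nat_lit 0) (nat_lit 642345102367) (nat_lit 608) (nat_lit 4214590042264) (nat_lit 65) (nat_lit 5) (nat_lit 64) (nat_lit 5) (nat_lit 72) (nat_lit 5) (nat_lit 495) (nat_lit 489) (nat_lit 216))))))) (XT.nd (nat_lit 858) (nat_lit 684) (nat_lit 0) (XT.nd (nat_lit 390) (nat_lit 836) (nat_lit 0) (XT.nd (nat_lit 156) (nat_lit 228) (nat_lit 0) (XT.nd (nat_lit 78) (nat_lit 456) (nat_lit 0) (XT.lf (nat_lit 0) (nat_lit 1103682258514) (nat_lit 532) (nat_lit 2357598749733) (nat_lit 76) (nat_lit 1621699401876) (nat_lit 65) (nat_lit 5) (nat_lit 72) (nat_lit 5) (nat_lit 66) (nat_lit 5) (nat_lit 496) (nat_lit 489) (nat_lit 215)) (XT.lf (nat_lit 0) (nat_lit 342114206283) (nat_lit 456) (nat_lit 1263679083133) (nat_lit 532) (nat_lit 3698277795286) (nat_lit 59) (nat_lit 5) (nat_lit 65)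 (nat_lit 5) (nat_lit 66) (nat_lit 5) (nat_lit 497) (nat_lit 489) (nat_lit 214))) (XT.nd (nat_lit 78) (nat_lit 228) (nat_lit 0) (XT.lf (nat_lit 0) (nat_lit 2240897497320) (nat_lit 532) (nat_lit 2174172577572) (nat_lit 76) (nat_lit 1120352994794) (nat_lit 59) (nat_lit 5) (nat_lit 66) (nat_lit 5) (nat_lit 60) (nat_lit 5) (nat_lit 498) (nat_lit 489) (nat_lit 213)) (XT.nd (nat_lit 78) (nat_lit 0) (nat_lit 0) (XT.lf (nat_lit 0) (nat_lit 846138929909) (nat_lit 228) (nat_lit 2133843606639) (nat_lit 304) (nat_lit 2801046877345) (nat_lit 56) (nat_lit 5) (nat_lit 59) (nat_lit 5) (nat_lit 60) (nat_lit 5) (nat_lit 499) (nat_lit 489) (nat_lit 212)) (XT.lf (nat_lit 0) (nat_lit 3847117800361) (nat_lit 304) (nat_lit 1819283818903) (nat_lit 76) (nat_lit 374368772657) (nat_lit 56) (nat_lit 5) (nat_lit 60) (nat_lit 5) (nat_lit 57) (nat_lit 5) (nat_lit 500) (nat_lit 489) (nat_lit 211))))) (XT.nd (nat_lit 234)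 (nat_lit 380) (nat_lit 0) (XT.nd (nat_lit 78) (nat_lit 228) (nat_lit 0) (XT.lf (nat_lit 0) (nat_lit 1568615363267) (nat_lit 228) (nat_lit 3308158268266) (nat_lit 304) (nat_lit 1437065036958) (nat_lit 53) (nat_lit 5) (nat_lit 56) (nat_lit 5) (nat_lit 57) (nat_lit 5) (nat_lit 501) (nat_lit 489) (nat_lit 210)) (XT.nd (nat_lit 78) (nat_lit 228) (nat_lit 0) (XT.lf (nat_lit 0) (nat_lit 5331010762568) (nat_lit 228) (nat_lit 707533610078) (nat_lit 304) (nat_lit 566228639065) (nat_lit 53) (nat_lit 5) (nat_lit 56) (nat_lit 5) (nat_lit 57) (nat_lit 5) (nat_lit 502) (nat_lit 489) (nat_lit 209)) (XT.lf (nat_lit 0) (nat_lit 470380939152) (nat_lit 228) (nat_lit 4369363474300) (nat_lit 76) (nat_lit 2069331263484) (nat_lit 50) (nat_lit 5) (nat_lit 53) (nat_lit 5) (nat_lit 51) (nat_lit 5) (nat_lit 503) (nat_lit 489) (nat_lit 208)))) (XT.nd (nat_lit 78) (nat_lit 380) (nat_lit 0) (XT.lf (nat_lit 0) (nat_lit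 1613437238498) (nat_lit 228) (nat_lit 538221132928) (nat_lit 76) (nat_lit 5080558884272) (nat_lit 50) (nat_lit 5) (nat_lit 53) (nat_lit 5) (nat_lit 51) (nat_lit 5) (nat_lit 504) (nat_lit 489) (nat_lit 207)) (XT.nd (nat_lit 78) (nat_lit 152) (nat_lit 0) (XT.lf (nat_lit 0) (nat_lit 2959502258958) (nat_lit 304) (nat_lit 3805408774953) (nat_lit 76) (nat_lit 807373989477) (nat_lit 47) (nat_lit 5) (nat_lit 51) (nat_lit 5) (nat_lit 48) (nat_lit 5) (nat_lit 505) (nat_lit 489) (nat_lit 206)) (XT.lf (nat_lit 0) (nat_lit 476159561499) (nat_lit 152) (nat_lit 4019529949979) (nat_lit 228) (nat_lit 3437273738583) (nat_lit 45) (nat_lit 5) (nat_lit 47) (nat_lit 5) (nat_lit 48) (nat_lit 5) (nat_lit 506) (nat_lit 489) (nat_lit 205)))))) (XT.nd (nat_lit 468) (nat_lit 152) (nat_lit 0) (XT.nd (nat_lit 234) (nat_lit 304) (nat_lit 0) (XT.nd (nat_lit 78) (nat_lit 228) (nat_lit 0) (XT.lf (nat_lit 0) (nat_lit 5316670333550)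 (nat_lit 152) (nat_lit 942148030155) (nat_lit 228) (nat_lit 2055353641601) (nat_lit 45) (nat_lit 5) (nat_lit 47) (nat_lit 5) (nat_lit 48) (nat_lit 5) (nat_lit 507) (nat_lit 489) (nat_lit 204)) (XT.nd (nat_lit 78) (nat_lit 76) (nat_lit 0) (XT.lf (nat_lit 0) (nat_lit 1854016610716) (nat_lit 152) (nat_lit 6410843372452) (nat_lit 228) (nat_lit 452868481077) (nat_lit 43) (nat_lit 5) (nat_lit 45) (nat_lit 5) (nat_lit 46) (nat_lit 5) (nat_lit 508) (nat_lit 489) (nat_lit 203)) (XT.lf (nat_lit 0) (nat_lit 1322451124617) (nat_lit 228) (nat_lit 1940217571810) (nat_lit 76) (nat_lit 5879757652933) (nat_lit 42) (nat_lit 5) (nat_lit 45) (nat_lit 5) (nat_lit 43) (nat_lit 5) (nat_lit 509) (nat_lit 489) (nat_lit 202)))) (XT.nd (nat_lit 78) (nat_lit 152) (nat_lit 0) (XT.lf (nat_lit 0) (nat_lit 3306351492235) (nat_lit 228) (nat_lit 6056555984971) (nat_lit 76) (nat_lit 229969814321) (nat_lit 40) (nat_lit 5)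 (nat_lit 43) (nat_lit 5) (nat_lit 41) (nat_lit 5) (nat_lit 510) (nat_lit 489) (nat_lit 201)) (XT.nd (nat_lit 78) (nat_lit 152) (nat_lit 0) (XT.lf (nat_lit 0) (nat_lit 5588135413126) (nat_lit 228) (nat_lit 599917739884) (nat_lit 76) (nat_lit 3880177434150) (nat_lit 40) (nat_lit 5) (nat_lit 43) (nat_lit 5) (nat_lit 41) (nat_lit 5) (nat_lit 511) (nat_lit 489) (nat_lit 200)) (XT.lf (nat_lit 0) (nat_lit 5571984811559) (nat_lit 152) (nat_lit 2614483604728) (nat_lit 228) (nat_lit 2384423220668) (nat_lit 38) (nat_lit 5) (nat_lit 40) (nat_lit 5) (nat_lit 41) (nat_lit 5) (nat_lit 512) (nat_lit 489) (nat_lit 199))))) (XT.nd (nat_lit 60762) (nat_lit 0) (nat_lit 2508) (XT.nd (nat_lit 78) (nat_lit 76) (nat_lit 0) (XT.lf (nat_lit 0) (nat_lit 1188384224851) (nat_lit 76) (nat_lit 9879634959884) (nat_lit 152) (nat_lit 39718295994) (nat_lit 37) (nat_lit 5) (nat_lit 38) (nat_lit 5) (nat_lit 39) (nat_lit 4)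 (nat_lit 513) (nat_lit 489) (nat_lit 198)) (XT.nd (nat_lit 60606) (nat_lit 0) (nat_lit 2508) (XT.lf (nat_lit 0) (nat_lit 2576012664838) (nat_lit 152) (nat_lit 3653050823657) (nat_lit 76) (nat_lit 5437020788299) (nat_lit 36) (nat_lit 5) (nat_lit 38) (nat_lit 5) (nat_lit 37) (nat_lit 5) (nat_lit 514) (nat_lit 489) (nat_lit 197)) (XT.lf (nat_lit 0) (nat_lit 1898487349869) (nat_lit 532) (nat_lit 86122234791) (nat_lit 532) (nat_lit 86122234791) (nat_lit 69) (nat_lit 3) (nat_lit 76) (nat_lit 3) (nat_lit 76) (nat_lit 5) (nat_lit 490) (nat_lit 490) (nat_lit 220)))) (XT.nd (nat_lit 78) (nat_lit 0) (nat_lit 76) (XT.lf (nat_lit 76) (nat_lit 1954935434415) (nat_lit 0) (nat_lit 2040934501106) (nat_lit 532) (nat_lit 307490949113) (nat_lit 70) (nat_lit 5) (nat_lit 69) (nat_lit 3) (nat_lit 76) (nat_lit 5) (nat_lit 491) (nat_lit 490) (nat_lit 219)) (XT.nd (nat_lit 78) (nat_lit 0) (nat_lit 0) (XT.lf (nat_lit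 0) (nat_lit 4216509374944) (nat_lit 456) (nat_lit 216870842488) (nat_lit 532) (nat_lit 44363085809) (nat_lit 70) (nat_lit 5) (nat_lit 76) (nat_lit 5) (nat_lit 77) (nat_lit 5) (nat_lit 492) (nat_lit 490) (nat_lit 218)) (XT.lf (nat_lit 76) (nat_lit 2139208732547) (nat_lit 0) (nat_lit 2420050543848) (nat_lit 532) (nat_lit 98460294392) (nat_lit 71) (nat_lit 5) (nat_lit 70) (nat_lit 5) (nat_lit 77) (nat_lit 5) (nat_lit 493) (nat_lit 490) (nat_lit 217))))))))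
noncomputable def xc250 : XT := (XT.nd (nat_lit 62400) (nat_lit 0) (nat_lit 152) (XT.nd (nat_lit 858) (nat_lit 912) (nat_lit 0) (XT.nd (nat_lit 390) (nat_lit 684) (nat_lit 0) (XT.nd (nat_lit 156) (nat_lit 304) (nat_lit 0) (XT.nd (nat_lit 78) (nat_lit 0) (nat_lit 76) (XT.lf (nat_lit 0) (nat_lit 79550258086) (nat_lit 532) (nat_lit 157525189345) (nat_lit 608) (nat_lit 4614383007230) (nat_lit 63) (nat_lit 5) (nat_lit 70) (nat_lit 5) (nat_lit 71) (nat_lit 5) (nat_lit 494) (nat_lit 490) (nat_lit 216)) (XT.lf (nat_lit 0) (nat_lit 379619906213) (nat_lit 532) (nat_lit 2592665068421) (nat_lit 608) (nat_lit 2079155868613) (nat_lit 64) (nat_lit 5) (nat_lit 71) (nat_lit 5) (nat_lit 72) (nat_lit 5) (nat_lit 495) (nat_lit 490) (nat_lit 215))) (XT.nd (nat_lit 78) (nat_lit 380) (nat_lit 0) (XT.lf (nat_lit 76) (nat_lit 21045245494) (nat_lit 0) (nat_lit 693732711333) (nat_lit 608) (nat_lit 4551757239640)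 (nat_lit 65) (nat_lit 5) (nat_lit 64) (nat_lit 5) (nat_lit 72) (nat_lit 5) (nat_lit 496) (nat_lit 490) (nat_lit 214)) (XT.nd (nat_lit 78) (nat_lit 456) (nat_lit 0) (XT.lf (nat_lit 0) (nat_lit 1191976844323) (nat_lit 532) (nat_lit 2546206644854) (nat_lit 76) (nat_lit 1751435353343) (nat_lit 65) (nat_lit 5) (nat_lit 72) (nat_lit 5) (nat_lit 66) (nat_lit 5) (nat_lit 497) (nat_lit 490) (nat_lit 213)) (XT.lf (nat_lit 0) (nat_lit 369483347521) (nat_lit 456) (nat_lit 1364773409911) (nat_lit 532) (nat_lit 3994140013656) (nat_lit 59) (nat_lit 5) (nat_lit 65) (nat_lit 5) (nat_lit 66) (nat_lit 5) (nat_lit 498) (nat_lit 490) (nat_lit 212))))) (XT.nd (nat_lit 234) (nat_lit 456) (nat_lit 0) (XT.nd (nat_lit 78) (nat_lit 228) (nat_lit 0) (XT.lf (nat_lit 0) (nat_lit 2420169301605) (nat_lit 532) (nat_lit 2348106379028) (nat_lit 76) (nat_lit 1209981234266) (nat_lit 59) (nat_lit 5) (nat_lit 66) (nat_lit 5)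 (nat_lit 60) (nat_lit 5) (nat_lit 499) (nat_lit 490) (nat_lit 211)) (XT.nd (nat_lit 78) (nat_lit 0) (nat_lit 0) (XT.lf (nat_lit 0) (nat_lit 913830048931) (nat_lit 228) (nat_lit 2304551094818) (nat_lit 304) (nat_lit 3025130622911) (nat_lit 56) (nat_lit 5) (nat_lit 59) (nat_lit 5) (nat_lit 60) (nat_lit 5) (nat_lit 500) (nat_lit 490) (nat_lit 210)) (XT.lf (nat_lit 0) (nat_lit 4154887228358) (nat_lit 304) (nat_lit 1964826519818) (nat_lit 76) (nat_lit 404318274780) (nat_lit 56) (nat_lit 5) (nat_lit 60) (nat_lit 5) (nat_lit 57) (nat_lit 5) (nat_lit 501) (nat_lit 490) (nat_lit 209)))) (XT.nd (nat_lit 78) (nat_lit 228) (nat_lit 0) (XT.lf (nat_lit 0) (nat_lit 1694104596809) (nat_lit 228) (nat_lit 3572810929028) (nat_lit 304) (nat_lit 1552030235829) (nat_lit 53) (nat_lit 5) (nat_lit 56) (nat_lit 5) (nat_lit 57) (nat_lit 5) (nat_lit 502) (nat_lit 490) (nat_lit 208)) (XT.nd (nat_lit 78) (nat_lit 228)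 (nat_lit 0) (XT.lf (nat_lit 0) (nat_lit 5757491627723) (nat_lit 228) (nat_lit 764136298237) (nat_lit 304) (nat_lit 611526926407) (nat_lit 53) (nat_lit 5) (nat_lit 56) (nat_lit 5) (nat_lit 57) (nat_lit 5) (nat_lit 503) (nat_lit 490) (nat_lit 207)) (XT.lf (nat_lit 0) (nat_lit 508011417733) (nat_lit 228) (nat_lit 4718912547757) (nat_lit 76) (nat_lit 2234877765323) (nat_lit 50) (nat_lit 5) (nat_lit 53) (nat_lit 5) (nat_lit 51) (nat_lit 5) (nat_lit 504) (nat_lit 490) (nat_lit 206)))))) (XT.nd (nat_lit 390) (nat_lit 380) (nat_lit 0) (XT.nd (nat_lit 156) (nat_lit 304) (nat_lit 0) (XT.nd (nat_lit 78) (nat_lit 228) (nat_lit 0) (XT.lf (nat_lit 0) (nat_lit 1742512220772) (nat_lit 228) (nat_lit 581278819408) (nat_lit 76) (nat_lit 5487003595718) (nat_lit 50) (nat_lit 5) (nat_lit 53) (nat_lit 5) (nat_lit 51) (nat_lit 5) (nat_lit 505) (nat_lit 490) (nat_lit 205)) (XT.lf (nat_lit 0) (nat_lit 3196262442753)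 (nat_lit 304) (nat_lit 4109841472678) (nat_lit 76) (nat_lit 871963909581) (nat_lit 47) (nat_lit 5) (nat_lit 51) (nat_lit 5) (nat_lit 48) (nat_lit 5) (nat_lit 506) (nat_lit 490) (nat_lit 204))) (XT.nd (nat_lit 78) (nat_lit 152) (nat_lit 0) (XT.lf (nat_lit 0) (nat_lit 514252330582) (nat_lit 152) (nat_lit 4341092344764) (nat_lit 228) (nat_lit 3712255634482) (nat_lit 45) (nat_lit 5) (nat_lit 47) (nat_lit 5) (nat_lit 48) (nat_lit 5) (nat_lit 507) (nat_lit 490) (nat_lit 203)) (XT.nd (nat_lit 78) (nat_lit 152) (nat_lit 0) (XT.lf (nat_lit 0) (nat_lit 5742003964089) (nat_lit 152) (nat_lit 1017519871444) (nat_lit 228) (nat_lit 2219781929977) (nat_lit 45) (nat_lit 5) (nat_lit 47) (nat_lit 5) (nat_lit 48) (nat_lit 5) (nat_lit 508) (nat_lit 490) (nat_lit 202)) (XT.lf (nat_lit 0) (nat_lit 2002337943519) (nat_lit 152) (nat_lit 6923710840952) (nat_lit 228) (nat_lit 489097956701) (nat_lit 43) (nat_lit 5)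 (nat_lit 45) (nat_lit 5) (nat_lit 46) (nat_lit 5) (nat_lit 509) (nat_lit 490) (nat_lit 201))))) (XT.nd (nat_lit 234) (nat_lit 152) (nat_lit 0) (XT.nd (nat_lit 78) (nat_lit 152) (nat_lit 0) (XT.lf (nat_lit 0) (nat_lit 1428247217105) (nat_lit 228) (nat_lit 2095434973768) (nat_lit 76) (nat_lit 6350138266234) (nat_lit 42) (nat_lit 5) (nat_lit 45) (nat_lit 5) (nat_lit 43) (nat_lit 5) (nat_lit 510) (nat_lit 490) (nat_lit 200)) (XT.nd (nat_lit 78) (nat_lit 0) (nat_lit 0) (XT.lf (nat_lit 0) (nat_lit 3570859614064) (nat_lit 228) (nat_lit 6541080459914) (nat_lit 76) (nat_lit 248367400674) (nat_lit 40) (nat_lit 5) (nat_lit 43) (nat_lit 5) (nat_lit 41) (nat_lit 5) (nat_lit 511) (nat_lit 490) (nat_lit 199)) (XT.lf (nat_lit 0) (nat_lit 6035186248445) (nat_lit 228) (nat_lit 647911155506) (nat_lit 76) (nat_lit 4190591629999) (nat_lit 40) (nat_lit 5) (nat_lit 43) (nat_lit 5) (nat_lit 41) (nat_lit 5) (nat_lit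 512) (nat_lit 490) (nat_lit 198)))) (XT.nd (nat_lit 60762) (nat_lit 0) (nat_lit 2356) (XT.lf (nat_lit 0) (nat_lit 6017743599962) (nat_lit 152) (nat_lit 2823642291812) (nat_lit 228) (nat_lit 2575177075961) (nat_lit 38) (nat_lit 5) (nat_lit 40) (nat_lit 5) (nat_lit 41) (nat_lit 5) (nat_lit 513) (nat_lit 490) (nat_lit 197)) (XT.nd (nat_lit 78) (nat_lit 0) (nat_lit 0) (XT.lf (nat_lit 0) (nat_lit 2050366341353) (nat_lit 532) (nat_lit 93012011686) (nat_lit 532) (nat_lit 93012011686) (nat_lit 69) (nat_lit 3) (nat_lit 76) (nat_lit 3) (nat_lit 76) (nat_lit 5) (nat_lit 491) (nat_lit 491) (nat_lit 218)) (XT.lf (nat_lit 76) (nat_lit 2111330272849) (nat_lit 0) (nat_lit 2204209264074) (nat_lit 532) (nat_lit 332090217953) (nat_lit 70) (nat_lit 5) (nat_lit 69) (nat_lit 3) (nat_lit 76) (nat_lit 5) (nat_lit 492) (nat_lit 491) (nat_lit 217))))))) (XT.nd (nat_lit 858) (nat_lit 988) (nat_lit 0) (XT.nd (nat_lit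 390) (nat_lit 760) (nat_lit 0) (XT.nd (nat_lit 156) (nat_lit 532) (nat_lit 0) (XT.nd (nat_lit 78) (nat_lit 0) (nat_lit 0) (XT.lf (nat_lit 0) (nat_lit 4553830130949) (nat_lit 456) (nat_lit 234220505925) (nat_lit 532) (nat_lit 47912130141) (nat_lit 70) (nat_lit 5) (nat_lit 76) (nat_lit 5) (nat_lit 77) (nat_lit 5) (nat_lit 493) (nat_lit 491) (nat_lit 216)) (XT.lf (nat_lit 76) (nat_lit 2310345435012) (nat_lit 0) (nat_lit 2613654589152) (nat_lit 532) (nat_lit 106337111829) (nat_lit 71) (nat_lit 5) (nat_lit 70) (nat_lit 5) (nat_lit 77) (nat_lit 5) (nat_lit 494) (nat_lit 491) (nat_lit 215))) (XT.nd (nat_lit 78) (nat_lit 0) (nat_lit 76) (XT.lf (nat_lit 0) (nat_lit 85914284111) (nat_lit 532) (nat_lit 170127200630) (nat_lit 608) (nat_lit 4983533645860) (nat_lit 63) (nat_lit 5) (nat_lit 70) (nat_lit 5) (nat_lit 71) (nat_lit 5) (nat_lit 495) (nat_lit 491) (nat_lit 214)) (XT.nd (nat_lit 78) (nat_lit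 0) (nat_lit 0) (XT.lf (nat_lit 0) (nat_lit 409989503748) (nat_lit 532) (nat_lit 2800078269691) (nat_lit 608) (nat_lit 2245488336862) (nat_lit 64) (nat_lit 5) (nat_lit 71) (nat_lit 5) (nat_lit 72) (nat_lit 5) (nat_lit 496) (nat_lit 491) (nat_lit 213)) (XT.lf (nat_lit 76) (nat_lit 22728869232) (nat_lit 0) (nat_lit 749231328906) (nat_lit 608) (nat_lit 4915897813664) (nat_lit 65) (nat_lit 5) (nat_lit 64) (nat_lit 5) (nat_lit 72) (nat_lit 5) (nat_lit 497) (nat_lit 491) (nat_lit 212))))) (XT.nd (nat_lit 234) (nat_lit 456) (nat_lit 0) (XT.nd (nat_lit 78) (nat_lit 456) (nat_lit 0) (XT.lf (nat_lit 0) (nat_lit 1287334996265) (nat_lit 532) (nat_lit 2749903172278) (nat_lit 76) (nat_lit 1891550181024) (nat_lit 65) (nat_lit 5) (nat_lit 72) (nat_lit 5) (nat_lit 66) (nat_lit 5) (nat_lit 498) (nat_lit 491) (nat_lit 211)) (XT.nd (nat_lit 78) (nat_lit 0) (nat_lit 0) (XT.lf (nat_lit 0) (nat_lit 399042019381)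 (nat_lit 456) (nat_lit 1473955282813) (nat_lit 532) (nat_lit 4313671210244) (nat_lit 59) (nat_lit 5) (nat_lit 65) (nat_lit 5) (nat_lit 66) (nat_lit 5) (nat_lit 499) (nat_lit 491) (nat_lit 210)) (XT.lf (nat_lit 0) (nat_lit 2613782849590) (nat_lit 532) (nat_lit 2535954885279) (nat_lit 76) (nat_lit 1306779732911) (nat_lit 59) (nat_lit 5) (nat_lit 66) (nat_lit 5) (nat_lit 60) (nat_lit 5) (nat_lit 500) (nat_lit 491) (nat_lit 209)))) (XT.nd (nat_lit 78) (nat_lit 228) (nat_lit 0) (XT.lf (nat_lit 0) (nat_lit 986936456814) (nat_lit 228) (nat_lit 2488915182102) (nat_lit 304) (nat_lit 3267141068782) (nat_lit 56) (nat_lit 5) (nat_lit 59) (nat_lit 5) (nat_lit 60) (nat_lit 5) (nat_lit 501) (nat_lit 491) (nat_lit 208)) (XT.nd (nat_lit 78) (nat_lit 228) (nat_lit 0) (XT.lf (nat_lit 0) (nat_lit 4487278210028) (nat_lit 304) (nat_lit 2122012637462) (nat_lit 76) (nat_lit 436663737028) (nat_lit 56) (nat_lit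 5) (nat_lit 60) (nat_lit 5) (nat_lit 57) (nat_lit 5) (nat_lit 502) (nat_lit 491) (nat_lit 207)) (XT.lf (nat_lit 0) (nat_lit 1829632968396) (nat_lit 228) (nat_lit 3858635802751) (nat_lit 304) (nat_lit 1676192651192) (nat_lit 53) (nat_lit 5) (nat_lit 56) (nat_lit 5) (nat_lit 57) (nat_lit 5) (nat_lit 503) (nat_lit 491) (nat_lit 206)))))) (XT.nd (nat_lit 468) (nat_lit 380) (nat_lit 0) (XT.nd (nat_lit 234) (nat_lit 380) (nat_lit 0) (XT.nd (nat_lit 78) (nat_lit 228) (nat_lit 0) (XT.lf (nat_lit 0) (nat_lit 6218090961498) (nat_lit 228) (nat_lit 825267201541) (nat_lit 304) (nat_lit 660449077276) (nat_lit 53) (nat_lit 5) (nat_lit 56) (nat_lit 5) (nat_lit 57) (nat_lit 5) (nat_lit 504) (nat_lit 491) (nat_lit 205)) (XT.nd (nat_lit 78) (nat_lit 0) (nat_lit 0) (XT.lf (nat_lit 0) (nat_lit 548652334109) (nat_lit 228) (nat_lit 5096425547731) (nat_lit 76) (nat_lit 2413667987201) (nat_lit 50) (nat_lit 5) (nat_lit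 53) (nat_lit 5) (nat_lit 51) (nat_lit 5) (nat_lit 505) (nat_lit 491) (nat_lit 204)) (XT.lf (nat_lit 0) (nat_lit 1881913201172) (nat_lit 228) (nat_lit 627781121398) (nat_lit 76) (nat_lit 5925963883979) (nat_lit 50) (nat_lit 5) (nat_lit 53) (nat_lit 5) (nat_lit 51) (nat_lit 5) (nat_lit 506) (nat_lit 491) (nat_lit 203)))) (XT.nd (nat_lit 78) (nat_lit 152) (nat_lit 0) (XT.lf (nat_lit 0) (nat_lit 3451963440813) (nat_lit 304) (nat_lit 4438628786831) (nat_lit 76) (nat_lit 941721023158) (nat_lit 47) (nat_lit 5) (nat_lit 51) (nat_lit 5) (nat_lit 48) (nat_lit 5) (nat_lit 507) (nat_lit 491) (nat_lit 202)) (XT.nd (nat_lit 78) (nat_lit 0) (nat_lit 0) (XT.lf (nat_lit 0) (nat_lit 555392520597) (nat_lit 152) (nat_lit 4688379731306) (nat_lit 228) (nat_lit 4009236082508) (nat_lit 45) (nat_lit 5) (nat_lit 47) (nat_lit 5) (nat_lit 48) (nat_lit 5) (nat_lit 508) (nat_lit 491) (nat_lit 201)) (XT.lf (nat_lit 0)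 (nat_lit 6201364284521) (nat_lit 152) (nat_lit 1098921460197) (nat_lit 228) (nat_lit 2397364481845) (nat_lit 45) (nat_lit 5) (nat_lit 47) (nat_lit 5) (nat_lit 48) (nat_lit 5) (nat_lit 509) (nat_lit 491) (nat_lit 200))))) (XT.nd (nat_lit 234) (nat_lit 0) (nat_lit 0) (XT.nd (nat_lit 78) (nat_lit 228) (nat_lit 0) (XT.lf (nat_lit 0) (nat_lit 2162524982382) (nat_lit 152) (nat_lit 7477607707118) (nat_lit 228) (nat_lit 528225790783) (nat_lit 43) (nat_lit 5) (nat_lit 45) (nat_lit 5) (nat_lit 46) (nat_lit 5) (nat_lit 510) (nat_lit 491) (nat_lit 199)) (XT.nd (nat_lit 78) (nat_lit 152) (nat_lit 0) (XT.lf (nat_lit 0) (nat_lit 1542506996632) (nat_lit 228) (nat_lit 2263069768423) (nat_lit 76) (nat_lit 6858149328446) (nat_lit 42) (nat_lit 5) (nat_lit 45) (nat_lit 5) (nat_lit 43) (nat_lit 5) (nat_lit 511) (nat_lit 491) (nat_lit 198)) (XT.lf (nat_lit 0) (nat_lit 3856528385291) (nat_lit 228) (nat_lit 7064366893403)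 (nat_lit 76) (nat_lit 268236793763) (nat_lit 40) (nat_lit 5) (nat_lit 43) (nat_lit 5) (nat_lit 41) (nat_lit 5) (nat_lit 512) (nat_lit 491) (nat_lit 197)))) (XT.nd (nat_lit 60840) (nat_lit 0) (nat_lit 2204) (XT.lf (nat_lit 0) (nat_lit 6518001150266) (nat_lit 228) (nat_lit 699744044886) (nat_lit 76) (nat_lit 4525838961357) (nat_lit 40) (nat_lit 5) (nat_lit 43) (nat_lit 5) (nat_lit 41) (nat_lit 5) (nat_lit 513) (nat_lit 491) (nat_lit 196)) (XT.nd (nat_lit 78) (nat_lit 0) (nat_lit 0) (XT.lf (nat_lit 0) (nat_lit 2214395651657) (nat_lit 532) (nat_lit 100452971003) (nat_lit 532) (nat_lit 100452971003) (nat_lit 69) (nat_lit 3) (nat_lit 76) (nat_lit 3) (nat_lit 76) (nat_lit 5) (nat_lit 492) (nat_lit 492) (nat_lit 216)) (XT.lf (nat_lit 76) (nat_lit 2280236697833) (nat_lit 0) (nat_lit 2380546007668) (nat_lit 532) (nat_lit 358657429312) (nat_lit 70) (nat_lit 5) (nat_lit 69) (nat_lit 3) (nat_lit 76)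 (nat_lit 5) (nat_lit 493) (nat_lit 492) (nat_lit 215))))))))
noncomputable def xc251 : XT := (XT.nd (nat_lit 62556) (nat_lit 0) (nat_lit 152) (XT.nd (nat_lit 858) (nat_lit 988) (nat_lit 0) (XT.nd (nat_lit 390) (nat_lit 760) (nat_lit 0) (XT.nd (nat_lit 156) (nat_lit 532) (nat_lit 0) (XT.nd (nat_lit 78) (nat_lit 0) (nat_lit 0) (XT.lf (nat_lit 0) (nat_lit 4918136546578) (nat_lit 456) (nat_lit 252958143003) (nat_lit 532) (nat_lit 51745098381) (nat_lit 70) (nat_lit 5) (nat_lit 76) (nat_lit 5) (nat_lit 77) (nat_lit 5) (nat_lit 494) (nat_lit 492) (nat_lit 214)) (XT.lf (nat_lit 76) (nat_lit 2495173073124) (nat_lit 0) (nat_lit 2822746957824) (nat_lit 532) (nat_lit 114844075534) (nat_lit 71) (nat_lit 5) (nat_lit 70) (nat_lit 5) (nat_lit 77) (nat_lit 5) (nat_lit 495) (nat_lit 492) (nat_lit 213))) (XT.nd (nat_lit 78) (nat_lit 0) (nat_lit 76) (XT.lf (nat_lit 0) (nat_lit 92787431451) (nat_lit 532) (nat_lit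 183737373370) (nat_lit 608) (nat_lit 5382216335858) (nat_lit 63) (nat_lit 5) (nat_lit 70) (nat_lit 5) (nat_lit 71) (nat_lit 5) (nat_lit 496) (nat_lit 492) (nat_lit 212)) (XT.nd (nat_lit 78) (nat_lit 0) (nat_lit 0) (XT.lf (nat_lit 0) (nat_lit 442788668368) (nat_lit 532) (nat_lit 3024084527661) (nat_lit 608) (nat_lit 2425127402748) (nat_lit 64) (nat_lit 5) (nat_lit 71) (nat_lit 5) (nat_lit 72) (nat_lit 5) (nat_lit 497) (nat_lit 492) (nat_lit 211)) (XT.lf (nat_lit 76) (nat_lit 24547182284) (nat_lit 0) (nat_lit 809169835789) (nat_lit 608) (nat_lit 5309169634344) (nat_lit 65) (nat_lit 5) (nat_lit 64) (nat_lit 5) (nat_lit 72) (nat_lit 5) (nat_lit 498) (nat_lit 492) (nat_lit 210))))) (XT.nd (nat_lit 234) (nat_lit 456) (nat_lit 0) (XT.nd (nat_lit 78) (nat_lit 456) (nat_lit 0) (XT.lf (nat_lit 0) (nat_lit 1390321799736) (nat_lit 532) (nat_lit 2969895422489) (nat_lit 76) (nat_lit 2042874195004) (nat_lit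 65) (nat_lit 5) (nat_lit 72) (nat_lit 5) (nat_lit 66) (nat_lit 5) (nat_lit 499) (nat_lit 492) (nat_lit 209)) (XT.nd (nat_lit 78) (nat_lit 0) (nat_lit 0) (XT.lf (nat_lit 0) (nat_lit 430965384412) (nat_lit 456) (nat_lit 1591871705531) (nat_lit 532) (nat_lit 4658764903202) (nat_lit 59) (nat_lit 5) (nat_lit 65) (nat_lit 5) (nat_lit 66) (nat_lit 5) (nat_lit 500) (nat_lit 492) (nat_lit 208)) (XT.lf (nat_lit 0) (nat_lit 2822885480864) (nat_lit 532) (nat_lit 2738831272610) (nat_lit 76) (nat_lit 1411322111462) (nat_lit 59) (nat_lit 5) (nat_lit 66) (nat_lit 5) (nat_lit 60) (nat_lit 5) (nat_lit 501) (nat_lit 492) (nat_lit 207)))) (XT.nd (nat_lit 78) (nat_lit 228) (nat_lit 0) (XT.lf (nat_lit 0) (nat_lit 1065891376762) (nat_lit 228) (nat_lit 2688028396411) (nat_lit 304) (nat_lit 3528512350888) (nat_lit 56) (nat_lit 5) (nat_lit 59) (nat_lit 5) (nat_lit 60) (nat_lit 5) (nat_lit 502) (nat_lit 492) (nat_lit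 206)) (XT.nd (nat_lit 78) (nat_lit 228) (nat_lit 0) (XT.lf (nat_lit 0) (nat_lit 4846260469747) (nat_lit 304) (nat_lit 2291773645080) (nat_lit 76) (nat_lit 471596836218) (nat_lit 56) (nat_lit 5) (nat_lit 60) (nat_lit 5) (nat_lit 57) (nat_lit 5) (nat_lit 503) (nat_lit 492) (nat_lit 205)) (XT.lf (nat_lit 0) (nat_lit 1976003609161) (nat_lit 228) (nat_lit 4167326666457) (nat_lit 304) (nat_lit 1810288060284) (nat_lit 53) (nat_lit 5) (nat_lit 56) (nat_lit 5) (nat_lit 57) (nat_lit 5) (nat_lit 504) (nat_lit 492) (nat_lit 204)))))) (XT.nd (nat_lit 390) (nat_lit 380) (nat_lit 0) (XT.nd (nat_lit 156) (nat_lit 380) (nat_lit 0) (XT.nd (nat_lit 78) (nat_lit 228) (nat_lit 0) (XT.lf (nat_lit 0) (nat_lit 6715538241467) (nat_lit 228) (nat_lit 891288577188) (nat_lit 304) (nat_lit 713285000677) (nat_lit 53) (nat_lit 5) (nat_lit 56) (nat_lit 5) (nat_lit 57) (nat_lit 5) (nat_lit 505) (nat_lit 492) (nat_lit 203))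 (XT.lf (nat_lit 0) (nat_lit 592544523373) (nat_lit 228) (nat_lit 5504139588251) (nat_lit 76) (nat_lit 2606761426736) (nat_lit 50) (nat_lit 5) (nat_lit 53) (nat_lit 5) (nat_lit 51) (nat_lit 5) (nat_lit 506) (nat_lit 492) (nat_lit 202))) (XT.nd (nat_lit 78) (nat_lit 380) (nat_lit 0) (XT.lf (nat_lit 0) (nat_lit 2032466259613) (nat_lit 228) (nat_lit 678003608056) (nat_lit 76) (nat_lit 6400040995215) (nat_lit 50) (nat_lit 5) (nat_lit 53) (nat_lit 5) (nat_lit 51) (nat_lit 5) (nat_lit 507) (nat_lit 492) (nat_lit 201)) (XT.nd (nat_lit 78) (nat_lit 152) (nat_lit 0) (XT.lf (nat_lit 0) (nat_lit 3728120518340) (nat_lit 304) (nat_lit 4793719086638) (nat_lit 76) (nat_lit 1017058705705) (nat_lit 47) (nat_lit 5) (nat_lit 51) (nat_lit 5) (nat_lit 48) (nat_lit 5) (nat_lit 508) (nat_lit 492) (nat_lit 200)) (XT.lf (nat_lit 0) (nat_lit 599823925305) (nat_lit 152) (nat_lit 5063450108919) (nat_lit 228) (nat_lit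 4329974966765) (nat_lit 45) (nat_lit 5) (nat_lit 47) (nat_lit 5) (nat_lit 48) (nat_lit 5) (nat_lit 509) (nat_lit 492) (nat_lit 199))))) (XT.nd (nat_lit 234) (nat_lit 152) (nat_lit 0) (XT.nd (nat_lit 78) (nat_lit 228) (nat_lit 0) (XT.lf (nat_lit 0) (nat_lit 6697473430116) (nat_lit 152) (nat_lit 1186835176188) (nat_lit 228) (nat_lit 2589153638223) (nat_lit 45) (nat_lit 5) (nat_lit 47) (nat_lit 5) (nat_lit 48) (nat_lit 5) (nat_lit 510) (nat_lit 492) (nat_lit 198)) (XT.nd (nat_lit 78) (nat_lit 76) (nat_lit 0) (XT.lf (nat_lit 0) (nat_lit 2335526983873) (nat_lit 152) (nat_lit 8075816322735) (nat_lit 228) (nat_lit 570483851942) (nat_lit 43) (nat_lit 5) (nat_lit 45) (nat_lit 5) (nat_lit 46) (nat_lit 5) (nat_lit 511) (nat_lit 492) (nat_lit 197)) (XT.lf (nat_lit 0) (nat_lit 1665907558213) (nat_lit 228) (nat_lit 2444115347114) (nat_lit 76) (nat_lit 7406801275506) (nat_lit 42) (nat_lit 5) (nat_lit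 45) (nat_lit 5) (nat_lit 43) (nat_lit 5) (nat_lit 512) (nat_lit 492) (nat_lit 196)))) (XT.nd (nat_lit 60918) (nat_lit 0) (nat_lit 2204) (XT.lf (nat_lit 0) (nat_lit 4165050657915) (nat_lit 228) (nat_lit 7629516242042) (nat_lit 76) (nat_lit 289695738151) (nat_lit 40) (nat_lit 5) (nat_lit 43) (nat_lit 5) (nat_lit 41) (nat_lit 5) (nat_lit 513) (nat_lit 492) (nat_lit 195)) (XT.nd (nat_lit 78) (nat_lit 0) (nat_lit 0) (XT.lf (nat_lit 0) (nat_lit 2391547306358) (nat_lit 532) (nat_lit 108489207295) (nat_lit 532) (nat_lit 108489207295) (nat_lit 69) (nat_lit 3) (nat_lit 76) (nat_lit 3) (nat_lit 76) (nat_lit 5) (nat_lit 493) (nat_lit 493) (nat_lit 214)) (XT.lf (nat_lit 76) (nat_lit 2462655636365) (nat_lit 0) (nat_lit 2570989690398) (nat_lit 532) (nat_lit 387350018446) (nat_lit 70) (nat_lit 5) (nat_lit 69) (nat_lit 3) (nat_lit 76) (nat_lit 5) (nat_lit 494) (nat_lit 493) (nat_lit 213))))))) (XT.nd (nat_lit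 858) (nat_lit 836) (nat_lit 0) (XT.nd (nat_lit 390) (nat_lit 760) (nat_lit 0) (XT.nd (nat_lit 156) (nat_lit 532) (nat_lit 0) (XT.nd (nat_lit 78) (nat_lit 0) (nat_lit 0) (XT.lf (nat_lit 0) (nat_lit 5311587474721) (nat_lit 456) (nat_lit 273194791530) (nat_lit 532) (nat_lit 55884704391) (nat_lit 70) (nat_lit 5) (nat_lit 76) (nat_lit 5) (nat_lit 77) (nat_lit 5) (nat_lit 495) (nat_lit 493) (nat_lit 212)) (XT.lf (nat_lit 76) (nat_lit 2694786921813) (nat_lit 0) (nat_lit 3048566715769) (nat_lit 532) (nat_lit 124031597083) (nat_lit 71) (nat_lit 5) (nat_lit 70) (nat_lit 5) (nat_lit 77) (nat_lit 5) (nat_lit 496) (nat_lit 493) (nat_lit 211))) (XT.nd (nat_lit 78) (nat_lit 0) (nat_lit 76) (XT.lf (nat_lit 0) (nat_lit 100210429920) (nat_lit 532) (nat_lit 198436360400) (nat_lit 608) (nat_lit 5812793641294) (nat_lit 63) (nat_lit 5) (nat_lit 70) (nat_lit 5) (nat_lit 71) (nat_lit 5) (nat_lit 497) (nat_lit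 493) (nat_lit 210)) (XT.nd (nat_lit 78) (nat_lit 0) (nat_lit 0) (XT.lf (nat_lit 0) (nat_lit 478211765541) (nat_lit 532) (nat_lit 3266011286784) (nat_lit 608) (nat_lit 2619137594056) (nat_lit 64) (nat_lit 5) (nat_lit 71) (nat_lit 5) (nat_lit 72) (nat_lit 5) (nat_lit 498) (nat_lit 493) (nat_lit 209)) (XT.lf (nat_lit 76) (nat_lit 26510959878) (nat_lit 0) (nat_lit 873903423142) (nat_lit 608) (nat_lit 5733903201307) (nat_lit 65) (nat_lit 5) (nat_lit 64) (nat_lit 5) (nat_lit 72) (nat_lit 5) (nat_lit 499) (nat_lit 493) (nat_lit 208))))) (XT.nd (nat_lit 234) (nat_lit 456) (nat_lit 0) (XT.nd (nat_lit 78) (nat_lit 456) (nat_lit 0) (XT.lf (nat_lit 0) (nat_lit 1501547546946) (nat_lit 532) (nat_lit 3207487053227) (nat_lit 76) (nat_lit 2206304130174) (nat_lit 65) (nat_lit 5) (nat_lit 72) (nat_lit 5) (nat_lit 66) (nat_lit 5) (nat_lit 500) (nat_lit 493) (nat_lit 207)) (XT.nd (nat_lit 78) (nat_lit 0) (nat_lit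 0) (XT.lf (nat_lit 0) (nat_lit 465442618149) (nat_lit 456) (nat_lit 1719221442054) (nat_lit 532) (nat_lit 5031466092148) (nat_lit 59) (nat_lit 5) (nat_lit 65) (nat_lit 5) (nat_lit 66) (nat_lit 5) (nat_lit 501) (nat_lit 493) (nat_lit 206)) (XT.lf (nat_lit 0) (nat_lit 3048716322168) (nat_lit 532) (nat_lit 2957937771426) (nat_lit 76) (nat_lit 1524227880309) (nat_lit 59) (nat_lit 5) (nat_lit 66) (nat_lit 5) (nat_lit 60) (nat_lit 5) (nat_lit 502) (nat_lit 493) (nat_lit 205)))) (XT.nd (nat_lit 78) (nat_lit 228) (nat_lit 0) (XT.lf (nat_lit 0) (nat_lit 1151162689820) (nat_lit 228) (nat_lit 2903070667902) (nat_lit 304) (nat_lit 3810793336047) (nat_lit 56) (nat_lit 5) (nat_lit 59) (nat_lit 5) (nat_lit 60) (nat_lit 5) (nat_lit 503) (nat_lit 493) (nat_lit 204)) (XT.nd (nat_lit 78) (nat_lit 228) (nat_lit 0) (XT.lf (nat_lit 0) (nat_lit 5233961309828) (nat_lit 304) (nat_lit 2475115533789) (nat_lit 76)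 (nat_lit 509324583311) (nat_lit 56) (nat_lit 5) (nat_lit 60) (nat_lit 5) (nat_lit 57) (nat_lit 5) (nat_lit 504) (nat_lit 493) (nat_lit 203)) (XT.lf (nat_lit 0) (nat_lit 2134083900718) (nat_lit 228) (nat_lit 4500712799333) (nat_lit 304) (nat_lit 1955111102531) (nat_lit 53) (nat_lit 5) (nat_lit 56) (nat_lit 5) (nat_lit 57) (nat_lit 5) (nat_lit 505) (nat_lit 493) (nat_lit 202)))))) (XT.nd (nat_lit 468) (nat_lit 228) (nat_lit 0) (XT.nd (nat_lit 234) (nat_lit 380) (nat_lit 0) (XT.nd (nat_lit 78) (nat_lit 228) (nat_lit 0) (XT.lf (nat_lit 0) (nat_lit 7252781303400) (nat_lit 228) (nat_lit 962591662955) (nat_lit 304) (nat_lit 770347798347) (nat_lit 53) (nat_lit 5) (nat_lit 56) (nat_lit 5) (nat_lit 57) (nat_lit 5) (nat_lit 506) (nat_lit 493) (nat_lit 201)) (XT.nd (nat_lit 78) (nat_lit 0) (nat_lit 0) (XT.lf (nat_lit 0) (nat_lit 639948087416) (nat_lit 228) (nat_lit 5944470752484) (nat_lit 76) (nat_lit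 2815302341354) (nat_lit 50) (nat_lit 5) (nat_lit 53) (nat_lit 5) (nat_lit 51) (nat_lit 5) (nat_lit 507) (nat_lit 493) (nat_lit 200)) (XT.lf (nat_lit 0) (nat_lit 2195063562395) (nat_lit 228) (nat_lit 732243894083) (nat_lit 76) (nat_lit 6912044275276) (nat_lit 50) (nat_lit 5) (nat_lit 53) (nat_lit 5) (nat_lit 51) (nat_lit 5) (nat_lit 508) (nat_lit 493) (nat_lit 199)))) (XT.nd (nat_lit 78) (nat_lit 152) (nat_lit 0) (XT.lf (nat_lit 0) (nat_lit 4026370161747) (nat_lit 304) (nat_lit 5177216610877) (nat_lit 76) (nat_lit 1098423402757) (nat_lit 47) (nat_lit 5) (nat_lit 51) (nat_lit 5) (nat_lit 48) (nat_lit 5) (nat_lit 509) (nat_lit 493) (nat_lit 198)) (XT.nd (nat_lit 78) (nat_lit 0) (nat_lit 0) (XT.lf (nat_lit 0) (nat_lit 647809841953) (nat_lit 152) (nat_lit 5468526116868) (nat_lit 228) (nat_lit 4676372962098) (nat_lit 45) (nat_lit 5) (nat_lit 47) (nat_lit 5) (nat_lit 48) (nat_lit 5) (nat_lit 510)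 (nat_lit 493) (nat_lit 197)) (XT.lf (nat_lit 0) (nat_lit 7233271306954) (nat_lit 152) (nat_lit 1281781989575) (nat_lit 228) (nat_lit 2796285927421) (nat_lit 45) (nat_lit 5) (nat_lit 47) (nat_lit 5) (nat_lit 48) (nat_lit 5) (nat_lit 511) (nat_lit 493) (nat_lit 196))))) (XT.nd (nat_lit 61152) (nat_lit 0) (nat_lit 2052) (XT.nd (nat_lit 78) (nat_lit 76) (nat_lit 0) (XT.lf (nat_lit 0) (nat_lit 2522369145069) (nat_lit 152) (nat_lit 8721881627737) (nat_lit 228) (nat_lit 616122558293) (nat_lit 43) (nat_lit 5) (nat_lit 45) (nat_lit 5) (nat_lit 46) (nat_lit 5) (nat_lit 512) (nat_lit 493) (nat_lit 195)) (XT.nd (nat_lit 60996) (nat_lit 0) (nat_lit 2052) (XT.lf (nat_lit 0) (nat_lit 1799180164457) (nat_lit 228) (nat_lit 2639644572497) (nat_lit 76) (nat_lit 7999345378218) (nat_lit 42) (nat_lit 5) (nat_lit 45) (nat_lit 5) (nat_lit 43) (nat_lit 5) (nat_lit 513) (nat_lit 493) (nat_lit 194)) (XT.lf (nat_lit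 0) (nat_lit 2582871093069) (nat_lit 532) (nat_lit 117168342689) (nat_lit 532) (nat_lit 117168342689) (nat_lit 69) (nat_lit 3) (nat_lit 76) (nat_lit 3) (nat_lit 76) (nat_lit 5) (nat_lit 494) (nat_lit 494) (nat_lit 212)))) (XT.nd (nat_lit 78) (nat_lit 0) (nat_lit 76) (XT.lf (nat_lit 76) (nat_lit 2659668089594) (nat_lit 0) (nat_lit 2776668867444) (nat_lit 532) (nat_lit 418338015455) (nat_lit 70) (nat_lit 5) (nat_lit 69) (nat_lit 3) (nat_lit 76) (nat_lit 5) (nat_lit 495) (nat_lit 494) (nat_lit 211)) (XT.nd (nat_lit 78) (nat_lit 0) (nat_lit 0) (XT.lf (nat_lit 0) (nat_lit 5736514476486) (nat_lit 456) (nat_lit 295050372356) (nat_lit 532) (nat_lit 60355479146) (nat_lit 70) (nat_lit 5) (nat_lit 76) (nat_lit 5) (nat_lit 77) (nat_lit 5) (nat_lit 496) (nat_lit 494) (nat_lit 210)) (XT.lf (nat_lit 76) (nat_lit 2910369877992) (nat_lit 0) (nat_lit 3292452054163) (nat_lit 532) (nat_lit 133954120997) (nat_lit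 71) (nat_lit 5) (nat_lit 70) (nat_lit 5) (nat_lit 77) (nat_lit 5) (nat_lit 497) (nat_lit 494) (nat_lit 209))))))))
noncomputable def xc252 : XT := (XT.nd (nat_lit 62712) (nat_lit 0) (nat_lit 152) (XT.nd (nat_lit 858) (nat_lit 532) (nat_lit 0) (XT.nd (nat_lit 390) (nat_lit 684) (nat_lit 0) (XT.nd (nat_lit 156) (nat_lit 304) (nat_lit 0) (XT.nd (nat_lit 78) (nat_lit 0) (nat_lit 76) (XT.lf (nat_lit 0) (nat_lit 108227267702) (nat_lit 532) (nat_lit 214311266799) (nat_lit 608) (nat_lit 6277817131369) (nat_lit 63) (nat_lit 5) (nat_lit 70) (nat_lit 5) (nat_lit 71) (nat_lit 5) (nat_lit 498) (nat_lit 494) (nat_lit 208)) (XT.lf (nat_lit 0) (nat_lit 516468709959) (nat_lit 532) (nat_lit 3527292187077) (nat_lit 608) (nat_lit 2828668600799) (nat_lit 64) (nat_lit 5) (nat_lit 71) (nat_lit 5) (nat_lit 72) (nat_lit 5) (nat_lit 499) (nat_lit 494) (nat_lit 207))) (XT.nd (nat_lit 78) (nat_lit 380) (nat_lit 0)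 (XT.lf (nat_lit 76) (nat_lit 28631839251) (nat_lit 0) (nat_lit 943815697413) (nat_lit 608) (nat_lit 6192615454168) (nat_lit 65) (nat_lit 5) (nat_lit 64) (nat_lit 5) (nat_lit 72) (nat_lit 5) (nat_lit 500) (nat_lit 494) (nat_lit 206)) (XT.nd (nat_lit 78) (nat_lit 456) (nat_lit 0) (XT.lf (nat_lit 0) (nat_lit 1621671353472) (nat_lit 532) (nat_lit 3464086014861) (nat_lit 76) (nat_lit 2382808460219) (nat_lit 65) (nat_lit 5) (nat_lit 72) (nat_lit 5) (nat_lit 66) (nat_lit 5) (nat_lit 501) (nat_lit 494) (nat_lit 205)) (XT.lf (nat_lit 0) (nat_lit 502678030159) (nat_lit 456) (nat_lit 1856759157487) (nat_lit 532) (nat_lit 5433983376682) (nat_lit 59) (nat_lit 5) (nat_lit 65) (nat_lit 5) (nat_lit 66) (nat_lit 5) (nat_lit 502) (nat_lit 494) (nat_lit 204))))) (XT.nd (nat_lit 234) (nat_lit 456) (nat_lit 0) (XT.nd (nat_lit 78) (nat_lit 228) (nat_lit 0) (XT.lf (nat_lit 0) (nat_lit 3292613630372) (nat_lit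 532) (nat_lit 3194572790574) (nat_lit 76) (nat_lit 1646166110673) (nat_lit 59) (nat_lit 5) (nat_lit 66) (nat_lit 5) (nat_lit 60) (nat_lit 5) (nat_lit 503) (nat_lit 494) (nat_lit 203)) (XT.nd (nat_lit 78) (nat_lit 0) (nat_lit 0) (XT.lf (nat_lit 0) (nat_lit 1243255707507) (nat_lit 228) (nat_lit 3135316321144) (nat_lit 304) (nat_lit 4115656800434) (nat_lit 56) (nat_lit 5) (nat_lit 59) (nat_lit 5) (nat_lit 60) (nat_lit 5) (nat_lit 504) (nat_lit 494) (nat_lit 202)) (XT.lf (nat_lit 0) (nat_lit 5652678216758) (nat_lit 304) (nat_lit 2673124774008) (nat_lit 76) (nat_lit 550070550143) (nat_lit 56) (nat_lit 5) (nat_lit 60) (nat_lit 5) (nat_lit 57) (nat_lit 5) (nat_lit 505) (nat_lit 494) (nat_lit 201)))) (XT.nd (nat_lit 78) (nat_lit 228) (nat_lit 0) (XT.lf (nat_lit 0) (nat_lit 2304810615197) (nat_lit 228) (nat_lit 4860769822902) (nat_lit 304) (nat_lit 2111519988526) (nat_lit 53) (nat_lit 5) (nat_lit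 56) (nat_lit 5) (nat_lit 57) (nat_lit 5) (nat_lit 506) (nat_lit 494) (nat_lit 200)) (XT.nd (nat_lit 78) (nat_lit 228) (nat_lit 0) (XT.lf (nat_lit 0) (nat_lit 7833003809913) (nat_lit 228) (nat_lit 1039598995642) (nat_lit 304) (nat_lit 831975620170) (nat_lit 53) (nat_lit 5) (nat_lit 56) (nat_lit 5) (nat_lit 57) (nat_lit 5) (nat_lit 507) (nat_lit 494) (nat_lit 199)) (XT.lf (nat_lit 0) (nat_lit 691143936273) (nat_lit 228) (nat_lit 6420028410258) (nat_lit 76) (nat_lit 3040526529073) (nat_lit 50) (nat_lit 5) (nat_lit 53) (nat_lit 5) (nat_lit 51) (nat_lit 5) (nat_lit 508) (nat_lit 494) (nat_lit 198)))))) (XT.nd (nat_lit 61386) (nat_lit 0) (nat_lit 1520) (XT.nd (nat_lit 156) (nat_lit 304) (nat_lit 0) (XT.nd (nat_lit 78) (nat_lit 228) (nat_lit 0) (XT.lf (nat_lit 0) (nat_lit 2370668649112) (nat_lit 228) (nat_lit 790823403365) (nat_lit 76) (nat_lit 7465007817678) (nat_lit 50) (nat_lit 5) (nat_lit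 53) (nat_lit 5) (nat_lit 51) (nat_lit 5) (nat_lit 509) (nat_lit 494) (nat_lit 197)) (XT.lf (nat_lit 0) (nat_lit 4348479776350) (nat_lit 304) (nat_lit 5591393937440) (nat_lit 76) (nat_lit 1186297275488) (nat_lit 47) (nat_lit 5) (nat_lit 51) (nat_lit 5) (nat_lit 48) (nat_lit 5) (nat_lit 510) (nat_lit 494) (nat_lit 196))) (XT.nd (nat_lit 78) (nat_lit 152) (nat_lit 0) (XT.lf (nat_lit 0) (nat_lit 699634631559) (nat_lit 152) (nat_lit 5906008205563) (nat_lit 228) (nat_lit 5050482797343) (nat_lit 45) (nat_lit 5) (nat_lit 47) (nat_lit 5) (nat_lit 48) (nat_lit 5) (nat_lit 511) (nat_lit 494) (nat_lit 195)) (XT.nd (nat_lit 78) (nat_lit 152) (nat_lit 0) (XT.lf (nat_lit 0) (nat_lit 7811933013593) (nat_lit 152) (nat_lit 1384324548135) (nat_lit 228) (nat_lit 3019988800020) (nat_lit 45) (nat_lit 5) (nat_lit 47) (nat_lit 5) (nat_lit 48) (nat_lit 5) (nat_lit 512) (nat_lit 494) (nat_lit 194)) (XT.lf (nat_lit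 0) (nat_lit 2724158678806) (nat_lit 152) (nat_lit 9419632157257) (nat_lit 228) (nat_lit 665412361410) (nat_lit 43) (nat_lit 5) (nat_lit 45) (nat_lit 5) (nat_lit 46) (nat_lit 5) (nat_lit 513) (nat_lit 494) (nat_lit 193))))) (XT.nd (nat_lit 234) (nat_lit 456) (nat_lit 0) (XT.nd (nat_lit 78) (nat_lit 0) (nat_lit 0) (XT.lf (nat_lit 0) (nat_lit 2789500782403) (nat_lit 532) (nat_lit 126541809084) (nat_lit 532) (nat_lit 126541809084) (nat_lit 69) (nat_lit 3) (nat_lit 76) (nat_lit 3) (nat_lit 76) (nat_lit 5) (nat_lit 495) (nat_lit 495) (nat_lit 210)) (XT.nd (nat_lit 78) (nat_lit 0) (nat_lit 76) (XT.lf (nat_lit 76) (nat_lit 2872441538750) (nat_lit 0) (nat_lit 2998802378395) (nat_lit 532) (nat_lit 451805052861) (nat_lit 70) (nat_lit 5) (nat_lit 69) (nat_lit 3) (nat_lit 76) (nat_lit 5) (nat_lit 496) (nat_lit 495) (nat_lit 209)) (XT.lf (nat_lit 0) (nat_lit 6195435637852) (nat_lit 456) (nat_lit 318654400004)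 (nat_lit 532) (nat_lit 65183916110) (nat_lit 70) (nat_lit 5) (nat_lit 76) (nat_lit 5) (nat_lit 77) (nat_lit 5) (nat_lit 497) (nat_lit 495) (nat_lit 208)))) (XT.nd (nat_lit 78) (nat_lit 532) (nat_lit 0) (XT.lf (nat_lit 76) (nat_lit 3143199470318) (nat_lit 0) (nat_lit 3555848219466) (nat_lit 532) (nat_lit 144670447374) (nat_lit 71) (nat_lit 5) (nat_lit 70) (nat_lit 5) (nat_lit 77) (nat_lit 5) (nat_lit 498) (nat_lit 495) (nat_lit 207)) (XT.nd (nat_lit 78) (nat_lit 0) (nat_lit 76) (XT.lf (nat_lit 0) (nat_lit 116885452024) (nat_lit 532) (nat_lit 231456166056) (nat_lit 608) (nat_lit 6780042500826) (nat_lit 63) (nat_lit 5) (nat_lit 70) (nat_lit 5) (nat_lit 71) (nat_lit 5) (nat_lit 499) (nat_lit 495) (nat_lit 206)) (XT.lf (nat_lit 0) (nat_lit 557786209478) (nat_lit 532) (nat_lit 3809475559772) (nat_lit 608) (nat_lit 3054962088193) (nat_lit 64) (nat_lit 5) (nat_lit 71) (nat_lit 5) (nat_lit 72) (nat_lit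 5) (nat_lit 500) (nat_lit 495) (nat_lit 205))))))) (XT.nd (nat_lit 858) (nat_lit 152) (nat_lit 0) (XT.nd (nat_lit 390) (nat_lit 684) (nat_lit 0) (XT.nd (nat_lit 156) (nat_lit 608) (nat_lit 0) (XT.nd (nat_lit 78) (nat_lit 0) (nat_lit 76) (XT.lf (nat_lit 76) (nat_lit 30922388605) (nat_lit 0) (nat_lit 1019320953566) (nat_lit 608) (nat_lit 6688024687721) (nat_lit 65) (nat_lit 5) (nat_lit 64) (nat_lit 5) (nat_lit 72) (nat_lit 5) (nat_lit 501) (nat_lit 495) (nat_lit 204)) (XT.lf (nat_lit 0) (nat_lit 1751405064125) (nat_lit 532) (nat_lit 3741212893800) (nat_lit 76) (nat_lit 2573433136720) (nat_lit 65) (nat_lit 5) (nat_lit 72) (nat_lit 5) (nat_lit 66) (nat_lit 5) (nat_lit 502) (nat_lit 495) (nat_lit 203))) (XT.nd (nat_lit 78) (nat_lit 228) (nat_lit 0) (XT.lf (nat_lit 0) (nat_lit 542892274764) (nat_lit 456) (nat_lit 2005299890145) (nat_lit 532) (nat_lit 5868702044383) (nat_lit 59) (nat_lit 5) (nat_lit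 65) (nat_lit 5) (nat_lit 66) (nat_lit 5) (nat_lit 503) (nat_lit 495) (nat_lit 202)) (XT.nd (nat_lit 78) (nat_lit 228) (nat_lit 0) (XT.lf (nat_lit 0) (nat_lit 3556022722886) (nat_lit 532) (nat_lit 3450138611620) (nat_lit 76) (nat_lit 1777859399475) (nat_lit 59) (nat_lit 5) (nat_lit 66) (nat_lit 5) (nat_lit 60) (nat_lit 5) (nat_lit 504) (nat_lit 495) (nat_lit 201)) (XT.lf (nat_lit 0) (nat_lit 1342716166252) (nat_lit 228) (nat_lit 3386141626672) (nat_lit 304) (nat_lit 4444909342328) (nat_lit 56) (nat_lit 5) (nat_lit 59) (nat_lit 5) (nat_lit 60) (nat_lit 5) (nat_lit 505) (nat_lit 495) (nat_lit 200))))) (XT.nd (nat_lit 234) (nat_lit 456) (nat_lit 0) (XT.nd (nat_lit 78) (nat_lit 228) (nat_lit 0) (XT.lf (nat_lit 0) (nat_lit 6104892475936) (nat_lit 304) (nat_lit 2886974753799) (nat_lit 76) (nat_lit 594076194298) (nat_lit 56) (nat_lit 5) (nat_lit 60) (nat_lit 5) (nat_lit 57) (nat_lit 5) (nat_lit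 506) (nat_lit 495) (nat_lit 199)) (XT.nd (nat_lit 78) (nat_lit 0) (nat_lit 0) (XT.lf (nat_lit 0) (nat_lit 2489195466488) (nat_lit 228) (nat_lit 5249631408410) (nat_lit 304) (nat_lit 2280441585715) (nat_lit 53) (nat_lit 5) (nat_lit 56) (nat_lit 5) (nat_lit 57) (nat_lit 5) (nat_lit 507) (nat_lit 495) (nat_lit 198)) (XT.lf (nat_lit 0) (nat_lit 8459644116628) (nat_lit 228) (nat_lit 1122766914994) (nat_lit 304) (nat_lit 898533668031) (nat_lit 53) (nat_lit 5) (nat_lit 56) (nat_lit 5) (nat_lit 57) (nat_lit 5) (nat_lit 508) (nat_lit 495) (nat_lit 197)))) (XT.nd (nat_lit 78) (nat_lit 228) (nat_lit 0) (XT.lf (nat_lit 0) (nat_lit 746435452772) (nat_lit 228) (nat_lit 6933630681001) (nat_lit 76) (nat_lit 3283768651752) (nat_lit 50) (nat_lit 5) (nat_lit 53) (nat_lit 5) (nat_lit 51) (nat_lit 5) (nat_lit 509) (nat_lit 495) (nat_lit 196)) (XT.nd (nat_lit 78) (nat_lit 228) (nat_lit 0) (XT.lf (nat_lit 0)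 (nat_lit 2560322142520) (nat_lit 228) (nat_lit 854089273710) (nat_lit 76) (nat_lit 8062208443418) (nat_lit 50) (nat_lit 5) (nat_lit 53) (nat_lit 5) (nat_lit 51) (nat_lit 5) (nat_lit 510) (nat_lit 495) (nat_lit 195)) (XT.lf (nat_lit 0) (nat_lit 4696358159884) (nat_lit 304) (nat_lit 6038705450457) (nat_lit 76) (nat_lit 1281201057965) (nat_lit 47) (nat_lit 5) (nat_lit 51) (nat_lit 5) (nat_lit 48) (nat_lit 5) (nat_lit 511) (nat_lit 495) (nat_lit 194)))))) (XT.nd (nat_lit 61542) (nat_lit 0) (nat_lit 1064) (XT.nd (nat_lit 61308) (nat_lit 0) (nat_lit 1824) (XT.nd (nat_lit 78) (nat_lit 0) (nat_lit 0) (XT.lf (nat_lit 0) (nat_lit 755605404012) (nat_lit 152) (nat_lit 6378488861446) (nat_lit 228) (nat_lit 5454521419654) (nat_lit 45) (nat_lit 5) (nat_lit 47) (nat_lit 5) (nat_lit 48) (nat_lit 5) (nat_lit 512) (nat_lit 495) (nat_lit 193)) (XT.nd (nat_lit 61152) (nat_lit 0) (nat_lit 1824) (XT.lf (nat_lit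 0) (nat_lit 8436887656466) (nat_lit 152) (nat_lit 1495070511465) (nat_lit 228) (nat_lit 3261587902654) (nat_lit 45) (nat_lit 5) (nat_lit 47) (nat_lit 5) (nat_lit 48) (nat_lit 5) (nat_lit 513) (nat_lit 495) (nat_lit 192)) (XT.lf (nat_lit 0) (nat_lit 3012660846613) (nat_lit 532) (nat_lit 136665152936) (nat_lit 532) (nat_lit 136665152936) (nat_lit 69) (nat_lit 3) (nat_lit 76) (nat_lit 3) (nat_lit 76) (nat_lit 5) (nat_lit 496) (nat_lit 496) (nat_lit 208)))) (XT.nd (nat_lit 78) (nat_lit 0) (nat_lit 76) (XT.lf (nat_lit 76) (nat_lit 3102236863555) (nat_lit 0) (nat_lit 3238706570000) (nat_lit 532) (nat_lit 487949453806) (nat_lit 70) (nat_lit 5) (nat_lit 69) (nat_lit 3) (nat_lit 76) (nat_lit 5) (nat_lit 497) (nat_lit 496) (nat_lit 207)) (XT.nd (nat_lit 78) (nat_lit 0) (nat_lit 0) (XT.lf (nat_lit 0) (nat_lit 6691070491664) (nat_lit 456) (nat_lit 344146750169) (nat_lit 532) (nat_lit 70398628226) (nat_lit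 70) (nat_lit 5) (nat_lit 76) (nat_lit 5) (nat_lit 77) (nat_lit 5) (nat_lit 498) (nat_lit 496) (nat_lit 206)) (XT.lf (nat_lit 76) (nat_lit 3394655429732) (nat_lit 0) (nat_lit 3840316077855) (nat_lit 532) (nat_lit 156244080332) (nat_lit 71) (nat_lit 5) (nat_lit 70) (nat_lit 5) (nat_lit 77) (nat_lit 5) (nat_lit 499) (nat_lit 496) (nat_lit 205))))) (XT.nd (nat_lit 234) (nat_lit 304) (nat_lit 0) (XT.nd (nat_lit 78) (nat_lit 0) (nat_lit 76) (XT.lf (nat_lit 0) (nat_lit 126236290677) (nat_lit 532) (nat_lit 249972657552) (nat_lit 608) (nat_lit 7322445899989) (nat_lit 63) (nat_lit 5) (nat_lit 70) (nat_lit 5) (nat_lit 71) (nat_lit 5) (nat_lit 500) (nat_lit 496) (nat_lit 204)) (XT.nd (nat_lit 78) (nat_lit 0) (nat_lit 0) (XT.lf (nat_lit 0) (nat_lit 602409108570) (nat_lit 532) (nat_lit 4114233602606) (nat_lit 608) (nat_lit 3299359054674) (nat_lit 64) (nat_lit 5) (nat_lit 71) (nat_lit 5) (nat_lit 72)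 (nat_lit 5) (nat_lit 501) (nat_lit 496) (nat_lit 203)) (XT.lf (nat_lit 76) (nat_lit 33396181592) (nat_lit 0) (nat_lit 1100866630159) (nat_lit 608) (nat_lit 7223066660354) (nat_lit 65) (nat_lit 5) (nat_lit 64) (nat_lit 5) (nat_lit 72) (nat_lit 5) (nat_lit 502) (nat_lit 496) (nat_lit 202)))) (XT.nd (nat_lit 78) (nat_lit 456) (nat_lit 0) (XT.lf (nat_lit 0) (nat_lit 1891517471291) (nat_lit 532) (nat_lit 4040509923375) (nat_lit 76) (nat_lit 2779307787386) (nat_lit 65) (nat_lit 5) (nat_lit 72) (nat_lit 5) (nat_lit 66) (nat_lit 5) (nat_lit 503) (nat_lit 496) (nat_lit 201)) (XT.nd (nat_lit 78) (nat_lit 0) (nat_lit 0) (XT.lf (nat_lit 0) (nat_lit 586323658626) (nat_lit 456) (nat_lit 2165723881407) (nat_lit 532) (nat_lit 6338198205847) (nat_lit 59) (nat_lit 5) (nat_lit 65) (nat_lit 5) (nat_lit 66) (nat_lit 5) (nat_lit 504) (nat_lit 496) (nat_lit 200)) (XT.lf (nat_lit 0) (nat_lit 3840504542503) (nat_lit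 532) (nat_lit 3726149698664) (nat_lit 76) (nat_lit 1920088151389) (nat_lit 59) (nat_lit 5) (nat_lit 66) (nat_lit 5) (nat_lit 60) (nat_lit 5) (nat_lit 505) (nat_lit 496) (nat_lit 199))))))))
noncomputable def xc253 : XT := (XT.nd (nat_lit 62868) (nat_lit 0) (nat_lit 152) (XT.nd (nat_lit 62010) (nat_lit 0) (nat_lit 608) (XT.nd (nat_lit 390) (nat_lit 380) (nat_lit 0) (XT.nd (nat_lit 156) (nat_lit 456) (nat_lit 0) (XT.nd (nat_lit 78) (nat_lit 0) (nat_lit 0) (XT.lf (nat_lit 0) (nat_lit 1450133461390) (nat_lit 228) (nat_lit 3657032956666) (nat_lit 304) (nat_lit 4800502087879) (nat_lit 56) (nat_lit 5) (nat_lit 59) (nat_lit 5) (nat_lit 60) (nat_lit 5) (nat_lit 506) (nat_lit 496) (nat_lit 198)) (XT.lf (nat_lit 0) (nat_lit 6593283875587) (nat_lit 304) (nat_lit 3117932732277) (nat_lit 76) (nat_lit 641602289965) (nat_lit 56) (nat_lit 5) (nat_lit 60) (nat_lit 5) (nat_lit 57) (nat_lit 5) (nat_lit 507)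 (nat_lit 496) (nat_lit 197))) (XT.nd (nat_lit 78) (nat_lit 228) (nat_lit 0) (XT.lf (nat_lit 0) (nat_lit 2688331105587) (nat_lit 228) (nat_lit 5669601920806) (nat_lit 304) (nat_lit 2462876910950) (nat_lit 53) (nat_lit 5) (nat_lit 56) (nat_lit 5) (nat_lit 57) (nat_lit 5) (nat_lit 508) (nat_lit 496) (nat_lit 196)) (XT.nd (nat_lit 78) (nat_lit 228) (nat_lit 0) (XT.lf (nat_lit 0) (nat_lit 9136415647606) (nat_lit 228) (nat_lit 1212588267936) (nat_lit 304) (nat_lit 970416359971) (nat_lit 53) (nat_lit 5) (nat_lit 56) (nat_lit 5) (nat_lit 57) (nat_lit 5) (nat_lit 509) (nat_lit 496) (nat_lit 195)) (XT.lf (nat_lit 0) (nat_lit 806150290364) (nat_lit 228) (nat_lit 7488321133699) (nat_lit 76) (nat_lit 3546470144194) (nat_lit 50) (nat_lit 5) (nat_lit 53) (nat_lit 5) (nat_lit 51) (nat_lit 5) (nat_lit 510) (nat_lit 496) (nat_lit 194))))) (XT.nd (nat_lit 61386) (nat_lit 0) (nat_lit 1824) (XT.nd (nat_lit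 78) (nat_lit 380) (nat_lit 0) (XT.lf (nat_lit 0) (nat_lit 2765147915190) (nat_lit 228) (nat_lit 922416413957) (nat_lit 76) (nat_lit 8707185119172) (nat_lit 50) (nat_lit 5) (nat_lit 53) (nat_lit 5) (nat_lit 51) (nat_lit 5) (nat_lit 511) (nat_lit 496) (nat_lit 193)) (XT.nd (nat_lit 78) (nat_lit 152) (nat_lit 0) (XT.lf (nat_lit 0) (nat_lit 5072066813898) (nat_lit 304) (nat_lit 6521801884797) (nat_lit 76) (nat_lit 1383697142978) (nat_lit 47) (nat_lit 5) (nat_lit 51) (nat_lit 5) (nat_lit 48) (nat_lit 5) (nat_lit 512) (nat_lit 496) (nat_lit 192)) (XT.lf (nat_lit 0) (nat_lit 816053837986) (nat_lit 152) (nat_lit 6888767969880) (nat_lit 228) (nat_lit 5890883131961) (nat_lit 45) (nat_lit 5) (nat_lit 47) (nat_lit 5) (nat_lit 48) (nat_lit 5) (nat_lit 513) (nat_lit 496) (nat_lit 191)))) (XT.nd (nat_lit 78) (nat_lit 0) (nat_lit 0) (XT.lf (nat_lit 0) (nat_lit 3253673715730) (nat_lit 532) (nat_lit 147598364421)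 (nat_lit 532) (nat_lit 147598364421) (nat_lit 69) (nat_lit 3) (nat_lit 76) (nat_lit 3) (nat_lit 76) (nat_lit 5) (nat_lit 497) (nat_lit 497) (nat_lit 206)) (XT.nd (nat_lit 78) (nat_lit 0) (nat_lit 76) (XT.lf (nat_lit 76) (nat_lit 3350415814101) (nat_lit 0) (nat_lit 3497803096743) (nat_lit 532) (nat_lit 526985407296) (nat_lit 70) (nat_lit 5) (nat_lit 69) (nat_lit 3) (nat_lit 76) (nat_lit 5) (nat_lit 498) (nat_lit 497) (nat_lit 205)) (XT.lf (nat_lit 0) (nat_lit 7226356133384) (nat_lit 456) (nat_lit 371678488609) (nat_lit 532) (nat_lit 76030517478) (nat_lit 70) (nat_lit 5) (nat_lit 76) (nat_lit 5) (nat_lit 77) (nat_lit 5) (nat_lit 499) (nat_lit 497) (nat_lit 204)))))) (XT.nd (nat_lit 390) (nat_lit 760) (nat_lit 0) (XT.nd (nat_lit 156) (nat_lit 0) (nat_lit 76) (XT.nd (nat_lit 78) (nat_lit 532) (nat_lit 0) (XT.lf (nat_lit 76) (nat_lit 3666227865644) (nat_lit 0) (nat_lit 4147541364796) (nat_lit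 532) (nat_lit 168743604330) (nat_lit 71) (nat_lit 5) (nat_lit 70) (nat_lit 5) (nat_lit 77) (nat_lit 5) (nat_lit 500) (nat_lit 497) (nat_lit 203)) (XT.lf (nat_lit 0) (nat_lit 136335196066) (nat_lit 532) (nat_lit 269970468622) (nat_lit 608) (nat_lit 7908241571214) (nat_lit 63) (nat_lit 5) (nat_lit 70) (nat_lit 5) (nat_lit 71) (nat_lit 5) (nat_lit 501) (nat_lit 497) (nat_lit 202))) (XT.nd (nat_lit 78) (nat_lit 0) (nat_lit 0) (XT.lf (nat_lit 0) (nat_lit 650601839257) (nat_lit 532) (nat_lit 4443372289145) (nat_lit 608) (nat_lit 3563307778555) (nat_lit 64) (nat_lit 5) (nat_lit 71) (nat_lit 5) (nat_lit 72) (nat_lit 5) (nat_lit 502) (nat_lit 497) (nat_lit 201)) (XT.nd (nat_lit 78) (nat_lit 0) (nat_lit 76) (XT.lf (nat_lit 76) (nat_lit 36067877747) (nat_lit 0) (nat_lit 1188935960837) (nat_lit 608) (nat_lit 7800911991138) (nat_lit 65) (nat_lit 5) (nat_lit 64) (nat_lit 5) (nat_lit 72) (nat_lit 5) (nat_lit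 503) (nat_lit 497) (nat_lit 200)) (XT.lf (nat_lit 0) (nat_lit 2042838870740) (nat_lit 532) (nat_lit 4363750715591) (nat_lit 76) (nat_lit 3001652410145) (nat_lit 65) (nat_lit 5) (nat_lit 72) (nat_lit 5) (nat_lit 66) (nat_lit 5) (nat_lit 504) (nat_lit 497) (nat_lit 199))))) (XT.nd (nat_lit 234) (nat_lit 228) (nat_lit 0) (XT.nd (nat_lit 78) (nat_lit 228) (nat_lit 0) (XT.lf (nat_lit 0) (nat_lit 633229552928) (nat_lit 456) (nat_lit 2338981791963) (nat_lit 532) (nat_lit 6845254060526) (nat_lit 59) (nat_lit 5) (nat_lit 65) (nat_lit 5) (nat_lit 66) (nat_lit 5) (nat_lit 505) (nat_lit 497) (nat_lit 198)) (XT.nd (nat_lit 78) (nat_lit 228) (nat_lit 0) (XT.lf (nat_lit 0) (nat_lit 4147744907435) (nat_lit 532) (nat_lit 4024241672940) (nat_lit 76) (nat_lit 2073695203462) (nat_lit 59) (nat_lit 5) (nat_lit 66) (nat_lit 5) (nat_lit 60) (nat_lit 5) (nat_lit 506) (nat_lit 497) (nat_lit 197)) (XT.lf (nat_lit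 0) (nat_lit 1566144139878) (nat_lit 228) (nat_lit 3949595593079) (nat_lit 304) (nat_lit 5184542253336) (nat_lit 56) (nat_lit 5) (nat_lit 59) (nat_lit 5) (nat_lit 60) (nat_lit 5) (nat_lit 507) (nat_lit 497) (nat_lit 196)))) (XT.nd (nat_lit 78) (nat_lit 228) (nat_lit 0) (XT.lf (nat_lit 0) (nat_lit 7120746586985) (nat_lit 304) (nat_lit 3367367349294) (nat_lit 76) (nat_lit 692930473268) (nat_lit 56) (nat_lit 5) (nat_lit 60) (nat_lit 5) (nat_lit 57) (nat_lit 5) (nat_lit 508) (nat_lit 497) (nat_lit 195)) (XT.nd (nat_lit 78) (nat_lit 0) (nat_lit 0) (XT.lf (nat_lit 0) (nat_lit 2903397595559) (nat_lit 228) (nat_lit 6123170074232) (nat_lit 304) (nat_lit 2659907062435) (nat_lit 53) (nat_lit 5) (nat_lit 56) (nat_lit 5) (nat_lit 57) (nat_lit 5) (nat_lit 509) (nat_lit 497) (nat_lit 194)) (XT.lf (nat_lit 0) (nat_lit 9867328900827) (nat_lit 228) (nat_lit 1309595329150) (nat_lit 304) (nat_lit 1048049667481)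 (nat_lit 53) (nat_lit 5) (nat_lit 56) (nat_lit 5) (nat_lit 57) (nat_lit 5) (nat_lit 510) (nat_lit 497) (nat_lit 193))))))) (XT.nd (nat_lit 62088) (nat_lit 0) (nat_lit 228) (XT.nd (nat_lit 61620) (nat_lit 0) (nat_lit 1216) (XT.nd (nat_lit 156) (nat_lit 228) (nat_lit 0) (XT.nd (nat_lit 78) (nat_lit 0) (nat_lit 0) (XT.lf (nat_lit 0) (nat_lit 870642314767) (nat_lit 228) (nat_lit 8087386822867) (nat_lit 76) (nat_lit 3830187755988) (nat_lit 50) (nat_lit 5) (nat_lit 53) (nat_lit 5) (nat_lit 51) (nat_lit 5) (nat_lit 511) (nat_lit 497) (nat_lit 192)) (XT.lf (nat_lit 0) (nat_lit 2986359749492) (nat_lit 228) (nat_lit 996209725659) (nat_lit 76) (nat_lit 9403759928945) (nat_lit 50) (nat_lit 5) (nat_lit 53) (nat_lit 5) (nat_lit 51) (nat_lit 5) (nat_lit 512) (nat_lit 497) (nat_lit 191))) (XT.nd (nat_lit 61308) (nat_lit 0) (nat_lit 1672) (XT.lf (nat_lit 0) (nat_lit 5477832160057) (nat_lit 304) (nat_lit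 7043546034126) (nat_lit 76) (nat_lit 1494392914738) (nat_lit 47) (nat_lit 5) (nat_lit 51) (nat_lit 5) (nat_lit 48) (nat_lit 5) (nat_lit 513) (nat_lit 497) (nat_lit 190)) (XT.nd (nat_lit 78) (nat_lit 0) (nat_lit 0) (XT.lf (nat_lit 0) (nat_lit 3513967614178) (nat_lit 532) (nat_lit 159406232932) (nat_lit 532) (nat_lit 159406232932) (nat_lit 69) (nat_lit 3) (nat_lit 76) (nat_lit 3) (nat_lit 76) (nat_lit 5) (nat_lit 498) (nat_lit 498) (nat_lit 204)) (XT.lf (nat_lit 76) (nat_lit 3618449080482) (nat_lit 0) (nat_lit 3777627345463) (nat_lit 532) (nat_lit 569144237466) (nat_lit 70) (nat_lit 5) (nat_lit 69) (nat_lit 3) (nat_lit 76) (nat_lit 5) (nat_lit 499) (nat_lit 498) (nat_lit 203))))) (XT.nd (nat_lit 234) (nat_lit 0) (nat_lit 76) (XT.nd (nat_lit 78) (nat_lit 532) (nat_lit 0) (XT.lf (nat_lit 0) (nat_lit 7804464626101) (nat_lit 456) (nat_lit 401412766349) (nat_lit 532) (nat_lit 82112958014) (nat_lit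 70) (nat_lit 5) (nat_lit 76) (nat_lit 5) (nat_lit 77) (nat_lit 5) (nat_lit 500) (nat_lit 498) (nat_lit 202)) (XT.nd (nat_lit 78) (nat_lit 532) (nat_lit 0) (XT.lf (nat_lit 76) (nat_lit 3959526096210) (nat_lit 0) (nat_lit 4479344674591) (nat_lit 532) (nat_lit 182243090595) (nat_lit 71) (nat_lit 5) (nat_lit 70) (nat_lit 5) (nat_lit 77) (nat_lit 5) (nat_lit 501) (nat_lit 498) (nat_lit 201)) (XT.lf (nat_lit 0) (nat_lit 147242013583) (nat_lit 532) (nat_lit 291568104797) (nat_lit 608) (nat_lit 8540900896248) (nat_lit 63) (nat_lit 5) (nat_lit 70) (nat_lit 5) (nat_lit 71) (nat_lit 5) (nat_lit 502) (nat_lit 498) (nat_lit 200)))) (XT.nd (nat_lit 78) (nat_lit 0) (nat_lit 0) (XT.lf (nat_lit 0) (nat_lit 702649988113) (nat_lit 532) (nat_lit 4798842070845) (nat_lit 608) (nat_lit 3848372400418) (nat_lit 64) (nat_lit 5) (nat_lit 71) (nat_lit 5) (nat_lit 72) (nat_lit 5) (nat_lit 503) (nat_lit 498) (nat_lit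 199)) (XT.nd (nat_lit 78) (nat_lit 0) (nat_lit 76) (XT.lf (nat_lit 76) (nat_lit 38953309362) (nat_lit 0) (nat_lit 1284050837930) (nat_lit 608) (nat_lit 8424984948676) (nat_lit 65) (nat_lit 5) (nat_lit 64) (nat_lit 5) (nat_lit 72) (nat_lit 5) (nat_lit 504) (nat_lit 498) (nat_lit 198)) (XT.lf (nat_lit 0) (nat_lit 2206265981896) (nat_lit 532) (nat_lit 4712850771421) (nat_lit 76) (nat_lit 3241784602757) (nat_lit 65) (nat_lit 5) (nat_lit 72) (nat_lit 5) (nat_lit 66) (nat_lit 5) (nat_lit 505) (nat_lit 498) (nat_lit 197)))))) (XT.nd (nat_lit 468) (nat_lit 228) (nat_lit 0) (XT.nd (nat_lit 234) (nat_lit 228) (nat_lit 0) (XT.nd (nat_lit 78) (nat_lit 228) (nat_lit 0) (XT.lf (nat_lit 0) (nat_lit 683887918544) (nat_lit 456) (nat_lit 2526100335357) (nat_lit 532) (nat_lit 7392874383835) (nat_lit 59) (nat_lit 5) (nat_lit 65) (nat_lit 5) (nat_lit 66) (nat_lit 5) (nat_lit 506) (nat_lit 498) (nat_lit 196))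 (XT.nd (nat_lit 78) (nat_lit 228) (nat_lit 0) (XT.lf (nat_lit 0) (nat_lit 4479564501343) (nat_lit 532) (nat_lit 4346181005389) (nat_lit 76) (nat_lit 2239590819706) (nat_lit 59) (nat_lit 5) (nat_lit 66) (nat_lit 5) (nat_lit 60) (nat_lit 5) (nat_lit 507) (nat_lit 498) (nat_lit 195)) (XT.lf (nat_lit 0) (nat_lit 1691435672419) (nat_lit 228) (nat_lit 4265563240423) (nat_lit 304) (nat_lit 5599305632254) (nat_lit 56) (nat_lit 5) (nat_lit 59) (nat_lit 5) (nat_lit 60) (nat_lit 5) (nat_lit 508) (nat_lit 498) (nat_lit 194)))) (XT.nd (nat_lit 78) (nat_lit 228) (nat_lit 0) (XT.lf (nat_lit 0) (nat_lit 7690406315102) (nat_lit 304) (nat_lit 3636756735896) (nat_lit 76) (nat_lit 748364911220) (nat_lit 56) (nat_lit 5) (nat_lit 60) (nat_lit 5) (nat_lit 57) (nat_lit 5) (nat_lit 509) (nat_lit 498) (nat_lit 193)) (XT.nd (nat_lit 78) (nat_lit 0) (nat_lit 0) (XT.lf (nat_lit 0) (nat_lit 3135669404512) (nat_lit 228)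 (nat_lit 6613023679967) (nat_lit 304) (nat_lit 2872699626237) (nat_lit 53) (nat_lit 5) (nat_lit 56) (nat_lit 5) (nat_lit 57) (nat_lit 5) (nat_lit 510) (nat_lit 498) (nat_lit 192)) (XT.lf (nat_lit 0) (nat_lit 10656715214105) (nat_lit 228) (nat_lit 1414362955294) (nat_lit 304) (nat_lit 1131893639775) (nat_lit 53) (nat_lit 5) (nat_lit 56) (nat_lit 5) (nat_lit 57) (nat_lit 5) (nat_lit 511) (nat_lit 498) (nat_lit 191))))) (XT.nd (nat_lit 61620) (nat_lit 0) (nat_lit 988) (XT.nd (nat_lit 61464) (nat_lit 0) (nat_lit 1444) (XT.lf (nat_lit 0) (nat_lit 940293700955) (nat_lit 228) (nat_lit 8734377767387) (nat_lit 76) (nat_lit 4136602776689) (nat_lit 50) (nat_lit 5) (nat_lit 53) (nat_lit 5) (nat_lit 51) (nat_lit 5) (nat_lit 512) (nat_lit 498) (nat_lit 190)) (XT.nd (nat_lit 78) (nat_lit 0) (nat_lit 0) (XT.lf (nat_lit 0) (nat_lit 3795085024333) (nat_lit 532) (nat_lit 172158731015) (nat_lit 532) (nat_lit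 172158731015) (nat_lit 69) (nat_lit 3) (nat_lit 76) (nat_lit 3) (nat_lit 76) (nat_lit 5) (nat_lit 499) (nat_lit 499) (nat_lit 202)) (XT.lf (nat_lit 76) (nat_lit 3907925007995) (nat_lit 0) (nat_lit 4079837533941) (nat_lit 532) (nat_lit 614675774394) (nat_lit 70) (nat_lit 5) (nat_lit 69) (nat_lit 3) (nat_lit 76) (nat_lit 5) (nat_lit 500) (nat_lit 499) (nat_lit 201)))) (XT.nd (nat_lit 78) (nat_lit 532) (nat_lit 0) (XT.lf (nat_lit 0) (nat_lit 8428821797943) (nat_lit 456) (nat_lit 433525786500) (nat_lit 532) (nat_lit 88681993916) (nat_lit 70) (nat_lit 5) (nat_lit 76) (nat_lit 5) (nat_lit 77) (nat_lit 5) (nat_lit 501) (nat_lit 499) (nat_lit 200)) (XT.nd (nat_lit 78) (nat_lit 532) (nat_lit 0) (XT.lf (nat_lit 76) (nat_lit 4276288185035) (nat_lit 0) (nat_lit 4837692249083) (nat_lit 532) (nat_lit 196822536058) (nat_lit 71) (nat_lit 5) (nat_lit 70) (nat_lit 5) (nat_lit 77) (nat_lit 5) (nat_lit 502)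 (nat_lit 499) (nat_lit 199)) (XT.lf (nat_lit 0) (nat_lit 159021376239) (nat_lit 532) (nat_lit 314893552053) (nat_lit 608) (nat_lit 9224172967379) (nat_lit 63) (nat_lit 5) (nat_lit 70) (nat_lit 5) (nat_lit 71) (nat_lit 5) (nat_lit 503) (nat_lit 499) (nat_lit 198))))))))
noncomputable def xc254 : XT := (XT.nd (nat_lit 124722) (nat_lit 0) (nat_lit 228) (XT.nd (nat_lit 62322) (nat_lit 0) (nat_lit 0) (XT.nd (nat_lit 390) (nat_lit 456) (nat_lit 0) (XT.nd (nat_lit 156) (nat_lit 380) (nat_lit 0) (XT.nd (nat_lit 78) (nat_lit 0) (nat_lit 0) (XT.lf (nat_lit 0) (nat_lit 758861988632) (nat_lit 532) (nat_lit 5182749435286) (nat_lit 608) (nat_lit 4156242192089) (nat_lit 64) (nat_lit 5) (nat_lit 71) (nat_lit 5) (nat_lit 72) (nat_lit 5) (nat_lit 504) (nat_lit 499) (nat_lit 197)) (XT.lf (nat_lit 76) (nat_lit 42069575307) (nat_lit 0) (nat_lit 1386774905159) (nat_lit 608) (nat_lit 9098983743068) (nat_lit 65)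 (nat_lit 5) (nat_lit 64) (nat_lit 5) (nat_lit 72) (nat_lit 5) (nat_lit 505) (nat_lit 499) (nat_lit 196))) (XT.nd (nat_lit 78) (nat_lit 456) (nat_lit 0) (XT.lf (nat_lit 0) (nat_lit 2382767261731) (nat_lit 532) (nat_lit 5089878831919) (nat_lit 76) (nat_lit 3501127370806) (nat_lit 65) (nat_lit 5) (nat_lit 72) (nat_lit 5) (nat_lit 66) (nat_lit 5) (nat_lit 506) (nat_lit 499) (nat_lit 195)) (XT.nd (nat_lit 78) (nat_lit 0) (nat_lit 0) (XT.lf (nat_lit 0) (nat_lit 738598953213) (nat_lit 456) (nat_lit 2728188362217) (nat_lit 532) (nat_lit 7984304333227) (nat_lit 59) (nat_lit 5) (nat_lit 65) (nat_lit 5) (nat_lit 66) (nat_lit 5) (nat_lit 507) (nat_lit 499) (nat_lit 194)) (XT.lf (nat_lit 0) (nat_lit 4837929662577) (nat_lit 532) (nat_lit 4693875484631) (nat_lit 76) (nat_lit 2418758085255) (nat_lit 59) (nat_lit 5) (nat_lit 66) (nat_lit 5) (nat_lit 60) (nat_lit 5) (nat_lit 508) (nat_lit 499) (nat_lit 193)))))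 (XT.nd (nat_lit 234) (nat_lit 0) (nat_lit 0) (XT.nd (nat_lit 78) (nat_lit 228) (nat_lit 0) (XT.lf (nat_lit 0) (nat_lit 1826750527371) (nat_lit 228) (nat_lit 4606808299568) (nat_lit 304) (nat_lit 6047250081678) (nat_lit 56) (nat_lit 5) (nat_lit 59) (nat_lit 5) (nat_lit 60) (nat_lit 5) (nat_lit 509) (nat_lit 499) (nat_lit 192)) (XT.nd (nat_lit 78) (nat_lit 228) (nat_lit 0) (XT.lf (nat_lit 0) (nat_lit 8305638821303) (nat_lit 304) (nat_lit 3927697273617) (nat_lit 76) (nat_lit 808234104195) (nat_lit 56) (nat_lit 5) (nat_lit 60) (nat_lit 5) (nat_lit 57) (nat_lit 5) (nat_lit 510) (nat_lit 499) (nat_lit 191)) (XT.lf (nat_lit 0) (nat_lit 3386522957994) (nat_lit 228) (nat_lit 7142065574189) (nat_lit 304) (nat_lit 3102515595313) (nat_lit 53) (nat_lit 5) (nat_lit 56) (nat_lit 5) (nat_lit 57) (nat_lit 5) (nat_lit 511) (nat_lit 499) (nat_lit 190)))) (XT.nd (nat_lit 61542) (nat_lit 0) (nat_lit 1216) (XT.lf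 (nat_lit 0) (nat_lit 11509252432271) (nat_lit 228) (nat_lit 1527511991555) (nat_lit 304) (nat_lit 1222445130010) (nat_lit 53) (nat_lit 5) (nat_lit 56) (nat_lit 5) (nat_lit 57) (nat_lit 5) (nat_lit 512) (nat_lit 499) (nat_lit 189)) (XT.nd (nat_lit 78) (nat_lit 0) (nat_lit 0) (XT.lf (nat_lit 0) (nat_lit 4098691827154) (nat_lit 532) (nat_lit 185931429024) (nat_lit 532) (nat_lit 185931429024) (nat_lit 69) (nat_lit 3) (nat_lit 76) (nat_lit 3) (nat_lit 76) (nat_lit 5) (nat_lit 500) (nat_lit 500) (nat_lit 200)) (XT.lf (nat_lit 76) (nat_lit 4220559009556) (nat_lit 0) (nat_lit 4406224537376) (nat_lit 532) (nat_lit 663849834572) (nat_lit 70) (nat_lit 5) (nat_lit 69) (nat_lit 3) (nat_lit 76) (nat_lit 5) (nat_lit 501) (nat_lit 500) (nat_lit 199)))))) (XT.nd (nat_lit 390) (nat_lit 760) (nat_lit 0) (XT.nd (nat_lit 156) (nat_lit 532) (nat_lit 0) (XT.nd (nat_lit 78) (nat_lit 0) (nat_lit 0) (XT.lf (nat_lit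 0) (nat_lit 9103127543282) (nat_lit 456) (nat_lit 468207848429) (nat_lit 532) (nat_lit 95776552796) (nat_lit 70) (nat_lit 5) (nat_lit 76) (nat_lit 5) (nat_lit 77) (nat_lit 5) (nat_lit 502) (nat_lit 500) (nat_lit 198)) (XT.lf (nat_lit 76) (nat_lit 4618391240804) (nat_lit 0) (nat_lit 5224707629459) (nat_lit 532) (nat_lit 212568337413) (nat_lit 71) (nat_lit 5) (nat_lit 70) (nat_lit 5) (nat_lit 77) (nat_lit 5) (nat_lit 503) (nat_lit 500) (nat_lit 197))) (XT.nd (nat_lit 78) (nat_lit 0) (nat_lit 76) (XT.lf (nat_lit 0) (nat_lit 171743087684) (nat_lit 532) (nat_lit 340085035251) (nat_lit 608) (nat_lit 9962106804282) (nat_lit 63) (nat_lit 5) (nat_lit 70) (nat_lit 5) (nat_lit 71) (nat_lit 5) (nat_lit 504) (nat_lit 500) (nat_lit 196)) (XT.nd (nat_lit 78) (nat_lit 0) (nat_lit 0) (XT.lf (nat_lit 0) (nat_lit 819570948984) (nat_lit 532) (nat_lit 5597369389056) (nat_lit 608) (nat_lit 4488741567146) (nat_lit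 64) (nat_lit 5) (nat_lit 71) (nat_lit 5) (nat_lit 72) (nat_lit 5) (nat_lit 505) (nat_lit 500) (nat_lit 195)) (XT.lf (nat_lit 76) (nat_lit 45435142357) (nat_lit 0) (nat_lit 1497716897739) (nat_lit 608) (nat_lit 9826902441225) (nat_lit 65) (nat_lit 5) (nat_lit 64) (nat_lit 5) (nat_lit 72) (nat_lit 5) (nat_lit 506) (nat_lit 500) (nat_lit 194))))) (XT.nd (nat_lit 234) (nat_lit 456) (nat_lit 0) (XT.nd (nat_lit 78) (nat_lit 456) (nat_lit 0) (XT.lf (nat_lit 0) (nat_lit 2573388643770) (nat_lit 532) (nat_lit 5497069137430) (nat_lit 76) (nat_lit 3781217560324) (nat_lit 65) (nat_lit 5) (nat_lit 72) (nat_lit 5) (nat_lit 66) (nat_lit 5) (nat_lit 507) (nat_lit 500) (nat_lit 193)) (XT.nd (nat_lit 78) (nat_lit 0) (nat_lit 0) (XT.lf (nat_lit 0) (nat_lit 797686870485) (nat_lit 456) (nat_lit 2946443431222) (nat_lit 532) (nat_lit 8623048678759) (nat_lit 59) (nat_lit 5) (nat_lit 65) (nat_lit 5) (nat_lit 66)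 (nat_lit 5) (nat_lit 508) (nat_lit 500) (nat_lit 192)) (XT.lf (nat_lit 0) (nat_lit 5224964036548) (nat_lit 532) (nat_lit 5069385522383) (nat_lit 76) (nat_lit 2612258732052) (nat_lit 59) (nat_lit 5) (nat_lit 66) (nat_lit 5) (nat_lit 60) (nat_lit 5) (nat_lit 509) (nat_lit 500) (nat_lit 191)))) (XT.nd (nat_lit 78) (nat_lit 228) (nat_lit 0) (XT.lf (nat_lit 0) (nat_lit 1972890570554) (nat_lit 228) (nat_lit 4975352963458) (nat_lit 304) (nat_lit 6531030087220) (nat_lit 56) (nat_lit 5) (nat_lit 59) (nat_lit 5) (nat_lit 60) (nat_lit 5) (nat_lit 510) (nat_lit 500) (nat_lit 190)) (XT.nd (nat_lit 78) (nat_lit 228) (nat_lit 0) (XT.lf (nat_lit 0) (nat_lit 8970089927858) (nat_lit 304) (nat_lit 4241913054520) (nat_lit 76) (nat_lit 872892832598) (nat_lit 56) (nat_lit 5) (nat_lit 60) (nat_lit 5) (nat_lit 57) (nat_lit 5) (nat_lit 511) (nat_lit 500) (nat_lit 189)) (XT.lf (nat_lit 0) (nat_lit 3657444795595)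 (nat_lit 228) (nat_lit 7713430819974) (nat_lit 304) (nat_lit 3350716842062) (nat_lit 53) (nat_lit 5) (nat_lit 56) (nat_lit 5) (nat_lit 57) (nat_lit 5) (nat_lit 512) (nat_lit 500) (nat_lit 188))))))) (XT.nd (nat_lit 858) (nat_lit 0) (nat_lit 0) (XT.nd (nat_lit 390) (nat_lit 532) (nat_lit 0) (XT.nd (nat_lit 156) (nat_lit 456) (nat_lit 0) (XT.nd (nat_lit 78) (nat_lit 0) (nat_lit 0) (XT.lf (nat_lit 0) (nat_lit 4426587174076) (nat_lit 532) (nat_lit 200805942941) (nat_lit 532) (nat_lit 200805942941) (nat_lit 69) (nat_lit 3) (nat_lit 76) (nat_lit 3) (nat_lit 76) (nat_lit 5) (nat_lit 501) (nat_lit 501) (nat_lit 198)) (XT.lf (nat_lit 76) (nat_lit 4558203731110) (nat_lit 0) (nat_lit 4758722500984) (nat_lit 532) (nat_lit 716957819817) (nat_lit 70) (nat_lit 5) (nat_lit 69) (nat_lit 3) (nat_lit 76) (nat_lit 5) (nat_lit 502) (nat_lit 501) (nat_lit 197))) (XT.nd (nat_lit 78) (nat_lit 532) (nat_lit 0)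 (XT.lf (nat_lit 0) (nat_lit 9831377748034) (nat_lit 456) (nat_lit 505664475453) (nat_lit 532) (nat_lit 103438676476) (nat_lit 70) (nat_lit 5) (nat_lit 76) (nat_lit 5) (nat_lit 77) (nat_lit 5) (nat_lit 503) (nat_lit 501) (nat_lit 196)) (XT.nd (nat_lit 78) (nat_lit 532) (nat_lit 0) (XT.lf (nat_lit 76) (nat_lit 4987862540897) (nat_lit 0) (nat_lit 5642684240201) (nat_lit 532) (nat_lit 229573803094) (nat_lit 71) (nat_lit 5) (nat_lit 70) (nat_lit 5) (nat_lit 77) (nat_lit 5) (nat_lit 504) (nat_lit 501) (nat_lit 195)) (XT.lf (nat_lit 0) (nat_lit 185482535853) (nat_lit 532) (nat_lit 367291837243) (nat_lit 608) (nat_lit 10759075348206) (nat_lit 63) (nat_lit 5) (nat_lit 70) (nat_lit 5) (nat_lit 71) (nat_lit 5) (nat_lit 505) (nat_lit 501) (nat_lit 194))))) (XT.nd (nat_lit 234) (nat_lit 608) (nat_lit 0) (XT.nd (nat_lit 78) (nat_lit 0) (nat_lit 0) (XT.lf (nat_lit 0) (nat_lit 885136625984) (nat_lit 532)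 (nat_lit 6045158939279) (nat_lit 608) (nat_lit 4847840892251) (nat_lit 64) (nat_lit 5) (nat_lit 71) (nat_lit 5) (nat_lit 72) (nat_lit 5) (nat_lit 506) (nat_lit 501) (nat_lit 193)) (XT.nd (nat_lit 78) (nat_lit 0) (nat_lit 76) (XT.lf (nat_lit 76) (nat_lit 49069954625) (nat_lit 0) (nat_lit 1617534249701) (nat_lit 608) (nat_lit 10613054635419) (nat_lit 65) (nat_lit 5) (nat_lit 64) (nat_lit 5) (nat_lit 72) (nat_lit 5) (nat_lit 507) (nat_lit 501) (nat_lit 192)) (XT.lf (nat_lit 0) (nat_lit 2779259736214) (nat_lit 532) (nat_lit 5936834667531) (nat_lit 76) (nat_lit 4083714965025) (nat_lit 65) (nat_lit 5) (nat_lit 72) (nat_lit 5) (nat_lit 66) (nat_lit 5) (nat_lit 508) (nat_lit 501) (nat_lit 191)))) (XT.nd (nat_lit 78) (nat_lit 228) (nat_lit 0) (XT.lf (nat_lit 0) (nat_lit 861501820995) (nat_lit 456) (nat_lit 3182158905743) (nat_lit 532) (nat_lit 9312892572093) (nat_lit 59) (nat_lit 5) (nat_lit 65)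 (nat_lit 5) (nat_lit 66) (nat_lit 5) (nat_lit 509) (nat_lit 501) (nat_lit 190)) (XT.nd (nat_lit 78) (nat_lit 228) (nat_lit 0) (XT.lf (nat_lit 0) (nat_lit 5642961160299) (nat_lit 532) (nat_lit 5474936363300) (nat_lit 76) (nat_lit 2821239430595) (nat_lit 59) (nat_lit 5) (nat_lit 66) (nat_lit 5) (nat_lit 60) (nat_lit 5) (nat_lit 510) (nat_lit 501) (nat_lit 189)) (XT.lf (nat_lit 0) (nat_lit 2130721817050) (nat_lit 228) (nat_lit 5373381200470) (nat_lit 304) (nat_lit 7053512493348) (nat_lit 56) (nat_lit 5) (nat_lit 59) (nat_lit 5) (nat_lit 60) (nat_lit 5) (nat_lit 511) (nat_lit 501) (nat_lit 188)))))) (XT.nd (nat_lit 62088) (nat_lit 0) (nat_lit 0) (XT.nd (nat_lit 61854) (nat_lit 0) (nat_lit 532) (XT.nd (nat_lit 61698) (nat_lit 0) (nat_lit 988) (XT.lf (nat_lit 0) (nat_lit 9687697122817) (nat_lit 304) (nat_lit 4581266098036) (nat_lit 76) (nat_lit 942724259262) (nat_lit 56) (nat_lit 5) (nat_lit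 60) (nat_lit 5) (nat_lit 57) (nat_lit 5) (nat_lit 512) (nat_lit 501) (nat_lit 187)) (XT.nd (nat_lit 78) (nat_lit 0) (nat_lit 0) (XT.lf (nat_lit 0) (nat_lit 4780714148645) (nat_lit 532) (nat_lit 216870418029) (nat_lit 532) (nat_lit 216870418029) (nat_lit 69) (nat_lit 3) (nat_lit 76) (nat_lit 3) (nat_lit 76) (nat_lit 5) (nat_lit 502) (nat_lit 502) (nat_lit 196)) (XT.lf (nat_lit 76) (nat_lit 4922860030276) (nat_lit 0) (nat_lit 5139420301593) (nat_lit 532) (nat_lit 774314444098) (nat_lit 70) (nat_lit 5) (nat_lit 69) (nat_lit 3) (nat_lit 76) (nat_lit 5) (nat_lit 503) (nat_lit 502) (nat_lit 195)))) (XT.nd (nat_lit 78) (nat_lit 532) (nat_lit 0) (XT.lf (nat_lit 0) (nat_lit 10617887968983) (nat_lit 456) (nat_lit 546117632761) (nat_lit 532) (nat_lit 111713770128) (nat_lit 70) (nat_lit 5) (nat_lit 76) (nat_lit 5) (nat_lit 77) (nat_lit 5) (nat_lit 504) (nat_lit 502) (nat_lit 194)) (XT.nd (nat_lit 78)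 (nat_lit 532) (nat_lit 0) (XT.lf (nat_lit 76) (nat_lit 5386891544879) (nat_lit 0) (nat_lit 6094098979747) (nat_lit 532) (nat_lit 247939706217) (nat_lit 71) (nat_lit 5) (nat_lit 70) (nat_lit 5) (nat_lit 77) (nat_lit 5) (nat_lit 505) (nat_lit 502) (nat_lit 193)) (XT.lf (nat_lit 0) (nat_lit 200321139710) (nat_lit 532) (nat_lit 396675183511) (nat_lit 608) (nat_lit 11619801375704) (nat_lit 63) (nat_lit 5) (nat_lit 70) (nat_lit 5) (nat_lit 71) (nat_lit 5) (nat_lit 506) (nat_lit 502) (nat_lit 192))))) (XT.nd (nat_lit 234) (nat_lit 608) (nat_lit 0) (XT.nd (nat_lit 78) (nat_lit 0) (nat_lit 0) (XT.lf (nat_lit 0) (nat_lit 955947556989) (nat_lit 532) (nat_lit 6528771653648) (nat_lit 608) (nat_lit 5235668163403) (nat_lit 64) (nat_lit 5) (nat_lit 71) (nat_lit 5) (nat_lit 72) (nat_lit 5) (nat_lit 507) (nat_lit 502) (nat_lit 191)) (XT.nd (nat_lit 78) (nat_lit 0) (nat_lit 76) (XT.lf (nat_lit 76) (nat_lit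 52995551748) (nat_lit 0) (nat_lit 1746936989799) (nat_lit 608) (nat_lit 11462099005306) (nat_lit 65) (nat_lit 5) (nat_lit 64) (nat_lit 5) (nat_lit 72) (nat_lit 5) (nat_lit 508) (nat_lit 502) (nat_lit 190)) (XT.lf (nat_lit 0) (nat_lit 3001600515920) (nat_lit 532) (nat_lit 6411781440168) (nat_lit 76) (nat_lit 4410412162119) (nat_lit 65) (nat_lit 5) (nat_lit 72) (nat_lit 5) (nat_lit 66) (nat_lit 5) (nat_lit 509) (nat_lit 502) (nat_lit 189)))) (XT.nd (nat_lit 78) (nat_lit 228) (nat_lit 0) (XT.lf (nat_lit 0) (nat_lit 930421967421) (nat_lit 456) (nat_lit 3436731618223) (nat_lit 532) (nat_lit 10057923977032) (nat_lit 59) (nat_lit 5) (nat_lit 65) (nat_lit 5) (nat_lit 66) (nat_lit 5) (nat_lit 510) (nat_lit 502) (nat_lit 188)) (XT.nd (nat_lit 78) (nat_lit 228) (nat_lit 0) (XT.lf (nat_lit 0) (nat_lit 6094398053833) (nat_lit 532) (nat_lit 5912931271615) (nat_lit 76) (nat_lit 3046938585025) (nat_lit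 59) (nat_lit 5) (nat_lit 66) (nat_lit 5) (nat_lit 60) (nat_lit 5) (nat_lit 511) (nat_lit 502) (nat_lit 187)) (XT.lf (nat_lit 0) (nat_lit 2301179563144) (nat_lit 228) (nat_lit 5803251696452) (nat_lit 304) (nat_lit 7617793492087) (nat_lit 56) (nat_lit 5) (nat_lit 59) (nat_lit 5) (nat_lit 60) (nat_lit 5) (nat_lit 512) (nat_lit 502) (nat_lit 186))))))))
noncomputable def xc255 : XT := (XT.nd (nat_lit 125424) (nat_lit 0) (nat_lit 304) (XT.nd (nat_lit 62634) (nat_lit 0) (nat_lit 0) (XT.nd (nat_lit 390) (nat_lit 304) (nat_lit 0) (XT.nd (nat_lit 156) (nat_lit 456) (nat_lit 0) (XT.nd (nat_lit 78) (nat_lit 0) (nat_lit 0) (XT.lf (nat_lit 0) (nat_lit 5163171281088) (nat_lit 532) (nat_lit 234220051173) (nat_lit 532) (nat_lit 234220051173) (nat_lit 69) (nat_lit 3) (nat_lit 76) (nat_lit 3) (nat_lit 76) (nat_lit 5) (nat_lit 503) (nat_lit 503) (nat_lit 194)) (XT.lf (nat_lit 76) (nat_lit 5316688833279) (nat_lit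 0) (nat_lit 5550573926174) (nat_lit 532) (nat_lit 836259598508) (nat_lit 70) (nat_lit 5) (nat_lit 69) (nat_lit 3) (nat_lit 76) (nat_lit 5) (nat_lit 504) (nat_lit 503) (nat_lit 193))) (XT.nd (nat_lit 78) (nat_lit 532) (nat_lit 0) (XT.lf (nat_lit 0) (nat_lit 11467319007449) (nat_lit 456) (nat_lit 589807042757) (nat_lit 532) (nat_lit 120650871339) (nat_lit 70) (nat_lit 5) (nat_lit 76) (nat_lit 5) (nat_lit 77) (nat_lit 5) (nat_lit 505) (nat_lit 503) (nat_lit 192)) (XT.nd (nat_lit 78) (nat_lit 532) (nat_lit 0) (XT.lf (nat_lit 76) (nat_lit 5817842869078) (nat_lit 0) (nat_lit 6581626898410) (nat_lit 532) (nat_lit 267774881751) (nat_lit 71) (nat_lit 5) (nat_lit 70) (nat_lit 5) (nat_lit 77) (nat_lit 5) (nat_lit 506) (nat_lit 503) (nat_lit 191)) (XT.lf (nat_lit 0) (nat_lit 216346831735) (nat_lit 532) (nat_lit 428409197583) (nat_lit 608) (nat_lit 12549385485453) (nat_lit 63) (nat_lit 5) (nat_lit 70)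 (nat_lit 5) (nat_lit 71) (nat_lit 5) (nat_lit 507) (nat_lit 503) (nat_lit 190))))) (XT.nd (nat_lit 234) (nat_lit 380) (nat_lit 0) (XT.nd (nat_lit 78) (nat_lit 0) (nat_lit 0) (XT.lf (nat_lit 0) (nat_lit 1032423362343) (nat_lit 532) (nat_lit 7051073385277) (nat_lit 608) (nat_lit 5654521616280) (nat_lit 64) (nat_lit 5) (nat_lit 71) (nat_lit 5) (nat_lit 72) (nat_lit 5) (nat_lit 508) (nat_lit 503) (nat_lit 189)) (XT.nd (nat_lit 78) (nat_lit 0) (nat_lit 76) (XT.lf (nat_lit 76) (nat_lit 57235196535) (nat_lit 0) (nat_lit 1886691949088) (nat_lit 608) (nat_lit 12379066924918) (nat_lit 65) (nat_lit 5) (nat_lit 64) (nat_lit 5) (nat_lit 72) (nat_lit 5) (nat_lit 509) (nat_lit 503) (nat_lit 188)) (XT.lf (nat_lit 0) (nat_lit 3241728557887) (nat_lit 532) (nat_lit 6924723954724) (nat_lit 76) (nat_lit 4763245134996) (nat_lit 65) (nat_lit 5) (nat_lit 72) (nat_lit 5) (nat_lit 66) (nat_lit 5) (nat_lit 510) (nat_lit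 503) (nat_lit 187)))) (XT.nd (nat_lit 78) (nat_lit 0) (nat_lit 0) (XT.lf (nat_lit 0) (nat_lit 1004855725455) (nat_lit 456) (nat_lit 3711670147698) (nat_lit 532) (nat_lit 10862557894484) (nat_lit 59) (nat_lit 5) (nat_lit 65) (nat_lit 5) (nat_lit 66) (nat_lit 5) (nat_lit 511) (nat_lit 503) (nat_lit 186)) (XT.nd (nat_lit 61854) (nat_lit 0) (nat_lit 760) (XT.lf (nat_lit 0) (nat_lit 6581949898748) (nat_lit 532) (nat_lit 6385965772702) (nat_lit 76) (nat_lit 3290693671812) (nat_lit 59) (nat_lit 5) (nat_lit 66) (nat_lit 5) (nat_lit 60) (nat_lit 5) (nat_lit 512) (nat_lit 503) (nat_lit 185)) (XT.lf (nat_lit 0) (nat_lit 5576224984047) (nat_lit 532) (nat_lit 252957655012) (nat_lit 532) (nat_lit 252957655012) (nat_lit 69) (nat_lit 3) (nat_lit 76) (nat_lit 3) (nat_lit 76) (nat_lit 5) (nat_lit 504) (nat_lit 504) (nat_lit 192)))))) (XT.nd (nat_lit 468) (nat_lit 304) (nat_lit 0) (XT.nd (nat_lit 234) (nat_lit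 456) (nat_lit 0) (XT.nd (nat_lit 78) (nat_lit 0) (nat_lit 76) (XT.lf (nat_lit 76) (nat_lit 5742023940439) (nat_lit 0) (nat_lit 5994619840657) (nat_lit 532) (nat_lit 903160365430) (nat_lit 70) (nat_lit 5) (nat_lit 69) (nat_lit 3) (nat_lit 76) (nat_lit 5) (nat_lit 505) (nat_lit 504) (nat_lit 191)) (XT.nd (nat_lit 78) (nat_lit 0) (nat_lit 0) (XT.lf (nat_lit 0) (nat_lit 12384704528857) (nat_lit 456) (nat_lit 636991605641) (nat_lit 532) (nat_lit 130302940704) (nat_lit 70) (nat_lit 5) (nat_lit 76) (nat_lit 5) (nat_lit 77) (nat_lit 5) (nat_lit 506) (nat_lit 504) (nat_lit 190)) (XT.lf (nat_lit 76) (nat_lit 6283270299127) (nat_lit 0) (nat_lit 7108157050526) (nat_lit 532) (nat_lit 289196871464) (nat_lit 71) (nat_lit 5) (nat_lit 70) (nat_lit 5) (nat_lit 77) (nat_lit 5) (nat_lit 507) (nat_lit 504) (nat_lit 189)))) (XT.nd (nat_lit 78) (nat_lit 0) (nat_lit 76) (XT.lf (nat_lit 0) (nat_lit 233654579001)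 (nat_lit 532) (nat_lit 462681932868) (nat_lit 608) (nat_lit 13553336324026) (nat_lit 63) (nat_lit 5) (nat_lit 70) (nat_lit 5) (nat_lit 71) (nat_lit 5) (nat_lit 508) (nat_lit 504) (nat_lit 188)) (XT.nd (nat_lit 78) (nat_lit 0) (nat_lit 0) (XT.lf (nat_lit 0) (nat_lit 1115017232012) (nat_lit 532) (nat_lit 7615159255531) (nat_lit 608) (nat_lit 6106883345415) (nat_lit 64) (nat_lit 5) (nat_lit 71) (nat_lit 5) (nat_lit 72) (nat_lit 5) (nat_lit 509) (nat_lit 504) (nat_lit 187)) (XT.lf (nat_lit 76) (nat_lit 61814012811) (nat_lit 0) (nat_lit 2037627305105) (nat_lit 608) (nat_lit 13369392278216) (nat_lit 65) (nat_lit 5) (nat_lit 64) (nat_lit 5) (nat_lit 72) (nat_lit 5) (nat_lit 510) (nat_lit 504) (nat_lit 186))))) (XT.nd (nat_lit 62088) (nat_lit 0) (nat_lit 760) (XT.nd (nat_lit 78) (nat_lit 456) (nat_lit 0) (XT.lf (nat_lit 0) (nat_lit 3501066843112) (nat_lit 532) (nat_lit 7478701870539) (nat_lit 76)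 (nat_lit 5144304745717) (nat_lit 65) (nat_lit 5) (nat_lit 72) (nat_lit 5) (nat_lit 66) (nat_lit 5) (nat_lit 511) (nat_lit 504) (nat_lit 185)) (XT.nd (nat_lit 61932) (nat_lit 0) (nat_lit 760) (XT.lf (nat_lit 0) (nat_lit 1085244184041) (nat_lit 456) (nat_lit 4008603759528) (nat_lit 532) (nat_lit 11731562525434) (nat_lit 59) (nat_lit 5) (nat_lit 65) (nat_lit 5) (nat_lit 66) (nat_lit 5) (nat_lit 512) (nat_lit 504) (nat_lit 184)) (XT.lf (nat_lit 0) (nat_lit 6022322983176) (nat_lit 532) (nat_lit 273194267194) (nat_lit 532) (nat_lit 273194267194) (nat_lit 69) (nat_lit 3) (nat_lit 76) (nat_lit 3) (nat_lit 76) (nat_lit 5) (nat_lit 505) (nat_lit 505) (nat_lit 190)))) (XT.nd (nat_lit 78) (nat_lit 0) (nat_lit 76) (XT.lf (nat_lit 76) (nat_lit 6201385856101) (nat_lit 0) (nat_lit 6474189428244) (nat_lit 532) (nat_lit 975413193843) (nat_lit 70) (nat_lit 5) (nat_lit 69) (nat_lit 3) (nat_lit 76) (nat_lit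 5) (nat_lit 506) (nat_lit 505) (nat_lit 189)) (XT.nd (nat_lit 78) (nat_lit 0) (nat_lit 0) (XT.lf (nat_lit 0) (nat_lit 13375480891863) (nat_lit 456) (nat_lit 687950933634) (nat_lit 532) (nat_lit 140727175667) (nat_lit 70) (nat_lit 5) (nat_lit 76) (nat_lit 5) (nat_lit 77) (nat_lit 5) (nat_lit 507) (nat_lit 505) (nat_lit 188)) (XT.lf (nat_lit 76) (nat_lit 6785931923505) (nat_lit 0) (nat_lit 7676809614776) (nat_lit 532) (nat_lit 312332620473) (nat_lit 71) (nat_lit 5) (nat_lit 70) (nat_lit 5) (nat_lit 77) (nat_lit 5) (nat_lit 508) (nat_lit 505) (nat_lit 187))))))) (XT.nd (nat_lit 124878) (nat_lit 0) (nat_lit 0) (XT.nd (nat_lit 62322) (nat_lit 0) (nat_lit 0) (XT.nd (nat_lit 156) (nat_lit 0) (nat_lit 76) (XT.nd (nat_lit 78) (nat_lit 0) (nat_lit 76) (XT.lf (nat_lit 0) (nat_lit 252346945944) (nat_lit 532) (nat_lit 499696487050) (nat_lit 608) (nat_lit 14637603229722) (nat_lit 63) (nat_lit 5) (nat_lit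 70) (nat_lit 5) (nat_lit 71) (nat_lit 5) (nat_lit 509) (nat_lit 505) (nat_lit 186)) (XT.lf (nat_lit 0) (nat_lit 1204218611157) (nat_lit 532) (nat_lit 8224371995486) (nat_lit 608) (nat_lit 6595434012904) (nat_lit 64) (nat_lit 5) (nat_lit 71) (nat_lit 5) (nat_lit 72) (nat_lit 5) (nat_lit 510) (nat_lit 505) (nat_lit 185))) (XT.nd (nat_lit 78) (nat_lit 0) (nat_lit 76) (XT.lf (nat_lit 76) (nat_lit 66759134311) (nat_lit 0) (nat_lit 2200637489591) (nat_lit 608) (nat_lit 14438943659876) (nat_lit 65) (nat_lit 5) (nat_lit 64) (nat_lit 5) (nat_lit 72) (nat_lit 5) (nat_lit 511) (nat_lit 505) (nat_lit 184)) (XT.nd (nat_lit 62010) (nat_lit 0) (nat_lit 304) (XT.lf (nat_lit 0) (nat_lit 3781152191071) (nat_lit 532) (nat_lit 8076998019699) (nat_lit 76) (nat_lit 5555849125306) (nat_lit 65) (nat_lit 5) (nat_lit 72) (nat_lit 5) (nat_lit 66) (nat_lit 5) (nat_lit 512) (nat_lit 505) (nat_lit 183)) (XT.lf (nat_lit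 0) (nat_lit 6504108822177) (nat_lit 532) (nat_lit 295049808382) (nat_lit 532) (nat_lit 295049808382) (nat_lit 69) (nat_lit 3) (nat_lit 76) (nat_lit 3) (nat_lit 76) (nat_lit 5) (nat_lit 506) (nat_lit 506) (nat_lit 188))))) (XT.nd (nat_lit 234) (nat_lit 456) (nat_lit 0) (XT.nd (nat_lit 78) (nat_lit 0) (nat_lit 76) (XT.lf (nat_lit 76) (nat_lit 6697496724955) (nat_lit 0) (nat_lit 6992124582789) (nat_lit 532) (nat_lit 1053446248646) (nat_lit 70) (nat_lit 5) (nat_lit 69) (nat_lit 3) (nat_lit 76) (nat_lit 5) (nat_lit 507) (nat_lit 506) (nat_lit 187)) (XT.nd (nat_lit 78) (nat_lit 0) (nat_lit 0) (XT.lf (nat_lit 0) (nat_lit 14445519363809) (nat_lit 456) (nat_lit 742987007931) (nat_lit 532) (nat_lit 151985349468) (nat_lit 70) (nat_lit 5) (nat_lit 76) (nat_lit 5) (nat_lit 77) (nat_lit 5) (nat_lit 508) (nat_lit 506) (nat_lit 186)) (XT.lf (nat_lit 76) (nat_lit 7328806477769) (nat_lit 0) (nat_lit 8290954384136)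 (nat_lit 532) (nat_lit 337319229503) (nat_lit 71) (nat_lit 5) (nat_lit 70) (nat_lit 5) (nat_lit 77) (nat_lit 5) (nat_lit 509) (nat_lit 506) (nat_lit 185)))) (XT.nd (nat_lit 78) (nat_lit 0) (nat_lit 76) (XT.lf (nat_lit 0) (nat_lit 272534702154) (nat_lit 532) (nat_lit 539672205630) (nat_lit 608) (nat_lit 15808611487906) (nat_lit 63) (nat_lit 5) (nat_lit 70) (nat_lit 5) (nat_lit 71) (nat_lit 5) (nat_lit 510) (nat_lit 506) (nat_lit 184)) (XT.nd (nat_lit 62166) (nat_lit 0) (nat_lit 380) (XT.lf (nat_lit 0) (nat_lit 1300556100550) (nat_lit 532) (nat_lit 8882321754707) (nat_lit 608) (nat_lit 7123068733813) (nat_lit 64) (nat_lit 5) (nat_lit 71) (nat_lit 5) (nat_lit 72) (nat_lit 5) (nat_lit 511) (nat_lit 506) (nat_lit 183)) (XT.lf (nat_lit 0) (nat_lit 7024437528249) (nat_lit 532) (nat_lit 318653792892) (nat_lit 532) (nat_lit 318653792892) (nat_lit 69) (nat_lit 3) (nat_lit 76) (nat_lit 3) (nat_lit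 76) (nat_lit 5) (nat_lit 507) (nat_lit 507) (nat_lit 186)))))) (XT.nd (nat_lit 62634) (nat_lit 0) (nat_lit 456) (XT.nd (nat_lit 234) (nat_lit 456) (nat_lit 0) (XT.nd (nat_lit 78) (nat_lit 0) (nat_lit 76) (XT.lf (nat_lit 76) (nat_lit 7233296463265) (nat_lit 0) (nat_lit 7551494549658) (nat_lit 532) (nat_lit 1137721947934) (nat_lit 70) (nat_lit 5) (nat_lit 69) (nat_lit 3) (nat_lit 76) (nat_lit 5) (nat_lit 508) (nat_lit 507) (nat_lit 185)) (XT.nd (nat_lit 78) (nat_lit 0) (nat_lit 0) (XT.lf (nat_lit 0) (nat_lit 15601160913426) (nat_lit 456) (nat_lit 802425968228) (nat_lit 532) (nat_lit 164144177210) (nat_lit 70) (nat_lit 5) (nat_lit 76) (nat_lit 5) (nat_lit 77) (nat_lit 5) (nat_lit 509) (nat_lit 507) (nat_lit 184)) (XT.lf (nat_lit 76) (nat_lit 7915110996319) (nat_lit 0) (nat_lit 8954230735020) (nat_lit 532) (nat_lit 364304767342) (nat_lit 71) (nat_lit 5) (nat_lit 70) (nat_lit 5) (nat_lit 77)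 (nat_lit 5) (nat_lit 510) (nat_lit 507) (nat_lit 183)))) (XT.nd (nat_lit 62244) (nat_lit 0) (nat_lit 456) (XT.lf (nat_lit 0) (nat_lit 294337478785) (nat_lit 532) (nat_lit 582845981752) (nat_lit 608) (nat_lit 17073300406773) (nat_lit 63) (nat_lit 5) (nat_lit 70) (nat_lit 5) (nat_lit 71) (nat_lit 5) (nat_lit 511) (nat_lit 507) (nat_lit 182)) (XT.nd (nat_lit 78) (nat_lit 0) (nat_lit 0) (XT.lf (nat_lit 0) (nat_lit 7586392530765) (nat_lit 532) (nat_lit 344146096185) (nat_lit 532) (nat_lit 344146096185) (nat_lit 69) (nat_lit 3) (nat_lit 76) (nat_lit 3) (nat_lit 76) (nat_lit 5) (nat_lit 508) (nat_lit 508) (nat_lit 184)) (XT.lf (nat_lit 76) (nat_lit 7811960180595) (nat_lit 0) (nat_lit 8155614113841) (nat_lit 532) (nat_lit 1228739703251) (nat_lit 70) (nat_lit 5) (nat_lit 69) (nat_lit 3) (nat_lit 76) (nat_lit 5) (nat_lit 509) (nat_lit 508) (nat_lit 183))))) (XT.nd (nat_lit 62556) (nat_lit 0) (nat_lit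 0) (XT.nd (nat_lit 78) (nat_lit 76) (nat_lit 0) (XT.lf (nat_lit 0) (nat_lit 16849253786939) (nat_lit 456) (nat_lit 866620045396) (nat_lit 532) (nat_lit 177275711202) (nat_lit 70) (nat_lit 5) (nat_lit 76) (nat_lit 5) (nat_lit 77) (nat_lit 5) (nat_lit 510) (nat_lit 508) (nat_lit 182)) (XT.nd (nat_lit 62400) (nat_lit 76) (nat_lit 0) (XT.lf (nat_lit 76) (nat_lit 8548319876307) (nat_lit 0) (nat_lit 9670569193953) (nat_lit 532) (nat_lit 393449148283) (nat_lit 71) (nat_lit 5) (nat_lit 70) (nat_lit 5) (nat_lit 77) (nat_lit 5) (nat_lit 511) (nat_lit 508) (nat_lit 181)) (XT.lf (nat_lit 76) (nat_lit 8436916995273) (nat_lit 0) (nat_lit 8808063243128) (nat_lit 532) (nat_lit 1327038879067) (nat_lit 70) (nat_lit 5) (nat_lit 69) (nat_lit 3) (nat_lit 76) (nat_lit 5) (nat_lit 510) (nat_lit 509) (nat_lit 181)))) (XT.nd (nat_lit 62478) (nat_lit 76) (nat_lit 0) (XT.lf (nat_lit 0) (nat_lit 18197194090270) (nat_lit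 456) (nat_lit 935949648780) (nat_lit 532) (nat_lit 191457767940) (nat_lit 70) (nat_lit 5) (nat_lit 76) (nat_lit 5) (nat_lit 77) (nat_lit 5) (nat_lit 511) (nat_lit 509) (nat_lit 180)) (XT.nd (nat_lit 62478) (nat_lit 0) (nat_lit 0) (XT.lf (nat_lit 76) (nat_lit 9111870355092) (nat_lit 0) (nat_lit 9512708302733) (nat_lit 532) (nat_lit 1433201989012) (nat_lit 70) (nat_lit 5) (nat_lit 69) (nat_lit 3) (nat_lit 76) (nat_lit 5) (nat_lit 511) (nat_lit 510) (nat_lit 179)) (XT.lf (nat_lit 0) (nat_lit 9556669708333) (nat_lit 532) (nat_lit 433524966783) (nat_lit 532) (nat_lit 433524966783) (nat_lit 69) (nat_lit 3) (nat_lit 76) (nat_lit 3) (nat_lit 76) (nat_lit 5) (nat_lit 511) (nat_lit 511) (nat_lit 178))))))))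

set_option maxRecDepth 10000000 in
noncomputable def Tp : PT := (PT.nd (nat_lit 12698868) (PT.nd (nat_lit 12136722) (PT.nd (nat_lit 11449776) pc0 pc1) (PT.nd (nat_lit 374010) pc2 pc3)) (PT.nd (nat_lit 373152) (PT.nd (nat_lit 186732) pc4 pc5) (PT.nd (nat_lit 311766) pc6 pc7)))

set_option maxRecDepth 10000000 in
noncomputable def Tx : XT := (XT.nd (nat_lit 20971470) (nat_lit 0) (nat_lit 76) XT.nil (XT.nd (nat_lit 10994724) (nat_lit 0) (nat_lit 0) (XT.nd (nat_lit 4864392) (nat_lit 0) (nat_lit 0) (XT.nd (nat_lit 3310710) (nat_lit 0) (nat_lit 0) (XT.nd (nat_lit 2368392) (nat_lit 0) (nat_lit 0) (XT.nd (nat_lit 1623882) (nat_lit 0) (nat_lit 0) (XT.nd (nat_lit 1124604) (nat_lit 0) (nat_lit 0) (XT.nd (nat_lit 811044) (nat_lit 0) (nat_lit 0) (XT.nd (nat_lit 561600) (nat_lit 0) (nat_lit 0) (XT.nd (nat_lit 374634) (nat_lit 0) (nat_lit 0) xc0 xc1) (XT.nd (nat_lit 125034) (nat_lit 0) (nat_lit 0) xc2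 xc3)) (XT.nd (nat_lit 187200) (nat_lit 0) (nat_lit 0) (XT.nd (nat_lit 123786) (nat_lit 0) (nat_lit 0) xc4 xc5) (XT.nd (nat_lit 63258) (nat_lit 0) (nat_lit 0) xc6 xc7))) (XT.nd (nat_lit 309660) (nat_lit 0) (nat_lit 0) (XT.nd (nat_lit 184860) (nat_lit 0) (nat_lit 0) (XT.nd (nat_lit 122226) (nat_lit 0) (nat_lit 0) xc8 xc9) (XT.nd (nat_lit 62478) (nat_lit 0) (nat_lit 0) xc10 xc11)) (XT.nd (nat_lit 124176) (nat_lit 0) (nat_lit 0) (XT.nd (nat_lit 62166) (nat_lit 0) (nat_lit 0) xc12 xc13) (XT.nd (nat_lit 3510) (nat_lit 0) (nat_lit 0) xc14 xc15)))) (XT.nd (nat_lit 374868) (nat_lit 0) (nat_lit 0) (XT.nd (nat_lit 245856) (nat_lit 0) (nat_lit 0) (XT.nd (nat_lit 123240) (nat_lit 0) (nat_lit 0) (XT.nd (nat_lit 61698) (nat_lit 0) (nat_lit 0) xc16 xc17) (XT.nd (nat_lit 61386) (nat_lit 0) (nat_lit 0) xc18 xc19)) (XT.nd (nat_lit 64584) (nat_lit 0) (nat_lit 0) (XT.nd (nat_lit 3510) (nat_lit 0) (nat_lit 0)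 xc20 xc21) (XT.nd (nat_lit 60918) (nat_lit 0) (nat_lit 0) xc22 xc23))) (XT.nd (nat_lit 185406) (nat_lit 0) (nat_lit 0) (XT.nd (nat_lit 121368) (nat_lit 0) (nat_lit 0) (XT.nd (nat_lit 60762) (nat_lit 0) (nat_lit 0) xc24 xc25) (XT.nd (nat_lit 3510) (nat_lit 0) (nat_lit 0) xc26 xc27)) (XT.nd (nat_lit 63882) (nat_lit 0) (nat_lit 0) (XT.nd (nat_lit 60372) (nat_lit 0) (nat_lit 0) xc28 xc29) (XT.nd (nat_lit 60216) (nat_lit 0) (nat_lit 0) xc30 xc31))))) (XT.nd (nat_lit 503022) (nat_lit 0) (nat_lit 0) (XT.nd (nat_lit 252720) (nat_lit 0) (nat_lit 0) (XT.nd (nat_lit 126672) (nat_lit 0) (nat_lit 0) (XT.nd (nat_lit 63414) (nat_lit 0) (nat_lit 0) (XT.nd (nat_lit 3510) (nat_lit 0) (nat_lit 0) xc32 xc33) (XT.nd (nat_lit 3510) (nat_lit 0) (nat_lit 0) xc34 xc35)) (XT.nd (nat_lit 63102) (nat_lit 0) (nat_lit 0) (XT.nd (nat_lit 3510) (nat_lit 0) (nat_lit 0) xc36 xc37) (XT.nd (nat_lit 59436) (nat_lit 0) (nat_lit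 0) xc38 xc39))) (XT.nd (nat_lit 125424) (nat_lit 0) (nat_lit 0) (XT.nd (nat_lit 62790) (nat_lit 0) (nat_lit 0) (XT.nd (nat_lit 59280) (nat_lit 0) (nat_lit 0) xc40 xc41) (XT.nd (nat_lit 59124) (nat_lit 0) (nat_lit 0) xc42 xc43)) (XT.nd (nat_lit 62478) (nat_lit 0) (nat_lit 0) (XT.nd (nat_lit 58968) (nat_lit 0) (nat_lit 0) xc44 xc45) (XT.nd (nat_lit 58812) (nat_lit 0) (nat_lit 0) xc46 xc47)))) (XT.nd (nat_lit 247806) (nat_lit 0) (nat_lit 0) (XT.nd (nat_lit 124176) (nat_lit 0) (nat_lit 0) (XT.nd (nat_lit 62166) (nat_lit 0) (nat_lit 0) (XT.nd (nat_lit 58656) (nat_lit 0) (nat_lit 0) xc48 xc49) (XT.nd (nat_lit 58500) (nat_lit 0) (nat_lit 0) xc50 xc51)) (XT.nd (nat_lit 61854) (nat_lit 0) (nat_lit 0) (XT.nd (nat_lit 58344) (nat_lit 0) (nat_lit 0) xc52 xc53) (XT.nd (nat_lit 3510) (nat_lit 0) (nat_lit 0) xc54 xc55))) (XT.nd (nat_lit 123084) (nat_lit 0) (nat_lit 0) (XT.nd (nat_lit 61620) (nat_lit 0)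 (nat_lit 0) (XT.nd (nat_lit 3510) (nat_lit 0) (nat_lit 0) xc56 xc57) (XT.nd (nat_lit 3510) (nat_lit 0) (nat_lit 0) xc58 xc59)) (XT.nd (nat_lit 61308) (nat_lit 0) (nat_lit 0) (XT.nd (nat_lit 3510) (nat_lit 0) (nat_lit 0) xc60 xc61) (XT.nd (nat_lit 3510) (nat_lit 76) (nat_lit 0) xc62 xc63)))))) (XT.nd (nat_lit 804258) (nat_lit 0) (nat_lit 0) (XT.nd (nat_lit 431886) (nat_lit 0) (nat_lit 0) (XT.nd (nat_lit 243672) (nat_lit 0) (nat_lit 0) (XT.nd (nat_lit 122148) (nat_lit 0) (nat_lit 0) (XT.nd (nat_lit 61152) (nat_lit 0) (nat_lit 0) (XT.nd (nat_lit 57642) (nat_lit 0) (nat_lit 0) xc64 xc65) (XT.nd (nat_lit 57486) (nat_lit 0) (nat_lit 0) xc66 xc67)) (XT.nd (nat_lit 60840) (nat_lit 0) (nat_lit 0) (XT.nd (nat_lit 57330) (nat_lit 0) (nat_lit 228) xc68 xc69) (XT.nd (nat_lit 3510) (nat_lit 0) (nat_lit 0) xc70 xc71))) (XT.nd (nat_lit 67548) (nat_lit 0) (nat_lit 0) (XT.nd (nat_lit 60528) (nat_lit 0) (nat_lit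 0) (XT.nd (nat_lit 3510) (nat_lit 0) (nat_lit 0) xc72 xc73) (XT.nd (nat_lit 3510) (nat_lit 304) (nat_lit 0) xc74 xc75)) (XT.nd (nat_lit 60372) (nat_lit 0) (nat_lit 0) (XT.nd (nat_lit 56862) (nat_lit 0) (nat_lit 76) xc76 xc77) (XT.nd (nat_lit 3510) (nat_lit 0) (nat_lit 0) xc78 xc79)))) (XT.nd (nat_lit 186732) (nat_lit 0) (nat_lit 0) (XT.nd (nat_lit 67080) (nat_lit 0) (nat_lit 0) (XT.nd (nat_lit 60060) (nat_lit 0) (nat_lit 0) (XT.nd (nat_lit 3510) (nat_lit 0) (nat_lit 0) xc80 xc81) (XT.nd (nat_lit 3510) (nat_lit 304) (nat_lit 0) xc82 xc83)) (XT.nd (nat_lit 59904) (nat_lit 0) (nat_lit 0) (XT.nd (nat_lit 56394) (nat_lit 0) (nat_lit 76) xc84 xc85) (XT.nd (nat_lit 3510) (nat_lit 0) (nat_lit 0) xc86 xc87))) (XT.nd (nat_lit 66612) (nat_lit 0) (nat_lit 0) (XT.nd (nat_lit 59592) (nat_lit 0) (nat_lit 0) (XT.nd (nat_lit 3510) (nat_lit 76) (nat_lit 0) xc88 xc89) (XT.nd (nat_lit 3510) (nat_lit 988) (nat_lit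 0) xc90 xc91)) (XT.nd (nat_lit 59436) (nat_lit 0) (nat_lit 0) (XT.nd (nat_lit 55926) (nat_lit 0) (nat_lit 760) xc92 xc93) (XT.nd (nat_lit 3510) (nat_lit 0) (nat_lit 0) xc94 xc95))))) (XT.nd (nat_lit 320190) (nat_lit 0) (nat_lit 0) (XT.nd (nat_lit 186186) (nat_lit 0) (nat_lit 0) (XT.nd (nat_lit 66612) (nat_lit 0) (nat_lit 0) (XT.nd (nat_lit 7020) (nat_lit 0) (nat_lit 0) (XT.nd (nat_lit 3510) (nat_lit 532) (nat_lit 0) xc96 xc97) (XT.nd (nat_lit 56082) (nat_lit 0) (nat_lit 304) xc98 xc99)) (XT.nd (nat_lit 59748) (nat_lit 0) (nat_lit 0) (XT.nd (nat_lit 3510) (nat_lit 0) (nat_lit 0) xc100 xc101) (XT.nd (nat_lit 3510) (nat_lit 76) (nat_lit 0) xc102 xc103))) (XT.nd (nat_lit 66924) (nat_lit 0) (nat_lit 0) (XT.nd (nat_lit 7020) (nat_lit 76) (nat_lit 0) (XT.nd (nat_lit 3510) (nat_lit 1292) (nat_lit 0) xc104 xc105) (XT.nd (nat_lit 56394) (nat_lit 0) (nat_lit 760) xc106 xc107)) (XT.nd (nat_lit 59982)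 (nat_lit 0) (nat_lit 0) (XT.nd (nat_lit 3510) (nat_lit 0) (nat_lit 0) xc108 xc109) (XT.nd (nat_lit 3510) (nat_lit 380) (nat_lit 0) xc110 xc111)))) (XT.nd (nat_lit 187512) (nat_lit 0) (nat_lit 0) (XT.nd (nat_lit 120198) (nat_lit 0) (nat_lit 0) (XT.nd (nat_lit 60060) (nat_lit 0) (nat_lit 0) (XT.nd (nat_lit 56550) (nat_lit 0) (nat_lit 76) xc112 xc113) (XT.nd (nat_lit 56628) (nat_lit 0) (nat_lit 988) xc114 xc115)) (XT.nd (nat_lit 60216) (nat_lit 0) (nat_lit 0) (XT.nd (nat_lit 3510) (nat_lit 0) (nat_lit 0) xc116 xc117) (XT.nd (nat_lit 3510) (nat_lit 456) (nat_lit 0) xc118 xc119))) (XT.nd (nat_lit 120666) (nat_lit 0) (nat_lit 0) (XT.nd (nat_lit 60294) (nat_lit 0) (nat_lit 0) (XT.nd (nat_lit 56784) (nat_lit 0) (nat_lit 76) xc120 xc121) (XT.nd (nat_lit 56862) (nat_lit 0) (nat_lit 912) xc122 xc123)) (XT.nd (nat_lit 60450) (nat_lit 0) (nat_lit 0) (XT.nd (nat_lit 3510) (nat_lit 0) (nat_lit 0) xc124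 xc125) (XT.nd (nat_lit 3510) (nat_lit 228) (nat_lit 0) xc126 xc127))))))) (XT.nd (nat_lit 1814904) (nat_lit 0) (nat_lit 76) (XT.nd (nat_lit 815880) (nat_lit 0) (nat_lit 0) (XT.nd (nat_lit 379002) (nat_lit 0) (nat_lit 0) (XT.nd (nat_lit 189072) (nat_lit 0) (nat_lit 0) (XT.nd (nat_lit 67626) (nat_lit 0) (nat_lit 0) (XT.nd (nat_lit 7020) (nat_lit 0) (nat_lit 0) (XT.nd (nat_lit 3510) (nat_lit 1216) (nat_lit 0) xc128 xc129) (XT.nd (nat_lit 57096) (nat_lit 0) (nat_lit 380) xc130 xc131)) (XT.nd (nat_lit 60684) (nat_lit 0) (nat_lit 0) (XT.nd (nat_lit 3510) (nat_lit 0) (nat_lit 0) xc132 xc133) (XT.nd (nat_lit 3510) (nat_lit 76) (nat_lit 0) xc134 xc135))) (XT.nd (nat_lit 67860) (nat_lit 0) (nat_lit 0) (XT.nd (nat_lit 7020) (nat_lit 0) (nat_lit 0) (XT.nd (nat_lit 3510) (nat_lit 456) (nat_lit 0) xc136 xc137) (XT.nd (nat_lit 57330) (nat_lit 0) (nat_lit 76) xc138 xc139)) (XT.nd (nat_lit 60918) (nat_lit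 0) (nat_lit 0) (XT.nd (nat_lit 57408) (nat_lit 0) (nat_lit 380) xc140 xc141) (XT.nd (nat_lit 57564) (nat_lit 0) (nat_lit 1140) xc142 xc143)))) (XT.nd (nat_lit 190710) (nat_lit 0) (nat_lit 0) (XT.nd (nat_lit 122382) (nat_lit 0) (nat_lit 0) (XT.nd (nat_lit 61152) (nat_lit 0) (nat_lit 0) (XT.nd (nat_lit 3510) (nat_lit 0) (nat_lit 0) xc144 xc145) (XT.nd (nat_lit 3510) (nat_lit 228) (nat_lit 0) xc146 xc147)) (XT.nd (nat_lit 7020) (nat_lit 0) (nat_lit 0) (XT.nd (nat_lit 3510) (nat_lit 684) (nat_lit 0) xc148 xc149) (XT.nd (nat_lit 57798) (nat_lit 0) (nat_lit 76) xc150 xc151))) (XT.nd (nat_lit 122850) (nat_lit 0) (nat_lit 0) (XT.nd (nat_lit 61386) (nat_lit 0) (nat_lit 0) (XT.nd (nat_lit 57876) (nat_lit 0) (nat_lit 228) xc152 xc153) (XT.nd (nat_lit 57954) (nat_lit 0) (nat_lit 684) xc154 xc155)) (XT.nd (nat_lit 61542) (nat_lit 0) (nat_lit 0) (XT.nd (nat_lit 58032) (nat_lit 0) (nat_lit 1216) xc156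 xc157) (XT.nd (nat_lit 3510) (nat_lit 0) (nat_lit 0) xc158 xc159))))) (XT.nd (nat_lit 441246) (nat_lit 0) (nat_lit 0) (XT.nd (nat_lit 247572) (nat_lit 0) (nat_lit 0) (XT.nd (nat_lit 123630) (nat_lit 0) (nat_lit 0) (XT.nd (nat_lit 61776) (nat_lit 0) (nat_lit 0) (XT.nd (nat_lit 3510) (nat_lit 76) (nat_lit 0) xc160 xc161) (XT.nd (nat_lit 3510) (nat_lit 304) (nat_lit 0) xc162 xc163)) (XT.nd (nat_lit 61932) (nat_lit 0) (nat_lit 0) (XT.nd (nat_lit 3510) (nat_lit 532) (nat_lit 0) xc164 xc165) (XT.nd (nat_lit 3510) (nat_lit 912) (nat_lit 0) xc166 xc167))) (XT.nd (nat_lit 69108) (nat_lit 0) (nat_lit 0) (XT.nd (nat_lit 7020) (nat_lit 0) (nat_lit 0) (XT.nd (nat_lit 3510) (nat_lit 1216) (nat_lit 0) xc168 xc169) (XT.nd (nat_lit 58578) (nat_lit 0) (nat_lit 76) xc170 xc171)) (XT.nd (nat_lit 62166) (nat_lit 0) (nat_lit 0) (XT.nd (nat_lit 58656) (nat_lit 0) (nat_lit 76) xc172 xc173) (XT.nd (nat_lit 58812)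 (nat_lit 0) (nat_lit 76) xc174 xc175)))) (XT.nd (nat_lit 250146) (nat_lit 0) (nat_lit 76) (XT.nd (nat_lit 124878) (nat_lit 0) (nat_lit 76) (XT.nd (nat_lit 62400) (nat_lit 0) (nat_lit 0) (XT.nd (nat_lit 58890) (nat_lit 0) (nat_lit 228) xc176 xc177) (XT.nd (nat_lit 58968) (nat_lit 0) (nat_lit 228) xc178 xc179)) (XT.nd (nat_lit 62556) (nat_lit 0) (nat_lit 0) (XT.nd (nat_lit 59046) (nat_lit 0) (nat_lit 152) xc180 xc181) (XT.nd (nat_lit 59124) (nat_lit 0) (nat_lit 152) xc182 xc183))) (XT.nd (nat_lit 125502) (nat_lit 0) (nat_lit 0) (XT.nd (nat_lit 62712) (nat_lit 0) (nat_lit 0) (XT.nd (nat_lit 59202) (nat_lit 0) (nat_lit 0) xc184 xc185) (XT.nd (nat_lit 59280) (nat_lit 0) (nat_lit 0) xc186 xc187)) (XT.nd (nat_lit 118950) (nat_lit 0) (nat_lit 0) (XT.nd (nat_lit 59436) (nat_lit 0) (nat_lit 0) xc188 xc189) (XT.nd (nat_lit 3510) (nat_lit 1064) (nat_lit 0) xc190 xc191)))))) (XT.nd (nat_lit 1251978)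 (nat_lit 0) (nat_lit 608) (XT.nd (nat_lit 564798) (nat_lit 0) (nat_lit 228) (XT.nd (nat_lit 253188) (nat_lit 0) (nat_lit 152) (XT.nd (nat_lit 126438) (nat_lit 0) (nat_lit 0) (XT.nd (nat_lit 63180) (nat_lit 0) (nat_lit 0) (XT.nd (nat_lit 3510) (nat_lit 684) (nat_lit 0) xc192 xc193) (XT.nd (nat_lit 3510) (nat_lit 380) (nat_lit 0) xc194 xc195)) (XT.nd (nat_lit 63336) (nat_lit 0) (nat_lit 152) (XT.nd (nat_lit 3510) (nat_lit 152) (nat_lit 0) xc196 xc197) (XT.nd (nat_lit 59904) (nat_lit 0) (nat_lit 760) xc198 xc199))) (XT.nd (nat_lit 183846) (nat_lit 0) (nat_lit 0) (XT.nd (nat_lit 63492) (nat_lit 0) (nat_lit 0) (XT.nd (nat_lit 59982) (nat_lit 0) (nat_lit 304) xc200 xc201) (XT.nd (nat_lit 60138) (nat_lit 0) (nat_lit 0) xc202 xc203)) (XT.nd (nat_lit 63804) (nat_lit 0) (nat_lit 0) (XT.nd (nat_lit 3510) (nat_lit 988) (nat_lit 0) xc204 xc205) (XT.nd (nat_lit 3510) (nat_lit 304) (nat_lit 0) xc206 xc207))))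 (XT.nd (nat_lit 313560) (nat_lit 0) (nat_lit 152) (XT.nd (nat_lit 185094) (nat_lit 0) (nat_lit 0) (XT.nd (nat_lit 63960) (nat_lit 0) (nat_lit 0) (XT.nd (nat_lit 60450) (nat_lit 0) (nat_lit 608) xc208 xc209) (XT.nd (nat_lit 60528) (nat_lit 0) (nat_lit 0) xc210 xc211)) (XT.nd (nat_lit 64194) (nat_lit 0) (nat_lit 76) (XT.nd (nat_lit 3510) (nat_lit 912) (nat_lit 0) xc212 xc213) (XT.nd (nat_lit 60762) (nat_lit 0) (nat_lit 912) xc214 xc215))) (XT.nd (nat_lit 186342) (nat_lit 0) (nat_lit 76) (XT.nd (nat_lit 121758) (nat_lit 0) (nat_lit 76) (XT.nd (nat_lit 60840) (nat_lit 0) (nat_lit 0) xc216 xc217) (XT.nd (nat_lit 3510) (nat_lit 684) (nat_lit 0) xc218 xc219)) (XT.nd (nat_lit 64662) (nat_lit 0) (nat_lit 0) (XT.nd (nat_lit 61152) (nat_lit 0) (nat_lit 228) xc220 xc221) (XT.nd (nat_lit 61230) (nat_lit 0) (nat_lit 76) xc222 xc223))))) (XT.nd (nat_lit 875706) (nat_lit 0) (nat_lit 836) (XT.nd (nat_lit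 376818) (nat_lit 0) (nat_lit 304) (XT.nd (nat_lit 187980) (nat_lit 0) (nat_lit 76) (XT.nd (nat_lit 64896) (nat_lit 0) (nat_lit 0) (XT.nd (nat_lit 61386) (nat_lit 0) (nat_lit 228) xc224 xc225) (XT.nd (nat_lit 61464) (nat_lit 0) (nat_lit 76) xc226 xc227)) (XT.nd (nat_lit 123474) (nat_lit 0) (nat_lit 152) (XT.nd (nat_lit 61698) (nat_lit 0) (nat_lit 152) xc228 xc229) (XT.nd (nat_lit 3510) (nat_lit 76) (nat_lit 0) xc230 xc231))) (XT.nd (nat_lit 248586) (nat_lit 0) (nat_lit 228) (XT.nd (nat_lit 124098) (nat_lit 0) (nat_lit 152) (XT.nd (nat_lit 62010) (nat_lit 0) (nat_lit 0) xc232 xc233) (XT.nd (nat_lit 62166) (nat_lit 0) (nat_lit 76) xc234 xc235)) (XT.nd (nat_lit 124878) (nat_lit 0) (nat_lit 228) (XT.nd (nat_lit 62400) (nat_lit 0) (nat_lit 76) xc236 xc237) (XT.nd (nat_lit 62634) (nat_lit 0) (nat_lit 0) xc238 xc239)))) (XT.nd (nat_lit 625638) (nat_lit 0) (nat_lit 912) (XT.nd (nat_lit 311532) (nat_lit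 0) (nat_lit 456) (XT.nd (nat_lit 125736) (nat_lit 0) (nat_lit 152) (XT.nd (nat_lit 62790) (nat_lit 0) (nat_lit 152) xc240 xc241) (XT.nd (nat_lit 63024) (nat_lit 0) (nat_lit 76) xc242 xc243)) (XT.nd (nat_lit 126750) (nat_lit 0) (nat_lit 152) (XT.nd (nat_lit 63336) (nat_lit 0) (nat_lit 0) xc244 xc245) (XT.nd (nat_lit 123552) (nat_lit 0) (nat_lit 76) xc246 xc247))) (XT.nd (nat_lit 498888) (nat_lit 0) (nat_lit 760) (XT.nd (nat_lit 248664) (nat_lit 0) (nat_lit 380) (XT.nd (nat_lit 124176) (nat_lit 0) (nat_lit 76) xc248 xc249) (XT.nd (nat_lit 124956) (nat_lit 0) (nat_lit 152) xc250 xc251)) (XT.nd (nat_lit 312858) (nat_lit 0) (nat_lit 760) (XT.nd (nat_lit 125580) (nat_lit 0) (nat_lit 152) xc252 xc253) (XT.nd (nat_lit 249834) (nat_lit 0) (nat_lit 456) xc254 xc255)))))))) XT.nil))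

set_option maxRecDepth 10000000 in
noncomputable def Te : XT := XT.nil

set_option maxRecDepth 10000000 in
noncomputable def Tz : ZL := (ZL.cons (nat_lit 76) (nat_lit 3) (nat_lit 172808087988297142175) (ZL.cons (nat_lit 152) (nat_lit 6) (nat_lit 333014334042169598676) (ZL.cons (nat_lit 228) (nat_lit 6) (nat_lit 321366894281966761752) (ZL.cons (nat_lit 304) (nat_lit 3) (nat_lit 160211680427287269433) (ZL.cons (nat_lit 380) (nat_lit 6) (nat_lit 308787659340947697878) (ZL.cons (nat_lit 456) (nat_lit 6) (nat_lit 298038277196023138880) (ZL.cons (nat_lit 532) (nat_lit 3) (nat_lit 148582317566811466250) (ZL.cons (nat_lit 608) (nat_lit 6) (nat_lit 286428944479504615158) (ZL.cons (nat_lit 684) (nat_lit 6) (nat_lit 276516968471012785456) (ZL.cons (nat_lit 760) (nat_lit 3) (nat_lit 137854020317728519404) (ZL.cons (nat_lit 836) (nat_lit 6) (nat_lit 265812034381841609378) (ZL.cons (nat_lit 912) (nat_lit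 6) (nat_lit 256682282718636902094) (ZL.cons (nat_lit 988) (nat_lit 3) (nat_lit 127966637731746346119) (ZL.cons (nat_lit 1064) (nat_lit 6) (nat_lit 246822150922375818230) (ZL.cons (nat_lit 1140) (nat_lit 6) (nat_lit 238424668909358442916) (ZL.cons (nat_lit 1216) (nat_lit 3) (nat_lit 118865571836556902079) (ZL.cons (nat_lit 1292) (nat_lit 6) (nat_lit 229355388335299677578) (ZL.cons (nat_lit 1368) (nat_lit 6) (nat_lit 221645250803227873292) (ZL.cons (nat_lit 1444) (nat_lit 3) (nat_lit 110501548903352529814) (ZL.cons (nat_lit 1520) (nat_lit 6) (nat_lit 213318302268590324664) (ZL.cons (nat_lit 1596) (nat_lit 6) (nat_lit 206255462191840718698) (ZL.cons (nat_lit 1672) (nat_lit 3) (nat_lit 102830438041974612283) (ZL.cons (nat_lit 1748) (nat_lit 6) (nat_lit 198627594908951144256) (ZL.cons (nat_lit 1824) (nat_lit 6) (nat_lit 192176780040336835856) (ZL.cons (nat_lit 1900) (nat_lit 3) (nat_lit 95813118673922355828)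 (ZL.cons (nat_lit 1976) (nat_lit 6) (nat_lit 185209899982233382782) (ZL.cons (nat_lit 2052) (nat_lit 6) (nat_lit 179340560072172794198) (ZL.cons (nat_lit 2128) (nat_lit 3) (nat_lit 89415399159932635897) (ZL.cons (nat_lit 2204) (nat_lit 6) (nat_lit 173001672969307358530) (ZL.cons (nat_lit 2280) (nat_lit 6) (nat_lit 167687980965519299798) (ZL.cons (nat_lit 2356) (nat_lit 3) (nat_lit 83607989671506167304) (ZL.cons (nat_lit 2432) (nat_lit 6) (nat_lit 162858233763293462662) (ZL.cons (nat_lit 2508) (nat_lit 6) (nat_lit 161949193601428196370) (ZL.cons (nat_lit 2584) (nat_lit 6) (nat_lit 157170105162382593364) (ZL.cons (nat_lit 2660) (nat_lit 3) (nat_lit 78366533311512146131) (ZL.cons (nat_lit 2736) (nat_lit 6) (nat_lit 152850393501792292390) (ZL.cons (nat_lit 2812) (nat_lit 6) (nat_lit 152008689648213342118) (ZL.cons (nat_lit 2888) (nat_lit 6) (nat_lit 147748066368996466234) (ZL.cons (nat_lit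 2964) (nat_lit 3) (nat_lit 73671700527387908532) (ZL.cons (nat_lit 3040) (nat_lit 6) (nat_lit 143925948647422749786) (ZL.cons (nat_lit 3116) (nat_lit 6) (nat_lit 143146593227442240276) (ZL.cons (nat_lit 3192) (nat_lit 6) (nat_lit 140519686896993978162) (ZL.cons (nat_lit 3268) (nat_lit 6) (nat_lit 139393396193902486856) (ZL.cons (nat_lit 3344) (nat_lit 3) (nat_lit 69509353044071313258) (ZL.cons (nat_lit 3420) (nat_lit 6) (nat_lit 136061568786550395298) (ZL.cons (nat_lit 3496) (nat_lit 6) (nat_lit 135339943397679553162) (ZL.cons (nat_lit 3572) (nat_lit 6) (nat_lit 133131366842972027286) (ZL.cons (nat_lit 3648) (nat_lit 6) (nat_lit 132088505080850276076) (ZL.cons (nat_lit 3724) (nat_lit 3) (nat_lit 65870784898869647140) (ZL.cons (nat_lit 3800) (nat_lit 6) (nat_lit 130585426203501733230) (ZL.cons (nat_lit 3876) (nat_lit 6) (nat_lit 129245123355036547696) (ZL.cons (nat_lit 3952) (nat_lit 6)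 (nat_lit 128576951698674656826) (ZL.cons (nat_lit 4028) (nat_lit 6) (nat_lit 126792948550752064442) (ZL.cons (nat_lit 4104) (nat_lit 6) (nat_lit 125827335808046739248) (ZL.cons (nat_lit 4180) (nat_lit 3) (nat_lit 62753049717397915087) (ZL.cons (nat_lit 4256) (nat_lit 6) (nat_lit 124717449261749214560) (ZL.cons (nat_lit 4332) (nat_lit 6) (nat_lit 123476428105762931658) (ZL.cons (nat_lit 4408) (nat_lit 6) (nat_lit 122857750646168588260) (ZL.cons (nat_lit 4484) (nat_lit 6) (nat_lit 123006326232982055240) (ZL.cons (nat_lit 4560) (nat_lit 6) (nat_lit 121510297286920811494) (ZL.cons (nat_lit 4636) (nat_lit 6) (nat_lit 120616211414045510388) (ZL.cons (nat_lit 4712) (nat_lit 3) (nat_lit 60159385163851038032) (ZL.cons (nat_lit 4788) (nat_lit 6) (nat_lit 119968263065199922384) (ZL.cons (nat_lit 4864) (nat_lit 6) (nat_lit 120638748180787984178) (ZL.cons (nat_lit 4940) (nat_lit 6) (nat_lit 121649439476131966276)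 (ZL.cons (nat_lit 5016) (nat_lit 6) (nat_lit 119917292205927240270) (ZL.cons (nat_lit 5092) (nat_lit 6) (nat_lit 118768198542976978320) (ZL.cons (nat_lit 5168) (nat_lit 6) (nat_lit 118195349043352586288) (ZL.cons (nat_lit 5244) (nat_lit 3) (nat_lit 58559904887605864442) (ZL.cons (nat_lit 5320) (nat_lit 6) (nat_lit 117293363792249457920) (ZL.cons (nat_lit 5396) (nat_lit 6) (nat_lit 117815054311611757506) (ZL.cons (nat_lit 5472) (nat_lit 6) (nat_lit 118687972832672626450) (ZL.cons (nat_lit 5548) (nat_lit 6) (nat_lit 117302760845578882240) (ZL.cons (nat_lit 5624) (nat_lit 6) (nat_lit 116474903555879529364) (ZL.cons (nat_lit 5700) (nat_lit 3) (nat_lit 58099747571299285828) (ZL.cons (nat_lit 5776) (nat_lit 6) (nat_lit 115126097966333798438) (ZL.cons (nat_lit 5852) (nat_lit 6) (nat_lit 115487090321772274838) (ZL.cons (nat_lit 5928) (nat_lit 6) (nat_lit 116211214246607381574) (ZL.cons (nat_lit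 6004) (nat_lit 6) (nat_lit 115147238632764546438) (ZL.cons (nat_lit 6080) (nat_lit 6) (nat_lit 114616822429408627886) (ZL.cons (nat_lit 6156) (nat_lit 3) (nat_lit 56726811265353388533) (ZL.cons (nat_lit 6232) (nat_lit 6) (nat_lit 113641060869107524430) (ZL.cons (nat_lit 6308) (nat_lit 6) (nat_lit 114204486630018807980) (ZL.cons (nat_lit 6384) (nat_lit 6) (nat_lit 113437952102519407168) (ZL.cons (nat_lit 6460) (nat_lit 3) (nat_lit 56591472156222223162) (ZL.cons (nat_lit 6536) (nat_lit 6) (nat_lit 112266026519823937382) (ZL.cons (nat_lit 6612) (nat_lit 6) (nat_lit 112655898263697491896) (ZL.cons (nat_lit 6688) (nat_lit 6) (nat_lit 112164772149479048792) (ZL.cons (nat_lit 6764) (nat_lit 3) (nat_lit 55676919461111027703) (ZL.cons (nat_lit 6840) (nat_lit 6) (nat_lit 111556272327694862556) (ZL.cons (nat_lit 6916) (nat_lit 3) (nat_lit 55660077001775690148) (ZL.cons (nat_lit 6992) (nat_lit 6) (nat_lit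 110899092520167941424) (ZL.cons (nat_lit 7068) (nat_lit 1) (nat_lit 18446744073709551617) ZL.nil)))))))))))))))))))))))))))))))))))))))))))))))))))))))))))))))))))))))))))))))))))))))))))))

noncomputable def vl : XL := ⟨(nat_lit 0), (nat_lit 76), (nat_lit 293870060), (nat_lit 152), (nat_lit 25938819), (nat_lit 152), (nat_lit 25938819), (nat_lit 1), (nat_lit 4), (nat_lit 2), (nat_lit 5), (nat_lit 2), (nat_lit 4), (nat_lit 0), (nat_lit 0), (nat_lit 0)⟩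

noncomputable def cp0 : Nat := (nat_lit 25069940124132221932521819560354226712029301186782821036673444665078340550577058919222749916069702849227235000975916687570453519490987325027628806678043431382043838552658495008444227218557644980737033460801457883643931980991110182154373366458774433906372636977226228867638217478764286760809099645490478067287151427316011763282682124050291974892161420717926387152850516789923870928179577861173137958344505253702414901519856040889624211928394194345331991348493442970375416628801660266581980050410888203229714334288288738510283787156216641357330272379803980010595107642235468633323233103890325437948055925056674003642814959040072196913640926835136466196604879252669325238820603859198770553899819960383057450847088908206347580165713972307254531339652959238912476358158485373472823239633349641774420784248149056086274536727304350759153124318403540507064253833575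066114681489957489878263555033272481304041162815477240688351969588483013273426811496677239237833331774243556019804988364079383628056884804787550581748275126598220725250815618726688702430466311417292441089920449844673966635806044034548678381356801405257049575773269370071858585365661541572057654791055140545036634212603875945423522991476339913429588556071127680665072387729524088695310109369156897605991266507080025456932413685780623041254895842315757765664394656858827156701865549189237237800827548719450050523476512136279393323925149359329252377290640449190789588587050929140943152950240385247007666771770899002664136331341830339571543978290985236215247445237227415027155443330660818389946060775461319963684997238874316602073052322391873646502898613114233263355453912097538193481542890977688834192323791290087461759678940918607640062633659556050367978218248289835900277806730460752378821483693840792284188689304995845912459015673190562094876189452433261966594694907896840908245590878970596479694115958689214411716455834079248284388683658983938573916506937308478855733927350990019431355467215250597801078601339870868190873219584641967813025998743074222508474449648795361650178464643140623212262987615713040915832925813318706896624892907940770557600462874260717161125556043940329697004486656)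

noncomputable def cp1 : Nat := (nat_lit 27636835841248275272134679231447826726787351308358457482961339320956671554641802041598349619970586249045413271338057205472740130002223361615915721086406562377660333106209923048508159539807630696434435699047310994241472842127449420934927338340301954909332820503881531516098794565816010493993269345380481010114154265460830248051373029784531119056865408150026924354376282260801547325861752990433457659731540696165567168138548457063358400286772627831876074062310512270925668283021710940391576489502737694026053280827598106518176641728632400222993689820042037768700345090317765001293207483537496899139014038984915031061508683974857575429717017562518622209648256011303765685877523161532991108361449363599039084829081600101202762351442013484682749189717436294047230063333708651840001341346643062993679720577087422866161556927137006116337827004542457003495888912206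536806244890613100328675511449241797904522987188250530542495515692402353612097258838444008843139907765801743379643758160754117777492286137507647332357502570042006261718781722626647882524906570717965976792164952671700694654116739953011035131885469830558392382307487126781988626192724129235046396621405909576688329532086696703908905016010609709192768354600326982945748086702142946799084496920538802948490426366444996845552743542152648460202379002792678797397863407622384526106158956664716873111308986968433999604649431265292577219581359908121751008587438153500872675583411626203738550367798167662119208208892041728963648952052514783856358555165919477247612895022985047471541642574210291264766969331282394448056960647423427615541438651188697264516247065855412007839741139963774213312483752625303593017566662586661022249473457301617766224693601391700356332701302062235055268711758572159017292251071330493682589475245227713829953854981735565520965932528422082563821307388246891537085610655130067983314068208780846682837872228768489677866775643689522197312443707749019312997656459205577404531072336552436607369607846319755637623637793445899626482607608905035031221802100488865882647214442095492472670264326821821478373045923030598678797212852295293720041914770072859427821669095040610036984315904)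

noncomputable def rc0 : Nat := (nat_lit 25513529826683955217798099836038384768982370324171631635356897394228130461854486411711536424810012454928491304114025208852896051496104489232422835046749467235089224432382185184843171592100905012943811961865444606729247801058931357896651936994755760996202779610117688415037229237676556017582003513490963519967498149509660045625786435198942565665555447631878556266577698959602929432270241164112178604557224233678742434768684886627607003635037219090859962031472846227519691270042048580959145448190012008055005102455746726447958660465490285731834684688816785130275165742988153661775097665052617699641960329958729757447819834125173936262926752809706161595785445667595870791845378497932592798049615263874139472236052699158370554403486788796341717137807098048910404205116652748736844068795983727107917873355403549947830449444919454132435600334840333807751388287526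671571695984653942004344672919790613852272022843120557976290374607901753885836859919939608022322832928435944973339718520520962808723208421480379837960370772883109323525589622198530839834529950074699546026196391138021065864922538812240996676194821931114976475835425278303568012620993272701410357977371650149967788966439907407626537189247275366020348274495972710911076084720063383074442130095232017200484410158021911365945697432803876271898043708516257522680525072531243560425831767985937243813558337852975224162069154425331181003155995473265868625047236019912931954036343180780025710705996861556615329203415288129928068748855357775580128271091366751865242101745819229181344076363202837352965937375990067298151471775990906582240986510900025974562019909499405701156677998292546204824648098507524164477818020509296924828316684101803974744416096513465531106614826909918380443259290898118640220849304622478355748256981278963172969810891342206361972337025315265186236071847914223853113446151361825203273577265924992516811713984234191790768191201766273803387194992394694048971156762326931671865772178538327050073426168539626216808247654500554901336307688466702682424809836973257395057779084096116333136755742319243570632580880394380918348901733067722127199877880125407908004479548763161842436538368)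

noncomputable def rc1 : Nat := (nat_lit 26286052088797122517083143204244962312621593087537751098730331992162518407552623453226024931671329868202398824148725103891378789207678281433961397488783735075259887718718515455374552013562491069214597366873525327298008959704360494927645338800677073128069792463071484246042283414762985872400613715962922927426982103632808169900484904760365095973491117770435005183114456551420029481216015133087801274718640359771011111405649188252684807853757030519145370277859177854842445805883822486279021261187161082639926974960754245933221614784017215927595254528611424265285406834482571715303773287850398807259154646998883898918118218957526473952521376640650892746091705727219764723279769945066402267430839374327198178578913623572502663295607252550951007115501679618692448441611324001126583597442068721906563754257835091349117637125510776195064607935875474265493585920878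512391705591881026776547504398782668808030140401055986572819351545216687945731633710922963176365577313167922705728543443105128748186847950995529682565483222643436823180498051145448019905962083075882380387733623797277917024321427862448287418810250877623535909749097353338479954622902729186648689642789986958623699467131508320887345133638687371845132884120509804562490851475819768094181735198180515311658985832758411376488412994189756180941012560686690381135151504189934271965779097276328178555237413023277742377959753436330832871643214353864810916822933868858457115126873837775618746119092269602383455335143954143968933165398734744917070625619131761463293087110452333383670023400524993799642001262002420460991655074640124355390981536325123354496309269709167645529444150575916281256878772674448822950301387264893116127000466017241108784483167372503147563920767570750153355630469990698489441133938876131564501554157730877641674146378149979157242338172501430751906917050738079971509222884093996108391093090072851024281048800935084144938721817994661639538795909057963411100727129036047124807687513776822908793395248689938352194913463819883356833252111750889284451691879488069878943857326081470169592545404619138077534752311127639936385018424430280217914071002002065623326622292861127956128333824)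

noncomputable def rc2 : Nat := (nat_lit 27161132500820328036385999592304349556878132655247787750406721929995374534705212377952885654431460895960313659412005606489301905503426374365343217612875254081311755403877239421491533293139123918730315023225193803234381531206449383734071853328486396807840744508783307900632352019451630550899406610414882964070999637459742206910927084130433072762439617754338916811145998997328623193496342489047465620778162217084000459054081585611253095406001246898125861388375680611732543489443769377397969161777376304430270639407890022734903490146274054761534234364969735511184910621045556878614871285691914995131701832126149280885524696666674906401653836624139335625118310933350305634888064639094320039386053942763578268499899724263628875264456798543044888869818636886570598425463311494742158086907920356402659851634639657255151077447427451694595333054243459745160933193589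628887063954753800737360691444787317260630021928275364999417630036511004823375608414705544893286701529758511453644535514371825997189040925977059963582503782201295377839903822546617906438332809122702179255619238579389642501574242137565028897354607637888096311815752873929924799761409192082367890836359748140193731951310808597010576284995506503090762541358491647769737688639007993376847311238635846991924715901683712016965344218091285859112607943392748622234649546199216134014249654082778508806139041019480634633228146969385809967761618005701133577106911229701338583855291724636322497441829924604247633020770814672132988569591663516551607495494000021690312091820416064382197588208024802980047217108446060274548834226384014924690294276990344567319591918896964092533252972759516203091256158630373488571843756388325008450221515875480604830557978655306631724797402532836464340361239545176487161044834455220236262616265241984947538561667747801302308892315318869247360747136441297640549616364150617423419200545520724004254083986947270828078832231077629981775168434782133403262349898937861553995213391760897571954554348060103606044322574616407461820328309063597029948629621755398954125174671355965111869513866017644642977668535582957723538102203318168026150755193002753830952199663872436192608780288)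

noncomputable def rc3 : Nat := (nat_lit 27636835841248275272134679231447826726787351308358457482961339320956671554641802041598349619970586249045413271338057205472740130002223361615915721086406562377660333106209923048508159539807630696434435699047310994241472842127449420934927338340301954909332820503881531516098794565816010493993269345380481010114154265460830248051373029784531119056865408150026924354376282260801547325861752990433457659731540696165567168138548457063358400286772627831876074062310512270925668283021710940391576489502737694026053280827598106518176641728632400222993689820042037768700345090317765001293207483537496899139014038984915031061508683974857575429717017562518622209648256011303765685877523161532991108361449363599039084829081600101202762351442013484682749189717436294047230063333708651840001341346643062993679720577087422866161556927137006116337827004542457003495888912206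536806244890613100328675511449241797904522987188250530542495515692402353612097258838444008843139907765801743379643758160754117777492286137507647332357502570042006261718781722626647882524906570717965976792164952671700694654116739953011035131885469830558392382307487126781988626192724129235046396621405909576688329532086696703908905016010609709192768354600326982945748086702142946799084496920538802948490426366444996845552743542152648460202379002792678797397863407622384526106158956664716873111308986968433999604649431265292577219581359908121751008587438153500872675583411626203738550367798167662119208208892041728963648952052514783856358555165919477247612895022985047471541642574210291264766969331282394448056960647423427615541438651188697264516247065855412007839741139963774213312483752625303593017566662586661022249473457301617766224693601391700356332701302062235055268711758572159017292251071330493682589475245227713829953854981735565520965932528422082563821307388246891537085610655130067983314068208780846682837872228768489677866775643689522197312443707749019312997656459205577404531072336552436607369607846319755637623637793445899626482607608905035031221802100488865882647214442095492472670264326821821478373045923030598678797212852295293720041914770072859427821669095040610036984315904)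

end Vale.Agent.Lib.P154.PChain.BE.S2
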