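import Vale.Agent.Lib.P154.PChain.BE.R2_0

set_option linter.all false

namespace Vale.Agent.Lib.P154.PChain.BE.S3

open Vale.Agent.Lib.P154.Chain

noncomputable def pc0 : PT := (PT.nd (nat_lit 10762986) (PT.nd (nat_lit 10388352) (PT.nd (nat_lit 10200996) (PT.nd (nat_lit 10138440) (PT.nd (nat_lit 10076040) (PT.nd (nat_lit 10013640) PT.nil (PT.lf (nat_lit 76) (nat_lit 3) (nat_lit 1) (nat_lit 1) (nat_lit 220) (nat_lit 160) (nat_lit 220))) (PT.nd (nat_lit 78) (PT.lf (nat_lit 152) (nat_lit 6) (nat_lit 2) (nat_lit 3) (nat_lit 219) (nat_lit 161) (nat_lit 220)) (PT.lf (nat_lit 152) (nat_lit 6) (nat_lit 2) (nat_lit 1) (nat_lit 220) (nat_lit 161) (nat_lit 219)))) (PT.nd (nat_lit 156) (PT.nd (nat_lit 78) (PT.lf (nat_lit 228) (nat_lit 6) (nat_lit 3) (nat_lit 3) (nat_lit 218) (nat_lit 162) (nat_lit 220)) (PT.lf (nat_lit 304) (nat_lit 3) (nat_lit 4) (nat_lit 1) (nat_lit 219) (nat_lit 162) (nat_lit 219)))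 (PT.nd (nat_lit 62322) (PT.lf (nat_lit 228) (nat_lit 6) (nat_lit 3) (nat_lit 1) (nat_lit 220) (nat_lit 162) (nat_lit 218)) (PT.lf (nat_lit 380) (nat_lit 6) (nat_lit 5) (nat_lit 3) (nat_lit 218) (nat_lit 163) (nat_lit 219))))) (PT.nd (nat_lit 124800) (PT.nd (nat_lit 62400) (PT.nd (nat_lit 62322) (PT.lf (nat_lit 380) (nat_lit 6) (nat_lit 5) (nat_lit 1) (nat_lit 219) (nat_lit 163) (nat_lit 218)) (PT.lf (nat_lit 456) (nat_lit 6) (nat_lit 6) (nat_lit 3) (nat_lit 217) (nat_lit 164) (nat_lit 219))) (PT.nd (nat_lit 78) (PT.lf (nat_lit 532) (nat_lit 3) (nat_lit 7) (nat_lit 1) (nat_lit 218) (nat_lit 164) (nat_lit 218)) (PT.lf (nat_lit 456) (nat_lit 6) (nat_lit 6) (nat_lit 1) (nat_lit 219) (nat_lit 164) (nat_lit 217)))) (PT.nd (nat_lit 62400) (PT.nd (nat_lit 78) (PT.lf (nat_lit 608) (nat_lit 6) (nat_lit 8) (nat_lit 3) (nat_lit 217) (nat_lit 165) (nat_lit 218)) (PT.lf (nat_lit 608) (nat_lit 6) (nat_lit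 8) (nat_lit 1) (nat_lit 218) (nat_lit 165) (nat_lit 217))) (PT.nd (nat_lit 78) (PT.lf (nat_lit 684) (nat_lit 6) (nat_lit 9) (nat_lit 3) (nat_lit 216) (nat_lit 166) (nat_lit 218)) (PT.lf (nat_lit 760) (nat_lit 3) (nat_lit 10) (nat_lit 1) (nat_lit 217) (nat_lit 166) (nat_lit 217)))))) (PT.nd (nat_lit 187278) (PT.nd (nat_lit 124722) (PT.nd (nat_lit 62322) (PT.lf (nat_lit 684) (nat_lit 6) (nat_lit 9) (nat_lit 1) (nat_lit 218) (nat_lit 166) (nat_lit 216)) (PT.nd (nat_lit 78) (PT.lf (nat_lit 836) (nat_lit 6) (nat_lit 11) (nat_lit 3) (nat_lit 216) (nat_lit 167) (nat_lit 217)) (PT.lf (nat_lit 836) (nat_lit 6) (nat_lit 11) (nat_lit 1) (nat_lit 217) (nat_lit 167) (nat_lit 216)))) (PT.nd (nat_lit 156) (PT.nd (nat_lit 78) (PT.lf (nat_lit 912) (nat_lit 6) (nat_lit 12) (nat_lit 3) (nat_lit 215) (nat_lit 168) (nat_lit 217)) (PT.lf (nat_lit 988) (nat_lit 3) (nat_lit 13) (nat_lit 1) (nat_lit 216) (nat_lit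 168) (nat_lit 216))) (PT.nd (nat_lit 62322) (PT.lf (nat_lit 912) (nat_lit 6) (nat_lit 12) (nat_lit 1) (nat_lit 217) (nat_lit 168) (nat_lit 215)) (PT.lf (nat_lit 1064) (nat_lit 6) (nat_lit 14) (nat_lit 3) (nat_lit 215) (nat_lit 169) (nat_lit 216))))) (PT.nd (nat_lit 124800) (PT.nd (nat_lit 62400) (PT.nd (nat_lit 62322) (PT.lf (nat_lit 1064) (nat_lit 6) (nat_lit 14) (nat_lit 1) (nat_lit 216) (nat_lit 169) (nat_lit 215)) (PT.lf (nat_lit 1140) (nat_lit 6) (nat_lit 15) (nat_lit 3) (nat_lit 214) (nat_lit 170) (nat_lit 216))) (PT.nd (nat_lit 78) (PT.lf (nat_lit 1216) (nat_lit 3) (nat_lit 16) (nat_lit 1) (nat_lit 215) (nat_lit 170) (nat_lit 215)) (PT.lf (nat_lit 1140) (nat_lit 6) (nat_lit 15) (nat_lit 1) (nat_lit 216) (nat_lit 170) (nat_lit 214)))) (PT.nd (nat_lit 62400) (PT.nd (nat_lit 78) (PT.lf (nat_lit 1292) (nat_lit 6) (nat_lit 17) (nat_lit 3) (nat_lit 214) (nat_lit 171) (nat_lit 215)) (PT.lf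 (nat_lit 1292) (nat_lit 6) (nat_lit 17) (nat_lit 1) (nat_lit 215) (nat_lit 171) (nat_lit 214))) (PT.nd (nat_lit 78) (PT.lf (nat_lit 1368) (nat_lit 6) (nat_lit 18) (nat_lit 3) (nat_lit 213) (nat_lit 172) (nat_lit 215)) (PT.lf (nat_lit 1444) (nat_lit 3) (nat_lit 19) (nat_lit 1) (nat_lit 214) (nat_lit 172) (nat_lit 214))))))) (PT.nd (nat_lit 374634) (PT.nd (nat_lit 187278) (PT.nd (nat_lit 124722) (PT.nd (nat_lit 62322) (PT.lf (nat_lit 1368) (nat_lit 6) (nat_lit 18) (nat_lit 1) (nat_lit 215) (nat_lit 172) (nat_lit 213)) (PT.nd (nat_lit 78) (PT.lf (nat_lit 1520) (nat_lit 6) (nat_lit 20) (nat_lit 3) (nat_lit 213) (nat_lit 173) (nat_lit 214)) (PT.lf (nat_lit 1520) (nat_lit 6) (nat_lit 20) (nat_lit 1) (nat_lit 214) (nat_lit 173) (nat_lit 213)))) (PT.nd (nat_lit 156) (PT.nd (nat_lit 78) (PT.lf (nat_lit 1596) (nat_lit 6) (nat_lit 21) (nat_lit 3) (nat_lit 212) (nat_lit 174) (nat_lit 214)) (PT.lf (nat_lit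 1672) (nat_lit 3) (nat_lit 22) (nat_lit 1) (nat_lit 213) (nat_lit 174) (nat_lit 213))) (PT.nd (nat_lit 62322) (PT.lf (nat_lit 1596) (nat_lit 6) (nat_lit 21) (nat_lit 1) (nat_lit 214) (nat_lit 174) (nat_lit 212)) (PT.lf (nat_lit 1748) (nat_lit 6) (nat_lit 23) (nat_lit 3) (nat_lit 212) (nat_lit 175) (nat_lit 213))))) (PT.nd (nat_lit 124800) (PT.nd (nat_lit 62400) (PT.nd (nat_lit 62322) (PT.lf (nat_lit 1748) (nat_lit 6) (nat_lit 23) (nat_lit 1) (nat_lit 213) (nat_lit 175) (nat_lit 212)) (PT.lf (nat_lit 1824) (nat_lit 6) (nat_lit 24) (nat_lit 3) (nat_lit 211) (nat_lit 176) (nat_lit 213))) (PT.nd (nat_lit 78) (PT.lf (nat_lit 1900) (nat_lit 3) (nat_lit 25) (nat_lit 1) (nat_lit 212) (nat_lit 176) (nat_lit 212)) (PT.lf (nat_lit 1824) (nat_lit 6) (nat_lit 24) (nat_lit 1) (nat_lit 213) (nat_lit 176) (nat_lit 211)))) (PT.nd (nat_lit 62400) (PT.nd (nat_lit 78) (PT.lf (nat_lit 1976) (nat_lit 6) (nat_lit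 26) (nat_lit 3) (nat_lit 211) (nat_lit 177) (nat_lit 212)) (PT.lf (nat_lit 1976) (nat_lit 6) (nat_lit 26) (nat_lit 1) (nat_lit 212) (nat_lit 177) (nat_lit 211))) (PT.nd (nat_lit 78) (PT.lf (nat_lit 2052) (nat_lit 6) (nat_lit 27) (nat_lit 3) (nat_lit 210) (nat_lit 178) (nat_lit 212)) (PT.lf (nat_lit 2128) (nat_lit 3) (nat_lit 28) (nat_lit 1) (nat_lit 211) (nat_lit 178) (nat_lit 211)))))) (PT.nd (nat_lit 187200) (PT.nd (nat_lit 124722) (PT.nd (nat_lit 62322) (PT.lf (nat_lit 2052) (nat_lit 6) (nat_lit 27) (nat_lit 1) (nat_lit 212) (nat_lit 178) (nat_lit 210)) (PT.nd (nat_lit 78) (PT.lf (nat_lit 2204) (nat_lit 6) (nat_lit 29) (nat_lit 3) (nat_lit 210) (nat_lit 179) (nat_lit 211)) (PT.lf (nat_lit 2204) (nat_lit 6) (nat_lit 29) (nat_lit 1) (nat_lit 211) (nat_lit 179) (nat_lit 210)))) (PT.nd (nat_lit 156) (PT.nd (nat_lit 78) (PT.lf (nat_lit 2280) (nat_lit 6) (nat_lit 30) (nat_lit 3) (nat_lit 209)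 (nat_lit 180) (nat_lit 211)) (PT.lf (nat_lit 2356) (nat_lit 3) (nat_lit 31) (nat_lit 1) (nat_lit 210) (nat_lit 180) (nat_lit 210))) (PT.nd (nat_lit 62244) (PT.lf (nat_lit 2280) (nat_lit 6) (nat_lit 30) (nat_lit 1) (nat_lit 211) (nat_lit 180) (nat_lit 209)) (PT.lf (nat_lit 2432) (nat_lit 6) (nat_lit 32) (nat_lit 3) (nat_lit 208) (nat_lit 181) (nat_lit 211))))) (PT.nd (nat_lit 62478) (PT.nd (nat_lit 156) (PT.nd (nat_lit 78) (PT.lf (nat_lit 2508) (nat_lit 6) (nat_lit 33) (nat_lit 3) (nat_lit 209) (nat_lit 181) (nat_lit 210)) (PT.lf (nat_lit 2508) (nat_lit 6) (nat_lit 33) (nat_lit 1) (nat_lit 210) (nat_lit 181) (nat_lit 209))) (PT.nd (nat_lit 62244) (PT.lf (nat_lit 2432) (nat_lit 6) (nat_lit 32) (nat_lit 1) (nat_lit 211) (nat_lit 181) (nat_lit 208)) (PT.lf (nat_lit 2584) (nat_lit 6) (nat_lit 34) (nat_lit 3) (nat_lit 208) (nat_lit 182) (nat_lit 210)))) (PT.nd (nat_lit 62322) (PT.nd (nat_lit 78)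 (PT.lf (nat_lit 2660) (nat_lit 3) (nat_lit 35) (nat_lit 1) (nat_lit 209) (nat_lit 182) (nat_lit 209)) (PT.lf (nat_lit 2584) (nat_lit 6) (nat_lit 34) (nat_lit 1) (nat_lit 210) (nat_lit 182) (nat_lit 208))) (PT.nd (nat_lit 78) (PT.lf (nat_lit 2736) (nat_lit 6) (nat_lit 36) (nat_lit 3) (nat_lit 207) (nat_lit 183) (nat_lit 210)) (PT.lf (nat_lit 2812) (nat_lit 6) (nat_lit 37) (nat_lit 3) (nat_lit 208) (nat_lit 183) (nat_lit 209))))))))
noncomputable def pc1 : PT := (PT.nd (nat_lit 436956) (PT.nd (nat_lit 249678) (PT.nd (nat_lit 124878) (PT.nd (nat_lit 62400) (PT.nd (nat_lit 78) (PT.lf (nat_lit 2812) (nat_lit 6) (nat_lit 37) (nat_lit 1) (nat_lit 209) (nat_lit 183) (nat_lit 208)) (PT.nd (nat_lit 62244) (PT.lf (nat_lit 2736) (nat_lit 6) (nat_lit 36) (nat_lit 1) (nat_lit 210) (nat_lit 183) (nat_lit 207)) (PT.lf (nat_lit 2888) (nat_lit 6) (nat_lit 38) (nat_lit 3) (nat_lit 207) (nat_lit 184) (nat_lit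 209)))) (PT.nd (nat_lit 62322) (PT.nd (nat_lit 78) (PT.lf (nat_lit 2964) (nat_lit 3) (nat_lit 39) (nat_lit 1) (nat_lit 208) (nat_lit 184) (nat_lit 208)) (PT.lf (nat_lit 2888) (nat_lit 6) (nat_lit 38) (nat_lit 1) (nat_lit 209) (nat_lit 184) (nat_lit 207))) (PT.nd (nat_lit 78) (PT.lf (nat_lit 3040) (nat_lit 6) (nat_lit 40) (nat_lit 3) (nat_lit 206) (nat_lit 185) (nat_lit 209)) (PT.lf (nat_lit 3116) (nat_lit 6) (nat_lit 41) (nat_lit 3) (nat_lit 207) (nat_lit 185) (nat_lit 208))))) (PT.nd (nat_lit 62400) (PT.nd (nat_lit 62244) (PT.nd (nat_lit 78) (PT.lf (nat_lit 3116) (nat_lit 6) (nat_lit 41) (nat_lit 1) (nat_lit 208) (nat_lit 185) (nat_lit 207)) (PT.lf (nat_lit 3040) (nat_lit 6) (nat_lit 40) (nat_lit 1) (nat_lit 209) (nat_lit 185) (nat_lit 206))) (PT.nd (nat_lit 78) (PT.lf (nat_lit 3192) (nat_lit 6) (nat_lit 42) (nat_lit 3) (nat_lit 205) (nat_lit 186) (nat_lit 209)) (PT.lf (nat_lit 3268) (nat_lit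 6) (nat_lit 43) (nat_lit 3) (nat_lit 206) (nat_lit 186) (nat_lit 208)))) (PT.nd (nat_lit 156) (PT.nd (nat_lit 78) (PT.lf (nat_lit 3344) (nat_lit 3) (nat_lit 44) (nat_lit 1) (nat_lit 207) (nat_lit 186) (nat_lit 207)) (PT.lf (nat_lit 3268) (nat_lit 6) (nat_lit 43) (nat_lit 1) (nat_lit 208) (nat_lit 186) (nat_lit 206))) (PT.nd (nat_lit 62166) (PT.lf (nat_lit 3192) (nat_lit 6) (nat_lit 42) (nat_lit 1) (nat_lit 209) (nat_lit 186) (nat_lit 205)) (PT.lf (nat_lit 3420) (nat_lit 6) (nat_lit 45) (nat_lit 3) (nat_lit 205) (nat_lit 187) (nat_lit 208)))))) (PT.nd (nat_lit 62634) (PT.nd (nat_lit 62322) (PT.nd (nat_lit 78) (PT.lf (nat_lit 3496) (nat_lit 6) (nat_lit 46) (nat_lit 3) (nat_lit 206) (nat_lit 187) (nat_lit 207)) (PT.nd (nat_lit 78) (PT.lf (nat_lit 3496) (nat_lit 6) (nat_lit 46) (nat_lit 1) (nat_lit 207) (nat_lit 187) (nat_lit 206)) (PT.lf (nat_lit 3420) (nat_lit 6) (nat_lit 45) (nat_lit 1) (nat_lit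 208) (nat_lit 187) (nat_lit 205)))) (PT.nd (nat_lit 156) (PT.nd (nat_lit 78) (PT.lf (nat_lit 3572) (nat_lit 6) (nat_lit 47) (nat_lit 3) (nat_lit 204) (nat_lit 188) (nat_lit 208)) (PT.lf (nat_lit 3648) (nat_lit 6) (nat_lit 48) (nat_lit 3) (nat_lit 205) (nat_lit 188) (nat_lit 207))) (PT.nd (nat_lit 78) (PT.lf (nat_lit 3724) (nat_lit 3) (nat_lit 49) (nat_lit 1) (nat_lit 206) (nat_lit 188) (nat_lit 206)) (PT.lf (nat_lit 3648) (nat_lit 6) (nat_lit 48) (nat_lit 1) (nat_lit 207) (nat_lit 188) (nat_lit 205))))) (PT.nd (nat_lit 62322) (PT.nd (nat_lit 62166) (PT.nd (nat_lit 62088) (PT.lf (nat_lit 3572) (nat_lit 6) (nat_lit 47) (nat_lit 1) (nat_lit 208) (nat_lit 188) (nat_lit 204)) (PT.lf (nat_lit 3800) (nat_lit 6) (nat_lit 50) (nat_lit 3) (nat_lit 203) (nat_lit 189) (nat_lit 208))) (PT.nd (nat_lit 78) (PT.lf (nat_lit 3876) (nat_lit 6) (nat_lit 51) (nat_lit 3) (nat_lit 204) (nat_lit 189) (nat_lit 207))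 (PT.lf (nat_lit 3952) (nat_lit 6) (nat_lit 52) (nat_lit 3) (nat_lit 205) (nat_lit 189) (nat_lit 206)))) (PT.nd (nat_lit 156) (PT.nd (nat_lit 78) (PT.lf (nat_lit 3952) (nat_lit 6) (nat_lit 52) (nat_lit 1) (nat_lit 206) (nat_lit 189) (nat_lit 205)) (PT.lf (nat_lit 3876) (nat_lit 6) (nat_lit 51) (nat_lit 1) (nat_lit 207) (nat_lit 189) (nat_lit 204))) (PT.nd (nat_lit 62088) (PT.lf (nat_lit 3800) (nat_lit 6) (nat_lit 50) (nat_lit 1) (nat_lit 208) (nat_lit 189) (nat_lit 203)) (PT.lf (nat_lit 4028) (nat_lit 6) (nat_lit 53) (nat_lit 3) (nat_lit 203) (nat_lit 190) (nat_lit 207))))))) (PT.nd (nat_lit 125112) (PT.nd (nat_lit 62556) (PT.nd (nat_lit 234) (PT.nd (nat_lit 78) (PT.lf (nat_lit 4104) (nat_lit 6) (nat_lit 54) (nat_lit 3) (nat_lit 204) (nat_lit 190) (nat_lit 206)) (PT.nd (nat_lit 78) (PT.lf (nat_lit 4180) (nat_lit 3) (nat_lit 55) (nat_lit 1) (nat_lit 205) (nat_lit 190) (nat_lit 205)) (PT.lf (nat_lit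 4104) (nat_lit 6) (nat_lit 54) (nat_lit 1) (nat_lit 206) (nat_lit 190) (nat_lit 204)))) (PT.nd (nat_lit 62166) (PT.nd (nat_lit 62088) (PT.lf (nat_lit 4028) (nat_lit 6) (nat_lit 53) (nat_lit 1) (nat_lit 207) (nat_lit 190) (nat_lit 203)) (PT.lf (nat_lit 4256) (nat_lit 6) (nat_lit 56) (nat_lit 3) (nat_lit 202) (nat_lit 191) (nat_lit 207))) (PT.nd (nat_lit 78) (PT.lf (nat_lit 4332) (nat_lit 6) (nat_lit 57) (nat_lit 3) (nat_lit 203) (nat_lit 191) (nat_lit 206)) (PT.lf (nat_lit 4408) (nat_lit 6) (nat_lit 58) (nat_lit 3) (nat_lit 204) (nat_lit 191) (nat_lit 205))))) (PT.nd (nat_lit 62244) (PT.nd (nat_lit 156) (PT.nd (nat_lit 78) (PT.lf (nat_lit 4408) (nat_lit 6) (nat_lit 58) (nat_lit 1) (nat_lit 205) (nat_lit 191) (nat_lit 204)) (PT.lf (nat_lit 4332) (nat_lit 6) (nat_lit 57) (nat_lit 1) (nat_lit 206) (nat_lit 191) (nat_lit 203))) (PT.nd (nat_lit 62010) (PT.lf (nat_lit 4256) (nat_lit 6) (nat_lit 56)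 (nat_lit 1) (nat_lit 207) (nat_lit 191) (nat_lit 202)) (PT.lf (nat_lit 4484) (nat_lit 6) (nat_lit 59) (nat_lit 3) (nat_lit 201) (nat_lit 192) (nat_lit 207)))) (PT.nd (nat_lit 156) (PT.nd (nat_lit 78) (PT.lf (nat_lit 4560) (nat_lit 6) (nat_lit 60) (nat_lit 3) (nat_lit 202) (nat_lit 192) (nat_lit 206)) (PT.lf (nat_lit 4636) (nat_lit 6) (nat_lit 61) (nat_lit 3) (nat_lit 203) (nat_lit 192) (nat_lit 205))) (PT.nd (nat_lit 78) (PT.lf (nat_lit 4712) (nat_lit 3) (nat_lit 62) (nat_lit 1) (nat_lit 204) (nat_lit 192) (nat_lit 204)) (PT.lf (nat_lit 4636) (nat_lit 6) (nat_lit 61) (nat_lit 1) (nat_lit 205) (nat_lit 192) (nat_lit 203)))))) (PT.nd (nat_lit 62478) (PT.nd (nat_lit 62166) (PT.nd (nat_lit 62010) (PT.nd (nat_lit 78) (PT.lf (nat_lit 4560) (nat_lit 6) (nat_lit 60) (nat_lit 1) (nat_lit 206) (nat_lit 192) (nat_lit 202)) (PT.lf (nat_lit 4484) (nat_lit 6) (nat_lit 59) (nat_lit 1) (nat_lit 207) (nat_lit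 192) (nat_lit 201))) (PT.nd (nat_lit 78) (PT.lf (nat_lit 4940) (nat_lit 6) (nat_lit 65) (nat_lit 3) (nat_lit 200) (nat_lit 193) (nat_lit 207)) (PT.lf (nat_lit 5016) (nat_lit 6) (nat_lit 66) (nat_lit 3) (nat_lit 201) (nat_lit 193) (nat_lit 206)))) (PT.nd (nat_lit 156) (PT.nd (nat_lit 78) (PT.lf (nat_lit 5092) (nat_lit 6) (nat_lit 67) (nat_lit 3) (nat_lit 202) (nat_lit 193) (nat_lit 205)) (PT.lf (nat_lit 5168) (nat_lit 6) (nat_lit 68) (nat_lit 3) (nat_lit 203) (nat_lit 193) (nat_lit 204))) (PT.nd (nat_lit 78) (PT.lf (nat_lit 5168) (nat_lit 6) (nat_lit 68) (nat_lit 1) (nat_lit 204) (nat_lit 193) (nat_lit 203)) (PT.lf (nat_lit 5092) (nat_lit 6) (nat_lit 67) (nat_lit 1) (nat_lit 205) (nat_lit 193) (nat_lit 202))))) (PT.nd (nat_lit 62088) (PT.nd (nat_lit 61932) (PT.nd (nat_lit 78) (PT.lf (nat_lit 5016) (nat_lit 6) (nat_lit 66) (nat_lit 1) (nat_lit 206) (nat_lit 193) (nat_lit 201)) (PT.lf (nat_lit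 4940) (nat_lit 6) (nat_lit 65) (nat_lit 1) (nat_lit 207) (nat_lit 193) (nat_lit 200))) (PT.nd (nat_lit 78) (PT.lf (nat_lit 4864) (nat_lit 6) (nat_lit 64) (nat_lit 3) (nat_lit 199) (nat_lit 194) (nat_lit 207)) (PT.lf (nat_lit 5472) (nat_lit 6) (nat_lit 72) (nat_lit 3) (nat_lit 200) (nat_lit 194) (nat_lit 206)))) (PT.nd (nat_lit 156) (PT.nd (nat_lit 78) (PT.lf (nat_lit 5548) (nat_lit 6) (nat_lit 73) (nat_lit 3) (nat_lit 201) (nat_lit 194) (nat_lit 205)) (PT.lf (nat_lit 5624) (nat_lit 6) (nat_lit 74) (nat_lit 3) (nat_lit 202) (nat_lit 194) (nat_lit 204))) (PT.nd (nat_lit 78) (PT.lf (nat_lit 5700) (nat_lit 3) (nat_lit 75) (nat_lit 1) (nat_lit 203) (nat_lit 194) (nat_lit 203)) (PT.lf (nat_lit 5624) (nat_lit 6) (nat_lit 74) (nat_lit 1) (nat_lit 204) (nat_lit 194) (nat_lit 202))))))))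
noncomputable def pc2 : PT := (PT.nd (nat_lit 187434) (PT.nd (nat_lit 124566) (PT.nd (nat_lit 62244) (PT.nd (nat_lit 61932) (PT.nd (nat_lit 78) (PT.lf (nat_lit 5548) (nat_lit 6) (nat_lit 73) (nat_lit 1) (nat_lit 205) (nat_lit 194) (nat_lit 201)) (PT.nd (nat_lit 78) (PT.lf (nat_lit 5472) (nat_lit 6) (nat_lit 72) (nat_lit 1) (nat_lit 206) (nat_lit 194) (nat_lit 200)) (PT.lf (nat_lit 4864) (nat_lit 6) (nat_lit 64) (nat_lit 1) (nat_lit 207) (nat_lit 194) (nat_lit 199)))) (PT.nd (nat_lit 156) (PT.nd (nat_lit 78) (PT.lf (nat_lit 4788) (nat_lit 6) (nat_lit 63) (nat_lit 3) (nat_lit 198) (nat_lit 195) (nat_lit 207)) (PT.lf (nat_lit 5396) (nat_lit 6) (nat_lit 71) (nat_lit 3) (nat_lit 199) (nat_lit 195) (nat_lit 206))) (PT.nd (nat_lit 78) (PT.lf (nat_lit 5928) (nat_lit 6) (nat_lit 78) (nat_lit 3) (nat_lit 200) (nat_lit 195) (nat_lit 205)) (PT.lf (nat_lit 6004) (nat_lit 6) (nat_lit 79) (nat_lit 3) (nat_lit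 201) (nat_lit 195) (nat_lit 204))))) (PT.nd (nat_lit 312) (PT.nd (nat_lit 156) (PT.nd (nat_lit 78) (PT.lf (nat_lit 6080) (nat_lit 6) (nat_lit 80) (nat_lit 3) (nat_lit 202) (nat_lit 195) (nat_lit 203)) (PT.lf (nat_lit 6080) (nat_lit 6) (nat_lit 80) (nat_lit 1) (nat_lit 203) (nat_lit 195) (nat_lit 202))) (PT.nd (nat_lit 78) (PT.lf (nat_lit 6004) (nat_lit 6) (nat_lit 79) (nat_lit 1) (nat_lit 204) (nat_lit 195) (nat_lit 201)) (PT.lf (nat_lit 5928) (nat_lit 6) (nat_lit 78) (nat_lit 1) (nat_lit 205) (nat_lit 195) (nat_lit 200)))) (PT.nd (nat_lit 61854) (PT.nd (nat_lit 78) (PT.lf (nat_lit 5396) (nat_lit 6) (nat_lit 71) (nat_lit 1) (nat_lit 206) (nat_lit 195) (nat_lit 199)) (PT.lf (nat_lit 4788) (nat_lit 6) (nat_lit 63) (nat_lit 1) (nat_lit 207) (nat_lit 195) (nat_lit 198))) (PT.nd (nat_lit 78) (PT.lf (nat_lit 5320) (nat_lit 6) (nat_lit 70) (nat_lit 3) (nat_lit 198) (nat_lit 196) (nat_lit 206)) (PT.lf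 (nat_lit 5852) (nat_lit 6) (nat_lit 77) (nat_lit 3) (nat_lit 199) (nat_lit 196) (nat_lit 205)))))) (PT.nd (nat_lit 62244) (PT.nd (nat_lit 234) (PT.nd (nat_lit 78) (PT.lf (nat_lit 6308) (nat_lit 6) (nat_lit 83) (nat_lit 3) (nat_lit 200) (nat_lit 196) (nat_lit 204)) (PT.nd (nat_lit 78) (PT.lf (nat_lit 6384) (nat_lit 6) (nat_lit 84) (nat_lit 3) (nat_lit 201) (nat_lit 196) (nat_lit 203)) (PT.lf (nat_lit 6460) (nat_lit 3) (nat_lit 85) (nat_lit 1) (nat_lit 202) (nat_lit 196) (nat_lit 202)))) (PT.nd (nat_lit 156) (PT.nd (nat_lit 78) (PT.lf (nat_lit 6384) (nat_lit 6) (nat_lit 84) (nat_lit 1) (nat_lit 203) (nat_lit 196) (nat_lit 201)) (PT.lf (nat_lit 6308) (nat_lit 6) (nat_lit 83) (nat_lit 1) (nat_lit 204) (nat_lit 196) (nat_lit 200))) (PT.nd (nat_lit 78) (PT.lf (nat_lit 5852) (nat_lit 6) (nat_lit 77) (nat_lit 1) (nat_lit 205) (nat_lit 196) (nat_lit 199)) (PT.lf (nat_lit 5320) (nat_lit 6) (nat_lit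 70) (nat_lit 1) (nat_lit 206) (nat_lit 196) (nat_lit 198))))) (PT.nd (nat_lit 312) (PT.nd (nat_lit 156) (PT.nd (nat_lit 78) (PT.lf (nat_lit 5244) (nat_lit 3) (nat_lit 69) (nat_lit 3) (nat_lit 197) (nat_lit 197) (nat_lit 206)) (PT.lf (nat_lit 5776) (nat_lit 6) (nat_lit 76) (nat_lit 3) (nat_lit 198) (nat_lit 197) (nat_lit 205))) (PT.nd (nat_lit 78) (PT.lf (nat_lit 6232) (nat_lit 6) (nat_lit 82) (nat_lit 3) (nat_lit 199) (nat_lit 197) (nat_lit 204)) (PT.lf (nat_lit 6612) (nat_lit 6) (nat_lit 87) (nat_lit 3) (nat_lit 200) (nat_lit 197) (nat_lit 203)))) (PT.nd (nat_lit 156) (PT.nd (nat_lit 78) (PT.lf (nat_lit 6688) (nat_lit 6) (nat_lit 88) (nat_lit 3) (nat_lit 201) (nat_lit 197) (nat_lit 202)) (PT.lf (nat_lit 6688) (nat_lit 6) (nat_lit 88) (nat_lit 1) (nat_lit 202) (nat_lit 197) (nat_lit 201))) (PT.nd (nat_lit 78) (PT.lf (nat_lit 6612) (nat_lit 6) (nat_lit 87) (nat_lit 1) (nat_lit 203) (nat_lit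 197) (nat_lit 200)) (PT.lf (nat_lit 6232) (nat_lit 6) (nat_lit 82) (nat_lit 1) (nat_lit 204) (nat_lit 197) (nat_lit 199))))))) (PT.nd (nat_lit 124098) (PT.nd (nat_lit 62088) (PT.nd (nat_lit 61776) (PT.nd (nat_lit 78) (PT.lf (nat_lit 5776) (nat_lit 6) (nat_lit 76) (nat_lit 1) (nat_lit 205) (nat_lit 197) (nat_lit 198)) (PT.nd (nat_lit 61620) (PT.lf (nat_lit 5244) (nat_lit 3) (nat_lit 69) (nat_lit 0) (nat_lit 206) (nat_lit 197) (nat_lit 197)) (PT.lf (nat_lit 4788) (nat_lit 6) (nat_lit 63) (nat_lit 5) (nat_lit 195) (nat_lit 198) (nat_lit 207)))) (PT.nd (nat_lit 156) (PT.nd (nat_lit 78) (PT.lf (nat_lit 5320) (nat_lit 6) (nat_lit 70) (nat_lit 5) (nat_lit 196) (nat_lit 198) (nat_lit 206)) (PT.lf (nat_lit 5776) (nat_lit 6) (nat_lit 76) (nat_lit 5) (nat_lit 197) (nat_lit 198) (nat_lit 205))) (PT.nd (nat_lit 78) (PT.lf (nat_lit 6156) (nat_lit 3) (nat_lit 81) (nat_lit 3) (nat_lit 198) (nat_lit 198) (nat_lit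 204)) (PT.lf (nat_lit 6536) (nat_lit 6) (nat_lit 86) (nat_lit 3) (nat_lit 199) (nat_lit 198) (nat_lit 203))))) (PT.nd (nat_lit 312) (PT.nd (nat_lit 156) (PT.nd (nat_lit 78) (PT.lf (nat_lit 6840) (nat_lit 6) (nat_lit 90) (nat_lit 3) (nat_lit 200) (nat_lit 198) (nat_lit 202)) (PT.lf (nat_lit 6916) (nat_lit 3) (nat_lit 91) (nat_lit 1) (nat_lit 201) (nat_lit 198) (nat_lit 201))) (PT.nd (nat_lit 78) (PT.lf (nat_lit 6840) (nat_lit 6) (nat_lit 90) (nat_lit 1) (nat_lit 202) (nat_lit 198) (nat_lit 200)) (PT.lf (nat_lit 6536) (nat_lit 6) (nat_lit 86) (nat_lit 1) (nat_lit 203) (nat_lit 198) (nat_lit 199)))) (PT.nd (nat_lit 156) (PT.nd (nat_lit 78) (PT.lf (nat_lit 6156) (nat_lit 3) (nat_lit 81) (nat_lit 0) (nat_lit 204) (nat_lit 198) (nat_lit 198)) (PT.lf (nat_lit 5776) (nat_lit 6) (nat_lit 76) (nat_lit 0) (nat_lit 205) (nat_lit 198) (nat_lit 197))) (PT.nd (nat_lit 78) (PT.lf (nat_lit 5320) (nat_lit 6)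 (nat_lit 70) (nat_lit 0) (nat_lit 206) (nat_lit 198) (nat_lit 196)) (PT.lf (nat_lit 4788) (nat_lit 6) (nat_lit 63) (nat_lit 0) (nat_lit 207) (nat_lit 198) (nat_lit 195)))))) (PT.nd (nat_lit 546) (PT.nd (nat_lit 234) (PT.nd (nat_lit 78) (PT.lf (nat_lit 4864) (nat_lit 6) (nat_lit 64) (nat_lit 5) (nat_lit 194) (nat_lit 199) (nat_lit 207)) (PT.nd (nat_lit 78) (PT.lf (nat_lit 5396) (nat_lit 6) (nat_lit 71) (nat_lit 5) (nat_lit 195) (nat_lit 199) (nat_lit 206)) (PT.lf (nat_lit 5852) (nat_lit 6) (nat_lit 77) (nat_lit 5) (nat_lit 196) (nat_lit 199) (nat_lit 205)))) (PT.nd (nat_lit 156) (PT.nd (nat_lit 78) (PT.lf (nat_lit 6232) (nat_lit 6) (nat_lit 82) (nat_lit 5) (nat_lit 197) (nat_lit 199) (nat_lit 204)) (PT.lf (nat_lit 6536) (nat_lit 6) (nat_lit 86) (nat_lit 5) (nat_lit 198) (nat_lit 199) (nat_lit 203))) (PT.nd (nat_lit 78) (PT.lf (nat_lit 6764) (nat_lit 3) (nat_lit 89) (nat_lit 3) (nat_lit 199)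 (nat_lit 199) (nat_lit 202)) (PT.lf (nat_lit 6992) (nat_lit 6) (nat_lit 92) (nat_lit 3) (nat_lit 200) (nat_lit 199) (nat_lit 201))))) (PT.nd (nat_lit 312) (PT.nd (nat_lit 156) (PT.nd (nat_lit 78) (PT.lf (nat_lit 6992) (nat_lit 6) (nat_lit 92) (nat_lit 1) (nat_lit 201) (nat_lit 199) (nat_lit 200)) (PT.lf (nat_lit 6764) (nat_lit 3) (nat_lit 89) (nat_lit 0) (nat_lit 202) (nat_lit 199) (nat_lit 199))) (PT.nd (nat_lit 78) (PT.lf (nat_lit 6536) (nat_lit 6) (nat_lit 86) (nat_lit 0) (nat_lit 203) (nat_lit 199) (nat_lit 198)) (PT.lf (nat_lit 6232) (nat_lit 6) (nat_lit 82) (nat_lit 0) (nat_lit 204) (nat_lit 199) (nat_lit 197)))) (PT.nd (nat_lit 156) (PT.nd (nat_lit 78) (PT.lf (nat_lit 5852) (nat_lit 6) (nat_lit 77) (nat_lit 0) (nat_lit 205) (nat_lit 199) (nat_lit 196)) (PT.lf (nat_lit 5396) (nat_lit 6) (nat_lit 71) (nat_lit 0) (nat_lit 206) (nat_lit 199) (nat_lit 195))) (PT.nd (nat_lit 61386) (PT.lf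 (nat_lit 4864) (nat_lit 6) (nat_lit 64) (nat_lit 0) (nat_lit 207) (nat_lit 199) (nat_lit 194)) (PT.lf (nat_lit 4940) (nat_lit 6) (nat_lit 65) (nat_lit 5) (nat_lit 193) (nat_lit 200) (nat_lit 207))))))))
noncomputable def pc3 : PT := (PT.nd (nat_lit 124722) (PT.nd (nat_lit 62400) (PT.nd (nat_lit 546) (PT.nd (nat_lit 234) (PT.nd (nat_lit 78) (PT.lf (nat_lit 5472) (nat_lit 6) (nat_lit 72) (nat_lit 5) (nat_lit 194) (nat_lit 200) (nat_lit 206)) (PT.nd (nat_lit 78) (PT.lf (nat_lit 5928) (nat_lit 6) (nat_lit 78) (nat_lit 5) (nat_lit 195) (nat_lit 200) (nat_lit 205)) (PT.lf (nat_lit 6308) (nat_lit 6) (nat_lit 83) (nat_lit 5) (nat_lit 196) (nat_lit 200) (nat_lit 204)))) (PT.nd (nat_lit 156) (PT.nd (nat_lit 78) (PT.lf (nat_lit 6612) (nat_lit 6) (nat_lit 87) (nat_lit 5) (nat_lit 197) (nat_lit 200) (nat_lit 203)) (PT.lf (nat_lit 6840) (nat_lit 6) (nat_lit 90) (nat_lit 5) (nat_lit 198) (nat_lit 200) (nat_lit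 202))) (PT.nd (nat_lit 78) (PT.lf (nat_lit 6992) (nat_lit 6) (nat_lit 92) (nat_lit 5) (nat_lit 199) (nat_lit 200) (nat_lit 201)) (PT.lf (nat_lit 7068) (nat_lit 1) (nat_lit 93) (nat_lit 0) (nat_lit 200) (nat_lit 200) (nat_lit 200))))) (PT.nd (nat_lit 312) (PT.nd (nat_lit 156) (PT.nd (nat_lit 78) (PT.lf (nat_lit 6992) (nat_lit 6) (nat_lit 92) (nat_lit 0) (nat_lit 201) (nat_lit 200) (nat_lit 199)) (PT.lf (nat_lit 6840) (nat_lit 6) (nat_lit 90) (nat_lit 0) (nat_lit 202) (nat_lit 200) (nat_lit 198))) (PT.nd (nat_lit 78) (PT.lf (nat_lit 6612) (nat_lit 6) (nat_lit 87) (nat_lit 0) (nat_lit 203) (nat_lit 200) (nat_lit 197)) (PT.lf (nat_lit 6308) (nat_lit 6) (nat_lit 83) (nat_lit 0) (nat_lit 204) (nat_lit 200) (nat_lit 196)))) (PT.nd (nat_lit 156) (PT.nd (nat_lit 78) (PT.lf (nat_lit 5928) (nat_lit 6) (nat_lit 78) (nat_lit 0) (nat_lit 205) (nat_lit 200) (nat_lit 195)) (PT.lf (nat_lit 5472) (nat_lit 6)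 (nat_lit 72) (nat_lit 0) (nat_lit 206) (nat_lit 200) (nat_lit 194))) (PT.nd (nat_lit 61308) (PT.lf (nat_lit 4940) (nat_lit 6) (nat_lit 65) (nat_lit 0) (nat_lit 207) (nat_lit 200) (nat_lit 193)) (PT.lf (nat_lit 4484) (nat_lit 6) (nat_lit 59) (nat_lit 5) (nat_lit 192) (nat_lit 201) (nat_lit 207)))))) (PT.nd (nat_lit 546) (PT.nd (nat_lit 234) (PT.nd (nat_lit 78) (PT.lf (nat_lit 5016) (nat_lit 6) (nat_lit 66) (nat_lit 5) (nat_lit 193) (nat_lit 201) (nat_lit 206)) (PT.nd (nat_lit 78) (PT.lf (nat_lit 5548) (nat_lit 6) (nat_lit 73) (nat_lit 5) (nat_lit 194) (nat_lit 201) (nat_lit 205)) (PT.lf (nat_lit 6004) (nat_lit 6) (nat_lit 79) (nat_lit 5) (nat_lit 195) (nat_lit 201) (nat_lit 204)))) (PT.nd (nat_lit 156) (PT.nd (nat_lit 78) (PT.lf (nat_lit 6384) (nat_lit 6) (nat_lit 84) (nat_lit 5) (nat_lit 196) (nat_lit 201) (nat_lit 203)) (PT.lf (nat_lit 6688) (nat_lit 6) (nat_lit 88) (nat_lit 5) (nat_lit 197)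 (nat_lit 201) (nat_lit 202))) (PT.nd (nat_lit 78) (PT.lf (nat_lit 6916) (nat_lit 3) (nat_lit 91) (nat_lit 4) (nat_lit 198) (nat_lit 201) (nat_lit 201)) (PT.lf (nat_lit 6992) (nat_lit 6) (nat_lit 92) (nat_lit 4) (nat_lit 199) (nat_lit 201) (nat_lit 200))))) (PT.nd (nat_lit 312) (PT.nd (nat_lit 156) (PT.nd (nat_lit 78) (PT.lf (nat_lit 6992) (nat_lit 6) (nat_lit 92) (nat_lit 2) (nat_lit 200) (nat_lit 201) (nat_lit 199)) (PT.lf (nat_lit 6916) (nat_lit 3) (nat_lit 91) (nat_lit 0) (nat_lit 201) (nat_lit 201) (nat_lit 198))) (PT.nd (nat_lit 78) (PT.lf (nat_lit 6688) (nat_lit 6) (nat_lit 88) (nat_lit 0) (nat_lit 202) (nat_lit 201) (nat_lit 197)) (PT.lf (nat_lit 6384) (nat_lit 6) (nat_lit 84) (nat_lit 0) (nat_lit 203) (nat_lit 201) (nat_lit 196)))) (PT.nd (nat_lit 156) (PT.nd (nat_lit 78) (PT.lf (nat_lit 6004) (nat_lit 6) (nat_lit 79) (nat_lit 0) (nat_lit 204) (nat_lit 201) (nat_lit 195)) (PT.lf (nat_lit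 5548) (nat_lit 6) (nat_lit 73) (nat_lit 0) (nat_lit 205) (nat_lit 201) (nat_lit 194))) (PT.nd (nat_lit 78) (PT.lf (nat_lit 5016) (nat_lit 6) (nat_lit 66) (nat_lit 0) (nat_lit 206) (nat_lit 201) (nat_lit 193)) (PT.lf (nat_lit 4484) (nat_lit 6) (nat_lit 59) (nat_lit 0) (nat_lit 207) (nat_lit 201) (nat_lit 192))))))) (PT.nd (nat_lit 1170) (PT.nd (nat_lit 546) (PT.nd (nat_lit 234) (PT.nd (nat_lit 78) (PT.lf (nat_lit 4256) (nat_lit 6) (nat_lit 56) (nat_lit 5) (nat_lit 191) (nat_lit 202) (nat_lit 207)) (PT.nd (nat_lit 78) (PT.lf (nat_lit 4560) (nat_lit 6) (nat_lit 60) (nat_lit 5) (nat_lit 192) (nat_lit 202) (nat_lit 206)) (PT.lf (nat_lit 5092) (nat_lit 6) (nat_lit 67) (nat_lit 5) (nat_lit 193) (nat_lit 202) (nat_lit 205)))) (PT.nd (nat_lit 156) (PT.nd (nat_lit 78) (PT.lf (nat_lit 5624) (nat_lit 6) (nat_lit 74) (nat_lit 5) (nat_lit 194) (nat_lit 202) (nat_lit 204)) (PT.lf (nat_lit 6080) (nat_lit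 6) (nat_lit 80) (nat_lit 5) (nat_lit 195) (nat_lit 202) (nat_lit 203))) (PT.nd (nat_lit 78) (PT.lf (nat_lit 6460) (nat_lit 3) (nat_lit 85) (nat_lit 4) (nat_lit 196) (nat_lit 202) (nat_lit 202)) (PT.lf (nat_lit 6688) (nat_lit 6) (nat_lit 88) (nat_lit 4) (nat_lit 197) (nat_lit 202) (nat_lit 201))))) (PT.nd (nat_lit 312) (PT.nd (nat_lit 156) (PT.nd (nat_lit 78) (PT.lf (nat_lit 6840) (nat_lit 6) (nat_lit 90) (nat_lit 4) (nat_lit 198) (nat_lit 202) (nat_lit 200)) (PT.lf (nat_lit 6764) (nat_lit 3) (nat_lit 89) (nat_lit 2) (nat_lit 199) (nat_lit 202) (nat_lit 199))) (PT.nd (nat_lit 78) (PT.lf (nat_lit 6840) (nat_lit 6) (nat_lit 90) (nat_lit 2) (nat_lit 200) (nat_lit 202) (nat_lit 198)) (PT.lf (nat_lit 6688) (nat_lit 6) (nat_lit 88) (nat_lit 2) (nat_lit 201) (nat_lit 202) (nat_lit 197)))) (PT.nd (nat_lit 156) (PT.nd (nat_lit 78) (PT.lf (nat_lit 6460) (nat_lit 3) (nat_lit 85) (nat_lit 0) (nat_lit 202)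 (nat_lit 202) (nat_lit 196)) (PT.lf (nat_lit 6080) (nat_lit 6) (nat_lit 80) (nat_lit 0) (nat_lit 203) (nat_lit 202) (nat_lit 195))) (PT.nd (nat_lit 78) (PT.lf (nat_lit 5624) (nat_lit 6) (nat_lit 74) (nat_lit 0) (nat_lit 204) (nat_lit 202) (nat_lit 194)) (PT.lf (nat_lit 5092) (nat_lit 6) (nat_lit 67) (nat_lit 0) (nat_lit 205) (nat_lit 202) (nat_lit 193)))))) (PT.nd (nat_lit 61620) (PT.nd (nat_lit 61308) (PT.nd (nat_lit 61152) (PT.nd (nat_lit 78) (PT.lf (nat_lit 4560) (nat_lit 6) (nat_lit 60) (nat_lit 0) (nat_lit 206) (nat_lit 202) (nat_lit 192)) (PT.lf (nat_lit 4256) (nat_lit 6) (nat_lit 56) (nat_lit 0) (nat_lit 207) (nat_lit 202) (nat_lit 191))) (PT.nd (nat_lit 78) (PT.lf (nat_lit 3800) (nat_lit 6) (nat_lit 50) (nat_lit 5) (nat_lit 189) (nat_lit 203) (nat_lit 208)) (PT.lf (nat_lit 4028) (nat_lit 6) (nat_lit 53) (nat_lit 5) (nat_lit 190) (nat_lit 203) (nat_lit 207)))) (PT.nd (nat_lit 156) (PT.nd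 (nat_lit 78) (PT.lf (nat_lit 4332) (nat_lit 6) (nat_lit 57) (nat_lit 5) (nat_lit 191) (nat_lit 203) (nat_lit 206)) (PT.lf (nat_lit 4636) (nat_lit 6) (nat_lit 61) (nat_lit 5) (nat_lit 192) (nat_lit 203) (nat_lit 205))) (PT.nd (nat_lit 78) (PT.lf (nat_lit 5168) (nat_lit 6) (nat_lit 68) (nat_lit 5) (nat_lit 193) (nat_lit 203) (nat_lit 204)) (PT.lf (nat_lit 5700) (nat_lit 3) (nat_lit 75) (nat_lit 4) (nat_lit 194) (nat_lit 203) (nat_lit 203))))) (PT.nd (nat_lit 312) (PT.nd (nat_lit 156) (PT.nd (nat_lit 78) (PT.lf (nat_lit 6080) (nat_lit 6) (nat_lit 80) (nat_lit 4) (nat_lit 195) (nat_lit 203) (nat_lit 202)) (PT.lf (nat_lit 6384) (nat_lit 6) (nat_lit 84) (nat_lit 4) (nat_lit 196) (nat_lit 203) (nat_lit 201))) (PT.nd (nat_lit 78) (PT.lf (nat_lit 6612) (nat_lit 6) (nat_lit 87) (nat_lit 4) (nat_lit 197) (nat_lit 203) (nat_lit 200)) (PT.lf (nat_lit 6536) (nat_lit 6) (nat_lit 86) (nat_lit 4) (nat_lit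 198) (nat_lit 203) (nat_lit 199)))) (PT.nd (nat_lit 156) (PT.nd (nat_lit 78) (PT.lf (nat_lit 6536) (nat_lit 6) (nat_lit 86) (nat_lit 2) (nat_lit 199) (nat_lit 203) (nat_lit 198)) (PT.lf (nat_lit 6612) (nat_lit 6) (nat_lit 87) (nat_lit 2) (nat_lit 200) (nat_lit 203) (nat_lit 197))) (PT.nd (nat_lit 78) (PT.lf (nat_lit 6384) (nat_lit 6) (nat_lit 84) (nat_lit 2) (nat_lit 201) (nat_lit 203) (nat_lit 196)) (PT.lf (nat_lit 6080) (nat_lit 6) (nat_lit 80) (nat_lit 2) (nat_lit 202) (nat_lit 203) (nat_lit 195))))))))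
noncomputable def pc4 : PT := (PT.nd (nat_lit 123864) (PT.nd (nat_lit 62010) (PT.nd (nat_lit 61386) (PT.nd (nat_lit 234) (PT.nd (nat_lit 78) (PT.lf (nat_lit 5700) (nat_lit 3) (nat_lit 75) (nat_lit 0) (nat_lit 203) (nat_lit 203) (nat_lit 194)) (PT.nd (nat_lit 78) (PT.lf (nat_lit 5168) (nat_lit 6) (nat_lit 68) (nat_lit 0) (nat_lit 204) (nat_lit 203) (nat_lit 193)) (PT.lf (nat_lit 4636) (nat_lit 6) (nat_lit 61) (nat_lit 0) (nat_lit 205) (nat_lit 203) (nat_lit 192)))) (PT.nd (nat_lit 156) (PT.nd (nat_lit 78) (PT.lf (nat_lit 4332) (nat_lit 6) (nat_lit 57) (nat_lit 0) (nat_lit 206) (nat_lit 203) (nat_lit 191)) (PT.lf (nat_lit 4028) (nat_lit 6) (nat_lit 53) (nat_lit 0) (nat_lit 207) (nat_lit 203) (nat_lit 190))) (PT.nd (nat_lit 60918) (PT.lf (nat_lit 3800) (nat_lit 6) (nat_lit 50) (nat_lit 0) (nat_lit 208) (nat_lit 203) (nat_lit 189)) (PT.lf (nat_lit 3572) (nat_lit 6) (nat_lit 47) (nat_lit 5) (nat_lit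 188) (nat_lit 204) (nat_lit 208))))) (PT.nd (nat_lit 312) (PT.nd (nat_lit 156) (PT.nd (nat_lit 78) (PT.lf (nat_lit 3876) (nat_lit 6) (nat_lit 51) (nat_lit 5) (nat_lit 189) (nat_lit 204) (nat_lit 207)) (PT.lf (nat_lit 4104) (nat_lit 6) (nat_lit 54) (nat_lit 5) (nat_lit 190) (nat_lit 204) (nat_lit 206))) (PT.nd (nat_lit 78) (PT.lf (nat_lit 4408) (nat_lit 6) (nat_lit 58) (nat_lit 5) (nat_lit 191) (nat_lit 204) (nat_lit 205)) (PT.lf (nat_lit 4712) (nat_lit 3) (nat_lit 62) (nat_lit 4) (nat_lit 192) (nat_lit 204) (nat_lit 204)))) (PT.nd (nat_lit 156) (PT.nd (nat_lit 78) (PT.lf (nat_lit 5168) (nat_lit 6) (nat_lit 68) (nat_lit 4) (nat_lit 193) (nat_lit 204) (nat_lit 203)) (PT.lf (nat_lit 5624) (nat_lit 6) (nat_lit 74) (nat_lit 4) (nat_lit 194) (nat_lit 204) (nat_lit 202))) (PT.nd (nat_lit 78) (PT.lf (nat_lit 6004) (nat_lit 6) (nat_lit 79) (nat_lit 4) (nat_lit 195) (nat_lit 204) (nat_lit 201)) (PT.lf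 (nat_lit 6308) (nat_lit 6) (nat_lit 83) (nat_lit 4) (nat_lit 196) (nat_lit 204) (nat_lit 200)))))) (PT.nd (nat_lit 546) (PT.nd (nat_lit 234) (PT.nd (nat_lit 78) (PT.lf (nat_lit 6232) (nat_lit 6) (nat_lit 82) (nat_lit 4) (nat_lit 197) (nat_lit 204) (nat_lit 199)) (PT.nd (nat_lit 78) (PT.lf (nat_lit 6156) (nat_lit 3) (nat_lit 81) (nat_lit 2) (nat_lit 198) (nat_lit 204) (nat_lit 198)) (PT.lf (nat_lit 6232) (nat_lit 6) (nat_lit 82) (nat_lit 2) (nat_lit 199) (nat_lit 204) (nat_lit 197)))) (PT.nd (nat_lit 156) (PT.nd (nat_lit 78) (PT.lf (nat_lit 6308) (nat_lit 6) (nat_lit 83) (nat_lit 2) (nat_lit 200) (nat_lit 204) (nat_lit 196)) (PT.lf (nat_lit 6004) (nat_lit 6) (nat_lit 79) (nat_lit 2) (nat_lit 201) (nat_lit 204) (nat_lit 195))) (PT.nd (nat_lit 78) (PT.lf (nat_lit 5624) (nat_lit 6) (nat_lit 74) (nat_lit 2) (nat_lit 202) (nat_lit 204) (nat_lit 194)) (PT.lf (nat_lit 5168) (nat_lit 6) (nat_lit 68)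 (nat_lit 2) (nat_lit 203) (nat_lit 204) (nat_lit 193))))) (PT.nd (nat_lit 312) (PT.nd (nat_lit 156) (PT.nd (nat_lit 78) (PT.lf (nat_lit 4712) (nat_lit 3) (nat_lit 62) (nat_lit 0) (nat_lit 204) (nat_lit 204) (nat_lit 192)) (PT.lf (nat_lit 4408) (nat_lit 6) (nat_lit 58) (nat_lit 0) (nat_lit 205) (nat_lit 204) (nat_lit 191))) (PT.nd (nat_lit 78) (PT.lf (nat_lit 4104) (nat_lit 6) (nat_lit 54) (nat_lit 0) (nat_lit 206) (nat_lit 204) (nat_lit 190)) (PT.lf (nat_lit 3876) (nat_lit 6) (nat_lit 51) (nat_lit 0) (nat_lit 207) (nat_lit 204) (nat_lit 189)))) (PT.nd (nat_lit 60840) (PT.nd (nat_lit 60762) (PT.lf (nat_lit 3572) (nat_lit 6) (nat_lit 47) (nat_lit 0) (nat_lit 208) (nat_lit 204) (nat_lit 188)) (PT.lf (nat_lit 3192) (nat_lit 6) (nat_lit 42) (nat_lit 5) (nat_lit 186) (nat_lit 205) (nat_lit 209))) (PT.nd (nat_lit 78) (PT.lf (nat_lit 3420) (nat_lit 6) (nat_lit 45) (nat_lit 5) (nat_lit 187) (nat_lit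 205) (nat_lit 208)) (PT.lf (nat_lit 3648) (nat_lit 6) (nat_lit 48) (nat_lit 5) (nat_lit 188) (nat_lit 205) (nat_lit 207))))))) (PT.nd (nat_lit 1170) (PT.nd (nat_lit 546) (PT.nd (nat_lit 234) (PT.nd (nat_lit 78) (PT.lf (nat_lit 3952) (nat_lit 6) (nat_lit 52) (nat_lit 5) (nat_lit 189) (nat_lit 205) (nat_lit 206)) (PT.nd (nat_lit 78) (PT.lf (nat_lit 4180) (nat_lit 3) (nat_lit 55) (nat_lit 4) (nat_lit 190) (nat_lit 205) (nat_lit 205)) (PT.lf (nat_lit 4408) (nat_lit 6) (nat_lit 58) (nat_lit 4) (nat_lit 191) (nat_lit 205) (nat_lit 204)))) (PT.nd (nat_lit 156) (PT.nd (nat_lit 78) (PT.lf (nat_lit 4636) (nat_lit 6) (nat_lit 61) (nat_lit 4) (nat_lit 192) (nat_lit 205) (nat_lit 203)) (PT.lf (nat_lit 5092) (nat_lit 6) (nat_lit 67) (nat_lit 4) (nat_lit 193) (nat_lit 205) (nat_lit 202))) (PT.nd (nat_lit 78) (PT.lf (nat_lit 5548) (nat_lit 6) (nat_lit 73) (nat_lit 4) (nat_lit 194) (nat_lit 205) (nat_lit 201))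 (PT.lf (nat_lit 5928) (nat_lit 6) (nat_lit 78) (nat_lit 4) (nat_lit 195) (nat_lit 205) (nat_lit 200))))) (PT.nd (nat_lit 312) (PT.nd (nat_lit 156) (PT.nd (nat_lit 78) (PT.lf (nat_lit 5852) (nat_lit 6) (nat_lit 77) (nat_lit 4) (nat_lit 196) (nat_lit 205) (nat_lit 199)) (PT.lf (nat_lit 5776) (nat_lit 6) (nat_lit 76) (nat_lit 4) (nat_lit 197) (nat_lit 205) (nat_lit 198))) (PT.nd (nat_lit 78) (PT.lf (nat_lit 5776) (nat_lit 6) (nat_lit 76) (nat_lit 2) (nat_lit 198) (nat_lit 205) (nat_lit 197)) (PT.lf (nat_lit 5852) (nat_lit 6) (nat_lit 77) (nat_lit 2) (nat_lit 199) (nat_lit 205) (nat_lit 196)))) (PT.nd (nat_lit 156) (PT.nd (nat_lit 78) (PT.lf (nat_lit 5928) (nat_lit 6) (nat_lit 78) (nat_lit 2) (nat_lit 200) (nat_lit 205) (nat_lit 195)) (PT.lf (nat_lit 5548) (nat_lit 6) (nat_lit 73) (nat_lit 2) (nat_lit 201) (nat_lit 205) (nat_lit 194))) (PT.nd (nat_lit 78) (PT.lf (nat_lit 5092) (nat_lit 6) (nat_lit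 67) (nat_lit 2) (nat_lit 202) (nat_lit 205) (nat_lit 193)) (PT.lf (nat_lit 4636) (nat_lit 6) (nat_lit 61) (nat_lit 2) (nat_lit 203) (nat_lit 205) (nat_lit 192)))))) (PT.nd (nat_lit 61074) (PT.nd (nat_lit 234) (PT.nd (nat_lit 78) (PT.lf (nat_lit 4408) (nat_lit 6) (nat_lit 58) (nat_lit 2) (nat_lit 204) (nat_lit 205) (nat_lit 191)) (PT.nd (nat_lit 78) (PT.lf (nat_lit 4180) (nat_lit 3) (nat_lit 55) (nat_lit 0) (nat_lit 205) (nat_lit 205) (nat_lit 190)) (PT.lf (nat_lit 3952) (nat_lit 6) (nat_lit 52) (nat_lit 0) (nat_lit 206) (nat_lit 205) (nat_lit 189)))) (PT.nd (nat_lit 156) (PT.nd (nat_lit 78) (PT.lf (nat_lit 3648) (nat_lit 6) (nat_lit 48) (nat_lit 0) (nat_lit 207) (nat_lit 205) (nat_lit 188)) (PT.lf (nat_lit 3420) (nat_lit 6) (nat_lit 45) (nat_lit 0) (nat_lit 208) (nat_lit 205) (nat_lit 187))) (PT.nd (nat_lit 60606) (PT.lf (nat_lit 3192) (nat_lit 6) (nat_lit 42) (nat_lit 0) (nat_lit 209) (nat_lit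 205) (nat_lit 186)) (PT.lf (nat_lit 3040) (nat_lit 6) (nat_lit 40) (nat_lit 5) (nat_lit 185) (nat_lit 206) (nat_lit 209))))) (PT.nd (nat_lit 312) (PT.nd (nat_lit 156) (PT.nd (nat_lit 78) (PT.lf (nat_lit 3268) (nat_lit 6) (nat_lit 43) (nat_lit 5) (nat_lit 186) (nat_lit 206) (nat_lit 208)) (PT.lf (nat_lit 3496) (nat_lit 6) (nat_lit 46) (nat_lit 5) (nat_lit 187) (nat_lit 206) (nat_lit 207))) (PT.nd (nat_lit 78) (PT.lf (nat_lit 3724) (nat_lit 3) (nat_lit 49) (nat_lit 4) (nat_lit 188) (nat_lit 206) (nat_lit 206)) (PT.lf (nat_lit 3952) (nat_lit 6) (nat_lit 52) (nat_lit 4) (nat_lit 189) (nat_lit 206) (nat_lit 205)))) (PT.nd (nat_lit 156) (PT.nd (nat_lit 78) (PT.lf (nat_lit 4104) (nat_lit 6) (nat_lit 54) (nat_lit 4) (nat_lit 190) (nat_lit 206) (nat_lit 204)) (PT.lf (nat_lit 4332) (nat_lit 6) (nat_lit 57) (nat_lit 4) (nat_lit 191) (nat_lit 206) (nat_lit 203))) (PT.nd (nat_lit 78) (PT.lf (nat_lit 4560)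 (nat_lit 6) (nat_lit 60) (nat_lit 4) (nat_lit 192) (nat_lit 206) (nat_lit 202)) (PT.lf (nat_lit 5016) (nat_lit 6) (nat_lit 66) (nat_lit 4) (nat_lit 193) (nat_lit 206) (nat_lit 201))))))))
noncomputable def pc5 : PT := (PT.nd (nat_lit 62868) (PT.nd (nat_lit 1170) (PT.nd (nat_lit 546) (PT.nd (nat_lit 234) (PT.nd (nat_lit 78) (PT.lf (nat_lit 5472) (nat_lit 6) (nat_lit 72) (nat_lit 4) (nat_lit 194) (nat_lit 206) (nat_lit 200)) (PT.nd (nat_lit 78) (PT.lf (nat_lit 5396) (nat_lit 6) (nat_lit 71) (nat_lit 4) (nat_lit 195) (nat_lit 206) (nat_lit 199)) (PT.lf (nat_lit 5320) (nat_lit 6) (nat_lit 70) (nat_lit 4) (nat_lit 196) (nat_lit 206) (nat_lit 198)))) (PT.nd (nat_lit 156) (PT.nd (nat_lit 78) (PT.lf (nat_lit 5244) (nat_lit 3) (nat_lit 69) (nat_lit 2) (nat_lit 197) (nat_lit 206) (nat_lit 197)) (PT.lf (nat_lit 5320) (nat_lit 6) (nat_lit 70) (nat_lit 2) (nat_lit 198) (nat_lit 206) (nat_lit 196))) (PT.nd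 (nat_lit 78) (PT.lf (nat_lit 5396) (nat_lit 6) (nat_lit 71) (nat_lit 2) (nat_lit 199) (nat_lit 206) (nat_lit 195)) (PT.lf (nat_lit 5472) (nat_lit 6) (nat_lit 72) (nat_lit 2) (nat_lit 200) (nat_lit 206) (nat_lit 194))))) (PT.nd (nat_lit 312) (PT.nd (nat_lit 156) (PT.nd (nat_lit 78) (PT.lf (nat_lit 5016) (nat_lit 6) (nat_lit 66) (nat_lit 2) (nat_lit 201) (nat_lit 206) (nat_lit 193)) (PT.lf (nat_lit 4560) (nat_lit 6) (nat_lit 60) (nat_lit 2) (nat_lit 202) (nat_lit 206) (nat_lit 192))) (PT.nd (nat_lit 78) (PT.lf (nat_lit 4332) (nat_lit 6) (nat_lit 57) (nat_lit 2) (nat_lit 203) (nat_lit 206) (nat_lit 191)) (PT.lf (nat_lit 4104) (nat_lit 6) (nat_lit 54) (nat_lit 2) (nat_lit 204) (nat_lit 206) (nat_lit 190)))) (PT.nd (nat_lit 156) (PT.nd (nat_lit 78) (PT.lf (nat_lit 3952) (nat_lit 6) (nat_lit 52) (nat_lit 2) (nat_lit 205) (nat_lit 206) (nat_lit 189)) (PT.lf (nat_lit 3724) (nat_lit 3) (nat_lit 49)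 (nat_lit 0) (nat_lit 206) (nat_lit 206) (nat_lit 188))) (PT.nd (nat_lit 78) (PT.lf (nat_lit 3496) (nat_lit 6) (nat_lit 46) (nat_lit 0) (nat_lit 207) (nat_lit 206) (nat_lit 187)) (PT.lf (nat_lit 3268) (nat_lit 6) (nat_lit 43) (nat_lit 0) (nat_lit 208) (nat_lit 206) (nat_lit 186)))))) (PT.nd (nat_lit 60918) (PT.nd (nat_lit 60606) (PT.nd (nat_lit 60450) (PT.lf (nat_lit 3040) (nat_lit 6) (nat_lit 40) (nat_lit 0) (nat_lit 209) (nat_lit 206) (nat_lit 185)) (PT.nd (nat_lit 78) (PT.lf (nat_lit 2736) (nat_lit 6) (nat_lit 36) (nat_lit 5) (nat_lit 183) (nat_lit 207) (nat_lit 210)) (PT.lf (nat_lit 2888) (nat_lit 6) (nat_lit 38) (nat_lit 5) (nat_lit 184) (nat_lit 207) (nat_lit 209)))) (PT.nd (nat_lit 156) (PT.nd (nat_lit 78) (PT.lf (nat_lit 3116) (nat_lit 6) (nat_lit 41) (nat_lit 5) (nat_lit 185) (nat_lit 207) (nat_lit 208)) (PT.lf (nat_lit 3344) (nat_lit 3) (nat_lit 44) (nat_lit 4) (nat_lit 186) (nat_lit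 207) (nat_lit 207))) (PT.nd (nat_lit 78) (PT.lf (nat_lit 3496) (nat_lit 6) (nat_lit 46) (nat_lit 4) (nat_lit 187) (nat_lit 207) (nat_lit 206)) (PT.lf (nat_lit 3648) (nat_lit 6) (nat_lit 48) (nat_lit 4) (nat_lit 188) (nat_lit 207) (nat_lit 205))))) (PT.nd (nat_lit 312) (PT.nd (nat_lit 156) (PT.nd (nat_lit 78) (PT.lf (nat_lit 3876) (nat_lit 6) (nat_lit 51) (nat_lit 4) (nat_lit 189) (nat_lit 207) (nat_lit 204)) (PT.lf (nat_lit 4028) (nat_lit 6) (nat_lit 53) (nat_lit 4) (nat_lit 190) (nat_lit 207) (nat_lit 203))) (PT.nd (nat_lit 78) (PT.lf (nat_lit 4256) (nat_lit 6) (nat_lit 56) (nat_lit 4) (nat_lit 191) (nat_lit 207) (nat_lit 202)) (PT.lf (nat_lit 4484) (nat_lit 6) (nat_lit 59) (nat_lit 4) (nat_lit 192) (nat_lit 207) (nat_lit 201)))) (PT.nd (nat_lit 156) (PT.nd (nat_lit 78) (PT.lf (nat_lit 4940) (nat_lit 6) (nat_lit 65) (nat_lit 4) (nat_lit 193) (nat_lit 207) (nat_lit 200)) (PT.lf (nat_lit 4864)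 (nat_lit 6) (nat_lit 64) (nat_lit 4) (nat_lit 194) (nat_lit 207) (nat_lit 199))) (PT.nd (nat_lit 234) (PT.lf (nat_lit 4788) (nat_lit 6) (nat_lit 63) (nat_lit 4) (nat_lit 195) (nat_lit 207) (nat_lit 198)) (PT.lf (nat_lit 4788) (nat_lit 6) (nat_lit 63) (nat_lit 2) (nat_lit 198) (nat_lit 207) (nat_lit 195))))))) (PT.nd (nat_lit 61308) (PT.nd (nat_lit 546) (PT.nd (nat_lit 234) (PT.nd (nat_lit 78) (PT.lf (nat_lit 4864) (nat_lit 6) (nat_lit 64) (nat_lit 2) (nat_lit 199) (nat_lit 207) (nat_lit 194)) (PT.nd (nat_lit 78) (PT.lf (nat_lit 4940) (nat_lit 6) (nat_lit 65) (nat_lit 2) (nat_lit 200) (nat_lit 207) (nat_lit 193)) (PT.lf (nat_lit 4484) (nat_lit 6) (nat_lit 59) (nat_lit 2) (nat_lit 201) (nat_lit 207) (nat_lit 192)))) (PT.nd (nat_lit 156) (PT.nd (nat_lit 78) (PT.lf (nat_lit 4256) (nat_lit 6) (nat_lit 56) (nat_lit 2) (nat_lit 202) (nat_lit 207) (nat_lit 191)) (PT.lf (nat_lit 4028) (nat_lit 6) (nat_lit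 53) (nat_lit 2) (nat_lit 203) (nat_lit 207) (nat_lit 190))) (PT.nd (nat_lit 78) (PT.lf (nat_lit 3876) (nat_lit 6) (nat_lit 51) (nat_lit 2) (nat_lit 204) (nat_lit 207) (nat_lit 189)) (PT.lf (nat_lit 3648) (nat_lit 6) (nat_lit 48) (nat_lit 2) (nat_lit 205) (nat_lit 207) (nat_lit 188))))) (PT.nd (nat_lit 312) (PT.nd (nat_lit 156) (PT.nd (nat_lit 78) (PT.lf (nat_lit 3496) (nat_lit 6) (nat_lit 46) (nat_lit 2) (nat_lit 206) (nat_lit 207) (nat_lit 187)) (PT.lf (nat_lit 3344) (nat_lit 3) (nat_lit 44) (nat_lit 0) (nat_lit 207) (nat_lit 207) (nat_lit 186))) (PT.nd (nat_lit 78) (PT.lf (nat_lit 3116) (nat_lit 6) (nat_lit 41) (nat_lit 0) (nat_lit 208) (nat_lit 207) (nat_lit 185)) (PT.lf (nat_lit 2888) (nat_lit 6) (nat_lit 38) (nat_lit 0) (nat_lit 209) (nat_lit 207) (nat_lit 184)))) (PT.nd (nat_lit 60294) (PT.nd (nat_lit 60216) (PT.lf (nat_lit 2736) (nat_lit 6) (nat_lit 36) (nat_lit 0) (nat_lit 210) (nat_lit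 207) (nat_lit 183)) (PT.lf (nat_lit 2432) (nat_lit 6) (nat_lit 32) (nat_lit 5) (nat_lit 181) (nat_lit 208) (nat_lit 211))) (PT.nd (nat_lit 78) (PT.lf (nat_lit 2584) (nat_lit 6) (nat_lit 34) (nat_lit 5) (nat_lit 182) (nat_lit 208) (nat_lit 210)) (PT.lf (nat_lit 2812) (nat_lit 6) (nat_lit 37) (nat_lit 5) (nat_lit 183) (nat_lit 208) (nat_lit 209)))))) (PT.nd (nat_lit 1638) (PT.nd (nat_lit 312) (PT.nd (nat_lit 156) (PT.nd (nat_lit 78) (PT.lf (nat_lit 2964) (nat_lit 3) (nat_lit 39) (nat_lit 4) (nat_lit 184) (nat_lit 208) (nat_lit 208)) (PT.lf (nat_lit 3116) (nat_lit 6) (nat_lit 41) (nat_lit 4) (nat_lit 185) (nat_lit 208) (nat_lit 207))) (PT.nd (nat_lit 78) (PT.lf (nat_lit 3268) (nat_lit 6) (nat_lit 43) (nat_lit 4) (nat_lit 186) (nat_lit 208) (nat_lit 206)) (PT.lf (nat_lit 3420) (nat_lit 6) (nat_lit 45) (nat_lit 4) (nat_lit 187) (nat_lit 208) (nat_lit 205)))) (PT.nd (nat_lit 1170) (PT.nd (nat_lit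 78) (PT.lf (nat_lit 3572) (nat_lit 6) (nat_lit 47) (nat_lit 4) (nat_lit 188) (nat_lit 208) (nat_lit 204)) (PT.lf (nat_lit 3800) (nat_lit 6) (nat_lit 50) (nat_lit 4) (nat_lit 189) (nat_lit 208) (nat_lit 203))) (PT.nd (nat_lit 78) (PT.lf (nat_lit 3800) (nat_lit 6) (nat_lit 50) (nat_lit 2) (nat_lit 203) (nat_lit 208) (nat_lit 189)) (PT.lf (nat_lit 3572) (nat_lit 6) (nat_lit 47) (nat_lit 2) (nat_lit 204) (nat_lit 208) (nat_lit 188))))) (PT.nd (nat_lit 312) (PT.nd (nat_lit 156) (PT.nd (nat_lit 78) (PT.lf (nat_lit 3420) (nat_lit 6) (nat_lit 45) (nat_lit 2) (nat_lit 205) (nat_lit 208) (nat_lit 187)) (PT.lf (nat_lit 3268) (nat_lit 6) (nat_lit 43) (nat_lit 2) (nat_lit 206) (nat_lit 208) (nat_lit 186))) (PT.nd (nat_lit 78) (PT.lf (nat_lit 3116) (nat_lit 6) (nat_lit 41) (nat_lit 2) (nat_lit 207) (nat_lit 208) (nat_lit 185)) (PT.lf (nat_lit 2964) (nat_lit 3) (nat_lit 39) (nat_lit 0) (nat_lit 208) (nat_lit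 208) (nat_lit 184)))) (PT.nd (nat_lit 156) (PT.nd (nat_lit 78) (PT.lf (nat_lit 2812) (nat_lit 6) (nat_lit 37) (nat_lit 0) (nat_lit 209) (nat_lit 208) (nat_lit 183)) (PT.lf (nat_lit 2584) (nat_lit 6) (nat_lit 34) (nat_lit 0) (nat_lit 210) (nat_lit 208) (nat_lit 182))) (PT.nd (nat_lit 60060) (PT.lf (nat_lit 2432) (nat_lit 6) (nat_lit 32) (nat_lit 0) (nat_lit 211) (nat_lit 208) (nat_lit 181)) (PT.lf (nat_lit 2280) (nat_lit 6) (nat_lit 30) (nat_lit 5) (nat_lit 180) (nat_lit 209) (nat_lit 211))))))))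
noncomputable def pc6 : PT := (PT.nd (nat_lit 124956) (PT.nd (nat_lit 62400) (PT.nd (nat_lit 1950) (PT.nd (nat_lit 234) (PT.nd (nat_lit 78) (PT.lf (nat_lit 2508) (nat_lit 6) (nat_lit 33) (nat_lit 5) (nat_lit 181) (nat_lit 209) (nat_lit 210)) (PT.nd (nat_lit 78) (PT.lf (nat_lit 2660) (nat_lit 3) (nat_lit 35) (nat_lit 4) (nat_lit 182) (nat_lit 209) (nat_lit 209)) (PT.lf (nat_lit 2812) (nat_lit 6) (nat_lit 37) (nat_lit 4) (nat_lit 183) (nat_lit 209) (nat_lit 208)))) (PT.nd (nat_lit 156) (PT.nd (nat_lit 78) (PT.lf (nat_lit 2888) (nat_lit 6) (nat_lit 38) (nat_lit 4) (nat_lit 184) (nat_lit 209) (nat_lit 207)) (PT.lf (nat_lit 3040) (nat_lit 6) (nat_lit 40) (nat_lit 4) (nat_lit 185) (nat_lit 209) (nat_lit 206))) (PT.nd (nat_lit 1482) (PT.lf (nat_lit 3192) (nat_lit 6) (nat_lit 42) (nat_lit 4) (nat_lit 186) (nat_lit 209) (nat_lit 205)) (PT.lf (nat_lit 3192) (nat_lit 6) (nat_lit 42) (nat_lit 2) (nat_lit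 205) (nat_lit 209) (nat_lit 186))))) (PT.nd (nat_lit 312) (PT.nd (nat_lit 156) (PT.nd (nat_lit 78) (PT.lf (nat_lit 3040) (nat_lit 6) (nat_lit 40) (nat_lit 2) (nat_lit 206) (nat_lit 209) (nat_lit 185)) (PT.lf (nat_lit 2888) (nat_lit 6) (nat_lit 38) (nat_lit 2) (nat_lit 207) (nat_lit 209) (nat_lit 184))) (PT.nd (nat_lit 78) (PT.lf (nat_lit 2812) (nat_lit 6) (nat_lit 37) (nat_lit 2) (nat_lit 208) (nat_lit 209) (nat_lit 183)) (PT.lf (nat_lit 2660) (nat_lit 3) (nat_lit 35) (nat_lit 0) (nat_lit 209) (nat_lit 209) (nat_lit 182)))) (PT.nd (nat_lit 59982) (PT.nd (nat_lit 78) (PT.lf (nat_lit 2508) (nat_lit 6) (nat_lit 33) (nat_lit 0) (nat_lit 210) (nat_lit 209) (nat_lit 181)) (PT.lf (nat_lit 2280) (nat_lit 6) (nat_lit 30) (nat_lit 0) (nat_lit 211) (nat_lit 209) (nat_lit 180))) (PT.nd (nat_lit 78) (PT.lf (nat_lit 2052) (nat_lit 6) (nat_lit 27) (nat_lit 5) (nat_lit 178) (nat_lit 210) (nat_lit 212)) (PT.lf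 (nat_lit 2204) (nat_lit 6) (nat_lit 29) (nat_lit 5) (nat_lit 179) (nat_lit 210) (nat_lit 211)))))) (PT.nd (nat_lit 2340) (PT.nd (nat_lit 234) (PT.nd (nat_lit 78) (PT.lf (nat_lit 2356) (nat_lit 3) (nat_lit 31) (nat_lit 4) (nat_lit 180) (nat_lit 210) (nat_lit 210)) (PT.nd (nat_lit 78) (PT.lf (nat_lit 2508) (nat_lit 6) (nat_lit 33) (nat_lit 4) (nat_lit 181) (nat_lit 210) (nat_lit 209)) (PT.lf (nat_lit 2584) (nat_lit 6) (nat_lit 34) (nat_lit 4) (nat_lit 182) (nat_lit 210) (nat_lit 208)))) (PT.nd (nat_lit 1950) (PT.nd (nat_lit 1872) (PT.lf (nat_lit 2736) (nat_lit 6) (nat_lit 36) (nat_lit 4) (nat_lit 183) (nat_lit 210) (nat_lit 207)) (PT.lf (nat_lit 2736) (nat_lit 6) (nat_lit 36) (nat_lit 2) (nat_lit 207) (nat_lit 210) (nat_lit 183))) (PT.nd (nat_lit 78) (PT.lf (nat_lit 2584) (nat_lit 6) (nat_lit 34) (nat_lit 2) (nat_lit 208) (nat_lit 210) (nat_lit 182)) (PT.lf (nat_lit 2508) (nat_lit 6) (nat_lit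 33) (nat_lit 2) (nat_lit 209) (nat_lit 210) (nat_lit 181))))) (PT.nd (nat_lit 59904) (PT.nd (nat_lit 156) (PT.nd (nat_lit 78) (PT.lf (nat_lit 2356) (nat_lit 3) (nat_lit 31) (nat_lit 0) (nat_lit 210) (nat_lit 210) (nat_lit 180)) (PT.lf (nat_lit 2204) (nat_lit 6) (nat_lit 29) (nat_lit 0) (nat_lit 211) (nat_lit 210) (nat_lit 179))) (PT.nd (nat_lit 59670) (PT.lf (nat_lit 2052) (nat_lit 6) (nat_lit 27) (nat_lit 0) (nat_lit 212) (nat_lit 210) (nat_lit 178)) (PT.lf (nat_lit 1824) (nat_lit 6) (nat_lit 24) (nat_lit 5) (nat_lit 176) (nat_lit 211) (nat_lit 213)))) (PT.nd (nat_lit 156) (PT.nd (nat_lit 78) (PT.lf (nat_lit 1976) (nat_lit 6) (nat_lit 26) (nat_lit 5) (nat_lit 177) (nat_lit 211) (nat_lit 212)) (PT.lf (nat_lit 2128) (nat_lit 3) (nat_lit 28) (nat_lit 4) (nat_lit 178) (nat_lit 211) (nat_lit 211))) (PT.nd (nat_lit 78) (PT.lf (nat_lit 2204) (nat_lit 6) (nat_lit 29) (nat_lit 4) (nat_lit 179) (nat_lit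 211) (nat_lit 210)) (PT.lf (nat_lit 2280) (nat_lit 6) (nat_lit 30) (nat_lit 4) (nat_lit 180) (nat_lit 211) (nat_lit 209))))))) (PT.nd (nat_lit 64974) (PT.nd (nat_lit 61932) (PT.nd (nat_lit 2262) (PT.nd (nat_lit 2106) (PT.lf (nat_lit 2432) (nat_lit 6) (nat_lit 32) (nat_lit 4) (nat_lit 181) (nat_lit 211) (nat_lit 208)) (PT.nd (nat_lit 78) (PT.lf (nat_lit 2432) (nat_lit 6) (nat_lit 32) (nat_lit 2) (nat_lit 208) (nat_lit 211) (nat_lit 181)) (PT.lf (nat_lit 2280) (nat_lit 6) (nat_lit 30) (nat_lit 2) (nat_lit 209) (nat_lit 211) (nat_lit 180)))) (PT.nd (nat_lit 156) (PT.nd (nat_lit 78) (PT.lf (nat_lit 2204) (nat_lit 6) (nat_lit 29) (nat_lit 2) (nat_lit 210) (nat_lit 211) (nat_lit 179)) (PT.lf (nat_lit 2128) (nat_lit 3) (nat_lit 28) (nat_lit 0) (nat_lit 211) (nat_lit 211) (nat_lit 178))) (PT.nd (nat_lit 78) (PT.lf (nat_lit 1976) (nat_lit 6) (nat_lit 26) (nat_lit 0) (nat_lit 212) (nat_lit 211) (nat_lit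 177)) (PT.lf (nat_lit 1824) (nat_lit 6) (nat_lit 24) (nat_lit 0) (nat_lit 213) (nat_lit 211) (nat_lit 176))))) (PT.nd (nat_lit 312) (PT.nd (nat_lit 156) (PT.nd (nat_lit 78) (PT.lf (nat_lit 1596) (nat_lit 6) (nat_lit 21) (nat_lit 5) (nat_lit 174) (nat_lit 212) (nat_lit 214)) (PT.lf (nat_lit 1748) (nat_lit 6) (nat_lit 23) (nat_lit 5) (nat_lit 175) (nat_lit 212) (nat_lit 213))) (PT.nd (nat_lit 78) (PT.lf (nat_lit 1900) (nat_lit 3) (nat_lit 25) (nat_lit 4) (nat_lit 176) (nat_lit 212) (nat_lit 212)) (PT.lf (nat_lit 1976) (nat_lit 6) (nat_lit 26) (nat_lit 4) (nat_lit 177) (nat_lit 212) (nat_lit 211)))) (PT.nd (nat_lit 2574) (PT.nd (nat_lit 2496) (PT.lf (nat_lit 2052) (nat_lit 6) (nat_lit 27) (nat_lit 4) (nat_lit 178) (nat_lit 212) (nat_lit 210)) (PT.lf (nat_lit 2052) (nat_lit 6) (nat_lit 27) (nat_lit 2) (nat_lit 210) (nat_lit 212) (nat_lit 178))) (PT.nd (nat_lit 78) (PT.lf (nat_lit 1976) (nat_lit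 6) (nat_lit 26) (nat_lit 2) (nat_lit 211) (nat_lit 212) (nat_lit 177)) (PT.lf (nat_lit 1900) (nat_lit 3) (nat_lit 25) (nat_lit 0) (nat_lit 212) (nat_lit 212) (nat_lit 176)))))) (PT.nd (nat_lit 62322) (PT.nd (nat_lit 59358) (PT.nd (nat_lit 78) (PT.lf (nat_lit 1748) (nat_lit 6) (nat_lit 23) (nat_lit 0) (nat_lit 213) (nat_lit 212) (nat_lit 175)) (PT.nd (nat_lit 59202) (PT.lf (nat_lit 1596) (nat_lit 6) (nat_lit 21) (nat_lit 0) (nat_lit 214) (nat_lit 212) (nat_lit 174)) (PT.lf (nat_lit 1368) (nat_lit 6) (nat_lit 18) (nat_lit 5) (nat_lit 172) (nat_lit 213) (nat_lit 215)))) (PT.nd (nat_lit 156) (PT.nd (nat_lit 78) (PT.lf (nat_lit 1520) (nat_lit 6) (nat_lit 20) (nat_lit 5) (nat_lit 173) (nat_lit 213) (nat_lit 214)) (PT.lf (nat_lit 1672) (nat_lit 3) (nat_lit 22) (nat_lit 4) (nat_lit 174) (nat_lit 213) (nat_lit 213))) (PT.nd (nat_lit 78) (PT.lf (nat_lit 1748) (nat_lit 6) (nat_lit 23) (nat_lit 4) (nat_lit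 175) (nat_lit 213) (nat_lit 212)) (PT.lf (nat_lit 1824) (nat_lit 6) (nat_lit 24) (nat_lit 4) (nat_lit 176) (nat_lit 213) (nat_lit 211))))) (PT.nd (nat_lit 312) (PT.nd (nat_lit 156) (PT.nd (nat_lit 78) (PT.lf (nat_lit 1824) (nat_lit 6) (nat_lit 24) (nat_lit 2) (nat_lit 211) (nat_lit 213) (nat_lit 176)) (PT.lf (nat_lit 1748) (nat_lit 6) (nat_lit 23) (nat_lit 2) (nat_lit 212) (nat_lit 213) (nat_lit 175))) (PT.nd (nat_lit 78) (PT.lf (nat_lit 1672) (nat_lit 3) (nat_lit 22) (nat_lit 0) (nat_lit 213) (nat_lit 213) (nat_lit 174)) (PT.lf (nat_lit 1520) (nat_lit 6) (nat_lit 20) (nat_lit 0) (nat_lit 214) (nat_lit 213) (nat_lit 173)))) (PT.nd (nat_lit 59046) (PT.nd (nat_lit 58968) (PT.lf (nat_lit 1368) (nat_lit 6) (nat_lit 18) (nat_lit 0) (nat_lit 215) (nat_lit 213) (nat_lit 172)) (PT.lf (nat_lit 1140) (nat_lit 6) (nat_lit 15) (nat_lit 5) (nat_lit 170) (nat_lit 214) (nat_lit 216))) (PT.nd (nat_lit 78)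 (PT.lf (nat_lit 1292) (nat_lit 6) (nat_lit 17) (nat_lit 5) (nat_lit 171) (nat_lit 214) (nat_lit 215)) (PT.lf (nat_lit 1444) (nat_lit 3) (nat_lit 19) (nat_lit 4) (nat_lit 172) (nat_lit 214) (nat_lit 214))))))))
noncomputable def pc7 : PT := (PT.nd (nat_lit 186966) (PT.nd (nat_lit 65832) (PT.nd (nat_lit 62088) (PT.nd (nat_lit 3120) (PT.nd (nat_lit 78) (PT.lf (nat_lit 1520) (nat_lit 6) (nat_lit 20) (nat_lit 4) (nat_lit 173) (nat_lit 214) (nat_lit 213)) (PT.nd (nat_lit 2964) (PT.lf (nat_lit 1596) (nat_lit 6) (nat_lit 21) (nat_lit 4) (nat_lit 174) (nat_lit 214) (nat_lit 212)) (PT.lf (nat_lit 1596) (nat_lit 6) (nat_lit 21) (nat_lit 2) (nat_lit 212) (nat_lit 214) (nat_lit 174)))) (PT.nd (nat_lit 156) (PT.nd (nat_lit 78) (PT.lf (nat_lit 1520) (nat_lit 6) (nat_lit 20) (nat_lit 2) (nat_lit 213) (nat_lit 214) (nat_lit 173)) (PT.lf (nat_lit 1444) (nat_lit 3) (nat_lit 19) (nat_lit 0) (nat_lit 214) (nat_lit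 214) (nat_lit 172))) (PT.nd (nat_lit 78) (PT.lf (nat_lit 1292) (nat_lit 6) (nat_lit 17) (nat_lit 0) (nat_lit 215) (nat_lit 214) (nat_lit 171)) (PT.lf (nat_lit 1140) (nat_lit 6) (nat_lit 15) (nat_lit 0) (nat_lit 216) (nat_lit 214) (nat_lit 170))))) (PT.nd (nat_lit 312) (PT.nd (nat_lit 156) (PT.nd (nat_lit 78) (PT.lf (nat_lit 912) (nat_lit 6) (nat_lit 12) (nat_lit 5) (nat_lit 168) (nat_lit 215) (nat_lit 217)) (PT.lf (nat_lit 1064) (nat_lit 6) (nat_lit 14) (nat_lit 5) (nat_lit 169) (nat_lit 215) (nat_lit 216))) (PT.nd (nat_lit 78) (PT.lf (nat_lit 1216) (nat_lit 3) (nat_lit 16) (nat_lit 4) (nat_lit 170) (nat_lit 215) (nat_lit 215)) (PT.lf (nat_lit 1292) (nat_lit 6) (nat_lit 17) (nat_lit 4) (nat_lit 171) (nat_lit 215) (nat_lit 214)))) (PT.nd (nat_lit 3276) (PT.nd (nat_lit 3198) (PT.lf (nat_lit 1368) (nat_lit 6) (nat_lit 18) (nat_lit 4) (nat_lit 172) (nat_lit 215) (nat_lit 213)) (PT.lf (nat_lit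 1368) (nat_lit 6) (nat_lit 18) (nat_lit 2) (nat_lit 213) (nat_lit 215) (nat_lit 172))) (PT.nd (nat_lit 78) (PT.lf (nat_lit 1292) (nat_lit 6) (nat_lit 17) (nat_lit 2) (nat_lit 214) (nat_lit 215) (nat_lit 171)) (PT.lf (nat_lit 1216) (nat_lit 3) (nat_lit 16) (nat_lit 0) (nat_lit 215) (nat_lit 215) (nat_lit 170)))))) (PT.nd (nat_lit 62322) (PT.nd (nat_lit 58656) (PT.nd (nat_lit 78) (PT.lf (nat_lit 1064) (nat_lit 6) (nat_lit 14) (nat_lit 0) (nat_lit 216) (nat_lit 215) (nat_lit 169)) (PT.nd (nat_lit 58500) (PT.lf (nat_lit 912) (nat_lit 6) (nat_lit 12) (nat_lit 0) (nat_lit 217) (nat_lit 215) (nat_lit 168)) (PT.lf (nat_lit 684) (nat_lit 6) (nat_lit 9) (nat_lit 5) (nat_lit 166) (nat_lit 216) (nat_lit 218)))) (PT.nd (nat_lit 156) (PT.nd (nat_lit 78) (PT.lf (nat_lit 836) (nat_lit 6) (nat_lit 11) (nat_lit 5) (nat_lit 167) (nat_lit 216) (nat_lit 217)) (PT.lf (nat_lit 988) (nat_lit 3) (nat_lit 13) (nat_lit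 4) (nat_lit 168) (nat_lit 216) (nat_lit 216))) (PT.nd (nat_lit 78) (PT.lf (nat_lit 1064) (nat_lit 6) (nat_lit 14) (nat_lit 4) (nat_lit 169) (nat_lit 216) (nat_lit 215)) (PT.lf (nat_lit 1140) (nat_lit 6) (nat_lit 15) (nat_lit 4) (nat_lit 170) (nat_lit 216) (nat_lit 214))))) (PT.nd (nat_lit 312) (PT.nd (nat_lit 156) (PT.nd (nat_lit 78) (PT.lf (nat_lit 1140) (nat_lit 6) (nat_lit 15) (nat_lit 2) (nat_lit 214) (nat_lit 216) (nat_lit 170)) (PT.lf (nat_lit 1064) (nat_lit 6) (nat_lit 14) (nat_lit 2) (nat_lit 215) (nat_lit 216) (nat_lit 169))) (PT.nd (nat_lit 78) (PT.lf (nat_lit 988) (nat_lit 3) (nat_lit 13) (nat_lit 0) (nat_lit 216) (nat_lit 216) (nat_lit 168)) (PT.lf (nat_lit 836) (nat_lit 6) (nat_lit 11) (nat_lit 0) (nat_lit 217) (nat_lit 216) (nat_lit 167)))) (PT.nd (nat_lit 58344) (PT.nd (nat_lit 58266) (PT.lf (nat_lit 684) (nat_lit 6) (nat_lit 9) (nat_lit 0) (nat_lit 218) (nat_lit 216) (nat_lit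 166)) (PT.lf (nat_lit 456) (nat_lit 6) (nat_lit 6) (nat_lit 5) (nat_lit 164) (nat_lit 217) (nat_lit 219))) (PT.nd (nat_lit 78) (PT.lf (nat_lit 608) (nat_lit 6) (nat_lit 8) (nat_lit 5) (nat_lit 165) (nat_lit 217) (nat_lit 218)) (PT.lf (nat_lit 760) (nat_lit 3) (nat_lit 10) (nat_lit 4) (nat_lit 166) (nat_lit 217) (nat_lit 217))))))) (PT.nd (nat_lit 66534) (PT.nd (nat_lit 62088) (PT.nd (nat_lit 3822) (PT.nd (nat_lit 78) (PT.lf (nat_lit 836) (nat_lit 6) (nat_lit 11) (nat_lit 4) (nat_lit 167) (nat_lit 217) (nat_lit 216)) (PT.nd (nat_lit 3666) (PT.lf (nat_lit 912) (nat_lit 6) (nat_lit 12) (nat_lit 4) (nat_lit 168) (nat_lit 217) (nat_lit 215)) (PT.lf (nat_lit 912) (nat_lit 6) (nat_lit 12) (nat_lit 2) (nat_lit 215) (nat_lit 217) (nat_lit 168)))) (PT.nd (nat_lit 156) (PT.nd (nat_lit 78) (PT.lf (nat_lit 836) (nat_lit 6) (nat_lit 11) (nat_lit 2) (nat_lit 216) (nat_lit 217) (nat_lit 167)) (PT.lf (nat_lit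 760) (nat_lit 3) (nat_lit 10) (nat_lit 0) (nat_lit 217) (nat_lit 217) (nat_lit 166))) (PT.nd (nat_lit 78) (PT.lf (nat_lit 608) (nat_lit 6) (nat_lit 8) (nat_lit 0) (nat_lit 218) (nat_lit 217) (nat_lit 165)) (PT.lf (nat_lit 456) (nat_lit 6) (nat_lit 6) (nat_lit 0) (nat_lit 219) (nat_lit 217) (nat_lit 164))))) (PT.nd (nat_lit 312) (PT.nd (nat_lit 156) (PT.nd (nat_lit 78) (PT.lf (nat_lit 228) (nat_lit 6) (nat_lit 3) (nat_lit 5) (nat_lit 162) (nat_lit 218) (nat_lit 220)) (PT.lf (nat_lit 380) (nat_lit 6) (nat_lit 5) (nat_lit 5) (nat_lit 163) (nat_lit 218) (nat_lit 219))) (PT.nd (nat_lit 78) (PT.lf (nat_lit 532) (nat_lit 3) (nat_lit 7) (nat_lit 4) (nat_lit 164) (nat_lit 218) (nat_lit 218)) (PT.lf (nat_lit 608) (nat_lit 6) (nat_lit 8) (nat_lit 4) (nat_lit 165) (nat_lit 218) (nat_lit 217)))) (PT.nd (nat_lit 3978) (PT.nd (nat_lit 3900) (PT.lf (nat_lit 684) (nat_lit 6) (nat_lit 9) (nat_lit 4) (nat_lit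 166) (nat_lit 218) (nat_lit 216)) (PT.lf (nat_lit 684) (nat_lit 6) (nat_lit 9) (nat_lit 2) (nat_lit 216) (nat_lit 218) (nat_lit 166))) (PT.nd (nat_lit 78) (PT.lf (nat_lit 608) (nat_lit 6) (nat_lit 8) (nat_lit 2) (nat_lit 217) (nat_lit 218) (nat_lit 165)) (PT.lf (nat_lit 532) (nat_lit 3) (nat_lit 7) (nat_lit 0) (nat_lit 218) (nat_lit 218) (nat_lit 164)))))) (PT.nd (nat_lit 62478) (PT.nd (nat_lit 58110) (PT.nd (nat_lit 57954) (PT.nd (nat_lit 78) (PT.lf (nat_lit 380) (nat_lit 6) (nat_lit 5) (nat_lit 0) (nat_lit 219) (nat_lit 218) (nat_lit 163)) (PT.lf (nat_lit 228) (nat_lit 6) (nat_lit 3) (nat_lit 0) (nat_lit 220) (nat_lit 218) (nat_lit 162))) (PT.nd (nat_lit 78) (PT.lf (nat_lit 152) (nat_lit 6) (nat_lit 2) (nat_lit 5) (nat_lit 161) (nat_lit 219) (nat_lit 220)) (PT.lf (nat_lit 304) (nat_lit 3) (nat_lit 4) (nat_lit 4) (nat_lit 162) (nat_lit 219) (nat_lit 219)))) (PT.nd (nat_lit 4212) (PT.nd (nat_lit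 78) (PT.lf (nat_lit 380) (nat_lit 6) (nat_lit 5) (nat_lit 4) (nat_lit 163) (nat_lit 219) (nat_lit 218)) (PT.lf (nat_lit 456) (nat_lit 6) (nat_lit 6) (nat_lit 4) (nat_lit 164) (nat_lit 219) (nat_lit 217))) (PT.nd (nat_lit 78) (PT.lf (nat_lit 456) (nat_lit 6) (nat_lit 6) (nat_lit 2) (nat_lit 217) (nat_lit 219) (nat_lit 164)) (PT.lf (nat_lit 380) (nat_lit 6) (nat_lit 5) (nat_lit 2) (nat_lit 218) (nat_lit 219) (nat_lit 163))))) (PT.nd (nat_lit 58032) (PT.nd (nat_lit 57876) (PT.nd (nat_lit 78) (PT.lf (nat_lit 304) (nat_lit 3) (nat_lit 4) (nat_lit 0) (nat_lit 219) (nat_lit 219) (nat_lit 162)) (PT.lf (nat_lit 152) (nat_lit 6) (nat_lit 2) (nat_lit 0) (nat_lit 220) (nat_lit 219) (nat_lit 161))) (PT.nd (nat_lit 78) (PT.lf (nat_lit 76) (nat_lit 3) (nat_lit 1) (nat_lit 4) (nat_lit 160) (nat_lit 220) (nat_lit 220)) (PT.lf (nat_lit 152) (nat_lit 6) (nat_lit 2) (nat_lit 4) (nat_lit 161) (nat_lit 220) (nat_lit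 219)))) (PT.nd (nat_lit 4446) (PT.nd (nat_lit 4368) (PT.lf (nat_lit 228) (nat_lit 6) (nat_lit 3) (nat_lit 4) (nat_lit 162) (nat_lit 220) (nat_lit 218)) (PT.lf (nat_lit 228) (nat_lit 6) (nat_lit 3) (nat_lit 2) (nat_lit 218) (nat_lit 220) (nat_lit 162))) (PT.nd (nat_lit 78) (PT.lf (nat_lit 152) (nat_lit 6) (nat_lit 2) (nat_lit 2) (nat_lit 219) (nat_lit 220) (nat_lit 161)) (PT.lf (nat_lit 76) (nat_lit 3) (nat_lit 1) (nat_lit 0) (nat_lit 220) (nat_lit 220) (nat_lit 160))))))))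
noncomputable def xc0 : XT := (XT.nd (nat_lit 311766) (nat_lit 0) (nat_lit 0) (XT.nd (nat_lit 187356) (nat_lit 0) (nat_lit 0) (XT.nd (nat_lit 124878) (nat_lit 0) (nat_lit 0) (XT.nd (nat_lit 124644) (nat_lit 0) (nat_lit 0) (XT.nd (nat_lit 62400) (nat_lit 0) (nat_lit 0) (XT.lf (nat_lit 0) (nat_lit 315284561747) (nat_lit 152) (nat_lit 130496201087) (nat_lit 0) (nat_lit 315284561747) (nat_lit 1) (nat_lit 5) (nat_lit 3) (nat_lit 4) (nat_lit 1) (nat_lit 4) (nat_lit 500) (nat_lit 350) (nat_lit 350)) (XT.nd (nat_lit 78) (nat_lit 0) (nat_lit 0) (XT.lf (nat_lit 0) (nat_lit 581673474061) (nat_lit 152) (nat_lit 246168807036) (nat_lit 0) (nat_lit 581649622254) (nat_lit 1) (nat_lit 5) (nat_lit 3) (nat_lit 4) (nat_lit 1) (nat_lit 4) (nat_lit 499) (nat_lit 351) (nat_lit 350)) (XT.lf (nat_lit 0) (nat_lit 630534981476) (nat_lit 152) (nat_lit 261109523614) (nat_lit 0) (nat_lit 630489044662) (nat_lit 1) (nat_lit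 5) (nat_lit 3) (nat_lit 4) (nat_lit 1) (nat_lit 4) (nat_lit 500) (nat_lit 351) (nat_lit 349)))) (XT.nd (nat_lit 78) (nat_lit 0) (nat_lit 0) (XT.lf (nat_lit 0) (nat_lit 227586285138) (nat_lit 152) (nat_lit 104444307798) (nat_lit 0) (nat_lit 227586285138) (nat_lit 1) (nat_lit 5) (nat_lit 3) (nat_lit 4) (nat_lit 1) (nat_lit 4) (nat_lit 496) (nat_lit 352) (nat_lit 352)) (XT.nd (nat_lit 78) (nat_lit 0) (nat_lit 0) (XT.lf (nat_lit 0) (nat_lit 494230493077) (nat_lit 152) (nat_lit 220203592220) (nat_lit 0) (nat_lit 494204733125) (nat_lit 1) (nat_lit 5) (nat_lit 3) (nat_lit 4) (nat_lit 1) (nat_lit 4) (nat_lit 497) (nat_lit 352) (nat_lit 351)) (XT.lf (nat_lit 0) (nat_lit 536282772373) (nat_lit 152) (nat_lit 232686868574) (nat_lit 0) (nat_lit 536233160614) (nat_lit 1) (nat_lit 5) (nat_lit 3) (nat_lit 4) (nat_lit 1) (nat_lit 4) (nat_lit 498) (nat_lit 352) (nat_lit 350))))) (XT.nd (nat_lit 62166) (nat_lit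 0) (nat_lit 0) (XT.nd (nat_lit 78) (nat_lit 0) (nat_lit 0) (XT.lf (nat_lit 0) (nat_lit 581578606856) (nat_lit 152) (nat_lit 246412419629) (nat_lit 0) (nat_lit 581506910090) (nat_lit 1) (nat_lit 5) (nat_lit 3) (nat_lit 4) (nat_lit 1) (nat_lit 4) (nat_lit 499) (nat_lit 352) (nat_lit 349)) (XT.nd (nat_lit 62010) (nat_lit 0) (nat_lit 0) (XT.lf (nat_lit 0) (nat_lit 630386416284) (nat_lit 152) (nat_lit 261461581983) (nat_lit 0) (nat_lit 630294270438) (nat_lit 1) (nat_lit 5) (nat_lit 3) (nat_lit 4) (nat_lit 1) (nat_lit 4) (nat_lit 500) (nat_lit 352) (nat_lit 348)) (XT.lf (nat_lit 0) (nat_lit 192615612873) (nat_lit 152) (nat_lit 94677170659) (nat_lit 0) (nat_lit 192615612873) (nat_lit 1) (nat_lit 5) (nat_lit 3) (nat_lit 4) (nat_lit 1) (nat_lit 4) (nat_lit 494) (nat_lit 353) (nat_lit 353)))) (XT.nd (nat_lit 156) (nat_lit 0) (nat_lit 0) (XT.nd (nat_lit 78) (nat_lit 0) (nat_lit 0) (XT.lf (nat_lit 0)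 (nat_lit 418905370359) (nat_lit 152) (nat_lit 198674886989) (nat_lit 0) (nat_lit 418877549611) (nat_lit 1) (nat_lit 5) (nat_lit 3) (nat_lit 4) (nat_lit 1) (nat_lit 4) (nat_lit 495) (nat_lit 353) (nat_lit 352)) (XT.lf (nat_lit 0) (nat_lit 455132747026) (nat_lit 152) (nat_lit 209025226043) (nat_lit 0) (nat_lit 455079166326) (nat_lit 1) (nat_lit 5) (nat_lit 3) (nat_lit 4) (nat_lit 1) (nat_lit 4) (nat_lit 496) (nat_lit 353) (nat_lit 351))) (XT.nd (nat_lit 78) (nat_lit 0) (nat_lit 0) (XT.lf (nat_lit 0) (nat_lit 494128036496) (nat_lit 152) (nat_lit 220466693820) (nat_lit 0) (nat_lit 494050603988) (nat_lit 1) (nat_lit 5) (nat_lit 3) (nat_lit 4) (nat_lit 1) (nat_lit 4) (nat_lit 497) (nat_lit 353) (nat_lit 350)) (XT.lf (nat_lit 0) (nat_lit 536122321966) (nat_lit 152) (nat_lit 233067091613) (nat_lit 0) (nat_lit 536022804452) (nat_lit 1) (nat_lit 5) (nat_lit 3) (nat_lit 4) (nat_lit 1) (nat_lit 4) (nat_lit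 498) (nat_lit 353) (nat_lit 349)))))) (XT.nd (nat_lit 62244) (nat_lit 0) (nat_lit 0) (XT.nd (nat_lit 62010) (nat_lit 0) (nat_lit 0) (XT.nd (nat_lit 78) (nat_lit 0) (nat_lit 0) (XT.lf (nat_lit 0) (nat_lit 581364458462) (nat_lit 152) (nat_lit 246901088444) (nat_lit 0) (nat_lit 581244491867) (nat_lit 1) (nat_lit 5) (nat_lit 3) (nat_lit 4) (nat_lit 1) (nat_lit 4) (nat_lit 499) (nat_lit 353) (nat_lit 348)) (XT.nd (nat_lit 61854) (nat_lit 0) (nat_lit 0) (XT.lf (nat_lit 0) (nat_lit 630122547532) (nat_lit 152) (nat_lit 262050663555) (nat_lit 0) (nat_lit 629983646604) (nat_lit 1) (nat_lit 5) (nat_lit 3) (nat_lit 4) (nat_lit 1) (nat_lit 4) (nat_lit 500) (nat_lit 353) (nat_lit 347)) (XT.lf (nat_lit 0) (nat_lit 162433662420) (nat_lit 152) (nat_lit 86714065708) (nat_lit 0) (nat_lit 162433662420) (nat_lit 1) (nat_lit 5) (nat_lit 3) (nat_lit 4) (nat_lit 1) (nat_lit 4) (nat_lit 492) (nat_lit 354) (nat_lit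 354)))) (XT.nd (nat_lit 78) (nat_lit 0) (nat_lit 0) (XT.lf (nat_lit 0) (nat_lit 353940809106) (nat_lit 152) (nat_lit 181008356165) (nat_lit 0) (nat_lit 353910762698) (nat_lit 1) (nat_lit 5) (nat_lit 3) (nat_lit 4) (nat_lit 1) (nat_lit 4) (nat_lit 493) (nat_lit 354) (nat_lit 353)) (XT.nd (nat_lit 78) (nat_lit 0) (nat_lit 0) (XT.lf (nat_lit 0) (nat_lit 385188216636) (nat_lit 152) (nat_lit 189501880600) (nat_lit 0) (nat_lit 385130349480) (nat_lit 1) (nat_lit 5) (nat_lit 3) (nat_lit 4) (nat_lit 1) (nat_lit 4) (nat_lit 494) (nat_lit 354) (nat_lit 352)) (XT.lf (nat_lit 0) (nat_lit 418794717251) (nat_lit 152) (nat_lit 198959036717) (nat_lit 0) (nat_lit 418711090143) (nat_lit 1) (nat_lit 5) (nat_lit 3) (nat_lit 4) (nat_lit 1) (nat_lit 4) (nat_lit 495) (nat_lit 354) (nat_lit 351))))) (XT.nd (nat_lit 234) (nat_lit 0) (nat_lit 0) (XT.nd (nat_lit 78) (nat_lit 0) (nat_lit 0) (XT.lf (nat_lit 0) (nat_lit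 454959460586) (nat_lit 152) (nat_lit 209435866925) (nat_lit 0) (nat_lit 454851981671) (nat_lit 1) (nat_lit 5) (nat_lit 3) (nat_lit 4) (nat_lit 1) (nat_lit 4) (nat_lit 496) (nat_lit 354) (nat_lit 350)) (XT.nd (nat_lit 78) (nat_lit 0) (nat_lit 0) (XT.lf (nat_lit 0) (nat_lit 493896756230) (nat_lit 152) (nat_lit 220994456141) (nat_lit 0) (nat_lit 493767192308) (nat_lit 1) (nat_lit 5) (nat_lit 3) (nat_lit 4) (nat_lit 1) (nat_lit 4) (nat_lit 497) (nat_lit 354) (nat_lit 349)) (XT.lf (nat_lit 0) (nat_lit 535837343714) (nat_lit 152) (nat_lit 233703299710) (nat_lit 0) (nat_lit 535687330711) (nat_lit 1) (nat_lit 5) (nat_lit 3) (nat_lit 4) (nat_lit 1) (nat_lit 4) (nat_lit 498) (nat_lit 354) (nat_lit 348)))) (XT.nd (nat_lit 61776) (nat_lit 0) (nat_lit 0) (XT.nd (nat_lit 78) (nat_lit 0) (nat_lit 0) (XT.lf (nat_lit 0) (nat_lit 581029759851) (nat_lit 152) (nat_lit 247637709298) (nat_lit 0) (nat_lit 580860812515)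 (nat_lit 1) (nat_lit 5) (nat_lit 3) (nat_lit 4) (nat_lit 1) (nat_lit 4) (nat_lit 499) (nat_lit 354) (nat_lit 347)) (XT.lf (nat_lit 0) (nat_lit 629741811554) (nat_lit 152) (nat_lit 262880259183) (nat_lit 0) (nat_lit 629555332427) (nat_lit 1) (nat_lit 5) (nat_lit 3) (nat_lit 4) (nat_lit 1) (nat_lit 4) (nat_lit 500) (nat_lit 354) (nat_lit 346))) (XT.nd (nat_lit 78) (nat_lit 0) (nat_lit 0) (XT.lf (nat_lit 0) (nat_lit 136341250234) (nat_lit 152) (nat_lit 80330478856) (nat_lit 0) (nat_lit 136341250234) (nat_lit 1) (nat_lit 5) (nat_lit 3) (nat_lit 4) (nat_lit 1) (nat_lit 4) (nat_lit 490) (nat_lit 355) (nat_lit 355)) (XT.lf (nat_lit 0) (nat_lit 297827926646) (nat_lit 152) (nat_lit 166716286503) (nat_lit 0) (nat_lit 297795476525) (nat_lit 1) (nat_lit 5) (nat_lit 3) (nat_lit 4) (nat_lit 1) (nat_lit 4) (nat_lit 491) (nat_lit 355) (nat_lit 354))))))) (XT.nd (nat_lit 62478) (nat_lit 0) (nat_lit 0) (XT.nd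 (nat_lit 468) (nat_lit 0) (nat_lit 0) (XT.nd (nat_lit 234) (nat_lit 0) (nat_lit 0) (XT.nd (nat_lit 78) (nat_lit 0) (nat_lit 0) (XT.lf (nat_lit 0) (nat_lit 324820875002) (nat_lit 152) (nat_lit 173587473841) (nat_lit 0) (nat_lit 324758378473) (nat_lit 1) (nat_lit 5) (nat_lit 3) (nat_lit 4) (nat_lit 1) (nat_lit 4) (nat_lit 492) (nat_lit 355) (nat_lit 353)) (XT.nd (nat_lit 78) (nat_lit 0) (nat_lit 0) (XT.lf (nat_lit 0) (nat_lit 353821303749) (nat_lit 152) (nat_lit 181315237871) (nat_lit 0) (nat_lit 353730986473) (nat_lit 1) (nat_lit 5) (nat_lit 3) (nat_lit 4) (nat_lit 1) (nat_lit 4) (nat_lit 493) (nat_lit 355) (nat_lit 352)) (XT.lf (nat_lit 0) (nat_lit 385001067280) (nat_lit 152) (nat_lit 189945372752) (nat_lit 0) (nat_lit 384884990052) (nat_lit 1) (nat_lit 5) (nat_lit 3) (nat_lit 4) (nat_lit 1) (nat_lit 4) (nat_lit 494) (nat_lit 355) (nat_lit 351)))) (XT.nd (nat_lit 78) (nat_lit 0) (nat_lit 0)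 (XT.lf (nat_lit 0) (nat_lit 418544934564) (nat_lit 152) (nat_lit 199529020024) (nat_lit 0) (nat_lit 418405005528) (nat_lit 1) (nat_lit 5) (nat_lit 3) (nat_lit 4) (nat_lit 1) (nat_lit 4) (nat_lit 495) (nat_lit 355) (nat_lit 350)) (XT.nd (nat_lit 78) (nat_lit 0) (nat_lit 0) (XT.lf (nat_lit 0) (nat_lit 454651684073) (nat_lit 152) (nat_lit 210122971670) (nat_lit 0) (nat_lit 454489670031) (nat_lit 1) (nat_lit 5) (nat_lit 3) (nat_lit 4) (nat_lit 1) (nat_lit 4) (nat_lit 496) (nat_lit 355) (nat_lit 349)) (XT.lf (nat_lit 0) (nat_lit 493535281731) (nat_lit 152) (nat_lit 221790006663) (nat_lit 0) (nat_lit 493352818608) (nat_lit 1) (nat_lit 5) (nat_lit 3) (nat_lit 4) (nat_lit 1) (nat_lit 4) (nat_lit 497) (nat_lit 355) (nat_lit 348))))) (XT.nd (nat_lit 61698) (nat_lit 0) (nat_lit 0) (XT.nd (nat_lit 78) (nat_lit 0) (nat_lit 0) (XT.lf (nat_lit 0) (nat_lit 535426148857) (nat_lit 152) (nat_lit 234599262988)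 (nat_lit 0) (nat_lit 535224751400) (nat_lit 1) (nat_lit 5) (nat_lit 3) (nat_lit 4) (nat_lit 1) (nat_lit 4) (nat_lit 498) (nat_lit 355) (nat_lit 347)) (XT.nd (nat_lit 78) (nat_lit 0) (nat_lit 0) (XT.lf (nat_lit 0) (nat_lit 580572527626) (nat_lit 152) (nat_lit 248626647350) (nat_lit 0) (nat_lit 580353598379) (nat_lit 1) (nat_lit 5) (nat_lit 3) (nat_lit 4) (nat_lit 1) (nat_lit 4) (nat_lit 499) (nat_lit 355) (nat_lit 346)) (XT.lf (nat_lit 0) (nat_lit 629241952135) (nat_lit 152) (nat_lit 263955284988) (nat_lit 0) (nat_lit 629006789749) (nat_lit 1) (nat_lit 5) (nat_lit 3) (nat_lit 4) (nat_lit 1) (nat_lit 4) (nat_lit 500) (nat_lit 355) (nat_lit 345)))) (XT.nd (nat_lit 156) (nat_lit 0) (nat_lit 0) (XT.nd (nat_lit 78) (nat_lit 0) (nat_lit 0) (XT.lf (nat_lit 0) (nat_lit 113737657608) (nat_lit 152) (nat_lit 75336553559) (nat_lit 0) (nat_lit 113737657608) (nat_lit 1) (nat_lit 5) (nat_lit 3) (nat_lit 4)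 (nat_lit 1) (nat_lit 4) (nat_lit 488) (nat_lit 356) (nat_lit 356)) (XT.lf (nat_lit 0) (nat_lit 249270632666) (nat_lit 152) (nat_lit 155385604037) (nat_lit 0) (nat_lit 249235586535) (nat_lit 1) (nat_lit 5) (nat_lit 3) (nat_lit 4) (nat_lit 1) (nat_lit 4) (nat_lit 489) (nat_lit 356) (nat_lit 355))) (XT.nd (nat_lit 78) (nat_lit 0) (nat_lit 0) (XT.lf (nat_lit 0) (nat_lit 272632334642) (nat_lit 152) (nat_lit 160833047530) (nat_lit 0) (nat_lit 272564838391) (nat_lit 1) (nat_lit 5) (nat_lit 3) (nat_lit 4) (nat_lit 1) (nat_lit 4) (nat_lit 490) (nat_lit 356) (nat_lit 354)) (XT.lf (nat_lit 0) (nat_lit 297698860860) (nat_lit 152) (nat_lit 167047718746) (nat_lit 0) (nat_lit 297601318201) (nat_lit 1) (nat_lit 5) (nat_lit 3) (nat_lit 4) (nat_lit 1) (nat_lit 4) (nat_lit 491) (nat_lit 356) (nat_lit 353)))))) (XT.nd (nat_lit 546) (nat_lit 0) (nat_lit 0) (XT.nd (nat_lit 234) (nat_lit 0) (nat_lit 0) (XT.nd (nat_lit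 78) (nat_lit 0) (nat_lit 0) (XT.lf (nat_lit 0) (nat_lit 324618753698) (nat_lit 152) (nat_lit 174066445365) (nat_lit 0) (nat_lit 324493390292) (nat_lit 1) (nat_lit 5) (nat_lit 3) (nat_lit 4) (nat_lit 1) (nat_lit 4) (nat_lit 492) (nat_lit 356) (nat_lit 352)) (XT.nd (nat_lit 78) (nat_lit 0) (nat_lit 0) (XT.lf (nat_lit 0) (nat_lit 353551538448) (nat_lit 152) (nat_lit 181930819842) (nat_lit 0) (nat_lit 353400415089) (nat_lit 1) (nat_lit 5) (nat_lit 3) (nat_lit 4) (nat_lit 1) (nat_lit 4) (nat_lit 493) (nat_lit 356) (nat_lit 351)) (XT.lf (nat_lit 0) (nat_lit 384668668647) (nat_lit 152) (nat_lit 190687445877) (nat_lit 0) (nat_lit 384493693481) (nat_lit 1) (nat_lit 5) (nat_lit 3) (nat_lit 4) (nat_lit 1) (nat_lit 4) (nat_lit 494) (nat_lit 356) (nat_lit 350)))) (XT.nd (nat_lit 156) (nat_lit 0) (nat_lit 0) (XT.nd (nat_lit 78) (nat_lit 0) (nat_lit 0) (XT.lf (nat_lit 0) (nat_lit 418154542105) (nat_lit 152)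 (nat_lit 200388214587) (nat_lit 0) (nat_lit 417957481933) (nat_lit 1) (nat_lit 5) (nat_lit 3) (nat_lit 4) (nat_lit 1) (nat_lit 4) (nat_lit 495) (nat_lit 356) (nat_lit 349)) (XT.lf (nat_lit 0) (nat_lit 454207593628) (nat_lit 152) (nat_lit 211090612010) (nat_lit 0) (nat_lit 453990084375) (nat_lit 1) (nat_lit 5) (nat_lit 3) (nat_lit 4) (nat_lit 1) (nat_lit 4) (nat_lit 496) (nat_lit 356) (nat_lit 348))) (XT.nd (nat_lit 78) (nat_lit 0) (nat_lit 0) (XT.lf (nat_lit 0) (nat_lit 493041470927) (nat_lit 152) (nat_lit 222858059759) (nat_lit 0) (nat_lit 492805027341) (nat_lit 1) (nat_lit 5) (nat_lit 3) (nat_lit 4) (nat_lit 1) (nat_lit 4) (nat_lit 497) (nat_lit 356) (nat_lit 347)) (XT.lf (nat_lit 0) (nat_lit 534886300685) (nat_lit 152) (nat_lit 235760290859) (nat_lit 0) (nat_lit 534632325308) (nat_lit 1) (nat_lit 5) (nat_lit 3) (nat_lit 4) (nat_lit 1) (nat_lit 4) (nat_lit 498) (nat_lit 356) (nat_lit 346)))))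 (XT.nd (nat_lit 61542) (nat_lit 0) (nat_lit 0) (XT.nd (nat_lit 78) (nat_lit 0) (nat_lit 0) (XT.lf (nat_lit 0) (nat_lit 579990052261) (nat_lit 152) (nat_lit 249873762974) (nat_lit 0) (nat_lit 579719843744) (nat_lit 1) (nat_lit 5) (nat_lit 3) (nat_lit 4) (nat_lit 1) (nat_lit 4) (nat_lit 499) (nat_lit 356) (nat_lit 345)) (XT.nd (nat_lit 61386) (nat_lit 0) (nat_lit 0) (XT.lf (nat_lit 0) (nat_lit 628620007147) (nat_lit 152) (nat_lit 265282111496) (nat_lit 0) (nat_lit 628334767946) (nat_lit 1) (nat_lit 5) (nat_lit 3) (nat_lit 4) (nat_lit 1) (nat_lit 4) (nat_lit 500) (nat_lit 356) (nat_lit 344)) (XT.lf (nat_lit 0) (nat_lit 94106481050) (nat_lit 152) (nat_lit 71572356784) (nat_lit 0) (nat_lit 94106481050) (nat_lit 1) (nat_lit 5) (nat_lit 3) (nat_lit 4) (nat_lit 1) (nat_lit 4) (nat_lit 486) (nat_lit 357) (nat_lit 357)))) (XT.nd (nat_lit 156) (nat_lit 0) (nat_lit 0) (XT.nd (nat_lit 78) (nat_lit 0) (nat_lit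 0) (XT.lf (nat_lit 0) (nat_lit 207155074678) (nat_lit 152) (nat_lit 146667630869) (nat_lit 0) (nat_lit 207117224858) (nat_lit 1) (nat_lit 5) (nat_lit 3) (nat_lit 4) (nat_lit 1) (nat_lit 4) (nat_lit 487) (nat_lit 357) (nat_lit 356)) (XT.lf (nat_lit 0) (nat_lit 227421136124) (nat_lit 152) (nat_lit 150858964123) (nat_lit 0) (nat_lit 227348240174) (nat_lit 1) (nat_lit 5) (nat_lit 3) (nat_lit 4) (nat_lit 1) (nat_lit 4) (nat_lit 488) (nat_lit 357) (nat_lit 355))) (XT.nd (nat_lit 78) (nat_lit 0) (nat_lit 0) (XT.lf (nat_lit 0) (nat_lit 249131241617) (nat_lit 152) (nat_lit 155743550859) (nat_lit 0) (nat_lit 249025895546) (nat_lit 1) (nat_lit 5) (nat_lit 3) (nat_lit 4) (nat_lit 1) (nat_lit 4) (nat_lit 489) (nat_lit 357) (nat_lit 354)) (XT.lf (nat_lit 0) (nat_lit 272414043634) (nat_lit 152) (nat_lit 161350336777) (nat_lit 0) (nat_lit 272278651155) (nat_lit 1) (nat_lit 5) (nat_lit 3) (nat_lit 4) (nat_lit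 1) (nat_lit 4) (nat_lit 490) (nat_lit 357) (nat_lit 353))))))))
noncomputable def xc1 : XT := (XT.nd (nat_lit 63180) (nat_lit 0) (nat_lit 0) (XT.nd (nat_lit 62166) (nat_lit 0) (nat_lit 0) (XT.nd (nat_lit 468) (nat_lit 0) (nat_lit 0) (XT.nd (nat_lit 234) (nat_lit 0) (nat_lit 0) (XT.nd (nat_lit 78) (nat_lit 0) (nat_lit 0) (XT.lf (nat_lit 0) (nat_lit 297407514334) (nat_lit 152) (nat_lit 167712547275) (nat_lit 0) (nat_lit 297244301107) (nat_lit 1) (nat_lit 5) (nat_lit 3) (nat_lit 4) (nat_lit 1) (nat_lit 4) (nat_lit 491) (nat_lit 357) (nat_lit 352)) (XT.nd (nat_lit 78) (nat_lit 0) (nat_lit 0) (XT.lf (nat_lit 0) (nat_lit 324259763174) (nat_lit 152) (nat_lit 174867884340) (nat_lit 0) (nat_lit 324070789995) (nat_lit 1) (nat_lit 5) (nat_lit 3) (nat_lit 4) (nat_lit 1) (nat_lit 4) (nat_lit 492) (nat_lit 357) (nat_lit 351)) (XT.lf (nat_lit 0) (nat_lit 353129914592) (nat_lit 152) (nat_lit 182858749971)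 (nat_lit 0) (nat_lit 352917089606) (nat_lit 1) (nat_lit 5) (nat_lit 3) (nat_lit 4) (nat_lit 1) (nat_lit 4) (nat_lit 493) (nat_lit 357) (nat_lit 350)))) (XT.nd (nat_lit 78) (nat_lit 0) (nat_lit 0) (XT.lf (nat_lit 0) (nat_lit 384189050966) (nat_lit 152) (nat_lit 191732497444) (nat_lit 0) (nat_lit 383954140973) (nat_lit 1) (nat_lit 5) (nat_lit 3) (nat_lit 4) (nat_lit 1) (nat_lit 4) (nat_lit 494) (nat_lit 357) (nat_lit 349)) (XT.nd (nat_lit 78) (nat_lit 0) (nat_lit 0) (XT.lf (nat_lit 0) (nat_lit 417621226437) (nat_lit 152) (nat_lit 201541711931) (nat_lit 0) (nat_lit 417365867364) (nat_lit 1) (nat_lit 5) (nat_lit 3) (nat_lit 4) (nat_lit 1) (nat_lit 4) (nat_lit 495) (nat_lit 357) (nat_lit 348)) (XT.lf (nat_lit 0) (nat_lit 453624557602) (nat_lit 152) (nat_lit 212344522110) (nat_lit 0) (nat_lit 453350264195) (nat_lit 1) (nat_lit 5) (nat_lit 3) (nat_lit 4) (nat_lit 1) (nat_lit 4) (nat_lit 496) (nat_lit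 357) (nat_lit 347))))) (XT.nd (nat_lit 234) (nat_lit 0) (nat_lit 0) (XT.nd (nat_lit 78) (nat_lit 0) (nat_lit 0) (XT.lf (nat_lit 0) (nat_lit 492412397533) (nat_lit 152) (nat_lit 224204944633) (nat_lit 0) (nat_lit 492120572335) (nat_lit 1) (nat_lit 5) (nat_lit 3) (nat_lit 4) (nat_lit 1) (nat_lit 4) (nat_lit 497) (nat_lit 357) (nat_lit 346)) (XT.nd (nat_lit 78) (nat_lit 0) (nat_lit 0) (XT.lf (nat_lit 0) (nat_lit 534214600097) (nat_lit 152) (nat_lit 237193263487) (nat_lit 0) (nat_lit 533906541760) (nat_lit 1) (nat_lit 5) (nat_lit 3) (nat_lit 4) (nat_lit 1) (nat_lit 4) (nat_lit 498) (nat_lit 357) (nat_lit 345)) (XT.lf (nat_lit 0) (nat_lit 579278882050) (nat_lit 152) (nat_lit 251386446486) (nat_lit 0) (nat_lit 578955793029) (nat_lit 1) (nat_lit 5) (nat_lit 3) (nat_lit 4) (nat_lit 1) (nat_lit 4) (nat_lit 499) (nat_lit 357) (nat_lit 344)))) (XT.nd (nat_lit 61308) (nat_lit 0) (nat_lit 0) (XT.nd (nat_lit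 61230) (nat_lit 0) (nat_lit 0) (XT.lf (nat_lit 0) (nat_lit 627872290988) (nat_lit 152) (nat_lit 266868601381) (nat_lit 0) (nat_lit 627535284666) (nat_lit 1) (nat_lit 5) (nat_lit 3) (nat_lit 4) (nat_lit 1) (nat_lit 4) (nat_lit 500) (nat_lit 357) (nat_lit 343)) (XT.lf (nat_lit 0) (nat_lit 77003493047) (nat_lit 152) (nat_lit 68903837147) (nat_lit 0) (nat_lit 77003493047) (nat_lit 1) (nat_lit 5) (nat_lit 3) (nat_lit 4) (nat_lit 1) (nat_lit 4) (nat_lit 484) (nat_lit 358) (nat_lit 358))) (XT.nd (nat_lit 78) (nat_lit 0) (nat_lit 0) (XT.lf (nat_lit 0) (nat_lit 170523426640) (nat_lit 152) (nat_lit 140269335672) (nat_lit 0) (nat_lit 170482548834) (nat_lit 1) (nat_lit 5) (nat_lit 3) (nat_lit 4) (nat_lit 1) (nat_lit 4) (nat_lit 485) (nat_lit 358) (nat_lit 357)) (XT.lf (nat_lit 0) (nat_lit 188154448681) (nat_lit 152) (nat_lit 143345439132) (nat_lit 0) (nat_lit 188075721054) (nat_lit 1) (nat_lit 5) (nat_lit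 3) (nat_lit 4) (nat_lit 1) (nat_lit 4) (nat_lit 486) (nat_lit 358) (nat_lit 356)))))) (XT.nd (nat_lit 468) (nat_lit 0) (nat_lit 0) (XT.nd (nat_lit 234) (nat_lit 0) (nat_lit 0) (XT.nd (nat_lit 78) (nat_lit 0) (nat_lit 0) (XT.lf (nat_lit 0) (nat_lit 207004532346) (nat_lit 152) (nat_lit 147054213437) (nat_lit 0) (nat_lit 206890758589) (nat_lit 1) (nat_lit 5) (nat_lit 3) (nat_lit 4) (nat_lit 1) (nat_lit 4) (nat_lit 487) (nat_lit 358) (nat_lit 355)) (XT.nd (nat_lit 78) (nat_lit 0) (nat_lit 0) (XT.lf (nat_lit 0) (nat_lit 227185381836) (nat_lit 152) (nat_lit 151417636509) (nat_lit 0) (nat_lit 227039157959) (nat_lit 1) (nat_lit 5) (nat_lit 3) (nat_lit 4) (nat_lit 1) (nat_lit 4) (nat_lit 488) (nat_lit 358) (nat_lit 354)) (XT.lf (nat_lit 0) (nat_lit 248816587369) (nat_lit 152) (nat_lit 156461565670) (nat_lit 0) (nat_lit 248640317084) (nat_lit 1) (nat_lit 5) (nat_lit 3) (nat_lit 4) (nat_lit 1) (nat_lit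 4) (nat_lit 489) (nat_lit 358) (nat_lit 353)))) (XT.nd (nat_lit 78) (nat_lit 0) (nat_lit 0) (XT.lf (nat_lit 0) (nat_lit 272026333868) (nat_lit 152) (nat_lit 162215890870) (nat_lit 0) (nat_lit 271822242834) (nat_lit 1) (nat_lit 5) (nat_lit 3) (nat_lit 4) (nat_lit 1) (nat_lit 4) (nat_lit 490) (nat_lit 358) (nat_lit 352)) (XT.nd (nat_lit 78) (nat_lit 0) (nat_lit 0) (XT.lf (nat_lit 0) (nat_lit 296952160570) (nat_lit 152) (nat_lit 168714711813) (nat_lit 0) (nat_lit 296722309585) (nat_lit 1) (nat_lit 5) (nat_lit 3) (nat_lit 4) (nat_lit 1) (nat_lit 4) (nat_lit 491) (nat_lit 358) (nat_lit 351)) (XT.lf (nat_lit 0) (nat_lit 323741776079) (nat_lit 152) (nat_lit 175996540033) (nat_lit 0) (nat_lit 323488073286) (nat_lit 1) (nat_lit 5) (nat_lit 3) (nat_lit 4) (nat_lit 1) (nat_lit 4) (nat_lit 492) (nat_lit 358) (nat_lit 350))))) (XT.nd (nat_lit 234) (nat_lit 0) (nat_lit 0) (XT.nd (nat_lit 78) (nat_lit 0)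 (nat_lit 0) (XT.lf (nat_lit 0) (nat_lit 352553933671) (nat_lit 152) (nat_lit 184104527102) (nat_lit 0) (nat_lit 352278145871) (nat_lit 1) (nat_lit 5) (nat_lit 3) (nat_lit 4) (nat_lit 1) (nat_lit 4) (nat_lit 493) (nat_lit 358) (nat_lit 349)) (XT.nd (nat_lit 78) (nat_lit 0) (nat_lit 0) (XT.lf (nat_lit 0) (nat_lit 383559372058) (nat_lit 152) (nat_lit 193086720352) (nat_lit 0) (nat_lit 383263135178) (nat_lit 1) (nat_lit 5) (nat_lit 3) (nat_lit 4) (nat_lit 1) (nat_lit 4) (nat_lit 494) (nat_lit 358) (nat_lit 348)) (XT.lf (nat_lit 0) (nat_lit 416941827171) (nat_lit 152) (nat_lit 202996347595) (nat_lit 0) (nat_lit 416626655958) (nat_lit 1) (nat_lit 5) (nat_lit 3) (nat_lit 4) (nat_lit 1) (nat_lit 4) (nat_lit 495) (nat_lit 358) (nat_lit 347)))) (XT.nd (nat_lit 156) (nat_lit 0) (nat_lit 0) (XT.nd (nat_lit 78) (nat_lit 0) (nat_lit 0) (XT.lf (nat_lit 0) (nat_lit 452899120967) (nat_lit 152) (nat_lit 213892132548)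 (nat_lit 0) (nat_lit 452566417964) (nat_lit 1) (nat_lit 5) (nat_lit 3) (nat_lit 4) (nat_lit 1) (nat_lit 4) (nat_lit 496) (nat_lit 358) (nat_lit 346)) (XT.lf (nat_lit 0) (nat_lit 491644333705) (nat_lit 152) (nat_lit 225838642826) (nat_lit 0) (nat_lit 491295397562) (nat_lit 1) (nat_lit 5) (nat_lit 3) (nat_lit 4) (nat_lit 1) (nat_lit 4) (nat_lit 497) (nat_lit 358) (nat_lit 345))) (XT.nd (nat_lit 78) (nat_lit 0) (nat_lit 0) (XT.lf (nat_lit 0) (nat_lit 533407066646) (nat_lit 152) (nat_lit 238906672562) (nat_lit 0) (nat_lit 533043099819) (nat_lit 1) (nat_lit 5) (nat_lit 3) (nat_lit 4) (nat_lit 1) (nat_lit 4) (nat_lit 498) (nat_lit 358) (nat_lit 344)) (XT.lf (nat_lit 0) (nat_lit 578434802652) (nat_lit 152) (nat_lit 253173661935) (nat_lit 0) (nat_lit 578056918524) (nat_lit 1) (nat_lit 5) (nat_lit 3) (nat_lit 4) (nat_lit 1) (nat_lit 4) (nat_lit 499) (nat_lit 358) (nat_lit 343))))))) (XT.nd (nat_lit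 62010) (nat_lit 0) (nat_lit 0) (XT.nd (nat_lit 61464) (nat_lit 0) (nat_lit 0) (XT.nd (nat_lit 61230) (nat_lit 0) (nat_lit 0) (XT.nd (nat_lit 61074) (nat_lit 0) (nat_lit 0) (XT.lf (nat_lit 0) (nat_lit 626994372750) (nat_lit 152) (nat_lit 268724156064) (nat_lit 0) (nat_lit 626603602232) (nat_lit 1) (nat_lit 5) (nat_lit 3) (nat_lit 4) (nat_lit 1) (nat_lit 4) (nat_lit 500) (nat_lit 358) (nat_lit 342)) (XT.nd (nat_lit 78) (nat_lit 0) (nat_lit 0) (XT.lf (nat_lit 0) (nat_lit 62046225776) (nat_lit 152) (nat_lit 67219377847) (nat_lit 0) (nat_lit 62046225776) (nat_lit 1) (nat_lit 5) (nat_lit 3) (nat_lit 4) (nat_lit 1) (nat_lit 4) (nat_lit 482) (nat_lit 359) (nat_lit 359)) (XT.lf (nat_lit 0) (nat_lit 138551399869) (nat_lit 152) (nat_lit 135945867378) (nat_lit 0) (nat_lit 138507251838) (nat_lit 1) (nat_lit 5) (nat_lit 3) (nat_lit 4) (nat_lit 1) (nat_lit 4) (nat_lit 483) (nat_lit 359) (nat_lit 358))))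 (XT.nd (nat_lit 78) (nat_lit 0) (nat_lit 0) (XT.lf (nat_lit 0) (nat_lit 153943791600) (nat_lit 152) (nat_lit 138024457904) (nat_lit 0) (nat_lit 153858765764) (nat_lit 1) (nat_lit 5) (nat_lit 3) (nat_lit 4) (nat_lit 1) (nat_lit 4) (nat_lit 484) (nat_lit 359) (nat_lit 357)) (XT.nd (nat_lit 78) (nat_lit 0) (nat_lit 0) (XT.lf (nat_lit 0) (nat_lit 170360840921) (nat_lit 152) (nat_lit 140686844845) (nat_lit 0) (nat_lit 170237965264) (nat_lit 1) (nat_lit 5) (nat_lit 3) (nat_lit 4) (nat_lit 1) (nat_lit 4) (nat_lit 485) (nat_lit 359) (nat_lit 356)) (XT.lf (nat_lit 0) (nat_lit 187899834049) (nat_lit 152) (nat_lit 143948805309) (nat_lit 0) (nat_lit 187741912262) (nat_lit 1) (nat_lit 5) (nat_lit 3) (nat_lit 4) (nat_lit 1) (nat_lit 4) (nat_lit 486) (nat_lit 359) (nat_lit 355))))) (XT.nd (nat_lit 234) (nat_lit 0) (nat_lit 0) (XT.nd (nat_lit 78) (nat_lit 0) (nat_lit 0) (XT.lf (nat_lit 0) (nat_lit 206664705759)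 (nat_lit 152) (nat_lit 147829669433) (nat_lit 0) (nat_lit 206474333850) (nat_lit 1) (nat_lit 5) (nat_lit 3) (nat_lit 4) (nat_lit 1) (nat_lit 4) (nat_lit 487) (nat_lit 359) (nat_lit 354)) (XT.nd (nat_lit 78) (nat_lit 0) (nat_lit 0) (XT.lf (nat_lit 0) (nat_lit 226766655289) (nat_lit 152) (nat_lit 152352434930) (nat_lit 0) (nat_lit 226546236973) (nat_lit 1) (nat_lit 5) (nat_lit 3) (nat_lit 4) (nat_lit 1) (nat_lit 4) (nat_lit 488) (nat_lit 359) (nat_lit 353)) (XT.lf (nat_lit 0) (nat_lit 248324805304) (nat_lit 152) (nat_lit 157543903372) (nat_lit 0) (nat_lit 248076566240) (nat_lit 1) (nat_lit 5) (nat_lit 3) (nat_lit 4) (nat_lit 1) (nat_lit 4) (nat_lit 489) (nat_lit 359) (nat_lit 352)))) (XT.nd (nat_lit 156) (nat_lit 0) (nat_lit 0) (XT.nd (nat_lit 78) (nat_lit 0) (nat_lit 0) (XT.lf (nat_lit 0) (nat_lit 271466907805) (nat_lit 152) (nat_lit 163434839018) (nat_lit 0) (nat_lit 271192908788) (nat_lit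 1) (nat_lit 5) (nat_lit 3) (nat_lit 4) (nat_lit 1) (nat_lit 4) (nat_lit 490) (nat_lit 359) (nat_lit 351)) (XT.lf (nat_lit 0) (nat_lit 296330101175) (nat_lit 152) (nat_lit 170060151115) (nat_lit 0) (nat_lit 296032250352) (nat_lit 1) (nat_lit 5) (nat_lit 3) (nat_lit 4) (nat_lit 1) (nat_lit 4) (nat_lit 491) (nat_lit 359) (nat_lit 350))) (XT.nd (nat_lit 78) (nat_lit 0) (nat_lit 0) (XT.lf (nat_lit 0) (nat_lit 323061722858) (nat_lit 152) (nat_lit 177459100773) (nat_lit 0) (nat_lit 322741787028) (nat_lit 1) (nat_lit 5) (nat_lit 3) (nat_lit 4) (nat_lit 1) (nat_lit 4) (nat_lit 492) (nat_lit 359) (nat_lit 349)) (XT.lf (nat_lit 0) (nat_lit 351820182463) (nat_lit 152) (nat_lit 185675533619) (nat_lit 0) (nat_lit 351479797553) (nat_lit 1) (nat_lit 5) (nat_lit 3) (nat_lit 4) (nat_lit 1) (nat_lit 4) (nat_lit 493) (nat_lit 359) (nat_lit 348)))))) (XT.nd (nat_lit 61386) (nat_lit 0) (nat_lit 0) (XT.nd (nat_lit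 234) (nat_lit 0) (nat_lit 0) (XT.nd (nat_lit 78) (nat_lit 0) (nat_lit 0) (XT.lf (nat_lit 0) (nat_lit 382775900493) (nat_lit 152) (nat_lit 194758139626) (nat_lit 0) (nat_lit 382416581248) (nat_lit 1) (nat_lit 5) (nat_lit 3) (nat_lit 4) (nat_lit 1) (nat_lit 4) (nat_lit 494) (nat_lit 359) (nat_lit 347)) (XT.nd (nat_lit 78) (nat_lit 0) (nat_lit 0) (XT.lf (nat_lit 0) (nat_lit 416112318238) (nat_lit 152) (nat_lit 204760741643) (nat_lit 0) (nat_lit 415735467203) (nat_lit 1) (nat_lit 5) (nat_lit 3) (nat_lit 4) (nat_lit 1) (nat_lit 4) (nat_lit 495) (nat_lit 359) (nat_lit 346)) (XT.lf (nat_lit 0) (nat_lit 452026984841) (nat_lit 152) (nat_lit 215742614350) (nat_lit 0) (nat_lit 451633900667) (nat_lit 1) (nat_lit 5) (nat_lit 3) (nat_lit 4) (nat_lit 1) (nat_lit 4) (nat_lit 496) (nat_lit 359) (nat_lit 345)))) (XT.nd (nat_lit 156) (nat_lit 0) (nat_lit 0) (XT.nd (nat_lit 78) (nat_lit 0) (nat_lit 0) (XT.lf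 (nat_lit 0) (nat_lit 490732727955) (nat_lit 152) (nat_lit 227768835511) (nat_lit 0) (nat_lit 490324613097) (nat_lit 1) (nat_lit 5) (nat_lit 3) (nat_lit 4) (nat_lit 1) (nat_lit 4) (nat_lit 497) (nat_lit 359) (nat_lit 344)) (XT.lf (nat_lit 0) (nat_lit 532458914949) (nat_lit 152) (nat_lit 240910671621) (nat_lit 0) (nat_lit 532036882790) (nat_lit 1) (nat_lit 5) (nat_lit 3) (nat_lit 4) (nat_lit 1) (nat_lit 4) (nat_lit 498) (nat_lit 359) (nat_lit 343))) (XT.nd (nat_lit 78) (nat_lit 0) (nat_lit 0) (XT.lf (nat_lit 0) (nat_lit 577452812114) (nat_lit 152) (nat_lit 255246000227) (nat_lit 0) (nat_lit 577017893566) (nat_lit 1) (nat_lit 5) (nat_lit 3) (nat_lit 4) (nat_lit 1) (nat_lit 4) (nat_lit 499) (nat_lit 359) (nat_lit 342)) (XT.lf (nat_lit 0) (nat_lit 625981049953) (nat_lit 152) (nat_lit 270859771426) (nat_lit 0) (nat_lit 625534199563) (nat_lit 1) (nat_lit 5) (nat_lit 3) (nat_lit 4) (nat_lit 1) (nat_lit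 4) (nat_lit 500) (nat_lit 359) (nat_lit 341))))) (XT.nd (nat_lit 234) (nat_lit 0) (nat_lit 0) (XT.nd (nat_lit 78) (nat_lit 0) (nat_lit 0) (XT.lf (nat_lit 0) (nat_lit 48905031251) (nat_lit 152) (nat_lit 66426860970) (nat_lit 0) (nat_lit 48905031251) (nat_lit 1) (nat_lit 5) (nat_lit 3) (nat_lit 4) (nat_lit 1) (nat_lit 4) (nat_lit 480) (nat_lit 360) (nat_lit 360)) (XT.nd (nat_lit 78) (nat_lit 0) (nat_lit 0) (XT.lf (nat_lit 0) (nat_lit 110528943869) (nat_lit 152) (nat_lit 133494191821) (nat_lit 0) (nat_lit 110481263996) (nat_lit 1) (nat_lit 5) (nat_lit 3) (nat_lit 4) (nat_lit 1) (nat_lit 4) (nat_lit 481) (nat_lit 360) (nat_lit 359)) (XT.lf (nat_lit 0) (nat_lit 124024201500) (nat_lit 152) (nat_lit 134672881993) (nat_lit 0) (nat_lit 123932373596) (nat_lit 1) (nat_lit 5) (nat_lit 3) (nat_lit 4) (nat_lit 1) (nat_lit 4) (nat_lit 482) (nat_lit 360) (nat_lit 358)))) (XT.nd (nat_lit 156) (nat_lit 0) (nat_lit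 0) (XT.nd (nat_lit 78) (nat_lit 0) (nat_lit 0) (XT.lf (nat_lit 0) (nat_lit 138375807292) (nat_lit 152) (nat_lit 136396777286) (nat_lit 0) (nat_lit 138243101582) (nat_lit 1) (nat_lit 5) (nat_lit 3) (nat_lit 4) (nat_lit 1) (nat_lit 4) (nat_lit 483) (nat_lit 360) (nat_lit 357)) (XT.lf (nat_lit 0) (nat_lit 153668807798) (nat_lit 152) (nat_lit 138676093375) (nat_lit 0) (nat_lit 153498252268) (nat_lit 1) (nat_lit 5) (nat_lit 3) (nat_lit 4) (nat_lit 1) (nat_lit 4) (nat_lit 484) (nat_lit 360) (nat_lit 356))) (XT.nd (nat_lit 78) (nat_lit 0) (nat_lit 0) (XT.lf (nat_lit 0) (nat_lit 169993828206) (nat_lit 152) (nat_lit 141524337320) (nat_lit 0) (nat_lit 169788226546) (nat_lit 1) (nat_lit 5) (nat_lit 3) (nat_lit 4) (nat_lit 1) (nat_lit 4) (nat_lit 485) (nat_lit 360) (nat_lit 355)) (XT.lf (nat_lit 0) (nat_lit 187447609378) (nat_lit 152) (nat_lit 144958387603) (nat_lit 0) (nat_lit 187209557597) (nat_lit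 1) (nat_lit 5) (nat_lit 3) (nat_lit 4) (nat_lit 1) (nat_lit 4) (nat_lit 486) (nat_lit 360) (nat_lit 354))))))))
noncomputable def xc2 : XT := (XT.nd (nat_lit 62712) (nat_lit 0) (nat_lit 0) (XT.nd (nat_lit 1014) (nat_lit 0) (nat_lit 0) (XT.nd (nat_lit 468) (nat_lit 0) (nat_lit 0) (XT.nd (nat_lit 234) (nat_lit 0) (nat_lit 0) (XT.nd (nat_lit 78) (nat_lit 0) (nat_lit 0) (XT.lf (nat_lit 0) (nat_lit 206133581128) (nat_lit 152) (nat_lit 148998594151) (nat_lit 0) (nat_lit 205865482939) (nat_lit 1) (nat_lit 5) (nat_lit 3) (nat_lit 4) (nat_lit 1) (nat_lit 4) (nat_lit 487) (nat_lit 360) (nat_lit 353)) (XT.nd (nat_lit 78) (nat_lit 0) (nat_lit 0) (XT.lf (nat_lit 0) (nat_lit 226162475140) (nat_lit 152) (nat_lit 153668898929) (nat_lit 0) (nat_lit 225866556203) (nat_lit 1) (nat_lit 5) (nat_lit 3) (nat_lit 4) (nat_lit 1) (nat_lit 4) (nat_lit 488) (nat_lit 360) (nat_lit 352)) (XT.lf (nat_lit 0) (nat_lit 247652981158)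 (nat_lit 152) (nat_lit 158996977818) (nat_lit 0) (nat_lit 247331302268) (nat_lit 1) (nat_lit 5) (nat_lit 3) (nat_lit 4) (nat_lit 1) (nat_lit 4) (nat_lit 489) (nat_lit 360) (nat_lit 351)))) (XT.nd (nat_lit 78) (nat_lit 0) (nat_lit 0) (XT.lf (nat_lit 0) (nat_lit 270732450326) (nat_lit 152) (nat_lit 165014404618) (nat_lit 0) (nat_lit 270386919630) (nat_lit 1) (nat_lit 5) (nat_lit 3) (nat_lit 4) (nat_lit 1) (nat_lit 4) (nat_lit 490) (nat_lit 360) (nat_lit 350)) (XT.nd (nat_lit 78) (nat_lit 0) (nat_lit 0) (XT.lf (nat_lit 0) (nat_lit 295537649871) (nat_lit 152) (nat_lit 171756838154) (nat_lit 0) (nat_lit 295170034168) (nat_lit 1) (nat_lit 5) (nat_lit 3) (nat_lit 4) (nat_lit 1) (nat_lit 4) (nat_lit 491) (nat_lit 360) (nat_lit 349)) (XT.lf (nat_lit 0) (nat_lit 322215573568) (nat_lit 152) (nat_lit 179264233589) (nat_lit 0) (nat_lit 321827508784) (nat_lit 1) (nat_lit 5) (nat_lit 3) (nat_lit 4) (nat_lit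 1) (nat_lit 4) (nat_lit 492) (nat_lit 360) (nat_lit 348))))) (XT.nd (nat_lit 234) (nat_lit 0) (nat_lit 0) (XT.nd (nat_lit 78) (nat_lit 0) (nat_lit 0) (XT.lf (nat_lit 0) (nat_lit 350924312815) (nat_lit 152) (nat_lit 187581079191) (nat_lit 0) (nat_lit 350517313698) (nat_lit 1) (nat_lit 5) (nat_lit 3) (nat_lit 4) (nat_lit 1) (nat_lit 4) (nat_lit 493) (nat_lit 360) (nat_lit 347)) (XT.nd (nat_lit 78) (nat_lit 0) (nat_lit 0) (XT.lf (nat_lit 0) (nat_lit 381833993476) (nat_lit 152) (nat_lit 196756659972) (nat_lit 0) (nat_lit 381409462568) (nat_lit 1) (nat_lit 5) (nat_lit 3) (nat_lit 4) (nat_lit 1) (nat_lit 4) (nat_lit 494) (nat_lit 360) (nat_lit 346)) (XT.lf (nat_lit 0) (nat_lit 415127784027) (nat_lit 152) (nat_lit 206845349743) (nat_lit 0) (nat_lit 414687019980) (nat_lit 1) (nat_lit 5) (nat_lit 3) (nat_lit 4) (nat_lit 1) (nat_lit 4) (nat_lit 495) (nat_lit 360) (nat_lit 345)))) (XT.nd (nat_lit 156)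 (nat_lit 0) (nat_lit 0) (XT.nd (nat_lit 78) (nat_lit 0) (nat_lit 0) (XT.lf (nat_lit 0) (nat_lit 451002981007) (nat_lit 152) (nat_lit 217906933333) (nat_lit 0) (nat_lit 450547186276) (nat_lit 1) (nat_lit 5) (nat_lit 3) (nat_lit 4) (nat_lit 1) (nat_lit 4) (nat_lit 496) (nat_lit 360) (nat_lit 344)) (XT.lf (nat_lit 0) (nat_lit 489672178175) (nat_lit 152) (nat_lit 230006960867) (nat_lit 0) (nat_lit 489202466143) (nat_lit 1) (nat_lit 5) (nat_lit 3) (nat_lit 4) (nat_lit 1) (nat_lit 4) (nat_lit 497) (nat_lit 360) (nat_lit 343))) (XT.nd (nat_lit 78) (nat_lit 0) (nat_lit 0) (XT.lf (nat_lit 0) (nat_lit 531364526328) (nat_lit 152) (nat_lit 243217136212) (nat_lit 0) (nat_lit 530881927906) (nat_lit 1) (nat_lit 5) (nat_lit 3) (nat_lit 4) (nat_lit 1) (nat_lit 4) (nat_lit 498) (nat_lit 360) (nat_lit 342)) (XT.lf (nat_lit 0) (nat_lit 576327091234) (nat_lit 152) (nat_lit 257615741887) (nat_lit 0) (nat_lit 575832560970)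 (nat_lit 1) (nat_lit 5) (nat_lit 3) (nat_lit 4) (nat_lit 1) (nat_lit 4) (nat_lit 499) (nat_lit 360) (nat_lit 341)))))) (XT.nd (nat_lit 61152) (nat_lit 0) (nat_lit 0) (XT.nd (nat_lit 60918) (nat_lit 0) (nat_lit 0) (XT.nd (nat_lit 60762) (nat_lit 0) (nat_lit 0) (XT.lf (nat_lit 0) (nat_lit 624826317721) (nat_lit 152) (nat_lit 273288102965) (nat_lit 0) (nat_lit 624320739456) (nat_lit 1) (nat_lit 5) (nat_lit 3) (nat_lit 4) (nat_lit 1) (nat_lit 4) (nat_lit 500) (nat_lit 360) (nat_lit 340)) (XT.nd (nat_lit 78) (nat_lit 0) (nat_lit 0) (XT.lf (nat_lit 0) (nat_lit 37295406498) (nat_lit 152) (nat_lit 66451171794) (nat_lit 0) (nat_lit 37295406498) (nat_lit 1) (nat_lit 5) (nat_lit 3) (nat_lit 4) (nat_lit 1) (nat_lit 4) (nat_lit 478) (nat_lit 361) (nat_lit 361)) (XT.lf (nat_lit 0) (nat_lit 85843680513) (nat_lit 152) (nat_lit 132747676972) (nat_lit 0) (nat_lit 85792186250) (nat_lit 1) (nat_lit 5) (nat_lit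 3) (nat_lit 4) (nat_lit 1) (nat_lit 4) (nat_lit 479) (nat_lit 361) (nat_lit 360)))) (XT.nd (nat_lit 78) (nat_lit 0) (nat_lit 0) (XT.lf (nat_lit 0) (nat_lit 97736352445) (nat_lit 152) (nat_lit 133106578341) (nat_lit 0) (nat_lit 97637178309) (nat_lit 1) (nat_lit 5) (nat_lit 3) (nat_lit 4) (nat_lit 1) (nat_lit 4) (nat_lit 480) (nat_lit 361) (nat_lit 359)) (XT.nd (nat_lit 78) (nat_lit 0) (nat_lit 0) (XT.lf (nat_lit 0) (nat_lit 110339303887) (nat_lit 152) (nat_lit 133981174521) (nat_lit 0) (nat_lit 110195981720) (nat_lit 1) (nat_lit 5) (nat_lit 3) (nat_lit 4) (nat_lit 1) (nat_lit 4) (nat_lit 481) (nat_lit 361) (nat_lit 358)) (XT.lf (nat_lit 0) (nat_lit 123727218994) (nat_lit 152) (nat_lit 135376648302) (nat_lit 0) (nat_lit 123543019021) (nat_lit 1) (nat_lit 5) (nat_lit 3) (nat_lit 4) (nat_lit 1) (nat_lit 4) (nat_lit 482) (nat_lit 361) (nat_lit 357))))) (XT.nd (nat_lit 234) (nat_lit 0) (nat_lit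 0) (XT.nd (nat_lit 78) (nat_lit 0) (nat_lit 0) (XT.lf (nat_lit 0) (nat_lit 137979433560) (nat_lit 152) (nat_lit 137301269159) (nat_lit 0) (nat_lit 137757383767) (nat_lit 1) (nat_lit 5) (nat_lit 3) (nat_lit 4) (nat_lit 1) (nat_lit 4) (nat_lit 483) (nat_lit 361) (nat_lit 356)) (XT.nd (nat_lit 78) (nat_lit 0) (nat_lit 0) (XT.lf (nat_lit 0) (nat_lit 153180405154) (nat_lit 152) (nat_lit 139766442253) (nat_lit 0) (nat_lit 152923309230) (nat_lit 1) (nat_lit 5) (nat_lit 3) (nat_lit 4) (nat_lit 1) (nat_lit 4) (nat_lit 484) (nat_lit 361) (nat_lit 355)) (XT.lf (nat_lit 0) (nat_lit 169420213606) (nat_lit 152) (nat_lit 142786776016) (nat_lit 0) (nat_lit 169130667561) (nat_lit 1) (nat_lit 5) (nat_lit 3) (nat_lit 4) (nat_lit 1) (nat_lit 4) (nat_lit 485) (nat_lit 361) (nat_lit 354)))) (XT.nd (nat_lit 156) (nat_lit 0) (nat_lit 0) (XT.nd (nat_lit 78) (nat_lit 0) (nat_lit 0) (XT.lf (nat_lit 0) (nat_lit 186795094818)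 (nat_lit 152) (nat_lit 146380168723) (nat_lit 0) (nat_lit 186475502366) (nat_lit 1) (nat_lit 5) (nat_lit 3) (nat_lit 4) (nat_lit 1) (nat_lit 4) (nat_lit 486) (nat_lit 361) (nat_lit 353)) (XT.lf (nat_lit 0) (nat_lit 205408011050) (nat_lit 152) (nat_lit 150567914553) (nat_lit 0) (nat_lit 205060597849) (nat_lit 1) (nat_lit 5) (nat_lit 3) (nat_lit 4) (nat_lit 1) (nat_lit 4) (nat_lit 487) (nat_lit 361) (nat_lit 352))) (XT.nd (nat_lit 78) (nat_lit 0) (nat_lit 0) (XT.lf (nat_lit 0) (nat_lit 225369261064) (nat_lit 152) (nat_lit 155374829778) (nat_lit 0) (nat_lit 224996087912) (nat_lit 1) (nat_lit 5) (nat_lit 3) (nat_lit 4) (nat_lit 1) (nat_lit 4) (nat_lit 488) (nat_lit 361) (nat_lit 351)) (XT.lf (nat_lit 0) (nat_lit 246797133749) (nat_lit 152) (nat_lit 160829399820) (nat_lit 0) (nat_lit 246400108790) (nat_lit 1) (nat_lit 5) (nat_lit 3) (nat_lit 4) (nat_lit 1) (nat_lit 4) (nat_lit 489) (nat_lit 361)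 (nat_lit 350))))))) (XT.nd (nat_lit 61542) (nat_lit 0) (nat_lit 0) (XT.nd (nat_lit 468) (nat_lit 0) (nat_lit 0) (XT.nd (nat_lit 234) (nat_lit 0) (nat_lit 0) (XT.nd (nat_lit 78) (nat_lit 0) (nat_lit 0) (XT.lf (nat_lit 0) (nat_lit 269818609093) (nat_lit 152) (nat_lit 166963948058) (nat_lit 0) (nat_lit 269399499126) (nat_lit 1) (nat_lit 5) (nat_lit 3) (nat_lit 4) (nat_lit 1) (nat_lit 4) (nat_lit 490) (nat_lit 361) (nat_lit 349)) (XT.nd (nat_lit 78) (nat_lit 0) (nat_lit 0) (XT.lf (nat_lit 0) (nat_lit 294570110651) (nat_lit 152) (nat_lit 173814827371) (nat_lit 0) (nat_lit 294130551604) (nat_lit 1) (nat_lit 5) (nat_lit 3) (nat_lit 4) (nat_lit 1) (nat_lit 4) (nat_lit 491) (nat_lit 361) (nat_lit 348)) (XT.lf (nat_lit 0) (nat_lit 321198313989) (nat_lit 152) (nat_lit 181422635562) (nat_lit 0) (nat_lit 320739820609) (nat_lit 1) (nat_lit 5) (nat_lit 3) (nat_lit 4) (nat_lit 1) (nat_lit 4) (nat_lit 492)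 (nat_lit 361) (nat_lit 347)))) (XT.nd (nat_lit 78) (nat_lit 0) (nat_lit 0) (XT.lf (nat_lit 0) (nat_lit 349861015868) (nat_lit 152) (nat_lit 189832455939) (nat_lit 0) (nat_lit 349384990697) (nat_lit 1) (nat_lit 5) (nat_lit 3) (nat_lit 4) (nat_lit 1) (nat_lit 4) (nat_lit 493) (nat_lit 361) (nat_lit 346)) (XT.nd (nat_lit 78) (nat_lit 0) (nat_lit 0) (XT.lf (nat_lit 0) (nat_lit 380728069336) (nat_lit 152) (nat_lit 199094124473) (nat_lit 0) (nat_lit 380235811026) (nat_lit 1) (nat_lit 5) (nat_lit 3) (nat_lit 4) (nat_lit 1) (nat_lit 4) (nat_lit 494) (nat_lit 361) (nat_lit 345)) (XT.lf (nat_lit 0) (nat_lit 413982390264) (nat_lit 152) (nat_lit 209262525128) (nat_lit 0) (nat_lit 413475101270) (nat_lit 1) (nat_lit 5) (nat_lit 3) (nat_lit 4) (nat_lit 1) (nat_lit 4) (nat_lit 495) (nat_lit 361) (nat_lit 344))))) (XT.nd (nat_lit 234) (nat_lit 0) (nat_lit 0) (XT.nd (nat_lit 78) (nat_lit 0) (nat_lit 0) (XT.lf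 (nat_lit 0) (nat_lit 449821041297) (nat_lit 152) (nat_lit 220397915091) (nat_lit 0) (nat_lit 449299835001) (nat_lit 1) (nat_lit 5) (nat_lit 3) (nat_lit 4) (nat_lit 1) (nat_lit 4) (nat_lit 496) (nat_lit 361) (nat_lit 343)) (XT.nd (nat_lit 78) (nat_lit 0) (nat_lit 0) (XT.lf (nat_lit 0) (nat_lit 488456399624) (nat_lit 152) (nat_lit 232566281860) (nat_lit 0) (nat_lit 487922306939) (nat_lit 1) (nat_lit 5) (nat_lit 3) (nat_lit 4) (nat_lit 1) (nat_lit 4) (nat_lit 497) (nat_lit 361) (nat_lit 342)) (XT.lf (nat_lit 0) (nat_lit 530117415517) (nat_lit 152) (nat_lit 245839734273) (nat_lit 0) (nat_lit 529571390991) (nat_lit 1) (nat_lit 5) (nat_lit 3) (nat_lit 4) (nat_lit 1) (nat_lit 4) (nat_lit 498) (nat_lit 361) (nat_lit 341)))) (XT.nd (nat_lit 60684) (nat_lit 0) (nat_lit 0) (XT.nd (nat_lit 78) (nat_lit 0) (nat_lit 0) (XT.lf (nat_lit 0) (nat_lit 575050969072) (nat_lit 152) (nat_lit 260296929828) (nat_lit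 0) (nat_lit 574493896544) (nat_lit 1) (nat_lit 5) (nat_lit 3) (nat_lit 4) (nat_lit 1) (nat_lit 4) (nat_lit 499) (nat_lit 361) (nat_lit 340)) (XT.lf (nat_lit 0) (nat_lit 623523333197) (nat_lit 152) (nat_lit 276023540793) (nat_lit 0) (nat_lit 622956031037) (nat_lit 1) (nat_lit 5) (nat_lit 3) (nat_lit 4) (nat_lit 1) (nat_lit 4) (nat_lit 500) (nat_lit 361) (nat_lit 339))) (XT.nd (nat_lit 78) (nat_lit 0) (nat_lit 0) (XT.lf (nat_lit 0) (nat_lit 26971402484) (nat_lit 152) (nat_lit 67232082021) (nat_lit 0) (nat_lit 26971402484) (nat_lit 1) (nat_lit 5) (nat_lit 3) (nat_lit 4) (nat_lit 1) (nat_lit 4) (nat_lit 476) (nat_lit 362) (nat_lit 362)) (XT.lf (nat_lit 0) (nat_lit 63966680041) (nat_lit 152) (nat_lit 133571494734) (nat_lit 0) (nat_lit 63911066237) (nat_lit 1) (nat_lit 5) (nat_lit 3) (nat_lit 4) (nat_lit 1) (nat_lit 4) (nat_lit 477) (nat_lit 362) (nat_lit 361)))))) (XT.nd (nat_lit 546) (nat_lit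 0) (nat_lit 0) (XT.nd (nat_lit 234) (nat_lit 0) (nat_lit 0) (XT.nd (nat_lit 78) (nat_lit 0) (nat_lit 0) (XT.lf (nat_lit 0) (nat_lit 74511206135) (nat_lit 152) (nat_lit 133175428502) (nat_lit 0) (nat_lit 74404098068) (nat_lit 1) (nat_lit 5) (nat_lit 3) (nat_lit 4) (nat_lit 1) (nat_lit 4) (nat_lit 478) (nat_lit 362) (nat_lit 360)) (XT.nd (nat_lit 78) (nat_lit 0) (nat_lit 0) (XT.lf (nat_lit 0) (nat_lit 85638869332) (nat_lit 152) (nat_lit 133273618287) (nat_lit 0) (nat_lit 85484081391) (nat_lit 1) (nat_lit 5) (nat_lit 3) (nat_lit 4) (nat_lit 1) (nat_lit 4) (nat_lit 479) (nat_lit 362) (nat_lit 359)) (XT.lf (nat_lit 0) (nat_lit 97415611338) (nat_lit 152) (nat_lit 133866645955) (nat_lit 0) (nat_lit 97216675367) (nat_lit 1) (nat_lit 5) (nat_lit 3) (nat_lit 4) (nat_lit 1) (nat_lit 4) (nat_lit 480) (nat_lit 362) (nat_lit 358)))) (XT.nd (nat_lit 156) (nat_lit 0) (nat_lit 0) (XT.nd (nat_lit 78) (nat_lit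 0) (nat_lit 0) (XT.lf (nat_lit 0) (nat_lit 109911220256) (nat_lit 152) (nat_lit 134958025744) (nat_lit 0) (nat_lit 109671406479) (nat_lit 1) (nat_lit 5) (nat_lit 3) (nat_lit 4) (nat_lit 1) (nat_lit 4) (nat_lit 481) (nat_lit 362) (nat_lit 357)) (XT.lf (nat_lit 0) (nat_lit 123199744138) (nat_lit 152) (nat_lit 136554225089) (nat_lit 0) (nat_lit 122922080540) (nat_lit 1) (nat_lit 5) (nat_lit 3) (nat_lit 4) (nat_lit 1) (nat_lit 4) (nat_lit 482) (nat_lit 362) (nat_lit 356))) (XT.nd (nat_lit 78) (nat_lit 0) (nat_lit 0) (XT.lf (nat_lit 0) (nat_lit 137359929792) (nat_lit 152) (nat_lit 138664702950) (nat_lit 0) (nat_lit 137047220064) (nat_lit 1) (nat_lit 5) (nat_lit 3) (nat_lit 4) (nat_lit 1) (nat_lit 4) (nat_lit 483) (nat_lit 362) (nat_lit 355)) (XT.lf (nat_lit 0) (nat_lit 152475689429) (nat_lit 152) (nat_lit 141301965862) (nat_lit 0) (nat_lit 152130529580) (nat_lit 1) (nat_lit 5) (nat_lit 3) (nat_lit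 4) (nat_lit 1) (nat_lit 4) (nat_lit 484) (nat_lit 362) (nat_lit 354))))) (XT.nd (nat_lit 234) (nat_lit 0) (nat_lit 0) (XT.nd (nat_lit 78) (nat_lit 0) (nat_lit 0) (XT.lf (nat_lit 0) (nat_lit 168636597921) (nat_lit 152) (nat_lit 144481642050) (nat_lit 0) (nat_lit 168261391665) (nat_lit 1) (nat_lit 5) (nat_lit 3) (nat_lit 4) (nat_lit 1) (nat_lit 4) (nat_lit 485) (nat_lit 362) (nat_lit 353)) (XT.nd (nat_lit 78) (nat_lit 0) (nat_lit 0) (XT.lf (nat_lit 0) (nat_lit 185938423615) (nat_lit 152) (nat_lit 148222574039) (nat_lit 0) (nat_lit 185535396611) (nat_lit 1) (nat_lit 5) (nat_lit 3) (nat_lit 4) (nat_lit 1) (nat_lit 4) (nat_lit 486) (nat_lit 362) (nat_lit 352)) (XT.lf (nat_lit 0) (nat_lit 204483695849) (nat_lit 152) (nat_lit 152546930315) (nat_lit 0) (nat_lit 204054908893) (nat_lit 1) (nat_lit 5) (nat_lit 3) (nat_lit 4) (nat_lit 1) (nat_lit 4) (nat_lit 487) (nat_lit 362) (nat_lit 351)))) (XT.nd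 (nat_lit 156) (nat_lit 0) (nat_lit 0) (XT.nd (nat_lit 78) (nat_lit 0) (nat_lit 0) (XT.lf (nat_lit 0) (nat_lit 224382312532) (nat_lit 152) (nat_lit 157480336693) (nat_lit 0) (nat_lit 223929673768) (nat_lit 1) (nat_lit 5) (nat_lit 3) (nat_lit 4) (nat_lit 1) (nat_lit 4) (nat_lit 488) (nat_lit 362) (nat_lit 350)) (XT.lf (nat_lit 0) (nat_lit 245752191391) (nat_lit 152) (nat_lit 163052028175) (nat_lit 0) (nat_lit 245277467621) (nat_lit 1) (nat_lit 5) (nat_lit 3) (nat_lit 4) (nat_lit 1) (nat_lit 4) (nat_lit 489) (nat_lit 362) (nat_lit 349))) (XT.nd (nat_lit 78) (nat_lit 0) (nat_lit 0) (XT.lf (nat_lit 0) (nat_lit 268719968748) (nat_lit 152) (nat_lit 169295022190) (nat_lit 0) (nat_lit 268224795897) (nat_lit 1) (nat_lit 5) (nat_lit 3) (nat_lit 4) (nat_lit 1) (nat_lit 4) (nat_lit 490) (nat_lit 362) (nat_lit 348)) (XT.lf (nat_lit 0) (nat_lit 293421749948) (nat_lit 152) (nat_lit 176246314259) (nat_lit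 0) (nat_lit 292907642764) (nat_lit 1) (nat_lit 5) (nat_lit 3) (nat_lit 4) (nat_lit 1) (nat_lit 4) (nat_lit 491) (nat_lit 362) (nat_lit 347))))))))
noncomputable def xc3 : XT := (XT.nd (nat_lit 62556) (nat_lit 0) (nat_lit 0) (XT.nd (nat_lit 61464) (nat_lit 0) (nat_lit 0) (XT.nd (nat_lit 468) (nat_lit 0) (nat_lit 0) (XT.nd (nat_lit 234) (nat_lit 0) (nat_lit 0) (XT.nd (nat_lit 78) (nat_lit 0) (nat_lit 0) (XT.lf (nat_lit 0) (nat_lit 320003915918) (nat_lit 152) (nat_lit 183947097224) (nat_lit 0) (nat_lit 319472276943) (nat_lit 1) (nat_lit 5) (nat_lit 3) (nat_lit 4) (nat_lit 1) (nat_lit 4) (nat_lit 492) (nat_lit 362) (nat_lit 346)) (XT.nd (nat_lit 78) (nat_lit 0) (nat_lit 0) (XT.lf (nat_lit 0) (nat_lit 348623990604) (nat_lit 152) (nat_lit 192443005354) (nat_lit 0) (nat_lit 348076118490) (nat_lit 1) (nat_lit 5) (nat_lit 3) (nat_lit 4) (nat_lit 1) (nat_lit 4) (nat_lit 493) (nat_lit 362) (nat_lit 345))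 (XT.lf (nat_lit 0) (nat_lit 379451574448) (nat_lit 152) (nat_lit 201784384772) (nat_lit 0) (nat_lit 378888671649) (nat_lit 1) (nat_lit 5) (nat_lit 3) (nat_lit 4) (nat_lit 1) (nat_lit 4) (nat_lit 494) (nat_lit 362) (nat_lit 344)))) (XT.nd (nat_lit 78) (nat_lit 0) (nat_lit 0) (XT.lf (nat_lit 0) (nat_lit 412669349429) (nat_lit 152) (nat_lit 212026591800) (nat_lit 0) (nat_lit 412092529330) (nat_lit 1) (nat_lit 5) (nat_lit 3) (nat_lit 4) (nat_lit 1) (nat_lit 4) (nat_lit 495) (nat_lit 362) (nat_lit 343)) (XT.nd (nat_lit 78) (nat_lit 0) (nat_lit 0) (XT.lf (nat_lit 0) (nat_lit 448474161621) (nat_lit 152) (nat_lit 223230320998) (nat_lit 0) (nat_lit 447884455133) (nat_lit 1) (nat_lit 5) (nat_lit 3) (nat_lit 4) (nat_lit 1) (nat_lit 4) (nat_lit 496) (nat_lit 362) (nat_lit 342)) (XT.lf (nat_lit 0) (nat_lit 487078187689) (nat_lit 152) (nat_lit 235461964835) (nat_lit 0) (nat_lit 486476549359) (nat_lit 1)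 (nat_lit 5) (nat_lit 3) (nat_lit 4) (nat_lit 1) (nat_lit 4) (nat_lit 497) (nat_lit 362) (nat_lit 341))))) (XT.nd (nat_lit 60684) (nat_lit 0) (nat_lit 0) (XT.nd (nat_lit 78) (nat_lit 0) (nat_lit 0) (XT.lf (nat_lit 0) (nat_lit 528710192231) (nat_lit 152) (nat_lit 248794007128) (nat_lit 0) (nat_lit 528097505899) (nat_lit 1) (nat_lit 5) (nat_lit 3) (nat_lit 4) (nat_lit 1) (nat_lit 4) (nat_lit 498) (nat_lit 362) (nat_lit 340)) (XT.nd (nat_lit 60528) (nat_lit 0) (nat_lit 0) (XT.lf (nat_lit 0) (nat_lit 573616883423) (nat_lit 152) (nat_lit 263305452570) (nat_lit 0) (nat_lit 572993967460) (nat_lit 1) (nat_lit 5) (nat_lit 3) (nat_lit 4) (nat_lit 1) (nat_lit 4) (nat_lit 499) (nat_lit 362) (nat_lit 339)) (XT.lf (nat_lit 0) (nat_lit 17719961277) (nat_lit 152) (nat_lit 68722459697) (nat_lit 0) (nat_lit 17719961277) (nat_lit 1) (nat_lit 5) (nat_lit 3) (nat_lit 4) (nat_lit 1) (nat_lit 4) (nat_lit 474) (nat_lit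 363) (nat_lit 363)))) (XT.nd (nat_lit 156) (nat_lit 0) (nat_lit 0) (XT.nd (nat_lit 78) (nat_lit 0) (nat_lit 0) (XT.lf (nat_lit 0) (nat_lit 44440243086) (nat_lit 152) (nat_lit 135858726320) (nat_lit 0) (nat_lit 44380180178) (nat_lit 1) (nat_lit 5) (nat_lit 3) (nat_lit 4) (nat_lit 1) (nat_lit 4) (nat_lit 475) (nat_lit 363) (nat_lit 362)) (XT.lf (nat_lit 0) (nat_lit 53856829559) (nat_lit 152) (nat_lit 134759095750) (nat_lit 0) (nat_lit 53741152847) (nat_lit 1) (nat_lit 5) (nat_lit 3) (nat_lit 4) (nat_lit 1) (nat_lit 4) (nat_lit 476) (nat_lit 363) (nat_lit 361))) (XT.nd (nat_lit 78) (nat_lit 0) (nat_lit 0) (XT.lf (nat_lit 0) (nat_lit 63745483966) (nat_lit 152) (nat_lit 134139511355) (nat_lit 0) (nat_lit 63578312990) (nat_lit 1) (nat_lit 5) (nat_lit 3) (nat_lit 4) (nat_lit 1) (nat_lit 4) (nat_lit 477) (nat_lit 363) (nat_lit 360)) (XT.lf (nat_lit 0) (nat_lit 74164805740) (nat_lit 152) (nat_lit 133996301525)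 (nat_lit 0) (nat_lit 73949954891) (nat_lit 1) (nat_lit 5) (nat_lit 3) (nat_lit 4) (nat_lit 1) (nat_lit 4) (nat_lit 478) (nat_lit 363) (nat_lit 359)))))) (XT.nd (nat_lit 546) (nat_lit 0) (nat_lit 0) (XT.nd (nat_lit 234) (nat_lit 0) (nat_lit 0) (XT.nd (nat_lit 78) (nat_lit 0) (nat_lit 0) (XT.lf (nat_lit 0) (nat_lit 85176539011) (nat_lit 152) (nat_lit 134328617608) (nat_lit 0) (nat_lit 84917540131) (nat_lit 1) (nat_lit 5) (nat_lit 3) (nat_lit 4) (nat_lit 1) (nat_lit 4) (nat_lit 479) (nat_lit 363) (nat_lit 358)) (XT.nd (nat_lit 78) (nat_lit 0) (nat_lit 0) (XT.lf (nat_lit 0) (nat_lit 96845938494) (nat_lit 152) (nat_lit 135138428886) (nat_lit 0) (nat_lit 96546061808) (nat_lit 1) (nat_lit 5) (nat_lit 3) (nat_lit 4) (nat_lit 1) (nat_lit 4) (nat_lit 480) (nat_lit 363) (nat_lit 357)) (XT.lf (nat_lit 0) (nat_lit 109242156186) (nat_lit 152) (nat_lit 136430534239) (nat_lit 0) (nat_lit 108904429680) (nat_lit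 1) (nat_lit 5) (nat_lit 3) (nat_lit 4) (nat_lit 1) (nat_lit 4) (nat_lit 481) (nat_lit 363) (nat_lit 356)))) (XT.nd (nat_lit 156) (nat_lit 0) (nat_lit 0) (XT.nd (nat_lit 78) (nat_lit 0) (nat_lit 0) (XT.lf (nat_lit 0) (nat_lit 122438651155) (nat_lit 152) (nat_lit 138212590588) (nat_lit 0) (nat_lit 122065878518) (nat_lit 1) (nat_lit 5) (nat_lit 3) (nat_lit 4) (nat_lit 1) (nat_lit 4) (nat_lit 482) (nat_lit 363) (nat_lit 355)) (XT.lf (nat_lit 0) (nat_lit 136513624852) (nat_lit 152) (nat_lit 140495158267) (nat_lit 0) (nat_lit 136108402095) (nat_lit 1) (nat_lit 5) (nat_lit 3) (nat_lit 4) (nat_lit 1) (nat_lit 4) (nat_lit 483) (nat_lit 363) (nat_lit 354))) (XT.nd (nat_lit 78) (nat_lit 0) (nat_lit 0) (XT.lf (nat_lit 0) (nat_lit 151550484530) (nat_lit 152) (nat_lit 143291763603) (nat_lit 0) (nat_lit 151115215365) (nat_lit 1) (nat_lit 5) (nat_lit 3) (nat_lit 4) (nat_lit 1) (nat_lit 4) (nat_lit 484) (nat_lit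 363) (nat_lit 353)) (XT.lf (nat_lit 0) (nat_lit 167638337504) (nat_lit 152) (nat_lit 146618979073) (nat_lit 0) (nat_lit 167175247591) (nat_lit 1) (nat_lit 5) (nat_lit 3) (nat_lit 4) (nat_lit 1) (nat_lit 4) (nat_lit 485) (nat_lit 363) (nat_lit 352))))) (XT.nd (nat_lit 234) (nat_lit 0) (nat_lit 0) (XT.nd (nat_lit 78) (nat_lit 0) (nat_lit 0) (XT.lf (nat_lit 0) (nat_lit 184872519200) (nat_lit 152) (nat_lit 150496521508) (nat_lit 0) (nat_lit 184383669336) (nat_lit 1) (nat_lit 5) (nat_lit 3) (nat_lit 4) (nat_lit 1) (nat_lit 4) (nat_lit 486) (nat_lit 363) (nat_lit 351)) (XT.nd (nat_lit 78) (nat_lit 0) (nat_lit 0) (XT.lf (nat_lit 0) (nat_lit 203355158102) (nat_lit 152) (nat_lit 154947368938) (nat_lit 0) (nat_lit 202842456430) (nat_lit 1) (nat_lit 5) (nat_lit 3) (nat_lit 4) (nat_lit 1) (nat_lit 4) (nat_lit 487) (nat_lit 363) (nat_lit 350)) (XT.lf (nat_lit 0) (nat_lit 223195780959) (nat_lit 152) (nat_lit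 159997896755) (nat_lit 0) (nat_lit 222660994280) (nat_lit 1) (nat_lit 5) (nat_lit 3) (nat_lit 4) (nat_lit 1) (nat_lit 4) (nat_lit 488) (nat_lit 363) (nat_lit 349)))) (XT.nd (nat_lit 156) (nat_lit 0) (nat_lit 0) (XT.nd (nat_lit 78) (nat_lit 0) (nat_lit 0) (XT.lf (nat_lit 0) (nat_lit 244511961833) (nat_lit 152) (nat_lit 165678034013) (nat_lit 0) (nat_lit 243956726073) (nat_lit 1) (nat_lit 5) (nat_lit 3) (nat_lit 4) (nat_lit 1) (nat_lit 4) (nat_lit 489) (nat_lit 363) (nat_lit 348)) (XT.lf (nat_lit 0) (nat_lit 267430018831) (nat_lit 152) (nat_lit 172021440784) (nat_lit 0) (nat_lit 266855848738) (nat_lit 1) (nat_lit 5) (nat_lit 3) (nat_lit 4) (nat_lit 1) (nat_lit 4) (nat_lit 490) (nat_lit 363) (nat_lit 347))) (XT.nd (nat_lit 78) (nat_lit 0) (nat_lit 0) (XT.lf (nat_lit 0) (nat_lit 292085762663) (nat_lit 152) (nat_lit 179065707628) (nat_lit 0) (nat_lit 291494060779) (nat_lit 1) (nat_lit 5) (nat_lit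 3) (nat_lit 4) (nat_lit 1) (nat_lit 4) (nat_lit 491) (nat_lit 363) (nat_lit 346)) (XT.lf (nat_lit 0) (nat_lit 318625301440) (nat_lit 152) (nat_lit 186852578347) (nat_lit 0) (nat_lit 318017366417) (nat_lit 1) (nat_lit 5) (nat_lit 3) (nat_lit 4) (nat_lit 1) (nat_lit 4) (nat_lit 492) (nat_lit 363) (nat_lit 345))))))) (XT.nd (nat_lit 61308) (nat_lit 0) (nat_lit 0) (XT.nd (nat_lit 468) (nat_lit 0) (nat_lit 0) (XT.nd (nat_lit 234) (nat_lit 0) (nat_lit 0) (XT.nd (nat_lit 78) (nat_lit 0) (nat_lit 0) (XT.lf (nat_lit 0) (nat_lit 347205906502) (nat_lit 152) (nat_lit 195428197360) (nat_lit 0) (nat_lit 346582940795) (nat_lit 1) (nat_lit 5) (nat_lit 3) (nat_lit 4) (nat_lit 1) (nat_lit 4) (nat_lit 493) (nat_lit 363) (nat_lit 344)) (XT.nd (nat_lit 78) (nat_lit 0) (nat_lit 0) (XT.lf (nat_lit 0) (nat_lit 377996944399) (nat_lit 152) (nat_lit 204843383151) (nat_lit 0) (nat_lit 377360061391) (nat_lit 1) (nat_lit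 5) (nat_lit 3) (nat_lit 4) (nat_lit 1) (nat_lit 4) (nat_lit 494) (nat_lit 363) (nat_lit 343)) (XT.lf (nat_lit 0) (nat_lit 411180880540) (nat_lit 152) (nat_lit 215153929414) (nat_lit 0) (nat_lit 410531111143) (nat_lit 1) (nat_lit 5) (nat_lit 3) (nat_lit 4) (nat_lit 1) (nat_lit 4) (nat_lit 495) (nat_lit 363) (nat_lit 342)))) (XT.nd (nat_lit 78) (nat_lit 0) (nat_lit 0) (XT.lf (nat_lit 0) (nat_lit 446954360473) (nat_lit 152) (nat_lit 226420935681) (nat_lit 0) (nat_lit 446292659234) (nat_lit 1) (nat_lit 5) (nat_lit 3) (nat_lit 4) (nat_lit 1) (nat_lit 4) (nat_lit 496) (nat_lit 363) (nat_lit 341)) (XT.nd (nat_lit 78) (nat_lit 0) (nat_lit 0) (XT.lf (nat_lit 0) (nat_lit 485529375189) (nat_lit 152) (nat_lit 238711169397) (nat_lit 0) (nat_lit 484856625948) (nat_lit 1) (nat_lit 5) (nat_lit 3) (nat_lit 4) (nat_lit 1) (nat_lit 4) (nat_lit 497) (nat_lit 363) (nat_lit 340)) (XT.lf (nat_lit 0) (nat_lit 527134517369)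 (nat_lit 152) (nat_lit 252097461577) (nat_lit 0) (nat_lit 526451538497) (nat_lit 1) (nat_lit 5) (nat_lit 3) (nat_lit 4) (nat_lit 1) (nat_lit 4) (nat_lit 498) (nat_lit 363) (nat_lit 339))))) (XT.nd (nat_lit 60528) (nat_lit 0) (nat_lit 0) (XT.nd (nat_lit 60372) (nat_lit 0) (nat_lit 0) (XT.lf (nat_lit 0) (nat_lit 572016336003) (nat_lit 152) (nat_lit 266659138397) (nat_lit 0) (nat_lit 571323885250) (nat_lit 1) (nat_lit 5) (nat_lit 3) (nat_lit 4) (nat_lit 1) (nat_lit 4) (nat_lit 499) (nat_lit 363) (nat_lit 338)) (XT.nd (nat_lit 78) (nat_lit 0) (nat_lit 0) (XT.lf (nat_lit 0) (nat_lit 9356048056) (nat_lit 152) (nat_lit 70886761201) (nat_lit 0) (nat_lit 9356048056) (nat_lit 1) (nat_lit 5) (nat_lit 3) (nat_lit 4) (nat_lit 1) (nat_lit 4) (nat_lit 472) (nat_lit 364) (nat_lit 364)) (XT.lf (nat_lit 0) (nat_lit 26867400669) (nat_lit 152) (nat_lit 139527074637) (nat_lit 0) (nat_lit 26802532728) (nat_lit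 1) (nat_lit 5) (nat_lit 3) (nat_lit 4) (nat_lit 1) (nat_lit 4) (nat_lit 473) (nat_lit 364) (nat_lit 363)))) (XT.nd (nat_lit 156) (nat_lit 0) (nat_lit 0) (XT.nd (nat_lit 78) (nat_lit 0) (nat_lit 0) (XT.lf (nat_lit 0) (nat_lit 35347069111) (nat_lit 152) (nat_lit 137763445639) (nat_lit 0) (nat_lit 35222138261) (nat_lit 1) (nat_lit 5) (nat_lit 3) (nat_lit 4) (nat_lit 1) (nat_lit 4) (nat_lit 474) (nat_lit 364) (nat_lit 362)) (XT.lf (nat_lit 0) (nat_lit 44201351325) (nat_lit 152) (nat_lit 136472184271) (nat_lit 0) (nat_lit 44020806671) (nat_lit 1) (nat_lit 5) (nat_lit 3) (nat_lit 4) (nat_lit 1) (nat_lit 4) (nat_lit 475) (nat_lit 364) (nat_lit 361))) (XT.nd (nat_lit 78) (nat_lit 0) (nat_lit 0) (XT.lf (nat_lit 0) (nat_lit 53482717132) (nat_lit 152) (nat_lit 135645638615) (nat_lit 0) (nat_lit 53250678216) (nat_lit 1) (nat_lit 5) (nat_lit 3) (nat_lit 4) (nat_lit 1) (nat_lit 4) (nat_lit 476) (nat_lit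 364) (nat_lit 360)) (XT.lf (nat_lit 0) (nat_lit 63246167219) (nat_lit 152) (nat_lit 135278910622) (nat_lit 0) (nat_lit 62966448430) (nat_lit 1) (nat_lit 5) (nat_lit 3) (nat_lit 4) (nat_lit 1) (nat_lit 4) (nat_lit 477) (nat_lit 364) (nat_lit 359)))))) (XT.nd (nat_lit 546) (nat_lit 0) (nat_lit 0) (XT.nd (nat_lit 234) (nat_lit 0) (nat_lit 0) (XT.nd (nat_lit 78) (nat_lit 0) (nat_lit 0) (XT.lf (nat_lit 0) (nat_lit 73549559068) (nat_lit 152) (nat_lit 135369827090) (nat_lit 0) (nat_lit 73225692247) (nat_lit 1) (nat_lit 5) (nat_lit 3) (nat_lit 4) (nat_lit 1) (nat_lit 4) (nat_lit 478) (nat_lit 364) (nat_lit 358)) (XT.nd (nat_lit 78) (nat_lit 0) (nat_lit 0) (XT.lf (nat_lit 0) (nat_lit 84453949815) (nat_lit 152) (nat_lit 135918926783) (nat_lit 0) (nat_lit 84089205188) (nat_lit 1) (nat_lit 5) (nat_lit 3) (nat_lit 4) (nat_lit 1) (nat_lit 4) (nat_lit 479) (nat_lit 364) (nat_lit 357)) (XT.lf (nat_lit 0)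 (nat_lit 96023958072) (nat_lit 152) (nat_lit 136929463624) (nat_lit 0) (nat_lit 95621363625) (nat_lit 1) (nat_lit 5) (nat_lit 3) (nat_lit 4) (nat_lit 1) (nat_lit 4) (nat_lit 480) (nat_lit 364) (nat_lit 356)))) (XT.nd (nat_lit 156) (nat_lit 0) (nat_lit 0) (XT.nd (nat_lit 78) (nat_lit 0) (nat_lit 0) (XT.lf (nat_lit 0) (nat_lit 108328146851) (nat_lit 152) (nat_lit 138407425981) (nat_lit 0) (nat_lit 107890506274) (nat_lit 1) (nat_lit 5) (nat_lit 3) (nat_lit 4) (nat_lit 1) (nat_lit 4) (nat_lit 481) (nat_lit 364) (nat_lit 355)) (XT.lf (nat_lit 0) (nat_lit 121439429864) (nat_lit 152) (nat_lit 140361572148) (nat_lit 0) (nat_lit 120969339166) (nat_lit 1) (nat_lit 5) (nat_lit 3) (nat_lit 4) (nat_lit 1) (nat_lit 4) (nat_lit 482) (nat_lit 364) (nat_lit 354))) (XT.nd (nat_lit 78) (nat_lit 0) (nat_lit 0) (XT.lf (nat_lit 0) (nat_lit 135435503602) (nat_lit 152) (nat_lit 142803482252) (nat_lit 0) (nat_lit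 134935366496) (nat_lit 1) (nat_lit 5) (nat_lit 3) (nat_lit 4) (nat_lit 1) (nat_lit 4) (nat_lit 483) (nat_lit 364) (nat_lit 353)) (XT.lf (nat_lit 0) (nat_lit 150399307762) (nat_lit 152) (nat_lit 145747626870) (nat_lit 0) (nat_lit 149871349908) (nat_lit 1) (nat_lit 5) (nat_lit 3) (nat_lit 4) (nat_lit 1) (nat_lit 4) (nat_lit 484) (nat_lit 364) (nat_lit 352))))) (XT.nd (nat_lit 234) (nat_lit 0) (nat_lit 0) (XT.nd (nat_lit 78) (nat_lit 0) (nat_lit 0) (XT.lf (nat_lit 0) (nat_lit 166419516738) (nat_lit 152) (nat_lit 149211452786) (nat_lit 0) (nat_lit 165865798932) (nat_lit 1) (nat_lit 5) (nat_lit 3) (nat_lit 4) (nat_lit 1) (nat_lit 4) (nat_lit 485) (nat_lit 364) (nat_lit 351)) (XT.nd (nat_lit 78) (nat_lit 0) (nat_lit 0) (XT.lf (nat_lit 0) (nat_lit 183591065102) (nat_lit 152) (nat_lit 153215486375) (nat_lit 0) (nat_lit 183013495489) (nat_lit 1) (nat_lit 5) (nat_lit 3) (nat_lit 4) (nat_lit 1) (nat_lit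 4) (nat_lit 486) (nat_lit 364) (nat_lit 350)) (XT.lf (nat_lit 0) (nat_lit 202015710179) (nat_lit 152) (nat_lit 157783455244) (nat_lit 0) (nat_lit 201416055559) (nat_lit 1) (nat_lit 5) (nat_lit 3) (nat_lit 4) (nat_lit 1) (nat_lit 4) (nat_lit 487) (nat_lit 364) (nat_lit 349)))) (XT.nd (nat_lit 156) (nat_lit 0) (nat_lit 0) (XT.nd (nat_lit 78) (nat_lit 0) (nat_lit 0) (XT.lf (nat_lit 0) (nat_lit 221802635049) (nat_lit 152) (nat_lit 162942428837) (nat_lit 0) (nat_lit 221182531349) (nat_lit 1) (nat_lit 5) (nat_lit 3) (nat_lit 4) (nat_lit 1) (nat_lit 4) (nat_lit 488) (nat_lit 364) (nat_lit 348)) (XT.lf (nat_lit 0) (nat_lit 243069095564) (nat_lit 152) (nat_lit 168722978851) (nat_lit 0) (nat_lit 242430057530) (nat_lit 1) (nat_lit 5) (nat_lit 3) (nat_lit 4) (nat_lit 1) (nat_lit 4) (nat_lit 489) (nat_lit 364) (nat_lit 347))) (XT.nd (nat_lit 78) (nat_lit 0) (nat_lit 0) (XT.lf (nat_lit 0) (nat_lit 265941115194)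 (nat_lit 152) (nat_lit 175159360397) (nat_lit 0) (nat_lit 265284545370) (nat_lit 1) (nat_lit 5) (nat_lit 3) (nat_lit 4) (nat_lit 1) (nat_lit 4) (nat_lit 490) (nat_lit 364) (nat_lit 346)) (XT.lf (nat_lit 0) (nat_lit 290554231833) (nat_lit 152) (nat_lit 182289714994) (nat_lit 0) (nat_lit 289881428869) (nat_lit 1) (nat_lit 5) (nat_lit 3) (nat_lit 4) (nat_lit 1) (nat_lit 4) (nat_lit 491) (nat_lit 364) (nat_lit 345))))))))
noncomputable def xc4 : XT := (XT.nd (nat_lit 62166) (nat_lit 0) (nat_lit 0) (XT.nd (nat_lit 61152) (nat_lit 0) (nat_lit 0) (XT.nd (nat_lit 468) (nat_lit 0) (nat_lit 0) (XT.nd (nat_lit 234) (nat_lit 0) (nat_lit 0) (XT.nd (nat_lit 78) (nat_lit 0) (nat_lit 0) (XT.lf (nat_lit 0) (nat_lit 317054300986) (nat_lit 152) (nat_lit 190156296596) (nat_lit 0) (nat_lit 316366467338) (nat_lit 1) (nat_lit 5) (nat_lit 3) (nat_lit 4) (nat_lit 1) (nat_lit 4) (nat_lit 492) (nat_lit 364) (nat_lit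 344)) (XT.nd (nat_lit 78) (nat_lit 0) (nat_lit 0) (XT.lf (nat_lit 0) (nat_lit 345598360102) (nat_lit 152) (nat_lit 198805721983) (nat_lit 0) (nat_lit 344896609153) (nat_lit 1) (nat_lit 5) (nat_lit 3) (nat_lit 4) (nat_lit 1) (nat_lit 4) (nat_lit 493) (nat_lit 364) (nat_lit 343)) (XT.lf (nat_lit 0) (nat_lit 376355559158) (nat_lit 152) (nat_lit 208289247009) (nat_lit 0) (nat_lit 375640921820) (nat_lit 1) (nat_lit 5) (nat_lit 3) (nat_lit 4) (nat_lit 1) (nat_lit 4) (nat_lit 494) (nat_lit 364) (nat_lit 342)))) (XT.nd (nat_lit 78) (nat_lit 0) (nat_lit 0) (XT.lf (nat_lit 0) (nat_lit 409508163040) (nat_lit 152) (nat_lit 218663070340) (nat_lit 0) (nat_lit 408781593860) (nat_lit 1) (nat_lit 5) (nat_lit 3) (nat_lit 4) (nat_lit 1) (nat_lit 4) (nat_lit 495) (nat_lit 364) (nat_lit 341)) (XT.nd (nat_lit 78) (nat_lit 0) (nat_lit 0) (XT.lf (nat_lit 0) (nat_lit 445252631621) (nat_lit 152) (nat_lit 229988666486)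 (nat_lit 0) (nat_lit 444515014439) (nat_lit 1) (nat_lit 5) (nat_lit 3) (nat_lit 4) (nat_lit 1) (nat_lit 4) (nat_lit 496) (nat_lit 364) (nat_lit 340)) (XT.lf (nat_lit 0) (nat_lit 483800783975) (nat_lit 152) (nat_lit 242333150090) (nat_lit 0) (nat_lit 483052937162) (nat_lit 1) (nat_lit 5) (nat_lit 3) (nat_lit 4) (nat_lit 1) (nat_lit 4) (nat_lit 497) (nat_lit 364) (nat_lit 339))))) (XT.nd (nat_lit 60372) (nat_lit 0) (nat_lit 0) (XT.nd (nat_lit 78) (nat_lit 0) (nat_lit 0) (XT.lf (nat_lit 0) (nat_lit 525381053597) (nat_lit 152) (nat_lit 255769673648) (nat_lit 0) (nat_lit 524623734903) (nat_lit 1) (nat_lit 5) (nat_lit 3) (nat_lit 4) (nat_lit 1) (nat_lit 4) (nat_lit 498) (nat_lit 364) (nat_lit 338)) (XT.nd (nat_lit 60216) (nat_lit 0) (nat_lit 0) (XT.lf (nat_lit 0) (nat_lit 570239842085) (nat_lit 152) (nat_lit 270377861003) (nat_lit 0) (nat_lit 569473753131) (nat_lit 1) (nat_lit 5) (nat_lit 3) (nat_lit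 4) (nat_lit 1) (nat_lit 4) (nat_lit 499) (nat_lit 364) (nat_lit 337)) (XT.lf (nat_lit 0) (nat_lit 1718463552) (nat_lit 152) (nat_lit 73699767193) (nat_lit 0) (nat_lit 1718463552) (nat_lit 1) (nat_lit 5) (nat_lit 3) (nat_lit 4) (nat_lit 1) (nat_lit 4) (nat_lit 470) (nat_lit 365) (nat_lit 365)))) (XT.nd (nat_lit 156) (nat_lit 0) (nat_lit 0) (XT.nd (nat_lit 78) (nat_lit 0) (nat_lit 0) (XT.lf (nat_lit 0) (nat_lit 10902885089) (nat_lit 152) (nat_lit 144516101215) (nat_lit 0) (nat_lit 10832827712) (nat_lit 1) (nat_lit 5) (nat_lit 3) (nat_lit 4) (nat_lit 1) (nat_lit 4) (nat_lit 471) (nat_lit 365) (nat_lit 364)) (XT.lf (nat_lit 0) (nat_lit 18611814395) (nat_lit 152) (nat_lit 142117530745) (nat_lit 0) (nat_lit 18476889077) (nat_lit 1) (nat_lit 5) (nat_lit 3) (nat_lit 4) (nat_lit 1) (nat_lit 4) (nat_lit 472) (nat_lit 365) (nat_lit 363))) (XT.nd (nat_lit 78) (nat_lit 0) (nat_lit 0) (XT.lf (nat_lit 0)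 (nat_lit 26609397567) (nat_lit 152) (nat_lit 140189609224) (nat_lit 0) (nat_lit 26414409341) (nat_lit 1) (nat_lit 5) (nat_lit 3) (nat_lit 4) (nat_lit 1) (nat_lit 4) (nat_lit 473) (nat_lit 365) (nat_lit 362)) (XT.lf (nat_lit 0) (nat_lit 34943027690) (nat_lit 152) (nat_lit 138720911933) (nat_lit 0) (nat_lit 34692425660) (nat_lit 1) (nat_lit 5) (nat_lit 3) (nat_lit 4) (nat_lit 1) (nat_lit 4) (nat_lit 474) (nat_lit 365) (nat_lit 361)))))) (XT.nd (nat_lit 468) (nat_lit 0) (nat_lit 0) (XT.nd (nat_lit 234) (nat_lit 0) (nat_lit 0) (XT.nd (nat_lit 78) (nat_lit 0) (nat_lit 0) (XT.lf (nat_lit 0) (nat_lit 43662089239) (nat_lit 152) (nat_lit 137702735479) (nat_lit 0) (nat_lit 43359992946) (nat_lit 1) (nat_lit 5) (nat_lit 3) (nat_lit 4) (nat_lit 1) (nat_lit 4) (nat_lit 475) (nat_lit 365) (nat_lit 360)) (XT.nd (nat_lit 78) (nat_lit 0) (nat_lit 0) (XT.lf (nat_lit 0) (nat_lit 52818250726) (nat_lit 152) (nat_lit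 137129046225) (nat_lit 0) (nat_lit 52468474560) (nat_lit 1) (nat_lit 5) (nat_lit 3) (nat_lit 4) (nat_lit 1) (nat_lit 4) (nat_lit 476) (nat_lit 365) (nat_lit 359)) (XT.lf (nat_lit 0) (nat_lit 62465770888) (nat_lit 152) (nat_lit 136996444530) (nat_lit 0) (nat_lit 62071846691) (nat_lit 1) (nat_lit 5) (nat_lit 3) (nat_lit 4) (nat_lit 1) (nat_lit 4) (nat_lit 477) (nat_lit 365) (nat_lit 358)))) (XT.nd (nat_lit 78) (nat_lit 0) (nat_lit 0) (XT.lf (nat_lit 0) (nat_lit 72661820212) (nat_lit 152) (nat_lit 137304144607) (nat_lit 0) (nat_lit 72227018209) (nat_lit 1) (nat_lit 5) (nat_lit 3) (nat_lit 4) (nat_lit 1) (nat_lit 4) (nat_lit 478) (nat_lit 365) (nat_lit 357)) (XT.nd (nat_lit 78) (nat_lit 0) (nat_lit 0) (XT.lf (nat_lit 0) (nat_lit 83466819734) (nat_lit 152) (nat_lit 138053969864) (nat_lit 0) (nat_lit 82994167910) (nat_lit 1) (nat_lit 5) (nat_lit 3) (nat_lit 4) (nat_lit 1) (nat_lit 4) (nat_lit 479)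 (nat_lit 365) (nat_lit 356)) (XT.lf (nat_lit 0) (nat_lit 94944799078) (nat_lit 152) (nat_lit 139250363709) (nat_lit 0) (nat_lit 94437101124) (nat_lit 1) (nat_lit 5) (nat_lit 3) (nat_lit 4) (nat_lit 1) (nat_lit 4) (nat_lit 480) (nat_lit 365) (nat_lit 355))))) (XT.nd (nat_lit 234) (nat_lit 0) (nat_lit 0) (XT.nd (nat_lit 78) (nat_lit 0) (nat_lit 0) (XT.lf (nat_lit 0) (nat_lit 107163775901) (nat_lit 152) (nat_lit 140900415884) (nat_lit 0) (nat_lit 106623627827) (nat_lit 1) (nat_lit 5) (nat_lit 3) (nat_lit 4) (nat_lit 1) (nat_lit 4) (nat_lit 481) (nat_lit 365) (nat_lit 354)) (XT.nd (nat_lit 78) (nat_lit 0) (nat_lit 0) (XT.lf (nat_lit 0) (nat_lit 120196158954) (nat_lit 152) (nat_lit 143013904476) (nat_lit 0) (nat_lit 119625964472) (nat_lit 1) (nat_lit 5) (nat_lit 3) (nat_lit 4) (nat_lit 1) (nat_lit 4) (nat_lit 482) (nat_lit 365) (nat_lit 353)) (XT.lf (nat_lit 0) (nat_lit 134119177174) (nat_lit 152)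 (nat_lit 145603353862) (nat_lit 0) (nat_lit 133521161944) (nat_lit 1) (nat_lit 5) (nat_lit 3) (nat_lit 4) (nat_lit 1) (nat_lit 4) (nat_lit 483) (nat_lit 365) (nat_lit 352)))) (XT.nd (nat_lit 156) (nat_lit 0) (nat_lit 0) (XT.nd (nat_lit 78) (nat_lit 0) (nat_lit 0) (XT.lf (nat_lit 0) (nat_lit 149015337336) (nat_lit 152) (nat_lit 148684108926) (nat_lit 0) (nat_lit 148391562153) (nat_lit 1) (nat_lit 5) (nat_lit 3) (nat_lit 4) (nat_lit 1) (nat_lit 4) (nat_lit 484) (nat_lit 365) (nat_lit 351)) (XT.lf (nat_lit 0) (nat_lit 164972912980) (nat_lit 152) (nat_lit 152274425996) (nat_lit 0) (nat_lit 164325285991) (nat_lit 1) (nat_lit 5) (nat_lit 3) (nat_lit 4) (nat_lit 1) (nat_lit 4) (nat_lit 485) (nat_lit 365) (nat_lit 350))) (XT.nd (nat_lit 78) (nat_lit 0) (nat_lit 0) (XT.lf (nat_lit 0) (nat_lit 182086467519) (nat_lit 152) (nat_lit 156395581024) (nat_lit 0) (nat_lit 181416755523) (nat_lit 1) (nat_lit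 5) (nat_lit 3) (nat_lit 4) (nat_lit 1) (nat_lit 4) (nat_lit 486) (nat_lit 365) (nat_lit 349)) (XT.lf (nat_lit 0) (nat_lit 200457414609) (nat_lit 152) (nat_lit 161071995669) (nat_lit 0) (nat_lit 199767253532) (nat_lit 1) (nat_lit 5) (nat_lit 3) (nat_lit 4) (nat_lit 1) (nat_lit 4) (nat_lit 487) (nat_lit 365) (nat_lit 348))))))) (XT.nd (nat_lit 60996) (nat_lit 0) (nat_lit 0) (XT.nd (nat_lit 468) (nat_lit 0) (nat_lit 0) (XT.nd (nat_lit 234) (nat_lit 0) (nat_lit 0) (XT.nd (nat_lit 78) (nat_lit 0) (nat_lit 0) (XT.lf (nat_lit 0) (nat_lit 220194619121) (nat_lit 152) (nat_lit 166331382019) (nat_lit 0) (nat_lit 219485523711) (nat_lit 1) (nat_lit 5) (nat_lit 3) (nat_lit 4) (nat_lit 1) (nat_lit 4) (nat_lit 488) (nat_lit 365) (nat_lit 347)) (XT.nd (nat_lit 78) (nat_lit 0) (nat_lit 0) (XT.lf (nat_lit 0) (nat_lit 241415042268) (nat_lit 152) (nat_lit 172204906807) (nat_lit 0) (nat_lit 240688415067) (nat_lit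 1) (nat_lit 5) (nat_lit 3) (nat_lit 4) (nat_lit 1) (nat_lit 4) (nat_lit 489) (nat_lit 365) (nat_lit 346)) (XT.lf (nat_lit 0) (nat_lit 264244434705) (nat_lit 152) (nat_lit 178727376106) (nat_lit 0) (nat_lit 263501574365) (nat_lit 1) (nat_lit 5) (nat_lit 3) (nat_lit 4) (nat_lit 1) (nat_lit 4) (nat_lit 490) (nat_lit 365) (nat_lit 345)))) (XT.nd (nat_lit 78) (nat_lit 0) (nat_lit 0) (XT.lf (nat_lit 0) (nat_lit 288818081720) (nat_lit 152) (nat_lit 185937441587) (nat_lit 0) (nat_lit 288060190696) (nat_lit 1) (nat_lit 5) (nat_lit 3) (nat_lit 4) (nat_lit 1) (nat_lit 4) (nat_lit 491) (nat_lit 365) (nat_lit 344)) (XT.nd (nat_lit 78) (nat_lit 0) (nat_lit 0) (XT.lf (nat_lit 0) (nat_lit 315281604926) (nat_lit 152) (nat_lit 193877829562) (nat_lit 0) (nat_lit 314509796601) (nat_lit 1) (nat_lit 5) (nat_lit 3) (nat_lit 4) (nat_lit 1) (nat_lit 4) (nat_lit 492) (nat_lit 365) (nat_lit 343)) (XT.lf (nat_lit 0)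 (nat_lit 343791825201) (nat_lit 152) (nat_lit 202595594184) (nat_lit 0) (nat_lit 343007130487) (nat_lit 1) (nat_lit 5) (nat_lit 3) (nat_lit 4) (nat_lit 1) (nat_lit 4) (nat_lit 493) (nat_lit 365) (nat_lit 342))))) (XT.nd (nat_lit 234) (nat_lit 0) (nat_lit 0) (XT.nd (nat_lit 78) (nat_lit 0) (nat_lit 0) (XT.lf (nat_lit 0) (nat_lit 374517691998) (nat_lit 152) (nat_lit 212142396279) (nat_lit 0) (nat_lit 373721065442) (nat_lit 1) (nat_lit 5) (nat_lit 3) (nat_lit 4) (nat_lit 1) (nat_lit 4) (nat_lit 494) (nat_lit 365) (nat_lit 341)) (XT.nd (nat_lit 78) (nat_lit 0) (nat_lit 0) (XT.lf (nat_lit 0) (nat_lit 407641284529) (nat_lit 152) (nat_lit 222574809489) (nat_lit 0) (nat_lit 406833609970) (nat_lit 1) (nat_lit 5) (nat_lit 3) (nat_lit 4) (nat_lit 1) (nat_lit 4) (nat_lit 495) (nat_lit 365) (nat_lit 340)) (XT.lf (nat_lit 0) (nat_lit 443358890748) (nat_lit 152) (nat_lit 233954655523) (nat_lit 0) (nat_lit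 442540986558) (nat_lit 1) (nat_lit 5) (nat_lit 3) (nat_lit 4) (nat_lit 1) (nat_lit 4) (nat_lit 496) (nat_lit 365) (nat_lit 339)))) (XT.nd (nat_lit 156) (nat_lit 0) (nat_lit 0) (XT.nd (nat_lit 78) (nat_lit 0) (nat_lit 0) (XT.lf (nat_lit 0) (nat_lit 481882170544) (nat_lit 152) (nat_lit 246349370504) (nat_lit 0) (nat_lit 481054794473) (nat_lit 1) (nat_lit 5) (nat_lit 3) (nat_lit 4) (nat_lit 1) (nat_lit 4) (nat_lit 497) (nat_lit 365) (nat_lit 338)) (XT.lf (nat_lit 0) (nat_lit 523439410020) (nat_lit 152) (nat_lit 259832404597) (nat_lit 0) (nat_lit 522603263690) (nat_lit 1) (nat_lit 5) (nat_lit 3) (nat_lit 4) (nat_lit 1) (nat_lit 4) (nat_lit 498) (nat_lit 365) (nat_lit 337))) (XT.nd (nat_lit 60060) (nat_lit 0) (nat_lit 152) (XT.lf (nat_lit 0) (nat_lit 568276874299) (nat_lit 152) (nat_lit 274483657261) (nat_lit 0) (nat_lit 567432607357) (nat_lit 1) (nat_lit 5) (nat_lit 3) (nat_lit 4) (nat_lit 1)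 (nat_lit 4) (nat_lit 499) (nat_lit 365) (nat_lit 336)) (XT.lf (nat_lit 0) (nat_lit 55965745587) (nat_lit 76) (nat_lit 5247732900) (nat_lit 76) (nat_lit 5247732900) (nat_lit 3) (nat_lit 4) (nat_lit 4) (nat_lit 5) (nat_lit 4) (nat_lit 4) (nat_lit 468) (nat_lit 366) (nat_lit 366)))))) (XT.nd (nat_lit 546) (nat_lit 0) (nat_lit 0) (XT.nd (nat_lit 234) (nat_lit 0) (nat_lit 0) (XT.nd (nat_lit 78) (nat_lit 152) (nat_lit 0) (XT.lf (nat_lit 0) (nat_lit 135725427398) (nat_lit 76) (nat_lit 3771024929) (nat_lit 76) (nat_lit 3691579864) (nat_lit 3) (nat_lit 4) (nat_lit 4) (nat_lit 5) (nat_lit 4) (nat_lit 4) (nat_lit 469) (nat_lit 366) (nat_lit 365)) (XT.nd (nat_lit 78) (nat_lit 0) (nat_lit 0) (XT.lf (nat_lit 0) (nat_lit 3328622848) (nat_lit 152) (nat_lit 147771063396) (nat_lit 0) (nat_lit 3182903506) (nat_lit 1) (nat_lit 5) (nat_lit 3) (nat_lit 4) (nat_lit 1) (nat_lit 4) (nat_lit 470) (nat_lit 366) (nat_lit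 364)) (XT.lf (nat_lit 0) (nat_lit 10624241738) (nat_lit 152) (nat_lit 145231638569) (nat_lit 0) (nat_lit 10413654454) (nat_lit 1) (nat_lit 5) (nat_lit 3) (nat_lit 4) (nat_lit 1) (nat_lit 4) (nat_lit 471) (nat_lit 366) (nat_lit 363)))) (XT.nd (nat_lit 156) (nat_lit 0) (nat_lit 0) (XT.nd (nat_lit 78) (nat_lit 0) (nat_lit 0) (XT.lf (nat_lit 0) (nat_lit 18175449660) (nat_lit 152) (nat_lit 143151594343) (nat_lit 0) (nat_lit 17904799468) (nat_lit 1) (nat_lit 5) (nat_lit 3) (nat_lit 4) (nat_lit 1) (nat_lit 4) (nat_lit 472) (nat_lit 366) (nat_lit 362)) (XT.lf (nat_lit 0) (nat_lit 26026994513) (nat_lit 152) (nat_lit 141518604529) (nat_lit 0) (nat_lit 25700730517) (nat_lit 1) (nat_lit 5) (nat_lit 3) (nat_lit 4) (nat_lit 1) (nat_lit 4) (nat_lit 473) (nat_lit 366) (nat_lit 361))) (XT.nd (nat_lit 78) (nat_lit 0) (nat_lit 0) (XT.lf (nat_lit 0) (nat_lit 34225403971) (nat_lit 152) (nat_lit 140322992151) (nat_lit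 0) (nat_lit 33847645712) (nat_lit 1) (nat_lit 5) (nat_lit 3) (nat_lit 4) (nat_lit 1) (nat_lit 4) (nat_lit 474) (nat_lit 366) (nat_lit 360)) (XT.lf (nat_lit 0) (nat_lit 42819261200) (nat_lit 152) (nat_lit 139557672100) (nat_lit 0) (nat_lit 42393823068) (nat_lit 1) (nat_lit 5) (nat_lit 3) (nat_lit 4) (nat_lit 1) (nat_lit 4) (nat_lit 475) (nat_lit 366) (nat_lit 359))))) (XT.nd (nat_lit 234) (nat_lit 0) (nat_lit 0) (XT.nd (nat_lit 78) (nat_lit 0) (nat_lit 0) (XT.lf (nat_lit 0) (nat_lit 51859492762) (nat_lit 152) (nat_lit 139218109143) (nat_lit 0) (nat_lit 51389906599) (nat_lit 1) (nat_lit 5) (nat_lit 3) (nat_lit 4) (nat_lit 1) (nat_lit 4) (nat_lit 476) (nat_lit 366) (nat_lit 358)) (XT.nd (nat_lit 78) (nat_lit 0) (nat_lit 0) (XT.lf (nat_lit 0) (nat_lit 61399670400) (nat_lit 152) (nat_lit 139302291058) (nat_lit 0) (nat_lit 60889206430) (nat_lit 1) (nat_lit 5) (nat_lit 3) (nat_lit 4) (nat_lit 1)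 (nat_lit 4) (nat_lit 477) (nat_lit 366) (nat_lit 357)) (XT.lf (nat_lit 0) (nat_lit 71496328499) (nat_lit 152) (nat_lit 139810716699) (nat_lit 0) (nat_lit 70948014709) (nat_lit 1) (nat_lit 5) (nat_lit 3) (nat_lit 4) (nat_lit 1) (nat_lit 4) (nat_lit 478) (nat_lit 366) (nat_lit 356)))) (XT.nd (nat_lit 156) (nat_lit 0) (nat_lit 0) (XT.nd (nat_lit 78) (nat_lit 0) (nat_lit 0) (XT.lf (nat_lit 0) (nat_lit 82209299107) (nat_lit 152) (nat_lit 140746398960) (nat_lit 0) (nat_lit 81625939187) (nat_lit 1) (nat_lit 5) (nat_lit 3) (nat_lit 4) (nat_lit 1) (nat_lit 4) (nat_lit 479) (nat_lit 366) (nat_lit 355)) (XT.lf (nat_lit 0) (nat_lit 93602066496) (nat_lit 152) (nat_lit 142114882623) (nat_lit 0) (nat_lit 92986256455) (nat_lit 1) (nat_lit 5) (nat_lit 3) (nat_lit 4) (nat_lit 1) (nat_lit 4) (nat_lit 480) (nat_lit 366) (nat_lit 354))) (XT.nd (nat_lit 78) (nat_lit 0) (nat_lit 0) (XT.lf (nat_lit 0) (nat_lit 105742143359)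 (nat_lit 152) (nat_lit 143924277223) (nat_lit 0) (nat_lit 105096286910) (nat_lit 1) (nat_lit 5) (nat_lit 3) (nat_lit 4) (nat_lit 1) (nat_lit 4) (nat_lit 481) (nat_lit 366) (nat_lit 353)) (XT.lf (nat_lit 0) (nat_lit 118701470894) (nat_lit 152) (nat_lit 146185305097) (nat_lit 0) (nat_lit 118027793698) (nat_lit 1) (nat_lit 5) (nat_lit 3) (nat_lit 4) (nat_lit 1) (nat_lit 4) (nat_lit 482) (nat_lit 366) (nat_lit 352))))))))
noncomputable def xc5 : XT := (XT.nd (nat_lit 61932) (nat_lit 0) (nat_lit 0) (XT.nd (nat_lit 1014) (nat_lit 0) (nat_lit 0) (XT.nd (nat_lit 468) (nat_lit 0) (nat_lit 0) (XT.nd (nat_lit 234) (nat_lit 0) (nat_lit 0) (XT.nd (nat_lit 78) (nat_lit 0) (nat_lit 0) (XT.lf (nat_lit 0) (nat_lit 132556845116) (nat_lit 152) (nat_lit 148911364928) (nat_lit 0) (nat_lit 131857407967) (nat_lit 1) (nat_lit 5) (nat_lit 3) (nat_lit 4) (nat_lit 1) (nat_lit 4) (nat_lit 483) (nat_lit 366) (nat_lit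 351)) (XT.nd (nat_lit 78) (nat_lit 0) (nat_lit 0) (XT.lf (nat_lit 0) (nat_lit 147390371946) (nat_lit 152) (nat_lit 152118611147) (nat_lit 0) (nat_lit 146667082990) (nat_lit 1) (nat_lit 5) (nat_lit 3) (nat_lit 4) (nat_lit 1) (nat_lit 4) (nat_lit 484) (nat_lit 366) (nat_lit 350)) (XT.lf (nat_lit 0) (nat_lit 163289953765) (nat_lit 152) (nat_lit 155826049655) (nat_lit 0) (nat_lit 162544579802) (nat_lit 1) (nat_lit 5) (nat_lit 3) (nat_lit 4) (nat_lit 1) (nat_lit 4) (nat_lit 485) (nat_lit 366) (nat_lit 349)))) (XT.nd (nat_lit 78) (nat_lit 0) (nat_lit 0) (XT.lf (nat_lit 0) (nat_lit 180349810317) (nat_lit 152) (nat_lit 160055650460) (nat_lit 0) (nat_lit 179583987274) (nat_lit 1) (nat_lit 5) (nat_lit 3) (nat_lit 4) (nat_lit 1) (nat_lit 4) (nat_lit 486) (nat_lit 366) (nat_lit 348)) (XT.nd (nat_lit 78) (nat_lit 0) (nat_lit 0) (XT.lf (nat_lit 0) (nat_lit 198671037049) (nat_lit 152) (nat_lit 164832477861)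 (nat_lit 0) (nat_lit 197886279672) (nat_lit 1) (nat_lit 5) (nat_lit 3) (nat_lit 4) (nat_lit 1) (nat_lit 4) (nat_lit 487) (nat_lit 366) (nat_lit 347)) (XT.lf (nat_lit 0) (nat_lit 218362204193) (nat_lit 152) (nat_lit 170184838985) (nat_lit 0) (nat_lit 217559915026) (nat_lit 1) (nat_lit 5) (nat_lit 3) (nat_lit 4) (nat_lit 1) (nat_lit 4) (nat_lit 488) (nat_lit 366) (nat_lit 346))))) (XT.nd (nat_lit 234) (nat_lit 0) (nat_lit 0) (XT.nd (nat_lit 78) (nat_lit 0) (nat_lit 0) (XT.lf (nat_lit 0) (nat_lit 239540000146) (nat_lit 152) (nat_lit 176144451527) (nat_lit 0) (nat_lit 238721477840) (nat_lit 1) (nat_lit 5) (nat_lit 3) (nat_lit 4) (nat_lit 1) (nat_lit 4) (nat_lit 489) (nat_lit 366) (nat_lit 345)) (XT.nd (nat_lit 78) (nat_lit 0) (nat_lit 0) (XT.lf (nat_lit 0) (nat_lit 262329922960) (nat_lit 152) (nat_lit 182746631710) (nat_lit 0) (nat_lit 261496369969) (nat_lit 1) (nat_lit 5) (nat_lit 3) (nat_lit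 4) (nat_lit 1) (nat_lit 4) (nat_lit 490) (nat_lit 366) (nat_lit 344)) (XT.lf (nat_lit 0) (nat_lit 286867024028) (nat_lit 152) (nat_lit 190030503564) (nat_lit 0) (nat_lit 286019553737) (nat_lit 1) (nat_lit 5) (nat_lit 3) (nat_lit 4) (nat_lit 1) (nat_lit 4) (nat_lit 491) (nat_lit 366) (nat_lit 343)))) (XT.nd (nat_lit 156) (nat_lit 0) (nat_lit 0) (XT.nd (nat_lit 78) (nat_lit 0) (nat_lit 0) (XT.lf (nat_lit 0) (nat_lit 313296708394) (nat_lit 152) (nat_lit 198039230774) (nat_lit 0) (nat_lit 312436351713) (nat_lit 1) (nat_lit 5) (nat_lit 3) (nat_lit 4) (nat_lit 1) (nat_lit 4) (nat_lit 492) (nat_lit 366) (nat_lit 342)) (XT.lf (nat_lit 0) (nat_lit 341775596409) (nat_lit 152) (nat_lit 206820272464) (nat_lit 0) (nat_lit 340903307887) (nat_lit 1) (nat_lit 5) (nat_lit 3) (nat_lit 4) (nat_lit 1) (nat_lit 4) (nat_lit 493) (nat_lit 366) (nat_lit 341))) (XT.nd (nat_lit 78) (nat_lit 0) (nat_lit 0) (XT.lf (nat_lit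 0) (nat_lit 372472451855) (nat_lit 152) (nat_lit 216425664438) (nat_lit 0) (nat_lit 371589115331) (nat_lit 1) (nat_lit 5) (nat_lit 3) (nat_lit 4) (nat_lit 1) (nat_lit 4) (nat_lit 494) (nat_lit 366) (nat_lit 340)) (XT.lf (nat_lit 0) (nat_lit 405569182023) (nat_lit 152) (nat_lit 226912327536) (nat_lit 0) (nat_lit 404675615867) (nat_lit 1) (nat_lit 5) (nat_lit 3) (nat_lit 4) (nat_lit 1) (nat_lit 4) (nat_lit 495) (nat_lit 366) (nat_lit 339)))))) (XT.nd (nat_lit 60372) (nat_lit 0) (nat_lit 0) (XT.nd (nat_lit 234) (nat_lit 0) (nat_lit 0) (XT.nd (nat_lit 78) (nat_lit 0) (nat_lit 0) (XT.lf (nat_lit 0) (nat_lit 441261915684) (nat_lit 152) (nat_lit 238342404947) (nat_lit 0) (nat_lit 440358877647) (nat_lit 1) (nat_lit 5) (nat_lit 3) (nat_lit 4) (nat_lit 1) (nat_lit 4) (nat_lit 496) (nat_lit 366) (nat_lit 338)) (XT.nd (nat_lit 78) (nat_lit 0) (nat_lit 0) (XT.lf (nat_lit 0) (nat_lit 479762165334) (nat_lit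 152) (nat_lit 250783630464) (nat_lit 0) (nat_lit 478850357038) (nat_lit 1) (nat_lit 5) (nat_lit 3) (nat_lit 4) (nat_lit 1) (nat_lit 4) (nat_lit 497) (nat_lit 366) (nat_lit 337)) (XT.lf (nat_lit 0) (nat_lit 521298080601) (nat_lit 152) (nat_lit 264309729866) (nat_lit 0) (nat_lit 520378151693) (nat_lit 1) (nat_lit 5) (nat_lit 3) (nat_lit 4) (nat_lit 1) (nat_lit 4) (nat_lit 498) (nat_lit 366) (nat_lit 336)))) (XT.nd (nat_lit 59982) (nat_lit 0) (nat_lit 152) (XT.nd (nat_lit 59904) (nat_lit 0) (nat_lit 152) (XT.lf (nat_lit 0) (nat_lit 566115800242) (nat_lit 152) (nat_lit 279000857818) (nat_lit 0) (nat_lit 565188352249) (nat_lit 1) (nat_lit 5) (nat_lit 3) (nat_lit 4) (nat_lit 1) (nat_lit 4) (nat_lit 499) (nat_lit 366) (nat_lit 335)) (XT.lf (nat_lit 0) (nat_lit 33865723998) (nat_lit 76) (nat_lit 11732142591) (nat_lit 76) (nat_lit 11732142591) (nat_lit 3) (nat_lit 4) (nat_lit 4) (nat_lit 5) (nat_lit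 4) (nat_lit 4) (nat_lit 466) (nat_lit 367) (nat_lit 367))) (XT.nd (nat_lit 78) (nat_lit 0) (nat_lit 0) (XT.lf (nat_lit 0) (nat_lit 89176534120) (nat_lit 76) (nat_lit 17172223610) (nat_lit 76) (nat_lit 17086422940) (nat_lit 3) (nat_lit 4) (nat_lit 4) (nat_lit 5) (nat_lit 4) (nat_lit 4) (nat_lit 467) (nat_lit 367) (nat_lit 366)) (XT.lf (nat_lit 0) (nat_lit 111555809734) (nat_lit 76) (nat_lit 10770589951) (nat_lit 76) (nat_lit 10605344216) (nat_lit 3) (nat_lit 4) (nat_lit 4) (nat_lit 5) (nat_lit 4) (nat_lit 4) (nat_lit 468) (nat_lit 367) (nat_lit 365))))) (XT.nd (nat_lit 234) (nat_lit 0) (nat_lit 0) (XT.nd (nat_lit 78) (nat_lit 152) (nat_lit 0) (XT.lf (nat_lit 0) (nat_lit 135001892770) (nat_lit 76) (nat_lit 4221448598) (nat_lit 76) (nat_lit 3982642618) (nat_lit 3) (nat_lit 4) (nat_lit 4) (nat_lit 5) (nat_lit 4) (nat_lit 4) (nat_lit 469) (nat_lit 367) (nat_lit 364)) (XT.nd (nat_lit 78) (nat_lit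 0) (nat_lit 0) (XT.lf (nat_lit 0) (nat_lit 2857348935) (nat_lit 152) (nat_lit 148887852082) (nat_lit 0) (nat_lit 2565046727) (nat_lit 1) (nat_lit 5) (nat_lit 3) (nat_lit 4) (nat_lit 1) (nat_lit 4) (nat_lit 470) (nat_lit 367) (nat_lit 363)) (XT.lf (nat_lit 0) (nat_lit 9995246441) (nat_lit 152) (nat_lit 146666953498) (nat_lit 0) (nat_lit 9642881324) (nat_lit 1) (nat_lit 5) (nat_lit 3) (nat_lit 4) (nat_lit 1) (nat_lit 4) (nat_lit 471) (nat_lit 367) (nat_lit 362)))) (XT.nd (nat_lit 156) (nat_lit 0) (nat_lit 0) (XT.nd (nat_lit 78) (nat_lit 0) (nat_lit 0) (XT.lf (nat_lit 0) (nat_lit 17400416044) (nat_lit 152) (nat_lit 144881840979) (nat_lit 0) (nat_lit 16992437124) (nat_lit 1) (nat_lit 5) (nat_lit 3) (nat_lit 4) (nat_lit 1) (nat_lit 4) (nat_lit 472) (nat_lit 367) (nat_lit 361)) (XT.lf (nat_lit 0) (nat_lit 25116740232) (nat_lit 152) (nat_lit 143521936079) (nat_lit 0) (nat_lit 24657267049) (nat_lit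 1) (nat_lit 5) (nat_lit 3) (nat_lit 4) (nat_lit 1) (nat_lit 4) (nat_lit 473) (nat_lit 367) (nat_lit 360))) (XT.nd (nat_lit 78) (nat_lit 0) (nat_lit 0) (XT.lf (nat_lit 0) (nat_lit 33189945370) (nat_lit 152) (nat_lit 142579180104) (nat_lit 0) (nat_lit 32682792313) (nat_lit 1) (nat_lit 5) (nat_lit 3) (nat_lit 4) (nat_lit 1) (nat_lit 4) (nat_lit 474) (nat_lit 367) (nat_lit 359)) (XT.lf (nat_lit 0) (nat_lit 41667872673) (nat_lit 152) (nat_lit 142047986350) (nat_lit 0) (nat_lit 41116571586) (nat_lit 1) (nat_lit 5) (nat_lit 3) (nat_lit 4) (nat_lit 1) (nat_lit 4) (nat_lit 475) (nat_lit 367) (nat_lit 358))))))) (XT.nd (nat_lit 1014) (nat_lit 0) (nat_lit 0) (XT.nd (nat_lit 468) (nat_lit 0) (nat_lit 0) (XT.nd (nat_lit 234) (nat_lit 0) (nat_lit 0) (XT.nd (nat_lit 78) (nat_lit 0) (nat_lit 0) (XT.lf (nat_lit 0) (nat_lit 50600761712) (nat_lit 152) (nat_lit 141925207003) (nat_lit 0) (nat_lit 50008582818)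 (nat_lit 1) (nat_lit 5) (nat_lit 3) (nat_lit 4) (nat_lit 1) (nat_lit 4) (nat_lit 476) (nat_lit 367) (nat_lit 357)) (XT.nd (nat_lit 78) (nat_lit 0) (nat_lit 0) (XT.lf (nat_lit 0) (nat_lit 60041548123) (nat_lit 152) (nat_lit 142210114482) (nat_lit 0) (nat_lit 59411519409) (nat_lit 1) (nat_lit 5) (nat_lit 3) (nat_lit 4) (nat_lit 1) (nat_lit 4) (nat_lit 477) (nat_lit 367) (nat_lit 356)) (XT.lf (nat_lit 0) (nat_lit 70046177310) (nat_lit 152) (nat_lit 142904397127) (nat_lit 0) (nat_lit 69381102466) (nat_lit 1) (nat_lit 5) (nat_lit 3) (nat_lit 4) (nat_lit 1) (nat_lit 4) (nat_lit 478) (nat_lit 367) (nat_lit 355)))) (XT.nd (nat_lit 78) (nat_lit 0) (nat_lit 0) (XT.lf (nat_lit 0) (nat_lit 80673935962) (nat_lit 152) (nat_lit 144012169206) (nat_lit 0) (nat_lit 79976410997) (nat_lit 1) (nat_lit 5) (nat_lit 3) (nat_lit 4) (nat_lit 1) (nat_lit 4) (nat_lit 479) (nat_lit 367) (nat_lit 354)) (XT.nd (nat_lit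 78) (nat_lit 0) (nat_lit 0) (XT.lf (nat_lit 0) (nat_lit 91987803391) (nat_lit 152) (nat_lit 145539995294) (nat_lit 0) (nat_lit 91260232018) (nat_lit 1) (nat_lit 5) (nat_lit 3) (nat_lit 4) (nat_lit 1) (nat_lit 4) (nat_lit 480) (nat_lit 367) (nat_lit 353)) (XT.lf (nat_lit 0) (nat_lit 104054824736) (nat_lit 152) (nat_lit 147496929175) (nat_lit 0) (nat_lit 103299432616) (nat_lit 1) (nat_lit 5) (nat_lit 3) (nat_lit 4) (nat_lit 1) (nat_lit 4) (nat_lit 481) (nat_lit 367) (nat_lit 352))))) (XT.nd (nat_lit 234) (nat_lit 0) (nat_lit 0) (XT.nd (nat_lit 78) (nat_lit 0) (nat_lit 0) (XT.lf (nat_lit 0) (nat_lit 116946508273) (nat_lit 152) (nat_lit 149894567495) (nat_lit 0) (nat_lit 116165356201) (nat_lit 1) (nat_lit 5) (nat_lit 3) (nat_lit 4) (nat_lit 1) (nat_lit 4) (nat_lit 482) (nat_lit 367) (nat_lit 351)) (XT.nd (nat_lit 78) (nat_lit 0) (nat_lit 0) (XT.lf (nat_lit 0) (nat_lit 130739249164) (nat_lit 152)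 (nat_lit 152747118481) (nat_lit 0) (nat_lit 129934245284) (nat_lit 1) (nat_lit 5) (nat_lit 3) (nat_lit 4) (nat_lit 1) (nat_lit 4) (nat_lit 483) (nat_lit 367) (nat_lit 350)) (XT.lf (nat_lit 0) (nat_lit 145514782168) (nat_lit 152) (nat_lit 156071486138) (nat_lit 0) (nat_lit 144687693281) (nat_lit 1) (nat_lit 5) (nat_lit 3) (nat_lit 4) (nat_lit 1) (nat_lit 4) (nat_lit 484) (nat_lit 367) (nat_lit 349)))) (XT.nd (nat_lit 156) (nat_lit 0) (nat_lit 0) (XT.nd (nat_lit 78) (nat_lit 0) (nat_lit 0) (XT.lf (nat_lit 0) (nat_lit 161360666000) (nat_lit 152) (nat_lit 159887370423) (nat_lit 0) (nat_lit 160513128033) (nat_lit 1) (nat_lit 5) (nat_lit 3) (nat_lit 4) (nat_lit 1) (nat_lit 4) (nat_lit 485) (nat_lit 367) (nat_lit 348)) (XT.lf (nat_lit 0) (nat_lit 178370802194) (nat_lit 152) (nat_lit 164217383983) (nat_lit 0) (nat_lit 177504329894) (nat_lit 1) (nat_lit 5) (nat_lit 3) (nat_lit 4) (nat_lit 1) (nat_lit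 4) (nat_lit 486) (nat_lit 367) (nat_lit 347))) (XT.nd (nat_lit 78) (nat_lit 0) (nat_lit 0) (XT.lf (nat_lit 0) (nat_lit 196645991558) (nat_lit 152) (nat_lit 169087186159) (nat_lit 0) (nat_lit 195761987467) (nat_lit 1) (nat_lit 5) (nat_lit 3) (nat_lit 4) (nat_lit 1) (nat_lit 4) (nat_lit 487) (nat_lit 367) (nat_lit 346)) (XT.lf (nat_lit 0) (nat_lit 216294531508) (nat_lit 152) (nat_lit 174525635037) (nat_lit 0) (nat_lit 215394294278) (nat_lit 1) (nat_lit 5) (nat_lit 3) (nat_lit 4) (nat_lit 1) (nat_lit 4) (nat_lit 488) (nat_lit 367) (nat_lit 345)))))) (XT.nd (nat_lit 546) (nat_lit 0) (nat_lit 0) (XT.nd (nat_lit 234) (nat_lit 0) (nat_lit 0) (XT.nd (nat_lit 78) (nat_lit 0) (nat_lit 0) (XT.lf (nat_lit 0) (nat_lit 237432857839) (nat_lit 152) (nat_lit 180564958462) (nat_lit 0) (nat_lit 236517589924) (nat_lit 1) (nat_lit 5) (nat_lit 3) (nat_lit 4) (nat_lit 1) (nat_lit 4) (nat_lit 489) (nat_lit 367) (nat_lit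 344)) (XT.nd (nat_lit 78) (nat_lit 0) (nat_lit 0) (XT.lf (nat_lit 0) (nat_lit 260186234705) (nat_lit 152) (nat_lit 187240945018) (nat_lit 0) (nat_lit 259257049490) (nat_lit 1) (nat_lit 5) (nat_lit 3) (nat_lit 4) (nat_lit 1) (nat_lit 4) (nat_lit 490) (nat_lit 367) (nat_lit 343)) (XT.lf (nat_lit 0) (nat_lit 284689496933) (nat_lit 152) (nat_lit 194593156107) (nat_lit 0) (nat_lit 283747425328) (nat_lit 1) (nat_lit 5) (nat_lit 3) (nat_lit 4) (nat_lit 1) (nat_lit 4) (nat_lit 491) (nat_lit 367) (nat_lit 342)))) (XT.nd (nat_lit 156) (nat_lit 0) (nat_lit 0) (XT.nd (nat_lit 78) (nat_lit 0) (nat_lit 0) (XT.lf (nat_lit 0) (nat_lit 311087849039) (nat_lit 152) (nat_lit 202665160386) (nat_lit 0) (nat_lit 310133845593) (nat_lit 1) (nat_lit 5) (nat_lit 3) (nat_lit 4) (nat_lit 1) (nat_lit 4) (nat_lit 492) (nat_lit 367) (nat_lit 341)) (XT.lf (nat_lit 0) (nat_lit 339537725703) (nat_lit 152) (nat_lit 211504791955)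 (nat_lit 0) (nat_lit 338572674255) (nat_lit 1) (nat_lit 5) (nat_lit 3) (nat_lit 4) (nat_lit 1) (nat_lit 4) (nat_lit 493) (nat_lit 367) (nat_lit 340))) (XT.nd (nat_lit 78) (nat_lit 0) (nat_lit 0) (XT.lf (nat_lit 0) (nat_lit 370207718787) (nat_lit 152) (nat_lit 221164433817) (nat_lit 0) (nat_lit 369232437707) (nat_lit 1) (nat_lit 5) (nat_lit 3) (nat_lit 4) (nat_lit 1) (nat_lit 4) (nat_lit 494) (nat_lit 367) (nat_lit 339)) (XT.lf (nat_lit 0) (nat_lit 403279576397) (nat_lit 152) (nat_lit 231701328292) (nat_lit 0) (nat_lit 402294823436) (nat_lit 1) (nat_lit 5) (nat_lit 3) (nat_lit 4) (nat_lit 1) (nat_lit 4) (nat_lit 495) (nat_lit 367) (nat_lit 338))))) (XT.nd (nat_lit 234) (nat_lit 0) (nat_lit 0) (XT.nd (nat_lit 78) (nat_lit 0) (nat_lit 0) (XT.lf (nat_lit 0) (nat_lit 438949279912) (nat_lit 152) (nat_lit 243177916238) (nat_lit 0) (nat_lit 437955756691) (nat_lit 1) (nat_lit 5) (nat_lit 3) (nat_lit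 4) (nat_lit 1) (nat_lit 4) (nat_lit 496) (nat_lit 367) (nat_lit 337)) (XT.nd (nat_lit 78) (nat_lit 0) (nat_lit 0) (XT.lf (nat_lit 0) (nat_lit 477428205353) (nat_lit 152) (nat_lit 255662207065) (nat_lit 0) (nat_lit 476426561521) (nat_lit 1) (nat_lit 5) (nat_lit 3) (nat_lit 4) (nat_lit 1) (nat_lit 4) (nat_lit 497) (nat_lit 367) (nat_lit 336)) (XT.lf (nat_lit 0) (nat_lit 518944375981) (nat_lit 152) (nat_lit 269228181754) (nat_lit 0) (nat_lit 517935213065) (nat_lit 1) (nat_lit 5) (nat_lit 3) (nat_lit 4) (nat_lit 1) (nat_lit 4) (nat_lit 498) (nat_lit 367) (nat_lit 335)))) (XT.nd (nat_lit 59826) (nat_lit 0) (nat_lit 152) (XT.nd (nat_lit 59748) (nat_lit 0) (nat_lit 152) (XT.lf (nat_lit 0) (nat_lit 563743813550) (nat_lit 152) (nat_lit 283956231268) (nat_lit 0) (nat_lit 562727688518) (nat_lit 1) (nat_lit 5) (nat_lit 3) (nat_lit 4) (nat_lit 1) (nat_lit 4) (nat_lit 499) (nat_lit 367) (nat_lit 334)) (XT.lf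 (nat_lit 0) (nat_lit 13789246976) (nat_lit 76) (nat_lit 17870123342) (nat_lit 76) (nat_lit 17870123342) (nat_lit 3) (nat_lit 4) (nat_lit 4) (nat_lit 5) (nat_lit 4) (nat_lit 4) (nat_lit 464) (nat_lit 368) (nat_lit 368))) (XT.nd (nat_lit 78) (nat_lit 0) (nat_lit 0) (XT.lf (nat_lit 0) (nat_lit 47093469375) (nat_lit 76) (nat_lit 29776725681) (nat_lit 76) (nat_lit 29684060958) (nat_lit 3) (nat_lit 4) (nat_lit 4) (nat_lit 5) (nat_lit 4) (nat_lit 4) (nat_lit 465) (nat_lit 368) (nat_lit 367)) (XT.lf (nat_lit 0) (nat_lit 67325712041) (nat_lit 76) (nat_lit 23761419264) (nat_lit 76) (nat_lit 23582953870) (nat_lit 3) (nat_lit 4) (nat_lit 4) (nat_lit 5) (nat_lit 4) (nat_lit 4) (nat_lit 466) (nat_lit 368) (nat_lit 366))))))))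
noncomputable def xc6 : XT := (XT.nd (nat_lit 2028) (nat_lit 0) (nat_lit 0) (XT.nd (nat_lit 1014) (nat_lit 0) (nat_lit 0) (XT.nd (nat_lit 468) (nat_lit 0) (nat_lit 0) (XT.nd (nat_lit 234) (nat_lit 152) (nat_lit 0) (XT.nd (nat_lit 78) (nat_lit 0) (nat_lit 0) (XT.lf (nat_lit 0) (nat_lit 88395116722) (nat_lit 76) (nat_lit 17658681172) (nat_lit 76) (nat_lit 17400770714) (nat_lit 3) (nat_lit 4) (nat_lit 4) (nat_lit 5) (nat_lit 4) (nat_lit 4) (nat_lit 467) (nat_lit 368) (nat_lit 365)) (XT.nd (nat_lit 78) (nat_lit 0) (nat_lit 0) (XT.lf (nat_lit 0) (nat_lit 110426539150) (nat_lit 76) (nat_lit 11432347032) (nat_lit 76) (nat_lit 11100876328) (nat_lit 3) (nat_lit 4) (nat_lit 4) (nat_lit 5) (nat_lit 4) (nat_lit 4) (nat_lit 468) (nat_lit 368) (nat_lit 364)) (XT.lf (nat_lit 0) (nat_lit 133550535903) (nat_lit 76) (nat_lit 5045520048) (nat_lit 76) (nat_lit 4645938006) (nat_lit 3) (nat_lit 4) (nat_lit 4) (nat_lit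 5) (nat_lit 4) (nat_lit 4) (nat_lit 469) (nat_lit 368) (nat_lit 363)))) (XT.nd (nat_lit 78) (nat_lit 0) (nat_lit 0) (XT.lf (nat_lit 0) (nat_lit 2020312630) (nat_lit 152) (nat_lit 150756518449) (nat_lit 0) (nat_lit 1579695396) (nat_lit 1) (nat_lit 5) (nat_lit 3) (nat_lit 4) (nat_lit 1) (nat_lit 4) (nat_lit 470) (nat_lit 368) (nat_lit 362)) (XT.nd (nat_lit 78) (nat_lit 0) (nat_lit 0) (XT.lf (nat_lit 0) (nat_lit 9012171817) (nat_lit 152) (nat_lit 148830551572) (nat_lit 0) (nat_lit 8515940779) (nat_lit 1) (nat_lit 5) (nat_lit 3) (nat_lit 4) (nat_lit 1) (nat_lit 4) (nat_lit 471) (nat_lit 368) (nat_lit 361)) (XT.lf (nat_lit 0) (nat_lit 16282120755) (nat_lit 152) (nat_lit 147318523967) (nat_lit 0) (nat_lit 15734395454) (nat_lit 1) (nat_lit 5) (nat_lit 3) (nat_lit 4) (nat_lit 1) (nat_lit 4) (nat_lit 472) (nat_lit 368) (nat_lit 360))))) (XT.nd (nat_lit 234) (nat_lit 0) (nat_lit 0) (XT.nd (nat_lit 78)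 (nat_lit 0) (nat_lit 0) (XT.lf (nat_lit 0) (nat_lit 23873240623) (nat_lit 152) (nat_lit 146211475469) (nat_lit 0) (nat_lit 23277835449) (nat_lit 1) (nat_lit 5) (nat_lit 3) (nat_lit 4) (nat_lit 1) (nat_lit 4) (nat_lit 473) (nat_lit 368) (nat_lit 359)) (XT.nd (nat_lit 78) (nat_lit 0) (nat_lit 0) (XT.lf (nat_lit 0) (nat_lit 31830515835) (nat_lit 152) (nat_lit 145502845792) (nat_lit 0) (nat_lit 31190962630) (nat_lit 1) (nat_lit 5) (nat_lit 3) (nat_lit 4) (nat_lit 1) (nat_lit 4) (nat_lit 474) (nat_lit 368) (nat_lit 358)) (XT.lf (nat_lit 0) (nat_lit 40201100615) (nat_lit 152) (nat_lit 145188435647) (nat_lit 0) (nat_lit 39520669604) (nat_lit 1) (nat_lit 5) (nat_lit 3) (nat_lit 4) (nat_lit 1) (nat_lit 4) (nat_lit 475) (nat_lit 368) (nat_lit 357)))) (XT.nd (nat_lit 156) (nat_lit 0) (nat_lit 0) (XT.nd (nat_lit 78) (nat_lit 0) (nat_lit 0) (XT.lf (nat_lit 0) (nat_lit 49034598428) (nat_lit 152) (nat_lit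 145266381864) (nat_lit 0) (nat_lit 48316317596) (nat_lit 1) (nat_lit 5) (nat_lit 3) (nat_lit 4) (nat_lit 1) (nat_lit 4) (nat_lit 476) (nat_lit 368) (nat_lit 356)) (XT.lf (nat_lit 0) (nat_lit 58383355927) (nat_lit 152) (nat_lit 145737146347) (nat_lit 0) (nat_lit 57630028965) (nat_lit 1) (nat_lit 5) (nat_lit 3) (nat_lit 4) (nat_lit 1) (nat_lit 4) (nat_lit 477) (nat_lit 368) (nat_lit 355))) (XT.nd (nat_lit 78) (nat_lit 0) (nat_lit 0) (XT.lf (nat_lit 0) (nat_lit 68302773157) (nat_lit 152) (nat_lit 146603518811) (nat_lit 0) (nat_lit 67516996074) (nat_lit 1) (nat_lit 5) (nat_lit 3) (nat_lit 4) (nat_lit 1) (nat_lit 4) (nat_lit 478) (nat_lit 368) (nat_lit 354)) (XT.lf (nat_lit 0) (nat_lit 78851631850) (nat_lit 152) (nat_lit 147870633314) (nat_lit 0) (nat_lit 78035808359) (nat_lit 1) (nat_lit 5) (nat_lit 3) (nat_lit 4) (nat_lit 1) (nat_lit 4) (nat_lit 479) (nat_lit 368) (nat_lit 353)))))) (XT.nd (nat_lit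 468) (nat_lit 0) (nat_lit 0) (XT.nd (nat_lit 234) (nat_lit 0) (nat_lit 0) (XT.nd (nat_lit 78) (nat_lit 0) (nat_lit 0) (XT.lf (nat_lit 0) (nat_lit 90092443760) (nat_lit 152) (nat_lit 149545998684) (nat_lit 0) (nat_lit 89248799522) (nat_lit 1) (nat_lit 5) (nat_lit 3) (nat_lit 4) (nat_lit 1) (nat_lit 4) (nat_lit 480) (nat_lit 368) (nat_lit 352)) (XT.nd (nat_lit 78) (nat_lit 0) (nat_lit 0) (XT.lf (nat_lit 0) (nat_lit 102091821108) (nat_lit 152) (nat_lit 151639543011) (nat_lit 0) (nat_lit 101222416917) (nat_lit 1) (nat_lit 5) (nat_lit 3) (nat_lit 4) (nat_lit 1) (nat_lit 4) (nat_lit 481) (nat_lit 368) (nat_lit 351)) (XT.lf (nat_lit 0) (nat_lit 114920871313) (nat_lit 152) (nat_lit 154163672485) (nat_lit 0) (nat_lit 114027615316) (nat_lit 1) (nat_lit 5) (nat_lit 3) (nat_lit 4) (nat_lit 1) (nat_lit 4) (nat_lit 482) (nat_lit 368) (nat_lit 350)))) (XT.nd (nat_lit 78) (nat_lit 0) (nat_lit 0) (XT.lf (nat_lit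 0) (nat_lit 128655618378) (nat_lit 152) (nat_lit 157133344910) (nat_lit 0) (nat_lit 127740277373) (nat_lit 1) (nat_lit 5) (nat_lit 3) (nat_lit 4) (nat_lit 1) (nat_lit 4) (nat_lit 483) (nat_lit 368) (nat_lit 349)) (XT.nd (nat_lit 78) (nat_lit 0) (nat_lit 0) (XT.lf (nat_lit 0) (nat_lit 143377453395) (nat_lit 152) (nat_lit 160566158343) (nat_lit 0) (nat_lit 142441663311) (nat_lit 1) (nat_lit 5) (nat_lit 3) (nat_lit 4) (nat_lit 1) (nat_lit 4) (nat_lit 484) (nat_lit 368) (nat_lit 348)) (XT.lf (nat_lit 0) (nat_lit 159173616870) (nat_lit 152) (nat_lit 164482455384) (nat_lit 0) (nat_lit 158218892451) (nat_lit 1) (nat_lit 5) (nat_lit 3) (nat_lit 4) (nat_lit 1) (nat_lit 4) (nat_lit 485) (nat_lit 368) (nat_lit 347))))) (XT.nd (nat_lit 234) (nat_lit 0) (nat_lit 0) (XT.nd (nat_lit 78) (nat_lit 0) (nat_lit 0) (XT.lf (nat_lit 0) (nat_lit 176137715695) (nat_lit 152) (nat_lit 168905443719) (nat_lit 0) (nat_lit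 175165459487) (nat_lit 1) (nat_lit 5) (nat_lit 3) (nat_lit 4) (nat_lit 1) (nat_lit 4) (nat_lit 486) (nat_lit 368) (nat_lit 346)) (XT.nd (nat_lit 78) (nat_lit 0) (nat_lit 0) (XT.lf (nat_lit 0) (nat_lit 194370277865) (nat_lit 152) (nat_lit 173861333649) (nat_lit 0) (nat_lit 193381788517) (nat_lit 1) (nat_lit 5) (nat_lit 3) (nat_lit 4) (nat_lit 1) (nat_lit 4) (nat_lit 487) (nat_lit 368) (nat_lit 345)) (XT.lf (nat_lit 0) (nat_lit 213979348193) (nat_lit 152) (nat_lit 179379493410) (nat_lit 0) (nat_lit 212975828160) (nat_lit 1) (nat_lit 5) (nat_lit 3) (nat_lit 4) (nat_lit 1) (nat_lit 4) (nat_lit 488) (nat_lit 368) (nat_lit 344)))) (XT.nd (nat_lit 156) (nat_lit 0) (nat_lit 0) (XT.nd (nat_lit 78) (nat_lit 0) (nat_lit 0) (XT.lf (nat_lit 0) (nat_lit 235081128576) (nat_lit 152) (nat_lit 185492623209) (nat_lit 0) (nat_lit 234063691243) (nat_lit 1) (nat_lit 5) (nat_lit 3) (nat_lit 4) (nat_lit 1) (nat_lit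 4) (nat_lit 489) (nat_lit 368) (nat_lit 343)) (XT.lf (nat_lit 0) (nat_lit 257800666602) (nat_lit 152) (nat_lit 192236948999) (nat_lit 0) (nat_lit 256770342879) (nat_lit 1) (nat_lit 5) (nat_lit 3) (nat_lit 4) (nat_lit 1) (nat_lit 4) (nat_lit 490) (nat_lit 368) (nat_lit 342))) (XT.nd (nat_lit 78) (nat_lit 0) (nat_lit 0) (XT.lf (nat_lit 0) (nat_lit 282272596570) (nat_lit 152) (nat_lit 199652437157) (nat_lit 0) (nat_lit 281230341006) (nat_lit 1) (nat_lit 5) (nat_lit 3) (nat_lit 4) (nat_lit 1) (nat_lit 4) (nat_lit 491) (nat_lit 368) (nat_lit 341)) (XT.lf (nat_lit 0) (nat_lit 308641937325) (nat_lit 152) (nat_lit 207783031315) (nat_lit 0) (nat_lit 307588633759) (nat_lit 1) (nat_lit 5) (nat_lit 3) (nat_lit 4) (nat_lit 1) (nat_lit 4) (nat_lit 492) (nat_lit 368) (nat_lit 340))))))) (XT.nd (nat_lit 60528) (nat_lit 0) (nat_lit 0) (XT.nd (nat_lit 468) (nat_lit 0) (nat_lit 0) (XT.nd (nat_lit 234) (nat_lit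 0) (nat_lit 0) (XT.nd (nat_lit 78) (nat_lit 0) (nat_lit 0) (XT.lf (nat_lit 0) (nat_lit 337064951627) (nat_lit 152) (nat_lit 216676912772) (nat_lit 0) (nat_lit 336001418429) (nat_lit 1) (nat_lit 5) (nat_lit 3) (nat_lit 4) (nat_lit 1) (nat_lit 4) (nat_lit 493) (nat_lit 368) (nat_lit 339)) (XT.nd (nat_lit 78) (nat_lit 0) (nat_lit 0) (XT.lf (nat_lit 0) (nat_lit 367710072153) (nat_lit 152) (nat_lit 226386786011) (nat_lit 0) (nat_lit 366637067074) (nat_lit 1) (nat_lit 5) (nat_lit 3) (nat_lit 4) (nat_lit 1) (nat_lit 4) (nat_lit 494) (nat_lit 368) (nat_lit 338)) (XT.lf (nat_lit 0) (nat_lit 400758899617) (nat_lit 152) (nat_lit 236970191021) (nat_lit 0) (nat_lit 399677124278) (nat_lit 1) (nat_lit 5) (nat_lit 3) (nat_lit 4) (nat_lit 1) (nat_lit 4) (nat_lit 495) (nat_lit 368) (nat_lit 337)))) (XT.nd (nat_lit 78) (nat_lit 0) (nat_lit 0) (XT.lf (nat_lit 0) (nat_lit 436407278923) (nat_lit 152) (nat_lit 248489844277)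 (nat_lit 0) (nat_lit 435317382973) (nat_lit 1) (nat_lit 5) (nat_lit 3) (nat_lit 4) (nat_lit 1) (nat_lit 4) (nat_lit 496) (nat_lit 368) (nat_lit 336)) (XT.nd (nat_lit 78) (nat_lit 0) (nat_lit 0) (XT.lf (nat_lit 0) (nat_lit 474866459725) (nat_lit 152) (nat_lit 261014010391) (nat_lit 0) (nat_lit 473769044691) (nat_lit 1) (nat_lit 5) (nat_lit 3) (nat_lit 4) (nat_lit 1) (nat_lit 4) (nat_lit 497) (nat_lit 368) (nat_lit 335)) (XT.lf (nat_lit 0) (nat_lit 516364348281) (nat_lit 152) (nat_lit 274616906642) (nat_lit 0) (nat_lit 515259971132) (nat_lit 1) (nat_lit 5) (nat_lit 3) (nat_lit 4) (nat_lit 1) (nat_lit 4) (nat_lit 498) (nat_lit 368) (nat_lit 334))))) (XT.nd (nat_lit 59748) (nat_lit 0) (nat_lit 152) (XT.nd (nat_lit 59592) (nat_lit 0) (nat_lit 152) (XT.lf (nat_lit 0) (nat_lit 561146858005) (nat_lit 152) (nat_lit 289379142787) (nat_lit 0) (nat_lit 560036034453) (nat_lit 1) (nat_lit 5) (nat_lit 3)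 (nat_lit 4) (nat_lit 1) (nat_lit 4) (nat_lit 499) (nat_lit 368) (nat_lit 333)) (XT.nd (nat_lit 78) (nat_lit 76) (nat_lit 0) (XT.lf (nat_lit 0) (nat_lit 19187165991) (nat_lit 152) (nat_lit 4494112717) (nat_lit 0) (nat_lit 19187165991) (nat_lit 4) (nat_lit 5) (nat_lit 6) (nat_lit 4) (nat_lit 4) (nat_lit 4) (nat_lit 462) (nat_lit 369) (nat_lit 369)) (XT.lf (nat_lit 0) (nat_lit 8665141477) (nat_lit 76) (nat_lit 41787399558) (nat_lit 76) (nat_lit 41687321656) (nat_lit 3) (nat_lit 4) (nat_lit 4) (nat_lit 5) (nat_lit 4) (nat_lit 4) (nat_lit 463) (nat_lit 369) (nat_lit 368)))) (XT.nd (nat_lit 156) (nat_lit 0) (nat_lit 0) (XT.nd (nat_lit 78) (nat_lit 0) (nat_lit 0) (XT.lf (nat_lit 0) (nat_lit 27140299120) (nat_lit 76) (nat_lit 36061151493) (nat_lit 76) (nat_lit 35868408868) (nat_lit 3) (nat_lit 4) (nat_lit 4) (nat_lit 5) (nat_lit 4) (nat_lit 4) (nat_lit 464) (nat_lit 369) (nat_lit 367)) (XT.lf (nat_lit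 0) (nat_lit 46249538585) (nat_lit 76) (nat_lit 30302099848) (nat_lit 76) (nat_lit 30023556553) (nat_lit 3) (nat_lit 4) (nat_lit 4) (nat_lit 5) (nat_lit 4) (nat_lit 4) (nat_lit 465) (nat_lit 369) (nat_lit 366))) (XT.nd (nat_lit 78) (nat_lit 0) (nat_lit 0) (XT.lf (nat_lit 0) (nat_lit 66106099810) (nat_lit 76) (nat_lit 24476116911) (nat_lit 76) (nat_lit 24118128552) (nat_lit 3) (nat_lit 4) (nat_lit 4) (nat_lit 5) (nat_lit 4) (nat_lit 4) (nat_lit 466) (nat_lit 369) (nat_lit 365)) (XT.lf (nat_lit 0) (nat_lit 86827651305) (nat_lit 76) (nat_lit 18548678338) (nat_lit 76) (nat_lit 18117129733) (nat_lit 3) (nat_lit 4) (nat_lit 4) (nat_lit 5) (nat_lit 4) (nat_lit 4) (nat_lit 467) (nat_lit 369) (nat_lit 364)))))) (XT.nd (nat_lit 546) (nat_lit 0) (nat_lit 0) (XT.nd (nat_lit 234) (nat_lit 0) (nat_lit 0) (XT.nd (nat_lit 78) (nat_lit 152) (nat_lit 0) (XT.lf (nat_lit 0) (nat_lit 108536987449) (nat_lit 76)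 (nat_lit 12484658567) (nat_lit 76) (nat_lit 11984998624) (nat_lit 3) (nat_lit 4) (nat_lit 4) (nat_lit 5) (nat_lit 4) (nat_lit 4) (nat_lit 468) (nat_lit 369) (nat_lit 363)) (XT.nd (nat_lit 78) (nat_lit 152) (nat_lit 0) (XT.lf (nat_lit 0) (nat_lit 131362756162) (nat_lit 76) (nat_lit 6248122666) (nat_lit 76) (nat_lit 5685396668) (nat_lit 3) (nat_lit 4) (nat_lit 4) (nat_lit 5) (nat_lit 4) (nat_lit 4) (nat_lit 469) (nat_lit 369) (nat_lit 362)) (XT.lf (nat_lit 0) (nat_lit 812553717) (nat_lit 152) (nat_lit 153388136076) (nat_lit 0) (nat_lit 221010392) (nat_lit 1) (nat_lit 5) (nat_lit 3) (nat_lit 4) (nat_lit 1) (nat_lit 4) (nat_lit 470) (nat_lit 369) (nat_lit 361)))) (XT.nd (nat_lit 156) (nat_lit 0) (nat_lit 0) (XT.nd (nat_lit 78) (nat_lit 0) (nat_lit 0) (XT.lf (nat_lit 0) (nat_lit 7669192239) (nat_lit 152) (nat_lit 151735254114) (nat_lit 0) (nat_lit 7026154651) (nat_lit 1) (nat_lit 5) (nat_lit 3)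 (nat_lit 4) (nat_lit 1) (nat_lit 4) (nat_lit 471) (nat_lit 369) (nat_lit 360)) (XT.lf (nat_lit 0) (nat_lit 14813936858) (nat_lit 152) (nat_lit 150476082910) (nat_lit 0) (nat_lit 14123219396) (nat_lit 1) (nat_lit 5) (nat_lit 3) (nat_lit 4) (nat_lit 1) (nat_lit 4) (nat_lit 472) (nat_lit 369) (nat_lit 359))) (XT.nd (nat_lit 78) (nat_lit 0) (nat_lit 0) (XT.lf (nat_lit 0) (nat_lit 22289126800) (nat_lit 152) (nat_lit 149603160711) (nat_lit 0) (nat_lit 21554261308) (nat_lit 1) (nat_lit 5) (nat_lit 3) (nat_lit 4) (nat_lit 1) (nat_lit 4) (nat_lit 473) (nat_lit 369) (nat_lit 358)) (XT.lf (nat_lit 0) (nat_lit 30139059488) (nat_lit 152) (nat_lit 149111314642) (nat_lit 0) (nat_lit 29363316190) (nat_lit 1) (nat_lit 5) (nat_lit 3) (nat_lit 4) (nat_lit 1) (nat_lit 4) (nat_lit 474) (nat_lit 369) (nat_lit 357))))) (XT.nd (nat_lit 234) (nat_lit 0) (nat_lit 0) (XT.nd (nat_lit 78) (nat_lit 0) (nat_lit 0) (XT.lf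 (nat_lit 0) (nat_lit 38410253042) (nat_lit 152) (nat_lit 148997630062) (nat_lit 0) (nat_lit 37596659924) (nat_lit 1) (nat_lit 5) (nat_lit 3) (nat_lit 4) (nat_lit 1) (nat_lit 4) (nat_lit 475) (nat_lit 369) (nat_lit 356)) (XT.nd (nat_lit 78) (nat_lit 0) (nat_lit 0) (XT.lf (nat_lit 0) (nat_lit 47151721942) (nat_lit 152) (nat_lit 149261433283) (nat_lit 0) (nat_lit 46303082693) (nat_lit 1) (nat_lit 5) (nat_lit 3) (nat_lit 4) (nat_lit 1) (nat_lit 4) (nat_lit 476) (nat_lit 369) (nat_lit 355)) (XT.lf (nat_lit 0) (nat_lit 56415267485) (nat_lit 152) (nat_lit 149904287584) (nat_lit 0) (nat_lit 55534178116) (nat_lit 1) (nat_lit 5) (nat_lit 3) (nat_lit 4) (nat_lit 1) (nat_lit 4) (nat_lit 477) (nat_lit 369) (nat_lit 354)))) (XT.nd (nat_lit 156) (nat_lit 0) (nat_lit 0) (XT.nd (nat_lit 78) (nat_lit 0) (nat_lit 0) (XT.lf (nat_lit 0) (nat_lit 66255784756) (nat_lit 152) (nat_lit 150930002472) (nat_lit 0) (nat_lit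 65344648978) (nat_lit 1) (nat_lit 5) (nat_lit 3) (nat_lit 4) (nat_lit 1) (nat_lit 4) (nat_lit 478) (nat_lit 369) (nat_lit 353)) (XT.lf (nat_lit 0) (nat_lit 76731587930) (nat_lit 152) (nat_lit 152344656257) (nat_lit 0) (nat_lit 75792631405) (nat_lit 1) (nat_lit 5) (nat_lit 3) (nat_lit 4) (nat_lit 1) (nat_lit 4) (nat_lit 479) (nat_lit 369) (nat_lit 352))) (XT.nd (nat_lit 78) (nat_lit 0) (nat_lit 0) (XT.lf (nat_lit 0) (nat_lit 87904755843) (nat_lit 152) (nat_lit 154156632073) (nat_lit 0) (nat_lit 86940039366) (nat_lit 1) (nat_lit 5) (nat_lit 3) (nat_lit 4) (nat_lit 1) (nat_lit 4) (nat_lit 480) (nat_lit 369) (nat_lit 351)) (XT.lf (nat_lit 0) (nat_lit 99841499859) (nat_lit 152) (nat_lit 156376667555) (nat_lit 0) (nat_lit 98852931574) (nat_lit 1) (nat_lit 5) (nat_lit 3) (nat_lit 4) (nat_lit 1) (nat_lit 4) (nat_lit 481) (nat_lit 369) (nat_lit 350))))))))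
noncomputable def xc7 : XT := (XT.nd (nat_lit 61464) (nat_lit 0) (nat_lit 0) (XT.nd (nat_lit 1014) (nat_lit 0) (nat_lit 0) (XT.nd (nat_lit 468) (nat_lit 0) (nat_lit 0) (XT.nd (nat_lit 234) (nat_lit 0) (nat_lit 0) (XT.nd (nat_lit 78) (nat_lit 0) (nat_lit 0) (XT.lf (nat_lit 0) (nat_lit 112612556239) (nat_lit 152) (nat_lit 159017918467) (nat_lit 0) (nat_lit 111601902947) (nat_lit 1) (nat_lit 5) (nat_lit 3) (nat_lit 4) (nat_lit 1) (nat_lit 4) (nat_lit 482) (nat_lit 369) (nat_lit 349)) (XT.nd (nat_lit 78) (nat_lit 0) (nat_lit 0) (XT.lf (nat_lit 0) (nat_lit 126293605317) (nat_lit 152) (nat_lit 162096036668) (nat_lit 0) (nat_lit 125262502945) (nat_lit 1) (nat_lit 5) (nat_lit 3) (nat_lit 4) (nat_lit 1) (nat_lit 4) (nat_lit 483) (nat_lit 369) (nat_lit 348)) (XT.lf (nat_lit 0) (nat_lit 140965719976) (nat_lit 152) (nat_lit 165629262858) (nat_lit 0) (nat_lit 139915683271) (nat_lit 1) (nat_lit 5) (nat_lit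 3) (nat_lit 4) (nat_lit 1) (nat_lit 4) (nat_lit 484) (nat_lit 369) (nat_lit 347)))) (XT.nd (nat_lit 78) (nat_lit 0) (nat_lit 0) (XT.lf (nat_lit 0) (nat_lit 156715846082) (nat_lit 152) (nat_lit 169638534673) (nat_lit 0) (nat_lit 155648277586) (nat_lit 1) (nat_lit 5) (nat_lit 3) (nat_lit 4) (nat_lit 1) (nat_lit 4) (nat_lit 485) (nat_lit 369) (nat_lit 346)) (XT.nd (nat_lit 78) (nat_lit 0) (nat_lit 0) (XT.lf (nat_lit 0) (nat_lit 173637317715) (nat_lit 152) (nat_lit 174147610762) (nat_lit 0) (nat_lit 172553516079) (nat_lit 1) (nat_lit 5) (nat_lit 3) (nat_lit 4) (nat_lit 1) (nat_lit 4) (nat_lit 486) (nat_lit 369) (nat_lit 345)) (XT.lf (nat_lit 0) (nat_lit 191830410262) (nat_lit 152) (nat_lit 179183211575) (nat_lit 0) (nat_lit 190731577942) (nat_lit 1) (nat_lit 5) (nat_lit 3) (nat_lit 4) (nat_lit 1) (nat_lit 4) (nat_lit 487) (nat_lit 369) (nat_lit 344))))) (XT.nd (nat_lit 234) (nat_lit 0) (nat_lit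 0) (XT.nd (nat_lit 78) (nat_lit 0) (nat_lit 0) (XT.lf (nat_lit 0) (nat_lit 211402934642) (nat_lit 152) (nat_lit 184775177710) (nat_lit 0) (nat_lit 210290185021) (nat_lit 1) (nat_lit 5) (nat_lit 3) (nat_lit 4) (nat_lit 1) (nat_lit 4) (nat_lit 488) (nat_lit 369) (nat_lit 343)) (XT.nd (nat_lit 78) (nat_lit 0) (nat_lit 0) (XT.lf (nat_lit 0) (nat_lit 232470876184) (nat_lit 152) (nat_lit 190956646743) (nat_lit 0) (nat_lit 231345240175) (nat_lit 1) (nat_lit 5) (nat_lit 3) (nat_lit 4) (nat_lit 1) (nat_lit 4) (nat_lit 489) (nat_lit 369) (nat_lit 342)) (XT.lf (nat_lit 0) (nat_lit 255159081951) (nat_lit 152) (nat_lit 197764249603) (nat_lit 0) (nat_lit 254021514099) (nat_lit 1) (nat_lit 5) (nat_lit 3) (nat_lit 4) (nat_lit 1) (nat_lit 4) (nat_lit 490) (nat_lit 369) (nat_lit 341)))) (XT.nd (nat_lit 156) (nat_lit 0) (nat_lit 0) (XT.nd (nat_lit 78) (nat_lit 0) (nat_lit 0) (XT.lf (nat_lit 0) (nat_lit 279602000568)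 (nat_lit 152) (nat_lit 205238327639) (nat_lit 0) (nat_lit 278453384715) (nat_lit 1) (nat_lit 5) (nat_lit 3) (nat_lit 4) (nat_lit 1) (nat_lit 4) (nat_lit 491) (nat_lit 369) (nat_lit 340)) (XT.lf (nat_lit 0) (nat_lit 305944478960) (nat_lit 152) (nat_lit 213423171684) (nat_lit 0) (nat_lit 304785633476) (nat_lit 1) (nat_lit 5) (nat_lit 3) (nat_lit 4) (nat_lit 1) (nat_lit 4) (nat_lit 492) (nat_lit 369) (nat_lit 339))) (XT.nd (nat_lit 78) (nat_lit 0) (nat_lit 0) (XT.lf (nat_lit 0) (nat_lit 334342620704) (nat_lit 152) (nat_lit 222367284519) (nat_lit 0) (nat_lit 333174303339) (nat_lit 1) (nat_lit 5) (nat_lit 3) (nat_lit 4) (nat_lit 1) (nat_lit 4) (nat_lit 493) (nat_lit 369) (nat_lit 338)) (XT.lf (nat_lit 0) (nat_lit 364964711084) (nat_lit 152) (nat_lit 232123668293) (nat_lit 0) (nat_lit 363787623459) (nat_lit 1) (nat_lit 5) (nat_lit 3) (nat_lit 4) (nat_lit 1) (nat_lit 4) (nat_lit 494) (nat_lit 369)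 (nat_lit 337)))))) (XT.nd (nat_lit 59904) (nat_lit 0) (nat_lit 152) (XT.nd (nat_lit 234) (nat_lit 0) (nat_lit 0) (XT.nd (nat_lit 78) (nat_lit 0) (nat_lit 0) (XT.lf (nat_lit 0) (nat_lit 397992214339) (nat_lit 152) (nat_lit 242750138613) (nat_lit 0) (nat_lit 396807006102) (nat_lit 1) (nat_lit 5) (nat_lit 3) (nat_lit 4) (nat_lit 1) (nat_lit 4) (nat_lit 495) (nat_lit 369) (nat_lit 336)) (XT.nd (nat_lit 78) (nat_lit 0) (nat_lit 0) (XT.lf (nat_lit 0) (nat_lit 433620849006) (nat_lit 152) (nat_lit 254309667156) (nat_lit 0) (nat_lit 432428121685) (nat_lit 1) (nat_lit 5) (nat_lit 3) (nat_lit 4) (nat_lit 1) (nat_lit 4) (nat_lit 496) (nat_lit 369) (nat_lit 335)) (XT.lf (nat_lit 0) (nat_lit 472061747737) (nat_lit 152) (nat_lit 266870754832) (nat_lit 0) (nat_lit 470862058300) (nat_lit 1) (nat_lit 5) (nat_lit 3) (nat_lit 4) (nat_lit 1) (nat_lit 4) (nat_lit 497) (nat_lit 369) (nat_lit 334)))) (XT.nd (nat_lit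 59514) (nat_lit 0) (nat_lit 228) (XT.nd (nat_lit 78) (nat_lit 0) (nat_lit 0) (XT.lf (nat_lit 0) (nat_lit 513542708448) (nat_lit 152) (nat_lit 280507837715) (nat_lit 0) (nat_lit 512336572609) (nat_lit 1) (nat_lit 5) (nat_lit 3) (nat_lit 4) (nat_lit 1) (nat_lit 4) (nat_lit 498) (nat_lit 369) (nat_lit 333)) (XT.lf (nat_lit 0) (nat_lit 558309544241) (nat_lit 152) (nat_lit 295301728148) (nat_lit 0) (nat_lit 557097439510) (nat_lit 1) (nat_lit 5) (nat_lit 3) (nat_lit 4) (nat_lit 1) (nat_lit 4) (nat_lit 499) (nat_lit 369) (nat_lit 332))) (XT.nd (nat_lit 78) (nat_lit 0) (nat_lit 0) (XT.lf (nat_lit 0) (nat_lit 8057151222) (nat_lit 152) (nat_lit 21065790287) (nat_lit 0) (nat_lit 8057151222) (nat_lit 4) (nat_lit 5) (nat_lit 6) (nat_lit 4) (nat_lit 4) (nat_lit 4) (nat_lit 460) (nat_lit 370) (nat_lit 370)) (XT.lf (nat_lit 0) (nat_lit 26986260019) (nat_lit 152) (nat_lit 25959413812) (nat_lit 0) (nat_lit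 26878175885) (nat_lit 4) (nat_lit 5) (nat_lit 6) (nat_lit 4) (nat_lit 4) (nat_lit 4) (nat_lit 461) (nat_lit 370) (nat_lit 369))))) (XT.nd (nat_lit 234) (nat_lit 0) (nat_lit 0) (XT.nd (nat_lit 78) (nat_lit 76) (nat_lit 0) (XT.lf (nat_lit 0) (nat_lit 38255047522) (nat_lit 152) (nat_lit 9446328885) (nat_lit 0) (nat_lit 38046885487) (nat_lit 4) (nat_lit 5) (nat_lit 6) (nat_lit 4) (nat_lit 4) (nat_lit 4) (nat_lit 462) (nat_lit 370) (nat_lit 368)) (XT.nd (nat_lit 78) (nat_lit 0) (nat_lit 0) (XT.lf (nat_lit 0) (nat_lit 7753696224) (nat_lit 76) (nat_lit 42354803658) (nat_lit 76) (nat_lit 42053976900) (nat_lit 3) (nat_lit 4) (nat_lit 4) (nat_lit 5) (nat_lit 4) (nat_lit 4) (nat_lit 463) (nat_lit 370) (nat_lit 367)) (XT.lf (nat_lit 0) (nat_lit 25823117911) (nat_lit 76) (nat_lit 36833024952) (nat_lit 76) (nat_lit 36446397523) (nat_lit 3) (nat_lit 4) (nat_lit 4) (nat_lit 5) (nat_lit 4) (nat_lit 4) (nat_lit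 464) (nat_lit 370) (nat_lit 366)))) (XT.nd (nat_lit 156) (nat_lit 0) (nat_lit 0) (XT.nd (nat_lit 78) (nat_lit 0) (nat_lit 0) (XT.lf (nat_lit 0) (nat_lit 44556675935) (nat_lit 76) (nat_lit 31263296788) (nat_lit 76) (nat_lit 30797224294) (nat_lit 3) (nat_lit 4) (nat_lit 4) (nat_lit 5) (nat_lit 4) (nat_lit 4) (nat_lit 465) (nat_lit 370) (nat_lit 365)) (XT.lf (nat_lit 0) (nat_lit 64065383973) (nat_lit 76) (nat_lit 25612613369) (nat_lit 76) (nat_lit 25072980631) (nat_lit 3) (nat_lit 4) (nat_lit 4) (nat_lit 5) (nat_lit 4) (nat_lit 4) (nat_lit 466) (nat_lit 370) (nat_lit 364))) (XT.nd (nat_lit 78) (nat_lit 0) (nat_lit 0) (XT.lf (nat_lit 0) (nat_lit 84464849184) (nat_lit 76) (nat_lit 19847489165) (nat_lit 76) (nat_lit 19239745089) (nat_lit 3) (nat_lit 4) (nat_lit 4) (nat_lit 5) (nat_lit 4) (nat_lit 4) (nat_lit 467) (nat_lit 370) (nat_lit 363)) (XT.lf (nat_lit 0) (nat_lit 105875957289) (nat_lit 76)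 (nat_lit 13933760477) (nat_lit 76) (nat_lit 13262950346) (nat_lit 3) (nat_lit 4) (nat_lit 4) (nat_lit 5) (nat_lit 4) (nat_lit 4) (nat_lit 468) (nat_lit 370) (nat_lit 362))))))) (XT.nd (nat_lit 1014) (nat_lit 0) (nat_lit 0) (XT.nd (nat_lit 468) (nat_lit 0) (nat_lit 0) (XT.nd (nat_lit 234) (nat_lit 0) (nat_lit 0) (XT.nd (nat_lit 78) (nat_lit 152) (nat_lit 0) (XT.lf (nat_lit 0) (nat_lit 128425588926) (nat_lit 76) (nat_lit 7836382985) (nat_lit 76) (nat_lit 7107178360) (nat_lit 3) (nat_lit 4) (nat_lit 4) (nat_lit 5) (nat_lit 4) (nat_lit 4) (nat_lit 469) (nat_lit 370) (nat_lit 361)) (XT.nd (nat_lit 78) (nat_lit 152) (nat_lit 0) (XT.lf (nat_lit 0) (nat_lit 152247371544) (nat_lit 76) (nat_lit 1519224083) (nat_lit 76) (nat_lit 735950482) (nat_lit 3) (nat_lit 4) (nat_lit 4) (nat_lit 5) (nat_lit 4) (nat_lit 4) (nat_lit 470) (nat_lit 370) (nat_lit 360)) (XT.lf (nat_lit 0) (nat_lit 5958349310) (nat_lit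 152) (nat_lit 155398274174) (nat_lit 0) (nat_lit 5164694579) (nat_lit 1) (nat_lit 5) (nat_lit 3) (nat_lit 4) (nat_lit 1) (nat_lit 4) (nat_lit 471) (nat_lit 370) (nat_lit 359)))) (XT.nd (nat_lit 78) (nat_lit 0) (nat_lit 0) (XT.lf (nat_lit 0) (nat_lit 12987164003) (nat_lit 152) (nat_lit 154373229269) (nat_lit 0) (nat_lit 12149361241) (nat_lit 1) (nat_lit 5) (nat_lit 3) (nat_lit 4) (nat_lit 1) (nat_lit 4) (nat_lit 472) (nat_lit 370) (nat_lit 358)) (XT.nd (nat_lit 78) (nat_lit 0) (nat_lit 0) (XT.lf (nat_lit 0) (nat_lit 20355011422) (nat_lit 152) (nat_lit 153717090679) (nat_lit 0) (nat_lit 19476330853) (nat_lit 1) (nat_lit 5) (nat_lit 3) (nat_lit 4) (nat_lit 1) (nat_lit 4) (nat_lit 473) (nat_lit 370) (nat_lit 357)) (XT.lf (nat_lit 0) (nat_lit 28105552884) (nat_lit 152) (nat_lit 153425970174) (nat_lit 0) (nat_lit 27189022495) (nat_lit 1) (nat_lit 5) (nat_lit 3) (nat_lit 4) (nat_lit 1) (nat_lit 4)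 (nat_lit 474) (nat_lit 370) (nat_lit 356))))) (XT.nd (nat_lit 234) (nat_lit 0) (nat_lit 0) (XT.nd (nat_lit 78) (nat_lit 0) (nat_lit 0) (XT.lf (nat_lit 0) (nat_lit 36284717526) (nat_lit 152) (nat_lit 153498142598) (nat_lit 0) (nat_lit 35333141006) (nat_lit 1) (nat_lit 5) (nat_lit 3) (nat_lit 4) (nat_lit 1) (nat_lit 4) (nat_lit 475) (nat_lit 370) (nat_lit 355)) (XT.nd (nat_lit 78) (nat_lit 0) (nat_lit 0) (XT.lf (nat_lit 0) (nat_lit 44940974469) (nat_lit 152) (nat_lit 153934035637) (nat_lit 0) (nat_lit 43956947829) (nat_lit 1) (nat_lit 5) (nat_lit 3) (nat_lit 4) (nat_lit 1) (nat_lit 4) (nat_lit 476) (nat_lit 370) (nat_lit 354)) (XT.lf (nat_lit 0) (nat_lit 54125620053) (nat_lit 152) (nat_lit 154736232363) (nat_lit 0) (nat_lit 53111547005) (nat_lit 1) (nat_lit 5) (nat_lit 3) (nat_lit 4) (nat_lit 1) (nat_lit 4) (nat_lit 477) (nat_lit 370) (nat_lit 353)))) (XT.nd (nat_lit 156) (nat_lit 0) (nat_lit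 0) (XT.nd (nat_lit 78) (nat_lit 0) (nat_lit 0) (XT.lf (nat_lit 0) (nat_lit 63893081805) (nat_lit 152) (nat_lit 155909486532) (nat_lit 0) (nat_lit 62851188010) (nat_lit 1) (nat_lit 5) (nat_lit 3) (nat_lit 4) (nat_lit 1) (nat_lit 4) (nat_lit 478) (nat_lit 370) (nat_lit 352)) (XT.lf (nat_lit 0) (nat_lit 74301240982) (nat_lit 152) (nat_lit 157460750764) (nat_lit 0) (nat_lit 73233587234) (nat_lit 1) (nat_lit 5) (nat_lit 3) (nat_lit 4) (nat_lit 1) (nat_lit 4) (nat_lit 479) (nat_lit 370) (nat_lit 351))) (XT.nd (nat_lit 78) (nat_lit 0) (nat_lit 0) (XT.lf (nat_lit 0) (nat_lit 85411775563) (nat_lit 152) (nat_lit 159399217734) (nat_lit 0) (nat_lit 84320270008) (nat_lit 1) (nat_lit 5) (nat_lit 3) (nat_lit 4) (nat_lit 1) (nat_lit 4) (nat_lit 480) (nat_lit 370) (nat_lit 350)) (XT.lf (nat_lit 0) (nat_lit 97290525753) (nat_lit 152) (nat_lit 161736374654) (nat_lit 0) (nat_lit 96176935191) (nat_lit 1) (nat_lit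 5) (nat_lit 3) (nat_lit 4) (nat_lit 1) (nat_lit 4) (nat_lit 481) (nat_lit 370) (nat_lit 349)))))) (XT.nd (nat_lit 546) (nat_lit 0) (nat_lit 0) (XT.nd (nat_lit 234) (nat_lit 0) (nat_lit 0) (XT.nd (nat_lit 78) (nat_lit 0) (nat_lit 0) (XT.lf (nat_lit 0) (nat_lit 110007884146) (nat_lit 152) (nat_lit 164486071343) (nat_lit 0) (nat_lit 108873844504) (nat_lit 1) (nat_lit 5) (nat_lit 3) (nat_lit 4) (nat_lit 1) (nat_lit 4) (nat_lit 482) (nat_lit 370) (nat_lit 348)) (XT.nd (nat_lit 78) (nat_lit 0) (nat_lit 0) (XT.lf (nat_lit 0) (nat_lit 123639212866) (nat_lit 152) (nat_lit 167664602300) (nat_lit 0) (nat_lit 122486238890) (nat_lit 1) (nat_lit 5) (nat_lit 3) (nat_lit 4) (nat_lit 1) (nat_lit 4) (nat_lit 483) (nat_lit 370) (nat_lit 347)) (XT.lf (nat_lit 0) (nat_lit 138265290157) (nat_lit 152) (nat_lit 171290803264) (nat_lit 0) (nat_lit 137094784391) (nat_lit 1) (nat_lit 5) (nat_lit 3) (nat_lit 4) (nat_lit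 1) (nat_lit 4) (nat_lit 484) (nat_lit 370) (nat_lit 346)))) (XT.nd (nat_lit 156) (nat_lit 0) (nat_lit 0) (XT.nd (nat_lit 78) (nat_lit 0) (nat_lit 0) (XT.lf (nat_lit 0) (nat_lit 153972789070) (nat_lit 152) (nat_lit 175386162834) (nat_lit 0) (nat_lit 152786050164) (nat_lit 1) (nat_lit 5) (nat_lit 3) (nat_lit 4) (nat_lit 1) (nat_lit 4) (nat_lit 485) (nat_lit 370) (nat_lit 345)) (XT.lf (nat_lit 0) (nat_lit 170854791079) (nat_lit 152) (nat_lit 179974949806) (nat_lit 0) (nat_lit 169653021489) (nat_lit 1) (nat_lit 5) (nat_lit 3) (nat_lit 4) (nat_lit 1) (nat_lit 4) (nat_lit 486) (nat_lit 370) (nat_lit 344))) (XT.nd (nat_lit 78) (nat_lit 0) (nat_lit 0) (XT.lf (nat_lit 0) (nat_lit 189011337679) (nat_lit 152) (nat_lit 185084356992) (nat_lit 0) (nat_lit 187795650788) (nat_lit 1) (nat_lit 5) (nat_lit 3) (nat_lit 4) (nat_lit 1) (nat_lit 4) (nat_lit 487) (nat_lit 370) (nat_lit 343)) (XT.lf (nat_lit 0) (nat_lit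 208550023218) (nat_lit 152) (nat_lit 190744662361) (nat_lit 0) (nat_lit 207321449939) (nat_lit 1) (nat_lit 5) (nat_lit 3) (nat_lit 4) (nat_lit 1) (nat_lit 4) (nat_lit 488) (nat_lit 370) (nat_lit 342))))) (XT.nd (nat_lit 234) (nat_lit 0) (nat_lit 0) (XT.nd (nat_lit 78) (nat_lit 0) (nat_lit 0) (XT.lf (nat_lit 0) (nat_lit 229586632502) (nat_lit 152) (nat_lit 196989408463) (nat_lit 0) (nat_lit 228346127380) (nat_lit 1) (nat_lit 5) (nat_lit 3) (nat_lit 4) (nat_lit 1) (nat_lit 4) (nat_lit 489) (nat_lit 370) (nat_lit 341)) (XT.nd (nat_lit 78) (nat_lit 0) (nat_lit 0) (XT.lf (nat_lit 0) (nat_lit 252245826917) (nat_lit 152) (nat_lit 203855601202) (nat_lit 0) (nat_lit 250994273793) (nat_lit 1) (nat_lit 5) (nat_lit 3) (nat_lit 4) (nat_lit 1) (nat_lit 4) (nat_lit 490) (nat_lit 370) (nat_lit 340)) (XT.lf (nat_lit 0) (nat_lit 276661883172) (nat_lit 152) (nat_lit 211383929126) (nat_lit 0) (nat_lit 275400100417)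 (nat_lit 1) (nat_lit 5) (nat_lit 3) (nat_lit 4) (nat_lit 1) (nat_lit 4) (nat_lit 491) (nat_lit 370) (nat_lit 339)))) (XT.nd (nat_lit 156) (nat_lit 0) (nat_lit 0) (XT.nd (nat_lit 78) (nat_lit 0) (nat_lit 0) (XT.lf (nat_lit 0) (nat_lit 302979489006) (nat_lit 152) (nat_lit 219619004549) (nat_lit 0) (nat_lit 301708234371) (nat_lit 1) (nat_lit 5) (nat_lit 3) (nat_lit 4) (nat_lit 1) (nat_lit 4) (nat_lit 492) (nat_lit 370) (nat_lit 338)) (XT.lf (nat_lit 0) (nat_lit 331354600604) (nat_lit 152) (nat_lit 228609627918) (nat_lit 0) (nat_lit 330074575709) (nat_lit 1) (nat_lit 5) (nat_lit 3) (nat_lit 4) (nat_lit 1) (nat_lit 4) (nat_lit 493) (nat_lit 370) (nat_lit 337))) (XT.nd (nat_lit 78) (nat_lit 0) (nat_lit 0) (XT.lf (nat_lit 0) (nat_lit 361955366775) (nat_lit 152) (nat_lit 238409077002) (nat_lit 0) (nat_lit 360667221268) (nat_lit 1) (nat_lit 5) (nat_lit 3) (nat_lit 4) (nat_lit 1) (nat_lit 4) (nat_lit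 494) (nat_lit 370) (nat_lit 336)) (XT.lf (nat_lit 0) (nat_lit 394963125391) (nat_lit 152) (nat_lit 249075422609) (nat_lit 0) (nat_lit 393667460800) (nat_lit 1) (nat_lit 5) (nat_lit 3) (nat_lit 4) (nat_lit 1) (nat_lit 4) (nat_lit 495) (nat_lit 370) (nat_lit 335))))))))
noncomputable def xc8 : XT := (XT.nd (nat_lit 61230) (nat_lit 0) (nat_lit 0) (XT.nd (nat_lit 60216) (nat_lit 0) (nat_lit 0) (XT.nd (nat_lit 59670) (nat_lit 0) (nat_lit 152) (XT.nd (nat_lit 234) (nat_lit 0) (nat_lit 0) (XT.nd (nat_lit 78) (nat_lit 0) (nat_lit 0) (XT.lf (nat_lit 0) (nat_lit 430573477986) (nat_lit 152) (nat_lit 260671872714) (nat_lit 0) (nat_lit 429270851280) (nat_lit 1) (nat_lit 5) (nat_lit 3) (nat_lit 4) (nat_lit 1) (nat_lit 4) (nat_lit 496) (nat_lit 370) (nat_lit 334)) (XT.nd (nat_lit 78) (nat_lit 0) (nat_lit 0) (XT.lf (nat_lit 0) (nat_lit 468997448872) (nat_lit 152) (nat_lit 273267147021) (nat_lit 0) (nat_lit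 467688375762) (nat_lit 1) (nat_lit 5) (nat_lit 3) (nat_lit 4) (nat_lit 1) (nat_lit 4) (nat_lit 497) (nat_lit 370) (nat_lit 333)) (XT.lf (nat_lit 0) (nat_lit 510462735653) (nat_lit 152) (nat_lit 286935884193) (nat_lit 0) (nat_lit 509147693652) (nat_lit 1) (nat_lit 5) (nat_lit 3) (nat_lit 4) (nat_lit 1) (nat_lit 4) (nat_lit 498) (nat_lit 370) (nat_lit 332)))) (XT.nd (nat_lit 59280) (nat_lit 0) (nat_lit 228) (XT.lf (nat_lit 0) (nat_lit 555215058547) (nat_lit 152) (nat_lit 301759084153) (nat_lit 0) (nat_lit 553894489794) (nat_lit 1) (nat_lit 5) (nat_lit 3) (nat_lit 4) (nat_lit 1) (nat_lit 4) (nat_lit 499) (nat_lit 370) (nat_lit 331)) (XT.nd (nat_lit 78) (nat_lit 152) (nat_lit 0) (XT.lf (nat_lit 0) (nat_lit 28087280061) (nat_lit 76) (nat_lit 2121680937) (nat_lit 76) (nat_lit 2121680937) (nat_lit 6) (nat_lit 4) (nat_lit 7) (nat_lit 5) (nat_lit 7) (nat_lit 4) (nat_lit 458) (nat_lit 371) (nat_lit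 371)) (XT.lf (nat_lit 0) (nat_lit 5691479249) (nat_lit 152) (nat_lit 58058664237) (nat_lit 0) (nat_lit 5574748384) (nat_lit 4) (nat_lit 5) (nat_lit 6) (nat_lit 4) (nat_lit 4) (nat_lit 4) (nat_lit 459) (nat_lit 371) (nat_lit 370))))) (XT.nd (nat_lit 234) (nat_lit 76) (nat_lit 0) (XT.nd (nat_lit 78) (nat_lit 0) (nat_lit 0) (XT.lf (nat_lit 0) (nat_lit 15985475227) (nat_lit 152) (nat_lit 42626332302) (nat_lit 0) (nat_lit 15760660229) (nat_lit 4) (nat_lit 5) (nat_lit 6) (nat_lit 4) (nat_lit 4) (nat_lit 4) (nat_lit 460) (nat_lit 371) (nat_lit 369)) (XT.nd (nat_lit 78) (nat_lit 0) (nat_lit 0) (XT.lf (nat_lit 0) (nat_lit 26630064206) (nat_lit 152) (nat_lit 26912268989) (nat_lit 0) (nat_lit 26305171307) (nat_lit 4) (nat_lit 5) (nat_lit 6) (nat_lit 4) (nat_lit 4) (nat_lit 4) (nat_lit 461) (nat_lit 371) (nat_lit 368)) (XT.lf (nat_lit 0) (nat_lit 37688325233) (nat_lit 152) (nat_lit 10823353924) (nat_lit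 0) (nat_lit 37270767611) (nat_lit 4) (nat_lit 5) (nat_lit 6) (nat_lit 4) (nat_lit 4) (nat_lit 4) (nat_lit 462) (nat_lit 371) (nat_lit 367)))) (XT.nd (nat_lit 156) (nat_lit 0) (nat_lit 0) (XT.nd (nat_lit 78) (nat_lit 0) (nat_lit 0) (XT.lf (nat_lit 0) (nat_lit 5925404562) (nat_lit 76) (nat_lit 43392896353) (nat_lit 76) (nat_lit 42889538060) (nat_lit 3) (nat_lit 4) (nat_lit 4) (nat_lit 5) (nat_lit 4) (nat_lit 4) (nat_lit 463) (nat_lit 371) (nat_lit 366)) (XT.lf (nat_lit 0) (nat_lit 23619144807) (nat_lit 76) (nat_lit 38060441127) (nat_lit 76) (nat_lit 37477637769) (nat_lit 3) (nat_lit 4) (nat_lit 4) (nat_lit 5) (nat_lit 4) (nat_lit 4) (nat_lit 464) (nat_lit 371) (nat_lit 365))) (XT.nd (nat_lit 78) (nat_lit 0) (nat_lit 0) (XT.lf (nat_lit 0) (nat_lit 42004849645) (nat_lit 76) (nat_lit 32666012481) (nat_lit 76) (nat_lit 32009648878) (nat_lit 3) (nat_lit 4) (nat_lit 4) (nat_lit 5) (nat_lit 4) (nat_lit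 4) (nat_lit 465) (nat_lit 371) (nat_lit 364)) (XT.lf (nat_lit 0) (nat_lit 61191471399) (nat_lit 76) (nat_lit 27177643432) (nat_lit 76) (nat_lit 26453168491) (nat_lit 3) (nat_lit 4) (nat_lit 4) (nat_lit 5) (nat_lit 4) (nat_lit 4) (nat_lit 466) (nat_lit 371) (nat_lit 363)))))) (XT.nd (nat_lit 468) (nat_lit 0) (nat_lit 0) (XT.nd (nat_lit 234) (nat_lit 152) (nat_lit 0) (XT.nd (nat_lit 78) (nat_lit 0) (nat_lit 0) (XT.lf (nat_lit 0) (nat_lit 81292708570) (nat_lit 76) (nat_lit 21562810310) (nat_lit 76) (nat_lit 20775269315) (nat_lit 3) (nat_lit 4) (nat_lit 4) (nat_lit 5) (nat_lit 4) (nat_lit 4) (nat_lit 467) (nat_lit 371) (nat_lit 362)) (XT.nd (nat_lit 78) (nat_lit 0) (nat_lit 0) (XT.lf (nat_lit 0) (nat_lit 102427679600) (nat_lit 76) (nat_lit 15788240031) (nat_lit 76) (nat_lit 14942304542) (nat_lit 3) (nat_lit 4) (nat_lit 4) (nat_lit 5) (nat_lit 4) (nat_lit 4) (nat_lit 468) (nat_lit 371) (nat_lit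 361)) (XT.lf (nat_lit 0) (nat_lit 124721628761) (nat_lit 76) (nat_lit 9819712919) (nat_lit 76) (nat_lit 8919708454) (nat_lit 3) (nat_lit 4) (nat_lit 4) (nat_lit 5) (nat_lit 4) (nat_lit 4) (nat_lit 469) (nat_lit 371) (nat_lit 360)))) (XT.nd (nat_lit 78) (nat_lit 152) (nat_lit 0) (XT.lf (nat_lit 0) (nat_lit 148306668346) (nat_lit 76) (nat_lit 3621859924) (nat_lit 76) (nat_lit 2671791592) (nat_lit 3) (nat_lit 4) (nat_lit 4) (nat_lit 5) (nat_lit 4) (nat_lit 4) (nat_lit 470) (nat_lit 371) (nat_lit 359)) (XT.nd (nat_lit 78) (nat_lit 0) (nat_lit 0) (XT.lf (nat_lit 0) (nat_lit 3869504701) (nat_lit 152) (nat_lit 159841318540) (nat_lit 0) (nat_lit 2920529688) (nat_lit 1) (nat_lit 5) (nat_lit 3) (nat_lit 4) (nat_lit 1) (nat_lit 4) (nat_lit 471) (nat_lit 371) (nat_lit 358)) (XT.lf (nat_lit 0) (nat_lit 10790976870) (nat_lit 152) (nat_lit 159033057244) (nat_lit 0) (nat_lit 9801124050) (nat_lit 1) (nat_lit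 5) (nat_lit 3) (nat_lit 4) (nat_lit 1) (nat_lit 4) (nat_lit 472) (nat_lit 371) (nat_lit 357))))) (XT.nd (nat_lit 234) (nat_lit 0) (nat_lit 0) (XT.nd (nat_lit 78) (nat_lit 0) (nat_lit 0) (XT.lf (nat_lit 0) (nat_lit 18059433063) (nat_lit 152) (nat_lit 158577644217) (nat_lit 0) (nat_lit 17031730423) (nat_lit 1) (nat_lit 5) (nat_lit 3) (nat_lit 4) (nat_lit 1) (nat_lit 4) (nat_lit 473) (nat_lit 371) (nat_lit 356)) (XT.nd (nat_lit 78) (nat_lit 0) (nat_lit 0) (XT.lf (nat_lit 0) (nat_lit 25717945613) (nat_lit 152) (nat_lit 158472380717) (nat_lit 0) (nat_lit 24655196843) (nat_lit 1) (nat_lit 5) (nat_lit 3) (nat_lit 4) (nat_lit 1) (nat_lit 4) (nat_lit 474) (nat_lit 371) (nat_lit 355)) (XT.lf (nat_lit 0) (nat_lit 33811898298) (nat_lit 152) (nat_lit 158716642959) (nat_lit 0) (nat_lit 32716699407) (nat_lit 1) (nat_lit 5) (nat_lit 3) (nat_lit 4) (nat_lit 1) (nat_lit 4) (nat_lit 475) (nat_lit 371) (nat_lit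 354)))) (XT.nd (nat_lit 156) (nat_lit 0) (nat_lit 0) (XT.nd (nat_lit 78) (nat_lit 0) (nat_lit 0) (XT.lf (nat_lit 0) (nat_lit 42389255282) (nat_lit 152) (nat_lit 159311878423) (nat_lit 0) (nat_lit 41264009983) (nat_lit 1) (nat_lit 5) (nat_lit 3) (nat_lit 4) (nat_lit 1) (nat_lit 4) (nat_lit 476) (nat_lit 371) (nat_lit 353)) (XT.lf (nat_lit 0) (nat_lit 51500845348) (nat_lit 152) (nat_lit 160261614430) (nat_lit 0) (nat_lit 50347779301) (nat_lit 1) (nat_lit 5) (nat_lit 3) (nat_lit 4) (nat_lit 1) (nat_lit 4) (nat_lit 477) (nat_lit 371) (nat_lit 352))) (XT.nd (nat_lit 78) (nat_lit 0) (nat_lit 0) (XT.lf (nat_lit 0) (nat_lit 61200663102) (nat_lit 152) (nat_lit 161571479046) (nat_lit 0) (nat_lit 60021837103) (nat_lit 1) (nat_lit 5) (nat_lit 3) (nat_lit 4) (nat_lit 1) (nat_lit 4) (nat_lit 478) (nat_lit 371) (nat_lit 351)) (XT.lf (nat_lit 0) (nat_lit 71546188947) (nat_lit 152) (nat_lit 163249234431) (nat_lit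 0) (nat_lit 70343511141) (nat_lit 1) (nat_lit 5) (nat_lit 3) (nat_lit 4) (nat_lit 1) (nat_lit 4) (nat_lit 479) (nat_lit 371) (nat_lit 350))))))) (XT.nd (nat_lit 1014) (nat_lit 0) (nat_lit 0) (XT.nd (nat_lit 468) (nat_lit 0) (nat_lit 0) (XT.nd (nat_lit 234) (nat_lit 0) (nat_lit 0) (XT.nd (nat_lit 78) (nat_lit 0) (nat_lit 0) (XT.lf (nat_lit 0) (nat_lit 82598729703) (nat_lit 152) (nat_lit 165304822840) (nat_lit 0) (nat_lit 81373966889) (nat_lit 1) (nat_lit 5) (nat_lit 3) (nat_lit 4) (nat_lit 1) (nat_lit 4) (nat_lit 480) (nat_lit 371) (nat_lit 349)) (XT.nd (nat_lit 78) (nat_lit 0) (nat_lit 0) (XT.lf (nat_lit 0) (nat_lit 94423781906) (nat_lit 152) (nat_lit 167750425537) (nat_lit 0) (nat_lit 93178570013) (nat_lit 1) (nat_lit 5) (nat_lit 3) (nat_lit 4) (nat_lit 1) (nat_lit 4) (nat_lit 481) (nat_lit 371) (nat_lit 348)) (XT.lf (nat_lit 0) (nat_lit 107091419941) (nat_lit 152) (nat_lit 170600534982)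 (nat_lit 0) (nat_lit 105827273714) (nat_lit 1) (nat_lit 5) (nat_lit 3) (nat_lit 4) (nat_lit 1) (nat_lit 4) (nat_lit 482) (nat_lit 371) (nat_lit 347)))) (XT.nd (nat_lit 78) (nat_lit 0) (nat_lit 0) (XT.lf (nat_lit 0) (nat_lit 120676711293) (nat_lit 152) (nat_lit 173872040713) (nat_lit 0) (nat_lit 119395033275) (nat_lit 1) (nat_lit 5) (nat_lit 3) (nat_lit 4) (nat_lit 1) (nat_lit 4) (nat_lit 483) (nat_lit 371) (nat_lit 346)) (XT.nd (nat_lit 78) (nat_lit 0) (nat_lit 0) (XT.lf (nat_lit 0) (nat_lit 135260161391) (nat_lit 152) (nat_lit 177584329431) (nat_lit 0) (nat_lit 133962250234) (nat_lit 1) (nat_lit 5) (nat_lit 3) (nat_lit 4) (nat_lit 1) (nat_lit 4) (nat_lit 484) (nat_lit 371) (nat_lit 345)) (XT.lf (nat_lit 0) (nat_lit 150928190680) (nat_lit 152) (nat_lit 181759399884) (nat_lit 0) (nat_lit 149615248839) (nat_lit 1) (nat_lit 5) (nat_lit 3) (nat_lit 4) (nat_lit 1) (nat_lit 4) (nat_lit 485) (nat_lit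 371) (nat_lit 344))))) (XT.nd (nat_lit 234) (nat_lit 0) (nat_lit 0) (XT.nd (nat_lit 78) (nat_lit 0) (nat_lit 0) (XT.lf (nat_lit 0) (nat_lit 167773646742) (nat_lit 152) (nat_lit 186421993229) (nat_lit 0) (nat_lit 166446787600) (nat_lit 1) (nat_lit 5) (nat_lit 3) (nat_lit 4) (nat_lit 1) (nat_lit 4) (nat_lit 486) (nat_lit 371) (nat_lit 343)) (XT.nd (nat_lit 78) (nat_lit 0) (nat_lit 0) (XT.lf (nat_lit 0) (nat_lit 185896354501) (nat_lit 152) (nat_lit 191599739650) (nat_lit 0) (nat_lit 184556608970) (nat_lit 1) (nat_lit 5) (nat_lit 3) (nat_lit 4) (nat_lit 1) (nat_lit 4) (nat_lit 487) (nat_lit 371) (nat_lit 342)) (XT.lf (nat_lit 0) (nat_lit 205403707782) (nat_lit 152) (nat_lit 197323322088) (nat_lit 0) (nat_lit 204052030409) (nat_lit 1) (nat_lit 5) (nat_lit 3) (nat_lit 4) (nat_lit 1) (nat_lit 4) (nat_lit 488) (nat_lit 371) (nat_lit 341)))) (XT.nd (nat_lit 156) (nat_lit 0) (nat_lit 0) (XT.nd (nat_lit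 78) (nat_lit 0) (nat_lit 0) (XT.lf (nat_lit 0) (nat_lit 226411305714) (nat_lit 152) (nat_lit 203626658069) (nat_lit 0) (nat_lit 225048580339) (nat_lit 1) (nat_lit 5) (nat_lit 3) (nat_lit 4) (nat_lit 1) (nat_lit 4) (nat_lit 489) (nat_lit 371) (nat_lit 340)) (XT.lf (nat_lit 0) (nat_lit 249043637767) (nat_lit 152) (nat_lit 210547100696) (nat_lit 0) (nat_lit 247670682760) (nat_lit 1) (nat_lit 5) (nat_lit 3) (nat_lit 4) (nat_lit 1) (nat_lit 4) (nat_lit 490) (nat_lit 371) (nat_lit 339))) (XT.nd (nat_lit 78) (nat_lit 0) (nat_lit 0) (XT.lf (nat_lit 0) (nat_lit 273434821463) (nat_lit 152) (nat_lit 218125659997) (nat_lit 0) (nat_lit 272052394576) (nat_lit 1) (nat_lit 5) (nat_lit 3) (nat_lit 4) (nat_lit 1) (nat_lit 4) (nat_lit 491) (nat_lit 371) (nat_lit 338)) (XT.lf (nat_lit 0) (nat_lit 299729397152) (nat_lit 152) (nat_lit 226407245955) (nat_lit 0) (nat_lit 298338200005) (nat_lit 1) (nat_lit 5) (nat_lit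 3) (nat_lit 4) (nat_lit 1) (nat_lit 4) (nat_lit 492) (nat_lit 371) (nat_lit 337)))))) (XT.nd (nat_lit 59592) (nat_lit 0) (nat_lit 228) (XT.nd (nat_lit 234) (nat_lit 0) (nat_lit 0) (XT.nd (nat_lit 78) (nat_lit 0) (nat_lit 0) (XT.lf (nat_lit 0) (nat_lit 328083184541) (nat_lit 152) (nat_lit 235440934634) (nat_lit 0) (nat_lit 326683866782) (nat_lit 1) (nat_lit 5) (nat_lit 3) (nat_lit 4) (nat_lit 1) (nat_lit 4) (nat_lit 493) (nat_lit 371) (nat_lit 336)) (XT.nd (nat_lit 78) (nat_lit 0) (nat_lit 0) (XT.lf (nat_lit 0) (nat_lit 358664206073) (nat_lit 152) (nat_lit 245280259005) (nat_lit 0) (nat_lit 357257369230) (nat_lit 1) (nat_lit 5) (nat_lit 3) (nat_lit 4) (nat_lit 1) (nat_lit 4) (nat_lit 494) (nat_lit 371) (nat_lit 335)) (XT.lf (nat_lit 0) (nat_lit 391653682617) (nat_lit 152) (nat_lit 255983526175) (nat_lit 0) (nat_lit 390239883659) (nat_lit 1) (nat_lit 5) (nat_lit 3) (nat_lit 4) (nat_lit 1) (nat_lit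 4) (nat_lit 495) (nat_lit 371) (nat_lit 334)))) (XT.nd (nat_lit 156) (nat_lit 0) (nat_lit 0) (XT.nd (nat_lit 78) (nat_lit 0) (nat_lit 0) (XT.lf (nat_lit 0) (nat_lit 427247107367) (nat_lit 152) (nat_lit 267614162911) (nat_lit 0) (nat_lit 425826862006) (nat_lit 1) (nat_lit 5) (nat_lit 3) (nat_lit 4) (nat_lit 1) (nat_lit 4) (nat_lit 496) (nat_lit 371) (nat_lit 333)) (XT.lf (nat_lit 0) (nat_lit 465655404322) (nat_lit 152) (nat_lit 280241091507) (nat_lit 0) (nat_lit 464229190070) (nat_lit 1) (nat_lit 5) (nat_lit 3) (nat_lit 4) (nat_lit 1) (nat_lit 4) (nat_lit 497) (nat_lit 371) (nat_lit 332))) (XT.nd (nat_lit 78) (nat_lit 0) (nat_lit 0) (XT.lf (nat_lit 0) (nat_lit 507106178204) (nat_lit 152) (nat_lit 293939138204) (nat_lit 0) (nat_lit 505674437200) (nat_lit 1) (nat_lit 5) (nat_lit 3) (nat_lit 4) (nat_lit 1) (nat_lit 4) (nat_lit 498) (nat_lit 371) (nat_lit 331)) (XT.lf (nat_lit 0) (nat_lit 551845063230)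 (nat_lit 152) (nat_lit 308789476615) (nat_lit 0) (nat_lit 550408204863) (nat_lit 1) (nat_lit 5) (nat_lit 3) (nat_lit 4) (nat_lit 1) (nat_lit 4) (nat_lit 499) (nat_lit 371) (nat_lit 330))))) (XT.nd (nat_lit 234) (nat_lit 152) (nat_lit 0) (XT.nd (nat_lit 78) (nat_lit 0) (nat_lit 0) (XT.lf (nat_lit 0) (nat_lit 5285078894) (nat_lit 76) (nat_lit 11450412225) (nat_lit 76) (nat_lit 11450412225) (nat_lit 6) (nat_lit 4) (nat_lit 7) (nat_lit 5) (nat_lit 7) (nat_lit 4) (nat_lit 456) (nat_lit 372) (nat_lit 372)) (XT.nd (nat_lit 78) (nat_lit 0) (nat_lit 0) (XT.lf (nat_lit 0) (nat_lit 32755079912) (nat_lit 76) (nat_lit 13863981800) (nat_lit 76) (nat_lit 13731609000) (nat_lit 6) (nat_lit 4) (nat_lit 7) (nat_lit 5) (nat_lit 7) (nat_lit 4) (nat_lit 457) (nat_lit 372) (nat_lit 371)) (XT.lf (nat_lit 0) (nat_lit 55674341897) (nat_lit 76) (nat_lit 4627163320) (nat_lit 76) (nat_lit 4372223112) (nat_lit 6) (nat_lit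 4) (nat_lit 7) (nat_lit 5) (nat_lit 7) (nat_lit 4) (nat_lit 458) (nat_lit 372) (nat_lit 370)))) (XT.nd (nat_lit 156) (nat_lit 0) (nat_lit 0) (XT.nd (nat_lit 78) (nat_lit 0) (nat_lit 0) (XT.lf (nat_lit 0) (nat_lit 5306787771) (nat_lit 152) (nat_lit 59087747829) (nat_lit 0) (nat_lit 4955903440) (nat_lit 4) (nat_lit 5) (nat_lit 6) (nat_lit 4) (nat_lit 4) (nat_lit 4) (nat_lit 459) (nat_lit 372) (nat_lit 369)) (XT.lf (nat_lit 0) (nat_lit 15373415155) (nat_lit 152) (nat_lit 44113519344) (nat_lit 0) (nat_lit 14922452922) (nat_lit 4) (nat_lit 5) (nat_lit 6) (nat_lit 4) (nat_lit 4) (nat_lit 4) (nat_lit 460) (nat_lit 372) (nat_lit 368))) (XT.nd (nat_lit 78) (nat_lit 0) (nat_lit 0) (XT.lf (nat_lit 0) (nat_lit 25807477658) (nat_lit 152) (nat_lit 28823625894) (nat_lit 0) (nat_lit 25263850702) (nat_lit 4) (nat_lit 5) (nat_lit 6) (nat_lit 4) (nat_lit 4) (nat_lit 4) (nat_lit 461) (nat_lit 372) (nat_lit 367))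 (XT.lf (nat_lit 0) (nat_lit 36670806763) (nat_lit 152) (nat_lit 13127460701) (nat_lit 0) (nat_lit 36041379136) (nat_lit 4) (nat_lit 5) (nat_lit 6) (nat_lit 4) (nat_lit 4) (nat_lit 4) (nat_lit 462) (nat_lit 372) (nat_lit 366))))))))
noncomputable def xc9 : XT := (XT.nd (nat_lit 2028) (nat_lit 0) (nat_lit 0) (XT.nd (nat_lit 1014) (nat_lit 0) (nat_lit 0) (XT.nd (nat_lit 468) (nat_lit 152) (nat_lit 0) (XT.nd (nat_lit 234) (nat_lit 0) (nat_lit 0) (XT.nd (nat_lit 78) (nat_lit 0) (nat_lit 0) (XT.lf (nat_lit 0) (nat_lit 3169432168) (nat_lit 76) (nat_lit 44907829302) (nat_lit 76) (nat_lit 44198956610) (nat_lit 3) (nat_lit 4) (nat_lit 4) (nat_lit 5) (nat_lit 4) (nat_lit 4) (nat_lit 463) (nat_lit 372) (nat_lit 365)) (XT.nd (nat_lit 78) (nat_lit 0) (nat_lit 0) (XT.lf (nat_lit 0) (nat_lit 20515319227) (nat_lit 76) (nat_lit 39750673594) (nat_lit 76) (nat_lit 38968240658) (nat_lit 3) (nat_lit 4) (nat_lit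 4) (nat_lit 5) (nat_lit 4) (nat_lit 4) (nat_lit 464) (nat_lit 372) (nat_lit 364)) (XT.lf (nat_lit 0) (nat_lit 38578937781) (nat_lit 76) (nat_lit 34518559318) (nat_lit 76) (nat_lit 33668015043) (nat_lit 3) (nat_lit 4) (nat_lit 4) (nat_lit 5) (nat_lit 4) (nat_lit 4) (nat_lit 465) (nat_lit 372) (nat_lit 363)))) (XT.nd (nat_lit 78) (nat_lit 0) (nat_lit 0) (XT.lf (nat_lit 0) (nat_lit 57467331496) (nat_lit 76) (nat_lit 29180481351) (nat_lit 76) (nat_lit 28266871023) (nat_lit 3) (nat_lit 4) (nat_lit 4) (nat_lit 5) (nat_lit 4) (nat_lit 4) (nat_lit 466) (nat_lit 372) (nat_lit 362)) (XT.nd (nat_lit 78) (nat_lit 0) (nat_lit 0) (XT.lf (nat_lit 0) (nat_lit 77292431592) (nat_lit 76) (nat_lit 23704806639) (nat_lit 76) (nat_lit 22732801816) (nat_lit 3) (nat_lit 4) (nat_lit 4) (nat_lit 5) (nat_lit 4) (nat_lit 4) (nat_lit 467) (nat_lit 372) (nat_lit 361)) (XT.lf (nat_lit 0) (nat_lit 98171720146) (nat_lit 76)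 (nat_lit 18059086739) (nat_lit 76) (nat_lit 17033012941) (nat_lit 3) (nat_lit 4) (nat_lit 4) (nat_lit 5) (nat_lit 4) (nat_lit 4) (nat_lit 468) (nat_lit 372) (nat_lit 360))))) (XT.nd (nat_lit 234) (nat_lit 0) (nat_lit 0) (XT.nd (nat_lit 78) (nat_lit 152) (nat_lit 0) (XT.lf (nat_lit 0) (nat_lit 120228926273) (nat_lit 76) (nat_lit 12209865534) (nat_lit 76) (nat_lit 11133727868) (nat_lit 3) (nat_lit 4) (nat_lit 4) (nat_lit 5) (nat_lit 4) (nat_lit 4) (nat_lit 469) (nat_lit 372) (nat_lit 359)) (XT.nd (nat_lit 78) (nat_lit 152) (nat_lit 0) (XT.lf (nat_lit 0) (nat_lit 143594759345) (nat_lit 76) (nat_lit 6122480971) (nat_lit 76) (nat_lit 4999987873) (nat_lit 3) (nat_lit 4) (nat_lit 4) (nat_lit 5) (nat_lit 4) (nat_lit 4) (nat_lit 470) (nat_lit 372) (nat_lit 358)) (XT.lf (nat_lit 0) (nat_lit 1390280075) (nat_lit 152) (nat_lit 165090716362) (nat_lit 0) (nat_lit 280361223) (nat_lit 1) (nat_lit 5) (nat_lit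 3) (nat_lit 4) (nat_lit 1) (nat_lit 4) (nat_lit 471) (nat_lit 372) (nat_lit 357)))) (XT.nd (nat_lit 156) (nat_lit 0) (nat_lit 0) (XT.nd (nat_lit 78) (nat_lit 0) (nat_lit 0) (XT.lf (nat_lit 0) (nat_lit 8212361018) (nat_lit 152) (nat_lit 164483180630) (nat_lit 0) (nat_lit 7064592345) (nat_lit 1) (nat_lit 5) (nat_lit 3) (nat_lit 4) (nat_lit 1) (nat_lit 4) (nat_lit 472) (nat_lit 372) (nat_lit 356)) (XT.lf (nat_lit 0) (nat_lit 15388788298) (nat_lit 152) (nat_lit 164213624607) (nat_lit 0) (nat_lit 14205973495) (nat_lit 1) (nat_lit 5) (nat_lit 3) (nat_lit 4) (nat_lit 1) (nat_lit 4) (nat_lit 473) (nat_lit 372) (nat_lit 355))) (XT.nd (nat_lit 78) (nat_lit 0) (nat_lit 0) (XT.lf (nat_lit 0) (nat_lit 22962088892) (nat_lit 152) (nat_lit 164280450925) (nat_lit 0) (nat_lit 21746823969) (nat_lit 1) (nat_lit 5) (nat_lit 3) (nat_lit 4) (nat_lit 1) (nat_lit 4) (nat_lit 474) (nat_lit 372) (nat_lit 354)) (XT.lf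 (nat_lit 0) (nat_lit 30977141617) (nat_lit 152) (nat_lit 164684055591) (nat_lit 0) (nat_lit 29731830286) (nat_lit 1) (nat_lit 5) (nat_lit 3) (nat_lit 4) (nat_lit 1) (nat_lit 4) (nat_lit 475) (nat_lit 372) (nat_lit 353)))))) (XT.nd (nat_lit 468) (nat_lit 0) (nat_lit 0) (XT.nd (nat_lit 234) (nat_lit 0) (nat_lit 0) (XT.nd (nat_lit 78) (nat_lit 0) (nat_lit 0) (XT.lf (nat_lit 0) (nat_lit 39481443083) (nat_lit 152) (nat_lit 165426830337) (nat_lit 0) (nat_lit 38208311004) (nat_lit 1) (nat_lit 5) (nat_lit 3) (nat_lit 4) (nat_lit 1) (nat_lit 4) (nat_lit 476) (nat_lit 372) (nat_lit 352)) (XT.nd (nat_lit 78) (nat_lit 0) (nat_lit 0) (XT.lf (nat_lit 0) (nat_lit 48525389151) (nat_lit 152) (nat_lit 166513176791) (nat_lit 0) (nat_lit 47226497120) (nat_lit 1) (nat_lit 5) (nat_lit 3) (nat_lit 4) (nat_lit 1) (nat_lit 4) (nat_lit 477) (nat_lit 372) (nat_lit 351)) (XT.lf (nat_lit 0) (nat_lit 58162573573) (nat_lit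 152) (nat_lit 167949532560) (nat_lit 0) (nat_lit 56839829735) (nat_lit 1) (nat_lit 5) (nat_lit 3) (nat_lit 4) (nat_lit 1) (nat_lit 4) (nat_lit 478) (nat_lit 372) (nat_lit 350)))) (XT.nd (nat_lit 78) (nat_lit 0) (nat_lit 0) (XT.lf (nat_lit 0) (nat_lit 68450105593) (nat_lit 152) (nat_lit 169744409384) (nat_lit 0) (nat_lit 67105276748) (nat_lit 1) (nat_lit 5) (nat_lit 3) (nat_lit 4) (nat_lit 1) (nat_lit 4) (nat_lit 479) (nat_lit 372) (nat_lit 349)) (XT.nd (nat_lit 78) (nat_lit 0) (nat_lit 0) (XT.lf (nat_lit 0) (nat_lit 79448948362) (nat_lit 152) (nat_lit 171908443570) (nat_lit 0) (nat_lit 78083670436) (nat_lit 1) (nat_lit 5) (nat_lit 3) (nat_lit 4) (nat_lit 1) (nat_lit 4) (nat_lit 480) (nat_lit 372) (nat_lit 348)) (XT.lf (nat_lit 0) (nat_lit 91224280207) (nat_lit 152) (nat_lit 174454459023) (nat_lit 0) (nat_lit 89840067948) (nat_lit 1) (nat_lit 5) (nat_lit 3) (nat_lit 4) (nat_lit 1) (nat_lit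 4) (nat_lit 481) (nat_lit 372) (nat_lit 347))))) (XT.nd (nat_lit 234) (nat_lit 0) (nat_lit 0) (XT.nd (nat_lit 78) (nat_lit 0) (nat_lit 0) (XT.lf (nat_lit 0) (nat_lit 103845880874) (nat_lit 152) (nat_lit 177397543242) (nat_lit 0) (nat_lit 102444136824) (nat_lit 1) (nat_lit 5) (nat_lit 3) (nat_lit 4) (nat_lit 1) (nat_lit 4) (nat_lit 482) (nat_lit 372) (nat_lit 346)) (XT.nd (nat_lit 78) (nat_lit 0) (nat_lit 0) (XT.lf (nat_lit 0) (nat_lit 117388545032) (nat_lit 152) (nat_lit 180755136728) (nat_lit 0) (nat_lit 115970567843) (nat_lit 1) (nat_lit 5) (nat_lit 3) (nat_lit 4) (nat_lit 1) (nat_lit 4) (nat_lit 483) (nat_lit 372) (nat_lit 345)) (XT.lf (nat_lit 0) (nat_lit 131932525507) (nat_lit 152) (nat_lit 184547136329) (nat_lit 0) (nat_lit 130499517634) (nat_lit 1) (nat_lit 5) (nat_lit 3) (nat_lit 4) (nat_lit 1) (nat_lit 4) (nat_lit 484) (nat_lit 372) (nat_lit 344)))) (XT.nd (nat_lit 156) (nat_lit 0)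 (nat_lit 0) (XT.nd (nat_lit 78) (nat_lit 0) (nat_lit 0) (XT.lf (nat_lit 0) (nat_lit 147564008849) (nat_lit 152) (nat_lit 188796013155) (nat_lit 0) (nat_lit 146117083675) (nat_lit 1) (nat_lit 5) (nat_lit 3) (nat_lit 4) (nat_lit 1) (nat_lit 4) (nat_lit 485) (nat_lit 372) (nat_lit 343)) (XT.lf (nat_lit 0) (nat_lit 164375626071) (nat_lit 152) (nat_lit 193526945735) (nat_lit 0) (nat_lit 162915814507) (nat_lit 1) (nat_lit 5) (nat_lit 3) (nat_lit 4) (nat_lit 1) (nat_lit 4) (nat_lit 486) (nat_lit 372) (nat_lit 342))) (XT.nd (nat_lit 78) (nat_lit 0) (nat_lit 0) (XT.lf (nat_lit 0) (nat_lit 182467001570) (nat_lit 152) (nat_lit 198767969224) (nat_lit 0) (nat_lit 180995258165) (nat_lit 1) (nat_lit 5) (nat_lit 3) (nat_lit 4) (nat_lit 1) (nat_lit 4) (nat_lit 487) (nat_lit 372) (nat_lit 341)) (XT.lf (nat_lit 0) (nat_lit 201945343499) (nat_lit 152) (nat_lit 204550141542) (nat_lit 0) (nat_lit 200462552092)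 (nat_lit 1) (nat_lit 5) (nat_lit 3) (nat_lit 4) (nat_lit 1) (nat_lit 4) (nat_lit 488) (nat_lit 372) (nat_lit 340))))))) (XT.nd (nat_lit 59904) (nat_lit 0) (nat_lit 152) (XT.nd (nat_lit 468) (nat_lit 0) (nat_lit 0) (XT.nd (nat_lit 234) (nat_lit 0) (nat_lit 0) (XT.nd (nat_lit 78) (nat_lit 0) (nat_lit 0) (XT.lf (nat_lit 0) (nat_lit 222926079069) (nat_lit 152) (nat_lit 210907727410) (nat_lit 0) (nat_lit 221433058031) (nat_lit 1) (nat_lit 5) (nat_lit 3) (nat_lit 4) (nat_lit 1) (nat_lit 4) (nat_lit 489) (nat_lit 372) (nat_lit 339)) (XT.nd (nat_lit 78) (nat_lit 0) (nat_lit 0) (XT.lf (nat_lit 0) (nat_lit 245533538564) (nat_lit 152) (nat_lit 217878401414) (nat_lit 0) (nat_lit 244031045645) (nat_lit 1) (nat_lit 5) (nat_lit 3) (nat_lit 4) (nat_lit 1) (nat_lit 4) (nat_lit 490) (nat_lit 372) (nat_lit 338)) (XT.lf (nat_lit 0) (nat_lit 269901692115) (nat_lit 152) (nat_lit 225503471250) (nat_lit 0) (nat_lit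 268390428936) (nat_lit 1) (nat_lit 5) (nat_lit 3) (nat_lit 4) (nat_lit 1) (nat_lit 4) (nat_lit 491) (nat_lit 372) (nat_lit 337)))) (XT.nd (nat_lit 78) (nat_lit 0) (nat_lit 0) (XT.lf (nat_lit 0) (nat_lit 296174943594) (nat_lit 152) (nat_lit 233828122518) (nat_lit 0) (nat_lit 294655559804) (nat_lit 1) (nat_lit 5) (nat_lit 3) (nat_lit 4) (nat_lit 1) (nat_lit 4) (nat_lit 492) (nat_lit 372) (nat_lit 336)) (XT.nd (nat_lit 78) (nat_lit 0) (nat_lit 0) (XT.lf (nat_lit 0) (nat_lit 324508986345) (nat_lit 152) (nat_lit 242901686485) (nat_lit 0) (nat_lit 322982083470) (nat_lit 1) (nat_lit 5) (nat_lit 3) (nat_lit 4) (nat_lit 1) (nat_lit 4) (nat_lit 493) (nat_lit 372) (nat_lit 335)) (XT.lf (nat_lit 0) (nat_lit 355071725804) (nat_lit 152) (nat_lit 252777932418) (nat_lit 0) (nat_lit 353537860815) (nat_lit 1) (nat_lit 5) (nat_lit 3) (nat_lit 4) (nat_lit 1) (nat_lit 4) (nat_lit 494) (nat_lit 372) (nat_lit 334)))))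 (XT.nd (nat_lit 234) (nat_lit 0) (nat_lit 0) (XT.nd (nat_lit 78) (nat_lit 0) (nat_lit 0) (XT.lf (nat_lit 0) (nat_lit 388044274504) (nat_lit 152) (nat_lit 263515386218) (nat_lit 0) (nat_lit 386503963111) (nat_lit 1) (nat_lit 5) (nat_lit 3) (nat_lit 4) (nat_lit 1) (nat_lit 4) (nat_lit 495) (nat_lit 372) (nat_lit 333)) (XT.nd (nat_lit 78) (nat_lit 0) (nat_lit 0) (XT.lf (nat_lit 0) (nat_lit 423622025323) (nat_lit 152) (nat_lit 275177677243) (nat_lit 0) (nat_lit 422075745039) (nat_lit 1) (nat_lit 5) (nat_lit 3) (nat_lit 4) (nat_lit 1) (nat_lit 4) (nat_lit 496) (nat_lit 372) (nat_lit 332)) (XT.lf (nat_lit 0) (nat_lit 462015809380) (nat_lit 152) (nat_lit 287833915365) (nat_lit 0) (nat_lit 460464002344) (nat_lit 1) (nat_lit 5) (nat_lit 3) (nat_lit 4) (nat_lit 1) (nat_lit 4) (nat_lit 497) (nat_lit 372) (nat_lit 331)))) (XT.nd (nat_lit 59046) (nat_lit 0) (nat_lit 456) (XT.nd (nat_lit 78) (nat_lit 0)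 (nat_lit 0) (XT.lf (nat_lit 0) (nat_lit 503453145393) (nat_lit 152) (nat_lit 301559100513) (nat_lit 0) (nat_lit 501896220995) (nat_lit 1) (nat_lit 5) (nat_lit 3) (nat_lit 4) (nat_lit 1) (nat_lit 4) (nat_lit 498) (nat_lit 372) (nat_lit 330)) (XT.lf (nat_lit 0) (nat_lit 548179587947) (nat_lit 152) (nat_lit 316434567118) (nat_lit 0) (nat_lit 546617925250) (nat_lit 1) (nat_lit 5) (nat_lit 3) (nat_lit 4) (nat_lit 1) (nat_lit 4) (nat_lit 499) (nat_lit 372) (nat_lit 329))) (XT.nd (nat_lit 78) (nat_lit 0) (nat_lit 0) (XT.lf (nat_lit 0) (nat_lit 4697235240) (nat_lit 152) (nat_lit 15263085742) (nat_lit 0) (nat_lit 4697235240) (nat_lit 7) (nat_lit 5) (nat_lit 9) (nat_lit 4) (nat_lit 7) (nat_lit 4) (nat_lit 454) (nat_lit 373) (nat_lit 373)) (XT.lf (nat_lit 0) (nat_lit 21094241347) (nat_lit 152) (nat_lit 10659441407) (nat_lit 0) (nat_lit 20951278722) (nat_lit 7) (nat_lit 5) (nat_lit 9) (nat_lit 4) (nat_lit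 7) (nat_lit 4) (nat_lit 455) (nat_lit 373) (nat_lit 372)))))) (XT.nd (nat_lit 546) (nat_lit 76) (nat_lit 0) (XT.nd (nat_lit 234) (nat_lit 152) (nat_lit 0) (XT.nd (nat_lit 78) (nat_lit 0) (nat_lit 0) (XT.lf (nat_lit 0) (nat_lit 10029922104) (nat_lit 76) (nat_lit 23315330010) (nat_lit 76) (nat_lit 23039994586) (nat_lit 6) (nat_lit 4) (nat_lit 7) (nat_lit 5) (nat_lit 7) (nat_lit 4) (nat_lit 456) (nat_lit 373) (nat_lit 371)) (XT.nd (nat_lit 78) (nat_lit 0) (nat_lit 0) (XT.lf (nat_lit 0) (nat_lit 31714626003) (nat_lit 76) (nat_lit 14529916005) (nat_lit 76) (nat_lit 14132013173) (nat_lit 6) (nat_lit 4) (nat_lit 7) (nat_lit 5) (nat_lit 7) (nat_lit 4) (nat_lit 457) (nat_lit 373) (nat_lit 370)) (XT.lf (nat_lit 0) (nat_lit 54170722964) (nat_lit 76) (nat_lit 5525901825) (nat_lit 76) (nat_lit 5014510653) (nat_lit 6) (nat_lit 4) (nat_lit 7) (nat_lit 5) (nat_lit 7) (nat_lit 4) (nat_lit 458) (nat_lit 373)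 (nat_lit 369)))) (XT.nd (nat_lit 156) (nat_lit 0) (nat_lit 0) (XT.nd (nat_lit 78) (nat_lit 0) (nat_lit 0) (XT.lf (nat_lit 0) (nat_lit 4418394299) (nat_lit 152) (nat_lit 61152013285) (nat_lit 0) (nat_lit 3831277186) (nat_lit 4) (nat_lit 5) (nat_lit 6) (nat_lit 4) (nat_lit 4) (nat_lit 4) (nat_lit 459) (nat_lit 373) (nat_lit 368)) (XT.lf (nat_lit 0) (nat_lit 14274495206) (nat_lit 152) (nat_lit 46601954663) (nat_lit 0) (nat_lit 13594713370) (nat_lit 4) (nat_lit 5) (nat_lit 6) (nat_lit 4) (nat_lit 4) (nat_lit 4) (nat_lit 460) (nat_lit 373) (nat_lit 367))) (XT.nd (nat_lit 78) (nat_lit 0) (nat_lit 0) (XT.lf (nat_lit 0) (nat_lit 24513625787) (nat_lit 152) (nat_lit 31704811084) (nat_lit 0) (nat_lit 23748043280) (nat_lit 4) (nat_lit 5) (nat_lit 6) (nat_lit 4) (nat_lit 4) (nat_lit 4) (nat_lit 461) (nat_lit 373) (nat_lit 366)) (XT.lf (nat_lit 0) (nat_lit 35196462370) (nat_lit 152) (nat_lit 16372303180)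 (nat_lit 0) (nat_lit 34351434799) (nat_lit 4) (nat_lit 5) (nat_lit 6) (nat_lit 4) (nat_lit 4) (nat_lit 4) (nat_lit 462) (nat_lit 373) (nat_lit 365))))) (XT.nd (nat_lit 234) (nat_lit 0) (nat_lit 0) (XT.nd (nat_lit 78) (nat_lit 76) (nat_lit 0) (XT.lf (nat_lit 0) (nat_lit 46386310655) (nat_lit 152) (nat_lit 513571645) (nat_lit 0) (nat_lit 45467722839) (nat_lit 4) (nat_lit 5) (nat_lit 6) (nat_lit 4) (nat_lit 4) (nat_lit 4) (nat_lit 463) (nat_lit 373) (nat_lit 364)) (XT.nd (nat_lit 78) (nat_lit 0) (nat_lit 0) (XT.lf (nat_lit 0) (nat_lit 16493248132) (nat_lit 76) (nat_lit 41913738547) (nat_lit 76) (nat_lit 40927039392) (nat_lit 3) (nat_lit 4) (nat_lit 4) (nat_lit 5) (nat_lit 4) (nat_lit 4) (nat_lit 464) (nat_lit 373) (nat_lit 363)) (XT.lf (nat_lit 0) (nat_lit 34258638645) (nat_lit 76) (nat_lit 36831915353) (nat_lit 76) (nat_lit 35782150144) (nat_lit 3) (nat_lit 4) (nat_lit 4) (nat_lit 5) (nat_lit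 4) (nat_lit 4) (nat_lit 465) (nat_lit 373) (nat_lit 362)))) (XT.nd (nat_lit 156) (nat_lit 0) (nat_lit 0) (XT.nd (nat_lit 78) (nat_lit 0) (nat_lit 0) (XT.lf (nat_lit 0) (nat_lit 52870895285) (nat_lit 76) (nat_lit 31632995796) (nat_lit 76) (nat_lit 30524836093) (nat_lit 3) (nat_lit 4) (nat_lit 4) (nat_lit 5) (nat_lit 4) (nat_lit 4) (nat_lit 466) (nat_lit 373) (nat_lit 361)) (XT.lf (nat_lit 0) (nat_lit 72440312905) (nat_lit 76) (nat_lit 26286171463) (nat_lit 76) (nat_lit 25123942784) (nat_lit 3) (nat_lit 4) (nat_lit 4) (nat_lit 5) (nat_lit 4) (nat_lit 4) (nat_lit 467) (nat_lit 373) (nat_lit 360))) (XT.nd (nat_lit 78) (nat_lit 0) (nat_lit 0) (XT.lf (nat_lit 0) (nat_lit 93082858425) (nat_lit 76) (nat_lit 20759757471) (nat_lit 76) (nat_lit 19547464925) (nat_lit 3) (nat_lit 4) (nat_lit 4) (nat_lit 5) (nat_lit 4) (nat_lit 4) (nat_lit 468) (nat_lit 373) (nat_lit 359)) (XT.lf (nat_lit 0) (nat_lit 114920858040)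 (nat_lit 76) (nat_lit 15021004697) (nat_lit 76) (nat_lit 13762356719) (nat_lit 3) (nat_lit 4) (nat_lit 4) (nat_lit 5) (nat_lit 4) (nat_lit 4) (nat_lit 469) (nat_lit 373) (nat_lit 358))))))))
noncomputable def xc10 : XT := (XT.nd (nat_lit 2028) (nat_lit 0) (nat_lit 0) (XT.nd (nat_lit 1014) (nat_lit 0) (nat_lit 0) (XT.nd (nat_lit 468) (nat_lit 0) (nat_lit 0) (XT.nd (nat_lit 234) (nat_lit 0) (nat_lit 0) (XT.nd (nat_lit 78) (nat_lit 152) (nat_lit 0) (XT.lf (nat_lit 0) (nat_lit 138083722118) (nat_lit 76) (nat_lit 9035905720) (nat_lit 76) (nat_lit 7734336046) (nat_lit 3) (nat_lit 4) (nat_lit 4) (nat_lit 5) (nat_lit 4) (nat_lit 4) (nat_lit 470) (nat_lit 373) (nat_lit 357)) (XT.nd (nat_lit 78) (nat_lit 152) (nat_lit 0) (XT.lf (nat_lit 0) (nat_lit 162708712077) (nat_lit 76) (nat_lit 2768993285) (nat_lit 76) (nat_lit 1427681299) (nat_lit 3) (nat_lit 4) (nat_lit 4) (nat_lit 5) (nat_lit 4) (nat_lit 4)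 (nat_lit 471) (nat_lit 373) (nat_lit 356)) (XT.lf (nat_lit 0) (nat_lit 5236035759) (nat_lit 152) (nat_lit 170755896455) (nat_lit 0) (nat_lit 3923549642) (nat_lit 1) (nat_lit 5) (nat_lit 3) (nat_lit 4) (nat_lit 1) (nat_lit 4) (nat_lit 472) (nat_lit 373) (nat_lit 355)))) (XT.nd (nat_lit 78) (nat_lit 0) (nat_lit 0) (XT.lf (nat_lit 0) (nat_lit 12327251083) (nat_lit 152) (nat_lit 170658430250) (nat_lit 0) (nat_lit 10982314845) (nat_lit 1) (nat_lit 5) (nat_lit 3) (nat_lit 4) (nat_lit 1) (nat_lit 4) (nat_lit 473) (nat_lit 373) (nat_lit 354)) (XT.nd (nat_lit 78) (nat_lit 0) (nat_lit 0) (XT.lf (nat_lit 0) (nat_lit 19821651717) (nat_lit 152) (nat_lit 170884598993) (nat_lit 0) (nat_lit 18446669071) (nat_lit 1) (nat_lit 5) (nat_lit 3) (nat_lit 4) (nat_lit 1) (nat_lit 4) (nat_lit 474) (nat_lit 373) (nat_lit 353)) (XT.lf (nat_lit 0) (nat_lit 27763648924) (nat_lit 152) (nat_lit 171435742941) (nat_lit 0)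 (nat_lit 26360845531) (nat_lit 1) (nat_lit 5) (nat_lit 3) (nat_lit 4) (nat_lit 1) (nat_lit 4) (nat_lit 475) (nat_lit 373) (nat_lit 352))))) (XT.nd (nat_lit 234) (nat_lit 0) (nat_lit 0) (XT.nd (nat_lit 78) (nat_lit 0) (nat_lit 0) (XT.lf (nat_lit 0) (nat_lit 36200306392) (nat_lit 152) (nat_lit 172315128133) (nat_lit 0) (nat_lit 34771743047) (nat_lit 1) (nat_lit 5) (nat_lit 3) (nat_lit 4) (nat_lit 1) (nat_lit 4) (nat_lit 476) (nat_lit 373) (nat_lit 351)) (XT.nd (nat_lit 78) (nat_lit 0) (nat_lit 0) (XT.lf (nat_lit 0) (nat_lit 45181619128) (nat_lit 152) (nat_lit 173527965740) (nat_lit 0) (nat_lit 43729203975) (nat_lit 1) (nat_lit 5) (nat_lit 3) (nat_lit 4) (nat_lit 1) (nat_lit 4) (nat_lit 477) (nat_lit 373) (nat_lit 350)) (XT.lf (nat_lit 0) (nat_lit 54760809725) (nat_lit 152) (nat_lit 175081442949) (nat_lit 0) (nat_lit 53286309566) (nat_lit 1) (nat_lit 5) (nat_lit 3) (nat_lit 4) (nat_lit 1) (nat_lit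 4) (nat_lit 478) (nat_lit 373) (nat_lit 349)))) (XT.nd (nat_lit 156) (nat_lit 0) (nat_lit 0) (XT.nd (nat_lit 78) (nat_lit 0) (nat_lit 0) (XT.lf (nat_lit 0) (nat_lit 64994643758) (nat_lit 152) (nat_lit 176984765549) (nat_lit 0) (nat_lit 63499694518) (nat_lit 1) (nat_lit 5) (nat_lit 3) (nat_lit 4) (nat_lit 1) (nat_lit 4) (nat_lit 479) (nat_lit 373) (nat_lit 348)) (XT.lf (nat_lit 0) (nat_lit 75943766169) (nat_lit 152) (nat_lit 179249212491) (nat_lit 0) (nat_lit 74429882595) (nat_lit 1) (nat_lit 5) (nat_lit 3) (nat_lit 4) (nat_lit 1) (nat_lit 4) (nat_lit 480) (nat_lit 373) (nat_lit 347))) (XT.nd (nat_lit 78) (nat_lit 0) (nat_lit 0) (XT.lf (nat_lit 0) (nat_lit 87673060646) (nat_lit 152) (nat_lit 181888202718) (nat_lit 0) (nat_lit 86141645282) (nat_lit 1) (nat_lit 5) (nat_lit 3) (nat_lit 4) (nat_lit 1) (nat_lit 4) (nat_lit 481) (nat_lit 373) (nat_lit 346)) (XT.lf (nat_lit 0) (nat_lit 100252034119)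 (nat_lit 152) (nat_lit 184917374692) (nat_lit 0) (nat_lit 98704385616) (nat_lit 1) (nat_lit 5) (nat_lit 3) (nat_lit 4) (nat_lit 1) (nat_lit 4) (nat_lit 482) (nat_lit 373) (nat_lit 345)))))) (XT.nd (nat_lit 468) (nat_lit 0) (nat_lit 0) (XT.nd (nat_lit 234) (nat_lit 0) (nat_lit 0) (XT.nd (nat_lit 78) (nat_lit 0) (nat_lit 0) (XT.lf (nat_lit 0) (nat_lit 113755228654) (nat_lit 152) (nat_lit 188354679060) (nat_lit 0) (nat_lit 112192549467) (nat_lit 1) (nat_lit 5) (nat_lit 3) (nat_lit 4) (nat_lit 1) (nat_lit 4) (nat_lit 483) (nat_lit 373) (nat_lit 344)) (XT.nd (nat_lit 78) (nat_lit 0) (nat_lit 0) (XT.lf (nat_lit 0) (nat_lit 128262663182) (nat_lit 152) (nat_lit 192220485035) (nat_lit 0) (nat_lit 126686066693) (nat_lit 1) (nat_lit 5) (nat_lit 3) (nat_lit 4) (nat_lit 1) (nat_lit 4) (nat_lit 484) (nat_lit 373) (nat_lit 343)) (XT.lf (nat_lit 0) (nat_lit 143860307683) (nat_lit 152) (nat_lit 196537701095)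 (nat_lit 0) (nat_lit 142270824806) (nat_lit 1) (nat_lit 5) (nat_lit 3) (nat_lit 4) (nat_lit 1) (nat_lit 4) (nat_lit 485) (nat_lit 373) (nat_lit 342)))) (XT.nd (nat_lit 78) (nat_lit 0) (nat_lit 0) (XT.lf (nat_lit 0) (nat_lit 160640592646) (nat_lit 152) (nat_lit 201331910744) (nat_lit 0) (nat_lit 159039177926) (nat_lit 1) (nat_lit 5) (nat_lit 3) (nat_lit 4) (nat_lit 1) (nat_lit 4) (nat_lit 486) (nat_lit 373) (nat_lit 341)) (XT.nd (nat_lit 78) (nat_lit 0) (nat_lit 0) (XT.lf (nat_lit 0) (nat_lit 178702956794) (nat_lit 152) (nat_lit 206631524113) (nat_lit 0) (nat_lit 177090494073) (nat_lit 1) (nat_lit 5) (nat_lit 3) (nat_lit 4) (nat_lit 1) (nat_lit 4) (nat_lit 487) (nat_lit 373) (nat_lit 340)) (XT.lf (nat_lit 0) (nat_lit 198154436361) (nat_lit 152) (nat_lit 212467946318) (nat_lit 0) (nat_lit 196531744008) (nat_lit 1) (nat_lit 5) (nat_lit 3) (nat_lit 4) (nat_lit 1) (nat_lit 4) (nat_lit 488) (nat_lit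 373) (nat_lit 339))))) (XT.nd (nat_lit 234) (nat_lit 0) (nat_lit 0) (XT.nd (nat_lit 78) (nat_lit 0) (nat_lit 0) (XT.lf (nat_lit 0) (nat_lit 219110299373) (nat_lit 152) (nat_lit 218875763564) (nat_lit 0) (nat_lit 217478135139) (nat_lit 1) (nat_lit 5) (nat_lit 3) (nat_lit 4) (nat_lit 1) (nat_lit 4) (nat_lit 489) (nat_lit 373) (nat_lit 338)) (XT.nd (nat_lit 78) (nat_lit 0) (nat_lit 0) (XT.lf (nat_lit 0) (nat_lit 241694728722) (nat_lit 152) (nat_lit 225892948102) (nat_lit 0) (nat_lit 240053794228) (nat_lit 1) (nat_lit 5) (nat_lit 3) (nat_lit 4) (nat_lit 1) (nat_lit 4) (nat_lit 490) (nat_lit 373) (nat_lit 337)) (XT.lf (nat_lit 0) (nat_lit 266041558063) (nat_lit 152) (nat_lit 233561083249) (nat_lit 0) (nat_lit 264392502958) (nat_lit 1) (nat_lit 5) (nat_lit 3) (nat_lit 4) (nat_lit 1) (nat_lit 4) (nat_lit 491) (nat_lit 373) (nat_lit 336)))) (XT.nd (nat_lit 156) (nat_lit 0) (nat_lit 0) (XT.nd (nat_lit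 78) (nat_lit 0) (nat_lit 0) (XT.lf (nat_lit 0) (nat_lit 292295064904) (nat_lit 152) (nat_lit 241925609804) (nat_lit 0) (nat_lit 290638490715) (nat_lit 1) (nat_lit 5) (nat_lit 3) (nat_lit 4) (nat_lit 1) (nat_lit 4) (nat_lit 492) (nat_lit 373) (nat_lit 335)) (XT.lf (nat_lit 0) (nat_lit 320610825582) (nat_lit 152) (nat_lit 251036095332) (nat_lit 0) (nat_lit 318947289278) (nat_lit 1) (nat_lit 5) (nat_lit 3) (nat_lit 4) (nat_lit 1) (nat_lit 4) (nat_lit 493) (nat_lit 373) (nat_lit 334))) (XT.nd (nat_lit 78) (nat_lit 0) (nat_lit 0) (XT.lf (nat_lit 0) (nat_lit 351156637197) (nat_lit 152) (nat_lit 260946527896) (nat_lit 0) (nat_lit 349486654490) (nat_lit 1) (nat_lit 5) (nat_lit 3) (nat_lit 4) (nat_lit 1) (nat_lit 4) (nat_lit 494) (nat_lit 373) (nat_lit 333)) (XT.lf (nat_lit 0) (nat_lit 384113511966) (nat_lit 152) (nat_lit 271715635986) (nat_lit 0) (nat_lit 382437560367) (nat_lit 1) (nat_lit 5) (nat_lit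 3) (nat_lit 4) (nat_lit 1) (nat_lit 4) (nat_lit 495) (nat_lit 373) (nat_lit 332))))))) (XT.nd (nat_lit 59748) (nat_lit 0) (nat_lit 0) (XT.nd (nat_lit 59202) (nat_lit 0) (nat_lit 228) (XT.nd (nat_lit 234) (nat_lit 0) (nat_lit 0) (XT.nd (nat_lit 78) (nat_lit 0) (nat_lit 0) (XT.lf (nat_lit 0) (nat_lit 419676749887) (nat_lit 152) (nat_lit 283407236537) (nat_lit 0) (nat_lit 417995271537) (nat_lit 1) (nat_lit 5) (nat_lit 3) (nat_lit 4) (nat_lit 1) (nat_lit 4) (nat_lit 496) (nat_lit 373) (nat_lit 331)) (XT.nd (nat_lit 78) (nat_lit 0) (nat_lit 0) (XT.lf (nat_lit 0) (nat_lit 458057096074) (nat_lit 152) (nat_lit 296090613109) (nat_lit 0) (nat_lit 456370500361) (nat_lit 1) (nat_lit 5) (nat_lit 3) (nat_lit 4) (nat_lit 1) (nat_lit 4) (nat_lit 497) (nat_lit 373) (nat_lit 330)) (XT.lf (nat_lit 0) (nat_lit 499481989616) (nat_lit 152) (nat_lit 309840926452) (nat_lit 0) (nat_lit 497790655605) (nat_lit 1) (nat_lit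 5) (nat_lit 3) (nat_lit 4) (nat_lit 1) (nat_lit 4) (nat_lit 498) (nat_lit 373) (nat_lit 329)))) (XT.nd (nat_lit 58812) (nat_lit 0) (nat_lit 608) (XT.lf (nat_lit 0) (nat_lit 544196911364) (nat_lit 152) (nat_lit 324739659904) (nat_lit 0) (nat_lit 542501190039) (nat_lit 1) (nat_lit 5) (nat_lit 3) (nat_lit 4) (nat_lit 1) (nat_lit 4) (nat_lit 499) (nat_lit 373) (nat_lit 328)) (XT.nd (nat_lit 78) (nat_lit 0) (nat_lit 0) (XT.lf (nat_lit 0) (nat_lit 9213538093) (nat_lit 76) (nat_lit 6217362281) (nat_lit 76) (nat_lit 6217362281) (nat_lit 9) (nat_lit 4) (nat_lit 10) (nat_lit 5) (nat_lit 10) (nat_lit 4) (nat_lit 452) (nat_lit 374) (nat_lit 374)) (XT.lf (nat_lit 0) (nat_lit 42453254068) (nat_lit 76) (nat_lit 1953157518) (nat_lit 76) (nat_lit 1791037902) (nat_lit 9) (nat_lit 4) (nat_lit 10) (nat_lit 5) (nat_lit 10) (nat_lit 4) (nat_lit 453) (nat_lit 374) (nat_lit 373))))) (XT.nd (nat_lit 234) (nat_lit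 152) (nat_lit 0) (XT.nd (nat_lit 78) (nat_lit 76) (nat_lit 0) (XT.lf (nat_lit 0) (nat_lit 9267791307) (nat_lit 152) (nat_lit 31090951834) (nat_lit 0) (nat_lit 8970429049) (nat_lit 7) (nat_lit 5) (nat_lit 9) (nat_lit 4) (nat_lit 7) (nat_lit 4) (nat_lit 454) (nat_lit 374) (nat_lit 372)) (XT.nd (nat_lit 78) (nat_lit 76) (nat_lit 0) (XT.lf (nat_lit 0) (nat_lit 20707304020) (nat_lit 152) (nat_lit 11747166524) (nat_lit 0) (nat_lit 20277568961) (nat_lit 7) (nat_lit 5) (nat_lit 9) (nat_lit 4) (nat_lit 7) (nat_lit 4) (nat_lit 455) (nat_lit 374) (nat_lit 371)) (XT.lf (nat_lit 0) (nat_lit 8406013657) (nat_lit 76) (nat_lit 24285967596) (nat_lit 76) (nat_lit 23733665130) (nat_lit 6) (nat_lit 4) (nat_lit 7) (nat_lit 5) (nat_lit 7) (nat_lit 4) (nat_lit 456) (nat_lit 374) (nat_lit 370)))) (XT.nd (nat_lit 156) (nat_lit 152) (nat_lit 0) (XT.nd (nat_lit 78) (nat_lit 0) (nat_lit 0) (XT.lf (nat_lit 0) (nat_lit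 29627552532) (nat_lit 76) (nat_lit 15733357892) (nat_lit 76) (nat_lit 15067567086) (nat_lit 6) (nat_lit 4) (nat_lit 7) (nat_lit 5) (nat_lit 7) (nat_lit 4) (nat_lit 457) (nat_lit 374) (nat_lit 369)) (XT.lf (nat_lit 0) (nat_lit 51654792990) (nat_lit 76) (nat_lit 6944903250) (nat_lit 76) (nat_lit 6174030647) (nat_lit 6) (nat_lit 4) (nat_lit 7) (nat_lit 5) (nat_lit 7) (nat_lit 4) (nat_lit 458) (nat_lit 374) (nat_lit 368))) (XT.nd (nat_lit 78) (nat_lit 0) (nat_lit 0) (XT.lf (nat_lit 0) (nat_lit 3021034278) (nat_lit 152) (nat_lit 64263693291) (nat_lit 0) (nat_lit 2194205171) (nat_lit 4) (nat_lit 5) (nat_lit 6) (nat_lit 4) (nat_lit 4) (nat_lit 4) (nat_lit 459) (nat_lit 374) (nat_lit 367)) (XT.lf (nat_lit 0) (nat_lit 12682203263) (nat_lit 152) (nat_lit 50106384541) (nat_lit 0) (nat_lit 11769573486) (nat_lit 4) (nat_lit 5) (nat_lit 6) (nat_lit 4) (nat_lit 4) (nat_lit 4) (nat_lit 460) (nat_lit 374)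 (nat_lit 366)))))) (XT.nd (nat_lit 546) (nat_lit 152) (nat_lit 0) (XT.nd (nat_lit 234) (nat_lit 76) (nat_lit 0) (XT.nd (nat_lit 78) (nat_lit 0) (nat_lit 0) (XT.lf (nat_lit 0) (nat_lit 22740841323) (nat_lit 152) (nat_lit 35572898251) (nat_lit 0) (nat_lit 21748766481) (nat_lit 4) (nat_lit 5) (nat_lit 6) (nat_lit 4) (nat_lit 4) (nat_lit 4) (nat_lit 461) (nat_lit 374) (nat_lit 365)) (XT.nd (nat_lit 78) (nat_lit 0) (nat_lit 0) (XT.lf (nat_lit 0) (nat_lit 33256555201) (nat_lit 152) (nat_lit 20577110059) (nat_lit 0) (nat_lit 32190920114) (nat_lit 4) (nat_lit 5) (nat_lit 6) (nat_lit 4) (nat_lit 4) (nat_lit 4) (nat_lit 462) (nat_lit 374) (nat_lit 364)) (XT.lf (nat_lit 0) (nat_lit 44291660241) (nat_lit 152) (nat_lit 5030156035) (nat_lit 0) (nat_lit 43157913816) (nat_lit 4) (nat_lit 5) (nat_lit 6) (nat_lit 4) (nat_lit 4) (nat_lit 4) (nat_lit 463) (nat_lit 374) (nat_lit 363)))) (XT.nd (nat_lit 156) (nat_lit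 0) (nat_lit 0) (XT.nd (nat_lit 78) (nat_lit 0) (nat_lit 0) (XT.lf (nat_lit 0) (nat_lit 11529097024) (nat_lit 76) (nat_lit 44562454147) (nat_lit 76) (nat_lit 43365641668) (nat_lit 3) (nat_lit 4) (nat_lit 4) (nat_lit 5) (nat_lit 4) (nat_lit 4) (nat_lit 464) (nat_lit 374) (nat_lit 362)) (XT.lf (nat_lit 0) (nat_lit 29018350463) (nat_lit 76) (nat_lit 39619789363) (nat_lit 76) (nat_lit 38364582390) (nat_lit 3) (nat_lit 4) (nat_lit 4) (nat_lit 5) (nat_lit 4) (nat_lit 4) (nat_lit 465) (nat_lit 374) (nat_lit 361))) (XT.nd (nat_lit 78) (nat_lit 0) (nat_lit 0) (XT.lf (nat_lit 0) (nat_lit 47374924626) (nat_lit 76) (nat_lit 34549720185) (nat_lit 76) (nat_lit 33240444236) (nat_lit 3) (nat_lit 4) (nat_lit 4) (nat_lit 5) (nat_lit 4) (nat_lit 4) (nat_lit 466) (nat_lit 374) (nat_lit 360)) (XT.lf (nat_lit 0) (nat_lit 66707599213) (nat_lit 76) (nat_lit 29322201760) (nat_lit 76) (nat_lit 27962861944) (nat_lit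 3) (nat_lit 4) (nat_lit 4) (nat_lit 5) (nat_lit 4) (nat_lit 4) (nat_lit 467) (nat_lit 374) (nat_lit 359))))) (XT.nd (nat_lit 234) (nat_lit 152) (nat_lit 0) (XT.nd (nat_lit 78) (nat_lit 0) (nat_lit 0) (XT.lf (nat_lit 0) (nat_lit 87130938220) (nat_lit 76) (nat_lit 23906256199) (nat_lit 76) (nat_lit 22500560951) (nat_lit 3) (nat_lit 4) (nat_lit 4) (nat_lit 5) (nat_lit 4) (nat_lit 4) (nat_lit 468) (nat_lit 374) (nat_lit 358)) (XT.nd (nat_lit 78) (nat_lit 0) (nat_lit 0) (XT.lf (nat_lit 0) (nat_lit 108765968842) (nat_lit 76) (nat_lit 18269789012) (nat_lit 76) (nat_lit 16821172066) (nat_lit 3) (nat_lit 4) (nat_lit 4) (nat_lit 5) (nat_lit 4) (nat_lit 4) (nat_lit 469) (nat_lit 374) (nat_lit 357)) (XT.lf (nat_lit 0) (nat_lit 131740898668) (nat_lit 76) (nat_lit 12379398910) (nat_lit 76) (nat_lit 10891039653) (nat_lit 3) (nat_lit 4) (nat_lit 4) (nat_lit 5) (nat_lit 4) (nat_lit 4) (nat_lit 470) (nat_lit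 374) (nat_lit 356)))) (XT.nd (nat_lit 156) (nat_lit 0) (nat_lit 0) (XT.nd (nat_lit 78) (nat_lit 152) (nat_lit 0) (XT.lf (nat_lit 0) (nat_lit 156191875429) (nat_lit 76) (nat_lit 6200179878) (nat_lit 76) (nat_lit 4675022185) (nat_lit 3) (nat_lit 4) (nat_lit 4) (nat_lit 5) (nat_lit 4) (nat_lit 4) (nat_lit 471) (nat_lit 374) (nat_lit 355)) (XT.lf (nat_lit 0) (nat_lit 1844363610) (nat_lit 152) (nat_lit 177888376368) (nat_lit 0) (nat_lit 359382353) (nat_lit 1) (nat_lit 5) (nat_lit 3) (nat_lit 4) (nat_lit 1) (nat_lit 4) (nat_lit 472) (nat_lit 374) (nat_lit 354))) (XT.nd (nat_lit 78) (nat_lit 0) (nat_lit 0) (XT.lf (nat_lit 0) (nat_lit 8856678974) (nat_lit 152) (nat_lit 177950252588) (nat_lit 0) (nat_lit 7341651309) (nat_lit 1) (nat_lit 5) (nat_lit 3) (nat_lit 4) (nat_lit 1) (nat_lit 4) (nat_lit 473) (nat_lit 374) (nat_lit 353)) (XT.lf (nat_lit 0) (nat_lit 16278024090) (nat_lit 152) (nat_lit 178323960612)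 (nat_lit 0) (nat_lit 14735175677) (nat_lit 1) (nat_lit 5) (nat_lit 3) (nat_lit 4) (nat_lit 1) (nat_lit 4) (nat_lit 474) (nat_lit 374) (nat_lit 352))))))))
noncomputable def xc11 : XT := (XT.nd (nat_lit 60684) (nat_lit 0) (nat_lit 0) (XT.nd (nat_lit 1014) (nat_lit 0) (nat_lit 0) (XT.nd (nat_lit 468) (nat_lit 0) (nat_lit 0) (XT.nd (nat_lit 234) (nat_lit 0) (nat_lit 0) (XT.nd (nat_lit 78) (nat_lit 0) (nat_lit 0) (XT.lf (nat_lit 0) (nat_lit 24152377300) (nat_lit 152) (nat_lit 179011715006) (nat_lit 0) (nat_lit 22583768935) (nat_lit 1) (nat_lit 5) (nat_lit 3) (nat_lit 4) (nat_lit 1) (nat_lit 4) (nat_lit 475) (nat_lit 374) (nat_lit 351)) (XT.nd (nat_lit 78) (nat_lit 0) (nat_lit 0) (XT.lf (nat_lit 0) (nat_lit 32526401436) (nat_lit 152) (nat_lit 180017591352) (nat_lit 0) (nat_lit 30933941264) (nat_lit 1) (nat_lit 5) (nat_lit 3) (nat_lit 4) (nat_lit 1) (nat_lit 4) (nat_lit 476) (nat_lit 374) (nat_lit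 350)) (XT.lf (nat_lit 0) (nat_lit 41449720346) (nat_lit 152) (nat_lit 181347550398) (nat_lit 0) (nat_lit 39835175167) (nat_lit 1) (nat_lit 5) (nat_lit 3) (nat_lit 4) (nat_lit 1) (nat_lit 4) (nat_lit 477) (nat_lit 374) (nat_lit 349)))) (XT.nd (nat_lit 78) (nat_lit 0) (nat_lit 0) (XT.lf (nat_lit 0) (nat_lit 50975212957) (nat_lit 152) (nat_lit 183009473384) (nat_lit 0) (nat_lit 49340218697) (nat_lit 1) (nat_lit 5) (nat_lit 3) (nat_lit 4) (nat_lit 1) (nat_lit 4) (nat_lit 478) (nat_lit 374) (nat_lit 348)) (XT.nd (nat_lit 78) (nat_lit 0) (nat_lit 0) (XT.lf (nat_lit 0) (nat_lit 61159326631) (nat_lit 152) (nat_lit 185013208740) (nat_lit 0) (nat_lit 59505398038) (nat_lit 1) (nat_lit 5) (nat_lit 3) (nat_lit 4) (nat_lit 1) (nat_lit 4) (nat_lit 479) (nat_lit 374) (nat_lit 347)) (XT.lf (nat_lit 0) (nat_lit 72062411674) (nat_lit 152) (nat_lit 187370630456) (nat_lit 0) (nat_lit 70390951290) (nat_lit 1) (nat_lit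 5) (nat_lit 3) (nat_lit 4) (nat_lit 1) (nat_lit 4) (nat_lit 480) (nat_lit 374) (nat_lit 346))))) (XT.nd (nat_lit 234) (nat_lit 0) (nat_lit 0) (XT.nd (nat_lit 78) (nat_lit 0) (nat_lit 0) (XT.lf (nat_lit 0) (nat_lit 83749078957) (nat_lit 152) (nat_lit 190095708437) (nat_lit 0) (nat_lit 82061385435) (nat_lit 1) (nat_lit 5) (nat_lit 3) (nat_lit 4) (nat_lit 1) (nat_lit 4) (nat_lit 481) (nat_lit 374) (nat_lit 345)) (XT.nd (nat_lit 78) (nat_lit 0) (nat_lit 0) (XT.lf (nat_lit 0) (nat_lit 96288582808) (nat_lit 152) (nat_lit 193204591294) (nat_lit 0) (nat_lit 94585858601) (nat_lit 1) (nat_lit 5) (nat_lit 3) (nat_lit 4) (nat_lit 1) (nat_lit 4) (nat_lit 482) (nat_lit 374) (nat_lit 344)) (XT.lf (nat_lit 0) (nat_lit 109755231395) (nat_lit 152) (nat_lit 196715702036) (nat_lit 0) (nat_lit 108038589888) (nat_lit 1) (nat_lit 5) (nat_lit 3) (nat_lit 4) (nat_lit 1) (nat_lit 4) (nat_lit 483) (nat_lit 374) (nat_lit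 343)))) (XT.nd (nat_lit 156) (nat_lit 0) (nat_lit 0) (XT.nd (nat_lit 78) (nat_lit 0) (nat_lit 0) (XT.lf (nat_lit 0) (nat_lit 124228827083) (nat_lit 152) (nat_lit 200649847245) (nat_lit 0) (nat_lit 122499299186) (nat_lit 1) (nat_lit 5) (nat_lit 3) (nat_lit 4) (nat_lit 1) (nat_lit 4) (nat_lit 484) (nat_lit 374) (nat_lit 342)) (XT.lf (nat_lit 0) (nat_lit 139795139325) (nat_lit 152) (nat_lit 205030340374) (nat_lit 0) (nat_lit 138053679586) (nat_lit 1) (nat_lit 5) (nat_lit 3) (nat_lit 4) (nat_lit 1) (nat_lit 4) (nat_lit 485) (nat_lit 374) (nat_lit 341))) (XT.nd (nat_lit 78) (nat_lit 0) (nat_lit 0) (XT.lf (nat_lit 0) (nat_lit 156546412936) (nat_lit 152) (nat_lit 209883139902) (nat_lit 0) (nat_lit 154793905195) (nat_lit 1) (nat_lit 5) (nat_lit 3) (nat_lit 4) (nat_lit 1) (nat_lit 4) (nat_lit 486) (nat_lit 374) (nat_lit 340)) (XT.lf (nat_lit 0) (nat_lit 174581914722) (nat_lit 152) (nat_lit 215237003159)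 (nat_lit 0) (nat_lit 172819177350) (nat_lit 1) (nat_lit 5) (nat_lit 3) (nat_lit 4) (nat_lit 1) (nat_lit 4) (nat_lit 487) (nat_lit 374) (nat_lit 339)))))) (XT.nd (nat_lit 546) (nat_lit 0) (nat_lit 0) (XT.nd (nat_lit 234) (nat_lit 0) (nat_lit 0) (XT.nd (nat_lit 78) (nat_lit 0) (nat_lit 0) (XT.lf (nat_lit 0) (nat_lit 194008521731) (nat_lit 152) (nat_lit 221123656741) (nat_lit 0) (nat_lit 192236312478) (nat_lit 1) (nat_lit 5) (nat_lit 3) (nat_lit 4) (nat_lit 1) (nat_lit 4) (nat_lit 488) (nat_lit 374) (nat_lit 338)) (XT.nd (nat_lit 78) (nat_lit 0) (nat_lit 0) (XT.lf (nat_lit 0) (nat_lit 214941354597) (nat_lit 152) (nat_lit 227577984522) (nat_lit 0) (nat_lit 213160375084) (nat_lit 1) (nat_lit 5) (nat_lit 3) (nat_lit 4) (nat_lit 1) (nat_lit 4) (nat_lit 489) (nat_lit 374) (nat_lit 337)) (XT.lf (nat_lit 0) (nat_lit 237504459736) (nat_lit 152) (nat_lit 234638234371) (nat_lit 0) (nat_lit 235715359612)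 (nat_lit 1) (nat_lit 5) (nat_lit 3) (nat_lit 4) (nat_lit 1) (nat_lit 4) (nat_lit 490) (nat_lit 374) (nat_lit 336)))) (XT.nd (nat_lit 156) (nat_lit 0) (nat_lit 0) (XT.nd (nat_lit 78) (nat_lit 0) (nat_lit 0) (XT.lf (nat_lit 0) (nat_lit 261831544440) (nat_lit 152) (nat_lit 242346244804) (nat_lit 0) (nat_lit 260034925231) (nat_lit 1) (nat_lit 5) (nat_lit 3) (nat_lit 4) (nat_lit 1) (nat_lit 4) (nat_lit 491) (nat_lit 374) (nat_lit 335)) (XT.lf (nat_lit 0) (nat_lit 288066769208) (nat_lit 152) (nat_lit 250747692921) (nat_lit 0) (nat_lit 286263187885) (nat_lit 1) (nat_lit 5) (nat_lit 3) (nat_lit 4) (nat_lit 1) (nat_lit 4) (nat_lit 492) (nat_lit 374) (nat_lit 334))) (XT.nd (nat_lit 78) (nat_lit 0) (nat_lit 0) (XT.lf (nat_lit 0) (nat_lit 316365602041) (nat_lit 152) (nat_lit 259892365081) (nat_lit 0) (nat_lit 314555574315) (nat_lit 1) (nat_lit 5) (nat_lit 3) (nat_lit 4) (nat_lit 1) (nat_lit 4) (nat_lit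 493) (nat_lit 374) (nat_lit 333)) (XT.lf (nat_lit 0) (nat_lit 346895739726) (nat_lit 152) (nat_lit 269834451934) (nat_lit 0) (nat_lit 345079743107) (nat_lit 1) (nat_lit 5) (nat_lit 3) (nat_lit 4) (nat_lit 1) (nat_lit 4) (nat_lit 494) (nat_lit 374) (nat_lit 332))))) (XT.nd (nat_lit 234) (nat_lit 0) (nat_lit 0) (XT.nd (nat_lit 78) (nat_lit 0) (nat_lit 0) (XT.lf (nat_lit 0) (nat_lit 379838101596) (nat_lit 152) (nat_lit 280632869549) (nat_lit 0) (nat_lit 378016578226) (nat_lit 1) (nat_lit 5) (nat_lit 3) (nat_lit 4) (nat_lit 1) (nat_lit 4) (nat_lit 495) (nat_lit 374) (nat_lit 331)) (XT.nd (nat_lit 78) (nat_lit 0) (nat_lit 0) (XT.lf (nat_lit 0) (nat_lit 415387901648) (nat_lit 152) (nat_lit 292351608551) (nat_lit 0) (nat_lit 413561260916) (nat_lit 1) (nat_lit 5) (nat_lit 3) (nat_lit 4) (nat_lit 1) (nat_lit 4) (nat_lit 496) (nat_lit 374) (nat_lit 330)) (XT.lf (nat_lit 0) (nat_lit 453755805364) (nat_lit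 152) (nat_lit 305060113318) (nat_lit 0) (nat_lit 451924426333) (nat_lit 1) (nat_lit 5) (nat_lit 3) (nat_lit 4) (nat_lit 1) (nat_lit 4) (nat_lit 497) (nat_lit 374) (nat_lit 329)))) (XT.nd (nat_lit 58734) (nat_lit 0) (nat_lit 684) (XT.nd (nat_lit 78) (nat_lit 0) (nat_lit 0) (XT.lf (nat_lit 0) (nat_lit 495169178099) (nat_lit 152) (nat_lit 318833693508) (nat_lit 0) (nat_lit 493333411755) (nat_lit 1) (nat_lit 5) (nat_lit 3) (nat_lit 4) (nat_lit 1) (nat_lit 4) (nat_lit 498) (nat_lit 374) (nat_lit 328)) (XT.lf (nat_lit 0) (nat_lit 539873432433) (nat_lit 152) (nat_lit 333753970336) (nat_lit 0) (nat_lit 538033603761) (nat_lit 1) (nat_lit 5) (nat_lit 3) (nat_lit 4) (nat_lit 1) (nat_lit 4) (nat_lit 499) (nat_lit 374) (nat_lit 327))) (XT.nd (nat_lit 78) (nat_lit 0) (nat_lit 0) (XT.lf (nat_lit 0) (nat_lit 2982578887) (nat_lit 152) (nat_lit 13119515103) (nat_lit 0) (nat_lit 2982578887) (nat_lit 10) (nat_lit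 5) (nat_lit 12) (nat_lit 4) (nat_lit 10) (nat_lit 4) (nat_lit 450) (nat_lit 375) (nat_lit 375)) (XT.lf (nat_lit 0) (nat_lit 18023822402) (nat_lit 152) (nat_lit 4761529528) (nat_lit 0) (nat_lit 17848733217) (nat_lit 10) (nat_lit 5) (nat_lit 12) (nat_lit 4) (nat_lit 10) (nat_lit 4) (nat_lit 451) (nat_lit 375) (nat_lit 374))))))) (XT.nd (nat_lit 1014) (nat_lit 152) (nat_lit 0) (XT.nd (nat_lit 468) (nat_lit 228) (nat_lit 0) (XT.nd (nat_lit 234) (nat_lit 76) (nat_lit 0) (XT.nd (nat_lit 78) (nat_lit 152) (nat_lit 0) (XT.lf (nat_lit 0) (nat_lit 17856139180) (nat_lit 76) (nat_lit 12895921489) (nat_lit 76) (nat_lit 12558712689) (nat_lit 9) (nat_lit 4) (nat_lit 10) (nat_lit 5) (nat_lit 10) (nat_lit 4) (nat_lit 452) (nat_lit 375) (nat_lit 373)) (XT.nd (nat_lit 78) (nat_lit 152) (nat_lit 0) (XT.lf (nat_lit 0) (nat_lit 41353671684) (nat_lit 76) (nat_lit 2679269021) (nat_lit 76) (nat_lit 2191949465) (nat_lit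 9) (nat_lit 4) (nat_lit 10) (nat_lit 5) (nat_lit 10) (nat_lit 4) (nat_lit 453) (nat_lit 375) (nat_lit 372)) (XT.lf (nat_lit 0) (nat_lit 8589640840) (nat_lit 152) (nat_lit 32788639729) (nat_lit 0) (nat_lit 7993154177) (nat_lit 7) (nat_lit 5) (nat_lit 9) (nat_lit 4) (nat_lit 7) (nat_lit 4) (nat_lit 454) (nat_lit 375) (nat_lit 371)))) (XT.nd (nat_lit 78) (nat_lit 76) (nat_lit 0) (XT.lf (nat_lit 0) (nat_lit 19788173780) (nat_lit 152) (nat_lit 13929062537) (nat_lit 0) (nat_lit 19069119709) (nat_lit 7) (nat_lit 5) (nat_lit 9) (nat_lit 4) (nat_lit 7) (nat_lit 4) (nat_lit 455) (nat_lit 375) (nat_lit 370)) (XT.nd (nat_lit 78) (nat_lit 0) (nat_lit 0) (XT.lf (nat_lit 0) (nat_lit 5688809285) (nat_lit 76) (nat_lit 25818489134) (nat_lit 76) (nat_lit 24985946723) (nat_lit 6) (nat_lit 4) (nat_lit 7) (nat_lit 5) (nat_lit 7) (nat_lit 4) (nat_lit 456) (nat_lit 375) (nat_lit 369)) (XT.lf (nat_lit 0) (nat_lit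 26481491656) (nat_lit 76) (nat_lit 17481438968) (nat_lit 76) (nat_lit 16543814760) (nat_lit 6) (nat_lit 4) (nat_lit 7) (nat_lit 5) (nat_lit 7) (nat_lit 4) (nat_lit 457) (nat_lit 375) (nat_lit 368))))) (XT.nd (nat_lit 234) (nat_lit 76) (nat_lit 0) (XT.nd (nat_lit 78) (nat_lit 152) (nat_lit 0) (XT.lf (nat_lit 0) (nat_lit 48111642759) (nat_lit 76) (nat_lit 8892576490) (nat_lit 76) (nat_lit 7857654323) (nat_lit 6) (nat_lit 4) (nat_lit 7) (nat_lit 5) (nat_lit 7) (nat_lit 4) (nat_lit 458) (nat_lit 375) (nat_lit 367)) (XT.nd (nat_lit 78) (nat_lit 0) (nat_lit 0) (XT.lf (nat_lit 0) (nat_lit 1106427057) (nat_lit 152) (nat_lit 68441227431) (nat_lit 0) (nat_lit 34986228) (nat_lit 4) (nat_lit 5) (nat_lit 6) (nat_lit 4) (nat_lit 4) (nat_lit 4) (nat_lit 459) (nat_lit 375) (nat_lit 366)) (XT.lf (nat_lit 0) (nat_lit 10587103520) (nat_lit 152) (nat_lit 54647575970) (nat_lit 0) (nat_lit 9436217626) (nat_lit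 4) (nat_lit 5) (nat_lit 6) (nat_lit 4) (nat_lit 4) (nat_lit 4) (nat_lit 460) (nat_lit 375) (nat_lit 365)))) (XT.nd (nat_lit 156) (nat_lit 76) (nat_lit 0) (XT.nd (nat_lit 78) (nat_lit 0) (nat_lit 0) (XT.lf (nat_lit 0) (nat_lit 20478618875) (nat_lit 152) (nat_lit 40450809392) (nat_lit 0) (nat_lit 19254172736) (nat_lit 4) (nat_lit 5) (nat_lit 6) (nat_lit 4) (nat_lit 4) (nat_lit 4) (nat_lit 461) (nat_lit 375) (nat_lit 364)) (XT.lf (nat_lit 0) (nat_lit 30839589509) (nat_lit 152) (nat_lit 25766798711) (nat_lit 0) (nat_lit 29547032032) (nat_lit 4) (nat_lit 5) (nat_lit 6) (nat_lit 4) (nat_lit 4) (nat_lit 4) (nat_lit 462) (nat_lit 375) (nat_lit 363))) (XT.nd (nat_lit 78) (nat_lit 76) (nat_lit 0) (XT.lf (nat_lit 0) (nat_lit 41731413767) (nat_lit 152) (nat_lit 10508527568) (nat_lit 0) (nat_lit 40375790236) (nat_lit 4) (nat_lit 5) (nat_lit 6) (nat_lit 4) (nat_lit 4) (nat_lit 4) (nat_lit 463) (nat_lit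 375) (nat_lit 362)) (XT.lf (nat_lit 0) (nat_lit 5593448713) (nat_lit 76) (nat_lit 47712516488) (nat_lit 76) (nat_lit 46298498462) (nat_lit 3) (nat_lit 4) (nat_lit 4) (nat_lit 5) (nat_lit 4) (nat_lit 4) (nat_lit 464) (nat_lit 375) (nat_lit 361)))))) (XT.nd (nat_lit 546) (nat_lit 152) (nat_lit 0) (XT.nd (nat_lit 234) (nat_lit 0) (nat_lit 0) (XT.nd (nat_lit 78) (nat_lit 0) (nat_lit 0) (XT.lf (nat_lit 0) (nat_lit 22827019676) (nat_lit 76) (nat_lit 42898702083) (nat_lit 76) (nat_lit 41430615082) (nat_lit 3) (nat_lit 4) (nat_lit 4) (nat_lit 5) (nat_lit 4) (nat_lit 4) (nat_lit 465) (nat_lit 375) (nat_lit 360)) (XT.nd (nat_lit 78) (nat_lit 0) (nat_lit 0) (XT.lf (nat_lit 0) (nat_lit 40946850805) (nat_lit 76) (nat_lit 37947938812) (nat_lit 76) (nat_lit 36429787944) (nat_lit 3) (nat_lit 4) (nat_lit 4) (nat_lit 5) (nat_lit 4) (nat_lit 4) (nat_lit 466) (nat_lit 375) (nat_lit 359)) (XT.lf (nat_lit 0) (nat_lit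 60060318879) (nat_lit 76) (nat_lit 32830888819) (nat_lit 76) (nat_lit 31266382518) (nat_lit 3) (nat_lit 4) (nat_lit 4) (nat_lit 5) (nat_lit 4) (nat_lit 4) (nat_lit 467) (nat_lit 375) (nat_lit 358)))) (XT.nd (nat_lit 156) (nat_lit 0) (nat_lit 0) (XT.nd (nat_lit 78) (nat_lit 0) (nat_lit 0) (XT.lf (nat_lit 0) (nat_lit 80280688893) (nat_lit 76) (nat_lit 27517228844) (nat_lit 76) (nat_lit 25909800847) (nat_lit 3) (nat_lit 4) (nat_lit 4) (nat_lit 5) (nat_lit 4) (nat_lit 4) (nat_lit 468) (nat_lit 375) (nat_lit 357)) (XT.lf (nat_lit 0) (nat_lit 101727785262) (nat_lit 76) (nat_lit 21975470532) (nat_lit 76) (nat_lit 20328300223) (nat_lit 3) (nat_lit 4) (nat_lit 4) (nat_lit 5) (nat_lit 4) (nat_lit 4) (nat_lit 469) (nat_lit 375) (nat_lit 356))) (XT.nd (nat_lit 78) (nat_lit 0) (nat_lit 0) (XT.lf (nat_lit 0) (nat_lit 124528701891) (nat_lit 76) (nat_lit 16172773833) (nat_lit 76) (nat_lit 14488805087) (nat_lit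 3) (nat_lit 4) (nat_lit 4) (nat_lit 5) (nat_lit 4) (nat_lit 4) (nat_lit 470) (nat_lit 375) (nat_lit 355)) (XT.lf (nat_lit 0) (nat_lit 148818555321) (nat_lit 76) (nat_lit 10074752397) (nat_lit 76) (nat_lit 8356711025) (nat_lit 3) (nat_lit 4) (nat_lit 4) (nat_lit 5) (nat_lit 4) (nat_lit 4) (nat_lit 471) (nat_lit 375) (nat_lit 354))))) (XT.nd (nat_lit 234) (nat_lit 0) (nat_lit 0) (XT.nd (nat_lit 78) (nat_lit 152) (nat_lit 0) (XT.lf (nat_lit 0) (nat_lit 174741285427) (nat_lit 76) (nat_lit 3645269800) (nat_lit 76) (nat_lit 1895679700) (nat_lit 3) (nat_lit 4) (nat_lit 4) (nat_lit 5) (nat_lit 4) (nat_lit 4) (nat_lit 472) (nat_lit 375) (nat_lit 353)) (XT.nd (nat_lit 78) (nat_lit 0) (nat_lit 0) (XT.lf (nat_lit 0) (nat_lit 4956505620) (nat_lit 152) (nat_lit 186132302419) (nat_lit 0) (nat_lit 3262408585) (nat_lit 1) (nat_lit 5) (nat_lit 3) (nat_lit 4) (nat_lit 1) (nat_lit 4) (nat_lit 473) (nat_lit 375)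 (nat_lit 352)) (XT.lf (nat_lit 0) (nat_lit 12310206738) (nat_lit 152) (nat_lit 186642620889) (nat_lit 0) (nat_lit 10590349752) (nat_lit 1) (nat_lit 5) (nat_lit 3) (nat_lit 4) (nat_lit 1) (nat_lit 4) (nat_lit 474) (nat_lit 375) (nat_lit 351)))) (XT.nd (nat_lit 156) (nat_lit 0) (nat_lit 0) (XT.nd (nat_lit 78) (nat_lit 0) (nat_lit 0) (XT.lf (nat_lit 0) (nat_lit 20121926615) (nat_lit 152) (nat_lit 187456866437) (nat_lit 0) (nat_lit 18378217822) (nat_lit 1) (nat_lit 5) (nat_lit 3) (nat_lit 4) (nat_lit 1) (nat_lit 4) (nat_lit 475) (nat_lit 375) (nat_lit 350)) (XT.lf (nat_lit 0) (nat_lit 28437956926) (nat_lit 152) (nat_lit 188579864222) (nat_lit 0) (nat_lit 26672163126) (nat_lit 1) (nat_lit 5) (nat_lit 3) (nat_lit 4) (nat_lit 1) (nat_lit 4) (nat_lit 476) (nat_lit 375) (nat_lit 349))) (XT.nd (nat_lit 78) (nat_lit 0) (nat_lit 0) (XT.lf (nat_lit 0) (nat_lit 37307577849) (nat_lit 152) (nat_lit 190018269045)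 (nat_lit 0) (nat_lit 35521334969) (nat_lit 1) (nat_lit 5) (nat_lit 3) (nat_lit 4) (nat_lit 1) (nat_lit 4) (nat_lit 477) (nat_lit 375) (nat_lit 348)) (XT.lf (nat_lit 0) (nat_lit 46783350102) (nat_lit 152) (nat_lit 191780604786) (nat_lit 0) (nat_lit 44978172888) (nat_lit 1) (nat_lit 5) (nat_lit 3) (nat_lit 4) (nat_lit 1) (nat_lit 4) (nat_lit 478) (nat_lit 375) (nat_lit 347))))))))
noncomputable def xc12 : XT := (XT.nd (nat_lit 60450) (nat_lit 0) (nat_lit 0) (XT.nd (nat_lit 1014) (nat_lit 0) (nat_lit 0) (XT.nd (nat_lit 468) (nat_lit 0) (nat_lit 0) (XT.nd (nat_lit 234) (nat_lit 0) (nat_lit 0) (XT.nd (nat_lit 78) (nat_lit 0) (nat_lit 0) (XT.lf (nat_lit 0) (nat_lit 56921426408) (nat_lit 152) (nat_lit 193877314917) (nat_lit 0) (nat_lit 55098717404) (nat_lit 1) (nat_lit 5) (nat_lit 3) (nat_lit 4) (nat_lit 1) (nat_lit 4) (nat_lit 479) (nat_lit 375) (nat_lit 346)) (XT.nd (nat_lit 78) (nat_lit 0) (nat_lit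 0) (XT.lf (nat_lit 0) (nat_lit 67781884257) (nat_lit 152) (nat_lit 196320824387) (nat_lit 0) (nat_lit 65942942114) (nat_lit 1) (nat_lit 5) (nat_lit 3) (nat_lit 4) (nat_lit 1) (nat_lit 4) (nat_lit 480) (nat_lit 375) (nat_lit 345)) (XT.lf (nat_lit 0) (nat_lit 79429081918) (nat_lit 152) (nat_lit 199125613251) (nat_lit 0) (nat_lit 77575109090) (nat_lit 1) (nat_lit 5) (nat_lit 3) (nat_lit 4) (nat_lit 1) (nat_lit 4) (nat_lit 481) (nat_lit 375) (nat_lit 344)))) (XT.nd (nat_lit 78) (nat_lit 0) (nat_lit 0) (XT.lf (nat_lit 0) (nat_lit 91932039821) (nat_lit 152) (nat_lit 202308302481) (nat_lit 0) (nat_lit 90064149692) (nat_lit 1) (nat_lit 5) (nat_lit 3) (nat_lit 4) (nat_lit 1) (nat_lit 4) (nat_lit 482) (nat_lit 375) (nat_lit 343)) (XT.nd (nat_lit 78) (nat_lit 0) (nat_lit 0) (XT.lf (nat_lit 0) (nat_lit 105364849568) (nat_lit 152) (nat_lit 205887752457) (nat_lit 0) (nat_lit 103484073050) (nat_lit 1) (nat_lit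 5) (nat_lit 3) (nat_lit 4) (nat_lit 1) (nat_lit 4) (nat_lit 483) (nat_lit 375) (nat_lit 342)) (XT.lf (nat_lit 0) (nat_lit 119807112996) (nat_lit 152) (nat_lit 209885174736) (nat_lit 0) (nat_lit 117914404636) (nat_lit 1) (nat_lit 5) (nat_lit 3) (nat_lit 4) (nat_lit 1) (nat_lit 4) (nat_lit 484) (nat_lit 375) (nat_lit 341))))) (XT.nd (nat_lit 234) (nat_lit 0) (nat_lit 0) (XT.nd (nat_lit 78) (nat_lit 0) (nat_lit 0) (XT.lf (nat_lit 0) (nat_lit 135344413887) (nat_lit 152) (nat_lit 214324257744) (nat_lit 0) (nat_lit 133440657525) (nat_lit 1) (nat_lit 5) (nat_lit 3) (nat_lit 4) (nat_lit 1) (nat_lit 4) (nat_lit 485) (nat_lit 375) (nat_lit 340)) (XT.nd (nat_lit 78) (nat_lit 0) (nat_lit 0) (XT.lf (nat_lit 0) (nat_lit 152068825136) (nat_lit 152) (nat_lit 219231307159) (nat_lit 0) (nat_lit 150154839142) (nat_lit 1) (nat_lit 5) (nat_lit 3) (nat_lit 4) (nat_lit 1) (nat_lit 4) (nat_lit 486) (nat_lit 375)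 (nat_lit 339)) (XT.lf (nat_lit 0) (nat_lit 170079454364) (nat_lit 152) (nat_lit 224635401793) (nat_lit 0) (nat_lit 168155996490) (nat_lit 1) (nat_lit 5) (nat_lit 3) (nat_lit 4) (nat_lit 1) (nat_lit 4) (nat_lit 487) (nat_lit 375) (nat_lit 338)))) (XT.nd (nat_lit 156) (nat_lit 0) (nat_lit 0) (XT.nd (nat_lit 78) (nat_lit 0) (nat_lit 0) (XT.lf (nat_lit 0) (nat_lit 189483031227) (nat_lit 152) (nat_lit 230568565911) (nat_lit 0) (nat_lit 187550803093) (nat_lit 1) (nat_lit 5) (nat_lit 3) (nat_lit 4) (nat_lit 1) (nat_lit 4) (nat_lit 488) (nat_lit 375) (nat_lit 337)) (XT.lf (nat_lit 0) (nat_lit 210394539883) (nat_lit 152) (nat_lit 237065959002) (nat_lit 0) (nat_lit 208454191138) (nat_lit 1) (nat_lit 5) (nat_lit 3) (nat_lit 4) (nat_lit 1) (nat_lit 4) (nat_lit 489) (nat_lit 375) (nat_lit 336))) (XT.nd (nat_lit 78) (nat_lit 0) (nat_lit 0) (XT.lf (nat_lit 0) (nat_lit 232937900385) (nat_lit 152) (nat_lit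 244166084137) (nat_lit 0) (nat_lit 230990032555) (nat_lit 1) (nat_lit 5) (nat_lit 3) (nat_lit 4) (nat_lit 1) (nat_lit 4) (nat_lit 490) (nat_lit 375) (nat_lit 335)) (XT.lf (nat_lit 0) (nat_lit 257246703015) (nat_lit 152) (nat_lit 251911016133) (nat_lit 0) (nat_lit 255291873071) (nat_lit 1) (nat_lit 5) (nat_lit 3) (nat_lit 4) (nat_lit 1) (nat_lit 4) (nat_lit 491) (nat_lit 375) (nat_lit 334)))))) (XT.nd (nat_lit 468) (nat_lit 0) (nat_lit 0) (XT.nd (nat_lit 234) (nat_lit 0) (nat_lit 0) (XT.nd (nat_lit 78) (nat_lit 0) (nat_lit 0) (XT.lf (nat_lit 0) (nat_lit 283464999939) (nat_lit 152) (nat_lit 260346650881) (nat_lit 0) (nat_lit 281503723592) (nat_lit 1) (nat_lit 5) (nat_lit 3) (nat_lit 4) (nat_lit 1) (nat_lit 4) (nat_lit 492) (nat_lit 375) (nat_lit 333)) (XT.nd (nat_lit 78) (nat_lit 0) (nat_lit 0) (XT.lf (nat_lit 0) (nat_lit 311748158842) (nat_lit 152) (nat_lit 269522977329) (nat_lit 0) (nat_lit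 309780913603) (nat_lit 1) (nat_lit 5) (nat_lit 3) (nat_lit 4) (nat_lit 1) (nat_lit 4) (nat_lit 493) (nat_lit 375) (nat_lit 332)) (XT.lf (nat_lit 0) (nat_lit 342263783628) (nat_lit 152) (nat_lit 279494373708) (nat_lit 0) (nat_lit 340291011637) (nat_lit 1) (nat_lit 5) (nat_lit 3) (nat_lit 4) (nat_lit 1) (nat_lit 4) (nat_lit 494) (nat_lit 375) (nat_lit 331)))) (XT.nd (nat_lit 78) (nat_lit 0) (nat_lit 0) (XT.lf (nat_lit 0) (nat_lit 375192707629) (nat_lit 152) (nat_lit 290319929775) (nat_lit 0) (nat_lit 373214818276) (nat_lit 1) (nat_lit 5) (nat_lit 3) (nat_lit 4) (nat_lit 1) (nat_lit 4) (nat_lit 495) (nat_lit 375) (nat_lit 330)) (XT.nd (nat_lit 78) (nat_lit 0) (nat_lit 0) (XT.lf (nat_lit 0) (nat_lit 410730065210) (nat_lit 152) (nat_lit 302063796971) (nat_lit 0) (nat_lit 408747437558) (nat_lit 1) (nat_lit 5) (nat_lit 3) (nat_lit 4) (nat_lit 1) (nat_lit 4) (nat_lit 496) (nat_lit 375) (nat_lit 329))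 (XT.lf (nat_lit 0) (nat_lit 449086448119) (nat_lit 152) (nat_lit 314795568585) (nat_lit 0) (nat_lit 447099433154) (nat_lit 1) (nat_lit 5) (nat_lit 3) (nat_lit 4) (nat_lit 1) (nat_lit 4) (nat_lit 497) (nat_lit 375) (nat_lit 328))))) (XT.nd (nat_lit 58656) (nat_lit 0) (nat_lit 608) (XT.nd (nat_lit 78) (nat_lit 0) (nat_lit 0) (XT.lf (nat_lit 0) (nat_lit 490489153441) (nat_lit 152) (nat_lit 328590692151) (nat_lit 0) (nat_lit 488498076148) (nat_lit 1) (nat_lit 5) (nat_lit 3) (nat_lit 4) (nat_lit 1) (nat_lit 4) (nat_lit 498) (nat_lit 375) (nat_lit 327)) (XT.nd (nat_lit 58500) (nat_lit 0) (nat_lit 836) (XT.lf (nat_lit 0) (nat_lit 535183530539) (nat_lit 152) (nat_lit 343530916551) (nat_lit 0) (nat_lit 533188691832) (nat_lit 1) (nat_lit 5) (nat_lit 3) (nat_lit 4) (nat_lit 1) (nat_lit 4) (nat_lit 499) (nat_lit 375) (nat_lit 326)) (XT.lf (nat_lit 0) (nat_lit 413137401) (nat_lit 76) (nat_lit 8241307789)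 (nat_lit 76) (nat_lit 8241307789) (nat_lit 12) (nat_lit 4) (nat_lit 13) (nat_lit 5) (nat_lit 13) (nat_lit 4) (nat_lit 448) (nat_lit 376) (nat_lit 376)))) (XT.nd (nat_lit 156) (nat_lit 76) (nat_lit 0) (XT.nd (nat_lit 78) (nat_lit 152) (nat_lit 0) (XT.lf (nat_lit 0) (nat_lit 24721960841) (nat_lit 76) (nat_lit 5687296839) (nat_lit 76) (nat_lit 5488745704) (nat_lit 12) (nat_lit 4) (nat_lit 13) (nat_lit 5) (nat_lit 13) (nat_lit 4) (nat_lit 449) (nat_lit 376) (nat_lit 375)) (XT.lf (nat_lit 0) (nat_lit 5856265529) (nat_lit 152) (nat_lit 26835906740) (nat_lit 0) (nat_lit 5492080025) (nat_lit 10) (nat_lit 5) (nat_lit 12) (nat_lit 4) (nat_lit 10) (nat_lit 4) (nat_lit 450) (nat_lit 376) (nat_lit 374))) (XT.nd (nat_lit 78) (nat_lit 76) (nat_lit 0) (XT.lf (nat_lit 0) (nat_lit 17639014818) (nat_lit 152) (nat_lit 5911069519) (nat_lit 0) (nat_lit 17112709698) (nat_lit 10) (nat_lit 5) (nat_lit 12) (nat_lit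 4) (nat_lit 10) (nat_lit 4) (nat_lit 451) (nat_lit 376) (nat_lit 373)) (XT.lf (nat_lit 0) (nat_lit 16139944828) (nat_lit 76) (nat_lit 13945036490) (nat_lit 76) (nat_lit 13268620614) (nat_lit 9) (nat_lit 4) (nat_lit 10) (nat_lit 5) (nat_lit 10) (nat_lit 4) (nat_lit 452) (nat_lit 376) (nat_lit 372))))))) (XT.nd (nat_lit 1014) (nat_lit 152) (nat_lit 0) (XT.nd (nat_lit 468) (nat_lit 228) (nat_lit 0) (XT.nd (nat_lit 234) (nat_lit 76) (nat_lit 0) (XT.nd (nat_lit 78) (nat_lit 152) (nat_lit 0) (XT.lf (nat_lit 0) (nat_lit 39147990872) (nat_lit 76) (nat_lit 3973675296) (nat_lit 76) (nat_lit 3158267980) (nat_lit 9) (nat_lit 4) (nat_lit 10) (nat_lit 5) (nat_lit 10) (nat_lit 4) (nat_lit 453) (nat_lit 376) (nat_lit 371)) (XT.nd (nat_lit 78) (nat_lit 0) (nat_lit 0) (XT.lf (nat_lit 0) (nat_lit 7356000408) (nat_lit 152) (nat_lit 35629295541) (nat_lit 0) (nat_lit 6456854604) (nat_lit 7) (nat_lit 5) (nat_lit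 9) (nat_lit 4) (nat_lit 7) (nat_lit 4) (nat_lit 454) (nat_lit 376) (nat_lit 370)) (XT.lf (nat_lit 0) (nat_lit 18331403929) (nat_lit 152) (nat_lit 17218059199) (nat_lit 0) (nat_lit 17318769785) (nat_lit 7) (nat_lit 5) (nat_lit 9) (nat_lit 4) (nat_lit 7) (nat_lit 4) (nat_lit 455) (nat_lit 376) (nat_lit 369)))) (XT.nd (nat_lit 78) (nat_lit 0) (nat_lit 0) (XT.lf (nat_lit 0) (nat_lit 1862207036) (nat_lit 76) (nat_lit 27921976234) (nat_lit 76) (nat_lit 26804260293) (nat_lit 6) (nat_lit 4) (nat_lit 7) (nat_lit 5) (nat_lit 7) (nat_lit 4) (nat_lit 456) (nat_lit 376) (nat_lit 368)) (XT.nd (nat_lit 78) (nat_lit 0) (nat_lit 0) (XT.lf (nat_lit 0) (nat_lit 22257800052) (nat_lit 76) (nat_lit 19784518232) (nat_lit 76) (nat_lit 18569504331) (nat_lit 6) (nat_lit 4) (nat_lit 7) (nat_lit 5) (nat_lit 7) (nat_lit 4) (nat_lit 457) (nat_lit 376) (nat_lit 367)) (XT.lf (nat_lit 0) (nat_lit 43520275826) (nat_lit 76)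 (nat_lit 11380463313) (nat_lit 76) (nat_lit 10075358710) (nat_lit 6) (nat_lit 4) (nat_lit 7) (nat_lit 5) (nat_lit 7) (nat_lit 4) (nat_lit 458) (nat_lit 376) (nat_lit 366))))) (XT.nd (nat_lit 234) (nat_lit 76) (nat_lit 0) (XT.nd (nat_lit 78) (nat_lit 152) (nat_lit 0) (XT.lf (nat_lit 0) (nat_lit 65775634215) (nat_lit 76) (nat_lit 2660009672) (nat_lit 76) (nat_lit 1271487751) (nat_lit 6) (nat_lit 4) (nat_lit 7) (nat_lit 5) (nat_lit 7) (nat_lit 4) (nat_lit 459) (nat_lit 376) (nat_lit 365)) (XT.nd (nat_lit 78) (nat_lit 0) (nat_lit 0) (XT.lf (nat_lit 0) (nat_lit 7976780573) (nat_lit 152) (nat_lit 60252439714) (nat_lit 0) (nat_lit 6580818497) (nat_lit 4) (nat_lit 5) (nat_lit 6) (nat_lit 4) (nat_lit 4) (nat_lit 4) (nat_lit 460) (nat_lit 376) (nat_lit 364)) (XT.lf (nat_lit 0) (nat_lit 17713552683) (nat_lit 152) (nat_lit 46367450647) (nat_lit 0) (nat_lit 16249479269) (nat_lit 4) (nat_lit 5) (nat_lit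 6) (nat_lit 4) (nat_lit 4) (nat_lit 4) (nat_lit 461) (nat_lit 376) (nat_lit 363)))) (XT.nd (nat_lit 156) (nat_lit 76) (nat_lit 0) (XT.nd (nat_lit 78) (nat_lit 0) (nat_lit 0) (XT.lf (nat_lit 0) (nat_lit 27931242535) (nat_lit 152) (nat_lit 31972122847) (nat_lit 0) (nat_lit 26404103067) (nat_lit 4) (nat_lit 5) (nat_lit 6) (nat_lit 4) (nat_lit 4) (nat_lit 4) (nat_lit 462) (nat_lit 376) (nat_lit 362)) (XT.lf (nat_lit 0) (nat_lit 38690399401) (nat_lit 152) (nat_lit 16981150667) (nat_lit 0) (nat_lit 37104865439) (nat_lit 4) (nat_lit 5) (nat_lit 6) (nat_lit 4) (nat_lit 4) (nat_lit 4) (nat_lit 463) (nat_lit 376) (nat_lit 361))) (XT.nd (nat_lit 78) (nat_lit 76) (nat_lit 0) (XT.lf (nat_lit 0) (nat_lit 50054781248) (nat_lit 152) (nat_lit 1305698717) (nat_lit 0) (nat_lit 48415178310) (nat_lit 4) (nat_lit 5) (nat_lit 6) (nat_lit 4) (nat_lit 4) (nat_lit 4) (nat_lit 464) (nat_lit 376) (nat_lit 360)) (XT.lf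 (nat_lit 0) (nat_lit 15647956915) (nat_lit 76) (nat_lit 46688084107) (nat_lit 76) (nat_lit 44998417302) (nat_lit 3) (nat_lit 4) (nat_lit 4) (nat_lit 5) (nat_lit 4) (nat_lit 4) (nat_lit 465) (nat_lit 376) (nat_lit 359)))))) (XT.nd (nat_lit 546) (nat_lit 152) (nat_lit 0) (XT.nd (nat_lit 234) (nat_lit 0) (nat_lit 0) (XT.nd (nat_lit 78) (nat_lit 0) (nat_lit 0) (XT.lf (nat_lit 0) (nat_lit 33548581532) (nat_lit 76) (nat_lit 41847789269) (nat_lit 76) (nat_lit 40111767032) (nat_lit 3) (nat_lit 4) (nat_lit 4) (nat_lit 5) (nat_lit 4) (nat_lit 4) (nat_lit 466) (nat_lit 376) (nat_lit 358)) (XT.nd (nat_lit 78) (nat_lit 0) (nat_lit 0) (XT.lf (nat_lit 0) (nat_lit 52459080613) (nat_lit 76) (nat_lit 36833024861) (nat_lit 76) (nat_lit 35054080927) (nat_lit 3) (nat_lit 4) (nat_lit 4) (nat_lit 5) (nat_lit 4) (nat_lit 4) (nat_lit 467) (nat_lit 376) (nat_lit 357)) (XT.lf (nat_lit 0) (nat_lit 72491516374) (nat_lit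 76) (nat_lit 31614073761) (nat_lit 76) (nat_lit 29795387516) (nat_lit 3) (nat_lit 4) (nat_lit 4) (nat_lit 5) (nat_lit 4) (nat_lit 4) (nat_lit 468) (nat_lit 376) (nat_lit 356)))) (XT.nd (nat_lit 156) (nat_lit 0) (nat_lit 0) (XT.nd (nat_lit 78) (nat_lit 0) (nat_lit 0) (XT.lf (nat_lit 0) (nat_lit 93764599546) (nat_lit 76) (nat_lit 26160008852) (nat_lit 76) (nat_lit 24304524170) (nat_lit 3) (nat_lit 4) (nat_lit 4) (nat_lit 5) (nat_lit 4) (nat_lit 4) (nat_lit 469) (nat_lit 376) (nat_lit 355)) (XT.lf (nat_lit 0) (nat_lit 116404392844) (nat_lit 76) (nat_lit 20438509749) (nat_lit 76) (nat_lit 18548952440) (nat_lit 3) (nat_lit 4) (nat_lit 4) (nat_lit 5) (nat_lit 4) (nat_lit 4) (nat_lit 470) (nat_lit 376) (nat_lit 354))) (XT.nd (nat_lit 78) (nat_lit 0) (nat_lit 0) (XT.lf (nat_lit 0) (nat_lit 140545058005) (nat_lit 76) (nat_lit 14415671271) (nat_lit 76) (nat_lit 12494565235) (nat_lit 3) (nat_lit 4) (nat_lit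 4) (nat_lit 5) (nat_lit 4) (nat_lit 4) (nat_lit 471) (nat_lit 376) (nat_lit 353)) (XT.lf (nat_lit 0) (nat_lit 166329650824) (nat_lit 76) (nat_lit 8055802526) (nat_lit 76) (nat_lit 6105484703) (nat_lit 3) (nat_lit 4) (nat_lit 4) (nat_lit 5) (nat_lit 4) (nat_lit 4) (nat_lit 472) (nat_lit 376) (nat_lit 352))))) (XT.nd (nat_lit 234) (nat_lit 0) (nat_lit 0) (XT.nd (nat_lit 78) (nat_lit 76) (nat_lit 0) (XT.lf (nat_lit 0) (nat_lit 635149461) (nat_lit 152) (nat_lit 675309375) (nat_lit 76) (nat_lit 193265062863) (nat_lit 2) (nat_lit 5) (nat_lit 4) (nat_lit 5) (nat_lit 3) (nat_lit 4) (nat_lit 473) (nat_lit 376) (nat_lit 351)) (XT.nd (nat_lit 78) (nat_lit 0) (nat_lit 0) (XT.lf (nat_lit 0) (nat_lit 7894686667) (nat_lit 152) (nat_lit 195889875588) (nat_lit 0) (nat_lit 5987629363) (nat_lit 1) (nat_lit 5) (nat_lit 3) (nat_lit 4) (nat_lit 1) (nat_lit 4) (nat_lit 474) (nat_lit 376) (nat_lit 350)) (XT.lf (nat_lit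 0) (nat_lit 15648412719) (nat_lit 152) (nat_lit 196821242575) (nat_lit 0) (nat_lit 13719270408) (nat_lit 1) (nat_lit 5) (nat_lit 3) (nat_lit 4) (nat_lit 1) (nat_lit 4) (nat_lit 475) (nat_lit 376) (nat_lit 349)))) (XT.nd (nat_lit 156) (nat_lit 0) (nat_lit 0) (XT.nd (nat_lit 78) (nat_lit 0) (nat_lit 0) (XT.lf (nat_lit 0) (nat_lit 23910745043) (nat_lit 152) (nat_lit 198052686136) (nat_lit 0) (nat_lit 21961153652) (nat_lit 1) (nat_lit 5) (nat_lit 3) (nat_lit 4) (nat_lit 1) (nat_lit 4) (nat_lit 476) (nat_lit 376) (nat_lit 348)) (XT.lf (nat_lit 0) (nat_lit 32730645608) (nat_lit 152) (nat_lit 199591503715) (nat_lit 0) (nat_lit 30762119884) (nat_lit 1) (nat_lit 5) (nat_lit 3) (nat_lit 4) (nat_lit 1) (nat_lit 4) (nat_lit 477) (nat_lit 376) (nat_lit 347))) (XT.nd (nat_lit 78) (nat_lit 0) (nat_lit 0) (XT.lf (nat_lit 0) (nat_lit 42160380492) (nat_lit 152) (nat_lit 201446814231) (nat_lit 0) (nat_lit 40174322977)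 (nat_lit 1) (nat_lit 5) (nat_lit 3) (nat_lit 4) (nat_lit 1) (nat_lit 4) (nat_lit 478) (nat_lit 376) (nat_lit 346)) (XT.lf (nat_lit 0) (nat_lit 52255829606) (nat_lit 152) (nat_lit 203629612116) (nat_lit 0) (nat_lit 50253538951) (nat_lit 1) (nat_lit 5) (nat_lit 3) (nat_lit 4) (nat_lit 1) (nat_lit 4) (nat_lit 479) (nat_lit 376) (nat_lit 345))))))))
noncomputable def xc13 : XT := (XT.nd (nat_lit 60372) (nat_lit 0) (nat_lit 0) (XT.nd (nat_lit 1014) (nat_lit 0) (nat_lit 0) (XT.nd (nat_lit 468) (nat_lit 0) (nat_lit 0) (XT.nd (nat_lit 234) (nat_lit 0) (nat_lit 0) (XT.nd (nat_lit 78) (nat_lit 0) (nat_lit 0) (XT.lf (nat_lit 0) (nat_lit 63076817831) (nat_lit 152) (nat_lit 206152832469) (nat_lit 0) (nat_lit 61059496492) (nat_lit 1) (nat_lit 5) (nat_lit 3) (nat_lit 4) (nat_lit 1) (nat_lit 4) (nat_lit 480) (nat_lit 376) (nat_lit 344)) (XT.nd (nat_lit 78) (nat_lit 0) (nat_lit 0) (XT.lf (nat_lit 0) (nat_lit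 74687469545) (nat_lit 152) (nat_lit 209031427706) (nat_lit 0) (nat_lit 72656230905) (nat_lit 1) (nat_lit 5) (nat_lit 3) (nat_lit 4) (nat_lit 1) (nat_lit 4) (nat_lit 481) (nat_lit 376) (nat_lit 343)) (XT.lf (nat_lit 0) (nat_lit 87156588607) (nat_lit 152) (nat_lit 212282456171) (nat_lit 0) (nat_lit 85112463578) (nat_lit 1) (nat_lit 5) (nat_lit 3) (nat_lit 4) (nat_lit 1) (nat_lit 4) (nat_lit 482) (nat_lit 376) (nat_lit 342)))) (XT.nd (nat_lit 78) (nat_lit 0) (nat_lit 0) (XT.lf (nat_lit 0) (nat_lit 100558066095) (nat_lit 152) (nat_lit 215925183216) (nat_lit 0) (nat_lit 98502009225) (nat_lit 1) (nat_lit 5) (nat_lit 3) (nat_lit 4) (nat_lit 1) (nat_lit 4) (nat_lit 483) (nat_lit 376) (nat_lit 341)) (XT.nd (nat_lit 78) (nat_lit 0) (nat_lit 0) (XT.lf (nat_lit 0) (nat_lit 114971318172) (nat_lit 152) (nat_lit 219981195373) (nat_lit 0) (nat_lit 112904213299) (nat_lit 1) (nat_lit 5) (nat_lit 3) (nat_lit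 4) (nat_lit 1) (nat_lit 4) (nat_lit 484) (nat_lit 376) (nat_lit 340)) (XT.lf (nat_lit 0) (nat_lit 130481756700) (nat_lit 152) (nat_lit 224474528270) (nat_lit 0) (nat_lit 128404422196) (nat_lit 1) (nat_lit 5) (nat_lit 3) (nat_lit 4) (nat_lit 1) (nat_lit 4) (nat_lit 485) (nat_lit 376) (nat_lit 339))))) (XT.nd (nat_lit 234) (nat_lit 0) (nat_lit 0) (XT.nd (nat_lit 78) (nat_lit 0) (nat_lit 0) (XT.lf (nat_lit 0) (nat_lit 147181295391) (nat_lit 152) (nat_lit 229431809063) (nat_lit 0) (nat_lit 145094489006) (nat_lit 1) (nat_lit 5) (nat_lit 3) (nat_lit 4) (nat_lit 1) (nat_lit 4) (nat_lit 486) (nat_lit 376) (nat_lit 338)) (XT.nd (nat_lit 78) (nat_lit 0) (nat_lit 0) (XT.lf (nat_lit 0) (nat_lit 165168894473) (nat_lit 152) (nat_lit 234882414231) (nat_lit 0) (nat_lit 163073317829) (nat_lit 1) (nat_lit 5) (nat_lit 3) (nat_lit 4) (nat_lit 1) (nat_lit 4) (nat_lit 487) (nat_lit 376) (nat_lit 337)) (XT.lf (nat_lit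 0) (nat_lit 184551147127) (nat_lit 152) (nat_lit 240858643658) (nat_lit 0) (nat_lit 182447449871) (nat_lit 1) (nat_lit 5) (nat_lit 3) (nat_lit 4) (nat_lit 1) (nat_lit 4) (nat_lit 488) (nat_lit 376) (nat_lit 336)))) (XT.nd (nat_lit 156) (nat_lit 0) (nat_lit 0) (XT.nd (nat_lit 78) (nat_lit 0) (nat_lit 0) (XT.lf (nat_lit 0) (nat_lit 205442911145) (nat_lit 152) (nat_lit 247395912037) (nat_lit 0) (nat_lit 203331694805) (nat_lit 1) (nat_lit 5) (nat_lit 3) (nat_lit 4) (nat_lit 1) (nat_lit 4) (nat_lit 489) (nat_lit 376) (nat_lit 335)) (XT.lf (nat_lit 0) (nat_lit 227967989574) (nat_lit 152) (nat_lit 254532958734) (nat_lit 0) (nat_lit 225849811118) (nat_lit 1) (nat_lit 5) (nat_lit 3) (nat_lit 4) (nat_lit 1) (nat_lit 4) (nat_lit 490) (nat_lit 376) (nat_lit 334))) (XT.nd (nat_lit 78) (nat_lit 0) (nat_lit 0) (XT.lf (nat_lit 0) (nat_lit 252259864360) (nat_lit 152) (nat_lit 262312077361) (nat_lit 0) (nat_lit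 250135239501) (nat_lit 1) (nat_lit 5) (nat_lit 3) (nat_lit 4) (nat_lit 1) (nat_lit 4) (nat_lit 491) (nat_lit 376) (nat_lit 333)) (XT.lf (nat_lit 0) (nat_lit 278462487354) (nat_lit 152) (nat_lit 270779366398) (nat_lit 0) (nat_lit 276331893603) (nat_lit 1) (nat_lit 5) (nat_lit 3) (nat_lit 4) (nat_lit 1) (nat_lit 4) (nat_lit 492) (nat_lit 376) (nat_lit 332)))))) (XT.nd (nat_lit 58812) (nat_lit 0) (nat_lit 608) (XT.nd (nat_lit 234) (nat_lit 0) (nat_lit 0) (XT.nd (nat_lit 78) (nat_lit 0) (nat_lit 0) (XT.lf (nat_lit 0) (nat_lit 306731133358) (nat_lit 152) (nat_lit 279985002373) (nat_lit 0) (nat_lit 304595012856) (nat_lit 1) (nat_lit 5) (nat_lit 3) (nat_lit 4) (nat_lit 1) (nat_lit 4) (nat_lit 493) (nat_lit 376) (nat_lit 331)) (XT.nd (nat_lit 78) (nat_lit 0) (nat_lit 0) (XT.lf (nat_lit 0) (nat_lit 337233320275) (nat_lit 152) (nat_lit 289983537202) (nat_lit 0) (nat_lit 335092082410) (nat_lit 1) (nat_lit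 5) (nat_lit 3) (nat_lit 4) (nat_lit 1) (nat_lit 4) (nat_lit 494) (nat_lit 376) (nat_lit 330)) (XT.lf (nat_lit 0) (nat_lit 370149801804) (nat_lit 152) (nat_lit 300834221463) (nat_lit 0) (nat_lit 368003825641) (nat_lit 1) (nat_lit 5) (nat_lit 3) (nat_lit 4) (nat_lit 1) (nat_lit 4) (nat_lit 495) (nat_lit 376) (nat_lit 329)))) (XT.nd (nat_lit 156) (nat_lit 0) (nat_lit 0) (XT.nd (nat_lit 78) (nat_lit 0) (nat_lit 0) (XT.lf (nat_lit 0) (nat_lit 405675638578) (nat_lit 152) (nat_lit 312601355506) (nat_lit 0) (nat_lit 403525275102) (nat_lit 1) (nat_lit 5) (nat_lit 3) (nat_lit 4) (nat_lit 1) (nat_lit 4) (nat_lit 496) (nat_lit 376) (nat_lit 328)) (XT.lf (nat_lit 0) (nat_lit 444021354074) (nat_lit 152) (nat_lit 325354670497) (nat_lit 0) (nat_lit 441866928270) (nat_lit 1) (nat_lit 5) (nat_lit 3) (nat_lit 4) (nat_lit 1) (nat_lit 4) (nat_lit 497) (nat_lit 376) (nat_lit 327))) (XT.nd (nat_lit 78) (nat_lit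 0) (nat_lit 0) (XT.lf (nat_lit 0) (nat_lit 485414182161) (nat_lit 152) (nat_lit 339169741635) (nat_lit 0) (nat_lit 483255994943) (nat_lit 1) (nat_lit 5) (nat_lit 3) (nat_lit 4) (nat_lit 1) (nat_lit 4) (nat_lit 498) (nat_lit 376) (nat_lit 326)) (XT.lf (nat_lit 0) (nat_lit 530099413671) (nat_lit 152) (nat_lit 354128436008) (nat_lit 0) (nat_lit 527937743663) (nat_lit 1) (nat_lit 5) (nat_lit 3) (nat_lit 4) (nat_lit 1) (nat_lit 4) (nat_lit 499) (nat_lit 376) (nat_lit 325))))) (XT.nd (nat_lit 234) (nat_lit 228) (nat_lit 0) (XT.nd (nat_lit 78) (nat_lit 228) (nat_lit 0) (XT.lf (nat_lit 0) (nat_lit 8567569996) (nat_lit 76) (nat_lit 3228892509) (nat_lit 76) (nat_lit 3228892509) (nat_lit 15) (nat_lit 4) (nat_lit 16) (nat_lit 5) (nat_lit 16) (nat_lit 4) (nat_lit 446) (nat_lit 377) (nat_lit 377)) (XT.nd (nat_lit 78) (nat_lit 76) (nat_lit 0) (XT.lf (nat_lit 0) (nat_lit 5162355861) (nat_lit 152) (nat_lit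 21742334416) (nat_lit 0) (nat_lit 4947920635) (nat_lit 13) (nat_lit 5) (nat_lit 15) (nat_lit 4) (nat_lit 13) (nat_lit 4) (nat_lit 447) (nat_lit 377) (nat_lit 376)) (XT.lf (nat_lit 0) (nat_lit 222994193) (nat_lit 76) (nat_lit 16998303787) (nat_lit 76) (nat_lit 16585317424) (nat_lit 12) (nat_lit 4) (nat_lit 13) (nat_lit 5) (nat_lit 13) (nat_lit 4) (nat_lit 448) (nat_lit 377) (nat_lit 375)))) (XT.nd (nat_lit 156) (nat_lit 76) (nat_lit 0) (XT.nd (nat_lit 78) (nat_lit 152) (nat_lit 0) (XT.lf (nat_lit 0) (nat_lit 23560087075) (nat_lit 76) (nat_lit 6481922993) (nat_lit 76) (nat_lit 5885092986) (nat_lit 12) (nat_lit 4) (nat_lit 13) (nat_lit 5) (nat_lit 13) (nat_lit 4) (nat_lit 449) (nat_lit 377) (nat_lit 374)) (XT.lf (nat_lit 0) (nat_lit 5164758001) (nat_lit 152) (nat_lit 28630073388) (nat_lit 0) (nat_lit 4434228855) (nat_lit 10) (nat_lit 5) (nat_lit 12) (nat_lit 4) (nat_lit 10) (nat_lit 4) (nat_lit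 450) (nat_lit 377) (nat_lit 373))) (XT.nd (nat_lit 78) (nat_lit 76) (nat_lit 0) (XT.lf (nat_lit 0) (nat_lit 16692030125) (nat_lit 152) (nat_lit 8216961591) (nat_lit 0) (nat_lit 15811390224) (nat_lit 10) (nat_lit 5) (nat_lit 12) (nat_lit 4) (nat_lit 10) (nat_lit 4) (nat_lit 451) (nat_lit 377) (nat_lit 372)) (XT.lf (nat_lit 0) (nat_lit 13268323090) (nat_lit 76) (nat_lit 15588286540) (nat_lit 76) (nat_lit 14568655199) (nat_lit 9) (nat_lit 4) (nat_lit 10) (nat_lit 5) (nat_lit 10) (nat_lit 4) (nat_lit 452) (nat_lit 377) (nat_lit 371))))))) (XT.nd (nat_lit 1014) (nat_lit 152) (nat_lit 0) (XT.nd (nat_lit 468) (nat_lit 228) (nat_lit 0) (XT.nd (nat_lit 234) (nat_lit 76) (nat_lit 0) (XT.nd (nat_lit 78) (nat_lit 152) (nat_lit 0) (XT.lf (nat_lit 0) (nat_lit 35823140930) (nat_lit 76) (nat_lit 5844046897) (nat_lit 76) (nat_lit 4695719778) (nat_lit 9) (nat_lit 4) (nat_lit 10) (nat_lit 5) (nat_lit 10) (nat_lit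 4) (nat_lit 453) (nat_lit 377) (nat_lit 370)) (XT.nd (nat_lit 78) (nat_lit 0) (nat_lit 0) (XT.lf (nat_lit 0) (nat_lit 5559559551) (nat_lit 152) (nat_lit 39629752787) (nat_lit 0) (nat_lit 4352426335) (nat_lit 7) (nat_lit 5) (nat_lit 9) (nat_lit 4) (nat_lit 7) (nat_lit 4) (nat_lit 454) (nat_lit 377) (nat_lit 369)) (XT.lf (nat_lit 0) (nat_lit 16328361758) (nat_lit 152) (nat_lit 21633646862) (nat_lit 0) (nat_lit 15016146746) (nat_lit 7) (nat_lit 5) (nat_lit 9) (nat_lit 4) (nat_lit 7) (nat_lit 4) (nat_lit 455) (nat_lit 377) (nat_lit 368)))) (XT.nd (nat_lit 78) (nat_lit 76) (nat_lit 0) (XT.lf (nat_lit 0) (nat_lit 27560769315) (nat_lit 152) (nat_lit 2997362897) (nat_lit 0) (nat_lit 26151256343) (nat_lit 7) (nat_lit 5) (nat_lit 9) (nat_lit 4) (nat_lit 7) (nat_lit 4) (nat_lit 456) (nat_lit 377) (nat_lit 367)) (XT.nd (nat_lit 78) (nat_lit 0) (nat_lit 0) (XT.lf (nat_lit 0) (nat_lit 16931448436) (nat_lit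 76) (nat_lit 22656243561) (nat_lit 76) (nat_lit 21156639885) (nat_lit 6) (nat_lit 4) (nat_lit 7) (nat_lit 5) (nat_lit 7) (nat_lit 4) (nat_lit 457) (nat_lit 377) (nat_lit 366)) (XT.lf (nat_lit 0) (nat_lit 37853484091) (nat_lit 76) (nat_lit 14423306753) (nat_lit 76) (nat_lit 12840285760) (nat_lit 6) (nat_lit 4) (nat_lit 7) (nat_lit 5) (nat_lit 7) (nat_lit 4) (nat_lit 458) (nat_lit 377) (nat_lit 365))))) (XT.nd (nat_lit 234) (nat_lit 76) (nat_lit 0) (XT.nd (nat_lit 78) (nat_lit 152) (nat_lit 0) (XT.lf (nat_lit 0) (nat_lit 59793620147) (nat_lit 76) (nat_lit 5861295808) (nat_lit 76) (nat_lit 4201036557) (nat_lit 6) (nat_lit 4) (nat_lit 7) (nat_lit 5) (nat_lit 7) (nat_lit 4) (nat_lit 459) (nat_lit 377) (nat_lit 364)) (XT.nd (nat_lit 78) (nat_lit 0) (nat_lit 0) (XT.lf (nat_lit 0) (nat_lit 4835765840) (nat_lit 152) (nat_lit 66954189781) (nat_lit 0) (nat_lit 3186455215) (nat_lit 4) (nat_lit 5) (nat_lit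 6) (nat_lit 4) (nat_lit 4) (nat_lit 4) (nat_lit 460) (nat_lit 377) (nat_lit 363)) (XT.lf (nat_lit 0) (nat_lit 14429257168) (nat_lit 152) (nat_lit 53357883595) (nat_lit 0) (nat_lit 12716880489) (nat_lit 4) (nat_lit 5) (nat_lit 6) (nat_lit 4) (nat_lit 4) (nat_lit 4) (nat_lit 461) (nat_lit 377) (nat_lit 362)))) (XT.nd (nat_lit 156) (nat_lit 76) (nat_lit 0) (XT.nd (nat_lit 78) (nat_lit 0) (nat_lit 0) (XT.lf (nat_lit 0) (nat_lit 24514279628) (nat_lit 152) (nat_lit 39229854758) (nat_lit 0) (nat_lit 22743508455) (nat_lit 4) (nat_lit 5) (nat_lit 6) (nat_lit 4) (nat_lit 4) (nat_lit 4) (nat_lit 462) (nat_lit 377) (nat_lit 361)) (XT.lf (nat_lit 0) (nat_lit 35150596318) (nat_lit 152) (nat_lit 24486381619) (nat_lit 0) (nat_lit 33325756168) (nat_lit 4) (nat_lit 5) (nat_lit 6) (nat_lit 4) (nat_lit 4) (nat_lit 4) (nat_lit 463) (nat_lit 377) (nat_lit 360))) (XT.nd (nat_lit 78) (nat_lit 76) (nat_lit 0) (XT.lf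 (nat_lit 0) (nat_lit 46401237260) (nat_lit 152) (nat_lit 9040095446) (nat_lit 0) (nat_lit 44526333245) (nat_lit 4) (nat_lit 5) (nat_lit 6) (nat_lit 4) (nat_lit 4) (nat_lit 4) (nat_lit 464) (nat_lit 377) (nat_lit 359)) (XT.lf (nat_lit 0) (nat_lit 7438619588) (nat_lit 76) (nat_lit 51010391032) (nat_lit 76) (nat_lit 49089131584) (nat_lit 3) (nat_lit 4) (nat_lit 4) (nat_lit 5) (nat_lit 4) (nat_lit 4) (nat_lit 465) (nat_lit 377) (nat_lit 358)))))) (XT.nd (nat_lit 546) (nat_lit 152) (nat_lit 0) (XT.nd (nat_lit 234) (nat_lit 0) (nat_lit 0) (XT.nd (nat_lit 78) (nat_lit 0) (nat_lit 0) (XT.lf (nat_lit 0) (nat_lit 25136275212) (nat_lit 76) (nat_lit 46272381779) (nat_lit 76) (nat_lit 44308200634) (nat_lit 3) (nat_lit 4) (nat_lit 4) (nat_lit 5) (nat_lit 4) (nat_lit 4) (nat_lit 466) (nat_lit 377) (nat_lit 357)) (XT.nd (nat_lit 78) (nat_lit 0) (nat_lit 0) (XT.lf (nat_lit 0) (nat_lit 43858840039) (nat_lit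 76) (nat_lit 41352326247) (nat_lit 76) (nat_lit 39348402790) (nat_lit 3) (nat_lit 4) (nat_lit 4) (nat_lit 5) (nat_lit 4) (nat_lit 4) (nat_lit 467) (nat_lit 377) (nat_lit 356)) (XT.lf (nat_lit 0) (nat_lit 63717262603) (nat_lit 76) (nat_lit 36221068550) (nat_lit 76) (nat_lit 34180346657) (nat_lit 3) (nat_lit 4) (nat_lit 4) (nat_lit 5) (nat_lit 4) (nat_lit 4) (nat_lit 468) (nat_lit 377) (nat_lit 355)))) (XT.nd (nat_lit 156) (nat_lit 0) (nat_lit 0) (XT.nd (nat_lit 78) (nat_lit 0) (nat_lit 0) (XT.lf (nat_lit 0) (nat_lit 84829222444) (nat_lit 76) (nat_lit 30848201236) (nat_lit 76) (nat_lit 28773406717) (nat_lit 3) (nat_lit 4) (nat_lit 4) (nat_lit 5) (nat_lit 4) (nat_lit 4) (nat_lit 469) (nat_lit 377) (nat_lit 354)) (XT.lf (nat_lit 0) (nat_lit 107319827473) (nat_lit 76) (nat_lit 25201885092) (nat_lit 76) (nat_lit 23095541844) (nat_lit 3) (nat_lit 4) (nat_lit 4) (nat_lit 5) (nat_lit 4) (nat_lit 4)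 (nat_lit 470) (nat_lit 377) (nat_lit 353))) (XT.nd (nat_lit 78) (nat_lit 0) (nat_lit 0) (XT.lf (nat_lit 0) (nat_lit 131322355348) (nat_lit 76) (nat_lit 19248660465) (nat_lit 76) (nat_lit 17113105432) (nat_lit 3) (nat_lit 4) (nat_lit 4) (nat_lit 5) (nat_lit 4) (nat_lit 4) (nat_lit 471) (nat_lit 377) (nat_lit 352)) (XT.lf (nat_lit 0) (nat_lit 156979043273) (nat_lit 76) (nat_lit 12953248989) (nat_lit 76) (nat_lit 10790646006) (nat_lit 3) (nat_lit 4) (nat_lit 4) (nat_lit 5) (nat_lit 4) (nat_lit 4) (nat_lit 472) (nat_lit 377) (nat_lit 351))))) (XT.nd (nat_lit 234) (nat_lit 0) (nat_lit 0) (XT.nd (nat_lit 78) (nat_lit 152) (nat_lit 0) (XT.lf (nat_lit 0) (nat_lit 184441930878) (nat_lit 76) (nat_lit 6278344520) (nat_lit 76) (nat_lit 4090697139) (nat_lit 3) (nat_lit 4) (nat_lit 4) (nat_lit 5) (nat_lit 4) (nat_lit 4) (nat_lit 473) (nat_lit 377) (nat_lit 350)) (XT.nd (nat_lit 78) (nat_lit 0) (nat_lit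 0) (XT.lf (nat_lit 0) (nat_lit 3005297833) (nat_lit 152) (nat_lit 206120523256) (nat_lit 0) (nat_lit 899739131) (nat_lit 1) (nat_lit 5) (nat_lit 3) (nat_lit 4) (nat_lit 1) (nat_lit 4) (nat_lit 474) (nat_lit 377) (nat_lit 349)) (XT.lf (nat_lit 0) (nat_lit 10705325899) (nat_lit 152) (nat_lit 207160336020) (nat_lit 0) (nat_lit 8579318116) (nat_lit 1) (nat_lit 5) (nat_lit 3) (nat_lit 4) (nat_lit 1) (nat_lit 4) (nat_lit 475) (nat_lit 377) (nat_lit 348)))) (XT.nd (nat_lit 156) (nat_lit 0) (nat_lit 0) (XT.nd (nat_lit 78) (nat_lit 0) (nat_lit 0) (XT.lf (nat_lit 0) (nat_lit 18917937865) (nat_lit 152) (nat_lit 208492192337) (nat_lit 0) (nat_lit 16772995748) (nat_lit 1) (nat_lit 5) (nat_lit 3) (nat_lit 4) (nat_lit 1) (nat_lit 4) (nat_lit 476) (nat_lit 377) (nat_lit 347)) (XT.lf (nat_lit 0) (nat_lit 27691801062) (nat_lit 152) (nat_lit 210123984690) (nat_lit 0) (nat_lit 25529327155) (nat_lit 1) (nat_lit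 5) (nat_lit 3) (nat_lit 4) (nat_lit 1) (nat_lit 4) (nat_lit 477) (nat_lit 377) (nat_lit 346))) (XT.nd (nat_lit 78) (nat_lit 0) (nat_lit 0) (XT.lf (nat_lit 0) (nat_lit 37078908753) (nat_lit 152) (nat_lit 212065382960) (nat_lit 0) (nat_lit 34900201706) (nat_lit 1) (nat_lit 5) (nat_lit 3) (nat_lit 4) (nat_lit 1) (nat_lit 4) (nat_lit 478) (nat_lit 377) (nat_lit 345)) (XT.lf (nat_lit 0) (nat_lit 47134888242) (nat_lit 152) (nat_lit 214327891728) (nat_lit 0) (nat_lit 44941150512) (nat_lit 1) (nat_lit 5) (nat_lit 3) (nat_lit 4) (nat_lit 1) (nat_lit 4) (nat_lit 479) (nat_lit 377) (nat_lit 344))))))))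
noncomputable def xc14 : XT := (XT.nd (nat_lit 60138) (nat_lit 0) (nat_lit 0) (XT.nd (nat_lit 1014) (nat_lit 0) (nat_lit 0) (XT.nd (nat_lit 468) (nat_lit 0) (nat_lit 0) (XT.nd (nat_lit 234) (nat_lit 0) (nat_lit 0) (XT.nd (nat_lit 78) (nat_lit 0) (nat_lit 0) (XT.lf (nat_lit 0) (nat_lit 57919330521) (nat_lit 152) (nat_lit 216924918454) (nat_lit 0) (nat_lit 55711675490) (nat_lit 1) (nat_lit 5) (nat_lit 3) (nat_lit 4) (nat_lit 1) (nat_lit 4) (nat_lit 480) (nat_lit 377) (nat_lit 343)) (XT.nd (nat_lit 78) (nat_lit 0) (nat_lit 0) (XT.lf (nat_lit 0) (nat_lit 69496143394) (nat_lit 152) (nat_lit 219871852926) (nat_lit 0) (nat_lit 67275601973) (nat_lit 1) (nat_lit 5) (nat_lit 3) (nat_lit 4) (nat_lit 1) (nat_lit 4) (nat_lit 481) (nat_lit 377) (nat_lit 342)) (XT.lf (nat_lit 0) (nat_lit 81933930197) (nat_lit 152) (nat_lit 223186158460) (nat_lit 0) (nat_lit 79701456935) (nat_lit 1) (nat_lit 5) (nat_lit 3)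 (nat_lit 4) (nat_lit 1) (nat_lit 4) (nat_lit 482) (nat_lit 377) (nat_lit 341)))) (XT.nd (nat_lit 78) (nat_lit 0) (nat_lit 0) (XT.lf (nat_lit 0) (nat_lit 95306396334) (nat_lit 152) (nat_lit 226887475384) (nat_lit 0) (nat_lit 93062875069) (nat_lit 1) (nat_lit 5) (nat_lit 3) (nat_lit 4) (nat_lit 1) (nat_lit 4) (nat_lit 483) (nat_lit 377) (nat_lit 340)) (XT.nd (nat_lit 78) (nat_lit 0) (nat_lit 0) (XT.lf (nat_lit 0) (nat_lit 109692786048) (nat_lit 152) (nat_lit 230997737429) (nat_lit 0) (nat_lit 107439035152) (nat_lit 1) (nat_lit 5) (nat_lit 3) (nat_lit 4) (nat_lit 1) (nat_lit 4) (nat_lit 484) (nat_lit 377) (nat_lit 339)) (XT.lf (nat_lit 0) (nat_lit 125178352019) (nat_lit 152) (nat_lit 235541301703) (nat_lit 0) (nat_lit 122915129242) (nat_lit 1) (nat_lit 5) (nat_lit 3) (nat_lit 4) (nat_lit 1) (nat_lit 4) (nat_lit 485) (nat_lit 377) (nat_lit 338))))) (XT.nd (nat_lit 234) (nat_lit 0) (nat_lit 0)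 (XT.nd (nat_lit 78) (nat_lit 0) (nat_lit 0) (XT.lf (nat_lit 0) (nat_lit 141854860563) (nat_lit 152) (nat_lit 240545093030) (nat_lit 0) (nat_lit 139582867527) (nat_lit 1) (nat_lit 5) (nat_lit 3) (nat_lit 4) (nat_lit 1) (nat_lit 4) (nat_lit 486) (nat_lit 377) (nat_lit 337)) (XT.nd (nat_lit 78) (nat_lit 0) (nat_lit 0) (XT.lf (nat_lit 0) (nat_lit 159821135436) (nat_lit 152) (nat_lit 246038763509) (nat_lit 0) (nat_lit 157541021789) (nat_lit 1) (nat_lit 5) (nat_lit 3) (nat_lit 4) (nat_lit 1) (nat_lit 4) (nat_lit 487) (nat_lit 377) (nat_lit 336)) (XT.lf (nat_lit 0) (nat_lit 179183643452) (nat_lit 152) (nat_lit 252054868223) (nat_lit 0) (nat_lit 176896010719) (nat_lit 1) (nat_lit 5) (nat_lit 3) (nat_lit 4) (nat_lit 1) (nat_lit 4) (nat_lit 488) (nat_lit 377) (nat_lit 335)))) (XT.nd (nat_lit 156) (nat_lit 0) (nat_lit 0) (XT.nd (nat_lit 78) (nat_lit 0) (nat_lit 0) (XT.lf (nat_lit 0) (nat_lit 200057125397)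 (nat_lit 152) (nat_lit 258629058163) (nat_lit 0) (nat_lit 197762530550) (nat_lit 1) (nat_lit 5) (nat_lit 3) (nat_lit 4) (nat_lit 1) (nat_lit 4) (nat_lit 489) (nat_lit 377) (nat_lit 334)) (XT.lf (nat_lit 0) (nat_lit 222565275982) (nat_lit 152) (nat_lit 265800291492) (nat_lit 0) (nat_lit 220264234731) (nat_lit 1) (nat_lit 5) (nat_lit 3) (nat_lit 4) (nat_lit 1) (nat_lit 4) (nat_lit 490) (nat_lit 377) (nat_lit 333))) (XT.nd (nat_lit 78) (nat_lit 0) (nat_lit 0) (XT.lf (nat_lit 0) (nat_lit 246841476837) (nat_lit 152) (nat_lit 273611064408) (nat_lit 0) (nat_lit 244534466695) (nat_lit 1) (nat_lit 5) (nat_lit 3) (nat_lit 4) (nat_lit 1) (nat_lit 4) (nat_lit 491) (nat_lit 377) (nat_lit 332)) (XT.lf (nat_lit 0) (nat_lit 273029586932) (nat_lit 152) (nat_lit 282107662971) (nat_lit 0) (nat_lit 270717050039) (nat_lit 1) (nat_lit 5) (nat_lit 3) (nat_lit 4) (nat_lit 1) (nat_lit 4) (nat_lit 492) (nat_lit 377)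 (nat_lit 331)))))) (XT.nd (nat_lit 468) (nat_lit 0) (nat_lit 0) (XT.nd (nat_lit 234) (nat_lit 0) (nat_lit 0) (XT.nd (nat_lit 78) (nat_lit 0) (nat_lit 0) (XT.lf (nat_lit 0) (nat_lit 301284795067) (nat_lit 152) (nat_lit 291340437396) (nat_lit 0) (nat_lit 298967140811) (nat_lit 1) (nat_lit 5) (nat_lit 3) (nat_lit 4) (nat_lit 1) (nat_lit 4) (nat_lit 493) (nat_lit 377) (nat_lit 330)) (XT.nd (nat_lit 78) (nat_lit 0) (nat_lit 0) (XT.lf (nat_lit 0) (nat_lit 331774539513) (nat_lit 152) (nat_lit 301364100420) (nat_lit 0) (nat_lit 329452146958) (nat_lit 1) (nat_lit 5) (nat_lit 3) (nat_lit 4) (nat_lit 1) (nat_lit 4) (nat_lit 494) (nat_lit 377) (nat_lit 329)) (XT.lf (nat_lit 0) (nat_lit 364679500236) (nat_lit 152) (nat_lit 312238051528) (nat_lit 0) (nat_lit 362352720368) (nat_lit 1) (nat_lit 5) (nat_lit 3) (nat_lit 4) (nat_lit 1) (nat_lit 4) (nat_lit 495) (nat_lit 377) (nat_lit 328)))) (XT.nd (nat_lit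 78) (nat_lit 0) (nat_lit 0) (XT.lf (nat_lit 0) (nat_lit 400194669596) (nat_lit 152) (nat_lit 324026728948) (nat_lit 0) (nat_lit 397863827401) (nat_lit 1) (nat_lit 5) (nat_lit 3) (nat_lit 4) (nat_lit 1) (nat_lit 4) (nat_lit 496) (nat_lit 377) (nat_lit 327)) (XT.nd (nat_lit 78) (nat_lit 0) (nat_lit 0) (XT.lf (nat_lit 0) (nat_lit 438530507857) (nat_lit 152) (nat_lit 336799991510) (nat_lit 0) (nat_lit 436195904247) (nat_lit 1) (nat_lit 5) (nat_lit 3) (nat_lit 4) (nat_lit 1) (nat_lit 4) (nat_lit 497) (nat_lit 377) (nat_lit 326)) (XT.lf (nat_lit 0) (nat_lit 479914190355) (nat_lit 152) (nat_lit 350633532621) (nat_lit 0) (nat_lit 477576103955) (nat_lit 1) (nat_lit 5) (nat_lit 3) (nat_lit 4) (nat_lit 1) (nat_lit 4) (nat_lit 498) (nat_lit 377) (nat_lit 325))))) (XT.nd (nat_lit 58344) (nat_lit 0) (nat_lit 836) (XT.nd (nat_lit 58188) (nat_lit 0) (nat_lit 1140) (XT.lf (nat_lit 0) (nat_lit 524590953729)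 (nat_lit 152) (nat_lit 365609328821) (nat_lit 0) (nat_lit 522249642522) (nat_lit 1) (nat_lit 5) (nat_lit 3) (nat_lit 4) (nat_lit 1) (nat_lit 4) (nat_lit 499) (nat_lit 377) (nat_lit 324)) (XT.nd (nat_lit 78) (nat_lit 152) (nat_lit 0) (XT.lf (nat_lit 0) (nat_lit 12515907836) (nat_lit 76) (nat_lit 455266814) (nat_lit 76) (nat_lit 455266814) (nat_lit 18) (nat_lit 4) (nat_lit 19) (nat_lit 5) (nat_lit 19) (nat_lit 4) (nat_lit 444) (nat_lit 378) (nat_lit 378)) (XT.lf (nat_lit 0) (nat_lit 10999758204) (nat_lit 152) (nat_lit 6634430134) (nat_lit 0) (nat_lit 10756588657) (nat_lit 16) (nat_lit 5) (nat_lit 18) (nat_lit 4) (nat_lit 16) (nat_lit 4) (nat_lit 445) (nat_lit 378) (nat_lit 377)))) (XT.nd (nat_lit 156) (nat_lit 76) (nat_lit 0) (XT.nd (nat_lit 78) (nat_lit 152) (nat_lit 0) (XT.lf (nat_lit 0) (nat_lit 16545018830) (nat_lit 76) (nat_lit 6994429592) (nat_lit 76) (nat_lit 6526103057) (nat_lit 15)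 (nat_lit 4) (nat_lit 16) (nat_lit 5) (nat_lit 16) (nat_lit 4) (nat_lit 446) (nat_lit 378) (nat_lit 376)) (XT.lf (nat_lit 0) (nat_lit 4785319755) (nat_lit 152) (nat_lit 22956995889) (nat_lit 0) (nat_lit 4140743347) (nat_lit 13) (nat_lit 5) (nat_lit 15) (nat_lit 4) (nat_lit 13) (nat_lit 4) (nat_lit 447) (nat_lit 378) (nat_lit 375))) (XT.nd (nat_lit 78) (nat_lit 76) (nat_lit 0) (XT.lf (nat_lit 0) (nat_lit 16569846303) (nat_lit 152) (nat_lit 1539519172) (nat_lit 0) (nat_lit 15741426252) (nat_lit 13) (nat_lit 5) (nat_lit 15) (nat_lit 4) (nat_lit 13) (nat_lit 4) (nat_lit 448) (nat_lit 378) (nat_lit 374)) (XT.lf (nat_lit 0) (nat_lit 21229454367) (nat_lit 76) (nat_lit 7877333060) (nat_lit 76) (nat_lit 6878687412) (nat_lit 12) (nat_lit 4) (nat_lit 13) (nat_lit 5) (nat_lit 13) (nat_lit 4) (nat_lit 449) (nat_lit 378) (nat_lit 373))))))) (XT.nd (nat_lit 1014) (nat_lit 228) (nat_lit 0) (XT.nd (nat_lit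 468) (nat_lit 228) (nat_lit 0) (XT.nd (nat_lit 234) (nat_lit 152) (nat_lit 0) (XT.nd (nat_lit 78) (nat_lit 76) (nat_lit 0) (XT.lf (nat_lit 0) (nat_lit 3886537367) (nat_lit 152) (nat_lit 31632162249) (nat_lit 0) (nat_lit 2785335519) (nat_lit 10) (nat_lit 5) (nat_lit 12) (nat_lit 4) (nat_lit 10) (nat_lit 4) (nat_lit 450) (nat_lit 378) (nat_lit 372)) (XT.nd (nat_lit 78) (nat_lit 76) (nat_lit 0) (XT.lf (nat_lit 0) (nat_lit 15177256561) (nat_lit 152) (nat_lit 11692870289) (nat_lit 0) (nat_lit 13937063272) (nat_lit 10) (nat_lit 5) (nat_lit 12) (nat_lit 4) (nat_lit 10) (nat_lit 4) (nat_lit 451) (nat_lit 378) (nat_lit 371)) (XT.lf (nat_lit 0) (nat_lit 9224256949) (nat_lit 76) (nat_lit 17835409420) (nat_lit 76) (nat_lit 16466520353) (nat_lit 9) (nat_lit 4) (nat_lit 10) (nat_lit 5) (nat_lit 10) (nat_lit 4) (nat_lit 452) (nat_lit 378) (nat_lit 370)))) (XT.nd (nat_lit 78) (nat_lit 152) (nat_lit 0) (XT.lf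 (nat_lit 0) (nat_lit 31359419045) (nat_lit 76) (nat_lit 8301467509) (nat_lit 76) (nat_lit 6813415685) (nat_lit 9) (nat_lit 4) (nat_lit 10) (nat_lit 5) (nat_lit 10) (nat_lit 4) (nat_lit 453) (nat_lit 378) (nat_lit 369)) (XT.nd (nat_lit 78) (nat_lit 0) (nat_lit 0) (XT.lf (nat_lit 0) (nat_lit 3189672691) (nat_lit 152) (nat_lit 44813717880) (nat_lit 0) (nat_lit 1667398682) (nat_lit 7) (nat_lit 5) (nat_lit 9) (nat_lit 4) (nat_lit 7) (nat_lit 4) (nat_lit 454) (nat_lit 378) (nat_lit 368)) (XT.lf (nat_lit 0) (nat_lit 13767177386) (nat_lit 152) (nat_lit 27201991971) (nat_lit 0) (nat_lit 12147605416) (nat_lit 7) (nat_lit 5) (nat_lit 9) (nat_lit 4) (nat_lit 7) (nat_lit 4) (nat_lit 455) (nat_lit 378) (nat_lit 367))))) (XT.nd (nat_lit 234) (nat_lit 152) (nat_lit 0) (XT.nd (nat_lit 78) (nat_lit 76) (nat_lit 0) (XT.lf (nat_lit 0) (nat_lit 24822457616) (nat_lit 152) (nat_lit 8921615427) (nat_lit 0) (nat_lit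 23112794943) (nat_lit 7) (nat_lit 5) (nat_lit 9) (nat_lit 4) (nat_lit 7) (nat_lit 4) (nat_lit 456) (nat_lit 378) (nat_lit 366)) (XT.nd (nat_lit 78) (nat_lit 0) (nat_lit 0) (XT.lf (nat_lit 0) (nat_lit 10470873243) (nat_lit 76) (nat_lit 26113632587) (nat_lit 76) (nat_lit 24320552596) (nat_lit 6) (nat_lit 4) (nat_lit 7) (nat_lit 5) (nat_lit 7) (nat_lit 4) (nat_lit 457) (nat_lit 378) (nat_lit 365)) (XT.lf (nat_lit 0) (nat_lit 31077686566) (nat_lit 76) (nat_lit 18039138475) (nat_lit 76) (nat_lit 16168820226) (nat_lit 6) (nat_lit 4) (nat_lit 7) (nat_lit 5) (nat_lit 7) (nat_lit 4) (nat_lit 458) (nat_lit 378) (nat_lit 364)))) (XT.nd (nat_lit 156) (nat_lit 0) (nat_lit 0) (XT.nd (nat_lit 78) (nat_lit 152) (nat_lit 0) (XT.lf (nat_lit 0) (nat_lit 52725950091) (nat_lit 76) (nat_lit 9623833728) (nat_lit 76) (nat_lit 7681998574) (nat_lit 6) (nat_lit 4) (nat_lit 7) (nat_lit 5) (nat_lit 7) (nat_lit 4) (nat_lit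 459) (nat_lit 378) (nat_lit 363)) (XT.lf (nat_lit 0) (nat_lit 365469641) (nat_lit 76) (nat_lit 792347017) (nat_lit 152) (nat_lit 74012563984) (nat_lit 4) (nat_lit 5) (nat_lit 5) (nat_lit 5) (nat_lit 6) (nat_lit 4) (nat_lit 460) (nat_lit 378) (nat_lit 362))) (XT.nd (nat_lit 78) (nat_lit 0) (nat_lit 0) (XT.lf (nat_lit 0) (nat_lit 10606269838) (nat_lit 152) (nat_lit 61463533022) (nat_lit 0) (nat_lit 8635442477) (nat_lit 4) (nat_lit 5) (nat_lit 6) (nat_lit 4) (nat_lit 4) (nat_lit 4) (nat_lit 461) (nat_lit 378) (nat_lit 361)) (XT.lf (nat_lit 0) (nat_lit 20568452122) (nat_lit 152) (nat_lit 47583003226) (nat_lit 0) (nat_lit 18543555784) (nat_lit 4) (nat_lit 5) (nat_lit 6) (nat_lit 4) (nat_lit 4) (nat_lit 4) (nat_lit 462) (nat_lit 378) (nat_lit 360)))))) (XT.nd (nat_lit 546) (nat_lit 152) (nat_lit 0) (XT.nd (nat_lit 234) (nat_lit 76) (nat_lit 0) (XT.nd (nat_lit 78) (nat_lit 0) (nat_lit 0) (XT.lf (nat_lit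 0) (nat_lit 31091027906) (nat_lit 152) (nat_lit 33068695864) (nat_lit 0) (nat_lit 29016067702) (nat_lit 4) (nat_lit 5) (nat_lit 6) (nat_lit 4) (nat_lit 4) (nat_lit 4) (nat_lit 463) (nat_lit 378) (nat_lit 359)) (XT.nd (nat_lit 78) (nat_lit 0) (nat_lit 0) (XT.lf (nat_lit 0) (nat_lit 42236353197) (nat_lit 152) (nat_lit 17834600227) (nat_lit 0) (nat_lit 40115037560) (nat_lit 4) (nat_lit 5) (nat_lit 6) (nat_lit 4) (nat_lit 4) (nat_lit 4) (nat_lit 464) (nat_lit 378) (nat_lit 358)) (XT.lf (nat_lit 0) (nat_lit 54070474365) (nat_lit 152) (nat_lit 1790440192) (nat_lit 0) (nat_lit 51906237032) (nat_lit 4) (nat_lit 5) (nat_lit 6) (nat_lit 4) (nat_lit 4) (nat_lit 4) (nat_lit 465) (nat_lit 378) (nat_lit 357)))) (XT.nd (nat_lit 156) (nat_lit 0) (nat_lit 0) (XT.nd (nat_lit 78) (nat_lit 0) (nat_lit 0) (XT.lf (nat_lit 0) (nat_lit 15660081139) (nat_lit 76) (nat_lit 51247936151) (nat_lit 76) (nat_lit 49043956507)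 (nat_lit 3) (nat_lit 4) (nat_lit 4) (nat_lit 5) (nat_lit 4) (nat_lit 4) (nat_lit 466) (nat_lit 378) (nat_lit 356)) (XT.lf (nat_lit 0) (nat_lit 34208632770) (nat_lit 76) (nat_lit 46415574022) (nat_lit 76) (nat_lit 44174795941) (nat_lit 3) (nat_lit 4) (nat_lit 4) (nat_lit 5) (nat_lit 4) (nat_lit 4) (nat_lit 467) (nat_lit 378) (nat_lit 355))) (XT.nd (nat_lit 78) (nat_lit 0) (nat_lit 0) (XT.lf (nat_lit 0) (nat_lit 53905932003) (nat_lit 76) (nat_lit 41365513921) (nat_lit 76) (nat_lit 39090663213) (nat_lit 3) (nat_lit 4) (nat_lit 4) (nat_lit 5) (nat_lit 4) (nat_lit 4) (nat_lit 468) (nat_lit 378) (nat_lit 354)) (XT.lf (nat_lit 0) (nat_lit 74868703575) (nat_lit 76) (nat_lit 36067829566) (nat_lit 76) (nat_lit 33761430130) (nat_lit 3) (nat_lit 4) (nat_lit 4) (nat_lit 5) (nat_lit 4) (nat_lit 4) (nat_lit 469) (nat_lit 378) (nat_lit 353))))) (XT.nd (nat_lit 234) (nat_lit 152) (nat_lit 0) (XT.nd (nat_lit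 78) (nat_lit 0) (nat_lit 0) (XT.lf (nat_lit 0) (nat_lit 97221171317) (nat_lit 76) (nat_lit 30491127272) (nat_lit 76) (nat_lit 28155516051) (nat_lit 3) (nat_lit 4) (nat_lit 4) (nat_lit 5) (nat_lit 4) (nat_lit 4) (nat_lit 470) (nat_lit 378) (nat_lit 352)) (XT.nd (nat_lit 78) (nat_lit 0) (nat_lit 0) (XT.lf (nat_lit 0) (nat_lit 121095794298) (nat_lit 76) (nat_lit 24602359915) (nat_lit 76) (nat_lit 22239700744) (nat_lit 3) (nat_lit 4) (nat_lit 4) (nat_lit 5) (nat_lit 4) (nat_lit 4) (nat_lit 471) (nat_lit 378) (nat_lit 351)) (XT.lf (nat_lit 0) (nat_lit 146634051764) (nat_lit 76) (nat_lit 18366631095) (nat_lit 76) (nat_lit 15978927526) (nat_lit 3) (nat_lit 4) (nat_lit 4) (nat_lit 5) (nat_lit 4) (nat_lit 4) (nat_lit 472) (nat_lit 378) (nat_lit 350)))) (XT.nd (nat_lit 156) (nat_lit 152) (nat_lit 0) (XT.nd (nat_lit 78) (nat_lit 0) (nat_lit 0) (XT.lf (nat_lit 0) (nat_lit 173987281538) (nat_lit 76) (nat_lit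 11746988345) (nat_lit 76) (nat_lit 9336095519) (nat_lit 3) (nat_lit 4) (nat_lit 4) (nat_lit 5) (nat_lit 4) (nat_lit 4) (nat_lit 473) (nat_lit 378) (nat_lit 349)) (XT.lf (nat_lit 0) (nat_lit 203317576833) (nat_lit 76) (nat_lit 4704204153) (nat_lit 76) (nat_lit 2271839793) (nat_lit 3) (nat_lit 4) (nat_lit 4) (nat_lit 5) (nat_lit 4) (nat_lit 4) (nat_lit 474) (nat_lit 378) (nat_lit 348))) (XT.nd (nat_lit 78) (nat_lit 0) (nat_lit 0) (XT.lf (nat_lit 0) (nat_lit 5263373788) (nat_lit 152) (nat_lit 218535415472) (nat_lit 0) (nat_lit 2927901969) (nat_lit 1) (nat_lit 5) (nat_lit 3) (nat_lit 4) (nat_lit 1) (nat_lit 4) (nat_lit 475) (nat_lit 378) (nat_lit 347)) (XT.lf (nat_lit 0) (nat_lit 13429948386) (nat_lit 152) (nat_lit 219960246564) (nat_lit 0) (nat_lit 11076944776) (nat_lit 1) (nat_lit 5) (nat_lit 3) (nat_lit 4) (nat_lit 1) (nat_lit 4) (nat_lit 476) (nat_lit 378) (nat_lit 346))))))))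
noncomputable def xc15 : XT := (XT.nd (nat_lit 60060) (nat_lit 0) (nat_lit 152) (XT.nd (nat_lit 1014) (nat_lit 0) (nat_lit 0) (XT.nd (nat_lit 468) (nat_lit 0) (nat_lit 0) (XT.nd (nat_lit 234) (nat_lit 0) (nat_lit 0) (XT.nd (nat_lit 78) (nat_lit 0) (nat_lit 0) (XT.lf (nat_lit 0) (nat_lit 22161184389) (nat_lit 152) (nat_lit 221678126671) (nat_lit 0) (nat_lit 19791947640) (nat_lit 1) (nat_lit 5) (nat_lit 3) (nat_lit 4) (nat_lit 1) (nat_lit 4) (nat_lit 477) (nat_lit 378) (nat_lit 345)) (XT.nd (nat_lit 78) (nat_lit 0) (nat_lit 0) (XT.lf (nat_lit 0) (nat_lit 31508822457) (nat_lit 152) (nat_lit 223699235824) (nat_lit 0) (nat_lit 29124555023) (nat_lit 1) (nat_lit 5) (nat_lit 3) (nat_lit 4) (nat_lit 1) (nat_lit 4) (nat_lit 478) (nat_lit 378) (nat_lit 344)) (XT.lf (nat_lit 0) (nat_lit 41528256000) (nat_lit 152) (nat_lit 226035550965) (nat_lit 0) (nat_lit 39130071265) (nat_lit 1) (nat_lit 5) (nat_lit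 3) (nat_lit 4) (nat_lit 1) (nat_lit 4) (nat_lit 479) (nat_lit 378) (nat_lit 343)))) (XT.nd (nat_lit 78) (nat_lit 0) (nat_lit 0) (XT.lf (nat_lit 0) (nat_lit 52278859438) (nat_lit 152) (nat_lit 228700916926) (nat_lit 0) (nat_lit 49867788314) (nat_lit 1) (nat_lit 5) (nat_lit 3) (nat_lit 4) (nat_lit 1) (nat_lit 4) (nat_lit 480) (nat_lit 378) (nat_lit 342)) (XT.nd (nat_lit 78) (nat_lit 0) (nat_lit 0) (XT.lf (nat_lit 0) (nat_lit 63824340051) (nat_lit 152) (nat_lit 231711128467) (nat_lit 0) (nat_lit 61401337086) (nat_lit 1) (nat_lit 5) (nat_lit 3) (nat_lit 4) (nat_lit 1) (nat_lit 4) (nat_lit 481) (nat_lit 378) (nat_lit 341)) (XT.lf (nat_lit 0) (nat_lit 76233115503) (nat_lit 152) (nat_lit 235084023880) (nat_lit 0) (nat_lit 73799064536) (nat_lit 1) (nat_lit 5) (nat_lit 3) (nat_lit 4) (nat_lit 1) (nat_lit 4) (nat_lit 482) (nat_lit 378) (nat_lit 340))))) (XT.nd (nat_lit 234) (nat_lit 0) (nat_lit 0) (XT.nd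 (nat_lit 78) (nat_lit 0) (nat_lit 0) (XT.lf (nat_lit 0) (nat_lit 89578719278) (nat_lit 152) (nat_lit 238839590692) (nat_lit 0) (nat_lit 87134438679) (nat_lit 1) (nat_lit 5) (nat_lit 3) (nat_lit 4) (nat_lit 1) (nat_lit 4) (nat_lit 483) (nat_lit 378) (nat_lit 339)) (XT.nd (nat_lit 78) (nat_lit 0) (nat_lit 0) (XT.lf (nat_lit 0) (nat_lit 103940236434) (nat_lit 152) (nat_lit 243000084114) (nat_lit 0) (nat_lit 101486483954) (nat_lit 1) (nat_lit 5) (nat_lit 3) (nat_lit 4) (nat_lit 1) (nat_lit 4) (nat_lit 484) (nat_lit 378) (nat_lit 338)) (XT.lf (nat_lit 0) (nat_lit 119402772259) (nat_lit 152) (nat_lit 247590158922) (nat_lit 0) (nat_lit 116940249519) (nat_lit 1) (nat_lit 5) (nat_lit 3) (nat_lit 4) (nat_lit 1) (nat_lit 4) (nat_lit 485) (nat_lit 378) (nat_lit 337)))) (XT.nd (nat_lit 156) (nat_lit 0) (nat_lit 0) (XT.nd (nat_lit 78) (nat_lit 0) (nat_lit 0) (XT.lf (nat_lit 0) (nat_lit 136057956594) (nat_lit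 152) (nat_lit 252637015560) (nat_lit 0) (nat_lit 133587313243) (nat_lit 1) (nat_lit 5) (nat_lit 3) (nat_lit 4) (nat_lit 1) (nat_lit 4) (nat_lit 486) (nat_lit 378) (nat_lit 336)) (XT.lf (nat_lit 0) (nat_lit 154004486829) (nat_lit 152) (nat_lit 258170561326) (nat_lit 0) (nat_lit 151526324394) (nat_lit 1) (nat_lit 5) (nat_lit 3) (nat_lit 4) (nat_lit 1) (nat_lit 4) (nat_lit 487) (nat_lit 378) (nat_lit 335))) (XT.nd (nat_lit 78) (nat_lit 0) (nat_lit 0) (XT.lf (nat_lit 0) (nat_lit 173348712772) (nat_lit 152) (nat_lit 264223587602) (nat_lit 0) (nat_lit 170863588221) (nat_lit 1) (nat_lit 5) (nat_lit 3) (nat_lit 4) (nat_lit 1) (nat_lit 4) (nat_lit 488) (nat_lit 378) (nat_lit 334)) (XT.lf (nat_lit 0) (nat_lit 194205266872) (nat_lit 152) (nat_lit 270831964174) (nat_lit 0) (nat_lit 191713695919) (nat_lit 1) (nat_lit 5) (nat_lit 3) (nat_lit 4) (nat_lit 1) (nat_lit 4) (nat_lit 489) (nat_lit 378) (nat_lit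 333)))))) (XT.nd (nat_lit 546) (nat_lit 0) (nat_lit 0) (XT.nd (nat_lit 234) (nat_lit 0) (nat_lit 0) (XT.nd (nat_lit 78) (nat_lit 0) (nat_lit 0) (XT.lf (nat_lit 0) (nat_lit 216697743526) (nat_lit 152) (nat_lit 278034851791) (nat_lit 0) (nat_lit 214200203681) (nat_lit 1) (nat_lit 5) (nat_lit 3) (nat_lit 4) (nat_lit 1) (nat_lit 4) (nat_lit 490) (nat_lit 378) (nat_lit 332)) (XT.nd (nat_lit 78) (nat_lit 0) (nat_lit 0) (XT.lf (nat_lit 0) (nat_lit 240959431483) (nat_lit 152) (nat_lit 285874934233) (nat_lit 0) (nat_lit 238456364887) (nat_lit 1) (nat_lit 5) (nat_lit 3) (nat_lit 4) (nat_lit 1) (nat_lit 4) (nat_lit 491) (nat_lit 378) (nat_lit 331)) (XT.lf (nat_lit 0) (nat_lit 267134103709) (nat_lit 152) (nat_lit 294398671247) (nat_lit 0) (nat_lit 264625919750) (nat_lit 1) (nat_lit 5) (nat_lit 3) (nat_lit 4) (nat_lit 1) (nat_lit 4) (nat_lit 492) (nat_lit 378) (nat_lit 330)))) (XT.nd (nat_lit 156) (nat_lit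 0) (nat_lit 0) (XT.nd (nat_lit 78) (nat_lit 0) (nat_lit 0) (XT.lf (nat_lit 0) (nat_lit 295376869373) (nat_lit 152) (nat_lit 303656573866) (nat_lit 0) (nat_lit 292863947115) (nat_lit 1) (nat_lit 5) (nat_lit 3) (nat_lit 4) (nat_lit 1) (nat_lit 4) (nat_lit 493) (nat_lit 378) (nat_lit 329)) (XT.lf (nat_lit 0) (nat_lit 325855093012) (nat_lit 152) (nat_lit 313703503737) (nat_lit 0) (nat_lit 323337783441) (nat_lit 1) (nat_lit 5) (nat_lit 3) (nat_lit 4) (nat_lit 1) (nat_lit 4) (nat_lit 494) (nat_lit 378) (nat_lit 328))) (XT.nd (nat_lit 78) (nat_lit 0) (nat_lit 0) (XT.lf (nat_lit 0) (nat_lit 358749386321) (nat_lit 152) (nat_lit 324598998222) (nat_lit 0) (nat_lit 356228014423) (nat_lit 1) (nat_lit 5) (nat_lit 3) (nat_lit 4) (nat_lit 1) (nat_lit 4) (nat_lit 495) (nat_lit 378) (nat_lit 327)) (XT.lf (nat_lit 0) (nat_lit 394254678446) (nat_lit 152) (nat_lit 336407623213) (nat_lit 0) (nat_lit 391729545134)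 (nat_lit 1) (nat_lit 5) (nat_lit 3) (nat_lit 4) (nat_lit 1) (nat_lit 4) (nat_lit 496) (nat_lit 378) (nat_lit 326))))) (XT.nd (nat_lit 58188) (nat_lit 0) (nat_lit 1140) (XT.nd (nat_lit 78) (nat_lit 0) (nat_lit 0) (XT.lf (nat_lit 0) (nat_lit 432581371119) (nat_lit 152) (nat_lit 349199355748) (nat_lit 0) (nat_lit 430052755016) (nat_lit 1) (nat_lit 5) (nat_lit 3) (nat_lit 4) (nat_lit 1) (nat_lit 4) (nat_lit 497) (nat_lit 378) (nat_lit 325)) (XT.nd (nat_lit 78) (nat_lit 0) (nat_lit 0) (XT.lf (nat_lit 0) (nat_lit 473956585481) (nat_lit 152) (nat_lit 363049998687) (nat_lit 0) (nat_lit 471424744571) (nat_lit 1) (nat_lit 5) (nat_lit 3) (nat_lit 4) (nat_lit 1) (nat_lit 4) (nat_lit 498) (nat_lit 378) (nat_lit 324)) (XT.lf (nat_lit 0) (nat_lit 518625507987) (nat_lit 152) (nat_lit 378041629912) (nat_lit 0) (nat_lit 516090681146) (nat_lit 1) (nat_lit 5) (nat_lit 3) (nat_lit 4) (nat_lit 1) (nat_lit 4) (nat_lit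 499) (nat_lit 378) (nat_lit 323)))) (XT.nd (nat_lit 156) (nat_lit 152) (nat_lit 0) (XT.nd (nat_lit 78) (nat_lit 76) (nat_lit 0) (XT.lf (nat_lit 0) (nat_lit 723401817) (nat_lit 152) (nat_lit 10603647360) (nat_lit 0) (nat_lit 723401817) (nat_lit 19) (nat_lit 5) (nat_lit 21) (nat_lit 4) (nat_lit 19) (nat_lit 4) (nat_lit 442) (nat_lit 379) (nat_lit 379)) (XT.lf (nat_lit 0) (nat_lit 958614304) (nat_lit 76) (nat_lit 12371208651) (nat_lit 76) (nat_lit 12095454385) (nat_lit 18) (nat_lit 4) (nat_lit 19) (nat_lit 5) (nat_lit 19) (nat_lit 4) (nat_lit 443) (nat_lit 379) (nat_lit 378))) (XT.nd (nat_lit 78) (nat_lit 152) (nat_lit 0) (XT.lf (nat_lit 0) (nat_lit 24454698976) (nat_lit 76) (nat_lit 1471925288) (nat_lit 76) (nat_lit 940842998) (nat_lit 18) (nat_lit 4) (nat_lit 19) (nat_lit 5) (nat_lit 19) (nat_lit 4) (nat_lit 444) (nat_lit 379) (nat_lit 377)) (XT.lf (nat_lit 0) (nat_lit 10664521320) (nat_lit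 152) (nat_lit 7822596019) (nat_lit 0) (nat_lit 9933571674) (nat_lit 16) (nat_lit 5) (nat_lit 18) (nat_lit 4) (nat_lit 16) (nat_lit 4) (nat_lit 445) (nat_lit 379) (nat_lit 376))))))) (XT.nd (nat_lit 1014) (nat_lit 228) (nat_lit 0) (XT.nd (nat_lit 468) (nat_lit 304) (nat_lit 0) (XT.nd (nat_lit 234) (nat_lit 228) (nat_lit 0) (XT.nd (nat_lit 78) (nat_lit 152) (nat_lit 0) (XT.lf (nat_lit 0) (nat_lit 14771158331) (nat_lit 76) (nat_lit 8139216894) (nat_lit 76) (nat_lit 7199788555) (nat_lit 15) (nat_lit 4) (nat_lit 16) (nat_lit 5) (nat_lit 16) (nat_lit 4) (nat_lit 446) (nat_lit 379) (nat_lit 375)) (XT.nd (nat_lit 78) (nat_lit 0) (nat_lit 0) (XT.lf (nat_lit 0) (nat_lit 3814578026) (nat_lit 152) (nat_lit 25393516828) (nat_lit 0) (nat_lit 2736040726) (nat_lit 13) (nat_lit 5) (nat_lit 15) (nat_lit 4) (nat_lit 13) (nat_lit 4) (nat_lit 447) (nat_lit 379) (nat_lit 374)) (XT.lf (nat_lit 0) (nat_lit 15348239754)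 (nat_lit 152) (nat_lit 4476701859) (nat_lit 0) (nat_lit 14099476858) (nat_lit 13) (nat_lit 5) (nat_lit 15) (nat_lit 4) (nat_lit 13) (nat_lit 4) (nat_lit 448) (nat_lit 379) (nat_lit 373)))) (XT.nd (nat_lit 78) (nat_lit 152) (nat_lit 0) (XT.lf (nat_lit 0) (nat_lit 17716251558) (nat_lit 76) (nat_lit 9881796137) (nat_lit 76) (nat_lit 8475416947) (nat_lit 12) (nat_lit 4) (nat_lit 13) (nat_lit 5) (nat_lit 13) (nat_lit 4) (nat_lit 449) (nat_lit 379) (nat_lit 372)) (XT.nd (nat_lit 78) (nat_lit 0) (nat_lit 0) (XT.lf (nat_lit 0) (nat_lit 2014028988) (nat_lit 152) (nat_lit 35859963479) (nat_lit 0) (nat_lit 535628796) (nat_lit 10) (nat_lit 5) (nat_lit 12) (nat_lit 4) (nat_lit 10) (nat_lit 4) (nat_lit 450) (nat_lit 379) (nat_lit 371)) (XT.lf (nat_lit 0) (nat_lit 13085717690) (nat_lit 152) (nat_lit 16359393590) (nat_lit 0) (nat_lit 11478621720) (nat_lit 10) (nat_lit 5) (nat_lit 12) (nat_lit 4) (nat_lit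 10) (nat_lit 4) (nat_lit 451) (nat_lit 379) (nat_lit 370))))) (XT.nd (nat_lit 234) (nat_lit 152) (nat_lit 0) (XT.nd (nat_lit 78) (nat_lit 76) (nat_lit 0) (XT.lf (nat_lit 0) (nat_lit 3983781569) (nat_lit 76) (nat_lit 20699721412) (nat_lit 76) (nat_lit 18973462685) (nat_lit 9) (nat_lit 4) (nat_lit 10) (nat_lit 5) (nat_lit 10) (nat_lit 4) (nat_lit 452) (nat_lit 379) (nat_lit 369)) (XT.nd (nat_lit 78) (nat_lit 76) (nat_lit 0) (XT.lf (nat_lit 0) (nat_lit 25730373530) (nat_lit 76) (nat_lit 11360499623) (nat_lit 76) (nat_lit 9523905009) (nat_lit 9) (nat_lit 4) (nat_lit 10) (nat_lit 5) (nat_lit 10) (nat_lit 4) (nat_lit 453) (nat_lit 379) (nat_lit 368)) (XT.lf (nat_lit 0) (nat_lit 280331813) (nat_lit 152) (nat_lit 1364077253) (nat_lit 76) (nat_lit 48183256186) (nat_lit 8) (nat_lit 5) (nat_lit 10) (nat_lit 5) (nat_lit 9) (nat_lit 4) (nat_lit 454) (nat_lit 379) (nat_lit 367)))) (XT.nd (nat_lit 156) (nat_lit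 76) (nat_lit 0) (XT.nd (nat_lit 78) (nat_lit 0) (nat_lit 0) (XT.lf (nat_lit 0) (nat_lit 10632673425) (nat_lit 152) (nat_lit 33956092126) (nat_lit 0) (nat_lit 8696147034) (nat_lit 7) (nat_lit 5) (nat_lit 9) (nat_lit 4) (nat_lit 7) (nat_lit 4) (nat_lit 455) (nat_lit 379) (nat_lit 366)) (XT.lf (nat_lit 0) (nat_lit 21523946871) (nat_lit 152) (nat_lit 16005259492) (nat_lit 0) (nat_lit 19504003163) (nat_lit 7) (nat_lit 5) (nat_lit 9) (nat_lit 4) (nat_lit 7) (nat_lit 4) (nat_lit 456) (nat_lit 379) (nat_lit 365))) (XT.nd (nat_lit 78) (nat_lit 0) (nat_lit 0) (XT.lf (nat_lit 0) (nat_lit 2837789583) (nat_lit 76) (nat_lit 30177173541) (nat_lit 76) (nat_lit 28079991575) (nat_lit 6) (nat_lit 4) (nat_lit 7) (nat_lit 5) (nat_lit 7) (nat_lit 4) (nat_lit 457) (nat_lit 379) (nat_lit 364)) (XT.lf (nat_lit 0) (nat_lit 23152730375) (nat_lit 76) (nat_lit 22249385628) (nat_lit 76) (nat_lit 20080686757) (nat_lit 6)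 (nat_lit 4) (nat_lit 7) (nat_lit 5) (nat_lit 7) (nat_lit 4) (nat_lit 458) (nat_lit 379) (nat_lit 363)))))) (XT.nd (nat_lit 546) (nat_lit 76) (nat_lit 0) (XT.nd (nat_lit 234) (nat_lit 0) (nat_lit 0) (XT.nd (nat_lit 78) (nat_lit 152) (nat_lit 0) (XT.lf (nat_lit 0) (nat_lit 44530741558) (nat_lit 76) (nat_lit 13969919955) (nat_lit 76) (nat_lit 11735001727) (nat_lit 6) (nat_lit 4) (nat_lit 7) (nat_lit 5) (nat_lit 7) (nat_lit 4) (nat_lit 459) (nat_lit 379) (nat_lit 362)) (XT.nd (nat_lit 78) (nat_lit 152) (nat_lit 0) (XT.lf (nat_lit 0) (nat_lit 67098507642) (nat_lit 76) (nat_lit 5289713021) (nat_lit 76) (nat_lit 2993480574) (nat_lit 6) (nat_lit 4) (nat_lit 7) (nat_lit 5) (nat_lit 7) (nat_lit 4) (nat_lit 460) (nat_lit 379) (nat_lit 361)) (XT.lf (nat_lit 0) (nat_lit 6221935954) (nat_lit 152) (nat_lit 70732432408) (nat_lit 0) (nat_lit 3980978933) (nat_lit 4) (nat_lit 5) (nat_lit 6) (nat_lit 4) (nat_lit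 4) (nat_lit 4) (nat_lit 461) (nat_lit 379) (nat_lit 360)))) (XT.nd (nat_lit 156) (nat_lit 0) (nat_lit 0) (XT.nd (nat_lit 78) (nat_lit 0) (nat_lit 0) (XT.lf (nat_lit 0) (nat_lit 16070377333) (nat_lit 152) (nat_lit 57081068390) (nat_lit 0) (nat_lit 13779356445) (nat_lit 4) (nat_lit 5) (nat_lit 6) (nat_lit 4) (nat_lit 4) (nat_lit 4) (nat_lit 462) (nat_lit 379) (nat_lit 359)) (XT.lf (nat_lit 0) (nat_lit 26487637465) (nat_lit 152) (nat_lit 42778951563) (nat_lit 0) (nat_lit 24150261145) (nat_lit 4) (nat_lit 5) (nat_lit 6) (nat_lit 4) (nat_lit 4) (nat_lit 4) (nat_lit 463) (nat_lit 379) (nat_lit 358))) (XT.nd (nat_lit 78) (nat_lit 0) (nat_lit 0) (XT.lf (nat_lit 0) (nat_lit 37535448263) (nat_lit 152) (nat_lit 27741328644) (nat_lit 0) (nat_lit 35155150247) (nat_lit 4) (nat_lit 5) (nat_lit 6) (nat_lit 4) (nat_lit 4) (nat_lit 4) (nat_lit 464) (nat_lit 379) (nat_lit 357)) (XT.lf (nat_lit 0) (nat_lit 49279278234)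 (nat_lit 152) (nat_lit 11879087792) (nat_lit 0) (nat_lit 46859237906) (nat_lit 4) (nat_lit 5) (nat_lit 6) (nat_lit 4) (nat_lit 4) (nat_lit 4) (nat_lit 465) (nat_lit 379) (nat_lit 356))))) (XT.nd (nat_lit 234) (nat_lit 0) (nat_lit 0) (XT.nd (nat_lit 78) (nat_lit 0) (nat_lit 0) (XT.lf (nat_lit 0) (nat_lit 5063844091) (nat_lit 76) (nat_lit 56803937152) (nat_lit 76) (nat_lit 54347098387) (nat_lit 3) (nat_lit 4) (nat_lit 4) (nat_lit 5) (nat_lit 4) (nat_lit 4) (nat_lit 466) (nat_lit 379) (nat_lit 355)) (XT.nd (nat_lit 78) (nat_lit 0) (nat_lit 0) (XT.lf (nat_lit 0) (nat_lit 23451272391) (nat_lit 76) (nat_lit 52052772618) (nat_lit 76) (nat_lit 49561861227) (nat_lit 3) (nat_lit 4) (nat_lit 4) (nat_lit 5) (nat_lit 4) (nat_lit 4) (nat_lit 467) (nat_lit 379) (nat_lit 354)) (XT.lf (nat_lit 0) (nat_lit 42999383355) (nat_lit 76) (nat_lit 47077895475) (nat_lit 76) (nat_lit 44555435356) (nat_lit 3) (nat_lit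 4) (nat_lit 4) (nat_lit 5) (nat_lit 4) (nat_lit 4) (nat_lit 468) (nat_lit 379) (nat_lit 353)))) (XT.nd (nat_lit 156) (nat_lit 0) (nat_lit 0) (XT.nd (nat_lit 78) (nat_lit 0) (nat_lit 0) (XT.lf (nat_lit 0) (nat_lit 63824017640) (nat_lit 76) (nat_lit 41849824971) (nat_lit 76) (nat_lit 39298153067) (nat_lit 3) (nat_lit 4) (nat_lit 4) (nat_lit 5) (nat_lit 4) (nat_lit 4) (nat_lit 469) (nat_lit 379) (nat_lit 352)) (XT.lf (nat_lit 0) (nat_lit 86048580488) (nat_lit 76) (nat_lit 36337579947) (nat_lit 76) (nat_lit 33758860093) (nat_lit 3) (nat_lit 4) (nat_lit 4) (nat_lit 5) (nat_lit 4) (nat_lit 4) (nat_lit 470) (nat_lit 379) (nat_lit 351))) (XT.nd (nat_lit 78) (nat_lit 0) (nat_lit 0) (XT.lf (nat_lit 0) (nat_lit 109804773010) (nat_lit 76) (nat_lit 30508495246) (nat_lit 76) (nat_lit 27904730994) (nat_lit 3) (nat_lit 4) (nat_lit 4) (nat_lit 5) (nat_lit 4) (nat_lit 4) (nat_lit 471) (nat_lit 379) (nat_lit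 350)) (XT.lf (nat_lit 0) (nat_lit 135233372645) (nat_lit 76) (nat_lit 24328028146) (nat_lit 76) (nat_lit 21701074637) (nat_lit 3) (nat_lit 4) (nat_lit 4) (nat_lit 5) (nat_lit 4) (nat_lit 4) (nat_lit 472) (nat_lit 379) (nat_lit 349))))))))
noncomputable def xc16 : XT := (XT.nd (nat_lit 2028) (nat_lit 0) (nat_lit 0) (XT.nd (nat_lit 1014) (nat_lit 0) (nat_lit 0) (XT.nd (nat_lit 468) (nat_lit 0) (nat_lit 0) (XT.nd (nat_lit 234) (nat_lit 152) (nat_lit 0) (XT.nd (nat_lit 78) (nat_lit 0) (nat_lit 0) (XT.lf (nat_lit 0) (nat_lit 162485067390) (nat_lit 76) (nat_lit 17759553654) (nat_lit 76) (nat_lit 15111128611) (nat_lit 3) (nat_lit 4) (nat_lit 4) (nat_lit 5) (nat_lit 4) (nat_lit 4) (nat_lit 473) (nat_lit 379) (nat_lit 348)) (XT.nd (nat_lit 78) (nat_lit 0) (nat_lit 0) (XT.lf (nat_lit 0) (nat_lit 191721348769) (nat_lit 76) (nat_lit 10764147479) (nat_lit 76) (nat_lit 8095841386) (nat_lit 3) (nat_lit 4)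 (nat_lit 4) (nat_lit 5) (nat_lit 4) (nat_lit 4) (nat_lit 474) (nat_lit 379) (nat_lit 347)) (XT.lf (nat_lit 0) (nat_lit 223115468821) (nat_lit 76) (nat_lit 3300355362) (nat_lit 76) (nat_lit 613640888) (nat_lit 3) (nat_lit 4) (nat_lit 4) (nat_lit 5) (nat_lit 4) (nat_lit 4) (nat_lit 475) (nat_lit 379) (nat_lit 346)))) (XT.nd (nat_lit 78) (nat_lit 0) (nat_lit 0) (XT.lf (nat_lit 0) (nat_lit 7414255187) (nat_lit 152) (nat_lit 232524807657) (nat_lit 0) (nat_lit 4839246358) (nat_lit 1) (nat_lit 5) (nat_lit 3) (nat_lit 4) (nat_lit 1) (nat_lit 4) (nat_lit 476) (nat_lit 379) (nat_lit 345)) (XT.nd (nat_lit 78) (nat_lit 0) (nat_lit 0) (XT.lf (nat_lit 0) (nat_lit 16106021567) (nat_lit 152) (nat_lit 234322398647) (nat_lit 0) (nat_lit 13515982054) (nat_lit 1) (nat_lit 5) (nat_lit 3) (nat_lit 4) (nat_lit 1) (nat_lit 4) (nat_lit 477) (nat_lit 379) (nat_lit 344)) (XT.lf (nat_lit 0) (nat_lit 25417113687) (nat_lit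 152) (nat_lit 236417314173) (nat_lit 0) (nat_lit 22813156874) (nat_lit 1) (nat_lit 5) (nat_lit 3) (nat_lit 4) (nat_lit 1) (nat_lit 4) (nat_lit 478) (nat_lit 379) (nat_lit 343))))) (XT.nd (nat_lit 234) (nat_lit 0) (nat_lit 0) (XT.nd (nat_lit 78) (nat_lit 0) (nat_lit 0) (XT.lf (nat_lit 0) (nat_lit 35402708390) (nat_lit 152) (nat_lit 238821968549) (nat_lit 0) (nat_lit 32785865187) (nat_lit 1) (nat_lit 5) (nat_lit 3) (nat_lit 4) (nat_lit 1) (nat_lit 4) (nat_lit 479) (nat_lit 379) (nat_lit 342)) (XT.nd (nat_lit 78) (nat_lit 0) (nat_lit 0) (XT.lf (nat_lit 0) (nat_lit 46121979568) (nat_lit 152) (nat_lit 241550611579) (nat_lit 0) (nat_lit 43493204524) (nat_lit 1) (nat_lit 5) (nat_lit 3) (nat_lit 4) (nat_lit 1) (nat_lit 4) (nat_lit 480) (nat_lit 379) (nat_lit 341)) (XT.lf (nat_lit 0) (nat_lit 57638448831) (nat_lit 152) (nat_lit 244619412999) (nat_lit 0) (nat_lit 54998625784) (nat_lit 1) (nat_lit 5)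 (nat_lit 3) (nat_lit 4) (nat_lit 1) (nat_lit 4) (nat_lit 481) (nat_lit 379) (nat_lit 340)))) (XT.nd (nat_lit 156) (nat_lit 0) (nat_lit 0) (XT.nd (nat_lit 78) (nat_lit 0) (nat_lit 0) (XT.lf (nat_lit 0) (nat_lit 70020361920) (nat_lit 152) (nat_lit 248046558300) (nat_lit 0) (nat_lit 67370309242) (nat_lit 1) (nat_lit 5) (nat_lit 3) (nat_lit 4) (nat_lit 1) (nat_lit 4) (nat_lit 482) (nat_lit 379) (nat_lit 339)) (XT.lf (nat_lit 0) (nat_lit 83341093137) (nat_lit 152) (nat_lit 251852356489) (nat_lit 0) (nat_lit 80681568578) (nat_lit 1) (nat_lit 5) (nat_lit 3) (nat_lit 4) (nat_lit 1) (nat_lit 4) (nat_lit 483) (nat_lit 379) (nat_lit 338))) (XT.nd (nat_lit 78) (nat_lit 0) (nat_lit 0) (XT.lf (nat_lit 0) (nat_lit 97679580147) (nat_lit 152) (nat_lit 256059360446) (nat_lit 0) (nat_lit 95011285328) (nat_lit 1) (nat_lit 5) (nat_lit 3) (nat_lit 4) (nat_lit 1) (nat_lit 4) (nat_lit 484) (nat_lit 379) (nat_lit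 337)) (XT.lf (nat_lit 0) (nat_lit 113120791762) (nat_lit 152) (nat_lit 260692500565) (nat_lit 0) (nat_lit 110444376332) (nat_lit 1) (nat_lit 5) (nat_lit 3) (nat_lit 4) (nat_lit 1) (nat_lit 4) (nat_lit 485) (nat_lit 379) (nat_lit 336)))))) (XT.nd (nat_lit 468) (nat_lit 0) (nat_lit 0) (XT.nd (nat_lit 234) (nat_lit 0) (nat_lit 0) (XT.nd (nat_lit 78) (nat_lit 0) (nat_lit 0) (XT.lf (nat_lit 0) (nat_lit 129756231460) (nat_lit 152) (nat_lit 265779232489) (nat_lit 0) (nat_lit 127072296945) (nat_lit 1) (nat_lit 5) (nat_lit 3) (nat_lit 4) (nat_lit 1) (nat_lit 4) (nat_lit 486) (nat_lit 379) (nat_lit 335)) (XT.nd (nat_lit 78) (nat_lit 0) (nat_lit 0) (XT.lf (nat_lit 0) (nat_lit 147684479622) (nat_lit 152) (nat_lit 271349699817) (nat_lit 0) (nat_lit 144993582992) (nat_lit 1) (nat_lit 5) (nat_lit 3) (nat_lit 4) (nat_lit 1) (nat_lit 4) (nat_lit 487) (nat_lit 379) (nat_lit 334)) (XT.lf (nat_lit 0) (nat_lit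 167011777720) (nat_lit 152) (nat_lit 277436912725) (nat_lit 0) (nat_lit 164314434687) (nat_lit 1) (nat_lit 5) (nat_lit 3) (nat_lit 4) (nat_lit 1) (nat_lit 4) (nat_lit 488) (nat_lit 379) (nat_lit 333)))) (XT.nd (nat_lit 78) (nat_lit 0) (nat_lit 0) (XT.lf (nat_lit 0) (nat_lit 187852657890) (nat_lit 152) (nat_lit 284076943585) (nat_lit 0) (nat_lit 185149345966) (nat_lit 1) (nat_lit 5) (nat_lit 3) (nat_lit 4) (nat_lit 1) (nat_lit 4) (nat_lit 489) (nat_lit 379) (nat_lit 332)) (XT.nd (nat_lit 78) (nat_lit 0) (nat_lit 0) (XT.lf (nat_lit 0) (nat_lit 210330621645) (nat_lit 152) (nat_lit 291309140729) (nat_lit 0) (nat_lit 207621782970) (nat_lit 1) (nat_lit 5) (nat_lit 3) (nat_lit 4) (nat_lit 1) (nat_lit 4) (nat_lit 490) (nat_lit 379) (nat_lit 331)) (XT.lf (nat_lit 0) (nat_lit 234578871733) (nat_lit 152) (nat_lit 299176361621) (nat_lit 0) (nat_lit 231864915695) (nat_lit 1) (nat_lit 5) (nat_lit 3) (nat_lit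 4) (nat_lit 1) (nat_lit 4) (nat_lit 491) (nat_lit 379) (nat_lit 330))))) (XT.nd (nat_lit 234) (nat_lit 0) (nat_lit 0) (XT.nd (nat_lit 78) (nat_lit 0) (nat_lit 0) (XT.lf (nat_lit 0) (nat_lit 260741101488) (nat_lit 152) (nat_lit 307725226829) (nat_lit 0) (nat_lit 258022407151) (nat_lit 1) (nat_lit 5) (nat_lit 3) (nat_lit 4) (nat_lit 1) (nat_lit 4) (nat_lit 492) (nat_lit 379) (nat_lit 329)) (XT.nd (nat_lit 78) (nat_lit 0) (nat_lit 0) (XT.lf (nat_lit 0) (nat_lit 288972346345) (nat_lit 152) (nat_lit 317006396296) (nat_lit 0) (nat_lit 286249264695) (nat_lit 1) (nat_lit 5) (nat_lit 3) (nat_lit 4) (nat_lit 1) (nat_lit 4) (nat_lit 493) (nat_lit 379) (nat_lit 328)) (XT.lf (nat_lit 0) (nat_lit 319439902570) (nat_lit 152) (nat_lit 327074869544) (nat_lit 0) (nat_lit 316712758592) (nat_lit 1) (nat_lit 5) (nat_lit 3) (nat_lit 4) (nat_lit 1) (nat_lit 4) (nat_lit 494) (nat_lit 379) (nat_lit 327)))) (XT.nd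 (nat_lit 156) (nat_lit 0) (nat_lit 0) (XT.nd (nat_lit 78) (nat_lit 0) (nat_lit 0) (XT.lf (nat_lit 0) (nat_lit 352324318644) (nat_lit 152) (nat_lit 337990311600) (nat_lit 0) (nat_lit 349593413253) (nat_lit 1) (nat_lit 5) (nat_lit 3) (nat_lit 4) (nat_lit 1) (nat_lit 4) (nat_lit 495) (nat_lit 379) (nat_lit 326)) (XT.lf (nat_lit 0) (nat_lit 387820465182) (nat_lit 152) (nat_lit 349817406564) (nat_lit 0) (nat_lit 385086076999) (nat_lit 1) (nat_lit 5) (nat_lit 3) (nat_lit 4) (nat_lit 1) (nat_lit 4) (nat_lit 496) (nat_lit 379) (nat_lit 325))) (XT.nd (nat_lit 78) (nat_lit 0) (nat_lit 0) (XT.lf (nat_lit 0) (nat_lit 426138689718) (nat_lit 152) (nat_lit 362626240926) (nat_lit 0) (nat_lit 423401076729) (nat_lit 1) (nat_lit 5) (nat_lit 3) (nat_lit 4) (nat_lit 1) (nat_lit 4) (nat_lit 497) (nat_lit 379) (nat_lit 324)) (XT.lf (nat_lit 0) (nat_lit 467506063212) (nat_lit 152) (nat_lit 376492718890) (nat_lit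 0) (nat_lit 464765464291) (nat_lit 1) (nat_lit 5) (nat_lit 3) (nat_lit 4) (nat_lit 1) (nat_lit 4) (nat_lit 498) (nat_lit 379) (nat_lit 323))))))) (XT.nd (nat_lit 58812) (nat_lit 0) (nat_lit 228) (XT.nd (nat_lit 58266) (nat_lit 0) (nat_lit 684) (XT.nd (nat_lit 58032) (nat_lit 0) (nat_lit 1292) (XT.nd (nat_lit 57876) (nat_lit 0) (nat_lit 1520) (XT.lf (nat_lit 0) (nat_lit 512167725656) (nat_lit 152) (nat_lit 391499012175) (nat_lit 0) (nat_lit 509424361983) (nat_lit 1) (nat_lit 5) (nat_lit 3) (nat_lit 4) (nat_lit 1) (nat_lit 4) (nat_lit 499) (nat_lit 379) (nat_lit 322)) (XT.nd (nat_lit 78) (nat_lit 76) (nat_lit 0) (XT.lf (nat_lit 0) (nat_lit 762909669) (nat_lit 152) (nat_lit 9338681454) (nat_lit 0) (nat_lit 762909669) (nat_lit 22) (nat_lit 5) (nat_lit 24) (nat_lit 4) (nat_lit 22) (nat_lit 4) (nat_lit 440) (nat_lit 380) (nat_lit 380)) (XT.lf (nat_lit 0) (nat_lit 3232340553) (nat_lit 76) (nat_lit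 9976134648) (nat_lit 76) (nat_lit 9663429310) (nat_lit 21) (nat_lit 4) (nat_lit 22) (nat_lit 5) (nat_lit 22) (nat_lit 4) (nat_lit 441) (nat_lit 380) (nat_lit 379)))) (XT.nd (nat_lit 78) (nat_lit 76) (nat_lit 0) (XT.lf (nat_lit 0) (nat_lit 1439551837) (nat_lit 152) (nat_lit 21810631707) (nat_lit 0) (nat_lit 865982963) (nat_lit 19) (nat_lit 5) (nat_lit 21) (nat_lit 4) (nat_lit 19) (nat_lit 4) (nat_lit 442) (nat_lit 380) (nat_lit 378)) (XT.nd (nat_lit 78) (nat_lit 76) (nat_lit 0) (XT.lf (nat_lit 0) (nat_lit 13025135609) (nat_lit 152) (nat_lit 234049684) (nat_lit 0) (nat_lit 12196238711) (nat_lit 19) (nat_lit 5) (nat_lit 21) (nat_lit 4) (nat_lit 19) (nat_lit 4) (nat_lit 443) (nat_lit 380) (nat_lit 377)) (XT.lf (nat_lit 0) (nat_lit 22719928937) (nat_lit 76) (nat_lit 2628344744) (nat_lit 76) (nat_lit 1563033008) (nat_lit 18) (nat_lit 4) (nat_lit 19) (nat_lit 5) (nat_lit 19) (nat_lit 4) (nat_lit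 444) (nat_lit 380) (nat_lit 376))))) (XT.nd (nat_lit 234) (nat_lit 228) (nat_lit 0) (XT.nd (nat_lit 78) (nat_lit 228) (nat_lit 0) (XT.lf (nat_lit 0) (nat_lit 9748891415) (nat_lit 152) (nat_lit 10205968774) (nat_lit 0) (nat_lit 8525830117) (nat_lit 16) (nat_lit 5) (nat_lit 18) (nat_lit 4) (nat_lit 16) (nat_lit 4) (nat_lit 445) (nat_lit 380) (nat_lit 375)) (XT.nd (nat_lit 78) (nat_lit 152) (nat_lit 0) (XT.lf (nat_lit 0) (nat_lit 11803046729) (nat_lit 76) (nat_lit 9898930847) (nat_lit 76) (nat_lit 8482833723) (nat_lit 15) (nat_lit 4) (nat_lit 16) (nat_lit 5) (nat_lit 16) (nat_lit 4) (nat_lit 446) (nat_lit 380) (nat_lit 374)) (XT.lf (nat_lit 0) (nat_lit 2244378133) (nat_lit 152) (nat_lit 29066335877) (nat_lit 0) (nat_lit 725488608) (nat_lit 13) (nat_lit 5) (nat_lit 15) (nat_lit 4) (nat_lit 13) (nat_lit 4) (nat_lit 447) (nat_lit 380) (nat_lit 373)))) (XT.nd (nat_lit 156) (nat_lit 152) (nat_lit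 0) (XT.nd (nat_lit 78) (nat_lit 76) (nat_lit 0) (XT.lf (nat_lit 0) (nat_lit 13545757620) (nat_lit 152) (nat_lit 8613096600) (nat_lit 0) (nat_lit 11869251802) (nat_lit 13) (nat_lit 5) (nat_lit 15) (nat_lit 4) (nat_lit 13) (nat_lit 4) (nat_lit 448) (nat_lit 380) (nat_lit 372)) (XT.lf (nat_lit 0) (nat_lit 12999659669) (nat_lit 76) (nat_lit 12507190524) (nat_lit 76) (nat_lit 10684743694) (nat_lit 12) (nat_lit 4) (nat_lit 13) (nat_lit 5) (nat_lit 13) (nat_lit 4) (nat_lit 449) (nat_lit 380) (nat_lit 371))) (XT.nd (nat_lit 78) (nat_lit 152) (nat_lit 0) (XT.lf (nat_lit 0) (nat_lit 35794995439) (nat_lit 76) (nat_lit 2352315068) (nat_lit 76) (nat_lit 394737672) (nat_lit 12) (nat_lit 4) (nat_lit 13) (nat_lit 5) (nat_lit 13) (nat_lit 4) (nat_lit 450) (nat_lit 380) (nat_lit 370)) (XT.lf (nat_lit 0) (nat_lit 10405019207) (nat_lit 152) (nat_lit 22244184966) (nat_lit 0) (nat_lit 8421497025) (nat_lit 10) (nat_lit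 5) (nat_lit 12) (nat_lit 4) (nat_lit 10) (nat_lit 4) (nat_lit 451) (nat_lit 380) (nat_lit 369)))))) (XT.nd (nat_lit 546) (nat_lit 152) (nat_lit 0) (XT.nd (nat_lit 234) (nat_lit 228) (nat_lit 0) (XT.nd (nat_lit 78) (nat_lit 76) (nat_lit 0) (XT.lf (nat_lit 0) (nat_lit 21752823161) (nat_lit 152) (nat_lit 2404649158) (nat_lit 0) (nat_lit 19658965092) (nat_lit 10) (nat_lit 5) (nat_lit 12) (nat_lit 4) (nat_lit 10) (nat_lit 4) (nat_lit 452) (nat_lit 380) (nat_lit 368)) (XT.nd (nat_lit 78) (nat_lit 0) (nat_lit 0) (XT.lf (nat_lit 0) (nat_lit 18902647081) (nat_lit 76) (nat_lit 15039270837) (nat_lit 76) (nat_lit 12843249910) (nat_lit 9) (nat_lit 4) (nat_lit 10) (nat_lit 5) (nat_lit 10) (nat_lit 4) (nat_lit 453) (nat_lit 380) (nat_lit 367)) (XT.lf (nat_lit 0) (nat_lit 41307472845) (nat_lit 76) (nat_lit 5494868955) (nat_lit 76) (nat_lit 3204252790) (nat_lit 9) (nat_lit 4) (nat_lit 10) (nat_lit 5) (nat_lit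 10) (nat_lit 4) (nat_lit 454) (nat_lit 380) (nat_lit 366)))) (XT.nd (nat_lit 156) (nat_lit 76) (nat_lit 0) (XT.nd (nat_lit 78) (nat_lit 0) (nat_lit 0) (XT.lf (nat_lit 0) (nat_lit 6906275036) (nat_lit 152) (nat_lit 41935971625) (nat_lit 0) (nat_lit 4641318513) (nat_lit 7) (nat_lit 5) (nat_lit 9) (nat_lit 4) (nat_lit 7) (nat_lit 4) (nat_lit 455) (nat_lit 380) (nat_lit 365)) (XT.lf (nat_lit 0) (nat_lit 17645690349) (nat_lit 152) (nat_lit 24290272240) (nat_lit 0) (nat_lit 15303495568) (nat_lit 7) (nat_lit 5) (nat_lit 9) (nat_lit 4) (nat_lit 7) (nat_lit 4) (nat_lit 456) (nat_lit 380) (nat_lit 364))) (XT.nd (nat_lit 78) (nat_lit 76) (nat_lit 0) (XT.lf (nat_lit 0) (nat_lit 28951791371) (nat_lit 152) (nat_lit 5820580940) (nat_lit 0) (nat_lit 26538079685) (nat_lit 7) (nat_lit 5) (nat_lit 9) (nat_lit 4) (nat_lit 7) (nat_lit 4) (nat_lit 457) (nat_lit 380) (nat_lit 363)) (XT.lf (nat_lit 0) (nat_lit 14031652817)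 (nat_lit 76) (nat_lit 27078997826) (nat_lit 76) (nat_lit 24599066784) (nat_lit 6) (nat_lit 4) (nat_lit 7) (nat_lit 5) (nat_lit 7) (nat_lit 4) (nat_lit 458) (nat_lit 380) (nat_lit 362))))) (XT.nd (nat_lit 234) (nat_lit 76) (nat_lit 0) (XT.nd (nat_lit 78) (nat_lit 76) (nat_lit 0) (XT.lf (nat_lit 0) (nat_lit 35159430349) (nat_lit 76) (nat_lit 18925309073) (nat_lit 76) (nat_lit 16384063812) (nat_lit 6) (nat_lit 4) (nat_lit 7) (nat_lit 5) (nat_lit 7) (nat_lit 4) (nat_lit 459) (nat_lit 380) (nat_lit 361)) (XT.nd (nat_lit 78) (nat_lit 76) (nat_lit 0) (XT.lf (nat_lit 0) (nat_lit 57495498609) (nat_lit 76) (nat_lit 10361562250) (nat_lit 76) (nat_lit 7763544564) (nat_lit 6) (nat_lit 4) (nat_lit 7) (nat_lit 5) (nat_lit 7) (nat_lit 4) (nat_lit 460) (nat_lit 380) (nat_lit 360)) (XT.lf (nat_lit 0) (nat_lit 1271532897) (nat_lit 152) (nat_lit 43942305) (nat_lit 76) (nat_lit 79879152558) (nat_lit 5) (nat_lit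 5) (nat_lit 7) (nat_lit 5) (nat_lit 6) (nat_lit 4) (nat_lit 461) (nat_lit 380) (nat_lit 359)))) (XT.nd (nat_lit 156) (nat_lit 0) (nat_lit 0) (XT.nd (nat_lit 78) (nat_lit 0) (nat_lit 0) (XT.lf (nat_lit 0) (nat_lit 10993400004) (nat_lit 152) (nat_lit 67780335080) (nat_lit 0) (nat_lit 8422678146) (nat_lit 4) (nat_lit 5) (nat_lit 6) (nat_lit 4) (nat_lit 4) (nat_lit 4) (nat_lit 462) (nat_lit 380) (nat_lit 358)) (XT.lf (nat_lit 0) (nat_lit 21313145643) (nat_lit 152) (nat_lit 53674690971) (nat_lit 0) (nat_lit 18699502089) (nat_lit 4) (nat_lit 5) (nat_lit 6) (nat_lit 4) (nat_lit 4) (nat_lit 4) (nat_lit 463) (nat_lit 380) (nat_lit 357))) (XT.nd (nat_lit 78) (nat_lit 0) (nat_lit 0) (XT.lf (nat_lit 0) (nat_lit 32270665244) (nat_lit 152) (nat_lit 38818987235) (nat_lit 0) (nat_lit 29617279378) (nat_lit 4) (nat_lit 5) (nat_lit 6) (nat_lit 4) (nat_lit 4) (nat_lit 4) (nat_lit 464) (nat_lit 380) (nat_lit 356))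 (XT.lf (nat_lit 0) (nat_lit 43930892254) (nat_lit 152) (nat_lit 23125190071) (nat_lit 0) (nat_lit 41240707952) (nat_lit 4) (nat_lit 5) (nat_lit 6) (nat_lit 4) (nat_lit 4) (nat_lit 4) (nat_lit 465) (nat_lit 380) (nat_lit 355))))))))
noncomputable def xc17 : XT := (XT.nd (nat_lit 2028) (nat_lit 0) (nat_lit 0) (XT.nd (nat_lit 1014) (nat_lit 0) (nat_lit 0) (XT.nd (nat_lit 468) (nat_lit 152) (nat_lit 0) (XT.nd (nat_lit 234) (nat_lit 0) (nat_lit 0) (XT.nd (nat_lit 78) (nat_lit 76) (nat_lit 0) (XT.lf (nat_lit 0) (nat_lit 56362924317) (nat_lit 152) (nat_lit 6500299201) (nat_lit 0) (nat_lit 53638667389) (nat_lit 4) (nat_lit 5) (nat_lit 6) (nat_lit 4) (nat_lit 4) (nat_lit 4) (nat_lit 466) (nat_lit 380) (nat_lit 354)) (XT.nd (nat_lit 78) (nat_lit 0) (nat_lit 0) (XT.lf (nat_lit 0) (nat_lit 11523011581) (nat_lit 76) (nat_lit 58297327656) (nat_lit 76) (nat_lit 55541521999) (nat_lit 3) (nat_lit 4) (nat_lit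 4) (nat_lit 5) (nat_lit 4) (nat_lit 4) (nat_lit 467) (nat_lit 380) (nat_lit 353)) (XT.lf (nat_lit 0) (nat_lit 30932985259) (nat_lit 76) (nat_lit 53392064364) (nat_lit 76) (nat_lit 50607046922) (nat_lit 3) (nat_lit 4) (nat_lit 4) (nat_lit 5) (nat_lit 4) (nat_lit 4) (nat_lit 468) (nat_lit 380) (nat_lit 352)))) (XT.nd (nat_lit 78) (nat_lit 0) (nat_lit 0) (XT.lf (nat_lit 0) (nat_lit 51629714650) (nat_lit 76) (nat_lit 48228451129) (nat_lit 76) (nat_lit 45416385737) (nat_lit 3) (nat_lit 4) (nat_lit 4) (nat_lit 5) (nat_lit 4) (nat_lit 4) (nat_lit 469) (nat_lit 380) (nat_lit 351)) (XT.nd (nat_lit 78) (nat_lit 0) (nat_lit 0) (XT.lf (nat_lit 0) (nat_lit 73735847040) (nat_lit 76) (nat_lit 42775888761) (nat_lit 76) (nat_lit 39938778972) (nat_lit 3) (nat_lit 4) (nat_lit 4) (nat_lit 5) (nat_lit 4) (nat_lit 4) (nat_lit 470) (nat_lit 380) (nat_lit 350)) (XT.lf (nat_lit 0) (nat_lit 97382381731) (nat_lit 76)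 (nat_lit 37002065780) (nat_lit 76) (nat_lit 34141766733) (nat_lit 3) (nat_lit 4) (nat_lit 4) (nat_lit 5) (nat_lit 4) (nat_lit 4) (nat_lit 471) (nat_lit 380) (nat_lit 349))))) (XT.nd (nat_lit 234) (nat_lit 152) (nat_lit 0) (XT.nd (nat_lit 78) (nat_lit 0) (nat_lit 0) (XT.lf (nat_lit 0) (nat_lit 122709446336) (nat_lit 76) (nat_lit 30872766938) (nat_lit 76) (nat_lit 27990996356) (nat_lit 3) (nat_lit 4) (nat_lit 4) (nat_lit 5) (nat_lit 4) (nat_lit 4) (nat_lit 472) (nat_lit 380) (nat_lit 348)) (XT.nd (nat_lit 78) (nat_lit 0) (nat_lit 0) (XT.lf (nat_lit 0) (nat_lit 149867127165) (nat_lit 76) (nat_lit 24351670463) (nat_lit 76) (nat_lit 21450018832) (nat_lit 3) (nat_lit 4) (nat_lit 4) (nat_lit 5) (nat_lit 4) (nat_lit 4) (nat_lit 473) (nat_lit 380) (nat_lit 347)) (XT.lf (nat_lit 0) (nat_lit 179016358622) (nat_lit 76) (nat_lit 17400132823) (nat_lit 76) (nat_lit 14480072811) (nat_lit 3) (nat_lit 4) (nat_lit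 4) (nat_lit 5) (nat_lit 4) (nat_lit 4) (nat_lit 474) (nat_lit 380) (nat_lit 346)))) (XT.nd (nat_lit 156) (nat_lit 76) (nat_lit 0) (XT.nd (nat_lit 78) (nat_lit 76) (nat_lit 0) (XT.lf (nat_lit 0) (nat_lit 210329876894) (nat_lit 76) (nat_lit 9976959718) (nat_lit 76) (nat_lit 7039854911) (nat_lit 3) (nat_lit 4) (nat_lit 4) (nat_lit 5) (nat_lit 4) (nat_lit 4) (nat_lit 475) (nat_lit 380) (nat_lit 345)) (XT.lf (nat_lit 0) (nat_lit 885448135) (nat_lit 152) (nat_lit 1137718349) (nat_lit 76) (nat_lit 243092799943) (nat_lit 2) (nat_lit 5) (nat_lit 4) (nat_lit 5) (nat_lit 3) (nat_lit 4) (nat_lit 476) (nat_lit 380) (nat_lit 344))) (XT.nd (nat_lit 78) (nat_lit 0) (nat_lit 0) (XT.lf (nat_lit 0) (nat_lit 9490430148) (nat_lit 152) (nat_lit 248131729638) (nat_lit 0) (nat_lit 6664239490) (nat_lit 1) (nat_lit 5) (nat_lit 3) (nat_lit 4) (nat_lit 1) (nat_lit 4) (nat_lit 477) (nat_lit 380) (nat_lit 343)) (XT.lf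 (nat_lit 0) (nat_lit 18767683429) (nat_lit 152) (nat_lit 250294984399) (nat_lit 0) (nat_lit 15928606380) (nat_lit 1) (nat_lit 5) (nat_lit 3) (nat_lit 4) (nat_lit 1) (nat_lit 4) (nat_lit 478) (nat_lit 380) (nat_lit 342)))))) (XT.nd (nat_lit 468) (nat_lit 0) (nat_lit 0) (XT.nd (nat_lit 234) (nat_lit 0) (nat_lit 0) (XT.nd (nat_lit 78) (nat_lit 0) (nat_lit 0) (XT.lf (nat_lit 0) (nat_lit 28721945871) (nat_lit 152) (nat_lit 252762915844) (nat_lit 0) (nat_lit 25870936981) (nat_lit 1) (nat_lit 5) (nat_lit 3) (nat_lit 4) (nat_lit 1) (nat_lit 4) (nat_lit 479) (nat_lit 380) (nat_lit 341)) (XT.nd (nat_lit 78) (nat_lit 0) (nat_lit 0) (XT.lf (nat_lit 0) (nat_lit 39412205699) (nat_lit 152) (nat_lit 255550148753) (nat_lit 0) (nat_lit 36550148807) (nat_lit 1) (nat_lit 5) (nat_lit 3) (nat_lit 4) (nat_lit 1) (nat_lit 4) (nat_lit 480) (nat_lit 380) (nat_lit 340)) (XT.lf (nat_lit 0) (nat_lit 50901812599) (nat_lit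 152) (nat_lit 258673200061) (nat_lit 0) (nat_lit 48029526075) (nat_lit 1) (nat_lit 5) (nat_lit 3) (nat_lit 4) (nat_lit 1) (nat_lit 4) (nat_lit 481) (nat_lit 380) (nat_lit 339)))) (XT.nd (nat_lit 78) (nat_lit 0) (nat_lit 0) (XT.lf (nat_lit 0) (nat_lit 63258853130) (nat_lit 152) (nat_lit 262150576739) (nat_lit 0) (nat_lit 60377094726) (nat_lit 1) (nat_lit 5) (nat_lit 3) (nat_lit 4) (nat_lit 1) (nat_lit 4) (nat_lit 482) (nat_lit 380) (nat_lit 338)) (XT.nd (nat_lit 78) (nat_lit 0) (nat_lit 0) (XT.lf (nat_lit 0) (nat_lit 76556554201) (nat_lit 152) (nat_lit 266002885463) (nat_lit 0) (nat_lit 73666025537) (nat_lit 1) (nat_lit 5) (nat_lit 3) (nat_lit 4) (nat_lit 1) (nat_lit 4) (nat_lit 483) (nat_lit 380) (nat_lit 337)) (XT.lf (nat_lit 0) (nat_lit 90873717002) (nat_lit 152) (nat_lit 270252954730) (nat_lit 0) (nat_lit 87975067726) (nat_lit 1) (nat_lit 5) (nat_lit 3) (nat_lit 4) (nat_lit 1) (nat_lit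 4) (nat_lit 484) (nat_lit 380) (nat_lit 336))))) (XT.nd (nat_lit 234) (nat_lit 0) (nat_lit 0) (XT.nd (nat_lit 78) (nat_lit 0) (nat_lit 0) (XT.lf (nat_lit 0) (nat_lit 106295183979) (nat_lit 152) (nat_lit 274925970135) (nat_lit 0) (nat_lit 103389015619) (nat_lit 1) (nat_lit 5) (nat_lit 3) (nat_lit 4) (nat_lit 1) (nat_lit 4) (nat_lit 485) (nat_lit 380) (nat_lit 335)) (XT.nd (nat_lit 78) (nat_lit 0) (nat_lit 0) (XT.lf (nat_lit 0) (nat_lit 122912341604) (nat_lit 152) (nat_lit 280049623622) (nat_lit 0) (nat_lit 119999211129) (nat_lit 1) (nat_lit 5) (nat_lit 3) (nat_lit 4) (nat_lit 1) (nat_lit 4) (nat_lit 486) (nat_lit 380) (nat_lit 334)) (XT.lf (nat_lit 0) (nat_lit 140823661921) (nat_lit 152) (nat_lit 285654277581) (nat_lit 0) (nat_lit 137904085043) (nat_lit 1) (nat_lit 5) (nat_lit 3) (nat_lit 4) (nat_lit 1) (nat_lit 4) (nat_lit 487) (nat_lit 380) (nat_lit 333)))) (XT.nd (nat_lit 156) (nat_lit 0)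 (nat_lit 0) (XT.nd (nat_lit 78) (nat_lit 0) (nat_lit 0) (XT.lf (nat_lit 0) (nat_lit 160135286089) (nat_lit 152) (nat_lit 291773144778) (nat_lit 0) (nat_lit 157209740319) (nat_lit 1) (nat_lit 5) (nat_lit 3) (nat_lit 4) (nat_lit 1) (nat_lit 4) (nat_lit 488) (nat_lit 380) (nat_lit 332)) (XT.lf (nat_lit 0) (nat_lit 180961653361) (nat_lit 152) (nat_lit 298442485164) (nat_lit 0) (nat_lit 178030580839) (nat_lit 1) (nat_lit 5) (nat_lit 3) (nat_lit 4) (nat_lit 1) (nat_lit 4) (nat_lit 489) (nat_lit 380) (nat_lit 331))) (XT.nd (nat_lit 78) (nat_lit 0) (nat_lit 0) (XT.lf (nat_lit 0) (nat_lit 203426179247) (nat_lit 152) (nat_lit 305701820758) (nat_lit 0) (nat_lit 200489989363) (nat_lit 1) (nat_lit 5) (nat_lit 3) (nat_lit 4) (nat_lit 1) (nat_lit 4) (nat_lit 490) (nat_lit 380) (nat_lit 330)) (XT.lf (nat_lit 0) (nat_lit 227661986863) (nat_lit 152) (nat_lit 313594169845) (nat_lit 0) (nat_lit 224721058681)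 (nat_lit 1) (nat_lit 5) (nat_lit 3) (nat_lit 4) (nat_lit 1) (nat_lit 4) (nat_lit 491) (nat_lit 380) (nat_lit 329))))))) (XT.nd (nat_lit 58656) (nat_lit 0) (nat_lit 456) (XT.nd (nat_lit 468) (nat_lit 0) (nat_lit 0) (XT.nd (nat_lit 234) (nat_lit 0) (nat_lit 0) (XT.nd (nat_lit 78) (nat_lit 0) (nat_lit 0) (XT.lf (nat_lit 0) (nat_lit 253812695811) (nat_lit 152) (nat_lit 322166301900) (nat_lit 0) (nat_lit 250867380315) (nat_lit 1) (nat_lit 5) (nat_lit 3) (nat_lit 4) (nat_lit 1) (nat_lit 4) (nat_lit 492) (nat_lit 380) (nat_lit 328)) (XT.nd (nat_lit 78) (nat_lit 0) (nat_lit 0) (XT.lf (nat_lit 0) (nat_lit 282033273254) (nat_lit 152) (nat_lit 331469014744) (nat_lit 0) (nat_lit 279083895431) (nat_lit 1) (nat_lit 5) (nat_lit 3) (nat_lit 4) (nat_lit 1) (nat_lit 4) (nat_lit 493) (nat_lit 380) (nat_lit 327)) (XT.lf (nat_lit 0) (nat_lit 312490952245) (nat_lit 152) (nat_lit 341557435563) (nat_lit 0) (nat_lit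 309537813007) (nat_lit 1) (nat_lit 5) (nat_lit 3) (nat_lit 4) (nat_lit 1) (nat_lit 4) (nat_lit 494) (nat_lit 380) (nat_lit 326)))) (XT.nd (nat_lit 78) (nat_lit 0) (nat_lit 0) (XT.lf (nat_lit 0) (nat_lit 345366222731) (nat_lit 152) (nat_lit 352491347592) (nat_lit 0) (nat_lit 342409600703) (nat_lit 1) (nat_lit 5) (nat_lit 3) (nat_lit 4) (nat_lit 1) (nat_lit 4) (nat_lit 495) (nat_lit 380) (nat_lit 325)) (XT.nd (nat_lit 78) (nat_lit 0) (nat_lit 0) (XT.lf (nat_lit 0) (nat_lit 380853901132) (nat_lit 152) (nat_lit 364335544384) (nat_lit 0) (nat_lit 377894054297) (nat_lit 1) (nat_lit 5) (nat_lit 3) (nat_lit 4) (nat_lit 1) (nat_lit 4) (nat_lit 496) (nat_lit 380) (nat_lit 324)) (XT.lf (nat_lit 0) (nat_lit 419164284800) (nat_lit 152) (nat_lit 377160213771) (nat_lit 0) (nat_lit 416201452034) (nat_lit 1) (nat_lit 5) (nat_lit 3) (nat_lit 4) (nat_lit 1) (nat_lit 4) (nat_lit 497) (nat_lit 380) (nat_lit 323)))))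 (XT.nd (nat_lit 57876) (nat_lit 0) (nat_lit 1368) (XT.nd (nat_lit 78) (nat_lit 0) (nat_lit 0) (XT.lf (nat_lit 0) (nat_lit 460524398232) (nat_lit 152) (nat_lit 391041353794) (nat_lit 0) (nat_lit 457558800714) (nat_lit 1) (nat_lit 5) (nat_lit 3) (nat_lit 4) (nat_lit 1) (nat_lit 4) (nat_lit 498) (nat_lit 380) (nat_lit 322)) (XT.nd (nat_lit 57720) (nat_lit 0) (nat_lit 1824) (XT.lf (nat_lit 0) (nat_lit 505179338396) (nat_lit 152) (nat_lit 406061223062) (nat_lit 0) (nat_lit 502211180922) (nat_lit 1) (nat_lit 5) (nat_lit 3) (nat_lit 4) (nat_lit 1) (nat_lit 4) (nat_lit 499) (nat_lit 380) (nat_lit 321)) (XT.lf (nat_lit 0) (nat_lit 22099940) (nat_lit 152) (nat_lit 9794495302) (nat_lit 0) (nat_lit 22099940) (nat_lit 25) (nat_lit 5) (nat_lit 27) (nat_lit 4) (nat_lit 25) (nat_lit 4) (nat_lit 438) (nat_lit 381) (nat_lit 381)))) (XT.nd (nat_lit 156) (nat_lit 228) (nat_lit 0) (XT.nd (nat_lit 78) (nat_lit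 152) (nat_lit 0) (XT.lf (nat_lit 0) (nat_lit 1671257704) (nat_lit 76) (nat_lit 9675140495) (nat_lit 76) (nat_lit 9320532642) (nat_lit 24) (nat_lit 4) (nat_lit 25) (nat_lit 5) (nat_lit 25) (nat_lit 4) (nat_lit 439) (nat_lit 381) (nat_lit 380)) (XT.lf (nat_lit 0) (nat_lit 1563595631) (nat_lit 152) (nat_lit 19267247400) (nat_lit 0) (nat_lit 913168528) (nat_lit 22) (nat_lit 5) (nat_lit 24) (nat_lit 4) (nat_lit 22) (nat_lit 4) (nat_lit 440) (nat_lit 381) (nat_lit 379))) (XT.nd (nat_lit 78) (nat_lit 152) (nat_lit 0) (XT.lf (nat_lit 0) (nat_lit 2058702986) (nat_lit 76) (nat_lit 10891497446) (nat_lit 76) (nat_lit 9951528363) (nat_lit 21) (nat_lit 4) (nat_lit 22) (nat_lit 5) (nat_lit 22) (nat_lit 4) (nat_lit 441) (nat_lit 381) (nat_lit 378)) (XT.lf (nat_lit 0) (nat_lit 532644302) (nat_lit 76) (nat_lit 316481458) (nat_lit 152) (nat_lit 23312677700) (nat_lit 19) (nat_lit 5) (nat_lit 20) (nat_lit 5) (nat_lit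 21) (nat_lit 4) (nat_lit 442) (nat_lit 381) (nat_lit 377)))))) (XT.nd (nat_lit 546) (nat_lit 380) (nat_lit 0) (XT.nd (nat_lit 234) (nat_lit 304) (nat_lit 0) (XT.nd (nat_lit 78) (nat_lit 228) (nat_lit 0) (XT.lf (nat_lit 0) (nat_lit 12168223099) (nat_lit 152) (nat_lit 2564900193) (nat_lit 0) (nat_lit 10781271587) (nat_lit 19) (nat_lit 5) (nat_lit 21) (nat_lit 4) (nat_lit 19) (nat_lit 4) (nat_lit 443) (nat_lit 381) (nat_lit 376)) (XT.nd (nat_lit 78) (nat_lit 152) (nat_lit 0) (XT.lf (nat_lit 0) (nat_lit 19817225436) (nat_lit 76) (nat_lit 4386644851) (nat_lit 76) (nat_lit 2780790712) (nat_lit 18) (nat_lit 4) (nat_lit 19) (nat_lit 5) (nat_lit 19) (nat_lit 4) (nat_lit 444) (nat_lit 381) (nat_lit 375)) (XT.lf (nat_lit 0) (nat_lit 8247442534) (nat_lit 152) (nat_lit 13798672089) (nat_lit 0) (nat_lit 6525021813) (nat_lit 16) (nat_lit 5) (nat_lit 18) (nat_lit 4) (nat_lit 16) (nat_lit 4) (nat_lit 445)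 (nat_lit 381) (nat_lit 374)))) (XT.nd (nat_lit 156) (nat_lit 152) (nat_lit 0) (XT.nd (nat_lit 78) (nat_lit 76) (nat_lit 0) (XT.lf (nat_lit 0) (nat_lit 7623095214) (nat_lit 76) (nat_lit 12283999388) (nat_lit 76) (nat_lit 10382841791) (nat_lit 15) (nat_lit 4) (nat_lit 16) (nat_lit 5) (nat_lit 16) (nat_lit 4) (nat_lit 446) (nat_lit 381) (nat_lit 373)) (XT.lf (nat_lit 0) (nat_lit 125296232) (nat_lit 152) (nat_lit 1809797429) (nat_lit 76) (nat_lit 30221717972) (nat_lit 14) (nat_lit 5) (nat_lit 16) (nat_lit 5) (nat_lit 15) (nat_lit 4) (nat_lit 447) (nat_lit 381) (nat_lit 372))) (XT.nd (nat_lit 78) (nat_lit 76) (nat_lit 0) (XT.lf (nat_lit 0) (nat_lit 11151718523) (nat_lit 152) (nat_lit 13973215363) (nat_lit 0) (nat_lit 9037534935) (nat_lit 13) (nat_lit 5) (nat_lit 15) (nat_lit 4) (nat_lit 13) (nat_lit 4) (nat_lit 448) (nat_lit 381) (nat_lit 371)) (XT.lf (nat_lit 0) (nat_lit 7051728527) (nat_lit 76)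 (nat_lit 15769074113) (nat_lit 76) (nat_lit 13519759958) (nat_lit 12) (nat_lit 4) (nat_lit 13) (nat_lit 5) (nat_lit 13) (nat_lit 4) (nat_lit 449) (nat_lit 381) (nat_lit 370))))) (XT.nd (nat_lit 234) (nat_lit 228) (nat_lit 0) (XT.nd (nat_lit 78) (nat_lit 152) (nat_lit 0) (XT.lf (nat_lit 0) (nat_lit 29466895181) (nat_lit 76) (nat_lit 5804039136) (nat_lit 76) (nat_lit 3429604086) (nat_lit 12) (nat_lit 4) (nat_lit 13) (nat_lit 5) (nat_lit 13) (nat_lit 4) (nat_lit 450) (nat_lit 381) (nat_lit 369)) (XT.nd (nat_lit 78) (nat_lit 0) (nat_lit 0) (XT.lf (nat_lit 0) (nat_lit 7119275493) (nat_lit 152) (nat_lit 29382117254) (nat_lit 0) (nat_lit 4747572893) (nat_lit 10) (nat_lit 5) (nat_lit 12) (nat_lit 4) (nat_lit 10) (nat_lit 4) (nat_lit 451) (nat_lit 381) (nat_lit 368)) (XT.lf (nat_lit 0) (nat_lit 18293205981) (nat_lit 152) (nat_lit 9890853172) (nat_lit 0) (nat_lit 15819340523) (nat_lit 10) (nat_lit 5)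 (nat_lit 12) (nat_lit 4) (nat_lit 10) (nat_lit 4) (nat_lit 452) (nat_lit 381) (nat_lit 367)))) (XT.nd (nat_lit 156) (nat_lit 152) (nat_lit 0) (XT.nd (nat_lit 78) (nat_lit 0) (nat_lit 0) (XT.lf (nat_lit 0) (nat_lit 10835779094) (nat_lit 76) (nat_lit 19359581278) (nat_lit 76) (nat_lit 16791120580) (nat_lit 9) (nat_lit 4) (nat_lit 10) (nat_lit 5) (nat_lit 10) (nat_lit 4) (nat_lit 453) (nat_lit 381) (nat_lit 366)) (XT.lf (nat_lit 0) (nat_lit 32932145358) (nat_lit 76) (nat_lit 9969754507) (nat_lit 76) (nat_lit 7313705626) (nat_lit 9) (nat_lit 4) (nat_lit 10) (nat_lit 5) (nat_lit 10) (nat_lit 4) (nat_lit 454) (nat_lit 381) (nat_lit 365))) (XT.nd (nat_lit 78) (nat_lit 0) (nat_lit 0) (XT.lf (nat_lit 0) (nat_lit 2524298288) (nat_lit 76) (nat_lit 42261389) (nat_lit 152) (nat_lit 51147317071) (nat_lit 7) (nat_lit 5) (nat_lit 8) (nat_lit 5) (nat_lit 9) (nat_lit 4) (nat_lit 455) (nat_lit 381) (nat_lit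 364)) (XT.lf (nat_lit 0) (nat_lit 13164705789) (nat_lit 152) (nat_lit 33825750043) (nat_lit 0) (nat_lit 10486380264) (nat_lit 7) (nat_lit 5) (nat_lit 9) (nat_lit 4) (nat_lit 7) (nat_lit 4) (nat_lit 456) (nat_lit 381) (nat_lit 363))))))))
noncomputable def xc18 : XT := (XT.nd (nat_lit 2028) (nat_lit 0) (nat_lit 0) (XT.nd (nat_lit 1014) (nat_lit 152) (nat_lit 0) (XT.nd (nat_lit 468) (nat_lit 76) (nat_lit 0) (XT.nd (nat_lit 234) (nat_lit 152) (nat_lit 0) (XT.nd (nat_lit 78) (nat_lit 76) (nat_lit 0) (XT.lf (nat_lit 0) (nat_lit 24340612938) (nat_lit 152) (nat_lit 15617661323) (nat_lit 0) (nat_lit 21596068056) (nat_lit 7) (nat_lit 5) (nat_lit 9) (nat_lit 4) (nat_lit 7) (nat_lit 4) (nat_lit 457) (nat_lit 381) (nat_lit 362)) (XT.nd (nat_lit 78) (nat_lit 0) (nat_lit 0) (XT.lf (nat_lit 0) (nat_lit 3660403060) (nat_lit 76) (nat_lit 32556594994) (nat_lit 76) (nat_lit 29750735893) (nat_lit 6) (nat_lit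 4) (nat_lit 7) (nat_lit 5) (nat_lit 7) (nat_lit 4) (nat_lit 458) (nat_lit 381) (nat_lit 361)) (XT.lf (nat_lit 0) (nat_lit 24556482768) (nat_lit 76) (nat_lit 24519366351) (nat_lit 76) (nat_lit 21656734825) (nat_lit 6) (nat_lit 4) (nat_lit 7) (nat_lit 5) (nat_lit 7) (nat_lit 4) (nat_lit 459) (nat_lit 381) (nat_lit 360)))) (XT.nd (nat_lit 78) (nat_lit 152) (nat_lit 0) (XT.lf (nat_lit 0) (nat_lit 46678016005) (nat_lit 76) (nat_lit 16063452964) (nat_lit 76) (nat_lit 13148254378) (nat_lit 6) (nat_lit 4) (nat_lit 7) (nat_lit 5) (nat_lit 7) (nat_lit 4) (nat_lit 460) (nat_lit 381) (nat_lit 359)) (XT.nd (nat_lit 78) (nat_lit 152) (nat_lit 0) (XT.lf (nat_lit 0) (nat_lit 70156093338) (nat_lit 76) (nat_lit 7138745716) (nat_lit 76) (nat_lit 4174873926) (nat_lit 6) (nat_lit 4) (nat_lit 7) (nat_lit 5) (nat_lit 7) (nat_lit 4) (nat_lit 461) (nat_lit 381) (nat_lit 358)) (XT.lf (nat_lit 0) (nat_lit 5307434343)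 (nat_lit 152) (nat_lit 79744206358) (nat_lit 0) (nat_lit 2441777608) (nat_lit 4) (nat_lit 5) (nat_lit 6) (nat_lit 4) (nat_lit 4) (nat_lit 4) (nat_lit 462) (nat_lit 381) (nat_lit 357))))) (XT.nd (nat_lit 234) (nat_lit 76) (nat_lit 0) (XT.nd (nat_lit 78) (nat_lit 0) (nat_lit 0) (XT.lf (nat_lit 0) (nat_lit 15536888785) (nat_lit 152) (nat_lit 65820481433) (nat_lit 0) (nat_lit 12631489739) (nat_lit 4) (nat_lit 5) (nat_lit 6) (nat_lit 4) (nat_lit 4) (nat_lit 4) (nat_lit 463) (nat_lit 381) (nat_lit 356)) (XT.nd (nat_lit 78) (nat_lit 0) (nat_lit 0) (XT.lf (nat_lit 0) (nat_lit 26410805425) (nat_lit 152) (nat_lit 51133221385) (nat_lit 0) (nat_lit 23468607942) (nat_lit 4) (nat_lit 5) (nat_lit 6) (nat_lit 4) (nat_lit 4) (nat_lit 4) (nat_lit 464) (nat_lit 381) (nat_lit 355)) (XT.lf (nat_lit 0) (nat_lit 37993622288) (nat_lit 152) (nat_lit 35595390599) (nat_lit 0) (nat_lit 35017352178) (nat_lit 4) (nat_lit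 5) (nat_lit 6) (nat_lit 4) (nat_lit 4) (nat_lit 4) (nat_lit 465) (nat_lit 381) (nat_lit 354)))) (XT.nd (nat_lit 156) (nat_lit 76) (nat_lit 0) (XT.nd (nat_lit 78) (nat_lit 0) (nat_lit 0) (XT.lf (nat_lit 0) (nat_lit 50353978288) (nat_lit 152) (nat_lit 19114913041) (nat_lit 0) (nat_lit 47346159450) (nat_lit 4) (nat_lit 5) (nat_lit 6) (nat_lit 4) (nat_lit 4) (nat_lit 4) (nat_lit 466) (nat_lit 381) (nat_lit 353)) (XT.lf (nat_lit 0) (nat_lit 63565119978) (nat_lit 152) (nat_lit 1594126622) (nat_lit 0) (nat_lit 60528089355) (nat_lit 4) (nat_lit 5) (nat_lit 6) (nat_lit 4) (nat_lit 4) (nat_lit 4) (nat_lit 467) (nat_lit 381) (nat_lit 352))) (XT.nd (nat_lit 78) (nat_lit 0) (nat_lit 0) (XT.lf (nat_lit 0) (nat_lit 17635233135) (nat_lit 76) (nat_lit 60345437884) (nat_lit 76) (nat_lit 57281359311) (nat_lit 3) (nat_lit 4) (nat_lit 4) (nat_lit 5) (nat_lit 4) (nat_lit 4) (nat_lit 468) (nat_lit 381) (nat_lit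 351)) (XT.lf (nat_lit 0) (nat_lit 38213532068) (nat_lit 76) (nat_lit 55241507306) (nat_lit 76) (nat_lit 52152384335) (nat_lit 3) (nat_lit 4) (nat_lit 4) (nat_lit 5) (nat_lit 4) (nat_lit 4) (nat_lit 469) (nat_lit 381) (nat_lit 350)))))) (XT.nd (nat_lit 468) (nat_lit 152) (nat_lit 0) (XT.nd (nat_lit 234) (nat_lit 0) (nat_lit 0) (XT.nd (nat_lit 78) (nat_lit 0) (nat_lit 0) (XT.lf (nat_lit 0) (nat_lit 60210006626) (nat_lit 76) (nat_lit 49844206657) (nat_lit 76) (nat_lit 46731894429) (nat_lit 3) (nat_lit 4) (nat_lit 4) (nat_lit 5) (nat_lit 4) (nat_lit 4) (nat_lit 470) (nat_lit 381) (nat_lit 349)) (XT.nd (nat_lit 78) (nat_lit 0) (nat_lit 0) (XT.lf (nat_lit 0) (nat_lit 83755006288) (nat_lit 76) (nat_lit 44121551934) (nat_lit 76) (nat_lit 40987768172) (nat_lit 3) (nat_lit 4) (nat_lit 4) (nat_lit 5) (nat_lit 4) (nat_lit 4) (nat_lit 471) (nat_lit 381) (nat_lit 348)) (XT.lf (nat_lit 0) (nat_lit 108988056977)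 (nat_lit 76) (nat_lit 38039631109) (nat_lit 76) (nat_lit 34885966296) (nat_lit 3) (nat_lit 4) (nat_lit 4) (nat_lit 5) (nat_lit 4) (nat_lit 4) (nat_lit 472) (nat_lit 381) (nat_lit 347)))) (XT.nd (nat_lit 78) (nat_lit 0) (nat_lit 0) (XT.lf (nat_lit 0) (nat_lit 136058687884) (nat_lit 76) (nat_lit 31562403169) (nat_lit 76) (nat_lit 28390329977) (nat_lit 3) (nat_lit 4) (nat_lit 4) (nat_lit 5) (nat_lit 4) (nat_lit 4) (nat_lit 473) (nat_lit 381) (nat_lit 346)) (XT.nd (nat_lit 78) (nat_lit 0) (nat_lit 0) (XT.lf (nat_lit 0) (nat_lit 165127317561) (nat_lit 76) (nat_lit 24651484541) (nat_lit 76) (nat_lit 21462366553) (nat_lit 3) (nat_lit 4) (nat_lit 4) (nat_lit 5) (nat_lit 4) (nat_lit 4) (nat_lit 474) (nat_lit 381) (nat_lit 345)) (XT.lf (nat_lit 0) (nat_lit 196366204556) (nat_lit 76) (nat_lit 17265921635) (nat_lit 76) (nat_lit 14061021427) (nat_lit 3) (nat_lit 4) (nat_lit 4) (nat_lit 5) (nat_lit 4) (nat_lit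 4) (nat_lit 475) (nat_lit 381) (nat_lit 344))))) (XT.nd (nat_lit 234) (nat_lit 0) (nat_lit 0) (XT.nd (nat_lit 78) (nat_lit 152) (nat_lit 0) (XT.lf (nat_lit 0) (nat_lit 229960468197) (nat_lit 76) (nat_lit 9361948150) (nat_lit 76) (nat_lit 6142434777) (nat_lit 3) (nat_lit 4) (nat_lit 4) (nat_lit 5) (nat_lit 4) (nat_lit 4) (nat_lit 476) (nat_lit 381) (nat_lit 343)) (XT.nd (nat_lit 78) (nat_lit 0) (nat_lit 0) (XT.lf (nat_lit 0) (nat_lit 1457709509) (nat_lit 76) (nat_lit 830462973) (nat_lit 152) (nat_lit 262370455597) (nat_lit 1) (nat_lit 5) (nat_lit 2) (nat_lit 5) (nat_lit 3) (nat_lit 4) (nat_lit 477) (nat_lit 381) (nat_lit 342)) (XT.lf (nat_lit 0) (nat_lit 11521127649) (nat_lit 152) (nat_lit 265414484546) (nat_lit 0) (nat_lit 8430106206) (nat_lit 1) (nat_lit 5) (nat_lit 3) (nat_lit 4) (nat_lit 1) (nat_lit 4) (nat_lit 478) (nat_lit 381) (nat_lit 341)))) (XT.nd (nat_lit 156) (nat_lit 0) (nat_lit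 0) (XT.nd (nat_lit 78) (nat_lit 0) (nat_lit 0) (XT.lf (nat_lit 0) (nat_lit 21446378741) (nat_lit 152) (nat_lit 267941005870) (nat_lit 0) (nat_lit 18344309295) (nat_lit 1) (nat_lit 5) (nat_lit 3) (nat_lit 4) (nat_lit 1) (nat_lit 4) (nat_lit 479) (nat_lit 381) (nat_lit 340)) (XT.lf (nat_lit 0) (nat_lit 32109776206) (nat_lit 152) (nat_lit 270782488667) (nat_lit 0) (nat_lit 28997477129) (nat_lit 1) (nat_lit 5) (nat_lit 3) (nat_lit 4) (nat_lit 1) (nat_lit 4) (nat_lit 480) (nat_lit 381) (nat_lit 339))) (XT.nd (nat_lit 78) (nat_lit 0) (nat_lit 0) (XT.lf (nat_lit 0) (nat_lit 43574510548) (nat_lit 152) (nat_lit 273955771352) (nat_lit 0) (nat_lit 40452739590) (nat_lit 1) (nat_lit 5) (nat_lit 3) (nat_lit 4) (nat_lit 1) (nat_lit 4) (nat_lit 481) (nat_lit 381) (nat_lit 338)) (XT.lf (nat_lit 0) (nat_lit 55908520934) (nat_lit 152) (nat_lit 277479658565) (nat_lit 0) (nat_lit 52777979716) (nat_lit 1) (nat_lit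 5) (nat_lit 3) (nat_lit 4) (nat_lit 1) (nat_lit 4) (nat_lit 482) (nat_lit 381) (nat_lit 337))))))) (XT.nd (nat_lit 1014) (nat_lit 0) (nat_lit 0) (XT.nd (nat_lit 468) (nat_lit 0) (nat_lit 0) (XT.nd (nat_lit 234) (nat_lit 0) (nat_lit 0) (XT.nd (nat_lit 78) (nat_lit 0) (nat_lit 0) (XT.lf (nat_lit 0) (nat_lit 69184897795) (nat_lit 152) (nat_lit 281375032599) (nat_lit 0) (nat_lit 66046235966) (nat_lit 1) (nat_lit 5) (nat_lit 3) (nat_lit 4) (nat_lit 1) (nat_lit 4) (nat_lit 483) (nat_lit 381) (nat_lit 336)) (XT.nd (nat_lit 78) (nat_lit 0) (nat_lit 0) (XT.lf (nat_lit 0) (nat_lit 83482315957) (nat_lit 152) (nat_lit 285664977153) (nat_lit 0) (nat_lit 80336135044) (nat_lit 1) (nat_lit 5) (nat_lit 3) (nat_lit 4) (nat_lit 1) (nat_lit 4) (nat_lit 484) (nat_lit 381) (nat_lit 335)) (XT.lf (nat_lit 0) (nat_lit 98885500862) (nat_lit 152) (nat_lit 290374914121) (nat_lit 0) (nat_lit 95732357834) (nat_lit 1) (nat_lit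 5) (nat_lit 3) (nat_lit 4) (nat_lit 1) (nat_lit 4) (nat_lit 485) (nat_lit 381) (nat_lit 334)))) (XT.nd (nat_lit 78) (nat_lit 0) (nat_lit 0) (XT.lf (nat_lit 0) (nat_lit 115485730642) (nat_lit 152) (nat_lit 295532754239) (nat_lit 0) (nat_lit 112326141211) (nat_lit 1) (nat_lit 5) (nat_lit 3) (nat_lit 4) (nat_lit 1) (nat_lit 4) (nat_lit 486) (nat_lit 381) (nat_lit 333)) (XT.nd (nat_lit 78) (nat_lit 0) (nat_lit 0) (XT.lf (nat_lit 0) (nat_lit 133381377029) (nat_lit 152) (nat_lit 301169062487) (nat_lit 0) (nat_lit 130215818706) (nat_lit 1) (nat_lit 5) (nat_lit 3) (nat_lit 4) (nat_lit 1) (nat_lit 4) (nat_lit 487) (nat_lit 381) (nat_lit 332)) (XT.lf (nat_lit 0) (nat_lit 152678488298) (nat_lit 152) (nat_lit 307317239209) (nat_lit 0) (nat_lit 149507403224) (nat_lit 1) (nat_lit 5) (nat_lit 3) (nat_lit 4) (nat_lit 1) (nat_lit 4) (nat_lit 488) (nat_lit 381) (nat_lit 331))))) (XT.nd (nat_lit 234) (nat_lit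 0) (nat_lit 0) (XT.nd (nat_lit 78) (nat_lit 0) (nat_lit 0) (XT.lf (nat_lit 0) (nat_lit 173491417701) (nat_lit 152) (nat_lit 314013718046) (nat_lit 0) (nat_lit 170315215264) (nat_lit 1) (nat_lit 5) (nat_lit 3) (nat_lit 4) (nat_lit 1) (nat_lit 4) (nat_lit 489) (nat_lit 381) (nat_lit 330)) (XT.nd (nat_lit 78) (nat_lit 0) (nat_lit 0) (XT.lf (nat_lit 0) (nat_lit 195943501116) (nat_lit 152) (nat_lit 321298181835) (nat_lit 0) (nat_lit 192762560380) (nat_lit 1) (nat_lit 5) (nat_lit 3) (nat_lit 4) (nat_lit 1) (nat_lit 4) (nat_lit 490) (nat_lit 381) (nat_lit 329)) (XT.lf (nat_lit 0) (nat_lit 220167787925) (nat_lit 152) (nat_lit 329213797769) (nat_lit 0) (nat_lit 216982459876) (nat_lit 1) (nat_lit 5) (nat_lit 3) (nat_lit 4) (nat_lit 1) (nat_lit 4) (nat_lit 491) (nat_lit 381) (nat_lit 328)))) (XT.nd (nat_lit 156) (nat_lit 0) (nat_lit 0) (XT.nd (nat_lit 78) (nat_lit 0) (nat_lit 0) (XT.lf (nat_lit 0) (nat_lit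 246307829460) (nat_lit 152) (nat_lit 337807473201) (nat_lit 0) (nat_lit 243118439083) (nat_lit 1) (nat_lit 5) (nat_lit 3) (nat_lit 4) (nat_lit 1) (nat_lit 4) (nat_lit 492) (nat_lit 381) (nat_lit 327)) (XT.lf (nat_lit 0) (nat_lit 274518529668) (nat_lit 152) (nat_lit 347130133615) (nat_lit 0) (nat_lit 271325377877) (nat_lit 1) (nat_lit 5) (nat_lit 3) (nat_lit 4) (nat_lit 1) (nat_lit 4) (nat_lit 493) (nat_lit 381) (nat_lit 326))) (XT.nd (nat_lit 78) (nat_lit 0) (nat_lit 0) (XT.lf (nat_lit 0) (nat_lit 304967063070) (nat_lit 152) (nat_lit 357237024408) (nat_lit 0) (nat_lit 301770428489) (nat_lit 1) (nat_lit 5) (nat_lit 3) (nat_lit 4) (nat_lit 1) (nat_lit 4) (nat_lit 494) (nat_lit 381) (nat_lit 325)) (XT.lf (nat_lit 0) (nat_lit 337833865420) (nat_lit 152) (nat_lit 368188038264) (nat_lit 0) (nat_lit 334634006032) (nat_lit 1) (nat_lit 5) (nat_lit 3) (nat_lit 4) (nat_lit 1) (nat_lit 4) (nat_lit 495)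 (nat_lit 381) (nat_lit 324)))))) (XT.nd (nat_lit 58032) (nat_lit 0) (nat_lit 1140) (XT.nd (nat_lit 234) (nat_lit 0) (nat_lit 0) (XT.nd (nat_lit 78) (nat_lit 0) (nat_lit 0) (XT.lf (nat_lit 0) (nat_lit 373313702953) (nat_lit 152) (nat_lit 380048070081) (nat_lit 0) (nat_lit 370110857633) (nat_lit 1) (nat_lit 5) (nat_lit 3) (nat_lit 4) (nat_lit 1) (nat_lit 4) (nat_lit 496) (nat_lit 381) (nat_lit 323)) (XT.nd (nat_lit 78) (nat_lit 0) (nat_lit 0) (XT.lf (nat_lit 0) (nat_lit 411616826559) (nat_lit 152) (nat_lit 392887401528) (nat_lit 0) (nat_lit 408411216488) (nat_lit 1) (nat_lit 5) (nat_lit 3) (nat_lit 4) (nat_lit 1) (nat_lit 4) (nat_lit 497) (nat_lit 381) (nat_lit 322)) (XT.lf (nat_lit 0) (nat_lit 452970217711) (nat_lit 152) (nat_lit 406782117534) (nat_lit 0) (nat_lit 449762047684) (nat_lit 1) (nat_lit 5) (nat_lit 3) (nat_lit 4) (nat_lit 1) (nat_lit 4) (nat_lit 498) (nat_lit 381) (nat_lit 321))))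 (XT.nd (nat_lit 57642) (nat_lit 0) (nat_lit 1900) (XT.nd (nat_lit 57564) (nat_lit 0) (nat_lit 2204) (XT.lf (nat_lit 0) (nat_lit 497618933541) (nat_lit 152) (nat_lit 421814557154) (nat_lit 0) (nat_lit 494408393185) (nat_lit 1) (nat_lit 5) (nat_lit 3) (nat_lit 4) (nat_lit 1) (nat_lit 4) (nat_lit 499) (nat_lit 381) (nat_lit 320)) (XT.lf (nat_lit 0) (nat_lit 6533750776) (nat_lit 76) (nat_lit 1205012113) (nat_lit 76) (nat_lit 1205012113) (nat_lit 30) (nat_lit 4) (nat_lit 31) (nat_lit 5) (nat_lit 31) (nat_lit 4) (nat_lit 436) (nat_lit 382) (nat_lit 382))) (XT.nd (nat_lit 78) (nat_lit 152) (nat_lit 0) (XT.lf (nat_lit 0) (nat_lit 8394011104) (nat_lit 152) (nat_lit 2366652647) (nat_lit 0) (nat_lit 7991885798) (nat_lit 28) (nat_lit 5) (nat_lit 30) (nat_lit 4) (nat_lit 28) (nat_lit 4) (nat_lit 437) (nat_lit 382) (nat_lit 381)) (XT.lf (nat_lit 0) (nat_lit 149416117) (nat_lit 152) (nat_lit 468160510) (nat_lit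 76) (nat_lit 19073716150) (nat_lit 26) (nat_lit 5) (nat_lit 28) (nat_lit 5) (nat_lit 27) (nat_lit 4) (nat_lit 438) (nat_lit 382) (nat_lit 380))))) (XT.nd (nat_lit 234) (nat_lit 456) (nat_lit 0) (XT.nd (nat_lit 78) (nat_lit 152) (nat_lit 0) (XT.lf (nat_lit 0) (nat_lit 524142868) (nat_lit 76) (nat_lit 10619025481) (nat_lit 76) (nat_lit 9553100542) (nat_lit 24) (nat_lit 4) (nat_lit 25) (nat_lit 5) (nat_lit 25) (nat_lit 4) (nat_lit 439) (nat_lit 382) (nat_lit 379)) (XT.nd (nat_lit 78) (nat_lit 0) (nat_lit 0) (XT.lf (nat_lit 0) (nat_lit 744026089) (nat_lit 76) (nat_lit 287178841) (nat_lit 152) (nat_lit 20757701312) (nat_lit 22) (nat_lit 5) (nat_lit 23) (nat_lit 5) (nat_lit 24) (nat_lit 4) (nat_lit 440) (nat_lit 382) (nat_lit 378)) (XT.lf (nat_lit 0) (nat_lit 12124029044) (nat_lit 152) (nat_lit 286068326) (nat_lit 0) (nat_lit 10551226029) (nat_lit 22) (nat_lit 5) (nat_lit 24) (nat_lit 4) (nat_lit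 22) (nat_lit 4) (nat_lit 441) (nat_lit 382) (nat_lit 377)))) (XT.nd (nat_lit 156) (nat_lit 228) (nat_lit 0) (XT.nd (nat_lit 78) (nat_lit 152) (nat_lit 0) (XT.lf (nat_lit 0) (nat_lit 21854072693) (nat_lit 76) (nat_lit 2100990789) (nat_lit 76) (nat_lit 279952195) (nat_lit 21) (nat_lit 4) (nat_lit 22) (nat_lit 5) (nat_lit 22) (nat_lit 4) (nat_lit 442) (nat_lit 382) (nat_lit 376)) (XT.lf (nat_lit 0) (nat_lit 10739040769) (nat_lit 152) (nat_lit 6078431315) (nat_lit 0) (nat_lit 8785815672) (nat_lit 19) (nat_lit 5) (nat_lit 21) (nat_lit 4) (nat_lit 19) (nat_lit 4) (nat_lit 443) (nat_lit 382) (nat_lit 375))) (XT.nd (nat_lit 78) (nat_lit 152) (nat_lit 0) (XT.lf (nat_lit 0) (nat_lit 15729387268) (nat_lit 76) (nat_lit 6757245165) (nat_lit 76) (nat_lit 4601332450) (nat_lit 18) (nat_lit 4) (nat_lit 19) (nat_lit 5) (nat_lit 19) (nat_lit 4) (nat_lit 444) (nat_lit 382) (nat_lit 374)) (XT.lf (nat_lit 0) (nat_lit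 6151277203) (nat_lit 152) (nat_lit 18621996056) (nat_lit 0) (nat_lit 3919290122) (nat_lit 16) (nat_lit 5) (nat_lit 18) (nat_lit 4) (nat_lit 16) (nat_lit 4) (nat_lit 445) (nat_lit 382) (nat_lit 373))))))))
noncomputable def xc19 : XT := (XT.nd (nat_lit 2106) (nat_lit 152) (nat_lit 0) (XT.nd (nat_lit 1014) (nat_lit 304) (nat_lit 0) (XT.nd (nat_lit 468) (nat_lit 228) (nat_lit 0) (XT.nd (nat_lit 234) (nat_lit 228) (nat_lit 0) (XT.nd (nat_lit 78) (nat_lit 152) (nat_lit 0) (XT.lf (nat_lit 0) (nat_lit 2206533703) (nat_lit 76) (nat_lit 15308556255) (nat_lit 76) (nat_lit 12911072066) (nat_lit 15) (nat_lit 4) (nat_lit 16) (nat_lit 5) (nat_lit 16) (nat_lit 4) (nat_lit 446) (nat_lit 382) (nat_lit 372)) (XT.nd (nat_lit 78) (nat_lit 152) (nat_lit 0) (XT.lf (nat_lit 0) (nat_lit 24530948099) (nat_lit 76) (nat_lit 5161506652) (nat_lit 76) (nat_lit 2610784400) (nat_lit 15) (nat_lit 4) (nat_lit 16) (nat_lit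 5) (nat_lit 16) (nat_lit 4) (nat_lit 447) (nat_lit 382) (nat_lit 371)) (XT.lf (nat_lit 0) (nat_lit 8151935568) (nat_lit 152) (nat_lit 20588821816) (nat_lit 0) (nat_lit 5587545713) (nat_lit 13) (nat_lit 5) (nat_lit 15) (nat_lit 4) (nat_lit 13) (nat_lit 4) (nat_lit 448) (nat_lit 382) (nat_lit 370)))) (XT.nd (nat_lit 78) (nat_lit 228) (nat_lit 0) (XT.lf (nat_lit 0) (nat_lit 19526529308) (nat_lit 152) (nat_lit 157578607) (nat_lit 0) (nat_lit 16837018559) (nat_lit 13) (nat_lit 5) (nat_lit 15) (nat_lit 4) (nat_lit 13) (nat_lit 4) (nat_lit 449) (nat_lit 382) (nat_lit 369)) (XT.nd (nat_lit 78) (nat_lit 152) (nat_lit 0) (XT.lf (nat_lit 0) (nat_lit 21900369344) (nat_lit 76) (nat_lit 9897519830) (nat_lit 76) (nat_lit 7092156400) (nat_lit 12) (nat_lit 4) (nat_lit 13) (nat_lit 5) (nat_lit 13) (nat_lit 4) (nat_lit 450) (nat_lit 382) (nat_lit 368)) (XT.lf (nat_lit 0) (nat_lit 3209015474) (nat_lit 152) (nat_lit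 37815489313) (nat_lit 0) (nat_lit 435077921) (nat_lit 10) (nat_lit 5) (nat_lit 12) (nat_lit 4) (nat_lit 10) (nat_lit 4) (nat_lit 451) (nat_lit 382) (nat_lit 367))))) (XT.nd (nat_lit 234) (nat_lit 152) (nat_lit 0) (XT.nd (nat_lit 78) (nat_lit 76) (nat_lit 0) (XT.lf (nat_lit 0) (nat_lit 14221952012) (nat_lit 152) (nat_lit 18646699050) (nat_lit 0) (nat_lit 11353419220) (nat_lit 10) (nat_lit 5) (nat_lit 12) (nat_lit 4) (nat_lit 10) (nat_lit 4) (nat_lit 452) (nat_lit 382) (nat_lit 366)) (XT.nd (nat_lit 78) (nat_lit 0) (nat_lit 0) (XT.lf (nat_lit 0) (nat_lit 1481965908) (nat_lit 76) (nat_lit 24347032784) (nat_lit 76) (nat_lit 21390911808) (nat_lit 9) (nat_lit 4) (nat_lit 10) (nat_lit 5) (nat_lit 10) (nat_lit 4) (nat_lit 453) (nat_lit 382) (nat_lit 365)) (XT.lf (nat_lit 0) (nat_lit 23292721524) (nat_lit 76) (nat_lit 15100331116) (nat_lit 76) (nat_lit 12063109970) (nat_lit 9) (nat_lit 4) (nat_lit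 10) (nat_lit 5) (nat_lit 10) (nat_lit 4) (nat_lit 454) (nat_lit 382) (nat_lit 364)))) (XT.nd (nat_lit 156) (nat_lit 0) (nat_lit 0) (XT.nd (nat_lit 78) (nat_lit 152) (nat_lit 0) (XT.lf (nat_lit 0) (nat_lit 46298272638) (nat_lit 76) (nat_lit 5389541660) (nat_lit 76) (nat_lit 2277227764) (nat_lit 9) (nat_lit 4) (nat_lit 10) (nat_lit 5) (nat_lit 10) (nat_lit 4) (nat_lit 455) (nat_lit 382) (nat_lit 363)) (XT.lf (nat_lit 0) (nat_lit 8054439209) (nat_lit 152) (nat_lit 44668199437) (nat_lit 0) (nat_lit 5024111380) (nat_lit 7) (nat_lit 5) (nat_lit 9) (nat_lit 4) (nat_lit 7) (nat_lit 4) (nat_lit 456) (nat_lit 382) (nat_lit 362))) (XT.nd (nat_lit 78) (nat_lit 0) (nat_lit 0) (XT.lf (nat_lit 0) (nat_lit 19109796476) (nat_lit 152) (nat_lit 26702335328) (nat_lit 0) (nat_lit 16018154428) (nat_lit 7) (nat_lit 5) (nat_lit 9) (nat_lit 4) (nat_lit 7) (nat_lit 4) (nat_lit 457) (nat_lit 382) (nat_lit 361)) (XT.lf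 (nat_lit 0) (nat_lit 30817412180) (nat_lit 152) (nat_lit 7765708749) (nat_lit 0) (nat_lit 27668997707) (nat_lit 7) (nat_lit 5) (nat_lit 9) (nat_lit 4) (nat_lit 7) (nat_lit 4) (nat_lit 458) (nat_lit 382) (nat_lit 360)))))) (XT.nd (nat_lit 546) (nat_lit 76) (nat_lit 0) (XT.nd (nat_lit 234) (nat_lit 152) (nat_lit 0) (XT.nd (nat_lit 78) (nat_lit 0) (nat_lit 0) (XT.lf (nat_lit 0) (nat_lit 12659066533) (nat_lit 76) (nat_lit 30785241759) (nat_lit 76) (nat_lit 27584260225) (nat_lit 6) (nat_lit 4) (nat_lit 7) (nat_lit 5) (nat_lit 7) (nat_lit 4) (nat_lit 459) (nat_lit 382) (nat_lit 359)) (XT.nd (nat_lit 78) (nat_lit 0) (nat_lit 0) (XT.lf (nat_lit 0) (nat_lit 34581956230) (nat_lit 76) (nat_lit 22429174146) (nat_lit 76) (nat_lit 19179519408) (nat_lit 6) (nat_lit 4) (nat_lit 7) (nat_lit 5) (nat_lit 7) (nat_lit 4) (nat_lit 460) (nat_lit 382) (nat_lit 358)) (XT.lf (nat_lit 0) (nat_lit 57876104359) (nat_lit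 76) (nat_lit 13596916689) (nat_lit 76) (nat_lit 10302194170) (nat_lit 6) (nat_lit 4) (nat_lit 7) (nat_lit 5) (nat_lit 7) (nat_lit 4) (nat_lit 461) (nat_lit 382) (nat_lit 357)))) (XT.nd (nat_lit 156) (nat_lit 0) (nat_lit 0) (XT.nd (nat_lit 78) (nat_lit 152) (nat_lit 0) (XT.lf (nat_lit 0) (nat_lit 82679550318) (nat_lit 76) (nat_lit 4236130084) (nat_lit 76) (nat_lit 899678139) (nat_lit 6) (nat_lit 4) (nat_lit 7) (nat_lit 5) (nat_lit 7) (nat_lit 4) (nat_lit 462) (nat_lit 382) (nat_lit 356)) (XT.lf (nat_lit 0) (nat_lit 9124637222) (nat_lit 152) (nat_lit 79288298003) (nat_lit 0) (nat_lit 5910265503) (nat_lit 4) (nat_lit 5) (nat_lit 6) (nat_lit 4) (nat_lit 4) (nat_lit 4) (nat_lit 463) (nat_lit 382) (nat_lit 355))) (XT.nd (nat_lit 78) (nat_lit 0) (nat_lit 0) (XT.lf (nat_lit 0) (nat_lit 19921143713) (nat_lit 152) (nat_lit 64757004332) (nat_lit 0) (nat_lit 16672699368) (nat_lit 4) (nat_lit 5) (nat_lit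 6) (nat_lit 4) (nat_lit 4) (nat_lit 4) (nat_lit 464) (nat_lit 382) (nat_lit 354)) (XT.lf (nat_lit 0) (nat_lit 31432284512) (nat_lit 152) (nat_lit 49363586859) (nat_lit 0) (nat_lit 28152291439) (nat_lit 4) (nat_lit 5) (nat_lit 6) (nat_lit 4) (nat_lit 4) (nat_lit 4) (nat_lit 465) (nat_lit 382) (nat_lit 353))))) (XT.nd (nat_lit 234) (nat_lit 0) (nat_lit 0) (XT.nd (nat_lit 78) (nat_lit 76) (nat_lit 0) (XT.lf (nat_lit 0) (nat_lit 43726273786) (nat_lit 152) (nat_lit 33016825332) (nat_lit 0) (nat_lit 40417068928) (nat_lit 4) (nat_lit 5) (nat_lit 6) (nat_lit 4) (nat_lit 4) (nat_lit 4) (nat_lit 466) (nat_lit 382) (nat_lit 352)) (XT.nd (nat_lit 78) (nat_lit 76) (nat_lit 0) (XT.lf (nat_lit 0) (nat_lit 56875964806) (nat_lit 152) (nat_lit 15619850052) (nat_lit 0) (nat_lit 53539711997) (nat_lit 4) (nat_lit 5) (nat_lit 6) (nat_lit 4) (nat_lit 4) (nat_lit 4) (nat_lit 467) (nat_lit 382) (nat_lit 351)) (XT.lf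 (nat_lit 0) (nat_lit 3027325488) (nat_lit 76) (nat_lit 67979221211) (nat_lit 76) (nat_lit 64617924005) (nat_lit 3) (nat_lit 4) (nat_lit 4) (nat_lit 5) (nat_lit 4) (nat_lit 4) (nat_lit 468) (nat_lit 382) (nat_lit 350)))) (XT.nd (nat_lit 156) (nat_lit 0) (nat_lit 0) (XT.nd (nat_lit 78) (nat_lit 0) (nat_lit 0) (XT.lf (nat_lit 0) (nat_lit 23495966589) (nat_lit 76) (nat_lit 62930552352) (nat_lit 76) (nat_lit 59546065889) (nat_lit 3) (nat_lit 4) (nat_lit 4) (nat_lit 5) (nat_lit 4) (nat_lit 4) (nat_lit 469) (nat_lit 382) (nat_lit 349)) (XT.lf (nat_lit 0) (nat_lit 45390906118) (nat_lit 76) (nat_lit 57584419962) (nat_lit 76) (nat_lit 54178461964) (nat_lit 3) (nat_lit 4) (nat_lit 4) (nat_lit 5) (nat_lit 4) (nat_lit 4) (nat_lit 470) (nat_lit 382) (nat_lit 348))) (XT.nd (nat_lit 78) (nat_lit 0) (nat_lit 0) (XT.lf (nat_lit 0) (nat_lit 68841891864) (nat_lit 76) (nat_lit 51909143256) (nat_lit 76) (nat_lit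 48483304208) (nat_lit 3) (nat_lit 4) (nat_lit 4) (nat_lit 5) (nat_lit 4) (nat_lit 4) (nat_lit 471) (nat_lit 382) (nat_lit 347)) (XT.lf (nat_lit 0) (nat_lit 93987892632) (nat_lit 76) (nat_lit 45871090965) (nat_lit 76) (nat_lit 42426843537) (nat_lit 3) (nat_lit 4) (nat_lit 4) (nat_lit 5) (nat_lit 4) (nat_lit 4) (nat_lit 472) (nat_lit 382) (nat_lit 346))))))) (XT.nd (nat_lit 1014) (nat_lit 0) (nat_lit 0) (XT.nd (nat_lit 468) (nat_lit 0) (nat_lit 0) (XT.nd (nat_lit 234) (nat_lit 152) (nat_lit 0) (XT.nd (nat_lit 78) (nat_lit 0) (nat_lit 0) (XT.lf (nat_lit 0) (nat_lit 120977921759) (nat_lit 76) (nat_lit 39434482038) (nat_lit 76) (nat_lit 35973189814) (nat_lit 3) (nat_lit 4) (nat_lit 4) (nat_lit 5) (nat_lit 4) (nat_lit 4) (nat_lit 473) (nat_lit 382) (nat_lit 345)) (XT.nd (nat_lit 78) (nat_lit 0) (nat_lit 0) (XT.lf (nat_lit 0) (nat_lit 149971920158) (nat_lit 76) (nat_lit 32561173608) (nat_lit 76)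 (nat_lit 29084099166) (nat_lit 3) (nat_lit 4) (nat_lit 4) (nat_lit 5) (nat_lit 4) (nat_lit 4) (nat_lit 474) (nat_lit 382) (nat_lit 344)) (XT.lf (nat_lit 0) (nat_lit 181141704118) (nat_lit 76) (nat_lit 25210434959) (nat_lit 76) (nat_lit 21718747350) (nat_lit 3) (nat_lit 4) (nat_lit 4) (nat_lit 5) (nat_lit 4) (nat_lit 4) (nat_lit 475) (nat_lit 382) (nat_lit 343)))) (XT.nd (nat_lit 78) (nat_lit 152) (nat_lit 0) (XT.lf (nat_lit 0) (nat_lit 214671983468) (nat_lit 76) (nat_lit 17338706156) (nat_lit 76) (nat_lit 13833487839) (nat_lit 3) (nat_lit 4) (nat_lit 4) (nat_lit 5) (nat_lit 4) (nat_lit 4) (nat_lit 476) (nat_lit 382) (nat_lit 342)) (XT.nd (nat_lit 78) (nat_lit 152) (nat_lit 0) (XT.lf (nat_lit 0) (nat_lit 250761456160) (nat_lit 76) (nat_lit 8899339919) (nat_lit 76) (nat_lit 5381593168) (nat_lit 3) (nat_lit 4) (nat_lit 4) (nat_lit 5) (nat_lit 4) (nat_lit 4) (nat_lit 477) (nat_lit 382) (nat_lit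 341)) (XT.lf (nat_lit 0) (nat_lit 3634503797) (nat_lit 152) (nat_lit 281865411654) (nat_lit 0) (nat_lit 273220794) (nat_lit 1) (nat_lit 5) (nat_lit 3) (nat_lit 4) (nat_lit 1) (nat_lit 4) (nat_lit 478) (nat_lit 382) (nat_lit 340))))) (XT.nd (nat_lit 234) (nat_lit 0) (nat_lit 0) (XT.nd (nat_lit 78) (nat_lit 0) (nat_lit 0) (XT.lf (nat_lit 0) (nat_lit 13532892526) (nat_lit 152) (nat_lit 284446182865) (nat_lit 0) (nat_lit 10161379892) (nat_lit 1) (nat_lit 5) (nat_lit 3) (nat_lit 4) (nat_lit 1) (nat_lit 4) (nat_lit 479) (nat_lit 382) (nat_lit 339)) (XT.nd (nat_lit 78) (nat_lit 0) (nat_lit 0) (XT.lf (nat_lit 0) (nat_lit 24171417433) (nat_lit 152) (nat_lit 287337897039) (nat_lit 0) (nat_lit 20790432918) (nat_lit 1) (nat_lit 5) (nat_lit 3) (nat_lit 4) (nat_lit 1) (nat_lit 4) (nat_lit 480) (nat_lit 382) (nat_lit 338)) (XT.lf (nat_lit 0) (nat_lit 35613121629) (nat_lit 152) (nat_lit 290557690259) (nat_lit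 0) (nat_lit 32223366854) (nat_lit 1) (nat_lit 5) (nat_lit 3) (nat_lit 4) (nat_lit 1) (nat_lit 4) (nat_lit 481) (nat_lit 382) (nat_lit 337)))) (XT.nd (nat_lit 156) (nat_lit 0) (nat_lit 0) (XT.nd (nat_lit 78) (nat_lit 0) (nat_lit 0) (XT.lf (nat_lit 0) (nat_lit 47925807806) (nat_lit 152) (nat_lit 294124642782) (nat_lit 0) (nat_lit 44527932419) (nat_lit 1) (nat_lit 5) (nat_lit 3) (nat_lit 4) (nat_lit 1) (nat_lit 4) (nat_lit 482) (nat_lit 382) (nat_lit 336)) (XT.lf (nat_lit 0) (nat_lit 61182440029) (nat_lit 152) (nat_lit 298059892103) (nat_lit 0) (nat_lit 57777045558) (nat_lit 1) (nat_lit 5) (nat_lit 3) (nat_lit 4) (nat_lit 1) (nat_lit 4) (nat_lit 483) (nat_lit 382) (nat_lit 335))) (XT.nd (nat_lit 78) (nat_lit 0) (nat_lit 0) (XT.lf (nat_lit 0) (nat_lit 75461576119) (nat_lit 152) (nat_lit 302386758219) (nat_lit 0) (nat_lit 72049219533) (nat_lit 1) (nat_lit 5) (nat_lit 3) (nat_lit 4) (nat_lit 1)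 (nat_lit 4) (nat_lit 484) (nat_lit 382) (nat_lit 334)) (XT.lf (nat_lit 0) (nat_lit 90847833179) (nat_lit 152) (nat_lit 307130881818) (nat_lit 0) (nat_lit 87429030190) (nat_lit 1) (nat_lit 5) (nat_lit 3) (nat_lit 4) (nat_lit 1) (nat_lit 4) (nat_lit 485) (nat_lit 382) (nat_lit 333)))))) (XT.nd (nat_lit 546) (nat_lit 0) (nat_lit 0) (XT.nd (nat_lit 234) (nat_lit 0) (nat_lit 0) (XT.nd (nat_lit 78) (nat_lit 0) (nat_lit 0) (XT.lf (nat_lit 0) (nat_lit 107432389028) (nat_lit 152) (nat_lit 312320376225) (nat_lit 0) (nat_lit 104007617148) (nat_lit 1) (nat_lit 5) (nat_lit 3) (nat_lit 4) (nat_lit 1) (nat_lit 4) (nat_lit 486) (nat_lit 382) (nat_lit 332)) (XT.nd (nat_lit 78) (nat_lit 0) (nat_lit 0) (XT.lf (nat_lit 0) (nat_lit 125313522516) (nat_lit 152) (nat_lit 317985993999) (nat_lit 0) (nat_lit 121883223885) (nat_lit 1) (nat_lit 5) (nat_lit 3) (nat_lit 4) (nat_lit 1) (nat_lit 4) (nat_lit 487) (nat_lit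 382) (nat_lit 331)) (XT.lf (nat_lit 0) (nat_lit 144597195916) (nat_lit 152) (nat_lit 324161309172) (nat_lit 0) (nat_lit 141161779922) (nat_lit 1) (nat_lit 5) (nat_lit 3) (nat_lit 4) (nat_lit 1) (nat_lit 4) (nat_lit 488) (nat_lit 382) (nat_lit 330)))) (XT.nd (nat_lit 156) (nat_lit 0) (nat_lit 0) (XT.nd (nat_lit 78) (nat_lit 0) (nat_lit 0) (XT.lf (nat_lit 0) (nat_lit 165397682848) (nat_lit 152) (nat_lit 330882916204) (nat_lit 0) (nat_lit 161957528555) (nat_lit 1) (nat_lit 5) (nat_lit 3) (nat_lit 4) (nat_lit 1) (nat_lit 4) (nat_lit 489) (nat_lit 382) (nat_lit 329)) (XT.lf (nat_lit 0) (nat_lit 187838245456) (nat_lit 152) (nat_lit 338190646839) (nat_lit 0) (nat_lit 184393703849) (nat_lit 1) (nat_lit 5) (nat_lit 3) (nat_lit 4) (nat_lit 1) (nat_lit 4) (nat_lit 490) (nat_lit 382) (nat_lit 328))) (XT.nd (nat_lit 78) (nat_lit 0) (nat_lit 0) (XT.lf (nat_lit 0) (nat_lit 212051864852) (nat_lit 152) (nat_lit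 346127806150) (nat_lit 0) (nat_lit 208603260918) (nat_lit 1) (nat_lit 5) (nat_lit 3) (nat_lit 4) (nat_lit 1) (nat_lit 4) (nat_lit 491) (nat_lit 382) (nat_lit 327)) (XT.lf (nat_lit 0) (nat_lit 238182029151) (nat_lit 152) (nat_lit 354741429153) (nat_lit 0) (nat_lit 234729663803) (nat_lit 1) (nat_lit 5) (nat_lit 3) (nat_lit 4) (nat_lit 1) (nat_lit 4) (nat_lit 492) (nat_lit 382) (nat_lit 326))))) (XT.nd (nat_lit 234) (nat_lit 0) (nat_lit 0) (XT.nd (nat_lit 78) (nat_lit 0) (nat_lit 0) (XT.lf (nat_lit 0) (nat_lit 266383583772) (nat_lit 152) (nat_lit 364082559541) (nat_lit 0) (nat_lit 262927735633) (nat_lit 1) (nat_lit 5) (nat_lit 3) (nat_lit 4) (nat_lit 1) (nat_lit 4) (nat_lit 493) (nat_lit 382) (nat_lit 325)) (XT.nd (nat_lit 78) (nat_lit 0) (nat_lit 0) (XT.lf (nat_lit 0) (nat_lit 296823649037) (nat_lit 152) (nat_lit 374206552161) (nat_lit 0) (nat_lit 293364576092) (nat_lit 1) (nat_lit 5) (nat_lit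 3) (nat_lit 4) (nat_lit 1) (nat_lit 4) (nat_lit 494) (nat_lit 382) (nat_lit 324)) (XT.lf (nat_lit 0) (nat_lit 329682610519) (nat_lit 152) (nat_lit 385173401042) (nat_lit 0) (nat_lit 326220551642) (nat_lit 1) (nat_lit 5) (nat_lit 3) (nat_lit 4) (nat_lit 1) (nat_lit 4) (nat_lit 495) (nat_lit 382) (nat_lit 323)))) (XT.nd (nat_lit 156) (nat_lit 0) (nat_lit 0) (XT.nd (nat_lit 78) (nat_lit 0) (nat_lit 0) (XT.lf (nat_lit 0) (nat_lit 365155187990) (nat_lit 152) (nat_lit 397048094919) (nat_lit 0) (nat_lit 361690364361) (nat_lit 1) (nat_lit 5) (nat_lit 3) (nat_lit 4) (nat_lit 1) (nat_lit 4) (nat_lit 496) (nat_lit 382) (nat_lit 322)) (XT.lf (nat_lit 0) (nat_lit 403451589316) (nat_lit 152) (nat_lit 409901002348) (nat_lit 0) (nat_lit 399984205732) (nat_lit 1) (nat_lit 5) (nat_lit 3) (nat_lit 4) (nat_lit 1) (nat_lit 4) (nat_lit 497) (nat_lit 382) (nat_lit 321))) (XT.nd (nat_lit 78) (nat_lit 0) (nat_lit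 0) (XT.lf (nat_lit 0) (nat_lit 444798756134) (nat_lit 152) (nat_lit 423808288707) (nat_lit 0) (nat_lit 441329002221) (nat_lit 1) (nat_lit 5) (nat_lit 3) (nat_lit 4) (nat_lit 1) (nat_lit 4) (nat_lit 498) (nat_lit 382) (nat_lit 320)) (XT.lf (nat_lit 0) (nat_lit 489441708693) (nat_lit 152) (nat_lit 438852367544) (nat_lit 0) (nat_lit 485969760031) (nat_lit 1) (nat_lit 5) (nat_lit 3) (nat_lit 4) (nat_lit 1) (nat_lit 4) (nat_lit 499) (nat_lit 382) (nat_lit 319))))))))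
noncomputable def xc20 : XT := (XT.nd (nat_lit 2028) (nat_lit 456) (nat_lit 0) (XT.nd (nat_lit 1014) (nat_lit 684) (nat_lit 0) (XT.nd (nat_lit 468) (nat_lit 684) (nat_lit 0) (XT.nd (nat_lit 234) (nat_lit 380) (nat_lit 0) (XT.nd (nat_lit 78) (nat_lit 228) (nat_lit 0) (XT.lf (nat_lit 0) (nat_lit 2703738501) (nat_lit 76) (nat_lit 2729087413) (nat_lit 76) (nat_lit 2729087413) (nat_lit 33) (nat_lit 4) (nat_lit 34) (nat_lit 5) (nat_lit 34) (nat_lit 4) (nat_lit 434) (nat_lit 383) (nat_lit 383)) (XT.nd (nat_lit 78) (nat_lit 76) (nat_lit 0) (XT.lf (nat_lit 0) (nat_lit 4819331435) (nat_lit 152) (nat_lit 7900051298) (nat_lit 0) (nat_lit 4363321339) (nat_lit 31) (nat_lit 5) (nat_lit 33) (nat_lit 4) (nat_lit 31) (nat_lit 4) (nat_lit 435) (nat_lit 383) (nat_lit 382)) (XT.lf (nat_lit 0) (nat_lit 12541246977) (nat_lit 76) (nat_lit 3119110384) (nat_lit 76) (nat_lit 2240868717) (nat_lit 30) (nat_lit 4) (nat_lit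 31) (nat_lit 5) (nat_lit 31) (nat_lit 4) (nat_lit 436) (nat_lit 383) (nat_lit 381)))) (XT.nd (nat_lit 78) (nat_lit 228) (nat_lit 0) (XT.lf (nat_lit 0) (nat_lit 8268871180) (nat_lit 152) (nat_lit 3451569282) (nat_lit 0) (nat_lit 7060112299) (nat_lit 28) (nat_lit 5) (nat_lit 30) (nat_lit 4) (nat_lit 28) (nat_lit 4) (nat_lit 437) (nat_lit 383) (nat_lit 380)) (XT.nd (nat_lit 78) (nat_lit 152) (nat_lit 0) (XT.lf (nat_lit 0) (nat_lit 17605947148) (nat_lit 76) (nat_lit 1840358044) (nat_lit 76) (nat_lit 286841527) (nat_lit 27) (nat_lit 4) (nat_lit 28) (nat_lit 5) (nat_lit 28) (nat_lit 4) (nat_lit 438) (nat_lit 383) (nat_lit 379)) (XT.lf (nat_lit 0) (nat_lit 10408638619) (nat_lit 152) (nat_lit 1720013120) (nat_lit 0) (nat_lit 8625080001) (nat_lit 25) (nat_lit 5) (nat_lit 27) (nat_lit 4) (nat_lit 25) (nat_lit 4) (nat_lit 439) (nat_lit 383) (nat_lit 378))))) (XT.nd (nat_lit 234) (nat_lit 380) (nat_lit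 0) (XT.nd (nat_lit 78) (nat_lit 228) (nat_lit 0) (XT.lf (nat_lit 0) (nat_lit 19753119271) (nat_lit 76) (nat_lit 2086595188) (nat_lit 76) (nat_lit 21537423) (nat_lit 24) (nat_lit 4) (nat_lit 25) (nat_lit 5) (nat_lit 25) (nat_lit 4) (nat_lit 440) (nat_lit 383) (nat_lit 377)) (XT.nd (nat_lit 78) (nat_lit 76) (nat_lit 0) (XT.lf (nat_lit 0) (nat_lit 10771216152) (nat_lit 152) (nat_lit 3721258884) (nat_lit 0) (nat_lit 8556258891) (nat_lit 22) (nat_lit 5) (nat_lit 24) (nat_lit 4) (nat_lit 22) (nat_lit 4) (nat_lit 441) (nat_lit 383) (nat_lit 376)) (XT.lf (nat_lit 0) (nat_lit 17857380307) (nat_lit 76) (nat_lit 4462001837) (nat_lit 76) (nat_lit 2017196817) (nat_lit 21) (nat_lit 4) (nat_lit 22) (nat_lit 5) (nat_lit 22) (nat_lit 4) (nat_lit 442) (nat_lit 383) (nat_lit 375)))) (XT.nd (nat_lit 156) (nat_lit 152) (nat_lit 0) (XT.nd (nat_lit 78) (nat_lit 76) (nat_lit 0) (XT.lf (nat_lit 0) (nat_lit 8729119391)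 (nat_lit 152) (nat_lit 10795463975) (nat_lit 0) (nat_lit 6198046041) (nat_lit 19) (nat_lit 5) (nat_lit 21) (nat_lit 4) (nat_lit 19) (nat_lit 4) (nat_lit 443) (nat_lit 383) (nat_lit 374)) (XT.lf (nat_lit 0) (nat_lit 10432190205) (nat_lit 76) (nat_lit 9754193689) (nat_lit 76) (nat_lit 7035446618) (nat_lit 18) (nat_lit 4) (nat_lit 19) (nat_lit 5) (nat_lit 19) (nat_lit 4) (nat_lit 444) (nat_lit 383) (nat_lit 373))) (XT.nd (nat_lit 78) (nat_lit 0) (nat_lit 0) (XT.lf (nat_lit 0) (nat_lit 3447973702) (nat_lit 152) (nat_lit 24704523337) (nat_lit 0) (nat_lit 693193670) (nat_lit 16) (nat_lit 5) (nat_lit 18) (nat_lit 4) (nat_lit 16) (nat_lit 4) (nat_lit 445) (nat_lit 383) (nat_lit 372)) (XT.lf (nat_lit 0) (nat_lit 14581714423) (nat_lit 152) (nat_lit 4335388424) (nat_lit 0) (nat_lit 11673696328) (nat_lit 16) (nat_lit 5) (nat_lit 18) (nat_lit 4) (nat_lit 16) (nat_lit 4) (nat_lit 446) (nat_lit 383) (nat_lit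 371)))))) (XT.nd (nat_lit 468) (nat_lit 228) (nat_lit 0) (XT.nd (nat_lit 234) (nat_lit 228) (nat_lit 0) (XT.nd (nat_lit 78) (nat_lit 152) (nat_lit 0) (XT.lf (nat_lit 0) (nat_lit 17473802018) (nat_lit 76) (nat_lit 9028414193) (nat_lit 76) (nat_lit 5978509004) (nat_lit 15) (nat_lit 4) (nat_lit 16) (nat_lit 5) (nat_lit 16) (nat_lit 4) (nat_lit 447) (nat_lit 383) (nat_lit 370)) (XT.nd (nat_lit 78) (nat_lit 0) (nat_lit 0) (XT.lf (nat_lit 0) (nat_lit 4528632260) (nat_lit 152) (nat_lit 28499119552) (nat_lit 0) (nat_lit 1498839756) (nat_lit 13) (nat_lit 5) (nat_lit 15) (nat_lit 4) (nat_lit 13) (nat_lit 4) (nat_lit 448) (nat_lit 383) (nat_lit 369)) (XT.lf (nat_lit 0) (nat_lit 15732491619) (nat_lit 152) (nat_lit 8408618316) (nat_lit 0) (nat_lit 12586846434) (nat_lit 13) (nat_lit 5) (nat_lit 15) (nat_lit 4) (nat_lit 13) (nat_lit 4) (nat_lit 449) (nat_lit 383) (nat_lit 368)))) (XT.nd (nat_lit 78) (nat_lit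 152) (nat_lit 0) (XT.lf (nat_lit 0) (nat_lit 13050579258) (nat_lit 76) (nat_lit 14657014812) (nat_lit 76) (nat_lit 11404098626) (nat_lit 12) (nat_lit 4) (nat_lit 13) (nat_lit 5) (nat_lit 13) (nat_lit 4) (nat_lit 450) (nat_lit 383) (nat_lit 367)) (XT.nd (nat_lit 78) (nat_lit 152) (nat_lit 0) (XT.lf (nat_lit 0) (nat_lit 35899057444) (nat_lit 76) (nat_lit 4573854842) (nat_lit 76) (nat_lit 1221613656) (nat_lit 12) (nat_lit 4) (nat_lit 13) (nat_lit 5) (nat_lit 13) (nat_lit 4) (nat_lit 451) (nat_lit 383) (nat_lit 366)) (XT.lf (nat_lit 0) (nat_lit 9514935303) (nat_lit 152) (nat_lit 28724073288) (nat_lit 0) (nat_lit 6234736465) (nat_lit 10) (nat_lit 5) (nat_lit 12) (nat_lit 4) (nat_lit 10) (nat_lit 4) (nat_lit 452) (nat_lit 383) (nat_lit 365))))) (XT.nd (nat_lit 234) (nat_lit 152) (nat_lit 0) (XT.nd (nat_lit 78) (nat_lit 76) (nat_lit 0) (XT.lf (nat_lit 0) (nat_lit 20960817980) (nat_lit 152) (nat_lit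 8919309816) (nat_lit 0) (nat_lit 17599518972) (nat_lit 10) (nat_lit 5) (nat_lit 12) (nat_lit 4) (nat_lit 10) (nat_lit 4) (nat_lit 453) (nat_lit 383) (nat_lit 364)) (XT.nd (nat_lit 78) (nat_lit 0) (nat_lit 0) (XT.lf (nat_lit 0) (nat_lit 12332078832) (nat_lit 76) (nat_lit 20917002199) (nat_lit 76) (nat_lit 17480610441) (nat_lit 9) (nat_lit 4) (nat_lit 10) (nat_lit 5) (nat_lit 10) (nat_lit 4) (nat_lit 454) (nat_lit 383) (nat_lit 363)) (XT.lf (nat_lit 0) (nat_lit 35092764849) (nat_lit 76) (nat_lit 11328919450) (nat_lit 76) (nat_lit 7822997367) (nat_lit 9) (nat_lit 4) (nat_lit 10) (nat_lit 5) (nat_lit 10) (nat_lit 4) (nat_lit 455) (nat_lit 383) (nat_lit 362)))) (XT.nd (nat_lit 156) (nat_lit 0) (nat_lit 0) (XT.nd (nat_lit 78) (nat_lit 0) (nat_lit 0) (XT.lf (nat_lit 0) (nat_lit 1150032881) (nat_lit 76) (nat_lit 1152569505) (nat_lit 152) (nat_lit 55747297309) (nat_lit 7) (nat_lit 5) (nat_lit 8) (nat_lit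 5) (nat_lit 9) (nat_lit 4) (nat_lit 456) (nat_lit 383) (nat_lit 361)) (XT.lf (nat_lit 0) (nat_lit 13228344552) (nat_lit 152) (nat_lit 39140289912) (nat_lit 0) (nat_lit 9771284496) (nat_lit 7) (nat_lit 5) (nat_lit 9) (nat_lit 4) (nat_lit 7) (nat_lit 4) (nat_lit 457) (nat_lit 383) (nat_lit 360))) (XT.nd (nat_lit 78) (nat_lit 0) (nat_lit 0) (XT.lf (nat_lit 0) (nat_lit 24832608163) (nat_lit 152) (nat_lit 20411331895) (nat_lit 0) (nat_lit 21322981047) (nat_lit 7) (nat_lit 5) (nat_lit 9) (nat_lit 4) (nat_lit 7) (nat_lit 4) (nat_lit 458) (nat_lit 383) (nat_lit 359)) (XT.lf (nat_lit 0) (nat_lit 37166164386) (nat_lit 152) (nat_lit 584011505) (nat_lit 0) (nat_lit 33607864066) (nat_lit 7) (nat_lit 5) (nat_lit 9) (nat_lit 4) (nat_lit 7) (nat_lit 4) (nat_lit 459) (nat_lit 383) (nat_lit 358))))))) (XT.nd (nat_lit 1014) (nat_lit 152) (nat_lit 0) (XT.nd (nat_lit 468) (nat_lit 76) (nat_lit 0) (XT.nd (nat_lit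 234) (nat_lit 152) (nat_lit 0) (XT.nd (nat_lit 78) (nat_lit 0) (nat_lit 0) (XT.lf (nat_lit 0) (nat_lit 21135638930) (nat_lit 76) (nat_lit 29496448587) (nat_lit 76) (nat_lit 25893080485) (nat_lit 6) (nat_lit 4) (nat_lit 7) (nat_lit 5) (nat_lit 7) (nat_lit 4) (nat_lit 460) (nat_lit 383) (nat_lit 357)) (XT.nd (nat_lit 78) (nat_lit 0) (nat_lit 0) (XT.lf (nat_lit 0) (nat_lit 44259482241) (nat_lit 76) (nat_lit 20749792788) (nat_lit 76) (nat_lit 17104695259) (nat_lit 6) (nat_lit 4) (nat_lit 7) (nat_lit 5) (nat_lit 7) (nat_lit 4) (nat_lit 461) (nat_lit 383) (nat_lit 356)) (XT.lf (nat_lit 0) (nat_lit 68905238554) (nat_lit 76) (nat_lit 11468266978) (nat_lit 76) (nat_lit 7784531091) (nat_lit 6) (nat_lit 4) (nat_lit 7) (nat_lit 5) (nat_lit 7) (nat_lit 4) (nat_lit 462) (nat_lit 383) (nat_lit 355)))) (XT.nd (nat_lit 78) (nat_lit 0) (nat_lit 0) (XT.lf (nat_lit 0) (nat_lit 508921360) (nat_lit 76) (nat_lit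 1553729130) (nat_lit 152) (nat_lit 92628478900) (nat_lit 4) (nat_lit 5) (nat_lit 5) (nat_lit 5) (nat_lit 6) (nat_lit 4) (nat_lit 463) (nat_lit 383) (nat_lit 354)) (XT.nd (nat_lit 78) (nat_lit 0) (nat_lit 0) (XT.lf (nat_lit 0) (nat_lit 12763222852) (nat_lit 152) (nat_lit 79771069607) (nat_lit 0) (nat_lit 9189281605) (nat_lit 4) (nat_lit 5) (nat_lit 6) (nat_lit 4) (nat_lit 4) (nat_lit 4) (nat_lit 464) (nat_lit 383) (nat_lit 353)) (XT.lf (nat_lit 0) (nat_lit 24207996926) (nat_lit 152) (nat_lit 64511368164) (nat_lit 0) (nat_lit 20604843893) (nat_lit 4) (nat_lit 5) (nat_lit 6) (nat_lit 4) (nat_lit 4) (nat_lit 4) (nat_lit 465) (nat_lit 383) (nat_lit 352))))) (XT.nd (nat_lit 234) (nat_lit 76) (nat_lit 0) (XT.nd (nat_lit 78) (nat_lit 0) (nat_lit 0) (XT.lf (nat_lit 0) (nat_lit 36440535528) (nat_lit 152) (nat_lit 48288417776) (nat_lit 0) (nat_lit 32810334546) (nat_lit 4) (nat_lit 5) (nat_lit 6) (nat_lit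 4) (nat_lit 4) (nat_lit 4) (nat_lit 466) (nat_lit 383) (nat_lit 351)) (XT.nd (nat_lit 78) (nat_lit 0) (nat_lit 0) (XT.lf (nat_lit 0) (nat_lit 49533327777) (nat_lit 152) (nat_lit 31006082440) (nat_lit 0) (nat_lit 45878082397) (nat_lit 4) (nat_lit 5) (nat_lit 6) (nat_lit 4) (nat_lit 4) (nat_lit 4) (nat_lit 467) (nat_lit 383) (nat_lit 350)) (XT.lf (nat_lit 0) (nat_lit 63563960590) (nat_lit 152) (nat_lit 12561948316) (nat_lit 0) (nat_lit 59885525953) (nat_lit 4) (nat_lit 5) (nat_lit 6) (nat_lit 4) (nat_lit 4) (nat_lit 4) (nat_lit 468) (nat_lit 383) (nat_lit 349)))) (XT.nd (nat_lit 156) (nat_lit 0) (nat_lit 0) (XT.nd (nat_lit 78) (nat_lit 0) (nat_lit 0) (XT.lf (nat_lit 0) (nat_lit 7389803012) (nat_lit 76) (nat_lit 71341150979) (nat_lit 76) (nat_lit 67641244808) (nat_lit 3) (nat_lit 4) (nat_lit 4) (nat_lit 5) (nat_lit 4) (nat_lit 4) (nat_lit 469) (nat_lit 383) (nat_lit 348)) (XT.lf (nat_lit 0) (nat_lit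 29190728625) (nat_lit 76) (nat_lit 66042396606) (nat_lit 76) (nat_lit 62322609385) (nat_lit 3) (nat_lit 4) (nat_lit 4) (nat_lit 5) (nat_lit 4) (nat_lit 4) (nat_lit 470) (nat_lit 383) (nat_lit 347))) (XT.nd (nat_lit 78) (nat_lit 0) (nat_lit 0) (XT.lf (nat_lit 0) (nat_lit 52554664449) (nat_lit 76) (nat_lit 60410988435) (nat_lit 76) (nat_lit 56672792833) (nat_lit 3) (nat_lit 4) (nat_lit 4) (nat_lit 5) (nat_lit 4) (nat_lit 4) (nat_lit 471) (nat_lit 383) (nat_lit 346)) (XT.lf (nat_lit 0) (nat_lit 77620063436) (nat_lit 76) (nat_lit 54413555157) (nat_lit 76) (nat_lit 50658314759) (nat_lit 3) (nat_lit 4) (nat_lit 4) (nat_lit 5) (nat_lit 4) (nat_lit 4) (nat_lit 472) (nat_lit 383) (nat_lit 345)))))) (XT.nd (nat_lit 546) (nat_lit 0) (nat_lit 0) (XT.nd (nat_lit 234) (nat_lit 152) (nat_lit 0) (XT.nd (nat_lit 78) (nat_lit 0) (nat_lit 0) (XT.lf (nat_lit 0) (nat_lit 104535461286) (nat_lit 76) (nat_lit 48014556428)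 (nat_lit 76) (nat_lit 44243533811) (nat_lit 3) (nat_lit 4) (nat_lit 4) (nat_lit 5) (nat_lit 4) (nat_lit 4) (nat_lit 473) (nat_lit 383) (nat_lit 344)) (XT.nd (nat_lit 78) (nat_lit 0) (nat_lit 0) (XT.lf (nat_lit 0) (nat_lit 133460356651) (nat_lit 76) (nat_lit 41176072255) (nat_lit 76) (nat_lit 37390436473) (nat_lit 3) (nat_lit 4) (nat_lit 4) (nat_lit 5) (nat_lit 4) (nat_lit 4) (nat_lit 474) (nat_lit 383) (nat_lit 343)) (XT.lf (nat_lit 0) (nat_lit 164566156319) (nat_lit 76) (nat_lit 33857578288) (nat_lit 76) (nat_lit 30058411797) (nat_lit 3) (nat_lit 4) (nat_lit 4) (nat_lit 5) (nat_lit 4) (nat_lit 4) (nat_lit 475) (nat_lit 383) (nat_lit 342)))) (XT.nd (nat_lit 156) (nat_lit 152) (nat_lit 0) (XT.nd (nat_lit 78) (nat_lit 0) (nat_lit 0) (XT.lf (nat_lit 0) (nat_lit 198037190954) (nat_lit 76) (nat_lit 26015705672) (nat_lit 76) (nat_lit 22204010747) (nat_lit 3) (nat_lit 4) (nat_lit 4) (nat_lit 5) (nat_lit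 4) (nat_lit 4) (nat_lit 476) (nat_lit 383) (nat_lit 341)) (XT.lf (nat_lit 0) (nat_lit 234071807430) (nat_lit 76) (nat_lit 17603984053) (nat_lit 76) (nat_lit 13780688726) (nat_lit 3) (nat_lit 4) (nat_lit 4) (nat_lit 5) (nat_lit 4) (nat_lit 4) (nat_lit 477) (nat_lit 383) (nat_lit 340))) (XT.nd (nat_lit 78) (nat_lit 152) (nat_lit 0) (XT.lf (nat_lit 0) (nat_lit 272883544213) (nat_lit 76) (nat_lit 8572566191) (nat_lit 76) (nat_lit 4738529751) (nat_lit 3) (nat_lit 4) (nat_lit 4) (nat_lit 5) (nat_lit 4) (nat_lit 4) (nat_lit 478) (nat_lit 383) (nat_lit 339)) (XT.lf (nat_lit 0) (nat_lit 4934592494) (nat_lit 152) (nat_lit 302376255285) (nat_lit 0) (nat_lit 1273657337) (nat_lit 1) (nat_lit 5) (nat_lit 3) (nat_lit 4) (nat_lit 1) (nat_lit 4) (nat_lit 479) (nat_lit 383) (nat_lit 338))))) (XT.nd (nat_lit 234) (nat_lit 0) (nat_lit 0) (XT.nd (nat_lit 78) (nat_lit 0) (nat_lit 0) (XT.lf (nat_lit 0) (nat_lit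 15550087255) (nat_lit 152) (nat_lit 305314479994) (nat_lit 0) (nat_lit 11880381838) (nat_lit 1) (nat_lit 5) (nat_lit 3) (nat_lit 4) (nat_lit 1) (nat_lit 4) (nat_lit 480) (nat_lit 383) (nat_lit 337)) (XT.nd (nat_lit 78) (nat_lit 0) (nat_lit 0) (XT.lf (nat_lit 0) (nat_lit 26970467242) (nat_lit 152) (nat_lit 308577338524) (nat_lit 0) (nat_lit 23292641214) (nat_lit 1) (nat_lit 5) (nat_lit 3) (nat_lit 4) (nat_lit 1) (nat_lit 4) (nat_lit 481) (nat_lit 383) (nat_lit 336)) (XT.lf (nat_lit 0) (nat_lit 39263408780) (nat_lit 152) (nat_lit 312184166333) (nat_lit 0) (nat_lit 35578063667) (nat_lit 1) (nat_lit 5) (nat_lit 3) (nat_lit 4) (nat_lit 1) (nat_lit 4) (nat_lit 482) (nat_lit 383) (nat_lit 335)))) (XT.nd (nat_lit 156) (nat_lit 0) (nat_lit 0) (XT.nd (nat_lit 78) (nat_lit 0) (nat_lit 0) (XT.lf (nat_lit 0) (nat_lit 52501758930) (nat_lit 152) (nat_lit 316156337217) (nat_lit 0) (nat_lit 48809451703) (nat_lit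 1) (nat_lit 5) (nat_lit 3) (nat_lit 4) (nat_lit 1) (nat_lit 4) (nat_lit 483) (nat_lit 383) (nat_lit 334)) (XT.lf (nat_lit 0) (nat_lit 66763967176) (nat_lit 152) (nat_lit 320517389964) (nat_lit 0) (nat_lit 63065213545) (nat_lit 1) (nat_lit 5) (nat_lit 3) (nat_lit 4) (nat_lit 1) (nat_lit 4) (nat_lit 484) (nat_lit 383) (nat_lit 333))) (XT.nd (nat_lit 78) (nat_lit 0) (nat_lit 0) (XT.lf (nat_lit 0) (nat_lit 82134550305) (nat_lit 152) (nat_lit 325293167852) (nat_lit 0) (nat_lit 78429827783) (nat_lit 1) (nat_lit 5) (nat_lit 3) (nat_lit 4) (nat_lit 1) (nat_lit 4) (nat_lit 485) (nat_lit 383) (nat_lit 332)) (XT.lf (nat_lit 0) (nat_lit 98704593256) (nat_lit 152) (nat_lit 330511971785) (nat_lit 0) (nat_lit 94994343982) (nat_lit 1) (nat_lit 5) (nat_lit 3) (nat_lit 4) (nat_lit 1) (nat_lit 4) (nat_lit 486) (nat_lit 383) (nat_lit 331))))))))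
noncomputable def xc21 : XT := (XT.nd (nat_lit 59280) (nat_lit 0) (nat_lit 152) (XT.nd (nat_lit 58188) (nat_lit 0) (nat_lit 1216) (XT.nd (nat_lit 468) (nat_lit 0) (nat_lit 0) (XT.nd (nat_lit 234) (nat_lit 0) (nat_lit 0) (XT.nd (nat_lit 78) (nat_lit 0) (nat_lit 0) (XT.lf (nat_lit 0) (nat_lit 116572288875) (nat_lit 152) (nat_lit 336204728009) (nat_lit 0) (nat_lit 112856922239) (nat_lit 1) (nat_lit 5) (nat_lit 3) (nat_lit 4) (nat_lit 1) (nat_lit 4) (nat_lit 487) (nat_lit 383) (nat_lit 330)) (XT.nd (nat_lit 78) (nat_lit 0) (nat_lit 0) (XT.lf (nat_lit 0) (nat_lit 135843519804) (nat_lit 152) (nat_lit 342405171377) (nat_lit 0) (nat_lit 132123414869) (nat_lit 1) (nat_lit 5) (nat_lit 3) (nat_lit 4) (nat_lit 1) (nat_lit 4) (nat_lit 488) (nat_lit 383) (nat_lit 329)) (XT.lf (nat_lit 0) (nat_lit 156632485929) (nat_lit 152) (nat_lit 349150045255) (nat_lit 0) (nat_lit 152907993680) (nat_lit 1) (nat_lit 5)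 (nat_lit 3) (nat_lit 4) (nat_lit 1) (nat_lit 4) (nat_lit 489) (nat_lit 383) (nat_lit 328)))) (XT.nd (nat_lit 78) (nat_lit 0) (nat_lit 0) (XT.lf (nat_lit 0) (nat_lit 179062381123) (nat_lit 152) (nat_lit 356479319268) (nat_lit 0) (nat_lit 175333826547) (nat_lit 1) (nat_lit 5) (nat_lit 3) (nat_lit 4) (nat_lit 1) (nat_lit 4) (nat_lit 490) (nat_lit 383) (nat_lit 327)) (XT.nd (nat_lit 78) (nat_lit 0) (nat_lit 0) (XT.lf (nat_lit 0) (nat_lit 203266123284) (nat_lit 152) (nat_lit 364436426150) (nat_lit 0) (nat_lit 199533807294) (nat_lit 1) (nat_lit 5) (nat_lit 3) (nat_lit 4) (nat_lit 1) (nat_lit 4) (nat_lit 491) (nat_lit 383) (nat_lit 326)) (XT.lf (nat_lit 0) (nat_lit 229387141996) (nat_lit 152) (nat_lit 373068519126) (nat_lit 0) (nat_lit 225651343215) (nat_lit 1) (nat_lit 5) (nat_lit 3) (nat_lit 4) (nat_lit 1) (nat_lit 4) (nat_lit 492) (nat_lit 383) (nat_lit 325))))) (XT.nd (nat_lit 234) (nat_lit 0)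 (nat_lit 0) (XT.nd (nat_lit 78) (nat_lit 0) (nat_lit 0) (XT.lf (nat_lit 0) (nat_lit 257580228479) (nat_lit 152) (nat_lit 382426751341) (nat_lit 0) (nat_lit 253841204892) (nat_lit 1) (nat_lit 5) (nat_lit 3) (nat_lit 4) (nat_lit 1) (nat_lit 4) (nat_lit 493) (nat_lit 383) (nat_lit 324)) (XT.nd (nat_lit 78) (nat_lit 0) (nat_lit 0) (XT.lf (nat_lit 0) (nat_lit 288012452877) (nat_lit 152) (nat_lit 392566578986) (nat_lit 0) (nat_lit 284270443358) (nat_lit 1) (nat_lit 5) (nat_lit 3) (nat_lit 4) (nat_lit 1) (nat_lit 4) (nat_lit 494) (nat_lit 383) (nat_lit 323)) (XT.lf (nat_lit 0) (nat_lit 320864154297) (nat_lit 152) (nat_lit 403548089927) (nat_lit 0) (nat_lit 317119380026) (nat_lit 1) (nat_lit 5) (nat_lit 3) (nat_lit 4) (nat_lit 1) (nat_lit 4) (nat_lit 495) (nat_lit 383) (nat_lit 322)))) (XT.nd (nat_lit 156) (nat_lit 0) (nat_lit 0) (XT.nd (nat_lit 78) (nat_lit 0) (nat_lit 0) (XT.lf (nat_lit 0) (nat_lit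 356330009488) (nat_lit 152) (nat_lit 415436359786) (nat_lit 0) (nat_lit 352582675261) (nat_lit 1) (nat_lit 5) (nat_lit 3) (nat_lit 4) (nat_lit 1) (nat_lit 4) (nat_lit 496) (nat_lit 383) (nat_lit 321)) (XT.lf (nat_lit 0) (nat_lit 394620186480) (nat_lit 152) (nat_lit 428301837569) (nat_lit 0) (nat_lit 390870481925) (nat_lit 1) (nat_lit 5) (nat_lit 3) (nat_lit 4) (nat_lit 1) (nat_lit 4) (nat_lit 497) (nat_lit 383) (nat_lit 320))) (XT.nd (nat_lit 78) (nat_lit 0) (nat_lit 0) (XT.lf (nat_lit 0) (nat_lit 435961590026) (nat_lit 152) (nat_lit 442220763144) (nat_lit 0) (nat_lit 432209690722) (nat_lit 1) (nat_lit 5) (nat_lit 3) (nat_lit 4) (nat_lit 1) (nat_lit 4) (nat_lit 498) (nat_lit 383) (nat_lit 319)) (XT.lf (nat_lit 0) (nat_lit 480599206222) (nat_lit 152) (nat_lit 457275619033) (nat_lit 0) (nat_lit 476845274743) (nat_lit 1) (nat_lit 5) (nat_lit 3) (nat_lit 4) (nat_lit 1) (nat_lit 4) (nat_lit 499)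 (nat_lit 383) (nat_lit 318)))))) (XT.nd (nat_lit 546) (nat_lit 760) (nat_lit 0) (XT.nd (nat_lit 234) (nat_lit 456) (nat_lit 0) (XT.nd (nat_lit 78) (nat_lit 304) (nat_lit 0) (XT.lf (nat_lit 0) (nat_lit 3094813858) (nat_lit 152) (nat_lit 1286113991) (nat_lit 0) (nat_lit 3094813858) (nat_lit 37) (nat_lit 5) (nat_lit 39) (nat_lit 4) (nat_lit 37) (nat_lit 4) (nat_lit 432) (nat_lit 384) (nat_lit 384)) (XT.nd (nat_lit 78) (nat_lit 76) (nat_lit 0) (XT.lf (nat_lit 0) (nat_lit 920546900) (nat_lit 152) (nat_lit 14298232954) (nat_lit 0) (nat_lit 403431450) (nat_lit 34) (nat_lit 5) (nat_lit 36) (nat_lit 4) (nat_lit 34) (nat_lit 4) (nat_lit 433) (nat_lit 384) (nat_lit 383)) (XT.lf (nat_lit 0) (nat_lit 4893764788) (nat_lit 76) (nat_lit 6219735360) (nat_lit 76) (nat_lit 5223809309) (nat_lit 33) (nat_lit 4) (nat_lit 34) (nat_lit 5) (nat_lit 34) (nat_lit 4) (nat_lit 434) (nat_lit 384) (nat_lit 382)))) (XT.nd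 (nat_lit 156) (nat_lit 228) (nat_lit 0) (XT.nd (nat_lit 78) (nat_lit 76) (nat_lit 0) (XT.lf (nat_lit 0) (nat_lit 4760700952) (nat_lit 152) (nat_lit 8959626474) (nat_lit 0) (nat_lit 3389968380) (nat_lit 31) (nat_lit 5) (nat_lit 33) (nat_lit 4) (nat_lit 31) (nat_lit 4) (nat_lit 435) (nat_lit 384) (nat_lit 381)) (XT.lf (nat_lit 0) (nat_lit 10959364706) (nat_lit 76) (nat_lit 4372329181) (nat_lit 76) (nat_lit 2610641451) (nat_lit 30) (nat_lit 4) (nat_lit 31) (nat_lit 5) (nat_lit 31) (nat_lit 4) (nat_lit 436) (nat_lit 384) (nat_lit 380))) (XT.nd (nat_lit 78) (nat_lit 76) (nat_lit 0) (XT.lf (nat_lit 0) (nat_lit 7615724458) (nat_lit 152) (nat_lit 5627831689) (nat_lit 0) (nat_lit 5593168985) (nat_lit 28) (nat_lit 5) (nat_lit 30) (nat_lit 4) (nat_lit 28) (nat_lit 4) (nat_lit 437) (nat_lit 384) (nat_lit 379)) (XT.lf (nat_lit 0) (nat_lit 14895758536) (nat_lit 76) (nat_lit 3624497083) (nat_lit 76) (nat_lit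 1282721577) (nat_lit 27) (nat_lit 4) (nat_lit 28) (nat_lit 5) (nat_lit 28) (nat_lit 4) (nat_lit 438) (nat_lit 384) (nat_lit 378))))) (XT.nd (nat_lit 234) (nat_lit 380) (nat_lit 0) (XT.nd (nat_lit 78) (nat_lit 228) (nat_lit 0) (XT.lf (nat_lit 0) (nat_lit 9136961734) (nat_lit 152) (nat_lit 5077572699) (nat_lit 0) (nat_lit 6625200200) (nat_lit 25) (nat_lit 5) (nat_lit 27) (nat_lit 4) (nat_lit 25) (nat_lit 4) (nat_lit 439) (nat_lit 384) (nat_lit 377)) (XT.nd (nat_lit 78) (nat_lit 152) (nat_lit 0) (XT.lf (nat_lit 0) (nat_lit 15846747099) (nat_lit 76) (nat_lit 4443410574) (nat_lit 76) (nat_lit 1671001682) (nat_lit 24) (nat_lit 4) (nat_lit 25) (nat_lit 5) (nat_lit 25) (nat_lit 4) (nat_lit 440) (nat_lit 384) (nat_lit 376)) (XT.lf (nat_lit 0) (nat_lit 8851602964) (nat_lit 152) (nat_lit 8333116726) (nat_lit 0) (nat_lit 5981365785) (nat_lit 22) (nat_lit 5) (nat_lit 24) (nat_lit 4) (nat_lit 22) (nat_lit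 4) (nat_lit 441) (nat_lit 384) (nat_lit 375)))) (XT.nd (nat_lit 156) (nat_lit 152) (nat_lit 0) (XT.nd (nat_lit 78) (nat_lit 152) (nat_lit 0) (XT.lf (nat_lit 0) (nat_lit 12678293882) (nat_lit 76) (nat_lit 7436477171) (nat_lit 76) (nat_lit 4353417994) (nat_lit 21) (nat_lit 4) (nat_lit 22) (nat_lit 5) (nat_lit 22) (nat_lit 4) (nat_lit 442) (nat_lit 384) (nat_lit 374)) (XT.lf (nat_lit 0) (nat_lit 6126548319) (nat_lit 152) (nat_lit 16743950958) (nat_lit 0) (nat_lit 3002627763) (nat_lit 19) (nat_lit 5) (nat_lit 21) (nat_lit 4) (nat_lit 19) (nat_lit 4) (nat_lit 443) (nat_lit 384) (nat_lit 373))) (XT.nd (nat_lit 78) (nat_lit 76) (nat_lit 0) (XT.lf (nat_lit 0) (nat_lit 3894243451) (nat_lit 76) (nat_lit 13395250117) (nat_lit 76) (nat_lit 10097557597) (nat_lit 18) (nat_lit 4) (nat_lit 19) (nat_lit 5) (nat_lit 19) (nat_lit 4) (nat_lit 444) (nat_lit 384) (nat_lit 372)) (XT.lf (nat_lit 0) (nat_lit 221151440)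 (nat_lit 152) (nat_lit 3005232032) (nat_lit 76) (nat_lit 25800060417) (nat_lit 17) (nat_lit 5) (nat_lit 19) (nat_lit 5) (nat_lit 18) (nat_lit 4) (nat_lit 445) (nat_lit 384) (nat_lit 371))))))) (XT.nd (nat_lit 1014) (nat_lit 304) (nat_lit 0) (XT.nd (nat_lit 468) (nat_lit 380) (nat_lit 0) (XT.nd (nat_lit 234) (nat_lit 152) (nat_lit 0) (XT.nd (nat_lit 78) (nat_lit 152) (nat_lit 0) (XT.lf (nat_lit 0) (nat_lit 11074121823) (nat_lit 152) (nat_lit 12073137689) (nat_lit 0) (nat_lit 7638337123) (nat_lit 16) (nat_lit 5) (nat_lit 18) (nat_lit 4) (nat_lit 16) (nat_lit 4) (nat_lit 446) (nat_lit 384) (nat_lit 370)) (XT.nd (nat_lit 78) (nat_lit 76) (nat_lit 0) (XT.lf (nat_lit 0) (nat_lit 9135877788) (nat_lit 76) (nat_lit 13560853245) (nat_lit 76) (nat_lit 9993691605) (nat_lit 15) (nat_lit 4) (nat_lit 16) (nat_lit 5) (nat_lit 16) (nat_lit 4) (nat_lit 447) (nat_lit 384) (nat_lit 369)) (XT.lf (nat_lit 0) (nat_lit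 360382890) (nat_lit 152) (nat_lit 2950022028) (nat_lit 76) (nat_lit 31443102076) (nat_lit 14) (nat_lit 5) (nat_lit 16) (nat_lit 5) (nat_lit 15) (nat_lit 4) (nat_lit 448) (nat_lit 384) (nat_lit 368)))) (XT.nd (nat_lit 78) (nat_lit 76) (nat_lit 0) (XT.lf (nat_lit 0) (nat_lit 11306109143) (nat_lit 152) (nat_lit 17975985001) (nat_lit 0) (nat_lit 7685688662) (nat_lit 13) (nat_lit 5) (nat_lit 15) (nat_lit 4) (nat_lit 13) (nat_lit 4) (nat_lit 449) (nat_lit 384) (nat_lit 367)) (XT.nd (nat_lit 78) (nat_lit 0) (nat_lit 0) (XT.lf (nat_lit 0) (nat_lit 2865081722) (nat_lit 76) (nat_lit 20110728498) (nat_lit 76) (nat_lit 16390983016) (nat_lit 12) (nat_lit 4) (nat_lit 13) (nat_lit 5) (nat_lit 13) (nat_lit 4) (nat_lit 450) (nat_lit 384) (nat_lit 366)) (XT.lf (nat_lit 0) (nat_lit 25434124258) (nat_lit 76) (nat_lit 10167106947) (nat_lit 76) (nat_lit 6355393872) (nat_lit 12) (nat_lit 4) (nat_lit 13) (nat_lit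 5) (nat_lit 13) (nat_lit 4) (nat_lit 451) (nat_lit 384) (nat_lit 365))))) (XT.nd (nat_lit 234) (nat_lit 228) (nat_lit 0) (XT.nd (nat_lit 78) (nat_lit 0) (nat_lit 0) (XT.lf (nat_lit 0) (nat_lit 4144262423) (nat_lit 152) (nat_lit 40182693658) (nat_lit 0) (nat_lit 432959324) (nat_lit 10) (nat_lit 5) (nat_lit 12) (nat_lit 4) (nat_lit 10) (nat_lit 4) (nat_lit 452) (nat_lit 384) (nat_lit 364)) (XT.nd (nat_lit 78) (nat_lit 0) (nat_lit 0) (XT.lf (nat_lit 0) (nat_lit 15462342912) (nat_lit 152) (nat_lit 20633920301) (nat_lit 0) (nat_lit 11675947063) (nat_lit 10) (nat_lit 5) (nat_lit 12) (nat_lit 4) (nat_lit 10) (nat_lit 4) (nat_lit 453) (nat_lit 384) (nat_lit 363)) (XT.lf (nat_lit 0) (nat_lit 27439732293) (nat_lit 152) (nat_lit 14263074) (nat_lit 0) (nat_lit 23583806119) (nat_lit 10) (nat_lit 5) (nat_lit 12) (nat_lit 4) (nat_lit 10) (nat_lit 4) (nat_lit 454) (nat_lit 384) (nat_lit 362)))) (XT.nd (nat_lit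 156) (nat_lit 152) (nat_lit 0) (XT.nd (nat_lit 78) (nat_lit 0) (nat_lit 0) (XT.lf (nat_lit 0) (nat_lit 22519224400) (nat_lit 76) (nat_lit 17979771491) (nat_lit 76) (nat_lit 14059465387) (nat_lit 9) (nat_lit 4) (nat_lit 10) (nat_lit 5) (nat_lit 10) (nat_lit 4) (nat_lit 455) (nat_lit 384) (nat_lit 361)) (XT.lf (nat_lit 0) (nat_lit 46419240909) (nat_lit 76) (nat_lit 7966167372) (nat_lit 76) (nat_lit 3986250222) (nat_lit 9) (nat_lit 4) (nat_lit 10) (nat_lit 5) (nat_lit 10) (nat_lit 4) (nat_lit 456) (nat_lit 384) (nat_lit 360))) (XT.nd (nat_lit 78) (nat_lit 0) (nat_lit 0) (XT.lf (nat_lit 0) (nat_lit 6661404120) (nat_lit 152) (nat_lit 53005231473) (nat_lit 0) (nat_lit 2818439774) (nat_lit 7) (nat_lit 5) (nat_lit 9) (nat_lit 4) (nat_lit 7) (nat_lit 4) (nat_lit 457) (nat_lit 384) (nat_lit 359)) (XT.lf (nat_lit 0) (nat_lit 18169971348) (nat_lit 152) (nat_lit 34468559162) (nat_lit 0) (nat_lit 14278333798)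 (nat_lit 7) (nat_lit 5) (nat_lit 9) (nat_lit 4) (nat_lit 7) (nat_lit 4) (nat_lit 458) (nat_lit 384) (nat_lit 358)))))) (XT.nd (nat_lit 546) (nat_lit 76) (nat_lit 0) (XT.nd (nat_lit 234) (nat_lit 152) (nat_lit 0) (XT.nd (nat_lit 78) (nat_lit 76) (nat_lit 0) (XT.lf (nat_lit 0) (nat_lit 30414919808) (nat_lit 152) (nat_lit 14819281092) (nat_lit 0) (nat_lit 26478214477) (nat_lit 7) (nat_lit 5) (nat_lit 9) (nat_lit 4) (nat_lit 7) (nat_lit 4) (nat_lit 459) (nat_lit 384) (nat_lit 357)) (XT.nd (nat_lit 78) (nat_lit 0) (nat_lit 0) (XT.lf (nat_lit 0) (nat_lit 6259382224) (nat_lit 76) (nat_lit 37307156432) (nat_lit 76) (nat_lit 33328721674) (nat_lit 6) (nat_lit 4) (nat_lit 7) (nat_lit 5) (nat_lit 7) (nat_lit 4) (nat_lit 460) (nat_lit 384) (nat_lit 356)) (XT.lf (nat_lit 0) (nat_lit 29225535890) (nat_lit 76) (nat_lit 28639761428) (nat_lit 76) (nat_lit 24622688311) (nat_lit 6) (nat_lit 4) (nat_lit 7) (nat_lit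 5) (nat_lit 7) (nat_lit 4) (nat_lit 461) (nat_lit 384) (nat_lit 355)))) (XT.nd (nat_lit 156) (nat_lit 152) (nat_lit 0) (XT.nd (nat_lit 78) (nat_lit 0) (nat_lit 0) (XT.lf (nat_lit 0) (nat_lit 53725283270) (nat_lit 76) (nat_lit 19431625243) (nat_lit 76) (nat_lit 15378775868) (nat_lit 6) (nat_lit 4) (nat_lit 7) (nat_lit 5) (nat_lit 7) (nat_lit 4) (nat_lit 462) (nat_lit 384) (nat_lit 354)) (XT.lf (nat_lit 0) (nat_lit 79903808054) (nat_lit 76) (nat_lit 9628181144) (nat_lit 76) (nat_lit 5542205604) (nat_lit 6) (nat_lit 4) (nat_lit 7) (nat_lit 5) (nat_lit 7) (nat_lit 4) (nat_lit 463) (nat_lit 384) (nat_lit 353))) (XT.nd (nat_lit 78) (nat_lit 0) (nat_lit 0) (XT.lf (nat_lit 0) (nat_lit 4894625533) (nat_lit 152) (nat_lit 96264389446) (nat_lit 0) (nat_lit 974008472) (nat_lit 4) (nat_lit 5) (nat_lit 6) (nat_lit 4) (nat_lit 4) (nat_lit 4) (nat_lit 464) (nat_lit 384) (nat_lit 352)) (XT.lf (nat_lit 0) (nat_lit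 16277948935) (nat_lit 152) (nat_lit 81128499143) (nat_lit 0) (nat_lit 12330283925) (nat_lit 4) (nat_lit 5) (nat_lit 6) (nat_lit 4) (nat_lit 4) (nat_lit 4) (nat_lit 465) (nat_lit 384) (nat_lit 351))))) (XT.nd (nat_lit 234) (nat_lit 76) (nat_lit 0) (XT.nd (nat_lit 78) (nat_lit 0) (nat_lit 0) (XT.lf (nat_lit 0) (nat_lit 28453588768) (nat_lit 152) (nat_lit 65020188698) (nat_lit 0) (nat_lit 24480879360) (nat_lit 4) (nat_lit 5) (nat_lit 6) (nat_lit 4) (nat_lit 4) (nat_lit 4) (nat_lit 466) (nat_lit 384) (nat_lit 350)) (XT.nd (nat_lit 78) (nat_lit 0) (nat_lit 0) (XT.lf (nat_lit 0) (nat_lit 41493696971) (nat_lit 152) (nat_lit 47844001458) (nat_lit 0) (nat_lit 37497798305) (nat_lit 4) (nat_lit 5) (nat_lit 6) (nat_lit 4) (nat_lit 4) (nat_lit 4) (nat_lit 467) (nat_lit 384) (nat_lit 349)) (XT.lf (nat_lit 0) (nat_lit 55475548259) (nat_lit 152) (nat_lit 29498152609) (nat_lit 0) (nat_lit 51458178059) (nat_lit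 4) (nat_lit 5) (nat_lit 6) (nat_lit 4) (nat_lit 4) (nat_lit 4) (nat_lit 468) (nat_lit 384) (nat_lit 348)))) (XT.nd (nat_lit 156) (nat_lit 0) (nat_lit 0) (XT.nd (nat_lit 78) (nat_lit 76) (nat_lit 0) (XT.lf (nat_lit 0) (nat_lit 70481998048) (nat_lit 152) (nat_lit 9873926010) (nat_lit 0) (nat_lit 66444746798) (nat_lit 4) (nat_lit 5) (nat_lit 6) (nat_lit 4) (nat_lit 4) (nat_lit 4) (nat_lit 469) (nat_lit 384) (nat_lit 347)) (XT.lf (nat_lit 0) (nat_lit 11513473094) (nat_lit 76) (nat_lit 75268257934) (nat_lit 76) (nat_lit 71212598304) (nat_lit 3) (nat_lit 4) (nat_lit 4) (nat_lit 5) (nat_lit 4) (nat_lit 4) (nat_lit 470) (nat_lit 384) (nat_lit 346))) (XT.nd (nat_lit 78) (nat_lit 0) (nat_lit 0) (XT.lf (nat_lit 0) (nat_lit 34796807138) (nat_lit 76) (nat_lit 69677468776) (nat_lit 76) (nat_lit 65604764350) (nat_lit 3) (nat_lit 4) (nat_lit 4) (nat_lit 5) (nat_lit 4) (nat_lit 4) (nat_lit 471) (nat_lit 384)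 (nat_lit 345)) (XT.lf (nat_lit 0) (nat_lit 59787574848) (nat_lit 76) (nat_lit 63717645696) (nat_lit 76) (nat_lit 59629159051) (nat_lit 3) (nat_lit 4) (nat_lit 4) (nat_lit 5) (nat_lit 4) (nat_lit 4) (nat_lit 472) (nat_lit 384) (nat_lit 344))))))))
noncomputable def xc22 : XT := (XT.nd (nat_lit 2028) (nat_lit 0) (nat_lit 0) (XT.nd (nat_lit 1014) (nat_lit 0) (nat_lit 0) (XT.nd (nat_lit 468) (nat_lit 152) (nat_lit 0) (XT.nd (nat_lit 234) (nat_lit 0) (nat_lit 0) (XT.nd (nat_lit 78) (nat_lit 0) (nat_lit 0) (XT.lf (nat_lit 0) (nat_lit 86633869663) (nat_lit 76) (nat_lit 57353471224) (nat_lit 76) (nat_lit 53250371413) (nat_lit 3) (nat_lit 4) (nat_lit 4) (nat_lit 5) (nat_lit 4) (nat_lit 4) (nat_lit 473) (nat_lit 384) (nat_lit 343)) (XT.nd (nat_lit 78) (nat_lit 0) (nat_lit 0) (XT.lf (nat_lit 0) (nat_lit 115494780736) (nat_lit 76) (nat_lit 50547231733) (nat_lit 76) (nat_lit 46430601214) (nat_lit 3) (nat_lit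 4) (nat_lit 4) (nat_lit 5) (nat_lit 4) (nat_lit 4) (nat_lit 474) (nat_lit 384) (nat_lit 342)) (XT.lf (nat_lit 0) (nat_lit 146541335690) (nat_lit 76) (nat_lit 43258593953) (nat_lit 76) (nat_lit 39129435000) (nat_lit 3) (nat_lit 4) (nat_lit 4) (nat_lit 5) (nat_lit 4) (nat_lit 4) (nat_lit 475) (nat_lit 384) (nat_lit 341)))) (XT.nd (nat_lit 78) (nat_lit 0) (nat_lit 0) (XT.lf (nat_lit 0) (nat_lit 179957514109) (nat_lit 76) (nat_lit 35444365955) (nat_lit 76) (nat_lit 31303606600) (nat_lit 3) (nat_lit 4) (nat_lit 4) (nat_lit 5) (nat_lit 4) (nat_lit 4) (nat_lit 476) (nat_lit 384) (nat_lit 340)) (XT.nd (nat_lit 78) (nat_lit 0) (nat_lit 0) (XT.lf (nat_lit 0) (nat_lit 215941337790) (nat_lit 76) (nat_lit 27058241205) (nat_lit 76) (nat_lit 22906740737) (nat_lit 3) (nat_lit 4) (nat_lit 4) (nat_lit 5) (nat_lit 4) (nat_lit 4) (nat_lit 477) (nat_lit 384) (nat_lit 339)) (XT.lf (nat_lit 0) (nat_lit 254706044209)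 (nat_lit 76) (nat_lit 18050524146) (nat_lit 76) (nat_lit 13889078204) (nat_lit 3) (nat_lit 4) (nat_lit 4) (nat_lit 5) (nat_lit 4) (nat_lit 4) (nat_lit 478) (nat_lit 384) (nat_lit 338))))) (XT.nd (nat_lit 234) (nat_lit 0) (nat_lit 0) (XT.nd (nat_lit 78) (nat_lit 152) (nat_lit 0) (XT.lf (nat_lit 0) (nat_lit 296481350143) (nat_lit 76) (nat_lit 8367835717) (nat_lit 76) (nat_lit 4197181001) (nat_lit 3) (nat_lit 4) (nat_lit 4) (nat_lit 5) (nat_lit 4) (nat_lit 4) (nat_lit 479) (nat_lit 384) (nat_lit 337)) (XT.nd (nat_lit 78) (nat_lit 0) (nat_lit 0) (XT.lf (nat_lit 0) (nat_lit 6194696307) (nat_lit 152) (nat_lit 324818765429) (nat_lit 0) (nat_lit 2214523586) (nat_lit 1) (nat_lit 5) (nat_lit 3) (nat_lit 4) (nat_lit 1) (nat_lit 4) (nat_lit 480) (nat_lit 384) (nat_lit 336)) (XT.lf (nat_lit 0) (nat_lit 17595331656) (nat_lit 152) (nat_lit 328121499246) (nat_lit 0) (nat_lit 13607639850) (nat_lit 1) (nat_lit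 5) (nat_lit 3) (nat_lit 4) (nat_lit 1) (nat_lit 4) (nat_lit 481) (nat_lit 384) (nat_lit 335)))) (XT.nd (nat_lit 156) (nat_lit 0) (nat_lit 0) (XT.nd (nat_lit 78) (nat_lit 0) (nat_lit 0) (XT.lf (nat_lit 0) (nat_lit 29869991121) (nat_lit 152) (nat_lit 331765248618) (nat_lit 0) (nat_lit 25875337200) (nat_lit 1) (nat_lit 5) (nat_lit 3) (nat_lit 4) (nat_lit 1) (nat_lit 4) (nat_lit 482) (nat_lit 384) (nat_lit 334)) (XT.lf (nat_lit 0) (nat_lit 43091413427) (nat_lit 152) (nat_lit 335771606133) (nat_lit 0) (nat_lit 39090313103) (nat_lit 1) (nat_lit 5) (nat_lit 3) (nat_lit 4) (nat_lit 1) (nat_lit 4) (nat_lit 483) (nat_lit 384) (nat_lit 333))) (XT.nd (nat_lit 78) (nat_lit 0) (nat_lit 0) (XT.lf (nat_lit 0) (nat_lit 57337947742) (nat_lit 152) (nat_lit 340164313169) (nat_lit 0) (nat_lit 53330878526) (nat_lit 1) (nat_lit 5) (nat_lit 3) (nat_lit 4) (nat_lit 1) (nat_lit 4) (nat_lit 484) (nat_lit 384) (nat_lit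 332)) (XT.lf (nat_lit 0) (nat_lit 72694017973) (nat_lit 152) (nat_lit 344969400583) (nat_lit 0) (nat_lit 68681422005) (nat_lit 1) (nat_lit 5) (nat_lit 3) (nat_lit 4) (nat_lit 1) (nat_lit 4) (nat_lit 485) (nat_lit 384) (nat_lit 331)))))) (XT.nd (nat_lit 468) (nat_lit 0) (nat_lit 0) (XT.nd (nat_lit 234) (nat_lit 0) (nat_lit 0) (XT.nd (nat_lit 78) (nat_lit 0) (nat_lit 0) (XT.lf (nat_lit 0) (nat_lit 89250623055) (nat_lit 152) (nat_lit 350215342966) (nat_lit 0) (nat_lit 85232909725) (nat_lit 1) (nat_lit 5) (nat_lit 3) (nat_lit 4) (nat_lit 1) (nat_lit 4) (nat_lit 486) (nat_lit 384) (nat_lit 330)) (XT.nd (nat_lit 78) (nat_lit 0) (nat_lit 0) (XT.lf (nat_lit 0) (nat_lit 107105876203) (nat_lit 152) (nat_lit 355933227385) (nat_lit 0) (nat_lit 103083424574) (nat_lit 1) (nat_lit 5) (nat_lit 3) (nat_lit 4) (nat_lit 1) (nat_lit 4) (nat_lit 487) (nat_lit 384) (nat_lit 329)) (XT.lf (nat_lit 0) (nat_lit 126365586324)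 (nat_lit 152) (nat_lit 362156937600) (nat_lit 0) (nat_lit 122338747383) (nat_lit 1) (nat_lit 5) (nat_lit 3) (nat_lit 4) (nat_lit 1) (nat_lit 4) (nat_lit 488) (nat_lit 384) (nat_lit 328)))) (XT.nd (nat_lit 78) (nat_lit 0) (nat_lit 0) (XT.lf (nat_lit 0) (nat_lit 147143885036) (nat_lit 152) (nat_lit 368923354855) (nat_lit 0) (nat_lit 143112983766) (nat_lit 1) (nat_lit 5) (nat_lit 3) (nat_lit 4) (nat_lit 1) (nat_lit 4) (nat_lit 489) (nat_lit 384) (nat_lit 327)) (XT.nd (nat_lit 78) (nat_lit 0) (nat_lit 0) (XT.lf (nat_lit 0) (nat_lit 169563902995) (nat_lit 152) (nat_lit 376272576439) (nat_lit 0) (nat_lit 165529240312) (nat_lit 1) (nat_lit 5) (nat_lit 3) (nat_lit 4) (nat_lit 1) (nat_lit 4) (nat_lit 490) (nat_lit 384) (nat_lit 326)) (XT.lf (nat_lit 0) (nat_lit 193758499568) (nat_lit 152) (nat_lit 384248153294) (nat_lit 0) (nat_lit 189720354094) (nat_lit 1) (nat_lit 5) (nat_lit 3) (nat_lit 4) (nat_lit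 1) (nat_lit 4) (nat_lit 491) (nat_lit 384) (nat_lit 325))))) (XT.nd (nat_lit 234) (nat_lit 0) (nat_lit 0) (XT.nd (nat_lit 78) (nat_lit 0) (nat_lit 0) (XT.lf (nat_lit 0) (nat_lit 219871050143) (nat_lit 152) (nat_lit 392897348098) (nat_lit 0) (nat_lit 215829679862) (nat_lit 1) (nat_lit 5) (nat_lit 3) (nat_lit 4) (nat_lit 1) (nat_lit 4) (nat_lit 492) (nat_lit 384) (nat_lit 324)) (XT.nd (nat_lit 78) (nat_lit 0) (nat_lit 0) (XT.lf (nat_lit 0) (nat_lit 248056295759) (nat_lit 152) (nat_lit 402271415338) (nat_lit 0) (nat_lit 244011939546) (nat_lit 1) (nat_lit 5) (nat_lit 3) (nat_lit 4) (nat_lit 1) (nat_lit 4) (nat_lit 493) (nat_lit 384) (nat_lit 323)) (XT.lf (nat_lit 0) (nat_lit 278481260094) (nat_lit 152) (nat_lit 412425905043) (nat_lit 0) (nat_lit 274434139130) (nat_lit 1) (nat_lit 5) (nat_lit 3) (nat_lit 4) (nat_lit 1) (nat_lit 4) (nat_lit 494) (nat_lit 384) (nat_lit 322)))) (XT.nd (nat_lit 156)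 (nat_lit 0) (nat_lit 0) (XT.nd (nat_lit 78) (nat_lit 0) (nat_lit 0) (XT.lf (nat_lit 0) (nat_lit 311326239234) (nat_lit 152) (nat_lit 423420991966) (nat_lit 0) (nat_lit 307276558314) (nat_lit 1) (nat_lit 5) (nat_lit 3) (nat_lit 4) (nat_lit 1) (nat_lit 4) (nat_lit 495) (nat_lit 384) (nat_lit 321)) (XT.lf (nat_lit 0) (nat_lit 346785870091) (nat_lit 152) (nat_lit 435321832178) (nat_lit 0) (nat_lit 342733818842) (nat_lit 1) (nat_lit 5) (nat_lit 3) (nat_lit 4) (nat_lit 1) (nat_lit 4) (nat_lit 496) (nat_lit 384) (nat_lit 320))) (XT.nd (nat_lit 78) (nat_lit 0) (nat_lit 0) (XT.lf (nat_lit 0) (nat_lit 385070283812) (nat_lit 152) (nat_lit 448198949177) (nat_lit 0) (nat_lit 381016037814) (nat_lit 1) (nat_lit 5) (nat_lit 3) (nat_lit 4) (nat_lit 1) (nat_lit 4) (nat_lit 497) (nat_lit 384) (nat_lit 319)) (XT.lf (nat_lit 0) (nat_lit 426406350996) (nat_lit 152) (nat_lit 462128651804) (nat_lit 0) (nat_lit 422350072823)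 (nat_lit 1) (nat_lit 5) (nat_lit 3) (nat_lit 4) (nat_lit 1) (nat_lit 4) (nat_lit 498) (nat_lit 384) (nat_lit 318))))))) (XT.nd (nat_lit 58032) (nat_lit 0) (nat_lit 608) (XT.nd (nat_lit 57486) (nat_lit 0) (nat_lit 1596) (XT.nd (nat_lit 57252) (nat_lit 0) (nat_lit 2432) (XT.nd (nat_lit 57096) (nat_lit 0) (nat_lit 2888) (XT.lf (nat_lit 0) (nat_lit 471039026115) (nat_lit 152) (nat_lit 477193486445) (nat_lit 0) (nat_lit 466980866299) (nat_lit 1) (nat_lit 5) (nat_lit 3) (nat_lit 4) (nat_lit 1) (nat_lit 4) (nat_lit 499) (nat_lit 384) (nat_lit 317)) (XT.nd (nat_lit 78) (nat_lit 152) (nat_lit 0) (XT.lf (nat_lit 0) (nat_lit 840399622) (nat_lit 152) (nat_lit 5189898356) (nat_lit 0) (nat_lit 840399622) (nat_lit 41) (nat_lit 5) (nat_lit 43) (nat_lit 4) (nat_lit 41) (nat_lit 4) (nat_lit 430) (nat_lit 385) (nat_lit 385)) (XT.lf (nat_lit 0) (nat_lit 7720366868) (nat_lit 152) (nat_lit 3612964429) (nat_lit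 152) (nat_lit 2997235063) (nat_lit 39) (nat_lit 4) (nat_lit 41) (nat_lit 5) (nat_lit 41) (nat_lit 4) (nat_lit 431) (nat_lit 385) (nat_lit 384)))) (XT.nd (nat_lit 78) (nat_lit 304) (nat_lit 0) (XT.lf (nat_lit 0) (nat_lit 6518203022) (nat_lit 152) (nat_lit 3057371245) (nat_lit 0) (nat_lit 5388822880) (nat_lit 37) (nat_lit 5) (nat_lit 39) (nat_lit 4) (nat_lit 37) (nat_lit 4) (nat_lit 432) (nat_lit 385) (nat_lit 383)) (XT.nd (nat_lit 78) (nat_lit 76) (nat_lit 0) (XT.lf (nat_lit 0) (nat_lit 306387190) (nat_lit 76) (nat_lit 639231572) (nat_lit 152) (nat_lit 14703303627) (nat_lit 34) (nat_lit 5) (nat_lit 35) (nat_lit 5) (nat_lit 36) (nat_lit 4) (nat_lit 433) (nat_lit 385) (nat_lit 382)) (XT.lf (nat_lit 0) (nat_lit 3349583924) (nat_lit 76) (nat_lit 7513003860) (nat_lit 76) (nat_lit 5515249974) (nat_lit 33) (nat_lit 4) (nat_lit 34) (nat_lit 5) (nat_lit 34) (nat_lit 4) (nat_lit 434) (nat_lit 385) (nat_lit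 381))))) (XT.nd (nat_lit 234) (nat_lit 456) (nat_lit 0) (XT.nd (nat_lit 78) (nat_lit 228) (nat_lit 0) (XT.lf (nat_lit 0) (nat_lit 4187082448) (nat_lit 152) (nat_lit 11085055790) (nat_lit 0) (nat_lit 1893504542) (nat_lit 31) (nat_lit 5) (nat_lit 33) (nat_lit 4) (nat_lit 31) (nat_lit 4) (nat_lit 435) (nat_lit 385) (nat_lit 380)) (XT.nd (nat_lit 78) (nat_lit 152) (nat_lit 0) (XT.lf (nat_lit 0) (nat_lit 8312480621) (nat_lit 76) (nat_lit 6177107099) (nat_lit 76) (nat_lit 3521533675) (nat_lit 30) (nat_lit 4) (nat_lit 31) (nat_lit 5) (nat_lit 31) (nat_lit 4) (nat_lit 436) (nat_lit 385) (nat_lit 379)) (XT.lf (nat_lit 0) (nat_lit 6430700438) (nat_lit 152) (nat_lit 8908336238) (nat_lit 0) (nat_lit 3582362859) (nat_lit 28) (nat_lit 5) (nat_lit 30) (nat_lit 4) (nat_lit 28) (nat_lit 4) (nat_lit 437) (nat_lit 385) (nat_lit 378)))) (XT.nd (nat_lit 156) (nat_lit 228) (nat_lit 0) (XT.nd (nat_lit 78) (nat_lit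 152) (nat_lit 0) (XT.lf (nat_lit 0) (nat_lit 11079036486) (nat_lit 76) (nat_lit 5983096855) (nat_lit 76) (nat_lit 2839185172) (nat_lit 27) (nat_lit 4) (nat_lit 28) (nat_lit 5) (nat_lit 28) (nat_lit 4) (nat_lit 438) (nat_lit 385) (nat_lit 377)) (XT.lf (nat_lit 0) (nat_lit 7312418491) (nat_lit 152) (nat_lit 9585208363) (nat_lit 0) (nat_lit 4057569530) (nat_lit 25) (nat_lit 5) (nat_lit 27) (nat_lit 4) (nat_lit 25) (nat_lit 4) (nat_lit 439) (nat_lit 385) (nat_lit 376))) (XT.nd (nat_lit 78) (nat_lit 152) (nat_lit 0) (XT.lf (nat_lit 0) (nat_lit 10784701504) (nat_lit 76) (nat_lit 7401055686) (nat_lit 76) (nat_lit 3904866578) (nat_lit 24) (nat_lit 4) (nat_lit 25) (nat_lit 5) (nat_lit 25) (nat_lit 4) (nat_lit 440) (nat_lit 385) (nat_lit 375)) (XT.lf (nat_lit 0) (nat_lit 6353813996) (nat_lit 152) (nat_lit 14148971380) (nat_lit 0) (nat_lit 2811288085) (nat_lit 22) (nat_lit 5) (nat_lit 24) (nat_lit 4)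 (nat_lit 22) (nat_lit 4) (nat_lit 441) (nat_lit 385) (nat_lit 374)))))) (XT.nd (nat_lit 546) (nat_lit 456) (nat_lit 0) (XT.nd (nat_lit 234) (nat_lit 304) (nat_lit 0) (XT.nd (nat_lit 78) (nat_lit 152) (nat_lit 0) (XT.lf (nat_lit 0) (nat_lit 6286122536) (nat_lit 76) (nat_lit 11042043314) (nat_lit 76) (nat_lit 7302459997) (nat_lit 21) (nat_lit 4) (nat_lit 22) (nat_lit 5) (nat_lit 22) (nat_lit 4) (nat_lit 442) (nat_lit 385) (nat_lit 373)) (XT.nd (nat_lit 78) (nat_lit 0) (nat_lit 0) (XT.lf (nat_lit 0) (nat_lit 2082653425) (nat_lit 76) (nat_lit 846467210) (nat_lit 152) (nat_lit 23125891074) (nat_lit 19) (nat_lit 5) (nat_lit 20) (nat_lit 5) (nat_lit 21) (nat_lit 4) (nat_lit 443) (nat_lit 385) (nat_lit 372)) (XT.lf (nat_lit 0) (nat_lit 13840046789) (nat_lit 152) (nat_lit 3797629596) (nat_lit 0) (nat_lit 9943866939) (nat_lit 19) (nat_lit 5) (nat_lit 21) (nat_lit 4) (nat_lit 19) (nat_lit 4) (nat_lit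 444) (nat_lit 385) (nat_lit 371)))) (XT.nd (nat_lit 156) (nat_lit 76) (nat_lit 0) (XT.nd (nat_lit 78) (nat_lit 152) (nat_lit 0) (XT.lf (nat_lit 0) (nat_lit 17870775281) (nat_lit 76) (nat_lit 7703536418) (nat_lit 76) (nat_lit 3658375118) (nat_lit 18) (nat_lit 4) (nat_lit 19) (nat_lit 5) (nat_lit 19) (nat_lit 4) (nat_lit 445) (nat_lit 385) (nat_lit 370)) (XT.lf (nat_lit 0) (nat_lit 6937076250) (nat_lit 152) (nat_lit 21123190277) (nat_lit 0) (nat_lit 2953164739) (nat_lit 16) (nat_lit 5) (nat_lit 18) (nat_lit 4) (nat_lit 16) (nat_lit 4) (nat_lit 446) (nat_lit 385) (nat_lit 369))) (XT.nd (nat_lit 78) (nat_lit 76) (nat_lit 0) (XT.lf (nat_lit 0) (nat_lit 18261757866) (nat_lit 152) (nat_lit 515199682) (nat_lit 0) (nat_lit 14156201041) (nat_lit 16) (nat_lit 5) (nat_lit 18) (nat_lit 4) (nat_lit 16) (nat_lit 4) (nat_lit 447) (nat_lit 385) (nat_lit 368)) (XT.lf (nat_lit 0) (nat_lit 21846268424) (nat_lit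 76) (nat_lit 8688148217) (nat_lit 76) (nat_lit 4469956840) (nat_lit 15) (nat_lit 4) (nat_lit 16) (nat_lit 5) (nat_lit 16) (nat_lit 4) (nat_lit 448) (nat_lit 385) (nat_lit 367))))) (XT.nd (nat_lit 234) (nat_lit 228) (nat_lit 0) (XT.nd (nat_lit 78) (nat_lit 76) (nat_lit 0) (XT.lf (nat_lit 0) (nat_lit 6221151466) (nat_lit 152) (nat_lit 28916374167) (nat_lit 0) (nat_lit 2104501345) (nat_lit 13) (nat_lit 5) (nat_lit 15) (nat_lit 4) (nat_lit 13) (nat_lit 4) (nat_lit 449) (nat_lit 385) (nat_lit 366)) (XT.nd (nat_lit 78) (nat_lit 76) (nat_lit 0) (XT.lf (nat_lit 0) (nat_lit 17710586131) (nat_lit 152) (nat_lit 8437499915) (nat_lit 0) (nat_lit 13501968417) (nat_lit 13) (nat_lit 5) (nat_lit 15) (nat_lit 4) (nat_lit 13) (nat_lit 4) (nat_lit 450) (nat_lit 385) (nat_lit 365)) (XT.lf (nat_lit 0) (nat_lit 13593824055) (nat_lit 76) (nat_lit 16476559879) (nat_lit 76) (nat_lit 12182786986) (nat_lit 12) (nat_lit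 4) (nat_lit 13) (nat_lit 5) (nat_lit 13) (nat_lit 4) (nat_lit 451) (nat_lit 385) (nat_lit 364)))) (XT.nd (nat_lit 156) (nat_lit 76) (nat_lit 0) (XT.nd (nat_lit 78) (nat_lit 152) (nat_lit 0) (XT.lf (nat_lit 0) (nat_lit 37190646602) (nat_lit 76) (nat_lit 6125820967) (nat_lit 76) (nat_lit 1753200686) (nat_lit 12) (nat_lit 4) (nat_lit 13) (nat_lit 5) (nat_lit 13) (nat_lit 4) (nat_lit 452) (nat_lit 385) (nat_lit 363)) (XT.lf (nat_lit 0) (nat_lit 9277852291) (nat_lit 152) (nat_lit 33778717622) (nat_lit 0) (nat_lit 5043921699) (nat_lit 10) (nat_lit 5) (nat_lit 12) (nat_lit 4) (nat_lit 10) (nat_lit 4) (nat_lit 453) (nat_lit 385) (nat_lit 362))) (XT.nd (nat_lit 78) (nat_lit 76) (nat_lit 0) (XT.lf (nat_lit 0) (nat_lit 21145671895) (nat_lit 152) (nat_lit 13378530658) (nat_lit 0) (nat_lit 16847361373) (nat_lit 10) (nat_lit 5) (nat_lit 12) (nat_lit 4) (nat_lit 10) (nat_lit 4) (nat_lit 454) (nat_lit 385)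 (nat_lit 361)) (XT.lf (nat_lit 0) (nat_lit 8503141422) (nat_lit 76) (nat_lit 25381510239) (nat_lit 76) (nat_lit 21023588671) (nat_lit 9) (nat_lit 4) (nat_lit 10) (nat_lit 5) (nat_lit 10) (nat_lit 4) (nat_lit 455) (nat_lit 385) (nat_lit 360))))))))
noncomputable def xc23 : XT := (XT.nd (nat_lit 2106) (nat_lit 0) (nat_lit 0) (XT.nd (nat_lit 1014) (nat_lit 228) (nat_lit 0) (XT.nd (nat_lit 468) (nat_lit 152) (nat_lit 0) (XT.nd (nat_lit 234) (nat_lit 76) (nat_lit 0) (XT.nd (nat_lit 78) (nat_lit 152) (nat_lit 0) (XT.lf (nat_lit 0) (nat_lit 32208776122) (nat_lit 76) (nat_lit 15465314660) (nat_lit 76) (nat_lit 11052197679) (nat_lit 9) (nat_lit 4) (nat_lit 10) (nat_lit 5) (nat_lit 10) (nat_lit 4) (nat_lit 456) (nat_lit 385) (nat_lit 359)) (XT.nd (nat_lit 78) (nat_lit 152) (nat_lit 0) (XT.lf (nat_lit 0) (nat_lit 57436496635) (nat_lit 76) (nat_lit 4943425068) (nat_lit 76) (nat_lit 479201223) (nat_lit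 9) (nat_lit 4) (nat_lit 10) (nat_lit 5) (nat_lit 10) (nat_lit 4) (nat_lit 457) (nat_lit 385) (nat_lit 358)) (XT.lf (nat_lit 0) (nat_lit 10790019441) (nat_lit 152) (nat_lit 50020692635) (nat_lit 0) (nat_lit 6493309903) (nat_lit 7) (nat_lit 5) (nat_lit 9) (nat_lit 4) (nat_lit 7) (nat_lit 4) (nat_lit 458) (nat_lit 385) (nat_lit 357)))) (XT.nd (nat_lit 78) (nat_lit 76) (nat_lit 0) (XT.lf (nat_lit 0) (nat_lit 22952923677) (nat_lit 152) (nat_lit 30536268566) (nat_lit 0) (nat_lit 18614484711) (nat_lit 7) (nat_lit 5) (nat_lit 9) (nat_lit 4) (nat_lit 7) (nat_lit 4) (nat_lit 459) (nat_lit 385) (nat_lit 356)) (XT.nd (nat_lit 78) (nat_lit 76) (nat_lit 0) (XT.lf (nat_lit 0) (nat_lit 35930849154) (nat_lit 152) (nat_lit 9810587163) (nat_lit 0) (nat_lit 31553771829) (nat_lit 7) (nat_lit 5) (nat_lit 9) (nat_lit 4) (nat_lit 7) (nat_lit 4) (nat_lit 460) (nat_lit 385) (nat_lit 355)) (XT.lf (nat_lit 0) (nat_lit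 12685175252) (nat_lit 76) (nat_lit 37313577979) (nat_lit 76) (nat_lit 32900724396) (nat_lit 6) (nat_lit 4) (nat_lit 7) (nat_lit 5) (nat_lit 7) (nat_lit 4) (nat_lit 461) (nat_lit 385) (nat_lit 354))))) (XT.nd (nat_lit 234) (nat_lit 152) (nat_lit 0) (XT.nd (nat_lit 78) (nat_lit 0) (nat_lit 0) (XT.lf (nat_lit 0) (nat_lit 37049729177) (nat_lit 76) (nat_lit 28173395149) (nat_lit 76) (nat_lit 23727415402) (nat_lit 6) (nat_lit 4) (nat_lit 7) (nat_lit 5) (nat_lit 7) (nat_lit 4) (nat_lit 462) (nat_lit 385) (nat_lit 353)) (XT.nd (nat_lit 78) (nat_lit 0) (nat_lit 0) (XT.lf (nat_lit 0) (nat_lit 63103074836) (nat_lit 76) (nat_lit 18432870824) (nat_lit 76) (nat_lit 13956218703) (nat_lit 6) (nat_lit 4) (nat_lit 7) (nat_lit 5) (nat_lit 7) (nat_lit 4) (nat_lit 463) (nat_lit 385) (nat_lit 352)) (XT.lf (nat_lit 0) (nat_lit 90999602425) (nat_lit 76) (nat_lit 8034283378) (nat_lit 76) (nat_lit 3529230909) (nat_lit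 6) (nat_lit 4) (nat_lit 7) (nat_lit 5) (nat_lit 7) (nat_lit 4) (nat_lit 464) (nat_lit 385) (nat_lit 351)))) (XT.nd (nat_lit 156) (nat_lit 0) (nat_lit 0) (XT.nd (nat_lit 78) (nat_lit 0) (nat_lit 0) (XT.lf (nat_lit 0) (nat_lit 7595147664) (nat_lit 152) (nat_lit 99313451683) (nat_lit 0) (nat_lit 3279577105) (nat_lit 4) (nat_lit 5) (nat_lit 6) (nat_lit 4) (nat_lit 4) (nat_lit 4) (nat_lit 465) (nat_lit 385) (nat_lit 350)) (XT.lf (nat_lit 0) (nat_lit 19718103450) (nat_lit 152) (nat_lit 83311289335) (nat_lit 0) (nat_lit 15379343635) (nat_lit 4) (nat_lit 5) (nat_lit 6) (nat_lit 4) (nat_lit 4) (nat_lit 4) (nat_lit 466) (nat_lit 385) (nat_lit 349))) (XT.nd (nat_lit 78) (nat_lit 0) (nat_lit 0) (XT.lf (nat_lit 0) (nat_lit 32709430128) (nat_lit 152) (nat_lit 66233387369) (nat_lit 0) (nat_lit 28349198779) (nat_lit 4) (nat_lit 5) (nat_lit 6) (nat_lit 4) (nat_lit 4) (nat_lit 4) (nat_lit 467) (nat_lit 385)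 (nat_lit 348)) (XT.lf (nat_lit 0) (nat_lit 46646113339) (nat_lit 152) (nat_lit 47978543403) (nat_lit 0) (nat_lit 42266000938) (nat_lit 4) (nat_lit 5) (nat_lit 6) (nat_lit 4) (nat_lit 4) (nat_lit 4) (nat_lit 468) (nat_lit 385) (nat_lit 347)))))) (XT.nd (nat_lit 546) (nat_lit 152) (nat_lit 0) (XT.nd (nat_lit 234) (nat_lit 0) (nat_lit 0) (XT.nd (nat_lit 78) (nat_lit 76) (nat_lit 0) (XT.lf (nat_lit 0) (nat_lit 61610740833) (nat_lit 152) (nat_lit 28438580585) (nat_lit 0) (nat_lit 57212220053) (nat_lit 4) (nat_lit 5) (nat_lit 6) (nat_lit 4) (nat_lit 4) (nat_lit 4) (nat_lit 469) (nat_lit 385) (nat_lit 346)) (XT.nd (nat_lit 78) (nat_lit 76) (nat_lit 0) (XT.lf (nat_lit 0) (nat_lit 77691991885) (nat_lit 152) (nat_lit 7497706542) (nat_lit 0) (nat_lit 73276426309) (nat_lit 4) (nat_lit 5) (nat_lit 6) (nat_lit 4) (nat_lit 4) (nat_lit 4) (nat_lit 470) (nat_lit 385) (nat_lit 345)) (XT.lf (nat_lit 0) (nat_lit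 15463088185) (nat_lit 76) (nat_lit 79763496755) (nat_lit 76) (nat_lit 75332148960) (nat_lit 3) (nat_lit 4) (nat_lit 4) (nat_lit 5) (nat_lit 4) (nat_lit 4) (nat_lit 471) (nat_lit 385) (nat_lit 344)))) (XT.nd (nat_lit 156) (nat_lit 0) (nat_lit 0) (XT.nd (nat_lit 78) (nat_lit 0) (nat_lit 0) (XT.lf (nat_lit 0) (nat_lit 40384752860) (nat_lit 76) (nat_lit 73838497932) (nat_lit 76) (nat_lit 69392536971) (nat_lit 3) (nat_lit 4) (nat_lit 4) (nat_lit 5) (nat_lit 4) (nat_lit 4) (nat_lit 472) (nat_lit 385) (nat_lit 343)) (XT.lf (nat_lit 0) (nat_lit 67167063384) (nat_lit 76) (nat_lit 67506568142) (nat_lit 76) (nat_lit 63047076472) (nat_lit 3) (nat_lit 4) (nat_lit 4) (nat_lit 5) (nat_lit 4) (nat_lit 4) (nat_lit 473) (nat_lit 385) (nat_lit 342))) (XT.nd (nat_lit 78) (nat_lit 0) (nat_lit 0) (XT.lf (nat_lit 0) (nat_lit 95968729743) (nat_lit 76) (nat_lit 60730184839) (nat_lit 76) (nat_lit 56258164735) (nat_lit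 3) (nat_lit 4) (nat_lit 4) (nat_lit 5) (nat_lit 4) (nat_lit 4) (nat_lit 474) (nat_lit 385) (nat_lit 341)) (XT.lf (nat_lit 0) (nat_lit 126960428480) (nat_lit 76) (nat_lit 53469191676) (nat_lit 76) (nat_lit 48985571171) (nat_lit 3) (nat_lit 4) (nat_lit 4) (nat_lit 5) (nat_lit 4) (nat_lit 4) (nat_lit 475) (nat_lit 385) (nat_lit 340))))) (XT.nd (nat_lit 234) (nat_lit 152) (nat_lit 0) (XT.nd (nat_lit 78) (nat_lit 0) (nat_lit 0) (XT.lf (nat_lit 0) (nat_lit 160325814105) (nat_lit 76) (nat_lit 45680560547) (nat_lit 76) (nat_lit 41186198929) (nat_lit 3) (nat_lit 4) (nat_lit 4) (nat_lit 5) (nat_lit 4) (nat_lit 4) (nat_lit 476) (nat_lit 385) (nat_lit 339)) (XT.nd (nat_lit 78) (nat_lit 0) (nat_lit 0) (XT.lf (nat_lit 0) (nat_lit 196262607422) (nat_lit 76) (nat_lit 37318136601) (nat_lit 76) (nat_lit 32813829508) (nat_lit 3) (nat_lit 4) (nat_lit 4) (nat_lit 5) (nat_lit 4) (nat_lit 4) (nat_lit 477) (nat_lit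 385) (nat_lit 338)) (XT.lf (nat_lit 0) (nat_lit 234983767207) (nat_lit 76) (nat_lit 28332364732) (nat_lit 76) (nat_lit 23818848865) (nat_lit 3) (nat_lit 4) (nat_lit 4) (nat_lit 5) (nat_lit 4) (nat_lit 4) (nat_lit 478) (nat_lit 385) (nat_lit 337)))) (XT.nd (nat_lit 156) (nat_lit 152) (nat_lit 0) (XT.nd (nat_lit 78) (nat_lit 0) (nat_lit 0) (XT.lf (nat_lit 0) (nat_lit 276718752184) (nat_lit 76) (nat_lit 18669995921) (nat_lit 76) (nat_lit 14147953413) (nat_lit 3) (nat_lit 4) (nat_lit 4) (nat_lit 5) (nat_lit 4) (nat_lit 4) (nat_lit 479) (nat_lit 385) (nat_lit 336)) (XT.lf (nat_lit 0) (nat_lit 321714880782) (nat_lit 76) (nat_lit 8273771688) (nat_lit 76) (nat_lit 3743834141) (nat_lit 3) (nat_lit 4) (nat_lit 4) (nat_lit 5) (nat_lit 4) (nat_lit 4) (nat_lit 480) (nat_lit 385) (nat_lit 335))) (XT.nd (nat_lit 78) (nat_lit 0) (nat_lit 0) (XT.lf (nat_lit 0) (nat_lit 7432158512) (nat_lit 152) (nat_lit 349305989676)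 (nat_lit 0) (nat_lit 3110970162) (nat_lit 1) (nat_lit 5) (nat_lit 3) (nat_lit 4) (nat_lit 1) (nat_lit 4) (nat_lit 481) (nat_lit 385) (nat_lit 334)) (XT.lf (nat_lit 0) (nat_lit 19689890133) (nat_lit 152) (nat_lit 352983925679) (nat_lit 0) (nat_lit 15362255380) (nat_lit 1) (nat_lit 5) (nat_lit 3) (nat_lit 4) (nat_lit 1) (nat_lit 4) (nat_lit 482) (nat_lit 385) (nat_lit 333))))))) (XT.nd (nat_lit 1014) (nat_lit 0) (nat_lit 0) (XT.nd (nat_lit 468) (nat_lit 0) (nat_lit 0) (XT.nd (nat_lit 234) (nat_lit 0) (nat_lit 0) (XT.nd (nat_lit 78) (nat_lit 0) (nat_lit 0) (XT.lf (nat_lit 0) (nat_lit 32895638508) (nat_lit 152) (nat_lit 357021937482) (nat_lit 0) (nat_lit 28562034863) (nat_lit 1) (nat_lit 5) (nat_lit 3) (nat_lit 4) (nat_lit 1) (nat_lit 4) (nat_lit 483) (nat_lit 385) (nat_lit 332)) (XT.nd (nat_lit 78) (nat_lit 0) (nat_lit 0) (XT.lf (nat_lit 0) (nat_lit 47127659924) (nat_lit 152) (nat_lit 361443954045)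 (nat_lit 0) (nat_lit 42788529528) (nat_lit 1) (nat_lit 5) (nat_lit 3) (nat_lit 4) (nat_lit 1) (nat_lit 4) (nat_lit 484) (nat_lit 385) (nat_lit 331)) (XT.lf (nat_lit 0) (nat_lit 62470292286) (nat_lit 152) (nat_lit 366276179909) (nat_lit 0) (nat_lit 58126044528) (nat_lit 1) (nat_lit 5) (nat_lit 3) (nat_lit 4) (nat_lit 1) (nat_lit 4) (nat_lit 485) (nat_lit 385) (nat_lit 330)))) (XT.nd (nat_lit 78) (nat_lit 0) (nat_lit 0) (XT.lf (nat_lit 0) (nat_lit 79014454897) (nat_lit 152) (nat_lit 371547250487) (nat_lit 0) (nat_lit 74665468839) (nat_lit 1) (nat_lit 5) (nat_lit 3) (nat_lit 4) (nat_lit 1) (nat_lit 4) (nat_lit 486) (nat_lit 385) (nat_lit 329)) (XT.nd (nat_lit 78) (nat_lit 0) (nat_lit 0) (XT.lf (nat_lit 0) (nat_lit 96858187238) (nat_lit 152) (nat_lit 377288401753) (nat_lit 0) (nat_lit 92504813867) (nat_lit 1) (nat_lit 5) (nat_lit 3) (nat_lit 4) (nat_lit 1) (nat_lit 4) (nat_lit 487) (nat_lit 385)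 (nat_lit 328)) (XT.lf (nat_lit 0) (nat_lit 116107229946) (nat_lit 152) (nat_lit 383533655344) (nat_lit 0) (nat_lit 111749794248) (nat_lit 1) (nat_lit 5) (nat_lit 3) (nat_lit 4) (nat_lit 1) (nat_lit 4) (nat_lit 488) (nat_lit 385) (nat_lit 327))))) (XT.nd (nat_lit 234) (nat_lit 0) (nat_lit 0) (XT.nd (nat_lit 78) (nat_lit 0) (nat_lit 0) (XT.lf (nat_lit 0) (nat_lit 136875651422) (nat_lit 152) (nat_lit 390320020171) (nat_lit 0) (nat_lit 132514454310) (nat_lit 1) (nat_lit 5) (nat_lit 3) (nat_lit 4) (nat_lit 1) (nat_lit 4) (nat_lit 489) (nat_lit 385) (nat_lit 326)) (XT.nd (nat_lit 78) (nat_lit 0) (nat_lit 0) (XT.lf (nat_lit 0) (nat_lit 159286523794) (nat_lit 152) (nat_lit 397687711728) (nat_lit 0) (nat_lit 154921843891) (nat_lit 1) (nat_lit 5) (nat_lit 3) (nat_lit 4) (nat_lit 1) (nat_lit 4) (nat_lit 490) (nat_lit 385) (nat_lit 325)) (XT.lf (nat_lit 0) (nat_lit 183472652230) (nat_lit 152) (nat_lit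 405680390410) (nat_lit 0) (nat_lit 179104747521) (nat_lit 1) (nat_lit 5) (nat_lit 3) (nat_lit 4) (nat_lit 1) (nat_lit 4) (nat_lit 491) (nat_lit 385) (nat_lit 324)))) (XT.nd (nat_lit 156) (nat_lit 0) (nat_lit 0) (XT.nd (nat_lit 78) (nat_lit 0) (nat_lit 0) (XT.lf (nat_lit 0) (nat_lit 209577361937) (nat_lit 152) (nat_lit 414345420239) (nat_lit 0) (nat_lit 205206471296) (nat_lit 1) (nat_lit 5) (nat_lit 3) (nat_lit 4) (nat_lit 1) (nat_lit 4) (nat_lit 492) (nat_lit 385) (nat_lit 323)) (XT.lf (nat_lit 0) (nat_lit 237755347491) (nat_lit 152) (nat_lit 423734149539) (nat_lit 0) (nat_lit 233381692098) (nat_lit 1) (nat_lit 5) (nat_lit 3) (nat_lit 4) (nat_lit 1) (nat_lit 4) (nat_lit 493) (nat_lit 385) (nat_lit 322))) (XT.nd (nat_lit 78) (nat_lit 0) (nat_lit 0) (XT.lf (nat_lit 0) (nat_lit 268173589546) (nat_lit 152) (nat_lit 433902215226) (nat_lit 0) (nat_lit 263797374198) (nat_lit 1) (nat_lit 5) (nat_lit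 3) (nat_lit 4) (nat_lit 1) (nat_lit 4) (nat_lit 494) (nat_lit 385) (nat_lit 321)) (XT.lf (nat_lit 0) (nat_lit 301012344352) (nat_lit 152) (nat_lit 444909872503) (nat_lit 0) (nat_lit 296633758675) (nat_lit 1) (nat_lit 5) (nat_lit 3) (nat_lit 4) (nat_lit 1) (nat_lit 4) (nat_lit 495) (nat_lit 385) (nat_lit 320)))))) (XT.nd (nat_lit 57408) (nat_lit 0) (nat_lit 2052) (XT.nd (nat_lit 234) (nat_lit 0) (nat_lit 0) (XT.nd (nat_lit 78) (nat_lit 0) (nat_lit 0) (XT.lf (nat_lit 0) (nat_lit 336466211938) (nat_lit 152) (nat_lit 456822351931) (nat_lit 0) (nat_lit 332085431511) (nat_lit 1) (nat_lit 5) (nat_lit 3) (nat_lit 4) (nat_lit 1) (nat_lit 4) (nat_lit 496) (nat_lit 385) (nat_lit 319)) (XT.nd (nat_lit 78) (nat_lit 0) (nat_lit 0) (XT.lf (nat_lit 0) (nat_lit 374745289296) (nat_lit 152) (nat_lit 469710245982) (nat_lit 0) (nat_lit 370362476694) (nat_lit 1) (nat_lit 5) (nat_lit 3) (nat_lit 4) (nat_lit 1) (nat_lit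 4) (nat_lit 497) (nat_lit 385) (nat_lit 318)) (XT.lf (nat_lit 0) (nat_lit 416076415403) (nat_lit 152) (nat_lit 483649927361) (nat_lit 0) (nat_lit 411691721158) (nat_lit 1) (nat_lit 5) (nat_lit 3) (nat_lit 4) (nat_lit 1) (nat_lit 4) (nat_lit 498) (nat_lit 385) (nat_lit 317)))) (XT.nd (nat_lit 57018) (nat_lit 0) (nat_lit 3040) (XT.nd (nat_lit 56940) (nat_lit 0) (nat_lit 3496) (XT.lf (nat_lit 0) (nat_lit 460704515452) (nat_lit 152) (nat_lit 498724001587) (nat_lit 0) (nat_lit 456318078944) (nat_lit 1) (nat_lit 5) (nat_lit 3) (nat_lit 4) (nat_lit 1) (nat_lit 4) (nat_lit 499) (nat_lit 385) (nat_lit 316)) (XT.lf (nat_lit 0) (nat_lit 3758755341) (nat_lit 152) (nat_lit 1287496584) (nat_lit 152) (nat_lit 1287496584) (nat_lit 47) (nat_lit 4) (nat_lit 49) (nat_lit 5) (nat_lit 49) (nat_lit 4) (nat_lit 428) (nat_lit 386) (nat_lit 386))) (XT.nd (nat_lit 78) (nat_lit 304) (nat_lit 0) (XT.lf (nat_lit 0) (nat_lit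 6373935493) (nat_lit 152) (nat_lit 1141313082) (nat_lit 0) (nat_lit 5675698392) (nat_lit 45) (nat_lit 5) (nat_lit 47) (nat_lit 4) (nat_lit 45) (nat_lit 4) (nat_lit 429) (nat_lit 386) (nat_lit 385)) (XT.lf (nat_lit 0) (nat_lit 2091039637) (nat_lit 152) (nat_lit 10852795380) (nat_lit 0) (nat_lit 810322556) (nat_lit 41) (nat_lit 5) (nat_lit 43) (nat_lit 4) (nat_lit 41) (nat_lit 4) (nat_lit 430) (nat_lit 386) (nat_lit 384))))) (XT.nd (nat_lit 234) (nat_lit 532) (nat_lit 0) (XT.nd (nat_lit 78) (nat_lit 304) (nat_lit 0) (XT.lf (nat_lit 0) (nat_lit 6779286007) (nat_lit 152) (nat_lit 4713715622) (nat_lit 152) (nat_lit 2862878758) (nat_lit 39) (nat_lit 4) (nat_lit 41) (nat_lit 5) (nat_lit 41) (nat_lit 4) (nat_lit 431) (nat_lit 386) (nat_lit 383)) (XT.nd (nat_lit 78) (nat_lit 152) (nat_lit 0) (XT.lf (nat_lit 0) (nat_lit 6376495908) (nat_lit 152) (nat_lit 4515675954) (nat_lit 0) (nat_lit 4111043002)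 (nat_lit 37) (nat_lit 5) (nat_lit 39) (nat_lit 4) (nat_lit 37) (nat_lit 4) (nat_lit 432) (nat_lit 386) (nat_lit 382)) (XT.lf (nat_lit 0) (nat_lit 510670248) (nat_lit 152) (nat_lit 1684089204) (nat_lit 76) (nat_lit 13506149663) (nat_lit 35) (nat_lit 5) (nat_lit 37) (nat_lit 5) (nat_lit 36) (nat_lit 4) (nat_lit 433) (nat_lit 386) (nat_lit 381)))) (XT.nd (nat_lit 156) (nat_lit 228) (nat_lit 0) (XT.nd (nat_lit 78) (nat_lit 152) (nat_lit 0) (XT.lf (nat_lit 0) (nat_lit 765783709) (nat_lit 76) (nat_lit 9345644139) (nat_lit 76) (nat_lit 6334223877) (nat_lit 33) (nat_lit 4) (nat_lit 34) (nat_lit 5) (nat_lit 34) (nat_lit 4) (nat_lit 434) (nat_lit 386) (nat_lit 380)) (XT.lf (nat_lit 0) (nat_lit 2957853353) (nat_lit 76) (nat_lit 139399772) (nat_lit 152) (nat_lit 14151711031) (nat_lit 31) (nat_lit 5) (nat_lit 32) (nat_lit 5) (nat_lit 33) (nat_lit 4) (nat_lit 435) (nat_lit 386) (nat_lit 379))) (XT.nd (nat_lit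 78) (nat_lit 152) (nat_lit 0) (XT.lf (nat_lit 0) (nat_lit 4584909484) (nat_lit 76) (nat_lit 8544139119) (nat_lit 76) (nat_lit 4978943270) (nat_lit 30) (nat_lit 4) (nat_lit 31) (nat_lit 5) (nat_lit 31) (nat_lit 4) (nat_lit 436) (nat_lit 386) (nat_lit 378)) (XT.lf (nat_lit 0) (nat_lit 4706776755) (nat_lit 152) (nat_lit 13312522954) (nat_lit 0) (nat_lit 1015778033) (nat_lit 28) (nat_lit 5) (nat_lit 30) (nat_lit 4) (nat_lit 28) (nat_lit 4) (nat_lit 437) (nat_lit 386) (nat_lit 377))))))))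
noncomputable def xc24 : XT := (XT.nd (nat_lit 2028) (nat_lit 380) (nat_lit 0) (XT.nd (nat_lit 1014) (nat_lit 532) (nat_lit 0) (XT.nd (nat_lit 468) (nat_lit 608) (nat_lit 0) (XT.nd (nat_lit 234) (nat_lit 228) (nat_lit 0) (XT.nd (nat_lit 78) (nat_lit 228) (nat_lit 0) (XT.lf (nat_lit 0) (nat_lit 6133163388) (nat_lit 76) (nat_lit 8930134249) (nat_lit 76) (nat_lit 4965455800) (nat_lit 27) (nat_lit 4) (nat_lit 28) (nat_lit 5) (nat_lit 28) (nat_lit 4) (nat_lit 438) (nat_lit 386) (nat_lit 376)) (XT.nd (nat_lit 78) (nat_lit 76) (nat_lit 0) (XT.lf (nat_lit 0) (nat_lit 4924196783) (nat_lit 152) (nat_lit 15269632026) (nat_lit 0) (nat_lit 906972400) (nat_lit 25) (nat_lit 5) (nat_lit 27) (nat_lit 4) (nat_lit 25) (nat_lit 4) (nat_lit 439) (nat_lit 386) (nat_lit 375)) (XT.lf (nat_lit 0) (nat_lit 4536985179) (nat_lit 76) (nat_lit 10977057311) (nat_lit 76) (nat_lit 6736369829) (nat_lit 24) (nat_lit 4) (nat_lit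 25) (nat_lit 5) (nat_lit 25) (nat_lit 4) (nat_lit 440) (nat_lit 386) (nat_lit 374)))) (XT.nd (nat_lit 78) (nat_lit 76) (nat_lit 0) (XT.lf (nat_lit 0) (nat_lit 2273813523) (nat_lit 76) (nat_lit 1004923687) (nat_lit 152) (nat_lit 20214053156) (nat_lit 22) (nat_lit 5) (nat_lit 23) (nat_lit 5) (nat_lit 24) (nat_lit 4) (nat_lit 441) (nat_lit 386) (nat_lit 373)) (XT.nd (nat_lit 78) (nat_lit 76) (nat_lit 0) (XT.lf (nat_lit 0) (nat_lit 13964240097) (nat_lit 152) (nat_lit 1313580365) (nat_lit 0) (nat_lit 9545972147) (nat_lit 22) (nat_lit 5) (nat_lit 24) (nat_lit 4) (nat_lit 22) (nat_lit 4) (nat_lit 442) (nat_lit 386) (nat_lit 372)) (XT.lf (nat_lit 0) (nat_lit 20149318848) (nat_lit 76) (nat_lit 5349730042) (nat_lit 76) (nat_lit 762517129) (nat_lit 21) (nat_lit 4) (nat_lit 22) (nat_lit 5) (nat_lit 22) (nat_lit 4) (nat_lit 443) (nat_lit 386) (nat_lit 371))))) (XT.nd (nat_lit 234) (nat_lit 304) (nat_lit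 0) (XT.nd (nat_lit 78) (nat_lit 152) (nat_lit 0) (XT.lf (nat_lit 0) (nat_lit 9837487121) (nat_lit 152) (nat_lit 12648246706) (nat_lit 0) (nat_lit 5319731468) (nat_lit 19) (nat_lit 5) (nat_lit 21) (nat_lit 4) (nat_lit 19) (nat_lit 4) (nat_lit 444) (nat_lit 386) (nat_lit 370)) (XT.nd (nat_lit 78) (nat_lit 76) (nat_lit 0) (XT.lf (nat_lit 0) (nat_lit 8415718605) (nat_lit 76) (nat_lit 12855804340) (nat_lit 76) (nat_lit 8200102900) (nat_lit 18) (nat_lit 4) (nat_lit 19) (nat_lit 5) (nat_lit 19) (nat_lit 4) (nat_lit 445) (nat_lit 386) (nat_lit 369)) (XT.lf (nat_lit 0) (nat_lit 2189677601) (nat_lit 152) (nat_lit 294589938) (nat_lit 76) (nat_lit 28789204876) (nat_lit 17) (nat_lit 5) (nat_lit 19) (nat_lit 5) (nat_lit 18) (nat_lit 4) (nat_lit 446) (nat_lit 386) (nat_lit 368)))) (XT.nd (nat_lit 156) (nat_lit 152) (nat_lit 0) (XT.nd (nat_lit 78) (nat_lit 76) (nat_lit 0) (XT.lf (nat_lit 0) (nat_lit 13326955589)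 (nat_lit 152) (nat_lit 11216944553) (nat_lit 0) (nat_lit 8658674352) (nat_lit 16) (nat_lit 5) (nat_lit 18) (nat_lit 4) (nat_lit 16) (nat_lit 4) (nat_lit 447) (nat_lit 386) (nat_lit 367)) (XT.lf (nat_lit 0) (nat_lit 10517335258) (nat_lit 76) (nat_lit 14772265759) (nat_lit 76) (nat_lit 9999693271) (nat_lit 15) (nat_lit 4) (nat_lit 16) (nat_lit 5) (nat_lit 16) (nat_lit 4) (nat_lit 448) (nat_lit 386) (nat_lit 366))) (XT.nd (nat_lit 78) (nat_lit 76) (nat_lit 0) (XT.lf (nat_lit 0) (nat_lit 574598422) (nat_lit 152) (nat_lit 3691211695) (nat_lit 76) (nat_lit 33280148272) (nat_lit 14) (nat_lit 5) (nat_lit 16) (nat_lit 5) (nat_lit 15) (nat_lit 4) (nat_lit 449) (nat_lit 386) (nat_lit 365)) (XT.lf (nat_lit 0) (nat_lit 11811425301) (nat_lit 152) (nat_lit 21066199021) (nat_lit 0) (nat_lit 7088995398) (nat_lit 13) (nat_lit 5) (nat_lit 15) (nat_lit 4) (nat_lit 13) (nat_lit 4) (nat_lit 450) (nat_lit 386) (nat_lit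 364)))))) (XT.nd (nat_lit 468) (nat_lit 228) (nat_lit 0) (XT.nd (nat_lit 234) (nat_lit 152) (nat_lit 0) (XT.nd (nat_lit 78) (nat_lit 76) (nat_lit 0) (XT.lf (nat_lit 0) (nat_lit 307992094) (nat_lit 76) (nat_lit 23539602990) (nat_lit 76) (nat_lit 18738325699) (nat_lit 12) (nat_lit 4) (nat_lit 13) (nat_lit 5) (nat_lit 13) (nat_lit 4) (nat_lit 451) (nat_lit 386) (nat_lit 363)) (XT.nd (nat_lit 78) (nat_lit 76) (nat_lit 0) (XT.lf (nat_lit 0) (nat_lit 23682989613) (nat_lit 76) (nat_lit 13299634174) (nat_lit 76) (nat_lit 8425350042) (nat_lit 12) (nat_lit 4) (nat_lit 13) (nat_lit 5) (nat_lit 13) (nat_lit 4) (nat_lit 452) (nat_lit 386) (nat_lit 362)) (XT.lf (nat_lit 0) (nat_lit 2408446100) (nat_lit 152) (nat_lit 4568552) (nat_lit 76) (nat_lit 46051534060) (nat_lit 11) (nat_lit 5) (nat_lit 13) (nat_lit 5) (nat_lit 12) (nat_lit 4) (nat_lit 453) (nat_lit 386) (nat_lit 361)))) (XT.nd (nat_lit 78) (nat_lit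 76) (nat_lit 0) (XT.lf (nat_lit 0) (nat_lit 14137063391) (nat_lit 152) (nat_lit 28234623119) (nat_lit 0) (nat_lit 9370897052) (nat_lit 10) (nat_lit 5) (nat_lit 12) (nat_lit 4) (nat_lit 10) (nat_lit 4) (nat_lit 454) (nat_lit 386) (nat_lit 360)) (XT.nd (nat_lit 78) (nat_lit 76) (nat_lit 0) (XT.lf (nat_lit 0) (nat_lit 26649346866) (nat_lit 152) (nat_lit 6813265043) (nat_lit 0) (nat_lit 21827985113) (nat_lit 10) (nat_lit 5) (nat_lit 12) (nat_lit 4) (nat_lit 10) (nat_lit 4) (nat_lit 455) (nat_lit 386) (nat_lit 359)) (XT.lf (nat_lit 0) (nat_lit 16487109189) (nat_lit 76) (nat_lit 23751995364) (nat_lit 76) (nat_lit 18879526747) (nat_lit 9) (nat_lit 4) (nat_lit 10) (nat_lit 5) (nat_lit 10) (nat_lit 4) (nat_lit 456) (nat_lit 386) (nat_lit 358))))) (XT.nd (nat_lit 234) (nat_lit 76) (nat_lit 0) (XT.nd (nat_lit 78) (nat_lit 152) (nat_lit 0) (XT.lf (nat_lit 0) (nat_lit 41548178632) (nat_lit 76) (nat_lit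 13313617894) (nat_lit 76) (nat_lit 8393828107) (nat_lit 9) (nat_lit 4) (nat_lit 10) (nat_lit 5) (nat_lit 10) (nat_lit 4) (nat_lit 457) (nat_lit 386) (nat_lit 357)) (XT.nd (nat_lit 78) (nat_lit 0) (nat_lit 0) (XT.lf (nat_lit 0) (nat_lit 535599551) (nat_lit 76) (nat_lit 2146939588) (nat_lit 152) (nat_lit 65046473263) (nat_lit 7) (nat_lit 5) (nat_lit 8) (nat_lit 5) (nat_lit 9) (nat_lit 4) (nat_lit 458) (nat_lit 386) (nat_lit 356)) (XT.lf (nat_lit 0) (nat_lit 14735956758) (nat_lit 152) (nat_lit 47828111630) (nat_lit 0) (nat_lit 9970074889) (nat_lit 7) (nat_lit 5) (nat_lit 9) (nat_lit 4) (nat_lit 7) (nat_lit 4) (nat_lit 459) (nat_lit 386) (nat_lit 355)))) (XT.nd (nat_lit 156) (nat_lit 76) (nat_lit 0) (XT.nd (nat_lit 78) (nat_lit 0) (nat_lit 0) (XT.lf (nat_lit 0) (nat_lit 27643542535) (nat_lit 152) (nat_lit 27243765962) (nat_lit 0) (nat_lit 22841884409) (nat_lit 7) (nat_lit 5) (nat_lit 9) (nat_lit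 4) (nat_lit 7) (nat_lit 4) (nat_lit 460) (nat_lit 386) (nat_lit 354)) (XT.lf (nat_lit 0) (nat_lit 41448266126) (nat_lit 152) (nat_lit 5284874795) (nat_lit 0) (nat_lit 36613481835) (nat_lit 7) (nat_lit 5) (nat_lit 9) (nat_lit 4) (nat_lit 7) (nat_lit 4) (nat_lit 461) (nat_lit 386) (nat_lit 353))) (XT.nd (nat_lit 78) (nat_lit 0) (nat_lit 0) (XT.lf (nat_lit 0) (nat_lit 18779758176) (nat_lit 76) (nat_lit 37745379779) (nat_lit 76) (nat_lit 32879923113) (nat_lit 6) (nat_lit 4) (nat_lit 7) (nat_lit 5) (nat_lit 7) (nat_lit 4) (nat_lit 462) (nat_lit 386) (nat_lit 352)) (XT.lf (nat_lit 0) (nat_lit 44717197237) (nat_lit 76) (nat_lit 28063114504) (nat_lit 76) (nat_lit 23169257491) (nat_lit 6) (nat_lit 4) (nat_lit 7) (nat_lit 5) (nat_lit 7) (nat_lit 4) (nat_lit 463) (nat_lit 386) (nat_lit 351))))))) (XT.nd (nat_lit 1014) (nat_lit 152) (nat_lit 0) (XT.nd (nat_lit 468) (nat_lit 76) (nat_lit 0) (XT.nd (nat_lit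 234) (nat_lit 0) (nat_lit 0) (XT.nd (nat_lit 78) (nat_lit 152) (nat_lit 0) (XT.lf (nat_lit 0) (nat_lit 72506403902) (nat_lit 76) (nat_lit 17718470623) (nat_lit 76) (nat_lit 12798316992) (nat_lit 6) (nat_lit 4) (nat_lit 7) (nat_lit 5) (nat_lit 7) (nat_lit 4) (nat_lit 464) (nat_lit 386) (nat_lit 350)) (XT.nd (nat_lit 78) (nat_lit 152) (nat_lit 0) (XT.lf (nat_lit 0) (nat_lit 102312054952) (nat_lit 76) (nat_lit 6650146541) (nat_lit 76) (nat_lit 1705644190) (nat_lit 6) (nat_lit 4) (nat_lit 7) (nat_lit 5) (nat_lit 7) (nat_lit 4) (nat_lit 465) (nat_lit 386) (nat_lit 349)) (XT.lf (nat_lit 0) (nat_lit 10182313736) (nat_lit 152) (nat_lit 103270111392) (nat_lit 0) (nat_lit 5451792344) (nat_lit 4) (nat_lit 5) (nat_lit 6) (nat_lit 4) (nat_lit 4) (nat_lit 4) (nat_lit 466) (nat_lit 386) (nat_lit 348)))) (XT.nd (nat_lit 78) (nat_lit 0) (nat_lit 0) (XT.lf (nat_lit 0) (nat_lit 23128472336) (nat_lit 152) (nat_lit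 86283214310) (nat_lit 0) (nat_lit 18378069894) (nat_lit 4) (nat_lit 5) (nat_lit 6) (nat_lit 4) (nat_lit 4) (nat_lit 4) (nat_lit 467) (nat_lit 386) (nat_lit 347)) (XT.nd (nat_lit 78) (nat_lit 0) (nat_lit 0) (XT.lf (nat_lit 0) (nat_lit 37023333252) (nat_lit 152) (nat_lit 68112634125) (nat_lit 0) (nat_lit 32254522430) (nat_lit 4) (nat_lit 5) (nat_lit 6) (nat_lit 4) (nat_lit 4) (nat_lit 4) (nat_lit 468) (nat_lit 386) (nat_lit 346)) (XT.lf (nat_lit 0) (nat_lit 51949236400) (nat_lit 152) (nat_lit 48650693326) (nat_lit 0) (nat_lit 47163380781) (nat_lit 4) (nat_lit 5) (nat_lit 6) (nat_lit 4) (nat_lit 4) (nat_lit 4) (nat_lit 469) (nat_lit 386) (nat_lit 345))))) (XT.nd (nat_lit 234) (nat_lit 0) (nat_lit 0) (XT.nd (nat_lit 78) (nat_lit 76) (nat_lit 0) (XT.lf (nat_lit 0) (nat_lit 67994631575) (nat_lit 152) (nat_lit 27782061893) (nat_lit 0) (nat_lit 63192993738) (nat_lit 4) (nat_lit 5) (nat_lit 6) (nat_lit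 4) (nat_lit 4) (nat_lit 4) (nat_lit 470) (nat_lit 386) (nat_lit 344)) (XT.nd (nat_lit 78) (nat_lit 76) (nat_lit 0) (XT.lf (nat_lit 0) (nat_lit 85254602603) (nat_lit 152) (nat_lit 5383073863) (nat_lit 0) (nat_lit 80438351600) (nat_lit 4) (nat_lit 5) (nat_lit 6) (nat_lit 4) (nat_lit 4) (nat_lit 4) (nat_lit 471) (nat_lit 386) (nat_lit 343)) (XT.lf (nat_lit 0) (nat_lit 19296617788) (nat_lit 76) (nat_lit 84836087286) (nat_lit 76) (nat_lit 80006305574) (nat_lit 3) (nat_lit 4) (nat_lit 4) (nat_lit 5) (nat_lit 4) (nat_lit 4) (nat_lit 472) (nat_lit 386) (nat_lit 342)))) (XT.nd (nat_lit 156) (nat_lit 0) (nat_lit 0) (XT.nd (nat_lit 78) (nat_lit 0) (nat_lit 0) (XT.lf (nat_lit 0) (nat_lit 46019683596) (nat_lit 76) (nat_lit 78534013683) (nat_lit 76) (nat_lit 73691703537) (nat_lit 3) (nat_lit 4) (nat_lit 4) (nat_lit 5) (nat_lit 4) (nat_lit 4) (nat_lit 473) (nat_lit 386) (nat_lit 341)) (XT.lf (nat_lit 0)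 (nat_lit 74766493739) (nat_lit 76) (nat_lit 71785274998) (nat_lit 76) (nat_lit 66931364450) (nat_lit 3) (nat_lit 4) (nat_lit 4) (nat_lit 5) (nat_lit 4) (nat_lit 4) (nat_lit 474) (nat_lit 386) (nat_lit 340))) (XT.nd (nat_lit 78) (nat_lit 0) (nat_lit 0) (XT.lf (nat_lit 0) (nat_lit 105707399682) (nat_lit 76) (nat_lit 64549878704) (nat_lit 76) (nat_lit 59685227043) (nat_lit 3) (nat_lit 4) (nat_lit 4) (nat_lit 5) (nat_lit 4) (nat_lit 4) (nat_lit 475) (nat_lit 386) (nat_lit 339)) (XT.lf (nat_lit 0) (nat_lit 139025754943) (nat_lit 76) (nat_lit 56784948379) (nat_lit 76) (nat_lit 51910351244) (nat_lit 3) (nat_lit 4) (nat_lit 4) (nat_lit 5) (nat_lit 4) (nat_lit 4) (nat_lit 476) (nat_lit 386) (nat_lit 338)))))) (XT.nd (nat_lit 546) (nat_lit 0) (nat_lit 0) (XT.nd (nat_lit 234) (nat_lit 152) (nat_lit 0) (XT.nd (nat_lit 78) (nat_lit 0) (nat_lit 0) (XT.lf (nat_lit 0) (nat_lit 174919001627) (nat_lit 76) (nat_lit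 48444469622) (nat_lit 76) (nat_lit 43560663713) (nat_lit 3) (nat_lit 4) (nat_lit 4) (nat_lit 5) (nat_lit 4) (nat_lit 4) (nat_lit 477) (nat_lit 386) (nat_lit 337)) (XT.nd (nat_lit 78) (nat_lit 0) (nat_lit 0) (XT.lf (nat_lit 0) (nat_lit 213599840454) (nat_lit 76) (nat_lit 39479017372) (nat_lit 76) (nat_lit 34586684822) (nat_lit 3) (nat_lit 4) (nat_lit 4) (nat_lit 5) (nat_lit 4) (nat_lit 4) (nat_lit 478) (nat_lit 386) (nat_lit 336)) (XT.lf (nat_lit 0) (nat_lit 255297491212) (nat_lit 76) (nat_lit 29835463024) (nat_lit 76) (nat_lit 24935235435) (nat_lit 3) (nat_lit 4) (nat_lit 4) (nat_lit 5) (nat_lit 4) (nat_lit 4) (nat_lit 479) (nat_lit 386) (nat_lit 335)))) (XT.nd (nat_lit 156) (nat_lit 152) (nat_lit 0) (XT.nd (nat_lit 78) (nat_lit 0) (nat_lit 0) (XT.lf (nat_lit 0) (nat_lit 300259051088) (nat_lit 76) (nat_lit 19456659589) (nat_lit 76) (nat_lit 14549121779) (nat_lit 3) (nat_lit 4) (nat_lit 4)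 (nat_lit 5) (nat_lit 4) (nat_lit 4) (nat_lit 480) (nat_lit 386) (nat_lit 334)) (XT.lf (nat_lit 0) (nat_lit 348750958958) (nat_lit 76) (nat_lit 8281103048) (nat_lit 76) (nat_lit 3366796515) (nat_lit 3) (nat_lit 4) (nat_lit 4) (nat_lit 5) (nat_lit 4) (nat_lit 4) (nat_lit 481) (nat_lit 386) (nat_lit 333))) (XT.nd (nat_lit 78) (nat_lit 0) (nat_lit 0) (XT.lf (nat_lit 0) (nat_lit 8662779290) (nat_lit 152) (nat_lit 375965937825) (nat_lit 0) (nat_lit 3976518462) (nat_lit 1) (nat_lit 5) (nat_lit 3) (nat_lit 4) (nat_lit 1) (nat_lit 4) (nat_lit 482) (nat_lit 386) (nat_lit 332)) (XT.lf (nat_lit 0) (nat_lit 21854014767) (nat_lit 152) (nat_lit 380033259155) (nat_lit 0) (nat_lit 17162227187) (nat_lit 1) (nat_lit 5) (nat_lit 3) (nat_lit 4) (nat_lit 1) (nat_lit 4) (nat_lit 483) (nat_lit 386) (nat_lit 331))))) (XT.nd (nat_lit 234) (nat_lit 0) (nat_lit 0) (XT.nd (nat_lit 78) (nat_lit 0) (nat_lit 0) (XT.lf (nat_lit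 0) (nat_lit 36072598314) (nat_lit 152) (nat_lit 384482414167) (nat_lit 0) (nat_lit 31375693372) (nat_lit 1) (nat_lit 5) (nat_lit 3) (nat_lit 4) (nat_lit 1) (nat_lit 4) (nat_lit 484) (nat_lit 386) (nat_lit 330)) (XT.nd (nat_lit 78) (nat_lit 0) (nat_lit 0) (XT.lf (nat_lit 0) (nat_lit 51402788204) (nat_lit 152) (nat_lit 389339768226) (nat_lit 0) (nat_lit 46701144964) (nat_lit 1) (nat_lit 5) (nat_lit 3) (nat_lit 4) (nat_lit 1) (nat_lit 4) (nat_lit 485) (nat_lit 386) (nat_lit 329)) (XT.lf (nat_lit 0) (nat_lit 67935430008) (nat_lit 152) (nat_lit 394634105651) (nat_lit 0) (nat_lit 63229399454) (nat_lit 1) (nat_lit 5) (nat_lit 3) (nat_lit 4) (nat_lit 1) (nat_lit 4) (nat_lit 486) (nat_lit 386) (nat_lit 328)))) (XT.nd (nat_lit 156) (nat_lit 0) (nat_lit 0) (XT.nd (nat_lit 78) (nat_lit 0) (nat_lit 0) (XT.lf (nat_lit 0) (nat_lit 85768494936) (nat_lit 152) (nat_lit 400396800294) (nat_lit 0) (nat_lit 81058402054)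 (nat_lit 1) (nat_lit 5) (nat_lit 3) (nat_lit 4) (nat_lit 1) (nat_lit 4) (nat_lit 487) (nat_lit 386) (nat_lit 327)) (XT.lf (nat_lit 0) (nat_lit 105007660409) (nat_lit 152) (nat_lit 406662001457) (nat_lit 0) (nat_lit 100293806113) (nat_lit 1) (nat_lit 5) (nat_lit 3) (nat_lit 4) (nat_lit 1) (nat_lit 4) (nat_lit 488) (nat_lit 386) (nat_lit 326))) (XT.nd (nat_lit 78) (nat_lit 0) (nat_lit 0) (XT.lf (nat_lit 0) (nat_lit 125766936297) (nat_lit 152) (nat_lit 413466836256) (nat_lit 0) (nat_lit 121049599211) (nat_lit 1) (nat_lit 5) (nat_lit 3) (nat_lit 4) (nat_lit 1) (nat_lit 4) (nat_lit 489) (nat_lit 386) (nat_lit 325)) (XT.lf (nat_lit 0) (nat_lit 148169340532) (nat_lit 152) (nat_lit 420851629641) (nat_lit 0) (nat_lit 143448778639) (nat_lit 1) (nat_lit 5) (nat_lit 3) (nat_lit 4) (nat_lit 1) (nat_lit 4) (nat_lit 490) (nat_lit 386) (nat_lit 324))))))))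
noncomputable def xc25 : XT := (XT.nd (nat_lit 58734) (nat_lit 0) (nat_lit 228) (XT.nd (nat_lit 57720) (nat_lit 0) (nat_lit 1596) (XT.nd (nat_lit 468) (nat_lit 0) (nat_lit 0) (XT.nd (nat_lit 234) (nat_lit 0) (nat_lit 0) (XT.nd (nat_lit 78) (nat_lit 0) (nat_lit 0) (XT.lf (nat_lit 0) (nat_lit 172347628101) (nat_lit 152) (nat_lit 428860143348) (nat_lit 0) (nat_lit 167624080276) (nat_lit 1) (nat_lit 5) (nat_lit 3) (nat_lit 4) (nat_lit 1) (nat_lit 4) (nat_lit 491) (nat_lit 386) (nat_lit 323)) (XT.nd (nat_lit 78) (nat_lit 0) (nat_lit 0) (XT.lf (nat_lit 0) (nat_lit 198445077746) (nat_lit 152) (nat_lit 437539835237) (nat_lit 0) (nat_lit 193718765169) (nat_lit 1) (nat_lit 5) (nat_lit 3) (nat_lit 4) (nat_lit 1) (nat_lit 4) (nat_lit 492) (nat_lit 386) (nat_lit 322)) (XT.lf (nat_lit 0) (nat_lit 226616341019) (nat_lit 152) (nat_lit 446942140519) (nat_lit 0) (nat_lit 221887468487) (nat_lit 1) (nat_lit 5)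 (nat_lit 3) (nat_lit 4) (nat_lit 1) (nat_lit 4) (nat_lit 493) (nat_lit 386) (nat_lit 321)))) (XT.nd (nat_lit 78) (nat_lit 0) (nat_lit 0) (XT.lf (nat_lit 0) (nat_lit 257028358741) (nat_lit 152) (nat_lit 457122776559) (nat_lit 0) (nat_lit 252297115880) (nat_lit 1) (nat_lit 5) (nat_lit 3) (nat_lit 4) (nat_lit 1) (nat_lit 4) (nat_lit 494) (nat_lit 386) (nat_lit 320)) (XT.nd (nat_lit 78) (nat_lit 0) (nat_lit 0) (XT.lf (nat_lit 0) (nat_lit 289861350275) (nat_lit 152) (nat_lit 468142073052) (nat_lit 0) (nat_lit 285127912665) (nat_lit 1) (nat_lit 5) (nat_lit 3) (nat_lit 4) (nat_lit 1) (nat_lit 4) (nat_lit 495) (nat_lit 386) (nat_lit 319)) (XT.lf (nat_lit 0) (nat_lit 325309881498) (nat_lit 152) (nat_lit 480065329532) (nat_lit 0) (nat_lit 320574411713) (nat_lit 1) (nat_lit 5) (nat_lit 3) (nat_lit 4) (nat_lit 1) (nat_lit 4) (nat_lit 496) (nat_lit 386) (nat_lit 318))))) (XT.nd (nat_lit 56940) (nat_lit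 0) (nat_lit 3344) (XT.nd (nat_lit 78) (nat_lit 0) (nat_lit 0) (XT.lf (nat_lit 0) (nat_lit 363584017780) (nat_lit 152) (nat_lit 492963202335) (nat_lit 0) (nat_lit 358846666351) (nat_lit 1) (nat_lit 5) (nat_lit 3) (nat_lit 4) (nat_lit 1) (nat_lit 4) (nat_lit 497) (nat_lit 386) (nat_lit 317)) (XT.nd (nat_lit 78) (nat_lit 0) (nat_lit 0) (XT.lf (nat_lit 0) (nat_lit 404910568816) (nat_lit 152) (nat_lit 506912123299) (nat_lit 0) (nat_lit 400171475125) (nat_lit 1) (nat_lit 5) (nat_lit 3) (nat_lit 4) (nat_lit 1) (nat_lit 4) (nat_lit 498) (nat_lit 386) (nat_lit 316)) (XT.lf (nat_lit 0) (nat_lit 449534432688) (nat_lit 152) (nat_lit 521994752696) (nat_lit 0) (nat_lit 444793725791) (nat_lit 1) (nat_lit 5) (nat_lit 3) (nat_lit 4) (nat_lit 1) (nat_lit 4) (nat_lit 499) (nat_lit 386) (nat_lit 315)))) (XT.nd (nat_lit 156) (nat_lit 304) (nat_lit 0) (XT.nd (nat_lit 78) (nat_lit 304) (nat_lit 0) (XT.lf (nat_lit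 0) (nat_lit 2612943099) (nat_lit 228) (nat_lit 631300933) (nat_lit 0) (nat_lit 2612943099) (nat_lit 53) (nat_lit 5) (nat_lit 56) (nat_lit 4) (nat_lit 53) (nat_lit 4) (nat_lit 426) (nat_lit 387) (nat_lit 387)) (XT.lf (nat_lit 0) (nat_lit 1860907790) (nat_lit 152) (nat_lit 9250743092) (nat_lit 0) (nat_lit 1069106918) (nat_lit 49) (nat_lit 5) (nat_lit 51) (nat_lit 4) (nat_lit 49) (nat_lit 4) (nat_lit 427) (nat_lit 387) (nat_lit 386))) (XT.nd (nat_lit 78) (nat_lit 152) (nat_lit 0) (XT.lf (nat_lit 0) (nat_lit 7088490619) (nat_lit 152) (nat_lit 3557939857) (nat_lit 152) (nat_lit 2032990029) (nat_lit 47) (nat_lit 4) (nat_lit 49) (nat_lit 5) (nat_lit 49) (nat_lit 4) (nat_lit 428) (nat_lit 387) (nat_lit 385)) (XT.lf (nat_lit 0) (nat_lit 6642668280) (nat_lit 152) (nat_lit 2028782184) (nat_lit 0) (nat_lit 4543819277) (nat_lit 45) (nat_lit 5) (nat_lit 47) (nat_lit 4) (nat_lit 45) (nat_lit 4) (nat_lit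 429) (nat_lit 387) (nat_lit 384)))))) (XT.nd (nat_lit 468) (nat_lit 760) (nat_lit 0) (XT.nd (nat_lit 234) (nat_lit 380) (nat_lit 0) (XT.nd (nat_lit 78) (nat_lit 304) (nat_lit 0) (XT.lf (nat_lit 0) (nat_lit 1509025553) (nat_lit 76) (nat_lit 542925826) (nat_lit 152) (nat_lit 11740145104) (nat_lit 41) (nat_lit 5) (nat_lit 42) (nat_lit 5) (nat_lit 43) (nat_lit 4) (nat_lit 430) (nat_lit 387) (nat_lit 383)) (XT.nd (nat_lit 78) (nat_lit 152) (nat_lit 0) (XT.lf (nat_lit 0) (nat_lit 4891547509) (nat_lit 152) (nat_lit 6306011611) (nat_lit 152) (nat_lit 3209099327) (nat_lit 39) (nat_lit 4) (nat_lit 41) (nat_lit 5) (nat_lit 41) (nat_lit 4) (nat_lit 431) (nat_lit 387) (nat_lit 382)) (XT.lf (nat_lit 0) (nat_lit 5763666630) (nat_lit 152) (nat_lit 6955783916) (nat_lit 0) (nat_lit 2348716052) (nat_lit 37) (nat_lit 5) (nat_lit 39) (nat_lit 4) (nat_lit 37) (nat_lit 4) (nat_lit 432) (nat_lit 387) (nat_lit 381))))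 (XT.nd (nat_lit 78) (nat_lit 304) (nat_lit 0) (XT.lf (nat_lit 0) (nat_lit 11106823160) (nat_lit 76) (nat_lit 4258978953) (nat_lit 76) (nat_lit 413000313) (nat_lit 36) (nat_lit 4) (nat_lit 37) (nat_lit 5) (nat_lit 37) (nat_lit 4) (nat_lit 433) (nat_lit 387) (nat_lit 380)) (XT.nd (nat_lit 78) (nat_lit 152) (nat_lit 0) (XT.lf (nat_lit 0) (nat_lit 8900423782) (nat_lit 152) (nat_lit 2780995011) (nat_lit 0) (nat_lit 4857491689) (nat_lit 34) (nat_lit 5) (nat_lit 36) (nat_lit 4) (nat_lit 34) (nat_lit 4) (nat_lit 434) (nat_lit 387) (nat_lit 379)) (XT.lf (nat_lit 0) (nat_lit 1541786601) (nat_lit 152) (nat_lit 1234209645) (nat_lit 76) (nat_lit 14581905851) (nat_lit 32) (nat_lit 5) (nat_lit 34) (nat_lit 5) (nat_lit 33) (nat_lit 4) (nat_lit 435) (nat_lit 387) (nat_lit 378))))) (XT.nd (nat_lit 234) (nat_lit 380) (nat_lit 0) (XT.nd (nat_lit 78) (nat_lit 304) (nat_lit 0) (XT.lf (nat_lit 0) (nat_lit 11245846057)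 (nat_lit 152) (nat_lit 237582465) (nat_lit 0) (nat_lit 6749900697) (nat_lit 31) (nat_lit 5) (nat_lit 33) (nat_lit 4) (nat_lit 31) (nat_lit 4) (nat_lit 436) (nat_lit 387) (nat_lit 377)) (XT.nd (nat_lit 78) (nat_lit 76) (nat_lit 0) (XT.lf (nat_lit 0) (nat_lit 276009058) (nat_lit 76) (nat_lit 2191951005) (nat_lit 152) (nat_lit 16708762216) (nat_lit 28) (nat_lit 5) (nat_lit 29) (nat_lit 5) (nat_lit 30) (nat_lit 4) (nat_lit 437) (nat_lit 387) (nat_lit 376)) (XT.lf (nat_lit 0) (nat_lit 28830363) (nat_lit 76) (nat_lit 12483073188) (nat_lit 76) (nat_lit 7674133584) (nat_lit 27) (nat_lit 4) (nat_lit 28) (nat_lit 5) (nat_lit 28) (nat_lit 4) (nat_lit 438) (nat_lit 387) (nat_lit 375)))) (XT.nd (nat_lit 156) (nat_lit 228) (nat_lit 0) (XT.nd (nat_lit 78) (nat_lit 76) (nat_lit 0) (XT.lf (nat_lit 0) (nat_lit 2018638200) (nat_lit 152) (nat_lit 905367545) (nat_lit 76) (nat_lit 18350381509) (nat_lit 26) (nat_lit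 5) (nat_lit 28) (nat_lit 5) (nat_lit 27) (nat_lit 4) (nat_lit 439) (nat_lit 387) (nat_lit 374)) (XT.lf (nat_lit 0) (nat_lit 12304980180) (nat_lit 152) (nat_lit 2839537448) (nat_lit 0) (nat_lit 7294664325) (nat_lit 25) (nat_lit 5) (nat_lit 27) (nat_lit 4) (nat_lit 25) (nat_lit 4) (nat_lit 440) (nat_lit 387) (nat_lit 373))) (XT.nd (nat_lit 78) (nat_lit 152) (nat_lit 0) (XT.lf (nat_lit 0) (nat_lit 17958324404) (nat_lit 76) (nat_lit 5470022783) (nat_lit 76) (nat_lit 268123339) (nat_lit 24) (nat_lit 4) (nat_lit 25) (nat_lit 5) (nat_lit 25) (nat_lit 4) (nat_lit 441) (nat_lit 387) (nat_lit 372)) (XT.lf (nat_lit 0) (nat_lit 10100129283) (nat_lit 152) (nat_lit 9966856878) (nat_lit 0) (nat_lit 4976994372) (nat_lit 22) (nat_lit 5) (nat_lit 24) (nat_lit 4) (nat_lit 22) (nat_lit 4) (nat_lit 442) (nat_lit 387) (nat_lit 371))))))) (XT.nd (nat_lit 1014) (nat_lit 456) (nat_lit 0) (XT.nd (nat_lit 468) (nat_lit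 456) (nat_lit 0) (XT.nd (nat_lit 234) (nat_lit 228) (nat_lit 0) (XT.nd (nat_lit 78) (nat_lit 152) (nat_lit 0) (XT.lf (nat_lit 0) (nat_lit 10905079848) (nat_lit 76) (nat_lit 10435482337) (nat_lit 76) (nat_lit 5155916904) (nat_lit 21) (nat_lit 4) (nat_lit 22) (nat_lit 5) (nat_lit 22) (nat_lit 4) (nat_lit 443) (nat_lit 387) (nat_lit 370)) (XT.nd (nat_lit 78) (nat_lit 0) (nat_lit 0) (XT.lf (nat_lit 0) (nat_lit 5197295641) (nat_lit 152) (nat_lit 22834696089) (nat_lit 0) (nat_lit 31192298) (nat_lit 19) (nat_lit 5) (nat_lit 21) (nat_lit 4) (nat_lit 19) (nat_lit 4) (nat_lit 444) (nat_lit 387) (nat_lit 369)) (XT.lf (nat_lit 0) (nat_lit 16358633741) (nat_lit 152) (nat_lit 2319548093) (nat_lit 0) (nat_lit 11064802818) (nat_lit 19) (nat_lit 5) (nat_lit 21) (nat_lit 4) (nat_lit 19) (nat_lit 4) (nat_lit 445) (nat_lit 387) (nat_lit 368)))) (XT.nd (nat_lit 78) (nat_lit 152) (nat_lit 0) (XT.lf (nat_lit 0)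 (nat_lit 19936687597) (nat_lit 76) (nat_lit 8515316333) (nat_lit 76) (nat_lit 3103219132) (nat_lit 18) (nat_lit 4) (nat_lit 19) (nat_lit 5) (nat_lit 19) (nat_lit 4) (nat_lit 446) (nat_lit 387) (nat_lit 367)) (XT.nd (nat_lit 78) (nat_lit 0) (nat_lit 0) (XT.lf (nat_lit 0) (nat_lit 7720444272) (nat_lit 152) (nat_lit 23325179715) (nat_lit 0) (nat_lit 2461774735) (nat_lit 16) (nat_lit 5) (nat_lit 18) (nat_lit 4) (nat_lit 16) (nat_lit 4) (nat_lit 447) (nat_lit 387) (nat_lit 366)) (XT.lf (nat_lit 0) (nat_lit 19395609668) (nat_lit 152) (nat_lit 2172512612) (nat_lit 0) (nat_lit 14040374158) (nat_lit 16) (nat_lit 5) (nat_lit 18) (nat_lit 4) (nat_lit 16) (nat_lit 4) (nat_lit 448) (nat_lit 387) (nat_lit 365))))) (XT.nd (nat_lit 234) (nat_lit 228) (nat_lit 0) (XT.nd (nat_lit 78) (nat_lit 152) (nat_lit 0) (XT.lf (nat_lit 0) (nat_lit 20868451614) (nat_lit 76) (nat_lit 11224733265) (nat_lit 76) (nat_lit 5780084817)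 (nat_lit 15) (nat_lit 4) (nat_lit 16) (nat_lit 5) (nat_lit 16) (nat_lit 4) (nat_lit 449) (nat_lit 387) (nat_lit 364)) (XT.nd (nat_lit 78) (nat_lit 0) (nat_lit 0) (XT.lf (nat_lit 0) (nat_lit 5131937930) (nat_lit 76) (nat_lit 67757745) (nat_lit 152) (nat_lit 35120852981) (nat_lit 13) (nat_lit 5) (nat_lit 14) (nat_lit 5) (nat_lit 15) (nat_lit 4) (nat_lit 450) (nat_lit 387) (nat_lit 363)) (XT.lf (nat_lit 0) (nat_lit 17122407328) (nat_lit 152) (nat_lit 14037944635) (nat_lit 0) (nat_lit 11785173626) (nat_lit 13) (nat_lit 5) (nat_lit 15) (nat_lit 4) (nat_lit 13) (nat_lit 4) (nat_lit 451) (nat_lit 387) (nat_lit 362)))) (XT.nd (nat_lit 156) (nat_lit 152) (nat_lit 0) (XT.nd (nat_lit 78) (nat_lit 0) (nat_lit 0) (XT.lf (nat_lit 0) (nat_lit 8667501492) (nat_lit 76) (nat_lit 21260687437) (nat_lit 76) (nat_lit 15855854807) (nat_lit 12) (nat_lit 4) (nat_lit 13) (nat_lit 5) (nat_lit 13) (nat_lit 4) (nat_lit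 452) (nat_lit 387) (nat_lit 361)) (XT.lf (nat_lit 0) (nat_lit 33295101032) (nat_lit 76) (nat_lit 10509823618) (nat_lit 76) (nat_lit 5042399391) (nat_lit 12) (nat_lit 4) (nat_lit 13) (nat_lit 5) (nat_lit 13) (nat_lit 4) (nat_lit 453) (nat_lit 387) (nat_lit 360))) (XT.nd (nat_lit 78) (nat_lit 0) (nat_lit 0) (XT.lf (nat_lit 0) (nat_lit 6372374287) (nat_lit 152) (nat_lit 44670576559) (nat_lit 0) (nat_lit 1110108180) (nat_lit 10) (nat_lit 5) (nat_lit 12) (nat_lit 4) (nat_lit 10) (nat_lit 4) (nat_lit 454) (nat_lit 387) (nat_lit 359)) (XT.lf (nat_lit 0) (nat_lit 18797677740) (nat_lit 152) (nat_lit 23423441054) (nat_lit 0) (nat_lit 13484304770) (nat_lit 10) (nat_lit 5) (nat_lit 12) (nat_lit 4) (nat_lit 10) (nat_lit 4) (nat_lit 455) (nat_lit 387) (nat_lit 358)))))) (XT.nd (nat_lit 546) (nat_lit 228) (nat_lit 0) (XT.nd (nat_lit 234) (nat_lit 152) (nat_lit 0) (XT.nd (nat_lit 78) (nat_lit 76) (nat_lit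 0) (XT.lf (nat_lit 0) (nat_lit 32049488391) (nat_lit 152) (nat_lit 812074473) (nat_lit 0) (nat_lit 26688794250) (nat_lit 10) (nat_lit 5) (nat_lit 12) (nat_lit 4) (nat_lit 10) (nat_lit 4) (nat_lit 456) (nat_lit 387) (nat_lit 357)) (XT.nd (nat_lit 78) (nat_lit 0) (nat_lit 0) (XT.lf (nat_lit 0) (nat_lit 24067837573) (nat_lit 76) (nat_lit 22514264309) (nat_lit 76) (nat_lit 17109754269) (nat_lit 9) (nat_lit 4) (nat_lit 10) (nat_lit 5) (nat_lit 10) (nat_lit 4) (nat_lit 457) (nat_lit 387) (nat_lit 356)) (XT.lf (nat_lit 0) (nat_lit 50669958523) (nat_lit 76) (nat_lit 11473252988) (nat_lit 76) (nat_lit 6028172672) (nat_lit 9) (nat_lit 4) (nat_lit 10) (nat_lit 5) (nat_lit 10) (nat_lit 4) (nat_lit 458) (nat_lit 387) (nat_lit 355)))) (XT.nd (nat_lit 156) (nat_lit 0) (nat_lit 0) (XT.nd (nat_lit 78) (nat_lit 0) (nat_lit 0) (XT.lf (nat_lit 0) (nat_lit 5715325912) (nat_lit 152) (nat_lit 66797280467) (nat_lit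 0) (nat_lit 493758877) (nat_lit 7) (nat_lit 5) (nat_lit 9) (nat_lit 4) (nat_lit 7) (nat_lit 4) (nat_lit 459) (nat_lit 387) (nat_lit 354)) (XT.lf (nat_lit 0) (nat_lit 18557782339) (nat_lit 152) (nat_lit 46343801220) (nat_lit 0) (nat_lit 13303089139) (nat_lit 7) (nat_lit 5) (nat_lit 9) (nat_lit 4) (nat_lit 7) (nat_lit 4) (nat_lit 460) (nat_lit 387) (nat_lit 353))) (XT.nd (nat_lit 78) (nat_lit 0) (nat_lit 0) (XT.lf (nat_lit 0) (nat_lit 32302200976) (nat_lit 152) (nat_lit 24506082664) (nat_lit 0) (nat_lit 27016835402) (nat_lit 7) (nat_lit 5) (nat_lit 9) (nat_lit 4) (nat_lit 7) (nat_lit 4) (nat_lit 461) (nat_lit 387) (nat_lit 352)) (XT.lf (nat_lit 0) (nat_lit 47030030229) (nat_lit 152) (nat_lit 1154716098) (nat_lit 0) (nat_lit 41716264308) (nat_lit 7) (nat_lit 5) (nat_lit 9) (nat_lit 4) (nat_lit 7) (nat_lit 4) (nat_lit 462) (nat_lit 387) (nat_lit 351))))) (XT.nd (nat_lit 234) (nat_lit 152) (nat_lit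 0) (XT.nd (nat_lit 78) (nat_lit 0) (nat_lit 0) (XT.lf (nat_lit 0) (nat_lit 24637221910) (nat_lit 76) (nat_lit 38575980294) (nat_lit 76) (nat_lit 33235917755) (nat_lit 6) (nat_lit 4) (nat_lit 7) (nat_lit 5) (nat_lit 7) (nat_lit 4) (nat_lit 463) (nat_lit 387) (nat_lit 350)) (XT.nd (nat_lit 78) (nat_lit 0) (nat_lit 0) (XT.lf (nat_lit 0) (nat_lit 52327057349) (nat_lit 76) (nat_lit 28281284157) (nat_lit 76) (nat_lit 22916872899) (nat_lit 6) (nat_lit 4) (nat_lit 7) (nat_lit 5) (nat_lit 7) (nat_lit 4) (nat_lit 464) (nat_lit 387) (nat_lit 349)) (XT.lf (nat_lit 0) (nat_lit 82040698004) (nat_lit 76) (nat_lit 17259207988) (nat_lit 76) (nat_lit 11872251618) (nat_lit 6) (nat_lit 4) (nat_lit 7) (nat_lit 5) (nat_lit 7) (nat_lit 4) (nat_lit 465) (nat_lit 387) (nat_lit 348)))) (XT.nd (nat_lit 156) (nat_lit 0) (nat_lit 0) (XT.nd (nat_lit 78) (nat_lit 152) (nat_lit 0) (XT.lf (nat_lit 0) (nat_lit 113954224709)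 (nat_lit 76) (nat_lit 5444435779) (nat_lit 76) (nat_lit 36604306) (nat_lit 6) (nat_lit 4) (nat_lit 7) (nat_lit 5) (nat_lit 7) (nat_lit 4) (nat_lit 466) (nat_lit 387) (nat_lit 347)) (XT.lf (nat_lit 0) (nat_lit 12694047548) (nat_lit 152) (nat_lit 108112296070) (nat_lit 0) (nat_lit 7525323480) (nat_lit 4) (nat_lit 5) (nat_lit 6) (nat_lit 4) (nat_lit 4) (nat_lit 4) (nat_lit 467) (nat_lit 387) (nat_lit 346))) (XT.nd (nat_lit 78) (nat_lit 0) (nat_lit 0) (XT.lf (nat_lit 0) (nat_lit 26550184117) (nat_lit 152) (nat_lit 90019737905) (nat_lit 0) (nat_lit 21364415253) (nat_lit 4) (nat_lit 5) (nat_lit 6) (nat_lit 4) (nat_lit 4) (nat_lit 4) (nat_lit 468) (nat_lit 387) (nat_lit 345)) (XT.lf (nat_lit 0) (nat_lit 41440231388) (nat_lit 152) (nat_lit 70630039717) (nat_lit 0) (nat_lit 36238680305) (nat_lit 4) (nat_lit 5) (nat_lit 6) (nat_lit 4) (nat_lit 4) (nat_lit 4) (nat_lit 469) (nat_lit 387) (nat_lit 344))))))))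
noncomputable def xc26 : XT := (XT.nd (nat_lit 2028) (nat_lit 0) (nat_lit 0) (XT.nd (nat_lit 1014) (nat_lit 152) (nat_lit 0) (XT.nd (nat_lit 468) (nat_lit 0) (nat_lit 0) (XT.nd (nat_lit 234) (nat_lit 76) (nat_lit 0) (XT.nd (nat_lit 78) (nat_lit 0) (nat_lit 0) (XT.lf (nat_lit 0) (nat_lit 57452426678) (nat_lit 152) (nat_lit 49828299590) (nat_lit 0) (nat_lit 52236262429) (nat_lit 4) (nat_lit 5) (nat_lit 6) (nat_lit 4) (nat_lit 4) (nat_lit 4) (nat_lit 470) (nat_lit 387) (nat_lit 343)) (XT.nd (nat_lit 78) (nat_lit 0) (nat_lit 0) (XT.lf (nat_lit 0) (nat_lit 74681657070) (nat_lit 152) (nat_lit 27491247954) (nat_lit 0) (nat_lit 69451962113) (nat_lit 4) (nat_lit 5) (nat_lit 6) (nat_lit 4) (nat_lit 4) (nat_lit 4) (nat_lit 471) (nat_lit 387) (nat_lit 342)) (XT.lf (nat_lit 0) (nat_lit 93230021708) (nat_lit 152) (nat_lit 3486517095) (nat_lit 0) (nat_lit 87987798316) (nat_lit 4) (nat_lit 5) (nat_lit 6)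 (nat_lit 4) (nat_lit 4) (nat_lit 4) (nat_lit 472) (nat_lit 387) (nat_lit 341)))) (XT.nd (nat_lit 78) (nat_lit 0) (nat_lit 0) (XT.lf (nat_lit 0) (nat_lit 23066412495) (nat_lit 76) (nat_lit 90501155673) (nat_lit 76) (nat_lit 85247331880) (nat_lit 3) (nat_lit 4) (nat_lit 4) (nat_lit 5) (nat_lit 4) (nat_lit 4) (nat_lit 473) (nat_lit 387) (nat_lit 340)) (XT.nd (nat_lit 78) (nat_lit 0) (nat_lit 0) (XT.lf (nat_lit 0) (nat_lit 51762429844) (nat_lit 76) (nat_lit 83778013856) (nat_lit 76) (nat_lit 78513448950) (nat_lit 3) (nat_lit 4) (nat_lit 4) (nat_lit 5) (nat_lit 4) (nat_lit 4) (nat_lit 474) (nat_lit 387) (nat_lit 339)) (XT.lf (nat_lit 0) (nat_lit 82656305423) (nat_lit 76) (nat_lit 76566318367) (nat_lit 76) (nat_lit 71291807985) (nat_lit 3) (nat_lit 4) (nat_lit 4) (nat_lit 5) (nat_lit 4) (nat_lit 4) (nat_lit 475) (nat_lit 387) (nat_lit 338))))) (XT.nd (nat_lit 234) (nat_lit 0) (nat_lit 0) (XT.nd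 (nat_lit 78) (nat_lit 0) (nat_lit 0) (XT.lf (nat_lit 0) (nat_lit 115931114050) (nat_lit 76) (nat_lit 68823333231) (nat_lit 76) (nat_lit 63539614077) (nat_lit 3) (nat_lit 4) (nat_lit 4) (nat_lit 5) (nat_lit 4) (nat_lit 4) (nat_lit 476) (nat_lit 387) (nat_lit 337)) (XT.nd (nat_lit 78) (nat_lit 0) (nat_lit 0) (XT.lf (nat_lit 0) (nat_lit 151784039777) (nat_lit 76) (nat_lit 60503174093) (nat_lit 76) (nat_lit 55210928297) (nat_lit 3) (nat_lit 4) (nat_lit 4) (nat_lit 5) (nat_lit 4) (nat_lit 4) (nat_lit 477) (nat_lit 387) (nat_lit 336)) (XT.lf (nat_lit 0) (nat_lit 190427544385) (nat_lit 76) (nat_lit 51556536306) (nat_lit 76) (nat_lit 46256395471) (nat_lit 3) (nat_lit 4) (nat_lit 4) (nat_lit 5) (nat_lit 4) (nat_lit 4) (nat_lit 478) (nat_lit 387) (nat_lit 335)))) (XT.nd (nat_lit 156) (nat_lit 0) (nat_lit 0) (XT.nd (nat_lit 78) (nat_lit 0) (nat_lit 0) (XT.lf (nat_lit 0) (nat_lit 232090626420) (nat_lit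 76) (nat_lit 41930402756) (nat_lit 76) (nat_lit 36622951701) (nat_lit 3) (nat_lit 4) (nat_lit 4) (nat_lit 5) (nat_lit 4) (nat_lit 4) (nat_lit 479) (nat_lit 387) (nat_lit 334)) (XT.lf (nat_lit 0) (nat_lit 277020178221) (nat_lit 76) (nat_lit 31567729691) (nat_lit 76) (nat_lit 26253509912) (nat_lit 3) (nat_lit 4) (nat_lit 4) (nat_lit 5) (nat_lit 4) (nat_lit 4) (nat_lit 480) (nat_lit 387) (nat_lit 333))) (XT.nd (nat_lit 78) (nat_lit 0) (nat_lit 0) (XT.lf (nat_lit 0) (nat_lit 325482448983) (nat_lit 76) (nat_lit 20407108676) (nat_lit 76) (nat_lit 15086621561) (nat_lit 3) (nat_lit 4) (nat_lit 4) (nat_lit 5) (nat_lit 4) (nat_lit 4) (nat_lit 481) (nat_lit 387) (nat_lit 332)) (XT.lf (nat_lit 0) (nat_lit 377764622534) (nat_lit 76) (nat_lit 8382402698) (nat_lit 76) (nat_lit 3056112494) (nat_lit 3) (nat_lit 4) (nat_lit 4) (nat_lit 5) (nat_lit 4) (nat_lit 4) (nat_lit 482) (nat_lit 387) (nat_lit 331))))))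 (XT.nd (nat_lit 468) (nat_lit 0) (nat_lit 0) (XT.nd (nat_lit 234) (nat_lit 0) (nat_lit 0) (XT.nd (nat_lit 78) (nat_lit 0) (nat_lit 0) (XT.lf (nat_lit 0) (nat_lit 9901110358) (nat_lit 152) (nat_lit 404941934537) (nat_lit 0) (nat_lit 4823335659) (nat_lit 1) (nat_lit 5) (nat_lit 3) (nat_lit 4) (nat_lit 1) (nat_lit 4) (nat_lit 483) (nat_lit 387) (nat_lit 330)) (XT.nd (nat_lit 78) (nat_lit 0) (nat_lit 0) (XT.lf (nat_lit 0) (nat_lit 24107251434) (nat_lit 152) (nat_lit 409416217745) (nat_lit 0) (nat_lit 19024738436) (nat_lit 1) (nat_lit 5) (nat_lit 3) (nat_lit 4) (nat_lit 1) (nat_lit 4) (nat_lit 484) (nat_lit 387) (nat_lit 329)) (XT.lf (nat_lit 0) (nat_lit 39425920518) (nat_lit 152) (nat_lit 414296838650) (nat_lit 0) (nat_lit 34339020206) (nat_lit 1) (nat_lit 5) (nat_lit 3) (nat_lit 4) (nat_lit 1) (nat_lit 4) (nat_lit 485) (nat_lit 387) (nat_lit 328)))) (XT.nd (nat_lit 78) (nat_lit 0) (nat_lit 0)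 (XT.lf (nat_lit 0) (nat_lit 55947894908) (nat_lit 152) (nat_lit 419612719452) (nat_lit 0) (nat_lit 50856932269) (nat_lit 1) (nat_lit 5) (nat_lit 3) (nat_lit 4) (nat_lit 1) (nat_lit 4) (nat_lit 486) (nat_lit 387) (nat_lit 327)) (XT.nd (nat_lit 78) (nat_lit 0) (nat_lit 0) (XT.lf (nat_lit 0) (nat_lit 73771082601) (nat_lit 152) (nat_lit 425395361666) (nat_lit 0) (nat_lit 68676358547) (nat_lit 1) (nat_lit 5) (nat_lit 3) (nat_lit 4) (nat_lit 1) (nat_lit 4) (nat_lit 487) (nat_lit 387) (nat_lit 326)) (XT.lf (nat_lit 0) (nat_lit 93001102486) (nat_lit 152) (nat_lit 431679032802) (nat_lit 0) (nat_lit 87902895642) (nat_lit 1) (nat_lit 5) (nat_lit 3) (nat_lit 4) (nat_lit 1) (nat_lit 4) (nat_lit 488) (nat_lit 387) (nat_lit 325))))) (XT.nd (nat_lit 234) (nat_lit 0) (nat_lit 0) (XT.nd (nat_lit 78) (nat_lit 0) (nat_lit 0) (XT.lf (nat_lit 0) (nat_lit 113751910238) (nat_lit 152) (nat_lit 438500969429) (nat_lit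 0) (nat_lit 108650478587) (nat_lit 1) (nat_lit 5) (nat_lit 3) (nat_lit 4) (nat_lit 1) (nat_lit 4) (nat_lit 489) (nat_lit 387) (nat_lit 324)) (XT.nd (nat_lit 78) (nat_lit 0) (nat_lit 0) (XT.lf (nat_lit 0) (nat_lit 136146473605) (nat_lit 152) (nat_lit 445901597838) (nat_lit 0) (nat_lit 131042056022) (nat_lit 1) (nat_lit 5) (nat_lit 3) (nat_lit 4) (nat_lit 1) (nat_lit 4) (nat_lit 490) (nat_lit 387) (nat_lit 323)) (XT.lf (nat_lit 0) (nat_lit 160317501111) (nat_lit 152) (nat_lit 453924773606) (nat_lit 0) (nat_lit 155210318777) (nat_lit 1) (nat_lit 5) (nat_lit 3) (nat_lit 4) (nat_lit 1) (nat_lit 4) (nat_lit 491) (nat_lit 387) (nat_lit 322)))) (XT.nd (nat_lit 156) (nat_lit 0) (nat_lit 0) (XT.nd (nat_lit 78) (nat_lit 0) (nat_lit 0) (XT.lf (nat_lit 0) (nat_lit 186408228476) (nat_lit 152) (nat_lit 462618041477) (nat_lit 0) (nat_lit 181298486186) (nat_lit 1) (nat_lit 5) (nat_lit 3) (nat_lit 4) (nat_lit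 1) (nat_lit 4) (nat_lit 492) (nat_lit 387) (nat_lit 321)) (XT.lf (nat_lit 0) (nat_lit 214573267416) (nat_lit 152) (nat_lit 472032917112) (nat_lit 0) (nat_lit 209461154797) (nat_lit 1) (nat_lit 5) (nat_lit 3) (nat_lit 4) (nat_lit 1) (nat_lit 4) (nat_lit 493) (nat_lit 387) (nat_lit 320))) (XT.nd (nat_lit 78) (nat_lit 0) (nat_lit 0) (XT.lf (nat_lit 0) (nat_lit 244979521866) (nat_lit 152) (nat_lit 482225192368) (nat_lit 0) (nat_lit 239865214498) (nat_lit 1) (nat_lit 5) (nat_lit 3) (nat_lit 4) (nat_lit 1) (nat_lit 4) (nat_lit 494) (nat_lit 387) (nat_lit 319)) (XT.lf (nat_lit 0) (nat_lit 277807177038) (nat_lit 152) (nat_lit 493255265913) (nat_lit 0) (nat_lit 272690837495) (nat_lit 1) (nat_lit 5) (nat_lit 3) (nat_lit 4) (nat_lit 1) (nat_lit 4) (nat_lit 495) (nat_lit 387) (nat_lit 318))))))) (XT.nd (nat_lit 57564) (nat_lit 0) (nat_lit 1292) (XT.nd (nat_lit 57018) (nat_lit 0) (nat_lit 2736) (XT.nd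 (nat_lit 234) (nat_lit 0) (nat_lit 0) (XT.nd (nat_lit 78) (nat_lit 0) (nat_lit 0) (XT.lf (nat_lit 0) (nat_lit 313250767184) (nat_lit 152) (nat_lit 505188501146) (nat_lit 0) (nat_lit 308132545998) (nat_lit 1) (nat_lit 5) (nat_lit 3) (nat_lit 4) (nat_lit 1) (nat_lit 4) (nat_lit 496) (nat_lit 387) (nat_lit 317)) (XT.nd (nat_lit 78) (nat_lit 0) (nat_lit 0) (XT.lf (nat_lit 0) (nat_lit 351520328394) (nat_lit 152) (nat_lit 518095613533) (nat_lit 0) (nat_lit 346400364946) (nat_lit 1) (nat_lit 5) (nat_lit 3) (nat_lit 4) (nat_lit 1) (nat_lit 4) (nat_lit 497) (nat_lit 387) (nat_lit 316)) (XT.lf (nat_lit 0) (nat_lit 392842643254) (nat_lit 152) (nat_lit 532053089669) (nat_lit 0) (nat_lit 387721066599) (nat_lit 1) (nat_lit 5) (nat_lit 3) (nat_lit 4) (nat_lit 1) (nat_lit 4) (nat_lit 498) (nat_lit 387) (nat_lit 315)))) (XT.nd (nat_lit 56628) (nat_lit 0) (nat_lit 4180) (XT.lf (nat_lit 0) (nat_lit 437462584740)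 (nat_lit 152) (nat_lit 547143640521) (nat_lit 0) (nat_lit 432339514376) (nat_lit 1) (nat_lit 5) (nat_lit 3) (nat_lit 4) (nat_lit 1) (nat_lit 4) (nat_lit 499) (nat_lit 387) (nat_lit 314)) (XT.nd (nat_lit 78) (nat_lit 152) (nat_lit 0) (XT.lf (nat_lit 0) (nat_lit 463498420) (nat_lit 228) (nat_lit 4507044530) (nat_lit 0) (nat_lit 463498420) (nat_lit 58) (nat_lit 5) (nat_lit 61) (nat_lit 4) (nat_lit 58) (nat_lit 4) (nat_lit 424) (nat_lit 388) (nat_lit 388)) (XT.lf (nat_lit 0) (nat_lit 5943265539) (nat_lit 152) (nat_lit 3140259666) (nat_lit 152) (nat_lit 2197462368) (nat_lit 56) (nat_lit 4) (nat_lit 58) (nat_lit 5) (nat_lit 58) (nat_lit 4) (nat_lit 425) (nat_lit 388) (nat_lit 387))))) (XT.nd (nat_lit 234) (nat_lit 760) (nat_lit 0) (XT.nd (nat_lit 78) (nat_lit 456) (nat_lit 0) (XT.lf (nat_lit 0) (nat_lit 5894392587) (nat_lit 228) (nat_lit 1666385748) (nat_lit 0) (nat_lit 4165099482) (nat_lit 53)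 (nat_lit 5) (nat_lit 56) (nat_lit 4) (nat_lit 53) (nat_lit 4) (nat_lit 426) (nat_lit 388) (nat_lit 386)) (XT.nd (nat_lit 78) (nat_lit 152) (nat_lit 0) (XT.lf (nat_lit 0) (nat_lit 2087864606) (nat_lit 76) (nat_lit 149678864) (nat_lit 152) (nat_lit 9967201720) (nat_lit 49) (nat_lit 5) (nat_lit 50) (nat_lit 5) (nat_lit 51) (nat_lit 4) (nat_lit 427) (nat_lit 388) (nat_lit 385)) (XT.lf (nat_lit 0) (nat_lit 5798888085) (nat_lit 152) (nat_lit 4987654964) (nat_lit 152) (nat_lit 1928718568) (nat_lit 47) (nat_lit 4) (nat_lit 49) (nat_lit 5) (nat_lit 49) (nat_lit 4) (nat_lit 428) (nat_lit 388) (nat_lit 384)))) (XT.nd (nat_lit 156) (nat_lit 380) (nat_lit 0) (XT.nd (nat_lit 78) (nat_lit 228) (nat_lit 0) (XT.lf (nat_lit 0) (nat_lit 6483489245) (nat_lit 152) (nat_lit 3808979464) (nat_lit 0) (nat_lit 2971590714) (nat_lit 45) (nat_lit 5) (nat_lit 47) (nat_lit 4) (nat_lit 45) (nat_lit 4) (nat_lit 429) (nat_lit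 388) (nat_lit 383)) (XT.lf (nat_lit 0) (nat_lit 1588539079) (nat_lit 228) (nat_lit 809676539) (nat_lit 76) (nat_lit 11455959327) (nat_lit 42) (nat_lit 5) (nat_lit 45) (nat_lit 5) (nat_lit 43) (nat_lit 4) (nat_lit 430) (nat_lit 388) (nat_lit 382))) (XT.nd (nat_lit 78) (nat_lit 152) (nat_lit 0) (XT.lf (nat_lit 0) (nat_lit 2045964775) (nat_lit 152) (nat_lit 8399288225) (nat_lit 152) (nat_lit 4037948448) (nat_lit 39) (nat_lit 4) (nat_lit 41) (nat_lit 5) (nat_lit 41) (nat_lit 4) (nat_lit 431) (nat_lit 388) (nat_lit 381)) (XT.lf (nat_lit 0) (nat_lit 4676083606) (nat_lit 152) (nat_lit 10392155029) (nat_lit 0) (nat_lit 91398613) (nat_lit 37) (nat_lit 5) (nat_lit 39) (nat_lit 4) (nat_lit 37) (nat_lit 4) (nat_lit 432) (nat_lit 388) (nat_lit 380)))))) (XT.nd (nat_lit 546) (nat_lit 684) (nat_lit 0) (XT.nd (nat_lit 234) (nat_lit 456) (nat_lit 0) (XT.nd (nat_lit 78) (nat_lit 228) (nat_lit 0) (XT.lf (nat_lit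 0) (nat_lit 7188444684) (nat_lit 76) (nat_lit 6839082132) (nat_lit 76) (nat_lit 1855297082) (nat_lit 36) (nat_lit 4) (nat_lit 37) (nat_lit 5) (nat_lit 37) (nat_lit 4) (nat_lit 433) (nat_lit 388) (nat_lit 379)) (XT.nd (nat_lit 78) (nat_lit 76) (nat_lit 0) (XT.lf (nat_lit 0) (nat_lit 7206041811) (nat_lit 152) (nat_lit 7345302962) (nat_lit 0) (nat_lit 2107639773) (nat_lit 34) (nat_lit 5) (nat_lit 36) (nat_lit 4) (nat_lit 34) (nat_lit 4) (nat_lit 434) (nat_lit 388) (nat_lit 378)) (XT.lf (nat_lit 0) (nat_lit 11084954869) (nat_lit 76) (nat_lit 5915697109) (nat_lit 76) (nat_lit 491424620) (nat_lit 33) (nat_lit 4) (nat_lit 34) (nat_lit 5) (nat_lit 34) (nat_lit 4) (nat_lit 435) (nat_lit 388) (nat_lit 377)))) (XT.nd (nat_lit 156) (nat_lit 228) (nat_lit 0) (XT.nd (nat_lit 78) (nat_lit 76) (nat_lit 0) (XT.lf (nat_lit 0) (nat_lit 8914213299) (nat_lit 152) (nat_lit 6008517437) (nat_lit 0) (nat_lit 3460875789)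 (nat_lit 31) (nat_lit 5) (nat_lit 33) (nat_lit 4) (nat_lit 31) (nat_lit 4) (nat_lit 436) (nat_lit 388) (nat_lit 376)) (XT.lf (nat_lit 0) (nat_lit 13192458113) (nat_lit 76) (nat_lit 5934715499) (nat_lit 76) (nat_lit 215300476) (nat_lit 30) (nat_lit 4) (nat_lit 31) (nat_lit 5) (nat_lit 31) (nat_lit 4) (nat_lit 437) (nat_lit 388) (nat_lit 375))) (XT.nd (nat_lit 78) (nat_lit 76) (nat_lit 0) (XT.lf (nat_lit 0) (nat_lit 9506338916) (nat_lit 152) (nat_lit 7037446645) (nat_lit 0) (nat_lit 3824640736) (nat_lit 28) (nat_lit 5) (nat_lit 30) (nat_lit 4) (nat_lit 28) (nat_lit 4) (nat_lit 438) (nat_lit 388) (nat_lit 374)) (XT.lf (nat_lit 0) (nat_lit 12789831112) (nat_lit 76) (nat_lit 7290651795) (nat_lit 76) (nat_lit 1391697825) (nat_lit 27) (nat_lit 4) (nat_lit 28) (nat_lit 5) (nat_lit 28) (nat_lit 4) (nat_lit 439) (nat_lit 388) (nat_lit 373))))) (XT.nd (nat_lit 234) (nat_lit 304) (nat_lit 0) (XT.nd (nat_lit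 78) (nat_lit 228) (nat_lit 0) (XT.lf (nat_lit 0) (nat_lit 8584099103) (nat_lit 152) (nat_lit 11297260811) (nat_lit 0) (nat_lit 2774464114) (nat_lit 25) (nat_lit 5) (nat_lit 27) (nat_lit 4) (nat_lit 25) (nat_lit 4) (nat_lit 440) (nat_lit 388) (nat_lit 372)) (XT.nd (nat_lit 78) (nat_lit 152) (nat_lit 0) (XT.lf (nat_lit 0) (nat_lit 8922993561) (nat_lit 76) (nat_lit 10495793694) (nat_lit 76) (nat_lit 4508766493) (nat_lit 24) (nat_lit 4) (nat_lit 25) (nat_lit 5) (nat_lit 25) (nat_lit 4) (nat_lit 441) (nat_lit 388) (nat_lit 371)) (XT.lf (nat_lit 0) (nat_lit 5367095799) (nat_lit 76) (nat_lit 251623736) (nat_lit 152) (nat_lit 19678485671) (nat_lit 22) (nat_lit 5) (nat_lit 23) (nat_lit 5) (nat_lit 24) (nat_lit 4) (nat_lit 442) (nat_lit 388) (nat_lit 370)))) (XT.nd (nat_lit 156) (nat_lit 152) (nat_lit 0) (XT.nd (nat_lit 78) (nat_lit 76) (nat_lit 0) (XT.lf (nat_lit 0) (nat_lit 334190748) (nat_lit 76)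 (nat_lit 16217059145) (nat_lit 76) (nat_lit 10213854879) (nat_lit 21) (nat_lit 4) (nat_lit 22) (nat_lit 5) (nat_lit 22) (nat_lit 4) (nat_lit 443) (nat_lit 388) (nat_lit 369)) (XT.lf (nat_lit 0) (nat_lit 84197550) (nat_lit 152) (nat_lit 5964713247) (nat_lit 76) (nat_lit 22297704816) (nat_lit 20) (nat_lit 5) (nat_lit 22) (nat_lit 5) (nat_lit 21) (nat_lit 4) (nat_lit 444) (nat_lit 388) (nat_lit 368))) (XT.nd (nat_lit 78) (nat_lit 76) (nat_lit 0) (XT.lf (nat_lit 0) (nat_lit 10922475264) (nat_lit 152) (nat_lit 14160954786) (nat_lit 0) (nat_lit 4959144008) (nat_lit 19) (nat_lit 5) (nat_lit 21) (nat_lit 4) (nat_lit 19) (nat_lit 4) (nat_lit 445) (nat_lit 388) (nat_lit 367)) (XT.lf (nat_lit 0) (nat_lit 7456235063) (nat_lit 76) (nat_lit 15243609484) (nat_lit 76) (nat_lit 9170772415) (nat_lit 18) (nat_lit 4) (nat_lit 19) (nat_lit 5) (nat_lit 19) (nat_lit 4) (nat_lit 446) (nat_lit 388) (nat_lit 366))))))))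
noncomputable def xc27 : XT := (XT.nd (nat_lit 2106) (nat_lit 228) (nat_lit 0) (XT.nd (nat_lit 1014) (nat_lit 380) (nat_lit 0) (XT.nd (nat_lit 468) (nat_lit 304) (nat_lit 0) (XT.nd (nat_lit 234) (nat_lit 152) (nat_lit 0) (XT.nd (nat_lit 78) (nat_lit 152) (nat_lit 0) (XT.lf (nat_lit 0) (nat_lit 1530108674) (nat_lit 152) (nat_lit 3037508557) (nat_lit 76) (nat_lit 29275764983) (nat_lit 17) (nat_lit 5) (nat_lit 19) (nat_lit 5) (nat_lit 18) (nat_lit 4) (nat_lit 447) (nat_lit 388) (nat_lit 365)) (XT.nd (nat_lit 78) (nat_lit 76) (nat_lit 0) (XT.lf (nat_lit 0) (nat_lit 12970022066) (nat_lit 152) (nat_lit 15985835291) (nat_lit 0) (nat_lit 7000388805) (nat_lit 16) (nat_lit 5) (nat_lit 18) (nat_lit 4) (nat_lit 16) (nat_lit 4) (nat_lit 448) (nat_lit 388) (nat_lit 364)) (XT.lf (nat_lit 0) (nat_lit 6381411779) (nat_lit 76) (nat_lit 18954313803) (nat_lit 76) (nat_lit 12901890784) (nat_lit 15) (nat_lit 4)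 (nat_lit 16) (nat_lit 5) (nat_lit 16) (nat_lit 4) (nat_lit 449) (nat_lit 388) (nat_lit 363)))) (XT.nd (nat_lit 78) (nat_lit 152) (nat_lit 0) (XT.lf (nat_lit 0) (nat_lit 30690988045) (nat_lit 76) (nat_lit 8068087651) (nat_lit 76) (nat_lit 1939007450) (nat_lit 15) (nat_lit 4) (nat_lit 16) (nat_lit 5) (nat_lit 16) (nat_lit 4) (nat_lit 450) (nat_lit 388) (nat_lit 362)) (XT.nd (nat_lit 78) (nat_lit 0) (nat_lit 0) (XT.lf (nat_lit 0) (nat_lit 9657184368) (nat_lit 152) (nat_lit 29934454929) (nat_lit 0) (nat_lit 3752366202) (nat_lit 13) (nat_lit 5) (nat_lit 15) (nat_lit 4) (nat_lit 13) (nat_lit 4) (nat_lit 451) (nat_lit 388) (nat_lit 361)) (XT.lf (nat_lit 0) (nat_lit 22235399506) (nat_lit 152) (nat_lit 7690515264) (nat_lit 0) (nat_lit 16267989741) (nat_lit 13) (nat_lit 5) (nat_lit 15) (nat_lit 4) (nat_lit 13) (nat_lit 4) (nat_lit 452) (nat_lit 388) (nat_lit 360))))) (XT.nd (nat_lit 234) (nat_lit 76)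 (nat_lit 0) (XT.nd (nat_lit 78) (nat_lit 152) (nat_lit 0) (XT.lf (nat_lit 0) (nat_lit 16506709250) (nat_lit 76) (nat_lit 19393226423) (nat_lit 76) (nat_lit 13367861474) (nat_lit 12) (nat_lit 4) (nat_lit 13) (nat_lit 5) (nat_lit 13) (nat_lit 4) (nat_lit 453) (nat_lit 388) (nat_lit 359)) (XT.nd (nat_lit 78) (nat_lit 152) (nat_lit 0) (XT.lf (nat_lit 0) (nat_lit 42575197669) (nat_lit 76) (nat_lit 8046613204) (nat_lit 76) (nat_lit 1967586048) (nat_lit 12) (nat_lit 4) (nat_lit 13) (nat_lit 5) (nat_lit 13) (nat_lit 4) (nat_lit 454) (nat_lit 388) (nat_lit 358)) (XT.lf (nat_lit 0) (nat_lit 10150358005) (nat_lit 152) (nat_lit 41697970911) (nat_lit 0) (nat_lit 4313487162) (nat_lit 10) (nat_lit 5) (nat_lit 12) (nat_lit 4) (nat_lit 10) (nat_lit 4) (nat_lit 455) (nat_lit 388) (nat_lit 357)))) (XT.nd (nat_lit 156) (nat_lit 0) (nat_lit 0) (XT.nd (nat_lit 78) (nat_lit 76) (nat_lit 0) (XT.lf (nat_lit 0) (nat_lit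 23327597307) (nat_lit 152) (nat_lit 19235972104) (nat_lit 0) (nat_lit 17446910566) (nat_lit 10) (nat_lit 5) (nat_lit 12) (nat_lit 4) (nat_lit 10) (nat_lit 4) (nat_lit 456) (nat_lit 388) (nat_lit 356)) (XT.lf (nat_lit 0) (nat_lit 4891886251) (nat_lit 76) (nat_lit 32599886661) (nat_lit 76) (nat_lit 26678629643) (nat_lit 9) (nat_lit 4) (nat_lit 10) (nat_lit 5) (nat_lit 10) (nat_lit 4) (nat_lit 457) (nat_lit 388) (nat_lit 355))) (XT.nd (nat_lit 78) (nat_lit 0) (nat_lit 0) (XT.lf (nat_lit 0) (nat_lit 31361714209) (nat_lit 76) (nat_lit 21625169956) (nat_lit 76) (nat_lit 15666347868) (nat_lit 9) (nat_lit 4) (nat_lit 10) (nat_lit 5) (nat_lit 10) (nat_lit 4) (nat_lit 458) (nat_lit 388) (nat_lit 354)) (XT.lf (nat_lit 0) (nat_lit 59694341900) (nat_lit 76) (nat_lit 9900154433) (nat_lit 76) (nat_lit 3906549872) (nat_lit 9) (nat_lit 4) (nat_lit 10) (nat_lit 5) (nat_lit 10) (nat_lit 4) (nat_lit 459) (nat_lit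 388) (nat_lit 353)))))) (XT.nd (nat_lit 546) (nat_lit 152) (nat_lit 0) (XT.nd (nat_lit 234) (nat_lit 76) (nat_lit 0) (XT.nd (nat_lit 78) (nat_lit 0) (nat_lit 0) (XT.lf (nat_lit 0) (nat_lit 8619727022) (nat_lit 152) (nat_lit 67223878330) (nat_lit 0) (nat_lit 2880859827) (nat_lit 7) (nat_lit 5) (nat_lit 9) (nat_lit 4) (nat_lit 7) (nat_lit 4) (nat_lit 460) (nat_lit 388) (nat_lit 352)) (XT.nd (nat_lit 78) (nat_lit 0) (nat_lit 0) (XT.lf (nat_lit 0) (nat_lit 22308307739) (nat_lit 152) (nat_lit 45498356636) (nat_lit 0) (nat_lit 16541040197) (nat_lit 7) (nat_lit 5) (nat_lit 9) (nat_lit 4) (nat_lit 7) (nat_lit 4) (nat_lit 461) (nat_lit 388) (nat_lit 351)) (XT.lf (nat_lit 0) (nat_lit 36984435214) (nat_lit 152) (nat_lit 22250876054) (nat_lit 0) (nat_lit 31190871054) (nat_lit 7) (nat_lit 5) (nat_lit 9) (nat_lit 4) (nat_lit 7) (nat_lit 4) (nat_lit 462) (nat_lit 388) (nat_lit 350)))) (XT.nd (nat_lit 156)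 (nat_lit 0) (nat_lit 0) (XT.nd (nat_lit 78) (nat_lit 0) (nat_lit 0) (XT.lf (nat_lit 0) (nat_lit 2744156407) (nat_lit 76) (nat_lit 50033766656) (nat_lit 76) (nat_lit 44215853777) (nat_lit 6) (nat_lit 4) (nat_lit 7) (nat_lit 5) (nat_lit 7) (nat_lit 4) (nat_lit 463) (nat_lit 388) (nat_lit 349)) (XT.lf (nat_lit 0) (nat_lit 30341981452) (nat_lit 76) (nat_lit 39785318433) (nat_lit 76) (nat_lit 33944860442) (nat_lit 6) (nat_lit 4) (nat_lit 7) (nat_lit 5) (nat_lit 7) (nat_lit 4) (nat_lit 464) (nat_lit 388) (nat_lit 348))) (XT.nd (nat_lit 78) (nat_lit 0) (nat_lit 0) (XT.lf (nat_lit 0) (nat_lit 59970427298) (nat_lit 76) (nat_lit 28806064404) (nat_lit 76) (nat_lit 22944731311) (nat_lit 6) (nat_lit 4) (nat_lit 7) (nat_lit 5) (nat_lit 7) (nat_lit 4) (nat_lit 465) (nat_lit 388) (nat_lit 347)) (XT.lf (nat_lit 0) (nat_lit 91805069920) (nat_lit 76) (nat_lit 17030942326) (nat_lit 76) (nat_lit 11150280433) (nat_lit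 6) (nat_lit 4) (nat_lit 7) (nat_lit 5) (nat_lit 7) (nat_lit 4) (nat_lit 466) (nat_lit 388) (nat_lit 346))))) (XT.nd (nat_lit 234) (nat_lit 0) (nat_lit 0) (XT.nd (nat_lit 78) (nat_lit 76) (nat_lit 0) (XT.lf (nat_lit 0) (nat_lit 1460107485) (nat_lit 152) (nat_lit 2905338583) (nat_lit 76) (nat_lit 124549723939) (nat_lit 5) (nat_lit 5) (nat_lit 7) (nat_lit 5) (nat_lit 6) (nat_lit 4) (nat_lit 467) (nat_lit 388) (nat_lit 345)) (XT.nd (nat_lit 78) (nat_lit 0) (nat_lit 0) (XT.lf (nat_lit 0) (nat_lit 15164602828) (nat_lit 152) (nat_lit 113829674618) (nat_lit 0) (nat_lit 9531145440) (nat_lit 4) (nat_lit 5) (nat_lit 6) (nat_lit 4) (nat_lit 4) (nat_lit 4) (nat_lit 468) (nat_lit 388) (nat_lit 344)) (XT.lf (nat_lit 0) (nat_lit 30021450213) (nat_lit 152) (nat_lit 94506867736) (nat_lit 0) (nat_lit 24373379659) (nat_lit 4) (nat_lit 5) (nat_lit 6) (nat_lit 4) (nat_lit 4) (nat_lit 4) (nat_lit 469) (nat_lit 388)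 (nat_lit 343)))) (XT.nd (nat_lit 156) (nat_lit 0) (nat_lit 0) (XT.nd (nat_lit 78) (nat_lit 0) (nat_lit 0) (XT.lf (nat_lit 0) (nat_lit 46002904868) (nat_lit 152) (nat_lit 73767064004) (nat_lit 0) (nat_lit 40341303605) (nat_lit 4) (nat_lit 5) (nat_lit 6) (nat_lit 4) (nat_lit 4) (nat_lit 4) (nat_lit 470) (nat_lit 388) (nat_lit 342)) (XT.lf (nat_lit 0) (nat_lit 63203671709) (nat_lit 152) (nat_lit 51487360881) (nat_lit 0) (nat_lit 57529542012) (nat_lit 4) (nat_lit 5) (nat_lit 6) (nat_lit 4) (nat_lit 4) (nat_lit 4) (nat_lit 471) (nat_lit 388) (nat_lit 341))) (XT.nd (nat_lit 78) (nat_lit 0) (nat_lit 0) (XT.lf (nat_lit 0) (nat_lit 81725681207) (nat_lit 152) (nat_lit 27535730497) (nat_lit 0) (nat_lit 76039951108) (nat_lit 4) (nat_lit 5) (nat_lit 6) (nat_lit 4) (nat_lit 4) (nat_lit 4) (nat_lit 472) (nat_lit 388) (nat_lit 340)) (XT.lf (nat_lit 0) (nat_lit 101678693418) (nat_lit 152) (nat_lit 1770237266)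 (nat_lit 0) (nat_lit 95982222206) (nat_lit 4) (nat_lit 5) (nat_lit 6) (nat_lit 4) (nat_lit 4) (nat_lit 4) (nat_lit 473) (nat_lit 388) (nat_lit 339))))))) (XT.nd (nat_lit 1014) (nat_lit 0) (nat_lit 0) (XT.nd (nat_lit 468) (nat_lit 152) (nat_lit 0) (XT.nd (nat_lit 234) (nat_lit 0) (nat_lit 0) (XT.nd (nat_lit 78) (nat_lit 0) (nat_lit 0) (XT.lf (nat_lit 0) (nat_lit 26820217679) (nat_lit 76) (nat_lit 96779469496) (nat_lit 76) (nat_lit 91073052809) (nat_lit 3) (nat_lit 4) (nat_lit 4) (nat_lit 5) (nat_lit 4) (nat_lit 4) (nat_lit 474) (nat_lit 388) (nat_lit 338)) (XT.nd (nat_lit 78) (nat_lit 0) (nat_lit 0) (XT.lf (nat_lit 0) (nat_lit 57670546625) (nat_lit 76) (nat_lit 89589719196) (nat_lit 76) (nat_lit 83874093736) (nat_lit 3) (nat_lit 4) (nat_lit 4) (nat_lit 5) (nat_lit 4) (nat_lit 4) (nat_lit 475) (nat_lit 388) (nat_lit 337)) (XT.lf (nat_lit 0) (nat_lit 90905034295) (nat_lit 76) (nat_lit 81867053679)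 (nat_lit 76) (nat_lit 76142901578) (nat_lit 3) (nat_lit 4) (nat_lit 4) (nat_lit 5) (nat_lit 4) (nat_lit 4) (nat_lit 476) (nat_lit 388) (nat_lit 336)))) (XT.nd (nat_lit 78) (nat_lit 0) (nat_lit 0) (XT.lf (nat_lit 0) (nat_lit 126720625802) (nat_lit 76) (nat_lit 73565709003) (nat_lit 76) (nat_lit 67833661863) (nat_lit 3) (nat_lit 4) (nat_lit 4) (nat_lit 5) (nat_lit 4) (nat_lit 4) (nat_lit 477) (nat_lit 388) (nat_lit 335)) (XT.nd (nat_lit 78) (nat_lit 0) (nat_lit 0) (XT.lf (nat_lit 0) (nat_lit 165329561688) (nat_lit 76) (nat_lit 64636492015) (nat_lit 76) (nat_lit 58897134654) (nat_lit 3) (nat_lit 4) (nat_lit 4) (nat_lit 5) (nat_lit 4) (nat_lit 4) (nat_lit 478) (nat_lit 388) (nat_lit 334)) (XT.lf (nat_lit 0) (nat_lit 206960635648) (nat_lit 76) (nat_lit 55026488834) (nat_lit 76) (nat_lit 49280362750) (nat_lit 3) (nat_lit 4) (nat_lit 4) (nat_lit 5) (nat_lit 4) (nat_lit 4) (nat_lit 479) (nat_lit 388)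 (nat_lit 333))))) (XT.nd (nat_lit 234) (nat_lit 152) (nat_lit 0) (XT.nd (nat_lit 78) (nat_lit 0) (nat_lit 0) (XT.lf (nat_lit 0) (nat_lit 251860550342) (nat_lit 76) (nat_lit 44678751296) (nat_lit 76) (nat_lit 38926357875) (nat_lit 3) (nat_lit 4) (nat_lit 4) (nat_lit 5) (nat_lit 4) (nat_lit 4) (nat_lit 480) (nat_lit 388) (nat_lit 332)) (XT.nd (nat_lit 78) (nat_lit 0) (nat_lit 0) (XT.lf (nat_lit 0) (nat_lit 300295379338) (nat_lit 76) (nat_lit 33531959472) (nat_lit 76) (nat_lit 27773762963) (nat_lit 3) (nat_lit 4) (nat_lit 4) (nat_lit 5) (nat_lit 4) (nat_lit 4) (nat_lit 481) (nat_lit 388) (nat_lit 331)) (XT.lf (nat_lit 0) (nat_lit 352552143846) (nat_lit 76) (nat_lit 21520058301) (nat_lit 76) (nat_lit 15756488561) (nat_lit 3) (nat_lit 4) (nat_lit 4) (nat_lit 5) (nat_lit 4) (nat_lit 4) (nat_lit 482) (nat_lit 388) (nat_lit 330)))) (XT.nd (nat_lit 156) (nat_lit 0) (nat_lit 0) (XT.nd (nat_lit 78) (nat_lit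 152) (nat_lit 0) (XT.lf (nat_lit 0) (nat_lit 408940513580) (nat_lit 76) (nat_lit 8571866147) (nat_lit 76) (nat_lit 2803321193) (nat_lit 3) (nat_lit 4) (nat_lit 4) (nat_lit 5) (nat_lit 4) (nat_lit 4) (nat_lit 483) (nat_lit 388) (nat_lit 329)) (XT.lf (nat_lit 0) (nat_lit 11160713526) (nat_lit 152) (nat_lit 436393120650) (nat_lit 0) (nat_lit 5662473876) (nat_lit 1) (nat_lit 5) (nat_lit 3) (nat_lit 4) (nat_lit 1) (nat_lit 4) (nat_lit 484) (nat_lit 388) (nat_lit 328))) (XT.nd (nat_lit 78) (nat_lit 0) (nat_lit 0) (XT.lf (nat_lit 0) (nat_lit 26468715196) (nat_lit 152) (nat_lit 441295284932) (nat_lit 0) (nat_lit 20966413218) (nat_lit 1) (nat_lit 5) (nat_lit 3) (nat_lit 4) (nat_lit 1) (nat_lit 4) (nat_lit 485) (nat_lit 388) (nat_lit 327)) (XT.lf (nat_lit 0) (nat_lit 42980812351) (nat_lit 152) (nat_lit 446631113306) (nat_lit 0) (nat_lit 37474748959) (nat_lit 1) (nat_lit 5) (nat_lit 3) (nat_lit 4) (nat_lit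 1) (nat_lit 4) (nat_lit 486) (nat_lit 388) (nat_lit 326)))))) (XT.nd (nat_lit 546) (nat_lit 0) (nat_lit 0) (XT.nd (nat_lit 234) (nat_lit 0) (nat_lit 0) (XT.nd (nat_lit 78) (nat_lit 0) (nat_lit 0) (XT.lf (nat_lit 0) (nat_lit 60794854456) (nat_lit 152) (nat_lit 452432225493) (nat_lit 0) (nat_lit 55285308273) (nat_lit 1) (nat_lit 5) (nat_lit 3) (nat_lit 4) (nat_lit 1) (nat_lit 4) (nat_lit 487) (nat_lit 388) (nat_lit 325)) (XT.nd (nat_lit 78) (nat_lit 0) (nat_lit 0) (XT.lf (nat_lit 0) (nat_lit 80016406205) (nat_lit 152) (nat_lit 458732998456) (nat_lit 0) (nat_lit 74503635215) (nat_lit 1) (nat_lit 5) (nat_lit 3) (nat_lit 4) (nat_lit 1) (nat_lit 4) (nat_lit 488) (nat_lit 388) (nat_lit 324)) (XT.lf (nat_lit 0) (nat_lit 100759373089) (nat_lit 152) (nat_lit 465570770108) (nat_lit 0) (nat_lit 95243616168) (nat_lit 1) (nat_lit 5) (nat_lit 3) (nat_lit 4) (nat_lit 1) (nat_lit 4) (nat_lit 489) (nat_lit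 388) (nat_lit 323)))) (XT.nd (nat_lit 156) (nat_lit 0) (nat_lit 0) (XT.nd (nat_lit 78) (nat_lit 0) (nat_lit 0) (XT.lf (nat_lit 0) (nat_lit 123146676393) (nat_lit 152) (nat_lit 472986060577) (nat_lit 0) (nat_lit 117628154720) (nat_lit 1) (nat_lit 5) (nat_lit 3) (nat_lit 4) (nat_lit 1) (nat_lit 4) (nat_lit 490) (nat_lit 388) (nat_lit 322)) (XT.lf (nat_lit 0) (nat_lit 147310981620) (nat_lit 152) (nat_lit 481022812326) (nat_lit 0) (nat_lit 141789899992) (nat_lit 1) (nat_lit 5) (nat_lit 3) (nat_lit 4) (nat_lit 1) (nat_lit 4) (nat_lit 491) (nat_lit 388) (nat_lit 321))) (XT.nd (nat_lit 78) (nat_lit 0) (nat_lit 0) (XT.lf (nat_lit 0) (nat_lit 173395484651) (nat_lit 152) (nat_lit 489728650551) (nat_lit 0) (nat_lit 167872032694) (nat_lit 1) (nat_lit 5) (nat_lit 3) (nat_lit 4) (nat_lit 1) (nat_lit 4) (nat_lit 492) (nat_lit 388) (nat_lit 320)) (XT.lf (nat_lit 0) (nat_lit 201554760319) (nat_lit 152) (nat_lit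 499155165403) (nat_lit 0) (nat_lit 196029113613) (nat_lit 1) (nat_lit 5) (nat_lit 3) (nat_lit 4) (nat_lit 1) (nat_lit 4) (nat_lit 493) (nat_lit 388) (nat_lit 319))))) (XT.nd (nat_lit 234) (nat_lit 0) (nat_lit 0) (XT.nd (nat_lit 78) (nat_lit 0) (nat_lit 0) (XT.lf (nat_lit 0) (nat_lit 231955678406) (nat_lit 152) (nat_lit 509358217711) (nat_lit 0) (nat_lit 226427999525) (nat_lit 1) (nat_lit 5) (nat_lit 3) (nat_lit 4) (nat_lit 1) (nat_lit 4) (nat_lit 494) (nat_lit 388) (nat_lit 318)) (XT.nd (nat_lit 78) (nat_lit 0) (nat_lit 0) (XT.lf (nat_lit 0) (nat_lit 264778392502) (nat_lit 152) (nat_lit 520398270008) (nat_lit 0) (nat_lit 259248831977) (nat_lit 1) (nat_lit 5) (nat_lit 3) (nat_lit 4) (nat_lit 1) (nat_lit 4) (nat_lit 495) (nat_lit 388) (nat_lit 317)) (XT.lf (nat_lit 0) (nat_lit 300217407577) (nat_lit 152) (nat_lit 532340744825) (nat_lit 0) (nat_lit 294686104790) (nat_lit 1) (nat_lit 5) (nat_lit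 3) (nat_lit 4) (nat_lit 1) (nat_lit 4) (nat_lit 496) (nat_lit 388) (nat_lit 316)))) (XT.nd (nat_lit 156) (nat_lit 0) (nat_lit 0) (XT.nd (nat_lit 78) (nat_lit 0) (nat_lit 0) (XT.lf (nat_lit 0) (nat_lit 338482732611) (nat_lit 152) (nat_lit 545256412384) (nat_lit 0) (nat_lit 332949816617) (nat_lit 1) (nat_lit 5) (nat_lit 3) (nat_lit 4) (nat_lit 1) (nat_lit 4) (nat_lit 497) (nat_lit 388) (nat_lit 315)) (XT.lf (nat_lit 0) (nat_lit 379801125085) (nat_lit 152) (nat_lit 559221809974) (nat_lit 0) (nat_lit 374266715382) (nat_lit 1) (nat_lit 5) (nat_lit 3) (nat_lit 4) (nat_lit 1) (nat_lit 4) (nat_lit 498) (nat_lit 388) (nat_lit 314))) (XT.nd (nat_lit 56472) (nat_lit 0) (nat_lit 4940) (XT.lf (nat_lit 0) (nat_lit 424417434732) (nat_lit 152) (nat_lit 574319695507) (nat_lit 0) (nat_lit 418881641965) (nat_lit 1) (nat_lit 5) (nat_lit 3) (nat_lit 4) (nat_lit 1) (nat_lit 4) (nat_lit 499) (nat_lit 388) (nat_lit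 313)) (XT.lf (nat_lit 0) (nat_lit 2204198111) (nat_lit 152) (nat_lit 1426116083) (nat_lit 152) (nat_lit 1426116083) (nat_lit 66) (nat_lit 4) (nat_lit 68) (nat_lit 5) (nat_lit 68) (nat_lit 4) (nat_lit 422) (nat_lit 389) (nat_lit 389))))))))
noncomputable def xc28 : XT := (XT.nd (nat_lit 2028) (nat_lit 988) (nat_lit 0) (XT.nd (nat_lit 1014) (nat_lit 1292) (nat_lit 0) (XT.nd (nat_lit 468) (nat_lit 1064) (nat_lit 0) (XT.nd (nat_lit 234) (nat_lit 684) (nat_lit 0) (XT.nd (nat_lit 78) (nat_lit 532) (nat_lit 0) (XT.lf (nat_lit 0) (nat_lit 4687612137) (nat_lit 228) (nat_lit 2175282342) (nat_lit 0) (nat_lit 3618480000) (nat_lit 63) (nat_lit 5) (nat_lit 66) (nat_lit 4) (nat_lit 63) (nat_lit 4) (nat_lit 423) (nat_lit 389) (nat_lit 388)) (XT.nd (nat_lit 78) (nat_lit 152) (nat_lit 0) (XT.lf (nat_lit 0) (nat_lit 1469196744) (nat_lit 152) (nat_lit 251908642) (nat_lit 228) (nat_lit 9158221269) (nat_lit 58)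 (nat_lit 5) (nat_lit 60) (nat_lit 5) (nat_lit 61) (nat_lit 4) (nat_lit 424) (nat_lit 389) (nat_lit 387)) (XT.lf (nat_lit 0) (nat_lit 5163125511) (nat_lit 152) (nat_lit 4487241795) (nat_lit 152) (nat_lit 1653262953) (nat_lit 56) (nat_lit 4) (nat_lit 58) (nat_lit 5) (nat_lit 58) (nat_lit 4) (nat_lit 425) (nat_lit 389) (nat_lit 386)))) (XT.nd (nat_lit 78) (nat_lit 456) (nat_lit 0) (XT.lf (nat_lit 0) (nat_lit 6174580163) (nat_lit 228) (nat_lit 2880130188) (nat_lit 0) (nat_lit 2705746290) (nat_lit 53) (nat_lit 5) (nat_lit 56) (nat_lit 4) (nat_lit 53) (nat_lit 4) (nat_lit 426) (nat_lit 389) (nat_lit 385)) (XT.nd (nat_lit 78) (nat_lit 152) (nat_lit 0) (XT.lf (nat_lit 0) (nat_lit 375664434) (nat_lit 76) (nat_lit 1847399962) (nat_lit 152) (nat_lit 10028706795) (nat_lit 49) (nat_lit 5) (nat_lit 50) (nat_lit 5) (nat_lit 51) (nat_lit 4) (nat_lit 427) (nat_lit 389) (nat_lit 384)) (XT.lf (nat_lit 0) (nat_lit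 3641060992) (nat_lit 152) (nat_lit 6872610876) (nat_lit 152) (nat_lit 2261560881) (nat_lit 47) (nat_lit 4) (nat_lit 49) (nat_lit 5) (nat_lit 49) (nat_lit 4) (nat_lit 428) (nat_lit 389) (nat_lit 383))))) (XT.nd (nat_lit 234) (nat_lit 608) (nat_lit 0) (XT.nd (nat_lit 78) (nat_lit 304) (nat_lit 0) (XT.lf (nat_lit 0) (nat_lit 5895455103) (nat_lit 152) (nat_lit 6492454238) (nat_lit 0) (nat_lit 949695795) (nat_lit 45) (nat_lit 5) (nat_lit 47) (nat_lit 4) (nat_lit 45) (nat_lit 4) (nat_lit 429) (nat_lit 389) (nat_lit 382)) (XT.nd (nat_lit 78) (nat_lit 76) (nat_lit 0) (XT.lf (nat_lit 0) (nat_lit 710294186) (nat_lit 228) (nat_lit 4002881338) (nat_lit 76) (nat_lit 9226973426) (nat_lit 42) (nat_lit 5) (nat_lit 45) (nat_lit 5) (nat_lit 43) (nat_lit 4) (nat_lit 430) (nat_lit 389) (nat_lit 381)) (XT.lf (nat_lit 0) (nat_lit 9259327345) (nat_lit 152) (nat_lit 1717535427) (nat_lit 0) (nat_lit 3607715098) (nat_lit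 41) (nat_lit 5) (nat_lit 43) (nat_lit 4) (nat_lit 41) (nat_lit 4) (nat_lit 431) (nat_lit 389) (nat_lit 380)))) (XT.nd (nat_lit 156) (nat_lit 228) (nat_lit 0) (XT.nd (nat_lit 78) (nat_lit 76) (nat_lit 0) (XT.lf (nat_lit 0) (nat_lit 387725561) (nat_lit 76) (nat_lit 2762709983) (nat_lit 152) (nat_lit 12125576637) (nat_lit 37) (nat_lit 5) (nat_lit 38) (nat_lit 5) (nat_lit 39) (nat_lit 4) (nat_lit 432) (nat_lit 389) (nat_lit 379)) (XT.lf (nat_lit 0) (nat_lit 2247112910) (nat_lit 76) (nat_lit 9959006938) (nat_lit 76) (nat_lit 3807881936) (nat_lit 36) (nat_lit 4) (nat_lit 37) (nat_lit 5) (nat_lit 37) (nat_lit 4) (nat_lit 433) (nat_lit 389) (nat_lit 378))) (XT.nd (nat_lit 78) (nat_lit 76) (nat_lit 0) (XT.lf (nat_lit 0) (nat_lit 3808538906) (nat_lit 76) (nat_lit 1216742986) (nat_lit 152) (nat_lit 11780951537) (nat_lit 34) (nat_lit 5) (nat_lit 35) (nat_lit 5) (nat_lit 36) (nat_lit 4) (nat_lit 434) (nat_lit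 389) (nat_lit 377)) (XT.lf (nat_lit 0) (nat_lit 4941568768) (nat_lit 76) (nat_lit 9598781349) (nat_lit 76) (nat_lit 3112964714) (nat_lit 33) (nat_lit 4) (nat_lit 34) (nat_lit 5) (nat_lit 34) (nat_lit 4) (nat_lit 435) (nat_lit 389) (nat_lit 376)))))) (XT.nd (nat_lit 468) (nat_lit 684) (nat_lit 0) (XT.nd (nat_lit 234) (nat_lit 228) (nat_lit 0) (XT.nd (nat_lit 78) (nat_lit 228) (nat_lit 0) (XT.lf (nat_lit 0) (nat_lit 5647776599) (nat_lit 76) (nat_lit 407332972) (nat_lit 152) (nat_lit 12507865936) (nat_lit 31) (nat_lit 5) (nat_lit 32) (nat_lit 5) (nat_lit 33) (nat_lit 4) (nat_lit 436) (nat_lit 389) (nat_lit 375)) (XT.nd (nat_lit 78) (nat_lit 152) (nat_lit 0) (XT.lf (nat_lit 0) (nat_lit 5756915957) (nat_lit 76) (nat_lit 10234101764) (nat_lit 76) (nat_lit 3544687963) (nat_lit 30) (nat_lit 4) (nat_lit 31) (nat_lit 5) (nat_lit 31) (nat_lit 4) (nat_lit 437) (nat_lit 389) (nat_lit 374)) (XT.lf (nat_lit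 0) (nat_lit 5269582879) (nat_lit 76) (nat_lit 675351393) (nat_lit 152) (nat_lit 14636260413) (nat_lit 28) (nat_lit 5) (nat_lit 29) (nat_lit 5) (nat_lit 30) (nat_lit 4) (nat_lit 438) (nat_lit 389) (nat_lit 373)))) (XT.nd (nat_lit 78) (nat_lit 152) (nat_lit 0) (XT.lf (nat_lit 0) (nat_lit 3961858525) (nat_lit 76) (nat_lit 12263535902) (nat_lit 76) (nat_lit 5474247055) (nat_lit 27) (nat_lit 4) (nat_lit 28) (nat_lit 5) (nat_lit 28) (nat_lit 4) (nat_lit 439) (nat_lit 389) (nat_lit 372)) (XT.nd (nat_lit 78) (nat_lit 0) (nat_lit 0) (XT.lf (nat_lit 0) (nat_lit 1833258616) (nat_lit 76) (nat_lit 2463721522) (nat_lit 152) (nat_lit 18606260686) (nat_lit 25) (nat_lit 5) (nat_lit 26) (nat_lit 5) (nat_lit 27) (nat_lit 4) (nat_lit 440) (nat_lit 389) (nat_lit 371)) (XT.lf (nat_lit 0) (nat_lit 14817211963) (nat_lit 152) (nat_lit 1363909743) (nat_lit 0) (nat_lit 8009578324) (nat_lit 25) (nat_lit 5) (nat_lit 27)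 (nat_lit 4) (nat_lit 25) (nat_lit 4) (nat_lit 441) (nat_lit 389) (nat_lit 370))))) (XT.nd (nat_lit 234) (nat_lit 380) (nat_lit 0) (XT.nd (nat_lit 78) (nat_lit 152) (nat_lit 0) (XT.lf (nat_lit 0) (nat_lit 670857035) (nat_lit 152) (nat_lit 5584461944) (nat_lit 76) (nat_lit 19320778107) (nat_lit 23) (nat_lit 5) (nat_lit 25) (nat_lit 5) (nat_lit 24) (nat_lit 4) (nat_lit 442) (nat_lit 389) (nat_lit 369)) (XT.nd (nat_lit 78) (nat_lit 76) (nat_lit 0) (XT.lf (nat_lit 0) (nat_lit 11284245202) (nat_lit 152) (nat_lit 11253886448) (nat_lit 0) (nat_lit 4521827558) (nat_lit 22) (nat_lit 5) (nat_lit 24) (nat_lit 4) (nat_lit 22) (nat_lit 4) (nat_lit 443) (nat_lit 389) (nat_lit 368)) (XT.lf (nat_lit 0) (nat_lit 10181150134) (nat_lit 76) (nat_lit 12681105173) (nat_lit 76) (nat_lit 5794507937) (nat_lit 21) (nat_lit 4) (nat_lit 22) (nat_lit 5) (nat_lit 22) (nat_lit 4) (nat_lit 444) (nat_lit 389) (nat_lit 367))))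 (XT.nd (nat_lit 156) (nat_lit 228) (nat_lit 0) (XT.nd (nat_lit 78) (nat_lit 0) (nat_lit 0) (XT.lf (nat_lit 0) (nat_lit 2899062895) (nat_lit 76) (nat_lit 1930518194) (nat_lit 152) (nat_lit 25547650930) (nat_lit 19) (nat_lit 5) (nat_lit 20) (nat_lit 5) (nat_lit 21) (nat_lit 4) (nat_lit 445) (nat_lit 389) (nat_lit 366)) (XT.lf (nat_lit 0) (nat_lit 16348224564) (nat_lit 152) (nat_lit 6291330320) (nat_lit 0) (nat_lit 9578660445) (nat_lit 19) (nat_lit 5) (nat_lit 21) (nat_lit 4) (nat_lit 19) (nat_lit 4) (nat_lit 446) (nat_lit 389) (nat_lit 365))) (XT.nd (nat_lit 78) (nat_lit 152) (nat_lit 0) (XT.lf (nat_lit 0) (nat_lit 16663997000) (nat_lit 76) (nat_lit 12201050763) (nat_lit 76) (nat_lit 5337603060) (nat_lit 18) (nat_lit 4) (nat_lit 19) (nat_lit 5) (nat_lit 19) (nat_lit 4) (nat_lit 447) (nat_lit 389) (nat_lit 364)) (XT.lf (nat_lit 0) (nat_lit 4988006252) (nat_lit 76) (nat_lit 835595308) (nat_lit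 152) (nat_lit 30518560590) (nat_lit 16) (nat_lit 5) (nat_lit 17) (nat_lit 5) (nat_lit 18) (nat_lit 4) (nat_lit 448) (nat_lit 389) (nat_lit 363))))))) (XT.nd (nat_lit 1014) (nat_lit 304) (nat_lit 0) (XT.nd (nat_lit 468) (nat_lit 380) (nat_lit 0) (XT.nd (nat_lit 234) (nat_lit 152) (nat_lit 0) (XT.nd (nat_lit 78) (nat_lit 152) (nat_lit 0) (XT.lf (nat_lit 0) (nat_lit 17978767738) (nat_lit 152) (nat_lit 9372590659) (nat_lit 0) (nat_lit 11282703938) (nat_lit 16) (nat_lit 5) (nat_lit 18) (nat_lit 4) (nat_lit 16) (nat_lit 4) (nat_lit 449) (nat_lit 389) (nat_lit 362)) (XT.nd (nat_lit 78) (nat_lit 76) (nat_lit 0) (XT.lf (nat_lit 0) (nat_lit 14441054630) (nat_lit 76) (nat_lit 16716377171) (nat_lit 76) (nat_lit 9949334498) (nat_lit 15) (nat_lit 4) (nat_lit 16) (nat_lit 5) (nat_lit 16) (nat_lit 4) (nat_lit 450) (nat_lit 389) (nat_lit 361)) (XT.lf (nat_lit 0) (nat_lit 1544352705) (nat_lit 152) (nat_lit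 3666840805) (nat_lit 76) (nat_lit 38565695123) (nat_lit 14) (nat_lit 5) (nat_lit 16) (nat_lit 5) (nat_lit 15) (nat_lit 4) (nat_lit 451) (nat_lit 389) (nat_lit 360)))) (XT.nd (nat_lit 78) (nat_lit 76) (nat_lit 0) (XT.lf (nat_lit 0) (nat_lit 13895684665) (nat_lit 152) (nat_lit 25412114155) (nat_lit 0) (nat_lit 7330335337) (nat_lit 13) (nat_lit 5) (nat_lit 15) (nat_lit 4) (nat_lit 13) (nat_lit 4) (nat_lit 452) (nat_lit 389) (nat_lit 359)) (XT.nd (nat_lit 78) (nat_lit 76) (nat_lit 0) (XT.lf (nat_lit 0) (nat_lit 27223421788) (nat_lit 152) (nat_lit 1901036885) (nat_lit 0) (nat_lit 20604410252) (nat_lit 13) (nat_lit 5) (nat_lit 15) (nat_lit 4) (nat_lit 13) (nat_lit 4) (nat_lit 453) (nat_lit 389) (nat_lit 358)) (XT.lf (nat_lit 0) (nat_lit 23953624282) (nat_lit 76) (nat_lit 17885428699) (nat_lit 76) (nat_lit 11216729935) (nat_lit 12) (nat_lit 4) (nat_lit 13) (nat_lit 5) (nat_lit 13) (nat_lit 4) (nat_lit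 454) (nat_lit 389) (nat_lit 357))))) (XT.nd (nat_lit 234) (nat_lit 228) (nat_lit 0) (XT.nd (nat_lit 78) (nat_lit 76) (nat_lit 0) (XT.lf (nat_lit 0) (nat_lit 829577899) (nat_lit 152) (nat_lit 5014070764) (nat_lit 76) (nat_lit 50810158772) (nat_lit 11) (nat_lit 5) (nat_lit 13) (nat_lit 5) (nat_lit 12) (nat_lit 4) (nat_lit 455) (nat_lit 389) (nat_lit 356)) (XT.nd (nat_lit 78) (nat_lit 0) (nat_lit 0) (XT.lf (nat_lit 0) (nat_lit 13764336041) (nat_lit 152) (nat_lit 39421452811) (nat_lit 0) (nat_lit 7328808186) (nat_lit 10) (nat_lit 5) (nat_lit 12) (nat_lit 4) (nat_lit 10) (nat_lit 4) (nat_lit 456) (nat_lit 389) (nat_lit 355)) (XT.lf (nat_lit 0) (nat_lit 27788202680) (nat_lit 152) (nat_lit 15578224157) (nat_lit 0) (nat_lit 21315109754) (nat_lit 10) (nat_lit 5) (nat_lit 12) (nat_lit 4) (nat_lit 10) (nat_lit 4) (nat_lit 457) (nat_lit 389) (nat_lit 354)))) (XT.nd (nat_lit 156) (nat_lit 152) (nat_lit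 0) (XT.nd (nat_lit 78) (nat_lit 0) (nat_lit 0) (XT.lf (nat_lit 0) (nat_lit 10254023845) (nat_lit 76) (nat_lit 32716918800) (nat_lit 76) (nat_lit 26209043400) (nat_lit 9) (nat_lit 4) (nat_lit 10) (nat_lit 5) (nat_lit 10) (nat_lit 4) (nat_lit 458) (nat_lit 389) (nat_lit 353)) (XT.lf (nat_lit 0) (nat_lit 38473231618) (nat_lit 76) (nat_lit 21048740225) (nat_lit 76) (nat_lit 14508658832) (nat_lit 9) (nat_lit 4) (nat_lit 10) (nat_lit 5) (nat_lit 10) (nat_lit 4) (nat_lit 459) (nat_lit 389) (nat_lit 352))) (XT.nd (nat_lit 78) (nat_lit 152) (nat_lit 0) (XT.lf (nat_lit 0) (nat_lit 68731537652) (nat_lit 76) (nat_lit 8556571114) (nat_lit 76) (nat_lit 1986669357) (nat_lit 9) (nat_lit 4) (nat_lit 10) (nat_lit 5) (nat_lit 10) (nat_lit 4) (nat_lit 460) (nat_lit 389) (nat_lit 351)) (XT.lf (nat_lit 0) (nat_lit 11407363344) (nat_lit 152) (nat_lit 68386095373) (nat_lit 0) (nat_lit 5124017434) (nat_lit 7) (nat_lit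 5) (nat_lit 9) (nat_lit 4) (nat_lit 7) (nat_lit 4) (nat_lit 461) (nat_lit 389) (nat_lit 350)))))) (XT.nd (nat_lit 546) (nat_lit 152) (nat_lit 0) (XT.nd (nat_lit 234) (nat_lit 76) (nat_lit 0) (XT.nd (nat_lit 78) (nat_lit 76) (nat_lit 0) (XT.lf (nat_lit 0) (nat_lit 26035618802) (nat_lit 152) (nat_lit 45234805516) (nat_lit 0) (nat_lit 19727924172) (nat_lit 7) (nat_lit 5) (nat_lit 9) (nat_lit 4) (nat_lit 7) (nat_lit 4) (nat_lit 462) (nat_lit 389) (nat_lit 349)) (XT.nd (nat_lit 78) (nat_lit 76) (nat_lit 0) (XT.lf (nat_lit 0) (nat_lit 41741936739) (nat_lit 152) (nat_lit 20416668684) (nat_lit 0) (nat_lit 35411696998) (nat_lit 7) (nat_lit 5) (nat_lit 9) (nat_lit 4) (nat_lit 7) (nat_lit 4) (nat_lit 463) (nat_lit 389) (nat_lit 348)) (XT.lf (nat_lit 0) (nat_lit 6420894280) (nat_lit 76) (nat_lit 52298745503) (nat_lit 76) (nat_lit 45947630660) (nat_lit 6) (nat_lit 4) (nat_lit 7) (nat_lit 5) (nat_lit 7)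 (nat_lit 4) (nat_lit 464) (nat_lit 389) (nat_lit 347)))) (XT.nd (nat_lit 156) (nat_lit 76) (nat_lit 0) (XT.nd (nat_lit 78) (nat_lit 0) (nat_lit 0) (XT.lf (nat_lit 0) (nat_lit 35970456044) (nat_lit 76) (nat_lit 41359141606) (nat_lit 76) (nat_lit 34988697963) (nat_lit 6) (nat_lit 4) (nat_lit 7) (nat_lit 5) (nat_lit 7) (nat_lit 4) (nat_lit 465) (nat_lit 389) (nat_lit 346)) (XT.lf (nat_lit 0) (nat_lit 67732057848) (nat_lit 76) (nat_lit 29620732611) (nat_lit 76) (nat_lit 23232391932) (nat_lit 6) (nat_lit 4) (nat_lit 7) (nat_lit 5) (nat_lit 7) (nat_lit 4) (nat_lit 466) (nat_lit 389) (nat_lit 345))) (XT.nd (nat_lit 78) (nat_lit 76) (nat_lit 0) (XT.lf (nat_lit 0) (nat_lit 101893916593) (nat_lit 76) (nat_lit 17013957577) (nat_lit 76) (nat_lit 10609045568) (nat_lit 6) (nat_lit 4) (nat_lit 7) (nat_lit 5) (nat_lit 7) (nat_lit 4) (nat_lit 467) (nat_lit 389) (nat_lit 344)) (XT.lf (nat_lit 0) (nat_lit 2861531005)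 (nat_lit 152) (nat_lit 554117270) (nat_lit 76) (nat_lit 135748480505) (nat_lit 5) (nat_lit 5) (nat_lit 7) (nat_lit 5) (nat_lit 6) (nat_lit 4) (nat_lit 468) (nat_lit 389) (nat_lit 343))))) (XT.nd (nat_lit 234) (nat_lit 76) (nat_lit 0) (XT.nd (nat_lit 78) (nat_lit 0) (nat_lit 0) (XT.lf (nat_lit 0) (nat_lit 17625226023) (nat_lit 152) (nat_lit 120422669696) (nat_lit 0) (nat_lit 11497165951) (nat_lit 4) (nat_lit 5) (nat_lit 6) (nat_lit 4) (nat_lit 4) (nat_lit 4) (nat_lit 469) (nat_lit 389) (nat_lit 342)) (XT.nd (nat_lit 78) (nat_lit 0) (nat_lit 0) (XT.lf (nat_lit 0) (nat_lit 33578217127) (nat_lit 152) (nat_lit 99740214478) (nat_lit 0) (nat_lit 27437628621) (nat_lit 4) (nat_lit 5) (nat_lit 6) (nat_lit 4) (nat_lit 4) (nat_lit 4) (nat_lit 470) (nat_lit 389) (nat_lit 341)) (XT.lf (nat_lit 0) (nat_lit 50752628829) (nat_lit 152) (nat_lit 77513611831) (nat_lit 0) (nat_lit 44600439920) (nat_lit 4) (nat_lit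 5) (nat_lit 6) (nat_lit 4) (nat_lit 4) (nat_lit 4) (nat_lit 471) (nat_lit 389) (nat_lit 340)))) (XT.nd (nat_lit 156) (nat_lit 76) (nat_lit 0) (XT.nd (nat_lit 78) (nat_lit 0) (nat_lit 0) (XT.lf (nat_lit 0) (nat_lit 69250235420) (nat_lit 152) (nat_lit 53611148554) (nat_lit 0) (nat_lit 63087305398) (nat_lit 4) (nat_lit 5) (nat_lit 6) (nat_lit 4) (nat_lit 4) (nat_lit 4) (nat_lit 472) (nat_lit 389) (nat_lit 339)) (XT.lf (nat_lit 0) (nat_lit 89180652346) (nat_lit 152) (nat_lit 27891180421) (nat_lit 0) (nat_lit 83007776850) (nat_lit 4) (nat_lit 5) (nat_lit 6) (nat_lit 4) (nat_lit 4) (nat_lit 4) (nat_lit 473) (nat_lit 389) (nat_lit 338))) (XT.nd (nat_lit 78) (nat_lit 76) (nat_lit 0) (XT.lf (nat_lit 0) (nat_lit 110661985783) (nat_lit 152) (nat_lit 201292806) (nat_lit 0) (nat_lit 104479901513) (nat_lit 4) (nat_lit 5) (nat_lit 6) (nat_lit 4) (nat_lit 4) (nat_lit 4) (nat_lit 474) (nat_lit 389) (nat_lit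 337)) (XT.lf (nat_lit 0) (nat_lit 30602059532) (nat_lit 76) (nat_lit 103697256899) (nat_lit 76) (nat_lit 97506645988) (nat_lit 3) (nat_lit 4) (nat_lit 4) (nat_lit 5) (nat_lit 4) (nat_lit 4) (nat_lit 475) (nat_lit 389) (nat_lit 336))))))))
noncomputable def xc29 : XT := (XT.nd (nat_lit 58344) (nat_lit 0) (nat_lit 1140) (XT.nd (nat_lit 1014) (nat_lit 0) (nat_lit 0) (XT.nd (nat_lit 468) (nat_lit 152) (nat_lit 0) (XT.nd (nat_lit 234) (nat_lit 0) (nat_lit 0) (XT.nd (nat_lit 78) (nat_lit 0) (nat_lit 0) (XT.lf (nat_lit 0) (nat_lit 63799212983) (nat_lit 76) (nat_lit 95993405845) (nat_lit 76) (nat_lit 89794899895) (nat_lit 3) (nat_lit 4) (nat_lit 4) (nat_lit 5) (nat_lit 4) (nat_lit 4) (nat_lit 476) (nat_lit 389) (nat_lit 335)) (XT.nd (nat_lit 78) (nat_lit 0) (nat_lit 0) (XT.lf (nat_lit 0) (nat_lit 99580235768) (nat_lit 76) (nat_lit 87709481968) (nat_lit 76) (nat_lit 81503665797) (nat_lit 3) (nat_lit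 4) (nat_lit 4) (nat_lit 5) (nat_lit 4) (nat_lit 4) (nat_lit 477) (nat_lit 389) (nat_lit 334)) (XT.lf (nat_lit 0) (nat_lit 138157163579) (nat_lit 76) (nat_lit 78796395348) (nat_lit 76) (nat_lit 72583810454) (nat_lit 3) (nat_lit 4) (nat_lit 4) (nat_lit 5) (nat_lit 4) (nat_lit 4) (nat_lit 478) (nat_lit 389) (nat_lit 333)))) (XT.nd (nat_lit 78) (nat_lit 0) (nat_lit 0) (XT.lf (nat_lit 0) (nat_lit 179758600431) (nat_lit 76) (nat_lit 69201327695) (nat_lit 76) (nat_lit 62982475465) (nat_lit 3) (nat_lit 4) (nat_lit 4) (nat_lit 5) (nat_lit 4) (nat_lit 4) (nat_lit 479) (nat_lit 389) (nat_lit 332)) (XT.nd (nat_lit 78) (nat_lit 0) (nat_lit 0) (XT.lf (nat_lit 0) (nat_lit 224631073359) (nat_lit 76) (nat_lit 58867419348) (nat_lit 76) (nat_lit 52642764028) (nat_lit 3) (nat_lit 4) (nat_lit 4) (nat_lit 5) (nat_lit 4) (nat_lit 4) (nat_lit 480) (nat_lit 389) (nat_lit 331)) (XT.lf (nat_lit 0) (nat_lit 273040493313)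 (nat_lit 76) (nat_lit 47733432331) (nat_lit 76) (nat_lit 41503403781) (nat_lit 3) (nat_lit 4) (nat_lit 4) (nat_lit 5) (nat_lit 4) (nat_lit 4) (nat_lit 481) (nat_lit 389) (nat_lit 330))))) (XT.nd (nat_lit 234) (nat_lit 152) (nat_lit 0) (XT.nd (nat_lit 78) (nat_lit 0) (nat_lit 0) (XT.lf (nat_lit 0) (nat_lit 325273730930) (nat_lit 76) (nat_lit 35733387463) (nat_lit 76) (nat_lit 29498383700) (nat_lit 3) (nat_lit 4) (nat_lit 4) (nat_lit 5) (nat_lit 4) (nat_lit 4) (nat_lit 482) (nat_lit 389) (nat_lit 329)) (XT.nd (nat_lit 78) (nat_lit 0) (nat_lit 0) (XT.lf (nat_lit 0) (nat_lit 381640316506) (nat_lit 76) (nat_lit 22796173367) (nat_lit 76) (nat_lit 16556562924) (nat_lit 3) (nat_lit 4) (nat_lit 4) (nat_lit 5) (nat_lit 4) (nat_lit 4) (nat_lit 483) (nat_lit 389) (nat_lit 328)) (XT.lf (nat_lit 0) (nat_lit 442474274252) (nat_lit 76) (nat_lit 8845125069) (nat_lit 76) (nat_lit 2601249183) (nat_lit 3) (nat_lit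 4) (nat_lit 4) (nat_lit 5) (nat_lit 4) (nat_lit 4) (nat_lit 484) (nat_lit 389) (nat_lit 327)))) (XT.nd (nat_lit 156) (nat_lit 0) (nat_lit 0) (XT.nd (nat_lit 78) (nat_lit 0) (nat_lit 0) (XT.lf (nat_lit 0) (nat_lit 12454388800) (nat_lit 152) (nat_lit 470495097865) (nat_lit 0) (nat_lit 6504078923) (nat_lit 1) (nat_lit 5) (nat_lit 3) (nat_lit 4) (nat_lit 1) (nat_lit 4) (nat_lit 485) (nat_lit 389) (nat_lit 326)) (XT.lf (nat_lit 0) (nat_lit 28957340367) (nat_lit 152) (nat_lit 475849396211) (nat_lit 0) (nat_lit 23003547699) (nat_lit 1) (nat_lit 5) (nat_lit 3) (nat_lit 4) (nat_lit 1) (nat_lit 4) (nat_lit 486) (nat_lit 389) (nat_lit 325))) (XT.nd (nat_lit 78) (nat_lit 0) (nat_lit 0) (XT.lf (nat_lit 0) (nat_lit 46762914335) (nat_lit 152) (nat_lit 481667610226) (nat_lit 0) (nat_lit 40805896861) (nat_lit 1) (nat_lit 5) (nat_lit 3) (nat_lit 4) (nat_lit 1) (nat_lit 4) (nat_lit 487) (nat_lit 389) (nat_lit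 324)) (XT.lf (nat_lit 0) (nat_lit 65976625216) (nat_lit 152) (nat_lit 487984218214) (nat_lit 0) (nat_lit 60016621810) (nat_lit 1) (nat_lit 5) (nat_lit 3) (nat_lit 4) (nat_lit 1) (nat_lit 4) (nat_lit 488) (nat_lit 389) (nat_lit 323)))))) (XT.nd (nat_lit 546) (nat_lit 0) (nat_lit 0) (XT.nd (nat_lit 234) (nat_lit 0) (nat_lit 0) (XT.nd (nat_lit 78) (nat_lit 0) (nat_lit 0) (XT.lf (nat_lit 0) (nat_lit 86712332038) (nat_lit 152) (nat_lit 494836651926) (nat_lit 0) (nat_lit 80749563879) (nat_lit 1) (nat_lit 5) (nat_lit 3) (nat_lit 4) (nat_lit 1) (nat_lit 4) (nat_lit 489) (nat_lit 389) (nat_lit 322)) (XT.nd (nat_lit 78) (nat_lit 0) (nat_lit 0) (XT.lf (nat_lit 0) (nat_lit 109092913062) (nat_lit 152) (nat_lit 502265518377) (nat_lit 0) (nat_lit 103127584949) (nat_lit 1) (nat_lit 5) (nat_lit 3) (nat_lit 4) (nat_lit 1) (nat_lit 4) (nat_lit 490) (nat_lit 389) (nat_lit 321)) (XT.lf (nat_lit 0) (nat_lit 133250993955)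 (nat_lit 152) (nat_lit 510314840480) (nat_lit 0) (nat_lit 127283295513) (nat_lit 1) (nat_lit 5) (nat_lit 3) (nat_lit 4) (nat_lit 1) (nat_lit 4) (nat_lit 491) (nat_lit 389) (nat_lit 320)))) (XT.nd (nat_lit 156) (nat_lit 0) (nat_lit 0) (XT.nd (nat_lit 78) (nat_lit 0) (nat_lit 0) (XT.lf (nat_lit 0) (nat_lit 159329733714) (nat_lit 152) (nat_lit 519032317921) (nat_lit 0) (nat_lit 153359840523) (nat_lit 1) (nat_lit 5) (nat_lit 3) (nat_lit 4) (nat_lit 1) (nat_lit 4) (nat_lit 492) (nat_lit 389) (nat_lit 319)) (XT.lf (nat_lit 0) (nat_lit 187483673020) (nat_lit 152) (nat_lit 528469609824) (nat_lit 0) (nat_lit 181511747653) (nat_lit 1) (nat_lit 5) (nat_lit 3) (nat_lit 4) (nat_lit 1) (nat_lit 4) (nat_lit 493) (nat_lit 389) (nat_lit 318))) (XT.nd (nat_lit 78) (nat_lit 0) (nat_lit 0) (XT.lf (nat_lit 0) (nat_lit 217879650031) (nat_lit 152) (nat_lit 538682640884) (nat_lit 0) (nat_lit 211905843021) (nat_lit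 1) (nat_lit 5) (nat_lit 3) (nat_lit 4) (nat_lit 1) (nat_lit 4) (nat_lit 494) (nat_lit 389) (nat_lit 317)) (XT.lf (nat_lit 0) (nat_lit 250697789055) (nat_lit 152) (nat_lit 549731932766) (nat_lit 0) (nat_lit 244722239782) (nat_lit 1) (nat_lit 5) (nat_lit 3) (nat_lit 4) (nat_lit 1) (nat_lit 4) (nat_lit 495) (nat_lit 389) (nat_lit 316))))) (XT.nd (nat_lit 234) (nat_lit 0) (nat_lit 0) (XT.nd (nat_lit 78) (nat_lit 0) (nat_lit 0) (XT.lf (nat_lit 0) (nat_lit 286132567954) (nat_lit 152) (nat_lit 561682962755) (nat_lit 0) (nat_lit 280155405475) (nat_lit 1) (nat_lit 5) (nat_lit 3) (nat_lit 4) (nat_lit 1) (nat_lit 4) (nat_lit 496) (nat_lit 389) (nat_lit 315)) (XT.nd (nat_lit 78) (nat_lit 0) (nat_lit 0) (XT.lf (nat_lit 0) (nat_lit 324393970602) (nat_lit 152) (nat_lit 574606551769) (nat_lit 0) (nat_lit 318415314414) (nat_lit 1) (nat_lit 5) (nat_lit 3) (nat_lit 4) (nat_lit 1) (nat_lit 4) (nat_lit 497) (nat_lit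 389) (nat_lit 314)) (XT.lf (nat_lit 0) (nat_lit 365708731237) (nat_lit 152) (nat_lit 588579284040) (nat_lit 0) (nat_lit 359728691985) (nat_lit 1) (nat_lit 5) (nat_lit 3) (nat_lit 4) (nat_lit 1) (nat_lit 4) (nat_lit 498) (nat_lit 389) (nat_lit 313)))) (XT.nd (nat_lit 56394) (nat_lit 0) (nat_lit 4940) (XT.nd (nat_lit 56316) (nat_lit 0) (nat_lit 5548) (XT.lf (nat_lit 0) (nat_lit 410321678071) (nat_lit 152) (nat_lit 603683960943) (nat_lit 0) (nat_lit 404340358203) (nat_lit 1) (nat_lit 5) (nat_lit 3) (nat_lit 4) (nat_lit 1) (nat_lit 4) (nat_lit 499) (nat_lit 389) (nat_lit 312)) (XT.lf (nat_lit 0) (nat_lit 1674443272) (nat_lit 228) (nat_lit 1372997484) (nat_lit 0) (nat_lit 1674443272) (nat_lit 74) (nat_lit 5) (nat_lit 77) (nat_lit 4) (nat_lit 74) (nat_lit 4) (nat_lit 420) (nat_lit 390) (nat_lit 390))) (XT.nd (nat_lit 78) (nat_lit 152) (nat_lit 0) (XT.lf (nat_lit 0) (nat_lit 599364345) (nat_lit 152)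 (nat_lit 313991742) (nat_lit 228) (nat_lit 8859380428) (nat_lit 68) (nat_lit 5) (nat_lit 70) (nat_lit 5) (nat_lit 71) (nat_lit 4) (nat_lit 421) (nat_lit 390) (nat_lit 389)) (XT.lf (nat_lit 0) (nat_lit 4056358061) (nat_lit 152) (nat_lit 4201154135) (nat_lit 152) (nat_lit 1866169549) (nat_lit 66) (nat_lit 4) (nat_lit 68) (nat_lit 5) (nat_lit 68) (nat_lit 4) (nat_lit 422) (nat_lit 390) (nat_lit 388))))))) (XT.nd (nat_lit 1014) (nat_lit 1368) (nat_lit 0) (XT.nd (nat_lit 468) (nat_lit 988) (nat_lit 0) (XT.nd (nat_lit 234) (nat_lit 684) (nat_lit 0) (XT.nd (nat_lit 78) (nat_lit 532) (nat_lit 0) (XT.lf (nat_lit 0) (nat_lit 5404763757) (nat_lit 228) (nat_lit 2907538144) (nat_lit 0) (nat_lit 2191031750) (nat_lit 63) (nat_lit 5) (nat_lit 66) (nat_lit 4) (nat_lit 63) (nat_lit 4) (nat_lit 423) (nat_lit 390) (nat_lit 387)) (XT.nd (nat_lit 78) (nat_lit 152) (nat_lit 0) (XT.lf (nat_lit 0) (nat_lit 298545996)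 (nat_lit 152) (nat_lit 1861886437) (nat_lit 228) (nat_lit 8752026895) (nat_lit 58) (nat_lit 5) (nat_lit 60) (nat_lit 5) (nat_lit 61) (nat_lit 4) (nat_lit 424) (nat_lit 390) (nat_lit 386)) (XT.lf (nat_lit 0) (nat_lit 3598222401) (nat_lit 152) (nat_lit 6246390872) (nat_lit 152) (nat_lit 1504436536) (nat_lit 56) (nat_lit 4) (nat_lit 58) (nat_lit 5) (nat_lit 58) (nat_lit 4) (nat_lit 425) (nat_lit 390) (nat_lit 385)))) (XT.nd (nat_lit 78) (nat_lit 456) (nat_lit 0) (XT.lf (nat_lit 0) (nat_lit 6068109300) (nat_lit 228) (nat_lit 4911027746) (nat_lit 0) (nat_lit 839178607) (nat_lit 53) (nat_lit 5) (nat_lit 56) (nat_lit 4) (nat_lit 53) (nat_lit 4) (nat_lit 426) (nat_lit 390) (nat_lit 384)) (XT.nd (nat_lit 78) (nat_lit 228) (nat_lit 0) (XT.lf (nat_lit 0) (nat_lit 1834467826) (nat_lit 228) (nat_lit 2128256562) (nat_lit 76) (nat_lit 8358535936) (nat_lit 50) (nat_lit 5) (nat_lit 53) (nat_lit 5) (nat_lit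 51) (nat_lit 4) (nat_lit 427) (nat_lit 390) (nat_lit 383)) (XT.lf (nat_lit 0) (nat_lit 602222216) (nat_lit 152) (nat_lit 9223977701) (nat_lit 152) (nat_lit 3033489367) (nat_lit 47) (nat_lit 4) (nat_lit 49) (nat_lit 5) (nat_lit 49) (nat_lit 4) (nat_lit 428) (nat_lit 390) (nat_lit 382))))) (XT.nd (nat_lit 234) (nat_lit 532) (nat_lit 0) (XT.nd (nat_lit 78) (nat_lit 304) (nat_lit 0) (XT.lf (nat_lit 0) (nat_lit 3315257686) (nat_lit 76) (nat_lit 1584562990) (nat_lit 152) (nat_lit 8535285059) (nat_lit 45) (nat_lit 5) (nat_lit 46) (nat_lit 5) (nat_lit 47) (nat_lit 4) (nat_lit 429) (nat_lit 390) (nat_lit 381)) (XT.nd (nat_lit 78) (nat_lit 152) (nat_lit 0) (XT.lf (nat_lit 0) (nat_lit 5903539344) (nat_lit 152) (nat_lit 7515905090) (nat_lit 152) (nat_lit 631768363) (nat_lit 43) (nat_lit 4) (nat_lit 45) (nat_lit 5) (nat_lit 45) (nat_lit 4) (nat_lit 430) (nat_lit 390) (nat_lit 380)) (XT.lf (nat_lit 0) (nat_lit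 7652402705) (nat_lit 152) (nat_lit 6380976391) (nat_lit 0) (nat_lit 677026953) (nat_lit 41) (nat_lit 5) (nat_lit 43) (nat_lit 4) (nat_lit 41) (nat_lit 4) (nat_lit 431) (nat_lit 390) (nat_lit 379)))) (XT.nd (nat_lit 156) (nat_lit 228) (nat_lit 0) (XT.nd (nat_lit 78) (nat_lit 76) (nat_lit 0) (XT.lf (nat_lit 0) (nat_lit 1222570937) (nat_lit 228) (nat_lit 4857119275) (nat_lit 76) (nat_lit 9336046347) (nat_lit 38) (nat_lit 5) (nat_lit 41) (nat_lit 5) (nat_lit 39) (nat_lit 4) (nat_lit 432) (nat_lit 390) (nat_lit 378)) (XT.lf (nat_lit 0) (nat_lit 9949280333) (nat_lit 152) (nat_lit 3626544199) (nat_lit 0) (nat_lit 2594364269) (nat_lit 37) (nat_lit 5) (nat_lit 39) (nat_lit 4) (nat_lit 37) (nat_lit 4) (nat_lit 433) (nat_lit 390) (nat_lit 377))) (XT.nd (nat_lit 78) (nat_lit 76) (nat_lit 0) (XT.lf (nat_lit 0) (nat_lit 2413010994) (nat_lit 152) (nat_lit 2725062017) (nat_lit 76) (nat_lit 11840067207) (nat_lit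 35) (nat_lit 5) (nat_lit 37) (nat_lit 5) (nat_lit 36) (nat_lit 4) (nat_lit 434) (nat_lit 390) (nat_lit 376)) (XT.lf (nat_lit 0) (nat_lit 11592596476) (nat_lit 152) (nat_lit 2242609403) (nat_lit 0) (nat_lit 4006801225) (nat_lit 34) (nat_lit 5) (nat_lit 36) (nat_lit 4) (nat_lit 34) (nat_lit 4) (nat_lit 435) (nat_lit 390) (nat_lit 375)))))) (XT.nd (nat_lit 546) (nat_lit 608) (nat_lit 0) (XT.nd (nat_lit 234) (nat_lit 380) (nat_lit 0) (XT.nd (nat_lit 78) (nat_lit 228) (nat_lit 0) (XT.lf (nat_lit 0) (nat_lit 2746236120) (nat_lit 152) (nat_lit 2214697673) (nat_lit 76) (nat_lit 13806833096) (nat_lit 32) (nat_lit 5) (nat_lit 34) (nat_lit 5) (nat_lit 33) (nat_lit 4) (nat_lit 436) (nat_lit 390) (nat_lit 374)) (XT.nd (nat_lit 78) (nat_lit 152) (nat_lit 0) (XT.lf (nat_lit 0) (nat_lit 12341710854) (nat_lit 152) (nat_lit 2773159845) (nat_lit 0) (nat_lit 4642657302) (nat_lit 31) (nat_lit 5) (nat_lit 33) (nat_lit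 4) (nat_lit 31) (nat_lit 4) (nat_lit 437) (nat_lit 390) (nat_lit 373)) (XT.lf (nat_lit 0) (nat_lit 1931064949) (nat_lit 152) (nat_lit 3951591312) (nat_lit 76) (nat_lit 14936722892) (nat_lit 29) (nat_lit 5) (nat_lit 31) (nat_lit 5) (nat_lit 30) (nat_lit 4) (nat_lit 438) (nat_lit 390) (nat_lit 372)))) (XT.nd (nat_lit 156) (nat_lit 228) (nat_lit 0) (XT.nd (nat_lit 78) (nat_lit 76) (nat_lit 0) (XT.lf (nat_lit 0) (nat_lit 11869041989) (nat_lit 152) (nat_lit 5936730235) (nat_lit 0) (nat_lit 4149185443) (nat_lit 28) (nat_lit 5) (nat_lit 30) (nat_lit 4) (nat_lit 28) (nat_lit 4) (nat_lit 439) (nat_lit 390) (nat_lit 371)) (XT.lf (nat_lit 0) (nat_lit 14407070111) (nat_lit 76) (nat_lit 8329949986) (nat_lit 76) (nat_lit 437628789) (nat_lit 27) (nat_lit 4) (nat_lit 28) (nat_lit 5) (nat_lit 28) (nat_lit 4) (nat_lit 440) (nat_lit 390) (nat_lit 370))) (XT.nd (nat_lit 78) (nat_lit 76) (nat_lit 0) (XT.lf (nat_lit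 0) (nat_lit 9734737308) (nat_lit 152) (nat_lit 12679656521) (nat_lit 0) (nat_lit 2066155699) (nat_lit 25) (nat_lit 5) (nat_lit 27) (nat_lit 4) (nat_lit 25) (nat_lit 4) (nat_lit 441) (nat_lit 390) (nat_lit 369)) (XT.lf (nat_lit 0) (nat_lit 8076572130) (nat_lit 76) (nat_lit 12807245829) (nat_lit 76) (nat_lit 4997844563) (nat_lit 24) (nat_lit 4) (nat_lit 25) (nat_lit 5) (nat_lit 25) (nat_lit 4) (nat_lit 442) (nat_lit 390) (nat_lit 368))))) (XT.nd (nat_lit 234) (nat_lit 380) (nat_lit 0) (XT.nd (nat_lit 78) (nat_lit 76) (nat_lit 0) (XT.lf (nat_lit 0) (nat_lit 3108425316) (nat_lit 76) (nat_lit 2280947929) (nat_lit 152) (nat_lit 21999364589) (nat_lit 22) (nat_lit 5) (nat_lit 23) (nat_lit 5) (nat_lit 24) (nat_lit 4) (nat_lit 443) (nat_lit 390) (nat_lit 367)) (XT.nd (nat_lit 78) (nat_lit 76) (nat_lit 0) (XT.lf (nat_lit 0) (nat_lit 16662525747) (nat_lit 152) (nat_lit 3352423636) (nat_lit 0) (nat_lit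 8985840036) (nat_lit 22) (nat_lit 5) (nat_lit 24) (nat_lit 4) (nat_lit 22) (nat_lit 4) (nat_lit 444) (nat_lit 390) (nat_lit 366)) (XT.lf (nat_lit 0) (nat_lit 19414901512) (nat_lit 76) (nat_lit 9551801832) (nat_lit 76) (nat_lit 1768652136) (nat_lit 21) (nat_lit 4) (nat_lit 22) (nat_lit 5) (nat_lit 22) (nat_lit 4) (nat_lit 445) (nat_lit 390) (nat_lit 365)))) (XT.nd (nat_lit 156) (nat_lit 152) (nat_lit 0) (XT.nd (nat_lit 78) (nat_lit 76) (nat_lit 0) (XT.lf (nat_lit 0) (nat_lit 9398165217) (nat_lit 152) (nat_lit 21308221657) (nat_lit 0) (nat_lit 1891758112) (nat_lit 19) (nat_lit 5) (nat_lit 21) (nat_lit 4) (nat_lit 19) (nat_lit 4) (nat_lit 446) (nat_lit 390) (nat_lit 364)) (XT.lf (nat_lit 0) (nat_lit 954093666) (nat_lit 76) (nat_lit 20619449478) (nat_lit 76) (nat_lit 13026113129) (nat_lit 18) (nat_lit 4) (nat_lit 19) (nat_lit 5) (nat_lit 19) (nat_lit 4) (nat_lit 447) (nat_lit 390) (nat_lit 363)))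 (XT.nd (nat_lit 78) (nat_lit 152) (nat_lit 0) (XT.lf (nat_lit 0) (nat_lit 25379886936) (nat_lit 76) (nat_lit 9523116066) (nat_lit 76) (nat_lit 1849289675) (nat_lit 18) (nat_lit 4) (nat_lit 19) (nat_lit 5) (nat_lit 19) (nat_lit 4) (nat_lit 448) (nat_lit 390) (nat_lit 362)) (XT.lf (nat_lit 0) (nat_lit 9952385121) (nat_lit 152) (nat_lit 26540888101) (nat_lit 0) (nat_lit 2573000161) (nat_lit 16) (nat_lit 5) (nat_lit 18) (nat_lit 4) (nat_lit 16) (nat_lit 4) (nat_lit 449) (nat_lit 390) (nat_lit 361))))))))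
noncomputable def xc30 : XT := (XT.nd (nat_lit 2028) (nat_lit 152) (nat_lit 0) (XT.nd (nat_lit 1014) (nat_lit 304) (nat_lit 0) (XT.nd (nat_lit 468) (nat_lit 380) (nat_lit 0) (XT.nd (nat_lit 234) (nat_lit 76) (nat_lit 0) (XT.nd (nat_lit 78) (nat_lit 228) (nat_lit 0) (XT.lf (nat_lit 0) (nat_lit 22821684989) (nat_lit 152) (nat_lit 3356184388) (nat_lit 0) (nat_lit 15376578851) (nat_lit 16) (nat_lit 5) (nat_lit 18) (nat_lit 4) (nat_lit 16) (nat_lit 4) (nat_lit 450) (nat_lit 390) (nat_lit 360)) (XT.nd (nat_lit 78) (nat_lit 152) (nat_lit 0) (XT.lf (nat_lit 0) (nat_lit 22068501130) (nat_lit 76) (nat_lit 14834995870) (nat_lit 76) (nat_lit 7329036789) (nat_lit 15) (nat_lit 4) (nat_lit 16) (nat_lit 5) (nat_lit 16) (nat_lit 4) (nat_lit 451) (nat_lit 390) (nat_lit 359)) (XT.lf (nat_lit 0) (nat_lit 2204440758) (nat_lit 76) (nat_lit 2559825171) (nat_lit 152) (nat_lit 42359867113) (nat_lit 13) (nat_lit 5)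 (nat_lit 14) (nat_lit 5) (nat_lit 15) (nat_lit 4) (nat_lit 452) (nat_lit 390) (nat_lit 358)))) (XT.nd (nat_lit 78) (nat_lit 76) (nat_lit 0) (XT.lf (nat_lit 0) (nat_lit 17978811958) (nat_lit 152) (nat_lit 21514787361) (nat_lit 0) (nat_lit 10726930064) (nat_lit 13) (nat_lit 5) (nat_lit 15) (nat_lit 4) (nat_lit 13) (nat_lit 4) (nat_lit 453) (nat_lit 390) (nat_lit 357)) (XT.nd (nat_lit 78) (nat_lit 0) (nat_lit 0) (XT.lf (nat_lit 0) (nat_lit 3551567241) (nat_lit 76) (nat_lit 28656541651) (nat_lit 76) (nat_lit 21358653063) (nat_lit 12) (nat_lit 4) (nat_lit 13) (nat_lit 5) (nat_lit 13) (nat_lit 4) (nat_lit 454) (nat_lit 390) (nat_lit 356)) (XT.lf (nat_lit 0) (nat_lit 31122296161) (nat_lit 76) (nat_lit 16693444205) (nat_lit 76) (nat_lit 9352956827) (nat_lit 12) (nat_lit 4) (nat_lit 13) (nat_lit 5) (nat_lit 13) (nat_lit 4) (nat_lit 455) (nat_lit 390) (nat_lit 355))))) (XT.nd (nat_lit 234) (nat_lit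 228) (nat_lit 0) (XT.nd (nat_lit 78) (nat_lit 76) (nat_lit 0) (XT.lf (nat_lit 0) (nat_lit 3370702179) (nat_lit 152) (nat_lit 469991235) (nat_lit 76) (nat_lit 57221618810) (nat_lit 11) (nat_lit 5) (nat_lit 13) (nat_lit 5) (nat_lit 12) (nat_lit 4) (nat_lit 456) (nat_lit 390) (nat_lit 354)) (XT.nd (nat_lit 78) (nat_lit 0) (nat_lit 0) (XT.lf (nat_lit 0) (nat_lit 17267702914) (nat_lit 152) (nat_lit 37763478559) (nat_lit 0) (nat_lit 10204415010) (nat_lit 10) (nat_lit 5) (nat_lit 12) (nat_lit 4) (nat_lit 10) (nat_lit 4) (nat_lit 457) (nat_lit 390) (nat_lit 353)) (XT.lf (nat_lit 0) (nat_lit 32235536662) (nat_lit 152) (nat_lit 12369213129) (nat_lit 0) (nat_lit 25140042765) (nat_lit 10) (nat_lit 5) (nat_lit 12) (nat_lit 4) (nat_lit 10) (nat_lit 4) (nat_lit 458) (nat_lit 390) (nat_lit 352)))) (XT.nd (nat_lit 156) (nat_lit 152) (nat_lit 0) (XT.nd (nat_lit 78) (nat_lit 0) (nat_lit 0) (XT.lf (nat_lit 0)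 (nat_lit 15335994153) (nat_lit 76) (nat_lit 33198676630) (nat_lit 76) (nat_lit 26073362368) (nat_lit 9) (nat_lit 4) (nat_lit 10) (nat_lit 5) (nat_lit 10) (nat_lit 4) (nat_lit 459) (nat_lit 390) (nat_lit 351)) (XT.lf (nat_lit 0) (nat_lit 45497060889) (nat_lit 76) (nat_lit 20755236041) (nat_lit 76) (nat_lit 13602310331) (nat_lit 9) (nat_lit 4) (nat_lit 10) (nat_lit 5) (nat_lit 10) (nat_lit 4) (nat_lit 460) (nat_lit 390) (nat_lit 350))) (XT.nd (nat_lit 78) (nat_lit 152) (nat_lit 0) (XT.lf (nat_lit 0) (nat_lit 77883737277) (nat_lit 76) (nat_lit 7410167728) (nat_lit 76) (nat_lit 231675862) (nat_lit 9) (nat_lit 4) (nat_lit 10) (nat_lit 5) (nat_lit 10) (nat_lit 4) (nat_lit 461) (nat_lit 390) (nat_lit 349)) (XT.lf (nat_lit 0) (nat_lit 14118699119) (nat_lit 152) (nat_lit 70242705548) (nat_lit 0) (nat_lit 7259495088) (nat_lit 7) (nat_lit 5) (nat_lit 9) (nat_lit 4) (nat_lit 7) (nat_lit 4) (nat_lit 462)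 (nat_lit 390) (nat_lit 348)))))) (XT.nd (nat_lit 468) (nat_lit 228) (nat_lit 0) (XT.nd (nat_lit 234) (nat_lit 0) (nat_lit 0) (XT.nd (nat_lit 78) (nat_lit 76) (nat_lit 0) (XT.lf (nat_lit 0) (nat_lit 29783974517) (nat_lit 152) (nat_lit 45507036759) (nat_lit 0) (nat_lit 22903895383) (nat_lit 7) (nat_lit 5) (nat_lit 9) (nat_lit 4) (nat_lit 7) (nat_lit 4) (nat_lit 463) (nat_lit 390) (nat_lit 347)) (XT.nd (nat_lit 78) (nat_lit 76) (nat_lit 0) (XT.lf (nat_lit 0) (nat_lit 46623427058) (nat_lit 152) (nat_lit 18951341809) (nat_lit 0) (nat_lit 39724019125) (nat_lit 7) (nat_lit 5) (nat_lit 9) (nat_lit 4) (nat_lit 7) (nat_lit 4) (nat_lit 464) (nat_lit 390) (nat_lit 346)) (XT.lf (nat_lit 0) (nat_lit 9898562188) (nat_lit 76) (nat_lit 54992828198) (nat_lit 76) (nat_lit 48075523229) (nat_lit 6) (nat_lit 4) (nat_lit 7) (nat_lit 5) (nat_lit 7) (nat_lit 4) (nat_lit 465) (nat_lit 390) (nat_lit 345)))) (XT.nd (nat_lit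 78) (nat_lit 0) (nat_lit 0) (XT.lf (nat_lit 0) (nat_lit 41592533606) (nat_lit 76) (nat_lit 43288412799) (nat_lit 76) (nat_lit 36354536501) (nat_lit 6) (nat_lit 4) (nat_lit 7) (nat_lit 5) (nat_lit 7) (nat_lit 4) (nat_lit 466) (nat_lit 390) (nat_lit 344)) (XT.nd (nat_lit 78) (nat_lit 0) (nat_lit 0) (XT.lf (nat_lit 0) (nat_lit 75691771623) (nat_lit 76) (nat_lit 30713113317) (nat_lit 76) (nat_lit 23763893195) (nat_lit 6) (nat_lit 4) (nat_lit 7) (nat_lit 5) (nat_lit 7) (nat_lit 4) (nat_lit 467) (nat_lit 390) (nat_lit 343)) (XT.lf (nat_lit 0) (nat_lit 112398345798) (nat_lit 76) (nat_lit 17192409458) (nat_lit 76) (nat_lit 10228982091) (nat_lit 6) (nat_lit 4) (nat_lit 7) (nat_lit 5) (nat_lit 7) (nat_lit 4) (nat_lit 468) (nat_lit 390) (nat_lit 342))))) (XT.nd (nat_lit 234) (nat_lit 76) (nat_lit 0) (XT.nd (nat_lit 78) (nat_lit 0) (nat_lit 0) (XT.lf (nat_lit 0) (nat_lit 1670068025) (nat_lit 76) (nat_lit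 2547810144) (nat_lit 152) (nat_lit 146022989034) (nat_lit 4) (nat_lit 5) (nat_lit 5) (nat_lit 5) (nat_lit 6) (nat_lit 4) (nat_lit 469) (nat_lit 390) (nat_lit 341)) (XT.nd (nat_lit 78) (nat_lit 0) (nat_lit 0) (XT.lf (nat_lit 0) (nat_lit 20104735677) (nat_lit 152) (nat_lit 127901665979) (nat_lit 0) (nat_lit 13448771253) (nat_lit 4) (nat_lit 5) (nat_lit 6) (nat_lit 4) (nat_lit 4) (nat_lit 4) (nat_lit 470) (nat_lit 390) (nat_lit 340)) (XT.lf (nat_lit 0) (nat_lit 37254744471) (nat_lit 152) (nat_lit 105724230439) (nat_lit 0) (nat_lit 30588038935) (nat_lit 4) (nat_lit 5) (nat_lit 6) (nat_lit 4) (nat_lit 4) (nat_lit 4) (nat_lit 471) (nat_lit 390) (nat_lit 339)))) (XT.nd (nat_lit 156) (nat_lit 76) (nat_lit 0) (XT.nd (nat_lit 78) (nat_lit 0) (nat_lit 0) (XT.lf (nat_lit 0) (nat_lit 55729755778) (nat_lit 152) (nat_lit 81867292261) (nat_lit 0) (nat_lit 49053104766) (nat_lit 4) (nat_lit 5) (nat_lit 6) (nat_lit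 4) (nat_lit 4) (nat_lit 4) (nat_lit 472) (nat_lit 390) (nat_lit 338)) (XT.lf (nat_lit 0) (nat_lit 75639251144) (nat_lit 152) (nat_lit 56189476998) (nat_lit 0) (nat_lit 68953391360) (nat_lit 4) (nat_lit 5) (nat_lit 6) (nat_lit 4) (nat_lit 4) (nat_lit 4) (nat_lit 473) (nat_lit 390) (nat_lit 337))) (XT.nd (nat_lit 78) (nat_lit 76) (nat_lit 0) (XT.lf (nat_lit 0) (nat_lit 97101212766) (nat_lit 152) (nat_lit 28538619817) (nat_lit 0) (nat_lit 90406826340) (nat_lit 4) (nat_lit 5) (nat_lit 6) (nat_lit 4) (nat_lit 4) (nat_lit 4) (nat_lit 474) (nat_lit 390) (nat_lit 336)) (XT.lf (nat_lit 0) (nat_lit 1290438295) (nat_lit 76) (nat_lit 118972531701) (nat_lit 76) (nat_lit 112270250236) (nat_lit 3) (nat_lit 4) (nat_lit 4) (nat_lit 5) (nat_lit 4) (nat_lit 4) (nat_lit 475) (nat_lit 390) (nat_lit 335))))))) (XT.nd (nat_lit 1014) (nat_lit 0) (nat_lit 0) (XT.nd (nat_lit 468) (nat_lit 152) (nat_lit 0) (XT.nd (nat_lit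 234) (nat_lit 0) (nat_lit 0) (XT.nd (nat_lit 78) (nat_lit 0) (nat_lit 0) (XT.lf (nat_lit 0) (nat_lit 34453023024) (nat_lit 76) (nat_lit 111286101445) (nat_lit 76) (nat_lit 104576509760) (nat_lit 3) (nat_lit 4) (nat_lit 4) (nat_lit 5) (nat_lit 4) (nat_lit 4) (nat_lit 476) (nat_lit 390) (nat_lit 334)) (XT.nd (nat_lit 78) (nat_lit 0) (nat_lit 0) (XT.lf (nat_lit 0) (nat_lit 70202037734) (nat_lit 76) (nat_lit 103018307937) (nat_lit 76) (nat_lit 96301947529) (nat_lit 3) (nat_lit 4) (nat_lit 4) (nat_lit 5) (nat_lit 4) (nat_lit 4) (nat_lit 477) (nat_lit 390) (nat_lit 333)) (XT.lf (nat_lit 0) (nat_lit 108749328437) (nat_lit 76) (nat_lit 94120156844) (nat_lit 76) (nat_lit 87397529100) (nat_lit 3) (nat_lit 4) (nat_lit 4) (nat_lit 5) (nat_lit 4) (nat_lit 4) (nat_lit 478) (nat_lit 390) (nat_lit 332)))) (XT.nd (nat_lit 78) (nat_lit 0) (nat_lit 0) (XT.lf (nat_lit 0) (nat_lit 150323323524) (nat_lit 76) (nat_lit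 84538918383) (nat_lit 76) (nat_lit 77810487549) (nat_lit 3) (nat_lit 4) (nat_lit 4) (nat_lit 5) (nat_lit 4) (nat_lit 4) (nat_lit 479) (nat_lit 390) (nat_lit 331)) (XT.nd (nat_lit 78) (nat_lit 0) (nat_lit 0) (XT.lf (nat_lit 0) (nat_lit 195170387410) (nat_lit 76) (nat_lit 74217814842) (nat_lit 76) (nat_lit 67484010778) (nat_lit 3) (nat_lit 4) (nat_lit 4) (nat_lit 5) (nat_lit 4) (nat_lit 4) (nat_lit 480) (nat_lit 390) (nat_lit 330)) (XT.lf (nat_lit 0) (nat_lit 243556280472) (nat_lit 76) (nat_lit 63095684129) (nat_lit 76) (nat_lit 56356904851) (nat_lit 3) (nat_lit 4) (nat_lit 4) (nat_lit 5) (nat_lit 4) (nat_lit 4) (nat_lit 481) (nat_lit 390) (nat_lit 329))))) (XT.nd (nat_lit 234) (nat_lit 152) (nat_lit 0) (XT.nd (nat_lit 78) (nat_lit 0) (nat_lit 0) (XT.lf (nat_lit 0) (nat_lit 295767733930) (nat_lit 76) (nat_lit 51106617319) (nat_lit 76) (nat_lit 44363231362) (nat_lit 3) (nat_lit 4) (nat_lit 4)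 (nat_lit 5) (nat_lit 4) (nat_lit 4) (nat_lit 482) (nat_lit 390) (nat_lit 328)) (XT.nd (nat_lit 78) (nat_lit 0) (nat_lit 0) (XT.lf (nat_lit 0) (nat_lit 352114148989) (nat_lit 76) (nat_lit 38179568091) (nat_lit 76) (nat_lit 31431916690) (nat_lit 3) (nat_lit 4) (nat_lit 4) (nat_lit 5) (nat_lit 4) (nat_lit 4) (nat_lit 483) (nat_lit 390) (nat_lit 327)) (XT.lf (nat_lit 0) (nat_lit 412929430331) (nat_lit 76) (nat_lit 24237931709) (nat_lit 76) (nat_lit 17486330823) (nat_lit 3) (nat_lit 4) (nat_lit 4) (nat_lit 5) (nat_lit 4) (nat_lit 4) (nat_lit 484) (nat_lit 390) (nat_lit 326)))) (XT.nd (nat_lit 156) (nat_lit 0) (nat_lit 0) (XT.nd (nat_lit 78) (nat_lit 152) (nat_lit 0) (XT.lf (nat_lit 0) (nat_lit 478573964808) (nat_lit 76) (nat_lit 9199091068) (nat_lit 76) (nat_lit 2443833252) (nat_lit 3) (nat_lit 4) (nat_lit 4) (nat_lit 5) (nat_lit 4) (nat_lit 4) (nat_lit 485) (nat_lit 390) (nat_lit 325)) (XT.lf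 (nat_lit 0) (nat_lit 13794376900) (nat_lit 152) (nat_lit 507440713550) (nat_lit 0) (nat_lit 7357573221) (nat_lit 1) (nat_lit 5) (nat_lit 3) (nat_lit 4) (nat_lit 1) (nat_lit 4) (nat_lit 486) (nat_lit 390) (nat_lit 324))) (XT.nd (nat_lit 78) (nat_lit 0) (nat_lit 0) (XT.lf (nat_lit 0) (nat_lit 31592110000) (nat_lit 152) (nat_lit 513274762590) (nat_lit 0) (nat_lit 25152320389) (nat_lit 1) (nat_lit 5) (nat_lit 3) (nat_lit 4) (nat_lit 1) (nat_lit 4) (nat_lit 487) (nat_lit 390) (nat_lit 323)) (XT.lf (nat_lit 0) (nat_lit 50798560819) (nat_lit 152) (nat_lit 519606032638) (nat_lit 0) (nat_lit 44356006456) (nat_lit 1) (nat_lit 5) (nat_lit 3) (nat_lit 4) (nat_lit 1) (nat_lit 4) (nat_lit 488) (nat_lit 390) (nat_lit 322)))))) (XT.nd (nat_lit 546) (nat_lit 0) (nat_lit 0) (XT.nd (nat_lit 234) (nat_lit 0) (nat_lit 0) (XT.nd (nat_lit 78) (nat_lit 0) (nat_lit 0) (XT.lf (nat_lit 0) (nat_lit 71527545360) (nat_lit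 152) (nat_lit 526472042332) (nat_lit 0) (nat_lit 65082431042) (nat_lit 1) (nat_lit 5) (nat_lit 3) (nat_lit 4) (nat_lit 1) (nat_lit 4) (nat_lit 489) (nat_lit 390) (nat_lit 321)) (XT.nd (nat_lit 78) (nat_lit 0) (nat_lit 0) (XT.lf (nat_lit 0) (nat_lit 93901902051) (nat_lit 152) (nat_lit 533913479137) (nat_lit 0) (nat_lit 87454417404) (nat_lit 1) (nat_lit 5) (nat_lit 3) (nat_lit 4) (nat_lit 1) (nat_lit 4) (nat_lit 490) (nat_lit 390) (nat_lit 320)) (XT.lf (nat_lit 0) (nat_lit 118054219672) (nat_lit 152) (nat_lit 541974440456) (nat_lit 0) (nat_lit 111604540276) (nat_lit 1) (nat_lit 5) (nat_lit 3) (nat_lit 4) (nat_lit 1) (nat_lit 4) (nat_lit 491) (nat_lit 390) (nat_lit 319)))) (XT.nd (nat_lit 156) (nat_lit 0) (nat_lit 0) (XT.nd (nat_lit 78) (nat_lit 0) (nat_lit 0) (XT.lf (nat_lit 0) (nat_lit 144127623069) (nat_lit 152) (nat_lit 550702694948) (nat_lit 0) (nat_lit 137675911498) (nat_lit 1) (nat_lit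 5) (nat_lit 3) (nat_lit 4) (nat_lit 1) (nat_lit 4) (nat_lit 492) (nat_lit 390) (nat_lit 318)) (XT.lf (nat_lit 0) (nat_lit 172276621298) (nat_lit 152) (nat_lit 560149965604) (nat_lit 0) (nat_lit 165823028083) (nat_lit 1) (nat_lit 5) (nat_lit 3) (nat_lit 4) (nat_lit 1) (nat_lit 4) (nat_lit 493) (nat_lit 390) (nat_lit 317))) (XT.nd (nat_lit 78) (nat_lit 0) (nat_lit 0) (XT.lf (nat_lit 0) (nat_lit 202668023238) (nat_lit 152) (nat_lit 570372236249) (nat_lit 0) (nat_lit 196212687761) (nat_lit 1) (nat_lit 5) (nat_lit 3) (nat_lit 4) (nat_lit 1) (nat_lit 4) (nat_lit 494) (nat_lit 390) (nat_lit 316)) (XT.lf (nat_lit 0) (nat_lit 235481926086) (nat_lit 152) (nat_lit 581430083302) (nat_lit 0) (nat_lit 229024977402) (nat_lit 1) (nat_lit 5) (nat_lit 3) (nat_lit 4) (nat_lit 1) (nat_lit 4) (nat_lit 495) (nat_lit 390) (nat_lit 315))))) (XT.nd (nat_lit 234) (nat_lit 0) (nat_lit 0) (XT.nd (nat_lit 78) (nat_lit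 0) (nat_lit 0) (XT.lf (nat_lit 0) (nat_lit 270912782599) (nat_lit 152) (nat_lit 593389034746) (nat_lit 0) (nat_lit 264454340206) (nat_lit 1) (nat_lit 5) (nat_lit 3) (nat_lit 4) (nat_lit 1) (nat_lit 4) (nat_lit 496) (nat_lit 390) (nat_lit 314)) (XT.nd (nat_lit 78) (nat_lit 0) (nat_lit 0) (XT.lf (nat_lit 0) (nat_lit 309170553408) (nat_lit 152) (nat_lit 606319958440) (nat_lit 0) (nat_lit 302710727951) (nat_lit 1) (nat_lit 5) (nat_lit 3) (nat_lit 4) (nat_lit 1) (nat_lit 4) (nat_lit 497) (nat_lit 390) (nat_lit 313)) (XT.lf (nat_lit 0) (nat_lit 350481951229) (nat_lit 152) (nat_lit 620299482082) (nat_lit 0) (nat_lit 344020845157) (nat_lit 1) (nat_lit 5) (nat_lit 3) (nat_lit 4) (nat_lit 1) (nat_lit 4) (nat_lit 498) (nat_lit 390) (nat_lit 312)))) (XT.nd (nat_lit 56238) (nat_lit 0) (nat_lit 5548) (XT.nd (nat_lit 56160) (nat_lit 0) (nat_lit 6004) (XT.lf (nat_lit 0) (nat_lit 395091784346) (nat_lit 152)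 (nat_lit 635410447292) (nat_lit 0) (nat_lit 388629492520) (nat_lit 1) (nat_lit 5) (nat_lit 3) (nat_lit 4) (nat_lit 1) (nat_lit 4) (nat_lit 499) (nat_lit 390) (nat_lit 311)) (XT.lf (nat_lit 0) (nat_lit 24576819) (nat_lit 304) (nat_lit 4378139460) (nat_lit 0) (nat_lit 24576819) (nat_lit 80) (nat_lit 5) (nat_lit 84) (nat_lit 4) (nat_lit 80) (nat_lit 4) (nat_lit 418) (nat_lit 391) (nat_lit 391))) (XT.nd (nat_lit 78) (nat_lit 228) (nat_lit 0) (XT.lf (nat_lit 0) (nat_lit 3174173130) (nat_lit 228) (nat_lit 3705392842) (nat_lit 228) (nat_lit 2261793112) (nat_lit 77) (nat_lit 4) (nat_lit 80) (nat_lit 5) (nat_lit 80) (nat_lit 4) (nat_lit 419) (nat_lit 391) (nat_lit 390)) (XT.lf (nat_lit 0) (nat_lit 4513515656) (nat_lit 228) (nat_lit 3075172349) (nat_lit 0) (nat_lit 1865643135) (nat_lit 74) (nat_lit 5) (nat_lit 77) (nat_lit 4) (nat_lit 74) (nat_lit 4) (nat_lit 420) (nat_lit 391) (nat_lit 389))))))))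
noncomputable def xc31 : XT := (XT.nd (nat_lit 2106) (nat_lit 1140) (nat_lit 0) (XT.nd (nat_lit 1014) (nat_lit 1368) (nat_lit 0) (XT.nd (nat_lit 468) (nat_lit 1216) (nat_lit 0) (XT.nd (nat_lit 234) (nat_lit 760) (nat_lit 0) (XT.nd (nat_lit 78) (nat_lit 532) (nat_lit 0) (XT.lf (nat_lit 0) (nat_lit 1812841314) (nat_lit 304) (nat_lit 110266006) (nat_lit 76) (nat_lit 7870219131) (nat_lit 70) (nat_lit 5) (nat_lit 74) (nat_lit 5) (nat_lit 71) (nat_lit 4) (nat_lit 421) (nat_lit 391) (nat_lit 388)) (XT.nd (nat_lit 78) (nat_lit 228) (nat_lit 0) (XT.lf (nat_lit 0) (nat_lit 2998157421) (nat_lit 152) (nat_lit 5920929068) (nat_lit 152) (nat_lit 1237122949) (nat_lit 66) (nat_lit 4) (nat_lit 68) (nat_lit 5) (nat_lit 68) (nat_lit 4) (nat_lit 422) (nat_lit 391) (nat_lit 387)) (XT.lf (nat_lit 0) (nat_lit 5774184649) (nat_lit 228) (nat_lit 4376389040) (nat_lit 0) (nat_lit 396808432) (nat_lit 63) (nat_lit 5)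 (nat_lit 66) (nat_lit 4) (nat_lit 63) (nat_lit 4) (nat_lit 423) (nat_lit 391) (nat_lit 386)))) (XT.nd (nat_lit 78) (nat_lit 532) (nat_lit 0) (XT.lf (nat_lit 0) (nat_lit 2258378416) (nat_lit 228) (nat_lit 1596412021) (nat_lit 76) (nat_lit 7112346811) (nat_lit 60) (nat_lit 5) (nat_lit 63) (nat_lit 5) (nat_lit 61) (nat_lit 4) (nat_lit 424) (nat_lit 391) (nat_lit 385)) (XT.nd (nat_lit 78) (nat_lit 228) (nat_lit 0) (XT.lf (nat_lit 0) (nat_lit 1239282710) (nat_lit 152) (nat_lit 8428131482) (nat_lit 152) (nat_lit 1750101183) (nat_lit 56) (nat_lit 4) (nat_lit 58) (nat_lit 5) (nat_lit 58) (nat_lit 4) (nat_lit 425) (nat_lit 391) (nat_lit 384)) (XT.lf (nat_lit 0) (nat_lit 4104201316) (nat_lit 152) (nat_lit 1493464915) (nat_lit 228) (nat_lit 6300965628) (nat_lit 53) (nat_lit 5) (nat_lit 55) (nat_lit 5) (nat_lit 56) (nat_lit 4) (nat_lit 426) (nat_lit 391) (nat_lit 383))))) (XT.nd (nat_lit 234) (nat_lit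 684) (nat_lit 0) (XT.nd (nat_lit 78) (nat_lit 304) (nat_lit 0) (XT.lf (nat_lit 0) (nat_lit 1054483827) (nat_lit 228) (nat_lit 5469419066) (nat_lit 76) (nat_lit 5890469839) (nat_lit 50) (nat_lit 5) (nat_lit 53) (nat_lit 5) (nat_lit 51) (nat_lit 4) (nat_lit 427) (nat_lit 391) (nat_lit 382)) (XT.nd (nat_lit 78) (nat_lit 228) (nat_lit 0) (XT.lf (nat_lit 0) (nat_lit 8772131919) (nat_lit 152) (nat_lit 3228874985) (nat_lit 0) (nat_lit 965520871) (nat_lit 49) (nat_lit 5) (nat_lit 51) (nat_lit 4) (nat_lit 49) (nat_lit 4) (nat_lit 428) (nat_lit 391) (nat_lit 381)) (XT.lf (nat_lit 0) (nat_lit 3506810787) (nat_lit 228) (nat_lit 1116617792) (nat_lit 76) (nat_lit 8932904179) (nat_lit 46) (nat_lit 5) (nat_lit 49) (nat_lit 5) (nat_lit 47) (nat_lit 4) (nat_lit 429) (nat_lit 391) (nat_lit 380)))) (XT.nd (nat_lit 156) (nat_lit 304) (nat_lit 0) (XT.nd (nat_lit 78) (nat_lit 152) (nat_lit 0) (XT.lf (nat_lit 0)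 (nat_lit 910153891) (nat_lit 152) (nat_lit 10813756949) (nat_lit 152) (nat_lit 2463673033) (nat_lit 43) (nat_lit 4) (nat_lit 45) (nat_lit 5) (nat_lit 45) (nat_lit 4) (nat_lit 430) (nat_lit 391) (nat_lit 379)) (XT.lf (nat_lit 0) (nat_lit 2778852880) (nat_lit 76) (nat_lit 2848635625) (nat_lit 152) (nat_lit 9233316530) (nat_lit 41) (nat_lit 5) (nat_lit 42) (nat_lit 5) (nat_lit 43) (nat_lit 4) (nat_lit 431) (nat_lit 391) (nat_lit 378))) (XT.nd (nat_lit 78) (nat_lit 152) (nat_lit 0) (XT.lf (nat_lit 0) (nat_lit 4450676419) (nat_lit 152) (nat_lit 9915323403) (nat_lit 152) (nat_lit 1215576415) (nat_lit 39) (nat_lit 4) (nat_lit 41) (nat_lit 5) (nat_lit 41) (nat_lit 4) (nat_lit 432) (nat_lit 391) (nat_lit 377)) (XT.lf (nat_lit 0) (nat_lit 5848307436) (nat_lit 76) (nat_lit 1410577364) (nat_lit 152) (nat_lit 9092663182) (nat_lit 37) (nat_lit 5) (nat_lit 38) (nat_lit 5) (nat_lit 39) (nat_lit 4) (nat_lit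 433) (nat_lit 391) (nat_lit 376)))))) (XT.nd (nat_lit 546) (nat_lit 608) (nat_lit 0) (XT.nd (nat_lit 234) (nat_lit 456) (nat_lit 0) (XT.nd (nat_lit 78) (nat_lit 228) (nat_lit 0) (XT.lf (nat_lit 0) (nat_lit 6941849696) (nat_lit 76) (nat_lit 9564527666) (nat_lit 76) (nat_lit 668885395) (nat_lit 36) (nat_lit 4) (nat_lit 37) (nat_lit 5) (nat_lit 37) (nat_lit 4) (nat_lit 434) (nat_lit 391) (nat_lit 375)) (XT.nd (nat_lit 78) (nat_lit 76) (nat_lit 0) (XT.lf (nat_lit 0) (nat_lit 7657800453) (nat_lit 76) (nat_lit 549547603) (nat_lit 152) (nat_lit 9848552276) (nat_lit 34) (nat_lit 5) (nat_lit 35) (nat_lit 5) (nat_lit 36) (nat_lit 4) (nat_lit 435) (nat_lit 391) (nat_lit 374)) (XT.lf (nat_lit 0) (nat_lit 7926309897) (nat_lit 76) (nat_lit 10020780005) (nat_lit 76) (nat_lit 1050528768) (nat_lit 33) (nat_lit 4) (nat_lit 34) (nat_lit 5) (nat_lit 34) (nat_lit 4) (nat_lit 436) (nat_lit 391) (nat_lit 373))))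 (XT.nd (nat_lit 156) (nat_lit 228) (nat_lit 0) (XT.nd (nat_lit 78) (nat_lit 76) (nat_lit 0) (XT.lf (nat_lit 0) (nat_lit 7680332111) (nat_lit 76) (nat_lit 550089986) (nat_lit 152) (nat_lit 11775193714) (nat_lit 31) (nat_lit 5) (nat_lit 32) (nat_lit 5) (nat_lit 33) (nat_lit 4) (nat_lit 437) (nat_lit 391) (nat_lit 372)) (XT.lf (nat_lit 0) (nat_lit 6797645878) (nat_lit 76) (nat_lit 11617865561) (nat_lit 76) (nat_lit 2667973324) (nat_lit 30) (nat_lit 4) (nat_lit 31) (nat_lit 5) (nat_lit 31) (nat_lit 4) (nat_lit 438) (nat_lit 391) (nat_lit 371))) (XT.nd (nat_lit 78) (nat_lit 76) (nat_lit 0) (XT.lf (nat_lit 0) (nat_lit 5218343911) (nat_lit 76) (nat_lit 1781326348) (nat_lit 152) (nat_lit 15239269014) (nat_lit 28) (nat_lit 5) (nat_lit 29) (nat_lit 5) (nat_lit 30) (nat_lit 4) (nat_lit 439) (nat_lit 391) (nat_lit 370)) (XT.lf (nat_lit 0) (nat_lit 2754353831) (nat_lit 76) (nat_lit 14788199467) (nat_lit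 76) (nat_lit 5932338431) (nat_lit 27) (nat_lit 4) (nat_lit 28) (nat_lit 5) (nat_lit 28) (nat_lit 4) (nat_lit 440) (nat_lit 391) (nat_lit 369))))) (XT.nd (nat_lit 234) (nat_lit 380) (nat_lit 0) (XT.nd (nat_lit 78) (nat_lit 152) (nat_lit 0) (XT.lf (nat_lit 0) (nat_lit 4085816485) (nat_lit 152) (nat_lit 627797880) (nat_lit 76) (nat_lit 20087976925) (nat_lit 26) (nat_lit 5) (nat_lit 28) (nat_lit 5) (nat_lit 27) (nat_lit 4) (nat_lit 441) (nat_lit 391) (nat_lit 368)) (XT.nd (nat_lit 78) (nat_lit 76) (nat_lit 0) (XT.lf (nat_lit 0) (nat_lit 14916415471) (nat_lit 152) (nat_lit 5091164315) (nat_lit 0) (nat_lit 6211053876) (nat_lit 25) (nat_lit 5) (nat_lit 27) (nat_lit 4) (nat_lit 25) (nat_lit 4) (nat_lit 442) (nat_lit 391) (nat_lit 367)) (XT.lf (nat_lit 0) (nat_lit 16951692611) (nat_lit 76) (nat_lit 9808066953) (nat_lit 76) (nat_lit 981975198) (nat_lit 24) (nat_lit 4) (nat_lit 25) (nat_lit 5) (nat_lit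 25) (nat_lit 4) (nat_lit 443) (nat_lit 391) (nat_lit 366)))) (XT.nd (nat_lit 156) (nat_lit 152) (nat_lit 0) (XT.nd (nat_lit 78) (nat_lit 76) (nat_lit 0) (XT.lf (nat_lit 0) (nat_lit 9926081534) (nat_lit 152) (nat_lit 18034486083) (nat_lit 0) (nat_lit 1413815878) (nat_lit 22) (nat_lit 5) (nat_lit 24) (nat_lit 4) (nat_lit 22) (nat_lit 4) (nat_lit 444) (nat_lit 391) (nat_lit 365)) (XT.lf (nat_lit 0) (nat_lit 4055279031) (nat_lit 76) (nat_lit 17840618026) (nat_lit 76) (nat_lit 9229774606) (nat_lit 21) (nat_lit 4) (nat_lit 22) (nat_lit 5) (nat_lit 22) (nat_lit 4) (nat_lit 445) (nat_lit 391) (nat_lit 364))) (XT.nd (nat_lit 78) (nat_lit 76) (nat_lit 0) (XT.lf (nat_lit 0) (nat_lit 1876752762) (nat_lit 152) (nat_lit 4854775964) (nat_lit 76) (nat_lit 26277715049) (nat_lit 20) (nat_lit 5) (nat_lit 22) (nat_lit 5) (nat_lit 21) (nat_lit 4) (nat_lit 446) (nat_lit 391) (nat_lit 363)) (XT.lf (nat_lit 0) (nat_lit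 13763504119) (nat_lit 152) (nat_lit 15866403966) (nat_lit 0) (nat_lit 5395281575) (nat_lit 19) (nat_lit 5) (nat_lit 21) (nat_lit 4) (nat_lit 19) (nat_lit 4) (nat_lit 447) (nat_lit 391) (nat_lit 362))))))) (XT.nd (nat_lit 1014) (nat_lit 380) (nat_lit 0) (XT.nd (nat_lit 468) (nat_lit 304) (nat_lit 0) (XT.nd (nat_lit 234) (nat_lit 228) (nat_lit 0) (XT.nd (nat_lit 78) (nat_lit 152) (nat_lit 0) (XT.lf (nat_lit 0) (nat_lit 7866319471) (nat_lit 76) (nat_lit 18885654735) (nat_lit 76) (nat_lit 10442904374) (nat_lit 18) (nat_lit 4) (nat_lit 19) (nat_lit 5) (nat_lit 19) (nat_lit 4) (nat_lit 448) (nat_lit 391) (nat_lit 361)) (XT.nd (nat_lit 78) (nat_lit 76) (nat_lit 0) (XT.lf (nat_lit 0) (nat_lit 1316011106) (nat_lit 152) (nat_lit 5813934829) (nat_lit 76) (nat_lit 32401514972) (nat_lit 17) (nat_lit 5) (nat_lit 19) (nat_lit 5) (nat_lit 18) (nat_lit 4) (nat_lit 449) (nat_lit 391) (nat_lit 360)) (XT.lf (nat_lit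 0) (nat_lit 13900997997) (nat_lit 152) (nat_lit 22399146627) (nat_lit 0) (nat_lit 5733709247) (nat_lit 16) (nat_lit 5) (nat_lit 18) (nat_lit 4) (nat_lit 16) (nat_lit 4) (nat_lit 450) (nat_lit 391) (nat_lit 359)))) (XT.nd (nat_lit 78) (nat_lit 152) (nat_lit 0) (XT.lf (nat_lit 0) (nat_lit 2248215312) (nat_lit 76) (nat_lit 25353214738) (nat_lit 76) (nat_lit 17129580670) (nat_lit 15) (nat_lit 4) (nat_lit 16) (nat_lit 5) (nat_lit 16) (nat_lit 4) (nat_lit 451) (nat_lit 391) (nat_lit 358)) (XT.nd (nat_lit 78) (nat_lit 152) (nat_lit 0) (XT.lf (nat_lit 0) (nat_lit 29382817066) (nat_lit 76) (nat_lit 13262286388) (nat_lit 76) (nat_lit 4986480729) (nat_lit 15) (nat_lit 4) (nat_lit 16) (nat_lit 5) (nat_lit 16) (nat_lit 4) (nat_lit 452) (nat_lit 391) (nat_lit 357)) (XT.lf (nat_lit 0) (nat_lit 7778233031) (nat_lit 76) (nat_lit 76569758) (nat_lit 152) (nat_lit 42903715303) (nat_lit 13) (nat_lit 5) (nat_lit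 14) (nat_lit 5) (nat_lit 15) (nat_lit 4) (nat_lit 453) (nat_lit 391) (nat_lit 356))))) (XT.nd (nat_lit 234) (nat_lit 228) (nat_lit 0) (XT.nd (nat_lit 78) (nat_lit 76) (nat_lit 0) (XT.lf (nat_lit 0) (nat_lit 21964675659) (nat_lit 152) (nat_lit 18151697437) (nat_lit 0) (nat_lit 13994350501) (nat_lit 13) (nat_lit 5) (nat_lit 15) (nat_lit 4) (nat_lit 13) (nat_lit 4) (nat_lit 454) (nat_lit 391) (nat_lit 355)) (XT.nd (nat_lit 78) (nat_lit 0) (nat_lit 0) (XT.lf (nat_lit 0) (nat_lit 8699009229) (nat_lit 76) (nat_lit 28520529066) (nat_lit 76) (nat_lit 20510760583) (nat_lit 12) (nat_lit 4) (nat_lit 13) (nat_lit 5) (nat_lit 13) (nat_lit 4) (nat_lit 455) (nat_lit 391) (nat_lit 354)) (XT.lf (nat_lit 0) (nat_lit 38115150788) (nat_lit 76) (nat_lit 15780275374) (nat_lit 76) (nat_lit 7733985294) (nat_lit 12) (nat_lit 4) (nat_lit 13) (nat_lit 5) (nat_lit 13) (nat_lit 4) (nat_lit 456) (nat_lit 391) (nat_lit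 353)))) (XT.nd (nat_lit 156) (nat_lit 76) (nat_lit 0) (XT.nd (nat_lit 78) (nat_lit 0) (nat_lit 0) (XT.lf (nat_lit 0) (nat_lit 3855526785) (nat_lit 76) (nat_lit 1966733291) (nat_lit 152) (nat_lit 60015888966) (nat_lit 10) (nat_lit 5) (nat_lit 11) (nat_lit 5) (nat_lit 12) (nat_lit 4) (nat_lit 457) (nat_lit 391) (nat_lit 352)) (XT.lf (nat_lit 0) (nat_lit 20708635599) (nat_lit 152) (nat_lit 36659307806) (nat_lit 0) (nat_lit 12983475832) (nat_lit 10) (nat_lit 5) (nat_lit 12) (nat_lit 4) (nat_lit 10) (nat_lit 4) (nat_lit 458) (nat_lit 391) (nat_lit 351))) (XT.nd (nat_lit 78) (nat_lit 76) (nat_lit 0) (XT.lf (nat_lit 0) (nat_lit 36721339273) (nat_lit 152) (nat_lit 9539075145) (nat_lit 0) (nat_lit 28968568058) (nat_lit 10) (nat_lit 5) (nat_lit 12) (nat_lit 4) (nat_lit 10) (nat_lit 4) (nat_lit 459) (nat_lit 391) (nat_lit 350)) (XT.lf (nat_lit 0) (nat_lit 20216550298) (nat_lit 76) (nat_lit 34023641684)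 (nat_lit 76) (nat_lit 26245304313) (nat_lit 9) (nat_lit 4) (nat_lit 10) (nat_lit 5) (nat_lit 10) (nat_lit 4) (nat_lit 460) (nat_lit 391) (nat_lit 349)))))) (XT.nd (nat_lit 546) (nat_lit 152) (nat_lit 0) (XT.nd (nat_lit 234) (nat_lit 76) (nat_lit 0) (XT.nd (nat_lit 78) (nat_lit 152) (nat_lit 0) (XT.lf (nat_lit 0) (nat_lit 52519859660) (nat_lit 76) (nat_lit 20720350224) (nat_lit 76) (nat_lit 12918340486) (nat_lit 9) (nat_lit 4) (nat_lit 10) (nat_lit 5) (nat_lit 10) (nat_lit 4) (nat_lit 461) (nat_lit 391) (nat_lit 348)) (XT.nd (nat_lit 78) (nat_lit 76) (nat_lit 0) (XT.lf (nat_lit 0) (nat_lit 1346163769) (nat_lit 152) (nat_lit 5064292868) (nat_lit 76) (nat_lit 85877913351) (nat_lit 8) (nat_lit 5) (nat_lit 10) (nat_lit 5) (nat_lit 9) (nat_lit 4) (nat_lit 462) (nat_lit 391) (nat_lit 347)) (XT.lf (nat_lit 0) (nat_lit 16790330429) (nat_lit 152) (nat_lit 72763461623) (nat_lit 0) (nat_lit 9319641062)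 (nat_lit 7) (nat_lit 5) (nat_lit 9) (nat_lit 4) (nat_lit 7) (nat_lit 4) (nat_lit 463) (nat_lit 391) (nat_lit 346)))) (XT.nd (nat_lit 156) (nat_lit 76) (nat_lit 0) (XT.nd (nat_lit 78) (nat_lit 0) (nat_lit 0) (XT.lf (nat_lit 0) (nat_lit 33594595608) (nat_lit 152) (nat_lit 46278469728) (nat_lit 0) (nat_lit 26106009206) (nat_lit 7) (nat_lit 5) (nat_lit 9) (nat_lit 4) (nat_lit 7) (nat_lit 4) (nat_lit 464) (nat_lit 391) (nat_lit 345)) (XT.lf (nat_lit 0) (nat_lit 51675433750) (nat_lit 152) (nat_lit 17810847329) (nat_lit 0) (nat_lit 44170276018) (nat_lit 7) (nat_lit 5) (nat_lit 9) (nat_lit 4) (nat_lit 7) (nat_lit 4) (nat_lit 465) (nat_lit 391) (nat_lit 344))) (XT.nd (nat_lit 78) (nat_lit 0) (nat_lit 0) (XT.lf (nat_lit 0) (nat_lit 13231596311) (nat_lit 76) (nat_lit 58114976551) (nat_lit 76) (nat_lit 50594474995) (nat_lit 6) (nat_lit 4) (nat_lit 7) (nat_lit 5) (nat_lit 7) (nat_lit 4) (nat_lit 466) (nat_lit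 391) (nat_lit 343)) (XT.lf (nat_lit 0) (nat_lit 47272852172) (nat_lit 76) (nat_lit 45568821098) (nat_lit 76) (nat_lit 38034112298) (nat_lit 6) (nat_lit 4) (nat_lit 7) (nat_lit 5) (nat_lit 7) (nat_lit 4) (nat_lit 467) (nat_lit 391) (nat_lit 342))))) (XT.nd (nat_lit 234) (nat_lit 0) (nat_lit 0) (XT.nd (nat_lit 78) (nat_lit 152) (nat_lit 0) (XT.lf (nat_lit 0) (nat_lit 83925739165) (nat_lit 76) (nat_lit 32075102452) (nat_lit 76) (nat_lit 24527238796) (nat_lit 6) (nat_lit 4) (nat_lit 7) (nat_lit 5) (nat_lit 7) (nat_lit 4) (nat_lit 468) (nat_lit 391) (nat_lit 341)) (XT.nd (nat_lit 78) (nat_lit 152) (nat_lit 0) (XT.lf (nat_lit 0) (nat_lit 123407459584) (nat_lit 76) (nat_lit 17553857835) (nat_lit 76) (nat_lit 9993813757) (nat_lit 6) (nat_lit 4) (nat_lit 7) (nat_lit 5) (nat_lit 7) (nat_lit 4) (nat_lit 469) (nat_lit 391) (nat_lit 340)) (XT.lf (nat_lit 0) (nat_lit 3765523627) (nat_lit 76) (nat_lit 1764645091)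 (nat_lit 152) (nat_lit 156681207146) (nat_lit 4) (nat_lit 5) (nat_lit 5) (nat_lit 5) (nat_lit 6) (nat_lit 4) (nat_lit 470) (nat_lit 391) (nat_lit 339)))) (XT.nd (nat_lit 156) (nat_lit 0) (nat_lit 0) (XT.nd (nat_lit 78) (nat_lit 0) (nat_lit 0) (XT.lf (nat_lit 0) (nat_lit 22630031173) (nat_lit 152) (nat_lit 136286390741) (nat_lit 0) (nat_lit 15409302606) (nat_lit 4) (nat_lit 5) (nat_lit 6) (nat_lit 4) (nat_lit 4) (nat_lit 4) (nat_lit 471) (nat_lit 391) (nat_lit 338)) (XT.lf (nat_lit 0) (nat_lit 41084120920) (nat_lit 152) (nat_lit 112471605433) (nat_lit 0) (nat_lit 33854183580) (nat_lit 4) (nat_lit 5) (nat_lit 6) (nat_lit 4) (nat_lit 4) (nat_lit 4) (nat_lit 472) (nat_lit 391) (nat_lit 337))) (XT.nd (nat_lit 78) (nat_lit 0) (nat_lit 0) (XT.lf (nat_lit 0) (nat_lit 60974244472) (nat_lit 152) (nat_lit 86832820604) (nat_lit 0) (nat_lit 53735780490) (nat_lit 4) (nat_lit 5) (nat_lit 6) (nat_lit 4) (nat_lit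 4) (nat_lit 4) (nat_lit 473) (nat_lit 391) (nat_lit 336)) (XT.lf (nat_lit 0) (nat_lit 82418269229) (nat_lit 152) (nat_lit 59218102715) (nat_lit 0) (nat_lit 75171910208) (nat_lit 4) (nat_lit 5) (nat_lit 6) (nat_lit 4) (nat_lit 4) (nat_lit 4) (nat_lit 474) (nat_lit 391) (nat_lit 335))))))))
noncomputable def xc32 : XT := (XT.nd (nat_lit 57954) (nat_lit 0) (nat_lit 1748) (XT.nd (nat_lit 1014) (nat_lit 0) (nat_lit 0) (XT.nd (nat_lit 468) (nat_lit 152) (nat_lit 0) (XT.nd (nat_lit 234) (nat_lit 0) (nat_lit 0) (XT.nd (nat_lit 78) (nat_lit 76) (nat_lit 0) (XT.lf (nat_lit 0) (nat_lit 105543270892) (nat_lit 152) (nat_lit 29463808993) (nat_lit 0) (nat_lit 98289601651) (nat_lit 4) (nat_lit 5) (nat_lit 6) (nat_lit 4) (nat_lit 4) (nat_lit 4) (nat_lit 475) (nat_lit 391) (nat_lit 334)) (XT.nd (nat_lit 78) (nat_lit 0) (nat_lit 0) (XT.lf (nat_lit 0) (nat_lit 2692561072) (nat_lit 76) (nat_lit 127835763861) (nat_lit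 76) (nat_lit 120575325897) (nat_lit 3) (nat_lit 4) (nat_lit 4) (nat_lit 5) (nat_lit 4) (nat_lit 4) (nat_lit 476) (nat_lit 391) (nat_lit 333)) (XT.lf (nat_lit 0) (nat_lit 38411938674) (nat_lit 76) (nat_lit 119582905880) (nat_lit 76) (nat_lit 112316200579) (nat_lit 3) (nat_lit 4) (nat_lit 4) (nat_lit 5) (nat_lit 4) (nat_lit 4) (nat_lit 477) (nat_lit 391) (nat_lit 332)))) (XT.nd (nat_lit 78) (nat_lit 0) (nat_lit 0) (XT.lf (nat_lit 0) (nat_lit 76931787612) (nat_lit 76) (nat_lit 110698583979) (nat_lit 76) (nat_lit 103426075589) (nat_lit 3) (nat_lit 4) (nat_lit 4) (nat_lit 5) (nat_lit 4) (nat_lit 4) (nat_lit 478) (nat_lit 391) (nat_lit 331)) (XT.nd (nat_lit 78) (nat_lit 0) (nat_lit 0) (XT.lf (nat_lit 0) (nat_lit 118480373656) (nat_lit 76) (nat_lit 101130150324) (nat_lit 76) (nat_lit 93852268704) (nat_lit 3) (nat_lit 4) (nat_lit 4) (nat_lit 5) (nat_lit 4) (nat_lit 4) (nat_lit 479) (nat_lit 391) (nat_lit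 330)) (XT.lf (nat_lit 0) (nat_lit 163303910651) (nat_lit 76) (nat_lit 90820903086) (nat_lit 76) (nat_lit 83538046253) (nat_lit 3) (nat_lit 4) (nat_lit 4) (nat_lit 5) (nat_lit 4) (nat_lit 4) (nat_lit 480) (nat_lit 391) (nat_lit 329))))) (XT.nd (nat_lit 234) (nat_lit 152) (nat_lit 0) (XT.nd (nat_lit 78) (nat_lit 0) (nat_lit 0) (XT.lf (nat_lit 0) (nat_lit 211668019555) (nat_lit 76) (nat_lit 79709750431) (nat_lit 76) (nat_lit 72422286918) (nat_lit 3) (nat_lit 4) (nat_lit 4) (nat_lit 5) (nat_lit 4) (nat_lit 4) (nat_lit 481) (nat_lit 391) (nat_lit 328)) (XT.nd (nat_lit 78) (nat_lit 0) (nat_lit 0) (XT.lf (nat_lit 0) (nat_lit 263859302495) (nat_lit 76) (nat_lit 67730848490) (nat_lit 76) (nat_lit 60439119533) (nat_lit 3) (nat_lit 4) (nat_lit 4) (nat_lit 5) (nat_lit 4) (nat_lit 4) (nat_lit 482) (nat_lit 391) (nat_lit 327)) (XT.lf (nat_lit 0) (nat_lit 320187041150) (nat_lit 76) (nat_lit 54813211177)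 (nat_lit 76) (nat_lit 47517532736) (nat_lit 3) (nat_lit 4) (nat_lit 4) (nat_lit 5) (nat_lit 4) (nat_lit 4) (nat_lit 483) (nat_lit 391) (nat_lit 326)))) (XT.nd (nat_lit 156) (nat_lit 152) (nat_lit 0) (XT.nd (nat_lit 78) (nat_lit 0) (nat_lit 0) (XT.lf (nat_lit 0) (nat_lit 380985029524) (nat_lit 76) (nat_lit 40880289532) (nat_lit 76) (nat_lit 33580954160) (nat_lit 3) (nat_lit 4) (nat_lit 4) (nat_lit 5) (nat_lit 4) (nat_lit 4) (nat_lit 484) (nat_lit 391) (nat_lit 325)) (XT.lf (nat_lit 0) (nat_lit 446613551994) (nat_lit 76) (nat_lit 25849518091) (nat_lit 76) (nat_lit 18546796673) (nat_lit 3) (nat_lit 4) (nat_lit 4) (nat_lit 5) (nat_lit 4) (nat_lit 4) (nat_lit 485) (nat_lit 391) (nat_lit 324))) (XT.nd (nat_lit 78) (nat_lit 152) (nat_lit 0) (XT.lf (nat_lit 0) (nat_lit 517461518323) (nat_lit 76) (nat_lit 9631825618) (nat_lit 76) (nat_lit 2325968971) (nat_lit 3) (nat_lit 4) (nat_lit 4) (nat_lit 5)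 (nat_lit 4) (nat_lit 4) (nat_lit 486) (nat_lit 391) (nat_lit 323)) (XT.lf (nat_lit 0) (nat_lit 15192540388) (nat_lit 152) (nat_lit 547440984228) (nat_lit 0) (nat_lit 8231816925) (nat_lit 1) (nat_lit 5) (nat_lit 3) (nat_lit 4) (nat_lit 1) (nat_lit 4) (nat_lit 487) (nat_lit 391) (nat_lit 322)))))) (XT.nd (nat_lit 468) (nat_lit 0) (nat_lit 0) (XT.nd (nat_lit 234) (nat_lit 0) (nat_lit 0) (XT.nd (nat_lit 78) (nat_lit 0) (nat_lit 0) (XT.lf (nat_lit 0) (nat_lit 34392268927) (nat_lit 152) (nat_lit 553785830258) (nat_lit 0) (nat_lit 27428985508) (nat_lit 1) (nat_lit 5) (nat_lit 3) (nat_lit 4) (nat_lit 1) (nat_lit 4) (nat_lit 488) (nat_lit 391) (nat_lit 321)) (XT.nd (nat_lit 78) (nat_lit 0) (nat_lit 0) (XT.lf (nat_lit 0) (nat_lit 55115029135) (nat_lit 152) (nat_lit 560664410305) (nat_lit 0) (nat_lit 48149375387) (nat_lit 1) (nat_lit 5) (nat_lit 3) (nat_lit 4) (nat_lit 1) (nat_lit 4) (nat_lit 489) (nat_lit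 391) (nat_lit 320)) (XT.lf (nat_lit 0) (nat_lit 77483622554) (nat_lit 152) (nat_lit 568117486326) (nat_lit 0) (nat_lit 70515774057) (nat_lit 1) (nat_lit 5) (nat_lit 3) (nat_lit 4) (nat_lit 1) (nat_lit 4) (nat_lit 490) (nat_lit 391) (nat_lit 319)))) (XT.nd (nat_lit 78) (nat_lit 0) (nat_lit 0) (XT.lf (nat_lit 0) (nat_lit 101630603813) (nat_lit 152) (nat_lit 576189224697) (nat_lit 0) (nat_lit 94660723141) (nat_lit 1) (nat_lit 5) (nat_lit 3) (nat_lit 4) (nat_lit 1) (nat_lit 4) (nat_lit 491) (nat_lit 391) (nat_lit 318)) (XT.nd (nat_lit 78) (nat_lit 0) (nat_lit 0) (XT.lf (nat_lit 0) (nat_lit 127699066133) (nat_lit 152) (nat_lit 584927457942) (nat_lit 0) (nat_lit 120727303817) (nat_lit 1) (nat_lit 5) (nat_lit 3) (nat_lit 4) (nat_lit 1) (nat_lit 4) (nat_lit 492) (nat_lit 391) (nat_lit 317)) (XT.lf (nat_lit 0) (nat_lit 155843489291) (nat_lit 152) (nat_lit 594383968182) (nat_lit 0) (nat_lit 148869984713)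 (nat_lit 1) (nat_lit 5) (nat_lit 3) (nat_lit 4) (nat_lit 1) (nat_lit 4) (nat_lit 493) (nat_lit 391) (nat_lit 316))))) (XT.nd (nat_lit 234) (nat_lit 0) (nat_lit 0) (XT.nd (nat_lit 78) (nat_lit 0) (nat_lit 0) (XT.lf (nat_lit 0) (nat_lit 186230655054) (nat_lit 152) (nat_lit 604614793999) (nat_lit 0) (nat_lit 179255537270) (nat_lit 1) (nat_lit 5) (nat_lit 3) (nat_lit 4) (nat_lit 1) (nat_lit 4) (nat_lit 494) (nat_lit 391) (nat_lit 315)) (XT.nd (nat_lit 78) (nat_lit 0) (nat_lit 0) (XT.lf (nat_lit 0) (nat_lit 219040635516) (nat_lit 152) (nat_lit 615680562507) (nat_lit 0) (nat_lit 212064024023) (nat_lit 1) (nat_lit 5) (nat_lit 3) (nat_lit 4) (nat_lit 1) (nat_lit 4) (nat_lit 495) (nat_lit 391) (nat_lit 314)) (XT.lf (nat_lit 0) (nat_lit 254467860190) (nat_lit 152) (nat_lit 627646848631) (nat_lit 0) (nat_lit 247489865632) (nat_lit 1) (nat_lit 5) (nat_lit 3) (nat_lit 4) (nat_lit 1) (nat_lit 4) (nat_lit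 496) (nat_lit 391) (nat_lit 313)))) (XT.nd (nat_lit 156) (nat_lit 0) (nat_lit 0) (XT.nd (nat_lit 78) (nat_lit 0) (nat_lit 0) (XT.lf (nat_lit 0) (nat_lit 292722268186) (nat_lit 152) (nat_lit 640584563696) (nat_lit 0) (nat_lit 285742993013) (nat_lit 1) (nat_lit 5) (nat_lit 3) (nat_lit 4) (nat_lit 1) (nat_lit 4) (nat_lit 497) (nat_lit 391) (nat_lit 312)) (XT.lf (nat_lit 0) (nat_lit 334030552291) (nat_lit 152) (nat_lit 654570375644) (nat_lit 0) (nat_lit 327050091363) (nat_lit 1) (nat_lit 5) (nat_lit 3) (nat_lit 4) (nat_lit 1) (nat_lit 4) (nat_lit 498) (nat_lit 391) (nat_lit 311))) (XT.nd (nat_lit 56004) (nat_lit 0) (nat_lit 6840) (XT.lf (nat_lit 0) (nat_lit 378637502337) (nat_lit 152) (nat_lit 669687163360) (nat_lit 0) (nat_lit 371655943489) (nat_lit 1) (nat_lit 5) (nat_lit 3) (nat_lit 4) (nat_lit 1) (nat_lit 4) (nat_lit 499) (nat_lit 391) (nat_lit 310)) (XT.lf (nat_lit 0) (nat_lit 1492593281)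 (nat_lit 304) (nat_lit 1336936099) (nat_lit 304) (nat_lit 1336936099) (nat_lit 91) (nat_lit 4) (nat_lit 95) (nat_lit 5) (nat_lit 95) (nat_lit 4) (nat_lit 416) (nat_lit 392) (nat_lit 392))))))) (XT.nd (nat_lit 1014) (nat_lit 1672) (nat_lit 0) (XT.nd (nat_lit 468) (nat_lit 1520) (nat_lit 0) (XT.nd (nat_lit 234) (nat_lit 836) (nat_lit 0) (XT.nd (nat_lit 78) (nat_lit 760) (nat_lit 0) (XT.lf (nat_lit 0) (nat_lit 3691240137) (nat_lit 304) (nat_lit 2841025634) (nat_lit 0) (nat_lit 2054198043) (nat_lit 87) (nat_lit 5) (nat_lit 91) (nat_lit 4) (nat_lit 87) (nat_lit 4) (nat_lit 417) (nat_lit 392) (nat_lit 391)) (XT.nd (nat_lit 78) (nat_lit 456) (nat_lit 0) (XT.lf (nat_lit 0) (nat_lit 1426774387) (nat_lit 304) (nat_lit 227934315) (nat_lit 76) (nat_lit 7209009466) (nat_lit 83) (nat_lit 5) (nat_lit 87) (nat_lit 5) (nat_lit 84) (nat_lit 4) (nat_lit 418) (nat_lit 392) (nat_lit 390)) (XT.lf (nat_lit 0) (nat_lit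 2543072156) (nat_lit 228) (nat_lit 5479284275) (nat_lit 228) (nat_lit 1139930420) (nat_lit 77) (nat_lit 4) (nat_lit 80) (nat_lit 5) (nat_lit 80) (nat_lit 4) (nat_lit 419) (nat_lit 392) (nat_lit 389)))) (XT.nd (nat_lit 78) (nat_lit 608) (nat_lit 0) (XT.lf (nat_lit 0) (nat_lit 5366431978) (nat_lit 228) (nat_lit 4064655175) (nat_lit 0) (nat_lit 54995839) (nat_lit 74) (nat_lit 5) (nat_lit 77) (nat_lit 4) (nat_lit 74) (nat_lit 4) (nat_lit 420) (nat_lit 392) (nat_lit 388)) (XT.nd (nat_lit 78) (nat_lit 304) (nat_lit 0) (XT.lf (nat_lit 0) (nat_lit 2403641834) (nat_lit 304) (nat_lit 1475376101) (nat_lit 76) (nat_lit 5955665622) (nat_lit 70) (nat_lit 5) (nat_lit 74) (nat_lit 5) (nat_lit 71) (nat_lit 4) (nat_lit 421) (nat_lit 392) (nat_lit 387)) (XT.lf (nat_lit 0) (nat_lit 1227523486) (nat_lit 152) (nat_lit 8021748222) (nat_lit 152) (nat_lit 961364683) (nat_lit 66) (nat_lit 4) (nat_lit 68) (nat_lit 5)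 (nat_lit 68) (nat_lit 4) (nat_lit 422) (nat_lit 392) (nat_lit 386))))) (XT.nd (nat_lit 234) (nat_lit 912) (nat_lit 0) (XT.nd (nat_lit 78) (nat_lit 380) (nat_lit 0) (XT.lf (nat_lit 0) (nat_lit 3993184112) (nat_lit 152) (nat_lit 1833506028) (nat_lit 228) (nat_lit 4785659472) (nat_lit 63) (nat_lit 5) (nat_lit 65) (nat_lit 5) (nat_lit 66) (nat_lit 4) (nat_lit 423) (nat_lit 392) (nat_lit 385)) (XT.nd (nat_lit 78) (nat_lit 152) (nat_lit 0) (XT.lf (nat_lit 0) (nat_lit 2006596520) (nat_lit 228) (nat_lit 4245207528) (nat_lit 76) (nat_lit 4792326750) (nat_lit 60) (nat_lit 5) (nat_lit 63) (nat_lit 5) (nat_lit 61) (nat_lit 4) (nat_lit 424) (nat_lit 392) (nat_lit 384)) (XT.lf (nat_lit 0) (nat_lit 9147816366) (nat_lit 228) (nat_lit 1865974905) (nat_lit 0) (nat_lit 494136592) (nat_lit 58) (nat_lit 5) (nat_lit 61) (nat_lit 4) (nat_lit 58) (nat_lit 4) (nat_lit 425) (nat_lit 392) (nat_lit 383)))) (XT.nd (nat_lit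 156) (nat_lit 380) (nat_lit 0) (XT.nd (nat_lit 78) (nat_lit 152) (nat_lit 0) (XT.lf (nat_lit 0) (nat_lit 457559013) (nat_lit 152) (nat_lit 4299948687) (nat_lit 228) (nat_lit 7244521278) (nat_lit 53) (nat_lit 5) (nat_lit 55) (nat_lit 5) (nat_lit 56) (nat_lit 4) (nat_lit 426) (nat_lit 392) (nat_lit 382)) (XT.lf (nat_lit 0) (nat_lit 2850150129) (nat_lit 152) (nat_lit 9550114107) (nat_lit 152) (nat_lit 131586492) (nat_lit 51) (nat_lit 4) (nat_lit 53) (nat_lit 5) (nat_lit 53) (nat_lit 4) (nat_lit 427) (nat_lit 392) (nat_lit 381))) (XT.nd (nat_lit 78) (nat_lit 228) (nat_lit 0) (XT.lf (nat_lit 0) (nat_lit 5127828066) (nat_lit 76) (nat_lit 2223524608) (nat_lit 152) (nat_lit 5744722108) (nat_lit 49) (nat_lit 5) (nat_lit 50) (nat_lit 5) (nat_lit 51) (nat_lit 4) (nat_lit 428) (nat_lit 392) (nat_lit 380)) (XT.lf (nat_lit 0) (nat_lit 1741317907) (nat_lit 228) (nat_lit 6361301654) (nat_lit 76) (nat_lit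 5597727657) (nat_lit 46) (nat_lit 5) (nat_lit 49) (nat_lit 5) (nat_lit 47) (nat_lit 4) (nat_lit 429) (nat_lit 392) (nat_lit 379)))))) (XT.nd (nat_lit 546) (nat_lit 760) (nat_lit 0) (XT.nd (nat_lit 234) (nat_lit 532) (nat_lit 0) (XT.nd (nat_lit 78) (nat_lit 304) (nat_lit 0) (XT.lf (nat_lit 0) (nat_lit 9444675106) (nat_lit 76) (nat_lit 215551159) (nat_lit 152) (nat_lit 4686298197) (nat_lit 45) (nat_lit 5) (nat_lit 46) (nat_lit 5) (nat_lit 47) (nat_lit 4) (nat_lit 430) (nat_lit 392) (nat_lit 378)) (XT.nd (nat_lit 78) (nat_lit 76) (nat_lit 0) (XT.lf (nat_lit 0) (nat_lit 3206407690) (nat_lit 228) (nat_lit 3669613098) (nat_lit 76) (nat_lit 8158954174) (nat_lit 42) (nat_lit 5) (nat_lit 45) (nat_lit 5) (nat_lit 43) (nat_lit 4) (nat_lit 431) (nat_lit 392) (nat_lit 377)) (XT.lf (nat_lit 0) (nat_lit 11614763061) (nat_lit 152) (nat_lit 2630399682) (nat_lit 0) (nat_lit 1527104725) (nat_lit 41) (nat_lit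 5) (nat_lit 43) (nat_lit 4) (nat_lit 41) (nat_lit 4) (nat_lit 432) (nat_lit 392) (nat_lit 376)))) (XT.nd (nat_lit 156) (nat_lit 228) (nat_lit 0) (XT.nd (nat_lit 78) (nat_lit 76) (nat_lit 0) (XT.lf (nat_lit 0) (nat_lit 4143269806) (nat_lit 228) (nat_lit 1901973212) (nat_lit 76) (nat_lit 10512697051) (nat_lit 38) (nat_lit 5) (nat_lit 41) (nat_lit 5) (nat_lit 39) (nat_lit 4) (nat_lit 433) (nat_lit 392) (nat_lit 375)) (XT.lf (nat_lit 0) (nat_lit 13049859632) (nat_lit 152) (nat_lit 1471256649) (nat_lit 0) (nat_lit 2877594729) (nat_lit 37) (nat_lit 5) (nat_lit 39) (nat_lit 4) (nat_lit 37) (nat_lit 4) (nat_lit 434) (nat_lit 392) (nat_lit 374))) (XT.nd (nat_lit 78) (nat_lit 76) (nat_lit 0) (XT.lf (nat_lit 0) (nat_lit 4376406868) (nat_lit 152) (nat_lit 1452131556) (nat_lit 76) (nat_lit 12467130473) (nat_lit 35) (nat_lit 5) (nat_lit 37) (nat_lit 5) (nat_lit 36) (nat_lit 4) (nat_lit 435) (nat_lit 392)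 (nat_lit 373)) (XT.lf (nat_lit 0) (nat_lit 13765163782) (nat_lit 152) (nat_lit 1873795720) (nat_lit 0) (nat_lit 3615985985) (nat_lit 34) (nat_lit 5) (nat_lit 36) (nat_lit 4) (nat_lit 34) (nat_lit 4) (nat_lit 436) (nat_lit 392) (nat_lit 372))))) (XT.nd (nat_lit 234) (nat_lit 380) (nat_lit 0) (XT.nd (nat_lit 78) (nat_lit 228) (nat_lit 0) (XT.lf (nat_lit 0) (nat_lit 3665238196) (nat_lit 152) (nat_lit 2840793153) (nat_lit 76) (nat_lit 13773785419) (nat_lit 32) (nat_lit 5) (nat_lit 34) (nat_lit 5) (nat_lit 33) (nat_lit 4) (nat_lit 437) (nat_lit 392) (nat_lit 371)) (XT.nd (nat_lit 78) (nat_lit 152) (nat_lit 0) (XT.lf (nat_lit 0) (nat_lit 13491000172) (nat_lit 152) (nat_lit 4436205513) (nat_lit 0) (nat_lit 3448453758) (nat_lit 31) (nat_lit 5) (nat_lit 33) (nat_lit 4) (nat_lit 31) (nat_lit 4) (nat_lit 438) (nat_lit 392) (nat_lit 370)) (XT.lf (nat_lit 0) (nat_lit 1685485241) (nat_lit 152) (nat_lit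 6754975635) (nat_lit 76) (nat_lit 14107955195) (nat_lit 29) (nat_lit 5) (nat_lit 31) (nat_lit 5) (nat_lit 30) (nat_lit 4) (nat_lit 439) (nat_lit 392) (nat_lit 369)))) (XT.nd (nat_lit 156) (nat_lit 228) (nat_lit 0) (XT.nd (nat_lit 78) (nat_lit 76) (nat_lit 0) (XT.lf (nat_lit 0) (nat_lit 11863852618) (nat_lit 152) (nat_lit 9946775128) (nat_lit 0) (nat_lit 1991972568) (nat_lit 28) (nat_lit 5) (nat_lit 30) (nat_lit 4) (nat_lit 28) (nat_lit 4) (nat_lit 440) (nat_lit 392) (nat_lit 368)) (XT.lf (nat_lit 0) (nat_lit 11014843777) (nat_lit 76) (nat_lit 12069832886) (nat_lit 76) (nat_lit 2061044836) (nat_lit 27) (nat_lit 4) (nat_lit 28) (nat_lit 5) (nat_lit 28) (nat_lit 4) (nat_lit 441) (nat_lit 392) (nat_lit 367))) (XT.nd (nat_lit 78) (nat_lit 76) (nat_lit 0) (XT.lf (nat_lit 0) (nat_lit 7123542651) (nat_lit 76) (nat_lit 1295529235) (nat_lit 152) (nat_lit 18166128250) (nat_lit 25) (nat_lit 5) (nat_lit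 26) (nat_lit 5) (nat_lit 27) (nat_lit 4) (nat_lit 442) (nat_lit 392) (nat_lit 366)) (XT.lf (nat_lit 0) (nat_lit 1939178251) (nat_lit 76) (nat_lit 17975602853) (nat_lit 76) (nat_lit 8210906415) (nat_lit 24) (nat_lit 4) (nat_lit 25) (nat_lit 5) (nat_lit 25) (nat_lit 4) (nat_lit 443) (nat_lit 392) (nat_lit 365))))))))
noncomputable def xc33 : XT := (XT.nd (nat_lit 2028) (nat_lit 380) (nat_lit 0) (XT.nd (nat_lit 1014) (nat_lit 456) (nat_lit 0) (XT.nd (nat_lit 468) (nat_lit 456) (nat_lit 0) (XT.nd (nat_lit 234) (nat_lit 228) (nat_lit 0) (XT.nd (nat_lit 78) (nat_lit 152) (nat_lit 0) (XT.lf (nat_lit 0) (nat_lit 2637991277) (nat_lit 152) (nat_lit 4460320971) (nat_lit 76) (nat_lit 22680197701) (nat_lit 23) (nat_lit 5) (nat_lit 25) (nat_lit 5) (nat_lit 24) (nat_lit 4) (nat_lit 444) (nat_lit 392) (nat_lit 364)) (XT.nd (nat_lit 78) (nat_lit 76) (nat_lit 0) (XT.lf (nat_lit 0) (nat_lit 14272996742) (nat_lit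 152) (nat_lit 12490113206) (nat_lit 0) (nat_lit 4783432377) (nat_lit 22) (nat_lit 5) (nat_lit 24) (nat_lit 4) (nat_lit 22) (nat_lit 4) (nat_lit 445) (nat_lit 392) (nat_lit 363)) (XT.lf (nat_lit 0) (nat_lit 11063180885) (nat_lit 76) (nat_lit 15978391972) (nat_lit 76) (nat_lit 6404313063) (nat_lit 21) (nat_lit 4) (nat_lit 22) (nat_lit 5) (nat_lit 22) (nat_lit 4) (nat_lit 446) (nat_lit 392) (nat_lit 362)))) (XT.nd (nat_lit 78) (nat_lit 76) (nat_lit 0) (XT.lf (nat_lit 0) (nat_lit 1085738119) (nat_lit 76) (nat_lit 4152345410) (nat_lit 152) (nat_lit 30251217406) (nat_lit 19) (nat_lit 5) (nat_lit 20) (nat_lit 5) (nat_lit 21) (nat_lit 4) (nat_lit 447) (nat_lit 392) (nat_lit 361)) (XT.nd (nat_lit 78) (nat_lit 76) (nat_lit 0) (XT.lf (nat_lit 0) (nat_lit 17962566003) (nat_lit 152) (nat_lit 11008765474) (nat_lit 0) (nat_lit 8700860560) (nat_lit 19) (nat_lit 5) (nat_lit 21) (nat_lit 4) (nat_lit 19) (nat_lit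 4) (nat_lit 448) (nat_lit 392) (nat_lit 360)) (XT.lf (nat_lit 0) (nat_lit 14356306022) (nat_lit 76) (nat_lit 17495829214) (nat_lit 76) (nat_lit 8170228180) (nat_lit 18) (nat_lit 4) (nat_lit 19) (nat_lit 5) (nat_lit 19) (nat_lit 4) (nat_lit 449) (nat_lit 392) (nat_lit 359))))) (XT.nd (nat_lit 234) (nat_lit 228) (nat_lit 0) (XT.nd (nat_lit 78) (nat_lit 152) (nat_lit 0) (XT.lf (nat_lit 0) (nat_lit 4207060198) (nat_lit 152) (nat_lit 760290209) (nat_lit 76) (nat_lit 37587246110) (nat_lit 17) (nat_lit 5) (nat_lit 19) (nat_lit 5) (nat_lit 18) (nat_lit 4) (nat_lit 450) (nat_lit 392) (nat_lit 358)) (XT.nd (nat_lit 78) (nat_lit 76) (nat_lit 0) (XT.lf (nat_lit 0) (nat_lit 17715771653) (nat_lit 152) (nat_lit 18819839911) (nat_lit 0) (nat_lit 8725729951) (nat_lit 16) (nat_lit 5) (nat_lit 18) (nat_lit 4) (nat_lit 16) (nat_lit 4) (nat_lit 451) (nat_lit 392) (nat_lit 357)) (XT.lf (nat_lit 0) (nat_lit 7565883505)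 (nat_lit 76) (nat_lit 24826370851) (nat_lit 76) (nat_lit 15788022121) (nat_lit 15) (nat_lit 4) (nat_lit 16) (nat_lit 5) (nat_lit 16) (nat_lit 4) (nat_lit 452) (nat_lit 392) (nat_lit 356)))) (XT.nd (nat_lit 156) (nat_lit 76) (nat_lit 0) (XT.nd (nat_lit 78) (nat_lit 152) (nat_lit 0) (XT.lf (nat_lit 0) (nat_lit 36490674810) (nat_lit 76) (nat_lit 11957434978) (nat_lit 76) (nat_lit 2874357519) (nat_lit 15) (nat_lit 4) (nat_lit 16) (nat_lit 5) (nat_lit 16) (nat_lit 4) (nat_lit 453) (nat_lit 392) (nat_lit 355)) (XT.lf (nat_lit 0) (nat_lit 10840746596) (nat_lit 152) (nat_lit 41709756655) (nat_lit 0) (nat_lit 2150753310) (nat_lit 13) (nat_lit 5) (nat_lit 15) (nat_lit 4) (nat_lit 13) (nat_lit 4) (nat_lit 454) (nat_lit 392) (nat_lit 354))) (XT.nd (nat_lit 78) (nat_lit 76) (nat_lit 0) (XT.lf (nat_lit 0) (nat_lit 25905970721) (nat_lit 152) (nat_lit 15244888690) (nat_lit 0) (nat_lit 17179455838) (nat_lit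 13) (nat_lit 5) (nat_lit 15) (nat_lit 4) (nat_lit 13) (nat_lit 4) (nat_lit 455) (nat_lit 392) (nat_lit 353)) (XT.lf (nat_lit 0) (nat_lit 13564440091) (nat_lit 76) (nat_lit 28720093273) (nat_lit 76) (nat_lit 19959762097) (nat_lit 12) (nat_lit 4) (nat_lit 13) (nat_lit 5) (nat_lit 13) (nat_lit 4) (nat_lit 456) (nat_lit 392) (nat_lit 352)))))) (XT.nd (nat_lit 468) (nat_lit 228) (nat_lit 0) (XT.nd (nat_lit 234) (nat_lit 76) (nat_lit 0) (XT.nd (nat_lit 78) (nat_lit 152) (nat_lit 0) (XT.lf (nat_lit 0) (nat_lit 45025020373) (nat_lit 76) (nat_lit 15114847294) (nat_lit 76) (nat_lit 6323204736) (nat_lit 12) (nat_lit 4) (nat_lit 13) (nat_lit 5) (nat_lit 13) (nat_lit 4) (nat_lit 457) (nat_lit 392) (nat_lit 351)) (XT.nd (nat_lit 78) (nat_lit 0) (nat_lit 0) (XT.lf (nat_lit 0) (nat_lit 7919027702) (nat_lit 76) (nat_lit 246661215) (nat_lit 152) (nat_lit 62845584146) (nat_lit 10) (nat_lit 5) (nat_lit 11) (nat_lit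 5) (nat_lit 12) (nat_lit 4) (nat_lit 458) (nat_lit 392) (nat_lit 350)) (XT.lf (nat_lit 0) (nat_lit 24131029852) (nat_lit 152) (nat_lit 36055316288) (nat_lit 0) (nat_lit 15704859335) (nat_lit 10) (nat_lit 5) (nat_lit 12) (nat_lit 4) (nat_lit 10) (nat_lit 4) (nat_lit 459) (nat_lit 392) (nat_lit 349)))) (XT.nd (nat_lit 78) (nat_lit 76) (nat_lit 0) (XT.lf (nat_lit 0) (nat_lit 41293956975) (nat_lit 152) (nat_lit 7027445469) (nat_lit 0) (nat_lit 32844114092) (nat_lit 10) (nat_lit 5) (nat_lit 12) (nat_lit 4) (nat_lit 10) (nat_lit 4) (nat_lit 460) (nat_lit 392) (nat_lit 348)) (XT.nd (nat_lit 78) (nat_lit 0) (nat_lit 0) (XT.lf (nat_lit 0) (nat_lit 24966313118) (nat_lit 76) (nat_lit 35175806445) (nat_lit 76) (nat_lit 26704044704) (nat_lit 9) (nat_lit 4) (nat_lit 10) (nat_lit 5) (nat_lit 10) (nat_lit 4) (nat_lit 461) (nat_lit 392) (nat_lit 347)) (XT.lf (nat_lit 0) (nat_lit 59621854726) (nat_lit 76) (nat_lit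 20924527711) (nat_lit 76) (nat_lit 12432470731) (nat_lit 9) (nat_lit 4) (nat_lit 10) (nat_lit 5) (nat_lit 10) (nat_lit 4) (nat_lit 462) (nat_lit 392) (nat_lit 346))))) (XT.nd (nat_lit 234) (nat_lit 76) (nat_lit 0) (XT.nd (nat_lit 78) (nat_lit 76) (nat_lit 0) (XT.lf (nat_lit 0) (nat_lit 2815624206) (nat_lit 152) (nat_lit 2738819244) (nat_lit 76) (nat_lit 94048878277) (nat_lit 8) (nat_lit 5) (nat_lit 10) (nat_lit 5) (nat_lit 9) (nat_lit 4) (nat_lit 463) (nat_lit 392) (nat_lit 345)) (XT.nd (nat_lit 78) (nat_lit 0) (nat_lit 0) (XT.lf (nat_lit 0) (nat_lit 19455689391) (nat_lit 152) (nat_lit 75927936727) (nat_lit 0) (nat_lit 11333547710) (nat_lit 7) (nat_lit 5) (nat_lit 9) (nat_lit 4) (nat_lit 7) (nat_lit 4) (nat_lit 464) (nat_lit 392) (nat_lit 344)) (XT.lf (nat_lit 0) (nat_lit 37506360042) (nat_lit 152) (nat_lit 47520930802) (nat_lit 0) (nat_lit 29368874538) (nat_lit 7) (nat_lit 5) (nat_lit 9)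 (nat_lit 4) (nat_lit 7) (nat_lit 4) (nat_lit 465) (nat_lit 392) (nat_lit 343)))) (XT.nd (nat_lit 156) (nat_lit 0) (nat_lit 0) (XT.nd (nat_lit 78) (nat_lit 76) (nat_lit 0) (XT.lf (nat_lit 0) (nat_lit 56942983992) (nat_lit 152) (nat_lit 16958107240) (nat_lit 0) (nat_lit 48791291244) (nat_lit 7) (nat_lit 5) (nat_lit 9) (nat_lit 4) (nat_lit 7) (nat_lit 4) (nat_lit 466) (nat_lit 392) (nat_lit 342)) (XT.lf (nat_lit 0) (nat_lit 16468749828) (nat_lit 76) (nat_lit 61669114745) (nat_lit 76) (nat_lit 53504267140) (nat_lit 6) (nat_lit 4) (nat_lit 7) (nat_lit 5) (nat_lit 7) (nat_lit 4) (nat_lit 467) (nat_lit 392) (nat_lit 341))) (XT.nd (nat_lit 78) (nat_lit 0) (nat_lit 0) (XT.lf (nat_lit 0) (nat_lit 53071926469) (nat_lit 76) (nat_lit 48200382406) (nat_lit 76) (nat_lit 40023354380) (nat_lit 6) (nat_lit 4) (nat_lit 7) (nat_lit 5) (nat_lit 7) (nat_lit 4) (nat_lit 468) (nat_lit 392) (nat_lit 340)) (XT.lf (nat_lit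 0) (nat_lit 92507618783) (nat_lit 76) (nat_lit 33702273259) (nat_lit 76) (nat_lit 25513967065) (nat_lit 6) (nat_lit 4) (nat_lit 7) (nat_lit 5) (nat_lit 7) (nat_lit 4) (nat_lit 469) (nat_lit 392) (nat_lit 339))))))) (XT.nd (nat_lit 1014) (nat_lit 152) (nat_lit 0) (XT.nd (nat_lit 468) (nat_lit 76) (nat_lit 0) (XT.nd (nat_lit 234) (nat_lit 0) (nat_lit 0) (XT.nd (nat_lit 78) (nat_lit 152) (nat_lit 0) (XT.lf (nat_lit 0) (nat_lit 135009519762) (nat_lit 76) (nat_lit 18088872583) (nat_lit 76) (nat_lit 9890123639) (nat_lit 6) (nat_lit 4) (nat_lit 7) (nat_lit 5) (nat_lit 7) (nat_lit 4) (nat_lit 470) (nat_lit 392) (nat_lit 338)) (XT.nd (nat_lit 78) (nat_lit 0) (nat_lit 0) (XT.lf (nat_lit 0) (nat_lit 5748735818) (nat_lit 76) (nat_lit 1059631973) (nat_lit 152) (nat_lit 168338113688) (nat_lit 4) (nat_lit 5) (nat_lit 5) (nat_lit 5) (nat_lit 6) (nat_lit 4) (nat_lit 471) (nat_lit 392) (nat_lit 337)) (XT.lf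 (nat_lit 0) (nat_lit 25226541899) (nat_lit 152) (nat_lit 145605446963) (nat_lit 0) (nat_lit 17400474157) (nat_lit 4) (nat_lit 5) (nat_lit 6) (nat_lit 4) (nat_lit 4) (nat_lit 4) (nat_lit 472) (nat_lit 392) (nat_lit 336)))) (XT.nd (nat_lit 78) (nat_lit 0) (nat_lit 0) (XT.lf (nat_lit 0) (nat_lit 45098728586) (nat_lit 152) (nat_lit 120002801425) (nat_lit 0) (nat_lit 37264765806) (nat_lit 4) (nat_lit 5) (nat_lit 6) (nat_lit 4) (nat_lit 4) (nat_lit 4) (nat_lit 473) (nat_lit 392) (nat_lit 335)) (XT.nd (nat_lit 78) (nat_lit 0) (nat_lit 0) (XT.lf (nat_lit 0) (nat_lit 66526145134) (nat_lit 152) (nat_lit 92421545843) (nat_lit 0) (nat_lit 58684872133) (nat_lit 4) (nat_lit 5) (nat_lit 6) (nat_lit 4) (nat_lit 4) (nat_lit 4) (nat_lit 474) (nat_lit 392) (nat_lit 334)) (XT.lf (nat_lit 0) (nat_lit 89635768827) (nat_lit 152) (nat_lit 62698235738) (nat_lit 0) (nat_lit 81787727102) (nat_lit 4) (nat_lit 5) (nat_lit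 6) (nat_lit 4) (nat_lit 4) (nat_lit 4) (nat_lit 475) (nat_lit 392) (nat_lit 333))))) (XT.nd (nat_lit 234) (nat_lit 0) (nat_lit 0) (XT.nd (nat_lit 78) (nat_lit 76) (nat_lit 0) (XT.lf (nat_lit 0) (nat_lit 114564545582) (nat_lit 152) (nat_lit 30656732977) (nat_lit 0) (nat_lit 106710236521) (nat_lit 4) (nat_lit 5) (nat_lit 6) (nat_lit 4) (nat_lit 4) (nat_lit 4) (nat_lit 476) (nat_lit 392) (nat_lit 332)) (XT.nd (nat_lit 78) (nat_lit 0) (nat_lit 0) (XT.lf (nat_lit 0) (nat_lit 4021552817) (nat_lit 76) (nat_lit 137501436377) (nat_lit 76) (nat_lit 129641324227) (nat_lit 3) (nat_lit 4) (nat_lit 4) (nat_lit 5) (nat_lit 4) (nat_lit 4) (nat_lit 477) (nat_lit 392) (nat_lit 331)) (XT.lf (nat_lit 0) (nat_lit 42515992712) (nat_lit 76) (nat_lit 128629919282) (nat_lit 76) (nat_lit 120764433902) (nat_lit 3) (nat_lit 4) (nat_lit 4) (nat_lit 5) (nat_lit 4) (nat_lit 4) (nat_lit 478) (nat_lit 392) (nat_lit 330))))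 (XT.nd (nat_lit 156) (nat_lit 0) (nat_lit 0) (XT.nd (nat_lit 78) (nat_lit 0) (nat_lit 0) (XT.lf (nat_lit 0) (nat_lit 84041051865) (nat_lit 76) (nat_lit 119073341930) (nat_lit 76) (nat_lit 111202881336) (nat_lit 3) (nat_lit 4) (nat_lit 4) (nat_lit 5) (nat_lit 4) (nat_lit 4) (nat_lit 479) (nat_lit 392) (nat_lit 329)) (XT.lf (nat_lit 0) (nat_lit 128842804701) (nat_lit 76) (nat_lit 108775072751) (nat_lit 76) (nat_lit 100900005478) (nat_lit 3) (nat_lit 4) (nat_lit 4) (nat_lit 5) (nat_lit 4) (nat_lit 4) (nat_lit 480) (nat_lit 392) (nat_lit 328))) (XT.nd (nat_lit 78) (nat_lit 0) (nat_lit 0) (XT.lf (nat_lit 0) (nat_lit 177186743088) (nat_lit 76) (nat_lit 97674084964) (nat_lit 76) (nat_lit 89794752247) (nat_lit 3) (nat_lit 4) (nat_lit 4) (nat_lit 5) (nat_lit 4) (nat_lit 4) (nat_lit 481) (nat_lit 392) (nat_lit 327)) (XT.lf (nat_lit 0) (nat_lit 229359349624) (nat_lit 76) (nat_lit 85704594938) (nat_lit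 76) (nat_lit 77821312736) (nat_lit 3) (nat_lit 4) (nat_lit 4) (nat_lit 5) (nat_lit 4) (nat_lit 4) (nat_lit 482) (nat_lit 392) (nat_lit 326)))))) (XT.nd (nat_lit 546) (nat_lit 0) (nat_lit 0) (XT.nd (nat_lit 234) (nat_lit 152) (nat_lit 0) (XT.nd (nat_lit 78) (nat_lit 0) (nat_lit 0) (XT.lf (nat_lit 0) (nat_lit 285669795311) (nat_lit 76) (nat_lit 72795672362) (nat_lit 76) (nat_lit 64908733230) (nat_lit 3) (nat_lit 4) (nat_lit 4) (nat_lit 5) (nat_lit 4) (nat_lit 4) (nat_lit 483) (nat_lit 392) (nat_lit 325)) (XT.nd (nat_lit 78) (nat_lit 0) (nat_lit 0) (XT.lf (nat_lit 0) (nat_lit 346451771678) (nat_lit 76) (nat_lit 58870819917) (nat_lit 76) (nat_lit 50980494738) (nat_lit 3) (nat_lit 4) (nat_lit 4) (nat_lit 5) (nat_lit 4) (nat_lit 4) (nat_lit 484) (nat_lit 392) (nat_lit 324)) (XT.lf (nat_lit 0) (nat_lit 412065468216) (nat_lit 76) (nat_lit 43847519959) (nat_lit 76) (nat_lit 35954059551) (nat_lit 3)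 (nat_lit 4) (nat_lit 4) (nat_lit 5) (nat_lit 4) (nat_lit 4) (nat_lit 485) (nat_lit 392) (nat_lit 323)))) (XT.nd (nat_lit 156) (nat_lit 152) (nat_lit 0) (XT.nd (nat_lit 78) (nat_lit 0) (nat_lit 0) (XT.lf (nat_lit 0) (nat_lit 482899706830) (nat_lit 76) (nat_lit 27636745524) (nat_lit 76) (nat_lit 19740382128) (nat_lit 3) (nat_lit 4) (nat_lit 4) (nat_lit 5) (nat_lit 4) (nat_lit 4) (nat_lit 486) (nat_lit 392) (nat_lit 322)) (XT.lf (nat_lit 0) (nat_lit 559374245970) (nat_lit 76) (nat_lit 10142432766) (nat_lit 76) (nat_lit 2243381416) (nat_lit 3) (nat_lit 4) (nat_lit 4) (nat_lit 5) (nat_lit 4) (nat_lit 4) (nat_lit 487) (nat_lit 392) (nat_lit 321))) (XT.nd (nat_lit 78) (nat_lit 0) (nat_lit 0) (XT.lf (nat_lit 0) (nat_lit 16660527070) (nat_lit 152) (nat_lit 590726158023) (nat_lit 0) (nat_lit 9135250693) (nat_lit 1) (nat_lit 5) (nat_lit 3) (nat_lit 4) (nat_lit 1) (nat_lit 4) (nat_lit 488) (nat_lit 392)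 (nat_lit 320)) (XT.lf (nat_lit 0) (nat_lit 37377524006) (nat_lit 152) (nat_lit 597616377287) (nat_lit 0) (nat_lit 29850052881) (nat_lit 1) (nat_lit 5) (nat_lit 3) (nat_lit 4) (nat_lit 1) (nat_lit 4) (nat_lit 489) (nat_lit 392) (nat_lit 319))))) (XT.nd (nat_lit 234) (nat_lit 0) (nat_lit 0) (XT.nd (nat_lit 78) (nat_lit 0) (nat_lit 0) (XT.lf (nat_lit 0) (nat_lit 59740781063) (nat_lit 152) (nat_lit 605080230359) (nat_lit 0) (nat_lit 52211277762) (nat_lit 1) (nat_lit 5) (nat_lit 3) (nat_lit 4) (nat_lit 1) (nat_lit 4) (nat_lit 490) (nat_lit 392) (nat_lit 318)) (XT.nd (nat_lit 78) (nat_lit 0) (nat_lit 0) (XT.lf (nat_lit 0) (nat_lit 83882821245) (nat_lit 152) (nat_lit 613161947482) (nat_lit 0) (nat_lit 76351436301) (nat_lit 1) (nat_lit 5) (nat_lit 3) (nat_lit 4) (nat_lit 1) (nat_lit 4) (nat_lit 491) (nat_lit 392) (nat_lit 317)) (XT.lf (nat_lit 0) (nat_lit 109946708494) (nat_lit 152) (nat_lit 621909420311)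 (nat_lit 0) (nat_lit 102413581287) (nat_lit 1) (nat_lit 5) (nat_lit 3) (nat_lit 4) (nat_lit 1) (nat_lit 4) (nat_lit 492) (nat_lit 392) (nat_lit 316)))) (XT.nd (nat_lit 156) (nat_lit 0) (nat_lit 0) (XT.nd (nat_lit 78) (nat_lit 0) (nat_lit 0) (XT.lf (nat_lit 0) (nat_lit 138086895476) (nat_lit 152) (nat_lit 631374485724) (nat_lit 0) (nat_lit 130552155063) (nat_lit 1) (nat_lit 5) (nat_lit 3) (nat_lit 4) (nat_lit 1) (nat_lit 4) (nat_lit 493) (nat_lit 392) (nat_lit 315)) (XT.lf (nat_lit 0) (nat_lit 168470138853) (nat_lit 152) (nat_lit 641613232995) (nat_lit 0) (nat_lit 160933904731) (nat_lit 1) (nat_lit 5) (nat_lit 3) (nat_lit 4) (nat_lit 1) (nat_lit 4) (nat_lit 494) (nat_lit 392) (nat_lit 314))) (XT.nd (nat_lit 78) (nat_lit 0) (nat_lit 0) (XT.lf (nat_lit 0) (nat_lit 201276487476) (nat_lit 152) (nat_lit 652686336184) (nat_lit 0) (nat_lit 193738870290) (nat_lit 1) (nat_lit 5) (nat_lit 3) (nat_lit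 4) (nat_lit 1) (nat_lit 4) (nat_lit 495) (nat_lit 392) (nat_lit 313)) (XT.lf (nat_lit 0) (nat_lit 236700349336) (nat_lit 152) (nat_lit 664659413679) (nat_lit 0) (nat_lit 229161451535) (nat_lit 1) (nat_lit 5) (nat_lit 3) (nat_lit 4) (nat_lit 1) (nat_lit 4) (nat_lit 496) (nat_lit 392) (nat_lit 312))))))))
noncomputable def xc34 : XT := (XT.nd (nat_lit 57876) (nat_lit 0) (nat_lit 532) (XT.nd (nat_lit 56862) (nat_lit 0) (nat_lit 2432) (XT.nd (nat_lit 56316) (nat_lit 0) (nat_lit 4484) (XT.nd (nat_lit 56082) (nat_lit 0) (nat_lit 6536) (XT.nd (nat_lit 78) (nat_lit 0) (nat_lit 0) (XT.lf (nat_lit 0) (nat_lit 274951643615) (nat_lit 152) (nat_lit 677603417050) (nat_lit 0) (nat_lit 267411560059) (nat_lit 1) (nat_lit 5) (nat_lit 3) (nat_lit 4) (nat_lit 1) (nat_lit 4) (nat_lit 497) (nat_lit 392) (nat_lit 311)) (XT.nd (nat_lit 55926) (nat_lit 0) (nat_lit 7752) (XT.lf (nat_lit 0) (nat_lit 316257044650) (nat_lit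 152) (nat_lit 691595051504) (nat_lit 0) (nat_lit 308715863173) (nat_lit 1) (nat_lit 5) (nat_lit 3) (nat_lit 4) (nat_lit 1) (nat_lit 4) (nat_lit 498) (nat_lit 392) (nat_lit 310)) (XT.lf (nat_lit 0) (nat_lit 1514564496) (nat_lit 380) (nat_lit 911561160) (nat_lit 0) (nat_lit 1514564496) (nat_lit 103) (nat_lit 5) (nat_lit 108) (nat_lit 4) (nat_lit 103) (nat_lit 4) (nat_lit 414) (nat_lit 393) (nat_lit 393)))) (XT.nd (nat_lit 78) (nat_lit 608) (nat_lit 0) (XT.lf (nat_lit 0) (nat_lit 365075095) (nat_lit 228) (nat_lit 763852278) (nat_lit 304) (nat_lit 6973748940) (nat_lit 95) (nat_lit 5) (nat_lit 98) (nat_lit 5) (nat_lit 99) (nat_lit 4) (nat_lit 415) (nat_lit 393) (nat_lit 392)) (XT.nd (nat_lit 78) (nat_lit 304) (nat_lit 0) (XT.lf (nat_lit 0) (nat_lit 2706090909) (nat_lit 304) (nat_lit 4606184618) (nat_lit 304) (nat_lit 1030884685) (nat_lit 91) (nat_lit 4) (nat_lit 95) (nat_lit 5) (nat_lit 95) (nat_lit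 4) (nat_lit 416) (nat_lit 393) (nat_lit 391)) (XT.lf (nat_lit 0) (nat_lit 5049956195) (nat_lit 304) (nat_lit 3427971202) (nat_lit 0) (nat_lit 129128922) (nat_lit 87) (nat_lit 5) (nat_lit 91) (nat_lit 4) (nat_lit 87) (nat_lit 4) (nat_lit 417) (nat_lit 393) (nat_lit 390))))) (XT.nd (nat_lit 234) (nat_lit 1064) (nat_lit 0) (XT.nd (nat_lit 78) (nat_lit 684) (nat_lit 0) (XT.lf (nat_lit 0) (nat_lit 2522924308) (nat_lit 304) (nat_lit 1152332177) (nat_lit 76) (nat_lit 5218021141) (nat_lit 83) (nat_lit 5) (nat_lit 87) (nat_lit 5) (nat_lit 84) (nat_lit 4) (nat_lit 418) (nat_lit 393) (nat_lit 389)) (XT.nd (nat_lit 78) (nat_lit 228) (nat_lit 0) (XT.lf (nat_lit 0) (nat_lit 1277130349) (nat_lit 228) (nat_lit 7593979361) (nat_lit 228) (nat_lit 333156691) (nat_lit 77) (nat_lit 4) (nat_lit 80) (nat_lit 5) (nat_lit 80) (nat_lit 4) (nat_lit 419) (nat_lit 393) (nat_lit 388)) (XT.lf (nat_lit 0) (nat_lit 3783445458)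 (nat_lit 152) (nat_lit 2163015096) (nat_lit 228) (nat_lit 3591062676) (nat_lit 74) (nat_lit 5) (nat_lit 76) (nat_lit 5) (nat_lit 77) (nat_lit 4) (nat_lit 420) (nat_lit 393) (nat_lit 387)))) (XT.nd (nat_lit 156) (nat_lit 608) (nat_lit 0) (XT.nd (nat_lit 78) (nat_lit 152) (nat_lit 0) (XT.lf (nat_lit 0) (nat_lit 2679900928) (nat_lit 304) (nat_lit 3523238883) (nat_lit 76) (nat_lit 3694380986) (nat_lit 70) (nat_lit 5) (nat_lit 74) (nat_lit 5) (nat_lit 71) (nat_lit 4) (nat_lit 421) (nat_lit 393) (nat_lit 386)) (XT.lf (nat_lit 0) (nat_lit 9057241824) (nat_lit 152) (nat_lit 215920178) (nat_lit 228) (nat_lit 1012966259) (nat_lit 68) (nat_lit 5) (nat_lit 70) (nat_lit 5) (nat_lit 71) (nat_lit 4) (nat_lit 422) (nat_lit 393) (nat_lit 385))) (XT.nd (nat_lit 78) (nat_lit 228) (nat_lit 0) (XT.lf (nat_lit 0) (nat_lit 1066368994) (nat_lit 152) (nat_lit 4480121494) (nat_lit 228) (nat_lit 5152935671) (nat_lit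 63) (nat_lit 5) (nat_lit 65) (nat_lit 5) (nat_lit 66) (nat_lit 4) (nat_lit 423) (nat_lit 393) (nat_lit 384)) (XT.lf (nat_lit 0) (nat_lit 1398933564) (nat_lit 228) (nat_lit 7673092424) (nat_lit 76) (nat_lit 2072103303) (nat_lit 60) (nat_lit 5) (nat_lit 63) (nat_lit 5) (nat_lit 61) (nat_lit 4) (nat_lit 424) (nat_lit 393) (nat_lit 383)))))) (XT.nd (nat_lit 468) (nat_lit 912) (nat_lit 0) (XT.nd (nat_lit 234) (nat_lit 608) (nat_lit 0) (XT.nd (nat_lit 78) (nat_lit 380) (nat_lit 0) (XT.lf (nat_lit 0) (nat_lit 5848260270) (nat_lit 152) (nat_lit 2475106120) (nat_lit 228) (nat_lit 3295425374) (nat_lit 58) (nat_lit 5) (nat_lit 60) (nat_lit 5) (nat_lit 61) (nat_lit 4) (nat_lit 425) (nat_lit 393) (nat_lit 382)) (XT.nd (nat_lit 78) (nat_lit 152) (nat_lit 0) (XT.lf (nat_lit 0) (nat_lit 3592196151) (nat_lit 228) (nat_lit 3910730427) (nat_lit 76) (nat_lit 4623716101) (nat_lit 55) (nat_lit 5) (nat_lit 58) (nat_lit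 5) (nat_lit 56) (nat_lit 4) (nat_lit 426) (nat_lit 393) (nat_lit 381)) (XT.lf (nat_lit 0) (nat_lit 10596209400) (nat_lit 152) (nat_lit 340890651) (nat_lit 228) (nat_lit 1734278286) (nat_lit 53) (nat_lit 5) (nat_lit 55) (nat_lit 5) (nat_lit 56) (nat_lit 4) (nat_lit 427) (nat_lit 393) (nat_lit 380)))) (XT.nd (nat_lit 78) (nat_lit 380) (nat_lit 0) (XT.lf (nat_lit 0) (nat_lit 5540629896) (nat_lit 228) (nat_lit 388575140) (nat_lit 76) (nat_lit 7320633598) (nat_lit 50) (nat_lit 5) (nat_lit 53) (nat_lit 5) (nat_lit 51) (nat_lit 4) (nat_lit 428) (nat_lit 393) (nat_lit 379)) (XT.nd (nat_lit 78) (nat_lit 152) (nat_lit 0) (XT.lf (nat_lit 0) (nat_lit 1306836736) (nat_lit 152) (nat_lit 12089330484) (nat_lit 152) (nat_lit 474053273) (nat_lit 47) (nat_lit 4) (nat_lit 49) (nat_lit 5) (nat_lit 49) (nat_lit 4) (nat_lit 429) (nat_lit 393) (nat_lit 378)) (XT.lf (nat_lit 0) (nat_lit 2801241945) (nat_lit 76) (nat_lit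 4424424749) (nat_lit 152) (nat_lit 7302834479) (nat_lit 45) (nat_lit 5) (nat_lit 46) (nat_lit 5) (nat_lit 47) (nat_lit 4) (nat_lit 430) (nat_lit 393) (nat_lit 377))))) (XT.nd (nat_lit 234) (nat_lit 380) (nat_lit 0) (XT.nd (nat_lit 78) (nat_lit 304) (nat_lit 0) (XT.lf (nat_lit 0) (nat_lit 364082713) (nat_lit 228) (nat_lit 11042327378) (nat_lit 76) (nat_lit 3828074375) (nat_lit 42) (nat_lit 5) (nat_lit 45) (nat_lit 5) (nat_lit 43) (nat_lit 4) (nat_lit 431) (nat_lit 393) (nat_lit 376)) (XT.nd (nat_lit 78) (nat_lit 228) (nat_lit 0) (XT.lf (nat_lit 0) (nat_lit 5319266907) (nat_lit 76) (nat_lit 3183846617) (nat_lit 152) (nat_lit 7482142185) (nat_lit 41) (nat_lit 5) (nat_lit 42) (nat_lit 5) (nat_lit 43) (nat_lit 4) (nat_lit 432) (nat_lit 393) (nat_lit 375)) (XT.lf (nat_lit 0) (nat_lit 620066931) (nat_lit 228) (nat_lit 10549413022) (nat_lit 76) (nat_lit 5619303445) (nat_lit 38) (nat_lit 5) (nat_lit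 41) (nat_lit 5) (nat_lit 39) (nat_lit 4) (nat_lit 433) (nat_lit 393) (nat_lit 374)))) (XT.nd (nat_lit 156) (nat_lit 152) (nat_lit 0) (XT.nd (nat_lit 78) (nat_lit 152) (nat_lit 0) (XT.lf (nat_lit 0) (nat_lit 6822409145) (nat_lit 76) (nat_lit 2400534829) (nat_lit 152) (nat_lit 8421806218) (nat_lit 37) (nat_lit 5) (nat_lit 38) (nat_lit 5) (nat_lit 39) (nat_lit 4) (nat_lit 434) (nat_lit 393) (nat_lit 373)) (XT.lf (nat_lit 0) (nat_lit 127223134) (nat_lit 152) (nat_lit 11481231245) (nat_lit 76) (nat_lit 6951771662) (nat_lit 35) (nat_lit 5) (nat_lit 37) (nat_lit 5) (nat_lit 36) (nat_lit 4) (nat_lit 435) (nat_lit 393) (nat_lit 372))) (XT.nd (nat_lit 78) (nat_lit 76) (nat_lit 0) (XT.lf (nat_lit 0) (nat_lit 6872401798) (nat_lit 76) (nat_lit 2312994208) (nat_lit 152) (nat_lit 10350644168) (nat_lit 34) (nat_lit 5) (nat_lit 35) (nat_lit 5) (nat_lit 36) (nat_lit 4) (nat_lit 436) (nat_lit 393) (nat_lit 371))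 (XT.lf (nat_lit 0) (nat_lit 6187796785) (nat_lit 76) (nat_lit 12985146301) (nat_lit 76) (nat_lit 1406756390) (nat_lit 33) (nat_lit 4) (nat_lit 34) (nat_lit 5) (nat_lit 34) (nat_lit 4) (nat_lit 437) (nat_lit 393) (nat_lit 370))))))) (XT.nd (nat_lit 1014) (nat_lit 760) (nat_lit 0) (XT.nd (nat_lit 468) (nat_lit 532) (nat_lit 0) (XT.nd (nat_lit 234) (nat_lit 228) (nat_lit 0) (XT.nd (nat_lit 78) (nat_lit 228) (nat_lit 0) (XT.lf (nat_lit 0) (nat_lit 4888922256) (nat_lit 76) (nat_lit 3229794734) (nat_lit 152) (nat_lit 13575195820) (nat_lit 31) (nat_lit 5) (nat_lit 32) (nat_lit 5) (nat_lit 33) (nat_lit 4) (nat_lit 438) (nat_lit 393) (nat_lit 369)) (XT.nd (nat_lit 78) (nat_lit 152) (nat_lit 0) (XT.lf (nat_lit 0) (nat_lit 2902822759) (nat_lit 76) (nat_lit 15666327861) (nat_lit 76) (nat_lit 4316362212) (nat_lit 30) (nat_lit 4) (nat_lit 31) (nat_lit 5) (nat_lit 31) (nat_lit 4) (nat_lit 439) (nat_lit 393)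 (nat_lit 368)) (XT.lf (nat_lit 0) (nat_lit 105768296) (nat_lit 76) (nat_lit 5552518213) (nat_lit 152) (nat_lit 18501879112) (nat_lit 28) (nat_lit 5) (nat_lit 29) (nat_lit 5) (nat_lit 30) (nat_lit 4) (nat_lit 440) (nat_lit 393) (nat_lit 367)))) (XT.nd (nat_lit 78) (nat_lit 228) (nat_lit 0) (XT.lf (nat_lit 0) (nat_lit 16528877456) (nat_lit 152) (nat_lit 3536214458) (nat_lit 0) (nat_lit 5455711694) (nat_lit 28) (nat_lit 5) (nat_lit 30) (nat_lit 4) (nat_lit 28) (nat_lit 4) (nat_lit 441) (nat_lit 393) (nat_lit 366)) (XT.nd (nat_lit 78) (nat_lit 76) (nat_lit 0) (XT.lf (nat_lit 0) (nat_lit 1451955574) (nat_lit 152) (nat_lit 8214033377) (nat_lit 76) (nat_lit 17312611682) (nat_lit 26) (nat_lit 5) (nat_lit 28) (nat_lit 5) (nat_lit 27) (nat_lit 4) (nat_lit 442) (nat_lit 393) (nat_lit 365)) (XT.lf (nat_lit 0) (nat_lit 12565915971) (nat_lit 152) (nat_lit 14167513709) (nat_lit 0) (nat_lit 1804749980) (nat_lit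 25) (nat_lit 5) (nat_lit 27) (nat_lit 4) (nat_lit 25) (nat_lit 4) (nat_lit 443) (nat_lit 393) (nat_lit 364))))) (XT.nd (nat_lit 234) (nat_lit 304) (nat_lit 0) (XT.nd (nat_lit 78) (nat_lit 152) (nat_lit 0) (XT.lf (nat_lit 0) (nat_lit 8626753823) (nat_lit 76) (nat_lit 16219461821) (nat_lit 76) (nat_lit 5362456338) (nat_lit 24) (nat_lit 4) (nat_lit 25) (nat_lit 5) (nat_lit 25) (nat_lit 4) (nat_lit 444) (nat_lit 393) (nat_lit 363)) (XT.nd (nat_lit 78) (nat_lit 0) (nat_lit 0) (XT.lf (nat_lit 0) (nat_lit 1379586457) (nat_lit 76) (nat_lit 4632770718) (nat_lit 152) (nat_lit 25990127967) (nat_lit 22) (nat_lit 5) (nat_lit 23) (nat_lit 5) (nat_lit 24) (nat_lit 4) (nat_lit 445) (nat_lit 393) (nat_lit 362)) (XT.lf (nat_lit 0) (nat_lit 18460814435) (nat_lit 152) (nat_lit 7498982960) (nat_lit 0) (nat_lit 7958040463) (nat_lit 22) (nat_lit 5) (nat_lit 24) (nat_lit 4) (nat_lit 22) (nat_lit 4) (nat_lit 446)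 (nat_lit 393) (nat_lit 361)))) (XT.nd (nat_lit 156) (nat_lit 76) (nat_lit 0) (XT.nd (nat_lit 78) (nat_lit 152) (nat_lit 0) (XT.lf (nat_lit 0) (nat_lit 17678241813) (nat_lit 76) (nat_lit 14436468289) (nat_lit 76) (nat_lit 3861236717) (nat_lit 21) (nat_lit 4) (nat_lit 22) (nat_lit 5) (nat_lit 22) (nat_lit 4) (nat_lit 447) (nat_lit 393) (nat_lit 360)) (XT.lf (nat_lit 0) (nat_lit 6747235924) (nat_lit 76) (nat_lit 1735475229) (nat_lit 152) (nat_lit 29704349514) (nat_lit 19) (nat_lit 5) (nat_lit 20) (nat_lit 5) (nat_lit 21) (nat_lit 4) (nat_lit 448) (nat_lit 393) (nat_lit 359))) (XT.nd (nat_lit 78) (nat_lit 76) (nat_lit 0) (XT.lf (nat_lit 0) (nat_lit 22055591134) (nat_lit 152) (nat_lit 6636593934) (nat_lit 0) (nat_lit 11860883844) (nat_lit 19) (nat_lit 5) (nat_lit 21) (nat_lit 4) (nat_lit 19) (nat_lit 4) (nat_lit 449) (nat_lit 393) (nat_lit 358)) (XT.lf (nat_lit 0) (nat_lit 20529399832) (nat_lit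 76) (nat_lit 16408631783) (nat_lit 76) (nat_lit 6159144323) (nat_lit 18) (nat_lit 4) (nat_lit 19) (nat_lit 5) (nat_lit 19) (nat_lit 4) (nat_lit 450) (nat_lit 393) (nat_lit 357)))))) (XT.nd (nat_lit 546) (nat_lit 304) (nat_lit 0) (XT.nd (nat_lit 234) (nat_lit 228) (nat_lit 0) (XT.nd (nat_lit 78) (nat_lit 76) (nat_lit 0) (XT.lf (nat_lit 0) (nat_lit 4039626528) (nat_lit 76) (nat_lit 2955415602) (nat_lit 152) (nat_lit 38841271647) (nat_lit 16) (nat_lit 5) (nat_lit 17) (nat_lit 5) (nat_lit 18) (nat_lit 4) (nat_lit 451) (nat_lit 393) (nat_lit 356)) (XT.nd (nat_lit 78) (nat_lit 76) (nat_lit 0) (XT.lf (nat_lit 0) (nat_lit 21450157712) (nat_lit 152) (nat_lit 15720455872) (nat_lit 0) (nat_lit 11595705326) (nat_lit 16) (nat_lit 5) (nat_lit 18) (nat_lit 4) (nat_lit 16) (nat_lit 4) (nat_lit 452) (nat_lit 393) (nat_lit 355)) (XT.lf (nat_lit 0) (nat_lit 12575998980) (nat_lit 76) (nat_lit 24621893185) (nat_lit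 76) (nat_lit 14726025308) (nat_lit 15) (nat_lit 4) (nat_lit 16) (nat_lit 5) (nat_lit 16) (nat_lit 4) (nat_lit 453) (nat_lit 393) (nat_lit 354)))) (XT.nd (nat_lit 156) (nat_lit 76) (nat_lit 0) (XT.nd (nat_lit 78) (nat_lit 152) (nat_lit 0) (XT.lf (nat_lit 0) (nat_lit 43488488789) (nat_lit 76) (nat_lit 10885708171) (nat_lit 76) (nat_lit 951492618) (nat_lit 15) (nat_lit 4) (nat_lit 16) (nat_lit 5) (nat_lit 16) (nat_lit 4) (nat_lit 454) (nat_lit 393) (nat_lit 353)) (XT.lf (nat_lit 0) (nat_lit 13730340591) (nat_lit 152) (nat_lit 41010477427) (nat_lit 0) (nat_lit 4235366628) (nat_lit 13) (nat_lit 5) (nat_lit 15) (nat_lit 4) (nat_lit 13) (nat_lit 4) (nat_lit 455) (nat_lit 393) (nat_lit 352))) (XT.nd (nat_lit 78) (nat_lit 76) (nat_lit 0) (XT.lf (nat_lit 0) (nat_lit 29850980108) (nat_lit 152) (nat_lit 12727387414) (nat_lit 0) (nat_lit 20324694762) (nat_lit 13) (nat_lit 5) (nat_lit 15) (nat_lit 4) (nat_lit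 13) (nat_lit 4) (nat_lit 456) (nat_lit 393) (nat_lit 351)) (XT.lf (nat_lit 0) (nat_lit 18224278189) (nat_lit 76) (nat_lit 29232654337) (nat_lit 76) (nat_lit 19677376971) (nat_lit 12) (nat_lit 4) (nat_lit 13) (nat_lit 5) (nat_lit 13) (nat_lit 4) (nat_lit 457) (nat_lit 393) (nat_lit 350))))) (XT.nd (nat_lit 234) (nat_lit 152) (nat_lit 0) (XT.nd (nat_lit 78) (nat_lit 152) (nat_lit 0) (XT.lf (nat_lit 0) (nat_lit 51936913569) (nat_lit 76) (nat_lit 14671214339) (nat_lit 76) (nat_lit 5089092509) (nat_lit 12) (nat_lit 4) (nat_lit 13) (nat_lit 5) (nat_lit 13) (nat_lit 4) (nat_lit 458) (nat_lit 393) (nat_lit 349)) (XT.nd (nat_lit 78) (nat_lit 0) (nat_lit 0) (XT.lf (nat_lit 0) (nat_lit 10449695432) (nat_lit 152) (nat_lit 64860710144) (nat_lit 0) (nat_lit 1300192751) (nat_lit 10) (nat_lit 5) (nat_lit 12) (nat_lit 4) (nat_lit 10) (nat_lit 4) (nat_lit 459) (nat_lit 393) (nat_lit 348)) (XT.lf (nat_lit 0)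 (nat_lit 27575318315) (nat_lit 152) (nat_lit 35907560398) (nat_lit 0) (nat_lit 18403896776) (nat_lit 10) (nat_lit 5) (nat_lit 12) (nat_lit 4) (nat_lit 10) (nat_lit 4) (nat_lit 460) (nat_lit 393) (nat_lit 347)))) (XT.nd (nat_lit 156) (nat_lit 76) (nat_lit 0) (XT.nd (nat_lit 78) (nat_lit 76) (nat_lit 0) (XT.lf (nat_lit 0) (nat_lit 45999145825) (nat_lit 152) (nat_lit 4782065928) (nat_lit 0) (nat_lit 36807429047) (nat_lit 10) (nat_lit 5) (nat_lit 12) (nat_lit 4) (nat_lit 10) (nat_lit 4) (nat_lit 461) (nat_lit 393) (nat_lit 346)) (XT.lf (nat_lit 0) (nat_lit 29649179550) (nat_lit 76) (nat_lit 36644083432) (nat_lit 76) (nat_lit 27433574766) (nat_lit 9) (nat_lit 4) (nat_lit 10) (nat_lit 5) (nat_lit 10) (nat_lit 4) (nat_lit 462) (nat_lit 393) (nat_lit 345))) (XT.nd (nat_lit 78) (nat_lit 76) (nat_lit 0) (XT.lf (nat_lit 0) (nat_lit 66878234014) (nat_lit 76) (nat_lit 21352390364) (nat_lit 76) (nat_lit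 12124481802) (nat_lit 9) (nat_lit 4) (nat_lit 10) (nat_lit 5) (nat_lit 10) (nat_lit 4) (nat_lit 463) (nat_lit 393) (nat_lit 344)) (XT.lf (nat_lit 0) (nat_lit 4208370144) (nat_lit 152) (nat_lit 616860780) (nat_lit 76) (nat_lit 102687956456) (nat_lit 8) (nat_lit 5) (nat_lit 10) (nat_lit 5) (nat_lit 9) (nat_lit 4) (nat_lit 464) (nat_lit 393) (nat_lit 343))))))))
noncomputable def xc35 : XT := (XT.nd (nat_lit 2106) (nat_lit 0) (nat_lit 0) (XT.nd (nat_lit 1014) (nat_lit 228) (nat_lit 0) (XT.nd (nat_lit 468) (nat_lit 152) (nat_lit 0) (XT.nd (nat_lit 234) (nat_lit 76) (nat_lit 0) (XT.nd (nat_lit 78) (nat_lit 0) (nat_lit 0) (XT.lf (nat_lit 0) (nat_lit 22145660084) (nat_lit 152) (nat_lit 79724563791) (nat_lit 0) (nat_lit 13327624671) (nat_lit 7) (nat_lit 5) (nat_lit 9) (nat_lit 4) (nat_lit 7) (nat_lit 4) (nat_lit 465) (nat_lit 393) (nat_lit 342)) (XT.nd (nat_lit 78) (nat_lit 0) (nat_lit 0) (XT.lf (nat_lit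 0) (nat_lit 41556420273) (nat_lit 152) (nat_lit 49213709085) (nat_lit 0) (nat_lit 32725230004) (nat_lit 7) (nat_lit 5) (nat_lit 9) (nat_lit 4) (nat_lit 7) (nat_lit 4) (nat_lit 466) (nat_lit 393) (nat_lit 341)) (XT.lf (nat_lit 0) (nat_lit 62470229589) (nat_lit 152) (nat_lit 16362074171) (nat_lit 0) (nat_lit 53626858898) (nat_lit 7) (nat_lit 5) (nat_lit 9) (nat_lit 4) (nat_lit 7) (nat_lit 4) (nat_lit 467) (nat_lit 393) (nat_lit 340)))) (XT.nd (nat_lit 78) (nat_lit 0) (nat_lit 0) (XT.lf (nat_lit 0) (nat_lit 19654070299) (nat_lit 76) (nat_lit 65663806535) (nat_lit 76) (nat_lit 56809157676) (nat_lit 6) (nat_lit 4) (nat_lit 7) (nat_lit 5) (nat_lit 7) (nat_lit 4) (nat_lit 468) (nat_lit 393) (nat_lit 339)) (XT.nd (nat_lit 78) (nat_lit 0) (nat_lit 0) (XT.lf (nat_lit 0) (nat_lit 59047143997) (nat_lit 76) (nat_lit 51187119120) (nat_lit 76) (nat_lit 42322027513) (nat_lit 6) (nat_lit 4) (nat_lit 7) (nat_lit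 5) (nat_lit 7) (nat_lit 4) (nat_lit 469) (nat_lit 393) (nat_lit 338)) (XT.lf (nat_lit 0) (nat_lit 101509583295) (nat_lit 76) (nat_lit 35593553381) (nat_lit 76) (nat_lit 26718792561) (nat_lit 6) (nat_lit 4) (nat_lit 7) (nat_lit 5) (nat_lit 7) (nat_lit 4) (nat_lit 470) (nat_lit 393) (nat_lit 337))))) (XT.nd (nat_lit 234) (nat_lit 0) (nat_lit 0) (XT.nd (nat_lit 78) (nat_lit 152) (nat_lit 0) (XT.lf (nat_lit 0) (nat_lit 147293017463) (nat_lit 76) (nat_lit 18790703001) (nat_lit 76) (nat_lit 9906989208) (nat_lit 6) (nat_lit 4) (nat_lit 7) (nat_lit 5) (nat_lit 7) (nat_lit 4) (nat_lit 471) (nat_lit 393) (nat_lit 336)) (XT.nd (nat_lit 78) (nat_lit 0) (nat_lit 0) (XT.lf (nat_lit 0) (nat_lit 7650653118) (nat_lit 76) (nat_lit 418935516) (nat_lit 152) (nat_lit 181052770782) (nat_lit 4) (nat_lit 5) (nat_lit 5) (nat_lit 5) (nat_lit 6) (nat_lit 4) (nat_lit 472) (nat_lit 393) (nat_lit 335)) (XT.lf (nat_lit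 0) (nat_lit 27918626356) (nat_lit 152) (nat_lit 155895982310) (nat_lit 0) (nat_lit 19442741293) (nat_lit 4) (nat_lit 5) (nat_lit 6) (nat_lit 4) (nat_lit 4) (nat_lit 4) (nat_lit 473) (nat_lit 393) (nat_lit 334)))) (XT.nd (nat_lit 156) (nat_lit 0) (nat_lit 0) (XT.nd (nat_lit 78) (nat_lit 0) (nat_lit 0) (XT.lf (nat_lit 0) (nat_lit 49330664933) (nat_lit 152) (nat_lit 128345710345) (nat_lit 0) (nat_lit 40848011147) (nat_lit 4) (nat_lit 5) (nat_lit 6) (nat_lit 4) (nat_lit 4) (nat_lit 4) (nat_lit 474) (nat_lit 393) (nat_lit 333)) (XT.lf (nat_lit 0) (nat_lit 72426049764) (nat_lit 152) (nat_lit 98651088775) (nat_lit 0) (nat_lit 63937128642) (nat_lit 4) (nat_lit 5) (nat_lit 6) (nat_lit 4) (nat_lit 4) (nat_lit 4) (nat_lit 475) (nat_lit 393) (nat_lit 332))) (XT.nd (nat_lit 78) (nat_lit 0) (nat_lit 0) (XT.lf (nat_lit 0) (nat_lit 97341642387) (nat_lit 152) (nat_lit 66636149472) (nat_lit 0) (nat_lit 88846918176)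 (nat_lit 4) (nat_lit 5) (nat_lit 6) (nat_lit 4) (nat_lit 4) (nat_lit 4) (nat_lit 476) (nat_lit 393) (nat_lit 331)) (XT.lf (nat_lit 0) (nat_lit 124225090760) (nat_lit 152) (nat_lit 32111174277) (nat_lit 0) (nat_lit 115724993318) (nat_lit 4) (nat_lit 5) (nat_lit 6) (nat_lit 4) (nat_lit 4) (nat_lit 4) (nat_lit 477) (nat_lit 393) (nat_lit 330)))))) (XT.nd (nat_lit 546) (nat_lit 152) (nat_lit 0) (XT.nd (nat_lit 234) (nat_lit 0) (nat_lit 0) (XT.nd (nat_lit 78) (nat_lit 0) (nat_lit 0) (XT.lf (nat_lit 0) (nat_lit 5297998286) (nat_lit 76) (nat_lit 148020422520) (nat_lit 76) (nat_lit 139515349865) (nat_lit 3) (nat_lit 4) (nat_lit 4) (nat_lit 5) (nat_lit 4) (nat_lit 4) (nat_lit 478) (nat_lit 393) (nat_lit 329)) (XT.nd (nat_lit 78) (nat_lit 0) (nat_lit 0) (XT.lf (nat_lit 0) (nat_lit 46801273281) (nat_lit 76) (nat_lit 138474823226) (nat_lit 76) (nat_lit 129965143892) (nat_lit 3) (nat_lit 4) (nat_lit 4)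 (nat_lit 5) (nat_lit 4) (nat_lit 4) (nat_lit 479) (nat_lit 393) (nat_lit 328)) (XT.lf (nat_lit 0) (nat_lit 91582855600) (nat_lit 76) (nat_lit 128186718915) (nat_lit 76) (nat_lit 119672774137) (nat_lit 3) (nat_lit 4) (nat_lit 4) (nat_lit 5) (nat_lit 4) (nat_lit 4) (nat_lit 480) (nat_lit 393) (nat_lit 327)))) (XT.nd (nat_lit 156) (nat_lit 0) (nat_lit 0) (XT.nd (nat_lit 78) (nat_lit 0) (nat_lit 0) (XT.lf (nat_lit 0) (nat_lit 139908117582) (nat_lit 76) (nat_lit 117095143044) (nat_lit 76) (nat_lit 108577248781) (nat_lit 3) (nat_lit 4) (nat_lit 4) (nat_lit 5) (nat_lit 4) (nat_lit 4) (nat_lit 481) (nat_lit 393) (nat_lit 326)) (XT.lf (nat_lit 0) (nat_lit 192063431151) (nat_lit 76) (nat_lit 105134367755) (nat_lit 76) (nat_lit 96612816561) (nat_lit 3) (nat_lit 4) (nat_lit 4) (nat_lit 5) (nat_lit 4) (nat_lit 4) (nat_lit 482) (nat_lit 393) (nat_lit 325))) (XT.nd (nat_lit 78) (nat_lit 0) (nat_lit 0) (XT.lf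 (nat_lit 0) (nat_lit 248357864831) (nat_lit 76) (nat_lit 92233514379) (nat_lit 76) (nat_lit 83708577139) (nat_lit 3) (nat_lit 4) (nat_lit 4) (nat_lit 5) (nat_lit 4) (nat_lit 4) (nat_lit 483) (nat_lit 393) (nat_lit 324)) (XT.lf (nat_lit 0) (nat_lit 309125015266) (nat_lit 76) (nat_lit 78316133416) (nat_lit 76) (nat_lit 69788060947) (nat_lit 3) (nat_lit 4) (nat_lit 4) (nat_lit 5) (nat_lit 4) (nat_lit 4) (nat_lit 484) (nat_lit 393) (nat_lit 323))))) (XT.nd (nat_lit 234) (nat_lit 152) (nat_lit 0) (XT.nd (nat_lit 78) (nat_lit 0) (nat_lit 0) (XT.lf (nat_lit 0) (nat_lit 374724984089) (nat_lit 76) (nat_lit 63299751496) (nat_lit 76) (nat_lit 54768776038) (nat_lit 3) (nat_lit 4) (nat_lit 4) (nat_lit 5) (nat_lit 4) (nat_lit 4) (nat_lit 485) (nat_lit 393) (nat_lit 322)) (XT.nd (nat_lit 78) (nat_lit 0) (nat_lit 0) (XT.lf (nat_lit 0) (nat_lit 445546511855) (nat_lit 76) (nat_lit 47095382653) (nat_lit 76)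 (nat_lit 38561719242) (nat_lit 3) (nat_lit 4) (nat_lit 4) (nat_lit 5) (nat_lit 4) (nat_lit 4) (nat_lit 486) (nat_lit 393) (nat_lit 321)) (XT.lf (nat_lit 0) (nat_lit 522009281693) (nat_lit 76) (nat_lit 29607000998) (nat_lit 76) (nat_lit 21070848741) (nat_lit 3) (nat_lit 4) (nat_lit 4) (nat_lit 5) (nat_lit 4) (nat_lit 4) (nat_lit 487) (nat_lit 393) (nat_lit 320)))) (XT.nd (nat_lit 156) (nat_lit 0) (nat_lit 0) (XT.nd (nat_lit 78) (nat_lit 152) (nat_lit 0) (XT.lf (nat_lit 0) (nat_lit 604566406311) (nat_lit 76) (nat_lit 10730971675) (nat_lit 76) (nat_lit 2192514932) (nat_lit 3) (nat_lit 4) (nat_lit 4) (nat_lit 5) (nat_lit 4) (nat_lit 4) (nat_lit 488) (nat_lit 393) (nat_lit 319)) (XT.lf (nat_lit 0) (nat_lit 18209918833) (nat_lit 152) (nat_lit 637546917894) (nat_lit 0) (nat_lit 10076023093) (nat_lit 1) (nat_lit 5) (nat_lit 3) (nat_lit 4) (nat_lit 1) (nat_lit 4) (nat_lit 489) (nat_lit 393) (nat_lit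 318))) (XT.nd (nat_lit 78) (nat_lit 0) (nat_lit 0) (XT.lf (nat_lit 0) (nat_lit 40568234813) (nat_lit 152) (nat_lit 645020749719) (nat_lit 0) (nat_lit 32432457430) (nat_lit 1) (nat_lit 5) (nat_lit 3) (nat_lit 4) (nat_lit 1) (nat_lit 4) (nat_lit 490) (nat_lit 393) (nat_lit 317)) (XT.lf (nat_lit 0) (nat_lit 64705699924) (nat_lit 152) (nat_lit 653111706427) (nat_lit 0) (nat_lit 56568180278) (nat_lit 1) (nat_lit 5) (nat_lit 3) (nat_lit 4) (nat_lit 1) (nat_lit 4) (nat_lit 491) (nat_lit 393) (nat_lit 316))))))) (XT.nd (nat_lit 56706) (nat_lit 0) (nat_lit 3344) (XT.nd (nat_lit 468) (nat_lit 0) (nat_lit 0) (XT.nd (nat_lit 234) (nat_lit 0) (nat_lit 0) (XT.nd (nat_lit 78) (nat_lit 0) (nat_lit 0) (XT.lf (nat_lit 0) (nat_lit 90765350997) (nat_lit 152) (nat_lit 661867734427) (nat_lit 0) (nat_lit 82626218145) (nat_lit 1) (nat_lit 5) (nat_lit 3) (nat_lit 4) (nat_lit 1) (nat_lit 4) (nat_lit 492) (nat_lit 393)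 (nat_lit 315)) (XT.nd (nat_lit 78) (nat_lit 0) (nat_lit 0) (XT.lf (nat_lit 0) (nat_lit 118901615593) (nat_lit 152) (nat_lit 671340721295) (nat_lit 0) (nat_lit 110760989031) (nat_lit 1) (nat_lit 5) (nat_lit 3) (nat_lit 4) (nat_lit 1) (nat_lit 4) (nat_lit 493) (nat_lit 393) (nat_lit 314)) (XT.lf (nat_lit 0) (nat_lit 149281227131) (nat_lit 152) (nat_lit 681586803246) (nat_lit 0) (nat_lit 141139217506) (nat_lit 1) (nat_lit 5) (nat_lit 3) (nat_lit 4) (nat_lit 1) (nat_lit 4) (nat_lit 494) (nat_lit 393) (nat_lit 313)))) (XT.nd (nat_lit 78) (nat_lit 0) (nat_lit 0) (XT.lf (nat_lit 0) (nat_lit 182084212940) (nat_lit 152) (nat_lit 692666697806) (nat_lit 0) (nat_lit 173940922700) (nat_lit 1) (nat_lit 5) (nat_lit 3) (nat_lit 4) (nat_lit 1) (nat_lit 4) (nat_lit 495) (nat_lit 393) (nat_lit 312)) (XT.nd (nat_lit 78) (nat_lit 0) (nat_lit 0) (XT.lf (nat_lit 0) (nat_lit 217504961084) (nat_lit 152) (nat_lit 704646063607)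 (nat_lit 0) (nat_lit 209360485089) (nat_lit 1) (nat_lit 5) (nat_lit 3) (nat_lit 4) (nat_lit 1) (nat_lit 4) (nat_lit 496) (nat_lit 393) (nat_lit 311)) (XT.lf (nat_lit 0) (nat_lit 255753372293) (nat_lit 152) (nat_lit 717595889485) (nat_lit 0) (nat_lit 247607798377) (nat_lit 1) (nat_lit 5) (nat_lit 3) (nat_lit 4) (nat_lit 1) (nat_lit 4) (nat_lit 497) (nat_lit 393) (nat_lit 310))))) (XT.nd (nat_lit 55926) (nat_lit 0) (nat_lit 6536) (XT.nd (nat_lit 55770) (nat_lit 0) (nat_lit 8132) (XT.lf (nat_lit 0) (nat_lit 297056103817) (nat_lit 152) (nat_lit 731592915148) (nat_lit 0) (nat_lit 288909513308) (nat_lit 1) (nat_lit 5) (nat_lit 3) (nat_lit 4) (nat_lit 1) (nat_lit 4) (nat_lit 498) (nat_lit 393) (nat_lit 309)) (XT.nd (nat_lit 78) (nat_lit 380) (nat_lit 0) (XT.lf (nat_lit 0) (nat_lit 499040522) (nat_lit 456) (nat_lit 2749497595) (nat_lit 0) (nat_lit 499040522) (nat_lit 113) (nat_lit 5) (nat_lit 119)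 (nat_lit 4) (nat_lit 113) (nat_lit 4) (nat_lit 412) (nat_lit 394) (nat_lit 394)) (XT.lf (nat_lit 0) (nat_lit 3831005830) (nat_lit 380) (nat_lit 3031036082) (nat_lit 380) (nat_lit 820613774) (nat_lit 108) (nat_lit 4) (nat_lit 113) (nat_lit 5) (nat_lit 113) (nat_lit 4) (nat_lit 413) (nat_lit 394) (nat_lit 393)))) (XT.nd (nat_lit 156) (nat_lit 836) (nat_lit 0) (XT.nd (nat_lit 78) (nat_lit 380) (nat_lit 0) (XT.lf (nat_lit 0) (nat_lit 4932631980) (nat_lit 380) (nat_lit 2080668684) (nat_lit 0) (nat_lit 878241856) (nat_lit 103) (nat_lit 5) (nat_lit 108) (nat_lit 4) (nat_lit 103) (nat_lit 4) (nat_lit 414) (nat_lit 394) (nat_lit 392)) (XT.lf (nat_lit 0) (nat_lit 2757982937) (nat_lit 380) (nat_lit 205364010) (nat_lit 76) (nat_lit 5158267687) (nat_lit 98) (nat_lit 5) (nat_lit 103) (nat_lit 5) (nat_lit 99) (nat_lit 4) (nat_lit 415) (nat_lit 394) (nat_lit 391))) (XT.nd (nat_lit 78) (nat_lit 228) (nat_lit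 0) (XT.lf (nat_lit 0) (nat_lit 321871615) (nat_lit 380) (nat_lit 6511950016) (nat_lit 76) (nat_lit 1539827378) (nat_lit 90) (nat_lit 5) (nat_lit 95) (nat_lit 5) (nat_lit 91) (nat_lit 4) (nat_lit 416) (nat_lit 394) (nat_lit 390)) (XT.lf (nat_lit 0) (nat_lit 4007536634) (nat_lit 228) (nat_lit 2164657603) (nat_lit 304) (nat_lit 2474479300) (nat_lit 87) (nat_lit 5) (nat_lit 90) (nat_lit 5) (nat_lit 91) (nat_lit 4) (nat_lit 417) (nat_lit 394) (nat_lit 389)))))) (XT.nd (nat_lit 546) (nat_lit 1292) (nat_lit 0) (XT.nd (nat_lit 234) (nat_lit 912) (nat_lit 0) (XT.nd (nat_lit 78) (nat_lit 684) (nat_lit 0) (XT.lf (nat_lit 0) (nat_lit 3341758454) (nat_lit 304) (nat_lit 2682704870) (nat_lit 76) (nat_lit 2919093446) (nat_lit 83) (nat_lit 5) (nat_lit 87) (nat_lit 5) (nat_lit 84) (nat_lit 4) (nat_lit 418) (nat_lit 394) (nat_lit 388)) (XT.nd (nat_lit 78) (nat_lit 380) (nat_lit 0) (XT.lf (nat_lit 0) (nat_lit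 180960120) (nat_lit 304) (nat_lit 626526989) (nat_lit 76) (nat_lit 8458788003) (nat_lit 79) (nat_lit 5) (nat_lit 83) (nat_lit 5) (nat_lit 80) (nat_lit 5) (nat_lit 419) (nat_lit 394) (nat_lit 387)) (XT.lf (nat_lit 0) (nat_lit 1484301057) (nat_lit 152) (nat_lit 4745312863) (nat_lit 228) (nat_lit 3380714002) (nat_lit 74) (nat_lit 5) (nat_lit 76) (nat_lit 5) (nat_lit 77) (nat_lit 4) (nat_lit 420) (nat_lit 394) (nat_lit 386)))) (XT.nd (nat_lit 156) (nat_lit 456) (nat_lit 0) (XT.nd (nat_lit 78) (nat_lit 152) (nat_lit 0) (XT.lf (nat_lit 0) (nat_lit 2643255689) (nat_lit 304) (nat_lit 6265989835) (nat_lit 76) (nat_lit 1072965018) (nat_lit 70) (nat_lit 5) (nat_lit 74) (nat_lit 5) (nat_lit 71) (nat_lit 4) (nat_lit 421) (nat_lit 394) (nat_lit 385)) (XT.lf (nat_lit 0) (nat_lit 5979582003) (nat_lit 152) (nat_lit 3059754120) (nat_lit 228) (nat_lit 1341374424) (nat_lit 68) (nat_lit 5) (nat_lit 70) (nat_lit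 5) (nat_lit 71) (nat_lit 4) (nat_lit 422) (nat_lit 394) (nat_lit 384))) (XT.nd (nat_lit 78) (nat_lit 228) (nat_lit 0) (XT.lf (nat_lit 0) (nat_lit 4966431846) (nat_lit 228) (nat_lit 2536217417) (nat_lit 76) (nat_lit 3304753179) (nat_lit 65) (nat_lit 5) (nat_lit 68) (nat_lit 5) (nat_lit 66) (nat_lit 4) (nat_lit 423) (nat_lit 394) (nat_lit 383)) (XT.lf (nat_lit 0) (nat_lit 459115988) (nat_lit 228) (nat_lit 629855776) (nat_lit 76) (nat_lit 10177387178) (nat_lit 62) (nat_lit 5) (nat_lit 65) (nat_lit 5) (nat_lit 63) (nat_lit 5) (nat_lit 424) (nat_lit 394) (nat_lit 382))))) (XT.nd (nat_lit 234) (nat_lit 608) (nat_lit 0) (XT.nd (nat_lit 78) (nat_lit 380) (nat_lit 0) (XT.lf (nat_lit 0) (nat_lit 1239685592) (nat_lit 152) (nat_lit 5906197638) (nat_lit 228) (nat_lit 4607045591) (nat_lit 58) (nat_lit 5) (nat_lit 60) (nat_lit 5) (nat_lit 61) (nat_lit 4) (nat_lit 425) (nat_lit 394) (nat_lit 381)) (XT.nd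 (nat_lit 78) (nat_lit 152) (nat_lit 0) (XT.lf (nat_lit 0) (nat_lit 2052221616) (nat_lit 228) (nat_lit 9113892217) (nat_lit 76) (nat_lit 1109227799) (nat_lit 55) (nat_lit 5) (nat_lit 58) (nat_lit 5) (nat_lit 56) (nat_lit 4) (nat_lit 426) (nat_lit 394) (nat_lit 380)) (XT.lf (nat_lit 0) (nat_lit 4990506203) (nat_lit 152) (nat_lit 4190380030) (nat_lit 228) (nat_lit 3650022721) (nat_lit 53) (nat_lit 5) (nat_lit 55) (nat_lit 5) (nat_lit 56) (nat_lit 4) (nat_lit 427) (nat_lit 394) (nat_lit 379)))) (XT.nd (nat_lit 156) (nat_lit 304) (nat_lit 0) (XT.nd (nat_lit 78) (nat_lit 76) (nat_lit 0) (XT.lf (nat_lit 0) (nat_lit 3402026841) (nat_lit 228) (nat_lit 6646743976) (nat_lit 76) (nat_lit 3376320035) (nat_lit 50) (nat_lit 5) (nat_lit 53) (nat_lit 5) (nat_lit 51) (nat_lit 4) (nat_lit 428) (nat_lit 394) (nat_lit 378)) (XT.lf (nat_lit 0) (nat_lit 8481287810) (nat_lit 76) (nat_lit 2503145973) (nat_lit 152)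 (nat_lit 3074711531) (nat_lit 49) (nat_lit 5) (nat_lit 50) (nat_lit 5) (nat_lit 51) (nat_lit 4) (nat_lit 429) (nat_lit 394) (nat_lit 377))) (XT.nd (nat_lit 78) (nat_lit 76) (nat_lit 0) (XT.lf (nat_lit 0) (nat_lit 4413027571) (nat_lit 228) (nat_lit 4688432816) (nat_lit 76) (nat_lit 5632770879) (nat_lit 46) (nat_lit 5) (nat_lit 49) (nat_lit 5) (nat_lit 47) (nat_lit 4) (nat_lit 430) (nat_lit 394) (nat_lit 376)) (XT.lf (nat_lit 0) (nat_lit 11511802003) (nat_lit 76) (nat_lit 969432710) (nat_lit 152) (nat_lit 2975137852) (nat_lit 45) (nat_lit 5) (nat_lit 46) (nat_lit 5) (nat_lit 47) (nat_lit 4) (nat_lit 431) (nat_lit 394) (nat_lit 375))))))))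
noncomputable def xc36 : XT := (XT.nd (nat_lit 2028) (nat_lit 760) (nat_lit 0) (XT.nd (nat_lit 1014) (nat_lit 912) (nat_lit 0) (XT.nd (nat_lit 468) (nat_lit 684) (nat_lit 0) (XT.nd (nat_lit 234) (nat_lit 304) (nat_lit 0) (XT.nd (nat_lit 78) (nat_lit 304) (nat_lit 0) (XT.lf (nat_lit 0) (nat_lit 4983157993) (nat_lit 228) (nat_lit 3488492001) (nat_lit 76) (nat_lit 7751625807) (nat_lit 42) (nat_lit 5) (nat_lit 45) (nat_lit 5) (nat_lit 43) (nat_lit 4) (nat_lit 432) (nat_lit 394) (nat_lit 374)) (XT.nd (nat_lit 78) (nat_lit 228) (nat_lit 0) (XT.lf (nat_lit 0) (nat_lit 13563316473) (nat_lit 152) (nat_lit 3233482207) (nat_lit 0) (nat_lit 247844618) (nat_lit 41) (nat_lit 5) (nat_lit 43) (nat_lit 4) (nat_lit 41) (nat_lit 4) (nat_lit 433) (nat_lit 394) (nat_lit 373)) (XT.lf (nat_lit 0) (nat_lit 4967538635) (nat_lit 228) (nat_lit 3376532254) (nat_lit 76) (nat_lit 9572538112) (nat_lit 38) (nat_lit 5) (nat_lit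 41) (nat_lit 5) (nat_lit 39) (nat_lit 4) (nat_lit 434) (nat_lit 394) (nat_lit 372)))) (XT.nd (nat_lit 78) (nat_lit 228) (nat_lit 0) (XT.lf (nat_lit 0) (nat_lit 14075258904) (nat_lit 152) (nat_lit 3829627262) (nat_lit 0) (nat_lit 945364745) (nat_lit 37) (nat_lit 5) (nat_lit 39) (nat_lit 4) (nat_lit 37) (nat_lit 4) (nat_lit 435) (nat_lit 394) (nat_lit 371)) (XT.nd (nat_lit 78) (nat_lit 76) (nat_lit 0) (XT.lf (nat_lit 0) (nat_lit 4166640926) (nat_lit 152) (nat_lit 4787929650) (nat_lit 76) (nat_lit 10888698213) (nat_lit 35) (nat_lit 5) (nat_lit 37) (nat_lit 5) (nat_lit 36) (nat_lit 4) (nat_lit 436) (nat_lit 394) (nat_lit 370)) (XT.lf (nat_lit 0) (nat_lit 13779335039) (nat_lit 152) (nat_lit 6217868858) (nat_lit 0) (nat_lit 908473993) (nat_lit 34) (nat_lit 5) (nat_lit 36) (nat_lit 4) (nat_lit 34) (nat_lit 4) (nat_lit 437) (nat_lit 394) (nat_lit 369))))) (XT.nd (nat_lit 234) (nat_lit 380) (nat_lit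 0) (XT.nd (nat_lit 78) (nat_lit 152) (nat_lit 0) (XT.lf (nat_lit 0) (nat_lit 2310746717) (nat_lit 152) (nat_lit 8296846630) (nat_lit 76) (nat_lit 11430341435) (nat_lit 32) (nat_lit 5) (nat_lit 34) (nat_lit 5) (nat_lit 33) (nat_lit 4) (nat_lit 438) (nat_lit 394) (nat_lit 368)) (XT.nd (nat_lit 78) (nat_lit 76) (nat_lit 0) (XT.lf (nat_lit 0) (nat_lit 12188834622) (nat_lit 76) (nat_lit 188557130) (nat_lit 152) (nat_lit 10871338318) (nat_lit 31) (nat_lit 5) (nat_lit 32) (nat_lit 5) (nat_lit 33) (nat_lit 4) (nat_lit 439) (nat_lit 394) (nat_lit 367)) (XT.lf (nat_lit 0) (nat_lit 9867164647) (nat_lit 76) (nat_lit 13682156458) (nat_lit 76) (nat_lit 992081484) (nat_lit 30) (nat_lit 4) (nat_lit 31) (nat_lit 5) (nat_lit 31) (nat_lit 4) (nat_lit 440) (nat_lit 394) (nat_lit 366)))) (XT.nd (nat_lit 156) (nat_lit 152) (nat_lit 0) (XT.nd (nat_lit 78) (nat_lit 76) (nat_lit 0) (XT.lf (nat_lit 0) (nat_lit 6666321653)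 (nat_lit 76) (nat_lit 2835942735) (nat_lit 152) (nat_lit 16420955307) (nat_lit 28) (nat_lit 5) (nat_lit 29) (nat_lit 5) (nat_lit 30) (nat_lit 4) (nat_lit 441) (nat_lit 394) (nat_lit 365)) (XT.lf (nat_lit 0) (nat_lit 2437134962) (nat_lit 76) (nat_lit 18637902774) (nat_lit 76) (nat_lit 6326058557) (nat_lit 27) (nat_lit 4) (nat_lit 28) (nat_lit 5) (nat_lit 28) (nat_lit 4) (nat_lit 442) (nat_lit 394) (nat_lit 364))) (XT.nd (nat_lit 78) (nat_lit 76) (nat_lit 0) (XT.lf (nat_lit 0) (nat_lit 4660224835) (nat_lit 152) (nat_lit 2859014772) (nat_lit 76) (nat_lit 21462885500) (nat_lit 26) (nat_lit 5) (nat_lit 28) (nat_lit 5) (nat_lit 27) (nat_lit 4) (nat_lit 443) (nat_lit 394) (nat_lit 363)) (XT.lf (nat_lit 0) (nat_lit 16567728448) (nat_lit 152) (nat_lit 9445949625) (nat_lit 0) (nat_lit 4657582763) (nat_lit 25) (nat_lit 5) (nat_lit 27) (nat_lit 4) (nat_lit 25) (nat_lit 4) (nat_lit 444) (nat_lit 394) (nat_lit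 362)))))) (XT.nd (nat_lit 468) (nat_lit 456) (nat_lit 0) (XT.nd (nat_lit 234) (nat_lit 228) (nat_lit 0) (XT.nd (nat_lit 78) (nat_lit 152) (nat_lit 0) (XT.lf (nat_lit 0) (nat_lit 14917409658) (nat_lit 76) (nat_lit 14778516314) (nat_lit 76) (nat_lit 2786203711) (nat_lit 24) (nat_lit 4) (nat_lit 25) (nat_lit 5) (nat_lit 25) (nat_lit 4) (nat_lit 445) (nat_lit 394) (nat_lit 361)) (XT.nd (nat_lit 78) (nat_lit 0) (nat_lit 0) (XT.lf (nat_lit 0) (nat_lit 6939207256) (nat_lit 76) (nat_lit 2332792908) (nat_lit 152) (nat_lit 25151631664) (nat_lit 22) (nat_lit 5) (nat_lit 23) (nat_lit 5) (nat_lit 24) (nat_lit 4) (nat_lit 446) (nat_lit 394) (nat_lit 360)) (XT.lf (nat_lit 0) (nat_lit 22549114736) (nat_lit 152) (nat_lit 2963151165) (nat_lit 0) (nat_lit 10988316669) (nat_lit 22) (nat_lit 5) (nat_lit 24) (nat_lit 4) (nat_lit 22) (nat_lit 4) (nat_lit 447) (nat_lit 394) (nat_lit 359)))) (XT.nd (nat_lit 78) (nat_lit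 152) (nat_lit 0) (XT.lf (nat_lit 0) (nat_lit 24005058134) (nat_lit 76) (nat_lit 13173523063) (nat_lit 76) (nat_lit 1550604284) (nat_lit 21) (nat_lit 4) (nat_lit 22) (nat_lit 5) (nat_lit 22) (nat_lit 4) (nat_lit 448) (nat_lit 394) (nat_lit 358)) (XT.nd (nat_lit 78) (nat_lit 0) (nat_lit 0) (XT.lf (nat_lit 0) (nat_lit 11591342403) (nat_lit 152) (nat_lit 29061976350) (nat_lit 0) (nat_lit 467115777) (nat_lit 19) (nat_lit 5) (nat_lit 21) (nat_lit 4) (nat_lit 19) (nat_lit 4) (nat_lit 449) (nat_lit 394) (nat_lit 357)) (XT.lf (nat_lit 0) (nat_lit 26097147351) (nat_lit 152) (nat_lit 2664029697) (nat_lit 0) (nat_lit 14922198345) (nat_lit 19) (nat_lit 5) (nat_lit 21) (nat_lit 4) (nat_lit 19) (nat_lit 4) (nat_lit 450) (nat_lit 394) (nat_lit 356))))) (XT.nd (nat_lit 234) (nat_lit 228) (nat_lit 0) (XT.nd (nat_lit 78) (nat_lit 152) (nat_lit 0) (XT.lf (nat_lit 0) (nat_lit 26479527307) (nat_lit 76) (nat_lit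 15589237476) (nat_lit 76) (nat_lit 4367323304) (nat_lit 18) (nat_lit 4) (nat_lit 19) (nat_lit 5) (nat_lit 19) (nat_lit 4) (nat_lit 451) (nat_lit 394) (nat_lit 355)) (XT.nd (nat_lit 78) (nat_lit 0) (nat_lit 0) (XT.lf (nat_lit 0) (nat_lit 8553374216) (nat_lit 76) (nat_lit 1114320736) (nat_lit 152) (nat_lit 39729803205) (nat_lit 16) (nat_lit 5) (nat_lit 17) (nat_lit 5) (nat_lit 18) (nat_lit 4) (nat_lit 452) (nat_lit 394) (nat_lit 354)) (XT.lf (nat_lit 0) (nat_lit 25152730967) (nat_lit 152) (nat_lit 13030071738) (nat_lit 0) (nat_lit 14385430493) (nat_lit 16) (nat_lit 5) (nat_lit 18) (nat_lit 4) (nat_lit 16) (nat_lit 4) (nat_lit 453) (nat_lit 394) (nat_lit 353)))) (XT.nd (nat_lit 156) (nat_lit 76) (nat_lit 0) (XT.nd (nat_lit 78) (nat_lit 76) (nat_lit 0) (XT.lf (nat_lit 0) (nat_lit 17358523337) (nat_lit 76) (nat_lit 24713569079) (nat_lit 76) (nat_lit 13910761497) (nat_lit 15) (nat_lit 4) (nat_lit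 16) (nat_lit 5) (nat_lit 16) (nat_lit 4) (nat_lit 454) (nat_lit 394) (nat_lit 352)) (XT.lf (nat_lit 0) (nat_lit 791894937) (nat_lit 152) (nat_lit 9212299910) (nat_lit 76) (nat_lit 49658969645) (nat_lit 14) (nat_lit 5) (nat_lit 16) (nat_lit 5) (nat_lit 15) (nat_lit 4) (nat_lit 455) (nat_lit 394) (nat_lit 351))) (XT.nd (nat_lit 78) (nat_lit 0) (nat_lit 0) (XT.lf (nat_lit 0) (nat_lit 16562593513) (nat_lit 152) (nat_lit 40831044907) (nat_lit 0) (nat_lit 6213901937) (nat_lit 13) (nat_lit 5) (nat_lit 15) (nat_lit 4) (nat_lit 13) (nat_lit 4) (nat_lit 456) (nat_lit 394) (nat_lit 350)) (XT.lf (nat_lit 0) (nat_lit 33844452660) (nat_lit 152) (nat_lit 10541624043) (nat_lit 0) (nat_lit 23468916620) (nat_lit 13) (nat_lit 5) (nat_lit 15) (nat_lit 4) (nat_lit 13) (nat_lit 4) (nat_lit 457) (nat_lit 394) (nat_lit 349))))))) (XT.nd (nat_lit 1014) (nat_lit 228) (nat_lit 0) (XT.nd (nat_lit 468) (nat_lit 228) (nat_lit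 0) (XT.nd (nat_lit 234) (nat_lit 76) (nat_lit 0) (XT.nd (nat_lit 78) (nat_lit 152) (nat_lit 0) (XT.lf (nat_lit 0) (nat_lit 22746934857) (nat_lit 76) (nat_lit 30040877112) (nat_lit 76) (nat_lit 19640485086) (nat_lit 12) (nat_lit 4) (nat_lit 13) (nat_lit 5) (nat_lit 13) (nat_lit 4) (nat_lit 458) (nat_lit 394) (nat_lit 348)) (XT.nd (nat_lit 78) (nat_lit 152) (nat_lit 0) (XT.lf (nat_lit 0) (nat_lit 58929565184) (nat_lit 76) (nat_lit 14427884104) (nat_lit 76) (nat_lit 4004477278) (nat_lit 12) (nat_lit 4) (nat_lit 13) (nat_lit 5) (nat_lit 13) (nat_lit 4) (nat_lit 459) (nat_lit 394) (nat_lit 347)) (XT.lf (nat_lit 0) (nat_lit 12687343358) (nat_lit 152) (nat_lit 67241991777) (nat_lit 0) (nat_lit 2739993999) (nat_lit 10) (nat_lit 5) (nat_lit 12) (nat_lit 4) (nat_lit 10) (nat_lit 4) (nat_lit 460) (nat_lit 394) (nat_lit 346)))) (XT.nd (nat_lit 78) (nat_lit 76) (nat_lit 0) (XT.lf (nat_lit 0) (nat_lit 31079188494)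 (nat_lit 152) (nat_lit 36180558584) (nat_lit 0) (nat_lit 21113047248) (nat_lit 10) (nat_lit 5) (nat_lit 12) (nat_lit 4) (nat_lit 10) (nat_lit 4) (nat_lit 461) (nat_lit 394) (nat_lit 345)) (XT.nd (nat_lit 78) (nat_lit 76) (nat_lit 0) (XT.lf (nat_lit 0) (nat_lit 50880785559) (nat_lit 152) (nat_lit 2757588011) (nat_lit 0) (nat_lit 40897244416) (nat_lit 10) (nat_lit 5) (nat_lit 12) (nat_lit 4) (nat_lit 10) (nat_lit 4) (nat_lit 462) (nat_lit 394) (nat_lit 344)) (XT.lf (nat_lit 0) (nat_lit 34323549942) (nat_lit 76) (nat_lit 38421814214) (nat_lit 76) (nat_lit 28422162056) (nat_lit 9) (nat_lit 4) (nat_lit 10) (nat_lit 5) (nat_lit 10) (nat_lit 4) (nat_lit 463) (nat_lit 394) (nat_lit 343))))) (XT.nd (nat_lit 234) (nat_lit 76) (nat_lit 0) (XT.nd (nat_lit 78) (nat_lit 152) (nat_lit 0) (XT.lf (nat_lit 0) (nat_lit 74360377946) (nat_lit 76) (nat_lit 21992252063) (nat_lit 76) (nat_lit 11977682299) (nat_lit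 9) (nat_lit 4) (nat_lit 10) (nat_lit 5) (nat_lit 10) (nat_lit 4) (nat_lit 464) (nat_lit 394) (nat_lit 342)) (XT.nd (nat_lit 78) (nat_lit 0) (nat_lit 0) (XT.lf (nat_lit 0) (nat_lit 1385210804) (nat_lit 76) (nat_lit 4182395618) (nat_lit 152) (nat_lit 110495485937) (nat_lit 7) (nat_lit 5) (nat_lit 8) (nat_lit 5) (nat_lit 9) (nat_lit 4) (nat_lit 465) (nat_lit 394) (nat_lit 341)) (XT.lf (nat_lit 0) (nat_lit 24889119768) (nat_lit 152) (nat_lit 84149847245) (nat_lit 0) (nat_lit 15326099000) (nat_lit 7) (nat_lit 5) (nat_lit 9) (nat_lit 4) (nat_lit 7) (nat_lit 4) (nat_lit 466) (nat_lit 394) (nat_lit 340)))) (XT.nd (nat_lit 156) (nat_lit 76) (nat_lit 0) (XT.nd (nat_lit 78) (nat_lit 0) (nat_lit 0) (XT.lf (nat_lit 0) (nat_lit 45780755077) (nat_lit 152) (nat_lit 51342767249) (nat_lit 0) (nat_lit 36206456141) (nat_lit 7) (nat_lit 5) (nat_lit 9) (nat_lit 4) (nat_lit 7) (nat_lit 4) (nat_lit 467) (nat_lit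 394) (nat_lit 339)) (XT.lf (nat_lit 0) (nat_lit 68301015718) (nat_lit 152) (nat_lit 15996930323) (nat_lit 0) (nat_lit 58716274033) (nat_lit 7) (nat_lit 5) (nat_lit 9) (nat_lit 4) (nat_lit 7) (nat_lit 4) (nat_lit 468) (nat_lit 394) (nat_lit 338))) (XT.nd (nat_lit 78) (nat_lit 0) (nat_lit 0) (XT.lf (nat_lit 0) (nat_lit 22827750933) (nat_lit 76) (nat_lit 70112009319) (nat_lit 76) (nat_lit 60517598422) (nat_lit 6) (nat_lit 4) (nat_lit 7) (nat_lit 5) (nat_lit 7) (nat_lit 4) (nat_lit 469) (nat_lit 394) (nat_lit 337)) (XT.lf (nat_lit 0) (nat_lit 65253651637) (nat_lit 76) (nat_lit 54536809262) (nat_lit 76) (nat_lit 44933445391) (nat_lit 6) (nat_lit 4) (nat_lit 7) (nat_lit 5) (nat_lit 7) (nat_lit 4) (nat_lit 470) (nat_lit 394) (nat_lit 336)))))) (XT.nd (nat_lit 546) (nat_lit 76) (nat_lit 0) (XT.nd (nat_lit 234) (nat_lit 0) (nat_lit 0) (XT.nd (nat_lit 78) (nat_lit 152) (nat_lit 0) (XT.lf (nat_lit 0)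 (nat_lit 111003253774) (nat_lit 76) (nat_lit 37750964144) (nat_lit 76) (nat_lit 28139310483) (nat_lit 6) (nat_lit 4) (nat_lit 7) (nat_lit 5) (nat_lit 7) (nat_lit 4) (nat_lit 471) (nat_lit 394) (nat_lit 335)) (XT.nd (nat_lit 78) (nat_lit 152) (nat_lit 0) (XT.lf (nat_lit 0) (nat_lit 160347666097) (nat_lit 76) (nat_lit 19655002290) (nat_lit 76) (nat_lit 10035672897) (nat_lit 6) (nat_lit 4) (nat_lit 7) (nat_lit 5) (nat_lit 7) (nat_lit 4) (nat_lit 472) (nat_lit 394) (nat_lit 334)) (XT.lf (nat_lit 0) (nat_lit 9332129767) (nat_lit 152) (nat_lit 194725063590) (nat_lit 0) (nat_lit 164094956) (nat_lit 4) (nat_lit 5) (nat_lit 6) (nat_lit 4) (nat_lit 4) (nat_lit 4) (nat_lit 473) (nat_lit 394) (nat_lit 333)))) (XT.nd (nat_lit 156) (nat_lit 0) (nat_lit 0) (XT.nd (nat_lit 78) (nat_lit 0) (nat_lit 0) (XT.lf (nat_lit 0) (nat_lit 30729929483) (nat_lit 152) (nat_lit 167203480160) (nat_lit 0) (nat_lit 21555627335)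 (nat_lit 4) (nat_lit 5) (nat_lit 6) (nat_lit 4) (nat_lit 4) (nat_lit 4) (nat_lit 474) (nat_lit 394) (nat_lit 332)) (XT.lf (nat_lit 0) (nat_lit 53812130182) (nat_lit 152) (nat_lit 137535422048) (nat_lit 0) (nat_lit 44632024945) (nat_lit 4) (nat_lit 5) (nat_lit 6) (nat_lit 4) (nat_lit 4) (nat_lit 4) (nat_lit 475) (nat_lit 394) (nat_lit 331))) (XT.nd (nat_lit 78) (nat_lit 0) (nat_lit 0) (XT.lf (nat_lit 0) (nat_lit 78715515276) (nat_lit 152) (nat_lit 105545078539) (nat_lit 0) (nat_lit 69530036809) (nat_lit 4) (nat_lit 5) (nat_lit 6) (nat_lit 4) (nat_lit 4) (nat_lit 4) (nat_lit 476) (nat_lit 394) (nat_lit 330)) (XT.lf (nat_lit 0) (nat_lit 105587660381) (nat_lit 152) (nat_lit 71042877228) (nat_lit 0) (nat_lit 96397206700) (nat_lit 4) (nat_lit 5) (nat_lit 6) (nat_lit 4) (nat_lit 4) (nat_lit 4) (nat_lit 477) (nat_lit 394) (nat_lit 329))))) (XT.nd (nat_lit 234) (nat_lit 0) (nat_lit 0) (XT.nd (nat_lit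 78) (nat_lit 76) (nat_lit 0) (XT.lf (nat_lit 0) (nat_lit 134587807839) (nat_lit 152) (nat_lit 33824360625) (nat_lit 0) (nat_lit 125392747478) (nat_lit 4) (nat_lit 5) (nat_lit 6) (nat_lit 4) (nat_lit 4) (nat_lit 4) (nat_lit 478) (nat_lit 394) (nat_lit 328)) (XT.nd (nat_lit 78) (nat_lit 0) (nat_lit 0) (XT.lf (nat_lit 0) (nat_lit 6540357734) (nat_lit 76) (nat_lit 159449565952) (nat_lit 76) (nat_lit 150250240148) (nat_lit 3) (nat_lit 4) (nat_lit 4) (nat_lit 5) (nat_lit 4) (nat_lit 4) (nat_lit 479) (nat_lit 394) (nat_lit 327)) (XT.lf (nat_lit 0) (nat_lit 51303263648) (nat_lit 76) (nat_lit 149170873557) (nat_lit 76) (nat_lit 139967598268) (nat_lit 3) (nat_lit 4) (nat_lit 4) (nat_lit 5) (nat_lit 4) (nat_lit 4) (nat_lit 480) (nat_lit 394) (nat_lit 326)))) (XT.nd (nat_lit 156) (nat_lit 0) (nat_lit 0) (XT.nd (nat_lit 78) (nat_lit 0) (nat_lit 0) (XT.lf (nat_lit 0) (nat_lit 99611232663) (nat_lit 76) (nat_lit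 138088012422) (nat_lit 76) (nat_lit 128881080202) (nat_lit 3) (nat_lit 4) (nat_lit 4) (nat_lit 5) (nat_lit 4) (nat_lit 4) (nat_lit 481) (nat_lit 394) (nat_lit 325)) (XT.lf (nat_lit 0) (nat_lit 151750534225) (nat_lit 76) (nat_lit 126135306333) (nat_lit 76) (nat_lit 116924988067) (nat_lit 3) (nat_lit 4) (nat_lit 4) (nat_lit 5) (nat_lit 4) (nat_lit 4) (nat_lit 482) (nat_lit 394) (nat_lit 324))) (XT.nd (nat_lit 78) (nat_lit 0) (nat_lit 0) (XT.lf (nat_lit 0) (nat_lit 208030141973) (nat_lit 76) (nat_lit 113241924439) (nat_lit 76) (nat_lit 104028470945) (nat_lit 3) (nat_lit 4) (nat_lit 4) (nat_lit 5) (nat_lit 4) (nat_lit 4) (nat_lit 483) (nat_lit 394) (nat_lit 323)) (XT.lf (nat_lit 0) (nat_lit 268783564693) (nat_lit 76) (nat_lit 99331461515) (nat_lit 76) (nat_lit 90115105031) (nat_lit 3) (nat_lit 4) (nat_lit 4) (nat_lit 5) (nat_lit 4) (nat_lit 4) (nat_lit 484) (nat_lit 394) (nat_lit 322))))))))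
noncomputable def xc37 : XT := (XT.nd (nat_lit 57642) (nat_lit 0) (nat_lit 1444) (XT.nd (nat_lit 1014) (nat_lit 0) (nat_lit 0) (XT.nd (nat_lit 468) (nat_lit 0) (nat_lit 0) (XT.nd (nat_lit 234) (nat_lit 152) (nat_lit 0) (XT.nd (nat_lit 78) (nat_lit 0) (nat_lit 0) (XT.lf (nat_lit 0) (nat_lit 334370822669) (nat_lit 76) (nat_lit 84321485187) (nat_lit 76) (nat_lit 75102440750) (nat_lit 3) (nat_lit 4) (nat_lit 4) (nat_lit 5) (nat_lit 4) (nat_lit 4) (nat_lit 485) (nat_lit 394) (nat_lit 321)) (XT.nd (nat_lit 78) (nat_lit 0) (nat_lit 0) (XT.lf (nat_lit 0) (nat_lit 405180581132) (nat_lit 76) (nat_lit 68123047447) (nat_lit 76) (nat_lit 58901514165) (nat_lit 3) (nat_lit 4) (nat_lit 4) (nat_lit 5) (nat_lit 4) (nat_lit 4) (nat_lit 486) (nat_lit 394) (nat_lit 320)) (XT.lf (nat_lit 0) (nat_lit 481632453467) (nat_lit 76) (nat_lit 50640157554) (nat_lit 76) (nat_lit 41416319785) (nat_lit 3) (nat_lit 4) (nat_lit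 4) (nat_lit 5) (nat_lit 4) (nat_lit 4) (nat_lit 487) (nat_lit 394) (nat_lit 319)))) (XT.nd (nat_lit 78) (nat_lit 152) (nat_lit 0) (XT.lf (nat_lit 0) (nat_lit 564179487805) (nat_lit 76) (nat_lit 31769213196) (nat_lit 76) (nat_lit 22543241644) (nat_lit 3) (nat_lit 4) (nat_lit 4) (nat_lit 5) (nat_lit 4) (nat_lit 4) (nat_lit 488) (nat_lit 394) (nat_lit 318)) (XT.nd (nat_lit 78) (nat_lit 152) (nat_lit 0) (XT.lf (nat_lit 0) (nat_lit 653310851758) (nat_lit 76) (nat_lit 11398386556) (nat_lit 76) (nat_lit 2170439278) (nat_lit 3) (nat_lit 4) (nat_lit 4) (nat_lit 5) (nat_lit 4) (nat_lit 4) (nat_lit 489) (nat_lit 394) (nat_lit 317)) (XT.lf (nat_lit 0) (nat_lit 19852368716) (nat_lit 152) (nat_lit 688175728964) (nat_lit 0) (nat_lit 11062105236) (nat_lit 1) (nat_lit 5) (nat_lit 3) (nat_lit 4) (nat_lit 1) (nat_lit 4) (nat_lit 490) (nat_lit 394) (nat_lit 316))))) (XT.nd (nat_lit 234) (nat_lit 0) (nat_lit 0)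 (XT.nd (nat_lit 78) (nat_lit 0) (nat_lit 0) (XT.lf (nat_lit 0) (nat_lit 43985597651) (nat_lit 152) (nat_lit 696275240843) (nat_lit 0) (nat_lit 35193720964) (nat_lit 1) (nat_lit 5) (nat_lit 3) (nat_lit 4) (nat_lit 1) (nat_lit 4) (nat_lit 491) (nat_lit 394) (nat_lit 315)) (XT.nd (nat_lit 78) (nat_lit 0) (nat_lit 0) (XT.lf (nat_lit 0) (nat_lit 70041326337) (nat_lit 152) (nat_lit 705039190299) (nat_lit 0) (nat_lit 61247955942) (nat_lit 1) (nat_lit 5) (nat_lit 3) (nat_lit 4) (nat_lit 1) (nat_lit 4) (nat_lit 492) (nat_lit 394) (nat_lit 314)) (XT.lf (nat_lit 0) (nat_lit 98173959094) (nat_lit 152) (nat_lit 714519511847) (nat_lit 0) (nat_lit 89379205634) (nat_lit 1) (nat_lit 5) (nat_lit 3) (nat_lit 4) (nat_lit 1) (nat_lit 4) (nat_lit 493) (nat_lit 394) (nat_lit 313)))) (XT.nd (nat_lit 156) (nat_lit 0) (nat_lit 0) (XT.nd (nat_lit 78) (nat_lit 0) (nat_lit 0) (XT.lf (nat_lit 0) (nat_lit 128550207819)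 (nat_lit 152) (nat_lit 724772385169) (nat_lit 0) (nat_lit 119754173744) (nat_lit 1) (nat_lit 5) (nat_lit 3) (nat_lit 4) (nat_lit 1) (nat_lit 4) (nat_lit 494) (nat_lit 394) (nat_lit 312)) (XT.lf (nat_lit 0) (nat_lit 161350079912) (nat_lit 152) (nat_lit 735858568035) (nat_lit 0) (nat_lit 152552860082) (nat_lit 1) (nat_lit 5) (nat_lit 3) (nat_lit 4) (nat_lit 1) (nat_lit 4) (nat_lit 495) (nat_lit 394) (nat_lit 311))) (XT.nd (nat_lit 78) (nat_lit 0) (nat_lit 0) (XT.lf (nat_lit 0) (nat_lit 196767944985) (nat_lit 152) (nat_lit 747843756342) (nat_lit 0) (nat_lit 187969627235) (nat_lit 1) (nat_lit 5) (nat_lit 3) (nat_lit 4) (nat_lit 1) (nat_lit 4) (nat_lit 496) (nat_lit 394) (nat_lit 310)) (XT.lf (nat_lit 0) (nat_lit 235013686684) (nat_lit 152) (nat_lit 760798973429) (nat_lit 0) (nat_lit 226214352340) (nat_lit 1) (nat_lit 5) (nat_lit 3) (nat_lit 4) (nat_lit 1) (nat_lit 4) (nat_lit 497) (nat_lit 394)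 (nat_lit 309)))))) (XT.nd (nat_lit 56082) (nat_lit 0) (nat_lit 5092) (XT.nd (nat_lit 55770) (nat_lit 0) (nat_lit 7372) (XT.nd (nat_lit 55614) (nat_lit 0) (nat_lit 8968) (XT.lf (nat_lit 0) (nat_lit 276313946440) (nat_lit 152) (nat_lit 774800990952) (nat_lit 0) (nat_lit 267513670805) (nat_lit 1) (nat_lit 5) (nat_lit 3) (nat_lit 4) (nat_lit 1) (nat_lit 4) (nat_lit 498) (nat_lit 394) (nat_lit 308)) (XT.nd (nat_lit 78) (nat_lit 1216) (nat_lit 0) (XT.lf (nat_lit 0) (nat_lit 3100263601) (nat_lit 684) (nat_lit 242650519) (nat_lit 684) (nat_lit 242650519) (nat_lit 135) (nat_lit 4) (nat_lit 144) (nat_lit 5) (nat_lit 144) (nat_lit 4) (nat_lit 410) (nat_lit 395) (nat_lit 395)) (XT.lf (nat_lit 0) (nat_lit 286873966) (nat_lit 380) (nat_lit 4773602110) (nat_lit 380) (nat_lit 2266983213) (nat_lit 119) (nat_lit 4) (nat_lit 124) (nat_lit 5) (nat_lit 124) (nat_lit 4) (nat_lit 411) (nat_lit 395) (nat_lit 394))))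 (XT.nd (nat_lit 156) (nat_lit 684) (nat_lit 0) (XT.nd (nat_lit 78) (nat_lit 456) (nat_lit 0) (XT.lf (nat_lit 0) (nat_lit 1738274702) (nat_lit 380) (nat_lit 1464572626) (nat_lit 456) (nat_lit 4301524205) (nat_lit 113) (nat_lit 5) (nat_lit 118) (nat_lit 5) (nat_lit 119) (nat_lit 4) (nat_lit 412) (nat_lit 395) (nat_lit 393)) (XT.lf (nat_lit 0) (nat_lit 1106637648) (nat_lit 456) (nat_lit 4375758545) (nat_lit 76) (nat_lit 2219694272) (nat_lit 107) (nat_lit 5) (nat_lit 113) (nat_lit 5) (nat_lit 108) (nat_lit 4) (nat_lit 413) (nat_lit 395) (nat_lit 392))) (XT.nd (nat_lit 78) (nat_lit 380) (nat_lit 0) (XT.lf (nat_lit 0) (nat_lit 5041297111) (nat_lit 304) (nat_lit 1583455907) (nat_lit 380) (nat_lit 1296100249) (nat_lit 103) (nat_lit 5) (nat_lit 107) (nat_lit 5) (nat_lit 108) (nat_lit 4) (nat_lit 414) (nat_lit 395) (nat_lit 391)) (XT.lf (nat_lit 0) (nat_lit 4150342579) (nat_lit 380) (nat_lit 1295751113)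 (nat_lit 76) (nat_lit 2714459782) (nat_lit 98) (nat_lit 5) (nat_lit 103) (nat_lit 5) (nat_lit 99) (nat_lit 4) (nat_lit 415) (nat_lit 395) (nat_lit 390))))) (XT.nd (nat_lit 234) (nat_lit 1140) (nat_lit 0) (XT.nd (nat_lit 78) (nat_lit 532) (nat_lit 0) (XT.lf (nat_lit 0) (nat_lit 424143029) (nat_lit 304) (nat_lit 969812338) (nat_lit 380) (nat_lit 7029533901) (nat_lit 90) (nat_lit 5) (nat_lit 94) (nat_lit 5) (nat_lit 95) (nat_lit 5) (nat_lit 416) (nat_lit 395) (nat_lit 389)) (XT.nd (nat_lit 78) (nat_lit 304) (nat_lit 0) (XT.lf (nat_lit 0) (nat_lit 2252065516) (nat_lit 228) (nat_lit 4785667338) (nat_lit 304) (nat_lit 1669160970) (nat_lit 87) (nat_lit 5) (nat_lit 90) (nat_lit 5) (nat_lit 91) (nat_lit 4) (nat_lit 417) (nat_lit 395) (nat_lit 388)) (XT.lf (nat_lit 0) (nat_lit 3888129176) (nat_lit 304) (nat_lit 4828121269) (nat_lit 76) (nat_lit 298603105) (nat_lit 83) (nat_lit 5) (nat_lit 87) (nat_lit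 5) (nat_lit 84) (nat_lit 4) (nat_lit 418) (nat_lit 395) (nat_lit 387)))) (XT.nd (nat_lit 156) (nat_lit 608) (nat_lit 0) (XT.nd (nat_lit 78) (nat_lit 228) (nat_lit 0) (XT.lf (nat_lit 0) (nat_lit 449105268) (nat_lit 304) (nat_lit 3154515941) (nat_lit 76) (nat_lit 5743207032) (nat_lit 79) (nat_lit 5) (nat_lit 83) (nat_lit 5) (nat_lit 80) (nat_lit 5) (nat_lit 419) (nat_lit 395) (nat_lit 386)) (XT.lf (nat_lit 0) (nat_lit 6239925748) (nat_lit 304) (nat_lit 1441050910) (nat_lit 76) (nat_lit 2022834057) (nat_lit 76) (nat_lit 5) (nat_lit 80) (nat_lit 5) (nat_lit 77) (nat_lit 4) (nat_lit 420) (nat_lit 395) (nat_lit 385))) (XT.nd (nat_lit 78) (nat_lit 152) (nat_lit 0) (XT.lf (nat_lit 0) (nat_lit 336786517) (nat_lit 228) (nat_lit 1987736581) (nat_lit 304) (nat_lit 7763179854) (nat_lit 70) (nat_lit 5) (nat_lit 73) (nat_lit 5) (nat_lit 74) (nat_lit 5) (nat_lit 421) (nat_lit 395) (nat_lit 384)) (XT.lf (nat_lit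 0) (nat_lit 2185357577) (nat_lit 152) (nat_lit 6306890242) (nat_lit 228) (nat_lit 2005403949) (nat_lit 68) (nat_lit 5) (nat_lit 70) (nat_lit 5) (nat_lit 71) (nat_lit 4) (nat_lit 422) (nat_lit 395) (nat_lit 383))))))) (XT.nd (nat_lit 1014) (nat_lit 1292) (nat_lit 0) (XT.nd (nat_lit 468) (nat_lit 1140) (nat_lit 0) (XT.nd (nat_lit 234) (nat_lit 608) (nat_lit 0) (XT.nd (nat_lit 78) (nat_lit 380) (nat_lit 0) (XT.lf (nat_lit 0) (nat_lit 4070777722) (nat_lit 228) (nat_lit 6861136954) (nat_lit 76) (nat_lit 5618599) (nat_lit 65) (nat_lit 5) (nat_lit 68) (nat_lit 5) (nat_lit 66) (nat_lit 4) (nat_lit 423) (nat_lit 395) (nat_lit 382)) (XT.nd (nat_lit 78) (nat_lit 228) (nat_lit 0) (XT.lf (nat_lit 0) (nat_lit 5959762132) (nat_lit 152) (nat_lit 4684634534) (nat_lit 228) (nat_lit 762537439) (nat_lit 63) (nat_lit 5) (nat_lit 65) (nat_lit 5) (nat_lit 66) (nat_lit 4) (nat_lit 424) (nat_lit 395) (nat_lit 381))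 (XT.lf (nat_lit 0) (nat_lit 5666035386) (nat_lit 228) (nat_lit 4068199650) (nat_lit 76) (nat_lit 2174016574) (nat_lit 60) (nat_lit 5) (nat_lit 63) (nat_lit 5) (nat_lit 61) (nat_lit 4) (nat_lit 425) (nat_lit 395) (nat_lit 380)))) (XT.nd (nat_lit 78) (nat_lit 380) (nat_lit 0) (XT.lf (nat_lit 0) (nat_lit 211257761) (nat_lit 228) (nat_lit 2707124597) (nat_lit 76) (nat_lit 9526484688) (nat_lit 57) (nat_lit 5) (nat_lit 60) (nat_lit 5) (nat_lit 58) (nat_lit 5) (nat_lit 426) (nat_lit 395) (nat_lit 379)) (XT.nd (nat_lit 78) (nat_lit 228) (nat_lit 0) (XT.lf (nat_lit 0) (nat_lit 7052879533) (nat_lit 228) (nat_lit 1459329798) (nat_lit 76) (nat_lit 4502595420) (nat_lit 55) (nat_lit 5) (nat_lit 58) (nat_lit 5) (nat_lit 56) (nat_lit 4) (nat_lit 427) (nat_lit 395) (nat_lit 378)) (XT.lf (nat_lit 0) (nat_lit 863700915) (nat_lit 228) (nat_lit 231379378) (nat_lit 76) (nat_lit 12530748141) (nat_lit 52) (nat_lit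 5) (nat_lit 55) (nat_lit 5) (nat_lit 53) (nat_lit 5) (nat_lit 428) (nat_lit 395) (nat_lit 377))))) (XT.nd (nat_lit 234) (nat_lit 608) (nat_lit 0) (XT.nd (nat_lit 78) (nat_lit 304) (nat_lit 0) (XT.lf (nat_lit 0) (nat_lit 838630881) (nat_lit 76) (nat_lit 7356185582) (nat_lit 152) (nat_lit 6077645898) (nat_lit 49) (nat_lit 5) (nat_lit 50) (nat_lit 5) (nat_lit 51) (nat_lit 4) (nat_lit 429) (nat_lit 395) (nat_lit 376)) (XT.nd (nat_lit 78) (nat_lit 76) (nat_lit 0) (XT.lf (nat_lit 0) (nat_lit 1189648439) (nat_lit 228) (nat_lit 13101518014) (nat_lit 76) (nat_lit 674567075) (nat_lit 46) (nat_lit 5) (nat_lit 49) (nat_lit 5) (nat_lit 47) (nat_lit 4) (nat_lit 430) (nat_lit 395) (nat_lit 375)) (XT.lf (nat_lit 0) (nat_lit 2626904117) (nat_lit 76) (nat_lit 6388528299) (nat_lit 152) (nat_lit 6684575731) (nat_lit 45) (nat_lit 5) (nat_lit 46) (nat_lit 5) (nat_lit 47) (nat_lit 4) (nat_lit 431) (nat_lit 395)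 (nat_lit 374)))) (XT.nd (nat_lit 156) (nat_lit 304) (nat_lit 0) (XT.nd (nat_lit 78) (nat_lit 76) (nat_lit 0) (XT.lf (nat_lit 0) (nat_lit 1053459710) (nat_lit 228) (nat_lit 13217432236) (nat_lit 76) (nat_lit 2215875175) (nat_lit 42) (nat_lit 5) (nat_lit 45) (nat_lit 5) (nat_lit 43) (nat_lit 4) (nat_lit 432) (nat_lit 395) (nat_lit 373)) (XT.lf (nat_lit 0) (nat_lit 3580587381) (nat_lit 76) (nat_lit 5792267426) (nat_lit 152) (nat_lit 7948327909) (nat_lit 41) (nat_lit 5) (nat_lit 42) (nat_lit 5) (nat_lit 43) (nat_lit 4) (nat_lit 433) (nat_lit 395) (nat_lit 372))) (XT.nd (nat_lit 78) (nat_lit 76) (nat_lit 0) (XT.lf (nat_lit 0) (nat_lit 282762505) (nat_lit 228) (nat_lit 14536039250) (nat_lit 76) (nat_lit 3395879890) (nat_lit 38) (nat_lit 5) (nat_lit 41) (nat_lit 5) (nat_lit 39) (nat_lit 4) (nat_lit 434) (nat_lit 395) (nat_lit 371)) (XT.lf (nat_lit 0) (nat_lit 3333170271) (nat_lit 76) (nat_lit 5768539249)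 (nat_lit 152) (nat_lit 10061060804) (nat_lit 37) (nat_lit 5) (nat_lit 38) (nat_lit 5) (nat_lit 39) (nat_lit 4) (nat_lit 435) (nat_lit 395) (nat_lit 370)))))) (XT.nd (nat_lit 546) (nat_lit 608) (nat_lit 0) (XT.nd (nat_lit 234) (nat_lit 456) (nat_lit 0) (XT.nd (nat_lit 78) (nat_lit 152) (nat_lit 0) (XT.lf (nat_lit 0) (nat_lit 2651564364) (nat_lit 76) (nat_lit 16153319376) (nat_lit 76) (nat_lit 1372902402) (nat_lit 36) (nat_lit 4) (nat_lit 37) (nat_lit 5) (nat_lit 37) (nat_lit 4) (nat_lit 436) (nat_lit 395) (nat_lit 369)) (XT.nd (nat_lit 78) (nat_lit 0) (nat_lit 0) (XT.lf (nat_lit 0) (nat_lit 1399727719) (nat_lit 76) (nat_lit 6576521971) (nat_lit 152) (nat_lit 13280398090) (nat_lit 34) (nat_lit 5) (nat_lit 35) (nat_lit 5) (nat_lit 36) (nat_lit 4) (nat_lit 437) (nat_lit 395) (nat_lit 368)) (XT.lf (nat_lit 0) (nat_lit 18223681723) (nat_lit 152) (nat_lit 353964964) (nat_lit 0) (nat_lit 3833136703)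 (nat_lit 34) (nat_lit 5) (nat_lit 36) (nat_lit 4) (nat_lit 34) (nat_lit 4) (nat_lit 438) (nat_lit 395) (nat_lit 367)))) (XT.nd (nat_lit 156) (nat_lit 228) (nat_lit 0) (XT.nd (nat_lit 78) (nat_lit 76) (nat_lit 0) (XT.lf (nat_lit 0) (nat_lit 5737561728) (nat_lit 152) (nat_lit 2768303727) (nat_lit 76) (nat_lit 15132787000) (nat_lit 32) (nat_lit 5) (nat_lit 34) (nat_lit 5) (nat_lit 33) (nat_lit 4) (nat_lit 439) (nat_lit 395) (nat_lit 366)) (XT.lf (nat_lit 0) (nat_lit 16502858525) (nat_lit 152) (nat_lit 5907575898) (nat_lit 0) (nat_lit 2541227183) (nat_lit 31) (nat_lit 5) (nat_lit 33) (nat_lit 4) (nat_lit 31) (nat_lit 4) (nat_lit 440) (nat_lit 395) (nat_lit 365))) (XT.nd (nat_lit 78) (nat_lit 76) (nat_lit 0) (XT.lf (nat_lit 0) (nat_lit 2008232469) (nat_lit 152) (nat_lit 9958870864) (nat_lit 76) (nat_lit 14385999409) (nat_lit 29) (nat_lit 5) (nat_lit 31) (nat_lit 5) (nat_lit 30) (nat_lit 4) (nat_lit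 441) (nat_lit 395) (nat_lit 364)) (XT.lf (nat_lit 0) (nat_lit 12816990119) (nat_lit 76) (nat_lit 352961386) (nat_lit 152) (nat_lit 14681584636) (nat_lit 28) (nat_lit 5) (nat_lit 29) (nat_lit 5) (nat_lit 30) (nat_lit 4) (nat_lit 442) (nat_lit 395) (nat_lit 363))))) (XT.nd (nat_lit 234) (nat_lit 380) (nat_lit 0) (XT.nd (nat_lit 78) (nat_lit 152) (nat_lit 0) (XT.lf (nat_lit 0) (nat_lit 8104091060) (nat_lit 76) (nat_lit 17473692373) (nat_lit 76) (nat_lit 3874409881) (nat_lit 27) (nat_lit 4) (nat_lit 28) (nat_lit 5) (nat_lit 28) (nat_lit 4) (nat_lit 443) (nat_lit 395) (nat_lit 362)) (XT.nd (nat_lit 78) (nat_lit 0) (nat_lit 0) (XT.lf (nat_lit 0) (nat_lit 2135040793) (nat_lit 76) (nat_lit 5582324352) (nat_lit 152) (nat_lit 23448978450) (nat_lit 25) (nat_lit 5) (nat_lit 26) (nat_lit 5) (nat_lit 27) (nat_lit 4) (nat_lit 444) (nat_lit 395) (nat_lit 361)) (XT.lf (nat_lit 0) (nat_lit 20462196106) (nat_lit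 152) (nat_lit 5181936655) (nat_lit 0) (nat_lit 7352251098) (nat_lit 25) (nat_lit 5) (nat_lit 27) (nat_lit 4) (nat_lit 25) (nat_lit 4) (nat_lit 445) (nat_lit 395) (nat_lit 360)))) (XT.nd (nat_lit 156) (nat_lit 152) (nat_lit 0) (XT.nd (nat_lit 78) (nat_lit 152) (nat_lit 0) (XT.lf (nat_lit 0) (nat_lit 20912341807) (nat_lit 76) (nat_lit 13612973157) (nat_lit 76) (nat_lit 432583261) (nat_lit 24) (nat_lit 4) (nat_lit 25) (nat_lit 5) (nat_lit 25) (nat_lit 4) (nat_lit 446) (nat_lit 395) (nat_lit 359)) (XT.lf (nat_lit 0) (nat_lit 12166200732) (nat_lit 76) (nat_lit 229807743) (nat_lit 152) (nat_lit 24662299114) (nat_lit 22) (nat_lit 5) (nat_lit 23) (nat_lit 5) (nat_lit 24) (nat_lit 4) (nat_lit 447) (nat_lit 395) (nat_lit 358))) (XT.nd (nat_lit 78) (nat_lit 76) (nat_lit 0) (XT.lf (nat_lit 0) (nat_lit 1242647435) (nat_lit 76) (nat_lit 25368682415) (nat_lit 76) (nat_lit 12696290242) (nat_lit 21) (nat_lit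 4) (nat_lit 22) (nat_lit 5) (nat_lit 22) (nat_lit 4) (nat_lit 448) (nat_lit 395) (nat_lit 357)) (XT.lf (nat_lit 0) (nat_lit 552892195) (nat_lit 152) (nat_lit 11592221670) (nat_lit 76) (nat_lit 29574932895) (nat_lit 20) (nat_lit 5) (nat_lit 22) (nat_lit 5) (nat_lit 21) (nat_lit 4) (nat_lit 449) (nat_lit 395) (nat_lit 356))))))))
noncomputable def xc38 : XT := (XT.nd (nat_lit 2028) (nat_lit 228) (nat_lit 0) (XT.nd (nat_lit 1014) (nat_lit 456) (nat_lit 0) (XT.nd (nat_lit 468) (nat_lit 380) (nat_lit 0) (XT.nd (nat_lit 234) (nat_lit 228) (nat_lit 0) (XT.nd (nat_lit 78) (nat_lit 76) (nat_lit 0) (XT.lf (nat_lit 0) (nat_lit 14627083986) (nat_lit 152) (nat_lit 27217034688) (nat_lit 0) (nat_lit 2460451514) (nat_lit 19) (nat_lit 5) (nat_lit 21) (nat_lit 4) (nat_lit 19) (nat_lit 4) (nat_lit 450) (nat_lit 395) (nat_lit 355)) (XT.nd (nat_lit 78) (nat_lit 0) (nat_lit 0) (XT.lf (nat_lit 0) (nat_lit 1016397292)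 (nat_lit 76) (nat_lit 29136644536) (nat_lit 76) (nat_lit 16926525799) (nat_lit 18) (nat_lit 4) (nat_lit 19) (nat_lit 5) (nat_lit 19) (nat_lit 4) (nat_lit 451) (nat_lit 395) (nat_lit 354)) (XT.lf (nat_lit 0) (nat_lit 32291112646) (nat_lit 76) (nat_lit 15008457365) (nat_lit 76) (nat_lit 2758073567) (nat_lit 18) (nat_lit 4) (nat_lit 19) (nat_lit 5) (nat_lit 19) (nat_lit 4) (nat_lit 452) (nat_lit 395) (nat_lit 353)))) (XT.nd (nat_lit 78) (nat_lit 76) (nat_lit 0) (XT.lf (nat_lit 0) (nat_lit 12261729064) (nat_lit 152) (nat_lit 40437289740) (nat_lit 0) (nat_lit 559189767) (nat_lit 16) (nat_lit 5) (nat_lit 18) (nat_lit 4) (nat_lit 16) (nat_lit 4) (nat_lit 453) (nat_lit 395) (nat_lit 352)) (XT.nd (nat_lit 78) (nat_lit 76) (nat_lit 0) (XT.lf (nat_lit 0) (nat_lit 28868104998) (nat_lit 152) (nat_lit 10687686150) (nat_lit 0) (nat_lit 17132688750) (nat_lit 16) (nat_lit 5) (nat_lit 18) (nat_lit 4) (nat_lit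 16) (nat_lit 4) (nat_lit 454) (nat_lit 395) (nat_lit 351)) (XT.lf (nat_lit 0) (nat_lit 21984897625) (nat_lit 76) (nat_lit 25080507519) (nat_lit 76) (nat_lit 13314649650) (nat_lit 15) (nat_lit 4) (nat_lit 16) (nat_lit 5) (nat_lit 16) (nat_lit 4) (nat_lit 455) (nat_lit 395) (nat_lit 350))))) (XT.nd (nat_lit 234) (nat_lit 228) (nat_lit 0) (XT.nd (nat_lit 78) (nat_lit 76) (nat_lit 0) (XT.lf (nat_lit 0) (nat_lit 2386982612) (nat_lit 152) (nat_lit 6900730201) (nat_lit 76) (nat_lit 55071873798) (nat_lit 14) (nat_lit 5) (nat_lit 16) (nat_lit 5) (nat_lit 15) (nat_lit 4) (nat_lit 456) (nat_lit 395) (nat_lit 349)) (XT.nd (nat_lit 78) (nat_lit 0) (nat_lit 0) (XT.lf (nat_lit 0) (nat_lit 19374077053) (nat_lit 152) (nat_lit 41130904088) (nat_lit 0) (nat_lit 8116797681) (nat_lit 13) (nat_lit 5) (nat_lit 15) (nat_lit 4) (nat_lit 13) (nat_lit 4) (nat_lit 457) (nat_lit 395) (nat_lit 348)) (XT.lf (nat_lit 0)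 (nat_lit 37928375594) (nat_lit 152) (nat_lit 8638079511) (nat_lit 0) (nat_lit 26648081421) (nat_lit 13) (nat_lit 5) (nat_lit 15) (nat_lit 4) (nat_lit 13) (nat_lit 4) (nat_lit 458) (nat_lit 395) (nat_lit 347)))) (XT.nd (nat_lit 156) (nat_lit 152) (nat_lit 0) (XT.nd (nat_lit 78) (nat_lit 0) (nat_lit 0) (XT.lf (nat_lit 0) (nat_lit 27194188285) (nat_lit 76) (nat_lit 31132084890) (nat_lit 76) (nat_lit 19830480716) (nat_lit 12) (nat_lit 4) (nat_lit 13) (nat_lit 5) (nat_lit 13) (nat_lit 4) (nat_lit 459) (nat_lit 395) (nat_lit 346)) (XT.lf (nat_lit 0) (nat_lit 66076799509) (nat_lit 76) (nat_lit 14367242248) (nat_lit 76) (nat_lit 3045906592) (nat_lit 12) (nat_lit 4) (nat_lit 13) (nat_lit 5) (nat_lit 13) (nat_lit 4) (nat_lit 460) (nat_lit 395) (nat_lit 345))) (XT.nd (nat_lit 78) (nat_lit 0) (nat_lit 0) (XT.lf (nat_lit 0) (nat_lit 14904038896) (nat_lit 152) (nat_lit 70214307928) (nat_lit 0) (nat_lit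 4104414565) (nat_lit 10) (nat_lit 5) (nat_lit 12) (nat_lit 4) (nat_lit 10) (nat_lit 4) (nat_lit 461) (nat_lit 395) (nat_lit 344)) (XT.lf (nat_lit 0) (nat_lit 34678216230) (nat_lit 152) (nat_lit 36846259575) (nat_lit 0) (nat_lit 23862480885) (nat_lit 10) (nat_lit 5) (nat_lit 12) (nat_lit 4) (nat_lit 10) (nat_lit 4) (nat_lit 462) (nat_lit 395) (nat_lit 343)))))) (XT.nd (nat_lit 468) (nat_lit 228) (nat_lit 0) (XT.nd (nat_lit 234) (nat_lit 152) (nat_lit 0) (XT.nd (nat_lit 78) (nat_lit 76) (nat_lit 0) (XT.lf (nat_lit 0) (nat_lit 55981519382) (nat_lit 152) (nat_lit 914543482) (nat_lit 0) (nat_lit 45150866430) (nat_lit 10) (nat_lit 5) (nat_lit 12) (nat_lit 4) (nat_lit 10) (nat_lit 4) (nat_lit 463) (nat_lit 395) (nat_lit 342)) (XT.nd (nat_lit 78) (nat_lit 0) (nat_lit 0) (XT.lf (nat_lit 0) (nat_lit 39043401725) (nat_lit 76) (nat_lit 40506365342) (nat_lit 76) (nat_lit 29661899791) (nat_lit 9) (nat_lit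 4) (nat_lit 10) (nat_lit 5) (nat_lit 10) (nat_lit 4) (nat_lit 464) (nat_lit 395) (nat_lit 341)) (XT.lf (nat_lit 0) (nat_lit 82136956133) (nat_lit 76) (nat_lit 22835711849) (nat_lit 76) (nat_lit 11978456856) (nat_lit 9) (nat_lit 4) (nat_lit 10) (nat_lit 5) (nat_lit 10) (nat_lit 4) (nat_lit 465) (nat_lit 395) (nat_lit 340)))) (XT.nd (nat_lit 78) (nat_lit 0) (nat_lit 0) (XT.lf (nat_lit 0) (nat_lit 3273675428) (nat_lit 76) (nat_lit 3625237985) (nat_lit 152) (nat_lit 118404912826) (nat_lit 7) (nat_lit 5) (nat_lit 8) (nat_lit 5) (nat_lit 9) (nat_lit 4) (nat_lit 466) (nat_lit 395) (nat_lit 339)) (XT.nd (nat_lit 78) (nat_lit 0) (nat_lit 0) (XT.lf (nat_lit 0) (nat_lit 27713417111) (nat_lit 152) (nat_lit 89207725244) (nat_lit 0) (nat_lit 17351453343) (nat_lit 7) (nat_lit 5) (nat_lit 9) (nat_lit 4) (nat_lit 7) (nat_lit 4) (nat_lit 467) (nat_lit 395) (nat_lit 338)) (XT.lf (nat_lit 0) (nat_lit 50214667115)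 (nat_lit 152) (nat_lit 53900086979) (nat_lit 0) (nat_lit 39843034135) (nat_lit 7) (nat_lit 5) (nat_lit 9) (nat_lit 4) (nat_lit 7) (nat_lit 4) (nat_lit 468) (nat_lit 395) (nat_lit 337))))) (XT.nd (nat_lit 234) (nat_lit 152) (nat_lit 0) (XT.nd (nat_lit 78) (nat_lit 76) (nat_lit 0) (XT.lf (nat_lit 0) (nat_lit 74479404041) (nat_lit 152) (nat_lit 15841405445) (nat_lit 0) (nat_lit 64098818087) (nat_lit 7) (nat_lit 5) (nat_lit 9) (nat_lit 4) (nat_lit 7) (nat_lit 4) (nat_lit 469) (nat_lit 395) (nat_lit 336)) (XT.nd (nat_lit 78) (nat_lit 0) (nat_lit 0) (XT.lf (nat_lit 0) (nat_lit 26026874822) (nat_lit 76) (nat_lit 75030896557) (nat_lit 76) (nat_lit 64642020812) (nat_lit 6) (nat_lit 4) (nat_lit 7) (nat_lit 5) (nat_lit 7) (nat_lit 4) (nat_lit 470) (nat_lit 395) (nat_lit 335)) (XT.lf (nat_lit 0) (nat_lit 71745151005) (nat_lit 76) (nat_lit 58260797051) (nat_lit 76) (nat_lit 47864245575) (nat_lit 6) (nat_lit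 4) (nat_lit 7) (nat_lit 5) (nat_lit 7) (nat_lit 4) (nat_lit 471) (nat_lit 395) (nat_lit 334)))) (XT.nd (nat_lit 156) (nat_lit 152) (nat_lit 0) (XT.nd (nat_lit 78) (nat_lit 0) (nat_lit 0) (XT.lf (nat_lit 0) (nat_lit 121060557814) (nat_lit 76) (nat_lit 40179414468) (nat_lit 76) (nat_lit 29775755832) (nat_lit 6) (nat_lit 4) (nat_lit 7) (nat_lit 5) (nat_lit 7) (nat_lit 4) (nat_lit 472) (nat_lit 395) (nat_lit 333)) (XT.lf (nat_lit 0) (nat_lit 174265334697) (nat_lit 76) (nat_lit 20679599874) (nat_lit 76) (nat_lit 10269360535) (nat_lit 6) (nat_lit 4) (nat_lit 7) (nat_lit 5) (nat_lit 7) (nat_lit 4) (nat_lit 473) (nat_lit 395) (nat_lit 332))) (XT.nd (nat_lit 78) (nat_lit 0) (nat_lit 0) (XT.lf (nat_lit 0) (nat_lit 10613712203) (nat_lit 152) (nat_lit 209225123552) (nat_lit 0) (nat_lit 693395458) (nat_lit 4) (nat_lit 5) (nat_lit 6) (nat_lit 4) (nat_lit 4) (nat_lit 4) (nat_lit 474) (nat_lit 395) (nat_lit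 331)) (XT.lf (nat_lit 0) (nat_lit 33683705373) (nat_lit 152) (nat_lit 179581661234) (nat_lit 0) (nat_lit 23758015397) (nat_lit 4) (nat_lit 5) (nat_lit 6) (nat_lit 4) (nat_lit 4) (nat_lit 4) (nat_lit 475) (nat_lit 395) (nat_lit 330))))))) (XT.nd (nat_lit 1014) (nat_lit 152) (nat_lit 0) (XT.nd (nat_lit 468) (nat_lit 0) (nat_lit 0) (XT.nd (nat_lit 234) (nat_lit 76) (nat_lit 0) (XT.nd (nat_lit 78) (nat_lit 0) (nat_lit 0) (XT.lf (nat_lit 0) (nat_lit 58575787199) (nat_lit 152) (nat_lit 147614091609) (nat_lit 0) (nat_lit 48645122010) (nat_lit 4) (nat_lit 5) (nat_lit 6) (nat_lit 4) (nat_lit 4) (nat_lit 4) (nat_lit 476) (nat_lit 395) (nat_lit 329)) (XT.nd (nat_lit 78) (nat_lit 0) (nat_lit 0) (XT.lf (nat_lit 0) (nat_lit 85437466316) (nat_lit 152) (nat_lit 113132977228) (nat_lit 0) (nat_lit 75502194448) (nat_lit 4) (nat_lit 5) (nat_lit 6) (nat_lit 4) (nat_lit 4) (nat_lit 4) (nat_lit 477) (nat_lit 395)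 (nat_lit 328)) (XT.lf (nat_lit 0) (nat_lit 114427923043) (nat_lit 152) (nat_lit 75933985559) (nat_lit 0) (nat_lit 104488385731) (nat_lit 4) (nat_lit 5) (nat_lit 6) (nat_lit 4) (nat_lit 4) (nat_lit 4) (nat_lit 478) (nat_lit 395) (nat_lit 327)))) (XT.nd (nat_lit 78) (nat_lit 76) (nat_lit 0) (XT.lf (nat_lit 0) (nat_lit 145718952680) (nat_lit 152) (nat_lit 35796678135) (nat_lit 0) (nat_lit 135775465883) (nat_lit 4) (nat_lit 5) (nat_lit 6) (nat_lit 4) (nat_lit 4) (nat_lit 4) (nat_lit 479) (nat_lit 395) (nat_lit 326)) (XT.nd (nat_lit 78) (nat_lit 0) (nat_lit 0) (XT.lf (nat_lit 0) (nat_lit 7765334969) (nat_lit 76) (nat_lit 171851887222) (nat_lit 76) (nat_lit 161904743494) (nat_lit 3) (nat_lit 4) (nat_lit 4) (nat_lit 5) (nat_lit 4) (nat_lit 4) (nat_lit 480) (nat_lit 395) (nat_lit 325)) (XT.lf (nat_lit 0) (nat_lit 56057291977) (nat_lit 76) (nat_lit 160777095287) (nat_lit 76) (nat_lit 150826565513)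 (nat_lit 3) (nat_lit 4) (nat_lit 4) (nat_lit 5) (nat_lit 4) (nat_lit 4) (nat_lit 481) (nat_lit 395) (nat_lit 324))))) (XT.nd (nat_lit 234) (nat_lit 0) (nat_lit 0) (XT.nd (nat_lit 78) (nat_lit 0) (nat_lit 0) (XT.lf (nat_lit 0) (nat_lit 108181767607) (nat_lit 76) (nat_lit 148831860680) (nat_lit 76) (nat_lit 138878195678) (nat_lit 3) (nat_lit 4) (nat_lit 4) (nat_lit 5) (nat_lit 4) (nat_lit 4) (nat_lit 482) (nat_lit 395) (nat_lit 323)) (XT.nd (nat_lit 78) (nat_lit 0) (nat_lit 0) (XT.lf (nat_lit 0) (nat_lit 164447647639) (nat_lit 76) (nat_lit 135945396825) (nat_lit 76) (nat_lit 125988828833) (nat_lit 3) (nat_lit 4) (nat_lit 4) (nat_lit 5) (nat_lit 4) (nat_lit 4) (nat_lit 483) (nat_lit 395) (nat_lit 322)) (XT.lf (nat_lit 0) (nat_lit 225188359512) (nat_lit 76) (nat_lit 122041339493) (nat_lit 76) (nat_lit 112082083547) (nat_lit 3) (nat_lit 4) (nat_lit 4) (nat_lit 5) (nat_lit 4) (nat_lit 4) (nat_lit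 484) (nat_lit 395) (nat_lit 321)))) (XT.nd (nat_lit 156) (nat_lit 0) (nat_lit 0) (XT.nd (nat_lit 78) (nat_lit 0) (nat_lit 0) (XT.lf (nat_lit 0) (nat_lit 290763848185) (nat_lit 76) (nat_lit 107037294268) (nat_lit 76) (nat_lit 97075549477) (nat_lit 3) (nat_lit 4) (nat_lit 4) (nat_lit 5) (nat_lit 4) (nat_lit 4) (nat_lit 485) (nat_lit 395) (nat_lit 320)) (XT.lf (nat_lit 0) (nat_lit 361562709146) (nat_lit 76) (nat_lit 90844348290) (nat_lit 76) (nat_lit 80880299013) (nat_lit 3) (nat_lit 4) (nat_lit 4) (nat_lit 5) (nat_lit 4) (nat_lit 4) (nat_lit 486) (nat_lit 395) (nat_lit 319))) (XT.nd (nat_lit 78) (nat_lit 0) (nat_lit 0) (XT.lf (nat_lit 0) (nat_lit 438004491200) (nat_lit 76) (nat_lit 73366543362) (nat_lit 76) (nat_lit 63400360301) (nat_lit 3) (nat_lit 4) (nat_lit 4) (nat_lit 5) (nat_lit 4) (nat_lit 4) (nat_lit 487) (nat_lit 395) (nat_lit 318)) (XT.lf (nat_lit 0) (nat_lit 520542182686) (nat_lit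 76) (nat_lit 54500307305) (nat_lit 76) (nat_lit 44532148519) (nat_lit 3) (nat_lit 4) (nat_lit 4) (nat_lit 5) (nat_lit 4) (nat_lit 4) (nat_lit 488) (nat_lit 395) (nat_lit 317)))))) (XT.nd (nat_lit 546) (nat_lit 0) (nat_lit 0) (XT.nd (nat_lit 234) (nat_lit 0) (nat_lit 0) (XT.nd (nat_lit 78) (nat_lit 152) (nat_lit 0) (XT.lf (nat_lit 0) (nat_lit 609664895850) (nat_lit 76) (nat_lit 34133840203) (nat_lit 76) (nat_lit 24163852041) (nat_lit 3) (nat_lit 4) (nat_lit 4) (nat_lit 5) (nat_lit 4) (nat_lit 4) (nat_lit 489) (nat_lit 395) (nat_lit 316)) (XT.nd (nat_lit 78) (nat_lit 152) (nat_lit 0) (XT.lf (nat_lit 0) (nat_lit 705900765288) (nat_lit 76) (nat_lit 12146451880) (nat_lit 76) (nat_lit 2174769851) (nat_lit 3) (nat_lit 4) (nat_lit 4) (nat_lit 5) (nat_lit 4) (nat_lit 4) (nat_lit 490) (nat_lit 395) (nat_lit 315)) (XT.lf (nat_lit 0) (nat_lit 21599728632) (nat_lit 152) (nat_lit 742908334639) (nat_lit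 0) (nat_lit 12101394896) (nat_lit 1) (nat_lit 5) (nat_lit 3) (nat_lit 4) (nat_lit 1) (nat_lit 4) (nat_lit 491) (nat_lit 395) (nat_lit 314)))) (XT.nd (nat_lit 156) (nat_lit 0) (nat_lit 0) (XT.nd (nat_lit 78) (nat_lit 0) (nat_lit 0) (XT.lf (nat_lit 0) (nat_lit 47651825480) (nat_lit 152) (nat_lit 751679618776) (nat_lit 0) (nat_lit 38152108679) (nat_lit 1) (nat_lit 5) (nat_lit 3) (nat_lit 4) (nat_lit 1) (nat_lit 4) (nat_lit 492) (nat_lit 395) (nat_lit 313)) (XT.lf (nat_lit 0) (nat_lit 75781095423) (nat_lit 152) (nat_lit 761166731694) (nat_lit 0) (nat_lit 66280098007) (nat_lit 1) (nat_lit 5) (nat_lit 3) (nat_lit 4) (nat_lit 1) (nat_lit 4) (nat_lit 493) (nat_lit 395) (nat_lit 312))) (XT.nd (nat_lit 78) (nat_lit 0) (nat_lit 0) (XT.lf (nat_lit 0) (nat_lit 106154230432) (nat_lit 152) (nat_lit 771425893323) (nat_lit 0) (nat_lit 96652047261) (nat_lit 1) (nat_lit 5) (nat_lit 3) (nat_lit 4) (nat_lit 1)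 (nat_lit 4) (nat_lit 494) (nat_lit 395) (nat_lit 311)) (XT.lf (nat_lit 0) (nat_lit 138951219454) (nat_lit 152) (nat_lit 782517898695) (nat_lit 0) (nat_lit 129447938363) (nat_lit 1) (nat_lit 5) (nat_lit 3) (nat_lit 4) (nat_lit 1) (nat_lit 4) (nat_lit 495) (nat_lit 395) (nat_lit 310))))) (XT.nd (nat_lit 55614) (nat_lit 0) (nat_lit 9272) (XT.nd (nat_lit 78) (nat_lit 0) (nat_lit 0) (XT.lf (nat_lit 0) (nat_lit 174366415017) (nat_lit 152) (nat_lit 794508478211) (nat_lit 0) (nat_lit 164862117332) (nat_lit 1) (nat_lit 5) (nat_lit 3) (nat_lit 4) (nat_lit 1) (nat_lit 4) (nat_lit 496) (nat_lit 395) (nat_lit 309)) (XT.nd (nat_lit 78) (nat_lit 0) (nat_lit 0) (XT.lf (nat_lit 0) (nat_lit 212609684947) (nat_lit 152) (nat_lit 807468687158) (nat_lit 0) (nat_lit 203104445972) (nat_lit 1) (nat_lit 5) (nat_lit 3) (nat_lit 4) (nat_lit 1) (nat_lit 4) (nat_lit 497) (nat_lit 395) (nat_lit 308)) (XT.lf (nat_lit 0)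 (nat_lit 253907656029) (nat_lit 152) (nat_lit 821475326774) (nat_lit 0) (nat_lit 244401545489) (nat_lit 1) (nat_lit 5) (nat_lit 3) (nat_lit 4) (nat_lit 1) (nat_lit 4) (nat_lit 498) (nat_lit 395) (nat_lit 307)))) (XT.nd (nat_lit 156) (nat_lit 1596) (nat_lit 0) (XT.nd (nat_lit 78) (nat_lit 684) (nat_lit 0) (XT.lf (nat_lit 0) (nat_lit 2022840717) (nat_lit 532) (nat_lit 715180949) (nat_lit 532) (nat_lit 715180949) (nat_lit 153) (nat_lit 4) (nat_lit 160) (nat_lit 5) (nat_lit 160) (nat_lit 4) (nat_lit 408) (nat_lit 396) (nat_lit 396)) (XT.lf (nat_lit 0) (nat_lit 3883264699) (nat_lit 684) (nat_lit 2109114512) (nat_lit 0) (nat_lit 1040758869) (nat_lit 144) (nat_lit 5) (nat_lit 153) (nat_lit 4) (nat_lit 144) (nat_lit 4) (nat_lit 409) (nat_lit 396) (nat_lit 395))) (XT.nd (nat_lit 78) (nat_lit 836) (nat_lit 0) (XT.lf (nat_lit 0) (nat_lit 2075320513) (nat_lit 760) (nat_lit 1220048618) (nat_lit 76) (nat_lit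 3884343762) (nat_lit 134) (nat_lit 5) (nat_lit 144) (nat_lit 5) (nat_lit 135) (nat_lit 4) (nat_lit 410) (nat_lit 396) (nat_lit 394)) (XT.lf (nat_lit 0) (nat_lit 13103709) (nat_lit 836) (nat_lit 168547104) (nat_lit 76) (nat_lit 7166300247) (nat_lit 123) (nat_lit 5) (nat_lit 134) (nat_lit 5) (nat_lit 124) (nat_lit 5) (nat_lit 411) (nat_lit 396) (nat_lit 393))))))))
noncomputable def xc39 : XT := (XT.nd (nat_lit 2106) (nat_lit 1900) (nat_lit 0) (XT.nd (nat_lit 1014) (nat_lit 2204) (nat_lit 0) (XT.nd (nat_lit 468) (nat_lit 2052) (nat_lit 0) (XT.nd (nat_lit 234) (nat_lit 912) (nat_lit 0) (XT.nd (nat_lit 78) (nat_lit 836) (nat_lit 0) (XT.lf (nat_lit 0) (nat_lit 990139105) (nat_lit 380) (nat_lit 4216627491) (nat_lit 456) (nat_lit 2326590624) (nat_lit 113) (nat_lit 5) (nat_lit 118) (nat_lit 5) (nat_lit 119) (nat_lit 4) (nat_lit 412) (nat_lit 396) (nat_lit 392)) (XT.nd (nat_lit 78) (nat_lit 380) (nat_lit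 0) (XT.lf (nat_lit 0) (nat_lit 2315506005) (nat_lit 380) (nat_lit 472065334) (nat_lit 456) (nat_lit 4953575876) (nat_lit 107) (nat_lit 5) (nat_lit 112) (nat_lit 5) (nat_lit 113) (nat_lit 5) (nat_lit 413) (nat_lit 396) (nat_lit 391)) (XT.lf (nat_lit 0) (nat_lit 134978959) (nat_lit 380) (nat_lit 4220418565) (nat_lit 76) (nat_lit 3614293737) (nat_lit 102) (nat_lit 5) (nat_lit 107) (nat_lit 5) (nat_lit 103) (nat_lit 5) (nat_lit 414) (nat_lit 396) (nat_lit 390)))) (XT.nd (nat_lit 78) (nat_lit 608) (nat_lit 0) (XT.lf (nat_lit 0) (nat_lit 5295559669) (nat_lit 304) (nat_lit 13203956) (nat_lit 380) (nat_lit 2911234642) (nat_lit 98) (nat_lit 5) (nat_lit 102) (nat_lit 5) (nat_lit 103) (nat_lit 5) (nat_lit 415) (nat_lit 396) (nat_lit 389)) (XT.nd (nat_lit 78) (nat_lit 304) (nat_lit 0) (XT.lf (nat_lit 0) (nat_lit 2264547487) (nat_lit 304) (nat_lit 1561924593) (nat_lit 76) (nat_lit 4665317350) (nat_lit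 94) (nat_lit 5) (nat_lit 98) (nat_lit 5) (nat_lit 95) (nat_lit 5) (nat_lit 416) (nat_lit 396) (nat_lit 388)) (XT.lf (nat_lit 0) (nat_lit 7651110152) (nat_lit 380) (nat_lit 92486155) (nat_lit 76) (nat_lit 1044507285) (nat_lit 90) (nat_lit 5) (nat_lit 95) (nat_lit 5) (nat_lit 91) (nat_lit 4) (nat_lit 417) (nat_lit 396) (nat_lit 387))))) (XT.nd (nat_lit 234) (nat_lit 988) (nat_lit 0) (XT.nd (nat_lit 78) (nat_lit 532) (nat_lit 0) (XT.lf (nat_lit 0) (nat_lit 1461264422) (nat_lit 228) (nat_lit 2746896558) (nat_lit 304) (nat_lit 4897285148) (nat_lit 83) (nat_lit 5) (nat_lit 86) (nat_lit 5) (nat_lit 87) (nat_lit 5) (nat_lit 418) (nat_lit 396) (nat_lit 386)) (XT.nd (nat_lit 78) (nat_lit 228) (nat_lit 0) (XT.lf (nat_lit 0) (nat_lit 437193123) (nat_lit 304) (nat_lit 6331093674) (nat_lit 76) (nat_lit 2680693306) (nat_lit 79) (nat_lit 5) (nat_lit 83) (nat_lit 5) (nat_lit 80) (nat_lit 5) (nat_lit 419) (nat_lit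 396) (nat_lit 385)) (XT.lf (nat_lit 0) (nat_lit 4810142429) (nat_lit 228) (nat_lit 1196586219) (nat_lit 304) (nat_lit 3810333360) (nat_lit 76) (nat_lit 5) (nat_lit 79) (nat_lit 5) (nat_lit 80) (nat_lit 5) (nat_lit 420) (nat_lit 396) (nat_lit 384)))) (XT.nd (nat_lit 156) (nat_lit 532) (nat_lit 0) (XT.nd (nat_lit 78) (nat_lit 228) (nat_lit 0) (XT.lf (nat_lit 0) (nat_lit 1773203331) (nat_lit 228) (nat_lit 3655243183) (nat_lit 76) (nat_lit 4783607202) (nat_lit 73) (nat_lit 5) (nat_lit 76) (nat_lit 5) (nat_lit 74) (nat_lit 5) (nat_lit 421) (nat_lit 396) (nat_lit 383)) (XT.lf (nat_lit 0) (nat_lit 7665312631) (nat_lit 304) (nat_lit 2272767779) (nat_lit 76) (nat_lit 697731621) (nat_lit 70) (nat_lit 5) (nat_lit 74) (nat_lit 5) (nat_lit 71) (nat_lit 4) (nat_lit 422) (nat_lit 396) (nat_lit 382))) (XT.nd (nat_lit 78) (nat_lit 304) (nat_lit 0) (XT.lf (nat_lit 0) (nat_lit 2912149830) (nat_lit 228) (nat_lit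 909556383) (nat_lit 76) (nat_lit 7265987126) (nat_lit 67) (nat_lit 5) (nat_lit 70) (nat_lit 5) (nat_lit 68) (nat_lit 5) (nat_lit 423) (nat_lit 396) (nat_lit 381)) (XT.lf (nat_lit 0) (nat_lit 483337590) (nat_lit 152) (nat_lit 8723983495) (nat_lit 228) (nat_lit 2363718926) (nat_lit 63) (nat_lit 5) (nat_lit 65) (nat_lit 5) (nat_lit 66) (nat_lit 4) (nat_lit 424) (nat_lit 396) (nat_lit 380)))))) (XT.nd (nat_lit 546) (nat_lit 912) (nat_lit 0) (XT.nd (nat_lit 234) (nat_lit 684) (nat_lit 0) (XT.nd (nat_lit 78) (nat_lit 380) (nat_lit 0) (XT.lf (nat_lit 0) (nat_lit 1879900209) (nat_lit 152) (nat_lit 1993143599) (nat_lit 228) (nat_lit 8212737233) (nat_lit 60) (nat_lit 5) (nat_lit 62) (nat_lit 5) (nat_lit 63) (nat_lit 5) (nat_lit 425) (nat_lit 396) (nat_lit 379)) (XT.nd (nat_lit 78) (nat_lit 228) (nat_lit 0) (XT.lf (nat_lit 0) (nat_lit 3241125615) (nat_lit 152) (nat_lit 7386703507) (nat_lit 228) (nat_lit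 2006879858) (nat_lit 58) (nat_lit 5) (nat_lit 60) (nat_lit 5) (nat_lit 61) (nat_lit 4) (nat_lit 426) (nat_lit 396) (nat_lit 378)) (XT.lf (nat_lit 0) (nat_lit 4569519223) (nat_lit 152) (nat_lit 40352899) (nat_lit 228) (nat_lit 8610813226) (nat_lit 55) (nat_lit 5) (nat_lit 57) (nat_lit 5) (nat_lit 58) (nat_lit 5) (nat_lit 427) (nat_lit 396) (nat_lit 377)))) (XT.nd (nat_lit 156) (nat_lit 304) (nat_lit 0) (XT.nd (nat_lit 78) (nat_lit 228) (nat_lit 0) (XT.lf (nat_lit 0) (nat_lit 5797116760) (nat_lit 152) (nat_lit 6057004593) (nat_lit 228) (nat_lit 1989382600) (nat_lit 53) (nat_lit 5) (nat_lit 55) (nat_lit 5) (nat_lit 56) (nat_lit 4) (nat_lit 428) (nat_lit 396) (nat_lit 376)) (XT.lf (nat_lit 0) (nat_lit 5083878064) (nat_lit 228) (nat_lit 7557316438) (nat_lit 76) (nat_lit 1866586537) (nat_lit 50) (nat_lit 5) (nat_lit 53) (nat_lit 5) (nat_lit 51) (nat_lit 4) (nat_lit 429) (nat_lit 396) (nat_lit 375)))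 (XT.nd (nat_lit 78) (nat_lit 228) (nat_lit 0) (XT.lf (nat_lit 0) (nat_lit 7982596745) (nat_lit 76) (nat_lit 4842778857) (nat_lit 152) (nat_lit 2389616892) (nat_lit 49) (nat_lit 5) (nat_lit 50) (nat_lit 5) (nat_lit 51) (nat_lit 4) (nat_lit 430) (nat_lit 396) (nat_lit 374)) (XT.lf (nat_lit 0) (nat_lit 5181440041) (nat_lit 228) (nat_lit 7106737397) (nat_lit 76) (nat_lit 3679526852) (nat_lit 46) (nat_lit 5) (nat_lit 49) (nat_lit 5) (nat_lit 47) (nat_lit 4) (nat_lit 431) (nat_lit 396) (nat_lit 373))))) (XT.nd (nat_lit 234) (nat_lit 532) (nat_lit 0) (XT.nd (nat_lit 78) (nat_lit 304) (nat_lit 0) (XT.lf (nat_lit 0) (nat_lit 9573882564) (nat_lit 76) (nat_lit 3875946408) (nat_lit 152) (nat_lit 3320098641) (nat_lit 45) (nat_lit 5) (nat_lit 46) (nat_lit 5) (nat_lit 47) (nat_lit 4) (nat_lit 432) (nat_lit 396) (nat_lit 372)) (XT.nd (nat_lit 78) (nat_lit 76) (nat_lit 0) (XT.lf (nat_lit 0) (nat_lit 4781385720)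 (nat_lit 228) (nat_lit 7577088309) (nat_lit 76) (nat_lit 5264678907) (nat_lit 42) (nat_lit 5) (nat_lit 45) (nat_lit 5) (nat_lit 43) (nat_lit 4) (nat_lit 433) (nat_lit 396) (nat_lit 371)) (XT.lf (nat_lit 0) (nat_lit 10273697323) (nat_lit 76) (nat_lit 3322761122) (nat_lit 152) (nat_lit 4936384670) (nat_lit 41) (nat_lit 5) (nat_lit 42) (nat_lit 5) (nat_lit 43) (nat_lit 4) (nat_lit 434) (nat_lit 396) (nat_lit 370)))) (XT.nd (nat_lit 156) (nat_lit 228) (nat_lit 0) (XT.nd (nat_lit 78) (nat_lit 76) (nat_lit 0) (XT.lf (nat_lit 0) (nat_lit 3717168381) (nat_lit 228) (nat_lit 9334901240) (nat_lit 76) (nat_lit 6448892676) (nat_lit 38) (nat_lit 5) (nat_lit 41) (nat_lit 5) (nat_lit 39) (nat_lit 4) (nat_lit 435) (nat_lit 396) (nat_lit 369)) (XT.lf (nat_lit 0) (nat_lit 9687272439) (nat_lit 76) (nat_lit 3396676046) (nat_lit 152) (nat_lit 7448856287) (nat_lit 37) (nat_lit 5) (nat_lit 38) (nat_lit 5) (nat_lit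 39) (nat_lit 4) (nat_lit 436) (nat_lit 396) (nat_lit 368))) (XT.nd (nat_lit 78) (nat_lit 76) (nat_lit 0) (XT.lf (nat_lit 0) (nat_lit 1763262743) (nat_lit 152) (nat_lit 12862677552) (nat_lit 76) (nat_lit 7007050454) (nat_lit 35) (nat_lit 5) (nat_lit 37) (nat_lit 5) (nat_lit 36) (nat_lit 4) (nat_lit 437) (nat_lit 396) (nat_lit 367)) (XT.lf (nat_lit 0) (nat_lit 7291598910) (nat_lit 76) (nat_lit 4374602723) (nat_lit 152) (nat_lit 11138155057) (nat_lit 34) (nat_lit 5) (nat_lit 35) (nat_lit 5) (nat_lit 36) (nat_lit 4) (nat_lit 438) (nat_lit 396) (nat_lit 366))))))) (XT.nd (nat_lit 1014) (nat_lit 760) (nat_lit 0) (XT.nd (nat_lit 468) (nat_lit 608) (nat_lit 0) (XT.nd (nat_lit 234) (nat_lit 304) (nat_lit 0) (XT.nd (nat_lit 78) (nat_lit 152) (nat_lit 0) (XT.lf (nat_lit 0) (nat_lit 5239223794) (nat_lit 76) (nat_lit 17389377668) (nat_lit 76) (nat_lit 1427480086) (nat_lit 33) (nat_lit 4) (nat_lit 34) (nat_lit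 5) (nat_lit 34) (nat_lit 4) (nat_lit 439) (nat_lit 396) (nat_lit 365)) (XT.nd (nat_lit 78) (nat_lit 0) (nat_lit 0) (XT.lf (nat_lit 0) (nat_lit 2395803805) (nat_lit 76) (nat_lit 6617622182) (nat_lit 152) (nat_lit 16375287645) (nat_lit 31) (nat_lit 5) (nat_lit 32) (nat_lit 5) (nat_lit 33) (nat_lit 4) (nat_lit 440) (nat_lit 396) (nat_lit 364)) (XT.lf (nat_lit 0) (nat_lit 20513806386) (nat_lit 152) (nat_lit 1207058026) (nat_lit 0) (nat_lit 5092220041) (nat_lit 31) (nat_lit 5) (nat_lit 33) (nat_lit 4) (nat_lit 31) (nat_lit 4) (nat_lit 441) (nat_lit 396) (nat_lit 363)))) (XT.nd (nat_lit 78) (nat_lit 152) (nat_lit 0) (XT.lf (nat_lit 0) (nat_lit 4779819947) (nat_lit 152) (nat_lit 5720791602) (nat_lit 76) (nat_lit 17830039420) (nat_lit 29) (nat_lit 5) (nat_lit 31) (nat_lit 5) (nat_lit 30) (nat_lit 4) (nat_lit 442) (nat_lit 396) (nat_lit 362)) (XT.nd (nat_lit 78) (nat_lit 76) (nat_lit 0) (XT.lf (nat_lit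 0) (nat_lit 16746586471) (nat_lit 152) (nat_lit 11326869613) (nat_lit 0) (nat_lit 1879908832) (nat_lit 28) (nat_lit 5) (nat_lit 30) (nat_lit 4) (nat_lit 28) (nat_lit 4) (nat_lit 443) (nat_lit 396) (nat_lit 361)) (XT.lf (nat_lit 0) (nat_lit 13443763768) (nat_lit 76) (nat_lit 16595145184) (nat_lit 76) (nat_lit 1648583042) (nat_lit 27) (nat_lit 4) (nat_lit 28) (nat_lit 5) (nat_lit 28) (nat_lit 4) (nat_lit 444) (nat_lit 396) (nat_lit 360))))) (XT.nd (nat_lit 234) (nat_lit 304) (nat_lit 0) (XT.nd (nat_lit 78) (nat_lit 152) (nat_lit 0) (XT.lf (nat_lit 0) (nat_lit 6871062886) (nat_lit 76) (nat_lit 3807762558) (nat_lit 152) (nat_lit 22863505997) (nat_lit 25) (nat_lit 5) (nat_lit 26) (nat_lit 5) (nat_lit 27) (nat_lit 4) (nat_lit 445) (nat_lit 396) (nat_lit 359)) (XT.nd (nat_lit 78) (nat_lit 152) (nat_lit 0) (XT.lf (nat_lit 0) (nat_lit 24301717561) (nat_lit 152) (nat_lit 1292917393) (nat_lit 0) (nat_lit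 9931224837) (nat_lit 25) (nat_lit 5) (nat_lit 27) (nat_lit 4) (nat_lit 25) (nat_lit 4) (nat_lit 446) (nat_lit 396) (nat_lit 358)) (XT.lf (nat_lit 0) (nat_lit 1686010775) (nat_lit 152) (nat_lit 10974565770) (nat_lit 76) (nat_lit 24987311072) (nat_lit 23) (nat_lit 5) (nat_lit 25) (nat_lit 5) (nat_lit 24) (nat_lit 4) (nat_lit 447) (nat_lit 396) (nat_lit 357)))) (XT.nd (nat_lit 156) (nat_lit 152) (nat_lit 0) (XT.nd (nat_lit 78) (nat_lit 76) (nat_lit 0) (XT.lf (nat_lit 0) (nat_lit 15456855590) (nat_lit 152) (nat_lit 22802676154) (nat_lit 0) (nat_lit 1659894366) (nat_lit 22) (nat_lit 5) (nat_lit 24) (nat_lit 4) (nat_lit 22) (nat_lit 4) (nat_lit 448) (nat_lit 396) (nat_lit 356)) (XT.lf (nat_lit 0) (nat_lit 5241805344) (nat_lit 76) (nat_lit 25478799651) (nat_lit 76) (nat_lit 11632525002) (nat_lit 21) (nat_lit 4) (nat_lit 22) (nat_lit 5) (nat_lit 22) (nat_lit 4) (nat_lit 449) (nat_lit 396) (nat_lit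 355))) (XT.nd (nat_lit 78) (nat_lit 76) (nat_lit 0) (XT.lf (nat_lit 0) (nat_lit 2460931424) (nat_lit 152) (nat_lit 8847025806) (nat_lit 76) (nat_lit 33656431217) (nat_lit 20) (nat_lit 5) (nat_lit 22) (nat_lit 5) (nat_lit 21) (nat_lit 4) (nat_lit 450) (nat_lit 396) (nat_lit 354)) (XT.lf (nat_lit 0) (nat_lit 17604893187) (nat_lit 152) (nat_lit 25819380514) (nat_lit 0) (nat_lit 4334213625) (nat_lit 19) (nat_lit 5) (nat_lit 21) (nat_lit 4) (nat_lit 19) (nat_lit 4) (nat_lit 451) (nat_lit 396) (nat_lit 353)))))) (XT.nd (nat_lit 546) (nat_lit 304) (nat_lit 0) (XT.nd (nat_lit 234) (nat_lit 228) (nat_lit 0) (XT.nd (nat_lit 78) (nat_lit 152) (nat_lit 0) (XT.lf (nat_lit 0) (nat_lit 4517360145) (nat_lit 76) (nat_lit 29775058405) (nat_lit 76) (nat_lit 16467096380) (nat_lit 18) (nat_lit 4) (nat_lit 19) (nat_lit 5) (nat_lit 19) (nat_lit 4) (nat_lit 452) (nat_lit 396) (nat_lit 352)) (XT.nd (nat_lit 78) (nat_lit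 152) (nat_lit 0) (XT.lf (nat_lit 0) (nat_lit 38040745241) (nat_lit 76) (nat_lit 14641987941) (nat_lit 76) (nat_lit 1299505117) (nat_lit 18) (nat_lit 4) (nat_lit 19) (nat_lit 5) (nat_lit 19) (nat_lit 4) (nat_lit 453) (nat_lit 396) (nat_lit 351)) (XT.lf (nat_lit 0) (nat_lit 14819663271) (nat_lit 152) (nat_lit 40538206876) (nat_lit 0) (nat_lit 2082095150) (nat_lit 16) (nat_lit 5) (nat_lit 18) (nat_lit 4) (nat_lit 16) (nat_lit 4) (nat_lit 454) (nat_lit 396) (nat_lit 350)))) (XT.nd (nat_lit 156) (nat_lit 152) (nat_lit 0) (XT.nd (nat_lit 78) (nat_lit 76) (nat_lit 0) (XT.lf (nat_lit 0) (nat_lit 32637734770) (nat_lit 152) (nat_lit 8640788039) (nat_lit 0) (nat_lit 19871979962) (nat_lit 16) (nat_lit 5) (nat_lit 18) (nat_lit 4) (nat_lit 16) (nat_lit 4) (nat_lit 455) (nat_lit 396) (nat_lit 349)) (XT.lf (nat_lit 0) (nat_lit 26519488836) (nat_lit 76) (nat_lit 25706506518) (nat_lit 76) (nat_lit 12914652925)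 (nat_lit 15) (nat_lit 4) (nat_lit 16) (nat_lit 5) (nat_lit 16) (nat_lit 4) (nat_lit 456) (nat_lit 396) (nat_lit 348))) (XT.nd (nat_lit 78) (nat_lit 76) (nat_lit 0) (XT.lf (nat_lit 0) (nat_lit 3891158024) (nat_lit 152) (nat_lit 4839145182) (nat_lit 76) (nat_lit 60712351567) (nat_lit 14) (nat_lit 5) (nat_lit 16) (nat_lit 5) (nat_lit 15) (nat_lit 4) (nat_lit 457) (nat_lit 396) (nat_lit 347)) (XT.lf (nat_lit 0) (nat_lit 22198416848) (nat_lit 152) (nat_lit 41877974141) (nat_lit 0) (nat_lit 9971374339) (nat_lit 13) (nat_lit 5) (nat_lit 15) (nat_lit 4) (nat_lit 13) (nat_lit 4) (nat_lit 458) (nat_lit 396) (nat_lit 346))))) (XT.nd (nat_lit 234) (nat_lit 228) (nat_lit 0) (XT.nd (nat_lit 78) (nat_lit 76) (nat_lit 0) (XT.lf (nat_lit 0) (nat_lit 42142658263) (nat_lit 152) (nat_lit 6974123767) (nat_lit 0) (nat_lit 29895884272) (nat_lit 13) (nat_lit 5) (nat_lit 15) (nat_lit 4) (nat_lit 13) (nat_lit 4) (nat_lit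 459) (nat_lit 396) (nat_lit 345)) (XT.nd (nat_lit 78) (nat_lit 0) (nat_lit 0) (XT.lf (nat_lit 0) (nat_lit 31622379931) (nat_lit 76) (nat_lit 32497769658) (nat_lit 76) (nat_lit 20232725776) (nat_lit 12) (nat_lit 4) (nat_lit 13) (nat_lit 5) (nat_lit 13) (nat_lit 4) (nat_lit 460) (nat_lit 396) (nat_lit 344)) (XT.lf (nat_lit 0) (nat_lit 73448736603) (nat_lit 76) (nat_lit 14475064200) (nat_lit 76) (nat_lit 2193103752) (nat_lit 12) (nat_lit 4) (nat_lit 13) (nat_lit 5) (nat_lit 13) (nat_lit 4) (nat_lit 461) (nat_lit 396) (nat_lit 343)))) (XT.nd (nat_lit 156) (nat_lit 76) (nat_lit 0) (XT.nd (nat_lit 78) (nat_lit 0) (nat_lit 0) (XT.lf (nat_lit 0) (nat_lit 17126632985) (nat_lit 152) (nat_lit 73767800992) (nat_lit 0) (nat_lit 5414610190) (nat_lit 10) (nat_lit 5) (nat_lit 12) (nat_lit 4) (nat_lit 10) (nat_lit 4) (nat_lit 462) (nat_lit 396) (nat_lit 342)) (XT.lf (nat_lit 0) (nat_lit 38406428138) (nat_lit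 152) (nat_lit 37883171850) (nat_lit 0) (nat_lit 26680592744) (nat_lit 10) (nat_lit 5) (nat_lit 12) (nat_lit 4) (nat_lit 10) (nat_lit 4) (nat_lit 463) (nat_lit 396) (nat_lit 341))) (XT.nd (nat_lit 78) (nat_lit 0) (nat_lit 0) (XT.lf (nat_lit 0) (nat_lit 807382938) (nat_lit 76) (nat_lit 60548554810) (nat_lit 76) (nat_lit 48809929973) (nat_lit 9) (nat_lit 4) (nat_lit 10) (nat_lit 5) (nat_lit 10) (nat_lit 4) (nat_lit 464) (nat_lit 396) (nat_lit 340)) (XT.lf (nat_lit 0) (nat_lit 43859233077) (nat_lit 76) (nat_lit 42898800145) (nat_lit 76) (nat_lit 31148333231) (nat_lit 9) (nat_lit 4) (nat_lit 10) (nat_lit 5) (nat_lit 10) (nat_lit 4) (nat_lit 465) (nat_lit 396) (nat_lit 339))))))))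
noncomputable def xc40 : XT := (XT.nd (nat_lit 2028) (nat_lit 152) (nat_lit 0) (XT.nd (nat_lit 1014) (nat_lit 76) (nat_lit 0) (XT.nd (nat_lit 468) (nat_lit 152) (nat_lit 0) (XT.nd (nat_lit 234) (nat_lit 76) (nat_lit 0) (XT.nd (nat_lit 78) (nat_lit 152) (nat_lit 0) (XT.lf (nat_lit 0) (nat_lit 90274911896) (nat_lit 76) (nat_lit 23877314700) (nat_lit 76) (nat_lit 12115882901) (nat_lit 9) (nat_lit 4) (nat_lit 10) (nat_lit 5) (nat_lit 10) (nat_lit 4) (nat_lit 466) (nat_lit 396) (nat_lit 338)) (XT.nd (nat_lit 78) (nat_lit 0) (nat_lit 0) (XT.lf (nat_lit 0) (nat_lit 5059615895) (nat_lit 76) (nat_lit 3150725746) (nat_lit 152) (nat_lit 127079799005) (nat_lit 7) (nat_lit 5) (nat_lit 8) (nat_lit 5) (nat_lit 9) (nat_lit 4) (nat_lit 467) (nat_lit 396) (nat_lit 337)) (XT.lf (nat_lit 0) (nat_lit 30644797546) (nat_lit 152) (nat_lit 94909063959) (nat_lit 0) (nat_lit 19424811742) (nat_lit 7) (nat_lit 5) (nat_lit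 9) (nat_lit 4) (nat_lit 7) (nat_lit 4) (nat_lit 468) (nat_lit 396) (nat_lit 336)))) (XT.nd (nat_lit 78) (nat_lit 76) (nat_lit 0) (XT.lf (nat_lit 0) (nat_lit 54893235915) (nat_lit 152) (nat_lit 56883131618) (nat_lit 0) (nat_lit 43664960321) (nat_lit 7) (nat_lit 5) (nat_lit 9) (nat_lit 4) (nat_lit 7) (nat_lit 4) (nat_lit 469) (nat_lit 396) (nat_lit 335)) (XT.nd (nat_lit 78) (nat_lit 76) (nat_lit 0) (XT.lf (nat_lit 0) (nat_lit 81050159542) (nat_lit 152) (nat_lit 15878197214) (nat_lit 0) (nat_lit 69814208215) (nat_lit 7) (nat_lit 5) (nat_lit 9) (nat_lit 4) (nat_lit 7) (nat_lit 4) (nat_lit 470) (nat_lit 396) (nat_lit 334)) (XT.lf (nat_lit 0) (nat_lit 29286068546) (nat_lit 76) (nat_lit 80441741474) (nat_lit 76) (nat_lit 69198682988) (nat_lit 6) (nat_lit 4) (nat_lit 7) (nat_lit 5) (nat_lit 7) (nat_lit 4) (nat_lit 471) (nat_lit 396) (nat_lit 333))))) (XT.nd (nat_lit 234) (nat_lit 152) (nat_lit 0)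 (XT.nd (nat_lit 78) (nat_lit 0) (nat_lit 0) (XT.lf (nat_lit 0) (nat_lit 78574618398) (nat_lit 76) (nat_lit 62373858216) (nat_lit 76) (nat_lit 51124219027) (nat_lit 6) (nat_lit 4) (nat_lit 7) (nat_lit 5) (nat_lit 7) (nat_lit 4) (nat_lit 472) (nat_lit 396) (nat_lit 332)) (XT.nd (nat_lit 78) (nat_lit 0) (nat_lit 0) (XT.lf (nat_lit 0) (nat_lit 131754527728) (nat_lit 76) (nat_lit 42886542997) (nat_lit 76) (nat_lit 31630810564) (nat_lit 6) (nat_lit 4) (nat_lit 7) (nat_lit 5) (nat_lit 7) (nat_lit 4) (nat_lit 473) (nat_lit 396) (nat_lit 331)) (XT.lf (nat_lit 0) (nat_lit 189140936740) (nat_lit 76) (nat_lit 21864315430) (nat_lit 76) (nat_lit 10602941105) (nat_lit 6) (nat_lit 4) (nat_lit 7) (nat_lit 5) (nat_lit 7) (nat_lit 4) (nat_lit 474) (nat_lit 396) (nat_lit 330)))) (XT.nd (nat_lit 156) (nat_lit 0) (nat_lit 0) (XT.nd (nat_lit 78) (nat_lit 0) (nat_lit 0) (XT.lf (nat_lit 0) (nat_lit 11921495782) (nat_lit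 152) (nat_lit 225038969234) (nat_lit 0) (nat_lit 1191402164) (nat_lit 4) (nat_lit 5) (nat_lit 6) (nat_lit 4) (nat_lit 4) (nat_lit 4) (nat_lit 475) (nat_lit 396) (nat_lit 329)) (XT.lf (nat_lit 0) (nat_lit 36803111620) (nat_lit 152) (nat_lit 193092486539) (nat_lit 0) (nat_lit 26068411323) (nat_lit 4) (nat_lit 5) (nat_lit 6) (nat_lit 4) (nat_lit 4) (nat_lit 4) (nat_lit 476) (nat_lit 396) (nat_lit 328))) (XT.nd (nat_lit 78) (nat_lit 0) (nat_lit 0) (XT.lf (nat_lit 0) (nat_lit 63655100007) (nat_lit 152) (nat_lit 158630897091) (nat_lit 0) (nat_lit 52916134266) (nat_lit 4) (nat_lit 5) (nat_lit 6) (nat_lit 4) (nat_lit 4) (nat_lit 4) (nat_lit 477) (nat_lit 396) (nat_lit 327)) (XT.lf (nat_lit 0) (nat_lit 92636583835) (nat_lit 152) (nat_lit 121449984066) (nat_lit 0) (nat_lit 81893668610) (nat_lit 4) (nat_lit 5) (nat_lit 6) (nat_lit 4) (nat_lit 4) (nat_lit 4) (nat_lit 478) (nat_lit 396) (nat_lit 326))))))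 (XT.nd (nat_lit 468) (nat_lit 0) (nat_lit 0) (XT.nd (nat_lit 234) (nat_lit 0) (nat_lit 0) (XT.nd (nat_lit 78) (nat_lit 76) (nat_lit 0) (XT.lf (nat_lit 0) (nat_lit 123919305233) (nat_lit 152) (nat_lit 81329416127) (nat_lit 0) (nat_lit 113172733077) (nat_lit 4) (nat_lit 5) (nat_lit 6) (nat_lit 4) (nat_lit 4) (nat_lit 4) (nat_lit 479) (nat_lit 396) (nat_lit 325)) (XT.nd (nat_lit 78) (nat_lit 76) (nat_lit 0) (XT.lf (nat_lit 0) (nat_lit 157688643289) (nat_lit 152) (nat_lit 38031441759) (nat_lit 0) (nat_lit 146938685086) (nat_lit 4) (nat_lit 5) (nat_lit 6) (nat_lit 4) (nat_lit 4) (nat_lit 4) (nat_lit 480) (nat_lit 396) (nat_lit 324)) (XT.lf (nat_lit 0) (nat_lit 8988198097) (nat_lit 76) (nat_lit 185296845464) (nat_lit 76) (nat_lit 174543752033) (nat_lit 3) (nat_lit 4) (nat_lit 4) (nat_lit 5) (nat_lit 4) (nat_lit 4) (nat_lit 481) (nat_lit 396) (nat_lit 323)))) (XT.nd (nat_lit 78) (nat_lit 0) (nat_lit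 0) (XT.lf (nat_lit 0) (nat_lit 61098946011) (nat_lit 76) (nat_lit 173358528896) (nat_lit 76) (nat_lit 162602532475) (nat_lit 3) (nat_lit 4) (nat_lit 4) (nat_lit 5) (nat_lit 4) (nat_lit 4) (nat_lit 482) (nat_lit 396) (nat_lit 322)) (XT.nd (nat_lit 78) (nat_lit 0) (nat_lit 0) (XT.lf (nat_lit 0) (nat_lit 117352115197) (nat_lit 76) (nat_lit 160478470633) (nat_lit 76) (nat_lit 149719786259) (nat_lit 3) (nat_lit 4) (nat_lit 4) (nat_lit 5) (nat_lit 4) (nat_lit 4) (nat_lit 483) (nat_lit 396) (nat_lit 321)) (XT.lf (nat_lit 0) (nat_lit 178081057767) (nat_lit 76) (nat_lit 146580344403) (nat_lit 76) (nat_lit 135819171184) (nat_lit 3) (nat_lit 4) (nat_lit 4) (nat_lit 5) (nat_lit 4) (nat_lit 4) (nat_lit 484) (nat_lit 396) (nat_lit 320))))) (XT.nd (nat_lit 234) (nat_lit 0) (nat_lit 0) (XT.nd (nat_lit 78) (nat_lit 0) (nat_lit 0) (XT.lf (nat_lit 0) (nat_lit 243645648937) (nat_lit 76) (nat_lit 131581790940)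 (nat_lit 76) (nat_lit 120818313235) (nat_lit 3) (nat_lit 4) (nat_lit 4) (nat_lit 5) (nat_lit 4) (nat_lit 4) (nat_lit 485) (nat_lit 396) (nat_lit 319)) (XT.nd (nat_lit 78) (nat_lit 0) (nat_lit 0) (XT.lf (nat_lit 0) (nat_lit 314434419617) (nat_lit 76) (nat_lit 115393929928) (nat_lit 76) (nat_lit 104628318438) (nat_lit 3) (nat_lit 4) (nat_lit 4) (nat_lit 5) (nat_lit 4) (nat_lit 4) (nat_lit 486) (nat_lit 396) (nat_lit 318)) (XT.lf (nat_lit 0) (nat_lit 390866858819) (nat_lit 76) (nat_lit 97920833301) (nat_lit 76) (nat_lit 87153246085) (nat_lit 3) (nat_lit 4) (nat_lit 4) (nat_lit 5) (nat_lit 4) (nat_lit 4) (nat_lit 487) (nat_lit 396) (nat_lit 317)))) (XT.nd (nat_lit 156) (nat_lit 0) (nat_lit 0) (XT.nd (nat_lit 78) (nat_lit 0) (nat_lit 0) (XT.lf (nat_lit 0) (nat_lit 473395899516) (nat_lit 76) (nat_lit 79058956782) (nat_lit 76) (nat_lit 68289540191) (nat_lit 3) (nat_lit 4) (nat_lit 4) (nat_lit 5)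 (nat_lit 4) (nat_lit 4) (nat_lit 488) (nat_lit 396) (nat_lit 316)) (XT.lf (nat_lit 0) (nat_lit 562510602690) (nat_lit 76) (nat_lit 58696526289) (nat_lit 76) (nat_lit 47925415832) (nat_lit 3) (nat_lit 4) (nat_lit 4) (nat_lit 5) (nat_lit 4) (nat_lit 4) (nat_lit 489) (nat_lit 396) (nat_lit 315))) (XT.nd (nat_lit 78) (nat_lit 0) (nat_lit 0) (XT.lf (nat_lit 0) (nat_lit 658739055471) (nat_lit 76) (nat_lit 36712875567) (nat_lit 76) (nat_lit 25940196715) (nat_lit 3) (nat_lit 4) (nat_lit 4) (nat_lit 5) (nat_lit 4) (nat_lit 4) (nat_lit 490) (nat_lit 396) (nat_lit 314)) (XT.lf (nat_lit 0) (nat_lit 762651500541) (nat_lit 76) (nat_lit 12977731130) (nat_lit 76) (nat_lit 2203600060) (nat_lit 3) (nat_lit 4) (nat_lit 4) (nat_lit 5) (nat_lit 4) (nat_lit 4) (nat_lit 491) (nat_lit 396) (nat_lit 313))))))) (XT.nd (nat_lit 56238) (nat_lit 0) (nat_lit 4636) (XT.nd (nat_lit 468) (nat_lit 0) (nat_lit 0) (XT.nd (nat_lit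 234) (nat_lit 0) (nat_lit 0) (XT.nd (nat_lit 78) (nat_lit 0) (nat_lit 0) (XT.lf (nat_lit 0) (nat_lit 23464169902) (nat_lit 152) (nat_lit 802065407582) (nat_lit 0) (nat_lit 13201812078) (nat_lit 1) (nat_lit 5) (nat_lit 3) (nat_lit 4) (nat_lit 1) (nat_lit 4) (nat_lit 492) (nat_lit 396) (nat_lit 312)) (XT.nd (nat_lit 78) (nat_lit 0) (nat_lit 0) (XT.lf (nat_lit 0) (nat_lit 51590326129) (nat_lit 152) (nat_lit 811558808807) (nat_lit 0) (nat_lit 41326782550) (nat_lit 1) (nat_lit 5) (nat_lit 3) (nat_lit 4) (nat_lit 1) (nat_lit 4) (nat_lit 493) (nat_lit 396) (nat_lit 311)) (XT.lf (nat_lit 0) (nat_lit 81960578067) (nat_lit 152) (nat_lit 821823792942) (nat_lit 0) (nat_lit 71695936567) (nat_lit 1) (nat_lit 5) (nat_lit 3) (nat_lit 4) (nat_lit 1) (nat_lit 4) (nat_lit 494) (nat_lit 396) (nat_lit 310)))) (XT.nd (nat_lit 78) (nat_lit 0) (nat_lit 0) (XT.lf (nat_lit 0) (nat_lit 114754897579) (nat_lit 152) (nat_lit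 832921189522) (nat_lit 0) (nat_lit 104489239486) (nat_lit 1) (nat_lit 5) (nat_lit 3) (nat_lit 4) (nat_lit 1) (nat_lit 4) (nat_lit 495) (nat_lit 396) (nat_lit 309)) (XT.nd (nat_lit 78) (nat_lit 0) (nat_lit 0) (XT.lf (nat_lit 0) (nat_lit 150167621374) (nat_lit 152) (nat_lit 844916760899) (nat_lit 0) (nat_lit 139901021990) (nat_lit 1) (nat_lit 5) (nat_lit 3) (nat_lit 4) (nat_lit 1) (nat_lit 4) (nat_lit 496) (nat_lit 396) (nat_lit 308)) (XT.lf (nat_lit 0) (nat_lit 188408602629) (nat_lit 152) (nat_lit 857881591939) (nat_lit 0) (nat_lit 178141131681) (nat_lit 1) (nat_lit 5) (nat_lit 3) (nat_lit 4) (nat_lit 1) (nat_lit 4) (nat_lit 497) (nat_lit 396) (nat_lit 307))))) (XT.nd (nat_lit 55458) (nat_lit 0) (nat_lit 9272) (XT.nd (nat_lit 55302) (nat_lit 0) (nat_lit 12084) (XT.lf (nat_lit 0) (nat_lit 229704454568) (nat_lit 152) (nat_lit 871892511271) (nat_lit 0) (nat_lit 219436176615) (nat_lit 1) (nat_lit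 5) (nat_lit 3) (nat_lit 4) (nat_lit 1) (nat_lit 4) (nat_lit 498) (nat_lit 396) (nat_lit 306)) (XT.nd (nat_lit 78) (nat_lit 532) (nat_lit 0) (XT.lf (nat_lit 0) (nat_lit 1493343004) (nat_lit 380) (nat_lit 928833006) (nat_lit 380) (nat_lit 928833006) (nat_lit 167) (nat_lit 4) (nat_lit 172) (nat_lit 5) (nat_lit 172) (nat_lit 4) (nat_lit 406) (nat_lit 397) (nat_lit 397)) (XT.lf (nat_lit 0) (nat_lit 3278786880) (nat_lit 532) (nat_lit 3465296654) (nat_lit 0) (nat_lit 55385269) (nat_lit 160) (nat_lit 5) (nat_lit 167) (nat_lit 4) (nat_lit 160) (nat_lit 4) (nat_lit 407) (nat_lit 397) (nat_lit 396)))) (XT.nd (nat_lit 156) (nat_lit 1596) (nat_lit 0) (XT.nd (nat_lit 78) (nat_lit 608) (nat_lit 0) (XT.lf (nat_lit 0) (nat_lit 1522868818) (nat_lit 608) (nat_lit 3086151655) (nat_lit 76) (nat_lit 2306739594) (nat_lit 152) (nat_lit 5) (nat_lit 160) (nat_lit 5) (nat_lit 153) (nat_lit 4) (nat_lit 408) (nat_lit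 397) (nat_lit 395)) (XT.lf (nat_lit 0) (nat_lit 4496844186) (nat_lit 608) (nat_lit 2073118863) (nat_lit 684) (nat_lit 482557740) (nat_lit 144) (nat_lit 5) (nat_lit 152) (nat_lit 5) (nat_lit 153) (nat_lit 4) (nat_lit 409) (nat_lit 397) (nat_lit 394))) (XT.nd (nat_lit 78) (nat_lit 836) (nat_lit 0) (XT.lf (nat_lit 0) (nat_lit 4426430287) (nat_lit 760) (nat_lit 1907170474) (nat_lit 76) (nat_lit 875048636) (nat_lit 134) (nat_lit 5) (nat_lit 144) (nat_lit 5) (nat_lit 135) (nat_lit 4) (nat_lit 410) (nat_lit 397) (nat_lit 393)) (XT.lf (nat_lit 0) (nat_lit 2066725891) (nat_lit 836) (nat_lit 1138421437) (nat_lit 76) (nat_lit 4179721919) (nat_lit 123) (nat_lit 5) (nat_lit 134) (nat_lit 5) (nat_lit 124) (nat_lit 5) (nat_lit 411) (nat_lit 397) (nat_lit 392)))))) (XT.nd (nat_lit 546) (nat_lit 1824) (nat_lit 0) (XT.nd (nat_lit 234) (nat_lit 1216) (nat_lit 0) (XT.nd (nat_lit 78) (nat_lit 1216) (nat_lit 0)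 (XT.lf (nat_lit 0) (nat_lit 7009296957) (nat_lit 456) (nat_lit 228228834) (nat_lit 76) (nat_lit 345381166) (nat_lit 118) (nat_lit 5) (nat_lit 124) (nat_lit 5) (nat_lit 119) (nat_lit 4) (nat_lit 412) (nat_lit 397) (nat_lit 391)) (XT.nd (nat_lit 78) (nat_lit 380) (nat_lit 0) (XT.lf (nat_lit 0) (nat_lit 771553587) (nat_lit 380) (nat_lit 3519656811) (nat_lit 456) (nat_lit 3507847733) (nat_lit 107) (nat_lit 5) (nat_lit 112) (nat_lit 5) (nat_lit 113) (nat_lit 5) (nat_lit 413) (nat_lit 397) (nat_lit 390)) (XT.lf (nat_lit 0) (nat_lit 1298418031) (nat_lit 380) (nat_lit 6111434653) (nat_lit 76) (nat_lit 628481581) (nat_lit 102) (nat_lit 5) (nat_lit 107) (nat_lit 5) (nat_lit 103) (nat_lit 5) (nat_lit 414) (nat_lit 397) (nat_lit 389)))) (XT.nd (nat_lit 156) (nat_lit 608) (nat_lit 0) (XT.nd (nat_lit 78) (nat_lit 304) (nat_lit 0) (XT.lf (nat_lit 0) (nat_lit 3148396599) (nat_lit 304) (nat_lit 3140120602)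 (nat_lit 380) (nat_lit 2009363757) (nat_lit 98) (nat_lit 5) (nat_lit 102) (nat_lit 5) (nat_lit 103) (nat_lit 5) (nat_lit 415) (nat_lit 397) (nat_lit 388)) (XT.lf (nat_lit 0) (nat_lit 2904403055) (nat_lit 304) (nat_lit 4101809962) (nat_lit 76) (nat_lit 1574461421) (nat_lit 94) (nat_lit 5) (nat_lit 98) (nat_lit 5) (nat_lit 95) (nat_lit 5) (nat_lit 416) (nat_lit 397) (nat_lit 387))) (XT.nd (nat_lit 78) (nat_lit 304) (nat_lit 0) (XT.lf (nat_lit 0) (nat_lit 5901079136) (nat_lit 304) (nat_lit 2192231341) (nat_lit 380) (nat_lit 793606129) (nat_lit 90) (nat_lit 5) (nat_lit 94) (nat_lit 5) (nat_lit 95) (nat_lit 5) (nat_lit 417) (nat_lit 397) (nat_lit 386)) (XT.lf (nat_lit 0) (nat_lit 4300770059) (nat_lit 304) (nat_lit 1836736465) (nat_lit 76) (nat_lit 3078513840) (nat_lit 86) (nat_lit 5) (nat_lit 90) (nat_lit 5) (nat_lit 87) (nat_lit 5) (nat_lit 418) (nat_lit 397) (nat_lit 385))))) (XT.nd (nat_lit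 234) (nat_lit 836) (nat_lit 0) (XT.nd (nat_lit 78) (nat_lit 684) (nat_lit 0) (XT.lf (nat_lit 0) (nat_lit 166792358) (nat_lit 304) (nat_lit 594732890) (nat_lit 76) (nat_lit 8810728829) (nat_lit 82) (nat_lit 5) (nat_lit 86) (nat_lit 5) (nat_lit 83) (nat_lit 5) (nat_lit 419) (nat_lit 397) (nat_lit 384)) (XT.nd (nat_lit 78) (nat_lit 228) (nat_lit 0) (XT.lf (nat_lit 0) (nat_lit 648991586) (nat_lit 228) (nat_lit 4876453226) (nat_lit 304) (nat_lit 4425467900) (nat_lit 76) (nat_lit 5) (nat_lit 79) (nat_lit 5) (nat_lit 80) (nat_lit 5) (nat_lit 420) (nat_lit 397) (nat_lit 383)) (XT.lf (nat_lit 0) (nat_lit 926224800) (nat_lit 228) (nat_lit 8352475855) (nat_lit 76) (nat_lit 1080289299) (nat_lit 73) (nat_lit 5) (nat_lit 76) (nat_lit 5) (nat_lit 74) (nat_lit 5) (nat_lit 421) (nat_lit 397) (nat_lit 382)))) (XT.nd (nat_lit 156) (nat_lit 380) (nat_lit 0) (XT.nd (nat_lit 78) (nat_lit 228) (nat_lit 0) (XT.lf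 (nat_lit 0) (nat_lit 3339523914) (nat_lit 228) (nat_lit 3274432176) (nat_lit 304) (nat_lit 4179037680) (nat_lit 70) (nat_lit 5) (nat_lit 73) (nat_lit 5) (nat_lit 74) (nat_lit 5) (nat_lit 422) (nat_lit 397) (nat_lit 381)) (XT.lf (nat_lit 0) (nat_lit 1491955502) (nat_lit 228) (nat_lit 6534866062) (nat_lit 76) (nat_lit 3231537245) (nat_lit 67) (nat_lit 5) (nat_lit 70) (nat_lit 5) (nat_lit 68) (nat_lit 5) (nat_lit 423) (nat_lit 397) (nat_lit 380))) (XT.nd (nat_lit 78) (nat_lit 228) (nat_lit 0) (XT.lf (nat_lit 0) (nat_lit 6100720234) (nat_lit 152) (nat_lit 1433774559) (nat_lit 228) (nat_lit 4219864004) (nat_lit 65) (nat_lit 5) (nat_lit 67) (nat_lit 5) (nat_lit 68) (nat_lit 5) (nat_lit 424) (nat_lit 397) (nat_lit 379)) (XT.lf (nat_lit 0) (nat_lit 1825996384) (nat_lit 228) (nat_lit 4814658643) (nat_lit 76) (nat_lit 5642428464) (nat_lit 62) (nat_lit 5) (nat_lit 65) (nat_lit 5) (nat_lit 63) (nat_lit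 5) (nat_lit 425) (nat_lit 397) (nat_lit 378))))))))
noncomputable def xc41 : XT := (XT.nd (nat_lit 2028) (nat_lit 1216) (nat_lit 0) (XT.nd (nat_lit 1014) (nat_lit 1140) (nat_lit 0) (XT.nd (nat_lit 468) (nat_lit 988) (nat_lit 0) (XT.nd (nat_lit 234) (nat_lit 532) (nat_lit 0) (XT.nd (nat_lit 78) (nat_lit 380) (nat_lit 0) (XT.lf (nat_lit 0) (nat_lit 8276971726) (nat_lit 228) (nat_lit 4015553464) (nat_lit 76) (nat_lit 554694472) (nat_lit 60) (nat_lit 5) (nat_lit 63) (nat_lit 5) (nat_lit 61) (nat_lit 4) (nat_lit 426) (nat_lit 397) (nat_lit 377)) (XT.nd (nat_lit 78) (nat_lit 152) (nat_lit 0) (XT.lf (nat_lit 0) (nat_lit 1893025075) (nat_lit 228) (nat_lit 3308489044) (nat_lit 76) (nat_lit 8245474757) (nat_lit 57) (nat_lit 5) (nat_lit 60) (nat_lit 5) (nat_lit 58) (nat_lit 5) (nat_lit 427) (nat_lit 397) (nat_lit 376)) (XT.lf (nat_lit 0) (nat_lit 8817335375) (nat_lit 228) (nat_lit 2687348435) (nat_lit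 76) (nat_lit 2581135095) (nat_lit 55) (nat_lit 5) (nat_lit 58) (nat_lit 5) (nat_lit 56) (nat_lit 4) (nat_lit 428) (nat_lit 397) (nat_lit 375)))) (XT.nd (nat_lit 78) (nat_lit 304) (nat_lit 0) (XT.lf (nat_lit 0) (nat_lit 1635015739) (nat_lit 228) (nat_lit 2167205548) (nat_lit 76) (nat_lit 10964182927) (nat_lit 52) (nat_lit 5) (nat_lit 55) (nat_lit 5) (nat_lit 53) (nat_lit 5) (nat_lit 429) (nat_lit 397) (nat_lit 374)) (XT.nd (nat_lit 78) (nat_lit 152) (nat_lit 0) (XT.lf (nat_lit 0) (nat_lit 9068814202) (nat_lit 228) (nat_lit 1818965470) (nat_lit 76) (nat_lit 4601232774) (nat_lit 50) (nat_lit 5) (nat_lit 53) (nat_lit 5) (nat_lit 51) (nat_lit 4) (nat_lit 430) (nat_lit 397) (nat_lit 373)) (XT.lf (nat_lit 0) (nat_lit 966011626) (nat_lit 152) (nat_lit 1588449031) (nat_lit 76) (nat_lit 13706112985) (nat_lit 48) (nat_lit 5) (nat_lit 50) (nat_lit 5) (nat_lit 49) (nat_lit 5) (nat_lit 431) (nat_lit 397)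 (nat_lit 372))))) (XT.nd (nat_lit 234) (nat_lit 532) (nat_lit 0) (XT.nd (nat_lit 78) (nat_lit 304) (nat_lit 0) (XT.lf (nat_lit 0) (nat_lit 8936678603) (nat_lit 228) (nat_lit 1637123046) (nat_lit 76) (nat_lit 6503891068) (nat_lit 46) (nat_lit 5) (nat_lit 49) (nat_lit 5) (nat_lit 47) (nat_lit 4) (nat_lit 432) (nat_lit 397) (nat_lit 371)) (XT.nd (nat_lit 78) (nat_lit 228) (nat_lit 0) (XT.lf (nat_lit 0) (nat_lit 16115535726) (nat_lit 76) (nat_lit 1593717462) (nat_lit 152) (nat_lit 242734011) (nat_lit 45) (nat_lit 5) (nat_lit 46) (nat_lit 5) (nat_lit 47) (nat_lit 4) (nat_lit 433) (nat_lit 397) (nat_lit 370)) (XT.lf (nat_lit 0) (nat_lit 8287738512) (nat_lit 228) (nat_lit 2441024146) (nat_lit 76) (nat_lit 8147730549) (nat_lit 42) (nat_lit 5) (nat_lit 45) (nat_lit 5) (nat_lit 43) (nat_lit 4) (nat_lit 434) (nat_lit 397) (nat_lit 369)))) (XT.nd (nat_lit 156) (nat_lit 228) (nat_lit 0) (XT.nd (nat_lit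 78) (nat_lit 228) (nat_lit 0) (XT.lf (nat_lit 0) (nat_lit 16588273966) (nat_lit 76) (nat_lit 1074103532) (nat_lit 152) (nat_lit 2203886774) (nat_lit 41) (nat_lit 5) (nat_lit 42) (nat_lit 5) (nat_lit 43) (nat_lit 4) (nat_lit 435) (nat_lit 397) (nat_lit 368)) (XT.lf (nat_lit 0) (nat_lit 6939597472) (nat_lit 228) (nat_lit 4625570955) (nat_lit 76) (nat_lit 9349356897) (nat_lit 38) (nat_lit 5) (nat_lit 41) (nat_lit 5) (nat_lit 39) (nat_lit 4) (nat_lit 436) (nat_lit 397) (nat_lit 367))) (XT.nd (nat_lit 78) (nat_lit 152) (nat_lit 0) (XT.lf (nat_lit 0) (nat_lit 15681260189) (nat_lit 76) (nat_lit 1239272318) (nat_lit 152) (nat_lit 5115161411) (nat_lit 37) (nat_lit 5) (nat_lit 38) (nat_lit 5) (nat_lit 39) (nat_lit 4) (nat_lit 437) (nat_lit 397) (nat_lit 366)) (XT.lf (nat_lit 0) (nat_lit 4646556763) (nat_lit 152) (nat_lit 8711228512) (nat_lit 76) (nat_lit 9868519830) (nat_lit 35) (nat_lit 5) (nat_lit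 37) (nat_lit 5) (nat_lit 36) (nat_lit 4) (nat_lit 438) (nat_lit 397) (nat_lit 365)))))) (XT.nd (nat_lit 468) (nat_lit 608) (nat_lit 0) (XT.nd (nat_lit 234) (nat_lit 228) (nat_lit 0) (XT.nd (nat_lit 78) (nat_lit 228) (nat_lit 0) (XT.lf (nat_lit 0) (nat_lit 12830253447) (nat_lit 76) (nat_lit 2385715483) (nat_lit 152) (nat_lit 9281715281) (nat_lit 34) (nat_lit 5) (nat_lit 35) (nat_lit 5) (nat_lit 36) (nat_lit 4) (nat_lit 439) (nat_lit 397) (nat_lit 364)) (XT.nd (nat_lit 78) (nat_lit 76) (nat_lit 0) (XT.lf (nat_lit 0) (nat_lit 1081233466) (nat_lit 152) (nat_lit 15382496502) (nat_lit 76) (nat_lit 9389189045) (nat_lit 32) (nat_lit 5) (nat_lit 34) (nat_lit 5) (nat_lit 33) (nat_lit 4) (nat_lit 440) (nat_lit 397) (nat_lit 363)) (XT.lf (nat_lit 0) (nat_lit 7289480338) (nat_lit 76) (nat_lit 4901365223) (nat_lit 152) (nat_lit 15105986660) (nat_lit 31) (nat_lit 5) (nat_lit 32) (nat_lit 5) (nat_lit 33)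 (nat_lit 4) (nat_lit 441) (nat_lit 397) (nat_lit 362)))) (XT.nd (nat_lit 78) (nat_lit 152) (nat_lit 0) (XT.lf (nat_lit 0) (nat_lit 3235038755) (nat_lit 76) (nat_lit 21277238169) (nat_lit 76) (nat_lit 4327836700) (nat_lit 30) (nat_lit 4) (nat_lit 31) (nat_lit 5) (nat_lit 31) (nat_lit 4) (nat_lit 442) (nat_lit 397) (nat_lit 361)) (XT.nd (nat_lit 78) (nat_lit 76) (nat_lit 0) (XT.lf (nat_lit 0) (nat_lit 7400656229) (nat_lit 152) (nat_lit 1861934927) (nat_lit 76) (nat_lit 21222457712) (nat_lit 29) (nat_lit 5) (nat_lit 31) (nat_lit 5) (nat_lit 30) (nat_lit 4) (nat_lit 443) (nat_lit 397) (nat_lit 360)) (XT.lf (nat_lit 0) (nat_lit 20254515050) (nat_lit 152) (nat_lit 8028210782) (nat_lit 0) (nat_lit 3958376301) (nat_lit 28) (nat_lit 5) (nat_lit 30) (nat_lit 4) (nat_lit 28) (nat_lit 4) (nat_lit 444) (nat_lit 397) (nat_lit 359))))) (XT.nd (nat_lit 234) (nat_lit 304) (nat_lit 0) (XT.nd (nat_lit 78) (nat_lit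 152) (nat_lit 0) (XT.lf (nat_lit 0) (nat_lit 380956488) (nat_lit 152) (nat_lit 15583666033) (nat_lit 76) (nat_lit 18153929249) (nat_lit 26) (nat_lit 5) (nat_lit 28) (nat_lit 5) (nat_lit 27) (nat_lit 4) (nat_lit 445) (nat_lit 397) (nat_lit 358)) (XT.nd (nat_lit 78) (nat_lit 76) (nat_lit 0) (XT.lf (nat_lit 0) (nat_lit 11334687242) (nat_lit 76) (nat_lit 2208107377) (nat_lit 152) (nat_lit 22582340653) (nat_lit 25) (nat_lit 5) (nat_lit 26) (nat_lit 5) (nat_lit 27) (nat_lit 4) (nat_lit 446) (nat_lit 397) (nat_lit 357)) (XT.lf (nat_lit 0) (nat_lit 2369096315) (nat_lit 76) (nat_lit 25802074873) (nat_lit 76) (nat_lit 10100399422) (nat_lit 24) (nat_lit 4) (nat_lit 25) (nat_lit 5) (nat_lit 25) (nat_lit 4) (nat_lit 447) (nat_lit 397) (nat_lit 356)))) (XT.nd (nat_lit 156) (nat_lit 152) (nat_lit 0) (XT.nd (nat_lit 78) (nat_lit 76) (nat_lit 0) (XT.lf (nat_lit 0) (nat_lit 3654094401) (nat_lit 152) (nat_lit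 8262561024) (nat_lit 76) (nat_lit 28651321799) (nat_lit 23) (nat_lit 5) (nat_lit 25) (nat_lit 5) (nat_lit 24) (nat_lit 4) (nat_lit 448) (nat_lit 397) (nat_lit 355)) (XT.lf (nat_lit 0) (nat_lit 18470702917) (nat_lit 152) (nat_lit 21131584799) (nat_lit 0) (nat_lit 3421752294) (nat_lit 22) (nat_lit 5) (nat_lit 24) (nat_lit 4) (nat_lit 22) (nat_lit 4) (nat_lit 449) (nat_lit 397) (nat_lit 354))) (XT.nd (nat_lit 78) (nat_lit 76) (nat_lit 0) (XT.lf (nat_lit 0) (nat_lit 9004553504) (nat_lit 76) (nat_lit 25871546904) (nat_lit 76) (nat_lit 10780317967) (nat_lit 21) (nat_lit 4) (nat_lit 22) (nat_lit 5) (nat_lit 22) (nat_lit 4) (nat_lit 450) (nat_lit 397) (nat_lit 353)) (XT.lf (nat_lit 0) (nat_lit 4255720764) (nat_lit 152) (nat_lit 6406147955) (nat_lit 76) (nat_lit 37819713624) (nat_lit 20) (nat_lit 5) (nat_lit 22) (nat_lit 5) (nat_lit 21) (nat_lit 4) (nat_lit 451) (nat_lit 397) (nat_lit 352))))))) (XT.nd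 (nat_lit 1014) (nat_lit 456) (nat_lit 0) (XT.nd (nat_lit 468) (nat_lit 380) (nat_lit 0) (XT.nd (nat_lit 234) (nat_lit 152) (nat_lit 0) (XT.nd (nat_lit 78) (nat_lit 152) (nat_lit 0) (XT.lf (nat_lit 0) (nat_lit 20563046714) (nat_lit 152) (nat_lit 24819930141) (nat_lit 0) (nat_lit 6118644465) (nat_lit 19) (nat_lit 5) (nat_lit 21) (nat_lit 4) (nat_lit 19) (nat_lit 4) (nat_lit 452) (nat_lit 397) (nat_lit 351)) (XT.nd (nat_lit 78) (nat_lit 76) (nat_lit 0) (XT.lf (nat_lit 0) (nat_lit 7810548570) (nat_lit 76) (nat_lit 30706001955) (nat_lit 76) (nat_lit 16229636002) (nat_lit 18) (nat_lit 4) (nat_lit 19) (nat_lit 5) (nat_lit 19) (nat_lit 4) (nat_lit 453) (nat_lit 397) (nat_lit 350)) (XT.lf (nat_lit 0) (nat_lit 35031801) (nat_lit 152) (nat_lit 14434146780) (nat_lit 76) (nat_lit 43763009050) (nat_lit 17) (nat_lit 5) (nat_lit 19) (nat_lit 5) (nat_lit 18) (nat_lit 4) (nat_lit 454) (nat_lit 397) (nat_lit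 349)))) (XT.nd (nat_lit 78) (nat_lit 76) (nat_lit 0) (XT.lf (nat_lit 0) (nat_lit 17357256123) (nat_lit 152) (nat_lit 41094306942) (nat_lit 0) (nat_lit 3515955459) (nat_lit 16) (nat_lit 5) (nat_lit 18) (nat_lit 4) (nat_lit 16) (nat_lit 4) (nat_lit 455) (nat_lit 397) (nat_lit 348)) (XT.nd (nat_lit 78) (nat_lit 76) (nat_lit 0) (XT.lf (nat_lit 0) (nat_lit 36500623728) (nat_lit 152) (nat_lit 6844128411) (nat_lit 0) (nat_lit 22635157523) (nat_lit 16) (nat_lit 5) (nat_lit 18) (nat_lit 4) (nat_lit 16) (nat_lit 4) (nat_lit 456) (nat_lit 397) (nat_lit 347)) (XT.lf (nat_lit 0) (nat_lit 31020848526) (nat_lit 76) (nat_lit 26579520864) (nat_lit 76) (nat_lit 12691679158) (nat_lit 15) (nat_lit 4) (nat_lit 16) (nat_lit 5) (nat_lit 16) (nat_lit 4) (nat_lit 457) (nat_lit 397) (nat_lit 346))))) (XT.nd (nat_lit 234) (nat_lit 228) (nat_lit 0) (XT.nd (nat_lit 78) (nat_lit 76) (nat_lit 0) (XT.lf (nat_lit 0) (nat_lit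 5328322411) (nat_lit 152) (nat_lit 2985498818) (nat_lit 76) (nat_lit 66627919823) (nat_lit 14) (nat_lit 5) (nat_lit 16) (nat_lit 5) (nat_lit 15) (nat_lit 4) (nat_lit 458) (nat_lit 397) (nat_lit 345)) (XT.nd (nat_lit 78) (nat_lit 0) (nat_lit 0) (XT.lf (nat_lit 0) (nat_lit 25066894475) (nat_lit 152) (nat_lit 43047654568) (nat_lit 0) (nat_lit 11802377191) (nat_lit 13) (nat_lit 5) (nat_lit 15) (nat_lit 4) (nat_lit 13) (nat_lit 4) (nat_lit 459) (nat_lit 397) (nat_lit 344)) (XT.lf (nat_lit 0) (nat_lit 46525741553) (nat_lit 152) (nat_lit 5513018941) (nat_lit 0) (nat_lit 33244307703) (nat_lit 13) (nat_lit 5) (nat_lit 15) (nat_lit 4) (nat_lit 13) (nat_lit 4) (nat_lit 460) (nat_lit 397) (nat_lit 343)))) (XT.nd (nat_lit 156) (nat_lit 152) (nat_lit 0) (XT.nd (nat_lit 78) (nat_lit 0) (nat_lit 0) (XT.lf (nat_lit 0) (nat_lit 36083460263) (nat_lit 76) (nat_lit 34133186205) (nat_lit 76) (nat_lit 20836088869)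 (nat_lit 12) (nat_lit 4) (nat_lit 13) (nat_lit 5) (nat_lit 13) (nat_lit 4) (nat_lit 461) (nat_lit 397) (nat_lit 342)) (XT.lf (nat_lit 0) (nat_lit 81112866955) (nat_lit 76) (nat_lit 14740101719) (nat_lit 76) (nat_lit 1428501155) (nat_lit 12) (nat_lit 4) (nat_lit 13) (nat_lit 5) (nat_lit 13) (nat_lit 4) (nat_lit 462) (nat_lit 397) (nat_lit 341))) (XT.nd (nat_lit 78) (nat_lit 0) (nat_lit 0) (XT.lf (nat_lit 0) (nat_lit 19380054929) (nat_lit 152) (nat_lit 77899976469) (nat_lit 0) (nat_lit 6689550662) (nat_lit 10) (nat_lit 5) (nat_lit 12) (nat_lit 4) (nat_lit 10) (nat_lit 4) (nat_lit 463) (nat_lit 397) (nat_lit 340)) (XT.lf (nat_lit 0) (nat_lit 42296804708) (nat_lit 152) (nat_lit 39275632448) (nat_lit 0) (nat_lit 29594458365) (nat_lit 10) (nat_lit 5) (nat_lit 12) (nat_lit 4) (nat_lit 10) (nat_lit 4) (nat_lit 464) (nat_lit 397) (nat_lit 339)))))) (XT.nd (nat_lit 546) (nat_lit 228) (nat_lit 0) (XT.nd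 (nat_lit 234) (nat_lit 152) (nat_lit 0) (XT.nd (nat_lit 78) (nat_lit 0) (nat_lit 0) (XT.lf (nat_lit 0) (nat_lit 2438972845) (nat_lit 76) (nat_lit 64607185097) (nat_lit 76) (nat_lit 51893873868) (nat_lit 9) (nat_lit 4) (nat_lit 10) (nat_lit 5) (nat_lit 10) (nat_lit 4) (nat_lit 465) (nat_lit 397) (nat_lit 338)) (XT.nd (nat_lit 78) (nat_lit 0) (nat_lit 0) (XT.lf (nat_lit 0) (nat_lit 48818896976) (nat_lit 76) (nat_lit 45603617029) (nat_lit 76) (nat_lit 32880153127) (nat_lit 9) (nat_lit 4) (nat_lit 10) (nat_lit 5) (nat_lit 10) (nat_lit 4) (nat_lit 466) (nat_lit 397) (nat_lit 337)) (XT.lf (nat_lit 0) (nat_lit 98840354156) (nat_lit 76) (nat_lit 25114271055) (nat_lit 76) (nat_lit 12381406531) (nat_lit 9) (nat_lit 4) (nat_lit 10) (nat_lit 5) (nat_lit 10) (nat_lit 4) (nat_lit 467) (nat_lit 397) (nat_lit 336)))) (XT.nd (nat_lit 156) (nat_lit 0) (nat_lit 0) (XT.nd (nat_lit 78) (nat_lit 0) (nat_lit 0)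 (XT.lf (nat_lit 0) (nat_lit 6771009338) (nat_lit 76) (nat_lit 2747321462) (nat_lit 152) (nat_lit 136562449346) (nat_lit 7) (nat_lit 5) (nat_lit 8) (nat_lit 5) (nat_lit 9) (nat_lit 4) (nat_lit 468) (nat_lit 397) (nat_lit 335)) (XT.lf (nat_lit 0) (nat_lit 33708784527) (nat_lit 152) (nat_lit 101271268409) (nat_lit 0) (nat_lit 21566281362) (nat_lit 7) (nat_lit 5) (nat_lit 9) (nat_lit 4) (nat_lit 7) (nat_lit 4) (nat_lit 469) (nat_lit 397) (nat_lit 334))) (XT.nd (nat_lit 78) (nat_lit 0) (nat_lit 0) (XT.lf (nat_lit 0) (nat_lit 59851734768) (nat_lit 152) (nat_lit 60294411161) (nat_lit 0) (nat_lit 47702124444) (nat_lit 7) (nat_lit 5) (nat_lit 9) (nat_lit 4) (nat_lit 7) (nat_lit 4) (nat_lit 470) (nat_lit 397) (nat_lit 333)) (XT.lf (nat_lit 0) (nat_lit 88059209322) (nat_lit 152) (nat_lit 16093479855) (nat_lit 0) (nat_lit 75903018295) (nat_lit 7) (nat_lit 5) (nat_lit 9) (nat_lit 4) (nat_lit 7) (nat_lit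 4) (nat_lit 471) (nat_lit 397) (nat_lit 332))))) (XT.nd (nat_lit 234) (nat_lit 152) (nat_lit 0) (XT.nd (nat_lit 78) (nat_lit 0) (nat_lit 0) (XT.lf (nat_lit 0) (nat_lit 32638079319) (nat_lit 76) (nat_lit 86369856163) (nat_lit 76) (nat_lit 74207571893) (nat_lit 6) (nat_lit 4) (nat_lit 7) (nat_lit 5) (nat_lit 7) (nat_lit 4) (nat_lit 472) (nat_lit 397) (nat_lit 331)) (XT.nd (nat_lit 78) (nat_lit 0) (nat_lit 0) (XT.lf (nat_lit 0) (nat_lit 85794963137) (nat_lit 76) (nat_lit 66894114439) (nat_lit 76) (nat_lit 54726188277) (nat_lit 6) (nat_lit 4) (nat_lit 7) (nat_lit 5) (nat_lit 7) (nat_lit 4) (nat_lit 473) (nat_lit 397) (nat_lit 330)) (XT.lf (nat_lit 0) (nat_lit 143160052231) (nat_lit 76) (nat_lit 45882603072) (nat_lit 76) (nat_lit 33709452935) (nat_lit 6) (nat_lit 4) (nat_lit 7) (nat_lit 5) (nat_lit 7) (nat_lit 4) (nat_lit 474) (nat_lit 397) (nat_lit 329)))) (XT.nd (nat_lit 156) (nat_lit 0) (nat_lit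 0) (XT.nd (nat_lit 78) (nat_lit 152) (nat_lit 0) (XT.lf (nat_lit 0) (nat_lit 205073287869) (nat_lit 76) (nat_lit 23210809400) (nat_lit 76) (nat_lit 11032822250) (nat_lit 6) (nat_lit 4) (nat_lit 7) (nat_lit 5) (nat_lit 7) (nat_lit 4) (nat_lit 475) (nat_lit 397) (nat_lit 328)) (XT.lf (nat_lit 0) (nat_lit 13268465276) (nat_lit 152) (nat_lit 242249764926) (nat_lit 0) (nat_lit 1666116832) (nat_lit 4) (nat_lit 5) (nat_lit 6) (nat_lit 4) (nat_lit 4) (nat_lit 4) (nat_lit 476) (nat_lit 397) (nat_lit 327))) (XT.nd (nat_lit 78) (nat_lit 0) (nat_lit 0) (XT.lf (nat_lit 0) (nat_lit 40111480764) (nat_lit 152) (nat_lit 207806254122) (nat_lit 0) (nat_lit 28505182836) (nat_lit 4) (nat_lit 5) (nat_lit 6) (nat_lit 4) (nat_lit 4) (nat_lit 4) (nat_lit 477) (nat_lit 397) (nat_lit 326)) (XT.lf (nat_lit 0) (nat_lit 69084656354) (nat_lit 152) (nat_lit 170642080581) (nat_lit 0) (nat_lit 57474701495) (nat_lit 4) (nat_lit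 5) (nat_lit 6) (nat_lit 4) (nat_lit 4) (nat_lit 4) (nat_lit 478) (nat_lit 397) (nat_lit 325))))))))
noncomputable def xc42 : XT := (XT.nd (nat_lit 57096) (nat_lit 0) (nat_lit 2812) (XT.nd (nat_lit 1014) (nat_lit 152) (nat_lit 0) (XT.nd (nat_lit 468) (nat_lit 0) (nat_lit 0) (XT.nd (nat_lit 234) (nat_lit 76) (nat_lit 0) (XT.nd (nat_lit 78) (nat_lit 0) (nat_lit 0) (XT.lf (nat_lit 0) (nat_lit 100359684937) (nat_lit 152) (nat_lit 130537012164) (nat_lit 0) (nat_lit 88746344031) (nat_lit 4) (nat_lit 5) (nat_lit 6) (nat_lit 4) (nat_lit 4) (nat_lit 4) (nat_lit 479) (nat_lit 397) (nat_lit 324)) (XT.nd (nat_lit 78) (nat_lit 0) (nat_lit 0) (XT.lf (nat_lit 0) (nat_lit 134121900017) (nat_lit 152) (nat_lit 87253389206) (nat_lit 0) (nat_lit 122505423883) (nat_lit 4) (nat_lit 5) (nat_lit 6) (nat_lit 4) (nat_lit 4) (nat_lit 4) (nat_lit 480) (nat_lit 397) (nat_lit 323)) (XT.lf (nat_lit 0) (nat_lit 170571373980)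 (nat_lit 152) (nat_lit 40534716164) (nat_lit 0) (nat_lit 158951994856) (nat_lit 4) (nat_lit 5) (nat_lit 6) (nat_lit 4) (nat_lit 4) (nat_lit 4) (nat_lit 481) (nat_lit 397) (nat_lit 322)))) (XT.nd (nat_lit 78) (nat_lit 0) (nat_lit 0) (XT.lf (nat_lit 0) (nat_lit 10223060126) (nat_lit 76) (nat_lit 199860654199) (nat_lit 76) (nat_lit 188238587122) (nat_lit 3) (nat_lit 4) (nat_lit 4) (nat_lit 5) (nat_lit 4) (nat_lit 4) (nat_lit 482) (nat_lit 397) (nat_lit 321)) (XT.nd (nat_lit 78) (nat_lit 0) (nat_lit 0) (XT.lf (nat_lit 0) (nat_lit 66464460009) (nat_lit 76) (nat_lit 186986527039) (nat_lit 76) (nat_lit 175361971117) (nat_lit 3) (nat_lit 4) (nat_lit 4) (nat_lit 5) (nat_lit 4) (nat_lit 4) (nat_lit 483) (nat_lit 397) (nat_lit 320)) (XT.lf (nat_lit 0) (nat_lit 127182505076) (nat_lit 76) (nat_lit 173093892572) (nat_lit 76) (nat_lit 161467032163) (nat_lit 3) (nat_lit 4) (nat_lit 4) (nat_lit 5) (nat_lit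 4) (nat_lit 4) (nat_lit 484) (nat_lit 397) (nat_lit 319))))) (XT.nd (nat_lit 234) (nat_lit 0) (nat_lit 0) (XT.nd (nat_lit 78) (nat_lit 0) (nat_lit 0) (XT.lf (nat_lit 0) (nat_lit 192737005965) (nat_lit 76) (nat_lit 158100424074) (nat_lit 76) (nat_lit 146471429881) (nat_lit 3) (nat_lit 4) (nat_lit 4) (nat_lit 5) (nat_lit 4) (nat_lit 4) (nat_lit 485) (nat_lit 397) (nat_lit 318)) (XT.nd (nat_lit 78) (nat_lit 0) (nat_lit 0) (XT.lf (nat_lit 0) (nat_lit 263516433793) (nat_lit 76) (nat_lit 141917271363) (nat_lit 76) (nat_lit 130286301444) (nat_lit 3) (nat_lit 4) (nat_lit 4) (nat_lit 5) (nat_lit 4) (nat_lit 4) (nat_lit 486) (nat_lit 397) (nat_lit 317)) (XT.lf (nat_lit 0) (nat_lit 339940222206) (nat_lit 76) (nat_lit 124448534273) (nat_lit 76) (nat_lit 112815734979) (nat_lit 3) (nat_lit 4) (nat_lit 4) (nat_lit 5) (nat_lit 4) (nat_lit 4) (nat_lit 487) (nat_lit 397) (nat_lit 316)))) (XT.nd (nat_lit 156)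 (nat_lit 0) (nat_lit 0) (XT.nd (nat_lit 78) (nat_lit 0) (nat_lit 0) (XT.lf (nat_lit 0) (nat_lit 422461252914) (nat_lit 76) (nat_lit 105590694364) (nat_lit 76) (nat_lit 93956201203) (nat_lit 3) (nat_lit 4) (nat_lit 4) (nat_lit 5) (nat_lit 4) (nat_lit 4) (nat_lit 488) (nat_lit 397) (nat_lit 315)) (XT.lf (nat_lit 0) (nat_lit 511568539430) (nat_lit 76) (nat_lit 85232001472) (nat_lit 76) (nat_lit 73595939917) (nat_lit 3) (nat_lit 4) (nat_lit 4) (nat_lit 5) (nat_lit 4) (nat_lit 4) (nat_lit 489) (nat_lit 397) (nat_lit 314))) (XT.nd (nat_lit 78) (nat_lit 0) (nat_lit 0) (XT.lf (nat_lit 0) (nat_lit 607790124936) (nat_lit 76) (nat_lit 63251811491) (nat_lit 76) (nat_lit 51614297719) (nat_lit 3) (nat_lit 4) (nat_lit 4) (nat_lit 5) (nat_lit 4) (nat_lit 4) (nat_lit 490) (nat_lit 397) (nat_lit 313)) (XT.lf (nat_lit 0) (nat_lit 711696211418) (nat_lit 76) (nat_lit 39519871445) (nat_lit 76) (nat_lit 27881013027)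 (nat_lit 3) (nat_lit 4) (nat_lit 4) (nat_lit 5) (nat_lit 4) (nat_lit 4) (nat_lit 491) (nat_lit 397) (nat_lit 312)))))) (XT.nd (nat_lit 468) (nat_lit 0) (nat_lit 0) (XT.nd (nat_lit 234) (nat_lit 0) (nat_lit 0) (XT.nd (nat_lit 78) (nat_lit 152) (nat_lit 0) (XT.lf (nat_lit 0) (nat_lit 823902538649) (nat_lit 76) (nat_lit 13895547613) (nat_lit 76) (nat_lit 2255444153) (nat_lit 3) (nat_lit 4) (nat_lit 4) (nat_lit 5) (nat_lit 4) (nat_lit 4) (nat_lit 492) (nat_lit 397) (nat_lit 311)) (XT.nd (nat_lit 78) (nat_lit 0) (nat_lit 0) (XT.lf (nat_lit 0) (nat_lit 25458298504) (nat_lit 152) (nat_lit 865994362900) (nat_lit 0) (nat_lit 14371387763) (nat_lit 1) (nat_lit 5) (nat_lit 3) (nat_lit 4) (nat_lit 1) (nat_lit 4) (nat_lit 493) (nat_lit 397) (nat_lit 310)) (XT.lf (nat_lit 0) (nat_lit 55825880931) (nat_lit 152) (nat_lit 876264738245) (nat_lit 0) (nat_lit 44737953597) (nat_lit 1) (nat_lit 5) (nat_lit 3) (nat_lit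 4) (nat_lit 1) (nat_lit 4) (nat_lit 494) (nat_lit 397) (nat_lit 309)))) (XT.nd (nat_lit 78) (nat_lit 0) (nat_lit 0) (XT.lf (nat_lit 0) (nat_lit 88617728675) (nat_lit 152) (nat_lit 887367126686) (nat_lit 0) (nat_lit 77528860051) (nat_lit 1) (nat_lit 5) (nat_lit 3) (nat_lit 4) (nat_lit 1) (nat_lit 4) (nat_lit 495) (nat_lit 397) (nat_lit 308)) (XT.nd (nat_lit 78) (nat_lit 0) (nat_lit 0) (XT.lf (nat_lit 0) (nat_lit 124028163796) (nat_lit 152) (nat_lit 899367320155) (nat_lit 0) (nat_lit 112938423606) (nat_lit 1) (nat_lit 5) (nat_lit 3) (nat_lit 4) (nat_lit 1) (nat_lit 4) (nat_lit 496) (nat_lit 397) (nat_lit 307)) (XT.lf (nat_lit 0) (nat_lit 162267025908) (nat_lit 152) (nat_lit 912336430911) (nat_lit 0) (nat_lit 151176478714) (nat_lit 1) (nat_lit 5) (nat_lit 3) (nat_lit 4) (nat_lit 1) (nat_lit 4) (nat_lit 497) (nat_lit 397) (nat_lit 306))))) (XT.nd (nat_lit 55302) (nat_lit 0) (nat_lit 10792) (XT.nd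 (nat_lit 55146) (nat_lit 0) (nat_lit 12996) (XT.lf (nat_lit 0) (nat_lit 203560915677) (nat_lit 152) (nat_lit 926351312942) (nat_lit 0) (nat_lit 192469621257) (nat_lit 1) (nat_lit 5) (nat_lit 3) (nat_lit 4) (nat_lit 1) (nat_lit 4) (nat_lit 498) (nat_lit 397) (nat_lit 305)) (XT.nd (nat_lit 78) (nat_lit 380) (nat_lit 0) (XT.lf (nat_lit 0) (nat_lit 1511625289) (nat_lit 228) (nat_lit 883364872) (nat_lit 228) (nat_lit 883364872) (nat_lit 177) (nat_lit 4) (nat_lit 180) (nat_lit 5) (nat_lit 180) (nat_lit 4) (nat_lit 404) (nat_lit 398) (nat_lit 398)) (XT.lf (nat_lit 0) (nat_lit 2823103287) (nat_lit 304) (nat_lit 426266266) (nat_lit 380) (nat_lit 3375296849) (nat_lit 172) (nat_lit 5) (nat_lit 176) (nat_lit 5) (nat_lit 177) (nat_lit 4) (nat_lit 405) (nat_lit 398) (nat_lit 397)))) (XT.nd (nat_lit 156) (nat_lit 1292) (nat_lit 0) (XT.nd (nat_lit 78) (nat_lit 456) (nat_lit 0) (XT.lf (nat_lit 0) (nat_lit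 1519723745) (nat_lit 456) (nat_lit 3924475440) (nat_lit 76) (nat_lit 1267566961) (nat_lit 166) (nat_lit 5) (nat_lit 172) (nat_lit 5) (nat_lit 167) (nat_lit 4) (nat_lit 406) (nat_lit 398) (nat_lit 396)) (XT.lf (nat_lit 0) (nat_lit 2915881779) (nat_lit 456) (nat_lit 3469315086) (nat_lit 532) (nat_lit 433267229) (nat_lit 160) (nat_lit 5) (nat_lit 166) (nat_lit 5) (nat_lit 167) (nat_lit 4) (nat_lit 407) (nat_lit 398) (nat_lit 395))) (XT.nd (nat_lit 78) (nat_lit 684) (nat_lit 0) (XT.lf (nat_lit 0) (nat_lit 3193753344) (nat_lit 532) (nat_lit 1076160383) (nat_lit 608) (nat_lit 2674616012) (nat_lit 152) (nat_lit 5) (nat_lit 159) (nat_lit 5) (nat_lit 160) (nat_lit 5) (nat_lit 408) (nat_lit 398) (nat_lit 394)) (XT.lf (nat_lit 0) (nat_lit 1948175301) (nat_lit 684) (nat_lit 3470694737) (nat_lit 76) (nat_lit 1671568650) (nat_lit 143) (nat_lit 5) (nat_lit 152) (nat_lit 5) (nat_lit 144) (nat_lit 5) (nat_lit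 409) (nat_lit 398) (nat_lit 393))))))) (XT.nd (nat_lit 1014) (nat_lit 2660) (nat_lit 0) (XT.nd (nat_lit 468) (nat_lit 1900) (nat_lit 0) (XT.nd (nat_lit 234) (nat_lit 1444) (nat_lit 0) (XT.nd (nat_lit 78) (nat_lit 1292) (nat_lit 0) (XT.lf (nat_lit 0) (nat_lit 4189932345) (nat_lit 684) (nat_lit 2445746051) (nat_lit 760) (nat_lit 620901468) (nat_lit 134) (nat_lit 5) (nat_lit 143) (nat_lit 5) (nat_lit 144) (nat_lit 5) (nat_lit 410) (nat_lit 398) (nat_lit 392)) (XT.nd (nat_lit 78) (nat_lit 456) (nat_lit 0) (XT.lf (nat_lit 0) (nat_lit 3932265149) (nat_lit 836) (nat_lit 2560417721) (nat_lit 76) (nat_lit 949836727) (nat_lit 123) (nat_lit 5) (nat_lit 134) (nat_lit 5) (nat_lit 124) (nat_lit 5) (nat_lit 411) (nat_lit 398) (nat_lit 391)) (XT.lf (nat_lit 0) (nat_lit 1003566134) (nat_lit 456) (nat_lit 1946942635) (nat_lit 76) (nat_lit 4698713281) (nat_lit 117) (nat_lit 5) (nat_lit 123) (nat_lit 5) (nat_lit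 118) (nat_lit 5) (nat_lit 412) (nat_lit 398) (nat_lit 390)))) (XT.nd (nat_lit 78) (nat_lit 1064) (nat_lit 0) (XT.lf (nat_lit 0) (nat_lit 5610602605) (nat_lit 456) (nat_lit 1236208450) (nat_lit 76) (nat_lit 1030148465) (nat_lit 112) (nat_lit 5) (nat_lit 118) (nat_lit 5) (nat_lit 113) (nat_lit 5) (nat_lit 413) (nat_lit 398) (nat_lit 389)) (XT.nd (nat_lit 78) (nat_lit 608) (nat_lit 0) (XT.lf (nat_lit 0) (nat_lit 2292653126) (nat_lit 456) (nat_lit 445652540) (nat_lit 76) (nat_lit 5387392254) (nat_lit 106) (nat_lit 5) (nat_lit 112) (nat_lit 5) (nat_lit 107) (nat_lit 5) (nat_lit 414) (nat_lit 398) (nat_lit 388)) (XT.lf (nat_lit 0) (nat_lit 456559914) (nat_lit 304) (nat_lit 6595067731) (nat_lit 380) (nat_lit 1345224508) (nat_lit 98) (nat_lit 5) (nat_lit 102) (nat_lit 5) (nat_lit 103) (nat_lit 5) (nat_lit 415) (nat_lit 398) (nat_lit 387))))) (XT.nd (nat_lit 234) (nat_lit 988) (nat_lit 0) (XT.nd (nat_lit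 78) (nat_lit 608) (nat_lit 0) (XT.lf (nat_lit 0) (nat_lit 1435636509) (nat_lit 228) (nat_lit 1904794416) (nat_lit 304) (nat_lit 5349084238) (nat_lit 94) (nat_lit 5) (nat_lit 97) (nat_lit 5) (nat_lit 98) (nat_lit 5) (nat_lit 416) (nat_lit 398) (nat_lit 386)) (XT.nd (nat_lit 78) (nat_lit 304) (nat_lit 0) (XT.lf (nat_lit 0) (nat_lit 2501101968) (nat_lit 304) (nat_lit 5818653292) (nat_lit 380) (nat_lit 686523120) (nat_lit 90) (nat_lit 5) (nat_lit 94) (nat_lit 5) (nat_lit 95) (nat_lit 5) (nat_lit 417) (nat_lit 398) (nat_lit 385)) (XT.lf (nat_lit 0) (nat_lit 3622957134) (nat_lit 228) (nat_lit 550459017) (nat_lit 304) (nat_lit 5173469815) (nat_lit 86) (nat_lit 5) (nat_lit 89) (nat_lit 5) (nat_lit 90) (nat_lit 5) (nat_lit 418) (nat_lit 398) (nat_lit 384)))) (XT.nd (nat_lit 156) (nat_lit 456) (nat_lit 0) (XT.nd (nat_lit 78) (nat_lit 304) (nat_lit 0) (XT.lf (nat_lit 0) (nat_lit 4804606017) (nat_lit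 228) (nat_lit 4622936433) (nat_lit 304) (nat_lit 285235919) (nat_lit 83) (nat_lit 5) (nat_lit 86) (nat_lit 5) (nat_lit 87) (nat_lit 5) (nat_lit 419) (nat_lit 398) (nat_lit 383)) (XT.lf (nat_lit 0) (nat_lit 4826342807) (nat_lit 304) (nat_lit 4076312420) (nat_lit 76) (nat_lit 1201844760) (nat_lit 79) (nat_lit 5) (nat_lit 83) (nat_lit 5) (nat_lit 80) (nat_lit 5) (nat_lit 420) (nat_lit 398) (nat_lit 382))) (XT.nd (nat_lit 78) (nat_lit 228) (nat_lit 0) (XT.lf (nat_lit 0) (nat_lit 7313268653) (nat_lit 228) (nat_lit 3081132017) (nat_lit 304) (nat_lit 130105655) (nat_lit 76) (nat_lit 5) (nat_lit 79) (nat_lit 5) (nat_lit 80) (nat_lit 5) (nat_lit 421) (nat_lit 398) (nat_lit 381)) (XT.lf (nat_lit 0) (nat_lit 5302875715) (nat_lit 228) (nat_lit 2372247135) (nat_lit 76) (nat_lit 3296459192) (nat_lit 73) (nat_lit 5) (nat_lit 76) (nat_lit 5) (nat_lit 74) (nat_lit 5) (nat_lit 422) (nat_lit 398) (nat_lit 380))))))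 (XT.nd (nat_lit 546) (nat_lit 1140) (nat_lit 0) (XT.nd (nat_lit 234) (nat_lit 760) (nat_lit 0) (XT.nd (nat_lit 78) (nat_lit 532) (nat_lit 0) (XT.lf (nat_lit 0) (nat_lit 9966180090) (nat_lit 228) (nat_lit 1260027321) (nat_lit 304) (nat_lit 225143690) (nat_lit 70) (nat_lit 5) (nat_lit 73) (nat_lit 5) (nat_lit 74) (nat_lit 5) (nat_lit 423) (nat_lit 398) (nat_lit 379)) (XT.nd (nat_lit 78) (nat_lit 304) (nat_lit 0) (XT.lf (nat_lit 0) (nat_lit 5587352346) (nat_lit 228) (nat_lit 680081291) (nat_lit 76) (nat_lit 5691975782) (nat_lit 67) (nat_lit 5) (nat_lit 70) (nat_lit 5) (nat_lit 68) (nat_lit 5) (nat_lit 424) (nat_lit 398) (nat_lit 378)) (XT.lf (nat_lit 0) (nat_lit 177660228) (nat_lit 152) (nat_lit 11751233967) (nat_lit 228) (nat_lit 575475692) (nat_lit 63) (nat_lit 5) (nat_lit 65) (nat_lit 5) (nat_lit 66) (nat_lit 4) (nat_lit 425) (nat_lit 398) (nat_lit 377)))) (XT.nd (nat_lit 156) (nat_lit 380)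 (nat_lit 0) (XT.nd (nat_lit 78) (nat_lit 152) (nat_lit 0) (XT.lf (nat_lit 0) (nat_lit 934505417) (nat_lit 152) (nat_lit 4736237363) (nat_lit 228) (nat_lit 7409387721) (nat_lit 60) (nat_lit 5) (nat_lit 62) (nat_lit 5) (nat_lit 63) (nat_lit 5) (nat_lit 426) (nat_lit 398) (nat_lit 376)) (XT.lf (nat_lit 0) (nat_lit 1695866901) (nat_lit 152) (nat_lit 10808570777) (nat_lit 228) (nat_lit 1191677169) (nat_lit 58) (nat_lit 5) (nat_lit 60) (nat_lit 5) (nat_lit 61) (nat_lit 4) (nat_lit 427) (nat_lit 398) (nat_lit 375))) (XT.nd (nat_lit 78) (nat_lit 152) (nat_lit 0) (XT.lf (nat_lit 0) (nat_lit 2333781646) (nat_lit 152) (nat_lit 3168833571) (nat_lit 228) (nat_lit 8846681291) (nat_lit 55) (nat_lit 5) (nat_lit 57) (nat_lit 5) (nat_lit 58) (nat_lit 5) (nat_lit 428) (nat_lit 398) (nat_lit 374)) (XT.lf (nat_lit 0) (nat_lit 2896145962) (nat_lit 152) (nat_lit 9963420346) (nat_lit 228) (nat_lit 2185772135) (nat_lit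 53) (nat_lit 5) (nat_lit 55) (nat_lit 5) (nat_lit 56) (nat_lit 4) (nat_lit 429) (nat_lit 398) (nat_lit 373))))) (XT.nd (nat_lit 234) (nat_lit 608) (nat_lit 0) (XT.nd (nat_lit 78) (nat_lit 304) (nat_lit 0) (XT.lf (nat_lit 0) (nat_lit 3329554500) (nat_lit 152) (nat_lit 1673073392) (nat_lit 228) (nat_lit 10782803872) (nat_lit 50) (nat_lit 5) (nat_lit 52) (nat_lit 5) (nat_lit 53) (nat_lit 5) (nat_lit 430) (nat_lit 398) (nat_lit 372)) (XT.nd (nat_lit 78) (nat_lit 228) (nat_lit 0) (XT.lf (nat_lit 0) (nat_lit 3588414474) (nat_lit 76) (nat_lit 9329682037) (nat_lit 152) (nat_lit 3653436738) (nat_lit 49) (nat_lit 5) (nat_lit 50) (nat_lit 5) (nat_lit 51) (nat_lit 4) (nat_lit 431) (nat_lit 398) (nat_lit 371)) (XT.lf (nat_lit 0) (nat_lit 3703281891) (nat_lit 152) (nat_lit 367819495) (nat_lit 228) (nat_lit 13338564978) (nat_lit 46) (nat_lit 5) (nat_lit 48) (nat_lit 5) (nat_lit 49) (nat_lit 5) (nat_lit 432)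 (nat_lit 398) (nat_lit 370)))) (XT.nd (nat_lit 156) (nat_lit 304) (nat_lit 0) (XT.nd (nat_lit 78) (nat_lit 228) (nat_lit 0) (XT.lf (nat_lit 0) (nat_lit 3521355747) (nat_lit 76) (nat_lit 9049367199) (nat_lit 152) (nat_lit 5726893826) (nat_lit 45) (nat_lit 5) (nat_lit 46) (nat_lit 5) (nat_lit 47) (nat_lit 4) (nat_lit 433) (nat_lit 398) (nat_lit 369)) (XT.lf (nat_lit 0) (nat_lit 2579296818) (nat_lit 228) (nat_lit 16090321230) (nat_lit 76) (nat_lit 576783649) (nat_lit 42) (nat_lit 5) (nat_lit 45) (nat_lit 5) (nat_lit 43) (nat_lit 4) (nat_lit 434) (nat_lit 398) (nat_lit 368))) (XT.nd (nat_lit 78) (nat_lit 228) (nat_lit 0) (XT.lf (nat_lit 0) (nat_lit 2362341345) (nat_lit 76) (nat_lit 9303489976) (nat_lit 152) (nat_lit 8584753422) (nat_lit 41) (nat_lit 5) (nat_lit 42) (nat_lit 5) (nat_lit 43) (nat_lit 4) (nat_lit 435) (nat_lit 398) (nat_lit 367)) (XT.lf (nat_lit 0) (nat_lit 328220411) (nat_lit 228)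 (nat_lit 20007531798) (nat_lit 76) (nat_lit 989817606) (nat_lit 38) (nat_lit 5) (nat_lit 41) (nat_lit 5) (nat_lit 39) (nat_lit 4) (nat_lit 436) (nat_lit 398) (nat_lit 366))))))))
noncomputable def xc43 : XT := (XT.nd (nat_lit 2106) (nat_lit 684) (nat_lit 0) (XT.nd (nat_lit 1014) (nat_lit 836) (nat_lit 0) (XT.nd (nat_lit 468) (nat_lit 608) (nat_lit 0) (XT.nd (nat_lit 234) (nat_lit 304) (nat_lit 0) (XT.nd (nat_lit 78) (nat_lit 228) (nat_lit 0) (XT.lf (nat_lit 0) (nat_lit 10002529005) (nat_lit 228) (nat_lit 317871103) (nat_lit 76) (nat_lit 12141675140) (nat_lit 38) (nat_lit 5) (nat_lit 41) (nat_lit 5) (nat_lit 39) (nat_lit 4) (nat_lit 437) (nat_lit 398) (nat_lit 365)) (XT.nd (nat_lit 78) (nat_lit 152) (nat_lit 0) (XT.lf (nat_lit 0) (nat_lit 20677656106) (nat_lit 152) (nat_lit 2280150312) (nat_lit 0) (nat_lit 720361633) (nat_lit 37) (nat_lit 5) (nat_lit 39) (nat_lit 4) (nat_lit 37) (nat_lit 4)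 (nat_lit 438) (nat_lit 398) (nat_lit 364)) (XT.lf (nat_lit 0) (nat_lit 7369304110) (nat_lit 152) (nat_lit 4966714548) (nat_lit 76) (nat_lit 12630656885) (nat_lit 35) (nat_lit 5) (nat_lit 37) (nat_lit 5) (nat_lit 36) (nat_lit 4) (nat_lit 439) (nat_lit 398) (nat_lit 363)))) (XT.nd (nat_lit 78) (nat_lit 228) (nat_lit 0) (XT.lf (nat_lit 0) (nat_lit 18105067605) (nat_lit 76) (nat_lit 571381142) (nat_lit 152) (nat_lit 7668720798) (nat_lit 34) (nat_lit 5) (nat_lit 35) (nat_lit 5) (nat_lit 36) (nat_lit 4) (nat_lit 440) (nat_lit 398) (nat_lit 362)) (XT.nd (nat_lit 78) (nat_lit 76) (nat_lit 0) (XT.lf (nat_lit 0) (nat_lit 3374152428) (nat_lit 152) (nat_lit 12398727266) (nat_lit 76) (nat_lit 12037802542) (nat_lit 32) (nat_lit 5) (nat_lit 34) (nat_lit 5) (nat_lit 33) (nat_lit 4) (nat_lit 441) (nat_lit 398) (nat_lit 361)) (XT.lf (nat_lit 0) (nat_lit 11903856383) (nat_lit 76) (nat_lit 3368177173) (nat_lit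 152) (nat_lit 14103111000) (nat_lit 31) (nat_lit 5) (nat_lit 32) (nat_lit 5) (nat_lit 33) (nat_lit 4) (nat_lit 442) (nat_lit 398) (nat_lit 360))))) (XT.nd (nat_lit 234) (nat_lit 380) (nat_lit 0) (XT.nd (nat_lit 78) (nat_lit 152) (nat_lit 0) (XT.lf (nat_lit 0) (nat_lit 7421966921) (nat_lit 76) (nat_lit 21090380120) (nat_lit 76) (nat_lit 2532893289) (nat_lit 30) (nat_lit 4) (nat_lit 31) (nat_lit 5) (nat_lit 31) (nat_lit 4) (nat_lit 443) (nat_lit 398) (nat_lit 359)) (XT.nd (nat_lit 78) (nat_lit 0) (nat_lit 0) (XT.lf (nat_lit 0) (nat_lit 1745703870) (nat_lit 76) (nat_lit 8193370856) (nat_lit 152) (nat_lit 22887346888) (nat_lit 28) (nat_lit 5) (nat_lit 29) (nat_lit 5) (nat_lit 30) (nat_lit 4) (nat_lit 444) (nat_lit 398) (nat_lit 358)) (XT.lf (nat_lit 0) (nat_lit 23733759709) (nat_lit 152) (nat_lit 5065522172) (nat_lit 0) (nat_lit 5928059748) (nat_lit 28) (nat_lit 5) (nat_lit 30) (nat_lit 4) (nat_lit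 28) (nat_lit 4) (nat_lit 445) (nat_lit 398) (nat_lit 357)))) (XT.nd (nat_lit 156) (nat_lit 152) (nat_lit 0) (XT.nd (nat_lit 78) (nat_lit 76) (nat_lit 0) (XT.lf (nat_lit 0) (nat_lit 2215651136) (nat_lit 152) (nat_lit 13322332627) (nat_lit 76) (nat_lit 21219749089) (nat_lit 26) (nat_lit 5) (nat_lit 28) (nat_lit 5) (nat_lit 27) (nat_lit 4) (nat_lit 446) (nat_lit 398) (nat_lit 356)) (XT.lf (nat_lit 0) (nat_lit 15597034346) (nat_lit 76) (nat_lit 752146069) (nat_lit 152) (nat_lit 22579732241) (nat_lit 25) (nat_lit 5) (nat_lit 26) (nat_lit 5) (nat_lit 27) (nat_lit 4) (nat_lit 447) (nat_lit 398) (nat_lit 355))) (XT.nd (nat_lit 78) (nat_lit 76) (nat_lit 0) (XT.lf (nat_lit 0) (nat_lit 5826471040) (nat_lit 76) (nat_lit 26268350984) (nat_lit 76) (nat_lit 9154897370) (nat_lit 24) (nat_lit 4) (nat_lit 25) (nat_lit 5) (nat_lit 25) (nat_lit 4) (nat_lit 448) (nat_lit 398) (nat_lit 354)) (XT.lf (nat_lit 0)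 (nat_lit 5518097847) (nat_lit 152) (nat_lit 5845745255) (nat_lit 76) (nat_lit 32370918835) (nat_lit 23) (nat_lit 5) (nat_lit 25) (nat_lit 5) (nat_lit 24) (nat_lit 4) (nat_lit 449) (nat_lit 398) (nat_lit 353)))))) (XT.nd (nat_lit 546) (nat_lit 304) (nat_lit 0) (XT.nd (nat_lit 234) (nat_lit 304) (nat_lit 0) (XT.nd (nat_lit 78) (nat_lit 152) (nat_lit 0) (XT.lf (nat_lit 0) (nat_lit 21472106476) (nat_lit 152) (nat_lit 19825450534) (nat_lit 0) (nat_lit 5092154325) (nat_lit 22) (nat_lit 5) (nat_lit 24) (nat_lit 4) (nat_lit 22) (nat_lit 4) (nat_lit 450) (nat_lit 398) (nat_lit 352)) (XT.nd (nat_lit 78) (nat_lit 76) (nat_lit 0) (XT.lf (nat_lit 0) (nat_lit 12591347596) (nat_lit 76) (nat_lit 26530471000) (nat_lit 76) (nat_lit 10114272010) (nat_lit 21) (nat_lit 4) (nat_lit 22) (nat_lit 5) (nat_lit 22) (nat_lit 4) (nat_lit 451) (nat_lit 398) (nat_lit 351)) (XT.lf (nat_lit 0) (nat_lit 5966132837) (nat_lit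 152) (nat_lit 4219188560) (nat_lit 76) (nat_lit 42106237139) (nat_lit 20) (nat_lit 5) (nat_lit 22) (nat_lit 5) (nat_lit 21) (nat_lit 4) (nat_lit 452) (nat_lit 398) (nat_lit 350)))) (XT.nd (nat_lit 156) (nat_lit 152) (nat_lit 0) (XT.nd (nat_lit 78) (nat_lit 76) (nat_lit 0) (XT.lf (nat_lit 0) (nat_lit 23536761639) (nat_lit 152) (nat_lit 24177780370) (nat_lit 0) (nat_lit 7840726686) (nat_lit 19) (nat_lit 5) (nat_lit 21) (nat_lit 4) (nat_lit 19) (nat_lit 4) (nat_lit 453) (nat_lit 398) (nat_lit 349)) (XT.lf (nat_lit 0) (nat_lit 10948938078) (nat_lit 76) (nat_lit 31918431079) (nat_lit 76) (nat_lit 16194992403) (nat_lit 18) (nat_lit 4) (nat_lit 19) (nat_lit 5) (nat_lit 19) (nat_lit 4) (nat_lit 454) (nat_lit 398) (nat_lit 348))) (XT.nd (nat_lit 78) (nat_lit 76) (nat_lit 0) (XT.lf (nat_lit 0) (nat_lit 1232602578) (nat_lit 152) (nat_lit 13221977209) (nat_lit 76) (nat_lit 48376404621) (nat_lit 17) (nat_lit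 5) (nat_lit 19) (nat_lit 5) (nat_lit 18) (nat_lit 4) (nat_lit 455) (nat_lit 398) (nat_lit 347)) (XT.lf (nat_lit 0) (nat_lit 19904975664) (nat_lit 152) (nat_lit 42078219394) (nat_lit 0) (nat_lit 4883731121) (nat_lit 16) (nat_lit 5) (nat_lit 18) (nat_lit 4) (nat_lit 16) (nat_lit 4) (nat_lit 456) (nat_lit 398) (nat_lit 346))))) (XT.nd (nat_lit 234) (nat_lit 152) (nat_lit 0) (XT.nd (nat_lit 78) (nat_lit 152) (nat_lit 0) (XT.lf (nat_lit 0) (nat_lit 40493950525) (nat_lit 152) (nat_lit 5258665996) (nat_lit 0) (nat_lit 25451987926) (nat_lit 16) (nat_lit 5) (nat_lit 18) (nat_lit 4) (nat_lit 16) (nat_lit 4) (nat_lit 457) (nat_lit 398) (nat_lit 345)) (XT.nd (nat_lit 78) (nat_lit 76) (nat_lit 0) (XT.lf (nat_lit 0) (nat_lit 35542811833) (nat_lit 76) (nat_lit 27691216745) (nat_lit 76) (nat_lit 12630070760) (nat_lit 15) (nat_lit 4) (nat_lit 16) (nat_lit 5) (nat_lit 16) (nat_lit 4) (nat_lit 458) (nat_lit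 398) (nat_lit 344)) (XT.lf (nat_lit 0) (nat_lit 6719841758) (nat_lit 152) (nat_lit 1303232774) (nat_lit 76) (nat_lit 72865715250) (nat_lit 14) (nat_lit 5) (nat_lit 16) (nat_lit 5) (nat_lit 15) (nat_lit 4) (nat_lit 459) (nat_lit 398) (nat_lit 343)))) (XT.nd (nat_lit 156) (nat_lit 76) (nat_lit 0) (XT.nd (nat_lit 78) (nat_lit 0) (nat_lit 0) (XT.lf (nat_lit 0) (nat_lit 28008978096) (nat_lit 152) (nat_lit 44621990335) (nat_lit 0) (nat_lit 13632449487) (nat_lit 13) (nat_lit 5) (nat_lit 15) (nat_lit 4) (nat_lit 13) (nat_lit 4) (nat_lit 460) (nat_lit 398) (nat_lit 342)) (XT.lf (nat_lit 0) (nat_lit 51115145380) (nat_lit 152) (nat_lit 4223063606) (nat_lit 0) (nat_lit 36724113542) (nat_lit 13) (nat_lit 5) (nat_lit 15) (nat_lit 4) (nat_lit 13) (nat_lit 4) (nat_lit 461) (nat_lit 398) (nat_lit 341))) (XT.nd (nat_lit 78) (nat_lit 0) (nat_lit 0) (XT.lf (nat_lit 0) (nat_lit 40625906922) (nat_lit 76) (nat_lit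 36037019234) (nat_lit 76) (nat_lit 21632558481) (nat_lit 12) (nat_lit 4) (nat_lit 13) (nat_lit 5) (nat_lit 13) (nat_lit 4) (nat_lit 462) (nat_lit 398) (nat_lit 340)) (XT.lf (nat_lit 0) (nat_lit 89135016531) (nat_lit 76) (nat_lit 15153734054) (nat_lit 76) (nat_lit 736839119) (nat_lit 12) (nat_lit 4) (nat_lit 13) (nat_lit 5) (nat_lit 13) (nat_lit 4) (nat_lit 463) (nat_lit 398) (nat_lit 339))))))) (XT.nd (nat_lit 1014) (nat_lit 228) (nat_lit 0) (XT.nd (nat_lit 468) (nat_lit 76) (nat_lit 0) (XT.nd (nat_lit 234) (nat_lit 152) (nat_lit 0) (XT.nd (nat_lit 78) (nat_lit 76) (nat_lit 0) (XT.lf (nat_lit 0) (nat_lit 21687739248) (nat_lit 152) (nat_lit 82615129076) (nat_lit 0) (nat_lit 7946398234) (nat_lit 10) (nat_lit 5) (nat_lit 12) (nat_lit 4) (nat_lit 10) (nat_lit 4) (nat_lit 464) (nat_lit 398) (nat_lit 338)) (XT.nd (nat_lit 78) (nat_lit 76) (nat_lit 0) (XT.lf (nat_lit 0) (nat_lit 46381734201) (nat_lit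 152) (nat_lit 41013196460) (nat_lit 0) (nat_lit 32630240514) (nat_lit 10) (nat_lit 5) (nat_lit 12) (nat_lit 4) (nat_lit 10) (nat_lit 4) (nat_lit 465) (nat_lit 398) (nat_lit 337)) (XT.lf (nat_lit 0) (nat_lit 3977539981) (nat_lit 76) (nat_lit 69102531084) (nat_lit 76) (nat_lit 55341636775) (nat_lit 9) (nat_lit 4) (nat_lit 10) (nat_lit 5) (nat_lit 10) (nat_lit 4) (nat_lit 466) (nat_lit 398) (nat_lit 336)))) (XT.nd (nat_lit 78) (nat_lit 152) (nat_lit 0) (XT.lf (nat_lit 0) (nat_lit 53968343278) (nat_lit 76) (nat_lit 48628546372) (nat_lit 76) (nat_lit 34858947783) (nat_lit 9) (nat_lit 4) (nat_lit 10) (nat_lit 5) (nat_lit 10) (nat_lit 4) (nat_lit 467) (nat_lit 398) (nat_lit 335)) (XT.nd (nat_lit 78) (nat_lit 152) (nat_lit 0) (XT.lf (nat_lit 0) (nat_lit 107899373733) (nat_lit 76) (nat_lit 26546227536) (nat_lit 76) (nat_lit 12768569429) (nat_lit 9) (nat_lit 4) (nat_lit 10) (nat_lit 5) (nat_lit 10)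 (nat_lit 4) (nat_lit 468) (nat_lit 398) (nat_lit 334)) (XT.lf (nat_lit 0) (nat_lit 8432909710) (nat_lit 76) (nat_lit 2405153867) (nat_lit 152) (nat_lit 146901253953) (nat_lit 7) (nat_lit 5) (nat_lit 8) (nat_lit 5) (nat_lit 9) (nat_lit 4) (nat_lit 469) (nat_lit 398) (nat_lit 333))))) (XT.nd (nat_lit 234) (nat_lit 76) (nat_lit 0) (XT.nd (nat_lit 78) (nat_lit 0) (nat_lit 0) (XT.lf (nat_lit 0) (nat_lit 36930524306) (nat_lit 152) (nat_lit 108317996746) (nat_lit 0) (nat_lit 23795257294) (nat_lit 7) (nat_lit 5) (nat_lit 9) (nat_lit 4) (nat_lit 7) (nat_lit 4) (nat_lit 470) (nat_lit 398) (nat_lit 332)) (XT.nd (nat_lit 78) (nat_lit 0) (nat_lit 0) (XT.lf (nat_lit 0) (nat_lit 65126018936) (nat_lit 152) (nat_lit 64141137076) (nat_lit 0) (nat_lit 51984658680) (nat_lit 7) (nat_lit 5) (nat_lit 9) (nat_lit 4) (nat_lit 7) (nat_lit 4) (nat_lit 471) (nat_lit 398) (nat_lit 331)) (XT.lf (nat_lit 0) (nat_lit 95554080685)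 (nat_lit 152) (nat_lit 16476488820) (nat_lit 0) (nat_lit 82407078538) (nat_lit 7) (nat_lit 5) (nat_lit 9) (nat_lit 4) (nat_lit 7) (nat_lit 4) (nat_lit 472) (nat_lit 398) (nat_lit 330)))) (XT.nd (nat_lit 156) (nat_lit 0) (nat_lit 0) (XT.nd (nat_lit 78) (nat_lit 0) (nat_lit 0) (XT.lf (nat_lit 0) (nat_lit 36114287949) (nat_lit 76) (nat_lit 92844581291) (nat_lit 76) (nat_lit 79692355169) (nat_lit 6) (nat_lit 4) (nat_lit 7) (nat_lit 5) (nat_lit 7) (nat_lit 4) (nat_lit 473) (nat_lit 398) (nat_lit 329)) (XT.lf (nat_lit 0) (nat_lit 93459636378) (nat_lit 76) (nat_lit 71842992331) (nat_lit 76) (nat_lit 58685929195) (nat_lit 6) (nat_lit 4) (nat_lit 7) (nat_lit 5) (nat_lit 7) (nat_lit 4) (nat_lit 474) (nat_lit 398) (nat_lit 328))) (XT.nd (nat_lit 78) (nat_lit 0) (nat_lit 0) (XT.lf (nat_lit 0) (nat_lit 155354593623) (nat_lit 76) (nat_lit 49180386073) (nat_lit 76) (nat_lit 36018844222) (nat_lit 6) (nat_lit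 4) (nat_lit 7) (nat_lit 5) (nat_lit 7) (nat_lit 4) (nat_lit 475) (nat_lit 398) (nat_lit 327)) (XT.lf (nat_lit 0) (nat_lit 222165944614) (nat_lit 76) (nat_lit 24722465593) (nat_lit 76) (nat_lit 11556776783) (nat_lit 6) (nat_lit 4) (nat_lit 7) (nat_lit 5) (nat_lit 7) (nat_lit 4) (nat_lit 476) (nat_lit 398) (nat_lit 326)))))) (XT.nd (nat_lit 546) (nat_lit 0) (nat_lit 0) (XT.nd (nat_lit 234) (nat_lit 76) (nat_lit 0) (XT.nd (nat_lit 78) (nat_lit 0) (nat_lit 0) (XT.lf (nat_lit 0) (nat_lit 14667090845) (nat_lit 152) (nat_lit 260950457843) (nat_lit 0) (nat_lit 2124682666) (nat_lit 4) (nat_lit 5) (nat_lit 6) (nat_lit 4) (nat_lit 4) (nat_lit 4) (nat_lit 477) (nat_lit 398) (nat_lit 325)) (XT.nd (nat_lit 78) (nat_lit 0) (nat_lit 0) (XT.lf (nat_lit 0) (nat_lit 43632573620) (nat_lit 152) (nat_lit 223801783825) (nat_lit 0) (nat_lit 31086779395) (nat_lit 4) (nat_lit 5) (nat_lit 6) (nat_lit 4) (nat_lit 4)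 (nat_lit 4) (nat_lit 478) (nat_lit 398) (nat_lit 324)) (XT.lf (nat_lit 0) (nat_lit 74900479228) (nat_lit 152) (nat_lit 183711066818) (nat_lit 0) (nat_lit 62351549774) (nat_lit 4) (nat_lit 5) (nat_lit 6) (nat_lit 4) (nat_lit 4) (nat_lit 4) (nat_lit 479) (nat_lit 398) (nat_lit 323)))) (XT.nd (nat_lit 156) (nat_lit 76) (nat_lit 0) (XT.nd (nat_lit 78) (nat_lit 0) (nat_lit 0) (XT.lf (nat_lit 0) (nat_lit 108656098960) (nat_lit 152) (nat_lit 140440732202) (nat_lit 0) (nat_lit 96104266517) (nat_lit 4) (nat_lit 5) (nat_lit 6) (nat_lit 4) (nat_lit 4) (nat_lit 4) (nat_lit 480) (nat_lit 398) (nat_lit 322)) (XT.lf (nat_lit 0) (nat_lit 145099466118) (nat_lit 152) (nat_lit 93734363180) (nat_lit 0) (nat_lit 132544945722) (nat_lit 4) (nat_lit 5) (nat_lit 6) (nat_lit 4) (nat_lit 4) (nat_lit 4) (nat_lit 481) (nat_lit 398) (nat_lit 321))) (XT.nd (nat_lit 78) (nat_lit 76) (nat_lit 0) (XT.lf (nat_lit 0) (nat_lit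 184446541398) (nat_lit 152) (nat_lit 43315181269) (nat_lit 0) (nat_lit 171889532156) (nat_lit 4) (nat_lit 5) (nat_lit 6) (nat_lit 4) (nat_lit 4) (nat_lit 4) (nat_lit 482) (nat_lit 398) (nat_lit 320)) (XT.lf (nat_lit 0) (nat_lit 11483125599) (nat_lit 76) (nat_lit 215626650823) (nat_lit 76) (nat_lit 203067337096) (nat_lit 3) (nat_lit 4) (nat_lit 4) (nat_lit 5) (nat_lit 4) (nat_lit 4) (nat_lit 483) (nat_lit 398) (nat_lit 319))))) (XT.nd (nat_lit 234) (nat_lit 0) (nat_lit 0) (XT.nd (nat_lit 78) (nat_lit 0) (nat_lit 0) (XT.lf (nat_lit 0) (nat_lit 72191080386) (nat_lit 76) (nat_lit 201739101321) (nat_lit 76) (nat_lit 189177653809) (nat_lit 3) (nat_lit 4) (nat_lit 4) (nat_lit 5) (nat_lit 4) (nat_lit 4) (nat_lit 484) (nat_lit 398) (nat_lit 318)) (XT.nd (nat_lit 78) (nat_lit 0) (nat_lit 0) (XT.lf (nat_lit 0) (nat_lit 137736238424) (nat_lit 76) (nat_lit 186750341124) (nat_lit 76) (nat_lit 174186917887)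 (nat_lit 3) (nat_lit 4) (nat_lit 4) (nat_lit 5) (nat_lit 4) (nat_lit 4) (nat_lit 485) (nat_lit 398) (nat_lit 317)) (XT.lf (nat_lit 0) (nat_lit 208507015463) (nat_lit 76) (nat_lit 170571547951) (nat_lit 76) (nat_lit 158006295338) (nat_lit 3) (nat_lit 4) (nat_lit 4) (nat_lit 5) (nat_lit 4) (nat_lit 4) (nat_lit 486) (nat_lit 398) (nat_lit 316)))) (XT.nd (nat_lit 156) (nat_lit 0) (nat_lit 0) (XT.nd (nat_lit 78) (nat_lit 0) (nat_lit 0) (XT.lf (nat_lit 0) (nat_lit 284922793886) (nat_lit 76) (nat_lit 153106847471) (nat_lit 76) (nat_lit 140539900991) (nat_lit 3) (nat_lit 4) (nat_lit 4) (nat_lit 5) (nat_lit 4) (nat_lit 4) (nat_lit 487) (nat_lit 398) (nat_lit 315)) (XT.lf (nat_lit 0) (nat_lit 367436407936) (nat_lit 76) (nat_lit 134252745162) (nat_lit 76) (nat_lit 121684230288) (nat_lit 3) (nat_lit 4) (nat_lit 4) (nat_lit 5) (nat_lit 4) (nat_lit 4) (nat_lit 488) (nat_lit 398) (nat_lit 314))) (XT.nd (nat_lit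 78) (nat_lit 0) (nat_lit 0) (XT.lf (nat_lit 0) (nat_lit 456536827177) (nat_lit 76) (nat_lit 113897513012) (nat_lit 76) (nat_lit 101327545920) (nat_lit 3) (nat_lit 4) (nat_lit 4) (nat_lit 5) (nat_lit 4) (nat_lit 4) (nat_lit 489) (nat_lit 398) (nat_lit 313)) (XT.lf (nat_lit 0) (nat_lit 552752054094) (nat_lit 76) (nat_lit 91920527422) (nat_lit 76) (nat_lit 79349215685) (nat_lit 3) (nat_lit 4) (nat_lit 4) (nat_lit 5) (nat_lit 4) (nat_lit 4) (nat_lit 490) (nat_lit 398) (nat_lit 312))))))))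
noncomputable def xc44 : XT := (XT.nd (nat_lit 56940) (nat_lit 0) (nat_lit 2052) (XT.nd (nat_lit 55926) (nat_lit 0) (nat_lit 6460) (XT.nd (nat_lit 468) (nat_lit 0) (nat_lit 0) (XT.nd (nat_lit 234) (nat_lit 152) (nat_lit 0) (XT.nd (nat_lit 78) (nat_lit 0) (nat_lit 0) (XT.lf (nat_lit 0) (nat_lit 656652252995) (nat_lit 76) (nat_lit 68191554404) (nat_lit 76) (nat_lit 55618997624) (nat_lit 3) (nat_lit 4) (nat_lit 4) (nat_lit 5) (nat_lit 4) (nat_lit 4) (nat_lit 491) (nat_lit 398) (nat_lit 311)) (XT.nd (nat_lit 78) (nat_lit 0) (nat_lit 0) (XT.lf (nat_lit 0) (nat_lit 768853128762) (nat_lit 76) (nat_lit 42569977821) (nat_lit 76) (nat_lit 29996268224) (nat_lit 3) (nat_lit 4) (nat_lit 4) (nat_lit 5) (nat_lit 4) (nat_lit 4) (nat_lit 492) (nat_lit 398) (nat_lit 310)) (XT.lf (nat_lit 0) (nat_lit 890019575473) (nat_lit 76) (nat_lit 14903966108) (nat_lit 76) (nat_lit 2329189088) (nat_lit 3) (nat_lit 4) (nat_lit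 4) (nat_lit 5) (nat_lit 4) (nat_lit 4) (nat_lit 493) (nat_lit 398) (nat_lit 309)))) (XT.nd (nat_lit 78) (nat_lit 0) (nat_lit 0) (XT.lf (nat_lit 0) (nat_lit 27595266747) (nat_lit 152) (nat_lit 935071342241) (nat_lit 0) (nat_lit 15618347343) (nat_lit 1) (nat_lit 5) (nat_lit 3) (nat_lit 4) (nat_lit 1) (nat_lit 4) (nat_lit 494) (nat_lit 398) (nat_lit 308)) (XT.nd (nat_lit 78) (nat_lit 0) (nat_lit 0) (XT.lf (nat_lit 0) (nat_lit 60384825817) (nat_lit 152) (nat_lit 946178352775) (nat_lit 0) (nat_lit 48407034847) (nat_lit 1) (nat_lit 5) (nat_lit 3) (nat_lit 4) (nat_lit 1) (nat_lit 4) (nat_lit 495) (nat_lit 398) (nat_lit 307)) (XT.lf (nat_lit 0) (nat_lit 95793141794) (nat_lit 152) (nat_lit 958182825960) (nat_lit 0) (nat_lit 83814543820) (nat_lit 1) (nat_lit 5) (nat_lit 3) (nat_lit 4) (nat_lit 1) (nat_lit 4) (nat_lit 496) (nat_lit 398) (nat_lit 306))))) (XT.nd (nat_lit 55146) (nat_lit 0) (nat_lit 12540)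 (XT.nd (nat_lit 78) (nat_lit 0) (nat_lit 0) (XT.lf (nat_lit 0) (nat_lit 134030041737) (nat_lit 152) (nat_lit 971155899415) (nat_lit 0) (nat_lit 122050696536) (nat_lit 1) (nat_lit 5) (nat_lit 3) (nat_lit 4) (nat_lit 1) (nat_lit 4) (nat_lit 497) (nat_lit 398) (nat_lit 305)) (XT.nd (nat_lit 54990) (nat_lit 0) (nat_lit 13832) (XT.lf (nat_lit 0) (nat_lit 175322114682) (nat_lit 152) (nat_lit 985174450613) (nat_lit 0) (nat_lit 163342077605) (nat_lit 1) (nat_lit 5) (nat_lit 3) (nat_lit 4) (nat_lit 1) (nat_lit 4) (nat_lit 498) (nat_lit 398) (nat_lit 304)) (XT.lf (nat_lit 0) (nat_lit 2083486404) (nat_lit 76) (nat_lit 575770490) (nat_lit 76) (nat_lit 575770490) (nat_lit 183) (nat_lit 4) (nat_lit 184) (nat_lit 5) (nat_lit 184) (nat_lit 4) (nat_lit 402) (nat_lit 399) (nat_lit 399)))) (XT.nd (nat_lit 156) (nat_lit 760) (nat_lit 0) (XT.nd (nat_lit 78) (nat_lit 304) (nat_lit 0) (XT.lf (nat_lit 0) (nat_lit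 3411129853) (nat_lit 152) (nat_lit 375962891) (nat_lit 228) (nat_lit 2721502344) (nat_lit 180) (nat_lit 5) (nat_lit 182) (nat_lit 5) (nat_lit 183) (nat_lit 4) (nat_lit 403) (nat_lit 399) (nat_lit 398)) (XT.lf (nat_lit 0) (nat_lit 2072810589) (nat_lit 304) (nat_lit 3733995231) (nat_lit 76) (nat_lit 759670390) (nat_lit 176) (nat_lit 5) (nat_lit 180) (nat_lit 5) (nat_lit 177) (nat_lit 4) (nat_lit 404) (nat_lit 399) (nat_lit 397))) (XT.nd (nat_lit 78) (nat_lit 380) (nat_lit 0) (XT.lf (nat_lit 0) (nat_lit 164204475) (nat_lit 380) (nat_lit 4215629055) (nat_lit 76) (nat_lit 2264155281) (nat_lit 171) (nat_lit 5) (nat_lit 176) (nat_lit 5) (nat_lit 172) (nat_lit 5) (nat_lit 405) (nat_lit 399) (nat_lit 396)) (XT.lf (nat_lit 0) (nat_lit 2170013912) (nat_lit 380) (nat_lit 2548369316) (nat_lit 456) (nat_lit 2021832200) (nat_lit 166) (nat_lit 5) (nat_lit 171) (nat_lit 5) (nat_lit 172) (nat_lit 5) (nat_lit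 406) (nat_lit 399) (nat_lit 395)))))) (XT.nd (nat_lit 468) (nat_lit 2356) (nat_lit 0) (XT.nd (nat_lit 234) (nat_lit 1976) (nat_lit 0) (XT.nd (nat_lit 78) (nat_lit 1216) (nat_lit 0) (XT.lf (nat_lit 0) (nat_lit 2083471341) (nat_lit 456) (nat_lit 325868923) (nat_lit 532) (nat_lit 4447543597) (nat_lit 159) (nat_lit 5) (nat_lit 165) (nat_lit 5) (nat_lit 166) (nat_lit 5) (nat_lit 407) (nat_lit 399) (nat_lit 394)) (XT.nd (nat_lit 78) (nat_lit 684) (nat_lit 0) (XT.lf (nat_lit 0) (nat_lit 2132729245) (nat_lit 532) (nat_lit 4763976706) (nat_lit 608) (nat_lit 96101696) (nat_lit 152) (nat_lit 5) (nat_lit 159) (nat_lit 5) (nat_lit 160) (nat_lit 5) (nat_lit 408) (nat_lit 399) (nat_lit 393)) (XT.lf (nat_lit 0) (nat_lit 2301785104) (nat_lit 608) (nat_lit 1922285130) (nat_lit 684) (nat_lit 2923725280) (nat_lit 143) (nat_lit 5) (nat_lit 151) (nat_lit 5) (nat_lit 152) (nat_lit 5) (nat_lit 409) (nat_lit 399)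 (nat_lit 392)))) (XT.nd (nat_lit 78) (nat_lit 1216) (nat_lit 0) (XT.lf (nat_lit 0) (nat_lit 1327246291) (nat_lit 760) (nat_lit 4706531922) (nat_lit 76) (nat_lit 1289951056) (nat_lit 133) (nat_lit 5) (nat_lit 143) (nat_lit 5) (nat_lit 134) (nat_lit 5) (nat_lit 410) (nat_lit 399) (nat_lit 391)) (XT.nd (nat_lit 78) (nat_lit 456) (nat_lit 0) (XT.lf (nat_lit 0) (nat_lit 3035222751) (nat_lit 760) (nat_lit 2626561769) (nat_lit 836) (nat_lit 1857408821) (nat_lit 123) (nat_lit 5) (nat_lit 133) (nat_lit 5) (nat_lit 134) (nat_lit 5) (nat_lit 411) (nat_lit 399) (nat_lit 390)) (XT.lf (nat_lit 0) (nat_lit 2380751384) (nat_lit 456) (nat_lit 4161120247) (nat_lit 76) (nat_lit 1193934672) (nat_lit 117) (nat_lit 5) (nat_lit 123) (nat_lit 5) (nat_lit 118) (nat_lit 5) (nat_lit 412) (nat_lit 399) (nat_lit 389))))) (XT.nd (nat_lit 234) (nat_lit 1216) (nat_lit 0) (XT.nd (nat_lit 78) (nat_lit 760) (nat_lit 0) (XT.lf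 (nat_lit 0) (nat_lit 4213448744) (nat_lit 380) (nat_lit 2580464299) (nat_lit 456) (nat_lit 1179382653) (nat_lit 112) (nat_lit 5) (nat_lit 117) (nat_lit 5) (nat_lit 118) (nat_lit 5) (nat_lit 413) (nat_lit 399) (nat_lit 388)) (XT.nd (nat_lit 78) (nat_lit 304) (nat_lit 0) (XT.lf (nat_lit 0) (nat_lit 3127189810) (nat_lit 456) (nat_lit 3288778809) (nat_lit 76) (nat_lit 1816150630) (nat_lit 106) (nat_lit 5) (nat_lit 112) (nat_lit 5) (nat_lit 107) (nat_lit 5) (nat_lit 414) (nat_lit 399) (nat_lit 387)) (XT.lf (nat_lit 0) (nat_lit 5777783340) (nat_lit 304) (nat_lit 1898120600) (nat_lit 380) (nat_lit 837930067) (nat_lit 102) (nat_lit 5) (nat_lit 106) (nat_lit 5) (nat_lit 107) (nat_lit 5) (nat_lit 415) (nat_lit 399) (nat_lit 386)))) (XT.nd (nat_lit 156) (nat_lit 608) (nat_lit 0) (XT.nd (nat_lit 78) (nat_lit 228) (nat_lit 0) (XT.lf (nat_lit 0) (nat_lit 3610946739) (nat_lit 380) (nat_lit 2147972732) (nat_lit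 76) (nat_lit 3058250527) (nat_lit 97) (nat_lit 5) (nat_lit 102) (nat_lit 5) (nat_lit 98) (nat_lit 5) (nat_lit 416) (nat_lit 399) (nat_lit 385)) (XT.lf (nat_lit 0) (nat_lit 7676999967) (nat_lit 228) (nat_lit 671955590) (nat_lit 304) (nat_lit 797082223) (nat_lit 94) (nat_lit 5) (nat_lit 97) (nat_lit 5) (nat_lit 98) (nat_lit 5) (nat_lit 417) (nat_lit 399) (nat_lit 384))) (XT.nd (nat_lit 78) (nat_lit 228) (nat_lit 0) (XT.lf (nat_lit 0) (nat_lit 3862391341) (nat_lit 380) (nat_lit 793345324) (nat_lit 76) (nat_lit 4841229428) (nat_lit 89) (nat_lit 5) (nat_lit 94) (nat_lit 5) (nat_lit 90) (nat_lit 5) (nat_lit 418) (nat_lit 399) (nat_lit 383)) (XT.lf (nat_lit 0) (nat_lit 8856986793) (nat_lit 304) (nat_lit 29502133) (nat_lit 76) (nat_lit 989377785) (nat_lit 86) (nat_lit 5) (nat_lit 90) (nat_lit 5) (nat_lit 87) (nat_lit 5) (nat_lit 419) (nat_lit 399) (nat_lit 382))))))) (XT.nd (nat_lit 1014) (nat_lit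 1596) (nat_lit 0) (XT.nd (nat_lit 468) (nat_lit 1216) (nat_lit 0) (XT.nd (nat_lit 234) (nat_lit 608) (nat_lit 0) (XT.nd (nat_lit 78) (nat_lit 456) (nat_lit 0) (XT.lf (nat_lit 0) (nat_lit 743771966) (nat_lit 228) (nat_lit 3166300639) (nat_lit 304) (nat_lit 6368421736) (nat_lit 79) (nat_lit 5) (nat_lit 82) (nat_lit 5) (nat_lit 83) (nat_lit 5) (nat_lit 420) (nat_lit 399) (nat_lit 381)) (XT.nd (nat_lit 78) (nat_lit 228) (nat_lit 0) (XT.lf (nat_lit 0) (nat_lit 1574572246) (nat_lit 228) (nat_lit 7665871506) (nat_lit 304) (nat_lit 1469967124) (nat_lit 76) (nat_lit 5) (nat_lit 79) (nat_lit 5) (nat_lit 80) (nat_lit 5) (nat_lit 421) (nat_lit 399) (nat_lit 380)) (XT.lf (nat_lit 0) (nat_lit 2408687011) (nat_lit 152) (nat_lit 1351432958) (nat_lit 228) (nat_lit 7410724289) (nat_lit 73) (nat_lit 5) (nat_lit 75) (nat_lit 5) (nat_lit 76) (nat_lit 5) (nat_lit 422) (nat_lit 399) (nat_lit 379)))) (XT.nd (nat_lit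 78) (nat_lit 380) (nat_lit 0) (XT.lf (nat_lit 0) (nat_lit 3241681527) (nat_lit 228) (nat_lit 6224781632) (nat_lit 304) (nat_lit 2195020699) (nat_lit 70) (nat_lit 5) (nat_lit 73) (nat_lit 5) (nat_lit 74) (nat_lit 5) (nat_lit 423) (nat_lit 399) (nat_lit 378)) (XT.nd (nat_lit 78) (nat_lit 152) (nat_lit 0) (XT.lf (nat_lit 0) (nat_lit 3398604998) (nat_lit 228) (nat_lit 8095144427) (nat_lit 76) (nat_lit 691445071) (nat_lit 67) (nat_lit 5) (nat_lit 70) (nat_lit 5) (nat_lit 68) (nat_lit 5) (nat_lit 424) (nat_lit 399) (nat_lit 377)) (XT.lf (nat_lit 0) (nat_lit 4889756777) (nat_lit 152) (nat_lit 4629740353) (nat_lit 228) (nat_lit 3221707561) (nat_lit 65) (nat_lit 5) (nat_lit 67) (nat_lit 5) (nat_lit 68) (nat_lit 5) (nat_lit 425) (nat_lit 399) (nat_lit 376))))) (XT.nd (nat_lit 234) (nat_lit 608) (nat_lit 0) (XT.nd (nat_lit 78) (nat_lit 380) (nat_lit 0) (XT.lf (nat_lit 0) (nat_lit 2809560459) (nat_lit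 228) (nat_lit 7650895876) (nat_lit 76) (nat_lit 2873572249) (nat_lit 62) (nat_lit 5) (nat_lit 65) (nat_lit 5) (nat_lit 63) (nat_lit 5) (nat_lit 426) (nat_lit 399) (nat_lit 375)) (XT.nd (nat_lit 78) (nat_lit 228) (nat_lit 0) (XT.lf (nat_lit 0) (nat_lit 6415873069) (nat_lit 152) (nat_lit 2951443171) (nat_lit 228) (nat_lit 4596507724) (nat_lit 60) (nat_lit 5) (nat_lit 62) (nat_lit 5) (nat_lit 63) (nat_lit 5) (nat_lit 427) (nat_lit 399) (nat_lit 374)) (XT.lf (nat_lit 0) (nat_lit 1922432228) (nat_lit 228) (nat_lit 7539938533) (nat_lit 76) (nat_lit 5171521638) (nat_lit 57) (nat_lit 5) (nat_lit 60) (nat_lit 5) (nat_lit 58) (nat_lit 5) (nat_lit 428) (nat_lit 399) (nat_lit 373)))) (XT.nd (nat_lit 156) (nat_lit 228) (nat_lit 0) (XT.nd (nat_lit 78) (nat_lit 228) (nat_lit 0) (XT.lf (nat_lit 0) (nat_lit 7686031923) (nat_lit 152) (nat_lit 1271007086) (nat_lit 228) (nat_lit 6389024036) (nat_lit 55) (nat_lit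 5) (nat_lit 57) (nat_lit 5) (nat_lit 58) (nat_lit 5) (nat_lit 429) (nat_lit 399) (nat_lit 372)) (XT.lf (nat_lit 0) (nat_lit 663835212) (nat_lit 228) (nat_lit 7932818106) (nat_lit 76) (nat_lit 7506297967) (nat_lit 52) (nat_lit 5) (nat_lit 55) (nat_lit 5) (nat_lit 53) (nat_lit 5) (nat_lit 430) (nat_lit 399) (nat_lit 371))) (XT.nd (nat_lit 78) (nat_lit 76) (nat_lit 0) (XT.lf (nat_lit 0) (nat_lit 8215138131) (nat_lit 228) (nat_lit 8388909048) (nat_lit 76) (nat_lit 303223261) (nat_lit 50) (nat_lit 5) (nat_lit 53) (nat_lit 5) (nat_lit 51) (nat_lit 4) (nat_lit 431) (nat_lit 399) (nat_lit 370)) (XT.lf (nat_lit 0) (nat_lit 8691890112) (nat_lit 76) (nat_lit 7964954512) (nat_lit 152) (nat_lit 1104793612) (nat_lit 49) (nat_lit 5) (nat_lit 50) (nat_lit 5) (nat_lit 51) (nat_lit 4) (nat_lit 432) (nat_lit 399) (nat_lit 369)))))) (XT.nd (nat_lit 546) (nat_lit 608) (nat_lit 0) (XT.nd (nat_lit 234) (nat_lit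 456) (nat_lit 0) (XT.nd (nat_lit 78) (nat_lit 304) (nat_lit 0) (XT.lf (nat_lit 0) (nat_lit 7042561300) (nat_lit 228) (nat_lit 10003412323) (nat_lit 76) (nat_lit 1623866478) (nat_lit 46) (nat_lit 5) (nat_lit 49) (nat_lit 5) (nat_lit 47) (nat_lit 4) (nat_lit 433) (nat_lit 399) (nat_lit 368)) (XT.nd (nat_lit 78) (nat_lit 228) (nat_lit 0) (XT.lf (nat_lit 0) (nat_lit 8388034864) (nat_lit 76) (nat_lit 7715461558) (nat_lit 152) (nat_lit 3531285964) (nat_lit 45) (nat_lit 5) (nat_lit 46) (nat_lit 5) (nat_lit 47) (nat_lit 4) (nat_lit 434) (nat_lit 399) (nat_lit 367)) (XT.lf (nat_lit 0) (nat_lit 5265447007) (nat_lit 228) (nat_lit 12819178644) (nat_lit 76) (nat_lit 2577243939) (nat_lit 42) (nat_lit 5) (nat_lit 45) (nat_lit 5) (nat_lit 43) (nat_lit 4) (nat_lit 435) (nat_lit 399) (nat_lit 366)))) (XT.nd (nat_lit 156) (nat_lit 152) (nat_lit 0) (XT.nd (nat_lit 78) (nat_lit 228) (nat_lit 0) (XT.lf (nat_lit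 0) (nat_lit 6911595807) (nat_lit 76) (nat_lit 8051695088) (nat_lit 152) (nat_lit 6788895863) (nat_lit 41) (nat_lit 5) (nat_lit 42) (nat_lit 5) (nat_lit 43) (nat_lit 4) (nat_lit 436) (nat_lit 399) (nat_lit 365)) (XT.lf (nat_lit 0) (nat_lit 2676481503) (nat_lit 228) (nat_lit 17276888482) (nat_lit 76) (nat_lit 2961937914) (nat_lit 38) (nat_lit 5) (nat_lit 41) (nat_lit 5) (nat_lit 39) (nat_lit 4) (nat_lit 437) (nat_lit 399) (nat_lit 364))) (XT.nd (nat_lit 78) (nat_lit 76) (nat_lit 0) (XT.lf (nat_lit 0) (nat_lit 3788363327) (nat_lit 76) (nat_lit 9223518169) (nat_lit 152) (nat_lit 11136510292) (nat_lit 37) (nat_lit 5) (nat_lit 38) (nat_lit 5) (nat_lit 39) (nat_lit 4) (nat_lit 438) (nat_lit 399) (nat_lit 363)) (XT.lf (nat_lit 0) (nat_lit 1496286438) (nat_lit 76) (nat_lit 22937456236) (nat_lit 76) (nat_lit 1033407366) (nat_lit 36) (nat_lit 4) (nat_lit 37) (nat_lit 5) (nat_lit 37) (nat_lit 4) (nat_lit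 439) (nat_lit 399) (nat_lit 362))))) (XT.nd (nat_lit 234) (nat_lit 304) (nat_lit 0) (XT.nd (nat_lit 78) (nat_lit 228) (nat_lit 0) (XT.lf (nat_lit 0) (nat_lit 9974471558) (nat_lit 152) (nat_lit 1556256576) (nat_lit 76) (nat_lit 15332343549) (nat_lit 35) (nat_lit 5) (nat_lit 37) (nat_lit 5) (nat_lit 36) (nat_lit 4) (nat_lit 440) (nat_lit 399) (nat_lit 361)) (XT.nd (nat_lit 78) (nat_lit 152) (nat_lit 0) (XT.lf (nat_lit 0) (nat_lit 22110954950) (nat_lit 152) (nat_lit 5177898625) (nat_lit 0) (nat_lit 1066764883) (nat_lit 34) (nat_lit 5) (nat_lit 36) (nat_lit 4) (nat_lit 34) (nat_lit 4) (nat_lit 441) (nat_lit 399) (nat_lit 360)) (XT.lf (nat_lit 0) (nat_lit 5535734386) (nat_lit 152) (nat_lit 9777483338) (nat_lit 76) (nat_lit 14627608617) (nat_lit 32) (nat_lit 5) (nat_lit 34) (nat_lit 5) (nat_lit 33) (nat_lit 4) (nat_lit 442) (nat_lit 399) (nat_lit 359)))) (XT.nd (nat_lit 156) (nat_lit 152) (nat_lit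 0) (XT.nd (nat_lit 78) (nat_lit 76) (nat_lit 0) (XT.lf (nat_lit 0) (nat_lit 16312284250) (nat_lit 76) (nat_lit 1986999259) (nat_lit 152) (nat_lit 13335479743) (nat_lit 31) (nat_lit 5) (nat_lit 32) (nat_lit 5) (nat_lit 33) (nat_lit 4) (nat_lit 443) (nat_lit 399) (nat_lit 358)) (XT.lf (nat_lit 0) (nat_lit 11383458384) (nat_lit 76) (nat_lit 21158065688) (nat_lit 76) (nat_lit 899816293) (nat_lit 30) (nat_lit 4) (nat_lit 31) (nat_lit 5) (nat_lit 31) (nat_lit 4) (nat_lit 444) (nat_lit 399) (nat_lit 357))) (XT.nd (nat_lit 78) (nat_lit 0) (nat_lit 0) (XT.lf (nat_lit 0) (nat_lit 5163037382) (nat_lit 76) (nat_lit 7267665128) (nat_lit 152) (nat_lit 22936910982) (nat_lit 28) (nat_lit 5) (nat_lit 29) (nat_lit 5) (nat_lit 30) (nat_lit 4) (nat_lit 445) (nat_lit 399) (nat_lit 356)) (XT.lf (nat_lit 0) (nat_lit 27226153434) (nat_lit 152) (nat_lit 2380104247) (nat_lit 0) (nat_lit 7819497036) (nat_lit 28) (nat_lit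 5) (nat_lit 30) (nat_lit 4) (nat_lit 28) (nat_lit 4) (nat_lit 446) (nat_lit 399) (nat_lit 355))))))))
noncomputable def xc45 : XT := (XT.nd (nat_lit 2106) (nat_lit 456) (nat_lit 0) (XT.nd (nat_lit 1014) (nat_lit 608) (nat_lit 0) (XT.nd (nat_lit 468) (nat_lit 456) (nat_lit 0) (XT.nd (nat_lit 234) (nat_lit 228) (nat_lit 0) (XT.nd (nat_lit 78) (nat_lit 152) (nat_lit 0) (XT.lf (nat_lit 0) (nat_lit 3939729469) (nat_lit 152) (nat_lit 11380551774) (nat_lit 76) (nat_lit 24300649918) (nat_lit 26) (nat_lit 5) (nat_lit 28) (nat_lit 5) (nat_lit 27) (nat_lit 4) (nat_lit 447) (nat_lit 399) (nat_lit 354)) (XT.nd (nat_lit 78) (nat_lit 76) (nat_lit 0) (XT.lf (nat_lit 0) (nat_lit 19143447932) (nat_lit 152) (nat_lit 22256805735) (nat_lit 0) (nat_lit 568582193) (nat_lit 25) (nat_lit 5) (nat_lit 27) (nat_lit 4) (nat_lit 25) (nat_lit 4) (nat_lit 448) (nat_lit 399) (nat_lit 353)) (XT.lf (nat_lit 0) (nat_lit 9094240832)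 (nat_lit 76) (nat_lit 26999886039) (nat_lit 76) (nat_lit 8383916385) (nat_lit 24) (nat_lit 4) (nat_lit 25) (nat_lit 5) (nat_lit 25) (nat_lit 4) (nat_lit 449) (nat_lit 399) (nat_lit 352)))) (XT.nd (nat_lit 78) (nat_lit 152) (nat_lit 0) (XT.lf (nat_lit 0) (nat_lit 7307004432) (nat_lit 152) (nat_lit 3674669749) (nat_lit 76) (nat_lit 36184436041) (nat_lit 23) (nat_lit 5) (nat_lit 25) (nat_lit 5) (nat_lit 24) (nat_lit 4) (nat_lit 450) (nat_lit 399) (nat_lit 351)) (XT.nd (nat_lit 78) (nat_lit 76) (nat_lit 0) (XT.lf (nat_lit 0) (nat_lit 24496242728) (nat_lit 152) (nat_lit 18842332728) (nat_lit 0) (nat_lit 6696939091) (nat_lit 22) (nat_lit 5) (nat_lit 24) (nat_lit 4) (nat_lit 22) (nat_lit 4) (nat_lit 451) (nat_lit 399) (nat_lit 350)) (XT.lf (nat_lit 0) (nat_lit 16056156957) (nat_lit 76) (nat_lit 27443375367) (nat_lit 76) (nat_lit 9612995908) (nat_lit 21) (nat_lit 4) (nat_lit 22) (nat_lit 5) (nat_lit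 22) (nat_lit 4) (nat_lit 452) (nat_lit 399) (nat_lit 349))))) (XT.nd (nat_lit 234) (nat_lit 228) (nat_lit 0) (XT.nd (nat_lit 78) (nat_lit 152) (nat_lit 0) (XT.lf (nat_lit 0) (nat_lit 7617938564) (nat_lit 152) (nat_lit 2242379311) (nat_lit 76) (nat_lit 46555794430) (nat_lit 20) (nat_lit 5) (nat_lit 22) (nat_lit 5) (nat_lit 21) (nat_lit 4) (nat_lit 453) (nat_lit 399) (nat_lit 348)) (XT.nd (nat_lit 78) (nat_lit 76) (nat_lit 0) (XT.lf (nat_lit 0) (nat_lit 26558823958) (nat_lit 152) (nat_lit 23859135703) (nat_lit 0) (nat_lit 9524732646) (nat_lit 19) (nat_lit 5) (nat_lit 21) (nat_lit 4) (nat_lit 19) (nat_lit 4) (nat_lit 454) (nat_lit 399) (nat_lit 347)) (XT.lf (nat_lit 0) (nat_lit 13979813363) (nat_lit 76) (nat_lit 33405332322) (nat_lit 76) (nat_lit 16347746734) (nat_lit 18) (nat_lit 4) (nat_lit 19) (nat_lit 5) (nat_lit 19) (nat_lit 4) (nat_lit 455) (nat_lit 399) (nat_lit 346)))) (XT.nd (nat_lit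 156) (nat_lit 76) (nat_lit 0) (XT.nd (nat_lit 78) (nat_lit 76) (nat_lit 0) (XT.lf (nat_lit 0) (nat_lit 2355531971) (nat_lit 152) (nat_lit 12250499005) (nat_lit 76) (nat_lit 53200181983) (nat_lit 17) (nat_lit 5) (nat_lit 19) (nat_lit 5) (nat_lit 18) (nat_lit 4) (nat_lit 456) (nat_lit 399) (nat_lit 345)) (XT.lf (nat_lit 0) (nat_lit 22491148625) (nat_lit 152) (nat_lit 43469483717) (nat_lit 0) (nat_lit 6205927575) (nat_lit 16) (nat_lit 5) (nat_lit 18) (nat_lit 4) (nat_lit 16) (nat_lit 4) (nat_lit 457) (nat_lit 399) (nat_lit 344))) (XT.nd (nat_lit 78) (nat_lit 76) (nat_lit 0) (XT.lf (nat_lit 0) (nat_lit 44653628518) (nat_lit 152) (nat_lit 3850661842) (nat_lit 0) (nat_lit 28350645075) (nat_lit 16) (nat_lit 5) (nat_lit 18) (nat_lit 4) (nat_lit 16) (nat_lit 4) (nat_lit 458) (nat_lit 399) (nat_lit 343)) (XT.lf (nat_lit 0) (nat_lit 40135461252) (nat_lit 76) (nat_lit 29036601714) (nat_lit 76) (nat_lit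 12717171610) (nat_lit 15) (nat_lit 4) (nat_lit 16) (nat_lit 5) (nat_lit 16) (nat_lit 4) (nat_lit 459) (nat_lit 399) (nat_lit 342)))))) (XT.nd (nat_lit 546) (nat_lit 228) (nat_lit 0) (XT.nd (nat_lit 234) (nat_lit 228) (nat_lit 0) (XT.nd (nat_lit 78) (nat_lit 0) (nat_lit 0) (XT.lf (nat_lit 0) (nat_lit 247467827) (nat_lit 76) (nat_lit 7841374280) (nat_lit 152) (nat_lit 79229456306) (nat_lit 13) (nat_lit 5) (nat_lit 14) (nat_lit 5) (nat_lit 15) (nat_lit 4) (nat_lit 460) (nat_lit 399) (nat_lit 341)) (XT.nd (nat_lit 78) (nat_lit 0) (nat_lit 0) (XT.lf (nat_lit 0) (nat_lit 31052793106) (nat_lit 152) (nat_lit 46588974700) (nat_lit 0) (nat_lit 15482546577) (nat_lit 13) (nat_lit 5) (nat_lit 15) (nat_lit 4) (nat_lit 13) (nat_lit 4) (nat_lit 461) (nat_lit 399) (nat_lit 340)) (XT.lf (nat_lit 0) (nat_lit 55947965124) (nat_lit 152) (nat_lit 3076857897) (nat_lit 0) (nat_lit 40365284414) (nat_lit 13) (nat_lit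 5) (nat_lit 15) (nat_lit 4) (nat_lit 13) (nat_lit 4) (nat_lit 462) (nat_lit 399) (nat_lit 339)))) (XT.nd (nat_lit 156) (nat_lit 152) (nat_lit 0) (XT.nd (nat_lit 78) (nat_lit 0) (nat_lit 0) (XT.lf (nat_lit 0) (nat_lit 45295535234) (nat_lit 76) (nat_lit 38211114288) (nat_lit 76) (nat_lit 22616920448) (nat_lit 12) (nat_lit 4) (nat_lit 13) (nat_lit 5) (nat_lit 13) (nat_lit 4) (nat_lit 463) (nat_lit 399) (nat_lit 338)) (XT.lf (nat_lit 0) (nat_lit 97580221334) (nat_lit 76) (nat_lit 15709674922) (nat_lit 76) (nat_lit 104820776) (nat_lit 12) (nat_lit 4) (nat_lit 13) (nat_lit 5) (nat_lit 13) (nat_lit 4) (nat_lit 464) (nat_lit 399) (nat_lit 337))) (XT.nd (nat_lit 78) (nat_lit 0) (nat_lit 0) (XT.lf (nat_lit 0) (nat_lit 24072003866) (nat_lit 152) (nat_lit 87923888863) (nat_lit 0) (nat_lit 9200837390) (nat_lit 10) (nat_lit 5) (nat_lit 12) (nat_lit 4) (nat_lit 10) (nat_lit 4) (nat_lit 465) (nat_lit 399)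 (nat_lit 336)) (XT.lf (nat_lit 0) (nat_lit 50693426157) (nat_lit 152) (nat_lit 43090131307) (nat_lit 0) (nat_lit 35813555401) (nat_lit 10) (nat_lit 5) (nat_lit 12) (nat_lit 4) (nat_lit 10) (nat_lit 4) (nat_lit 466) (nat_lit 399) (nat_lit 335))))) (XT.nd (nat_lit 234) (nat_lit 152) (nat_lit 0) (XT.nd (nat_lit 78) (nat_lit 0) (nat_lit 0) (XT.lf (nat_lit 0) (nat_lit 5447534424) (nat_lit 76) (nat_lit 74053548367) (nat_lit 76) (nat_lit 59165618092) (nat_lit 9) (nat_lit 4) (nat_lit 10) (nat_lit 5) (nat_lit 10) (nat_lit 4) (nat_lit 467) (nat_lit 399) (nat_lit 334)) (XT.nd (nat_lit 78) (nat_lit 0) (nat_lit 0) (XT.lf (nat_lit 0) (nat_lit 59352284115) (nat_lit 76) (nat_lit 51984399338) (nat_lit 76) (nat_lit 37089006546) (nat_lit 9) (nat_lit 4) (nat_lit 10) (nat_lit 5) (nat_lit 10) (nat_lit 4) (nat_lit 468) (nat_lit 399) (nat_lit 333)) (XT.lf (nat_lit 0) (nat_lit 117518798979) (nat_lit 76) (nat_lit 28175082457)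 (nat_lit 76) (nat_lit 13272779927) (nat_lit 9) (nat_lit 4) (nat_lit 10) (nat_lit 5) (nat_lit 10) (nat_lit 4) (nat_lit 469) (nat_lit 399) (nat_lit 332)))) (XT.nd (nat_lit 156) (nat_lit 0) (nat_lit 0) (XT.nd (nat_lit 78) (nat_lit 0) (nat_lit 0) (XT.lf (nat_lit 0) (nat_lit 10067950259) (nat_lit 76) (nat_lit 2115781786) (nat_lit 152) (nat_lit 158150789677) (nat_lit 7) (nat_lit 5) (nat_lit 8) (nat_lit 5) (nat_lit 9) (nat_lit 4) (nat_lit 470) (nat_lit 399) (nat_lit 331)) (XT.lf (nat_lit 0) (nat_lit 40335100868) (nat_lit 152) (nat_lit 116078967062) (nat_lit 0) (nat_lit 26130696656) (nat_lit 7) (nat_lit 5) (nat_lit 9) (nat_lit 4) (nat_lit 7) (nat_lit 4) (nat_lit 471) (nat_lit 399) (nat_lit 330))) (XT.nd (nat_lit 78) (nat_lit 0) (nat_lit 0) (XT.lf (nat_lit 0) (nat_lit 70752891763) (nat_lit 152) (nat_lit 68434956353) (nat_lit 0) (nat_lit 56543263577) (nat_lit 7) (nat_lit 5) (nat_lit 9) (nat_lit 4) (nat_lit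 7) (nat_lit 4) (nat_lit 472) (nat_lit 399) (nat_lit 329)) (XT.lf (nat_lit 0) (nat_lit 103584325022) (nat_lit 152) (nat_lit 17019171176) (nat_lit 0) (nat_lit 89369859823) (nat_lit 7) (nat_lit 5) (nat_lit 9) (nat_lit 4) (nat_lit 7) (nat_lit 4) (nat_lit 473) (nat_lit 399) (nat_lit 328))))))) (XT.nd (nat_lit 1014) (nat_lit 152) (nat_lit 0) (XT.nd (nat_lit 468) (nat_lit 76) (nat_lit 0) (XT.nd (nat_lit 234) (nat_lit 152) (nat_lit 0) (XT.nd (nat_lit 78) (nat_lit 0) (nat_lit 0) (XT.lf (nat_lit 0) (nat_lit 39745168198) (nat_lit 76) (nat_lit 99899322551) (nat_lit 76) (nat_lit 85680378636) (nat_lit 6) (nat_lit 4) (nat_lit 7) (nat_lit 5) (nat_lit 7) (nat_lit 4) (nat_lit 474) (nat_lit 399) (nat_lit 327)) (XT.nd (nat_lit 78) (nat_lit 0) (nat_lit 0) (XT.lf (nat_lit 0) (nat_lit 101623201004) (nat_lit 76) (nat_lit 77245223158) (nat_lit 76) (nat_lit 63022132283) (nat_lit 6) (nat_lit 4) (nat_lit 7) (nat_lit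 5) (nat_lit 7) (nat_lit 4) (nat_lit 475) (nat_lit 399) (nat_lit 326)) (XT.lf (nat_lit 0) (nat_lit 168418881219) (nat_lit 76) (nat_lit 52795179404) (nat_lit 76) (nat_lit 38568248753) (nat_lit 6) (nat_lit 4) (nat_lit 7) (nat_lit 5) (nat_lit 7) (nat_lit 4) (nat_lit 476) (nat_lit 399) (nat_lit 325)))) (XT.nd (nat_lit 78) (nat_lit 152) (nat_lit 0) (XT.lf (nat_lit 0) (nat_lit 240528035098) (nat_lit 76) (nat_lit 26404302141) (nat_lit 76) (nat_lit 12173816141) (nat_lit 6) (nat_lit 4) (nat_lit 7) (nat_lit 5) (nat_lit 7) (nat_lit 4) (nat_lit 477) (nat_lit 399) (nat_lit 324)) (XT.nd (nat_lit 78) (nat_lit 0) (nat_lit 0) (XT.lf (nat_lit 0) (nat_lit 16129508478) (nat_lit 152) (nat_lit 281244114260) (nat_lit 0) (nat_lit 2573529440) (nat_lit 4) (nat_lit 5) (nat_lit 6) (nat_lit 4) (nat_lit 4) (nat_lit 4) (nat_lit 478) (nat_lit 399) (nat_lit 323)) (XT.lf (nat_lit 0) (nat_lit 47390818737) (nat_lit 152) (nat_lit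 241166685595) (nat_lit 0) (nat_lit 33831936710) (nat_lit 4) (nat_lit 5) (nat_lit 6) (nat_lit 4) (nat_lit 4) (nat_lit 4) (nat_lit 479) (nat_lit 399) (nat_lit 322))))) (XT.nd (nat_lit 234) (nat_lit 76) (nat_lit 0) (XT.nd (nat_lit 78) (nat_lit 0) (nat_lit 0) (XT.lf (nat_lit 0) (nat_lit 81140331665) (nat_lit 152) (nat_lit 197908655000) (nat_lit 0) (nat_lit 67578761685) (nat_lit 4) (nat_lit 5) (nat_lit 6) (nat_lit 4) (nat_lit 4) (nat_lit 4) (nat_lit 480) (nat_lit 399) (nat_lit 321)) (XT.nd (nat_lit 78) (nat_lit 0) (nat_lit 0) (XT.lf (nat_lit 0) (nat_lit 117578044376) (nat_lit 152) (nat_lit 151213678591) (nat_lit 0) (nat_lit 104013985550) (nat_lit 4) (nat_lit 5) (nat_lit 6) (nat_lit 4) (nat_lit 4) (nat_lit 4) (nat_lit 481) (nat_lit 399) (nat_lit 320)) (XT.lf (nat_lit 0) (nat_lit 156919884055) (nat_lit 152) (nat_lit 100805045394) (nat_lit 0) (nat_lit 143353520743) (nat_lit 4) (nat_lit 5) (nat_lit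 6) (nat_lit 4) (nat_lit 4) (nat_lit 4) (nat_lit 482) (nat_lit 399) (nat_lit 319)))) (XT.nd (nat_lit 156) (nat_lit 0) (nat_lit 0) (XT.nd (nat_lit 78) (nat_lit 76) (nat_lit 0) (XT.lf (nat_lit 0) (nat_lit 199398987531) (nat_lit 152) (nat_lit 46384037586) (nat_lit 0) (nat_lit 185830490435) (nat_lit 4) (nat_lit 5) (nat_lit 6) (nat_lit 4) (nat_lit 4) (nat_lit 4) (nat_lit 483) (nat_lit 399) (nat_lit 318)) (XT.lf (nat_lit 0) (nat_lit 12780908589) (nat_lit 76) (nat_lit 232685720036) (nat_lit 76) (nat_lit 219115247214) (nat_lit 3) (nat_lit 4) (nat_lit 4) (nat_lit 5) (nat_lit 4) (nat_lit 4) (nat_lit 484) (nat_lit 399) (nat_lit 317))) (XT.nd (nat_lit 78) (nat_lit 0) (nat_lit 0) (XT.lf (nat_lit 0) (nat_lit 78317415837) (nat_lit 76) (nat_lit 217701319378) (nat_lit 76) (nat_lit 204129017180) (nat_lit 3) (nat_lit 4) (nat_lit 4) (nat_lit 5) (nat_lit 4) (nat_lit 4) (nat_lit 485) (nat_lit 399) (nat_lit 316))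 (XT.lf (nat_lit 0) (nat_lit 149080182887) (nat_lit 76) (nat_lit 201526562813) (nat_lit 76) (nat_lit 187952566749) (nat_lit 3) (nat_lit 4) (nat_lit 4) (nat_lit 5) (nat_lit 4) (nat_lit 4) (nat_lit 486) (nat_lit 399) (nat_lit 315)))))) (XT.nd (nat_lit 546) (nat_lit 152) (nat_lit 0) (XT.nd (nat_lit 234) (nat_lit 0) (nat_lit 0) (XT.nd (nat_lit 78) (nat_lit 0) (nat_lit 0) (XT.lf (nat_lit 0) (nat_lit 225488544653) (nat_lit 76) (nat_lit 184065599934) (nat_lit 76) (nat_lit 170490035475) (nat_lit 3) (nat_lit 4) (nat_lit 4) (nat_lit 5) (nat_lit 4) (nat_lit 4) (nat_lit 487) (nat_lit 399) (nat_lit 314)) (XT.nd (nat_lit 78) (nat_lit 0) (nat_lit 0) (XT.lf (nat_lit 0) (nat_lit 307995291427) (nat_lit 76) (nat_lit 165214958368) (nat_lit 76) (nat_lit 151637941691) (nat_lit 3) (nat_lit 4) (nat_lit 4) (nat_lit 5) (nat_lit 4) (nat_lit 4) (nat_lit 488) (nat_lit 399) (nat_lit 313)) (XT.lf (nat_lit 0) (nat_lit 397089352080)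 (nat_lit 76) (nat_lit 144862930608) (nat_lit 76) (nat_lit 131284569286) (nat_lit 3) (nat_lit 4) (nat_lit 4) (nat_lit 5) (nat_lit 4) (nat_lit 4) (nat_lit 489) (nat_lit 399) (nat_lit 312)))) (XT.nd (nat_lit 156) (nat_lit 0) (nat_lit 0) (XT.nd (nat_lit 78) (nat_lit 0) (nat_lit 0) (XT.lf (nat_lit 0) (nat_lit 493298691416) (nat_lit 76) (nat_lit 122888912046) (nat_lit 76) (nat_lit 109309305682) (nat_lit 3) (nat_lit 4) (nat_lit 4) (nat_lit 5) (nat_lit 4) (nat_lit 4) (nat_lit 490) (nat_lit 399) (nat_lit 311)) (XT.lf (nat_lit 0) (nat_lit 597193438852) (nat_lit 76) (nat_lit 99162686276) (nat_lit 76) (nat_lit 85581927095) (nat_lit 3) (nat_lit 4) (nat_lit 4) (nat_lit 5) (nat_lit 4) (nat_lit 4) (nat_lit 491) (nat_lit 399) (nat_lit 310))) (XT.nd (nat_lit 78) (nat_lit 0) (nat_lit 0) (XT.lf (nat_lit 0) (nat_lit 709389266966) (nat_lit 76) (nat_lit 73543653442) (nat_lit 76) (nat_lit 59961826837) (nat_lit 3)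 (nat_lit 4) (nat_lit 4) (nat_lit 5) (nat_lit 4) (nat_lit 4) (nat_lit 492) (nat_lit 399) (nat_lit 309)) (XT.lf (nat_lit 0) (nat_lit 830551039925) (nat_lit 76) (nat_lit 45879997052) (nat_lit 76) (nat_lit 32297182092) (nat_lit 3) (nat_lit 4) (nat_lit 4) (nat_lit 5) (nat_lit 4) (nat_lit 4) (nat_lit 493) (nat_lit 399) (nat_lit 308))))) (XT.nd (nat_lit 234) (nat_lit 0) (nat_lit 0) (XT.nd (nat_lit 78) (nat_lit 152) (nat_lit 0) (XT.lf (nat_lit 0) (nat_lit 961396753420) (nat_lit 76) (nat_lit 16007784327) (nat_lit 76) (nat_lit 2424054224) (nat_lit 3) (nat_lit 4) (nat_lit 4) (nat_lit 5) (nat_lit 4) (nat_lit 4) (nat_lit 494) (nat_lit 399) (nat_lit 307)) (XT.nd (nat_lit 78) (nat_lit 0) (nat_lit 0) (XT.lf (nat_lit 0) (nat_lit 29888882912) (nat_lit 152) (nat_lit 1009703378760) (nat_lit 0) (nat_lit 16951190095) (nat_lit 1) (nat_lit 5) (nat_lit 3) (nat_lit 4) (nat_lit 1) (nat_lit 4) (nat_lit 495) (nat_lit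 399) (nat_lit 306)) (XT.lf (nat_lit 0) (nat_lit 65295236720) (nat_lit 152) (nat_lit 1021711814645) (nat_lit 0) (nat_lit 52356796676) (nat_lit 1) (nat_lit 5) (nat_lit 3) (nat_lit 4) (nat_lit 1) (nat_lit 4) (nat_lit 496) (nat_lit 399) (nat_lit 305)))) (XT.nd (nat_lit 54912) (nat_lit 0) (nat_lit 13908) (XT.nd (nat_lit 78) (nat_lit 0) (nat_lit 0) (XT.lf (nat_lit 0) (nat_lit 103530319839) (nat_lit 152) (nat_lit 1034688557267) (nat_lit 0) (nat_lit 90591187919) (nat_lit 1) (nat_lit 5) (nat_lit 3) (nat_lit 4) (nat_lit 1) (nat_lit 4) (nat_lit 497) (nat_lit 399) (nat_lit 304)) (XT.lf (nat_lit 0) (nat_lit 144820710540) (nat_lit 152) (nat_lit 1048710505841) (nat_lit 0) (nat_lit 131880937994) (nat_lit 1) (nat_lit 5) (nat_lit 3) (nat_lit 4) (nat_lit 1) (nat_lit 4) (nat_lit 498) (nat_lit 399) (nat_lit 303))) (XT.nd (nat_lit 78) (nat_lit 76) (nat_lit 0) (XT.lf (nat_lit 0) (nat_lit 1073741823) (nat_lit 0)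 (nat_lit 0) (nat_lit 0) (nat_lit 0) (nat_lit 185) (nat_lit 0) (nat_lit 1) (nat_lit 0) (nat_lit 1) (nat_lit 0) (nat_lit 400) (nat_lit 400) (nat_lit 400)) (XT.lf (nat_lit 0) (nat_lit 4907121396) (nat_lit 76) (nat_lit 1337478632) (nat_lit 0) (nat_lit 206518299) (nat_lit 184) (nat_lit 5) (nat_lit 185) (nat_lit 0) (nat_lit 184) (nat_lit 4) (nat_lit 401) (nat_lit 400) (nat_lit 399))))))))
noncomputable def xc46 : XT := (XT.nd (nat_lit 2028) (nat_lit 3192) (nat_lit 0) (XT.nd (nat_lit 1014) (nat_lit 3344) (nat_lit 0) (XT.nd (nat_lit 468) (nat_lit 4028) (nat_lit 0) (XT.nd (nat_lit 234) (nat_lit 1292) (nat_lit 0) (XT.nd (nat_lit 78) (nat_lit 456) (nat_lit 0) (XT.lf (nat_lit 0) (nat_lit 3195271250) (nat_lit 152) (nat_lit 2502707306) (nat_lit 76) (nat_lit 781483941) (nat_lit 182) (nat_lit 5) (nat_lit 184) (nat_lit 5) (nat_lit 183) (nat_lit 4) (nat_lit 402) (nat_lit 400) (nat_lit 398)) (XT.nd (nat_lit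 78) (nat_lit 228) (nat_lit 0) (XT.lf (nat_lit 0) (nat_lit 1297417082) (nat_lit 228) (nat_lit 3501205702) (nat_lit 76) (nat_lit 1728994135) (nat_lit 179) (nat_lit 5) (nat_lit 182) (nat_lit 5) (nat_lit 180) (nat_lit 5) (nat_lit 403) (nat_lit 400) (nat_lit 397)) (XT.lf (nat_lit 0) (nat_lit 2245043603) (nat_lit 228) (nat_lit 3526481980) (nat_lit 304) (nat_lit 823640357) (nat_lit 176) (nat_lit 5) (nat_lit 179) (nat_lit 5) (nat_lit 180) (nat_lit 5) (nat_lit 404) (nat_lit 400) (nat_lit 396)))) (XT.nd (nat_lit 78) (nat_lit 912) (nat_lit 0) (XT.lf (nat_lit 0) (nat_lit 1617885488) (nat_lit 304) (nat_lit 1860373398) (nat_lit 380) (nat_lit 3203601243) (nat_lit 171) (nat_lit 5) (nat_lit 175) (nat_lit 5) (nat_lit 176) (nat_lit 5) (nat_lit 405) (nat_lit 400) (nat_lit 395)) (XT.nd (nat_lit 78) (nat_lit 456) (nat_lit 0) (XT.lf (nat_lit 0) (nat_lit 978367999) (nat_lit 456) (nat_lit 5626901662) (nat_lit 76)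 (nat_lit 183736563) (nat_lit 165) (nat_lit 5) (nat_lit 171) (nat_lit 5) (nat_lit 166) (nat_lit 5) (nat_lit 406) (nat_lit 400) (nat_lit 394)) (XT.lf (nat_lit 0) (nat_lit 814367926) (nat_lit 456) (nat_lit 4332051759) (nat_lit 532) (nat_lit 1767696089) (nat_lit 159) (nat_lit 5) (nat_lit 165) (nat_lit 5) (nat_lit 166) (nat_lit 5) (nat_lit 407) (nat_lit 400) (nat_lit 393))))) (XT.nd (nat_lit 234) (nat_lit 2052) (nat_lit 0) (XT.nd (nat_lit 78) (nat_lit 1368) (nat_lit 0) (XT.lf (nat_lit 0) (nat_lit 614146647) (nat_lit 532) (nat_lit 1656361639) (nat_lit 608) (nat_lit 4789128643) (nat_lit 151) (nat_lit 5) (nat_lit 158) (nat_lit 5) (nat_lit 159) (nat_lit 5) (nat_lit 408) (nat_lit 400) (nat_lit 392)) (XT.nd (nat_lit 78) (nat_lit 760) (nat_lit 0) (XT.lf (nat_lit 0) (nat_lit 542175061) (nat_lit 608) (nat_lit 5832734348) (nat_lit 684) (nat_lit 850355919) (nat_lit 143) (nat_lit 5) (nat_lit 151) (nat_lit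 5) (nat_lit 152) (nat_lit 5) (nat_lit 409) (nat_lit 400) (nat_lit 391)) (XT.lf (nat_lit 0) (nat_lit 561950324) (nat_lit 684) (nat_lit 2566861719) (nat_lit 760) (nat_lit 4281111885) (nat_lit 133) (nat_lit 5) (nat_lit 142) (nat_lit 5) (nat_lit 143) (nat_lit 5) (nat_lit 410) (nat_lit 400) (nat_lit 390)))) (XT.nd (nat_lit 156) (nat_lit 836) (nat_lit 0) (XT.nd (nat_lit 78) (nat_lit 456) (nat_lit 0) (XT.lf (nat_lit 0) (nat_lit 717298420) (nat_lit 760) (nat_lit 6526870345) (nat_lit 836) (nat_lit 372244289) (nat_lit 123) (nat_lit 5) (nat_lit 133) (nat_lit 5) (nat_lit 134) (nat_lit 5) (nat_lit 411) (nat_lit 400) (nat_lit 389)) (XT.lf (nat_lit 0) (nat_lit 930535815) (nat_lit 380) (nat_lit 2690270815) (nat_lit 456) (nat_lit 4220996927) (nat_lit 117) (nat_lit 5) (nat_lit 122) (nat_lit 5) (nat_lit 123) (nat_lit 5) (nat_lit 412) (nat_lit 400) (nat_lit 388))) (XT.nd (nat_lit 78) (nat_lit 456) (nat_lit 0)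 (XT.lf (nat_lit 0) (nat_lit 1270056652) (nat_lit 380) (nat_lit 6547167204) (nat_lit 456) (nat_lit 272960187) (nat_lit 112) (nat_lit 5) (nat_lit 117) (nat_lit 5) (nat_lit 118) (nat_lit 5) (nat_lit 413) (nat_lit 400) (nat_lit 387)) (XT.lf (nat_lit 0) (nat_lit 1654375471) (nat_lit 380) (nat_lit 2145711299) (nat_lit 456) (nat_lit 4558486460) (nat_lit 106) (nat_lit 5) (nat_lit 111) (nat_lit 5) (nat_lit 112) (nat_lit 5) (nat_lit 414) (nat_lit 400) (nat_lit 386)))))) (XT.nd (nat_lit 468) (nat_lit 1520) (nat_lit 0) (XT.nd (nat_lit 234) (nat_lit 912) (nat_lit 0) (XT.nd (nat_lit 78) (nat_lit 608) (nat_lit 0) (XT.lf (nat_lit 0) (nat_lit 2140864871) (nat_lit 304) (nat_lit 6001064999) (nat_lit 380) (nat_lit 508745657) (nat_lit 102) (nat_lit 5) (nat_lit 106) (nat_lit 5) (nat_lit 107) (nat_lit 5) (nat_lit 415) (nat_lit 400) (nat_lit 385)) (XT.nd (nat_lit 78) (nat_lit 228) (nat_lit 0) (XT.lf (nat_lit 0) (nat_lit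 2676325909) (nat_lit 304) (nat_lit 1028929396) (nat_lit 380) (nat_lit 5259755021) (nat_lit 97) (nat_lit 5) (nat_lit 101) (nat_lit 5) (nat_lit 102) (nat_lit 5) (nat_lit 416) (nat_lit 400) (nat_lit 384)) (XT.lf (nat_lit 0) (nat_lit 3276182829) (nat_lit 228) (nat_lit 4976306828) (nat_lit 304) (nat_lit 1050963091) (nat_lit 94) (nat_lit 5) (nat_lit 97) (nat_lit 5) (nat_lit 98) (nat_lit 5) (nat_lit 417) (nat_lit 400) (nat_lit 383)))) (XT.nd (nat_lit 78) (nat_lit 532) (nat_lit 0) (XT.lf (nat_lit 0) (nat_lit 3370202515) (nat_lit 380) (nat_lit 5732950970) (nat_lit 76) (nat_lit 563779126) (nat_lit 89) (nat_lit 5) (nat_lit 94) (nat_lit 5) (nat_lit 90) (nat_lit 5) (nat_lit 418) (nat_lit 400) (nat_lit 382)) (XT.nd (nat_lit 78) (nat_lit 304) (nat_lit 0) (XT.lf (nat_lit 0) (nat_lit 4624418486) (nat_lit 228) (nat_lit 3545866491) (nat_lit 304) (nat_lit 1885303228) (nat_lit 86) (nat_lit 5) (nat_lit 89) (nat_lit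 5) (nat_lit 90) (nat_lit 5) (nat_lit 419) (nat_lit 400) (nat_lit 381)) (XT.lf (nat_lit 0) (nat_lit 2820098714) (nat_lit 304) (nat_lit 5111334180) (nat_lit 76) (nat_lit 2540049244) (nat_lit 82) (nat_lit 5) (nat_lit 86) (nat_lit 5) (nat_lit 83) (nat_lit 5) (nat_lit 420) (nat_lit 400) (nat_lit 380))))) (XT.nd (nat_lit 234) (nat_lit 836) (nat_lit 0) (XT.nd (nat_lit 78) (nat_lit 456) (nat_lit 0) (XT.lf (nat_lit 0) (nat_lit 6131547672) (nat_lit 228) (nat_lit 1772475584) (nat_lit 304) (nat_lit 3011721691) (nat_lit 79) (nat_lit 5) (nat_lit 82) (nat_lit 5) (nat_lit 83) (nat_lit 5) (nat_lit 421) (nat_lit 400) (nat_lit 379)) (XT.nd (nat_lit 78) (nat_lit 152) (nat_lit 0) (XT.lf (nat_lit 0) (nat_lit 2035960811) (nat_lit 304) (nat_lit 4473829711) (nat_lit 76) (nat_lit 4879199996) (nat_lit 75) (nat_lit 5) (nat_lit 79) (nat_lit 5) (nat_lit 76) (nat_lit 5) (nat_lit 422) (nat_lit 400) (nat_lit 378)) (XT.lf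 (nat_lit 0) (nat_lit 7453647173) (nat_lit 228) (nat_lit 4162606661) (nat_lit 76) (nat_lit 277828677) (nat_lit 73) (nat_lit 5) (nat_lit 76) (nat_lit 5) (nat_lit 74) (nat_lit 5) (nat_lit 423) (nat_lit 400) (nat_lit 377)))) (XT.nd (nat_lit 156) (nat_lit 380) (nat_lit 0) (XT.nd (nat_lit 78) (nat_lit 152) (nat_lit 0) (XT.lf (nat_lit 0) (nat_lit 1000424022) (nat_lit 304) (nat_lit 3898349969) (nat_lit 76) (nat_lit 7532020943) (nat_lit 69) (nat_lit 5) (nat_lit 73) (nat_lit 5) (nat_lit 70) (nat_lit 5) (nat_lit 424) (nat_lit 400) (nat_lit 376)) (XT.lf (nat_lit 0) (nat_lit 6826802463) (nat_lit 228) (nat_lit 3680032075) (nat_lit 76) (nat_lit 2494712239) (nat_lit 67) (nat_lit 5) (nat_lit 70) (nat_lit 5) (nat_lit 68) (nat_lit 5) (nat_lit 425) (nat_lit 400) (nat_lit 375))) (XT.nd (nat_lit 78) (nat_lit 228) (nat_lit 0) (XT.lf (nat_lit 0) (nat_lit 10123641414) (nat_lit 152) (nat_lit 3155532062) (nat_lit 228)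 (nat_lit 330821922) (nat_lit 65) (nat_lit 5) (nat_lit 67) (nat_lit 5) (nat_lit 68) (nat_lit 5) (nat_lit 426) (nat_lit 400) (nat_lit 374)) (XT.lf (nat_lit 0) (nat_lit 5958863950) (nat_lit 228) (nat_lit 3417076785) (nat_lit 76) (nat_lit 4878054245) (nat_lit 62) (nat_lit 5) (nat_lit 65) (nat_lit 5) (nat_lit 63) (nat_lit 5) (nat_lit 427) (nat_lit 400) (nat_lit 373))))))) (XT.nd (nat_lit 1014) (nat_lit 1140) (nat_lit 0) (XT.nd (nat_lit 468) (nat_lit 988) (nat_lit 0) (XT.nd (nat_lit 234) (nat_lit 532) (nat_lit 0) (XT.nd (nat_lit 78) (nat_lit 380) (nat_lit 0) (XT.lf (nat_lit 0) (nat_lit 11564437169) (nat_lit 152) (nat_lit 1332540465) (nat_lit 228) (nat_lit 2044448666) (nat_lit 60) (nat_lit 5) (nat_lit 62) (nat_lit 5) (nat_lit 63) (nat_lit 5) (nat_lit 428) (nat_lit 400) (nat_lit 372)) (XT.nd (nat_lit 78) (nat_lit 152) (nat_lit 0) (XT.lf (nat_lit 0) (nat_lit 4792491527) (nat_lit 228) (nat_lit 3513302173)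 (nat_lit 76) (nat_lit 7362564954) (nat_lit 57) (nat_lit 5) (nat_lit 60) (nat_lit 5) (nat_lit 58) (nat_lit 5) (nat_lit 429) (nat_lit 400) (nat_lit 371)) (XT.lf (nat_lit 0) (nat_lit 12265170385) (nat_lit 228) (nat_lit 3721964021) (nat_lit 76) (nat_lit 456635361) (nat_lit 55) (nat_lit 5) (nat_lit 58) (nat_lit 5) (nat_lit 56) (nat_lit 4) (nat_lit 430) (nat_lit 400) (nat_lit 370)))) (XT.nd (nat_lit 78) (nat_lit 304) (nat_lit 0) (XT.lf (nat_lit 0) (nat_lit 3245160557) (nat_lit 228) (nat_lit 4150902348) (nat_lit 76) (nat_lit 9868360903) (nat_lit 52) (nat_lit 5) (nat_lit 55) (nat_lit 5) (nat_lit 53) (nat_lit 5) (nat_lit 431) (nat_lit 400) (nat_lit 369)) (XT.nd (nat_lit 78) (nat_lit 152) (nat_lit 0) (XT.lf (nat_lit 0) (nat_lit 11307629600) (nat_lit 228) (nat_lit 4743125918) (nat_lit 76) (nat_lit 2087006005) (nat_lit 50) (nat_lit 5) (nat_lit 53) (nat_lit 5) (nat_lit 51) (nat_lit 4) (nat_lit 432) (nat_lit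 400) (nat_lit 368)) (XT.lf (nat_lit 0) (nat_lit 1202686010) (nat_lit 152) (nat_lit 5569167019) (nat_lit 76) (nat_lit 12293476062) (nat_lit 48) (nat_lit 5) (nat_lit 50) (nat_lit 5) (nat_lit 49) (nat_lit 5) (nat_lit 433) (nat_lit 400) (nat_lit 367))))) (XT.nd (nat_lit 234) (nat_lit 532) (nat_lit 0) (XT.nd (nat_lit 78) (nat_lit 304) (nat_lit 0) (XT.lf (nat_lit 0) (nat_lit 9879606388) (nat_lit 228) (nat_lit 6694219603) (nat_lit 76) (nat_lit 3475652692) (nat_lit 46) (nat_lit 5) (nat_lit 49) (nat_lit 5) (nat_lit 47) (nat_lit 4) (nat_lit 434) (nat_lit 400) (nat_lit 366)) (XT.nd (nat_lit 78) (nat_lit 228) (nat_lit 0) (XT.lf (nat_lit 0) (nat_lit 12989950987) (nat_lit 76) (nat_lit 6568419491) (nat_lit 152) (nat_lit 1538617915) (nat_lit 45) (nat_lit 5) (nat_lit 46) (nat_lit 5) (nat_lit 47) (nat_lit 4) (nat_lit 435) (nat_lit 400) (nat_lit 365)) (XT.lf (nat_lit 0) (nat_lit 7812717099) (nat_lit 228) (nat_lit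 9936646848) (nat_lit 76) (nat_lit 4458935798) (nat_lit 42) (nat_lit 5) (nat_lit 45) (nat_lit 5) (nat_lit 43) (nat_lit 4) (nat_lit 436) (nat_lit 400) (nat_lit 364)))) (XT.nd (nat_lit 156) (nat_lit 228) (nat_lit 0) (XT.nd (nat_lit 78) (nat_lit 228) (nat_lit 0) (XT.lf (nat_lit 0) (nat_lit 11202749769) (nat_lit 76) (nat_lit 6984518892) (nat_lit 152) (nat_lit 5203545742) (nat_lit 41) (nat_lit 5) (nat_lit 42) (nat_lit 5) (nat_lit 43) (nat_lit 4) (nat_lit 437) (nat_lit 400) (nat_lit 363)) (XT.lf (nat_lit 0) (nat_lit 4881343729) (nat_lit 228) (nat_lit 14945694345) (nat_lit 76) (nat_lit 4821779520) (nat_lit 38) (nat_lit 5) (nat_lit 41) (nat_lit 5) (nat_lit 39) (nat_lit 4) (nat_lit 438) (nat_lit 400) (nat_lit 362))) (XT.nd (nat_lit 78) (nat_lit 152) (nat_lit 0) (XT.lf (nat_lit 0) (nat_lit 7643400151) (nat_lit 76) (nat_lit 8308169245) (nat_lit 152) (nat_lit 10033592281) (nat_lit 37) (nat_lit 5) (nat_lit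 38) (nat_lit 5) (nat_lit 39) (nat_lit 4) (nat_lit 439) (nat_lit 400) (nat_lit 361)) (XT.lf (nat_lit 0) (nat_lit 785959275) (nat_lit 152) (nat_lit 22345371318) (nat_lit 76) (nat_lit 4280601685) (nat_lit 35) (nat_lit 5) (nat_lit 37) (nat_lit 5) (nat_lit 36) (nat_lit 4) (nat_lit 440) (nat_lit 400) (nat_lit 360)))))) (XT.nd (nat_lit 546) (nat_lit 532) (nat_lit 0) (XT.nd (nat_lit 234) (nat_lit 380) (nat_lit 0) (XT.nd (nat_lit 78) (nat_lit 152) (nat_lit 0) (XT.lf (nat_lit 0) (nat_lit 1636181513) (nat_lit 76) (nat_lit 10889865095) (nat_lit 152) (nat_lit 16398255558) (nat_lit 34) (nat_lit 5) (nat_lit 35) (nat_lit 5) (nat_lit 36) (nat_lit 4) (nat_lit 441) (nat_lit 400) (nat_lit 359)) (XT.nd (nat_lit 78) (nat_lit 152) (nat_lit 0) (XT.lf (nat_lit 0) (nat_lit 25551663334) (nat_lit 152) (nat_lit 2409880050) (nat_lit 0) (nat_lit 2578808519) (nat_lit 34) (nat_lit 5) (nat_lit 36) (nat_lit 4) (nat_lit 34)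 (nat_lit 4) (nat_lit 442) (nat_lit 400) (nat_lit 358)) (XT.lf (nat_lit 0) (nat_lit 7600377914) (nat_lit 152) (nat_lit 7461995011) (nat_lit 76) (nat_lit 17192520556) (nat_lit 32) (nat_lit 5) (nat_lit 34) (nat_lit 5) (nat_lit 33) (nat_lit 4) (nat_lit 443) (nat_lit 400) (nat_lit 357)))) (XT.nd (nat_lit 156) (nat_lit 152) (nat_lit 0) (XT.nd (nat_lit 78) (nat_lit 152) (nat_lit 0) (XT.lf (nat_lit 0) (nat_lit 20580332282) (nat_lit 76) (nat_lit 730808232) (nat_lit 152) (nat_lit 12776906482) (nat_lit 31) (nat_lit 5) (nat_lit 32) (nat_lit 5) (nat_lit 33) (nat_lit 4) (nat_lit 444) (nat_lit 400) (nat_lit 356)) (XT.lf (nat_lit 0) (nat_lit 582754047) (nat_lit 152) (nat_lit 20869589010) (nat_lit 76) (nat_lit 14588800974) (nat_lit 29) (nat_lit 5) (nat_lit 31) (nat_lit 5) (nat_lit 30) (nat_lit 4) (nat_lit 445) (nat_lit 400) (nat_lit 355))) (XT.nd (nat_lit 78) (nat_lit 76) (nat_lit 0) (XT.lf (nat_lit 0) (nat_lit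 8386160278) (nat_lit 76) (nat_lit 6493475289) (nat_lit 152) (nat_lit 23244580204) (nat_lit 28) (nat_lit 5) (nat_lit 29) (nat_lit 5) (nat_lit 30) (nat_lit 4) (nat_lit 446) (nat_lit 400) (nat_lit 354)) (XT.lf (nat_lit 0) (nat_lit 81849652) (nat_lit 76) (nat_lit 30690008791) (nat_lit 76) (nat_lit 9579499203) (nat_lit 27) (nat_lit 4) (nat_lit 28) (nat_lit 5) (nat_lit 28) (nat_lit 4) (nat_lit 447) (nat_lit 400) (nat_lit 353))))) (XT.nd (nat_lit 234) (nat_lit 304) (nat_lit 0) (XT.nd (nat_lit 78) (nat_lit 152) (nat_lit 0) (XT.lf (nat_lit 0) (nat_lit 5581062012) (nat_lit 152) (nat_lit 9712491575) (nat_lit 76) (nat_lit 27430676622) (nat_lit 26) (nat_lit 5) (nat_lit 28) (nat_lit 5) (nat_lit 27) (nat_lit 4) (nat_lit 448) (nat_lit 400) (nat_lit 352)) (XT.nd (nat_lit 78) (nat_lit 76) (nat_lit 0) (XT.lf (nat_lit 0) (nat_lit 21960088067) (nat_lit 152) (nat_lit 21526255986) (nat_lit 0) (nat_lit 1775677743)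 (nat_lit 25) (nat_lit 5) (nat_lit 27) (nat_lit 4) (nat_lit 25) (nat_lit 4) (nat_lit 449) (nat_lit 400) (nat_lit 351)) (XT.lf (nat_lit 0) (nat_lit 12223745212) (nat_lit 76) (nat_lit 27985380160) (nat_lit 76) (nat_lit 7765729854) (nat_lit 24) (nat_lit 4) (nat_lit 25) (nat_lit 5) (nat_lit 25) (nat_lit 4) (nat_lit 450) (nat_lit 400) (nat_lit 350)))) (XT.nd (nat_lit 156) (nat_lit 152) (nat_lit 0) (XT.nd (nat_lit 78) (nat_lit 76) (nat_lit 0) (XT.lf (nat_lit 0) (nat_lit 9046793488) (nat_lit 152) (nat_lit 1706353268) (nat_lit 76) (nat_lit 40128439638) (nat_lit 23) (nat_lit 5) (nat_lit 25) (nat_lit 5) (nat_lit 24) (nat_lit 4) (nat_lit 451) (nat_lit 400) (nat_lit 349)) (XT.lf (nat_lit 0) (nat_lit 27575941918) (nat_lit 152) (nat_lit 18147084016) (nat_lit 0) (nat_lit 8259282371) (nat_lit 22) (nat_lit 5) (nat_lit 24) (nat_lit 4) (nat_lit 22) (nat_lit 4) (nat_lit 452) (nat_lit 400) (nat_lit 348))) (XT.nd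 (nat_lit 78) (nat_lit 76) (nat_lit 0) (XT.lf (nat_lit 0) (nat_lit 19447560996) (nat_lit 76) (nat_lit 28601865532) (nat_lit 76) (nat_lit 9258563476) (nat_lit 21) (nat_lit 4) (nat_lit 22) (nat_lit 5) (nat_lit 22) (nat_lit 4) (nat_lit 453) (nat_lit 400) (nat_lit 347)) (XT.lf (nat_lit 0) (nat_lit 9234331039) (nat_lit 152) (nat_lit 437592415) (nat_lit 76) (nat_lit 51207091249) (nat_lit 20) (nat_lit 5) (nat_lit 22) (nat_lit 5) (nat_lit 21) (nat_lit 4) (nat_lit 454) (nat_lit 400) (nat_lit 346))))))))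
noncomputable def xc47 : XT := (XT.nd (nat_lit 2106) (nat_lit 228) (nat_lit 0) (XT.nd (nat_lit 1014) (nat_lit 456) (nat_lit 0) (XT.nd (nat_lit 468) (nat_lit 380) (nat_lit 0) (XT.nd (nat_lit 234) (nat_lit 152) (nat_lit 0) (XT.nd (nat_lit 78) (nat_lit 152) (nat_lit 0) (XT.lf (nat_lit 0) (nat_lit 29660142862) (nat_lit 152) (nat_lit 23836396140) (nat_lit 0) (nat_lit 11192702192) (nat_lit 19) (nat_lit 5) (nat_lit 21) (nat_lit 4) (nat_lit 19) (nat_lit 4) (nat_lit 455) (nat_lit 400) (nat_lit 345)) (XT.nd (nat_lit 78) (nat_lit 76) (nat_lit 0) (XT.lf (nat_lit 0) (nat_lit 16945729501) (nat_lit 76) (nat_lit 35163344261) (nat_lit 76) (nat_lit 16675761037) (nat_lit 18) (nat_lit 4) (nat_lit 19) (nat_lit 5) (nat_lit 19) (nat_lit 4) (nat_lit 456) (nat_lit 400) (nat_lit 344)) (XT.lf (nat_lit 0) (nat_lit 3422164847) (nat_lit 152) (nat_lit 11490795801) (nat_lit 76) (nat_lit 58273810561) (nat_lit 17) (nat_lit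 5) (nat_lit 19) (nat_lit 5) (nat_lit 18) (nat_lit 4) (nat_lit 457) (nat_lit 400) (nat_lit 343)))) (XT.nd (nat_lit 78) (nat_lit 76) (nat_lit 0) (XT.lf (nat_lit 0) (nat_lit 25142442321) (nat_lit 152) (nat_lit 45253804049) (nat_lit 0) (nat_lit 7501011147) (nat_lit 16) (nat_lit 5) (nat_lit 18) (nat_lit 4) (nat_lit 16) (nat_lit 4) (nat_lit 458) (nat_lit 400) (nat_lit 342)) (XT.nd (nat_lit 78) (nat_lit 76) (nat_lit 0) (XT.lf (nat_lit 0) (nat_lit 49014809362) (nat_lit 152) (nat_lit 2590901488) (nat_lit 0) (nat_lit 31358149798) (nat_lit 16) (nat_lit 5) (nat_lit 18) (nat_lit 4) (nat_lit 16) (nat_lit 4) (nat_lit 459) (nat_lit 400) (nat_lit 341)) (XT.lf (nat_lit 0) (nat_lit 44845976198) (nat_lit 76) (nat_lit 30613720207) (nat_lit 76) (nat_lit 12942960282) (nat_lit 15) (nat_lit 4) (nat_lit 16) (nat_lit 5) (nat_lit 16) (nat_lit 4) (nat_lit 460) (nat_lit 400) (nat_lit 340))))) (XT.nd (nat_lit 234) (nat_lit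 228) (nat_lit 0) (XT.nd (nat_lit 78) (nat_lit 0) (nat_lit 0) (XT.lf (nat_lit 0) (nat_lit 1726024895) (nat_lit 76) (nat_lit 7742190084) (nat_lit 152) (nat_lit 84798913541) (nat_lit 13) (nat_lit 5) (nat_lit 14) (nat_lit 5) (nat_lit 15) (nat_lit 4) (nat_lit 461) (nat_lit 400) (nat_lit 339)) (XT.nd (nat_lit 78) (nat_lit 0) (nat_lit 0) (XT.lf (nat_lit 0) (nat_lit 34225542585) (nat_lit 152) (nat_lit 48941971567) (nat_lit 0) (nat_lit 17372300108) (nat_lit 13) (nat_lit 5) (nat_lit 15) (nat_lit 4) (nat_lit 13) (nat_lit 4) (nat_lit 462) (nat_lit 400) (nat_lit 338)) (XT.lf (nat_lit 0) (nat_lit 61061326436) (nat_lit 152) (nat_lit 2050672168) (nat_lit 0) (nat_lit 44197423652) (nat_lit 13) (nat_lit 5) (nat_lit 15) (nat_lit 4) (nat_lit 13) (nat_lit 4) (nat_lit 463) (nat_lit 400) (nat_lit 337)))) (XT.nd (nat_lit 156) (nat_lit 76) (nat_lit 0) (XT.nd (nat_lit 78) (nat_lit 76) (nat_lit 0) (XT.lf (nat_lit 0)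 (nat_lit 50136218312) (nat_lit 76) (nat_lit 40660264676) (nat_lit 76) (nat_lit 23786491239) (nat_lit 12) (nat_lit 4) (nat_lit 13) (nat_lit 5) (nat_lit 13) (nat_lit 4) (nat_lit 464) (nat_lit 400) (nat_lit 336)) (XT.lf (nat_lit 0) (nat_lit 463848169) (nat_lit 152) (nat_lit 15932024183) (nat_lit 76) (nat_lit 106041824507) (nat_lit 11) (nat_lit 5) (nat_lit 13) (nat_lit 5) (nat_lit 12) (nat_lit 4) (nat_lit 465) (nat_lit 400) (nat_lit 335))) (XT.nd (nat_lit 78) (nat_lit 0) (nat_lit 0) (XT.lf (nat_lit 0) (nat_lit 26554387527) (nat_lit 152) (nat_lit 93842873240) (nat_lit 0) (nat_lit 10467363312) (nat_lit 10) (nat_lit 5) (nat_lit 12) (nat_lit 4) (nat_lit 10) (nat_lit 4) (nat_lit 466) (nat_lit 400) (nat_lit 334)) (XT.lf (nat_lit 0) (nat_lit 55264292242) (nat_lit 152) (nat_lit 45505002245) (nat_lit 0) (nat_lit 39169805510) (nat_lit 10) (nat_lit 5) (nat_lit 12) (nat_lit 4) (nat_lit 10) (nat_lit 4) (nat_lit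 467) (nat_lit 400) (nat_lit 333)))))) (XT.nd (nat_lit 546) (nat_lit 228) (nat_lit 0) (XT.nd (nat_lit 234) (nat_lit 152) (nat_lit 0) (XT.nd (nat_lit 78) (nat_lit 0) (nat_lit 0) (XT.lf (nat_lit 0) (nat_lit 6870812525) (nat_lit 76) (nat_lit 79482988955) (nat_lit 76) (nat_lit 63381592484) (nat_lit 9) (nat_lit 4) (nat_lit 10) (nat_lit 5) (nat_lit 10) (nat_lit 4) (nat_lit 468) (nat_lit 400) (nat_lit 332)) (XT.nd (nat_lit 78) (nat_lit 0) (nat_lit 0) (XT.lf (nat_lit 0) (nat_lit 65014795870) (nat_lit 76) (nat_lit 55684963061) (nat_lit 76) (nat_lit 39577168685) (nat_lit 9) (nat_lit 4) (nat_lit 10) (nat_lit 5) (nat_lit 10) (nat_lit 4) (nat_lit 469) (nat_lit 400) (nat_lit 331)) (XT.lf (nat_lit 0) (nat_lit 127766903846) (nat_lit 76) (nat_lit 30004840699) (nat_lit 76) (nat_lit 13891122336) (nat_lit 9) (nat_lit 4) (nat_lit 10) (nat_lit 5) (nat_lit 10) (nat_lit 4) (nat_lit 470) (nat_lit 400) (nat_lit 330))))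 (XT.nd (nat_lit 156) (nat_lit 0) (nat_lit 0) (XT.nd (nat_lit 78) (nat_lit 0) (nat_lit 0) (XT.lf (nat_lit 0) (nat_lit 11696781147) (nat_lit 76) (nat_lit 1871991868) (nat_lit 152) (nat_lit 170371984716) (nat_lit 7) (nat_lit 5) (nat_lit 8) (nat_lit 5) (nat_lit 9) (nat_lit 4) (nat_lit 471) (nat_lit 400) (nat_lit 329)) (XT.lf (nat_lit 0) (nat_lit 43947826819) (nat_lit 152) (nat_lit 124589847678) (nat_lit 0) (nat_lit 28591367391) (nat_lit 7) (nat_lit 5) (nat_lit 9) (nat_lit 4) (nat_lit 7) (nat_lit 4) (nat_lit 472) (nat_lit 400) (nat_lit 328))) (XT.nd (nat_lit 78) (nat_lit 0) (nat_lit 0) (XT.lf (nat_lit 0) (nat_lit 76770454476) (nat_lit 152) (nat_lit 73191755872) (nat_lit 0) (nat_lit 61409516332) (nat_lit 7) (nat_lit 5) (nat_lit 9) (nat_lit 4) (nat_lit 7) (nat_lit 4) (nat_lit 473) (nat_lit 400) (nat_lit 327)) (XT.lf (nat_lit 0) (nat_lit 112201933405) (nat_lit 152) (nat_lit 17715892843) (nat_lit 0)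 (nat_lit 96836848302) (nat_lit 7) (nat_lit 5) (nat_lit 9) (nat_lit 4) (nat_lit 7) (nat_lit 4) (nat_lit 474) (nat_lit 400) (nat_lit 326))))) (XT.nd (nat_lit 234) (nat_lit 152) (nat_lit 0) (XT.nd (nat_lit 78) (nat_lit 0) (nat_lit 0) (XT.lf (nat_lit 0) (nat_lit 43560701761) (nat_lit 76) (nat_lit 107571630800) (nat_lit 76) (nat_lit 92202705919) (nat_lit 6) (nat_lit 4) (nat_lit 7) (nat_lit 5) (nat_lit 7) (nat_lit 4) (nat_lit 475) (nat_lit 400) (nat_lit 325)) (XT.nd (nat_lit 78) (nat_lit 0) (nat_lit 0) (XT.lf (nat_lit 0) (nat_lit 110341871998) (nat_lit 76) (nat_lit 83128880311) (nat_lit 76) (nat_lit 67756400082) (nat_lit 6) (nat_lit 4) (nat_lit 7) (nat_lit 5) (nat_lit 7) (nat_lit 4) (nat_lit 476) (nat_lit 400) (nat_lit 324)) (XT.lf (nat_lit 0) (nat_lit 182437590711) (nat_lit 76) (nat_lit 56744756072) (nat_lit 76) (nat_lit 41368983853) (nat_lit 6) (nat_lit 4) (nat_lit 7) (nat_lit 5) (nat_lit 7) (nat_lit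 4) (nat_lit 477) (nat_lit 400) (nat_lit 323)))) (XT.nd (nat_lit 156) (nat_lit 0) (nat_lit 0) (XT.nd (nat_lit 78) (nat_lit 152) (nat_lit 0) (XT.lf (nat_lit 0) (nat_lit 260275091789) (nat_lit 76) (nat_lit 28262907716) (nat_lit 76) (nat_lit 12884087358) (nat_lit 6) (nat_lit 4) (nat_lit 7) (nat_lit 5) (nat_lit 7) (nat_lit 4) (nat_lit 478) (nat_lit 400) (nat_lit 322)) (XT.lf (nat_lit 0) (nat_lit 17667683256) (nat_lit 152) (nat_lit 303244346238) (nat_lit 0) (nat_lit 3018499723) (nat_lit 4) (nat_lit 5) (nat_lit 6) (nat_lit 4) (nat_lit 4) (nat_lit 4) (nat_lit 479) (nat_lit 400) (nat_lit 321))) (XT.nd (nat_lit 78) (nat_lit 0) (nat_lit 0) (XT.lf (nat_lit 0) (nat_lit 51411541736) (nat_lit 152) (nat_lit 259997708255) (nat_lit 0) (nat_lit 36759869358) (nat_lit 4) (nat_lit 5) (nat_lit 6) (nat_lit 4) (nat_lit 4) (nat_lit 4) (nat_lit 480) (nat_lit 400) (nat_lit 320)) (XT.lf (nat_lit 0) (nat_lit 87844018846)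 (nat_lit 152) (nat_lit 213313280560) (nat_lit 0) (nat_lit 73190041982) (nat_lit 4) (nat_lit 5) (nat_lit 6) (nat_lit 4) (nat_lit 4) (nat_lit 4) (nat_lit 481) (nat_lit 400) (nat_lit 319))))))) (XT.nd (nat_lit 1014) (nat_lit 152) (nat_lit 0) (XT.nd (nat_lit 468) (nat_lit 0) (nat_lit 0) (XT.nd (nat_lit 234) (nat_lit 76) (nat_lit 0) (XT.nd (nat_lit 78) (nat_lit 0) (nat_lit 0) (XT.lf (nat_lit 0) (nat_lit 127181010748) (nat_lit 152) (nat_lit 162914414692) (nat_lit 0) (nat_lit 112524900100) (nat_lit 4) (nat_lit 5) (nat_lit 6) (nat_lit 4) (nat_lit 4) (nat_lit 4) (nat_lit 482) (nat_lit 400) (nat_lit 318)) (XT.nd (nat_lit 78) (nat_lit 0) (nat_lit 0) (XT.lf (nat_lit 0) (nat_lit 169655625541) (nat_lit 152) (nat_lit 108502450706) (nat_lit 0) (nat_lit 154997539167) (nat_lit 4) (nat_lit 5) (nat_lit 6) (nat_lit 4) (nat_lit 4) (nat_lit 4) (nat_lit 483) (nat_lit 400) (nat_lit 317)) (XT.lf (nat_lit 0) (nat_lit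 215519564646) (nat_lit 152) (nat_lit 49754947333) (nat_lit 0) (nat_lit 200859648897) (nat_lit 4) (nat_lit 5) (nat_lit 6) (nat_lit 4) (nat_lit 4) (nat_lit 4) (nat_lit 484) (nat_lit 400) (nat_lit 316)))) (XT.nd (nat_lit 78) (nat_lit 0) (nat_lit 0) (XT.lf (nat_lit 0) (nat_lit 14128426665) (nat_lit 76) (nat_lit 251136772038) (nat_lit 76) (nat_lit 236475162423) (nat_lit 3) (nat_lit 4) (nat_lit 4) (nat_lit 5) (nat_lit 4) (nat_lit 4) (nat_lit 485) (nat_lit 400) (nat_lit 315)) (XT.nd (nat_lit 78) (nat_lit 0) (nat_lit 0) (XT.lf (nat_lit 0) (nat_lit 84883777057) (nat_lit 76) (nat_lit 234965753075) (nat_lit 76) (nat_lit 220302575065) (nat_lit 3) (nat_lit 4) (nat_lit 4) (nat_lit 5) (nat_lit 4) (nat_lit 4) (nat_lit 486) (nat_lit 400) (nat_lit 314)) (XT.lf (nat_lit 0) (nat_lit 161285271548) (nat_lit 76) (nat_lit 217508250938) (nat_lit 76) (nat_lit 202843620710) (nat_lit 3) (nat_lit 4) (nat_lit 4) (nat_lit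 5) (nat_lit 4) (nat_lit 4) (nat_lit 487) (nat_lit 400) (nat_lit 313))))) (XT.nd (nat_lit 234) (nat_lit 0) (nat_lit 0) (XT.nd (nat_lit 78) (nat_lit 0) (nat_lit 0) (XT.lf (nat_lit 0) (nat_lit 243785659734) (nat_lit 76) (nat_lit 198660813762) (nat_lit 76) (nat_lit 183994838888) (nat_lit 3) (nat_lit 4) (nat_lit 4) (nat_lit 5) (nat_lit 4) (nat_lit 4) (nat_lit 488) (nat_lit 400) (nat_lit 312)) (XT.nd (nat_lit 78) (nat_lit 0) (nat_lit 0) (XT.lf (nat_lit 0) (nat_lit 332873832806) (nat_lit 76) (nat_lit 178311753030) (nat_lit 76) (nat_lit 163644533114) (nat_lit 3) (nat_lit 4) (nat_lit 4) (nat_lit 5) (nat_lit 4) (nat_lit 4) (nat_lit 489) (nat_lit 400) (nat_lit 311)) (XT.lf (nat_lit 0) (nat_lit 429077720677) (nat_lit 76) (nat_lit 156340481717) (nat_lit 76) (nat_lit 141672108984) (nat_lit 3) (nat_lit 4) (nat_lit 4) (nat_lit 5) (nat_lit 4) (nat_lit 4) (nat_lit 490) (nat_lit 400) (nat_lit 310)))) (XT.nd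 (nat_lit 156) (nat_lit 0) (nat_lit 0) (XT.nd (nat_lit 78) (nat_lit 0) (nat_lit 0) (XT.lf (nat_lit 0) (nat_lit 532967420461) (nat_lit 76) (nat_lit 132616799696) (nat_lit 76) (nat_lit 117947359539) (nat_lit 3) (nat_lit 4) (nat_lit 4) (nat_lit 5) (nat_lit 4) (nat_lit 4) (nat_lit 491) (nat_lit 400) (nat_lit 309)) (XT.lf (nat_lit 0) (nat_lit 645158574823) (nat_lit 76) (nat_lit 107000122184) (nat_lit 76) (nat_lit 92329693673) (nat_lit 3) (nat_lit 4) (nat_lit 4) (nat_lit 5) (nat_lit 4) (nat_lit 4) (nat_lit 492) (nat_lit 400) (nat_lit 308))) (XT.nd (nat_lit 78) (nat_lit 0) (nat_lit 0) (XT.lf (nat_lit 0) (nat_lit 766316020233) (nat_lit 76) (nat_lit 79338646648) (nat_lit 76) (nat_lit 64667302994) (nat_lit 3) (nat_lit 4) (nat_lit 4) (nat_lit 5) (nat_lit 4) (nat_lit 4) (nat_lit 493) (nat_lit 400) (nat_lit 307)) (XT.lf (nat_lit 0) (nat_lit 897157726739) (nat_lit 76) (nat_lit 49468453233) (nat_lit 76) (nat_lit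 34796262224) (nat_lit 3) (nat_lit 4) (nat_lit 4) (nat_lit 5) (nat_lit 4) (nat_lit 4) (nat_lit 494) (nat_lit 400) (nat_lit 306)))))) (XT.nd (nat_lit 55380) (nat_lit 0) (nat_lit 10716) (XT.nd (nat_lit 234) (nat_lit 0) (nat_lit 0) (XT.nd (nat_lit 78) (nat_lit 152) (nat_lit 0) (XT.lf (nat_lit 0) (nat_lit 1038459052601) (nat_lit 76) (nat_lit 17212533386) (nat_lit 76) (nat_lit 2539557789) (nat_lit 3) (nat_lit 4) (nat_lit 4) (nat_lit 5) (nat_lit 4) (nat_lit 4) (nat_lit 495) (nat_lit 400) (nat_lit 305)) (XT.nd (nat_lit 78) (nat_lit 0) (nat_lit 0) (XT.lf (nat_lit 0) (nat_lit 32353720246) (nat_lit 152) (nat_lit 1090330754290) (nat_lit 0) (nat_lit 18378765896) (nat_lit 1) (nat_lit 5) (nat_lit 3) (nat_lit 4) (nat_lit 1) (nat_lit 4) (nat_lit 496) (nat_lit 400) (nat_lit 304)) (XT.lf (nat_lit 0) (nat_lit 70587121121) (nat_lit 152) (nat_lit 1103310894288) (nat_lit 0) (nat_lit 56611526145) (nat_lit 1) (nat_lit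 5) (nat_lit 3) (nat_lit 4) (nat_lit 1) (nat_lit 4) (nat_lit 497) (nat_lit 400) (nat_lit 303)))) (XT.nd (nat_lit 54990) (nat_lit 0) (nat_lit 13452) (XT.nd (nat_lit 54912) (nat_lit 0) (nat_lit 13680) (XT.lf (nat_lit 0) (nat_lit 111875954189) (nat_lit 152) (nat_lit 1117335988581) (nat_lit 0) (nat_lit 97899766041) (nat_lit 1) (nat_lit 5) (nat_lit 3) (nat_lit 4) (nat_lit 1) (nat_lit 4) (nat_lit 498) (nat_lit 400) (nat_lit 302)) (XT.lf (nat_lit 0) (nat_lit 1500206000) (nat_lit 228) (nat_lit 867314373) (nat_lit 228) (nat_lit 867314373) (nat_lit 181) (nat_lit 3) (nat_lit 184) (nat_lit 3) (nat_lit 184) (nat_lit 5) (nat_lit 401) (nat_lit 401) (nat_lit 398))) (XT.nd (nat_lit 78) (nat_lit 0) (nat_lit 0) (XT.lf (nat_lit 0) (nat_lit 911079880) (nat_lit 228) (nat_lit 3092915606) (nat_lit 304) (nat_lit 2504238475) (nat_lit 178) (nat_lit 5) (nat_lit 181) (nat_lit 3) (nat_lit 182) (nat_lit 5) (nat_lit 402)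 (nat_lit 401) (nat_lit 397)) (XT.lf (nat_lit 76) (nat_lit 2257095179) (nat_lit 0) (nat_lit 2891966766) (nat_lit 304) (nat_lit 1416825691) (nat_lit 179) (nat_lit 5) (nat_lit 178) (nat_lit 5) (nat_lit 182) (nat_lit 5) (nat_lit 403) (nat_lit 401) (nat_lit 396))))) (XT.nd (nat_lit 234) (nat_lit 2128) (nat_lit 0) (XT.nd (nat_lit 78) (nat_lit 304) (nat_lit 0) (XT.lf (nat_lit 76) (nat_lit 1260910927) (nat_lit 0) (nat_lit 1395337338) (nat_lit 380) (nat_lit 3986865458) (nat_lit 175) (nat_lit 5) (nat_lit 174) (nat_lit 5) (nat_lit 179) (nat_lit 5) (nat_lit 404) (nat_lit 401) (nat_lit 395)) (XT.nd (nat_lit 78) (nat_lit 76) (nat_lit 0) (XT.lf (nat_lit 0) (nat_lit 431029927) (nat_lit 304) (nat_lit 6274153955) (nat_lit 380) (nat_lit 35423391) (nat_lit 171) (nat_lit 5) (nat_lit 175) (nat_lit 5) (nat_lit 176) (nat_lit 5) (nat_lit 405) (nat_lit 401) (nat_lit 394)) (XT.lf (nat_lit 0) (nat_lit 3846664400) (nat_lit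 380) (nat_lit 293357629) (nat_lit 76) (nat_lit 2715281094) (nat_lit 170) (nat_lit 5) (nat_lit 175) (nat_lit 5) (nat_lit 171) (nat_lit 5) (nat_lit 406) (nat_lit 401) (nat_lit 393)))) (XT.nd (nat_lit 156) (nat_lit 1216) (nat_lit 0) (XT.nd (nat_lit 78) (nat_lit 456) (nat_lit 0) (XT.lf (nat_lit 0) (nat_lit 775473504) (nat_lit 456) (nat_lit 846545440) (nat_lit 76) (nat_lit 5368959866) (nat_lit 164) (nat_lit 5) (nat_lit 170) (nat_lit 5) (nat_lit 165) (nat_lit 5) (nat_lit 407) (nat_lit 401) (nat_lit 392)) (XT.lf (nat_lit 0) (nat_lit 4550630349) (nat_lit 532) (nat_lit 1303493376) (nat_lit 76) (nat_lit 1291400622) (nat_lit 158) (nat_lit 5) (nat_lit 165) (nat_lit 5) (nat_lit 159) (nat_lit 5) (nat_lit 408) (nat_lit 401) (nat_lit 391))) (XT.nd (nat_lit 78) (nat_lit 608) (nat_lit 0) (XT.lf (nat_lit 0) (nat_lit 1097773278) (nat_lit 608) (nat_lit 1649565818) (nat_lit 76) (nat_lit 4572990469) (nat_lit 150)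 (nat_lit 5) (nat_lit 158) (nat_lit 5) (nat_lit 151) (nat_lit 5) (nat_lit 409) (nat_lit 401) (nat_lit 390)) (XT.lf (nat_lit 0) (nat_lit 4830081922) (nat_lit 684) (nat_lit 1899365325) (nat_lit 76) (nat_lit 785925205) (nat_lit 142) (nat_lit 5) (nat_lit 151) (nat_lit 5) (nat_lit 143) (nat_lit 5) (nat_lit 410) (nat_lit 401) (nat_lit 389))))))))
noncomputable def xc48 : XT := (XT.nd (nat_lit 2028) (nat_lit 2356) (nat_lit 0) (XT.nd (nat_lit 1014) (nat_lit 2356) (nat_lit 0) (XT.nd (nat_lit 468) (nat_lit 1976) (nat_lit 0) (XT.nd (nat_lit 234) (nat_lit 1140) (nat_lit 0) (XT.nd (nat_lit 78) (nat_lit 1216) (nat_lit 0) (XT.lf (nat_lit 0) (nat_lit 989541280) (nat_lit 760) (nat_lit 2067033509) (nat_lit 76) (nat_lit 4674133482) (nat_lit 132) (nat_lit 5) (nat_lit 142) (nat_lit 5) (nat_lit 133) (nat_lit 5) (nat_lit 411) (nat_lit 401) (nat_lit 388)) (XT.nd (nat_lit 78) (nat_lit 456) (nat_lit 0) (XT.lf (nat_lit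 0) (nat_lit 4747950209) (nat_lit 836) (nat_lit 2155765428) (nat_lit 76) (nat_lit 1063282813) (nat_lit 122) (nat_lit 5) (nat_lit 133) (nat_lit 5) (nat_lit 123) (nat_lit 5) (nat_lit 412) (nat_lit 401) (nat_lit 387)) (XT.lf (nat_lit 0) (nat_lit 504028288) (nat_lit 456) (nat_lit 2169347958) (nat_lit 76) (nat_lit 5551562521) (nat_lit 116) (nat_lit 5) (nat_lit 122) (nat_lit 5) (nat_lit 117) (nat_lit 5) (nat_lit 413) (nat_lit 401) (nat_lit 386)))) (XT.nd (nat_lit 78) (nat_lit 760) (nat_lit 0) (XT.lf (nat_lit 0) (nat_lit 4350956101) (nat_lit 456) (nat_lit 2136900450) (nat_lit 76) (nat_lit 2016171441) (nat_lit 111) (nat_lit 5) (nat_lit 117) (nat_lit 5) (nat_lit 112) (nat_lit 5) (nat_lit 414) (nat_lit 401) (nat_lit 385)) (XT.nd (nat_lit 78) (nat_lit 380) (nat_lit 0) (XT.lf (nat_lit 0) (nat_lit 6783921168) (nat_lit 380) (nat_lit 1691079586) (nat_lit 456) (nat_lit 332060188) (nat_lit 106) (nat_lit 5)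 (nat_lit 111) (nat_lit 5) (nat_lit 112) (nat_lit 5) (nat_lit 415) (nat_lit 401) (nat_lit 384)) (XT.lf (nat_lit 0) (nat_lit 3671353627) (nat_lit 380) (nat_lit 1900283372) (nat_lit 76) (nat_lit 3559903337) (nat_lit 101) (nat_lit 5) (nat_lit 106) (nat_lit 5) (nat_lit 102) (nat_lit 5) (nat_lit 416) (nat_lit 401) (nat_lit 383))))) (XT.nd (nat_lit 234) (nat_lit 1064) (nat_lit 0) (XT.nd (nat_lit 78) (nat_lit 608) (nat_lit 0) (XT.lf (nat_lit 0) (nat_lit 7789581431) (nat_lit 304) (nat_lit 180447878) (nat_lit 380) (nat_lit 1512414637) (nat_lit 97) (nat_lit 5) (nat_lit 101) (nat_lit 5) (nat_lit 102) (nat_lit 5) (nat_lit 417) (nat_lit 401) (nat_lit 382)) (XT.nd (nat_lit 78) (nat_lit 304) (nat_lit 0) (XT.lf (nat_lit 0) (nat_lit 2727988251) (nat_lit 304) (nat_lit 1500589135) (nat_lit 76) (nat_lit 5627512579) (nat_lit 93) (nat_lit 5) (nat_lit 97) (nat_lit 5) (nat_lit 94) (nat_lit 5) (nat_lit 418) (nat_lit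 401) (nat_lit 381)) (XT.lf (nat_lit 0) (nat_lit 7275654083) (nat_lit 380) (nat_lit 1253419302) (nat_lit 76) (nat_lit 1728320159) (nat_lit 89) (nat_lit 5) (nat_lit 94) (nat_lit 5) (nat_lit 90) (nat_lit 5) (nat_lit 419) (nat_lit 401) (nat_lit 380)))) (XT.nd (nat_lit 156) (nat_lit 532) (nat_lit 0) (XT.nd (nat_lit 78) (nat_lit 228) (nat_lit 0) (XT.lf (nat_lit 0) (nat_lit 1526688932) (nat_lit 304) (nat_lit 993692922) (nat_lit 76) (nat_lit 8165388809) (nat_lit 85) (nat_lit 5) (nat_lit 89) (nat_lit 5) (nat_lit 86) (nat_lit 5) (nat_lit 420) (nat_lit 401) (nat_lit 379)) (XT.lf (nat_lit 0) (nat_lit 6377146938) (nat_lit 304) (nat_lit 744559519) (nat_lit 76) (nat_lit 4020022514) (nat_lit 82) (nat_lit 5) (nat_lit 86) (nat_lit 5) (nat_lit 83) (nat_lit 5) (nat_lit 421) (nat_lit 401) (nat_lit 378))) (XT.nd (nat_lit 78) (nat_lit 228) (nat_lit 0) (XT.lf (nat_lit 0) (nat_lit 59978290) (nat_lit 304) (nat_lit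 441131854) (nat_lit 76) (nat_lit 11129213536) (nat_lit 78) (nat_lit 5) (nat_lit 82) (nat_lit 5) (nat_lit 79) (nat_lit 5) (nat_lit 422) (nat_lit 401) (nat_lit 377)) (XT.lf (nat_lit 0) (nat_lit 5261863506) (nat_lit 304) (nat_lit 229464416) (nat_lit 76) (nat_lit 6654895912) (nat_lit 75) (nat_lit 5) (nat_lit 79) (nat_lit 5) (nat_lit 76) (nat_lit 5) (nat_lit 423) (nat_lit 401) (nat_lit 376)))))) (XT.nd (nat_lit 468) (nat_lit 988) (nat_lit 0) (XT.nd (nat_lit 234) (nat_lit 608) (nat_lit 0) (XT.nd (nat_lit 78) (nat_lit 380) (nat_lit 0) (XT.lf (nat_lit 0) (nat_lit 30157595) (nat_lit 228) (nat_lit 10948497425) (nat_lit 304) (nat_lit 1719838072) (nat_lit 70) (nat_lit 5) (nat_lit 73) (nat_lit 5) (nat_lit 74) (nat_lit 5) (nat_lit 424) (nat_lit 401) (nat_lit 375)) (XT.nd (nat_lit 78) (nat_lit 152) (nat_lit 0) (XT.lf (nat_lit 0) (nat_lit 218964909) (nat_lit 152) (nat_lit 3689990273) (nat_lit 228) (nat_lit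 9374278647) (nat_lit 67) (nat_lit 5) (nat_lit 69) (nat_lit 5) (nat_lit 70) (nat_lit 5) (nat_lit 425) (nat_lit 401) (nat_lit 374)) (XT.lf (nat_lit 0) (nat_lit 378137872) (nat_lit 152) (nat_lit 9706738870) (nat_lit 228) (nat_lit 3820641868) (nat_lit 65) (nat_lit 5) (nat_lit 67) (nat_lit 5) (nat_lit 68) (nat_lit 5) (nat_lit 426) (nat_lit 401) (nat_lit 373)))) (XT.nd (nat_lit 78) (nat_lit 380) (nat_lit 0) (XT.lf (nat_lit 0) (nat_lit 494882079) (nat_lit 152) (nat_lit 1780029444) (nat_lit 228) (nat_lit 12292634456) (nat_lit 62) (nat_lit 5) (nat_lit 64) (nat_lit 5) (nat_lit 65) (nat_lit 5) (nat_lit 427) (nat_lit 401) (nat_lit 372)) (XT.nd (nat_lit 78) (nat_lit 228) (nat_lit 0) (XT.lf (nat_lit 0) (nat_lit 479473486) (nat_lit 152) (nat_lit 8470906024) (nat_lit 228) (nat_lit 6317741249) (nat_lit 60) (nat_lit 5) (nat_lit 62) (nat_lit 5) (nat_lit 63) (nat_lit 5) (nat_lit 428) (nat_lit 401) (nat_lit 371))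 (XT.lf (nat_lit 0) (nat_lit 295466919) (nat_lit 228) (nat_lit 15562633595) (nat_lit 76) (nat_lit 158323561) (nat_lit 57) (nat_lit 5) (nat_lit 60) (nat_lit 5) (nat_lit 58) (nat_lit 5) (nat_lit 429) (nat_lit 401) (nat_lit 370))))) (XT.nd (nat_lit 234) (nat_lit 608) (nat_lit 0) (XT.nd (nat_lit 78) (nat_lit 228) (nat_lit 0) (XT.lf (nat_lit 0) (nat_lit 180753108) (nat_lit 152) (nat_lit 7326718995) (nat_lit 228) (nat_lit 9297405895) (nat_lit 55) (nat_lit 5) (nat_lit 57) (nat_lit 5) (nat_lit 58) (nat_lit 5) (nat_lit 430) (nat_lit 401) (nat_lit 369)) (XT.nd (nat_lit 78) (nat_lit 228) (nat_lit 0) (XT.lf (nat_lit 0) (nat_lit 15486610144) (nat_lit 228) (nat_lit 136458034) (nat_lit 76) (nat_lit 2023849007) (nat_lit 55) (nat_lit 5) (nat_lit 58) (nat_lit 5) (nat_lit 56) (nat_lit 4) (nat_lit 431) (nat_lit 401) (nat_lit 368)) (XT.lf (nat_lit 0) (nat_lit 5672313292) (nat_lit 228) (nat_lit 696502309) (nat_lit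 76) (nat_lit 12168082774) (nat_lit 52) (nat_lit 5) (nat_lit 55) (nat_lit 5) (nat_lit 53) (nat_lit 5) (nat_lit 432) (nat_lit 401) (nat_lit 367)))) (XT.nd (nat_lit 156) (nat_lit 304) (nat_lit 0) (XT.nd (nat_lit 78) (nat_lit 152) (nat_lit 0) (XT.lf (nat_lit 0) (nat_lit 14300100408) (nat_lit 228) (nat_lit 1421533593) (nat_lit 76) (nat_lit 3762475474) (nat_lit 50) (nat_lit 5) (nat_lit 53) (nat_lit 5) (nat_lit 51) (nat_lit 4) (nat_lit 433) (nat_lit 401) (nat_lit 366)) (XT.lf (nat_lit 0) (nat_lit 3320226331) (nat_lit 152) (nat_lit 2407419759) (nat_lit 76) (nat_lit 14761596189) (nat_lit 48) (nat_lit 5) (nat_lit 50) (nat_lit 5) (nat_lit 49) (nat_lit 5) (nat_lit 434) (nat_lit 401) (nat_lit 365))) (XT.nd (nat_lit 78) (nat_lit 152) (nat_lit 0) (XT.lf (nat_lit 0) (nat_lit 12619254892) (nat_lit 228) (nat_lit 3706552691) (nat_lit 76) (nat_lit 5229936814) (nat_lit 46) (nat_lit 5) (nat_lit 49) (nat_lit 5)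 (nat_lit 47) (nat_lit 4) (nat_lit 435) (nat_lit 401) (nat_lit 364)) (XT.lf (nat_lit 0) (nat_lit 279638884) (nat_lit 152) (nat_lit 5296933475) (nat_lit 76) (nat_lit 17114862669) (nat_lit 44) (nat_lit 5) (nat_lit 46) (nat_lit 5) (nat_lit 45) (nat_lit 5) (nat_lit 436) (nat_lit 401) (nat_lit 363))))))) (XT.nd (nat_lit 1014) (nat_lit 988) (nat_lit 0) (XT.nd (nat_lit 468) (nat_lit 608) (nat_lit 0) (XT.nd (nat_lit 234) (nat_lit 304) (nat_lit 0) (XT.nd (nat_lit 78) (nat_lit 304) (nat_lit 0) (XT.lf (nat_lit 0) (nat_lit 10260466232) (nat_lit 228) (nat_lit 7381041827) (nat_lit 76) (nat_lit 6252132438) (nat_lit 42) (nat_lit 5) (nat_lit 45) (nat_lit 5) (nat_lit 43) (nat_lit 4) (nat_lit 437) (nat_lit 401) (nat_lit 362)) (XT.nd (nat_lit 78) (nat_lit 228) (nat_lit 0) (XT.lf (nat_lit 0) (nat_lit 15303896275) (nat_lit 76) (nat_lit 6076106362) (nat_lit 152) (nat_lit 3795016480) (nat_lit 41) (nat_lit 5) (nat_lit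 42) (nat_lit 5) (nat_lit 43) (nat_lit 4) (nat_lit 438) (nat_lit 401) (nat_lit 361)) (XT.lf (nat_lit 0) (nat_lit 6978593087) (nat_lit 228) (nat_lit 12957754885) (nat_lit 76) (nat_lit 6598885542) (nat_lit 38) (nat_lit 5) (nat_lit 41) (nat_lit 5) (nat_lit 39) (nat_lit 4) (nat_lit 439) (nat_lit 401) (nat_lit 360)))) (XT.nd (nat_lit 78) (nat_lit 228) (nat_lit 0) (XT.lf (nat_lit 0) (nat_lit 11300112011) (nat_lit 76) (nat_lit 7555444202) (nat_lit 152) (nat_lit 9126884230) (nat_lit 37) (nat_lit 5) (nat_lit 38) (nat_lit 5) (nat_lit 39) (nat_lit 4) (nat_lit 440) (nat_lit 401) (nat_lit 359)) (XT.nd (nat_lit 78) (nat_lit 76) (nat_lit 0) (XT.lf (nat_lit 0) (nat_lit 2448902634) (nat_lit 152) (nat_lit 21110250478) (nat_lit 76) (nat_lit 5965605985) (nat_lit 35) (nat_lit 5) (nat_lit 37) (nat_lit 5) (nat_lit 36) (nat_lit 4) (nat_lit 441) (nat_lit 401) (nat_lit 358)) (XT.lf (nat_lit 0) (nat_lit 4658461524) (nat_lit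 76) (nat_lit 10396354607) (nat_lit 152) (nat_lit 16106980704) (nat_lit 34) (nat_lit 5) (nat_lit 35) (nat_lit 5) (nat_lit 36) (nat_lit 4) (nat_lit 442) (nat_lit 401) (nat_lit 357))))) (XT.nd (nat_lit 234) (nat_lit 380) (nat_lit 0) (XT.nd (nat_lit 78) (nat_lit 152) (nat_lit 0) (XT.lf (nat_lit 0) (nat_lit 129749188) (nat_lit 76) (nat_lit 28901399425) (nat_lit 76) (nat_lit 3880557153) (nat_lit 33) (nat_lit 4) (nat_lit 34) (nat_lit 5) (nat_lit 34) (nat_lit 4) (nat_lit 443) (nat_lit 401) (nat_lit 356)) (XT.nd (nat_lit 78) (nat_lit 76) (nat_lit 0) (XT.lf (nat_lit 0) (nat_lit 9598827194) (nat_lit 152) (nat_lit 5403187299) (nat_lit 76) (nat_lit 19763655440) (nat_lit 32) (nat_lit 5) (nat_lit 34) (nat_lit 5) (nat_lit 33) (nat_lit 4) (nat_lit 444) (nat_lit 401) (nat_lit 355)) (XT.lf (nat_lit 0) (nat_lit 24349738484) (nat_lit 152) (nat_lit 11988159220) (nat_lit 0) (nat_lit 410420610) (nat_lit 31) (nat_lit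 5) (nat_lit 33) (nat_lit 4) (nat_lit 31) (nat_lit 4) (nat_lit 445) (nat_lit 401) (nat_lit 354)))) (XT.nd (nat_lit 156) (nat_lit 152) (nat_lit 0) (XT.nd (nat_lit 78) (nat_lit 76) (nat_lit 0) (XT.lf (nat_lit 0) (nat_lit 1935488847) (nat_lit 152) (nat_lit 20020508169) (nat_lit 76) (nat_lit 16903056002) (nat_lit 29) (nat_lit 5) (nat_lit 31) (nat_lit 5) (nat_lit 30) (nat_lit 4) (nat_lit 446) (nat_lit 401) (nat_lit 353)) (XT.lf (nat_lit 0) (nat_lit 11466243692) (nat_lit 76) (nat_lit 5850742192) (nat_lit 152) (nat_lit 23794747052) (nat_lit 28) (nat_lit 5) (nat_lit 29) (nat_lit 5) (nat_lit 30) (nat_lit 4) (nat_lit 447) (nat_lit 401) (nat_lit 352))) (XT.nd (nat_lit 78) (nat_lit 76) (nat_lit 0) (XT.lf (nat_lit 0) (nat_lit 2435238327) (nat_lit 76) (nat_lit 32006421446) (nat_lit 76) (nat_lit 9077337998) (nat_lit 27) (nat_lit 4) (nat_lit 28) (nat_lit 5) (nat_lit 28) (nat_lit 4) (nat_lit 448) (nat_lit 401)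 (nat_lit 351)) (XT.lf (nat_lit 0) (nat_lit 7164510437) (nat_lit 152) (nat_lit 8278839031) (nat_lit 76) (nat_lit 30641912911) (nat_lit 26) (nat_lit 5) (nat_lit 28) (nat_lit 5) (nat_lit 27) (nat_lit 4) (nat_lit 449) (nat_lit 401) (nat_lit 350)))))) (XT.nd (nat_lit 546) (nat_lit 456) (nat_lit 0) (XT.nd (nat_lit 234) (nat_lit 228) (nat_lit 0) (XT.nd (nat_lit 78) (nat_lit 228) (nat_lit 0) (XT.lf (nat_lit 0) (nat_lit 24818716357) (nat_lit 152) (nat_lit 21095497919) (nat_lit 0) (nat_lit 2913624430) (nat_lit 25) (nat_lit 5) (nat_lit 27) (nat_lit 4) (nat_lit 25) (nat_lit 4) (nat_lit 450) (nat_lit 401) (nat_lit 349)) (XT.nd (nat_lit 78) (nat_lit 152) (nat_lit 0) (XT.lf (nat_lit 0) (nat_lit 15260942766) (nat_lit 76) (nat_lit 29217268905) (nat_lit 76) (nat_lit 7281964373) (nat_lit 24) (nat_lit 4) (nat_lit 25) (nat_lit 5) (nat_lit 25) (nat_lit 4) (nat_lit 451) (nat_lit 401) (nat_lit 348)) (XT.lf (nat_lit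 0) (nat_lit 99884488) (nat_lit 76) (nat_lit 10662634367) (nat_lit 152) (nat_lit 44139951451) (nat_lit 22) (nat_lit 5) (nat_lit 23) (nat_lit 5) (nat_lit 24) (nat_lit 4) (nat_lit 452) (nat_lit 401) (nat_lit 347)))) (XT.nd (nat_lit 156) (nat_lit 152) (nat_lit 0) (XT.nd (nat_lit 78) (nat_lit 76) (nat_lit 0) (XT.lf (nat_lit 0) (nat_lit 30742236555) (nat_lit 152) (nat_lit 17710445962) (nat_lit 0) (nat_lit 9800158836) (nat_lit 22) (nat_lit 5) (nat_lit 24) (nat_lit 4) (nat_lit 22) (nat_lit 4) (nat_lit 453) (nat_lit 401) (nat_lit 346)) (XT.lf (nat_lit 0) (nat_lit 22809702881) (nat_lit 76) (nat_lit 30000971682) (nat_lit 76) (nat_lit 9036052305) (nat_lit 21) (nat_lit 4) (nat_lit 22) (nat_lit 5) (nat_lit 22) (nat_lit 4) (nat_lit 454) (nat_lit 401) (nat_lit 345))) (XT.nd (nat_lit 78) (nat_lit 0) (nat_lit 0) (XT.lf (nat_lit 0) (nat_lit 1269132533) (nat_lit 76) (nat_lit 9587063365) (nat_lit 152) (nat_lit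 54848950870) (nat_lit 19) (nat_lit 5) (nat_lit 20) (nat_lit 5) (nat_lit 21) (nat_lit 4) (nat_lit 455) (nat_lit 401) (nat_lit 344)) (XT.lf (nat_lit 0) (nat_lit 32870242517) (nat_lit 152) (nat_lit 24087383260) (nat_lit 0) (nat_lit 12864859566) (nat_lit 19) (nat_lit 5) (nat_lit 21) (nat_lit 4) (nat_lit 19) (nat_lit 4) (nat_lit 456) (nat_lit 401) (nat_lit 343))))) (XT.nd (nat_lit 234) (nat_lit 228) (nat_lit 0) (XT.nd (nat_lit 78) (nat_lit 152) (nat_lit 0) (XT.lf (nat_lit 0) (nat_lit 19885347968) (nat_lit 76) (nat_lit 37192448628) (nat_lit 76) (nat_lit 17169796683) (nat_lit 18) (nat_lit 4) (nat_lit 19) (nat_lit 5) (nat_lit 19) (nat_lit 4) (nat_lit 457) (nat_lit 401) (nat_lit 342)) (XT.nd (nat_lit 78) (nat_lit 76) (nat_lit 0) (XT.lf (nat_lit 0) (nat_lit 4448844686) (nat_lit 152) (nat_lit 10918510147) (nat_lit 76) (nat_lit 63636687645) (nat_lit 17) (nat_lit 5) (nat_lit 19) (nat_lit 5) (nat_lit 18)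 (nat_lit 4) (nat_lit 458) (nat_lit 401) (nat_lit 341)) (XT.lf (nat_lit 0) (nat_lit 27884291930) (nat_lit 152) (nat_lit 47422429390) (nat_lit 0) (nat_lit 8785770850) (nat_lit 16) (nat_lit 5) (nat_lit 18) (nat_lit 4) (nat_lit 16) (nat_lit 4) (nat_lit 459) (nat_lit 401) (nat_lit 340)))) (XT.nd (nat_lit 156) (nat_lit 152) (nat_lit 0) (XT.nd (nat_lit 78) (nat_lit 76) (nat_lit 0) (XT.lf (nat_lit 0) (nat_lit 53612340614) (nat_lit 152) (nat_lit 1454026401) (nat_lit 0) (nat_lit 34500763644) (nat_lit 16) (nat_lit 5) (nat_lit 18) (nat_lit 4) (nat_lit 16) (nat_lit 4) (nat_lit 460) (nat_lit 401) (nat_lit 339)) (XT.lf (nat_lit 0) (nat_lit 49719386501) (nat_lit 76) (nat_lit 32423406262) (nat_lit 76) (nat_lit 13299740505) (nat_lit 15) (nat_lit 4) (nat_lit 16) (nat_lit 5) (nat_lit 16) (nat_lit 4) (nat_lit 461) (nat_lit 401) (nat_lit 338))) (XT.nd (nat_lit 78) (nat_lit 0) (nat_lit 0) (XT.lf (nat_lit 0) (nat_lit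 3114758157) (nat_lit 76) (nat_lit 7738713664) (nat_lit 152) (nat_lit 90923619432) (nat_lit 13) (nat_lit 5) (nat_lit 14) (nat_lit 5) (nat_lit 15) (nat_lit 4) (nat_lit 462) (nat_lit 401) (nat_lit 337)) (XT.lf (nat_lit 0) (nat_lit 37553886087) (nat_lit 152) (nat_lit 51679241921) (nat_lit 0) (nat_lit 19320340121) (nat_lit 13) (nat_lit 5) (nat_lit 15) (nat_lit 4) (nat_lit 13) (nat_lit 4) (nat_lit 463) (nat_lit 401) (nat_lit 336))))))))
noncomputable def xc49 : XT := (XT.nd (nat_lit 2028) (nat_lit 152) (nat_lit 0) (XT.nd (nat_lit 1014) (nat_lit 228) (nat_lit 0) (XT.nd (nat_lit 468) (nat_lit 228) (nat_lit 0) (XT.nd (nat_lit 234) (nat_lit 152) (nat_lit 0) (XT.nd (nat_lit 78) (nat_lit 152) (nat_lit 0) (XT.lf (nat_lit 0) (nat_lit 66492806713) (nat_lit 152) (nat_lit 1123904302) (nat_lit 0) (nat_lit 48250121253) (nat_lit 13) (nat_lit 5) (nat_lit 15) (nat_lit 4) (nat_lit 13) (nat_lit 4) (nat_lit 464) (nat_lit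 401) (nat_lit 335)) (XT.nd (nat_lit 78) (nat_lit 76) (nat_lit 0) (XT.lf (nat_lit 0) (nat_lit 55190531638) (nat_lit 76) (nat_lit 43392047823) (nat_lit 76) (nat_lit 25140899868) (nat_lit 12) (nat_lit 4) (nat_lit 13) (nat_lit 5) (nat_lit 13) (nat_lit 4) (nat_lit 465) (nat_lit 401) (nat_lit 334)) (XT.lf (nat_lit 0) (nat_lit 992580933) (nat_lit 152) (nat_lit 16224192684) (nat_lit 76) (nat_lit 114991345448) (nat_lit 11) (nat_lit 5) (nat_lit 13) (nat_lit 5) (nat_lit 12) (nat_lit 4) (nat_lit 466) (nat_lit 401) (nat_lit 333)))) (XT.nd (nat_lit 78) (nat_lit 76) (nat_lit 0) (XT.lf (nat_lit 0) (nat_lit 29155953337) (nat_lit 152) (nat_lit 100394433130) (nat_lit 0) (nat_lit 11759535411) (nat_lit 10) (nat_lit 5) (nat_lit 12) (nat_lit 4) (nat_lit 10) (nat_lit 4) (nat_lit 467) (nat_lit 401) (nat_lit 332)) (XT.nd (nat_lit 78) (nat_lit 76) (nat_lit 0) (XT.lf (nat_lit 0) (nat_lit 60127301184) (nat_lit 152) (nat_lit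 48260337639) (nat_lit 0) (nat_lit 42724485352) (nat_lit 10) (nat_lit 5) (nat_lit 12) (nat_lit 4) (nat_lit 10) (nat_lit 4) (nat_lit 468) (nat_lit 401) (nat_lit 331)) (XT.lf (nat_lit 0) (nat_lit 8267078476) (nat_lit 76) (nat_lit 85417379716) (nat_lit 76) (nat_lit 68008639897) (nat_lit 9) (nat_lit 4) (nat_lit 10) (nat_lit 5) (nat_lit 10) (nat_lit 4) (nat_lit 469) (nat_lit 401) (nat_lit 330))))) (XT.nd (nat_lit 234) (nat_lit 76) (nat_lit 0) (XT.nd (nat_lit 78) (nat_lit 152) (nat_lit 0) (XT.lf (nat_lit 0) (nat_lit 70999869307) (nat_lit 76) (nat_lit 59746937555) (nat_lit 76) (nat_lit 42332712563) (nat_lit 9) (nat_lit 4) (nat_lit 10) (nat_lit 5) (nat_lit 10) (nat_lit 4) (nat_lit 470) (nat_lit 401) (nat_lit 329)) (XT.nd (nat_lit 78) (nat_lit 152) (nat_lit 0) (XT.lf (nat_lit 0) (nat_lit 138714080013) (nat_lit 76) (nat_lit 32041503370) (nat_lit 76) (nat_lit 14622199515) (nat_lit 9) (nat_lit 4) (nat_lit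 10) (nat_lit 5) (nat_lit 10) (nat_lit 4) (nat_lit 471) (nat_lit 401) (nat_lit 328)) (XT.lf (nat_lit 0) (nat_lit 13338452022) (nat_lit 76) (nat_lit 1667625309) (nat_lit 152) (nat_lit 183632343515) (nat_lit 7) (nat_lit 5) (nat_lit 8) (nat_lit 5) (nat_lit 9) (nat_lit 4) (nat_lit 472) (nat_lit 401) (nat_lit 327)))) (XT.nd (nat_lit 156) (nat_lit 76) (nat_lit 0) (XT.nd (nat_lit 78) (nat_lit 0) (nat_lit 0) (XT.lf (nat_lit 0) (nat_lit 47794515346) (nat_lit 152) (nat_lit 133892223465) (nat_lit 0) (nat_lit 31196076476) (nat_lit 7) (nat_lit 5) (nat_lit 9) (nat_lit 4) (nat_lit 7) (nat_lit 4) (nat_lit 473) (nat_lit 401) (nat_lit 326)) (XT.lf (nat_lit 0) (nat_lit 83218444891) (nat_lit 152) (nat_lit 78431529649) (nat_lit 0) (nat_lit 66616166243) (nat_lit 7) (nat_lit 5) (nat_lit 9) (nat_lit 4) (nat_lit 7) (nat_lit 4) (nat_lit 474) (nat_lit 401) (nat_lit 325))) (XT.nd (nat_lit 78) (nat_lit 76) (nat_lit 0)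 (XT.lf (nat_lit 0) (nat_lit 121461749242) (nat_lit 152) (nat_lit 18563195111) (nat_lit 0) (nat_lit 104855915245) (nat_lit 7) (nat_lit 5) (nat_lit 9) (nat_lit 4) (nat_lit 7) (nat_lit 4) (nat_lit 475) (nat_lit 401) (nat_lit 324)) (XT.lf (nat_lit 0) (nat_lit 47590756896) (nat_lit 76) (nat_lit 115903323579) (nat_lit 76) (nat_lit 99294197592) (nat_lit 6) (nat_lit 4) (nat_lit 7) (nat_lit 5) (nat_lit 7) (nat_lit 4) (nat_lit 476) (nat_lit 401) (nat_lit 323)))))) (XT.nd (nat_lit 468) (nat_lit 76) (nat_lit 0) (XT.nd (nat_lit 234) (nat_lit 152) (nat_lit 0) (XT.nd (nat_lit 78) (nat_lit 0) (nat_lit 0) (XT.lf (nat_lit 0) (nat_lit 119674035642) (nat_lit 76) (nat_lit 89525452139) (nat_lit 76) (nat_lit 72913278014) (nat_lit 6) (nat_lit 4) (nat_lit 7) (nat_lit 5) (nat_lit 7) (nat_lit 4) (nat_lit 477) (nat_lit 401) (nat_lit 322)) (XT.nd (nat_lit 78) (nat_lit 0) (nat_lit 0) (XT.lf (nat_lit 0) (nat_lit 197500018231)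 (nat_lit 76) (nat_lit 61049393413) (nat_lit 76) (nat_lit 44434396936) (nat_lit 6) (nat_lit 4) (nat_lit 7) (nat_lit 5) (nat_lit 7) (nat_lit 4) (nat_lit 478) (nat_lit 401) (nat_lit 321)) (XT.lf (nat_lit 0) (nat_lit 281529895672) (nat_lit 76) (nat_lit 30306400384) (nat_lit 76) (nat_lit 13688790620) (nat_lit 6) (nat_lit 4) (nat_lit 7) (nat_lit 5) (nat_lit 7) (nat_lit 4) (nat_lit 479) (nat_lit 401) (nat_lit 320)))) (XT.nd (nat_lit 78) (nat_lit 0) (nat_lit 0) (XT.lf (nat_lit 0) (nat_lit 19293558564) (nat_lit 152) (nat_lit 327075827097) (nat_lit 0) (nat_lit 3464959064) (nat_lit 4) (nat_lit 5) (nat_lit 6) (nat_lit 4) (nat_lit 4) (nat_lit 4) (nat_lit 480) (nat_lit 401) (nat_lit 319)) (XT.nd (nat_lit 78) (nat_lit 0) (nat_lit 0) (XT.lf (nat_lit 0) (nat_lit 55721187897) (nat_lit 152) (nat_lit 280401166730) (nat_lit 0) (nat_lit 39890454613) (nat_lit 4) (nat_lit 5) (nat_lit 6) (nat_lit 4) (nat_lit 4) (nat_lit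 4) (nat_lit 481) (nat_lit 401) (nat_lit 318)) (XT.lf (nat_lit 0) (nat_lit 95053691115) (nat_lit 152) (nat_lit 230011344685) (nat_lit 0) (nat_lit 79220982106) (nat_lit 4) (nat_lit 5) (nat_lit 6) (nat_lit 4) (nat_lit 4) (nat_lit 4) (nat_lit 482) (nat_lit 401) (nat_lit 317))))) (XT.nd (nat_lit 234) (nat_lit 76) (nat_lit 0) (XT.nd (nat_lit 78) (nat_lit 0) (nat_lit 0) (XT.lf (nat_lit 0) (nat_lit 137524149720) (nat_lit 152) (nat_lit 175607754609) (nat_lit 0) (nat_lit 121689611335) (nat_lit 4) (nat_lit 5) (nat_lit 6) (nat_lit 4) (nat_lit 4) (nat_lit 4) (nat_lit 483) (nat_lit 401) (nat_lit 316)) (XT.nd (nat_lit 78) (nat_lit 0) (nat_lit 0) (XT.lf (nat_lit 0) (nat_lit 183384240503) (nat_lit 152) (nat_lit 116868004856) (nat_lit 0) (nat_lit 167548008251) (nat_lit 4) (nat_lit 5) (nat_lit 6) (nat_lit 4) (nat_lit 4) (nat_lit 4) (nat_lit 484) (nat_lit 401) (nat_lit 315)) (XT.lf (nat_lit 0) (nat_lit 232905726965)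 (nat_lit 152) (nat_lit 53444008021) (nat_lit 0) (nat_lit 217067926318) (nat_lit 4) (nat_lit 5) (nat_lit 6) (nat_lit 4) (nat_lit 4) (nat_lit 4) (nat_lit 485) (nat_lit 401) (nat_lit 314)))) (XT.nd (nat_lit 156) (nat_lit 0) (nat_lit 0) (XT.nd (nat_lit 78) (nat_lit 0) (nat_lit 0) (XT.lf (nat_lit 0) (nat_lit 15537374829) (nat_lit 76) (nat_lit 271087276901) (nat_lit 76) (nat_lit 255248024037) (nat_lit 3) (nat_lit 4) (nat_lit 4) (nat_lit 5) (nat_lit 4) (nat_lit 4) (nat_lit 486) (nat_lit 401) (nat_lit 313)) (XT.lf (nat_lit 0) (nat_lit 91932510732) (nat_lit 76) (nat_lit 253632979154) (nat_lit 76) (nat_lit 237792381644) (nat_lit 3) (nat_lit 4) (nat_lit 4) (nat_lit 5) (nat_lit 4) (nat_lit 4) (nat_lit 487) (nat_lit 401) (nat_lit 312))) (XT.nd (nat_lit 78) (nat_lit 0) (nat_lit 0) (XT.lf (nat_lit 0) (nat_lit 174427011336) (nat_lit 76) (nat_lit 234788509006) (nat_lit 76) (nat_lit 218946666454) (nat_lit 3)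 (nat_lit 4) (nat_lit 4) (nat_lit 5) (nat_lit 4) (nat_lit 4) (nat_lit 488) (nat_lit 401) (nat_lit 311)) (XT.lf (nat_lit 0) (nat_lit 263509732943) (nat_lit 76) (nat_lit 214442195523) (nat_lit 76) (nat_lit 198599200154) (nat_lit 3) (nat_lit 4) (nat_lit 4) (nat_lit 5) (nat_lit 4) (nat_lit 4) (nat_lit 489) (nat_lit 401) (nat_lit 310))))))) (XT.nd (nat_lit 55926) (nat_lit 0) (nat_lit 6688) (XT.nd (nat_lit 468) (nat_lit 152) (nat_lit 0) (XT.nd (nat_lit 234) (nat_lit 0) (nat_lit 0) (XT.nd (nat_lit 78) (nat_lit 0) (nat_lit 0) (XT.lf (nat_lit 0) (nat_lit 359708573162) (nat_lit 76) (nat_lit 192473467958) (nat_lit 76) (nat_lit 176629405166) (nat_lit 3) (nat_lit 4) (nat_lit 4) (nat_lit 5) (nat_lit 4) (nat_lit 4) (nat_lit 490) (nat_lit 401) (nat_lit 309)) (XT.nd (nat_lit 78) (nat_lit 0) (nat_lit 0) (XT.lf (nat_lit 0) (nat_lit 463593599194) (nat_lit 76) (nat_lit 168752141260) (nat_lit 76) (nat_lit 152907090113)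 (nat_lit 3) (nat_lit 4) (nat_lit 4) (nat_lit 5) (nat_lit 4) (nat_lit 4) (nat_lit 491) (nat_lit 401) (nat_lit 308)) (XT.lf (nat_lit 0) (nat_lit 575780426007) (nat_lit 76) (nat_lit 143137644602) (nat_lit 76) (nat_lit 127291678312) (nat_lit 3) (nat_lit 4) (nat_lit 4) (nat_lit 5) (nat_lit 4) (nat_lit 4) (nat_lit 492) (nat_lit 401) (nat_lit 307)))) (XT.nd (nat_lit 78) (nat_lit 0) (nat_lit 0) (XT.lf (nat_lit 0) (nat_lit 696933864429) (nat_lit 76) (nat_lit 115478188376) (nat_lit 76) (nat_lit 99631374731) (nat_lit 3) (nat_lit 4) (nat_lit 4) (nat_lit 5) (nat_lit 4) (nat_lit 4) (nat_lit 493) (nat_lit 401) (nat_lit 306)) (XT.nd (nat_lit 78) (nat_lit 0) (nat_lit 0) (XT.lf (nat_lit 0) (nat_lit 827771860759) (nat_lit 76) (nat_lit 85609864692) (nat_lit 76) (nat_lit 69762266459) (nat_lit 3) (nat_lit 4) (nat_lit 4) (nat_lit 5) (nat_lit 4) (nat_lit 4) (nat_lit 494) (nat_lit 401) (nat_lit 305)) (XT.lf (nat_lit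 0) (nat_lit 969069751274) (nat_lit 76) (nat_lit 53355676077) (nat_lit 76) (nat_lit 37507351374) (nat_lit 3) (nat_lit 4) (nat_lit 4) (nat_lit 5) (nat_lit 4) (nat_lit 4) (nat_lit 495) (nat_lit 401) (nat_lit 304))))) (XT.nd (nat_lit 55146) (nat_lit 0) (nat_lit 12768) (XT.nd (nat_lit 78) (nat_lit 152) (nat_lit 0) (XT.lf (nat_lit 0) (nat_lit 1121664856806) (nat_lit 76) (nat_lit 18524486599) (nat_lit 76) (nat_lit 2675489238) (nat_lit 3) (nat_lit 4) (nat_lit 4) (nat_lit 5) (nat_lit 4) (nat_lit 4) (nat_lit 496) (nat_lit 401) (nat_lit 303)) (XT.nd (nat_lit 78) (nat_lit 0) (nat_lit 0) (XT.lf (nat_lit 0) (nat_lit 35005226629) (nat_lit 152) (nat_lit 1177429561367) (nat_lit 0) (nat_lit 19910350256) (nat_lit 1) (nat_lit 5) (nat_lit 3) (nat_lit 4) (nat_lit 1) (nat_lit 4) (nat_lit 497) (nat_lit 401) (nat_lit 302)) (XT.lf (nat_lit 0) (nat_lit 76292617444) (nat_lit 152) (nat_lit 1191457568362) (nat_lit 0) (nat_lit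 61197191837) (nat_lit 1) (nat_lit 5) (nat_lit 3) (nat_lit 4) (nat_lit 1) (nat_lit 4) (nat_lit 498) (nat_lit 401) (nat_lit 301)))) (XT.nd (nat_lit 156) (nat_lit 304) (nat_lit 0) (XT.nd (nat_lit 78) (nat_lit 380) (nat_lit 0) (XT.lf (nat_lit 0) (nat_lit 1235513062) (nat_lit 0) (nat_lit 1235513062) (nat_lit 228) (nat_lit 807045869) (nat_lit 178) (nat_lit 5) (nat_lit 178) (nat_lit 3) (nat_lit 181) (nat_lit 3) (nat_lit 402) (nat_lit 402) (nat_lit 396)) (XT.lf (nat_lit 76) (nat_lit 1101846494) (nat_lit 0) (nat_lit 1144814899) (nat_lit 380) (nat_lit 4377126147) (nat_lit 174) (nat_lit 5) (nat_lit 173) (nat_lit 3) (nat_lit 178) (nat_lit 5) (nat_lit 403) (nat_lit 402) (nat_lit 395))) (XT.nd (nat_lit 78) (nat_lit 380) (nat_lit 0) (XT.lf (nat_lit 0) (nat_lit 6051209281) (nat_lit 304) (nat_lit 108259623) (nat_lit 380) (nat_lit 551709857) (nat_lit 174) (nat_lit 5) (nat_lit 178) (nat_lit 5) (nat_lit 179)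 (nat_lit 5) (nat_lit 404) (nat_lit 402) (nat_lit 394)) (XT.lf (nat_lit 0) (nat_lit 2993495310) (nat_lit 380) (nat_lit 1179892012) (nat_lit 456) (nat_lit 2642445976) (nat_lit 169) (nat_lit 5) (nat_lit 174) (nat_lit 5) (nat_lit 175) (nat_lit 5) (nat_lit 405) (nat_lit 402) (nat_lit 393)))))) (XT.nd (nat_lit 546) (nat_lit 2508) (nat_lit 0) (XT.nd (nat_lit 234) (nat_lit 2736) (nat_lit 0) (XT.nd (nat_lit 78) (nat_lit 836) (nat_lit 0) (XT.lf (nat_lit 76) (nat_lit 4841904058) (nat_lit 0) (nat_lit 1812148155) (nat_lit 456) (nat_lit 287560772) (nat_lit 170) (nat_lit 5) (nat_lit 169) (nat_lit 5) (nat_lit 175) (nat_lit 5) (nat_lit 406) (nat_lit 402) (nat_lit 392)) (XT.nd (nat_lit 78) (nat_lit 456) (nat_lit 0) (XT.lf (nat_lit 0) (nat_lit 3195179764) (nat_lit 456) (nat_lit 2931139037) (nat_lit 76) (nat_lit 959640505) (nat_lit 164) (nat_lit 5) (nat_lit 170) (nat_lit 5) (nat_lit 165) (nat_lit 5) (nat_lit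 407) (nat_lit 402) (nat_lit 391)) (XT.lf (nat_lit 0) (nat_lit 3598431797) (nat_lit 456) (nat_lit 3170913610) (nat_lit 532) (nat_lit 481283816) (nat_lit 158) (nat_lit 5) (nat_lit 164) (nat_lit 5) (nat_lit 165) (nat_lit 5) (nat_lit 408) (nat_lit 402) (nat_lit 390)))) (XT.nd (nat_lit 156) (nat_lit 1520) (nat_lit 0) (XT.nd (nat_lit 78) (nat_lit 608) (nat_lit 0) (XT.lf (nat_lit 0) (nat_lit 2916436633) (nat_lit 608) (nat_lit 4285152084) (nat_lit 76) (nat_lit 233626638) (nat_lit 150) (nat_lit 5) (nat_lit 158) (nat_lit 5) (nat_lit 151) (nat_lit 5) (nat_lit 409) (nat_lit 402) (nat_lit 389)) (XT.lf (nat_lit 0) (nat_lit 2792420482) (nat_lit 608) (nat_lit 3670386388) (nat_lit 684) (nat_lit 1176809384) (nat_lit 142) (nat_lit 5) (nat_lit 150) (nat_lit 5) (nat_lit 151) (nat_lit 5) (nat_lit 410) (nat_lit 402) (nat_lit 388))) (XT.nd (nat_lit 78) (nat_lit 760) (nat_lit 0) (XT.lf (nat_lit 0) (nat_lit 2219411366)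 (nat_lit 760) (nat_lit 5324361983) (nat_lit 76) (nat_lit 321571528) (nat_lit 132) (nat_lit 5) (nat_lit 142) (nat_lit 5) (nat_lit 133) (nat_lit 5) (nat_lit 411) (nat_lit 402) (nat_lit 387)) (XT.lf (nat_lit 0) (nat_lit 2349481074) (nat_lit 760) (nat_lit 3441397617) (nat_lit 836) (nat_lit 2320153327) (nat_lit 122) (nat_lit 5) (nat_lit 132) (nat_lit 5) (nat_lit 133) (nat_lit 5) (nat_lit 412) (nat_lit 402) (nat_lit 386))))) (XT.nd (nat_lit 234) (nat_lit 1292) (nat_lit 0) (XT.nd (nat_lit 78) (nat_lit 760) (nat_lit 0) (XT.lf (nat_lit 0) (nat_lit 1149123791) (nat_lit 456) (nat_lit 6119839006) (nat_lit 76) (nat_lit 1110603270) (nat_lit 116) (nat_lit 5) (nat_lit 122) (nat_lit 5) (nat_lit 117) (nat_lit 5) (nat_lit 413) (nat_lit 402) (nat_lit 385)) (XT.nd (nat_lit 78) (nat_lit 380) (nat_lit 0) (XT.lf (nat_lit 0) (nat_lit 2206150573) (nat_lit 380) (nat_lit 2588006694) (nat_lit 456) (nat_lit 3874633472)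 (nat_lit 111) (nat_lit 5) (nat_lit 116) (nat_lit 5) (nat_lit 117) (nat_lit 5) (nat_lit 414) (nat_lit 402) (nat_lit 384)) (XT.lf (nat_lit 0) (nat_lit 2242872505) (nat_lit 380) (nat_lit 6466072807) (nat_lit 456) (nat_lit 273378919) (nat_lit 106) (nat_lit 5) (nat_lit 111) (nat_lit 5) (nat_lit 112) (nat_lit 5) (nat_lit 415) (nat_lit 402) (nat_lit 383)))) (XT.nd (nat_lit 156) (nat_lit 608) (nat_lit 0) (XT.nd (nat_lit 78) (nat_lit 304) (nat_lit 0) (XT.lf (nat_lit 0) (nat_lit 2306035923) (nat_lit 304) (nat_lit 1192972874) (nat_lit 380) (nat_lit 5819239672) (nat_lit 101) (nat_lit 5) (nat_lit 105) (nat_lit 5) (nat_lit 106) (nat_lit 5) (nat_lit 416) (nat_lit 402) (nat_lit 382)) (XT.lf (nat_lit 0) (nat_lit 2416084940) (nat_lit 304) (nat_lit 5190276728) (nat_lit 380) (nat_lit 2072387344) (nat_lit 97) (nat_lit 5) (nat_lit 101) (nat_lit 5) (nat_lit 102) (nat_lit 5) (nat_lit 417) (nat_lit 402) (nat_lit 381)))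 (XT.nd (nat_lit 78) (nat_lit 304) (nat_lit 0) (XT.lf (nat_lit 0) (nat_lit 1929097526) (nat_lit 304) (nat_lit 7480801754) (nat_lit 76) (nat_lit 655802074) (nat_lit 93) (nat_lit 5) (nat_lit 97) (nat_lit 5) (nat_lit 94) (nat_lit 5) (nat_lit 418) (nat_lit 402) (nat_lit 380)) (XT.lf (nat_lit 0) (nat_lit 2746363647) (nat_lit 304) (nat_lit 3523520577) (nat_lit 380) (nat_lit 4207489809) (nat_lit 89) (nat_lit 5) (nat_lit 93) (nat_lit 5) (nat_lit 94) (nat_lit 5) (nat_lit 419) (nat_lit 402) (nat_lit 379))))))))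
noncomputable def xc50 : XT := (XT.nd (nat_lit 2028) (nat_lit 1748) (nat_lit 0) (XT.nd (nat_lit 1014) (nat_lit 1596) (nat_lit 0) (XT.nd (nat_lit 468) (nat_lit 1216) (nat_lit 0) (XT.nd (nat_lit 234) (nat_lit 760) (nat_lit 0) (XT.nd (nat_lit 78) (nat_lit 456) (nat_lit 0) (XT.lf (nat_lit 0) (nat_lit 99161336) (nat_lit 304) (nat_lit 7945244444) (nat_lit 76) (nat_lit 2874374858) (nat_lit 85) (nat_lit 5) (nat_lit 89) (nat_lit 5) (nat_lit 86) (nat_lit 5) (nat_lit 420) (nat_lit 402) (nat_lit 378)) (XT.nd (nat_lit 78) (nat_lit 228) (nat_lit 0) (XT.lf (nat_lit 0) (nat_lit 3178209007) (nat_lit 228) (nat_lit 1518904876) (nat_lit 304) (nat_lit 6690270865) (nat_lit 82) (nat_lit 5) (nat_lit 85) (nat_lit 5) (nat_lit 86) (nat_lit 5) (nat_lit 421) (nat_lit 402) (nat_lit 377)) (XT.lf (nat_lit 0) (nat_lit 3399043387) (nat_lit 228) (nat_lit 6397517018) (nat_lit 304) (nat_lit 2090273431) (nat_lit 79) (nat_lit 5)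 (nat_lit 82) (nat_lit 5) (nat_lit 83) (nat_lit 5) (nat_lit 422) (nat_lit 402) (nat_lit 376)))) (XT.nd (nat_lit 78) (nat_lit 456) (nat_lit 0) (XT.lf (nat_lit 0) (nat_lit 2884651745) (nat_lit 304) (nat_lit 8783370602) (nat_lit 76) (nat_lit 751053250) (nat_lit 75) (nat_lit 5) (nat_lit 79) (nat_lit 5) (nat_lit 76) (nat_lit 5) (nat_lit 423) (nat_lit 402) (nat_lit 375)) (XT.nd (nat_lit 78) (nat_lit 304) (nat_lit 0) (XT.lf (nat_lit 0) (nat_lit 3820153360) (nat_lit 152) (nat_lit 4548353477) (nat_lit 228) (nat_lit 4614500360) (nat_lit 73) (nat_lit 5) (nat_lit 75) (nat_lit 5) (nat_lit 76) (nat_lit 5) (nat_lit 424) (nat_lit 402) (nat_lit 374)) (XT.lf (nat_lit 0) (nat_lit 817837587) (nat_lit 304) (nat_lit 9558196585) (nat_lit 76) (nat_lit 3208442267) (nat_lit 69) (nat_lit 5) (nat_lit 73) (nat_lit 5) (nat_lit 70) (nat_lit 5) (nat_lit 425) (nat_lit 402) (nat_lit 373))))) (XT.nd (nat_lit 234) (nat_lit 684)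 (nat_lit 0) (XT.nd (nat_lit 78) (nat_lit 380) (nat_lit 0) (XT.lf (nat_lit 0) (nat_lit 4153141650) (nat_lit 152) (nat_lit 2551729517) (nat_lit 228) (nat_lit 7516347124) (nat_lit 67) (nat_lit 5) (nat_lit 69) (nat_lit 5) (nat_lit 70) (nat_lit 5) (nat_lit 426) (nat_lit 402) (nat_lit 372)) (XT.nd (nat_lit 78) (nat_lit 228) (nat_lit 0) (XT.lf (nat_lit 0) (nat_lit 4252683546) (nat_lit 152) (nat_lit 9018984935) (nat_lit 228) (nat_lit 1626815365) (nat_lit 65) (nat_lit 5) (nat_lit 67) (nat_lit 5) (nat_lit 68) (nat_lit 5) (nat_lit 427) (nat_lit 402) (nat_lit 371)) (XT.lf (nat_lit 0) (nat_lit 4288654963) (nat_lit 152) (nat_lit 467121077) (nat_lit 228) (nat_lit 10861810134) (nat_lit 62) (nat_lit 5) (nat_lit 64) (nat_lit 5) (nat_lit 65) (nat_lit 5) (nat_lit 428) (nat_lit 402) (nat_lit 370)))) (XT.nd (nat_lit 156) (nat_lit 304) (nat_lit 0) (XT.nd (nat_lit 78) (nat_lit 228) (nat_lit 0) (XT.lf (nat_lit 0)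 (nat_lit 4197477391) (nat_lit 152) (nat_lit 7676005284) (nat_lit 228) (nat_lit 4505345306) (nat_lit 60) (nat_lit 5) (nat_lit 62) (nat_lit 5) (nat_lit 63) (nat_lit 5) (nat_lit 429) (nat_lit 402) (nat_lit 369)) (XT.lf (nat_lit 0) (nat_lit 2475362784) (nat_lit 228) (nat_lit 13132334812) (nat_lit 76) (nat_lit 1581884623) (nat_lit 57) (nat_lit 5) (nat_lit 60) (nat_lit 5) (nat_lit 58) (nat_lit 5) (nat_lit 430) (nat_lit 402) (nat_lit 368))) (XT.nd (nat_lit 78) (nat_lit 152) (nat_lit 0) (XT.lf (nat_lit 0) (nat_lit 3710798356) (nat_lit 152) (nat_lit 6448695308) (nat_lit 228) (nat_lit 7886885924) (nat_lit 55) (nat_lit 5) (nat_lit 57) (nat_lit 5) (nat_lit 58) (nat_lit 5) (nat_lit 431) (nat_lit 402) (nat_lit 367)) (XT.lf (nat_lit 0) (nat_lit 3287105437) (nat_lit 152) (nat_lit 15410387272) (nat_lit 228) (nat_lit 262286219) (nat_lit 53) (nat_lit 5) (nat_lit 55) (nat_lit 5) (nat_lit 56) (nat_lit 4) (nat_lit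 432) (nat_lit 402) (nat_lit 366)))))) (XT.nd (nat_lit 468) (nat_lit 760) (nat_lit 0) (XT.nd (nat_lit 234) (nat_lit 304) (nat_lit 0) (XT.nd (nat_lit 78) (nat_lit 304) (nat_lit 0) (XT.lf (nat_lit 0) (nat_lit 2576532261) (nat_lit 152) (nat_lit 5448109075) (nat_lit 228) (nat_lit 11900022549) (nat_lit 50) (nat_lit 5) (nat_lit 52) (nat_lit 5) (nat_lit 53) (nat_lit 5) (nat_lit 433) (nat_lit 402) (nat_lit 365)) (XT.nd (nat_lit 78) (nat_lit 228) (nat_lit 0) (XT.lf (nat_lit 0) (nat_lit 1691943811) (nat_lit 76) (nat_lit 15568584422) (nat_lit 152) (nat_lit 3691249002) (nat_lit 49) (nat_lit 5) (nat_lit 50) (nat_lit 5) (nat_lit 51) (nat_lit 4) (nat_lit 434) (nat_lit 402) (nat_lit 364)) (XT.lf (nat_lit 0) (nat_lit 508937551) (nat_lit 152) (nat_lit 4817813595) (nat_lit 228) (nat_lit 16714373531) (nat_lit 46) (nat_lit 5) (nat_lit 48) (nat_lit 5) (nat_lit 49) (nat_lit 5) (nat_lit 435) (nat_lit 402) (nat_lit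 363)))) (XT.nd (nat_lit 78) (nat_lit 304) (nat_lit 0) (XT.lf (nat_lit 0) (nat_lit 15299988693) (nat_lit 228) (nat_lit 982496934) (nat_lit 76) (nat_lit 6913962681) (nat_lit 46) (nat_lit 5) (nat_lit 49) (nat_lit 5) (nat_lit 47) (nat_lit 4) (nat_lit 436) (nat_lit 402) (nat_lit 362)) (XT.nd (nat_lit 78) (nat_lit 152) (nat_lit 0) (XT.lf (nat_lit 0) (nat_lit 1920803909) (nat_lit 152) (nat_lit 2777681454) (nat_lit 76) (nat_lit 19727151959) (nat_lit 44) (nat_lit 5) (nat_lit 46) (nat_lit 5) (nat_lit 45) (nat_lit 5) (nat_lit 437) (nat_lit 402) (nat_lit 361)) (XT.lf (nat_lit 0) (nat_lit 12644002233) (nat_lit 228) (nat_lit 5098979932) (nat_lit 76) (nat_lit 7983854624) (nat_lit 42) (nat_lit 5) (nat_lit 45) (nat_lit 5) (nat_lit 43) (nat_lit 4) (nat_lit 438) (nat_lit 402) (nat_lit 360))))) (XT.nd (nat_lit 234) (nat_lit 380) (nat_lit 0) (XT.nd (nat_lit 78) (nat_lit 304) (nat_lit 0) (XT.lf (nat_lit 0) (nat_lit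 19275915903) (nat_lit 76) (nat_lit 5304329609) (nat_lit 152) (nat_lit 2534134842) (nat_lit 41) (nat_lit 5) (nat_lit 42) (nat_lit 5) (nat_lit 43) (nat_lit 4) (nat_lit 439) (nat_lit 402) (nat_lit 359)) (XT.nd (nat_lit 78) (nat_lit 76) (nat_lit 0) (XT.lf (nat_lit 0) (nat_lit 9000136587) (nat_lit 228) (nat_lit 11264955689) (nat_lit 76) (nat_lit 8319666464) (nat_lit 38) (nat_lit 5) (nat_lit 41) (nat_lit 5) (nat_lit 39) (nat_lit 4) (nat_lit 440) (nat_lit 402) (nat_lit 358)) (XT.lf (nat_lit 0) (nat_lit 14814923310) (nat_lit 76) (nat_lit 6944706057) (nat_lit 152) (nat_lit 8391503903) (nat_lit 37) (nat_lit 5) (nat_lit 38) (nat_lit 5) (nat_lit 39) (nat_lit 4) (nat_lit 441) (nat_lit 402) (nat_lit 357)))) (XT.nd (nat_lit 156) (nat_lit 152) (nat_lit 0) (XT.nd (nat_lit 78) (nat_lit 76) (nat_lit 0) (XT.lf (nat_lit 0) (nat_lit 4016614071) (nat_lit 152) (nat_lit 20207549129) (nat_lit 76) (nat_lit 7593879984)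 (nat_lit 35) (nat_lit 5) (nat_lit 37) (nat_lit 5) (nat_lit 36) (nat_lit 4) (nat_lit 442) (nat_lit 402) (nat_lit 356)) (XT.lf (nat_lit 0) (nat_lit 7510035472) (nat_lit 76) (nat_lit 10058052949) (nat_lit 152) (nat_lit 16021109035) (nat_lit 34) (nat_lit 5) (nat_lit 35) (nat_lit 5) (nat_lit 36) (nat_lit 4) (nat_lit 443) (nat_lit 402) (nat_lit 355))) (XT.nd (nat_lit 78) (nat_lit 76) (nat_lit 0) (XT.lf (nat_lit 0) (nat_lit 2556517739) (nat_lit 76) (nat_lit 30063695781) (nat_lit 76) (nat_lit 2861008595) (nat_lit 33) (nat_lit 4) (nat_lit 34) (nat_lit 5) (nat_lit 34) (nat_lit 4) (nat_lit 444) (nat_lit 402) (nat_lit 354)) (XT.lf (nat_lit 0) (nat_lit 11558793596) (nat_lit 152) (nat_lit 3558549868) (nat_lit 76) (nat_lit 22369896400) (nat_lit 32) (nat_lit 5) (nat_lit 34) (nat_lit 5) (nat_lit 33) (nat_lit 4) (nat_lit 445) (nat_lit 402) (nat_lit 353))))))) (XT.nd (nat_lit 1014) (nat_lit 684) (nat_lit 0)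 (XT.nd (nat_lit 468) (nat_lit 532) (nat_lit 0) (XT.nd (nat_lit 234) (nat_lit 228) (nat_lit 0) (XT.nd (nat_lit 78) (nat_lit 228) (nat_lit 0) (XT.lf (nat_lit 0) (nat_lit 27451720897) (nat_lit 152) (nat_lit 10728547769) (nat_lit 0) (nat_lit 1450140268) (nat_lit 31) (nat_lit 5) (nat_lit 33) (nat_lit 4) (nat_lit 31) (nat_lit 4) (nat_lit 446) (nat_lit 402) (nat_lit 352)) (XT.nd (nat_lit 78) (nat_lit 76) (nat_lit 0) (XT.lf (nat_lit 0) (nat_lit 3210110598) (nat_lit 152) (nat_lit 19462814149) (nat_lit 76) (nat_lit 19238797525) (nat_lit 29) (nat_lit 5) (nat_lit 31) (nat_lit 5) (nat_lit 30) (nat_lit 4) (nat_lit 447) (nat_lit 402) (nat_lit 351)) (XT.lf (nat_lit 0) (nat_lit 14449035807) (nat_lit 76) (nat_lit 5322392858) (nat_lit 152) (nat_lit 24575727735) (nat_lit 28) (nat_lit 5) (nat_lit 29) (nat_lit 5) (nat_lit 30) (nat_lit 4) (nat_lit 448) (nat_lit 402) (nat_lit 350)))) (XT.nd (nat_lit 78) (nat_lit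 152) (nat_lit 0) (XT.lf (nat_lit 0) (nat_lit 4642095032) (nat_lit 76) (nat_lit 33590607960) (nat_lit 76) (nat_lit 8715972620) (nat_lit 27) (nat_lit 4) (nat_lit 28) (nat_lit 5) (nat_lit 28) (nat_lit 4) (nat_lit 449) (nat_lit 402) (nat_lit 349)) (XT.nd (nat_lit 78) (nat_lit 76) (nat_lit 0) (XT.lf (nat_lit 0) (nat_lit 8712434188) (nat_lit 152) (nat_lit 7045868487) (nat_lit 76) (nat_lit 33964992760) (nat_lit 26) (nat_lit 5) (nat_lit 28) (nat_lit 5) (nat_lit 27) (nat_lit 4) (nat_lit 450) (nat_lit 402) (nat_lit 348)) (XT.lf (nat_lit 0) (nat_lit 27748847792) (nat_lit 152) (nat_lit 20937408546) (nat_lit 0) (nat_lit 4000531658) (nat_lit 25) (nat_lit 5) (nat_lit 27) (nat_lit 4) (nat_lit 25) (nat_lit 4) (nat_lit 451) (nat_lit 402) (nat_lit 347))))) (XT.nd (nat_lit 234) (nat_lit 304) (nat_lit 0) (XT.nd (nat_lit 78) (nat_lit 152) (nat_lit 0) (XT.lf (nat_lit 0) (nat_lit 18247334251) (nat_lit 76) (nat_lit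 30691360235) (nat_lit 76) (nat_lit 6917141662) (nat_lit 24) (nat_lit 4) (nat_lit 25) (nat_lit 5) (nat_lit 25) (nat_lit 4) (nat_lit 452) (nat_lit 402) (nat_lit 346)) (XT.nd (nat_lit 78) (nat_lit 0) (nat_lit 0) (XT.lf (nat_lit 0) (nat_lit 1825707332) (nat_lit 76) (nat_lit 10673760787) (nat_lit 152) (nat_lit 46751364783) (nat_lit 22) (nat_lit 5) (nat_lit 23) (nat_lit 5) (nat_lit 24) (nat_lit 4) (nat_lit 453) (nat_lit 402) (nat_lit 345)) (XT.lf (nat_lit 0) (nat_lit 34024848747) (nat_lit 152) (nat_lit 17508278917) (nat_lit 0) (nat_lit 11338744481) (nat_lit 22) (nat_lit 5) (nat_lit 24) (nat_lit 4) (nat_lit 22) (nat_lit 4) (nat_lit 454) (nat_lit 402) (nat_lit 344)))) (XT.nd (nat_lit 156) (nat_lit 76) (nat_lit 0) (XT.nd (nat_lit 78) (nat_lit 152) (nat_lit 0) (XT.lf (nat_lit 0) (nat_lit 26183121948) (nat_lit 76) (nat_lit 31638838260) (nat_lit 76) (nat_lit 8933150954) (nat_lit 21) (nat_lit 4) (nat_lit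 22) (nat_lit 5) (nat_lit 22) (nat_lit 4) (nat_lit 455) (nat_lit 402) (nat_lit 343)) (XT.lf (nat_lit 0) (nat_lit 2877314907) (nat_lit 76) (nat_lit 9611043462) (nat_lit 152) (nat_lit 58434988343) (nat_lit 19) (nat_lit 5) (nat_lit 20) (nat_lit 5) (nat_lit 21) (nat_lit 4) (nat_lit 456) (nat_lit 402) (nat_lit 342))) (XT.nd (nat_lit 78) (nat_lit 76) (nat_lit 0) (XT.lf (nat_lit 0) (nat_lit 36217701619) (nat_lit 152) (nat_lit 24594685503) (nat_lit 0) (nat_lit 14559978714) (nat_lit 19) (nat_lit 5) (nat_lit 21) (nat_lit 4) (nat_lit 19) (nat_lit 4) (nat_lit 457) (nat_lit 402) (nat_lit 341)) (XT.lf (nat_lit 0) (nat_lit 22834166294) (nat_lit 76) (nat_lit 39495722455) (nat_lit 76) (nat_lit 17823194171) (nat_lit 18) (nat_lit 4) (nat_lit 19) (nat_lit 5) (nat_lit 19) (nat_lit 4) (nat_lit 458) (nat_lit 402) (nat_lit 340)))))) (XT.nd (nat_lit 546) (nat_lit 304) (nat_lit 0) (XT.nd (nat_lit 234) (nat_lit 228)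 (nat_lit 0) (XT.nd (nat_lit 78) (nat_lit 76) (nat_lit 0) (XT.lf (nat_lit 0) (nat_lit 5450248361) (nat_lit 152) (nat_lit 10513227827) (nat_lit 76) (nat_lit 69328593369) (nat_lit 17) (nat_lit 5) (nat_lit 19) (nat_lit 5) (nat_lit 18) (nat_lit 4) (nat_lit 459) (nat_lit 402) (nat_lit 339)) (XT.nd (nat_lit 78) (nat_lit 0) (nat_lit 0) (XT.lf (nat_lit 0) (nat_lit 30741282047) (nat_lit 152) (nat_lit 49971642995) (nat_lit 0) (nat_lit 10075634243) (nat_lit 16) (nat_lit 5) (nat_lit 18) (nat_lit 4) (nat_lit 16) (nat_lit 4) (nat_lit 460) (nat_lit 402) (nat_lit 338)) (XT.lf (nat_lit 0) (nat_lit 58481185976) (nat_lit 152) (nat_lit 417958933) (nat_lit 0) (nat_lit 37804344851) (nat_lit 16) (nat_lit 5) (nat_lit 18) (nat_lit 4) (nat_lit 16) (nat_lit 4) (nat_lit 461) (nat_lit 402) (nat_lit 337)))) (XT.nd (nat_lit 156) (nat_lit 0) (nat_lit 0) (XT.nd (nat_lit 78) (nat_lit 152) (nat_lit 0) (XT.lf (nat_lit 0) (nat_lit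 54799245554) (nat_lit 76) (nat_lit 34469086410) (nat_lit 76) (nat_lit 13781881098) (nat_lit 15) (nat_lit 4) (nat_lit 16) (nat_lit 5) (nat_lit 16) (nat_lit 4) (nat_lit 462) (nat_lit 402) (nat_lit 336)) (XT.lf (nat_lit 0) (nat_lit 4436170694) (nat_lit 76) (nat_lit 7823815878) (nat_lit 152) (nat_lit 97632345070) (nat_lit 13) (nat_lit 5) (nat_lit 14) (nat_lit 5) (nat_lit 15) (nat_lit 4) (nat_lit 463) (nat_lit 402) (nat_lit 335))) (XT.nd (nat_lit 78) (nat_lit 0) (nat_lit 0) (XT.lf (nat_lit 0) (nat_lit 41064284161) (nat_lit 152) (nat_lit 54803561239) (nat_lit 0) (nat_lit 21344581876) (nat_lit 13) (nat_lit 5) (nat_lit 15) (nat_lit 4) (nat_lit 13) (nat_lit 4) (nat_lit 464) (nat_lit 402) (nat_lit 334)) (XT.lf (nat_lit 0) (nat_lit 72280830497) (nat_lit 152) (nat_lit 278612909) (nat_lit 0) (nat_lit 52553292569) (nat_lit 13) (nat_lit 5) (nat_lit 15) (nat_lit 4) (nat_lit 13) (nat_lit 4) (nat_lit 465) (nat_lit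 402) (nat_lit 333))))) (XT.nd (nat_lit 234) (nat_lit 76) (nat_lit 0) (XT.nd (nat_lit 78) (nat_lit 152) (nat_lit 0) (XT.lf (nat_lit 0) (nat_lit 60500335092) (nat_lit 76) (nat_lit 46416705521) (nat_lit 76) (nat_lit 26681912367) (nat_lit 12) (nat_lit 4) (nat_lit 13) (nat_lit 5) (nat_lit 13) (nat_lit 4) (nat_lit 466) (nat_lit 402) (nat_lit 332)) (XT.nd (nat_lit 78) (nat_lit 76) (nat_lit 0) (XT.lf (nat_lit 0) (nat_lit 1493476528) (nat_lit 152) (nat_lit 16679884071) (nat_lit 76) (nat_lit 124590322992) (nat_lit 11) (nat_lit 5) (nat_lit 13) (nat_lit 5) (nat_lit 12) (nat_lit 4) (nat_lit 467) (nat_lit 402) (nat_lit 331)) (XT.lf (nat_lit 0) (nat_lit 31897564385) (nat_lit 152) (nat_lit 107606483349) (nat_lit 0) (nat_lit 13090201394) (nat_lit 10) (nat_lit 5) (nat_lit 12) (nat_lit 4) (nat_lit 10) (nat_lit 4) (nat_lit 468) (nat_lit 402) (nat_lit 330)))) (XT.nd (nat_lit 156) (nat_lit 0) (nat_lit 0) (XT.nd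 (nat_lit 78) (nat_lit 76) (nat_lit 0) (XT.lf (nat_lit 0) (nat_lit 65316313779) (nat_lit 152) (nat_lit 51362364250) (nat_lit 0) (nat_lit 46503465615) (nat_lit 10) (nat_lit 5) (nat_lit 12) (nat_lit 4) (nat_lit 10) (nat_lit 4) (nat_lit 469) (nat_lit 402) (nat_lit 329)) (XT.lf (nat_lit 0) (nat_lit 9654268613) (nat_lit 76) (nat_lit 91887045509) (nat_lit 76) (nat_lit 73069118481) (nat_lit 9) (nat_lit 4) (nat_lit 10) (nat_lit 5) (nat_lit 10) (nat_lit 4) (nat_lit 470) (nat_lit 402) (nat_lit 328))) (XT.nd (nat_lit 78) (nat_lit 0) (nat_lit 0) (XT.lf (nat_lit 0) (nat_lit 77351917980) (nat_lit 76) (nat_lit 64189910537) (nat_lit 76) (nat_lit 45367280857) (nat_lit 9) (nat_lit 4) (nat_lit 10) (nat_lit 5) (nat_lit 10) (nat_lit 4) (nat_lit 471) (nat_lit 402) (nat_lit 327)) (XT.lf (nat_lit 0) (nat_lit 150433483385) (nat_lit 76) (nat_lit 34292988434) (nat_lit 76) (nat_lit 15466004447) (nat_lit 9) (nat_lit 4)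 (nat_lit 10) (nat_lit 5) (nat_lit 10) (nat_lit 4) (nat_lit 472) (nat_lit 402) (nat_lit 326))))))))
noncomputable def xc51 : XT := (XT.nd (nat_lit 57096) (nat_lit 0) (nat_lit 4484) (XT.nd (nat_lit 1014) (nat_lit 228) (nat_lit 0) (XT.nd (nat_lit 468) (nat_lit 152) (nat_lit 0) (XT.nd (nat_lit 234) (nat_lit 76) (nat_lit 0) (XT.nd (nat_lit 78) (nat_lit 0) (nat_lit 0) (XT.lf (nat_lit 0) (nat_lit 15010747991) (nat_lit 76) (nat_lit 1497429444) (nat_lit 152) (nat_lit 198006230055) (nat_lit 7) (nat_lit 5) (nat_lit 8) (nat_lit 5) (nat_lit 9) (nat_lit 4) (nat_lit 473) (nat_lit 402) (nat_lit 325)) (XT.nd (nat_lit 78) (nat_lit 0) (nat_lit 0) (XT.lf (nat_lit 0) (nat_lit 51901737738) (nat_lit 152) (nat_lit 144033632182) (nat_lit 0) (nat_lit 33963881672) (nat_lit 7) (nat_lit 5) (nat_lit 9) (nat_lit 4) (nat_lit 7) (nat_lit 4) (nat_lit 474) (nat_lit 402) (nat_lit 324)) (XT.lf (nat_lit 0) (nat_lit 90138569708)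 (nat_lit 152) (nat_lit 84178302800) (nat_lit 0) (nat_lit 72197421652) (nat_lit 7) (nat_lit 5) (nat_lit 9) (nat_lit 4) (nat_lit 7) (nat_lit 4) (nat_lit 475) (nat_lit 402) (nat_lit 323)))) (XT.nd (nat_lit 78) (nat_lit 76) (nat_lit 0) (XT.lf (nat_lit 0) (nat_lit 131421882908) (nat_lit 152) (nat_lit 19559594033) (nat_lit 0) (nat_lit 113477686714) (nat_lit 7) (nat_lit 5) (nat_lit 9) (nat_lit 4) (nat_lit 7) (nat_lit 4) (nat_lit 476) (nat_lit 402) (nat_lit 322)) (XT.nd (nat_lit 78) (nat_lit 0) (nat_lit 0) (XT.lf (nat_lit 0) (nat_lit 51865437711) (nat_lit 76) (nat_lit 124940646320) (nat_lit 76) (nat_lit 106993627775) (nat_lit 6) (nat_lit 4) (nat_lit 7) (nat_lit 5) (nat_lit 7) (nat_lit 4) (nat_lit 477) (nat_lit 402) (nat_lit 321)) (XT.lf (nat_lit 0) (nat_lit 129680755033) (nat_lit 76) (nat_lit 96469948361) (nat_lit 76) (nat_lit 78520316529) (nat_lit 6) (nat_lit 4) (nat_lit 7) (nat_lit 5) (nat_lit 7)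 (nat_lit 4) (nat_lit 478) (nat_lit 402) (nat_lit 320))))) (XT.nd (nat_lit 234) (nat_lit 0) (nat_lit 0) (XT.nd (nat_lit 78) (nat_lit 152) (nat_lit 0) (XT.lf (nat_lit 0) (nat_lit 213700757226) (nat_lit 76) (nat_lit 65731919007) (nat_lit 76) (nat_lit 47779867463) (nat_lit 6) (nat_lit 4) (nat_lit 7) (nat_lit 5) (nat_lit 7) (nat_lit 4) (nat_lit 479) (nat_lit 402) (nat_lit 319)) (XT.nd (nat_lit 78) (nat_lit 152) (nat_lit 0) (XT.lf (nat_lit 0) (nat_lit 304423340600) (nat_lit 76) (nat_lit 32544406972) (nat_lit 76) (nat_lit 14590114955) (nat_lit 6) (nat_lit 4) (nat_lit 7) (nat_lit 5) (nat_lit 7) (nat_lit 4) (nat_lit 480) (nat_lit 402) (nat_lit 318)) (XT.lf (nat_lit 0) (nat_lit 21019194010) (nat_lit 152) (nat_lit 352874894945) (nat_lit 0) (nat_lit 3917892554) (nat_lit 4) (nat_lit 5) (nat_lit 6) (nat_lit 4) (nat_lit 4) (nat_lit 4) (nat_lit 481) (nat_lit 402) (nat_lit 317)))) (XT.nd (nat_lit 156) (nat_lit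 0) (nat_lit 0) (XT.nd (nat_lit 78) (nat_lit 0) (nat_lit 0) (XT.lf (nat_lit 0) (nat_lit 60347541040) (nat_lit 152) (nat_lit 302493446810) (nat_lit 0) (nat_lit 43244410209) (nat_lit 4) (nat_lit 5) (nat_lit 6) (nat_lit 4) (nat_lit 4) (nat_lit 4) (nat_lit 482) (nat_lit 402) (nat_lit 316)) (XT.lf (nat_lit 0) (nat_lit 102814151323) (nat_lit 152) (nat_lit 248097610353) (nat_lit 0) (nat_lit 85709326625) (nat_lit 4) (nat_lit 5) (nat_lit 6) (nat_lit 4) (nat_lit 4) (nat_lit 4) (nat_lit 483) (nat_lit 402) (nat_lit 315))) (XT.nd (nat_lit 78) (nat_lit 0) (nat_lit 0) (XT.lf (nat_lit 0) (nat_lit 148670678844) (nat_lit 152) (nat_lit 189365039879) (nat_lit 0) (nat_lit 131564285752) (nat_lit 4) (nat_lit 5) (nat_lit 6) (nat_lit 4) (nat_lit 4) (nat_lit 4) (nat_lit 484) (nat_lit 402) (nat_lit 314)) (XT.lf (nat_lit 0) (nat_lit 198188865990) (nat_lit 152) (nat_lit 125947690524) (nat_lit 0) (nat_lit 181081020680)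 (nat_lit 4) (nat_lit 5) (nat_lit 6) (nat_lit 4) (nat_lit 4) (nat_lit 4) (nat_lit 485) (nat_lit 402) (nat_lit 313)))))) (XT.nd (nat_lit 546) (nat_lit 152) (nat_lit 0) (XT.nd (nat_lit 234) (nat_lit 0) (nat_lit 0) (XT.nd (nat_lit 78) (nat_lit 76) (nat_lit 0) (XT.lf (nat_lit 0) (nat_lit 251662153869) (nat_lit 152) (nat_lit 57469755773) (nat_lit 0) (nat_lit 234552963913) (nat_lit 4) (nat_lit 5) (nat_lit 6) (nat_lit 4) (nat_lit 4) (nat_lit 4) (nat_lit 486) (nat_lit 402) (nat_lit 312)) (XT.nd (nat_lit 78) (nat_lit 0) (nat_lit 0) (XT.lf (nat_lit 0) (nat_lit 17019282880) (nat_lit 76) (nat_lit 292653857046) (nat_lit 76) (nat_lit 275543422048) (nat_lit 3) (nat_lit 4) (nat_lit 4) (nat_lit 5) (nat_lit 4) (nat_lit 4) (nat_lit 487) (nat_lit 402) (nat_lit 311)) (XT.lf (nat_lit 0) (nat_lit 99508332020) (nat_lit 76) (nat_lit 273812134147) (nat_lit 76) (nat_lit 256700546331) (nat_lit 3) (nat_lit 4) (nat_lit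 4) (nat_lit 5) (nat_lit 4) (nat_lit 4) (nat_lit 488) (nat_lit 402) (nat_lit 310)))) (XT.nd (nat_lit 156) (nat_lit 0) (nat_lit 0) (XT.nd (nat_lit 78) (nat_lit 0) (nat_lit 0) (XT.lf (nat_lit 0) (nat_lit 188586005975) (nat_lit 76) (nat_lit 253468364412) (nat_lit 76) (nat_lit 236355709174) (nat_lit 3) (nat_lit 4) (nat_lit 4) (nat_lit 5) (nat_lit 4) (nat_lit 4) (nat_lit 489) (nat_lit 402) (nat_lit 309)) (XT.lf (nat_lit 0) (nat_lit 284780172441) (nat_lit 76) (nat_lit 231501992170) (nat_lit 76) (nat_lit 214388348577) (nat_lit 3) (nat_lit 4) (nat_lit 4) (nat_lit 5) (nat_lit 4) (nat_lit 4) (nat_lit 490) (nat_lit 402) (nat_lit 308))) (XT.nd (nat_lit 78) (nat_lit 0) (nat_lit 0) (XT.lf (nat_lit 0) (nat_lit 388660870925) (nat_lit 76) (nat_lit 207782846326) (nat_lit 76) (nat_lit 190668287589) (nat_lit 3) (nat_lit 4) (nat_lit 4) (nat_lit 5) (nat_lit 4) (nat_lit 4) (nat_lit 491) (nat_lit 402) (nat_lit 307))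 (XT.lf (nat_lit 0) (nat_lit 500843690749) (nat_lit 76) (nat_lit 182170368978) (nat_lit 76) (nat_lit 165054962886) (nat_lit 3) (nat_lit 4) (nat_lit 4) (nat_lit 5) (nat_lit 4) (nat_lit 4) (nat_lit 492) (nat_lit 402) (nat_lit 306))))) (XT.nd (nat_lit 234) (nat_lit 152) (nat_lit 0) (XT.nd (nat_lit 78) (nat_lit 0) (nat_lit 0) (XT.lf (nat_lit 0) (nat_lit 621993418995) (nat_lit 76) (nat_lit 154512782483) (nat_lit 76) (nat_lit 137396591803) (nat_lit 3) (nat_lit 4) (nat_lit 4) (nat_lit 5) (nat_lit 4) (nat_lit 4) (nat_lit 493) (nat_lit 402) (nat_lit 305)) (XT.nd (nat_lit 78) (nat_lit 0) (nat_lit 0) (XT.lf (nat_lit 0) (nat_lit 752827979979) (nat_lit 76) (nat_lit 124646190031) (nat_lit 76) (nat_lit 107529272882) (nat_lit 3) (nat_lit 4) (nat_lit 4) (nat_lit 5) (nat_lit 4) (nat_lit 4) (nat_lit 494) (nat_lit 402) (nat_lit 304)) (XT.lf (nat_lit 0) (nat_lit 894122689616) (nat_lit 76) (nat_lit 92393604410)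 (nat_lit 76) (nat_lit 75276014602) (nat_lit 3) (nat_lit 4) (nat_lit 4) (nat_lit 5) (nat_lit 4) (nat_lit 4) (nat_lit 495) (nat_lit 402) (nat_lit 303)))) (XT.nd (nat_lit 156) (nat_lit 152) (nat_lit 0) (XT.nd (nat_lit 78) (nat_lit 0) (nat_lit 0) (XT.lf (nat_lit 0) (nat_lit 1046714849891) (nat_lit 76) (nat_lit 57563899184) (nat_lit 76) (nat_lit 40445686546) (nat_lit 3) (nat_lit 4) (nat_lit 4) (nat_lit 5) (nat_lit 4) (nat_lit 4) (nat_lit 496) (nat_lit 402) (nat_lit 302)) (XT.lf (nat_lit 0) (nat_lit 1211508710642) (nat_lit 76) (nat_lit 19950676101) (nat_lit 76) (nat_lit 2831886767) (nat_lit 3) (nat_lit 4) (nat_lit 4) (nat_lit 5) (nat_lit 4) (nat_lit 4) (nat_lit 497) (nat_lit 402) (nat_lit 301))) (XT.nd (nat_lit 55068) (nat_lit 0) (nat_lit 13072) (XT.lf (nat_lit 0) (nat_lit 37859836086) (nat_lit 152) (nat_lit 1271514484175) (nat_lit 0) (nat_lit 21555718647) (nat_lit 1) (nat_lit 5) (nat_lit 3) (nat_lit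 4) (nat_lit 1) (nat_lit 4) (nat_lit 498) (nat_lit 402) (nat_lit 300)) (XT.lf (nat_lit 0) (nat_lit 2917975757) (nat_lit 380) (nat_lit 216330470) (nat_lit 380) (nat_lit 216330470) (nat_lit 173) (nat_lit 3) (nat_lit 178) (nat_lit 3) (nat_lit 178) (nat_lit 5) (nat_lit 403) (nat_lit 403) (nat_lit 394))))))) (XT.nd (nat_lit 1014) (nat_lit 3420) (nat_lit 0) (XT.nd (nat_lit 468) (nat_lit 3420) (nat_lit 0) (XT.nd (nat_lit 234) (nat_lit 988) (nat_lit 0) (XT.nd (nat_lit 78) (nat_lit 380) (nat_lit 0) (XT.lf (nat_lit 0) (nat_lit 2568364896) (nat_lit 380) (nat_lit 1869350733) (nat_lit 456) (nat_lit 2358431362) (nat_lit 168) (nat_lit 5) (nat_lit 173) (nat_lit 3) (nat_lit 174) (nat_lit 5) (nat_lit 404) (nat_lit 403) (nat_lit 393)) (XT.nd (nat_lit 78) (nat_lit 380) (nat_lit 0) (XT.lf (nat_lit 76) (nat_lit 3746612402) (nat_lit 0) (nat_lit 2227307115) (nat_lit 456) (nat_lit 937797797) (nat_lit 169) (nat_lit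 5) (nat_lit 168) (nat_lit 5) (nat_lit 174) (nat_lit 5) (nat_lit 405) (nat_lit 403) (nat_lit 392)) (XT.lf (nat_lit 0) (nat_lit 2291095231) (nat_lit 456) (nat_lit 4358162861) (nat_lit 532) (nat_lit 397430640) (nat_lit 163) (nat_lit 5) (nat_lit 169) (nat_lit 5) (nat_lit 170) (nat_lit 5) (nat_lit 406) (nat_lit 403) (nat_lit 391)))) (XT.nd (nat_lit 78) (nat_lit 988) (nat_lit 0) (XT.lf (nat_lit 76) (nat_lit 1732993812) (nat_lit 0) (nat_lit 3834163750) (nat_lit 532) (nat_lit 1633601553) (nat_lit 164) (nat_lit 5) (nat_lit 163) (nat_lit 5) (nat_lit 170) (nat_lit 5) (nat_lit 407) (nat_lit 403) (nat_lit 390)) (XT.nd (nat_lit 78) (nat_lit 456) (nat_lit 0) (XT.lf (nat_lit 76) (nat_lit 901429812) (nat_lit 0) (nat_lit 587372820) (nat_lit 608) (nat_lit 5886818637) (nat_lit 157) (nat_lit 5) (nat_lit 156) (nat_lit 5) (nat_lit 164) (nat_lit 5) (nat_lit 408) (nat_lit 403) (nat_lit 389)) (XT.lf (nat_lit 0) (nat_lit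 136849524) (nat_lit 532) (nat_lit 4546468451) (nat_lit 608) (nat_lit 2885964859) (nat_lit 150) (nat_lit 5) (nat_lit 157) (nat_lit 5) (nat_lit 158) (nat_lit 5) (nat_lit 409) (nat_lit 403) (nat_lit 388))))) (XT.nd (nat_lit 234) (nat_lit 2052) (nat_lit 0) (XT.nd (nat_lit 78) (nat_lit 1292) (nat_lit 0) (XT.lf (nat_lit 0) (nat_lit 214764248) (nat_lit 608) (nat_lit 490104139) (nat_lit 76) (nat_lit 7079845503) (nat_lit 149) (nat_lit 5) (nat_lit 157) (nat_lit 5) (nat_lit 150) (nat_lit 5) (nat_lit 410) (nat_lit 403) (nat_lit 387)) (XT.nd (nat_lit 78) (nat_lit 684) (nat_lit 0) (XT.lf (nat_lit 0) (nat_lit 3395348964) (nat_lit 684) (nat_lit 1088231848) (nat_lit 76) (nat_lit 3534891459) (nat_lit 141) (nat_lit 5) (nat_lit 150) (nat_lit 5) (nat_lit 142) (nat_lit 5) (nat_lit 411) (nat_lit 403) (nat_lit 386)) (XT.lf (nat_lit 0) (nat_lit 6697689714) (nat_lit 684) (nat_lit 38291026) (nat_lit 760) (nat_lit 1539766637)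 (nat_lit 132) (nat_lit 5) (nat_lit 141) (nat_lit 5) (nat_lit 142) (nat_lit 5) (nat_lit 412) (nat_lit 403) (nat_lit 385)))) (XT.nd (nat_lit 156) (nat_lit 836) (nat_lit 0) (XT.nd (nat_lit 78) (nat_lit 380) (nat_lit 0) (XT.lf (nat_lit 0) (nat_lit 1722362263) (nat_lit 836) (nat_lit 2053046895) (nat_lit 76) (nat_lit 4777412343) (nat_lit 121) (nat_lit 5) (nat_lit 132) (nat_lit 5) (nat_lit 122) (nat_lit 5) (nat_lit 413) (nat_lit 403) (nat_lit 384)) (XT.lf (nat_lit 0) (nat_lit 5144167142) (nat_lit 456) (nat_lit 2462726337) (nat_lit 76) (nat_lit 1246351837) (nat_lit 116) (nat_lit 5) (nat_lit 122) (nat_lit 5) (nat_lit 117) (nat_lit 5) (nat_lit 414) (nat_lit 403) (nat_lit 383))) (XT.nd (nat_lit 78) (nat_lit 456) (nat_lit 0) (XT.lf (nat_lit 0) (nat_lit 6349131888) (nat_lit 380) (nat_lit 2504479906) (nat_lit 456) (nat_lit 323469102) (nat_lit 111) (nat_lit 5) (nat_lit 116) (nat_lit 5) (nat_lit 117) (nat_lit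 5) (nat_lit 415) (nat_lit 403) (nat_lit 382)) (XT.lf (nat_lit 0) (nat_lit 3242118991) (nat_lit 456) (nat_lit 3189164689) (nat_lit 76) (nat_lit 3092211490) (nat_lit 105) (nat_lit 5) (nat_lit 111) (nat_lit 5) (nat_lit 106) (nat_lit 5) (nat_lit 416) (nat_lit 403) (nat_lit 381)))))) (XT.nd (nat_lit 546) (nat_lit 1368) (nat_lit 0) (XT.nd (nat_lit 234) (nat_lit 1140) (nat_lit 0) (XT.nd (nat_lit 78) (nat_lit 608) (nat_lit 0) (XT.lf (nat_lit 0) (nat_lit 6397830417) (nat_lit 304) (nat_lit 708694283) (nat_lit 380) (nat_lit 2789646883) (nat_lit 101) (nat_lit 5) (nat_lit 105) (nat_lit 5) (nat_lit 106) (nat_lit 5) (nat_lit 417) (nat_lit 403) (nat_lit 380)) (XT.nd (nat_lit 78) (nat_lit 228) (nat_lit 0) (XT.lf (nat_lit 0) (nat_lit 1036344115) (nat_lit 380) (nat_lit 3812707991) (nat_lit 76) (nat_lit 5444579417) (nat_lit 96) (nat_lit 5) (nat_lit 101) (nat_lit 5) (nat_lit 97) (nat_lit 5) (nat_lit 418) (nat_lit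 403) (nat_lit 379)) (XT.lf (nat_lit 0) (nat_lit 5121183180) (nat_lit 304) (nat_lit 4117137074) (nat_lit 76) (nat_lit 1479804609) (nat_lit 93) (nat_lit 5) (nat_lit 97) (nat_lit 5) (nat_lit 94) (nat_lit 5) (nat_lit 419) (nat_lit 403) (nat_lit 378)))) (XT.nd (nat_lit 156) (nat_lit 532) (nat_lit 0) (XT.nd (nat_lit 78) (nat_lit 304) (nat_lit 0) (XT.lf (nat_lit 0) (nat_lit 6756012270) (nat_lit 304) (nat_lit 2887373021) (nat_lit 380) (nat_lit 1527708419) (nat_lit 89) (nat_lit 5) (nat_lit 93) (nat_lit 5) (nat_lit 94) (nat_lit 5) (nat_lit 420) (nat_lit 403) (nat_lit 377)) (XT.lf (nat_lit 0) (nat_lit 2883639695) (nat_lit 304) (nat_lit 4738572493) (nat_lit 76) (nat_lit 4030472263) (nat_lit 85) (nat_lit 5) (nat_lit 89) (nat_lit 5) (nat_lit 86) (nat_lit 5) (nat_lit 421) (nat_lit 403) (nat_lit 376))) (XT.nd (nat_lit 78) (nat_lit 304) (nat_lit 0) (XT.lf (nat_lit 0) (nat_lit 7107775929) (nat_lit 228) (nat_lit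 593364377) (nat_lit 304) (nat_lit 4465108130) (nat_lit 82) (nat_lit 5) (nat_lit 85) (nat_lit 5) (nat_lit 86) (nat_lit 5) (nat_lit 422) (nat_lit 403) (nat_lit 375)) (XT.lf (nat_lit 0) (nat_lit 361795030) (nat_lit 304) (nat_lit 5420387782) (nat_lit 76) (nat_lit 6929378373) (nat_lit 78) (nat_lit 5) (nat_lit 82) (nat_lit 5) (nat_lit 79) (nat_lit 5) (nat_lit 423) (nat_lit 403) (nat_lit 374))))) (XT.nd (nat_lit 234) (nat_lit 684) (nat_lit 0) (XT.nd (nat_lit 78) (nat_lit 456) (nat_lit 0) (XT.lf (nat_lit 0) (nat_lit 5546952543) (nat_lit 304) (nat_lit 5832608615) (nat_lit 76) (nat_lit 1910880877) (nat_lit 75) (nat_lit 5) (nat_lit 79) (nat_lit 5) (nat_lit 76) (nat_lit 5) (nat_lit 424) (nat_lit 403) (nat_lit 373)) (XT.nd (nat_lit 78) (nat_lit 304) (nat_lit 0) (XT.lf (nat_lit 0) (nat_lit 7620423578) (nat_lit 152) (nat_lit 3723540635) (nat_lit 228) (nat_lit 2561844740) (nat_lit 73) (nat_lit 5) (nat_lit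 75) (nat_lit 5) (nat_lit 76) (nat_lit 5) (nat_lit 425) (nat_lit 403) (nat_lit 372)) (XT.lf (nat_lit 0) (nat_lit 3125903056) (nat_lit 304) (nat_lit 6812387513) (nat_lit 76) (nat_lit 4620335890) (nat_lit 69) (nat_lit 5) (nat_lit 73) (nat_lit 5) (nat_lit 70) (nat_lit 5) (nat_lit 426) (nat_lit 403) (nat_lit 371)))) (XT.nd (nat_lit 156) (nat_lit 304) (nat_lit 0) (XT.nd (nat_lit 78) (nat_lit 228) (nat_lit 0) (XT.lf (nat_lit 0) (nat_lit 7843297258) (nat_lit 152) (nat_lit 1526906993) (nat_lit 228) (nat_lit 5881823435) (nat_lit 67) (nat_lit 5) (nat_lit 69) (nat_lit 5) (nat_lit 70) (nat_lit 5) (nat_lit 427) (nat_lit 403) (nat_lit 370)) (XT.lf (nat_lit 0) (nat_lit 373586345) (nat_lit 228) (nat_lit 8105195248) (nat_lit 76) (nat_lit 7508848053) (nat_lit 64) (nat_lit 5) (nat_lit 67) (nat_lit 5) (nat_lit 65) (nat_lit 5) (nat_lit 428) (nat_lit 403) (nat_lit 369))) (XT.nd (nat_lit 78) (nat_lit 152) (nat_lit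 0) (XT.lf (nat_lit 0) (nat_lit 7118753476) (nat_lit 228) (nat_lit 8929337366) (nat_lit 76) (nat_lit 719416458) (nat_lit 62) (nat_lit 5) (nat_lit 65) (nat_lit 5) (nat_lit 63) (nat_lit 5) (nat_lit 429) (nat_lit 403) (nat_lit 368)) (XT.lf (nat_lit 0) (nat_lit 7687978965) (nat_lit 152) (nat_lit 7027591517) (nat_lit 228) (nat_lit 2878619944) (nat_lit 60) (nat_lit 5) (nat_lit 62) (nat_lit 5) (nat_lit 63) (nat_lit 5) (nat_lit 430) (nat_lit 403) (nat_lit 367))))))))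
noncomputable def xc52 : XT := (XT.nd (nat_lit 2028) (nat_lit 1292) (nat_lit 0) (XT.nd (nat_lit 1014) (nat_lit 1064) (nat_lit 0) (XT.nd (nat_lit 468) (nat_lit 836) (nat_lit 0) (XT.nd (nat_lit 234) (nat_lit 456) (nat_lit 0) (XT.nd (nat_lit 78) (nat_lit 380) (nat_lit 0) (XT.lf (nat_lit 0) (nat_lit 4522035934) (nat_lit 228) (nat_lit 11031936112) (nat_lit 76) (nat_lit 2918050599) (nat_lit 57) (nat_lit 5) (nat_lit 60) (nat_lit 5) (nat_lit 58) (nat_lit 5) (nat_lit 431) (nat_lit 403) (nat_lit 366)) (XT.nd (nat_lit 78) (nat_lit 228) (nat_lit 0) (XT.lf (nat_lit 0) (nat_lit 7021709720) (nat_lit 152) (nat_lit 5709308690) (nat_lit 228) (nat_lit 6670861110) (nat_lit 55) (nat_lit 5) (nat_lit 57) (nat_lit 5) (nat_lit 58) (nat_lit 5) (nat_lit 432) (nat_lit 403) (nat_lit 365)) (XT.lf (nat_lit 0) (nat_lit 1446460312) (nat_lit 228) (nat_lit 13916241012) (nat_lit 76) (nat_lit 5027807887) (nat_lit 52) (nat_lit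 5) (nat_lit 55) (nat_lit 5) (nat_lit 53) (nat_lit 5) (nat_lit 433) (nat_lit 403) (nat_lit 364)))) (XT.nd (nat_lit 78) (nat_lit 304) (nat_lit 0) (XT.lf (nat_lit 0) (nat_lit 5657849139) (nat_lit 152) (nat_lit 4646859871) (nat_lit 228) (nat_lit 11131800936) (nat_lit 50) (nat_lit 5) (nat_lit 52) (nat_lit 5) (nat_lit 53) (nat_lit 5) (nat_lit 434) (nat_lit 403) (nat_lit 363)) (XT.nd (nat_lit 78) (nat_lit 228) (nat_lit 0) (XT.lf (nat_lit 0) (nat_lit 4637623903) (nat_lit 76) (nat_lit 15582263384) (nat_lit 152) (nat_lit 2328900517) (nat_lit 49) (nat_lit 5) (nat_lit 50) (nat_lit 5) (nat_lit 51) (nat_lit 4) (nat_lit 435) (nat_lit 403) (nat_lit 362)) (XT.lf (nat_lit 0) (nat_lit 3288780706) (nat_lit 152) (nat_lit 3992610539) (nat_lit 228) (nat_lit 16446416951) (nat_lit 46) (nat_lit 5) (nat_lit 48) (nat_lit 5) (nat_lit 49) (nat_lit 5) (nat_lit 436) (nat_lit 403) (nat_lit 361))))) (XT.nd (nat_lit 234) (nat_lit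 532) (nat_lit 0) (XT.nd (nat_lit 78) (nat_lit 228) (nat_lit 0) (XT.lf (nat_lit 0) (nat_lit 1579105003) (nat_lit 76) (nat_lit 16402316027) (nat_lit 152) (nat_lit 6997703468) (nat_lit 45) (nat_lit 5) (nat_lit 46) (nat_lit 5) (nat_lit 47) (nat_lit 4) (nat_lit 437) (nat_lit 403) (nat_lit 360)) (XT.nd (nat_lit 78) (nat_lit 152) (nat_lit 0) (XT.lf (nat_lit 0) (nat_lit 3462323085) (nat_lit 152) (nat_lit 476742078) (nat_lit 76) (nat_lit 22371082240) (nat_lit 44) (nat_lit 5) (nat_lit 46) (nat_lit 5) (nat_lit 45) (nat_lit 5) (nat_lit 438) (nat_lit 403) (nat_lit 359)) (XT.lf (nat_lit 0) (nat_lit 14995284672) (nat_lit 228) (nat_lit 3044153778) (nat_lit 76) (nat_lit 9678419983) (nat_lit 42) (nat_lit 5) (nat_lit 45) (nat_lit 5) (nat_lit 43) (nat_lit 4) (nat_lit 439) (nat_lit 403) (nat_lit 358)))) (XT.nd (nat_lit 156) (nat_lit 228) (nat_lit 0) (XT.nd (nat_lit 78) (nat_lit 228) (nat_lit 0) (XT.lf (nat_lit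 0) (nat_lit 23173705847) (nat_lit 76) (nat_lit 4650259258) (nat_lit 152) (nat_lit 1395573657) (nat_lit 41) (nat_lit 5) (nat_lit 42) (nat_lit 5) (nat_lit 43) (nat_lit 4) (nat_lit 440) (nat_lit 403) (nat_lit 357)) (XT.lf (nat_lit 0) (nat_lit 10974653732) (nat_lit 228) (nat_lit 9826114775) (nat_lit 76) (nat_lit 10007933608) (nat_lit 38) (nat_lit 5) (nat_lit 41) (nat_lit 5) (nat_lit 39) (nat_lit 4) (nat_lit 441) (nat_lit 403) (nat_lit 356))) (XT.nd (nat_lit 78) (nat_lit 152) (nat_lit 0) (XT.lf (nat_lit 0) (nat_lit 18238459371) (nat_lit 76) (nat_lit 6458466972) (nat_lit 152) (nat_lit 7806367541) (nat_lit 37) (nat_lit 5) (nat_lit 38) (nat_lit 5) (nat_lit 39) (nat_lit 4) (nat_lit 442) (nat_lit 403) (nat_lit 355)) (XT.lf (nat_lit 0) (nat_lit 5514039927) (nat_lit 152) (nat_lit 19602341171) (nat_lit 76) (nat_lit 9188209244) (nat_lit 35) (nat_lit 5) (nat_lit 37) (nat_lit 5) (nat_lit 36) (nat_lit 4) (nat_lit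 443) (nat_lit 403) (nat_lit 354)))))) (XT.nd (nat_lit 468) (nat_lit 532) (nat_lit 0) (XT.nd (nat_lit 234) (nat_lit 304) (nat_lit 0) (XT.nd (nat_lit 78) (nat_lit 152) (nat_lit 0) (XT.lf (nat_lit 0) (nat_lit 10236092961) (nat_lit 76) (nat_lit 9859602168) (nat_lit 152) (nat_lit 16124445455) (nat_lit 34) (nat_lit 5) (nat_lit 35) (nat_lit 5) (nat_lit 36) (nat_lit 4) (nat_lit 444) (nat_lit 403) (nat_lit 353)) (XT.nd (nat_lit 78) (nat_lit 76) (nat_lit 0) (XT.lf (nat_lit 0) (nat_lit 4832702924) (nat_lit 76) (nat_lit 31483009895) (nat_lit 76) (nat_lit 1949634541) (nat_lit 33) (nat_lit 4) (nat_lit 34) (nat_lit 5) (nat_lit 34) (nat_lit 4) (nat_lit 445) (nat_lit 403) (nat_lit 352)) (XT.lf (nat_lit 0) (nat_lit 13505496591) (nat_lit 152) (nat_lit 1891165601) (nat_lit 76) (nat_lit 25038387739) (nat_lit 32) (nat_lit 5) (nat_lit 34) (nat_lit 5) (nat_lit 33) (nat_lit 4) (nat_lit 446) (nat_lit 403) (nat_lit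 351)))) (XT.nd (nat_lit 78) (nat_lit 228) (nat_lit 0) (XT.lf (nat_lit 0) (nat_lit 30637230427) (nat_lit 152) (nat_lit 9684684651) (nat_lit 0) (nat_lit 2429393952) (nat_lit 31) (nat_lit 5) (nat_lit 33) (nat_lit 4) (nat_lit 31) (nat_lit 4) (nat_lit 447) (nat_lit 403) (nat_lit 350)) (XT.nd (nat_lit 78) (nat_lit 76) (nat_lit 0) (XT.lf (nat_lit 0) (nat_lit 4426952577) (nat_lit 152) (nat_lit 19168557840) (nat_lit 76) (nat_lit 21621091521) (nat_lit 29) (nat_lit 5) (nat_lit 31) (nat_lit 5) (nat_lit 30) (nat_lit 4) (nat_lit 448) (nat_lit 403) (nat_lit 349)) (XT.lf (nat_lit 0) (nat_lit 17375785677) (nat_lit 76) (nat_lit 4893924419) (nat_lit 152) (nat_lit 25579338182) (nat_lit 28) (nat_lit 5) (nat_lit 29) (nat_lit 5) (nat_lit 30) (nat_lit 4) (nat_lit 449) (nat_lit 403) (nat_lit 348))))) (XT.nd (nat_lit 234) (nat_lit 304) (nat_lit 0) (XT.nd (nat_lit 78) (nat_lit 152) (nat_lit 0) (XT.lf (nat_lit 0) (nat_lit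 6738460610) (nat_lit 76) (nat_lit 35440813385) (nat_lit 76) (nat_lit 8480849522) (nat_lit 27) (nat_lit 4) (nat_lit 28) (nat_lit 5) (nat_lit 28) (nat_lit 4) (nat_lit 450) (nat_lit 403) (nat_lit 347)) (XT.nd (nat_lit 78) (nat_lit 76) (nat_lit 0) (XT.lf (nat_lit 0) (nat_lit 10245131012) (nat_lit 152) (nat_lit 5984642848) (nat_lit 76) (nat_lit 37429557422) (nat_lit 26) (nat_lit 5) (nat_lit 28) (nat_lit 5) (nat_lit 27) (nat_lit 4) (nat_lit 451) (nat_lit 403) (nat_lit 346)) (XT.lf (nat_lit 0) (nat_lit 30778627123) (nat_lit 152) (nat_lit 21029985930) (nat_lit 0) (nat_lit 5052584884) (nat_lit 25) (nat_lit 5) (nat_lit 27) (nat_lit 4) (nat_lit 25) (nat_lit 4) (nat_lit 452) (nat_lit 403) (nat_lit 345)))) (XT.nd (nat_lit 156) (nat_lit 76) (nat_lit 0) (XT.nd (nat_lit 78) (nat_lit 152) (nat_lit 0) (XT.lf (nat_lit 0) (nat_lit 21220766451) (nat_lit 76) (nat_lit 32406536867) (nat_lit 76) (nat_lit 6658287462)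 (nat_lit 24) (nat_lit 4) (nat_lit 25) (nat_lit 5) (nat_lit 25) (nat_lit 4) (nat_lit 453) (nat_lit 403) (nat_lit 344)) (XT.lf (nat_lit 0) (nat_lit 3444528052) (nat_lit 76) (nat_lit 10805881532) (nat_lit 152) (nat_lit 49702908479) (nat_lit 22) (nat_lit 5) (nat_lit 23) (nat_lit 5) (nat_lit 24) (nat_lit 4) (nat_lit 454) (nat_lit 403) (nat_lit 343))) (XT.nd (nat_lit 78) (nat_lit 76) (nat_lit 0) (XT.lf (nat_lit 0) (nat_lit 37452626486) (nat_lit 152) (nat_lit 17520907346) (nat_lit 0) (nat_lit 12892768712) (nat_lit 22) (nat_lit 5) (nat_lit 24) (nat_lit 4) (nat_lit 22) (nat_lit 4) (nat_lit 455) (nat_lit 403) (nat_lit 342)) (XT.lf (nat_lit 0) (nat_lit 29605483327) (nat_lit 76) (nat_lit 33516472107) (nat_lit 76) (nat_lit 8939825033) (nat_lit 21) (nat_lit 4) (nat_lit 22) (nat_lit 5) (nat_lit 22) (nat_lit 4) (nat_lit 456) (nat_lit 403) (nat_lit 341))))))) (XT.nd (nat_lit 1014) (nat_lit 456) (nat_lit 0)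 (XT.nd (nat_lit 468) (nat_lit 380) (nat_lit 0) (XT.nd (nat_lit 234) (nat_lit 228) (nat_lit 0) (XT.nd (nat_lit 78) (nat_lit 76) (nat_lit 0) (XT.lf (nat_lit 0) (nat_lit 4399211151) (nat_lit 76) (nat_lit 9742937079) (nat_lit 152) (nat_lit 62422305761) (nat_lit 19) (nat_lit 5) (nat_lit 20) (nat_lit 5) (nat_lit 21) (nat_lit 4) (nat_lit 457) (nat_lit 403) (nat_lit 340)) (XT.nd (nat_lit 78) (nat_lit 76) (nat_lit 0) (XT.lf (nat_lit 0) (nat_lit 39730549590) (nat_lit 152) (nat_lit 25345106350) (nat_lit 0) (nat_lit 16295704980) (nat_lit 19) (nat_lit 5) (nat_lit 21) (nat_lit 4) (nat_lit 19) (nat_lit 4) (nat_lit 458) (nat_lit 403) (nat_lit 339)) (XT.lf (nat_lit 0) (nat_lit 25825157562) (nat_lit 76) (nat_lit 42079143915) (nat_lit 76) (nat_lit 18631606079) (nat_lit 18) (nat_lit 4) (nat_lit 19) (nat_lit 5) (nat_lit 19) (nat_lit 4) (nat_lit 459) (nat_lit 403) (nat_lit 338)))) (XT.nd (nat_lit 78) (nat_lit 152)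 (nat_lit 0) (XT.lf (nat_lit 0) (nat_lit 6439677095) (nat_lit 152) (nat_lit 10257952777) (nat_lit 76) (nat_lit 75390116360) (nat_lit 17) (nat_lit 5) (nat_lit 19) (nat_lit 5) (nat_lit 18) (nat_lit 4) (nat_lit 460) (nat_lit 403) (nat_lit 337)) (XT.nd (nat_lit 78) (nat_lit 76) (nat_lit 0) (XT.lf (nat_lit 0) (nat_lit 33737490271) (nat_lit 152) (nat_lit 52902347046) (nat_lit 0) (nat_lit 11384944349) (nat_lit 16) (nat_lit 5) (nat_lit 18) (nat_lit 4) (nat_lit 16) (nat_lit 4) (nat_lit 461) (nat_lit 403) (nat_lit 336)) (XT.lf (nat_lit 0) (nat_lit 554334852) (nat_lit 76) (nat_lit 63111135594) (nat_lit 76) (nat_lit 40748993202) (nat_lit 15) (nat_lit 4) (nat_lit 16) (nat_lit 5) (nat_lit 16) (nat_lit 4) (nat_lit 462) (nat_lit 403) (nat_lit 335))))) (XT.nd (nat_lit 234) (nat_lit 228) (nat_lit 0) (XT.nd (nat_lit 78) (nat_lit 152) (nat_lit 0) (XT.lf (nat_lit 0) (nat_lit 60128236753) (nat_lit 76) (nat_lit 36756626737)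 (nat_lit 76) (nat_lit 14385598726) (nat_lit 15) (nat_lit 4) (nat_lit 16) (nat_lit 5) (nat_lit 16) (nat_lit 4) (nat_lit 463) (nat_lit 403) (nat_lit 334)) (XT.nd (nat_lit 78) (nat_lit 0) (nat_lit 0) (XT.lf (nat_lit 0) (nat_lit 5710330369) (nat_lit 76) (nat_lit 7991906608) (nat_lit 152) (nat_lit 104958395710) (nat_lit 13) (nat_lit 5) (nat_lit 14) (nat_lit 5) (nat_lit 15) (nat_lit 4) (nat_lit 464) (nat_lit 403) (nat_lit 333)) (XT.lf (nat_lit 0) (nat_lit 44783315086) (nat_lit 152) (nat_lit 58321916751) (nat_lit 0) (nat_lit 23462483255) (nat_lit 13) (nat_lit 5) (nat_lit 15) (nat_lit 4) (nat_lit 13) (nat_lit 4) (nat_lit 465) (nat_lit 403) (nat_lit 332)))) (XT.nd (nat_lit 156) (nat_lit 152) (nat_lit 0) (XT.nd (nat_lit 78) (nat_lit 0) (nat_lit 0) (XT.lf (nat_lit 0) (nat_lit 517446031) (nat_lit 76) (nat_lit 77955678014) (nat_lit 76) (nat_lit 56628128382) (nat_lit 12) (nat_lit 4) (nat_lit 13) (nat_lit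 5) (nat_lit 13) (nat_lit 4) (nat_lit 466) (nat_lit 403) (nat_lit 331)) (XT.lf (nat_lit 0) (nat_lit 66107303705) (nat_lit 76) (nat_lit 49747063457) (nat_lit 76) (nat_lit 28413293640) (nat_lit 12) (nat_lit 4) (nat_lit 13) (nat_lit 5) (nat_lit 13) (nat_lit 4) (nat_lit 467) (nat_lit 403) (nat_lit 330))) (XT.nd (nat_lit 78) (nat_lit 76) (nat_lit 0) (XT.lf (nat_lit 0) (nat_lit 1974313636) (nat_lit 152) (nat_lit 17292186295) (nat_lit 76) (nat_lit 134900201359) (nat_lit 11) (nat_lit 5) (nat_lit 13) (nat_lit 5) (nat_lit 12) (nat_lit 4) (nat_lit 468) (nat_lit 403) (nat_lit 329)) (XT.lf (nat_lit 0) (nat_lit 34800136666) (nat_lit 152) (nat_lit 115512409055) (nat_lit 0) (nat_lit 14471696612) (nat_lit 10) (nat_lit 5) (nat_lit 12) (nat_lit 4) (nat_lit 10) (nat_lit 4) (nat_lit 469) (nat_lit 403) (nat_lit 328)))))) (XT.nd (nat_lit 546) (nat_lit 228) (nat_lit 0) (XT.nd (nat_lit 234) (nat_lit 152) (nat_lit 0)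 (XT.nd (nat_lit 78) (nat_lit 76) (nat_lit 0) (XT.lf (nat_lit 0) (nat_lit 70866403261) (nat_lit 152) (nat_lit 54820804351) (nat_lit 0) (nat_lit 50533260556) (nat_lit 10) (nat_lit 5) (nat_lit 12) (nat_lit 4) (nat_lit 10) (nat_lit 4) (nat_lit 470) (nat_lit 403) (nat_lit 327)) (XT.nd (nat_lit 78) (nat_lit 0) (nat_lit 0) (XT.lf (nat_lit 0) (nat_lit 11048887073) (nat_lit 76) (nat_lit 98926173944) (nat_lit 76) (nat_lit 78588676931) (nat_lit 9) (nat_lit 4) (nat_lit 10) (nat_lit 5) (nat_lit 10) (nat_lit 4) (nat_lit 471) (nat_lit 403) (nat_lit 326)) (XT.lf (nat_lit 0) (nat_lit 84116253799) (nat_lit 76) (nat_lit 69036367078) (nat_lit 76) (nat_lit 48694838299) (nat_lit 9) (nat_lit 4) (nat_lit 10) (nat_lit 5) (nat_lit 10) (nat_lit 4) (nat_lit 472) (nat_lit 403) (nat_lit 325)))) (XT.nd (nat_lit 156) (nat_lit 0) (nat_lit 0) (XT.nd (nat_lit 78) (nat_lit 152) (nat_lit 0) (XT.lf (nat_lit 0) (nat_lit 163001664260)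 (nat_lit 76) (nat_lit 36769079081) (nat_lit 76) (nat_lit 16423817186) (nat_lit 9) (nat_lit 4) (nat_lit 10) (nat_lit 5) (nat_lit 10) (nat_lit 4) (nat_lit 473) (nat_lit 403) (nat_lit 324)) (XT.lf (nat_lit 0) (nat_lit 16730486266) (nat_lit 76) (nat_lit 1356930685) (nat_lit 152) (nat_lit 213575208448) (nat_lit 7) (nat_lit 5) (nat_lit 8) (nat_lit 5) (nat_lit 9) (nat_lit 4) (nat_lit 474) (nat_lit 403) (nat_lit 323))) (XT.nd (nat_lit 78) (nat_lit 0) (nat_lit 0) (XT.lf (nat_lit 0) (nat_lit 56297070485) (nat_lit 152) (nat_lit 155067666070) (nat_lit 0) (nat_lit 36914290456) (nat_lit 7) (nat_lit 5) (nat_lit 9) (nat_lit 4) (nat_lit 7) (nat_lit 4) (nat_lit 475) (nat_lit 403) (nat_lit 322)) (XT.lf (nat_lit 0) (nat_lit 97574834662) (nat_lit 152) (nat_lit 90460107129) (nat_lit 0) (nat_lit 78189232282) (nat_lit 7) (nat_lit 5) (nat_lit 9) (nat_lit 4) (nat_lit 7) (nat_lit 4) (nat_lit 476) (nat_lit 403) (nat_lit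 321))))) (XT.nd (nat_lit 234) (nat_lit 152) (nat_lit 0) (XT.nd (nat_lit 78) (nat_lit 76) (nat_lit 0) (XT.lf (nat_lit 0) (nat_lit 142144132965) (nat_lit 152) (nat_lit 20705417209) (nat_lit 0) (nat_lit 122755917297) (nat_lit 7) (nat_lit 5) (nat_lit 9) (nat_lit 4) (nat_lit 7) (nat_lit 4) (nat_lit 477) (nat_lit 403) (nat_lit 320)) (XT.nd (nat_lit 78) (nat_lit 0) (nat_lit 0) (XT.lf (nat_lit 0) (nat_lit 56415410264) (nat_lit 76) (nat_lit 134734472147) (nat_lit 76) (nat_lit 115343836769) (nat_lit 6) (nat_lit 4) (nat_lit 7) (nat_lit 5) (nat_lit 7) (nat_lit 4) (nat_lit 478) (nat_lit 403) (nat_lit 319)) (XT.lf (nat_lit 0) (nat_lit 140426268710) (nat_lit 76) (nat_lit 104001038787) (nat_lit 76) (nat_lit 84608162936) (nat_lit 6) (nat_lit 4) (nat_lit 7) (nat_lit 5) (nat_lit 7) (nat_lit 4) (nat_lit 479) (nat_lit 403) (nat_lit 318)))) (XT.nd (nat_lit 156) (nat_lit 152) (nat_lit 0) (XT.nd (nat_lit 78) (nat_lit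 0) (nat_lit 0) (XT.lf (nat_lit 0) (nat_lit 231140385651) (nat_lit 76) (nat_lit 70817782302) (nat_lit 76) (nat_lit 51422831939) (nat_lit 6) (nat_lit 4) (nat_lit 7) (nat_lit 5) (nat_lit 7) (nat_lit 4) (nat_lit 480) (nat_lit 403) (nat_lit 317)) (XT.lf (nat_lit 0) (nat_lit 329095326225) (nat_lit 76) (nat_lit 34988061173) (nat_lit 76) (nat_lit 15591189965) (nat_lit 6) (nat_lit 4) (nat_lit 7) (nat_lit 5) (nat_lit 7) (nat_lit 4) (nat_lit 481) (nat_lit 403) (nat_lit 316))) (XT.nd (nat_lit 78) (nat_lit 0) (nat_lit 0) (XT.lf (nat_lit 0) (nat_lit 22856894449) (nat_lit 152) (nat_lit 380790244634) (nat_lit 0) (nat_lit 4381989909) (nat_lit 4) (nat_lit 5) (nat_lit 6) (nat_lit 4) (nat_lit 4) (nat_lit 4) (nat_lit 482) (nat_lit 403) (nat_lit 315)) (XT.lf (nat_lit 0) (nat_lit 65319941471) (nat_lit 152) (nat_lit 326401587456) (nat_lit 0) (nat_lit 46843468536) (nat_lit 4) (nat_lit 5) (nat_lit 6) (nat_lit 4) (nat_lit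 4) (nat_lit 4) (nat_lit 483) (nat_lit 403) (nat_lit 314))))))))
noncomputable def xc53 : XT := (XT.nd (nat_lit 57174) (nat_lit 0) (nat_lit 2660) (XT.nd (nat_lit 1014) (nat_lit 0) (nat_lit 0) (XT.nd (nat_lit 468) (nat_lit 0) (nat_lit 0) (XT.nd (nat_lit 234) (nat_lit 76) (nat_lit 0) (XT.nd (nat_lit 78) (nat_lit 0) (nat_lit 0) (XT.lf (nat_lit 0) (nat_lit 111173169676) (nat_lit 152) (nat_lit 267675664461) (nat_lit 0) (nat_lit 92695244523) (nat_lit 4) (nat_lit 5) (nat_lit 6) (nat_lit 4) (nat_lit 4) (nat_lit 4) (nat_lit 484) (nat_lit 403) (nat_lit 313)) (XT.nd (nat_lit 78) (nat_lit 0) (nat_lit 0) (XT.lf (nat_lit 0) (nat_lit 160688301899) (nat_lit 152) (nat_lit 204264470179) (nat_lit 0) (nat_lit 142209032101) (nat_lit 4) (nat_lit 5) (nat_lit 6) (nat_lit 4) (nat_lit 4) (nat_lit 4) (nat_lit 485) (nat_lit 403) (nat_lit 312)) (XT.lf (nat_lit 0) (nat_lit 214158761146) (nat_lit 152) (nat_lit 135792234571)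 (nat_lit 0) (nat_lit 195678246306) (nat_lit 4) (nat_lit 5) (nat_lit 6) (nat_lit 4) (nat_lit 4) (nat_lit 4) (nat_lit 486) (nat_lit 403) (nat_lit 311)))) (XT.nd (nat_lit 78) (nat_lit 76) (nat_lit 0) (XT.lf (nat_lit 0) (nat_lit 271901409398) (nat_lit 152) (nat_lit 61853196240) (nat_lit 0) (nat_lit 253419741741) (nat_lit 4) (nat_lit 5) (nat_lit 6) (nat_lit 4) (nat_lit 4) (nat_lit 4) (nat_lit 487) (nat_lit 403) (nat_lit 310)) (XT.nd (nat_lit 78) (nat_lit 0) (nat_lit 0) (XT.lf (nat_lit 0) (nat_lit 18585659242) (nat_lit 76) (nat_lit 315962940295) (nat_lit 76) (nat_lit 297480205215) (nat_lit 3) (nat_lit 4) (nat_lit 4) (nat_lit 5) (nat_lit 4) (nat_lit 4) (nat_lit 488) (nat_lit 403) (nat_lit 309)) (XT.lf (nat_lit 0) (nat_lit 107658659444) (nat_lit 76) (nat_lit 295621525884) (nat_lit 76) (nat_lit 277137802448) (nat_lit 3) (nat_lit 4) (nat_lit 4) (nat_lit 5) (nat_lit 4) (nat_lit 4) (nat_lit 489) (nat_lit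 403) (nat_lit 308))))) (XT.nd (nat_lit 234) (nat_lit 0) (nat_lit 0) (XT.nd (nat_lit 78) (nat_lit 0) (nat_lit 0) (XT.lf (nat_lit 0) (nat_lit 203848498362) (nat_lit 76) (nat_lit 273657334496) (nat_lit 76) (nat_lit 255172695917) (nat_lit 3) (nat_lit 4) (nat_lit 4) (nat_lit 5) (nat_lit 4) (nat_lit 4) (nat_lit 490) (nat_lit 403) (nat_lit 307)) (XT.nd (nat_lit 78) (nat_lit 0) (nat_lit 0) (XT.lf (nat_lit 0) (nat_lit 307725189857) (nat_lit 76) (nat_lit 249940207961) (nat_lit 76) (nat_lit 231454722027) (nat_lit 3) (nat_lit 4) (nat_lit 4) (nat_lit 5) (nat_lit 4) (nat_lit 4) (nat_lit 491) (nat_lit 403) (nat_lit 306)) (XT.lf (nat_lit 0) (nat_lit 419904299506) (nat_lit 76) (nat_lit 224329600344) (nat_lit 76) (nat_lit 205843329823) (nat_lit 3) (nat_lit 4) (nat_lit 4) (nat_lit 5) (nat_lit 4) (nat_lit 4) (nat_lit 492) (nat_lit 403) (nat_lit 305)))) (XT.nd (nat_lit 156) (nat_lit 0) (nat_lit 0) (XT.nd (nat_lit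 78) (nat_lit 0) (nat_lit 0) (XT.lf (nat_lit 0) (nat_lit 541050592405) (nat_lit 76) (nat_lit 196673745081) (nat_lit 76) (nat_lit 178186748090) (nat_lit 3) (nat_lit 4) (nat_lit 4) (nat_lit 5) (nat_lit 4) (nat_lit 4) (nat_lit 493) (nat_lit 403) (nat_lit 304)) (XT.lf (nat_lit 0) (nat_lit 671881972511) (nat_lit 76) (nat_lit 166808755623) (nat_lit 76) (nat_lit 148321085974) (nat_lit 3) (nat_lit 4) (nat_lit 4) (nat_lit 5) (nat_lit 4) (nat_lit 4) (nat_lit 494) (nat_lit 403) (nat_lit 303))) (XT.nd (nat_lit 78) (nat_lit 0) (nat_lit 0) (XT.lf (nat_lit 0) (nat_lit 813173736892) (nat_lit 76) (nat_lit 134557654254) (nat_lit 76) (nat_lit 116069361774) (nat_lit 3) (nat_lit 4) (nat_lit 4) (nat_lit 5) (nat_lit 4) (nat_lit 4) (nat_lit 495) (nat_lit 403) (nat_lit 302)) (XT.lf (nat_lit 0) (nat_lit 965763170077) (nat_lit 76) (nat_lit 99729323337) (nat_lit 76) (nat_lit 81240454161) (nat_lit 3) (nat_lit 4) (nat_lit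 4) (nat_lit 5) (nat_lit 4) (nat_lit 4) (nat_lit 496) (nat_lit 403) (nat_lit 301)))))) (XT.nd (nat_lit 55614) (nat_lit 0) (nat_lit 8208) (XT.nd (nat_lit 55302) (nat_lit 0) (nat_lit 11552) (XT.nd (nat_lit 78) (nat_lit 0) (nat_lit 0) (XT.lf (nat_lit 0) (nat_lit 1130554505745) (nat_lit 76) (nat_lit 62117372762) (nat_lit 76) (nat_lit 43627969608) (nat_lit 3) (nat_lit 4) (nat_lit 4) (nat_lit 5) (nat_lit 4) (nat_lit 4) (nat_lit 497) (nat_lit 403) (nat_lit 300)) (XT.nd (nat_lit 55146) (nat_lit 0) (nat_lit 12540) (XT.lf (nat_lit 0) (nat_lit 1308524285144) (nat_lit 76) (nat_lit 21498916896) (nat_lit 76) (nat_lit 3009019319) (nat_lit 3) (nat_lit 4) (nat_lit 4) (nat_lit 5) (nat_lit 4) (nat_lit 4) (nat_lit 498) (nat_lit 403) (nat_lit 299)) (XT.lf (nat_lit 0) (nat_lit 1436929730) (nat_lit 0) (nat_lit 1436929730) (nat_lit 380) (nat_lit 577024824) (nat_lit 168) (nat_lit 5) (nat_lit 168) (nat_lit 3) (nat_lit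 173) (nat_lit 3) (nat_lit 404) (nat_lit 404) (nat_lit 392)))) (XT.nd (nat_lit 156) (nat_lit 456) (nat_lit 0) (XT.nd (nat_lit 78) (nat_lit 0) (nat_lit 76) (XT.lf (nat_lit 76) (nat_lit 1437676884) (nat_lit 0) (nat_lit 401011412) (nat_lit 532) (nat_lit 5188508160) (nat_lit 162) (nat_lit 5) (nat_lit 161) (nat_lit 3) (nat_lit 168) (nat_lit 5) (nat_lit 405) (nat_lit 404) (nat_lit 391)) (XT.lf (nat_lit 76) (nat_lit 93108425) (nat_lit 0) (nat_lit 4747744037) (nat_lit 532) (nat_lit 2330493823) (nat_lit 163) (nat_lit 5) (nat_lit 162) (nat_lit 5) (nat_lit 169) (nat_lit 5) (nat_lit 406) (nat_lit 404) (nat_lit 390))) (XT.nd (nat_lit 78) (nat_lit 0) (nat_lit 76) (XT.lf (nat_lit 0) (nat_lit 554090914) (nat_lit 532) (nat_lit 1093131900) (nat_lit 608) (nat_lit 5688245673) (nat_lit 155) (nat_lit 5) (nat_lit 162) (nat_lit 5) (nat_lit 163) (nat_lit 5) (nat_lit 407) (nat_lit 404) (nat_lit 389)) (XT.lf (nat_lit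 0) (nat_lit 3439650338) (nat_lit 532) (nat_lit 2215036779) (nat_lit 608) (nat_lit 1863657326) (nat_lit 156) (nat_lit 5) (nat_lit 163) (nat_lit 5) (nat_lit 164) (nat_lit 5) (nat_lit 408) (nat_lit 404) (nat_lit 388))))) (XT.nd (nat_lit 234) (nat_lit 2280) (nat_lit 0) (XT.nd (nat_lit 78) (nat_lit 1140) (nat_lit 0) (XT.lf (nat_lit 76) (nat_lit 4476976123) (nat_lit 0) (nat_lit 1951806636) (nat_lit 608) (nat_lit 1293548961) (nat_lit 157) (nat_lit 5) (nat_lit 156) (nat_lit 5) (nat_lit 164) (nat_lit 5) (nat_lit 409) (nat_lit 404) (nat_lit 387)) (XT.nd (nat_lit 78) (nat_lit 608) (nat_lit 0) (XT.lf (nat_lit 0) (nat_lit 1559751677) (nat_lit 608) (nat_lit 4221394125) (nat_lit 76) (nat_lit 2165246815) (nat_lit 149) (nat_lit 5) (nat_lit 157) (nat_lit 5) (nat_lit 150) (nat_lit 5) (nat_lit 410) (nat_lit 404) (nat_lit 386)) (XT.lf (nat_lit 0) (nat_lit 3046883887) (nat_lit 608) (nat_lit 1470442373) (nat_lit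 684) (nat_lit 3674021430) (nat_lit 141) (nat_lit 5) (nat_lit 149) (nat_lit 5) (nat_lit 150) (nat_lit 5) (nat_lit 411) (nat_lit 404) (nat_lit 385)))) (XT.nd (nat_lit 156) (nat_lit 760) (nat_lit 0) (XT.nd (nat_lit 78) (nat_lit 836) (nat_lit 0) (XT.lf (nat_lit 0) (nat_lit 2440984880) (nat_lit 684) (nat_lit 5229830178) (nat_lit 760) (nat_lit 787207652) (nat_lit 132) (nat_lit 5) (nat_lit 141) (nat_lit 5) (nat_lit 142) (nat_lit 5) (nat_lit 412) (nat_lit 404) (nat_lit 384)) (XT.lf (nat_lit 0) (nat_lit 1893406555) (nat_lit 760) (nat_lit 313859184) (nat_lit 836) (nat_lit 6539459777) (nat_lit 121) (nat_lit 5) (nat_lit 131) (nat_lit 5) (nat_lit 132) (nat_lit 5) (nat_lit 413) (nat_lit 404) (nat_lit 383))) (XT.nd (nat_lit 78) (nat_lit 380) (nat_lit 0) (XT.lf (nat_lit 0) (nat_lit 1367551294) (nat_lit 380) (nat_lit 4070130707) (nat_lit 456) (nat_lit 3619071679) (nat_lit 116) (nat_lit 5) (nat_lit 121) (nat_lit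 5) (nat_lit 122) (nat_lit 5) (nat_lit 414) (nat_lit 404) (nat_lit 382)) (XT.lf (nat_lit 0) (nat_lit 924987642) (nat_lit 380) (nat_lit 7991445198) (nat_lit 456) (nat_lit 475723443) (nat_lit 111) (nat_lit 5) (nat_lit 116) (nat_lit 5) (nat_lit 117) (nat_lit 5) (nat_lit 415) (nat_lit 404) (nat_lit 381))))))) (XT.nd (nat_lit 1014) (nat_lit 2204) (nat_lit 0) (XT.nd (nat_lit 468) (nat_lit 1596) (nat_lit 0) (XT.nd (nat_lit 234) (nat_lit 988) (nat_lit 0) (XT.nd (nat_lit 78) (nat_lit 304) (nat_lit 0) (XT.lf (nat_lit 0) (nat_lit 474178563) (nat_lit 380) (nat_lit 2399409998) (nat_lit 456) (nat_lit 6876186822) (nat_lit 105) (nat_lit 5) (nat_lit 110) (nat_lit 5) (nat_lit 111) (nat_lit 5) (nat_lit 416) (nat_lit 404) (nat_lit 380)) (XT.nd (nat_lit 78) (nat_lit 0) (nat_lit 0) (XT.lf (nat_lit 0) (nat_lit 59699223) (nat_lit 304) (nat_lit 6467342763) (nat_lit 380) (nat_lit 3605983825) (nat_lit 101) (nat_lit 5)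 (nat_lit 105) (nat_lit 5) (nat_lit 106) (nat_lit 5) (nat_lit 417) (nat_lit 404) (nat_lit 379)) (XT.lf (nat_lit 0) (nat_lit 10259546786) (nat_lit 304) (nat_lit 268376434) (nat_lit 380) (nat_lit 16306319) (nat_lit 101) (nat_lit 5) (nat_lit 105) (nat_lit 5) (nat_lit 106) (nat_lit 5) (nat_lit 418) (nat_lit 404) (nat_lit 378)))) (XT.nd (nat_lit 78) (nat_lit 608) (nat_lit 0) (XT.lf (nat_lit 0) (nat_lit 3865210803) (nat_lit 380) (nat_lit 691777295) (nat_lit 76) (nat_lit 6421961258) (nat_lit 96) (nat_lit 5) (nat_lit 101) (nat_lit 5) (nat_lit 97) (nat_lit 5) (nat_lit 419) (nat_lit 404) (nat_lit 377)) (XT.nd (nat_lit 78) (nat_lit 380) (nat_lit 0) (XT.lf (nat_lit 0) (nat_lit 8135265567) (nat_lit 304) (nat_lit 1049621191) (nat_lit 76) (nat_lit 2259658773) (nat_lit 93) (nat_lit 5) (nat_lit 97) (nat_lit 5) (nat_lit 94) (nat_lit 5) (nat_lit 420) (nat_lit 404) (nat_lit 376)) (XT.lf (nat_lit 0) (nat_lit 906172901)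 (nat_lit 380) (nat_lit 1409781411) (nat_lit 76) (nat_lit 9624236159) (nat_lit 88) (nat_lit 5) (nat_lit 93) (nat_lit 5) (nat_lit 89) (nat_lit 5) (nat_lit 421) (nat_lit 404) (nat_lit 375))))) (XT.nd (nat_lit 234) (nat_lit 836) (nat_lit 0) (XT.nd (nat_lit 78) (nat_lit 532) (nat_lit 0) (XT.lf (nat_lit 0) (nat_lit 5494771073) (nat_lit 304) (nat_lit 1823512624) (nat_lit 76) (nat_lit 5146932177) (nat_lit 85) (nat_lit 5) (nat_lit 89) (nat_lit 5) (nat_lit 86) (nat_lit 5) (nat_lit 422) (nat_lit 404) (nat_lit 374)) (XT.nd (nat_lit 78) (nat_lit 304) (nat_lit 0) (XT.lf (nat_lit 0) (nat_lit 10574548631) (nat_lit 304) (nat_lit 2202896588) (nat_lit 76) (nat_lit 248624899) (nat_lit 82) (nat_lit 5) (nat_lit 86) (nat_lit 5) (nat_lit 83) (nat_lit 5) (nat_lit 423) (nat_lit 404) (nat_lit 373)) (XT.lf (nat_lit 0) (nat_lit 2574411805) (nat_lit 304) (nat_lit 2672280057) (nat_lit 76) (nat_lit 8372070581) (nat_lit 78)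 (nat_lit 5) (nat_lit 82) (nat_lit 5) (nat_lit 79) (nat_lit 5) (nat_lit 424) (nat_lit 404) (nat_lit 372)))) (XT.nd (nat_lit 156) (nat_lit 456) (nat_lit 0) (XT.nd (nat_lit 78) (nat_lit 152) (nat_lit 0) (XT.lf (nat_lit 0) (nat_lit 8075352658) (nat_lit 304) (nat_lit 3166988537) (nat_lit 76) (nat_lit 3006604028) (nat_lit 75) (nat_lit 5) (nat_lit 79) (nat_lit 5) (nat_lit 76) (nat_lit 5) (nat_lit 425) (nat_lit 404) (nat_lit 371)) (XT.lf (nat_lit 0) (nat_lit 11226163387) (nat_lit 152) (nat_lit 3002321417) (nat_lit 228) (nat_lit 690475748) (nat_lit 73) (nat_lit 5) (nat_lit 75) (nat_lit 5) (nat_lit 76) (nat_lit 5) (nat_lit 426) (nat_lit 404) (nat_lit 370))) (XT.nd (nat_lit 78) (nat_lit 152) (nat_lit 0) (XT.lf (nat_lit 0) (nat_lit 5298676314) (nat_lit 304) (nat_lit 4347720766) (nat_lit 76) (nat_lit 5980376206) (nat_lit 69) (nat_lit 5) (nat_lit 73) (nat_lit 5) (nat_lit 70) (nat_lit 5) (nat_lit 427) (nat_lit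 404) (nat_lit 369)) (XT.lf (nat_lit 0) (nat_lit 11349622729) (nat_lit 152) (nat_lit 595423677) (nat_lit 228) (nat_lit 4435504204) (nat_lit 67) (nat_lit 5) (nat_lit 69) (nat_lit 5) (nat_lit 70) (nat_lit 5) (nat_lit 428) (nat_lit 404) (nat_lit 368)))))) (XT.nd (nat_lit 546) (nat_lit 912) (nat_lit 0) (XT.nd (nat_lit 234) (nat_lit 760) (nat_lit 0) (XT.nd (nat_lit 78) (nat_lit 304) (nat_lit 0) (XT.lf (nat_lit 0) (nat_lit 2181862510) (nat_lit 228) (nat_lit 5868804628) (nat_lit 76) (nat_lit 9126720084) (nat_lit 64) (nat_lit 5) (nat_lit 67) (nat_lit 5) (nat_lit 65) (nat_lit 5) (nat_lit 429) (nat_lit 404) (nat_lit 367)) (XT.nd (nat_lit 78) (nat_lit 152) (nat_lit 0) (XT.lf (nat_lit 0) (nat_lit 9394693969) (nat_lit 228) (nat_lit 6816153640) (nat_lit 76) (nat_lit 1812429622) (nat_lit 62) (nat_lit 5) (nat_lit 65) (nat_lit 5) (nat_lit 63) (nat_lit 5) (nat_lit 430) (nat_lit 404) (nat_lit 366)) (XT.lf (nat_lit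 0) (nat_lit 11007666959) (nat_lit 152) (nat_lit 6507413559) (nat_lit 228) (nat_lit 1405246142) (nat_lit 60) (nat_lit 5) (nat_lit 62) (nat_lit 5) (nat_lit 63) (nat_lit 5) (nat_lit 431) (nat_lit 404) (nat_lit 365)))) (XT.nd (nat_lit 156) (nat_lit 380) (nat_lit 0) (XT.nd (nat_lit 78) (nat_lit 152) (nat_lit 0) (XT.lf (nat_lit 0) (nat_lit 6468713185) (nat_lit 228) (nat_lit 9213028822) (nat_lit 76) (nat_lit 4188544721) (nat_lit 57) (nat_lit 5) (nat_lit 60) (nat_lit 5) (nat_lit 58) (nat_lit 5) (nat_lit 432) (nat_lit 404) (nat_lit 364)) (XT.lf (nat_lit 0) (nat_lit 10167506423) (nat_lit 152) (nat_lit 5089851189) (nat_lit 228) (nat_lit 5621046042) (nat_lit 55) (nat_lit 5) (nat_lit 57) (nat_lit 5) (nat_lit 58) (nat_lit 5) (nat_lit 433) (nat_lit 404) (nat_lit 363))) (XT.nd (nat_lit 78) (nat_lit 152) (nat_lit 0) (XT.lf (nat_lit 0) (nat_lit 3037368365) (nat_lit 228) (nat_lit 12452530919) (nat_lit 76) (nat_lit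 6457885332) (nat_lit 52) (nat_lit 5) (nat_lit 55) (nat_lit 5) (nat_lit 53) (nat_lit 5) (nat_lit 434) (nat_lit 404) (nat_lit 362)) (XT.lf (nat_lit 0) (nat_lit 8575492757) (nat_lit 152) (nat_lit 3957996581) (nat_lit 228) (nat_lit 10547530696) (nat_lit 50) (nat_lit 5) (nat_lit 52) (nat_lit 5) (nat_lit 53) (nat_lit 5) (nat_lit 435) (nat_lit 404) (nat_lit 361))))) (XT.nd (nat_lit 234) (nat_lit 532) (nat_lit 0) (XT.nd (nat_lit 78) (nat_lit 304) (nat_lit 0) (XT.lf (nat_lit 0) (nat_lit 7418034181) (nat_lit 76) (nat_lit 15772767816) (nat_lit 152) (nat_lit 1094046230) (nat_lit 49) (nat_lit 5) (nat_lit 50) (nat_lit 5) (nat_lit 51) (nat_lit 4) (nat_lit 436) (nat_lit 404) (nat_lit 360)) (XT.nd (nat_lit 78) (nat_lit 76) (nat_lit 0) (XT.lf (nat_lit 0) (nat_lit 5900244061) (nat_lit 152) (nat_lit 3274100878) (nat_lit 228) (nat_lit 16386010226) (nat_lit 46) (nat_lit 5) (nat_lit 48) (nat_lit 5) (nat_lit 49)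 (nat_lit 5) (nat_lit 437) (nat_lit 404) (nat_lit 359)) (XT.lf (nat_lit 0) (nat_lit 3999060238) (nat_lit 76) (nat_lit 16685061462) (nat_lit 152) (nat_lit 6229979362) (nat_lit 45) (nat_lit 5) (nat_lit 46) (nat_lit 5) (nat_lit 47) (nat_lit 4) (nat_lit 438) (nat_lit 404) (nat_lit 358)))) (XT.nd (nat_lit 156) (nat_lit 304) (nat_lit 0) (XT.nd (nat_lit 78) (nat_lit 0) (nat_lit 0) (XT.lf (nat_lit 0) (nat_lit 1702817118) (nat_lit 152) (nat_lit 3252939413) (nat_lit 228) (nat_lit 23398253261) (nat_lit 42) (nat_lit 5) (nat_lit 44) (nat_lit 5) (nat_lit 45) (nat_lit 5) (nat_lit 439) (nat_lit 404) (nat_lit 357)) (XT.lf (nat_lit 0) (nat_lit 17343537643) (nat_lit 228) (nat_lit 1176279575) (nat_lit 76) (nat_lit 11357920766) (nat_lit 42) (nat_lit 5) (nat_lit 45) (nat_lit 5) (nat_lit 43) (nat_lit 4) (nat_lit 440) (nat_lit 404) (nat_lit 356))) (XT.nd (nat_lit 78) (nat_lit 228) (nat_lit 0) (XT.lf (nat_lit 0) (nat_lit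 27047249666) (nat_lit 76) (nat_lit 4097711480) (nat_lit 152) (nat_lit 357277872) (nat_lit 41) (nat_lit 5) (nat_lit 42) (nat_lit 5) (nat_lit 43) (nat_lit 4) (nat_lit 441) (nat_lit 404) (nat_lit 355)) (XT.lf (nat_lit 0) (nat_lit 12928162912) (nat_lit 228) (nat_lit 8605999079) (nat_lit 76) (nat_lit 11685363415) (nat_lit 38) (nat_lit 5) (nat_lit 41) (nat_lit 5) (nat_lit 39) (nat_lit 4) (nat_lit 442) (nat_lit 404) (nat_lit 354))))))))
noncomputable def xc54 : XT := (XT.nd (nat_lit 2028) (nat_lit 684) (nat_lit 0) (XT.nd (nat_lit 1014) (nat_lit 760) (nat_lit 0) (XT.nd (nat_lit 468) (nat_lit 684) (nat_lit 0) (XT.nd (nat_lit 234) (nat_lit 228) (nat_lit 0) (XT.nd (nat_lit 78) (nat_lit 228) (nat_lit 0) (XT.lf (nat_lit 0) (nat_lit 21616553780) (nat_lit 76) (nat_lit 6081955397) (nat_lit 152) (nat_lit 7353667862) (nat_lit 37) (nat_lit 5) (nat_lit 38) (nat_lit 5) (nat_lit 39) (nat_lit 4) (nat_lit 443) (nat_lit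 404) (nat_lit 353)) (XT.nd (nat_lit 78) (nat_lit 76) (nat_lit 0) (XT.lf (nat_lit 0) (nat_lit 6963476505) (nat_lit 152) (nat_lit 19265682881) (nat_lit 76) (nat_lit 10769304102) (nat_lit 35) (nat_lit 5) (nat_lit 37) (nat_lit 5) (nat_lit 36) (nat_lit 4) (nat_lit 444) (nat_lit 404) (nat_lit 352)) (XT.lf (nat_lit 0) (nat_lit 12877043714) (nat_lit 76) (nat_lit 9788378044) (nat_lit 152) (nat_lit 16404153918) (nat_lit 34) (nat_lit 5) (nat_lit 35) (nat_lit 5) (nat_lit 36) (nat_lit 4) (nat_lit 445) (nat_lit 404) (nat_lit 351)))) (XT.nd (nat_lit 78) (nat_lit 152) (nat_lit 0) (XT.lf (nat_lit 0) (nat_lit 6995436928) (nat_lit 76) (nat_lit 33156501897) (nat_lit 76) (nat_lit 1128020650) (nat_lit 33) (nat_lit 4) (nat_lit 34) (nat_lit 5) (nat_lit 34) (nat_lit 4) (nat_lit 446) (nat_lit 404) (nat_lit 350)) (XT.nd (nat_lit 78) (nat_lit 76) (nat_lit 0) (XT.lf (nat_lit 0) (nat_lit 15462136171) (nat_lit 152) (nat_lit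 368874952) (nat_lit 76) (nat_lit 27794973527) (nat_lit 32) (nat_lit 5) (nat_lit 34) (nat_lit 5) (nat_lit 33) (nat_lit 4) (nat_lit 447) (nat_lit 404) (nat_lit 349)) (XT.lf (nat_lit 0) (nat_lit 33936435763) (nat_lit 152) (nat_lit 8828675011) (nat_lit 0) (nat_lit 3363836743) (nat_lit 31) (nat_lit 5) (nat_lit 33) (nat_lit 4) (nat_lit 31) (nat_lit 4) (nat_lit 448) (nat_lit 404) (nat_lit 348))))) (XT.nd (nat_lit 234) (nat_lit 380) (nat_lit 0) (XT.nd (nat_lit 78) (nat_lit 152) (nat_lit 0) (XT.lf (nat_lit 0) (nat_lit 5604182455) (nat_lit 152) (nat_lit 19114867021) (nat_lit 76) (nat_lit 24073678530) (nat_lit 29) (nat_lit 5) (nat_lit 31) (nat_lit 5) (nat_lit 30) (nat_lit 4) (nat_lit 449) (nat_lit 404) (nat_lit 347)) (XT.nd (nat_lit 78) (nat_lit 76) (nat_lit 0) (XT.lf (nat_lit 0) (nat_lit 20284047267) (nat_lit 76) (nat_lit 4553048225) (nat_lit 152) (nat_lit 26800541399) (nat_lit 28) (nat_lit 5) (nat_lit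 29) (nat_lit 5) (nat_lit 30) (nat_lit 4) (nat_lit 450) (nat_lit 404) (nat_lit 346)) (XT.lf (nat_lit 0) (nat_lit 8756445189) (nat_lit 76) (nat_lit 37558448816) (nat_lit 76) (nat_lit 8359933990) (nat_lit 27) (nat_lit 4) (nat_lit 28) (nat_lit 5) (nat_lit 28) (nat_lit 4) (nat_lit 451) (nat_lit 404) (nat_lit 345)))) (XT.nd (nat_lit 156) (nat_lit 228) (nat_lit 0) (XT.nd (nat_lit 78) (nat_lit 76) (nat_lit 0) (XT.lf (nat_lit 0) (nat_lit 11781221335) (nat_lit 152) (nat_lit 5070328612) (nat_lit 76) (nat_lit 41064667249) (nat_lit 26) (nat_lit 5) (nat_lit 28) (nat_lit 5) (nat_lit 27) (nat_lit 4) (nat_lit 452) (nat_lit 404) (nat_lit 344)) (XT.lf (nat_lit 0) (nat_lit 33935251575) (nat_lit 152) (nat_lit 21355718738) (nat_lit 0) (nat_lit 6084372860) (nat_lit 25) (nat_lit 5) (nat_lit 27) (nat_lit 4) (nat_lit 25) (nat_lit 4) (nat_lit 453) (nat_lit 404) (nat_lit 343))) (XT.nd (nat_lit 78) (nat_lit 152) (nat_lit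 0) (XT.lf (nat_lit 0) (nat_lit 24216134780) (nat_lit 76) (nat_lit 34364515761) (nat_lit 76) (nat_lit 6494597980) (nat_lit 24) (nat_lit 4) (nat_lit 25) (nat_lit 5) (nat_lit 25) (nat_lit 4) (nat_lit 454) (nat_lit 404) (nat_lit 342)) (XT.lf (nat_lit 0) (nat_lit 4982748161) (nat_lit 76) (nat_lit 11051541940) (nat_lit 152) (nat_lit 53003073353) (nat_lit 22) (nat_lit 5) (nat_lit 23) (nat_lit 5) (nat_lit 24) (nat_lit 4) (nat_lit 455) (nat_lit 404) (nat_lit 341)))))) (XT.nd (nat_lit 468) (nat_lit 380) (nat_lit 0) (XT.nd (nat_lit 234) (nat_lit 152) (nat_lit 0) (XT.nd (nat_lit 78) (nat_lit 228) (nat_lit 0) (XT.lf (nat_lit 0) (nat_lit 41053937632) (nat_lit 152) (nat_lit 17732564602) (nat_lit 0) (nat_lit 14478823845) (nat_lit 22) (nat_lit 5) (nat_lit 24) (nat_lit 4) (nat_lit 22) (nat_lit 4) (nat_lit 456) (nat_lit 404) (nat_lit 340)) (XT.nd (nat_lit 78) (nat_lit 152) (nat_lit 0) (XT.lf (nat_lit 0) (nat_lit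 33112220710) (nat_lit 76) (nat_lit 35637541921) (nat_lit 76) (nat_lit 9048034015) (nat_lit 21) (nat_lit 4) (nat_lit 22) (nat_lit 5) (nat_lit 22) (nat_lit 4) (nat_lit 457) (nat_lit 404) (nat_lit 339)) (XT.lf (nat_lit 0) (nat_lit 5858582073) (nat_lit 76) (nat_lit 9976255910) (nat_lit 152) (nat_lit 66826685515) (nat_lit 19) (nat_lit 5) (nat_lit 20) (nat_lit 5) (nat_lit 21) (nat_lit 4) (nat_lit 458) (nat_lit 404) (nat_lit 338)))) (XT.nd (nat_lit 78) (nat_lit 152) (nat_lit 0) (XT.lf (nat_lit 0) (nat_lit 43436627166) (nat_lit 152) (nat_lit 26329201489) (nat_lit 0) (nat_lit 18088840090) (nat_lit 19) (nat_lit 5) (nat_lit 21) (nat_lit 4) (nat_lit 19) (nat_lit 4) (nat_lit 459) (nat_lit 404) (nat_lit 337)) (XT.nd (nat_lit 78) (nat_lit 76) (nat_lit 0) (XT.lf (nat_lit 0) (nat_lit 28889333717) (nat_lit 76) (nat_lit 44951445647) (nat_lit 76) (nat_lit 19592776175) (nat_lit 18) (nat_lit 4) (nat_lit 19) (nat_lit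 5) (nat_lit 19) (nat_lit 4) (nat_lit 460) (nat_lit 404) (nat_lit 336)) (XT.lf (nat_lit 0) (nat_lit 7429310166) (nat_lit 152) (nat_lit 10138659923) (nat_lit 76) (nat_lit 81863057083) (nat_lit 17) (nat_lit 5) (nat_lit 19) (nat_lit 5) (nat_lit 18) (nat_lit 4) (nat_lit 461) (nat_lit 404) (nat_lit 335))))) (XT.nd (nat_lit 234) (nat_lit 228) (nat_lit 0) (XT.nd (nat_lit 78) (nat_lit 76) (nat_lit 0) (XT.lf (nat_lit 0) (nat_lit 36896799559) (nat_lit 152) (nat_lit 56219730807) (nat_lit 0) (nat_lit 12727203688) (nat_lit 16) (nat_lit 5) (nat_lit 18) (nat_lit 4) (nat_lit 16) (nat_lit 4) (nat_lit 462) (nat_lit 404) (nat_lit 334)) (XT.nd (nat_lit 78) (nat_lit 0) (nat_lit 0) (XT.lf (nat_lit 0) (nat_lit 1473729375) (nat_lit 76) (nat_lit 67724853677) (nat_lit 76) (nat_lit 43547030380) (nat_lit 15) (nat_lit 4) (nat_lit 16) (nat_lit 5) (nat_lit 16) (nat_lit 4) (nat_lit 463) (nat_lit 404) (nat_lit 333)) (XT.lf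 (nat_lit 0) (nat_lit 65748725078) (nat_lit 76) (nat_lit 39294219131) (nat_lit 76) (nat_lit 15108777848) (nat_lit 15) (nat_lit 4) (nat_lit 16) (nat_lit 5) (nat_lit 16) (nat_lit 4) (nat_lit 464) (nat_lit 404) (nat_lit 332)))) (XT.nd (nat_lit 156) (nat_lit 76) (nat_lit 0) (XT.nd (nat_lit 78) (nat_lit 0) (nat_lit 0) (XT.lf (nat_lit 0) (nat_lit 6955279243) (nat_lit 76) (nat_lit 8238756959) (nat_lit 152) (nat_lit 112939655016) (nat_lit 13) (nat_lit 5) (nat_lit 14) (nat_lit 5) (nat_lit 15) (nat_lit 4) (nat_lit 465) (nat_lit 404) (nat_lit 331)) (XT.lf (nat_lit 0) (nat_lit 48737969484) (nat_lit 152) (nat_lit 62245275212) (nat_lit 0) (nat_lit 25691277894) (nat_lit 13) (nat_lit 5) (nat_lit 15) (nat_lit 4) (nat_lit 13) (nat_lit 4) (nat_lit 466) (nat_lit 404) (nat_lit 330))) (XT.nd (nat_lit 78) (nat_lit 0) (nat_lit 0) (XT.lf (nat_lit 0) (nat_lit 1268973016) (nat_lit 76) (nat_lit 83837522529) (nat_lit 76)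 (nat_lit 60785071508) (nat_lit 12) (nat_lit 4) (nat_lit 13) (nat_lit 5) (nat_lit 13) (nat_lit 4) (nat_lit 467) (nat_lit 404) (nat_lit 329)) (XT.lf (nat_lit 0) (nat_lit 72053416985) (nat_lit 76) (nat_lit 53398486195) (nat_lit 76) (nat_lit 30340702367) (nat_lit 12) (nat_lit 4) (nat_lit 13) (nat_lit 5) (nat_lit 13) (nat_lit 4) (nat_lit 468) (nat_lit 404) (nat_lit 328))))))) (XT.nd (nat_lit 1014) (nat_lit 228) (nat_lit 0) (XT.nd (nat_lit 468) (nat_lit 228) (nat_lit 0) (XT.nd (nat_lit 234) (nat_lit 76) (nat_lit 0) (XT.nd (nat_lit 78) (nat_lit 76) (nat_lit 0) (XT.lf (nat_lit 0) (nat_lit 2442065813) (nat_lit 152) (nat_lit 18056486695) (nat_lit 76) (nat_lit 145985986782) (nat_lit 11) (nat_lit 5) (nat_lit 13) (nat_lit 5) (nat_lit 12) (nat_lit 4) (nat_lit 469) (nat_lit 404) (nat_lit 327)) (XT.nd (nat_lit 78) (nat_lit 0) (nat_lit 0) (XT.lf (nat_lit 0) (nat_lit 37884873876) (nat_lit 152) (nat_lit 124151041557)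 (nat_lit 0) (nat_lit 15916022796) (nat_lit 10) (nat_lit 5) (nat_lit 12) (nat_lit 4) (nat_lit 10) (nat_lit 4) (nat_lit 470) (nat_lit 404) (nat_lit 326)) (XT.lf (nat_lit 0) (nat_lit 76814165779) (nat_lit 152) (nat_lit 58648727753) (nat_lit 0) (nat_lit 54841282933) (nat_lit 10) (nat_lit 5) (nat_lit 12) (nat_lit 4) (nat_lit 10) (nat_lit 4) (nat_lit 471) (nat_lit 404) (nat_lit 325)))) (XT.nd (nat_lit 78) (nat_lit 0) (nat_lit 0) (XT.lf (nat_lit 0) (nat_lit 12466300243) (nat_lit 76) (nat_lit 106572919432) (nat_lit 76) (nat_lit 84596303469) (nat_lit 9) (nat_lit 4) (nat_lit 10) (nat_lit 5) (nat_lit 10) (nat_lit 4) (nat_lit 472) (nat_lit 404) (nat_lit 324)) (XT.nd (nat_lit 78) (nat_lit 0) (nat_lit 0) (XT.lf (nat_lit 0) (nat_lit 91339537625) (nat_lit 76) (nat_lit 74311731604) (nat_lit 76) (nat_lit 52331659051) (nat_lit 9) (nat_lit 4) (nat_lit 10) (nat_lit 5) (nat_lit 10) (nat_lit 4) (nat_lit 473) (nat_lit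 404) (nat_lit 323)) (XT.lf (nat_lit 0) (nat_lit 176499189551) (nat_lit 76) (nat_lit 39481397222) (nat_lit 76) (nat_lit 17498124124) (nat_lit 9) (nat_lit 4) (nat_lit 10) (nat_lit 5) (nat_lit 10) (nat_lit 4) (nat_lit 474) (nat_lit 404) (nat_lit 322))))) (XT.nd (nat_lit 234) (nat_lit 76) (nat_lit 0) (XT.nd (nat_lit 78) (nat_lit 0) (nat_lit 0) (XT.lf (nat_lit 0) (nat_lit 18513779793) (nat_lit 76) (nat_lit 1242325747) (nat_lit 152) (nat_lit 230428440477) (nat_lit 7) (nat_lit 5) (nat_lit 8) (nat_lit 5) (nat_lit 9) (nat_lit 4) (nat_lit 475) (nat_lit 404) (nat_lit 321)) (XT.nd (nat_lit 78) (nat_lit 0) (nat_lit 0) (XT.lf (nat_lit 0) (nat_lit 61009335547) (nat_lit 152) (nat_lit 167054135009) (nat_lit 0) (nat_lit 40067449339) (nat_lit 7) (nat_lit 5) (nat_lit 9) (nat_lit 4) (nat_lit 7) (nat_lit 4) (nat_lit 476) (nat_lit 404) (nat_lit 320)) (XT.lf (nat_lit 0) (nat_lit 105573876456) (nat_lit 152) (nat_lit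 97309004266) (nat_lit 0) (nat_lit 84629570537) (nat_lit 7) (nat_lit 5) (nat_lit 9) (nat_lit 4) (nat_lit 7) (nat_lit 4) (nat_lit 477) (nat_lit 404) (nat_lit 319)))) (XT.nd (nat_lit 156) (nat_lit 0) (nat_lit 0) (XT.nd (nat_lit 78) (nat_lit 76) (nat_lit 0) (XT.lf (nat_lit 0) (nat_lit 153694418251) (nat_lit 152) (nat_lit 22002673333) (nat_lit 0) (nat_lit 132747871859) (nat_lit 7) (nat_lit 5) (nat_lit 9) (nat_lit 4) (nat_lit 7) (nat_lit 4) (nat_lit 478) (nat_lit 404) (nat_lit 318)) (XT.lf (nat_lit 0) (nat_lit 61272210932) (nat_lit 76) (nat_lit 145340539694) (nat_lit 76) (nat_lit 124391918790) (nat_lit 6) (nat_lit 4) (nat_lit 7) (nat_lit 5) (nat_lit 7) (nat_lit 4) (nat_lit 479) (nat_lit 404) (nat_lit 317))) (XT.nd (nat_lit 78) (nat_lit 0) (nat_lit 0) (XT.lf (nat_lit 0) (nat_lit 151978488583) (nat_lit 76) (nat_lit 112161223533) (nat_lit 76) (nat_lit 91210681785) (nat_lit 6) (nat_lit 4) (nat_lit 7)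 (nat_lit 5) (nat_lit 7) (nat_lit 4) (nat_lit 480) (nat_lit 404) (nat_lit 316)) (XT.lf (nat_lit 0) (nat_lit 249926170556) (nat_lit 76) (nat_lit 76335150852) (nat_lit 76) (nat_lit 55382830544) (nat_lit 6) (nat_lit 4) (nat_lit 7) (nat_lit 5) (nat_lit 7) (nat_lit 4) (nat_lit 481) (nat_lit 404) (nat_lit 315)))))) (XT.nd (nat_lit 546) (nat_lit 76) (nat_lit 0) (XT.nd (nat_lit 234) (nat_lit 0) (nat_lit 0) (XT.nd (nat_lit 78) (nat_lit 152) (nat_lit 0) (XT.lf (nat_lit 0) (nat_lit 355695687557) (nat_lit 76) (nat_lit 37650018998) (nat_lit 76) (nat_lit 16696051875) (nat_lit 6) (nat_lit 4) (nat_lit 7) (nat_lit 5) (nat_lit 7) (nat_lit 4) (nat_lit 482) (nat_lit 404) (nat_lit 314)) (XT.nd (nat_lit 78) (nat_lit 0) (nat_lit 0) (XT.lf (nat_lit 0) (nat_lit 24819332252) (nat_lit 152) (nat_lit 410983709484) (nat_lit 0) (nat_lit 4861720870) (nat_lit 4) (nat_lit 5) (nat_lit 6) (nat_lit 4) (nat_lit 4) (nat_lit 4) (nat_lit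 483) (nat_lit 404) (nat_lit 313)) (XT.lf (nat_lit 0) (nat_lit 70669505536) (nat_lit 152) (nat_lit 352263941562) (nat_lit 0) (nat_lit 50710549508) (nat_lit 4) (nat_lit 5) (nat_lit 6) (nat_lit 4) (nat_lit 4) (nat_lit 4) (nat_lit 484) (nat_lit 404) (nat_lit 312)))) (XT.nd (nat_lit 156) (nat_lit 0) (nat_lit 0) (XT.nd (nat_lit 78) (nat_lit 0) (nat_lit 0) (XT.lf (nat_lit 0) (nat_lit 120181809127) (nat_lit 152) (nat_lit 288858446423) (nat_lit 0) (nat_lit 100221608057) (nat_lit 4) (nat_lit 5) (nat_lit 6) (nat_lit 4) (nat_lit 4) (nat_lit 4) (nat_lit 485) (nat_lit 404) (nat_lit 311)) (XT.lf (nat_lit 0) (nat_lit 173649649271) (nat_lit 152) (nat_lit 220391487799) (nat_lit 0) (nat_lit 153688295384) (nat_lit 4) (nat_lit 5) (nat_lit 6) (nat_lit 4) (nat_lit 4) (nat_lit 4) (nat_lit 486) (nat_lit 404) (nat_lit 310))) (XT.nd (nat_lit 78) (nat_lit 0) (nat_lit 0) (XT.lf (nat_lit 0) (nat_lit 231389872427) (nat_lit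 152) (nat_lit 146457335564) (nat_lit 0) (nat_lit 211427451116) (nat_lit 4) (nat_lit 5) (nat_lit 6) (nat_lit 4) (nat_lit 4) (nat_lit 4) (nat_lit 487) (nat_lit 404) (nat_lit 309)) (XT.lf (nat_lit 0) (nat_lit 293744642880) (nat_lit 152) (nat_lit 66617861409) (nat_lit 0) (nat_lit 273781233215) (nat_lit 4) (nat_lit 5) (nat_lit 6) (nat_lit 4) (nat_lit 4) (nat_lit 4) (nat_lit 488) (nat_lit 404) (nat_lit 308))))) (XT.nd (nat_lit 234) (nat_lit 0) (nat_lit 0) (XT.nd (nat_lit 78) (nat_lit 0) (nat_lit 0) (XT.lf (nat_lit 0) (nat_lit 20248123891) (nat_lit 76) (nat_lit 341151476450) (nat_lit 76) (nat_lit 321187151641) (nat_lit 3) (nat_lit 4) (nat_lit 4) (nat_lit 5) (nat_lit 4) (nat_lit 4) (nat_lit 489) (nat_lit 404) (nat_lit 307)) (XT.nd (nat_lit 78) (nat_lit 0) (nat_lit 0) (XT.lf (nat_lit 0) (nat_lit 116433955820) (nat_lit 76) (nat_lit 319189304372) (nat_lit 76) (nat_lit 299224132208) (nat_lit 3) (nat_lit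 4) (nat_lit 4) (nat_lit 5) (nat_lit 4) (nat_lit 4) (nat_lit 490) (nat_lit 404) (nat_lit 306)) (XT.lf (nat_lit 0) (nat_lit 220306937139) (nat_lit 76) (nat_lit 295474047568) (nat_lit 76) (nat_lit 275508090817) (nat_lit 3) (nat_lit 4) (nat_lit 4) (nat_lit 5) (nat_lit 4) (nat_lit 4) (nat_lit 491) (nat_lit 404) (nat_lit 305)))) (XT.nd (nat_lit 156) (nat_lit 0) (nat_lit 0) (XT.nd (nat_lit 78) (nat_lit 0) (nat_lit 0) (XT.lf (nat_lit 0) (nat_lit 332482611441) (nat_lit 76) (nat_lit 269865171183) (nat_lit 76) (nat_lit 249898487962) (nat_lit 3) (nat_lit 4) (nat_lit 4) (nat_lit 5) (nat_lit 4) (nat_lit 4) (nat_lit 492) (nat_lit 404) (nat_lit 304)) (XT.lf (nat_lit 0) (nat_lit 453625723463) (nat_lit 76) (nat_lit 242210918914) (nat_lit 76) (nat_lit 222243563035) (nat_lit 3) (nat_lit 4) (nat_lit 4) (nat_lit 5) (nat_lit 4) (nat_lit 4) (nat_lit 493) (nat_lit 404) (nat_lit 303))) (XT.nd (nat_lit 78) (nat_lit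 0) (nat_lit 0) (XT.lf (nat_lit 0) (nat_lit 584454158312) (nat_lit 76) (nat_lit 212347413708) (nat_lit 76) (nat_lit 192379434998) (nat_lit 3) (nat_lit 4) (nat_lit 4) (nat_lit 5) (nat_lit 4) (nat_lit 4) (nat_lit 494) (nat_lit 404) (nat_lit 302)) (XT.lf (nat_lit 0) (nat_lit 725743195604) (nat_lit 76) (nat_lit 180097686648) (nat_lit 76) (nat_lit 160129131242) (nat_lit 3) (nat_lit 4) (nat_lit 4) (nat_lit 5) (nat_lit 4) (nat_lit 4) (nat_lit 495) (nat_lit 404) (nat_lit 301))))))))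
noncomputable def xc55 : XT := (XT.nd (nat_lit 57252) (nat_lit 0) (nat_lit 1596) (XT.nd (nat_lit 56160) (nat_lit 0) (nat_lit 5016) (XT.nd (nat_lit 55614) (nat_lit 0) (nat_lit 8968) (XT.nd (nat_lit 55380) (nat_lit 0) (nat_lit 11476) (XT.nd (nat_lit 78) (nat_lit 0) (nat_lit 0) (XT.lf (nat_lit 0) (nat_lit 878330103706) (nat_lit 76) (nat_lit 145270628238) (nat_lit 76) (nat_lit 125301538855) (nat_lit 3) (nat_lit 4) (nat_lit 4) (nat_lit 5) (nat_lit 4) (nat_lit 4) (nat_lit 496) (nat_lit 404) (nat_lit 300)) (XT.nd (nat_lit 78) (nat_lit 0) (nat_lit 0) (XT.lf (nat_lit 0) (nat_lit 1043119101334) (nat_lit 76) (nat_lit 107659855910) (nat_lit 76) (nat_lit 87690272104) (nat_lit 3) (nat_lit 4) (nat_lit 4) (nat_lit 5) (nat_lit 4) (nat_lit 4) (nat_lit 497) (nat_lit 404) (nat_lit 299)) (XT.lf (nat_lit 0) (nat_lit 1221086715881) (nat_lit 76) (nat_lit 67042491015) (nat_lit 76) (nat_lit 47072449409) (nat_lit 3)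 (nat_lit 4) (nat_lit 4) (nat_lit 5) (nat_lit 4) (nat_lit 4) (nat_lit 498) (nat_lit 404) (nat_lit 298)))) (XT.nd (nat_lit 78) (nat_lit 532) (nat_lit 0) (XT.lf (nat_lit 0) (nat_lit 2303176636) (nat_lit 532) (nat_lit 638712950) (nat_lit 532) (nat_lit 638712950) (nat_lit 161) (nat_lit 3) (nat_lit 168) (nat_lit 3) (nat_lit 168) (nat_lit 5) (nat_lit 405) (nat_lit 405) (nat_lit 390)) (XT.nd (nat_lit 78) (nat_lit 0) (nat_lit 76) (XT.lf (nat_lit 0) (nat_lit 95316517) (nat_lit 532) (nat_lit 2843448822) (nat_lit 608) (nat_lit 4376326028) (nat_lit 154) (nat_lit 5) (nat_lit 161) (nat_lit 3) (nat_lit 162) (nat_lit 5) (nat_lit 406) (nat_lit 405) (nat_lit 389)) (XT.lf (nat_lit 0) (nat_lit 2686571466) (nat_lit 532) (nat_lit 4339960210) (nat_lit 608) (nat_lit 461860681) (nat_lit 155) (nat_lit 5) (nat_lit 162) (nat_lit 5) (nat_lit 163) (nat_lit 5) (nat_lit 407) (nat_lit 405) (nat_lit 388))))) (XT.nd (nat_lit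 234) (nat_lit 2052) (nat_lit 0) (XT.nd (nat_lit 78) (nat_lit 532) (nat_lit 0) (XT.lf (nat_lit 76) (nat_lit 1903719091) (nat_lit 0) (nat_lit 3467891124) (nat_lit 608) (nat_lit 2309740696) (nat_lit 156) (nat_lit 5) (nat_lit 155) (nat_lit 5) (nat_lit 163) (nat_lit 5) (nat_lit 408) (nat_lit 405) (nat_lit 387)) (XT.nd (nat_lit 78) (nat_lit 0) (nat_lit 0) (XT.lf (nat_lit 0) (nat_lit 235788512) (nat_lit 608) (nat_lit 7127649666) (nat_lit 684) (nat_lit 532798774) (nat_lit 148) (nat_lit 5) (nat_lit 156) (nat_lit 5) (nat_lit 157) (nat_lit 5) (nat_lit 409) (nat_lit 405) (nat_lit 386)) (XT.lf (nat_lit 0) (nat_lit 2850466095) (nat_lit 608) (nat_lit 338706926) (nat_lit 684) (nat_lit 4940022289) (nat_lit 148) (nat_lit 5) (nat_lit 156) (nat_lit 5) (nat_lit 157) (nat_lit 5) (nat_lit 410) (nat_lit 405) (nat_lit 385)))) (XT.nd (nat_lit 156) (nat_lit 1520) (nat_lit 0) (XT.nd (nat_lit 78) (nat_lit 608) (nat_lit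 0) (XT.lf (nat_lit 0) (nat_lit 5608430400) (nat_lit 608) (nat_lit 1338108390) (nat_lit 76) (nat_lit 1437634873) (nat_lit 149) (nat_lit 5) (nat_lit 157) (nat_lit 5) (nat_lit 150) (nat_lit 5) (nat_lit 411) (nat_lit 405) (nat_lit 384)) (XT.lf (nat_lit 0) (nat_lit 6371651248) (nat_lit 608) (nat_lit 2188403853) (nat_lit 684) (nat_lit 100926386) (nat_lit 141) (nat_lit 5) (nat_lit 149) (nat_lit 5) (nat_lit 150) (nat_lit 5) (nat_lit 412) (nat_lit 405) (nat_lit 383))) (XT.nd (nat_lit 78) (nat_lit 760) (nat_lit 0) (XT.lf (nat_lit 0) (nat_lit 2683904354) (nat_lit 760) (nat_lit 3234067172) (nat_lit 76) (nat_lit 3040595814) (nat_lit 131) (nat_lit 5) (nat_lit 141) (nat_lit 5) (nat_lit 132) (nat_lit 5) (nat_lit 413) (nat_lit 405) (nat_lit 382)) (XT.lf (nat_lit 0) (nat_lit 5154651903) (nat_lit 760) (nat_lit 524856080) (nat_lit 836) (nat_lit 3600860484) (nat_lit 121) (nat_lit 5) (nat_lit 131) (nat_lit 5) (nat_lit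 132) (nat_lit 5) (nat_lit 414) (nat_lit 405) (nat_lit 381)))))) (XT.nd (nat_lit 546) (nat_lit 1520) (nat_lit 0) (XT.nd (nat_lit 234) (nat_lit 1216) (nat_lit 0) (XT.nd (nat_lit 78) (nat_lit 836) (nat_lit 0) (XT.lf (nat_lit 0) (nat_lit 4613234192) (nat_lit 380) (nat_lit 4357279165) (nat_lit 456) (nat_lit 654674925) (nat_lit 116) (nat_lit 5) (nat_lit 121) (nat_lit 5) (nat_lit 122) (nat_lit 5) (nat_lit 415) (nat_lit 405) (nat_lit 380)) (XT.nd (nat_lit 78) (nat_lit 380) (nat_lit 0) (XT.lf (nat_lit 0) (nat_lit 2469654246) (nat_lit 456) (nat_lit 5888620069) (nat_lit 76) (nat_lit 1636234683) (nat_lit 110) (nat_lit 5) (nat_lit 116) (nat_lit 5) (nat_lit 111) (nat_lit 5) (nat_lit 416) (nat_lit 405) (nat_lit 379)) (XT.lf (nat_lit 0) (nat_lit 3618863549) (nat_lit 380) (nat_lit 2280331400) (nat_lit 456) (nat_lit 4489784557) (nat_lit 105) (nat_lit 5) (nat_lit 110) (nat_lit 5) (nat_lit 111) (nat_lit 5) (nat_lit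 417) (nat_lit 405) (nat_lit 378)))) (XT.nd (nat_lit 156) (nat_lit 532) (nat_lit 0) (XT.nd (nat_lit 78) (nat_lit 380) (nat_lit 0) (XT.lf (nat_lit 0) (nat_lit 3166225101) (nat_lit 304) (nat_lit 6524532599) (nat_lit 380) (nat_lit 1119914092) (nat_lit 101) (nat_lit 5) (nat_lit 105) (nat_lit 5) (nat_lit 106) (nat_lit 5) (nat_lit 418) (nat_lit 405) (nat_lit 377)) (XT.lf (nat_lit 0) (nat_lit 2515942006) (nat_lit 380) (nat_lit 8528584133) (nat_lit 76) (nat_lit 215796118) (nat_lit 96) (nat_lit 5) (nat_lit 101) (nat_lit 5) (nat_lit 97) (nat_lit 5) (nat_lit 419) (nat_lit 405) (nat_lit 376))) (XT.nd (nat_lit 78) (nat_lit 304) (nat_lit 0) (XT.lf (nat_lit 0) (nat_lit 2262492042) (nat_lit 228) (nat_lit 4301476853) (nat_lit 304) (nat_lit 5173069410) (nat_lit 93) (nat_lit 5) (nat_lit 96) (nat_lit 5) (nat_lit 97) (nat_lit 5) (nat_lit 420) (nat_lit 405) (nat_lit 375)) (XT.lf (nat_lit 0) (nat_lit 1837503669)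 (nat_lit 304) (nat_lit 9210114430) (nat_lit 380) (nat_lit 1198720120) (nat_lit 89) (nat_lit 5) (nat_lit 93) (nat_lit 5) (nat_lit 94) (nat_lit 5) (nat_lit 421) (nat_lit 405) (nat_lit 374))))) (XT.nd (nat_lit 234) (nat_lit 760) (nat_lit 0) (XT.nd (nat_lit 78) (nat_lit 456) (nat_lit 0) (XT.lf (nat_lit 0) (nat_lit 1378861276) (nat_lit 228) (nat_lit 1767501116) (nat_lit 304) (nat_lit 9640046198) (nat_lit 85) (nat_lit 5) (nat_lit 88) (nat_lit 5) (nat_lit 89) (nat_lit 5) (nat_lit 422) (nat_lit 405) (nat_lit 373)) (XT.nd (nat_lit 78) (nat_lit 228) (nat_lit 0) (XT.lf (nat_lit 0) (nat_lit 883069050) (nat_lit 228) (nat_lit 7105914686) (nat_lit 304) (nat_lit 5370150882) (nat_lit 82) (nat_lit 5) (nat_lit 85) (nat_lit 5) (nat_lit 86) (nat_lit 5) (nat_lit 423) (nat_lit 405) (nat_lit 372)) (XT.lf (nat_lit 0) (nat_lit 420907579) (nat_lit 228) (nat_lit 12950039922) (nat_lit 304) (nat_lit 599161499) (nat_lit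 79) (nat_lit 5) (nat_lit 82) (nat_lit 5) (nat_lit 83) (nat_lit 5) (nat_lit 424) (nat_lit 405) (nat_lit 371)))) (XT.nd (nat_lit 156) (nat_lit 456) (nat_lit 0) (XT.nd (nat_lit 78) (nat_lit 228) (nat_lit 0) (XT.lf (nat_lit 0) (nat_lit 4652512531) (nat_lit 304) (nat_lit 158234318) (nat_lit 76) (nat_lit 9803446257) (nat_lit 78) (nat_lit 5) (nat_lit 82) (nat_lit 5) (nat_lit 79) (nat_lit 5) (nat_lit 425) (nat_lit 405) (nat_lit 370)) (XT.lf (nat_lit 0) (nat_lit 10508627023) (nat_lit 304) (nat_lit 734966302) (nat_lit 76) (nat_lit 4055476555) (nat_lit 75) (nat_lit 5) (nat_lit 79) (nat_lit 5) (nat_lit 76) (nat_lit 5) (nat_lit 426) (nat_lit 405) (nat_lit 369))) (XT.nd (nat_lit 78) (nat_lit 228) (nat_lit 0) (XT.lf (nat_lit 0) (nat_lit 1001285955) (nat_lit 228) (nat_lit 1350547804) (nat_lit 76) (nat_lit 13674691158) (nat_lit 72) (nat_lit 5) (nat_lit 75) (nat_lit 5) (nat_lit 73) (nat_lit 5) (nat_lit 427)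 (nat_lit 405) (nat_lit 368)) (XT.lf (nat_lit 0) (nat_lit 7370976637) (nat_lit 304) (nat_lit 2115242003) (nat_lit 76) (nat_lit 7307926197) (nat_lit 69) (nat_lit 5) (nat_lit 73) (nat_lit 5) (nat_lit 70) (nat_lit 5) (nat_lit 428) (nat_lit 405) (nat_lit 367))))))) (XT.nd (nat_lit 1014) (nat_lit 1292) (nat_lit 0) (XT.nd (nat_lit 468) (nat_lit 1064) (nat_lit 0) (XT.nd (nat_lit 234) (nat_lit 532) (nat_lit 0) (XT.nd (nat_lit 78) (nat_lit 380) (nat_lit 0) (XT.lf (nat_lit 0) (nat_lit 14469550538) (nat_lit 228) (nat_lit 2890739776) (nat_lit 76) (nat_lit 251935250) (nat_lit 67) (nat_lit 5) (nat_lit 70) (nat_lit 5) (nat_lit 68) (nat_lit 5) (nat_lit 429) (nat_lit 405) (nat_lit 366)) (XT.nd (nat_lit 78) (nat_lit 152) (nat_lit 0) (XT.lf (nat_lit 0) (nat_lit 3881093659) (nat_lit 228) (nat_lit 3865052620) (nat_lit 76) (nat_lit 10728912035) (nat_lit 64) (nat_lit 5) (nat_lit 67) (nat_lit 5) (nat_lit 65) (nat_lit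 5) (nat_lit 430) (nat_lit 405) (nat_lit 365)) (XT.lf (nat_lit 0) (nat_lit 11609266928) (nat_lit 228) (nat_lit 4937294083) (nat_lit 76) (nat_lit 2845163916) (nat_lit 62) (nat_lit 5) (nat_lit 65) (nat_lit 5) (nat_lit 63) (nat_lit 5) (nat_lit 431) (nat_lit 405) (nat_lit 364)))) (XT.nd (nat_lit 78) (nat_lit 380) (nat_lit 0) (XT.lf (nat_lit 0) (nat_lit 14207081479) (nat_lit 152) (nat_lit 6100035726) (nat_lit 228) (nat_lit 57049066) (nat_lit 60) (nat_lit 5) (nat_lit 62) (nat_lit 5) (nat_lit 63) (nat_lit 5) (nat_lit 432) (nat_lit 405) (nat_lit 363)) (XT.nd (nat_lit 78) (nat_lit 152) (nat_lit 0) (XT.lf (nat_lit 0) (nat_lit 8345018861) (nat_lit 228) (nat_lit 7634002731) (nat_lit 76) (nat_lit 5412731585) (nat_lit 57) (nat_lit 5) (nat_lit 60) (nat_lit 5) (nat_lit 58) (nat_lit 5) (nat_lit 433) (nat_lit 405) (nat_lit 362)) (XT.lf (nat_lit 0) (nat_lit 13196321824) (nat_lit 152) (nat_lit 4574369363) (nat_lit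 228) (nat_lit 4713147457) (nat_lit 55) (nat_lit 5) (nat_lit 57) (nat_lit 5) (nat_lit 58) (nat_lit 5) (nat_lit 434) (nat_lit 405) (nat_lit 361))))) (XT.nd (nat_lit 234) (nat_lit 532) (nat_lit 0) (XT.nd (nat_lit 78) (nat_lit 304) (nat_lit 0) (XT.lf (nat_lit 0) (nat_lit 4545096542) (nat_lit 228) (nat_lit 11239363216) (nat_lit 76) (nat_lit 7855734279) (nat_lit 52) (nat_lit 5) (nat_lit 55) (nat_lit 5) (nat_lit 53) (nat_lit 5) (nat_lit 435) (nat_lit 405) (nat_lit 360)) (XT.nd (nat_lit 78) (nat_lit 152) (nat_lit 0) (XT.lf (nat_lit 0) (nat_lit 11374885819) (nat_lit 152) (nat_lit 3365332398) (nat_lit 228) (nat_lit 10126917587) (nat_lit 50) (nat_lit 5) (nat_lit 52) (nat_lit 5) (nat_lit 53) (nat_lit 5) (nat_lit 436) (nat_lit 405) (nat_lit 359)) (XT.lf (nat_lit 0) (nat_lit 35671667) (nat_lit 152) (nat_lit 16092897957) (nat_lit 76) (nat_lit 10040873599) (nat_lit 48) (nat_lit 5) (nat_lit 50) (nat_lit 5)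 (nat_lit 49) (nat_lit 5) (nat_lit 437) (nat_lit 405) (nat_lit 358)))) (XT.nd (nat_lit 156) (nat_lit 304) (nat_lit 0) (XT.nd (nat_lit 78) (nat_lit 76) (nat_lit 0) (XT.lf (nat_lit 0) (nat_lit 8385604547) (nat_lit 152) (nat_lit 2646181121) (nat_lit 228) (nat_lit 16517089877) (nat_lit 46) (nat_lit 5) (nat_lit 48) (nat_lit 5) (nat_lit 49) (nat_lit 5) (nat_lit 438) (nat_lit 405) (nat_lit 357)) (XT.lf (nat_lit 0) (nat_lit 6285400383) (nat_lit 76) (nat_lit 17137287636) (nat_lit 152) (nat_lit 5590225805) (nat_lit 45) (nat_lit 5) (nat_lit 46) (nat_lit 5) (nat_lit 47) (nat_lit 4) (nat_lit 439) (nat_lit 405) (nat_lit 356))) (XT.nd (nat_lit 78) (nat_lit 76) (nat_lit 0) (XT.lf (nat_lit 0) (nat_lit 3754957156) (nat_lit 152) (nat_lit 2647287451) (nat_lit 228) (nat_lit 24167475688) (nat_lit 42) (nat_lit 5) (nat_lit 44) (nat_lit 5) (nat_lit 45) (nat_lit 5) (nat_lit 440) (nat_lit 405) (nat_lit 355)) (XT.lf (nat_lit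 0) (nat_lit 557657339) (nat_lit 76) (nat_lit 19166835167) (nat_lit 152) (nat_lit 12493690089) (nat_lit 41) (nat_lit 5) (nat_lit 42) (nat_lit 5) (nat_lit 43) (nat_lit 4) (nat_lit 441) (nat_lit 405) (nat_lit 354)))))) (XT.nd (nat_lit 546) (nat_lit 532) (nat_lit 0) (XT.nd (nat_lit 234) (nat_lit 456) (nat_lit 0) (XT.nd (nat_lit 78) (nat_lit 228) (nat_lit 0) (XT.lf (nat_lit 0) (nat_lit 580824846) (nat_lit 152) (nat_lit 3042198519) (nat_lit 76) (nat_lit 30351890322) (nat_lit 40) (nat_lit 5) (nat_lit 42) (nat_lit 5) (nat_lit 41) (nat_lit 5) (nat_lit 442) (nat_lit 405) (nat_lit 353)) (XT.nd (nat_lit 78) (nat_lit 76) (nat_lit 0) (XT.lf (nat_lit 0) (nat_lit 14884515466) (nat_lit 228) (nat_lit 7574481683) (nat_lit 76) (nat_lit 13371902981) (nat_lit 38) (nat_lit 5) (nat_lit 41) (nat_lit 5) (nat_lit 39) (nat_lit 4) (nat_lit 443) (nat_lit 405) (nat_lit 352)) (XT.lf (nat_lit 0) (nat_lit 24991126417) (nat_lit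 76) (nat_lit 5802746284) (nat_lit 152) (nat_lit 7018428127) (nat_lit 37) (nat_lit 5) (nat_lit 38) (nat_lit 5) (nat_lit 39) (nat_lit 4) (nat_lit 444) (nat_lit 405) (nat_lit 351)))) (XT.nd (nat_lit 156) (nat_lit 228) (nat_lit 0) (XT.nd (nat_lit 78) (nat_lit 76) (nat_lit 0) (XT.lf (nat_lit 0) (nat_lit 8385020832) (nat_lit 152) (nat_lit 19173839446) (nat_lit 76) (nat_lit 12356189752) (nat_lit 35) (nat_lit 5) (nat_lit 37) (nat_lit 5) (nat_lit 36) (nat_lit 4) (nat_lit 445) (nat_lit 405) (nat_lit 350)) (XT.lf (nat_lit 0) (nat_lit 15469332824) (nat_lit 76) (nat_lit 9834143505) (nat_lit 152) (nat_lit 16850362112) (nat_lit 34) (nat_lit 5) (nat_lit 35) (nat_lit 5) (nat_lit 36) (nat_lit 4) (nat_lit 446) (nat_lit 405) (nat_lit 349))) (XT.nd (nat_lit 78) (nat_lit 152) (nat_lit 0) (XT.lf (nat_lit 0) (nat_lit 9077806595) (nat_lit 76) (nat_lit 35084443183) (nat_lit 76) (nat_lit 380141027) (nat_lit 33) (nat_lit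 4) (nat_lit 34) (nat_lit 5) (nat_lit 34) (nat_lit 4) (nat_lit 447) (nat_lit 405) (nat_lit 348)) (XT.lf (nat_lit 0) (nat_lit 1070712997) (nat_lit 76) (nat_lit 16396311045) (nat_lit 152) (nat_lit 29610592706) (nat_lit 31) (nat_lit 5) (nat_lit 32) (nat_lit 5) (nat_lit 33) (nat_lit 4) (nat_lit 448) (nat_lit 405) (nat_lit 347))))) (XT.nd (nat_lit 234) (nat_lit 304) (nat_lit 0) (XT.nd (nat_lit 78) (nat_lit 228) (nat_lit 0) (XT.lf (nat_lit 0) (nat_lit 37378568475) (nat_lit 152) (nat_lit 8136834228) (nat_lit 0) (nat_lit 4267452663) (nat_lit 31) (nat_lit 5) (nat_lit 33) (nat_lit 4) (nat_lit 31) (nat_lit 4) (nat_lit 449) (nat_lit 405) (nat_lit 346)) (XT.nd (nat_lit 78) (nat_lit 76) (nat_lit 0) (XT.lf (nat_lit 0) (nat_lit 6758170062) (nat_lit 152) (nat_lit 19283309257) (nat_lit 76) (nat_lit 26619342776) (nat_lit 29) (nat_lit 5) (nat_lit 31) (nat_lit 5) (nat_lit 30) (nat_lit 4) (nat_lit 450) (nat_lit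 405) (nat_lit 345)) (XT.lf (nat_lit 0) (nat_lit 23208381762) (nat_lit 76) (nat_lit 4289385578) (nat_lit 152) (nat_lit 28237156867) (nat_lit 28) (nat_lit 5) (nat_lit 29) (nat_lit 5) (nat_lit 30) (nat_lit 4) (nat_lit 451) (nat_lit 405) (nat_lit 344)))) (XT.nd (nat_lit 156) (nat_lit 152) (nat_lit 0) (XT.nd (nat_lit 78) (nat_lit 76) (nat_lit 0) (XT.lf (nat_lit 0) (nat_lit 10724885812) (nat_lit 76) (nat_lit 39947872972) (nat_lit 76) (nat_lit 8343386208) (nat_lit 27) (nat_lit 4) (nat_lit 28) (nat_lit 5) (nat_lit 28) (nat_lit 4) (nat_lit 452) (nat_lit 405) (nat_lit 343)) (XT.lf (nat_lit 0) (nat_lit 13337985025) (nat_lit 152) (nat_lit 4281608481) (nat_lit 76) (nat_lit 44899176392) (nat_lit 26) (nat_lit 5) (nat_lit 28) (nat_lit 5) (nat_lit 27) (nat_lit 4) (nat_lit 453) (nat_lit 405) (nat_lit 342))) (XT.nd (nat_lit 78) (nat_lit 76) (nat_lit 0) (XT.lf (nat_lit 0) (nat_lit 37245351436) (nat_lit 152) (nat_lit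 21901053752) (nat_lit 0) (nat_lit 7109172401) (nat_lit 25) (nat_lit 5) (nat_lit 27) (nat_lit 4) (nat_lit 25) (nat_lit 4) (nat_lit 454) (nat_lit 405) (nat_lit 341)) (XT.lf (nat_lit 0) (nat_lit 27266000161) (nat_lit 76) (nat_lit 36569657770) (nat_lit 76) (nat_lit 6417155804) (nat_lit 24) (nat_lit 4) (nat_lit 25) (nat_lit 5) (nat_lit 25) (nat_lit 4) (nat_lit 455) (nat_lit 405) (nat_lit 340))))))))
noncomputable def xc56 : XT := (XT.nd (nat_lit 2028) (nat_lit 228) (nat_lit 0) (XT.nd (nat_lit 1014) (nat_lit 456) (nat_lit 0) (XT.nd (nat_lit 468) (nat_lit 456) (nat_lit 0) (XT.nd (nat_lit 234) (nat_lit 228) (nat_lit 0) (XT.nd (nat_lit 78) (nat_lit 76) (nat_lit 0) (XT.lf (nat_lit 0) (nat_lit 6463893617) (nat_lit 76) (nat_lit 11405135361) (nat_lit 152) (nat_lit 56663700047) (nat_lit 22) (nat_lit 5) (nat_lit 23) (nat_lit 5) (nat_lit 24) (nat_lit 4) (nat_lit 456) (nat_lit 405) (nat_lit 339)) (XT.nd (nat_lit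 78) (nat_lit 76) (nat_lit 0) (XT.lf (nat_lit 0) (nat_lit 44857029244) (nat_lit 152) (nat_lit 18130923428) (nat_lit 0) (nat_lit 16112638699) (nat_lit 22) (nat_lit 5) (nat_lit 24) (nat_lit 4) (nat_lit 22) (nat_lit 4) (nat_lit 457) (nat_lit 405) (nat_lit 338)) (XT.lf (nat_lit 0) (nat_lit 36737106045) (nat_lit 76) (nat_lit 38008222955) (nat_lit 76) (nat_lit 9251491774) (nat_lit 21) (nat_lit 4) (nat_lit 22) (nat_lit 5) (nat_lit 22) (nat_lit 4) (nat_lit 458) (nat_lit 405) (nat_lit 337)))) (XT.nd (nat_lit 78) (nat_lit 76) (nat_lit 0) (XT.lf (nat_lit 0) (nat_lit 7276714823) (nat_lit 76) (nat_lit 10306149820) (nat_lit 152) (nat_lit 71667500820) (nat_lit 19) (nat_lit 5) (nat_lit 20) (nat_lit 5) (nat_lit 21) (nat_lit 4) (nat_lit 459) (nat_lit 405) (nat_lit 336)) (XT.nd (nat_lit 78) (nat_lit 76) (nat_lit 0) (XT.lf (nat_lit 0) (nat_lit 47363918116) (nat_lit 152) (nat_lit 27540893088) (nat_lit 0) (nat_lit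 19955596398) (nat_lit 19) (nat_lit 5) (nat_lit 21) (nat_lit 4) (nat_lit 19) (nat_lit 4) (nat_lit 460) (nat_lit 405) (nat_lit 335)) (XT.lf (nat_lit 0) (nat_lit 32056244774) (nat_lit 76) (nat_lit 48124010389) (nat_lit 76) (nat_lit 20706358771) (nat_lit 18) (nat_lit 4) (nat_lit 19) (nat_lit 5) (nat_lit 19) (nat_lit 4) (nat_lit 461) (nat_lit 405) (nat_lit 334))))) (XT.nd (nat_lit 234) (nat_lit 228) (nat_lit 0) (XT.nd (nat_lit 78) (nat_lit 152) (nat_lit 0) (XT.lf (nat_lit 0) (nat_lit 8430427016) (nat_lit 152) (nat_lit 10143915030) (nat_lit 76) (nat_lit 88790815139) (nat_lit 17) (nat_lit 5) (nat_lit 19) (nat_lit 5) (nat_lit 18) (nat_lit 4) (nat_lit 462) (nat_lit 405) (nat_lit 333)) (XT.nd (nat_lit 78) (nat_lit 76) (nat_lit 0) (XT.lf (nat_lit 0) (nat_lit 40243185212) (nat_lit 152) (nat_lit 59933012287) (nat_lit 0) (nat_lit 14115290641) (nat_lit 16) (nat_lit 5) (nat_lit 18) (nat_lit 4) (nat_lit 16)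 (nat_lit 4) (nat_lit 463) (nat_lit 405) (nat_lit 332)) (XT.lf (nat_lit 0) (nat_lit 2341840119) (nat_lit 76) (nat_lit 72769751466) (nat_lit 76) (nat_lit 46634803204) (nat_lit 15) (nat_lit 4) (nat_lit 16) (nat_lit 5) (nat_lit 16) (nat_lit 4) (nat_lit 464) (nat_lit 405) (nat_lit 331)))) (XT.nd (nat_lit 156) (nat_lit 76) (nat_lit 0) (XT.nd (nat_lit 78) (nat_lit 152) (nat_lit 0) (XT.lf (nat_lit 0) (nat_lit 71703264189) (nat_lit 76) (nat_lit 42092302490) (nat_lit 76) (nat_lit 15950823032) (nat_lit 15) (nat_lit 4) (nat_lit 16) (nat_lit 5) (nat_lit 16) (nat_lit 4) (nat_lit 465) (nat_lit 405) (nat_lit 330)) (XT.lf (nat_lit 0) (nat_lit 8187389549) (nat_lit 76) (nat_lit 8561350162) (nat_lit 152) (nat_lit 121618678283) (nat_lit 13) (nat_lit 5) (nat_lit 14) (nat_lit 5) (nat_lit 15) (nat_lit 4) (nat_lit 466) (nat_lit 405) (nat_lit 329))) (XT.nd (nat_lit 78) (nat_lit 76) (nat_lit 0) (XT.lf (nat_lit 0) (nat_lit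 52955927816) (nat_lit 152) (nat_lit 66588413280) (nat_lit 0) (nat_lit 28048188475) (nat_lit 13) (nat_lit 5) (nat_lit 15) (nat_lit 4) (nat_lit 13) (nat_lit 4) (nat_lit 467) (nat_lit 405) (nat_lit 328)) (XT.lf (nat_lit 0) (nat_lit 1979313990) (nat_lit 76) (nat_lit 90240503646) (nat_lit 76) (nat_lit 65327826521) (nat_lit 12) (nat_lit 4) (nat_lit 13) (nat_lit 5) (nat_lit 13) (nat_lit 4) (nat_lit 468) (nat_lit 405) (nat_lit 327)))))) (XT.nd (nat_lit 468) (nat_lit 228) (nat_lit 0) (XT.nd (nat_lit 234) (nat_lit 76) (nat_lit 0) (XT.nd (nat_lit 78) (nat_lit 152) (nat_lit 0) (XT.lf (nat_lit 0) (nat_lit 78381415467) (nat_lit 76) (nat_lit 57388864456) (nat_lit 76) (nat_lit 32471615308) (nat_lit 12) (nat_lit 4) (nat_lit 13) (nat_lit 5) (nat_lit 13) (nat_lit 4) (nat_lit 469) (nat_lit 405) (nat_lit 326)) (XT.nd (nat_lit 78) (nat_lit 76) (nat_lit 0) (XT.lf (nat_lit 0) (nat_lit 2903040719) (nat_lit 152) (nat_lit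 18970249026) (nat_lit 76) (nat_lit 157916725561) (nat_lit 11) (nat_lit 5) (nat_lit 13) (nat_lit 5) (nat_lit 12) (nat_lit 4) (nat_lit 470) (nat_lit 405) (nat_lit 325)) (XT.lf (nat_lit 0) (nat_lit 41173488098) (nat_lit 152) (nat_lit 133566698080) (nat_lit 0) (nat_lit 17435009742) (nat_lit 10) (nat_lit 5) (nat_lit 12) (nat_lit 4) (nat_lit 10) (nat_lit 4) (nat_lit 471) (nat_lit 405) (nat_lit 324)))) (XT.nd (nat_lit 78) (nat_lit 76) (nat_lit 0) (XT.lf (nat_lit 0) (nat_lit 83198025256) (nat_lit 152) (nat_lit 62862453009) (nat_lit 0) (nat_lit 59456090310) (nat_lit 10) (nat_lit 5) (nat_lit 12) (nat_lit 4) (nat_lit 10) (nat_lit 4) (nat_lit 472) (nat_lit 405) (nat_lit 323)) (XT.nd (nat_lit 78) (nat_lit 0) (nat_lit 0) (XT.lf (nat_lit 0) (nat_lit 13920996412) (nat_lit 76) (nat_lit 114869544801) (nat_lit 76) (nat_lit 91124409309) (nat_lit 9) (nat_lit 4) (nat_lit 10) (nat_lit 5) (nat_lit 10) (nat_lit 4)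 (nat_lit 473) (nat_lit 405) (nat_lit 322)) (XT.lf (nat_lit 0) (nat_lit 99070211886) (nat_lit 76) (nat_lit 80044440331) (nat_lit 76) (nat_lit 56296341370) (nat_lit 9) (nat_lit 4) (nat_lit 10) (nat_lit 5) (nat_lit 10) (nat_lit 4) (nat_lit 474) (nat_lit 405) (nat_lit 321))))) (XT.nd (nat_lit 234) (nat_lit 76) (nat_lit 0) (XT.nd (nat_lit 78) (nat_lit 152) (nat_lit 0) (XT.lf (nat_lit 0) (nat_lit 191011264762) (nat_lit 76) (nat_lit 42443399924) (nat_lit 76) (nat_lit 18692557012) (nat_lit 9) (nat_lit 4) (nat_lit 10) (nat_lit 5) (nat_lit 10) (nat_lit 4) (nat_lit 475) (nat_lit 405) (nat_lit 320)) (XT.nd (nat_lit 78) (nat_lit 0) (nat_lit 0) (XT.lf (nat_lit 0) (nat_lit 20376273317) (nat_lit 76) (nat_lit 1150388597) (nat_lit 152) (nat_lit 248663140401) (nat_lit 7) (nat_lit 5) (nat_lit 8) (nat_lit 5) (nat_lit 9) (nat_lit 4) (nat_lit 476) (nat_lit 405) (nat_lit 319)) (XT.lf (nat_lit 0) (nat_lit 66068837040)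 (nat_lit 152) (nat_lit 180059288557) (nat_lit 0) (nat_lit 43444326464) (nat_lit 7) (nat_lit 5) (nat_lit 9) (nat_lit 4) (nat_lit 7) (nat_lit 4) (nat_lit 477) (nat_lit 405) (nat_lit 318)))) (XT.nd (nat_lit 156) (nat_lit 76) (nat_lit 0) (XT.nd (nat_lit 78) (nat_lit 0) (nat_lit 0) (XT.lf (nat_lit 0) (nat_lit 114185300138) (nat_lit 152) (nat_lit 104761153077) (nat_lit 0) (nat_lit 91558715049) (nat_lit 7) (nat_lit 5) (nat_lit 9) (nat_lit 4) (nat_lit 7) (nat_lit 4) (nat_lit 478) (nat_lit 405) (nat_lit 317)) (XT.lf (nat_lit 0) (nat_lit 166143225012) (nat_lit 152) (nat_lit 23454950597) (nat_lit 0) (nat_lit 143514719079) (nat_lit 7) (nat_lit 5) (nat_lit 9) (nat_lit 4) (nat_lit 7) (nat_lit 4) (nat_lit 479) (nat_lit 405) (nat_lit 316))) (XT.nd (nat_lit 78) (nat_lit 0) (nat_lit 0) (XT.lf (nat_lit 0) (nat_lit 66468541859) (nat_lit 76) (nat_lit 156819728835) (nat_lit 76) (nat_lit 134189444343) (nat_lit 6)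 (nat_lit 4) (nat_lit 7) (nat_lit 5) (nat_lit 7) (nat_lit 4) (nat_lit 480) (nat_lit 405) (nat_lit 315)) (XT.lf (nat_lit 0) (nat_lit 164409502904) (nat_lit 76) (nat_lit 120997034347) (nat_lit 76) (nat_lit 98365103040) (nat_lit 6) (nat_lit 4) (nat_lit 7) (nat_lit 5) (nat_lit 7) (nat_lit 4) (nat_lit 481) (nat_lit 405) (nat_lit 314))))))) (XT.nd (nat_lit 1014) (nat_lit 0) (nat_lit 0) (XT.nd (nat_lit 468) (nat_lit 76) (nat_lit 0) (XT.nd (nat_lit 234) (nat_lit 0) (nat_lit 0) (XT.nd (nat_lit 78) (nat_lit 152) (nat_lit 0) (XT.lf (nat_lit 0) (nat_lit 270172796824) (nat_lit 76) (nat_lit 82315030449) (nat_lit 76) (nat_lit 59681574314) (nat_lit 6) (nat_lit 4) (nat_lit 7) (nat_lit 5) (nat_lit 7) (nat_lit 4) (nat_lit 482) (nat_lit 405) (nat_lit 313)) (XT.nd (nat_lit 78) (nat_lit 152) (nat_lit 0) (XT.lf (nat_lit 0) (nat_lit 384385169065) (nat_lit 76) (nat_lit 40544490452) (nat_lit 76) (nat_lit 17909622439)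 (nat_lit 6) (nat_lit 4) (nat_lit 7) (nat_lit 5) (nat_lit 7) (nat_lit 4) (nat_lit 483) (nat_lit 405) (nat_lit 312)) (XT.lf (nat_lit 0) (nat_lit 26919664710) (nat_lit 152) (nat_lit 443631135048) (nat_lit 0) (nat_lit 5361402512) (nat_lit 4) (nat_lit 5) (nat_lit 6) (nat_lit 4) (nat_lit 4) (nat_lit 4) (nat_lit 484) (nat_lit 405) (nat_lit 311)))) (XT.nd (nat_lit 78) (nat_lit 0) (nat_lit 0) (XT.lf (nat_lit 0) (nat_lit 76429349198) (nat_lit 152) (nat_lit 380230916893) (nat_lit 0) (nat_lit 54869934183) (nat_lit 4) (nat_lit 5) (nat_lit 6) (nat_lit 4) (nat_lit 4) (nat_lit 4) (nat_lit 485) (nat_lit 405) (nat_lit 310)) (XT.nd (nat_lit 78) (nat_lit 0) (nat_lit 0) (XT.lf (nat_lit 0) (nat_lit 129894764246) (nat_lit 152) (nat_lit 311768844364) (nat_lit 0) (nat_lit 108334281808) (nat_lit 4) (nat_lit 5) (nat_lit 6) (nat_lit 4) (nat_lit 4) (nat_lit 4) (nat_lit 486) (nat_lit 405) (nat_lit 309)) (XT.lf (nat_lit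 0) (nat_lit 187632741943) (nat_lit 152) (nat_lit 237839216292) (nat_lit 0) (nat_lit 166071271150) (nat_lit 4) (nat_lit 5) (nat_lit 6) (nat_lit 4) (nat_lit 4) (nat_lit 4) (nat_lit 487) (nat_lit 405) (nat_lit 308))))) (XT.nd (nat_lit 234) (nat_lit 0) (nat_lit 0) (XT.nd (nat_lit 78) (nat_lit 76) (nat_lit 0) (XT.lf (nat_lit 0) (nat_lit 249985433267) (nat_lit 152) (nat_lit 158003931177) (nat_lit 0) (nat_lit 228423047331) (nat_lit 4) (nat_lit 5) (nat_lit 6) (nat_lit 4) (nat_lit 4) (nat_lit 4) (nat_lit 488) (nat_lit 405) (nat_lit 307)) (XT.nd (nat_lit 78) (nat_lit 76) (nat_lit 0) (XT.lf (nat_lit 0) (nat_lit 317322335650) (nat_lit 152) (nat_lit 71789891033) (nat_lit 0) (nat_lit 295759102359) (nat_lit 4) (nat_lit 5) (nat_lit 6) (nat_lit 4) (nat_lit 4) (nat_lit 4) (nat_lit 489) (nat_lit 405) (nat_lit 306)) (XT.lf (nat_lit 0) (nat_lit 22018532710) (nat_lit 76) (nat_lit 368367720878) (nat_lit 76) (nat_lit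 346803702999) (nat_lit 3) (nat_lit 4) (nat_lit 4) (nat_lit 5) (nat_lit 4) (nat_lit 4) (nat_lit 490) (nat_lit 405) (nat_lit 305)))) (XT.nd (nat_lit 156) (nat_lit 0) (nat_lit 0) (XT.nd (nat_lit 78) (nat_lit 0) (nat_lit 0) (XT.lf (nat_lit 0) (nat_lit 125888078682) (nat_lit 76) (nat_lit 344654195307) (nat_lit 76) (nat_lit 323089450957) (nat_lit 3) (nat_lit 4) (nat_lit 4) (nat_lit 5) (nat_lit 4) (nat_lit 4) (nat_lit 491) (nat_lit 405) (nat_lit 304)) (XT.lf (nat_lit 0) (nat_lit 238060572106) (nat_lit 76) (nat_lit 319046921915) (nat_lit 76) (nat_lit 297481504908) (nat_lit 3) (nat_lit 4) (nat_lit 4) (nat_lit 5) (nat_lit 4) (nat_lit 4) (nat_lit 492) (nat_lit 405) (nat_lit 303))) (XT.nd (nat_lit 78) (nat_lit 0) (nat_lit 0) (XT.lf (nat_lit 0) (nat_lit 359200738871) (nat_lit 76) (nat_lit 291394153899) (nat_lit 76) (nat_lit 269828114061) (nat_lit 3) (nat_lit 4) (nat_lit 4) (nat_lit 5) (nat_lit 4) (nat_lit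 4) (nat_lit 493) (nat_lit 405) (nat_lit 302)) (XT.lf (nat_lit 0) (nat_lit 490026446632) (nat_lit 76) (nat_lit 261532023001) (nat_lit 76) (nat_lit 239965406468) (nat_lit 3) (nat_lit 4) (nat_lit 4) (nat_lit 5) (nat_lit 4) (nat_lit 4) (nat_lit 494) (nat_lit 405) (nat_lit 301)))))) (XT.nd (nat_lit 55770) (nat_lit 0) (nat_lit 8968) (XT.nd (nat_lit 234) (nat_lit 0) (nat_lit 0) (XT.nd (nat_lit 78) (nat_lit 0) (nat_lit 0) (XT.lf (nat_lit 0) (nat_lit 631312958840) (nat_lit 76) (nat_lit 229283568448) (nat_lit 76) (nat_lit 207716417937) (nat_lit 3) (nat_lit 4) (nat_lit 4) (nat_lit 5) (nat_lit 4) (nat_lit 4) (nat_lit 495) (nat_lit 405) (nat_lit 300)) (XT.nd (nat_lit 78) (nat_lit 0) (nat_lit 0) (XT.lf (nat_lit 0) (nat_lit 783897528903) (nat_lit 76) (nat_lit 194457688286) (nat_lit 76) (nat_lit 172890043352) (nat_lit 3) (nat_lit 4) (nat_lit 4) (nat_lit 5) (nat_lit 4) (nat_lit 4) (nat_lit 496) (nat_lit 405)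 (nat_lit 299)) (XT.lf (nat_lit 0) (nat_lit 948684361679) (nat_lit 76) (nat_lit 156848006929) (nat_lit 76) (nat_lit 135279904195) (nat_lit 3) (nat_lit 4) (nat_lit 4) (nat_lit 5) (nat_lit 4) (nat_lit 4) (nat_lit 497) (nat_lit 405) (nat_lit 298)))) (XT.nd (nat_lit 55380) (nat_lit 0) (nat_lit 11476) (XT.nd (nat_lit 55302) (nat_lit 0) (nat_lit 11476) (XT.lf (nat_lit 0) (nat_lit 1126649971734) (nat_lit 76) (nat_lit 116231652191) (nat_lit 76) (nat_lit 94663125568) (nat_lit 3) (nat_lit 4) (nat_lit 4) (nat_lit 5) (nat_lit 4) (nat_lit 4) (nat_lit 498) (nat_lit 405) (nat_lit 297)) (XT.lf (nat_lit 0) (nat_lit 609043380) (nat_lit 0) (nat_lit 609043380) (nat_lit 532) (nat_lit 2521123908) (nat_lit 154) (nat_lit 5) (nat_lit 154) (nat_lit 3) (nat_lit 161) (nat_lit 3) (nat_lit 406) (nat_lit 406) (nat_lit 388))) (XT.nd (nat_lit 78) (nat_lit 0) (nat_lit 0) (XT.lf (nat_lit 0) (nat_lit 4835071034) (nat_lit 532)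 (nat_lit 408249324) (nat_lit 608) (nat_lit 2418076405) (nat_lit 154) (nat_lit 5) (nat_lit 161) (nat_lit 3) (nat_lit 162) (nat_lit 5) (nat_lit 407) (nat_lit 406) (nat_lit 387)) (XT.lf (nat_lit 76) (nat_lit 5955713075) (nat_lit 0) (nat_lit 1359105063) (nat_lit 608) (nat_lit 549854138) (nat_lit 155) (nat_lit 5) (nat_lit 154) (nat_lit 5) (nat_lit 162) (nat_lit 5) (nat_lit 408) (nat_lit 406) (nat_lit 386))))) (XT.nd (nat_lit 234) (nat_lit 1976) (nat_lit 0) (XT.nd (nat_lit 78) (nat_lit 0) (nat_lit 0) (XT.lf (nat_lit 0) (nat_lit 1763146802) (nat_lit 608) (nat_lit 3383125838) (nat_lit 684) (nat_lit 2940768072) (nat_lit 147) (nat_lit 5) (nat_lit 155) (nat_lit 5) (nat_lit 156) (nat_lit 5) (nat_lit 409) (nat_lit 406) (nat_lit 385)) (XT.nd (nat_lit 78) (nat_lit 0) (nat_lit 76) (XT.lf (nat_lit 76) (nat_lit 3535132558) (nat_lit 0) (nat_lit 620677322) (nat_lit 684) (nat_lit 4175332680) (nat_lit 148) (nat_lit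 5) (nat_lit 147) (nat_lit 5) (nat_lit 156) (nat_lit 5) (nat_lit 410) (nat_lit 406) (nat_lit 384)) (XT.lf (nat_lit 76) (nat_lit 2407111479) (nat_lit 0) (nat_lit 4312184562) (nat_lit 684) (nat_lit 1876588378) (nat_lit 149) (nat_lit 5) (nat_lit 148) (nat_lit 5) (nat_lit 157) (nat_lit 5) (nat_lit 411) (nat_lit 406) (nat_lit 383)))) (XT.nd (nat_lit 156) (nat_lit 760) (nat_lit 0) (XT.nd (nat_lit 78) (nat_lit 684) (nat_lit 0) (XT.lf (nat_lit 0) (nat_lit 540425021) (nat_lit 684) (nat_lit 7533016438) (nat_lit 76) (nat_lit 810275331) (nat_lit 140) (nat_lit 5) (nat_lit 149) (nat_lit 5) (nat_lit 141) (nat_lit 5) (nat_lit 412) (nat_lit 406) (nat_lit 382)) (XT.lf (nat_lit 0) (nat_lit 287320101) (nat_lit 684) (nat_lit 2820885856) (nat_lit 760) (nat_lit 6083741209) (nat_lit 131) (nat_lit 5) (nat_lit 140) (nat_lit 5) (nat_lit 141) (nat_lit 5) (nat_lit 413) (nat_lit 406) (nat_lit 381))) (XT.nd (nat_lit 78)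 (nat_lit 760) (nat_lit 0) (XT.lf (nat_lit 0) (nat_lit 5905198846) (nat_lit 760) (nat_lit 705532664) (nat_lit 76) (nat_lit 2912977257) (nat_lit 131) (nat_lit 5) (nat_lit 141) (nat_lit 5) (nat_lit 132) (nat_lit 5) (nat_lit 414) (nat_lit 406) (nat_lit 380)) (XT.lf (nat_lit 0) (nat_lit 8233153019) (nat_lit 760) (nat_lit 726213704) (nat_lit 836) (nat_lit 921031454) (nat_lit 121) (nat_lit 5) (nat_lit 131) (nat_lit 5) (nat_lit 132) (nat_lit 5) (nat_lit 415) (nat_lit 406) (nat_lit 379))))))))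
noncomputable def xc57 : XT := (XT.nd (nat_lit 2106) (nat_lit 2204) (nat_lit 0) (XT.nd (nat_lit 1014) (nat_lit 2128) (nat_lit 0) (XT.nd (nat_lit 468) (nat_lit 1824) (nat_lit 0) (XT.nd (nat_lit 234) (nat_lit 912) (nat_lit 0) (XT.nd (nat_lit 78) (nat_lit 760) (nat_lit 0) (XT.lf (nat_lit 0) (nat_lit 2016006855) (nat_lit 456) (nat_lit 2622737626) (nat_lit 76) (nat_lit 5620997581) (nat_lit 115) (nat_lit 5) (nat_lit 121) (nat_lit 5) (nat_lit 116) (nat_lit 5) (nat_lit 416) (nat_lit 406) (nat_lit 378)) (XT.nd (nat_lit 78) (nat_lit 380) (nat_lit 0) (XT.lf (nat_lit 0) (nat_lit 5210943453) (nat_lit 456) (nat_lit 3575158493) (nat_lit 76) (nat_lit 1879863463) (nat_lit 110) (nat_lit 5) (nat_lit 116) (nat_lit 5) (nat_lit 111) (nat_lit 5) (nat_lit 417) (nat_lit 406) (nat_lit 377)) (XT.lf (nat_lit 0) (nat_lit 6571910613) (nat_lit 380) (nat_lit 2196098620) (nat_lit 456) (nat_lit 2331394268) (nat_lit 105) (nat_lit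 5) (nat_lit 110) (nat_lit 5) (nat_lit 111) (nat_lit 5) (nat_lit 418) (nat_lit 406) (nat_lit 376)))) (XT.nd (nat_lit 78) (nat_lit 532) (nat_lit 0) (XT.lf (nat_lit 0) (nat_lit 1131798496) (nat_lit 380) (nat_lit 5500983902) (nat_lit 76) (nat_lit 4927807692) (nat_lit 100) (nat_lit 5) (nat_lit 105) (nat_lit 5) (nat_lit 101) (nat_lit 5) (nat_lit 419) (nat_lit 406) (nat_lit 375)) (XT.nd (nat_lit 78) (nat_lit 228) (nat_lit 0) (XT.lf (nat_lit 0) (nat_lit 4897048280) (nat_lit 380) (nat_lit 6491243413) (nat_lit 76) (nat_lit 663170411) (nat_lit 96) (nat_lit 5) (nat_lit 101) (nat_lit 5) (nat_lit 97) (nat_lit 5) (nat_lit 420) (nat_lit 406) (nat_lit 374)) (XT.lf (nat_lit 0) (nat_lit 5044927161) (nat_lit 228) (nat_lit 4103136905) (nat_lit 304) (nat_lit 3424345469) (nat_lit 93) (nat_lit 5) (nat_lit 96) (nat_lit 5) (nat_lit 97) (nat_lit 5) (nat_lit 421) (nat_lit 406) (nat_lit 373))))) (XT.nd (nat_lit 234) (nat_lit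 988) (nat_lit 0) (XT.nd (nat_lit 78) (nat_lit 456) (nat_lit 0) (XT.lf (nat_lit 0) (nat_lit 734010502) (nat_lit 380) (nat_lit 8575687010) (nat_lit 76) (nat_lit 3817431800) (nat_lit 88) (nat_lit 5) (nat_lit 93) (nat_lit 5) (nat_lit 89) (nat_lit 5) (nat_lit 422) (nat_lit 406) (nat_lit 372)) (XT.nd (nat_lit 78) (nat_lit 228) (nat_lit 0) (XT.lf (nat_lit 0) (nat_lit 4019835509) (nat_lit 228) (nat_lit 1257739598) (nat_lit 304) (nat_lit 8437246006) (nat_lit 85) (nat_lit 5) (nat_lit 88) (nat_lit 5) (nat_lit 89) (nat_lit 5) (nat_lit 423) (nat_lit 406) (nat_lit 371)) (XT.lf (nat_lit 0) (nat_lit 3455068940) (nat_lit 228) (nat_lit 6961781258) (nat_lit 304) (nat_lit 3921091710) (nat_lit 82) (nat_lit 5) (nat_lit 85) (nat_lit 5) (nat_lit 86) (nat_lit 5) (nat_lit 424) (nat_lit 406) (nat_lit 370)))) (XT.nd (nat_lit 156) (nat_lit 456) (nat_lit 0) (XT.nd (nat_lit 78) (nat_lit 228) (nat_lit 0) (XT.lf (nat_lit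 0) (nat_lit 1107086810) (nat_lit 304) (nat_lit 12097267778) (nat_lit 76) (nat_lit 1796766120) (nat_lit 78) (nat_lit 5) (nat_lit 82) (nat_lit 5) (nat_lit 79) (nat_lit 5) (nat_lit 425) (nat_lit 406) (nat_lit 369)) (XT.lf (nat_lit 0) (nat_lit 2239456493) (nat_lit 228) (nat_lit 4425286202) (nat_lit 304) (nat_lit 9036187500) (nat_lit 75) (nat_lit 5) (nat_lit 78) (nat_lit 5) (nat_lit 79) (nat_lit 5) (nat_lit 426) (nat_lit 406) (nat_lit 368))) (XT.nd (nat_lit 78) (nat_lit 304) (nat_lit 0) (XT.lf (nat_lit 0) (nat_lit 1558396462) (nat_lit 152) (nat_lit 11347527166) (nat_lit 228) (nat_lit 3538874021) (nat_lit 73) (nat_lit 5) (nat_lit 75) (nat_lit 5) (nat_lit 76) (nat_lit 5) (nat_lit 427) (nat_lit 406) (nat_lit 367)) (XT.lf (nat_lit 0) (nat_lit 819019974) (nat_lit 228) (nat_lit 1752464238) (nat_lit 304) (nat_lit 14662333856) (nat_lit 69) (nat_lit 5) (nat_lit 72) (nat_lit 5) (nat_lit 73) (nat_lit 5) (nat_lit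 428) (nat_lit 406) (nat_lit 366)))))) (XT.nd (nat_lit 546) (nat_lit 1064) (nat_lit 0) (XT.nd (nat_lit 234) (nat_lit 684) (nat_lit 0) (XT.nd (nat_lit 78) (nat_lit 380) (nat_lit 0) (XT.lf (nat_lit 0) (nat_lit 9373897411) (nat_lit 304) (nat_lit 72273071) (nat_lit 76) (nat_lit 8620543741) (nat_lit 69) (nat_lit 5) (nat_lit 73) (nat_lit 5) (nat_lit 70) (nat_lit 5) (nat_lit 429) (nat_lit 406) (nat_lit 365)) (XT.nd (nat_lit 78) (nat_lit 228) (nat_lit 0) (XT.lf (nat_lit 0) (nat_lit 16980801438) (nat_lit 228) (nat_lit 950683453) (nat_lit 76) (nat_lit 1021756534) (nat_lit 67) (nat_lit 5) (nat_lit 70) (nat_lit 5) (nat_lit 68) (nat_lit 5) (nat_lit 430) (nat_lit 406) (nat_lit 364)) (XT.lf (nat_lit 0) (nat_lit 5498750345) (nat_lit 228) (nat_lit 2053838123) (nat_lit 76) (nat_lit 12334871040) (nat_lit 64) (nat_lit 5) (nat_lit 67) (nat_lit 5) (nat_lit 65) (nat_lit 5) (nat_lit 431) (nat_lit 406) (nat_lit 363))))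 (XT.nd (nat_lit 156) (nat_lit 304) (nat_lit 0) (XT.nd (nat_lit 78) (nat_lit 228) (nat_lit 0) (XT.lf (nat_lit 0) (nat_lit 13792292783) (nat_lit 228) (nat_lit 3253958124) (nat_lit 76) (nat_lit 3833870928) (nat_lit 62) (nat_lit 5) (nat_lit 65) (nat_lit 5) (nat_lit 63) (nat_lit 5) (nat_lit 432) (nat_lit 406) (nat_lit 362)) (XT.lf (nat_lit 0) (nat_lit 1152522853) (nat_lit 228) (nat_lit 4620411706) (nat_lit 76) (nat_lit 16159604865) (nat_lit 59) (nat_lit 5) (nat_lit 62) (nat_lit 5) (nat_lit 60) (nat_lit 5) (nat_lit 433) (nat_lit 406) (nat_lit 361))) (XT.nd (nat_lit 78) (nat_lit 152) (nat_lit 0) (XT.lf (nat_lit 0) (nat_lit 10177579750) (nat_lit 228) (nat_lit 6259067602) (nat_lit 76) (nat_lit 6608012875) (nat_lit 57) (nat_lit 5) (nat_lit 60) (nat_lit 5) (nat_lit 58) (nat_lit 5) (nat_lit 434) (nat_lit 406) (nat_lit 360)) (XT.lf (nat_lit 0) (nat_lit 16151388756) (nat_lit 152) (nat_lit 4149278170) (nat_lit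 228) (nat_lit 3926291273) (nat_lit 55) (nat_lit 5) (nat_lit 57) (nat_lit 5) (nat_lit 58) (nat_lit 5) (nat_lit 435) (nat_lit 406) (nat_lit 359))))) (XT.nd (nat_lit 234) (nat_lit 532) (nat_lit 0) (XT.nd (nat_lit 78) (nat_lit 304) (nat_lit 0) (XT.lf (nat_lit 0) (nat_lit 5993013856) (nat_lit 228) (nat_lit 10244333453) (nat_lit 76) (nat_lit 9239695524) (nat_lit 52) (nat_lit 5) (nat_lit 55) (nat_lit 5) (nat_lit 53) (nat_lit 5) (nat_lit 436) (nat_lit 406) (nat_lit 358)) (XT.nd (nat_lit 78) (nat_lit 152) (nat_lit 0) (XT.lf (nat_lit 0) (nat_lit 14096736802) (nat_lit 152) (nat_lit 2854977448) (nat_lit 228) (nat_lit 9853038445) (nat_lit 50) (nat_lit 5) (nat_lit 52) (nat_lit 5) (nat_lit 53) (nat_lit 5) (nat_lit 437) (nat_lit 406) (nat_lit 357)) (XT.lf (nat_lit 0) (nat_lit 1049691364) (nat_lit 152) (nat_lit 15575791389) (nat_lit 76) (nat_lit 11586834135) (nat_lit 48) (nat_lit 5) (nat_lit 50) (nat_lit 5)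 (nat_lit 49) (nat_lit 5) (nat_lit 438) (nat_lit 406) (nat_lit 356)))) (XT.nd (nat_lit 156) (nat_lit 304) (nat_lit 0) (XT.nd (nat_lit 78) (nat_lit 76) (nat_lit 0) (XT.lf (nat_lit 0) (nat_lit 10782568276) (nat_lit 152) (nat_lit 2094974526) (nat_lit 228) (nat_lit 16826967727) (nat_lit 46) (nat_lit 5) (nat_lit 48) (nat_lit 5) (nat_lit 49) (nat_lit 5) (nat_lit 439) (nat_lit 406) (nat_lit 355)) (XT.lf (nat_lit 0) (nat_lit 8474116609) (nat_lit 76) (nat_lit 17751601627) (nat_lit 152) (nat_lit 5061662057) (nat_lit 45) (nat_lit 5) (nat_lit 46) (nat_lit 5) (nat_lit 47) (nat_lit 4) (nat_lit 440) (nat_lit 406) (nat_lit 354))) (XT.nd (nat_lit 78) (nat_lit 76) (nat_lit 0) (XT.lf (nat_lit 0) (nat_lit 5697941751) (nat_lit 152) (nat_lit 2116711810) (nat_lit 228) (nat_lit 25155539524) (nat_lit 42) (nat_lit 5) (nat_lit 44) (nat_lit 5) (nat_lit 45) (nat_lit 5) (nat_lit 441) (nat_lit 406) (nat_lit 353)) (XT.lf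 (nat_lit 0) (nat_lit 2205531109) (nat_lit 76) (nat_lit 19966229681) (nat_lit 152) (nat_lit 12580324518) (nat_lit 41) (nat_lit 5) (nat_lit 42) (nat_lit 5) (nat_lit 43) (nat_lit 4) (nat_lit 442) (nat_lit 406) (nat_lit 352))))))) (XT.nd (nat_lit 1014) (nat_lit 988) (nat_lit 0) (XT.nd (nat_lit 468) (nat_lit 532) (nat_lit 0) (XT.nd (nat_lit 234) (nat_lit 380) (nat_lit 0) (XT.nd (nat_lit 78) (nat_lit 228) (nat_lit 0) (XT.lf (nat_lit 0) (nat_lit 1445479290) (nat_lit 152) (nat_lit 1773944065) (nat_lit 76) (nat_lit 33432497770) (nat_lit 40) (nat_lit 5) (nat_lit 42) (nat_lit 5) (nat_lit 41) (nat_lit 5) (nat_lit 443) (nat_lit 406) (nat_lit 351)) (XT.nd (nat_lit 78) (nat_lit 76) (nat_lit 0) (XT.lf (nat_lit 0) (nat_lit 16865828419) (nat_lit 228) (nat_lit 6705819741) (nat_lit 76) (nat_lit 15086125806) (nat_lit 38) (nat_lit 5) (nat_lit 41) (nat_lit 5) (nat_lit 39) (nat_lit 4) (nat_lit 444) (nat_lit 406)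 (nat_lit 350)) (XT.lf (nat_lit 0) (nat_lit 28400951798) (nat_lit 76) (nat_lit 5610445457) (nat_lit 152) (nat_lit 6788121543) (nat_lit 37) (nat_lit 5) (nat_lit 38) (nat_lit 5) (nat_lit 39) (nat_lit 4) (nat_lit 445) (nat_lit 406) (nat_lit 349)))) (XT.nd (nat_lit 78) (nat_lit 228) (nat_lit 0) (XT.lf (nat_lit 0) (nat_lit 9796962936) (nat_lit 152) (nat_lit 19307628233) (nat_lit 76) (nat_lit 13966548206) (nat_lit 35) (nat_lit 5) (nat_lit 37) (nat_lit 5) (nat_lit 36) (nat_lit 4) (nat_lit 446) (nat_lit 406) (nat_lit 348)) (XT.nd (nat_lit 78) (nat_lit 152) (nat_lit 0) (XT.lf (nat_lit 0) (nat_lit 18046150381) (nat_lit 76) (nat_lit 9988754973) (nat_lit 152) (nat_lit 17455829250) (nat_lit 34) (nat_lit 5) (nat_lit 35) (nat_lit 5) (nat_lit 36) (nat_lit 4) (nat_lit 447) (nat_lit 406) (nat_lit 347)) (XT.lf (nat_lit 0) (nat_lit 298143620) (nat_lit 152) (nat_lit 36966796220) (nat_lit 76) (nat_lit 10806337878)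 (nat_lit 32) (nat_lit 5) (nat_lit 34) (nat_lit 5) (nat_lit 33) (nat_lit 4) (nat_lit 448) (nat_lit 406) (nat_lit 346))))) (XT.nd (nat_lit 234) (nat_lit 304) (nat_lit 0) (XT.nd (nat_lit 78) (nat_lit 152) (nat_lit 0) (XT.lf (nat_lit 0) (nat_lit 2427177951) (nat_lit 76) (nat_lit 17101081936) (nat_lit 152) (nat_lit 31282328930) (nat_lit 31) (nat_lit 5) (nat_lit 32) (nat_lit 5) (nat_lit 33) (nat_lit 4) (nat_lit 449) (nat_lit 406) (nat_lit 345)) (XT.nd (nat_lit 78) (nat_lit 152) (nat_lit 0) (XT.lf (nat_lit 0) (nat_lit 40992326047) (nat_lit 152) (nat_lit 7589105740) (nat_lit 0) (nat_lit 5152838056) (nat_lit 31) (nat_lit 5) (nat_lit 33) (nat_lit 4) (nat_lit 31) (nat_lit 4) (nat_lit 450) (nat_lit 406) (nat_lit 344)) (XT.lf (nat_lit 0) (nat_lit 7903807387) (nat_lit 152) (nat_lit 19659352663) (nat_lit 76) (nat_lit 29280243049) (nat_lit 29) (nat_lit 5) (nat_lit 31) (nat_lit 5) (nat_lit 30) (nat_lit 4)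 (nat_lit 451) (nat_lit 406) (nat_lit 343)))) (XT.nd (nat_lit 156) (nat_lit 152) (nat_lit 0) (XT.nd (nat_lit 78) (nat_lit 76) (nat_lit 0) (XT.lf (nat_lit 0) (nat_lit 26180973697) (nat_lit 76) (nat_lit 4094207802) (nat_lit 152) (nat_lit 29889624063) (nat_lit 28) (nat_lit 5) (nat_lit 29) (nat_lit 5) (nat_lit 30) (nat_lit 4) (nat_lit 452) (nat_lit 406) (nat_lit 342)) (XT.lf (nat_lit 0) (nat_lit 12669918008) (nat_lit 76) (nat_lit 42616223602) (nat_lit 76) (nat_lit 8423286373) (nat_lit 27) (nat_lit 4) (nat_lit 28) (nat_lit 5) (nat_lit 28) (nat_lit 4) (nat_lit 453) (nat_lit 406) (nat_lit 341))) (XT.nd (nat_lit 78) (nat_lit 76) (nat_lit 0) (XT.lf (nat_lit 0) (nat_lit 14931657900) (nat_lit 152) (nat_lit 3600177609) (nat_lit 76) (nat_lit 48962077378) (nat_lit 26) (nat_lit 5) (nat_lit 28) (nat_lit 5) (nat_lit 27) (nat_lit 4) (nat_lit 454) (nat_lit 406) (nat_lit 340)) (XT.lf (nat_lit 0) (nat_lit 40735335977)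 (nat_lit 152) (nat_lit 22655947993) (nat_lit 0) (nat_lit 8139197099) (nat_lit 25) (nat_lit 5) (nat_lit 27) (nat_lit 4) (nat_lit 25) (nat_lit 4) (nat_lit 455) (nat_lit 406) (nat_lit 339)))))) (XT.nd (nat_lit 546) (nat_lit 456) (nat_lit 0) (XT.nd (nat_lit 234) (nat_lit 304) (nat_lit 0) (XT.nd (nat_lit 78) (nat_lit 152) (nat_lit 0) (XT.lf (nat_lit 0) (nat_lit 30401133569) (nat_lit 76) (nat_lit 39028821568) (nat_lit 76) (nat_lit 6418688408) (nat_lit 24) (nat_lit 4) (nat_lit 25) (nat_lit 5) (nat_lit 25) (nat_lit 4) (nat_lit 456) (nat_lit 406) (nat_lit 338)) (XT.nd (nat_lit 78) (nat_lit 0) (nat_lit 0) (XT.lf (nat_lit 0) (nat_lit 7909096331) (nat_lit 76) (nat_lit 11862702282) (nat_lit 152) (nat_lit 60699866032) (nat_lit 22) (nat_lit 5) (nat_lit 23) (nat_lit 5) (nat_lit 24) (nat_lit 4) (nat_lit 457) (nat_lit 406) (nat_lit 337)) (XT.lf (nat_lit 0) (nat_lit 48890358903) (nat_lit 152) (nat_lit 18706700508)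 (nat_lit 0) (nat_lit 17809322075) (nat_lit 22) (nat_lit 5) (nat_lit 24) (nat_lit 4) (nat_lit 22) (nat_lit 4) (nat_lit 458) (nat_lit 406) (nat_lit 336)))) (XT.nd (nat_lit 156) (nat_lit 76) (nat_lit 0) (XT.nd (nat_lit 78) (nat_lit 152) (nat_lit 0) (XT.lf (nat_lit 0) (nat_lit 40512758067) (nat_lit 76) (nat_lit 40637081820) (nat_lit 76) (nat_lit 9545464885) (nat_lit 21) (nat_lit 4) (nat_lit 22) (nat_lit 5) (nat_lit 22) (nat_lit 4) (nat_lit 459) (nat_lit 406) (nat_lit 335)) (XT.lf (nat_lit 0) (nat_lit 8672849081) (nat_lit 76) (nat_lit 10729230143) (nat_lit 152) (nat_lit 76967670831) (nat_lit 19) (nat_lit 5) (nat_lit 20) (nat_lit 5) (nat_lit 21) (nat_lit 4) (nat_lit 460) (nat_lit 406) (nat_lit 334))) (XT.nd (nat_lit 78) (nat_lit 76) (nat_lit 0) (XT.lf (nat_lit 0) (nat_lit 51540858019) (nat_lit 152) (nat_lit 28977151057) (nat_lit 0) (nat_lit 21911825575) (nat_lit 19) (nat_lit 5) (nat_lit 21) (nat_lit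 4) (nat_lit 19) (nat_lit 4) (nat_lit 461) (nat_lit 406) (nat_lit 333)) (XT.lf (nat_lit 0) (nat_lit 35354424363) (nat_lit 76) (nat_lit 51610804583) (nat_lit 76) (nat_lit 21973773254) (nat_lit 18) (nat_lit 4) (nat_lit 19) (nat_lit 5) (nat_lit 19) (nat_lit 4) (nat_lit 462) (nat_lit 406) (nat_lit 332))))) (XT.nd (nat_lit 234) (nat_lit 228) (nat_lit 0) (XT.nd (nat_lit 78) (nat_lit 152) (nat_lit 0) (XT.lf (nat_lit 0) (nat_lit 9453602635) (nat_lit 152) (nat_lit 10264552302) (nat_lit 76) (nat_lit 96218766126) (nat_lit 17) (nat_lit 5) (nat_lit 19) (nat_lit 5) (nat_lit 18) (nat_lit 4) (nat_lit 463) (nat_lit 406) (nat_lit 331)) (XT.nd (nat_lit 78) (nat_lit 76) (nat_lit 0) (XT.lf (nat_lit 0) (nat_lit 43800981669) (nat_lit 152) (nat_lit 64055245018) (nat_lit 0) (nat_lit 15561652659) (nat_lit 16) (nat_lit 5) (nat_lit 18) (nat_lit 4) (nat_lit 16) (nat_lit 4) (nat_lit 464) (nat_lit 406) (nat_lit 330)) (XT.lf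 (nat_lit 0) (nat_lit 3172373537) (nat_lit 76) (nat_lit 78271466610) (nat_lit 76) (nat_lit 50026090197) (nat_lit 15) (nat_lit 4) (nat_lit 16) (nat_lit 5) (nat_lit 16) (nat_lit 4) (nat_lit 465) (nat_lit 406) (nat_lit 329)))) (XT.nd (nat_lit 156) (nat_lit 76) (nat_lit 0) (XT.nd (nat_lit 78) (nat_lit 152) (nat_lit 0) (XT.lf (nat_lit 0) (nat_lit 78035068110) (nat_lit 76) (nat_lit 45163515418) (nat_lit 76) (nat_lit 16912539558) (nat_lit 15) (nat_lit 4) (nat_lit 16) (nat_lit 5) (nat_lit 16) (nat_lit 4) (nat_lit 466) (nat_lit 406) (nat_lit 328)) (XT.lf (nat_lit 0) (nat_lit 9421674238) (nat_lit 76) (nat_lit 8957757358) (nat_lit 152) (nat_lit 131042832066) (nat_lit 13) (nat_lit 5) (nat_lit 14) (nat_lit 5) (nat_lit 15) (nat_lit 4) (nat_lit 467) (nat_lit 406) (nat_lit 327))) (XT.nd (nat_lit 78) (nat_lit 76) (nat_lit 0) (XT.lf (nat_lit 0) (nat_lit 57465825201) (nat_lit 152) (nat_lit 71369803944) (nat_lit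 0) (nat_lit 30550624099) (nat_lit 13) (nat_lit 5) (nat_lit 15) (nat_lit 4) (nat_lit 13) (nat_lit 4) (nat_lit 468) (nat_lit 406) (nat_lit 326)) (XT.lf (nat_lit 0) (nat_lit 2659626815) (nat_lit 76) (nat_lit 97199095203) (nat_lit 76) (nat_lit 70279660746) (nat_lit 12) (nat_lit 4) (nat_lit 13) (nat_lit 5) (nat_lit 13) (nat_lit 4) (nat_lit 469) (nat_lit 406) (nat_lit 325))))))))
noncomputable def xc58 : XT := (XT.nd (nat_lit 2028) (nat_lit 0) (nat_lit 0) (XT.nd (nat_lit 1014) (nat_lit 228) (nat_lit 0) (XT.nd (nat_lit 468) (nat_lit 228) (nat_lit 0) (XT.nd (nat_lit 234) (nat_lit 76) (nat_lit 0) (XT.nd (nat_lit 78) (nat_lit 152) (nat_lit 0) (XT.lf (nat_lit 0) (nat_lit 85135232136) (nat_lit 76) (nat_lit 61738632191) (nat_lit 76) (nat_lit 34815277962) (nat_lit 12) (nat_lit 4) (nat_lit 13) (nat_lit 5) (nat_lit 13) (nat_lit 4) (nat_lit 470) (nat_lit 406) (nat_lit 324)) (XT.nd (nat_lit 78) (nat_lit 76)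 (nat_lit 0) (XT.lf (nat_lit 0) (nat_lit 3363001434) (nat_lit 152) (nat_lit 20032830707) (nat_lit 76) (nat_lit 170765992822) (nat_lit 11) (nat_lit 5) (nat_lit 13) (nat_lit 5) (nat_lit 12) (nat_lit 4) (nat_lit 471) (nat_lit 406) (nat_lit 323)) (XT.lf (nat_lit 0) (nat_lit 44688409938) (nat_lit 152) (nat_lit 143809281182) (nat_lit 0) (nat_lit 19040463061) (nat_lit 10) (nat_lit 5) (nat_lit 12) (nat_lit 4) (nat_lit 10) (nat_lit 4) (nat_lit 472) (nat_lit 406) (nat_lit 322)))) (XT.nd (nat_lit 78) (nat_lit 76) (nat_lit 0) (XT.lf (nat_lit 0) (nat_lit 90058536528) (nat_lit 152) (nat_lit 67481493004) (nat_lit 0) (nat_lit 64407626183) (nat_lit 10) (nat_lit 5) (nat_lit 12) (nat_lit 4) (nat_lit 10) (nat_lit 4) (nat_lit 473) (nat_lit 406) (nat_lit 321)) (XT.nd (nat_lit 78) (nat_lit 0) (nat_lit 0) (XT.lf (nat_lit 0) (nat_lit 15426816172) (nat_lit 76) (nat_lit 123862599309) (nat_lit 76) (nat_lit 98208945012)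 (nat_lit 9) (nat_lit 4) (nat_lit 10) (nat_lit 5) (nat_lit 10) (nat_lit 4) (nat_lit 474) (nat_lit 406) (nat_lit 320)) (XT.lf (nat_lit 0) (nat_lit 107358921472) (nat_lit 76) (nat_lit 86266042709) (nat_lit 76) (nat_lit 60609847716) (nat_lit 9) (nat_lit 4) (nat_lit 10) (nat_lit 5) (nat_lit 10) (nat_lit 4) (nat_lit 475) (nat_lit 406) (nat_lit 319))))) (XT.nd (nat_lit 234) (nat_lit 76) (nat_lit 0) (XT.nd (nat_lit 78) (nat_lit 152) (nat_lit 0) (XT.lf (nat_lit 0) (nat_lit 206628362827) (nat_lit 76) (nat_lit 45670397060) (nat_lit 76) (nat_lit 20011849569) (nat_lit 9) (nat_lit 4) (nat_lit 10) (nat_lit 5) (nat_lit 10) (nat_lit 4) (nat_lit 476) (nat_lit 406) (nat_lit 318)) (XT.nd (nat_lit 78) (nat_lit 0) (nat_lit 0) (XT.lf (nat_lit 0) (nat_lit 22333356613) (nat_lit 76) (nat_lit 1078390870) (nat_lit 152) (nat_lit 268385087969) (nat_lit 7) (nat_lit 5) (nat_lit 8) (nat_lit 5) (nat_lit 9) (nat_lit 4) (nat_lit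 477) (nat_lit 406) (nat_lit 317)) (XT.lf (nat_lit 0) (nat_lit 71507597304) (nat_lit 152) (nat_lit 194156095039) (nat_lit 0) (nat_lit 47066890052) (nat_lit 7) (nat_lit 5) (nat_lit 9) (nat_lit 4) (nat_lit 7) (nat_lit 4) (nat_lit 478) (nat_lit 406) (nat_lit 316)))) (XT.nd (nat_lit 156) (nat_lit 76) (nat_lit 0) (XT.nd (nat_lit 78) (nat_lit 0) (nat_lit 0) (XT.lf (nat_lit 0) (nat_lit 123462025353) (nat_lit 152) (nat_lit 112856918840) (nat_lit 0) (nat_lit 99019539541) (nat_lit 7) (nat_lit 5) (nat_lit 9) (nat_lit 4) (nat_lit 7) (nat_lit 4) (nat_lit 479) (nat_lit 406) (nat_lit 315)) (XT.lf (nat_lit 0) (nat_lit 179566073017) (nat_lit 152) (nat_lit 25067340642) (nat_lit 0) (nat_lit 155121940391) (nat_lit 7) (nat_lit 5) (nat_lit 9) (nat_lit 4) (nat_lit 7) (nat_lit 4) (nat_lit 480) (nat_lit 406) (nat_lit 314))) (XT.nd (nat_lit 78) (nat_lit 0) (nat_lit 0) (XT.lf (nat_lit 0) (nat_lit 72038557832) (nat_lit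 76) (nat_lit 169238374671) (nat_lit 76) (nat_lit 144792717217) (nat_lit 6) (nat_lit 4) (nat_lit 7) (nat_lit 5) (nat_lit 7) (nat_lit 4) (nat_lit 481) (nat_lit 406) (nat_lit 313)) (XT.lf (nat_lit 0) (nat_lit 177796089640) (nat_lit 76) (nat_lit 130559267029) (nat_lit 76) (nat_lit 106112197697) (nat_lit 6) (nat_lit 4) (nat_lit 7) (nat_lit 5) (nat_lit 7) (nat_lit 4) (nat_lit 482) (nat_lit 406) (nat_lit 312)))))) (XT.nd (nat_lit 468) (nat_lit 76) (nat_lit 0) (XT.nd (nat_lit 234) (nat_lit 0) (nat_lit 0) (XT.nd (nat_lit 78) (nat_lit 152) (nat_lit 0) (XT.lf (nat_lit 0) (nat_lit 292003126592) (nat_lit 76) (nat_lit 88791408751) (nat_lit 76) (nat_lit 64343032124) (nat_lit 6) (nat_lit 4) (nat_lit 7) (nat_lit 5) (nat_lit 7) (nat_lit 4) (nat_lit 483) (nat_lit 406) (nat_lit 311)) (XT.nd (nat_lit 78) (nat_lit 152) (nat_lit 0) (XT.lf (nat_lit 0) (nat_lit 415336451129) (nat_lit 76) (nat_lit 43687286601) (nat_lit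 76) (nat_lit 19237699516) (nat_lit 6) (nat_lit 4) (nat_lit 7) (nat_lit 5) (nat_lit 7) (nat_lit 4) (nat_lit 484) (nat_lit 406) (nat_lit 310)) (XT.lf (nat_lit 0) (nat_lit 29171648275) (nat_lit 152) (nat_lit 478923348079) (nat_lit 0) (nat_lit 5885259819) (nat_lit 4) (nat_lit 5) (nat_lit 6) (nat_lit 4) (nat_lit 4) (nat_lit 4) (nat_lit 485) (nat_lit 406) (nat_lit 309)))) (XT.nd (nat_lit 78) (nat_lit 0) (nat_lit 0) (XT.lf (nat_lit 0) (nat_lit 82634817864) (nat_lit 152) (nat_lit 410465799714) (nat_lit 0) (nat_lit 59347441053) (nat_lit 4) (nat_lit 5) (nat_lit 6) (nat_lit 4) (nat_lit 4) (nat_lit 4) (nat_lit 486) (nat_lit 406) (nat_lit 308)) (XT.nd (nat_lit 78) (nat_lit 0) (nat_lit 0) (XT.lf (nat_lit 0) (nat_lit 140370716432) (nat_lit 152) (nat_lit 336540360682) (nat_lit 0) (nat_lit 117082424477) (nat_lit 4) (nat_lit 5) (nat_lit 6) (nat_lit 4) (nat_lit 4) (nat_lit 4) (nat_lit 487) (nat_lit 406) (nat_lit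 307)) (XT.lf (nat_lit 0) (nat_lit 202721482637) (nat_lit 152) (nat_lit 256708954307) (nat_lit 0) (nat_lit 179432343328) (nat_lit 4) (nat_lit 5) (nat_lit 6) (nat_lit 4) (nat_lit 4) (nat_lit 4) (nat_lit 488) (nat_lit 406) (nat_lit 306))))) (XT.nd (nat_lit 234) (nat_lit 0) (nat_lit 0) (XT.nd (nat_lit 78) (nat_lit 76) (nat_lit 0) (XT.lf (nat_lit 0) (nat_lit 270056602502) (nat_lit 152) (nat_lit 170498505589) (nat_lit 0) (nat_lit 246766678605) (nat_lit 4) (nat_lit 5) (nat_lit 6) (nat_lit 4) (nat_lit 4) (nat_lit 4) (nat_lit 489) (nat_lit 406) (nat_lit 305)) (XT.nd (nat_lit 78) (nat_lit 76) (nat_lit 0) (XT.lf (nat_lit 0) (nat_lit 342775098959) (nat_lit 152) (nat_lit 77398137795) (nat_lit 0) (nat_lit 319484448591) (nat_lit 4) (nat_lit 5) (nat_lit 6) (nat_lit 4) (nat_lit 4) (nat_lit 4) (nat_lit 490) (nat_lit 406) (nat_lit 304)) (XT.lf (nat_lit 0) (nat_lit 23909095323) (nat_lit 76) (nat_lit 397772089090)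 (nat_lit 76) (nat_lit 374480766065) (nat_lit 3) (nat_lit 4) (nat_lit 4) (nat_lit 5) (nat_lit 4) (nat_lit 4) (nat_lit 491) (nat_lit 406) (nat_lit 303)))) (XT.nd (nat_lit 156) (nat_lit 0) (nat_lit 0) (XT.nd (nat_lit 78) (nat_lit 0) (nat_lit 0) (XT.lf (nat_lit 0) (nat_lit 136078643491) (nat_lit 76) (nat_lit 372166299952) (nat_lit 76) (nat_lit 348874354096) (nat_lit 3) (nat_lit 4) (nat_lit 4) (nat_lit 5) (nat_lit 4) (nat_lit 4) (nat_lit 492) (nat_lit 406) (nat_lit 302)) (XT.lf (nat_lit 0) (nat_lit 257216083167) (nat_lit 76) (nat_lit 344514906243) (nat_lit 76) (nat_lit 321222383691) (nat_lit 3) (nat_lit 4) (nat_lit 4) (nat_lit 5) (nat_lit 4) (nat_lit 4) (nat_lit 493) (nat_lit 406) (nat_lit 301))) (XT.nd (nat_lit 78) (nat_lit 0) (nat_lit 0) (XT.lf (nat_lit 0) (nat_lit 388039265844) (nat_lit 76) (nat_lit 314654047854) (nat_lit 76) (nat_lit 291360991324) (nat_lit 3) (nat_lit 4) (nat_lit 4) (nat_lit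 5) (nat_lit 4) (nat_lit 4) (nat_lit 494) (nat_lit 406) (nat_lit 300)) (XT.lf (nat_lit 0) (nat_lit 529323440013) (nat_lit 76) (nat_lit 282406771548) (nat_lit 76) (nat_lit 259113220596) (nat_lit 3) (nat_lit 4) (nat_lit 4) (nat_lit 5) (nat_lit 4) (nat_lit 4) (nat_lit 495) (nat_lit 406) (nat_lit 299))))))) (XT.nd (nat_lit 56394) (nat_lit 0) (nat_lit 4712) (XT.nd (nat_lit 55848) (nat_lit 0) (nat_lit 8512) (XT.nd (nat_lit 55614) (nat_lit 0) (nat_lit 10868) (XT.nd (nat_lit 78) (nat_lit 0) (nat_lit 0) (XT.lf (nat_lit 0) (nat_lit 681905845224) (nat_lit 76) (nat_lit 247581982356) (nat_lit 76) (nat_lit 224287973604) (nat_lit 3) (nat_lit 4) (nat_lit 4) (nat_lit 5) (nat_lit 4) (nat_lit 4) (nat_lit 496) (nat_lit 406) (nat_lit 298)) (XT.nd (nat_lit 55458) (nat_lit 0) (nat_lit 11476) (XT.lf (nat_lit 0) (nat_lit 846690673508) (nat_lit 76) (nat_lit 209973311156) (nat_lit 76) (nat_lit 186678878516) (nat_lit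 3) (nat_lit 4) (nat_lit 4) (nat_lit 5) (nat_lit 4) (nat_lit 4) (nat_lit 497) (nat_lit 406) (nat_lit 297)) (XT.lf (nat_lit 0) (nat_lit 1761785540) (nat_lit 0) (nat_lit 1761785540) (nat_lit 532) (nat_lit 403311862) (nat_lit 154) (nat_lit 5) (nat_lit 154) (nat_lit 3) (nat_lit 161) (nat_lit 3) (nat_lit 407) (nat_lit 407) (nat_lit 386)))) (XT.nd (nat_lit 78) (nat_lit 0) (nat_lit 0) (XT.lf (nat_lit 0) (nat_lit 1200912144) (nat_lit 608) (nat_lit 6184565323) (nat_lit 684) (nat_lit 681557268) (nat_lit 146) (nat_lit 5) (nat_lit 154) (nat_lit 5) (nat_lit 155) (nat_lit 5) (nat_lit 408) (nat_lit 407) (nat_lit 385)) (XT.nd (nat_lit 78) (nat_lit 0) (nat_lit 76) (XT.lf (nat_lit 76) (nat_lit 268994825) (nat_lit 0) (nat_lit 3014883092) (nat_lit 684) (nat_lit 5015760600) (nat_lit 147) (nat_lit 5) (nat_lit 146) (nat_lit 5) (nat_lit 155) (nat_lit 5) (nat_lit 409) (nat_lit 407) (nat_lit 384)) (XT.lf (nat_lit 0)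 (nat_lit 5486011422) (nat_lit 608) (nat_lit 1237992227) (nat_lit 684) (nat_lit 1829302793) (nat_lit 147) (nat_lit 5) (nat_lit 155) (nat_lit 5) (nat_lit 156) (nat_lit 5) (nat_lit 410) (nat_lit 407) (nat_lit 383))))) (XT.nd (nat_lit 234) (nat_lit 1824) (nat_lit 0) (XT.nd (nat_lit 78) (nat_lit 608) (nat_lit 0) (XT.lf (nat_lit 76) (nat_lit 6128739826) (nat_lit 0) (nat_lit 1712106260) (nat_lit 684) (nat_lit 987671454) (nat_lit 148) (nat_lit 5) (nat_lit 147) (nat_lit 5) (nat_lit 156) (nat_lit 5) (nat_lit 411) (nat_lit 407) (nat_lit 382)) (XT.nd (nat_lit 78) (nat_lit 0) (nat_lit 76) (XT.lf (nat_lit 0) (nat_lit 1217190182) (nat_lit 684) (nat_lit 4158109418) (nat_lit 760) (nat_lit 3749573763) (nat_lit 139) (nat_lit 5) (nat_lit 148) (nat_lit 5) (nat_lit 149) (nat_lit 5) (nat_lit 412) (nat_lit 407) (nat_lit 381)) (XT.lf (nat_lit 0) (nat_lit 3555170029) (nat_lit 684) (nat_lit 5590380976) (nat_lit 76)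 (nat_lit 299072726) (nat_lit 140) (nat_lit 5) (nat_lit 149) (nat_lit 5) (nat_lit 141) (nat_lit 5) (nat_lit 413) (nat_lit 407) (nat_lit 380)))) (XT.nd (nat_lit 156) (nat_lit 456) (nat_lit 0) (XT.nd (nat_lit 78) (nat_lit 760) (nat_lit 0) (XT.lf (nat_lit 0) (nat_lit 2744967860) (nat_lit 684) (nat_lit 3401305552) (nat_lit 760) (nat_lit 3640434114) (nat_lit 131) (nat_lit 5) (nat_lit 140) (nat_lit 5) (nat_lit 141) (nat_lit 5) (nat_lit 414) (nat_lit 407) (nat_lit 379)) (XT.lf (nat_lit 0) (nat_lit 1681468307) (nat_lit 760) (nat_lit 7300058468) (nat_lit 836) (nat_lit 1172841553) (nat_lit 121) (nat_lit 5) (nat_lit 131) (nat_lit 5) (nat_lit 132) (nat_lit 5) (nat_lit 415) (nat_lit 407) (nat_lit 378))) (XT.nd (nat_lit 78) (nat_lit 0) (nat_lit 0) (XT.lf (nat_lit 0) (nat_lit 624631642) (nat_lit 380) (nat_lit 885298054) (nat_lit 456) (nat_lit 9037118053) (nat_lit 115) (nat_lit 5) (nat_lit 120) (nat_lit 5)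 (nat_lit 121) (nat_lit 5) (nat_lit 416) (nat_lit 407) (nat_lit 377)) (XT.lf (nat_lit 0) (nat_lit 4492467269) (nat_lit 456) (nat_lit 449897363) (nat_lit 76) (nat_lit 6021547371) (nat_lit 115) (nat_lit 5) (nat_lit 121) (nat_lit 5) (nat_lit 116) (nat_lit 5) (nat_lit 417) (nat_lit 407) (nat_lit 376)))))) (XT.nd (nat_lit 546) (nat_lit 1520) (nat_lit 0) (XT.nd (nat_lit 234) (nat_lit 1140) (nat_lit 0) (XT.nd (nat_lit 78) (nat_lit 760) (nat_lit 0) (XT.lf (nat_lit 0) (nat_lit 7808646148) (nat_lit 456) (nat_lit 1473867347) (nat_lit 76) (nat_lit 2126900349) (nat_lit 110) (nat_lit 5) (nat_lit 116) (nat_lit 5) (nat_lit 111) (nat_lit 5) (nat_lit 418) (nat_lit 407) (nat_lit 375)) (XT.nd (nat_lit 78) (nat_lit 380) (nat_lit 0) (XT.lf (nat_lit 0) (nat_lit 9381217972) (nat_lit 380) (nat_lit 2143169146) (nat_lit 456) (nat_lit 359492697) (nat_lit 105) (nat_lit 5) (nat_lit 110) (nat_lit 5) (nat_lit 111) (nat_lit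 5) (nat_lit 419) (nat_lit 407) (nat_lit 374)) (XT.lf (nat_lit 0) (nat_lit 3196445540) (nat_lit 380) (nat_lit 3595268093) (nat_lit 76) (nat_lit 5594375553) (nat_lit 100) (nat_lit 5) (nat_lit 105) (nat_lit 5) (nat_lit 101) (nat_lit 5) (nat_lit 420) (nat_lit 407) (nat_lit 373)))) (XT.nd (nat_lit 156) (nat_lit 608) (nat_lit 0) (XT.nd (nat_lit 78) (nat_lit 228) (nat_lit 0) (XT.lf (nat_lit 0) (nat_lit 7157665806) (nat_lit 380) (nat_lit 4678900696) (nat_lit 76) (nat_lit 1084974561) (nat_lit 96) (nat_lit 5) (nat_lit 101) (nat_lit 5) (nat_lit 97) (nat_lit 5) (nat_lit 421) (nat_lit 407) (nat_lit 372)) (XT.lf (nat_lit 0) (nat_lit 7678833195) (nat_lit 228) (nat_lit 3966317473) (nat_lit 304) (nat_lit 1844238327) (nat_lit 93) (nat_lit 5) (nat_lit 96) (nat_lit 5) (nat_lit 97) (nat_lit 5) (nat_lit 422) (nat_lit 407) (nat_lit 371))) (XT.nd (nat_lit 78) (nat_lit 228) (nat_lit 0) (XT.lf (nat_lit 0) (nat_lit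 2496428513) (nat_lit 380) (nat_lit 6993530642) (nat_lit 76) (nat_lit 4601669551) (nat_lit 88) (nat_lit 5) (nat_lit 93) (nat_lit 5) (nat_lit 89) (nat_lit 5) (nat_lit 423) (nat_lit 407) (nat_lit 370)) (XT.lf (nat_lit 0) (nat_lit 6511059978) (nat_lit 228) (nat_lit 800092641) (nat_lit 304) (nat_lit 7419835522) (nat_lit 85) (nat_lit 5) (nat_lit 88) (nat_lit 5) (nat_lit 89) (nat_lit 5) (nat_lit 424) (nat_lit 407) (nat_lit 369))))) (XT.nd (nat_lit 234) (nat_lit 760) (nat_lit 0) (XT.nd (nat_lit 78) (nat_lit 532) (nat_lit 0) (XT.lf (nat_lit 0) (nat_lit 5875982657) (nat_lit 228) (nat_lit 6907778454) (nat_lit 304) (nat_lit 2624121260) (nat_lit 82) (nat_lit 5) (nat_lit 85) (nat_lit 5) (nat_lit 86) (nat_lit 5) (nat_lit 425) (nat_lit 407) (nat_lit 368)) (XT.nd (nat_lit 78) (nat_lit 228) (nat_lit 0) (XT.lf (nat_lit 0) (nat_lit 2681825024) (nat_lit 304) (nat_lit 10899611272) (nat_lit 76) (nat_lit 2545098006)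 (nat_lit 78) (nat_lit 5) (nat_lit 82) (nat_lit 5) (nat_lit 79) (nat_lit 5) (nat_lit 426) (nat_lit 407) (nat_lit 367)) (XT.lf (nat_lit 0) (nat_lit 4489943647) (nat_lit 228) (nat_lit 4116402248) (nat_lit 304) (nat_lit 8279897249) (nat_lit 75) (nat_lit 5) (nat_lit 78) (nat_lit 5) (nat_lit 79) (nat_lit 5) (nat_lit 427) (nat_lit 407) (nat_lit 366)))) (XT.nd (nat_lit 156) (nat_lit 304) (nat_lit 0) (XT.nd (nat_lit 78) (nat_lit 304) (nat_lit 0) (XT.lf (nat_lit 0) (nat_lit 3722167527) (nat_lit 152) (nat_lit 11561745323) (nat_lit 228) (nat_lit 2408877772) (nat_lit 73) (nat_lit 5) (nat_lit 75) (nat_lit 5) (nat_lit 76) (nat_lit 5) (nat_lit 428) (nat_lit 407) (nat_lit 365)) (XT.lf (nat_lit 0) (nat_lit 2878573834) (nat_lit 228) (nat_lit 1196315202) (nat_lit 304) (nat_lit 14472472331) (nat_lit 69) (nat_lit 5) (nat_lit 72) (nat_lit 5) (nat_lit 73) (nat_lit 5) (nat_lit 429) (nat_lit 407) (nat_lit 364))) (XT.nd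 (nat_lit 78) (nat_lit 152) (nat_lit 0) (XT.lf (nat_lit 0) (nat_lit 1878669127) (nat_lit 152) (nat_lit 9486099146) (nat_lit 228) (nat_lit 8084977874) (nat_lit 67) (nat_lit 5) (nat_lit 69) (nat_lit 5) (nat_lit 70) (nat_lit 5) (nat_lit 430) (nat_lit 407) (nat_lit 363)) (XT.lf (nat_lit 0) (nat_lit 862417695) (nat_lit 152) (nat_lit 18650880907) (nat_lit 228) (nat_lit 897262280) (nat_lit 65) (nat_lit 5) (nat_lit 67) (nat_lit 5) (nat_lit 68) (nat_lit 5) (nat_lit 431) (nat_lit 407) (nat_lit 362))))))))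
noncomputable def xc59 : XT := (XT.nd (nat_lit 2106) (nat_lit 1216) (nat_lit 0) (XT.nd (nat_lit 1014) (nat_lit 1368) (nat_lit 0) (XT.nd (nat_lit 468) (nat_lit 912) (nat_lit 0) (XT.nd (nat_lit 234) (nat_lit 532) (nat_lit 0) (XT.nd (nat_lit 78) (nat_lit 380) (nat_lit 0) (XT.lf (nat_lit 0) (nat_lit 7059337268) (nat_lit 228) (nat_lit 400227901) (nat_lit 76) (nat_lit 13962646699) (nat_lit 64) (nat_lit 5) (nat_lit 67) (nat_lit 5) (nat_lit 65) (nat_lit 5) (nat_lit 432) (nat_lit 407) (nat_lit 361)) (XT.nd (nat_lit 78) (nat_lit 228) (nat_lit 0) (XT.lf (nat_lit 0) (nat_lit 15971022999) (nat_lit 228) (nat_lit 1732450797) (nat_lit 76) (nat_lit 4793095948) (nat_lit 62) (nat_lit 5) (nat_lit 65) (nat_lit 5) (nat_lit 63) (nat_lit 5) (nat_lit 433) (nat_lit 407) (nat_lit 360)) (XT.lf (nat_lit 0) (nat_lit 2283959803) (nat_lit 228) (nat_lit 3251123244) (nat_lit 76) (nat_lit 18099926261) (nat_lit 59) (nat_lit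 5) (nat_lit 62) (nat_lit 5) (nat_lit 60) (nat_lit 5) (nat_lit 434) (nat_lit 407) (nat_lit 359)))) (XT.nd (nat_lit 78) (nat_lit 380) (nat_lit 0) (XT.lf (nat_lit 0) (nat_lit 11990551030) (nat_lit 228) (nat_lit 5057413597) (nat_lit 76) (nat_lit 7790171363) (nat_lit 57) (nat_lit 5) (nat_lit 60) (nat_lit 5) (nat_lit 58) (nat_lit 5) (nat_lit 435) (nat_lit 407) (nat_lit 358)) (XT.nd (nat_lit 78) (nat_lit 228) (nat_lit 0) (XT.lf (nat_lit 0) (nat_lit 19071895935) (nat_lit 152) (nat_lit 3803030487) (nat_lit 228) (nat_lit 3242531081) (nat_lit 55) (nat_lit 5) (nat_lit 57) (nat_lit 5) (nat_lit 58) (nat_lit 5) (nat_lit 436) (nat_lit 407) (nat_lit 357)) (XT.lf (nat_lit 0) (nat_lit 7402075671) (nat_lit 228) (nat_lit 9439927093) (nat_lit 76) (nat_lit 10626592791) (nat_lit 52) (nat_lit 5) (nat_lit 55) (nat_lit 5) (nat_lit 53) (nat_lit 5) (nat_lit 437) (nat_lit 407) (nat_lit 356))))) (XT.nd (nat_lit 234) (nat_lit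 456) (nat_lit 0) (XT.nd (nat_lit 78) (nat_lit 304) (nat_lit 0) (XT.lf (nat_lit 0) (nat_lit 16777853762) (nat_lit 152) (nat_lit 2415010126) (nat_lit 228) (nat_lit 9711898334) (nat_lit 50) (nat_lit 5) (nat_lit 52) (nat_lit 5) (nat_lit 53) (nat_lit 5) (nat_lit 438) (nat_lit 407) (nat_lit 355)) (XT.nd (nat_lit 78) (nat_lit 152) (nat_lit 0) (XT.lf (nat_lit 0) (nat_lit 2000578507) (nat_lit 152) (nat_lit 15274753872) (nat_lit 76) (nat_lit 13150518390) (nat_lit 48) (nat_lit 5) (nat_lit 50) (nat_lit 5) (nat_lit 49) (nat_lit 5) (nat_lit 439) (nat_lit 407) (nat_lit 354)) (XT.lf (nat_lit 0) (nat_lit 13125039449) (nat_lit 152) (nat_lit 1608507771) (nat_lit 228) (nat_lit 17305936067) (nat_lit 46) (nat_lit 5) (nat_lit 48) (nat_lit 5) (nat_lit 49) (nat_lit 5) (nat_lit 440) (nat_lit 407) (nat_lit 353)))) (XT.nd (nat_lit 156) (nat_lit 152) (nat_lit 0) (XT.nd (nat_lit 78) (nat_lit 228) (nat_lit 0) (XT.lf (nat_lit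 0) (nat_lit 10597419905) (nat_lit 76) (nat_lit 18523008034) (nat_lit 152) (nat_lit 4630019394) (nat_lit 45) (nat_lit 5) (nat_lit 46) (nat_lit 5) (nat_lit 47) (nat_lit 4) (nat_lit 441) (nat_lit 407) (nat_lit 352)) (XT.lf (nat_lit 0) (nat_lit 7562031567) (nat_lit 152) (nat_lit 1649595876) (nat_lit 228) (nat_lit 26357510961) (nat_lit 42) (nat_lit 5) (nat_lit 44) (nat_lit 5) (nat_lit 45) (nat_lit 5) (nat_lit 442) (nat_lit 407) (nat_lit 351))) (XT.nd (nat_lit 78) (nat_lit 76) (nat_lit 0) (XT.lf (nat_lit 0) (nat_lit 3756511650) (nat_lit 76) (nat_lit 20934282257) (nat_lit 152) (nat_lit 12804119496) (nat_lit 41) (nat_lit 5) (nat_lit 42) (nat_lit 5) (nat_lit 43) (nat_lit 4) (nat_lit 443) (nat_lit 407) (nat_lit 350)) (XT.lf (nat_lit 0) (nat_lit 2262582359) (nat_lit 152) (nat_lit 619880221) (nat_lit 76) (nat_lit 36666473639) (nat_lit 40) (nat_lit 5) (nat_lit 42) (nat_lit 5) (nat_lit 41) (nat_lit 5) (nat_lit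 444) (nat_lit 407) (nat_lit 349)))))) (XT.nd (nat_lit 546) (nat_lit 684) (nat_lit 0) (XT.nd (nat_lit 234) (nat_lit 304) (nat_lit 0) (XT.nd (nat_lit 78) (nat_lit 228) (nat_lit 0) (XT.lf (nat_lit 0) (nat_lit 18892865368) (nat_lit 228) (nat_lit 5978035942) (nat_lit 76) (nat_lit 16845545524) (nat_lit 38) (nat_lit 5) (nat_lit 41) (nat_lit 5) (nat_lit 39) (nat_lit 4) (nat_lit 445) (nat_lit 407) (nat_lit 348)) (XT.nd (nat_lit 78) (nat_lit 152) (nat_lit 0) (XT.lf (nat_lit 0) (nat_lit 31882334584) (nat_lit 76) (nat_lit 5496420558) (nat_lit 152) (nat_lit 6652346821) (nat_lit 37) (nat_lit 5) (nat_lit 38) (nat_lit 5) (nat_lit 39) (nat_lit 4) (nat_lit 446) (nat_lit 407) (nat_lit 347)) (XT.lf (nat_lit 0) (nat_lit 11216128440) (nat_lit 152) (nat_lit 19651862661) (nat_lit 76) (nat_lit 15617019587) (nat_lit 35) (nat_lit 5) (nat_lit 37) (nat_lit 5) (nat_lit 36) (nat_lit 4) (nat_lit 447) (nat_lit 407) (nat_lit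 346)))) (XT.nd (nat_lit 156) (nat_lit 76) (nat_lit 0) (XT.nd (nat_lit 78) (nat_lit 152) (nat_lit 0) (XT.lf (nat_lit 0) (nat_lit 20638051372) (nat_lit 76) (nat_lit 10245914346) (nat_lit 152) (nat_lit 18215668506) (nat_lit 34) (nat_lit 5) (nat_lit 35) (nat_lit 5) (nat_lit 36) (nat_lit 4) (nat_lit 448) (nat_lit 407) (nat_lit 345)) (XT.lf (nat_lit 0) (nat_lit 918322006) (nat_lit 152) (nat_lit 38785126839) (nat_lit 76) (nat_lit 12183674399) (nat_lit 32) (nat_lit 5) (nat_lit 34) (nat_lit 5) (nat_lit 33) (nat_lit 4) (nat_lit 449) (nat_lit 407) (nat_lit 344))) (XT.nd (nat_lit 78) (nat_lit 0) (nat_lit 0) (XT.lf (nat_lit 0) (nat_lit 3710865146) (nat_lit 76) (nat_lit 17948820417) (nat_lit 152) (nat_lit 33187254758) (nat_lit 31) (nat_lit 5) (nat_lit 32) (nat_lit 5) (nat_lit 33) (nat_lit 4) (nat_lit 450) (nat_lit 407) (nat_lit 343)) (XT.lf (nat_lit 0) (nat_lit 44806238961) (nat_lit 152) (nat_lit 7168563394)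 (nat_lit 0) (nat_lit 6031448143) (nat_lit 31) (nat_lit 5) (nat_lit 33) (nat_lit 4) (nat_lit 31) (nat_lit 4) (nat_lit 451) (nat_lit 407) (nat_lit 342))))) (XT.nd (nat_lit 234) (nat_lit 380) (nat_lit 0) (XT.nd (nat_lit 78) (nat_lit 152) (nat_lit 0) (XT.lf (nat_lit 0) (nat_lit 9054788006) (nat_lit 152) (nat_lit 20231911117) (nat_lit 76) (nat_lit 32078211918) (nat_lit 29) (nat_lit 5) (nat_lit 31) (nat_lit 5) (nat_lit 30) (nat_lit 4) (nat_lit 452) (nat_lit 407) (nat_lit 341)) (XT.nd (nat_lit 78) (nat_lit 76) (nat_lit 0) (XT.lf (nat_lit 0) (nat_lit 29232174324) (nat_lit 76) (nat_lit 3960214400) (nat_lit 152) (nat_lit 31760813404) (nat_lit 28) (nat_lit 5) (nat_lit 29) (nat_lit 5) (nat_lit 30) (nat_lit 4) (nat_lit 453) (nat_lit 407) (nat_lit 340)) (XT.lf (nat_lit 0) (nat_lit 14615474181) (nat_lit 76) (nat_lit 45573293088) (nat_lit 76) (nat_lit 8593402085) (nat_lit 27) (nat_lit 4) (nat_lit 28) (nat_lit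 5) (nat_lit 28) (nat_lit 4) (nat_lit 454) (nat_lit 407) (nat_lit 339)))) (XT.nd (nat_lit 156) (nat_lit 228) (nat_lit 0) (XT.nd (nat_lit 78) (nat_lit 76) (nat_lit 0) (XT.lf (nat_lit 0) (nat_lit 16577694367) (nat_lit 152) (nat_lit 3010311545) (nat_lit 76) (nat_lit 53282821753) (nat_lit 26) (nat_lit 5) (nat_lit 28) (nat_lit 5) (nat_lit 27) (nat_lit 4) (nat_lit 455) (nat_lit 407) (nat_lit 338)) (XT.lf (nat_lit 0) (nat_lit 44431711231) (nat_lit 152) (nat_lit 23613494084) (nat_lit 0) (nat_lit 9185815468) (nat_lit 25) (nat_lit 5) (nat_lit 27) (nat_lit 4) (nat_lit 25) (nat_lit 4) (nat_lit 456) (nat_lit 407) (nat_lit 337))) (XT.nd (nat_lit 78) (nat_lit 152) (nat_lit 0) (XT.lf (nat_lit 0) (nat_lit 33650999798) (nat_lit 76) (nat_lit 41751256903) (nat_lit 76) (nat_lit 6493363299) (nat_lit 24) (nat_lit 4) (nat_lit 25) (nat_lit 5) (nat_lit 25) (nat_lit 4) (nat_lit 457) (nat_lit 407) (nat_lit 336)) (XT.lf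 (nat_lit 0) (nat_lit 9337512673) (nat_lit 76) (nat_lit 12421763126) (nat_lit 152) (nat_lit 65129817918) (nat_lit 22) (nat_lit 5) (nat_lit 23) (nat_lit 5) (nat_lit 24) (nat_lit 4) (nat_lit 458) (nat_lit 407) (nat_lit 335))))))) (XT.nd (nat_lit 1014) (nat_lit 456) (nat_lit 0) (XT.nd (nat_lit 468) (nat_lit 380) (nat_lit 0) (XT.nd (nat_lit 234) (nat_lit 152) (nat_lit 0) (XT.nd (nat_lit 78) (nat_lit 228) (nat_lit 0) (XT.lf (nat_lit 0) (nat_lit 53182903904) (nat_lit 152) (nat_lit 19453325030) (nat_lit 0) (nat_lit 19583581112) (nat_lit 22) (nat_lit 5) (nat_lit 24) (nat_lit 4) (nat_lit 22) (nat_lit 4) (nat_lit 459) (nat_lit 407) (nat_lit 334)) (XT.nd (nat_lit 78) (nat_lit 152) (nat_lit 0) (XT.lf (nat_lit 0) (nat_lit 44471099990) (nat_lit 76) (nat_lit 43534997121) (nat_lit 76) (nat_lit 9926603594) (nat_lit 21) (nat_lit 4) (nat_lit 22) (nat_lit 5) (nat_lit 22) (nat_lit 4) (nat_lit 460) (nat_lit 407)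 (nat_lit 333)) (XT.lf (nat_lit 0) (nat_lit 10064548297) (nat_lit 76) (nat_lit 11243422753) (nat_lit 152) (nat_lit 82753659553) (nat_lit 19) (nat_lit 5) (nat_lit 20) (nat_lit 5) (nat_lit 21) (nat_lit 4) (nat_lit 461) (nat_lit 407) (nat_lit 332)))) (XT.nd (nat_lit 78) (nat_lit 152) (nat_lit 0) (XT.lf (nat_lit 0) (nat_lit 55996625335) (nat_lit 152) (nat_lit 30637732711) (nat_lit 0) (nat_lit 23973226238) (nat_lit 19) (nat_lit 5) (nat_lit 21) (nat_lit 4) (nat_lit 19) (nat_lit 4) (nat_lit 462) (nat_lit 407) (nat_lit 331)) (XT.nd (nat_lit 78) (nat_lit 76) (nat_lit 0) (XT.lf (nat_lit 0) (nat_lit 38811790664) (nat_lit 76) (nat_lit 55428346387) (nat_lit 76) (nat_lit 23398089535) (nat_lit 18) (nat_lit 4) (nat_lit 19) (nat_lit 5) (nat_lit 19) (nat_lit 4) (nat_lit 463) (nat_lit 407) (nat_lit 330)) (XT.lf (nat_lit 0) (nat_lit 10508880436) (nat_lit 152) (nat_lit 10493401730) (nat_lit 76) (nat_lit 104194633137)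 (nat_lit 17) (nat_lit 5) (nat_lit 19) (nat_lit 5) (nat_lit 18) (nat_lit 4) (nat_lit 464) (nat_lit 407) (nat_lit 329))))) (XT.nd (nat_lit 234) (nat_lit 228) (nat_lit 0) (XT.nd (nat_lit 78) (nat_lit 76) (nat_lit 0) (XT.lf (nat_lit 0) (nat_lit 47595133624) (nat_lit 152) (nat_lit 68603182922) (nat_lit 0) (nat_lit 17078480248) (nat_lit 16) (nat_lit 5) (nat_lit 18) (nat_lit 4) (nat_lit 16) (nat_lit 4) (nat_lit 465) (nat_lit 407) (nat_lit 328)) (XT.nd (nat_lit 78) (nat_lit 0) (nat_lit 0) (XT.lf (nat_lit 0) (nat_lit 3977591925) (nat_lit 76) (nat_lit 84258951281) (nat_lit 76) (nat_lit 53737113231) (nat_lit 15) (nat_lit 4) (nat_lit 16) (nat_lit 5) (nat_lit 16) (nat_lit 4) (nat_lit 466) (nat_lit 407) (nat_lit 327)) (XT.lf (nat_lit 0) (nat_lit 84788455508) (nat_lit 76) (nat_lit 48522677523) (nat_lit 76) (nat_lit 17996038850) (nat_lit 15) (nat_lit 4) (nat_lit 16) (nat_lit 5) (nat_lit 16) (nat_lit 4) (nat_lit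 467) (nat_lit 407) (nat_lit 326)))) (XT.nd (nat_lit 156) (nat_lit 76) (nat_lit 0) (XT.nd (nat_lit 78) (nat_lit 0) (nat_lit 0) (XT.lf (nat_lit 0) (nat_lit 10672059003) (nat_lit 76) (nat_lit 9427034995) (nat_lit 152) (nat_lit 141264478386) (nat_lit 13) (nat_lit 5) (nat_lit 14) (nat_lit 5) (nat_lit 15) (nat_lit 4) (nat_lit 468) (nat_lit 407) (nat_lit 325)) (XT.lf (nat_lit 0) (nat_lit 62297507507) (nat_lit 152) (nat_lit 76611553555) (nat_lit 0) (nat_lit 33216365167) (nat_lit 13) (nat_lit 5) (nat_lit 15) (nat_lit 4) (nat_lit 13) (nat_lit 4) (nat_lit 469) (nat_lit 407) (nat_lit 324))) (XT.nd (nat_lit 78) (nat_lit 0) (nat_lit 0) (XT.lf (nat_lit 0) (nat_lit 3319900138) (nat_lit 76) (nat_lit 104751558540) (nat_lit 76) (nat_lit 75666786782) (nat_lit 12) (nat_lit 4) (nat_lit 13) (nat_lit 5) (nat_lit 13) (nat_lit 4) (nat_lit 470) (nat_lit 407) (nat_lit 323)) (XT.lf (nat_lit 0) (nat_lit 92360405501) (nat_lit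 76) (nat_lit 66470811397) (nat_lit 76) (nat_lit 37382679066) (nat_lit 12) (nat_lit 4) (nat_lit 13) (nat_lit 5) (nat_lit 13) (nat_lit 4) (nat_lit 471) (nat_lit 407) (nat_lit 322)))))) (XT.nd (nat_lit 546) (nat_lit 76) (nat_lit 0) (XT.nd (nat_lit 234) (nat_lit 228) (nat_lit 0) (XT.nd (nat_lit 78) (nat_lit 76) (nat_lit 0) (XT.lf (nat_lit 0) (nat_lit 3827272565) (nat_lit 152) (nat_lit 21245335214) (nat_lit 76) (nat_lit 184612396746) (nat_lit 11) (nat_lit 5) (nat_lit 13) (nat_lit 5) (nat_lit 12) (nat_lit 4) (nat_lit 472) (nat_lit 407) (nat_lit 321)) (XT.nd (nat_lit 78) (nat_lit 0) (nat_lit 0) (XT.lf (nat_lit 0) (nat_lit 48452991299) (nat_lit 152) (nat_lit 154934434560) (nat_lit 0) (nat_lit 20744300706) (nat_lit 10) (nat_lit 5) (nat_lit 12) (nat_lit 4) (nat_lit 10) (nat_lit 4) (nat_lit 473) (nat_lit 407) (nat_lit 320)) (XT.lf (nat_lit 0) (nat_lit 97438690345) (nat_lit 152) (nat_lit 72528541041)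 (nat_lit 0) (nat_lit 69727459056) (nat_lit 10) (nat_lit 5) (nat_lit 12) (nat_lit 4) (nat_lit 10) (nat_lit 4) (nat_lit 474) (nat_lit 407) (nat_lit 319)))) (XT.nd (nat_lit 156) (nat_lit 152) (nat_lit 0) (XT.nd (nat_lit 78) (nat_lit 0) (nat_lit 0) (XT.lf (nat_lit 0) (nat_lit 16997158351) (nat_lit 76) (nat_lit 133603132395) (nat_lit 76) (nat_lit 105889548609) (nat_lit 9) (nat_lit 4) (nat_lit 10) (nat_lit 5) (nat_lit 10) (nat_lit 4) (nat_lit 475) (nat_lit 407) (nat_lit 318)) (XT.lf (nat_lit 0) (nat_lit 116258928602) (nat_lit 76) (nat_lit 93011330886) (nat_lit 76) (nat_lit 65295568863) (nat_lit 9) (nat_lit 4) (nat_lit 10) (nat_lit 5) (nat_lit 10) (nat_lit 4) (nat_lit 476) (nat_lit 407) (nat_lit 317))) (XT.nd (nat_lit 78) (nat_lit 152) (nat_lit 0) (XT.lf (nat_lit 0) (nat_lit 223446866494) (nat_lit 76) (nat_lit 49179588788) (nat_lit 76) (nat_lit 21461809877) (nat_lit 9) (nat_lit 4) (nat_lit 10) (nat_lit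 5) (nat_lit 10) (nat_lit 4) (nat_lit 477) (nat_lit 407) (nat_lit 316)) (XT.lf (nat_lit 0) (nat_lit 24400359015) (nat_lit 76) (nat_lit 1024033869) (nat_lit 152) (nat_lit 289709201192) (nat_lit 7) (nat_lit 5) (nat_lit 8) (nat_lit 5) (nat_lit 9) (nat_lit 4) (nat_lit 478) (nat_lit 407) (nat_lit 315))))) (XT.nd (nat_lit 234) (nat_lit 76) (nat_lit 0) (XT.nd (nat_lit 78) (nat_lit 0) (nat_lit 0) (XT.lf (nat_lit 0) (nat_lit 77359595092) (nat_lit 152) (nat_lit 209424576640) (nat_lit 0) (nat_lit 50958285042) (nat_lit 7) (nat_lit 5) (nat_lit 9) (nat_lit 4) (nat_lit 7) (nat_lit 4) (nat_lit 479) (nat_lit 407) (nat_lit 314)) (XT.nd (nat_lit 78) (nat_lit 0) (nat_lit 0) (XT.lf (nat_lit 0) (nat_lit 133460644792) (nat_lit 152) (nat_lit 121641022345) (nat_lit 0) (nat_lit 107057809913) (nat_lit 7) (nat_lit 5) (nat_lit 9) (nat_lit 4) (nat_lit 7) (nat_lit 4) (nat_lit 480) (nat_lit 407) (nat_lit 313)) (XT.lf (nat_lit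 0) (nat_lit 194044004609) (nat_lit 152) (nat_lit 26846385298) (nat_lit 0) (nat_lit 167639757852) (nat_lit 7) (nat_lit 5) (nat_lit 9) (nat_lit 4) (nat_lit 7) (nat_lit 4) (nat_lit 481) (nat_lit 407) (nat_lit 312)))) (XT.nd (nat_lit 156) (nat_lit 0) (nat_lit 0) (XT.nd (nat_lit 78) (nat_lit 0) (nat_lit 0) (XT.lf (nat_lit 0) (nat_lit 78018148480) (nat_lit 76) (nat_lit 182668620510) (nat_lit 76) (nat_lit 156263066458) (nat_lit 6) (nat_lit 4) (nat_lit 7) (nat_lit 5) (nat_lit 7) (nat_lit 4) (nat_lit 482) (nat_lit 407) (nat_lit 311)) (XT.lf (nat_lit 0) (nat_lit 192220245350) (nat_lit 76) (nat_lit 140903245304) (nat_lit 76) (nat_lit 114496480794) (nat_lit 6) (nat_lit 4) (nat_lit 7) (nat_lit 5) (nat_lit 7) (nat_lit 4) (nat_lit 483) (nat_lit 407) (nat_lit 310))) (XT.nd (nat_lit 78) (nat_lit 0) (nat_lit 0) (XT.lf (nat_lit 0) (nat_lit 315548995737) (nat_lit 76) (nat_lit 95801422295) (nat_lit 76) (nat_lit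 69393536991) (nat_lit 6) (nat_lit 4) (nat_lit 7) (nat_lit 5) (nat_lit 7) (nat_lit 4) (nat_lit 484) (nat_lit 407) (nat_lit 309)) (XT.lf (nat_lit 0) (nat_lit 448735236680) (nat_lit 76) (nat_lit 47095881422) (nat_lit 76) (nat_lit 20686958345) (nat_lit 6) (nat_lit 4) (nat_lit 7) (nat_lit 5) (nat_lit 7) (nat_lit 4) (nat_lit 485) (nat_lit 407) (nat_lit 308))))))))
noncomputable def xc60 : XT := (XT.nd (nat_lit 57486) (nat_lit 0) (nat_lit 2432) (XT.nd (nat_lit 56472) (nat_lit 0) (nat_lit 7372) (XT.nd (nat_lit 468) (nat_lit 76) (nat_lit 0) (XT.nd (nat_lit 234) (nat_lit 0) (nat_lit 0) (XT.nd (nat_lit 78) (nat_lit 0) (nat_lit 0) (XT.lf (nat_lit 0) (nat_lit 31589751184) (nat_lit 152) (nat_lit 517067224694) (nat_lit 0) (nat_lit 6437480729) (nat_lit 4) (nat_lit 5) (nat_lit 6) (nat_lit 4) (nat_lit 4) (nat_lit 4) (nat_lit 486) (nat_lit 407) (nat_lit 307)) (XT.nd (nat_lit 78) (nat_lit 0) (nat_lit 0) (XT.lf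 (nat_lit 0) (nat_lit 89323724632) (nat_lit 152) (nat_lit 443145664402) (nat_lit 0) (nat_lit 64170606823) (nat_lit 4) (nat_lit 5) (nat_lit 6) (nat_lit 4) (nat_lit 4) (nat_lit 4) (nat_lit 487) (nat_lit 407) (nat_lit 306)) (XT.lf (nat_lit 0) (nat_lit 151672708320) (nat_lit 152) (nat_lit 363317849454) (nat_lit 0) (nat_lit 126518805923) (nat_lit 4) (nat_lit 5) (nat_lit 6) (nat_lit 4) (nat_lit 4) (nat_lit 4) (nat_lit 488) (nat_lit 407) (nat_lit 305)))) (XT.nd (nat_lit 78) (nat_lit 0) (nat_lit 0) (XT.lf (nat_lit 0) (nat_lit 219006177705) (nat_lit 152) (nat_lit 277110726131) (nat_lit 0) (nat_lit 193851548838) (nat_lit 4) (nat_lit 5) (nat_lit 6) (nat_lit 4) (nat_lit 4) (nat_lit 4) (nat_lit 489) (nat_lit 407) (nat_lit 304)) (XT.nd (nat_lit 78) (nat_lit 0) (nat_lit 0) (XT.lf (nat_lit 0) (nat_lit 291723145940) (nat_lit 152) (nat_lit 184013437406) (nat_lit 0) (nat_lit 266567844415) (nat_lit 4) (nat_lit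 5) (nat_lit 6) (nat_lit 4) (nat_lit 4) (nat_lit 4) (nat_lit 490) (nat_lit 407) (nat_lit 303)) (XT.lf (nat_lit 0) (nat_lit 370254528392) (nat_lit 152) (nat_lit 83474295643) (nat_lit 0) (nat_lit 345098604036) (nat_lit 4) (nat_lit 5) (nat_lit 6) (nat_lit 4) (nat_lit 4) (nat_lit 4) (nat_lit 491) (nat_lit 407) (nat_lit 302))))) (XT.nd (nat_lit 234) (nat_lit 0) (nat_lit 0) (XT.nd (nat_lit 78) (nat_lit 0) (nat_lit 0) (XT.lf (nat_lit 0) (nat_lit 25932488240) (nat_lit 76) (nat_lit 429538086792) (nat_lit 76) (nat_lit 404381585741) (nat_lit 3) (nat_lit 4) (nat_lit 4) (nat_lit 5) (nat_lit 4) (nat_lit 4) (nat_lit 492) (nat_lit 407) (nat_lit 301)) (XT.nd (nat_lit 78) (nat_lit 0) (nat_lit 0) (XT.lf (nat_lit 0) (nat_lit 147067402833) (nat_lit 76) (nat_lit 401887965591) (nat_lit 76) (nat_lit 376730930562) (nat_lit 3) (nat_lit 4) (nat_lit 4) (nat_lit 5) (nat_lit 4) (nat_lit 4) (nat_lit 493) (nat_lit 407) (nat_lit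 300)) (XT.lf (nat_lit 0) (nat_lit 277888247471) (nat_lit 76) (nat_lit 372028285449) (nat_lit 76) (nat_lit 346870755997) (nat_lit 3) (nat_lit 4) (nat_lit 4) (nat_lit 5) (nat_lit 4) (nat_lit 4) (nat_lit 494) (nat_lit 407) (nat_lit 299)))) (XT.nd (nat_lit 156) (nat_lit 0) (nat_lit 0) (XT.nd (nat_lit 78) (nat_lit 0) (nat_lit 0) (XT.lf (nat_lit 0) (nat_lit 419170256788) (nat_lit 76) (nat_lit 339782100114) (nat_lit 76) (nat_lit 314624112862) (nat_lit 3) (nat_lit 4) (nat_lit 4) (nat_lit 5) (nat_lit 4) (nat_lit 4) (nat_lit 495) (nat_lit 407) (nat_lit 298)) (XT.lf (nat_lit 0) (nat_lit 571750657507) (nat_lit 76) (nat_lit 304958321079) (nat_lit 76) (nat_lit 279799909939) (nat_lit 3) (nat_lit 4) (nat_lit 4) (nat_lit 5) (nat_lit 4) (nat_lit 4) (nat_lit 496) (nat_lit 407) (nat_lit 297))) (XT.nd (nat_lit 55536) (nat_lit 0) (nat_lit 10792) (XT.lf (nat_lit 0) (nat_lit 736533629780) (nat_lit 76) (nat_lit 267350585211)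 (nat_lit 76) (nat_lit 242191781581) (nat_lit 3) (nat_lit 4) (nat_lit 4) (nat_lit 5) (nat_lit 4) (nat_lit 4) (nat_lit 497) (nat_lit 407) (nat_lit 296)) (XT.lf (nat_lit 0) (nat_lit 1503315849) (nat_lit 684) (nat_lit 1320471233) (nat_lit 684) (nat_lit 1320471233) (nat_lit 145) (nat_lit 3) (nat_lit 154) (nat_lit 3) (nat_lit 154) (nat_lit 5) (nat_lit 408) (nat_lit 408) (nat_lit 384)))))) (XT.nd (nat_lit 468) (nat_lit 2888) (nat_lit 0) (XT.nd (nat_lit 234) (nat_lit 532) (nat_lit 0) (XT.nd (nat_lit 78) (nat_lit 0) (nat_lit 76) (XT.lf (nat_lit 76) (nat_lit 3979723083) (nat_lit 0) (nat_lit 900312842) (nat_lit 684) (nat_lit 3651602164) (nat_lit 146) (nat_lit 5) (nat_lit 145) (nat_lit 3) (nat_lit 154) (nat_lit 5) (nat_lit 409) (nat_lit 408) (nat_lit 383)) (XT.nd (nat_lit 78) (nat_lit 0) (nat_lit 76) (XT.lf (nat_lit 76) (nat_lit 2338920598) (nat_lit 0) (nat_lit 4544273362) (nat_lit 684) (nat_lit 1912097494)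 (nat_lit 147) (nat_lit 5) (nat_lit 146) (nat_lit 5) (nat_lit 155) (nat_lit 5) (nat_lit 410) (nat_lit 408) (nat_lit 382)) (XT.lf (nat_lit 76) (nat_lit 758386630) (nat_lit 0) (nat_lit 8249173471) (nat_lit 684) (nat_lit 74499825) (nat_lit 148) (nat_lit 5) (nat_lit 147) (nat_lit 5) (nat_lit 156) (nat_lit 5) (nat_lit 411) (nat_lit 408) (nat_lit 381)))) (XT.nd (nat_lit 78) (nat_lit 0) (nat_lit 76) (XT.lf (nat_lit 0) (nat_lit 1890099308) (nat_lit 684) (nat_lit 820119643) (nat_lit 760) (nat_lit 6678065642) (nat_lit 138) (nat_lit 5) (nat_lit 147) (nat_lit 5) (nat_lit 148) (nat_lit 5) (nat_lit 412) (nat_lit 408) (nat_lit 380)) (XT.nd (nat_lit 78) (nat_lit 0) (nat_lit 0) (XT.lf (nat_lit 0) (nat_lit 4040078153) (nat_lit 684) (nat_lit 2352450001) (nat_lit 760) (nat_lit 3324934576) (nat_lit 139) (nat_lit 5) (nat_lit 148) (nat_lit 5) (nat_lit 149) (nat_lit 5) (nat_lit 413) (nat_lit 408) (nat_lit 379)) (XT.lf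 (nat_lit 76) (nat_lit 6213432216) (nat_lit 0) (nat_lit 176498796) (nat_lit 760) (nat_lit 3681703708) (nat_lit 140) (nat_lit 5) (nat_lit 139) (nat_lit 5) (nat_lit 149) (nat_lit 5) (nat_lit 414) (nat_lit 408) (nat_lit 378))))) (XT.nd (nat_lit 234) (nat_lit 1140) (nat_lit 0) (XT.nd (nat_lit 78) (nat_lit 1216) (nat_lit 0) (XT.lf (nat_lit 0) (nat_lit 5051895665) (nat_lit 684) (nat_lit 3977549939) (nat_lit 760) (nat_lit 1419660620) (nat_lit 131) (nat_lit 5) (nat_lit 140) (nat_lit 5) (nat_lit 141) (nat_lit 5) (nat_lit 415) (nat_lit 408) (nat_lit 377)) (XT.nd (nat_lit 78) (nat_lit 380) (nat_lit 0) (XT.lf (nat_lit 0) (nat_lit 1054478323) (nat_lit 836) (nat_lit 6938239080) (nat_lit 76) (nat_lit 2860108478) (nat_lit 120) (nat_lit 5) (nat_lit 131) (nat_lit 5) (nat_lit 121) (nat_lit 5) (nat_lit 416) (nat_lit 408) (nat_lit 376)) (XT.lf (nat_lit 0) (nat_lit 2772026069) (nat_lit 380) (nat_lit 1003116784)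 (nat_lit 456) (nat_lit 7507660339) (nat_lit 115) (nat_lit 5) (nat_lit 120) (nat_lit 5) (nat_lit 121) (nat_lit 5) (nat_lit 417) (nat_lit 408) (nat_lit 375)))) (XT.nd (nat_lit 156) (nat_lit 380) (nat_lit 0) (XT.nd (nat_lit 78) (nat_lit 380) (nat_lit 0) (XT.lf (nat_lit 0) (nat_lit 1608333866) (nat_lit 380) (nat_lit 5253534958) (nat_lit 456) (nat_lit 4877926823) (nat_lit 110) (nat_lit 5) (nat_lit 115) (nat_lit 5) (nat_lit 116) (nat_lit 5) (nat_lit 418) (nat_lit 408) (nat_lit 374)) (XT.lf (nat_lit 0) (nat_lit 469994260) (nat_lit 380) (nat_lit 9840389341) (nat_lit 456) (nat_lit 1917255962) (nat_lit 105) (nat_lit 5) (nat_lit 110) (nat_lit 5) (nat_lit 111) (nat_lit 5) (nat_lit 419) (nat_lit 408) (nat_lit 373))) (XT.nd (nat_lit 78) (nat_lit 304) (nat_lit 0) (XT.lf (nat_lit 0) (nat_lit 1415438450) (nat_lit 456) (nat_lit 679210552) (nat_lit 76) (nat_lit 10650085754) (nat_lit 104) (nat_lit 5) (nat_lit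 110) (nat_lit 5) (nat_lit 105) (nat_lit 5) (nat_lit 420) (nat_lit 408) (nat_lit 372)) (XT.lf (nat_lit 0) (nat_lit 5144636462) (nat_lit 380) (nat_lit 1871748834) (nat_lit 76) (nat_lit 6275416033) (nat_lit 100) (nat_lit 5) (nat_lit 105) (nat_lit 5) (nat_lit 101) (nat_lit 5) (nat_lit 421) (nat_lit 408) (nat_lit 371))))))) (XT.nd (nat_lit 1014) (nat_lit 2052) (nat_lit 0) (XT.nd (nat_lit 468) (nat_lit 1216) (nat_lit 0) (XT.nd (nat_lit 234) (nat_lit 760) (nat_lit 0) (XT.nd (nat_lit 78) (nat_lit 608) (nat_lit 0) (XT.lf (nat_lit 0) (nat_lit 9332519865) (nat_lit 380) (nat_lit 3054205388) (nat_lit 76) (nat_lit 1487916659) (nat_lit 96) (nat_lit 5) (nat_lit 101) (nat_lit 5) (nat_lit 97) (nat_lit 5) (nat_lit 422) (nat_lit 408) (nat_lit 370)) (XT.nd (nat_lit 78) (nat_lit 380) (nat_lit 0) (XT.lf (nat_lit 0) (nat_lit 10205272792) (nat_lit 228) (nat_lit 3884899976) (nat_lit 304) (nat_lit 402224256) (nat_lit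 93) (nat_lit 5) (nat_lit 96) (nat_lit 5) (nat_lit 97) (nat_lit 5) (nat_lit 423) (nat_lit 408) (nat_lit 369)) (XT.lf (nat_lit 0) (nat_lit 4156788517) (nat_lit 380) (nat_lit 5608387469) (nat_lit 76) (nat_lit 5380333986) (nat_lit 88) (nat_lit 5) (nat_lit 93) (nat_lit 5) (nat_lit 89) (nat_lit 5) (nat_lit 424) (nat_lit 408) (nat_lit 368)))) (XT.nd (nat_lit 78) (nat_lit 532) (nat_lit 0) (XT.lf (nat_lit 0) (nat_lit 8892059342) (nat_lit 228) (nat_lit 385476832) (nat_lit 304) (nat_lit 6562470577) (nat_lit 85) (nat_lit 5) (nat_lit 88) (nat_lit 5) (nat_lit 89) (nat_lit 5) (nat_lit 425) (nat_lit 408) (nat_lit 367)) (XT.nd (nat_lit 78) (nat_lit 304) (nat_lit 0) (XT.lf (nat_lit 0) (nat_lit 8184631401) (nat_lit 228) (nat_lit 6936613604) (nat_lit 304) (nat_lit 1453171513) (nat_lit 82) (nat_lit 5) (nat_lit 85) (nat_lit 5) (nat_lit 86) (nat_lit 5) (nat_lit 426) (nat_lit 408) (nat_lit 366)) (XT.lf (nat_lit 0)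 (nat_lit 4170523349) (nat_lit 304) (nat_lit 9915066174) (nat_lit 76) (nat_lit 3267044835) (nat_lit 78) (nat_lit 5) (nat_lit 82) (nat_lit 5) (nat_lit 79) (nat_lit 5) (nat_lit 427) (nat_lit 408) (nat_lit 365))))) (XT.nd (nat_lit 234) (nat_lit 532) (nat_lit 0) (XT.nd (nat_lit 78) (nat_lit 456) (nat_lit 0) (XT.lf (nat_lit 0) (nat_lit 6624971303) (nat_lit 228) (nat_lit 3877378650) (nat_lit 304) (nat_lit 7674126090) (nat_lit 75) (nat_lit 5) (nat_lit 78) (nat_lit 5) (nat_lit 79) (nat_lit 5) (nat_lit 428) (nat_lit 408) (nat_lit 364)) (XT.nd (nat_lit 78) (nat_lit 304) (nat_lit 0) (XT.lf (nat_lit 0) (nat_lit 5768139958) (nat_lit 152) (nat_lit 11892048447) (nat_lit 228) (nat_lit 1390077217) (nat_lit 73) (nat_lit 5) (nat_lit 75) (nat_lit 5) (nat_lit 76) (nat_lit 5) (nat_lit 429) (nat_lit 408) (nat_lit 363)) (XT.lf (nat_lit 0) (nat_lit 4818421009) (nat_lit 228) (nat_lit 695015810) (nat_lit 304) (nat_lit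 14461847421) (nat_lit 69) (nat_lit 5) (nat_lit 72) (nat_lit 5) (nat_lit 73) (nat_lit 5) (nat_lit 430) (nat_lit 408) (nat_lit 362)))) (XT.nd (nat_lit 156) (nat_lit 152) (nat_lit 0) (XT.nd (nat_lit 78) (nat_lit 228) (nat_lit 0) (XT.lf (nat_lit 0) (nat_lit 3708750804) (nat_lit 152) (nat_lit 9630200664) (nat_lit 228) (nat_lit 7613303725) (nat_lit 67) (nat_lit 5) (nat_lit 69) (nat_lit 5) (nat_lit 70) (nat_lit 5) (nat_lit 431) (nat_lit 408) (nat_lit 361)) (XT.lf (nat_lit 0) (nat_lit 99645224) (nat_lit 228) (nat_lit 19413608428) (nat_lit 76) (nat_lit 2478830425) (nat_lit 64) (nat_lit 5) (nat_lit 67) (nat_lit 5) (nat_lit 65) (nat_lit 5) (nat_lit 432) (nat_lit 408) (nat_lit 360))) (XT.nd (nat_lit 78) (nat_lit 0) (nat_lit 0) (XT.lf (nat_lit 0) (nat_lit 1163566303) (nat_lit 152) (nat_lit 7439492856) (nat_lit 228) (nat_lit 14483800822) (nat_lit 62) (nat_lit 5) (nat_lit 64) (nat_lit 5) (nat_lit 65) (nat_lit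 5) (nat_lit 433) (nat_lit 408) (nat_lit 359)) (XT.lf (nat_lit 0) (nat_lit 18170641391) (nat_lit 228) (nat_lit 343419995) (nat_lit 76) (nat_lit 5735970361) (nat_lit 62) (nat_lit 5) (nat_lit 65) (nat_lit 5) (nat_lit 63) (nat_lit 5) (nat_lit 434) (nat_lit 408) (nat_lit 358)))))) (XT.nd (nat_lit 546) (nat_lit 836) (nat_lit 0) (XT.nd (nat_lit 234) (nat_lit 684) (nat_lit 0) (XT.nd (nat_lit 78) (nat_lit 304) (nat_lit 0) (XT.lf (nat_lit 0) (nat_lit 3357653200) (nat_lit 228) (nat_lit 2020368284) (nat_lit 76) (nat_lit 20103092693) (nat_lit 59) (nat_lit 5) (nat_lit 62) (nat_lit 5) (nat_lit 60) (nat_lit 5) (nat_lit 435) (nat_lit 408) (nat_lit 357)) (XT.nd (nat_lit 78) (nat_lit 152) (nat_lit 0) (XT.lf (nat_lit 0) (nat_lit 13806075035) (nat_lit 228) (nat_lit 4002490727) (nat_lit 76) (nat_lit 8973670959) (nat_lit 57) (nat_lit 5) (nat_lit 60) (nat_lit 5) (nat_lit 58) (nat_lit 5) (nat_lit 436) (nat_lit 408)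 (nat_lit 356)) (XT.lf (nat_lit 0) (nat_lit 21993734782) (nat_lit 152) (nat_lit 3525834366) (nat_lit 228) (nat_lit 2646426456) (nat_lit 55) (nat_lit 5) (nat_lit 57) (nat_lit 5) (nat_lit 58) (nat_lit 5) (nat_lit 437) (nat_lit 408) (nat_lit 355)))) (XT.nd (nat_lit 156) (nat_lit 304) (nat_lit 0) (XT.nd (nat_lit 78) (nat_lit 152) (nat_lit 0) (XT.lf (nat_lit 0) (nat_lit 8791241644) (nat_lit 228) (nat_lit 8802843281) (nat_lit 76) (nat_lit 12032037107) (nat_lit 52) (nat_lit 5) (nat_lit 55) (nat_lit 5) (nat_lit 53) (nat_lit 5) (nat_lit 438) (nat_lit 408) (nat_lit 354)) (XT.lf (nat_lit 0) (nat_lit 19451853339) (nat_lit 152) (nat_lit 2035195230) (nat_lit 228) (nat_lit 9692053916) (nat_lit 50) (nat_lit 5) (nat_lit 52) (nat_lit 5) (nat_lit 53) (nat_lit 5) (nat_lit 439) (nat_lit 408) (nat_lit 353))) (XT.nd (nat_lit 78) (nat_lit 152) (nat_lit 0) (XT.lf (nat_lit 0) (nat_lit 2903861957) (nat_lit 152) (nat_lit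 15170344584) (nat_lit 76) (nat_lit 14748459659) (nat_lit 48) (nat_lit 5) (nat_lit 50) (nat_lit 5) (nat_lit 49) (nat_lit 5) (nat_lit 440) (nat_lit 408) (nat_lit 352)) (XT.lf (nat_lit 0) (nat_lit 15443788927) (nat_lit 152) (nat_lit 1176433320) (nat_lit 228) (nat_lit 17946936091) (nat_lit 46) (nat_lit 5) (nat_lit 48) (nat_lit 5) (nat_lit 49) (nat_lit 5) (nat_lit 441) (nat_lit 408) (nat_lit 351))))) (XT.nd (nat_lit 234) (nat_lit 456) (nat_lit 0) (XT.nd (nat_lit 78) (nat_lit 304) (nat_lit 0) (XT.lf (nat_lit 0) (nat_lit 12684388709) (nat_lit 76) (nat_lit 19448674359) (nat_lit 152) (nat_lit 4283192184) (nat_lit 45) (nat_lit 5) (nat_lit 46) (nat_lit 5) (nat_lit 47) (nat_lit 4) (nat_lit 442) (nat_lit 408) (nat_lit 350)) (XT.nd (nat_lit 78) (nat_lit 76) (nat_lit 0) (XT.lf (nat_lit 0) (nat_lit 9374345324) (nat_lit 152) (nat_lit 1235907786) (nat_lit 228) (nat_lit 27771262966) (nat_lit 42) (nat_lit 5)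 (nat_lit 44) (nat_lit 5) (nat_lit 45) (nat_lit 5) (nat_lit 443) (nat_lit 408) (nat_lit 349)) (XT.lf (nat_lit 0) (nat_lit 5235477414) (nat_lit 76) (nat_lit 22069547988) (nat_lit 152) (nat_lit 13157469132) (nat_lit 41) (nat_lit 5) (nat_lit 42) (nat_lit 5) (nat_lit 43) (nat_lit 4) (nat_lit 444) (nat_lit 408) (nat_lit 348)))) (XT.nd (nat_lit 156) (nat_lit 228) (nat_lit 0) (XT.nd (nat_lit 78) (nat_lit 0) (nat_lit 0) (XT.lf (nat_lit 0) (nat_lit 456224827) (nat_lit 152) (nat_lit 2595880009) (nat_lit 228) (nat_lit 39630264451) (nat_lit 38) (nat_lit 5) (nat_lit 40) (nat_lit 5) (nat_lit 41) (nat_lit 5) (nat_lit 445) (nat_lit 408) (nat_lit 347)) (XT.lf (nat_lit 0) (nat_lit 20985373708) (nat_lit 228) (nat_lit 5372388746) (nat_lit 76) (nat_lit 18666894286) (nat_lit 38) (nat_lit 5) (nat_lit 41) (nat_lit 5) (nat_lit 39) (nat_lit 4) (nat_lit 446) (nat_lit 408) (nat_lit 346))) (XT.nd (nat_lit 78) (nat_lit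 152) (nat_lit 0) (XT.lf (nat_lit 0) (nat_lit 35469706880) (nat_lit 76) (nat_lit 5453572014) (nat_lit 152) (nat_lit 6602552017) (nat_lit 37) (nat_lit 5) (nat_lit 38) (nat_lit 5) (nat_lit 39) (nat_lit 4) (nat_lit 447) (nat_lit 408) (nat_lit 345)) (XT.lf (nat_lit 0) (nat_lit 12658179062) (nat_lit 152) (nat_lit 20194882876) (nat_lit 76) (nat_lit 17323469225) (nat_lit 35) (nat_lit 5) (nat_lit 37) (nat_lit 5) (nat_lit 36) (nat_lit 4) (nat_lit 448) (nat_lit 408) (nat_lit 344))))))))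
noncomputable def xc61 : XT := (XT.nd (nat_lit 2106) (nat_lit 532) (nat_lit 0) (XT.nd (nat_lit 1014) (nat_lit 836) (nat_lit 0) (XT.nd (nat_lit 468) (nat_lit 532) (nat_lit 0) (XT.nd (nat_lit 234) (nat_lit 228) (nat_lit 0) (XT.nd (nat_lit 78) (nat_lit 228) (nat_lit 0) (XT.lf (nat_lit 0) (nat_lit 23273499596) (nat_lit 76) (nat_lit 10600960414) (nat_lit 152) (nat_lit 19127116874) (nat_lit 34) (nat_lit 5) (nat_lit 35) (nat_lit 5) (nat_lit 36) (nat_lit 4) (nat_lit 449) (nat_lit 408) (nat_lit 343)) (XT.nd (nat_lit 78) (nat_lit 76) (nat_lit 0) (XT.lf (nat_lit 0) (nat_lit 1503041965) (nat_lit 152) (nat_lit 40911416857) (nat_lit 76) (nat_lit 13598036982) (nat_lit 32) (nat_lit 5) (nat_lit 34) (nat_lit 5) (nat_lit 33) (nat_lit 4) (nat_lit 450) (nat_lit 408) (nat_lit 342)) (XT.lf (nat_lit 0) (nat_lit 4941816112) (nat_lit 76) (nat_lit 18938611446) (nat_lit 152) (nat_lit 35329837602) (nat_lit 31) (nat_lit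 5) (nat_lit 32) (nat_lit 5) (nat_lit 33) (nat_lit 4) (nat_lit 451) (nat_lit 408) (nat_lit 341)))) (XT.nd (nat_lit 78) (nat_lit 228) (nat_lit 0) (XT.lf (nat_lit 0) (nat_lit 48849008680) (nat_lit 152) (nat_lit 6860986390) (nat_lit 0) (nat_lit 6913812282) (nat_lit 31) (nat_lit 5) (nat_lit 33) (nat_lit 4) (nat_lit 31) (nat_lit 4) (nat_lit 452) (nat_lit 408) (nat_lit 340)) (XT.nd (nat_lit 78) (nat_lit 76) (nat_lit 0) (XT.lf (nat_lit 0) (nat_lit 10223852141) (nat_lit 152) (nat_lit 20992962498) (nat_lit 76) (nat_lit 35035029079) (nat_lit 29) (nat_lit 5) (nat_lit 31) (nat_lit 5) (nat_lit 30) (nat_lit 4) (nat_lit 453) (nat_lit 408) (nat_lit 339)) (XT.lf (nat_lit 0) (nat_lit 32390983807) (nat_lit 76) (nat_lit 3881343944) (nat_lit 152) (nat_lit 33855878936) (nat_lit 28) (nat_lit 5) (nat_lit 29) (nat_lit 5) (nat_lit 30) (nat_lit 4) (nat_lit 454) (nat_lit 408) (nat_lit 338))))) (XT.nd (nat_lit 234) (nat_lit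 304) (nat_lit 0) (XT.nd (nat_lit 78) (nat_lit 152) (nat_lit 0) (XT.lf (nat_lit 0) (nat_lit 16583719945) (nat_lit 76) (nat_lit 48831443570) (nat_lit 76) (nat_lit 8848992223) (nat_lit 27) (nat_lit 4) (nat_lit 28) (nat_lit 5) (nat_lit 28) (nat_lit 4) (nat_lit 455) (nat_lit 408) (nat_lit 337)) (XT.nd (nat_lit 78) (nat_lit 76) (nat_lit 0) (XT.lf (nat_lit 0) (nat_lit 18291001682) (nat_lit 152) (nat_lit 2498495631) (nat_lit 76) (nat_lit 57891622206) (nat_lit 26) (nat_lit 5) (nat_lit 28) (nat_lit 5) (nat_lit 27) (nat_lit 4) (nat_lit 456) (nat_lit 408) (nat_lit 336)) (XT.lf (nat_lit 0) (nat_lit 48361375338) (nat_lit 152) (nat_lit 24769609148) (nat_lit 0) (nat_lit 10259743292) (nat_lit 25) (nat_lit 5) (nat_lit 27) (nat_lit 4) (nat_lit 25) (nat_lit 4) (nat_lit 457) (nat_lit 408) (nat_lit 335)))) (XT.nd (nat_lit 156) (nat_lit 76) (nat_lit 0) (XT.nd (nat_lit 78) (nat_lit 152) (nat_lit 0) (XT.lf (nat_lit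 0) (nat_lit 37044190502) (nat_lit 76) (nat_lit 44748533046) (nat_lit 76) (nat_lit 6636614785) (nat_lit 24) (nat_lit 4) (nat_lit 25) (nat_lit 5) (nat_lit 25) (nat_lit 4) (nat_lit 458) (nat_lit 408) (nat_lit 334)) (XT.lf (nat_lit 0) (nat_lit 10766688443) (nat_lit 76) (nat_lit 13081180326) (nat_lit 152) (nat_lit 69974944953) (nat_lit 22) (nat_lit 5) (nat_lit 23) (nat_lit 5) (nat_lit 24) (nat_lit 4) (nat_lit 459) (nat_lit 408) (nat_lit 333))) (XT.nd (nat_lit 78) (nat_lit 76) (nat_lit 0) (XT.lf (nat_lit 0) (nat_lit 57764453473) (nat_lit 152) (nat_lit 20366662777) (nat_lit 0) (nat_lit 21449918897) (nat_lit 22) (nat_lit 5) (nat_lit 24) (nat_lit 4) (nat_lit 22) (nat_lit 4) (nat_lit 460) (nat_lit 408) (nat_lit 332)) (XT.lf (nat_lit 0) (nat_lit 48643775367) (nat_lit 76) (nat_lit 46715112354) (nat_lit 76) (nat_lit 10392801083) (nat_lit 21) (nat_lit 4) (nat_lit 22) (nat_lit 5) (nat_lit 22) (nat_lit 4)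 (nat_lit 461) (nat_lit 408) (nat_lit 331)))))) (XT.nd (nat_lit 546) (nat_lit 380) (nat_lit 0) (XT.nd (nat_lit 234) (nat_lit 228) (nat_lit 0) (XT.nd (nat_lit 78) (nat_lit 76) (nat_lit 0) (XT.lf (nat_lit 0) (nat_lit 11468024308) (nat_lit 76) (nat_lit 11847847019) (nat_lit 152) (nat_lit 89055515294) (nat_lit 19) (nat_lit 5) (nat_lit 20) (nat_lit 5) (nat_lit 21) (nat_lit 4) (nat_lit 462) (nat_lit 408) (nat_lit 330)) (XT.nd (nat_lit 78) (nat_lit 76) (nat_lit 0) (XT.lf (nat_lit 0) (nat_lit 60761419384) (nat_lit 152) (nat_lit 32524973524) (nat_lit 0) (nat_lit 26155534455) (nat_lit 19) (nat_lit 5) (nat_lit 21) (nat_lit 4) (nat_lit 19) (nat_lit 4) (nat_lit 463) (nat_lit 408) (nat_lit 329)) (XT.lf (nat_lit 0) (nat_lit 42456010624) (nat_lit 76) (nat_lit 59595705179) (nat_lit 76) (nat_lit 24983940830) (nat_lit 18) (nat_lit 4) (nat_lit 19) (nat_lit 5) (nat_lit 19) (nat_lit 4) (nat_lit 464) (nat_lit 408)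 (nat_lit 328)))) (XT.nd (nat_lit 156) (nat_lit 76) (nat_lit 0) (XT.nd (nat_lit 78) (nat_lit 76) (nat_lit 0) (XT.lf (nat_lit 0) (nat_lit 11605926254) (nat_lit 152) (nat_lit 10825059434) (nat_lit 76) (nat_lit 112768857526) (nat_lit 17) (nat_lit 5) (nat_lit 19) (nat_lit 5) (nat_lit 18) (nat_lit 4) (nat_lit 465) (nat_lit 408) (nat_lit 327)) (XT.lf (nat_lit 0) (nat_lit 51651435520) (nat_lit 152) (nat_lit 73597197418) (nat_lit 0) (nat_lit 18677865129) (nat_lit 16) (nat_lit 5) (nat_lit 18) (nat_lit 4) (nat_lit 16) (nat_lit 4) (nat_lit 466) (nat_lit 408) (nat_lit 326))) (XT.nd (nat_lit 78) (nat_lit 0) (nat_lit 0) (XT.lf (nat_lit 0) (nat_lit 4768560343) (nat_lit 76) (nat_lit 90764557079) (nat_lit 76) (nat_lit 57786541666) (nat_lit 15) (nat_lit 4) (nat_lit 16) (nat_lit 5) (nat_lit 16) (nat_lit 4) (nat_lit 467) (nat_lit 408) (nat_lit 325)) (XT.lf (nat_lit 0) (nat_lit 92009273675) (nat_lit 76) (nat_lit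 52186796999) (nat_lit 76) (nat_lit 19204665825) (nat_lit 15) (nat_lit 4) (nat_lit 16) (nat_lit 5) (nat_lit 16) (nat_lit 4) (nat_lit 468) (nat_lit 408) (nat_lit 324))))) (XT.nd (nat_lit 234) (nat_lit 152) (nat_lit 0) (XT.nd (nat_lit 78) (nat_lit 76) (nat_lit 0) (XT.lf (nat_lit 0) (nat_lit 11951621757) (nat_lit 76) (nat_lit 9969141081) (nat_lit 152) (nat_lit 152341202290) (nat_lit 13) (nat_lit 5) (nat_lit 14) (nat_lit 5) (nat_lit 15) (nat_lit 4) (nat_lit 469) (nat_lit 408) (nat_lit 323)) (XT.nd (nat_lit 78) (nat_lit 76) (nat_lit 0) (XT.lf (nat_lit 0) (nat_lit 67482282292) (nat_lit 152) (nat_lit 82339384987) (nat_lit 0) (nat_lit 36063738802) (nat_lit 13) (nat_lit 5) (nat_lit 15) (nat_lit 4) (nat_lit 13) (nat_lit 4) (nat_lit 470) (nat_lit 408) (nat_lit 322)) (XT.lf (nat_lit 0) (nat_lit 3969153996) (nat_lit 76) (nat_lit 112940098622) (nat_lit 76) (nat_lit 81518443489) (nat_lit 12) (nat_lit 4) (nat_lit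 13) (nat_lit 5) (nat_lit 13) (nat_lit 4) (nat_lit 471) (nat_lit 408) (nat_lit 321)))) (XT.nd (nat_lit 156) (nat_lit 76) (nat_lit 0) (XT.nd (nat_lit 78) (nat_lit 76) (nat_lit 0) (XT.lf (nat_lit 0) (nat_lit 100104480392) (nat_lit 76) (nat_lit 71611083159) (nat_lit 76) (nat_lit 40186546877) (nat_lit 12) (nat_lit 4) (nat_lit 13) (nat_lit 5) (nat_lit 13) (nat_lit 4) (nat_lit 472) (nat_lit 408) (nat_lit 320)) (XT.lf (nat_lit 0) (nat_lit 4300833499) (nat_lit 152) (nat_lit 22610495340) (nat_lit 76) (nat_lit 199540102905) (nat_lit 11) (nat_lit 5) (nat_lit 13) (nat_lit 5) (nat_lit 12) (nat_lit 4) (nat_lit 473) (nat_lit 408) (nat_lit 319))) (XT.nd (nat_lit 78) (nat_lit 0) (nat_lit 0) (XT.lf (nat_lit 0) (nat_lit 52491703653) (nat_lit 152) (nat_lit 167003752840) (nat_lit 0) (nat_lit 22558680668) (nat_lit 10) (nat_lit 5) (nat_lit 12) (nat_lit 4) (nat_lit 10) (nat_lit 4) (nat_lit 474) (nat_lit 408) (nat_lit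 318)) (XT.lf (nat_lit 0) (nat_lit 105384223582) (nat_lit 152) (nat_lit 78029494245) (nat_lit 0) (nat_lit 75449022359) (nat_lit 10) (nat_lit 5) (nat_lit 12) (nat_lit 4) (nat_lit 10) (nat_lit 4) (nat_lit 475) (nat_lit 408) (nat_lit 317))))))) (XT.nd (nat_lit 1014) (nat_lit 76) (nat_lit 0) (XT.nd (nat_lit 468) (nat_lit 228) (nat_lit 0) (XT.nd (nat_lit 234) (nat_lit 152) (nat_lit 0) (XT.nd (nat_lit 78) (nat_lit 0) (nat_lit 0) (XT.lf (nat_lit 0) (nat_lit 18645165660) (nat_lit 76) (nat_lit 144146942950) (nat_lit 76) (nat_lit 114209724840) (nat_lit 9) (nat_lit 4) (nat_lit 10) (nat_lit 5) (nat_lit 10) (nat_lit 4) (nat_lit 476) (nat_lit 408) (nat_lit 316)) (XT.nd (nat_lit 78) (nat_lit 0) (nat_lit 0) (XT.lf (nat_lit 0) (nat_lit 125826526817) (nat_lit 76) (nat_lit 100318496583) (nat_lit 76) (nat_lit 70379410985) (nat_lit 9) (nat_lit 4) (nat_lit 10) (nat_lit 5) (nat_lit 10) (nat_lit 4) (nat_lit 477) (nat_lit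 408) (nat_lit 315)) (XT.lf (nat_lit 0) (nat_lit 241569730561) (nat_lit 76) (nat_lit 52990121840) (nat_lit 76) (nat_lit 23049307087) (nat_lit 9) (nat_lit 4) (nat_lit 10) (nat_lit 5) (nat_lit 10) (nat_lit 4) (nat_lit 478) (nat_lit 408) (nat_lit 314)))) (XT.nd (nat_lit 78) (nat_lit 0) (nat_lit 0) (XT.lf (nat_lit 0) (nat_lit 26592728849) (nat_lit 76) (nat_lit 985390502) (nat_lit 152) (nat_lit 312760170986) (nat_lit 7) (nat_lit 5) (nat_lit 8) (nat_lit 5) (nat_lit 9) (nat_lit 4) (nat_lit 479) (nat_lit 408) (nat_lit 313)) (XT.nd (nat_lit 78) (nat_lit 0) (nat_lit 0) (XT.lf (nat_lit 0) (nat_lit 83661008451) (nat_lit 152) (nat_lit 225952200176) (nat_lit 0) (nat_lit 55143010075) (nat_lit 7) (nat_lit 5) (nat_lit 9) (nat_lit 4) (nat_lit 7) (nat_lit 4) (nat_lit 480) (nat_lit 408) (nat_lit 312)) (XT.lf (nat_lit 0) (nat_lit 144241797997) (nat_lit 152) (nat_lit 131162727655) (nat_lit 0) (nat_lit 115722492326)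 (nat_lit 7) (nat_lit 5) (nat_lit 9) (nat_lit 4) (nat_lit 7) (nat_lit 4) (nat_lit 481) (nat_lit 408) (nat_lit 311))))) (XT.nd (nat_lit 234) (nat_lit 152) (nat_lit 0) (XT.nd (nat_lit 78) (nat_lit 76) (nat_lit 0) (XT.lf (nat_lit 0) (nat_lit 209664100553) (nat_lit 152) (nat_lit 28800043829) (nat_lit 0) (nat_lit 181143584425) (nat_lit 7) (nat_lit 5) (nat_lit 9) (nat_lit 4) (nat_lit 7) (nat_lit 4) (nat_lit 482) (nat_lit 408) (nat_lit 310)) (XT.nd (nat_lit 78) (nat_lit 0) (nat_lit 0) (XT.lf (nat_lit 0) (nat_lit 84445219376) (nat_lit 76) (nat_lit 197188810996) (nat_lit 76) (nat_lit 168667174073) (nat_lit 6) (nat_lit 4) (nat_lit 7) (nat_lit 5) (nat_lit 7) (nat_lit 4) (nat_lit 483) (nat_lit 408) (nat_lit 309)) (XT.lf (nat_lit 0) (nat_lit 207769734438) (nat_lit 76) (nat_lit 152089116821) (nat_lit 76) (nat_lit 123566442126) (nat_lit 6) (nat_lit 4) (nat_lit 7) (nat_lit 5) (nat_lit 7) (nat_lit 4) (nat_lit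 484) (nat_lit 408) (nat_lit 308)))) (XT.nd (nat_lit 156) (nat_lit 152) (nat_lit 0) (XT.nd (nat_lit 78) (nat_lit 0) (nat_lit 0) (XT.lf (nat_lit 0) (nat_lit 340952053785) (nat_lit 76) (nat_lit 103385547091) (nat_lit 76) (nat_lit 74861911496) (nat_lit 6) (nat_lit 4) (nat_lit 7) (nat_lit 5) (nat_lit 7) (nat_lit 4) (nat_lit 485) (nat_lit 408) (nat_lit 307)) (XT.lf (nat_lit 0) (nat_lit 484781405975) (nat_lit 76) (nat_lit 50789488058) (nat_lit 76) (nat_lit 22264962740) (nat_lit 6) (nat_lit 4) (nat_lit 7) (nat_lit 5) (nat_lit 7) (nat_lit 4) (nat_lit 486) (nat_lit 408) (nat_lit 306))) (XT.nd (nat_lit 78) (nat_lit 0) (nat_lit 0) (XT.lf (nat_lit 0) (nat_lit 34189265852) (nat_lit 152) (nat_lit 558286862587) (nat_lit 0) (nat_lit 7022266675) (nat_lit 4) (nat_lit 5) (nat_lit 6) (nat_lit 4) (nat_lit 4) (nat_lit 4) (nat_lit 487) (nat_lit 408) (nat_lit 305)) (XT.lf (nat_lit 0) (nat_lit 96536599060) (nat_lit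 152) (nat_lit 478462373034) (nat_lit 0) (nat_lit 69368873413) (nat_lit 4) (nat_lit 5) (nat_lit 6) (nat_lit 4) (nat_lit 4) (nat_lit 4) (nat_lit 488) (nat_lit 408) (nat_lit 304)))))) (XT.nd (nat_lit 546) (nat_lit 0) (nat_lit 0) (XT.nd (nat_lit 234) (nat_lit 76) (nat_lit 0) (XT.nd (nat_lit 78) (nat_lit 0) (nat_lit 0) (XT.lf (nat_lit 0) (nat_lit 163868540223) (nat_lit 152) (nat_lit 392258328780) (nat_lit 0) (nat_lit 136700141919) (nat_lit 4) (nat_lit 5) (nat_lit 6) (nat_lit 4) (nat_lit 4) (nat_lit 4) (nat_lit 489) (nat_lit 408) (nat_lit 303)) (XT.nd (nat_lit 78) (nat_lit 0) (nat_lit 0) (XT.lf (nat_lit 0) (nat_lit 236584093438) (nat_lit 152) (nat_lit 299163891045) (nat_lit 0) (nat_lit 209415072302) (nat_lit 4) (nat_lit 5) (nat_lit 6) (nat_lit 4) (nat_lit 4) (nat_lit 4) (nat_lit 490) (nat_lit 408) (nat_lit 302)) (XT.lf (nat_lit 0) (nat_lit 315114165686) (nat_lit 152) (nat_lit 198627389088) (nat_lit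 0) (nat_lit 287944567855) (nat_lit 4) (nat_lit 5) (nat_lit 6) (nat_lit 4) (nat_lit 4) (nat_lit 4) (nat_lit 491) (nat_lit 408) (nat_lit 301)))) (XT.nd (nat_lit 156) (nat_lit 0) (nat_lit 0) (XT.nd (nat_lit 78) (nat_lit 76) (nat_lit 0) (XT.lf (nat_lit 0) (nat_lit 399924120358) (nat_lit 152) (nat_lit 90053051043) (nat_lit 0) (nat_lit 372753988550) (nat_lit 4) (nat_lit 5) (nat_lit 6) (nat_lit 4) (nat_lit 4) (nat_lit 4) (nat_lit 492) (nat_lit 408) (nat_lit 300)) (XT.lf (nat_lit 0) (nat_lit 28101964950) (nat_lit 76) (nat_lit 463853320442) (nat_lit 76) (nat_lit 436682694210) (nat_lit 3) (nat_lit 4) (nat_lit 4) (nat_lit 5) (nat_lit 4) (nat_lit 4) (nat_lit 493) (nat_lit 408) (nat_lit 299))) (XT.nd (nat_lit 78) (nat_lit 0) (nat_lit 0) (XT.lf (nat_lit 0) (nat_lit 158920644736) (nat_lit 76) (nat_lit 433994731270) (nat_lit 76) (nat_lit 406823647239) (nat_lit 3) (nat_lit 4) (nat_lit 4) (nat_lit 5) (nat_lit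 4) (nat_lit 4) (nat_lit 494) (nat_lit 408) (nat_lit 298)) (XT.lf (nat_lit 0) (nat_lit 300200649561) (nat_lit 76) (nat_lit 401749556093) (nat_lit 76) (nat_lit 374578048173) (nat_lit 3) (nat_lit 4) (nat_lit 4) (nat_lit 5) (nat_lit 4) (nat_lit 4) (nat_lit 495) (nat_lit 408) (nat_lit 297))))) (XT.nd (nat_lit 55770) (nat_lit 0) (nat_lit 10184) (XT.nd (nat_lit 78) (nat_lit 0) (nat_lit 0) (XT.lf (nat_lit 0) (nat_lit 452779194269) (nat_lit 76) (nat_lit 366926712389) (nat_lit 76) (nat_lit 339754811980) (nat_lit 3) (nat_lit 4) (nat_lit 4) (nat_lit 5) (nat_lit 4) (nat_lit 4) (nat_lit 496) (nat_lit 408) (nat_lit 296)) (XT.nd (nat_lit 55614) (nat_lit 0) (nat_lit 10792) (XT.lf (nat_lit 0) (nat_lit 617560448013) (nat_lit 76) (nat_lit 329319842568) (nat_lit 76) (nat_lit 302147578743) (nat_lit 3) (nat_lit 4) (nat_lit 4) (nat_lit 5) (nat_lit 4) (nat_lit 4) (nat_lit 497) (nat_lit 408) (nat_lit 295)) (XT.lf (nat_lit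 0) (nat_lit 3273916751) (nat_lit 684) (nat_lit 559310760) (nat_lit 684) (nat_lit 559310760) (nat_lit 145) (nat_lit 3) (nat_lit 154) (nat_lit 3) (nat_lit 154) (nat_lit 5) (nat_lit 409) (nat_lit 409) (nat_lit 382)))) (XT.nd (nat_lit 156) (nat_lit 0) (nat_lit 0) (XT.nd (nat_lit 78) (nat_lit 608) (nat_lit 0) (XT.lf (nat_lit 76) (nat_lit 5956357288) (nat_lit 0) (nat_lit 2396148640) (nat_lit 684) (nat_lit 706182210) (nat_lit 146) (nat_lit 5) (nat_lit 145) (nat_lit 3) (nat_lit 154) (nat_lit 5) (nat_lit 410) (nat_lit 409) (nat_lit 381)) (XT.lf (nat_lit 0) (nat_lit 909761258) (nat_lit 684) (nat_lit 5087070269) (nat_lit 760) (nat_lit 3357043884) (nat_lit 137) (nat_lit 5) (nat_lit 146) (nat_lit 5) (nat_lit 147) (nat_lit 5) (nat_lit 411) (nat_lit 409) (nat_lit 380))) (XT.nd (nat_lit 78) (nat_lit 0) (nat_lit 76) (XT.lf (nat_lit 76) (nat_lit 2608604019) (nat_lit 0) (nat_lit 19975003) (nat_lit 760) (nat_lit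 7043660464) (nat_lit 138) (nat_lit 5) (nat_lit 137) (nat_lit 5) (nat_lit 147) (nat_lit 5) (nat_lit 412) (nat_lit 409) (nat_lit 379)) (XT.lf (nat_lit 76) (nat_lit 926314327) (nat_lit 0) (nat_lit 3635151355) (nat_lit 760) (nat_lit 5450832218) (nat_lit 139) (nat_lit 5) (nat_lit 138) (nat_lit 5) (nat_lit 148) (nat_lit 5) (nat_lit 413) (nat_lit 409) (nat_lit 378))))))))
noncomputable def xc62 : XT := (XT.nd (nat_lit 2028) (nat_lit 2660) (nat_lit 0) (XT.nd (nat_lit 1014) (nat_lit 2508) (nat_lit 0) (XT.nd (nat_lit 468) (nat_lit 1900) (nat_lit 0) (XT.nd (nat_lit 234) (nat_lit 1520) (nat_lit 0) (XT.nd (nat_lit 78) (nat_lit 684) (nat_lit 0) (XT.lf (nat_lit 0) (nat_lit 6699972297) (nat_lit 684) (nat_lit 707391398) (nat_lit 760) (nat_lit 2969697271) (nat_lit 139) (nat_lit 5) (nat_lit 148) (nat_lit 5) (nat_lit 149) (nat_lit 5) (nat_lit 414) (nat_lit 409) (nat_lit 377)) (XT.nd (nat_lit 78) (nat_lit 684)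 (nat_lit 0) (XT.lf (nat_lit 76) (nat_lit 8464090386) (nat_lit 0) (nat_lit 628013361) (nat_lit 760) (nat_lit 1674819885) (nat_lit 140) (nat_lit 5) (nat_lit 139) (nat_lit 5) (nat_lit 149) (nat_lit 5) (nat_lit 415) (nat_lit 409) (nat_lit 376)) (XT.lf (nat_lit 0) (nat_lit 600551743) (nat_lit 760) (nat_lit 3945782535) (nat_lit 76) (nat_lit 6634874303) (nat_lit 130) (nat_lit 5) (nat_lit 140) (nat_lit 5) (nat_lit 131) (nat_lit 5) (nat_lit 416) (nat_lit 409) (nat_lit 375)))) (XT.nd (nat_lit 78) (nat_lit 760) (nat_lit 0) (XT.lf (nat_lit 0) (nat_lit 3094088549) (nat_lit 836) (nat_lit 5613397065) (nat_lit 76) (nat_lit 2915074631) (nat_lit 120) (nat_lit 5) (nat_lit 131) (nat_lit 5) (nat_lit 121) (nat_lit 5) (nat_lit 417) (nat_lit 409) (nat_lit 374)) (XT.nd (nat_lit 78) (nat_lit 380) (nat_lit 0) (XT.lf (nat_lit 0) (nat_lit 4791991084) (nat_lit 380) (nat_lit 1123656667) (nat_lit 456) (nat_lit 6177179924)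 (nat_lit 115) (nat_lit 5) (nat_lit 120) (nat_lit 5) (nat_lit 121) (nat_lit 5) (nat_lit 418) (nat_lit 409) (nat_lit 373)) (XT.lf (nat_lit 0) (nat_lit 3546233007) (nat_lit 380) (nat_lit 5594558827) (nat_lit 456) (nat_lit 3451063697) (nat_lit 110) (nat_lit 5) (nat_lit 115) (nat_lit 5) (nat_lit 116) (nat_lit 5) (nat_lit 419) (nat_lit 409) (nat_lit 372))))) (XT.nd (nat_lit 234) (nat_lit 1140) (nat_lit 0) (XT.nd (nat_lit 78) (nat_lit 380) (nat_lit 0) (XT.lf (nat_lit 0) (nat_lit 2320352996) (nat_lit 380) (nat_lit 10446136655) (nat_lit 456) (nat_lit 357218521) (nat_lit 105) (nat_lit 5) (nat_lit 110) (nat_lit 5) (nat_lit 111) (nat_lit 5) (nat_lit 420) (nat_lit 409) (nat_lit 371)) (XT.nd (nat_lit 78) (nat_lit 0) (nat_lit 0) (XT.lf (nat_lit 0) (nat_lit 1029161165) (nat_lit 304) (nat_lit 2051300676) (nat_lit 380) (nat_lit 10605751883) (nat_lit 100) (nat_lit 5) (nat_lit 104) (nat_lit 5) (nat_lit 105) (nat_lit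 5) (nat_lit 421) (nat_lit 409) (nat_lit 370)) (XT.lf (nat_lit 0) (nat_lit 7007232138) (nat_lit 380) (nat_lit 297259740) (nat_lit 76) (nat_lit 6977629731) (nat_lit 100) (nat_lit 5) (nat_lit 105) (nat_lit 5) (nat_lit 101) (nat_lit 5) (nat_lit 422) (nat_lit 409) (nat_lit 369)))) (XT.nd (nat_lit 156) (nat_lit 532) (nat_lit 0) (XT.nd (nat_lit 78) (nat_lit 304) (nat_lit 0) (XT.lf (nat_lit 0) (nat_lit 11452784687) (nat_lit 380) (nat_lit 1584715203) (nat_lit 76) (nat_lit 1877992631) (nat_lit 96) (nat_lit 5) (nat_lit 101) (nat_lit 5) (nat_lit 97) (nat_lit 5) (nat_lit 423) (nat_lit 409) (nat_lit 368)) (XT.lf (nat_lit 0) (nat_lit 898669347) (nat_lit 304) (nat_lit 2939962610) (nat_lit 76) (nat_lit 11747151667) (nat_lit 92) (nat_lit 5) (nat_lit 96) (nat_lit 5) (nat_lit 93) (nat_lit 5) (nat_lit 424) (nat_lit 409) (nat_lit 367))) (XT.nd (nat_lit 78) (nat_lit 228) (nat_lit 0) (XT.lf (nat_lit 0) (nat_lit 5741599879)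 (nat_lit 380) (nat_lit 4389855427) (nat_lit 76) (nat_lit 6162724758) (nat_lit 88) (nat_lit 5) (nat_lit 93) (nat_lit 5) (nat_lit 89) (nat_lit 5) (nat_lit 425) (nat_lit 409) (nat_lit 366)) (XT.lf (nat_lit 0) (nat_lit 11198172516) (nat_lit 228) (nat_lit 5972712) (nat_lit 304) (nat_lit 5843510930) (nat_lit 85) (nat_lit 5) (nat_lit 88) (nat_lit 5) (nat_lit 89) (nat_lit 5) (nat_lit 426) (nat_lit 409) (nat_lit 365)))))) (XT.nd (nat_lit 468) (nat_lit 1140) (nat_lit 0) (XT.nd (nat_lit 234) (nat_lit 608) (nat_lit 0) (XT.nd (nat_lit 78) (nat_lit 532) (nat_lit 0) (XT.lf (nat_lit 0) (nat_lit 10415679461) (nat_lit 228) (nat_lit 7042479655) (nat_lit 304) (nat_lit 385543678) (nat_lit 82) (nat_lit 5) (nat_lit 85) (nat_lit 5) (nat_lit 86) (nat_lit 5) (nat_lit 427) (nat_lit 409) (nat_lit 364)) (XT.nd (nat_lit 78) (nat_lit 228) (nat_lit 0) (XT.lf (nat_lit 0) (nat_lit 5596545466) (nat_lit 304) (nat_lit 9116609946)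 (nat_lit 76) (nat_lit 3972800559) (nat_lit 78) (nat_lit 5) (nat_lit 82) (nat_lit 5) (nat_lit 79) (nat_lit 5) (nat_lit 428) (nat_lit 409) (nat_lit 363)) (XT.lf (nat_lit 0) (nat_lit 8677458859) (nat_lit 228) (nat_lit 3700312617) (nat_lit 304) (nat_lit 7200810859) (nat_lit 75) (nat_lit 5) (nat_lit 78) (nat_lit 5) (nat_lit 79) (nat_lit 5) (nat_lit 429) (nat_lit 409) (nat_lit 362)))) (XT.nd (nat_lit 78) (nat_lit 456) (nat_lit 0) (XT.lf (nat_lit 0) (nat_lit 7728390048) (nat_lit 152) (nat_lit 12333607365) (nat_lit 228) (nat_lit 462608174) (nat_lit 73) (nat_lit 5) (nat_lit 75) (nat_lit 5) (nat_lit 76) (nat_lit 5) (nat_lit 430) (nat_lit 409) (nat_lit 361)) (XT.nd (nat_lit 78) (nat_lit 152) (nat_lit 0) (XT.lf (nat_lit 0) (nat_lit 6669567929) (nat_lit 228) (nat_lit 238781848) (nat_lit 304) (nat_lit 14617061079) (nat_lit 69) (nat_lit 5) (nat_lit 72) (nat_lit 5) (nat_lit 73) (nat_lit 5) (nat_lit 431) (nat_lit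 409) (nat_lit 360)) (XT.lf (nat_lit 0) (nat_lit 5445598455) (nat_lit 152) (nat_lit 9873536459) (nat_lit 228) (nat_lit 7263458234) (nat_lit 67) (nat_lit 5) (nat_lit 69) (nat_lit 5) (nat_lit 70) (nat_lit 5) (nat_lit 432) (nat_lit 409) (nat_lit 359))))) (XT.nd (nat_lit 234) (nat_lit 608) (nat_lit 0) (XT.nd (nat_lit 78) (nat_lit 304) (nat_lit 0) (XT.lf (nat_lit 0) (nat_lit 997254231) (nat_lit 228) (nat_lit 19523575760) (nat_lit 76) (nat_lit 3185972193) (nat_lit 64) (nat_lit 5) (nat_lit 67) (nat_lit 5) (nat_lit 65) (nat_lit 5) (nat_lit 433) (nat_lit 409) (nat_lit 358)) (XT.nd (nat_lit 78) (nat_lit 152) (nat_lit 0) (XT.lf (nat_lit 0) (nat_lit 2637056655) (nat_lit 152) (nat_lit 7499537552) (nat_lit 228) (nat_lit 14754795660) (nat_lit 62) (nat_lit 5) (nat_lit 64) (nat_lit 5) (nat_lit 65) (nat_lit 5) (nat_lit 434) (nat_lit 409) (nat_lit 357)) (XT.lf (nat_lit 0) (nat_lit 969841194) (nat_lit 152) (nat_lit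 19460005442) (nat_lit 228) (nat_lit 5719766993) (nat_lit 60) (nat_lit 5) (nat_lit 62) (nat_lit 5) (nat_lit 63) (nat_lit 5) (nat_lit 435) (nat_lit 409) (nat_lit 356)))) (XT.nd (nat_lit 156) (nat_lit 380) (nat_lit 0) (XT.nd (nat_lit 78) (nat_lit 152) (nat_lit 0) (XT.lf (nat_lit 0) (nat_lit 4390134294) (nat_lit 228) (nat_lit 903838607) (nat_lit 76) (nat_lit 22187310900) (nat_lit 59) (nat_lit 5) (nat_lit 62) (nat_lit 5) (nat_lit 60) (nat_lit 5) (nat_lit 436) (nat_lit 409) (nat_lit 355)) (XT.lf (nat_lit 0) (nat_lit 15644683055) (nat_lit 228) (nat_lit 3071390296) (nat_lit 76) (nat_lit 10171919477) (nat_lit 57) (nat_lit 5) (nat_lit 60) (nat_lit 5) (nat_lit 58) (nat_lit 5) (nat_lit 437) (nat_lit 409) (nat_lit 354))) (XT.nd (nat_lit 78) (nat_lit 228) (nat_lit 0) (XT.lf (nat_lit 0) (nat_lit 24950153295) (nat_lit 152) (nat_lit 3309411266) (nat_lit 228) (nat_lit 2124681115) (nat_lit 55) (nat_lit 5) (nat_lit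 57) (nat_lit 5) (nat_lit 58) (nat_lit 5) (nat_lit 438) (nat_lit 409) (nat_lit 353)) (XT.lf (nat_lit 0) (nat_lit 10177839946) (nat_lit 228) (nat_lit 8313416783) (nat_lit 76) (nat_lit 13470694807) (nat_lit 52) (nat_lit 5) (nat_lit 55) (nat_lit 5) (nat_lit 53) (nat_lit 5) (nat_lit 439) (nat_lit 409) (nat_lit 352))))))) (XT.nd (nat_lit 1014) (nat_lit 1064) (nat_lit 0) (XT.nd (nat_lit 468) (nat_lit 760) (nat_lit 0) (XT.nd (nat_lit 234) (nat_lit 380) (nat_lit 0) (XT.nd (nat_lit 78) (nat_lit 304) (nat_lit 0) (XT.lf (nat_lit 0) (nat_lit 22149780820) (nat_lit 152) (nat_lit 1706742240) (nat_lit 228) (nat_lit 9784293843) (nat_lit 50) (nat_lit 5) (nat_lit 52) (nat_lit 5) (nat_lit 53) (nat_lit 5) (nat_lit 440) (nat_lit 409) (nat_lit 351)) (XT.nd (nat_lit 78) (nat_lit 152) (nat_lit 0) (XT.lf (nat_lit 0) (nat_lit 3773376991) (nat_lit 152) (nat_lit 15246806858) (nat_lit 76) (nat_lit 16396357521) (nat_lit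 48) (nat_lit 5) (nat_lit 50) (nat_lit 5) (nat_lit 49) (nat_lit 5) (nat_lit 441) (nat_lit 409) (nat_lit 350)) (XT.lf (nat_lit 0) (nat_lit 17767037517) (nat_lit 152) (nat_lit 789790893) (nat_lit 228) (nat_lit 18745281118) (nat_lit 46) (nat_lit 5) (nat_lit 48) (nat_lit 5) (nat_lit 49) (nat_lit 5) (nat_lit 442) (nat_lit 409) (nat_lit 349)))) (XT.nd (nat_lit 78) (nat_lit 304) (nat_lit 0) (XT.lf (nat_lit 0) (nat_lit 14761532820) (nat_lit 76) (nat_lit 20527738474) (nat_lit 152) (nat_lit 4010939498) (nat_lit 45) (nat_lit 5) (nat_lit 46) (nat_lit 5) (nat_lit 47) (nat_lit 4) (nat_lit 443) (nat_lit 409) (nat_lit 348)) (XT.nd (nat_lit 78) (nat_lit 76) (nat_lit 0) (XT.lf (nat_lit 0) (nat_lit 11159402031) (nat_lit 152) (nat_lit 866968544) (nat_lit 228) (nat_lit 29397243091) (nat_lit 42) (nat_lit 5) (nat_lit 44) (nat_lit 5) (nat_lit 45) (nat_lit 5) (nat_lit 444) (nat_lit 409) (nat_lit 347)) (XT.lf (nat_lit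 0) (nat_lit 6664642109) (nat_lit 76) (nat_lit 23372597380) (nat_lit 152) (nat_lit 13634809526) (nat_lit 41) (nat_lit 5) (nat_lit 42) (nat_lit 5) (nat_lit 43) (nat_lit 4) (nat_lit 445) (nat_lit 409) (nat_lit 346))))) (XT.nd (nat_lit 234) (nat_lit 456) (nat_lit 0) (XT.nd (nat_lit 78) (nat_lit 76) (nat_lit 0) (XT.lf (nat_lit 0) (nat_lit 1476803052) (nat_lit 152) (nat_lit 2350431936) (nat_lit 228) (nat_lit 42243127714) (nat_lit 38) (nat_lit 5) (nat_lit 40) (nat_lit 5) (nat_lit 41) (nat_lit 5) (nat_lit 446) (nat_lit 409) (nat_lit 345)) (XT.nd (nat_lit 78) (nat_lit 76) (nat_lit 0) (XT.lf (nat_lit 0) (nat_lit 23162385285) (nat_lit 228) (nat_lit 4872918810) (nat_lit 76) (nat_lit 20566371619) (nat_lit 38) (nat_lit 5) (nat_lit 41) (nat_lit 5) (nat_lit 39) (nat_lit 4) (nat_lit 447) (nat_lit 409) (nat_lit 344)) (XT.lf (nat_lit 0) (nat_lit 39196159913) (nat_lit 76) (nat_lit 5476138478) (nat_lit 152) (nat_lit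 6631799946) (nat_lit 37) (nat_lit 5) (nat_lit 38) (nat_lit 5) (nat_lit 39) (nat_lit 4) (nat_lit 448) (nat_lit 409) (nat_lit 343)))) (XT.nd (nat_lit 156) (nat_lit 228) (nat_lit 0) (XT.nd (nat_lit 78) (nat_lit 76) (nat_lit 0) (XT.lf (nat_lit 0) (nat_lit 14137877580) (nat_lit 152) (nat_lit 20928161436) (nat_lit 76) (nat_lit 19101226110) (nat_lit 35) (nat_lit 5) (nat_lit 37) (nat_lit 5) (nat_lit 36) (nat_lit 4) (nat_lit 449) (nat_lit 409) (nat_lit 342)) (XT.lf (nat_lit 0) (nat_lit 25979347427) (nat_lit 76) (nat_lit 11050694415) (nat_lit 152) (nat_lit 20189346312) (nat_lit 34) (nat_lit 5) (nat_lit 35) (nat_lit 5) (nat_lit 36) (nat_lit 4) (nat_lit 450) (nat_lit 409) (nat_lit 341))) (XT.nd (nat_lit 78) (nat_lit 76) (nat_lit 0) (XT.lf (nat_lit 0) (nat_lit 2061603393) (nat_lit 152) (nat_lit 43347121590) (nat_lit 76) (nat_lit 15062824925) (nat_lit 32) (nat_lit 5) (nat_lit 34) (nat_lit 5) (nat_lit 33)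 (nat_lit 4) (nat_lit 451) (nat_lit 409) (nat_lit 340)) (XT.lf (nat_lit 0) (nat_lit 6137985951) (nat_lit 76) (nat_lit 20071228994) (nat_lit 152) (nat_lit 37716926310) (nat_lit 31) (nat_lit 5) (nat_lit 32) (nat_lit 5) (nat_lit 33) (nat_lit 4) (nat_lit 452) (nat_lit 409) (nat_lit 339)))))) (XT.nd (nat_lit 546) (nat_lit 532) (nat_lit 0) (XT.nd (nat_lit 234) (nat_lit 304) (nat_lit 0) (XT.nd (nat_lit 78) (nat_lit 228) (nat_lit 0) (XT.lf (nat_lit 0) (nat_lit 53149822551) (nat_lit 152) (nat_lit 6654496581) (nat_lit 0) (nat_lit 7809722724) (nat_lit 31) (nat_lit 5) (nat_lit 33) (nat_lit 4) (nat_lit 31) (nat_lit 4) (nat_lit 453) (nat_lit 409) (nat_lit 338)) (XT.nd (nat_lit 78) (nat_lit 76) (nat_lit 0) (XT.lf (nat_lit 0) (nat_lit 11423002677) (nat_lit 152) (nat_lit 21937230166) (nat_lit 76) (nat_lit 38172673833) (nat_lit 29) (nat_lit 5) (nat_lit 31) (nat_lit 5) (nat_lit 30) (nat_lit 4) (nat_lit 454) (nat_lit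 409) (nat_lit 337)) (XT.lf (nat_lit 0) (nat_lit 35685482280) (nat_lit 76) (nat_lit 3852613113) (nat_lit 152) (nat_lit 36182147999) (nat_lit 28) (nat_lit 5) (nat_lit 29) (nat_lit 5) (nat_lit 30) (nat_lit 4) (nat_lit 455) (nat_lit 409) (nat_lit 336)))) (XT.nd (nat_lit 156) (nat_lit 152) (nat_lit 0) (XT.nd (nat_lit 78) (nat_lit 76) (nat_lit 0) (XT.lf (nat_lit 0) (nat_lit 18595437971) (nat_lit 76) (nat_lit 52405557679) (nat_lit 76) (nat_lit 9186642372) (nat_lit 27) (nat_lit 4) (nat_lit 28) (nat_lit 5) (nat_lit 28) (nat_lit 4) (nat_lit 456) (nat_lit 409) (nat_lit 335)) (XT.lf (nat_lit 0) (nat_lit 20086150614) (nat_lit 152) (nat_lit 2053107074) (nat_lit 76) (nat_lit 62819741003) (nat_lit 26) (nat_lit 5) (nat_lit 28) (nat_lit 5) (nat_lit 27) (nat_lit 4) (nat_lit 457) (nat_lit 409) (nat_lit 334))) (XT.nd (nat_lit 78) (nat_lit 76) (nat_lit 0) (XT.lf (nat_lit 0) (nat_lit 52551896483) (nat_lit 152) (nat_lit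 26122778992) (nat_lit 0) (nat_lit 11371214274) (nat_lit 25) (nat_lit 5) (nat_lit 27) (nat_lit 4) (nat_lit 25) (nat_lit 4) (nat_lit 458) (nat_lit 409) (nat_lit 333)) (XT.lf (nat_lit 0) (nat_lit 40608815180) (nat_lit 76) (nat_lit 48034499015) (nat_lit 76) (nat_lit 6844998034) (nat_lit 24) (nat_lit 4) (nat_lit 25) (nat_lit 5) (nat_lit 25) (nat_lit 4) (nat_lit 459) (nat_lit 409) (nat_lit 332))))) (XT.nd (nat_lit 234) (nat_lit 304) (nat_lit 0) (XT.nd (nat_lit 78) (nat_lit 76) (nat_lit 0) (XT.lf (nat_lit 0) (nat_lit 12212878419) (nat_lit 76) (nat_lit 13841045936) (nat_lit 152) (nat_lit 75259790345) (nat_lit 22) (nat_lit 5) (nat_lit 23) (nat_lit 5) (nat_lit 24) (nat_lit 4) (nat_lit 460) (nat_lit 409) (nat_lit 331)) (XT.nd (nat_lit 78) (nat_lit 76) (nat_lit 0) (XT.lf (nat_lit 0) (nat_lit 62665888607) (nat_lit 152) (nat_lit 21444788446) (nat_lit 0) (nat_lit 23422815097) (nat_lit 22) (nat_lit 5) (nat_lit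 24) (nat_lit 4) (nat_lit 22) (nat_lit 4) (nat_lit 461) (nat_lit 409) (nat_lit 330)) (XT.lf (nat_lit 0) (nat_lit 53062529949) (nat_lit 76) (nat_lit 50192818138) (nat_lit 76) (nat_lit 10943077367) (nat_lit 21) (nat_lit 4) (nat_lit 22) (nat_lit 5) (nat_lit 22) (nat_lit 4) (nat_lit 462) (nat_lit 409) (nat_lit 329)))) (XT.nd (nat_lit 156) (nat_lit 152) (nat_lit 0) (XT.nd (nat_lit 78) (nat_lit 0) (nat_lit 0) (XT.lf (nat_lit 0) (nat_lit 12898422484) (nat_lit 76) (nat_lit 12542717343) (nat_lit 152) (nat_lit 95906948096) (nat_lit 19) (nat_lit 5) (nat_lit 20) (nat_lit 5) (nat_lit 21) (nat_lit 4) (nat_lit 463) (nat_lit 409) (nat_lit 328)) (XT.lf (nat_lit 0) (nat_lit 65866729386) (nat_lit 152) (nat_lit 34643622809) (nat_lit 0) (nat_lit 28474700563) (nat_lit 19) (nat_lit 5) (nat_lit 21) (nat_lit 4) (nat_lit 19) (nat_lit 4) (nat_lit 464) (nat_lit 409) (nat_lit 327))) (XT.nd (nat_lit 78) (nat_lit 76) (nat_lit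 0) (XT.lf (nat_lit 0) (nat_lit 46314834330) (nat_lit 76) (nat_lit 64134530216) (nat_lit 76) (nat_lit 26737460738) (nat_lit 18) (nat_lit 4) (nat_lit 19) (nat_lit 5) (nat_lit 19) (nat_lit 4) (nat_lit 465) (nat_lit 409) (nat_lit 326)) (XT.lf (nat_lit 0) (nat_lit 12754166629) (nat_lit 152) (nat_lit 11255695161) (nat_lit 76) (nat_lit 121994973243) (nat_lit 17) (nat_lit 5) (nat_lit 19) (nat_lit 5) (nat_lit 18) (nat_lit 4) (nat_lit 466) (nat_lit 409) (nat_lit 325))))))))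
noncomputable def xc63 : XT := (XT.nd (nat_lit 2106) (nat_lit 76) (nat_lit 0) (XT.nd (nat_lit 1014) (nat_lit 380) (nat_lit 0) (XT.nd (nat_lit 468) (nat_lit 228) (nat_lit 0) (XT.nd (nat_lit 234) (nat_lit 228) (nat_lit 0) (XT.nd (nat_lit 78) (nat_lit 76) (nat_lit 0) (XT.lf (nat_lit 0) (nat_lit 55996762987) (nat_lit 152) (nat_lit 79061241954) (nat_lit 0) (nat_lit 20371945558) (nat_lit 16) (nat_lit 5) (nat_lit 18) (nat_lit 4) (nat_lit 16) (nat_lit 4) (nat_lit 467) (nat_lit 409) (nat_lit 324)) (XT.nd (nat_lit 78) (nat_lit 0) (nat_lit 0) (XT.lf (nat_lit 0) (nat_lit 5555361583) (nat_lit 76) (nat_lit 97824152455) (nat_lit 76) (nat_lit 62195524136) (nat_lit 15) (nat_lit 4) (nat_lit 16) (nat_lit 5) (nat_lit 16) (nat_lit 4) (nat_lit 468) (nat_lit 409) (nat_lit 323)) (XT.lf (nat_lit 0) (nat_lit 99745308544) (nat_lit 76) (nat_lit 56175102620) (nat_lit 76) (nat_lit 20542945699) (nat_lit 15) (nat_lit 4)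 (nat_lit 16) (nat_lit 5) (nat_lit 16) (nat_lit 4) (nat_lit 469) (nat_lit 409) (nat_lit 322)))) (XT.nd (nat_lit 78) (nat_lit 76) (nat_lit 0) (XT.lf (nat_lit 0) (nat_lit 13272804682) (nat_lit 76) (nat_lit 10584867915) (nat_lit 152) (nat_lit 164336082177) (nat_lit 13) (nat_lit 5) (nat_lit 14) (nat_lit 5) (nat_lit 15) (nat_lit 4) (nat_lit 470) (nat_lit 409) (nat_lit 321)) (XT.nd (nat_lit 78) (nat_lit 76) (nat_lit 0) (XT.lf (nat_lit 0) (nat_lit 73053167847) (nat_lit 152) (nat_lit 88582663312) (nat_lit 0) (nat_lit 39111787512) (nat_lit 13) (nat_lit 5) (nat_lit 15) (nat_lit 4) (nat_lit 13) (nat_lit 4) (nat_lit 471) (nat_lit 409) (nat_lit 320)) (XT.lf (nat_lit 0) (nat_lit 4615614510) (nat_lit 76) (nat_lit 121811053595) (nat_lit 76) (nat_lit 87867005529) (nat_lit 12) (nat_lit 4) (nat_lit 13) (nat_lit 5) (nat_lit 13) (nat_lit 4) (nat_lit 472) (nat_lit 409) (nat_lit 319))))) (XT.nd (nat_lit 234) (nat_lit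 76) (nat_lit 0) (XT.nd (nat_lit 78) (nat_lit 152) (nat_lit 0) (XT.lf (nat_lit 0) (nat_lit 108417401967) (nat_lit 76) (nat_lit 77187883779) (nat_lit 76) (nat_lit 43241365591) (nat_lit 12) (nat_lit 4) (nat_lit 13) (nat_lit 5) (nat_lit 13) (nat_lit 4) (nat_lit 473) (nat_lit 409) (nat_lit 318)) (XT.nd (nat_lit 78) (nat_lit 76) (nat_lit 0) (XT.lf (nat_lit 0) (nat_lit 4788400803) (nat_lit 152) (nat_lit 24132583688) (nat_lit 76) (nat_lit 215639383171) (nat_lit 11) (nat_lit 5) (nat_lit 13) (nat_lit 5) (nat_lit 12) (nat_lit 4) (nat_lit 474) (nat_lit 409) (nat_lit 317)) (XT.lf (nat_lit 0) (nat_lit 56830334399) (nat_lit 152) (nat_lit 180085043735) (nat_lit 0) (nat_lit 24496121953) (nat_lit 10) (nat_lit 5) (nat_lit 12) (nat_lit 4) (nat_lit 10) (nat_lit 4) (nat_lit 475) (nat_lit 409) (nat_lit 316)))) (XT.nd (nat_lit 156) (nat_lit 0) (nat_lit 0) (XT.nd (nat_lit 78) (nat_lit 76) (nat_lit 0) (XT.lf (nat_lit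 0) (nat_lit 113943937815) (nat_lit 152) (nat_lit 84013511810) (nat_lit 0) (nat_lit 81607857882) (nat_lit 10) (nat_lit 5) (nat_lit 12) (nat_lit 4) (nat_lit 10) (nat_lit 4) (nat_lit 476) (nat_lit 409) (nat_lit 315)) (XT.lf (nat_lit 0) (nat_lit 20383893659) (nat_lit 76) (nat_lit 155554864335) (nat_lit 76) (nat_lit 123217055247) (nat_lit 9) (nat_lit 4) (nat_lit 10) (nat_lit 5) (nat_lit 10) (nat_lit 4) (nat_lit 477) (nat_lit 409) (nat_lit 314))) (XT.nd (nat_lit 78) (nat_lit 0) (nat_lit 0) (XT.lf (nat_lit 0) (nat_lit 136121458913) (nat_lit 76) (nat_lit 108229315151) (nat_lit 76) (nat_lit 75889904993) (nat_lit 9) (nat_lit 4) (nat_lit 10) (nat_lit 5) (nat_lit 10) (nat_lit 4) (nat_lit 478) (nat_lit 409) (nat_lit 313)) (XT.lf (nat_lit 0) (nat_lit 261107170071) (nat_lit 76) (nat_lit 57123163848) (nat_lit 76) (nat_lit 24782271218) (nat_lit 9) (nat_lit 4) (nat_lit 10) (nat_lit 5) (nat_lit 10) (nat_lit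 4) (nat_lit 479) (nat_lit 409) (nat_lit 312)))))) (XT.nd (nat_lit 546) (nat_lit 152) (nat_lit 0) (XT.nd (nat_lit 234) (nat_lit 76) (nat_lit 0) (XT.nd (nat_lit 78) (nat_lit 0) (nat_lit 0) (XT.lf (nat_lit 0) (nat_lit 28926200923) (nat_lit 76) (nat_lit 960855765) (nat_lit 152) (nat_lit 337673160333) (nat_lit 7) (nat_lit 5) (nat_lit 8) (nat_lit 5) (nat_lit 9) (nat_lit 4) (nat_lit 480) (nat_lit 409) (nat_lit 311)) (XT.nd (nat_lit 78) (nat_lit 0) (nat_lit 0) (XT.lf (nat_lit 0) (nat_lit 90450464702) (nat_lit 152) (nat_lit 243834323896) (nat_lit 0) (nat_lit 59647096826) (nat_lit 7) (nat_lit 5) (nat_lit 9) (nat_lit 4) (nat_lit 7) (nat_lit 4) (nat_lit 481) (nat_lit 409) (nat_lit 310)) (XT.lf (nat_lit 0) (nat_lit 155870563665) (nat_lit 152) (nat_lit 141476067818) (nat_lit 0) (nat_lit 125066074995) (nat_lit 7) (nat_lit 5) (nat_lit 9) (nat_lit 4) (nat_lit 7) (nat_lit 4) (nat_lit 482) (nat_lit 409) (nat_lit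 309)))) (XT.nd (nat_lit 156) (nat_lit 0) (nat_lit 0) (XT.nd (nat_lit 78) (nat_lit 76) (nat_lit 0) (XT.lf (nat_lit 0) (nat_lit 226520026587) (nat_lit 152) (nat_lit 30937678771) (nat_lit 0) (nat_lit 195714500144) (nat_lit 7) (nat_lit 5) (nat_lit 9) (nat_lit 4) (nat_lit 7) (nat_lit 4) (nat_lit 483) (nat_lit 409) (nat_lit 308)) (XT.lf (nat_lit 0) (nat_lit 91359975315) (nat_lit 76) (nat_lit 212883926887) (nat_lit 76) (nat_lit 182077439544) (nat_lit 6) (nat_lit 4) (nat_lit 7) (nat_lit 5) (nat_lit 7) (nat_lit 4) (nat_lit 484) (nat_lit 409) (nat_lit 307))) (XT.nd (nat_lit 78) (nat_lit 0) (nat_lit 0) (XT.lf (nat_lit 0) (nat_lit 224538663554) (nat_lit 76) (nat_lit 164182182290) (nat_lit 76) (nat_lit 133374805223) (nat_lit 6) (nat_lit 4) (nat_lit 7) (nat_lit 5) (nat_lit 7) (nat_lit 4) (nat_lit 485) (nat_lit 409) (nat_lit 306)) (XT.lf (nat_lit 0) (nat_lit 368364653607) (nat_lit 76) (nat_lit 111587813194)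 (nat_lit 76) (nat_lit 80779612310) (nat_lit 6) (nat_lit 4) (nat_lit 7) (nat_lit 5) (nat_lit 7) (nat_lit 4) (nat_lit 486) (nat_lit 409) (nat_lit 305))))) (XT.nd (nat_lit 234) (nat_lit 0) (nat_lit 0) (XT.nd (nat_lit 78) (nat_lit 152) (nat_lit 0) (XT.lf (nat_lit 0) (nat_lit 523690247637) (nat_lit 76) (nat_lit 54789149265) (nat_lit 76) (nat_lit 23980185588) (nat_lit 6) (nat_lit 4) (nat_lit 7) (nat_lit 5) (nat_lit 7) (nat_lit 4) (nat_lit 487) (nat_lit 409) (nat_lit 304)) (XT.nd (nat_lit 78) (nat_lit 0) (nat_lit 0) (XT.lf (nat_lit 0) (nat_lit 36986422358) (nat_lit 152) (nat_lit 602824862964) (nat_lit 0) (nat_lit 7643879531) (nat_lit 4) (nat_lit 5) (nat_lit 6) (nat_lit 4) (nat_lit 4) (nat_lit 4) (nat_lit 488) (nat_lit 409) (nat_lit 303)) (XT.lf (nat_lit 0) (nat_lit 104316948501) (nat_lit 152) (nat_lit 516623669700) (nat_lit 0) (nat_lit 74973782843) (nat_lit 4) (nat_lit 5) (nat_lit 6) (nat_lit 4)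 (nat_lit 4) (nat_lit 4) (nat_lit 489) (nat_lit 409) (nat_lit 302)))) (XT.nd (nat_lit 156) (nat_lit 0) (nat_lit 0) (XT.nd (nat_lit 78) (nat_lit 0) (nat_lit 0) (XT.lf (nat_lit 0) (nat_lit 177031191512) (nat_lit 152) (nat_lit 423531871771) (nat_lit 0) (nat_lit 147687449159) (nat_lit 4) (nat_lit 5) (nat_lit 6) (nat_lit 4) (nat_lit 4) (nat_lit 4) (nat_lit 490) (nat_lit 409) (nat_lit 301)) (XT.lf (nat_lit 0) (nat_lit 255560050608) (nat_lit 152) (nat_lit 322997814078) (nat_lit 0) (nat_lit 226215774278) (nat_lit 4) (nat_lit 5) (nat_lit 6) (nat_lit 4) (nat_lit 4) (nat_lit 4) (nat_lit 491) (nat_lit 409) (nat_lit 300))) (XT.nd (nat_lit 78) (nat_lit 0) (nat_lit 0) (XT.lf (nat_lit 0) (nat_lit 340368881992) (nat_lit 152) (nat_lit 214425739241) (nat_lit 0) (nat_lit 311024111238) (nat_lit 4) (nat_lit 5) (nat_lit 6) (nat_lit 4) (nat_lit 4) (nat_lit 4) (nat_lit 492) (nat_lit 409) (nat_lit 299)) (XT.lf (nat_lit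 0) (nat_lit 431960256516) (nat_lit 152) (nat_lit 97172257188) (nat_lit 0) (nat_lit 402615027962) (nat_lit 4) (nat_lit 5) (nat_lit 6) (nat_lit 4) (nat_lit 4) (nat_lit 4) (nat_lit 493) (nat_lit 409) (nat_lit 298))))))) (XT.nd (nat_lit 56628) (nat_lit 0) (nat_lit 5016) (XT.nd (nat_lit 56082) (nat_lit 0) (nat_lit 8892) (XT.nd (nat_lit 234) (nat_lit 0) (nat_lit 0) (XT.nd (nat_lit 78) (nat_lit 0) (nat_lit 0) (XT.lf (nat_lit 0) (nat_lit 30431464439) (nat_lit 76) (nat_lit 500920593885) (nat_lit 76) (nat_lit 471574941443) (nat_lit 3) (nat_lit 4) (nat_lit 4) (nat_lit 5) (nat_lit 4) (nat_lit 4) (nat_lit 494) (nat_lit 409) (nat_lit 297)) (XT.nd (nat_lit 78) (nat_lit 0) (nat_lit 0) (XT.lf (nat_lit 0) (nat_lit 171709613253) (nat_lit 76) (nat_lit 468676354038) (nat_lit 76) (nat_lit 439330309107) (nat_lit 3) (nat_lit 4) (nat_lit 4) (nat_lit 5) (nat_lit 4) (nat_lit 4) (nat_lit 495) (nat_lit 409) (nat_lit 296))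 (XT.lf (nat_lit 0) (nat_lit 324286439432) (nat_lit 76) (nat_lit 433854376382) (nat_lit 76) (nat_lit 404507968035) (nat_lit 3) (nat_lit 4) (nat_lit 4) (nat_lit 5) (nat_lit 4) (nat_lit 4) (nat_lit 496) (nat_lit 409) (nat_lit 295)))) (XT.nd (nat_lit 55692) (nat_lit 0) (nat_lit 10108) (XT.lf (nat_lit 0) (nat_lit 489066101945) (nat_lit 76) (nat_lit 396248308456) (nat_lit 76) (nat_lit 366901563613) (nat_lit 3) (nat_lit 4) (nat_lit 4) (nat_lit 5) (nat_lit 4) (nat_lit 4) (nat_lit 497) (nat_lit 409) (nat_lit 294)) (XT.nd (nat_lit 78) (nat_lit 0) (nat_lit 0) (XT.lf (nat_lit 0) (nat_lit 136840807) (nat_lit 0) (nat_lit 136840807) (nat_lit 684) (nat_lit 4398439105) (nat_lit 136) (nat_lit 5) (nat_lit 136) (nat_lit 3) (nat_lit 145) (nat_lit 3) (nat_lit 410) (nat_lit 410) (nat_lit 380)) (XT.lf (nat_lit 0) (nat_lit 1948570369) (nat_lit 684) (nat_lit 1826958426) (nat_lit 760) (nat_lit 5872983070) (nat_lit 136)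 (nat_lit 5) (nat_lit 145) (nat_lit 3) (nat_lit 146) (nat_lit 5) (nat_lit 411) (nat_lit 410) (nat_lit 379))))) (XT.nd (nat_lit 234) (nat_lit 1292) (nat_lit 0) (XT.nd (nat_lit 78) (nat_lit 0) (nat_lit 0) (XT.lf (nat_lit 0) (nat_lit 3476310649) (nat_lit 684) (nat_lit 3904899404) (nat_lit 760) (nat_lit 2595245427) (nat_lit 137) (nat_lit 5) (nat_lit 146) (nat_lit 5) (nat_lit 147) (nat_lit 5) (nat_lit 412) (nat_lit 410) (nat_lit 378)) (XT.nd (nat_lit 78) (nat_lit 0) (nat_lit 76) (XT.lf (nat_lit 76) (nat_lit 4337366892) (nat_lit 0) (nat_lit 834275973) (nat_lit 760) (nat_lit 5156772514) (nat_lit 138) (nat_lit 5) (nat_lit 137) (nat_lit 5) (nat_lit 147) (nat_lit 5) (nat_lit 413) (nat_lit 410) (nat_lit 377)) (XT.lf (nat_lit 76) (nat_lit 2579062950) (nat_lit 0) (nat_lit 4520197546) (nat_lit 760) (nat_lit 3604484405) (nat_lit 139) (nat_lit 5) (nat_lit 138) (nat_lit 5) (nat_lit 148) (nat_lit 5) (nat_lit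 414) (nat_lit 410) (nat_lit 376)))) (XT.nd (nat_lit 156) (nat_lit 684) (nat_lit 0) (XT.nd (nat_lit 78) (nat_lit 760) (nat_lit 0) (XT.lf (nat_lit 76) (nat_lit 834445083) (nat_lit 0) (nat_lit 8417886264) (nat_lit 760) (nat_lit 1853249625) (nat_lit 140) (nat_lit 5) (nat_lit 139) (nat_lit 5) (nat_lit 149) (nat_lit 5) (nat_lit 415) (nat_lit 410) (nat_lit 375)) (XT.lf (nat_lit 0) (nat_lit 159032985) (nat_lit 760) (nat_lit 891523566) (nat_lit 836) (nat_lit 10482906620) (nat_lit 129) (nat_lit 5) (nat_lit 139) (nat_lit 5) (nat_lit 140) (nat_lit 5) (nat_lit 416) (nat_lit 410) (nat_lit 374))) (XT.nd (nat_lit 78) (nat_lit 760) (nat_lit 0) (XT.lf (nat_lit 0) (nat_lit 2435900553) (nat_lit 760) (nat_lit 2667423535) (nat_lit 76) (nat_lit 6882340846) (nat_lit 130) (nat_lit 5) (nat_lit 140) (nat_lit 5) (nat_lit 131) (nat_lit 5) (nat_lit 417) (nat_lit 410) (nat_lit 373)) (XT.lf (nat_lit 0) (nat_lit 5017929042)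 (nat_lit 836) (nat_lit 4450756603) (nat_lit 76) (nat_lit 2999238657) (nat_lit 120) (nat_lit 5) (nat_lit 131) (nat_lit 5) (nat_lit 121) (nat_lit 5) (nat_lit 418) (nat_lit 410) (nat_lit 372)))))) (XT.nd (nat_lit 546) (nat_lit 1748) (nat_lit 0) (XT.nd (nat_lit 234) (nat_lit 912) (nat_lit 0) (XT.nd (nat_lit 78) (nat_lit 836) (nat_lit 0) (XT.lf (nat_lit 0) (nat_lit 6717019549) (nat_lit 380) (nat_lit 1248091844) (nat_lit 456) (nat_lit 5015753115) (nat_lit 115) (nat_lit 5) (nat_lit 120) (nat_lit 5) (nat_lit 121) (nat_lit 5) (nat_lit 419) (nat_lit 410) (nat_lit 371)) (XT.nd (nat_lit 78) (nat_lit 456) (nat_lit 0) (XT.lf (nat_lit 0) (nat_lit 5381056846) (nat_lit 380) (nat_lit 5974171777) (nat_lit 456) (nat_lit 2169280761) (nat_lit 110) (nat_lit 5) (nat_lit 115) (nat_lit 5) (nat_lit 116) (nat_lit 5) (nat_lit 420) (nat_lit 410) (nat_lit 370)) (XT.lf (nat_lit 0) (nat_lit 1048515050) (nat_lit 456) (nat_lit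 10059962291) (nat_lit 76) (nat_lit 2993857905) (nat_lit 104) (nat_lit 5) (nat_lit 110) (nat_lit 5) (nat_lit 105) (nat_lit 5) (nat_lit 421) (nat_lit 410) (nat_lit 369)))) (XT.nd (nat_lit 156) (nat_lit 304) (nat_lit 0) (XT.nd (nat_lit 78) (nat_lit 304) (nat_lit 0) (XT.lf (nat_lit 0) (nat_lit 2643526768) (nat_lit 304) (nat_lit 2023923912) (nat_lit 380) (nat_lit 10046194965) (nat_lit 100) (nat_lit 5) (nat_lit 104) (nat_lit 5) (nat_lit 105) (nat_lit 5) (nat_lit 422) (nat_lit 410) (nat_lit 368)) (XT.lf (nat_lit 0) (nat_lit 1195470458) (nat_lit 304) (nat_lit 7635024750) (nat_lit 380) (nat_lit 6530656736) (nat_lit 96) (nat_lit 5) (nat_lit 100) (nat_lit 5) (nat_lit 101) (nat_lit 5) (nat_lit 423) (nat_lit 410) (nat_lit 367))) (XT.nd (nat_lit 78) (nat_lit 304) (nat_lit 0) (XT.lf (nat_lit 0) (nat_lit 13546702278) (nat_lit 380) (nat_lit 242162330) (nat_lit 76) (nat_lit 2260607417) (nat_lit 96) (nat_lit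 5) (nat_lit 101) (nat_lit 5) (nat_lit 97) (nat_lit 5) (nat_lit 424) (nat_lit 410) (nat_lit 366)) (XT.lf (nat_lit 0) (nat_lit 2101536798) (nat_lit 304) (nat_lit 1731958894) (nat_lit 76) (nat_lit 12942271100) (nat_lit 92) (nat_lit 5) (nat_lit 96) (nat_lit 5) (nat_lit 93) (nat_lit 5) (nat_lit 425) (nat_lit 410) (nat_lit 365))))) (XT.nd (nat_lit 234) (nat_lit 912) (nat_lit 0) (XT.nd (nat_lit 78) (nat_lit 532) (nat_lit 0) (XT.lf (nat_lit 0) (nat_lit 7274546080) (nat_lit 380) (nat_lit 3311685975) (nat_lit 76) (nat_lit 6957495184) (nat_lit 88) (nat_lit 5) (nat_lit 93) (nat_lit 5) (nat_lit 89) (nat_lit 5) (nat_lit 426) (nat_lit 410) (nat_lit 364)) (XT.nd (nat_lit 78) (nat_lit 304) (nat_lit 0) (XT.lf (nat_lit 0) (nat_lit 13121306136) (nat_lit 304) (nat_lit 4904539010) (nat_lit 76) (nat_lit 334298410) (nat_lit 85) (nat_lit 5) (nat_lit 89) (nat_lit 5) (nat_lit 86) (nat_lit 5) (nat_lit 427) (nat_lit 410)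 (nat_lit 363)) (XT.lf (nat_lit 0) (nat_lit 579441491) (nat_lit 304) (nat_lit 6631624240) (nat_lit 76) (nat_lit 12011083138) (nat_lit 81) (nat_lit 5) (nat_lit 85) (nat_lit 5) (nat_lit 82) (nat_lit 5) (nat_lit 428) (nat_lit 410) (nat_lit 362)))) (XT.nd (nat_lit 156) (nat_lit 456) (nat_lit 0) (XT.nd (nat_lit 78) (nat_lit 228) (nat_lit 0) (XT.lf (nat_lit 0) (nat_lit 6980809097) (nat_lit 304) (nat_lit 8481345530) (nat_lit 76) (nat_lit 4671619234) (nat_lit 78) (nat_lit 5) (nat_lit 82) (nat_lit 5) (nat_lit 79) (nat_lit 5) (nat_lit 429) (nat_lit 410) (nat_lit 361)) (XT.lf (nat_lit 0) (nat_lit 10676945222) (nat_lit 228) (nat_lit 3578593863) (nat_lit 304) (nat_lit 6844738110) (nat_lit 75) (nat_lit 5) (nat_lit 78) (nat_lit 5) (nat_lit 79) (nat_lit 5) (nat_lit 430) (nat_lit 410) (nat_lit 360))) (XT.nd (nat_lit 78) (nat_lit 228) (nat_lit 0) (XT.lf (nat_lit 0) (nat_lit 378369165) (nat_lit 228) (nat_lit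 12498443343) (nat_lit 76) (nat_lit 9246862696) (nat_lit 72) (nat_lit 5) (nat_lit 75) (nat_lit 5) (nat_lit 73) (nat_lit 5) (nat_lit 431) (nat_lit 410) (nat_lit 359)) (XT.lf (nat_lit 0) (nat_lit 8281604970) (nat_lit 304) (nat_lit 14749493443) (nat_lit 76) (nat_lit 175140864) (nat_lit 69) (nat_lit 5) (nat_lit 73) (nat_lit 5) (nat_lit 70) (nat_lit 5) (nat_lit 432) (nat_lit 410) (nat_lit 358))))))))
noncomputable def xc64 : XT := (XT.nd (nat_lit 2028) (nat_lit 1520) (nat_lit 0) (XT.nd (nat_lit 1014) (nat_lit 1216) (nat_lit 0) (XT.nd (nat_lit 468) (nat_lit 1140) (nat_lit 0) (XT.nd (nat_lit 234) (nat_lit 380) (nat_lit 0) (XT.nd (nat_lit 78) (nat_lit 380) (nat_lit 0) (XT.lf (nat_lit 0) (nat_lit 7115940765) (nat_lit 152) (nat_lit 10211533008) (nat_lit 228) (nat_lit 7022424305) (nat_lit 67) (nat_lit 5) (nat_lit 69) (nat_lit 5) (nat_lit 70) (nat_lit 5) (nat_lit 433) (nat_lit 410) (nat_lit 357)) (XT.nd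 (nat_lit 78) (nat_lit 152) (nat_lit 0) (XT.lf (nat_lit 0) (nat_lit 1839755239) (nat_lit 228) (nat_lit 19848217872) (nat_lit 76) (nat_lit 3877094253) (nat_lit 64) (nat_lit 5) (nat_lit 67) (nat_lit 5) (nat_lit 65) (nat_lit 5) (nat_lit 434) (nat_lit 410) (nat_lit 356)) (XT.lf (nat_lit 0) (nat_lit 4031496022) (nat_lit 152) (nat_lit 7640725923) (nat_lit 228) (nat_lit 15174111730) (nat_lit 62) (nat_lit 5) (nat_lit 64) (nat_lit 5) (nat_lit 65) (nat_lit 5) (nat_lit 435) (nat_lit 410) (nat_lit 355)))) (XT.nd (nat_lit 78) (nat_lit 228) (nat_lit 0) (XT.lf (nat_lit 0) (nat_lit 2207406376) (nat_lit 152) (nat_lit 20552589384) (nat_lit 228) (nat_lit 5446676324) (nat_lit 60) (nat_lit 5) (nat_lit 62) (nat_lit 5) (nat_lit 63) (nat_lit 5) (nat_lit 436) (nat_lit 410) (nat_lit 354)) (XT.nd (nat_lit 78) (nat_lit 0) (nat_lit 0) (XT.lf (nat_lit 0) (nat_lit 123626574) (nat_lit 152) (nat_lit 5274543028) (nat_lit 228)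 (nat_lit 24248667591) (nat_lit 57) (nat_lit 5) (nat_lit 59) (nat_lit 5) (nat_lit 60) (nat_lit 5) (nat_lit 437) (nat_lit 410) (nat_lit 353)) (XT.lf (nat_lit 0) (nat_lit 17525649005) (nat_lit 228) (nat_lit 2244313720) (nat_lit 76) (nat_lit 11397499888) (nat_lit 57) (nat_lit 5) (nat_lit 60) (nat_lit 5) (nat_lit 58) (nat_lit 5) (nat_lit 438) (nat_lit 410) (nat_lit 352))))) (XT.nd (nat_lit 234) (nat_lit 608) (nat_lit 0) (XT.nd (nat_lit 78) (nat_lit 380) (nat_lit 0) (XT.lf (nat_lit 0) (nat_lit 27972331307) (nat_lit 152) (nat_lit 3146789468) (nat_lit 228) (nat_lit 1665832338) (nat_lit 55) (nat_lit 5) (nat_lit 57) (nat_lit 5) (nat_lit 58) (nat_lit 5) (nat_lit 439) (nat_lit 410) (nat_lit 351)) (XT.nd (nat_lit 78) (nat_lit 152) (nat_lit 0) (XT.lf (nat_lit 0) (nat_lit 11577885875) (nat_lit 228) (nat_lit 7955124247) (nat_lit 76) (nat_lit 14956524886) (nat_lit 52) (nat_lit 5) (nat_lit 55) (nat_lit 5) (nat_lit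 53) (nat_lit 5) (nat_lit 440) (nat_lit 410) (nat_lit 350)) (XT.lf (nat_lit 0) (nat_lit 24900654931) (nat_lit 152) (nat_lit 1422097970) (nat_lit 228) (nat_lit 9981368294) (nat_lit 50) (nat_lit 5) (nat_lit 52) (nat_lit 5) (nat_lit 53) (nat_lit 5) (nat_lit 441) (nat_lit 410) (nat_lit 349)))) (XT.nd (nat_lit 156) (nat_lit 304) (nat_lit 0) (XT.nd (nat_lit 78) (nat_lit 152) (nat_lit 0) (XT.lf (nat_lit 0) (nat_lit 4621548658) (nat_lit 152) (nat_lit 15491615455) (nat_lit 76) (nat_lit 18109318770) (nat_lit 48) (nat_lit 5) (nat_lit 50) (nat_lit 5) (nat_lit 49) (nat_lit 5) (nat_lit 442) (nat_lit 410) (nat_lit 348)) (XT.lf (nat_lit 0) (nat_lit 20120966941) (nat_lit 152) (nat_lit 440802446) (nat_lit 228) (nat_lit 19698427390) (nat_lit 46) (nat_lit 5) (nat_lit 48) (nat_lit 5) (nat_lit 49) (nat_lit 5) (nat_lit 443) (nat_lit 410) (nat_lit 347))) (XT.nd (nat_lit 78) (nat_lit 228) (nat_lit 0) (XT.lf (nat_lit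 0) (nat_lit 16853286219) (nat_lit 76) (nat_lit 21761152825) (nat_lit 152) (nat_lit 3804630107) (nat_lit 45) (nat_lit 5) (nat_lit 46) (nat_lit 5) (nat_lit 47) (nat_lit 4) (nat_lit 444) (nat_lit 410) (nat_lit 346)) (XT.lf (nat_lit 0) (nat_lit 12939593392) (nat_lit 152) (nat_lit 535252754) (nat_lit 228) (nat_lit 31238287874) (nat_lit 42) (nat_lit 5) (nat_lit 44) (nat_lit 5) (nat_lit 45) (nat_lit 5) (nat_lit 445) (nat_lit 410) (nat_lit 345)))))) (XT.nd (nat_lit 468) (nat_lit 608) (nat_lit 0) (XT.nd (nat_lit 234) (nat_lit 304) (nat_lit 0) (XT.nd (nat_lit 78) (nat_lit 228) (nat_lit 0) (XT.lf (nat_lit 0) (nat_lit 8064005608) (nat_lit 76) (nat_lit 24845873581) (nat_lit 152) (nat_lit 14232404014) (nat_lit 41) (nat_lit 5) (nat_lit 42) (nat_lit 5) (nat_lit 43) (nat_lit 4) (nat_lit 446) (nat_lit 410) (nat_lit 344)) (XT.nd (nat_lit 78) (nat_lit 0) (nat_lit 0) (XT.lf (nat_lit 0) (nat_lit 2438637486) (nat_lit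 152) (nat_lit 2149990434) (nat_lit 228) (nat_lit 45144561904) (nat_lit 38) (nat_lit 5) (nat_lit 40) (nat_lit 5) (nat_lit 41) (nat_lit 5) (nat_lit 447) (nat_lit 410) (nat_lit 343)) (XT.lf (nat_lit 0) (nat_lit 25442486601) (nat_lit 228) (nat_lit 4466060756) (nat_lit 76) (nat_lit 22559868753) (nat_lit 38) (nat_lit 5) (nat_lit 41) (nat_lit 5) (nat_lit 39) (nat_lit 4) (nat_lit 448) (nat_lit 410) (nat_lit 342)))) (XT.nd (nat_lit 78) (nat_lit 228) (nat_lit 0) (XT.lf (nat_lit 0) (nat_lit 43093921022) (nat_lit 76) (nat_lit 5559531943) (nat_lit 152) (nat_lit 6734569395) (nat_lit 37) (nat_lit 5) (nat_lit 38) (nat_lit 5) (nat_lit 39) (nat_lit 4) (nat_lit 449) (nat_lit 410) (nat_lit 341)) (XT.nd (nat_lit 78) (nat_lit 76) (nat_lit 0) (XT.lf (nat_lit 0) (nat_lit 15669322904) (nat_lit 152) (nat_lit 21845973961) (nat_lit 76) (nat_lit 20965297576) (nat_lit 35) (nat_lit 5) (nat_lit 37) (nat_lit 5) (nat_lit 36)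 (nat_lit 4) (nat_lit 450) (nat_lit 410) (nat_lit 340)) (XT.lf (nat_lit 0) (nat_lit 28781261633) (nat_lit 76) (nat_lit 11593235194) (nat_lit 152) (nat_lit 21403310964) (nat_lit 34) (nat_lit 5) (nat_lit 35) (nat_lit 5) (nat_lit 36) (nat_lit 4) (nat_lit 451) (nat_lit 410) (nat_lit 339))))) (XT.nd (nat_lit 234) (nat_lit 380) (nat_lit 0) (XT.nd (nat_lit 78) (nat_lit 76) (nat_lit 0) (XT.lf (nat_lit 0) (nat_lit 2602318763) (nat_lit 152) (nat_lit 46097119870) (nat_lit 76) (nat_lit 16591020488) (nat_lit 32) (nat_lit 5) (nat_lit 34) (nat_lit 5) (nat_lit 33) (nat_lit 4) (nat_lit 452) (nat_lit 410) (nat_lit 338)) (XT.nd (nat_lit 78) (nat_lit 0) (nat_lit 0) (XT.lf (nat_lit 0) (nat_lit 7315602802) (nat_lit 76) (nat_lit 21349019762) (nat_lit 152) (nat_lit 40357652929) (nat_lit 31) (nat_lit 5) (nat_lit 32) (nat_lit 5) (nat_lit 33) (nat_lit 4) (nat_lit 453) (nat_lit 410) (nat_lit 337)) (XT.lf (nat_lit 0) (nat_lit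 57738650928) (nat_lit 152) (nat_lit 6539249380) (nat_lit 0) (nat_lit 8728400970) (nat_lit 31) (nat_lit 5) (nat_lit 33) (nat_lit 4) (nat_lit 31) (nat_lit 4) (nat_lit 454) (nat_lit 410) (nat_lit 336)))) (XT.nd (nat_lit 156) (nat_lit 152) (nat_lit 0) (XT.nd (nat_lit 78) (nat_lit 76) (nat_lit 0) (XT.lf (nat_lit 0) (nat_lit 12663696771) (nat_lit 152) (nat_lit 23061919372) (nat_lit 76) (nat_lit 41513561151) (nat_lit 29) (nat_lit 5) (nat_lit 31) (nat_lit 5) (nat_lit 30) (nat_lit 4) (nat_lit 455) (nat_lit 410) (nat_lit 335)) (XT.lf (nat_lit 0) (nat_lit 39143218469) (nat_lit 76) (nat_lit 3869979958) (nat_lit 152) (nat_lit 38749043868) (nat_lit 28) (nat_lit 5) (nat_lit 29) (nat_lit 5) (nat_lit 30) (nat_lit 4) (nat_lit 456) (nat_lit 410) (nat_lit 334))) (XT.nd (nat_lit 78) (nat_lit 76) (nat_lit 0) (XT.lf (nat_lit 0) (nat_lit 20670367616) (nat_lit 76) (nat_lit 56313021690) (nat_lit 76) (nat_lit 9604127578)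 (nat_lit 27) (nat_lit 4) (nat_lit 28) (nat_lit 5) (nat_lit 28) (nat_lit 4) (nat_lit 457) (nat_lit 410) (nat_lit 333)) (XT.lf (nat_lit 0) (nat_lit 21977566666) (nat_lit 152) (nat_lit 1664142156) (nat_lit 76) (nat_lit 68099769031) (nat_lit 26) (nat_lit 5) (nat_lit 28) (nat_lit 5) (nat_lit 27) (nat_lit 4) (nat_lit 458) (nat_lit 410) (nat_lit 332))))))) (XT.nd (nat_lit 1014) (nat_lit 532) (nat_lit 0) (XT.nd (nat_lit 468) (nat_lit 456) (nat_lit 0) (XT.nd (nat_lit 234) (nat_lit 228) (nat_lit 0) (XT.nd (nat_lit 78) (nat_lit 228) (nat_lit 0) (XT.lf (nat_lit 0) (nat_lit 57031777899) (nat_lit 152) (nat_lit 27673850551) (nat_lit 0) (nat_lit 12530132539) (nat_lit 25) (nat_lit 5) (nat_lit 27) (nat_lit 4) (nat_lit 25) (nat_lit 4) (nat_lit 459) (nat_lit 410) (nat_lit 331)) (XT.nd (nat_lit 78) (nat_lit 152) (nat_lit 0) (XT.lf (nat_lit 0) (nat_lit 44372857704) (nat_lit 76) (nat_lit 51625272761) (nat_lit 76)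 (nat_lit 7116066726) (nat_lit 24) (nat_lit 4) (nat_lit 25) (nat_lit 5) (nat_lit 25) (nat_lit 4) (nat_lit 460) (nat_lit 410) (nat_lit 330)) (XT.lf (nat_lit 0) (nat_lit 13691327503) (nat_lit 76) (nat_lit 14702591600) (nat_lit 152) (nat_lit 81012097746) (nat_lit 22) (nat_lit 5) (nat_lit 23) (nat_lit 5) (nat_lit 24) (nat_lit 4) (nat_lit 461) (nat_lit 410) (nat_lit 329)))) (XT.nd (nat_lit 78) (nat_lit 228) (nat_lit 0) (XT.lf (nat_lit 0) (nat_lit 67919453638) (nat_lit 152) (nat_lit 22687800060) (nat_lit 0) (nat_lit 25516892952) (nat_lit 22) (nat_lit 5) (nat_lit 24) (nat_lit 4) (nat_lit 22) (nat_lit 4) (nat_lit 462) (nat_lit 410) (nat_lit 328)) (XT.nd (nat_lit 78) (nat_lit 152) (nat_lit 0) (XT.lf (nat_lit 0) (nat_lit 57759566427) (nat_lit 76) (nat_lit 53985761418) (nat_lit 76) (nat_lit 11577484630) (nat_lit 21) (nat_lit 4) (nat_lit 22) (nat_lit 5) (nat_lit 22) (nat_lit 4) (nat_lit 463) (nat_lit 410)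 (nat_lit 327)) (XT.lf (nat_lit 0) (nat_lit 14370073573) (nat_lit 76) (nat_lit 13329264499) (nat_lit 152) (nat_lit 103345443225) (nat_lit 19) (nat_lit 5) (nat_lit 20) (nat_lit 5) (nat_lit 21) (nat_lit 4) (nat_lit 464) (nat_lit 410) (nat_lit 326))))) (XT.nd (nat_lit 234) (nat_lit 304) (nat_lit 0) (XT.nd (nat_lit 78) (nat_lit 152) (nat_lit 0) (XT.lf (nat_lit 0) (nat_lit 71345598303) (nat_lit 152) (nat_lit 37000719118) (nat_lit 0) (nat_lit 30947055339) (nat_lit 19) (nat_lit 5) (nat_lit 21) (nat_lit 4) (nat_lit 19) (nat_lit 4) (nat_lit 465) (nat_lit 410) (nat_lit 325)) (XT.nd (nat_lit 78) (nat_lit 76) (nat_lit 0) (XT.lf (nat_lit 0) (nat_lit 50416405556) (nat_lit 76) (nat_lit 69069106610) (nat_lit 76) (nat_lit 28666242097) (nat_lit 18) (nat_lit 4) (nat_lit 19) (nat_lit 5) (nat_lit 19) (nat_lit 4) (nat_lit 466) (nat_lit 410) (nat_lit 324)) (XT.lf (nat_lit 0) (nat_lit 13962914117) (nat_lit 152) (nat_lit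 11782892006) (nat_lit 76) (nat_lit 131929988725) (nat_lit 17) (nat_lit 5) (nat_lit 19) (nat_lit 5) (nat_lit 18) (nat_lit 4) (nat_lit 467) (nat_lit 410) (nat_lit 323)))) (XT.nd (nat_lit 156) (nat_lit 152) (nat_lit 0) (XT.nd (nat_lit 78) (nat_lit 76) (nat_lit 0) (XT.lf (nat_lit 0) (nat_lit 60659299486) (nat_lit 152) (nat_lit 85022860055) (nat_lit 0) (nat_lit 22173041410) (nat_lit 16) (nat_lit 5) (nat_lit 18) (nat_lit 4) (nat_lit 16) (nat_lit 4) (nat_lit 468) (nat_lit 410) (nat_lit 322)) (XT.lf (nat_lit 0) (nat_lit 6347284005) (nat_lit 76) (nat_lit 105477271559) (nat_lit 76) (nat_lit 66987746260) (nat_lit 15) (nat_lit 4) (nat_lit 16) (nat_lit 5) (nat_lit 16) (nat_lit 4) (nat_lit 469) (nat_lit 410) (nat_lit 321))) (XT.nd (nat_lit 78) (nat_lit 152) (nat_lit 0) (XT.lf (nat_lit 0) (nat_lit 108046686464) (nat_lit 76) (nat_lit 60509098707) (nat_lit 76) (nat_lit 22016548200) (nat_lit 15) (nat_lit 4)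 (nat_lit 16) (nat_lit 5) (nat_lit 16) (nat_lit 4) (nat_lit 470) (nat_lit 410) (nat_lit 320)) (XT.lf (nat_lit 0) (nat_lit 14647603323) (nat_lit 76) (nat_lit 11275789334) (nat_lit 152) (nat_lit 177318002791) (nat_lit 13) (nat_lit 5) (nat_lit 14) (nat_lit 5) (nat_lit 15) (nat_lit 4) (nat_lit 471) (nat_lit 410) (nat_lit 319)))))) (XT.nd (nat_lit 546) (nat_lit 228) (nat_lit 0) (XT.nd (nat_lit 234) (nat_lit 228) (nat_lit 0) (XT.nd (nat_lit 78) (nat_lit 76) (nat_lit 0) (XT.lf (nat_lit 0) (nat_lit 79045143300) (nat_lit 152) (nat_lit 95374461157) (nat_lit 0) (nat_lit 42380433536) (nat_lit 13) (nat_lit 5) (nat_lit 15) (nat_lit 4) (nat_lit 13) (nat_lit 4) (nat_lit 472) (nat_lit 410) (nat_lit 318)) (XT.nd (nat_lit 78) (nat_lit 0) (nat_lit 0) (XT.lf (nat_lit 0) (nat_lit 5266866582) (nat_lit 76) (nat_lit 131415117482) (nat_lit 76) (nat_lit 94748120568) (nat_lit 12) (nat_lit 4) (nat_lit 13) (nat_lit 5) (nat_lit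 13) (nat_lit 4) (nat_lit 473) (nat_lit 410) (nat_lit 317)) (XT.lf (nat_lit 0) (nat_lit 117351907930) (nat_lit 76) (nat_lit 83232525221) (nat_lit 76) (nat_lit 46563410576) (nat_lit 12) (nat_lit 4) (nat_lit 13) (nat_lit 5) (nat_lit 13) (nat_lit 4) (nat_lit 474) (nat_lit 410) (nat_lit 316)))) (XT.nd (nat_lit 156) (nat_lit 76) (nat_lit 0) (XT.nd (nat_lit 78) (nat_lit 76) (nat_lit 0) (XT.lf (nat_lit 0) (nat_lit 5294501524) (nat_lit 152) (nat_lit 25817347380) (nat_lit 76) (nat_lit 233007193661) (nat_lit 11) (nat_lit 5) (nat_lit 13) (nat_lit 5) (nat_lit 12) (nat_lit 4) (nat_lit 475) (nat_lit 410) (nat_lit 315)) (XT.lf (nat_lit 0) (nat_lit 61496183693) (nat_lit 152) (nat_lit 194252641702) (nat_lit 0) (nat_lit 26569620722) (nat_lit 10) (nat_lit 5) (nat_lit 12) (nat_lit 4) (nat_lit 10) (nat_lit 4) (nat_lit 476) (nat_lit 410) (nat_lit 314))) (XT.nd (nat_lit 78) (nat_lit 76) (nat_lit 0) (XT.lf (nat_lit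 0) (nat_lit 123170029268) (nat_lit 152) (nat_lit 90513106152) (nat_lit 0) (nat_lit 88241865228) (nat_lit 10) (nat_lit 5) (nat_lit 12) (nat_lit 4) (nat_lit 10) (nat_lit 4) (nat_lit 477) (nat_lit 410) (nat_lit 313)) (XT.lf (nat_lit 0) (nat_lit 22226466218) (nat_lit 76) (nat_lit 167893085743) (nat_lit 76) (nat_lit 132963439231) (nat_lit 9) (nat_lit 4) (nat_lit 10) (nat_lit 5) (nat_lit 10) (nat_lit 4) (nat_lit 478) (nat_lit 410) (nat_lit 312))))) (XT.nd (nat_lit 234) (nat_lit 76) (nat_lit 0) (XT.nd (nat_lit 78) (nat_lit 152) (nat_lit 0) (XT.lf (nat_lit 0) (nat_lit 147207343279) (nat_lit 76) (nat_lit 116789356901) (nat_lit 76) (nat_lit 81858337730) (nat_lit 9) (nat_lit 4) (nat_lit 10) (nat_lit 5) (nat_lit 10) (nat_lit 4) (nat_lit 479) (nat_lit 410) (nat_lit 311)) (XT.nd (nat_lit 78) (nat_lit 152) (nat_lit 0) (XT.lf (nat_lit 0) (nat_lit 282177380393) (nat_lit 76) (nat_lit 61601995232) (nat_lit 76)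 (nat_lit 26669705079) (nat_lit 9) (nat_lit 4) (nat_lit 10) (nat_lit 5) (nat_lit 10) (nat_lit 4) (nat_lit 480) (nat_lit 410) (nat_lit 310)) (XT.lf (nat_lit 0) (nat_lit 31416954890) (nat_lit 76) (nat_lit 949104561) (nat_lit 152) (nat_lit 364594571174) (nat_lit 7) (nat_lit 5) (nat_lit 8) (nat_lit 5) (nat_lit 9) (nat_lit 4) (nat_lit 481) (nat_lit 410) (nat_lit 309)))) (XT.nd (nat_lit 156) (nat_lit 76) (nat_lit 0) (XT.nd (nat_lit 78) (nat_lit 0) (nat_lit 0) (XT.lf (nat_lit 0) (nat_lit 97769299868) (nat_lit 152) (nat_lit 263174701243) (nat_lit 0) (nat_lit 64498293537) (nat_lit 7) (nat_lit 5) (nat_lit 9) (nat_lit 4) (nat_lit 7) (nat_lit 4) (nat_lit 482) (nat_lit 410) (nat_lit 308)) (XT.lf (nat_lit 0) (nat_lit 168416873564) (nat_lit 152) (nat_lit 152640108277) (nat_lit 0) (nat_lit 135144906332) (nat_lit 7) (nat_lit 5) (nat_lit 9) (nat_lit 4) (nat_lit 7) (nat_lit 4) (nat_lit 483) (nat_lit 410) (nat_lit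 307))) (XT.nd (nat_lit 78) (nat_lit 76) (nat_lit 0) (XT.lf (nat_lit 0) (nat_lit 244712614645) (nat_lit 152) (nat_lit 33270058844) (nat_lit 0) (nat_lit 211439757691) (nat_lit 7) (nat_lit 5) (nat_lit 9) (nat_lit 4) (nat_lit 7) (nat_lit 4) (nat_lit 484) (nat_lit 410) (nat_lit 306)) (XT.lf (nat_lit 0) (nat_lit 98805208860) (nat_lit 76) (nat_lit 229846063374) (nat_lit 76) (nat_lit 196572382603) (nat_lit 6) (nat_lit 4) (nat_lit 7) (nat_lit 5) (nat_lit 7) (nat_lit 4) (nat_lit 485) (nat_lit 410) (nat_lit 305))))))))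
noncomputable def xc65 : XT := (XT.nd (nat_lit 57720) (nat_lit 0) (nat_lit 2432) (XT.nd (nat_lit 56706) (nat_lit 0) (nat_lit 7068) (XT.nd (nat_lit 468) (nat_lit 76) (nat_lit 0) (XT.nd (nat_lit 234) (nat_lit 152) (nat_lit 0) (XT.nd (nat_lit 78) (nat_lit 0) (nat_lit 0) (XT.lf (nat_lit 0) (nat_lit 242628085823) (nat_lit 76) (nat_lit 177253259035) (nat_lit 76) (nat_lit 143978815470) (nat_lit 6) (nat_lit 4) (nat_lit 7) (nat_lit 5) (nat_lit 7) (nat_lit 4) (nat_lit 486) (nat_lit 410) (nat_lit 304)) (XT.nd (nat_lit 78) (nat_lit 0) (nat_lit 0) (XT.lf (nat_lit 0) (nat_lit 397950797362) (nat_lit 76) (nat_lit 120456043956) (nat_lit 76) (nat_lit 87180894100) (nat_lit 6) (nat_lit 4) (nat_lit 7) (nat_lit 5) (nat_lit 7) (nat_lit 4) (nat_lit 487) (nat_lit 410) (nat_lit 303)) (XT.lf (nat_lit 0) (nat_lit 565693774362) (nat_lit 76) (nat_lit 59117842045) (nat_lit 76) (nat_lit 25842038217) (nat_lit 6) (nat_lit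 4) (nat_lit 7) (nat_lit 5) (nat_lit 7) (nat_lit 4) (nat_lit 488) (nat_lit 410) (nat_lit 302)))) (XT.nd (nat_lit 78) (nat_lit 0) (nat_lit 0) (XT.lf (nat_lit 0) (nat_lit 39998504217) (nat_lit 152) (nat_lit 650943728690) (nat_lit 0) (nat_lit 8306685780) (nat_lit 4) (nat_lit 5) (nat_lit 6) (nat_lit 4) (nat_lit 4) (nat_lit 4) (nat_lit 489) (nat_lit 410) (nat_lit 301)) (XT.nd (nat_lit 78) (nat_lit 0) (nat_lit 0) (XT.lf (nat_lit 0) (nat_lit 112711534076) (nat_lit 152) (nat_lit 557854375025) (nat_lit 0) (nat_lit 81019181662) (nat_lit 4) (nat_lit 5) (nat_lit 6) (nat_lit 4) (nat_lit 4) (nat_lit 4) (nat_lit 490) (nat_lit 410) (nat_lit 300)) (XT.lf (nat_lit 0) (nat_lit 191239269884) (nat_lit 152) (nat_lit 457322580540) (nat_lit 0) (nat_lit 159546423046) (nat_lit 4) (nat_lit 5) (nat_lit 6) (nat_lit 4) (nat_lit 4) (nat_lit 4) (nat_lit 491) (nat_lit 410) (nat_lit 299))))) (XT.nd (nat_lit 234) (nat_lit 76)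 (nat_lit 0) (XT.nd (nat_lit 78) (nat_lit 0) (nat_lit 0) (XT.lf (nat_lit 0) (nat_lit 276047061186) (nat_lit 152) (nat_lit 348752601266) (nat_lit 0) (nat_lit 244353756549) (nat_lit 4) (nat_lit 5) (nat_lit 6) (nat_lit 4) (nat_lit 4) (nat_lit 4) (nat_lit 492) (nat_lit 410) (nat_lit 298)) (XT.nd (nat_lit 78) (nat_lit 0) (nat_lit 0) (XT.lf (nat_lit 0) (nat_lit 367637472671) (nat_lit 152) (nat_lit 231501059549) (nat_lit 0) (nat_lit 335943744145) (nat_lit 4) (nat_lit 5) (nat_lit 6) (nat_lit 4) (nat_lit 4) (nat_lit 4) (nat_lit 493) (nat_lit 410) (nat_lit 297)) (XT.lf (nat_lit 0) (nat_lit 466553262333) (nat_lit 152) (nat_lit 104873131438) (nat_lit 0) (nat_lit 434859141318) (nat_lit 4) (nat_lit 5) (nat_lit 6) (nat_lit 4) (nat_lit 4) (nat_lit 4) (nat_lit 494) (nat_lit 410) (nat_lit 296)))) (XT.nd (nat_lit 156) (nat_lit 0) (nat_lit 0) (XT.nd (nat_lit 78) (nat_lit 0) (nat_lit 0) (XT.lf (nat_lit 0) (nat_lit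 32935719500) (nat_lit 76) (nat_lit 540959097198) (nat_lit 76) (nat_lit 509264612767) (nat_lit 3) (nat_lit 4) (nat_lit 4) (nat_lit 5) (nat_lit 4) (nat_lit 4) (nat_lit 495) (nat_lit 410) (nat_lit 295)) (XT.lf (nat_lit 0) (nat_lit 185510954448) (nat_lit 76) (nat_lit 506137921437) (nat_lit 76) (nat_lit 474443100510) (nat_lit 3) (nat_lit 4) (nat_lit 4) (nat_lit 5) (nat_lit 4) (nat_lit 4) (nat_lit 496) (nat_lit 410) (nat_lit 294))) (XT.nd (nat_lit 55770) (nat_lit 0) (nat_lit 10108) (XT.lf (nat_lit 0) (nat_lit 350289143600) (nat_lit 76) (nat_lit 468532596007) (nat_lit 76) (nat_lit 436837463510) (nat_lit 3) (nat_lit 4) (nat_lit 4) (nat_lit 5) (nat_lit 4) (nat_lit 4) (nat_lit 497) (nat_lit 410) (nat_lit 293)) (XT.lf (nat_lit 0) (nat_lit 774634435) (nat_lit 0) (nat_lit 774634435) (nat_lit 684) (nat_lit 3433416102) (nat_lit 136) (nat_lit 5) (nat_lit 136) (nat_lit 3) (nat_lit 145) (nat_lit 3) (nat_lit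 411) (nat_lit 411) (nat_lit 378)))))) (XT.nd (nat_lit 468) (nat_lit 2508) (nat_lit 0) (XT.nd (nat_lit 234) (nat_lit 532) (nat_lit 0) (XT.nd (nat_lit 78) (nat_lit 0) (nat_lit 76) (XT.lf (nat_lit 0) (nat_lit 4407985436) (nat_lit 684) (nat_lit 677117698) (nat_lit 760) (nat_lit 5219148819) (nat_lit 136) (nat_lit 5) (nat_lit 145) (nat_lit 3) (nat_lit 146) (nat_lit 5) (nat_lit 412) (nat_lit 411) (nat_lit 377)) (XT.nd (nat_lit 78) (nat_lit 0) (nat_lit 0) (XT.lf (nat_lit 0) (nat_lit 5892420036) (nat_lit 684) (nat_lit 2854862955) (nat_lit 760) (nat_lit 1919495748) (nat_lit 137) (nat_lit 5) (nat_lit 146) (nat_lit 5) (nat_lit 147) (nat_lit 5) (nat_lit 413) (nat_lit 411) (nat_lit 376)) (XT.lf (nat_lit 76) (nat_lit 5987575167) (nat_lit 0) (nat_lit 1597779857) (nat_lit 760) (nat_lit 3468507742) (nat_lit 138) (nat_lit 5) (nat_lit 137) (nat_lit 5) (nat_lit 147) (nat_lit 5) (nat_lit 414) (nat_lit 411) (nat_lit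 375)))) (XT.nd (nat_lit 78) (nat_lit 684) (nat_lit 0) (XT.lf (nat_lit 76) (nat_lit 4138820321) (nat_lit 0) (nat_lit 5391273297) (nat_lit 760) (nat_lit 1936040697) (nat_lit 139) (nat_lit 5) (nat_lit 138) (nat_lit 5) (nat_lit 148) (nat_lit 5) (nat_lit 415) (nat_lit 411) (nat_lit 374)) (XT.nd (nat_lit 78) (nat_lit 760) (nat_lit 0) (XT.lf (nat_lit 76) (nat_lit 2293251883) (nat_lit 0) (nat_lit 9438535149) (nat_lit 760) (nat_lit 174568104) (nat_lit 140) (nat_lit 5) (nat_lit 139) (nat_lit 5) (nat_lit 149) (nat_lit 5) (nat_lit 416) (nat_lit 411) (nat_lit 373)) (XT.lf (nat_lit 76) (nat_lit 393450983) (nat_lit 0) (nat_lit 1421917841) (nat_lit 836) (nat_lit 10557965649) (nat_lit 130) (nat_lit 5) (nat_lit 129) (nat_lit 5) (nat_lit 140) (nat_lit 5) (nat_lit 417) (nat_lit 411) (nat_lit 372))))) (XT.nd (nat_lit 234) (nat_lit 1444) (nat_lit 0) (XT.nd (nat_lit 78) (nat_lit 1140) (nat_lit 0) (XT.lf (nat_lit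 0) (nat_lit 4163098275) (nat_lit 760) (nat_lit 1514200817) (nat_lit 76) (nat_lit 7190023964) (nat_lit 130) (nat_lit 5) (nat_lit 140) (nat_lit 5) (nat_lit 131) (nat_lit 5) (nat_lit 418) (nat_lit 411) (nat_lit 371)) (XT.nd (nat_lit 78) (nat_lit 380) (nat_lit 0) (XT.lf (nat_lit 0) (nat_lit 6856531926) (nat_lit 836) (nat_lit 3425033672) (nat_lit 76) (nat_lit 3111398305) (nat_lit 120) (nat_lit 5) (nat_lit 131) (nat_lit 5) (nat_lit 121) (nat_lit 5) (nat_lit 419) (nat_lit 411) (nat_lit 370)) (XT.lf (nat_lit 0) (nat_lit 8576113947) (nat_lit 380) (nat_lit 1377553941) (nat_lit 456) (nat_lit 3997602183) (nat_lit 115) (nat_lit 5) (nat_lit 120) (nat_lit 5) (nat_lit 121) (nat_lit 5) (nat_lit 420) (nat_lit 411) (nat_lit 369)))) (XT.nd (nat_lit 156) (nat_lit 608) (nat_lit 0) (XT.nd (nat_lit 78) (nat_lit 456) (nat_lit 0) (XT.lf (nat_lit 0) (nat_lit 7141381242) (nat_lit 380) (nat_lit 6393847842) (nat_lit 456)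 (nat_lit 1007202482) (nat_lit 110) (nat_lit 5) (nat_lit 115) (nat_lit 5) (nat_lit 116) (nat_lit 5) (nat_lit 421) (nat_lit 411) (nat_lit 368)) (XT.lf (nat_lit 0) (nat_lit 2351500482) (nat_lit 456) (nat_lit 9491612891) (nat_lit 76) (nat_lit 3326048312) (nat_lit 104) (nat_lit 5) (nat_lit 110) (nat_lit 5) (nat_lit 105) (nat_lit 5) (nat_lit 422) (nat_lit 411) (nat_lit 367))) (XT.nd (nat_lit 78) (nat_lit 304) (nat_lit 0) (XT.lf (nat_lit 0) (nat_lit 4168480025) (nat_lit 304) (nat_lit 2021673886) (nat_lit 380) (nat_lit 9642742871) (nat_lit 100) (nat_lit 5) (nat_lit 104) (nat_lit 5) (nat_lit 105) (nat_lit 5) (nat_lit 423) (nat_lit 411) (nat_lit 366)) (XT.lf (nat_lit 0) (nat_lit 2600372521) (nat_lit 304) (nat_lit 8023550104) (nat_lit 380) (nat_lit 5911424716) (nat_lit 96) (nat_lit 5) (nat_lit 100) (nat_lit 5) (nat_lit 101) (nat_lit 5) (nat_lit 424) (nat_lit 411) (nat_lit 365))))))) (XT.nd (nat_lit 1014)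 (nat_lit 1900) (nat_lit 0) (XT.nd (nat_lit 468) (nat_lit 1368) (nat_lit 0) (XT.nd (nat_lit 234) (nat_lit 760) (nat_lit 0) (XT.nd (nat_lit 78) (nat_lit 380) (nat_lit 0) (XT.lf (nat_lit 0) (nat_lit 1031182693) (nat_lit 228) (nat_lit 14625038902) (nat_lit 304) (nat_lit 1625597399) (nat_lit 93) (nat_lit 5) (nat_lit 96) (nat_lit 5) (nat_lit 97) (nat_lit 5) (nat_lit 425) (nat_lit 411) (nat_lit 364)) (XT.nd (nat_lit 78) (nat_lit 304) (nat_lit 0) (XT.lf (nat_lit 0) (nat_lit 3239287574) (nat_lit 304) (nat_lit 633203599) (nat_lit 76) (nat_lit 14196571941) (nat_lit 92) (nat_lit 5) (nat_lit 96) (nat_lit 5) (nat_lit 93) (nat_lit 5) (nat_lit 426) (nat_lit 411) (nat_lit 363)) (XT.lf (nat_lit 0) (nat_lit 8776964337) (nat_lit 380) (nat_lit 2351176848) (nat_lit 76) (nat_lit 7772798884) (nat_lit 88) (nat_lit 5) (nat_lit 93) (nat_lit 5) (nat_lit 89) (nat_lit 5) (nat_lit 427) (nat_lit 411) (nat_lit 362)))) (XT.nd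 (nat_lit 78) (nat_lit 532) (nat_lit 0) (XT.lf (nat_lit 0) (nat_lit 15046293549) (nat_lit 304) (nat_lit 4085651605) (nat_lit 76) (nat_lit 653002573) (nat_lit 85) (nat_lit 5) (nat_lit 89) (nat_lit 5) (nat_lit 86) (nat_lit 5) (nat_lit 428) (nat_lit 411) (nat_lit 361)) (XT.nd (nat_lit 78) (nat_lit 228) (nat_lit 0) (XT.lf (nat_lit 0) (nat_lit 1468133636) (nat_lit 304) (nat_lit 5975477233) (nat_lit 76) (nat_lit 13273978635) (nat_lit 81) (nat_lit 5) (nat_lit 85) (nat_lit 5) (nat_lit 82) (nat_lit 5) (nat_lit 429) (nat_lit 411) (nat_lit 360)) (XT.lf (nat_lit 0) (nat_lit 8342205918) (nat_lit 304) (nat_lit 7989934438) (nat_lit 76) (nat_lit 5371990260) (nat_lit 78) (nat_lit 5) (nat_lit 82) (nat_lit 5) (nat_lit 79) (nat_lit 5) (nat_lit 430) (nat_lit 411) (nat_lit 359))))) (XT.nd (nat_lit 234) (nat_lit 684) (nat_lit 0) (XT.nd (nat_lit 78) (nat_lit 456) (nat_lit 0) (XT.lf (nat_lit 0) (nat_lit 12650176331)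 (nat_lit 228) (nat_lit 3506733427) (nat_lit 304) (nat_lit 6593159393) (nat_lit 75) (nat_lit 5) (nat_lit 78) (nat_lit 5) (nat_lit 79) (nat_lit 5) (nat_lit 431) (nat_lit 411) (nat_lit 358)) (XT.nd (nat_lit 78) (nat_lit 228) (nat_lit 0) (XT.lf (nat_lit 0) (nat_lit 1147660592) (nat_lit 228) (nat_lit 12372059361) (nat_lit 76) (nat_lit 10336736056) (nat_lit 72) (nat_lit 5) (nat_lit 75) (nat_lit 5) (nat_lit 73) (nat_lit 5) (nat_lit 432) (nat_lit 411) (nat_lit 357)) (XT.lf (nat_lit 0) (nat_lit 9651106540) (nat_lit 304) (nat_lit 14822808010) (nat_lit 76) (nat_lit 553325102) (nat_lit 69) (nat_lit 5) (nat_lit 73) (nat_lit 5) (nat_lit 70) (nat_lit 5) (nat_lit 433) (nat_lit 411) (nat_lit 356)))) (XT.nd (nat_lit 156) (nat_lit 304) (nat_lit 0) (XT.nd (nat_lit 78) (nat_lit 228) (nat_lit 0) (XT.lf (nat_lit 0) (nat_lit 8743767496) (nat_lit 152) (nat_lit 10641035924) (nat_lit 228) (nat_lit 6879390928) (nat_lit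 67) (nat_lit 5) (nat_lit 69) (nat_lit 5) (nat_lit 70) (nat_lit 5) (nat_lit 434) (nat_lit 411) (nat_lit 355)) (XT.lf (nat_lit 0) (nat_lit 2640845697) (nat_lit 228) (nat_lit 20375338034) (nat_lit 76) (nat_lit 4561270954) (nat_lit 64) (nat_lit 5) (nat_lit 67) (nat_lit 5) (nat_lit 65) (nat_lit 5) (nat_lit 435) (nat_lit 411) (nat_lit 354))) (XT.nd (nat_lit 78) (nat_lit 152) (nat_lit 0) (XT.lf (nat_lit 0) (nat_lit 5368654622) (nat_lit 152) (nat_lit 7858658694) (nat_lit 228) (nat_lit 15735547885) (nat_lit 62) (nat_lit 5) (nat_lit 64) (nat_lit 5) (nat_lit 65) (nat_lit 5) (nat_lit 436) (nat_lit 411) (nat_lit 353)) (XT.lf (nat_lit 0) (nat_lit 3378492959) (nat_lit 152) (nat_lit 21798805714) (nat_lit 228) (nat_lit 5255976934) (nat_lit 60) (nat_lit 5) (nat_lit 62) (nat_lit 5) (nat_lit 63) (nat_lit 5) (nat_lit 437) (nat_lit 411) (nat_lit 352)))))) (XT.nd (nat_lit 546) (nat_lit 836) (nat_lit 0) (XT.nd (nat_lit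 234) (nat_lit 684) (nat_lit 0) (XT.nd (nat_lit 78) (nat_lit 152) (nat_lit 0) (XT.lf (nat_lit 0) (nat_lit 1104065445) (nat_lit 152) (nat_lit 5302577111) (nat_lit 228) (nat_lit 25583017980) (nat_lit 57) (nat_lit 5) (nat_lit 59) (nat_lit 5) (nat_lit 60) (nat_lit 5) (nat_lit 438) (nat_lit 411) (nat_lit 351)) (XT.nd (nat_lit 78) (nat_lit 152) (nat_lit 0) (XT.lf (nat_lit 0) (nat_lit 19467302524) (nat_lit 228) (nat_lit 1504116191) (nat_lit 76) (nat_lit 12662375027) (nat_lit 57) (nat_lit 5) (nat_lit 60) (nat_lit 5) (nat_lit 58) (nat_lit 5) (nat_lit 439) (nat_lit 411) (nat_lit 350)) (XT.lf (nat_lit 0) (nat_lit 31089889545) (nat_lit 152) (nat_lit 3032127705) (nat_lit 228) (nat_lit 1259984328) (nat_lit 55) (nat_lit 5) (nat_lit 57) (nat_lit 5) (nat_lit 58) (nat_lit 5) (nat_lit 440) (nat_lit 411) (nat_lit 349)))) (XT.nd (nat_lit 156) (nat_lit 304) (nat_lit 0) (XT.nd (nat_lit 78) (nat_lit 152) (nat_lit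 0) (XT.lf (nat_lit 0) (nat_lit 13006361887) (nat_lit 228) (nat_lit 7714162892) (nat_lit 76) (nat_lit 16502990716) (nat_lit 52) (nat_lit 5) (nat_lit 55) (nat_lit 5) (nat_lit 53) (nat_lit 5) (nat_lit 441) (nat_lit 411) (nat_lit 348)) (XT.lf (nat_lit 0) (nat_lit 27731949133) (nat_lit 152) (nat_lit 1174768714) (nat_lit 228) (nat_lit 10277760941) (nat_lit 50) (nat_lit 5) (nat_lit 52) (nat_lit 5) (nat_lit 53) (nat_lit 5) (nat_lit 442) (nat_lit 411) (nat_lit 347))) (XT.nd (nat_lit 78) (nat_lit 152) (nat_lit 0) (XT.lf (nat_lit 0) (nat_lit 5459638040) (nat_lit 152) (nat_lit 15895094254) (nat_lit 76) (nat_lit 19902073744) (nat_lit 48) (nat_lit 5) (nat_lit 50) (nat_lit 5) (nat_lit 49) (nat_lit 5) (nat_lit 443) (nat_lit 411) (nat_lit 346)) (XT.lf (nat_lit 0) (nat_lit 22530169693) (nat_lit 152) (nat_lit 122695827) (nat_lit 228) (nat_lit 20805786305) (nat_lit 46) (nat_lit 5) (nat_lit 48) (nat_lit 5) (nat_lit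 49) (nat_lit 5) (nat_lit 444) (nat_lit 411) (nat_lit 345))))) (XT.nd (nat_lit 234) (nat_lit 456) (nat_lit 0) (XT.nd (nat_lit 78) (nat_lit 304) (nat_lit 0) (XT.lf (nat_lit 0) (nat_lit 18982439697) (nat_lit 76) (nat_lit 23151560889) (nat_lit 152) (nat_lit 3657024734) (nat_lit 45) (nat_lit 5) (nat_lit 46) (nat_lit 5) (nat_lit 47) (nat_lit 4) (nat_lit 445) (nat_lit 411) (nat_lit 344)) (XT.nd (nat_lit 78) (nat_lit 76) (nat_lit 0) (XT.lf (nat_lit 0) (nat_lit 14735596938) (nat_lit 152) (nat_lit 234217288) (nat_lit 228) (nat_lit 33299478249) (nat_lit 42) (nat_lit 5) (nat_lit 44) (nat_lit 5) (nat_lit 45) (nat_lit 5) (nat_lit 446) (nat_lit 411) (nat_lit 343)) (XT.lf (nat_lit 0) (nat_lit 9451746197) (nat_lit 76) (nat_lit 26493581542) (nat_lit 152) (nat_lit 14948165166) (nat_lit 41) (nat_lit 5) (nat_lit 42) (nat_lit 5) (nat_lit 43) (nat_lit 4) (nat_lit 447) (nat_lit 411) (nat_lit 342)))) (XT.nd (nat_lit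 156) (nat_lit 228) (nat_lit 0) (XT.nd (nat_lit 78) (nat_lit 0) (nat_lit 0) (XT.lf (nat_lit 0) (nat_lit 3357056838) (nat_lit 152) (nat_lit 1988934064) (nat_lit 228) (nat_lit 48346305160) (nat_lit 38) (nat_lit 5) (nat_lit 40) (nat_lit 5) (nat_lit 41) (nat_lit 5) (nat_lit 448) (nat_lit 411) (nat_lit 341)) (XT.lf (nat_lit 0) (nat_lit 27844063936) (nat_lit 228) (nat_lit 4140311014) (nat_lit 76) (nat_lit 24663172833) (nat_lit 38) (nat_lit 5) (nat_lit 41) (nat_lit 5) (nat_lit 39) (nat_lit 4) (nat_lit 449) (nat_lit 411) (nat_lit 340))) (XT.nd (nat_lit 78) (nat_lit 152) (nat_lit 0) (XT.lf (nat_lit 0) (nat_lit 47194785454) (nat_lit 76) (nat_lit 5700198464) (nat_lit 152) (nat_lit 6906587220) (nat_lit 37) (nat_lit 5) (nat_lit 38) (nat_lit 5) (nat_lit 39) (nat_lit 4) (nat_lit 450) (nat_lit 411) (nat_lit 339)) (XT.lf (nat_lit 0) (nat_lit 17266160161) (nat_lit 152) (nat_lit 22945126167) (nat_lit 76) (nat_lit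 22930564401) (nat_lit 35) (nat_lit 5) (nat_lit 37) (nat_lit 5) (nat_lit 36) (nat_lit 4) (nat_lit 451) (nat_lit 411) (nat_lit 338))))))))
noncomputable def xc66 : XT := (XT.nd (nat_lit 2028) (nat_lit 532) (nat_lit 0) (XT.nd (nat_lit 1014) (nat_lit 836) (nat_lit 0) (XT.nd (nat_lit 468) (nat_lit 532) (nat_lit 0) (XT.nd (nat_lit 234) (nat_lit 228) (nat_lit 0) (XT.nd (nat_lit 78) (nat_lit 228) (nat_lit 0) (XT.lf (nat_lit 0) (nat_lit 31704104138) (nat_lit 76) (nat_lit 12227900136) (nat_lit 152) (nat_lit 22771626037) (nat_lit 34) (nat_lit 5) (nat_lit 35) (nat_lit 5) (nat_lit 36) (nat_lit 4) (nat_lit 452) (nat_lit 411) (nat_lit 337)) (XT.nd (nat_lit 78) (nat_lit 76) (nat_lit 0) (XT.lf (nat_lit 0) (nat_lit 3132681131) (nat_lit 152) (nat_lit 49169516134) (nat_lit 76) (nat_lit 18195367944) (nat_lit 32) (nat_lit 5) (nat_lit 34) (nat_lit 5) (nat_lit 33) (nat_lit 4) (nat_lit 453) (nat_lit 411) (nat_lit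 336)) (XT.lf (nat_lit 0) (nat_lit 8489480976) (nat_lit 76) (nat_lit 22775813470) (nat_lit 152) (nat_lit 43263367799) (nat_lit 31) (nat_lit 5) (nat_lit 32) (nat_lit 5) (nat_lit 33) (nat_lit 4) (nat_lit 454) (nat_lit 411) (nat_lit 335)))) (XT.nd (nat_lit 78) (nat_lit 228) (nat_lit 0) (XT.lf (nat_lit 0) (nat_lit 62646531217) (nat_lit 152) (nat_lit 6507170772) (nat_lit 0) (nat_lit 9678645293) (nat_lit 31) (nat_lit 5) (nat_lit 33) (nat_lit 4) (nat_lit 31) (nat_lit 4) (nat_lit 455) (nat_lit 411) (nat_lit 334)) (XT.nd (nat_lit 78) (nat_lit 76) (nat_lit 0) (XT.lf (nat_lit 0) (nat_lit 13957017032) (nat_lit 152) (nat_lit 24366501517) (nat_lit 76) (nat_lit 45080765223) (nat_lit 29) (nat_lit 5) (nat_lit 31) (nat_lit 5) (nat_lit 30) (nat_lit 4) (nat_lit 456) (nat_lit 411) (nat_lit 333)) (XT.lf (nat_lit 0) (nat_lit 42791563469) (nat_lit 76) (nat_lit 3930228042) (nat_lit 152) (nat_lit 41568038047) (nat_lit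 28) (nat_lit 5) (nat_lit 29) (nat_lit 5) (nat_lit 30) (nat_lit 4) (nat_lit 457) (nat_lit 411) (nat_lit 332))))) (XT.nd (nat_lit 234) (nat_lit 304) (nat_lit 0) (XT.nd (nat_lit 78) (nat_lit 152) (nat_lit 0) (XT.lf (nat_lit 0) (nat_lit 22827507491) (nat_lit 76) (nat_lit 60573738491) (nat_lit 76) (nat_lit 10100298847) (nat_lit 27) (nat_lit 4) (nat_lit 28) (nat_lit 5) (nat_lit 28) (nat_lit 4) (nat_lit 458) (nat_lit 411) (nat_lit 331)) (XT.nd (nat_lit 78) (nat_lit 76) (nat_lit 0) (XT.lf (nat_lit 0) (nat_lit 23979705472) (nat_lit 152) (nat_lit 1322982132) (nat_lit 76) (nat_lit 73765899343) (nat_lit 26) (nat_lit 5) (nat_lit 28) (nat_lit 5) (nat_lit 27) (nat_lit 4) (nat_lit 459) (nat_lit 411) (nat_lit 330)) (XT.lf (nat_lit 0) (nat_lit 61830713904) (nat_lit 152) (nat_lit 29425866653) (nat_lit 0) (nat_lit 13746210086) (nat_lit 25) (nat_lit 5) (nat_lit 27) (nat_lit 4) (nat_lit 25) (nat_lit 4) (nat_lit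 460) (nat_lit 411) (nat_lit 329)))) (XT.nd (nat_lit 156) (nat_lit 76) (nat_lit 0) (XT.nd (nat_lit 78) (nat_lit 152) (nat_lit 0) (XT.lf (nat_lit 0) (nat_lit 48364505001) (nat_lit 76) (nat_lit 55539257052) (nat_lit 76) (nat_lit 7448271174) (nat_lit 24) (nat_lit 4) (nat_lit 25) (nat_lit 5) (nat_lit 25) (nat_lit 4) (nat_lit 461) (nat_lit 411) (nat_lit 328)) (XT.lf (nat_lit 0) (nat_lit 15216519514) (nat_lit 76) (nat_lit 15668118192) (nat_lit 152) (nat_lit 87262890817) (nat_lit 22) (nat_lit 5) (nat_lit 23) (nat_lit 5) (nat_lit 24) (nat_lit 4) (nat_lit 462) (nat_lit 411) (nat_lit 327))) (XT.nd (nat_lit 78) (nat_lit 76) (nat_lit 0) (XT.lf (nat_lit 0) (nat_lit 73559023256) (nat_lit 152) (nat_lit 24097670206) (nat_lit 0) (nat_lit 27747075534) (nat_lit 22) (nat_lit 5) (nat_lit 24) (nat_lit 4) (nat_lit 22) (nat_lit 4) (nat_lit 463) (nat_lit 411) (nat_lit 326)) (XT.lf (nat_lit 0) (nat_lit 62767878107)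 (nat_lit 76) (nat_lit 58113879730) (nat_lit 76) (nat_lit 12297031372) (nat_lit 21) (nat_lit 4) (nat_lit 22) (nat_lit 5) (nat_lit 22) (nat_lit 4) (nat_lit 464) (nat_lit 411) (nat_lit 325)))))) (XT.nd (nat_lit 468) (nat_lit 380) (nat_lit 0) (XT.nd (nat_lit 234) (nat_lit 228) (nat_lit 0) (XT.nd (nat_lit 78) (nat_lit 76) (nat_lit 0) (XT.lf (nat_lit 0) (nat_lit 15896717602) (nat_lit 76) (nat_lit 14209674391) (nat_lit 152) (nat_lit 111412409343) (nat_lit 19) (nat_lit 5) (nat_lit 20) (nat_lit 5) (nat_lit 21) (nat_lit 4) (nat_lit 465) (nat_lit 411) (nat_lit 324)) (XT.nd (nat_lit 78) (nat_lit 76) (nat_lit 0) (XT.lf (nat_lit 0) (nat_lit 77232884855) (nat_lit 152) (nat_lit 39605500999) (nat_lit 0) (nat_lit 33589468197) (nat_lit 19) (nat_lit 5) (nat_lit 21) (nat_lit 4) (nat_lit 19) (nat_lit 4) (nat_lit 466) (nat_lit 411) (nat_lit 323)) (XT.lf (nat_lit 0) (nat_lit 54789553802) (nat_lit 76) (nat_lit 74426437245)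 (nat_lit 76) (nat_lit 30779315556) (nat_lit 18) (nat_lit 4) (nat_lit 19) (nat_lit 5) (nat_lit 19) (nat_lit 4) (nat_lit 467) (nat_lit 411) (nat_lit 322)))) (XT.nd (nat_lit 78) (nat_lit 152) (nat_lit 0) (XT.lf (nat_lit 0) (nat_lit 15241482019) (nat_lit 152) (nat_lit 12405514134) (nat_lit 76) (nat_lit 142634780160) (nat_lit 17) (nat_lit 5) (nat_lit 19) (nat_lit 5) (nat_lit 18) (nat_lit 4) (nat_lit 468) (nat_lit 411) (nat_lit 321)) (XT.nd (nat_lit 78) (nat_lit 76) (nat_lit 0) (XT.lf (nat_lit 0) (nat_lit 65668761089) (nat_lit 152) (nat_lit 91513233736) (nat_lit 0) (nat_lit 24093781335) (nat_lit 16) (nat_lit 5) (nat_lit 18) (nat_lit 4) (nat_lit 16) (nat_lit 4) (nat_lit 469) (nat_lit 411) (nat_lit 320)) (XT.lf (nat_lit 0) (nat_lit 7152986389) (nat_lit 76) (nat_lit 113767293911) (nat_lit 76) (nat_lit 72189513039) (nat_lit 15) (nat_lit 4) (nat_lit 16) (nat_lit 5) (nat_lit 16) (nat_lit 4) (nat_lit 470)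 (nat_lit 411) (nat_lit 319))))) (XT.nd (nat_lit 234) (nat_lit 228) (nat_lit 0) (XT.nd (nat_lit 78) (nat_lit 152) (nat_lit 0) (XT.lf (nat_lit 0) (nat_lit 116966272921) (nat_lit 76) (nat_lit 65212641999) (nat_lit 76) (nat_lit 23632267500) (nat_lit 15) (nat_lit 4) (nat_lit 16) (nat_lit 5) (nat_lit 16) (nat_lit 4) (nat_lit 471) (nat_lit 411) (nat_lit 318)) (XT.nd (nat_lit 78) (nat_lit 0) (nat_lit 0) (XT.lf (nat_lit 0) (nat_lit 16087736577) (nat_lit 76) (nat_lit 12044220780) (nat_lit 152) (nat_lit 191362011293) (nat_lit 13) (nat_lit 5) (nat_lit 14) (nat_lit 5) (nat_lit 15) (nat_lit 4) (nat_lit 472) (nat_lit 411) (nat_lit 317)) (XT.lf (nat_lit 0) (nat_lit 85495402591) (nat_lit 152) (nat_lit 102751661516) (nat_lit 0) (nat_lit 45890641044) (nat_lit 13) (nat_lit 5) (nat_lit 15) (nat_lit 4) (nat_lit 13) (nat_lit 4) (nat_lit 473) (nat_lit 411) (nat_lit 316)))) (XT.nd (nat_lit 156) (nat_lit 152) (nat_lit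 0) (XT.nd (nat_lit 78) (nat_lit 0) (nat_lit 0) (XT.lf (nat_lit 0) (nat_lit 5929987951) (nat_lit 76) (nat_lit 141807596083) (nat_lit 76) (nat_lit 102200873674) (nat_lit 12) (nat_lit 4) (nat_lit 13) (nat_lit 5) (nat_lit 13) (nat_lit 4) (nat_lit 474) (nat_lit 411) (nat_lit 315)) (XT.lf (nat_lit 0) (nat_lit 126963923567) (nat_lit 76) (nat_lit 89779339463) (nat_lit 76) (nat_lit 50170801441) (nat_lit 12) (nat_lit 4) (nat_lit 13) (nat_lit 5) (nat_lit 13) (nat_lit 4) (nat_lit 475) (nat_lit 411) (nat_lit 314))) (XT.nd (nat_lit 78) (nat_lit 76) (nat_lit 0) (XT.lf (nat_lit 0) (nat_lit 5823538889) (nat_lit 152) (nat_lit 27671964420) (nat_lit 76) (nat_lit 251747786160) (nat_lit 11) (nat_lit 5) (nat_lit 13) (nat_lit 5) (nat_lit 12) (nat_lit 4) (nat_lit 476) (nat_lit 411) (nat_lit 313)) (XT.lf (nat_lit 0) (nat_lit 66518263970) (nat_lit 152) (nat_lit 209587772850) (nat_lit 0) (nat_lit 28792763265) (nat_lit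 10) (nat_lit 5) (nat_lit 12) (nat_lit 4) (nat_lit 10) (nat_lit 4) (nat_lit 477) (nat_lit 411) (nat_lit 312))))))) (XT.nd (nat_lit 1014) (nat_lit 76) (nat_lit 0) (XT.nd (nat_lit 468) (nat_lit 228) (nat_lit 0) (XT.nd (nat_lit 234) (nat_lit 152) (nat_lit 0) (XT.nd (nat_lit 78) (nat_lit 76) (nat_lit 0) (XT.lf (nat_lit 0) (nat_lit 133118433074) (nat_lit 152) (nat_lit 97564265581) (nat_lit 0) (nat_lit 95391559709) (nat_lit 10) (nat_lit 5) (nat_lit 12) (nat_lit 4) (nat_lit 10) (nat_lit 4) (nat_lit 478) (nat_lit 411) (nat_lit 311)) (XT.nd (nat_lit 78) (nat_lit 0) (nat_lit 0) (XT.lf (nat_lit 0) (nat_lit 24186220231) (nat_lit 76) (nat_lit 181233510879) (nat_lit 76) (nat_lit 143505366533) (nat_lit 9) (nat_lit 4) (nat_lit 10) (nat_lit 5) (nat_lit 10) (nat_lit 4) (nat_lit 479) (nat_lit 411) (nat_lit 310)) (XT.lf (nat_lit 0) (nat_lit 159152112886) (nat_lit 76) (nat_lit 126048226079) (nat_lit 76) (nat_lit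 88318904900) (nat_lit 9) (nat_lit 4) (nat_lit 10) (nat_lit 5) (nat_lit 10) (nat_lit 4) (nat_lit 480) (nat_lit 411) (nat_lit 309)))) (XT.nd (nat_lit 78) (nat_lit 152) (nat_lit 0) (XT.lf (nat_lit 0) (nat_lit 304907295032) (nat_lit 76) (nat_lit 66452118393) (nat_lit 76) (nat_lit 28721707552) (nat_lit 9) (nat_lit 4) (nat_lit 10) (nat_lit 5) (nat_lit 10) (nat_lit 4) (nat_lit 481) (nat_lit 411) (nat_lit 308)) (XT.nd (nat_lit 78) (nat_lit 0) (nat_lit 0) (XT.lf (nat_lit 0) (nat_lit 34081766950) (nat_lit 76) (nat_lit 949055847) (nat_lit 152) (nat_lit 393682882765) (nat_lit 7) (nat_lit 5) (nat_lit 8) (nat_lit 5) (nat_lit 9) (nat_lit 4) (nat_lit 482) (nat_lit 411) (nat_lit 307)) (XT.lf (nat_lit 0) (nat_lit 105661829788) (nat_lit 152) (nat_lit 284086043114) (nat_lit 0) (nat_lit 69726254555) (nat_lit 7) (nat_lit 5) (nat_lit 9) (nat_lit 4) (nat_lit 7) (nat_lit 4) (nat_lit 483) (nat_lit 411) (nat_lit 306)))))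 (XT.nd (nat_lit 234) (nat_lit 152) (nat_lit 0) (XT.nd (nat_lit 78) (nat_lit 76) (nat_lit 0) (XT.lf (nat_lit 0) (nat_lit 181955951163) (nat_lit 152) (nat_lit 164719248209) (nat_lit 0) (nat_lit 146019552112) (nat_lit 7) (nat_lit 5) (nat_lit 9) (nat_lit 4) (nat_lit 7) (nat_lit 4) (nat_lit 484) (nat_lit 411) (nat_lit 305)) (XT.nd (nat_lit 78) (nat_lit 76) (nat_lit 0) (XT.lf (nat_lit 0) (nat_lit 264350482811) (nat_lit 152) (nat_lit 35809377690) (nat_lit 0) (nat_lit 228413320967) (nat_lit 7) (nat_lit 5) (nat_lit 9) (nat_lit 4) (nat_lit 7) (nat_lit 4) (nat_lit 485) (nat_lit 411) (nat_lit 304)) (XT.lf (nat_lit 0) (nat_lit 106826597035) (nat_lit 76) (nat_lit 248174954150) (nat_lit 76) (nat_lit 212237086015) (nat_lit 6) (nat_lit 4) (nat_lit 7) (nat_lit 5) (nat_lit 7) (nat_lit 4) (nat_lit 486) (nat_lit 411) (nat_lit 303)))) (XT.nd (nat_lit 156) (nat_lit 152) (nat_lit 0) (XT.nd (nat_lit 78) (nat_lit 0)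 (nat_lit 0) (XT.lf (nat_lit 0) (nat_lit 262146639602) (nat_lit 76) (nat_lit 191379080597) (nat_lit 76) (nat_lit 155440558490) (nat_lit 6) (nat_lit 4) (nat_lit 7) (nat_lit 5) (nat_lit 7) (nat_lit 4) (nat_lit 487) (nat_lit 411) (nat_lit 302)) (XT.lf (nat_lit 0) (nat_lit 429887145331) (nat_lit 76) (nat_lit 130042120841) (nat_lit 76) (nat_lit 94102993204) (nat_lit 6) (nat_lit 4) (nat_lit 7) (nat_lit 5) (nat_lit 7) (nat_lit 4) (nat_lit 488) (nat_lit 411) (nat_lit 301))) (XT.nd (nat_lit 78) (nat_lit 152) (nat_lit 0) (XT.lf (nat_lit 0) (nat_lit 611042132032) (nat_lit 76) (nat_lit 63800596603) (nat_lit 76) (nat_lit 27860908289) (nat_lit 6) (nat_lit 4) (nat_lit 7) (nat_lit 5) (nat_lit 7) (nat_lit 4) (nat_lit 489) (nat_lit 411) (nat_lit 300)) (XT.lf (nat_lit 0) (nat_lit 43243967606) (nat_lit 152) (nat_lit 702927386012) (nat_lit 0) (nat_lit 9015198597) (nat_lit 4) (nat_lit 5) (nat_lit 6) (nat_lit 4)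 (nat_lit 4) (nat_lit 4) (nat_lit 490) (nat_lit 411) (nat_lit 299)))))) (XT.nd (nat_lit 56316) (nat_lit 0) (nat_lit 9576) (XT.nd (nat_lit 234) (nat_lit 76) (nat_lit 0) (XT.nd (nat_lit 78) (nat_lit 0) (nat_lit 0) (XT.lf (nat_lit 0) (nat_lit 121770663331) (nat_lit 152) (nat_lit 602397687089) (nat_lit 0) (nat_lit 87541436524) (nat_lit 4) (nat_lit 5) (nat_lit 6) (nat_lit 4) (nat_lit 4) (nat_lit 4) (nat_lit 491) (nat_lit 411) (nat_lit 298)) (XT.nd (nat_lit 78) (nat_lit 0) (nat_lit 0) (XT.lf (nat_lit 0) (nat_lit 206577491594) (nat_lit 152) (nat_lit 493829648151) (nat_lit 0) (nat_lit 172347840898) (nat_lit 4) (nat_lit 5) (nat_lit 6) (nat_lit 4) (nat_lit 4) (nat_lit 4) (nat_lit 492) (nat_lit 411) (nat_lit 297)) (XT.lf (nat_lit 0) (nat_lit 298167011376) (nat_lit 152) (nat_lit 376579903042) (nat_lit 0) (nat_lit 263936968191) (nat_lit 4) (nat_lit 5) (nat_lit 6) (nat_lit 4) (nat_lit 4) (nat_lit 4) (nat_lit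 493) (nat_lit 411) (nat_lit 296)))) (XT.nd (nat_lit 156) (nat_lit 76) (nat_lit 0) (XT.nd (nat_lit 78) (nat_lit 0) (nat_lit 0) (XT.lf (nat_lit 0) (nat_lit 397081975388) (nat_lit 152) (nat_lit 249953638456) (nat_lit 0) (nat_lit 362851568786) (nat_lit 4) (nat_lit 5) (nat_lit 6) (nat_lit 4) (nat_lit 4) (nat_lit 4) (nat_lit 494) (nat_lit 411) (nat_lit 295)) (XT.lf (nat_lit 0) (nat_lit 503908546378) (nat_lit 152) (nat_lit 113200476530) (nat_lit 0) (nat_lit 469677803280) (nat_lit 4) (nat_lit 5) (nat_lit 6) (nat_lit 4) (nat_lit 4) (nat_lit 4) (nat_lit 495) (nat_lit 411) (nat_lit 294))) (XT.nd (nat_lit 78) (nat_lit 0) (nat_lit 0) (XT.lf (nat_lit 0) (nat_lit 35630366074) (nat_lit 76) (nat_lit 584205694488) (nat_lit 76) (nat_lit 549974639820) (nat_lit 3) (nat_lit 4) (nat_lit 4) (nat_lit 5) (nat_lit 4) (nat_lit 4) (nat_lit 496) (nat_lit 411) (nat_lit 293)) (XT.lf (nat_lit 0) (nat_lit 200407191002) (nat_lit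 76) (nat_lit 546601056555) (nat_lit 76) (nat_lit 512369713395) (nat_lit 3) (nat_lit 4) (nat_lit 4) (nat_lit 5) (nat_lit 4) (nat_lit 4) (nat_lit 497) (nat_lit 411) (nat_lit 292))))) (XT.nd (nat_lit 234) (nat_lit 532) (nat_lit 0) (XT.nd (nat_lit 78) (nat_lit 0) (nat_lit 0) (XT.lf (nat_lit 0) (nat_lit 1374024910) (nat_lit 0) (nat_lit 1374024910) (nat_lit 684) (nat_lit 2579061500) (nat_lit 136) (nat_lit 5) (nat_lit 136) (nat_lit 3) (nat_lit 145) (nat_lit 3) (nat_lit 412) (nat_lit 412) (nat_lit 376)) (XT.nd (nat_lit 78) (nat_lit 0) (nat_lit 76) (XT.lf (nat_lit 76) (nat_lit 392380393) (nat_lit 0) (nat_lit 6349275246) (nat_lit 760) (nat_lit 4287058093) (nat_lit 137) (nat_lit 5) (nat_lit 136) (nat_lit 5) (nat_lit 146) (nat_lit 5) (nat_lit 413) (nat_lit 412) (nat_lit 375)) (XT.lf (nat_lit 0) (nat_lit 8196807925) (nat_lit 684) (nat_lit 1915189233) (nat_lit 760) (nat_lit 1315708602) (nat_lit 137) (nat_lit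 5) (nat_lit 146) (nat_lit 5) (nat_lit 147) (nat_lit 5) (nat_lit 414) (nat_lit 412) (nat_lit 374)))) (XT.nd (nat_lit 156) (nat_lit 608) (nat_lit 0) (XT.nd (nat_lit 78) (nat_lit 0) (nat_lit 76) (XT.lf (nat_lit 76) (nat_lit 7583881355) (nat_lit 0) (nat_lit 2322963189) (nat_lit 760) (nat_lit 1944885332) (nat_lit 138) (nat_lit 5) (nat_lit 137) (nat_lit 5) (nat_lit 147) (nat_lit 5) (nat_lit 415) (nat_lit 412) (nat_lit 373)) (XT.lf (nat_lit 76) (nat_lit 5630276029) (nat_lit 0) (nat_lit 6259354951) (nat_lit 760) (nat_lit 413281240) (nat_lit 139) (nat_lit 5) (nat_lit 138) (nat_lit 5) (nat_lit 148) (nat_lit 5) (nat_lit 416) (nat_lit 412) (nat_lit 372))) (XT.nd (nat_lit 78) (nat_lit 0) (nat_lit 0) (XT.lf (nat_lit 0) (nat_lit 1333676928) (nat_lit 760) (nat_lit 9135038025) (nat_lit 836) (nat_lit 2313908170) (nat_lit 129) (nat_lit 5) (nat_lit 139) (nat_lit 5) (nat_lit 140) (nat_lit 5) (nat_lit 417) (nat_lit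 412) (nat_lit 371)) (XT.lf (nat_lit 76) (nat_lit 1615026902) (nat_lit 0) (nat_lit 1768019100) (nat_lit 836) (nat_lit 9908496929) (nat_lit 130) (nat_lit 5) (nat_lit 129) (nat_lit 5) (nat_lit 140) (nat_lit 5) (nat_lit 418) (nat_lit 412) (nat_lit 370))))))))
noncomputable def xc67 : XT := (XT.nd (nat_lit 2106) (nat_lit 2356) (nat_lit 0) (XT.nd (nat_lit 1014) (nat_lit 2432) (nat_lit 0) (XT.nd (nat_lit 468) (nat_lit 1672) (nat_lit 0) (XT.nd (nat_lit 234) (nat_lit 1140) (nat_lit 0) (XT.nd (nat_lit 78) (nat_lit 1140) (nat_lit 0) (XT.lf (nat_lit 0) (nat_lit 5809868426) (nat_lit 760) (nat_lit 463683418) (nat_lit 76) (nat_lit 7556974723) (nat_lit 130) (nat_lit 5) (nat_lit 140) (nat_lit 5) (nat_lit 131) (nat_lit 5) (nat_lit 419) (nat_lit 412) (nat_lit 369)) (XT.nd (nat_lit 78) (nat_lit 380) (nat_lit 0) (XT.lf (nat_lit 0) (nat_lit 8637194878) (nat_lit 836) (nat_lit 2514379765) (nat_lit 76) (nat_lit 3250759890)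 (nat_lit 120) (nat_lit 5) (nat_lit 131) (nat_lit 5) (nat_lit 121) (nat_lit 5) (nat_lit 420) (nat_lit 412) (nat_lit 368)) (XT.lf (nat_lit 0) (nat_lit 10395375931) (nat_lit 380) (nat_lit 1513148131) (nat_lit 456) (nat_lit 3100494050) (nat_lit 115) (nat_lit 5) (nat_lit 120) (nat_lit 5) (nat_lit 121) (nat_lit 5) (nat_lit 421) (nat_lit 412) (nat_lit 367)))) (XT.nd (nat_lit 78) (nat_lit 684) (nat_lit 0) (XT.lf (nat_lit 0) (nat_lit 55466844) (nat_lit 456) (nat_lit 6799002898) (nat_lit 76) (nat_lit 8796408865) (nat_lit 109) (nat_lit 5) (nat_lit 115) (nat_lit 5) (nat_lit 110) (nat_lit 5) (nat_lit 422) (nat_lit 412) (nat_lit 366)) (XT.nd (nat_lit 78) (nat_lit 304) (nat_lit 0) (XT.lf (nat_lit 0) (nat_lit 3584805902) (nat_lit 456) (nat_lit 9073690221) (nat_lit 76) (nat_lit 3671591861) (nat_lit 104) (nat_lit 5) (nat_lit 110) (nat_lit 5) (nat_lit 105) (nat_lit 5) (nat_lit 423) (nat_lit 412) (nat_lit 365))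 (XT.lf (nat_lit 0) (nat_lit 5628048204) (nat_lit 304) (nat_lit 2042663680) (nat_lit 380) (nat_lit 9379227722) (nat_lit 100) (nat_lit 5) (nat_lit 104) (nat_lit 5) (nat_lit 105) (nat_lit 5) (nat_lit 424) (nat_lit 412) (nat_lit 364))))) (XT.nd (nat_lit 234) (nat_lit 760) (nat_lit 0) (XT.nd (nat_lit 78) (nat_lit 608) (nat_lit 0) (XT.lf (nat_lit 0) (nat_lit 3930885542) (nat_lit 304) (nat_lit 8474867733) (nat_lit 380) (nat_lit 5405528201) (nat_lit 96) (nat_lit 5) (nat_lit 100) (nat_lit 5) (nat_lit 101) (nat_lit 5) (nat_lit 425) (nat_lit 412) (nat_lit 363)) (XT.nd (nat_lit 78) (nat_lit 380) (nat_lit 0) (XT.lf (nat_lit 0) (nat_lit 2229388514) (nat_lit 228) (nat_lit 15562391035) (nat_lit 304) (nat_lit 828156202) (nat_lit 93) (nat_lit 5) (nat_lit 96) (nat_lit 5) (nat_lit 97) (nat_lit 5) (nat_lit 426) (nat_lit 412) (nat_lit 362)) (XT.lf (nat_lit 0) (nat_lit 389398925) (nat_lit 304) (nat_lit 3946410845)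 (nat_lit 380) (nat_lit 15136666268) (nat_lit 88) (nat_lit 5) (nat_lit 92) (nat_lit 5) (nat_lit 93) (nat_lit 5) (nat_lit 427) (nat_lit 412) (nat_lit 361)))) (XT.nd (nat_lit 156) (nat_lit 532) (nat_lit 0) (XT.nd (nat_lit 78) (nat_lit 228) (nat_lit 0) (XT.lf (nat_lit 0) (nat_lit 10268262919) (nat_lit 380) (nat_lit 1488650279) (nat_lit 76) (nat_lit 8616419850) (nat_lit 88) (nat_lit 5) (nat_lit 93) (nat_lit 5) (nat_lit 89) (nat_lit 5) (nat_lit 428) (nat_lit 412) (nat_lit 360)) (XT.lf (nat_lit 0) (nat_lit 17000411061) (nat_lit 304) (nat_lit 3374051637) (nat_lit 76) (nat_lit 955551670) (nat_lit 85) (nat_lit 5) (nat_lit 89) (nat_lit 5) (nat_lit 86) (nat_lit 5) (nat_lit 429) (nat_lit 412) (nat_lit 359))) (XT.nd (nat_lit 78) (nat_lit 228) (nat_lit 0) (XT.lf (nat_lit 0) (nat_lit 2307752388) (nat_lit 304) (nat_lit 5436131198) (nat_lit 76) (nat_lit 14594820833) (nat_lit 81) (nat_lit 5) (nat_lit 85) (nat_lit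 5) (nat_lit 82) (nat_lit 5) (nat_lit 430) (nat_lit 412) (nat_lit 358)) (XT.lf (nat_lit 0) (nat_lit 9697967246) (nat_lit 304) (nat_lit 7626112445) (nat_lit 76) (nat_lit 6081791908) (nat_lit 78) (nat_lit 5) (nat_lit 82) (nat_lit 5) (nat_lit 79) (nat_lit 5) (nat_lit 431) (nat_lit 412) (nat_lit 357)))))) (XT.nd (nat_lit 546) (nat_lit 1064) (nat_lit 0) (XT.nd (nat_lit 234) (nat_lit 684) (nat_lit 0) (XT.nd (nat_lit 78) (nat_lit 456) (nat_lit 0) (XT.lf (nat_lit 0) (nat_lit 14621617300) (nat_lit 228) (nat_lit 3480217965) (nat_lit 304) (nat_lit 6435463168) (nat_lit 75) (nat_lit 5) (nat_lit 78) (nat_lit 5) (nat_lit 79) (nat_lit 5) (nat_lit 432) (nat_lit 412) (nat_lit 356)) (XT.nd (nat_lit 78) (nat_lit 228) (nat_lit 0) (XT.lf (nat_lit 0) (nat_lit 1873065597) (nat_lit 228) (nat_lit 12396238163) (nat_lit 76) (nat_lit 11463850132) (nat_lit 72) (nat_lit 5) (nat_lit 75) (nat_lit 5) (nat_lit 73) (nat_lit 5)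 (nat_lit 433) (nat_lit 412) (nat_lit 355)) (XT.lf (nat_lit 0) (nat_lit 11029310609) (nat_lit 304) (nat_lit 15059863010) (nat_lit 76) (nat_lit 909810733) (nat_lit 69) (nat_lit 5) (nat_lit 73) (nat_lit 5) (nat_lit 70) (nat_lit 5) (nat_lit 434) (nat_lit 412) (nat_lit 354)))) (XT.nd (nat_lit 156) (nat_lit 304) (nat_lit 0) (XT.nd (nat_lit 78) (nat_lit 228) (nat_lit 0) (XT.lf (nat_lit 0) (nat_lit 10350806163) (nat_lit 152) (nat_lit 11160168828) (nat_lit 228) (nat_lit 6825466378) (nat_lit 67) (nat_lit 5) (nat_lit 69) (nat_lit 5) (nat_lit 70) (nat_lit 5) (nat_lit 435) (nat_lit 412) (nat_lit 353)) (XT.lf (nat_lit 0) (nat_lit 3412735814) (nat_lit 228) (nat_lit 21095953839) (nat_lit 76) (nat_lit 5246825203) (nat_lit 64) (nat_lit 5) (nat_lit 67) (nat_lit 5) (nat_lit 65) (nat_lit 5) (nat_lit 436) (nat_lit 412) (nat_lit 352))) (XT.nd (nat_lit 78) (nat_lit 152) (nat_lit 0) (XT.lf (nat_lit 0) (nat_lit 6668036325)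 (nat_lit 152) (nat_lit 8150138338) (nat_lit 228) (nat_lit 16434984323) (nat_lit 62) (nat_lit 5) (nat_lit 64) (nat_lit 5) (nat_lit 65) (nat_lit 5) (nat_lit 437) (nat_lit 412) (nat_lit 351)) (XT.lf (nat_lit 0) (nat_lit 4501390772) (nat_lit 152) (nat_lit 23201497191) (nat_lit 228) (nat_lit 5139389335) (nat_lit 60) (nat_lit 5) (nat_lit 62) (nat_lit 5) (nat_lit 63) (nat_lit 5) (nat_lit 438) (nat_lit 412) (nat_lit 350))))) (XT.nd (nat_lit 234) (nat_lit 684) (nat_lit 0) (XT.nd (nat_lit 78) (nat_lit 152) (nat_lit 0) (XT.lf (nat_lit 0) (nat_lit 2024479797) (nat_lit 152) (nat_lit 5389052348) (nat_lit 228) (nat_lit 27110503881) (nat_lit 57) (nat_lit 5) (nat_lit 59) (nat_lit 5) (nat_lit 60) (nat_lit 5) (nat_lit 439) (nat_lit 412) (nat_lit 349)) (XT.nd (nat_lit 78) (nat_lit 152) (nat_lit 0) (XT.lf (nat_lit 0) (nat_lit 21487308124) (nat_lit 228) (nat_lit 835914428) (nat_lit 76) (nat_lit 13978070060) (nat_lit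 57) (nat_lit 5) (nat_lit 60) (nat_lit 5) (nat_lit 58) (nat_lit 5) (nat_lit 440) (nat_lit 412) (nat_lit 348)) (XT.lf (nat_lit 0) (nat_lit 34331343168) (nat_lit 152) (nat_lit 2960564759) (nat_lit 228) (nat_lit 898579201) (nat_lit 55) (nat_lit 5) (nat_lit 57) (nat_lit 5) (nat_lit 58) (nat_lit 5) (nat_lit 441) (nat_lit 412) (nat_lit 347)))) (XT.nd (nat_lit 156) (nat_lit 304) (nat_lit 0) (XT.nd (nat_lit 78) (nat_lit 152) (nat_lit 0) (XT.lf (nat_lit 0) (nat_lit 14477465095) (nat_lit 228) (nat_lit 7579091452) (nat_lit 76) (nat_lit 18123250412) (nat_lit 52) (nat_lit 5) (nat_lit 55) (nat_lit 5) (nat_lit 53) (nat_lit 5) (nat_lit 442) (nat_lit 412) (nat_lit 346)) (XT.lf (nat_lit 0) (nat_lit 30670019645) (nat_lit 152) (nat_lit 959167655) (nat_lit 228) (nat_lit 10669497576) (nat_lit 50) (nat_lit 5) (nat_lit 52) (nat_lit 5) (nat_lit 53) (nat_lit 5) (nat_lit 443) (nat_lit 412) (nat_lit 345))) (XT.nd (nat_lit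 78) (nat_lit 152) (nat_lit 0) (XT.lf (nat_lit 0) (nat_lit 6297957000) (nat_lit 152) (nat_lit 16450094765) (nat_lit 76) (nat_lit 21789172318) (nat_lit 48) (nat_lit 5) (nat_lit 50) (nat_lit 5) (nat_lit 49) (nat_lit 5) (nat_lit 444) (nat_lit 412) (nat_lit 344)) (XT.lf (nat_lit 0) (nat_lit 24850261561) (nat_lit 228) (nat_lit 21900787008) (nat_lit 76) (nat_lit 164991654) (nat_lit 46) (nat_lit 5) (nat_lit 49) (nat_lit 5) (nat_lit 47) (nat_lit 4) (nat_lit 445) (nat_lit 412) (nat_lit 343))))))) (XT.nd (nat_lit 1014) (nat_lit 988) (nat_lit 0) (XT.nd (nat_lit 468) (nat_lit 684) (nat_lit 0) (XT.nd (nat_lit 234) (nat_lit 304) (nat_lit 0) (XT.nd (nat_lit 78) (nat_lit 304) (nat_lit 0) (XT.lf (nat_lit 0) (nat_lit 21170522683) (nat_lit 76) (nat_lit 24703202082) (nat_lit 152) (nat_lit 3562090330) (nat_lit 45) (nat_lit 5) (nat_lit 46) (nat_lit 5) (nat_lit 47) (nat_lit 4) (nat_lit 446) (nat_lit 412) (nat_lit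 342)) (XT.nd (nat_lit 78) (nat_lit 76) (nat_lit 0) (XT.lf (nat_lit 0) (nat_lit 16525546175) (nat_lit 228) (nat_lit 35546838462) (nat_lit 76) (nat_lit 40506818) (nat_lit 42) (nat_lit 5) (nat_lit 45) (nat_lit 5) (nat_lit 43) (nat_lit 4) (nat_lit 447) (nat_lit 412) (nat_lit 341)) (XT.lf (nat_lit 0) (nat_lit 10844562968) (nat_lit 76) (nat_lit 28321605509) (nat_lit 152) (nat_lit 15781508805) (nat_lit 41) (nat_lit 5) (nat_lit 42) (nat_lit 5) (nat_lit 43) (nat_lit 4) (nat_lit 448) (nat_lit 412) (nat_lit 340)))) (XT.nd (nat_lit 78) (nat_lit 76) (nat_lit 0) (XT.lf (nat_lit 0) (nat_lit 4245758861) (nat_lit 152) (nat_lit 1862507290) (nat_lit 228) (nat_lit 51862653523) (nat_lit 38) (nat_lit 5) (nat_lit 40) (nat_lit 5) (nat_lit 41) (nat_lit 5) (nat_lit 449) (nat_lit 412) (nat_lit 339)) (XT.nd (nat_lit 78) (nat_lit 76) (nat_lit 0) (XT.lf (nat_lit 0) (nat_lit 30385528014) (nat_lit 228) (nat_lit 3885943816)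 (nat_lit 76) (nat_lit 26892154796) (nat_lit 38) (nat_lit 5) (nat_lit 41) (nat_lit 5) (nat_lit 39) (nat_lit 4) (nat_lit 450) (nat_lit 412) (nat_lit 338)) (XT.lf (nat_lit 0) (nat_lit 51530511252) (nat_lit 76) (nat_lit 5895501006) (nat_lit 152) (nat_lit 7144687135) (nat_lit 37) (nat_lit 5) (nat_lit 38) (nat_lit 5) (nat_lit 39) (nat_lit 4) (nat_lit 451) (nat_lit 412) (nat_lit 337))))) (XT.nd (nat_lit 234) (nat_lit 304) (nat_lit 0) (XT.nd (nat_lit 78) (nat_lit 228) (nat_lit 0) (XT.lf (nat_lit 0) (nat_lit 18941770039) (nat_lit 152) (nat_lit 24224729993) (nat_lit 76) (nat_lit 25011960015) (nat_lit 35) (nat_lit 5) (nat_lit 37) (nat_lit 5) (nat_lit 36) (nat_lit 4) (nat_lit 452) (nat_lit 412) (nat_lit 336)) (XT.nd (nat_lit 78) (nat_lit 152) (nat_lit 0) (XT.lf (nat_lit 0) (nat_lit 34772275382) (nat_lit 76) (nat_lit 12955108593) (nat_lit 152) (nat_lit 24298474600) (nat_lit 34) (nat_lit 5) (nat_lit 35)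 (nat_lit 5) (nat_lit 36) (nat_lit 4) (nat_lit 453) (nat_lit 412) (nat_lit 335)) (XT.lf (nat_lit 0) (nat_lit 3659510357) (nat_lit 152) (nat_lit 52575493984) (nat_lit 76) (nat_lit 19888536660) (nat_lit 32) (nat_lit 5) (nat_lit 34) (nat_lit 5) (nat_lit 33) (nat_lit 4) (nat_lit 454) (nat_lit 412) (nat_lit 334)))) (XT.nd (nat_lit 156) (nat_lit 228) (nat_lit 0) (XT.nd (nat_lit 78) (nat_lit 0) (nat_lit 0) (XT.lf (nat_lit 0) (nat_lit 9673294762) (nat_lit 76) (nat_lit 24356856708) (nat_lit 152) (nat_lit 46447604777) (nat_lit 31) (nat_lit 5) (nat_lit 32) (nat_lit 5) (nat_lit 33) (nat_lit 4) (nat_lit 455) (nat_lit 412) (nat_lit 333)) (XT.lf (nat_lit 0) (nat_lit 67905843061) (nat_lit 152) (nat_lit 6551734009) (nat_lit 0) (nat_lit 10668962505) (nat_lit 31) (nat_lit 5) (nat_lit 33) (nat_lit 4) (nat_lit 31) (nat_lit 4) (nat_lit 456) (nat_lit 412) (nat_lit 332))) (XT.nd (nat_lit 78) (nat_lit 76) (nat_lit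 0) (XT.lf (nat_lit 0) (nat_lit 15313825754) (nat_lit 152) (nat_lit 25852540255) (nat_lit 76) (nat_lit 48898233969) (nat_lit 29) (nat_lit 5) (nat_lit 31) (nat_lit 5) (nat_lit 30) (nat_lit 4) (nat_lit 457) (nat_lit 412) (nat_lit 331)) (XT.lf (nat_lit 0) (nat_lit 46658036285) (nat_lit 76) (nat_lit 4030868583) (nat_lit 152) (nat_lit 44652629471) (nat_lit 28) (nat_lit 5) (nat_lit 29) (nat_lit 5) (nat_lit 30) (nat_lit 4) (nat_lit 458) (nat_lit 412) (nat_lit 330)))))) (XT.nd (nat_lit 546) (nat_lit 456) (nat_lit 0) (XT.nd (nat_lit 234) (nat_lit 304) (nat_lit 0) (XT.nd (nat_lit 78) (nat_lit 152) (nat_lit 0) (XT.lf (nat_lit 0) (nat_lit 25085387159) (nat_lit 76) (nat_lit 65210168319) (nat_lit 76) (nat_lit 10674990333) (nat_lit 27) (nat_lit 4) (nat_lit 28) (nat_lit 5) (nat_lit 28) (nat_lit 4) (nat_lit 459) (nat_lit 412) (nat_lit 329)) (XT.nd (nat_lit 78) (nat_lit 76) (nat_lit 0) (XT.lf (nat_lit 0) (nat_lit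 26107215547) (nat_lit 152) (nat_lit 1022192277) (nat_lit 76) (nat_lit 79854198716) (nat_lit 26) (nat_lit 5) (nat_lit 28) (nat_lit 5) (nat_lit 27) (nat_lit 4) (nat_lit 460) (nat_lit 412) (nat_lit 328)) (XT.lf (nat_lit 0) (nat_lit 66979840574) (nat_lit 152) (nat_lit 31383938093) (nat_lit 0) (nat_lit 15029091858) (nat_lit 25) (nat_lit 5) (nat_lit 27) (nat_lit 4) (nat_lit 25) (nat_lit 4) (nat_lit 461) (nat_lit 412) (nat_lit 327)))) (XT.nd (nat_lit 156) (nat_lit 76) (nat_lit 0) (XT.nd (nat_lit 78) (nat_lit 152) (nat_lit 0) (XT.lf (nat_lit 0) (nat_lit 52612453708) (nat_lit 76) (nat_lit 59797180255) (nat_lit 76) (nat_lit 7840874217) (nat_lit 24) (nat_lit 4) (nat_lit 25) (nat_lit 5) (nat_lit 25) (nat_lit 4) (nat_lit 462) (nat_lit 412) (nat_lit 326)) (XT.lf (nat_lit 0) (nat_lit 16802398870) (nat_lit 76) (nat_lit 16740942874) (nat_lit 152) (nat_lit 94046584335) (nat_lit 22) (nat_lit 5) (nat_lit 23)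 (nat_lit 5) (nat_lit 24) (nat_lit 4) (nat_lit 463) (nat_lit 412) (nat_lit 325))) (XT.nd (nat_lit 78) (nat_lit 76) (nat_lit 0) (XT.lf (nat_lit 0) (nat_lit 79620368338) (nat_lit 152) (nat_lit 25678129690) (nat_lit 0) (nat_lit 30128733848) (nat_lit 22) (nat_lit 5) (nat_lit 24) (nat_lit 4) (nat_lit 22) (nat_lit 4) (nat_lit 464) (nat_lit 412) (nat_lit 324)) (XT.lf (nat_lit 0) (nat_lit 68121566900) (nat_lit 76) (nat_lit 62599459071) (nat_lit 76) (nat_lit 13103623075) (nat_lit 21) (nat_lit 4) (nat_lit 22) (nat_lit 5) (nat_lit 22) (nat_lit 4) (nat_lit 465) (nat_lit 412) (nat_lit 323))))) (XT.nd (nat_lit 234) (nat_lit 228) (nat_lit 0) (XT.nd (nat_lit 78) (nat_lit 76) (nat_lit 0) (XT.lf (nat_lit 0) (nat_lit 17491704447) (nat_lit 76) (nat_lit 15187042248) (nat_lit 152) (nat_lit 120153360475) (nat_lit 19) (nat_lit 5) (nat_lit 20) (nat_lit 5) (nat_lit 21) (nat_lit 4) (nat_lit 466) (nat_lit 412) (nat_lit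 322)) (XT.nd (nat_lit 78) (nat_lit 76) (nat_lit 0) (XT.lf (nat_lit 0) (nat_lit 83565526865) (nat_lit 152) (nat_lit 42469349474) (nat_lit 0) (nat_lit 36419499823) (nat_lit 19) (nat_lit 5) (nat_lit 21) (nat_lit 4) (nat_lit 19) (nat_lit 4) (nat_lit 467) (nat_lit 412) (nat_lit 321)) (XT.lf (nat_lit 0) (nat_lit 59464072531) (nat_lit 76) (nat_lit 80236349641) (nat_lit 76) (nat_lit 33087146132) (nat_lit 18) (nat_lit 4) (nat_lit 19) (nat_lit 5) (nat_lit 19) (nat_lit 4) (nat_lit 468) (nat_lit 412) (nat_lit 320)))) (XT.nd (nat_lit 156) (nat_lit 76) (nat_lit 0) (XT.nd (nat_lit 78) (nat_lit 76) (nat_lit 0) (XT.lf (nat_lit 0) (nat_lit 16599290612) (nat_lit 152) (nat_lit 13123598927) (nat_lit 76) (nat_lit 154174499762) (nat_lit 17) (nat_lit 5) (nat_lit 19) (nat_lit 5) (nat_lit 18) (nat_lit 4) (nat_lit 469) (nat_lit 412) (nat_lit 319)) (XT.lf (nat_lit 0) (nat_lit 71056622096) (nat_lit 152) (nat_lit 98567269867)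 (nat_lit 0) (nat_lit 26147224009) (nat_lit 16) (nat_lit 5) (nat_lit 18) (nat_lit 4) (nat_lit 16) (nat_lit 4) (nat_lit 470) (nat_lit 412) (nat_lit 318))) (XT.nd (nat_lit 78) (nat_lit 0) (nat_lit 0) (XT.lf (nat_lit 0) (nat_lit 7980643393) (nat_lit 76) (nat_lit 122741654642) (nat_lit 76) (nat_lit 77829855048) (nat_lit 15) (nat_lit 4) (nat_lit 16) (nat_lit 5) (nat_lit 16) (nat_lit 4) (nat_lit 471) (nat_lit 412) (nat_lit 317)) (XT.lf (nat_lit 0) (nat_lit 126560072989) (nat_lit 76) (nat_lit 70312039672) (nat_lit 76) (nat_lit 25398016461) (nat_lit 15) (nat_lit 4) (nat_lit 16) (nat_lit 5) (nat_lit 16) (nat_lit 4) (nat_lit 472) (nat_lit 412) (nat_lit 316))))))))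
noncomputable def xc68 : XT := (XT.nd (nat_lit 57876) (nat_lit 0) (nat_lit 4104) (XT.nd (nat_lit 1014) (nat_lit 304) (nat_lit 0) (XT.nd (nat_lit 468) (nat_lit 228) (nat_lit 0) (XT.nd (nat_lit 234) (nat_lit 152) (nat_lit 0) (XT.nd (nat_lit 78) (nat_lit 76) (nat_lit 0) (XT.lf (nat_lit 0) (nat_lit 17604800932) (nat_lit 76) (nat_lit 12893190798) (nat_lit 152) (nat_lit 206549717292) (nat_lit 13) (nat_lit 5) (nat_lit 14) (nat_lit 5) (nat_lit 15) (nat_lit 4) (nat_lit 473) (nat_lit 412) (nat_lit 315)) (XT.nd (nat_lit 78) (nat_lit 76) (nat_lit 0) (XT.lf (nat_lit 0) (nat_lit 92443614897) (nat_lit 152) (nat_lit 110755096449) (nat_lit 0) (nat_lit 49664578221) (nat_lit 13) (nat_lit 5) (nat_lit 15) (nat_lit 4) (nat_lit 13) (nat_lit 4) (nat_lit 474) (nat_lit 412) (nat_lit 314)) (XT.lf (nat_lit 0) (nat_lit 6611667545) (nat_lit 76) (nat_lit 153048696571) (nat_lit 76) (nat_lit 110267978771) (nat_lit 12) (nat_lit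 4) (nat_lit 13) (nat_lit 5) (nat_lit 13) (nat_lit 4) (nat_lit 475) (nat_lit 412) (nat_lit 313)))) (XT.nd (nat_lit 78) (nat_lit 152) (nat_lit 0) (XT.lf (nat_lit 0) (nat_lit 137312963895) (nat_lit 76) (nat_lit 96865846621) (nat_lit 76) (nat_lit 54083572226) (nat_lit 12) (nat_lit 4) (nat_lit 13) (nat_lit 5) (nat_lit 13) (nat_lit 4) (nat_lit 476) (nat_lit 412) (nat_lit 312)) (XT.nd (nat_lit 78) (nat_lit 76) (nat_lit 0) (XT.lf (nat_lit 0) (nat_lit 6379851736) (nat_lit 152) (nat_lit 29705019628) (nat_lit 76) (nat_lit 271973357516) (nat_lit 11) (nat_lit 5) (nat_lit 13) (nat_lit 5) (nat_lit 12) (nat_lit 4) (nat_lit 477) (nat_lit 412) (nat_lit 311)) (XT.lf (nat_lit 0) (nat_lit 71927504222) (nat_lit 152) (nat_lit 226178971471) (nat_lit 0) (nat_lit 31179837348) (nat_lit 10) (nat_lit 5) (nat_lit 12) (nat_lit 4) (nat_lit 10) (nat_lit 4) (nat_lit 478) (nat_lit 412) (nat_lit 310))))) (XT.nd (nat_lit 234)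 (nat_lit 152) (nat_lit 0) (XT.nd (nat_lit 78) (nat_lit 76) (nat_lit 0) (XT.lf (nat_lit 0) (nat_lit 143849184696) (nat_lit 152) (nat_lit 105206607562) (nat_lit 0) (nat_lit 103100340988) (nat_lit 10) (nat_lit 5) (nat_lit 12) (nat_lit 4) (nat_lit 10) (nat_lit 4) (nat_lit 479) (nat_lit 412) (nat_lit 309)) (XT.nd (nat_lit 78) (nat_lit 0) (nat_lit 0) (XT.lf (nat_lit 0) (nat_lit 26276842057) (nat_lit 76) (nat_lit 195654155292) (nat_lit 76) (nat_lit 154904221923) (nat_lit 9) (nat_lit 4) (nat_lit 10) (nat_lit 5) (nat_lit 10) (nat_lit 4) (nat_lit 480) (nat_lit 412) (nat_lit 308)) (XT.lf (nat_lit 0) (nat_lit 172028470998) (nat_lit 76) (nat_lit 136059828186) (nat_lit 76) (nat_lit 95308885872) (nat_lit 9) (nat_lit 4) (nat_lit 10) (nat_lit 5) (nat_lit 10) (nat_lit 4) (nat_lit 481) (nat_lit 412) (nat_lit 307)))) (XT.nd (nat_lit 156) (nat_lit 0) (nat_lit 0) (XT.nd (nat_lit 78) (nat_lit 152) (nat_lit 0) (XT.lf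 (nat_lit 0) (nat_lit 329433387044) (nat_lit 76) (nat_lit 71701384180) (nat_lit 76) (nat_lit 30949507657) (nat_lit 9) (nat_lit 4) (nat_lit 10) (nat_lit 5) (nat_lit 10) (nat_lit 4) (nat_lit 482) (nat_lit 412) (nat_lit 306)) (XT.lf (nat_lit 0) (nat_lit 36938157131) (nat_lit 76) (nat_lit 959842216) (nat_lit 152) (nat_lit 425109565766) (nat_lit 7) (nat_lit 5) (nat_lit 8) (nat_lit 5) (nat_lit 9) (nat_lit 4) (nat_lit 483) (nat_lit 412) (nat_lit 305))) (XT.nd (nat_lit 78) (nat_lit 0) (nat_lit 0) (XT.lf (nat_lit 0) (nat_lit 114175635166) (nat_lit 152) (nat_lit 306690640702) (nat_lit 0) (nat_lit 75362737580) (nat_lit 7) (nat_lit 5) (nat_lit 9) (nat_lit 4) (nat_lit 7) (nat_lit 4) (nat_lit 484) (nat_lit 412) (nat_lit 304)) (XT.lf (nat_lit 0) (nat_lit 196568778176) (nat_lit 152) (nat_lit 177783560416) (nat_lit 0) (nat_lit 157755174300) (nat_lit 7) (nat_lit 5) (nat_lit 9) (nat_lit 4) (nat_lit 7) (nat_lit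 4) (nat_lit 485) (nat_lit 412) (nat_lit 303)))))) (XT.nd (nat_lit 468) (nat_lit 76) (nat_lit 0) (XT.nd (nat_lit 234) (nat_lit 152) (nat_lit 0) (XT.nd (nat_lit 78) (nat_lit 76) (nat_lit 0) (XT.lf (nat_lit 0) (nat_lit 285550698214) (nat_lit 152) (nat_lit 38569287489) (nat_lit 0) (nat_lit 246736440366) (nat_lit 7) (nat_lit 5) (nat_lit 9) (nat_lit 4) (nat_lit 7) (nat_lit 4) (nat_lit 486) (nat_lit 412) (nat_lit 302)) (XT.nd (nat_lit 78) (nat_lit 0) (nat_lit 0) (XT.lf (nat_lit 0) (nat_lit 115473008978) (nat_lit 76) (nat_lit 267978543852) (nat_lit 76) (nat_lit 229163680472) (nat_lit 6) (nat_lit 4) (nat_lit 7) (nat_lit 5) (nat_lit 7) (nat_lit 4) (nat_lit 487) (nat_lit 412) (nat_lit 301)) (XT.lf (nat_lit 0) (nat_lit 283211226492) (nat_lit 76) (nat_lit 206642734239) (nat_lit 76) (nat_lit 167827310184) (nat_lit 6) (nat_lit 4) (nat_lit 7) (nat_lit 5) (nat_lit 7) (nat_lit 4) (nat_lit 488) (nat_lit 412)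 (nat_lit 300)))) (XT.nd (nat_lit 78) (nat_lit 152) (nat_lit 0) (XT.lf (nat_lit 0) (nat_lit 464364094477) (nat_lit 76) (nat_lit 140402274948) (nat_lit 76) (nat_lit 101586331748) (nat_lit 6) (nat_lit 4) (nat_lit 7) (nat_lit 5) (nat_lit 7) (nat_lit 4) (nat_lit 489) (nat_lit 412) (nat_lit 299)) (XT.nd (nat_lit 78) (nat_lit 152) (nat_lit 0) (XT.lf (nat_lit 0) (nat_lit 660005111410) (nat_lit 76) (nat_lit 68864629923) (nat_lit 76) (nat_lit 30048206033) (nat_lit 6) (nat_lit 4) (nat_lit 7) (nat_lit 5) (nat_lit 7) (nat_lit 4) (nat_lit 490) (nat_lit 412) (nat_lit 298)) (XT.lf (nat_lit 0) (nat_lit 46742565133) (nat_lit 152) (nat_lit 759082838061) (nat_lit 0) (nat_lit 9774118493) (nat_lit 4) (nat_lit 5) (nat_lit 6) (nat_lit 4) (nat_lit 4) (nat_lit 4) (nat_lit 491) (nat_lit 412) (nat_lit 297))))) (XT.nd (nat_lit 234) (nat_lit 76) (nat_lit 0) (XT.nd (nat_lit 78) (nat_lit 0) (nat_lit 0) (XT.lf (nat_lit 0)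 (nat_lit 131548501693) (nat_lit 152) (nat_lit 650516595731) (nat_lit 0) (nat_lit 94579662564) (nat_lit 4) (nat_lit 5) (nat_lit 6) (nat_lit 4) (nat_lit 4) (nat_lit 4) (nat_lit 492) (nat_lit 412) (nat_lit 296)) (XT.nd (nat_lit 78) (nat_lit 0) (nat_lit 0) (XT.lf (nat_lit 0) (nat_lit 223137195825) (nat_lit 152) (nat_lit 533268514147) (nat_lit 0) (nat_lit 186167993280) (nat_lit 4) (nat_lit 5) (nat_lit 6) (nat_lit 4) (nat_lit 4) (nat_lit 4) (nat_lit 493) (nat_lit 412) (nat_lit 295)) (XT.lf (nat_lit 0) (nat_lit 322051395345) (nat_lit 152) (nat_lit 406643789862) (nat_lit 0) (nat_lit 285081856303) (nat_lit 4) (nat_lit 5) (nat_lit 6) (nat_lit 4) (nat_lit 4) (nat_lit 4) (nat_lit 494) (nat_lit 412) (nat_lit 294)))) (XT.nd (nat_lit 156) (nat_lit 76) (nat_lit 0) (XT.nd (nat_lit 78) (nat_lit 0) (nat_lit 0) (XT.lf (nat_lit 0) (nat_lit 428877258473) (nat_lit 152) (nat_lit 269892054141) (nat_lit 0) (nat_lit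 391907407861) (nat_lit 4) (nat_lit 5) (nat_lit 6) (nat_lit 4) (nat_lit 4) (nat_lit 4) (nat_lit 495) (nat_lit 412) (nat_lit 293)) (XT.lf (nat_lit 0) (nat_lit 544247827361) (nat_lit 152) (nat_lit 122202926327) (nat_lit 0) (nat_lit 507277688257) (nat_lit 4) (nat_lit 5) (nat_lit 6) (nat_lit 4) (nat_lit 4) (nat_lit 4) (nat_lit 496) (nat_lit 412) (nat_lit 292))) (XT.nd (nat_lit 55926) (nat_lit 0) (nat_lit 10108) (XT.lf (nat_lit 0) (nat_lit 38532054802) (nat_lit 76) (nat_lit 630916318013) (nat_lit 76) (nat_lit 593945911787) (nat_lit 3) (nat_lit 4) (nat_lit 4) (nat_lit 5) (nat_lit 4) (nat_lit 4) (nat_lit 497) (nat_lit 412) (nat_lit 291)) (XT.lf (nat_lit 0) (nat_lit 1944697693) (nat_lit 0) (nat_lit 1944697693) (nat_lit 684) (nat_lit 1817426980) (nat_lit 136) (nat_lit 5) (nat_lit 136) (nat_lit 3) (nat_lit 145) (nat_lit 3) (nat_lit 413) (nat_lit 413) (nat_lit 374))))))) (XT.nd (nat_lit 1014) (nat_lit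 2964) (nat_lit 0) (XT.nd (nat_lit 468) (nat_lit 2432) (nat_lit 0) (XT.nd (nat_lit 234) (nat_lit 608) (nat_lit 0) (XT.nd (nat_lit 78) (nat_lit 0) (nat_lit 76) (XT.lf (nat_lit 76) (nat_lit 1407864756) (nat_lit 0) (nat_lit 7581650702) (nat_lit 760) (nat_lit 2835360150) (nat_lit 137) (nat_lit 5) (nat_lit 136) (nat_lit 5) (nat_lit 146) (nat_lit 5) (nat_lit 414) (nat_lit 413) (nat_lit 373)) (XT.nd (nat_lit 78) (nat_lit 0) (nat_lit 0) (XT.lf (nat_lit 0) (nat_lit 10424049718) (nat_lit 684) (nat_lit 1066978825) (nat_lit 760) (nat_lit 771662474) (nat_lit 137) (nat_lit 5) (nat_lit 146) (nat_lit 5) (nat_lit 147) (nat_lit 5) (nat_lit 415) (nat_lit 413) (nat_lit 372)) (XT.lf (nat_lit 76) (nat_lit 9148496676) (nat_lit 0) (nat_lit 3020940972) (nat_lit 760) (nat_lit 556320612) (nat_lit 138) (nat_lit 5) (nat_lit 137) (nat_lit 5) (nat_lit 147) (nat_lit 5) (nat_lit 416) (nat_lit 413) (nat_lit 371)))) (XT.nd (nat_lit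 78) (nat_lit 0) (nat_lit 76) (XT.lf (nat_lit 0) (nat_lit 960215426) (nat_lit 760) (nat_lit 6158094478) (nat_lit 836) (nat_lit 6099034143) (nat_lit 128) (nat_lit 5) (nat_lit 138) (nat_lit 5) (nat_lit 139) (nat_lit 5) (nat_lit 417) (nat_lit 413) (nat_lit 370)) (XT.nd (nat_lit 78) (nat_lit 0) (nat_lit 0) (XT.lf (nat_lit 0) (nat_lit 2740247822) (nat_lit 760) (nat_lit 8799165869) (nat_lit 836) (nat_lit 2200329226) (nat_lit 129) (nat_lit 5) (nat_lit 139) (nat_lit 5) (nat_lit 140) (nat_lit 5) (nat_lit 418) (nat_lit 413) (nat_lit 369)) (XT.lf (nat_lit 76) (nat_lit 2764547848) (nat_lit 0) (nat_lit 2108661444) (nat_lit 836) (nat_lit 9420221631) (nat_lit 130) (nat_lit 5) (nat_lit 129) (nat_lit 5) (nat_lit 140) (nat_lit 5) (nat_lit 419) (nat_lit 413) (nat_lit 368))))) (XT.nd (nat_lit 234) (nat_lit 1444) (nat_lit 0) (XT.nd (nat_lit 78) (nat_lit 380) (nat_lit 0) (XT.lf (nat_lit 0) (nat_lit 520381359) (nat_lit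 760) (nat_lit 6888706269) (nat_lit 836) (nat_lit 7470734151) (nat_lit 120) (nat_lit 5) (nat_lit 130) (nat_lit 5) (nat_lit 131) (nat_lit 5) (nat_lit 420) (nat_lit 413) (nat_lit 367)) (XT.nd (nat_lit 78) (nat_lit 380) (nat_lit 0) (XT.lf (nat_lit 0) (nat_lit 10384532264) (nat_lit 836) (nat_lit 1699878053) (nat_lit 76) (nat_lit 3416898975) (nat_lit 120) (nat_lit 5) (nat_lit 131) (nat_lit 5) (nat_lit 121) (nat_lit 5) (nat_lit 421) (nat_lit 413) (nat_lit 366)) (XT.lf (nat_lit 0) (nat_lit 12198519097) (nat_lit 380) (nat_lit 1655967707) (nat_lit 456) (nat_lit 2305223982) (nat_lit 115) (nat_lit 5) (nat_lit 120) (nat_lit 5) (nat_lit 121) (nat_lit 5) (nat_lit 422) (nat_lit 413) (nat_lit 365)))) (XT.nd (nat_lit 156) (nat_lit 608) (nat_lit 0) (XT.nd (nat_lit 78) (nat_lit 380) (nat_lit 0) (XT.lf (nat_lit 0) (nat_lit 1010204101) (nat_lit 456) (nat_lit 6333708300) (nat_lit 76) (nat_lit 9511199864) (nat_lit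 109) (nat_lit 5) (nat_lit 115) (nat_lit 5) (nat_lit 110) (nat_lit 5) (nat_lit 423) (nat_lit 413) (nat_lit 364)) (XT.lf (nat_lit 0) (nat_lit 4767668376) (nat_lit 456) (nat_lit 8790281854) (nat_lit 76) (nat_lit 4033443081) (nat_lit 104) (nat_lit 5) (nat_lit 110) (nat_lit 5) (nat_lit 105) (nat_lit 5) (nat_lit 424) (nat_lit 413) (nat_lit 363))) (XT.nd (nat_lit 78) (nat_lit 304) (nat_lit 0) (XT.lf (nat_lit 0) (nat_lit 7043732541) (nat_lit 304) (nat_lit 2085411378) (nat_lit 380) (nat_lit 9242276349) (nat_lit 100) (nat_lit 5) (nat_lit 104) (nat_lit 5) (nat_lit 105) (nat_lit 5) (nat_lit 425) (nat_lit 413) (nat_lit 362)) (XT.lf (nat_lit 0) (nat_lit 5207704825) (nat_lit 304) (nat_lit 8989477197) (nat_lit 380) (nat_lit 4998798224) (nat_lit 96) (nat_lit 5) (nat_lit 100) (nat_lit 5) (nat_lit 101) (nat_lit 5) (nat_lit 426) (nat_lit 413) (nat_lit 361)))))) (XT.nd (nat_lit 546) (nat_lit 1368) (nat_lit 0)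 (XT.nd (nat_lit 234) (nat_lit 988) (nat_lit 0) (XT.nd (nat_lit 78) (nat_lit 380) (nat_lit 0) (XT.lf (nat_lit 0) (nat_lit 3364282124) (nat_lit 228) (nat_lit 16607921602) (nat_lit 304) (nat_lit 99236384) (nat_lit 93) (nat_lit 5) (nat_lit 96) (nat_lit 5) (nat_lit 97) (nat_lit 5) (nat_lit 427) (nat_lit 413) (nat_lit 360)) (XT.nd (nat_lit 78) (nat_lit 0) (nat_lit 0) (XT.lf (nat_lit 0) (nat_lit 1360082998) (nat_lit 304) (nat_lit 4049965686) (nat_lit 380) (nat_lit 15583648253) (nat_lit 88) (nat_lit 5) (nat_lit 92) (nat_lit 5) (nat_lit 93) (nat_lit 5) (nat_lit 428) (nat_lit 413) (nat_lit 359)) (XT.lf (nat_lit 0) (nat_lit 11766285540) (nat_lit 380) (nat_lit 707004375) (nat_lit 76) (nat_lit 9495888664) (nat_lit 88) (nat_lit 5) (nat_lit 93) (nat_lit 5) (nat_lit 89) (nat_lit 5) (nat_lit 429) (nat_lit 413) (nat_lit 358)))) (XT.nd (nat_lit 156) (nat_lit 456) (nat_lit 0) (XT.nd (nat_lit 78) (nat_lit 304)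 (nat_lit 0) (XT.lf (nat_lit 0) (nat_lit 19003803023) (nat_lit 304) (nat_lit 2753670472) (nat_lit 76) (nat_lit 1246595333) (nat_lit 85) (nat_lit 5) (nat_lit 89) (nat_lit 5) (nat_lit 86) (nat_lit 5) (nat_lit 430) (nat_lit 413) (nat_lit 357)) (XT.lf (nat_lit 0) (nat_lit 3111515293) (nat_lit 304) (nat_lit 4998778713) (nat_lit 76) (nat_lit 15984392017) (nat_lit 81) (nat_lit 5) (nat_lit 85) (nat_lit 5) (nat_lit 82) (nat_lit 5) (nat_lit 431) (nat_lit 413) (nat_lit 356))) (XT.nd (nat_lit 78) (nat_lit 228) (nat_lit 0) (XT.lf (nat_lit 0) (nat_lit 11063983684) (nat_lit 304) (nat_lit 7376276246) (nat_lit 76) (nat_lit 6808426504) (nat_lit 78) (nat_lit 5) (nat_lit 82) (nat_lit 5) (nat_lit 79) (nat_lit 5) (nat_lit 432) (nat_lit 413) (nat_lit 355)) (XT.lf (nat_lit 0) (nat_lit 16613900578) (nat_lit 228) (nat_lit 3495385971) (nat_lit 304) (nat_lit 6362895407) (nat_lit 75) (nat_lit 5) (nat_lit 78) (nat_lit 5)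 (nat_lit 79) (nat_lit 5) (nat_lit 433) (nat_lit 413) (nat_lit 354))))) (XT.nd (nat_lit 234) (nat_lit 760) (nat_lit 0) (XT.nd (nat_lit 78) (nat_lit 380) (nat_lit 0) (XT.lf (nat_lit 0) (nat_lit 2566113998) (nat_lit 228) (nat_lit 12560102899) (nat_lit 76) (nat_lit 12638309987) (nat_lit 72) (nat_lit 5) (nat_lit 75) (nat_lit 5) (nat_lit 73) (nat_lit 5) (nat_lit 434) (nat_lit 413) (nat_lit 353)) (XT.nd (nat_lit 78) (nat_lit 152) (nat_lit 0) (XT.lf (nat_lit 0) (nat_lit 12431301845) (nat_lit 304) (nat_lit 15451235007) (nat_lit 76) (nat_lit 1250273595) (nat_lit 69) (nat_lit 5) (nat_lit 73) (nat_lit 5) (nat_lit 70) (nat_lit 5) (nat_lit 435) (nat_lit 413) (nat_lit 352)) (XT.lf (nat_lit 0) (nat_lit 11956937587) (nat_lit 152) (nat_lit 11768217271) (nat_lit 228) (nat_lit 6853434566) (nat_lit 67) (nat_lit 5) (nat_lit 69) (nat_lit 5) (nat_lit 70) (nat_lit 5) (nat_lit 436) (nat_lit 413) (nat_lit 351)))) (XT.nd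 (nat_lit 156) (nat_lit 380) (nat_lit 0) (XT.nd (nat_lit 78) (nat_lit 152) (nat_lit 0) (XT.lf (nat_lit 0) (nat_lit 4166398079) (nat_lit 228) (nat_lit 22003956589) (nat_lit 76) (nat_lit 5941479117) (nat_lit 64) (nat_lit 5) (nat_lit 67) (nat_lit 5) (nat_lit 65) (nat_lit 5) (nat_lit 437) (nat_lit 413) (nat_lit 350)) (XT.lf (nat_lit 0) (nat_lit 7947269126) (nat_lit 152) (nat_lit 8513043565) (nat_lit 228) (nat_lit 17270181394) (nat_lit 62) (nat_lit 5) (nat_lit 64) (nat_lit 5) (nat_lit 65) (nat_lit 5) (nat_lit 438) (nat_lit 413) (nat_lit 349))) (XT.nd (nat_lit 78) (nat_lit 228) (nat_lit 0) (XT.lf (nat_lit 0) (nat_lit 5592484865) (nat_lit 152) (nat_lit 24765081832) (nat_lit 228) (nat_lit 5090093162) (nat_lit 60) (nat_lit 5) (nat_lit 62) (nat_lit 5) (nat_lit 63) (nat_lit 5) (nat_lit 439) (nat_lit 413) (nat_lit 348)) (XT.lf (nat_lit 0) (nat_lit 2899820482) (nat_lit 152) (nat_lit 5530626696) (nat_lit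 228) (nat_lit 28834251996) (nat_lit 57) (nat_lit 5) (nat_lit 59) (nat_lit 5) (nat_lit 60) (nat_lit 5) (nat_lit 440) (nat_lit 413) (nat_lit 347))))))))
noncomputable def xc69 : XT := (XT.nd (nat_lit 2106) (nat_lit 1140) (nat_lit 0) (XT.nd (nat_lit 1014) (nat_lit 1216) (nat_lit 0) (XT.nd (nat_lit 468) (nat_lit 836) (nat_lit 0) (XT.nd (nat_lit 234) (nat_lit 456) (nat_lit 0) (XT.nd (nat_lit 78) (nat_lit 380) (nat_lit 0) (XT.lf (nat_lit 0) (nat_lit 23602916058) (nat_lit 228) (nat_lit 226749295) (nat_lit 76) (nat_lit 15355836439) (nat_lit 57) (nat_lit 5) (nat_lit 60) (nat_lit 5) (nat_lit 58) (nat_lit 5) (nat_lit 441) (nat_lit 413) (nat_lit 346)) (XT.nd (nat_lit 78) (nat_lit 228) (nat_lit 0) (XT.lf (nat_lit 0) (nat_lit 37724509109) (nat_lit 152) (nat_lit 2928091385) (nat_lit 228) (nat_lit 574200215) (nat_lit 55) (nat_lit 5) (nat_lit 57) (nat_lit 5) (nat_lit 58) (nat_lit 5) (nat_lit 442) (nat_lit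 413) (nat_lit 345)) (XT.lf (nat_lit 0) (nat_lit 16004827475) (nat_lit 228) (nat_lit 7540524674) (nat_lit 76) (nat_lit 19830329614) (nat_lit 52) (nat_lit 5) (nat_lit 55) (nat_lit 5) (nat_lit 53) (nat_lit 5) (nat_lit 443) (nat_lit 413) (nat_lit 344)))) (XT.nd (nat_lit 78) (nat_lit 304) (nat_lit 0) (XT.lf (nat_lit 0) (nat_lit 33740488999) (nat_lit 152) (nat_lit 770483924) (nat_lit 228) (nat_lit 11153986532) (nat_lit 50) (nat_lit 5) (nat_lit 52) (nat_lit 5) (nat_lit 53) (nat_lit 5) (nat_lit 444) (nat_lit 413) (nat_lit 343)) (XT.nd (nat_lit 78) (nat_lit 152) (nat_lit 0) (XT.lf (nat_lit 0) (nat_lit 7146056177) (nat_lit 152) (nat_lit 17151727322) (nat_lit 76) (nat_lit 23785163335) (nat_lit 48) (nat_lit 5) (nat_lit 50) (nat_lit 5) (nat_lit 49) (nat_lit 5) (nat_lit 445) (nat_lit 413) (nat_lit 342)) (XT.lf (nat_lit 0) (nat_lit 27170274662) (nat_lit 228) (nat_lit 23052794396) (nat_lit 76) (nat_lit 429615843)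 (nat_lit 46) (nat_lit 5) (nat_lit 49) (nat_lit 5) (nat_lit 47) (nat_lit 4) (nat_lit 446) (nat_lit 413) (nat_lit 341))))) (XT.nd (nat_lit 234) (nat_lit 456) (nat_lit 0) (XT.nd (nat_lit 78) (nat_lit 304) (nat_lit 0) (XT.lf (nat_lit 0) (nat_lit 23438142386) (nat_lit 76) (nat_lit 26421841927) (nat_lit 152) (nat_lit 3514841864) (nat_lit 45) (nat_lit 5) (nat_lit 46) (nat_lit 5) (nat_lit 47) (nat_lit 4) (nat_lit 447) (nat_lit 413) (nat_lit 340)) (XT.nd (nat_lit 78) (nat_lit 76) (nat_lit 0) (XT.lf (nat_lit 0) (nat_lit 18158028948) (nat_lit 228) (nat_lit 37819937917) (nat_lit 76) (nat_lit 288402166) (nat_lit 42) (nat_lit 5) (nat_lit 45) (nat_lit 5) (nat_lit 43) (nat_lit 4) (nat_lit 448) (nat_lit 413) (nat_lit 339)) (XT.lf (nat_lit 0) (nat_lit 12257975977) (nat_lit 76) (nat_lit 30337451786) (nat_lit 152) (nat_lit 16733235978) (nat_lit 41) (nat_lit 5) (nat_lit 42) (nat_lit 5) (nat_lit 43) (nat_lit 4)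 (nat_lit 449) (nat_lit 413) (nat_lit 338)))) (XT.nd (nat_lit 156) (nat_lit 228) (nat_lit 0) (XT.nd (nat_lit 78) (nat_lit 0) (nat_lit 0) (XT.lf (nat_lit 0) (nat_lit 5117087503) (nat_lit 152) (nat_lit 1766702061) (nat_lit 228) (nat_lit 55710434623) (nat_lit 38) (nat_lit 5) (nat_lit 40) (nat_lit 5) (nat_lit 41) (nat_lit 5) (nat_lit 450) (nat_lit 413) (nat_lit 337)) (XT.lf (nat_lit 0) (nat_lit 33085522315) (nat_lit 228) (nat_lit 3694768498) (nat_lit 76) (nat_lit 29262944307) (nat_lit 38) (nat_lit 5) (nat_lit 41) (nat_lit 5) (nat_lit 39) (nat_lit 4) (nat_lit 451) (nat_lit 413) (nat_lit 336))) (XT.nd (nat_lit 78) (nat_lit 152) (nat_lit 0) (XT.lf (nat_lit 0) (nat_lit 56133184458) (nat_lit 76) (nat_lit 6143621424) (nat_lit 152) (nat_lit 7446691579) (nat_lit 37) (nat_lit 5) (nat_lit 38) (nat_lit 5) (nat_lit 39) (nat_lit 4) (nat_lit 452) (nat_lit 413) (nat_lit 335)) (XT.lf (nat_lit 0) (nat_lit 20709441087)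 (nat_lit 152) (nat_lit 25686022634) (nat_lit 76) (nat_lit 27224637033) (nat_lit 35) (nat_lit 5) (nat_lit 37) (nat_lit 5) (nat_lit 36) (nat_lit 4) (nat_lit 453) (nat_lit 413) (nat_lit 334)))))) (XT.nd (nat_lit 546) (nat_lit 608) (nat_lit 0) (XT.nd (nat_lit 234) (nat_lit 304) (nat_lit 0) (XT.nd (nat_lit 78) (nat_lit 228) (nat_lit 0) (XT.lf (nat_lit 0) (nat_lit 38010026988) (nat_lit 76) (nat_lit 13776305043) (nat_lit 152) (nat_lit 25989539194) (nat_lit 34) (nat_lit 5) (nat_lit 35) (nat_lit 5) (nat_lit 36) (nat_lit 4) (nat_lit 454) (nat_lit 413) (nat_lit 333)) (XT.nd (nat_lit 78) (nat_lit 76) (nat_lit 0) (XT.lf (nat_lit 0) (nat_lit 4189080801) (nat_lit 152) (nat_lit 56329215738) (nat_lit 76) (nat_lit 21683271240) (nat_lit 32) (nat_lit 5) (nat_lit 34) (nat_lit 5) (nat_lit 33) (nat_lit 4) (nat_lit 455) (nat_lit 413) (nat_lit 332)) (XT.lf (nat_lit 0) (nat_lit 10879818929) (nat_lit 76) (nat_lit 26098767865)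 (nat_lit 152) (nat_lit 49926073957) (nat_lit 31) (nat_lit 5) (nat_lit 32) (nat_lit 5) (nat_lit 33) (nat_lit 4) (nat_lit 456) (nat_lit 413) (nat_lit 331)))) (XT.nd (nat_lit 156) (nat_lit 152) (nat_lit 0) (XT.nd (nat_lit 78) (nat_lit 152) (nat_lit 0) (XT.lf (nat_lit 0) (nat_lit 73550578465) (nat_lit 152) (nat_lit 6667770514) (nat_lit 0) (nat_lit 11707686629) (nat_lit 31) (nat_lit 5) (nat_lit 33) (nat_lit 4) (nat_lit 31) (nat_lit 4) (nat_lit 457) (nat_lit 413) (nat_lit 330)) (XT.lf (nat_lit 0) (nat_lit 16744905201) (nat_lit 152) (nat_lit 27523554361) (nat_lit 76) (nat_lit 52990997631) (nat_lit 29) (nat_lit 5) (nat_lit 31) (nat_lit 5) (nat_lit 30) (nat_lit 4) (nat_lit 458) (nat_lit 413) (nat_lit 329))) (XT.nd (nat_lit 78) (nat_lit 76) (nat_lit 0) (XT.lf (nat_lit 0) (nat_lit 50770606948) (nat_lit 76) (nat_lit 4170058146) (nat_lit 152) (nat_lit 48018348384) (nat_lit 28) (nat_lit 5) (nat_lit 29)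 (nat_lit 5) (nat_lit 30) (nat_lit 4) (nat_lit 459) (nat_lit 413) (nat_lit 328)) (XT.lf (nat_lit 0) (nat_lit 27462313355) (nat_lit 76) (nat_lit 70247395664) (nat_lit 76) (nat_lit 11328944617) (nat_lit 27) (nat_lit 4) (nat_lit 28) (nat_lit 5) (nat_lit 28) (nat_lit 4) (nat_lit 460) (nat_lit 413) (nat_lit 327))))) (XT.nd (nat_lit 234) (nat_lit 380) (nat_lit 0) (XT.nd (nat_lit 78) (nat_lit 152) (nat_lit 0) (XT.lf (nat_lit 0) (nat_lit 28375091175) (nat_lit 152) (nat_lit 755349325) (nat_lit 76) (nat_lit 86402880486) (nat_lit 26) (nat_lit 5) (nat_lit 28) (nat_lit 5) (nat_lit 27) (nat_lit 4) (nat_lit 461) (nat_lit 413) (nat_lit 326)) (XT.nd (nat_lit 78) (nat_lit 76) (nat_lit 0) (XT.lf (nat_lit 0) (nat_lit 72511984300) (nat_lit 152) (nat_lit 33555148774) (nat_lit 0) (nat_lit 16388470789) (nat_lit 25) (nat_lit 5) (nat_lit 27) (nat_lit 4) (nat_lit 25) (nat_lit 4) (nat_lit 462) (nat_lit 413) (nat_lit 325))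 (XT.lf (nat_lit 0) (nat_lit 57146199925) (nat_lit 76) (nat_lit 64422160642) (nat_lit 76) (nat_lit 8293882623) (nat_lit 24) (nat_lit 4) (nat_lit 25) (nat_lit 5) (nat_lit 25) (nat_lit 4) (nat_lit 463) (nat_lit 413) (nat_lit 324)))) (XT.nd (nat_lit 156) (nat_lit 228) (nat_lit 0) (XT.nd (nat_lit 78) (nat_lit 0) (nat_lit 0) (XT.lf (nat_lit 0) (nat_lit 18462569684) (nat_lit 76) (nat_lit 17925361674) (nat_lit 152) (nat_lit 101401125770) (nat_lit 22) (nat_lit 5) (nat_lit 23) (nat_lit 5) (nat_lit 24) (nat_lit 4) (nat_lit 464) (nat_lit 413) (nat_lit 323)) (XT.lf (nat_lit 0) (nat_lit 86141423750) (nat_lit 152) (nat_lit 27434579884) (nat_lit 0) (nat_lit 32677829085) (nat_lit 22) (nat_lit 5) (nat_lit 24) (nat_lit 4) (nat_lit 22) (nat_lit 4) (nat_lit 465) (nat_lit 413) (nat_lit 322))) (XT.nd (nat_lit 78) (nat_lit 152) (nat_lit 0) (XT.lf (nat_lit 0) (nat_lit 73856150401) (nat_lit 76) (nat_lit 67467214290)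 (nat_lit 76) (nat_lit 14000017511) (nat_lit 21) (nat_lit 4) (nat_lit 22) (nat_lit 5) (nat_lit 22) (nat_lit 4) (nat_lit 466) (nat_lit 413) (nat_lit 321)) (XT.lf (nat_lit 0) (nat_lit 19168175093) (nat_lit 76) (nat_lit 16265340595) (nat_lit 152) (nat_lit 129618131358) (nat_lit 19) (nat_lit 5) (nat_lit 20) (nat_lit 5) (nat_lit 21) (nat_lit 4) (nat_lit 467) (nat_lit 413) (nat_lit 320))))))) (XT.nd (nat_lit 1014) (nat_lit 456) (nat_lit 0) (XT.nd (nat_lit 468) (nat_lit 380) (nat_lit 0) (XT.nd (nat_lit 234) (nat_lit 152) (nat_lit 0) (XT.nd (nat_lit 78) (nat_lit 152) (nat_lit 0) (XT.lf (nat_lit 0) (nat_lit 90382808812) (nat_lit 152) (nat_lit 45605759224) (nat_lit 0) (nat_lit 39455551381) (nat_lit 19) (nat_lit 5) (nat_lit 21) (nat_lit 4) (nat_lit 19) (nat_lit 4) (nat_lit 468) (nat_lit 413) (nat_lit 319)) (XT.nd (nat_lit 78) (nat_lit 76) (nat_lit 0) (XT.lf (nat_lit 0) (nat_lit 64470987793) (nat_lit 76)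 (nat_lit 86531627140) (nat_lit 76) (nat_lit 35601646400) (nat_lit 18) (nat_lit 4) (nat_lit 19) (nat_lit 5) (nat_lit 19) (nat_lit 4) (nat_lit 469) (nat_lit 413) (nat_lit 318)) (XT.lf (nat_lit 0) (nat_lit 18045966741) (nat_lit 152) (nat_lit 13938270502) (nat_lit 76) (nat_lit 166619002600) (nat_lit 17) (nat_lit 5) (nat_lit 19) (nat_lit 5) (nat_lit 18) (nat_lit 4) (nat_lit 470) (nat_lit 413) (nat_lit 317)))) (XT.nd (nat_lit 78) (nat_lit 76) (nat_lit 0) (XT.lf (nat_lit 0) (nat_lit 76856344011) (nat_lit 152) (nat_lit 106223722643) (nat_lit 0) (nat_lit 28346975325) (nat_lit 16) (nat_lit 5) (nat_lit 18) (nat_lit 4) (nat_lit 16) (nat_lit 4) (nat_lit 471) (nat_lit 413) (nat_lit 316)) (XT.nd (nat_lit 78) (nat_lit 0) (nat_lit 0) (XT.lf (nat_lit 0) (nat_lit 8838074711) (nat_lit 76) (nat_lit 132452085452) (nat_lit 76) (nat_lit 83940657861) (nat_lit 15) (nat_lit 4) (nat_lit 16) (nat_lit 5) (nat_lit 16) (nat_lit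 4) (nat_lit 472) (nat_lit 413) (nat_lit 315)) (XT.lf (nat_lit 0) (nat_lit 136887637945) (nat_lit 76) (nat_lit 75836168067) (nat_lit 76) (nat_lit 27322834082) (nat_lit 15) (nat_lit 4) (nat_lit 16) (nat_lit 5) (nat_lit 16) (nat_lit 4) (nat_lit 473) (nat_lit 413) (nat_lit 314))))) (XT.nd (nat_lit 234) (nat_lit 152) (nat_lit 0) (XT.nd (nat_lit 78) (nat_lit 76) (nat_lit 0) (XT.lf (nat_lit 0) (nat_lit 19210411883) (nat_lit 76) (nat_lit 13826422774) (nat_lit 152) (nat_lit 222969738138) (nat_lit 13) (nat_lit 5) (nat_lit 14) (nat_lit 5) (nat_lit 15) (nat_lit 4) (nat_lit 474) (nat_lit 413) (nat_lit 313)) (XT.nd (nat_lit 78) (nat_lit 76) (nat_lit 0) (XT.lf (nat_lit 0) (nat_lit 99932194023) (nat_lit 152) (nat_lit 119429720567) (nat_lit 0) (nat_lit 53725781080) (nat_lit 13) (nat_lit 5) (nat_lit 15) (nat_lit 4) (nat_lit 13) (nat_lit 4) (nat_lit 475) (nat_lit 413) (nat_lit 312)) (XT.lf (nat_lit 0) (nat_lit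 7318310617) (nat_lit 76) (nat_lit 165203851557) (nat_lit 76) (nat_lit 118995997322) (nat_lit 12) (nat_lit 4) (nat_lit 13) (nat_lit 5) (nat_lit 13) (nat_lit 4) (nat_lit 476) (nat_lit 413) (nat_lit 311)))) (XT.nd (nat_lit 156) (nat_lit 76) (nat_lit 0) (XT.nd (nat_lit 78) (nat_lit 76) (nat_lit 0) (XT.lf (nat_lit 0) (nat_lit 148462546996) (nat_lit 76) (nat_lit 104532947000) (nat_lit 76) (nat_lit 58323758235) (nat_lit 12) (nat_lit 4) (nat_lit 13) (nat_lit 5) (nat_lit 13) (nat_lit 4) (nat_lit 477) (nat_lit 413) (nat_lit 310)) (XT.lf (nat_lit 0) (nat_lit 6967768797) (nat_lit 152) (nat_lit 31926498404) (nat_lit 76) (nat_lit 293804741602) (nat_lit 11) (nat_lit 5) (nat_lit 13) (nat_lit 5) (nat_lit 12) (nat_lit 4) (nat_lit 478) (nat_lit 413) (nat_lit 309))) (XT.nd (nat_lit 78) (nat_lit 0) (nat_lit 0) (XT.lf (nat_lit 0) (nat_lit 77756961018) (nat_lit 152) (nat_lit 244122549128) (nat_lit 0) (nat_lit 33745943319)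 (nat_lit 10) (nat_lit 5) (nat_lit 12) (nat_lit 4) (nat_lit 10) (nat_lit 4) (nat_lit 479) (nat_lit 413) (nat_lit 308)) (XT.lf (nat_lit 0) (nat_lit 155426801378) (nat_lit 152) (nat_lit 113483562037) (nat_lit 0) (nat_lit 111414774733) (nat_lit 10) (nat_lit 5) (nat_lit 12) (nat_lit 4) (nat_lit 10) (nat_lit 4) (nat_lit 480) (nat_lit 413) (nat_lit 307)))))) (XT.nd (nat_lit 546) (nat_lit 228) (nat_lit 0) (XT.nd (nat_lit 234) (nat_lit 152) (nat_lit 0) (XT.nd (nat_lit 78) (nat_lit 0) (nat_lit 0) (XT.lf (nat_lit 0) (nat_lit 28512497831) (nat_lit 76) (nat_lit 211239584030) (nat_lit 76) (nat_lit 167226623177) (nat_lit 9) (nat_lit 4) (nat_lit 10) (nat_lit 5) (nat_lit 10) (nat_lit 4) (nat_lit 481) (nat_lit 413) (nat_lit 306)) (XT.nd (nat_lit 78) (nat_lit 0) (nat_lit 0) (XT.lf (nat_lit 0) (nat_lit 185914367575) (nat_lit 76) (nat_lit 146882666585) (nat_lit 76) (nat_lit 102868840723) (nat_lit 9) (nat_lit 4)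 (nat_lit 10) (nat_lit 5) (nat_lit 10) (nat_lit 4) (nat_lit 482) (nat_lit 413) (nat_lit 305)) (XT.lf (nat_lit 0) (nat_lit 355902519949) (nat_lit 76) (nat_lit 77380135788) (nat_lit 76) (nat_lit 33365508993) (nat_lit 9) (nat_lit 4) (nat_lit 10) (nat_lit 5) (nat_lit 10) (nat_lit 4) (nat_lit 483) (nat_lit 413) (nat_lit 304)))) (XT.nd (nat_lit 156) (nat_lit 0) (nat_lit 0) (XT.nd (nat_lit 78) (nat_lit 0) (nat_lit 0) (XT.lf (nat_lit 0) (nat_lit 40004534139) (nat_lit 76) (nat_lit 980784172) (nat_lit 152) (nat_lit 459060076896) (nat_lit 7) (nat_lit 5) (nat_lit 8) (nat_lit 5) (nat_lit 9) (nat_lit 4) (nat_lit 484) (nat_lit 413) (nat_lit 303)) (XT.lf (nat_lit 0) (nat_lit 123361862757) (nat_lit 152) (nat_lit 331121051542) (nat_lit 0) (nat_lit 81441810308) (nat_lit 7) (nat_lit 5) (nat_lit 9) (nat_lit 4) (nat_lit 7) (nat_lit 4) (nat_lit 485) (nat_lit 413) (nat_lit 302))) (XT.nd (nat_lit 78) (nat_lit 0) (nat_lit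 0) (XT.lf (nat_lit 0) (nat_lit 212342592262) (nat_lit 152) (nat_lit 191909170790) (nat_lit 0) (nat_lit 170421934283) (nat_lit 7) (nat_lit 5) (nat_lit 9) (nat_lit 4) (nat_lit 7) (nat_lit 4) (nat_lit 486) (nat_lit 413) (nat_lit 301)) (XT.lf (nat_lit 0) (nat_lit 308439487249) (nat_lit 152) (nat_lit 41564946729) (nat_lit 0) (nat_lit 266518268593) (nat_lit 7) (nat_lit 5) (nat_lit 9) (nat_lit 4) (nat_lit 7) (nat_lit 4) (nat_lit 487) (nat_lit 413) (nat_lit 300))))) (XT.nd (nat_lit 234) (nat_lit 152) (nat_lit 0) (XT.nd (nat_lit 78) (nat_lit 0) (nat_lit 0) (XT.lf (nat_lit 0) (nat_lit 124796827216) (nat_lit 76) (nat_lit 289373611798) (nat_lit 76) (nat_lit 247451873998) (nat_lit 6) (nat_lit 4) (nat_lit 7) (nat_lit 5) (nat_lit 7) (nat_lit 4) (nat_lit 488) (nat_lit 413) (nat_lit 299)) (XT.nd (nat_lit 78) (nat_lit 0) (nat_lit 0) (XT.lf (nat_lit 0) (nat_lit 305947733427) (nat_lit 76) (nat_lit 223134138569)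 (nat_lit 76) (nat_lit 181211920080) (nat_lit 6) (nat_lit 4) (nat_lit 7) (nat_lit 5) (nat_lit 7) (nat_lit 4) (nat_lit 489) (nat_lit 413) (nat_lit 298)) (XT.lf (nat_lit 0) (nat_lit 501586933901) (nat_lit 76) (nat_lit 151597406565) (nat_lit 76) (nat_lit 109674742992) (nat_lit 6) (nat_lit 4) (nat_lit 7) (nat_lit 5) (nat_lit 7) (nat_lit 4) (nat_lit 490) (nat_lit 413) (nat_lit 297)))) (XT.nd (nat_lit 156) (nat_lit 0) (nat_lit 0) (XT.nd (nat_lit 78) (nat_lit 152) (nat_lit 0) (XT.lf (nat_lit 0) (nat_lit 712873772050) (nat_lit 76) (nat_lit 74339494411) (nat_lit 76) (nat_lit 32416418724) (nat_lit 6) (nat_lit 4) (nat_lit 7) (nat_lit 5) (nat_lit 7) (nat_lit 4) (nat_lit 491) (nat_lit 413) (nat_lit 296)) (XT.lf (nat_lit 0) (nat_lit 50515475247) (nat_lit 152) (nat_lit 819741959249) (nat_lit 0) (nat_lit 10588373082) (nat_lit 4) (nat_lit 5) (nat_lit 6) (nat_lit 4) (nat_lit 4) (nat_lit 4) (nat_lit 492) (nat_lit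 413) (nat_lit 295))) (XT.nd (nat_lit 78) (nat_lit 0) (nat_lit 0) (XT.lf (nat_lit 0) (nat_lit 142103404888) (nat_lit 152) (nat_lit 702495417966) (nat_lit 0) (nat_lit 102175966226) (nat_lit 4) (nat_lit 5) (nat_lit 6) (nat_lit 4) (nat_lit 4) (nat_lit 4) (nat_lit 493) (nat_lit 413) (nat_lit 294)) (XT.lf (nat_lit 0) (nat_lit 241016896545) (nat_lit 152) (nat_lit 575872119886) (nat_lit 0) (nat_lit 201089146313) (nat_lit 4) (nat_lit 5) (nat_lit 6) (nat_lit 4) (nat_lit 4) (nat_lit 4) (nat_lit 494) (nat_lit 413) (nat_lit 293))))))))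
noncomputable def xc70 : XT := (XT.nd (nat_lit 57954) (nat_lit 0) (nat_lit 1596) (XT.nd (nat_lit 56940) (nat_lit 0) (nat_lit 4940) (XT.nd (nat_lit 56394) (nat_lit 0) (nat_lit 8436) (XT.nd (nat_lit 56160) (nat_lit 0) (nat_lit 10032) (XT.nd (nat_lit 78) (nat_lit 0) (nat_lit 0) (XT.lf (nat_lit 0) (nat_lit 347842104245) (nat_lit 152) (nat_lit 439121704725) (nat_lit 0) (nat_lit 307914065522) (nat_lit 4) (nat_lit 5) (nat_lit 6) (nat_lit 4) (nat_lit 4) (nat_lit 4) (nat_lit 495) (nat_lit 413) (nat_lit 292)) (XT.nd (nat_lit 78) (nat_lit 0) (nat_lit 0) (XT.lf (nat_lit 0) (nat_lit 463212066255) (nat_lit 152) (nat_lit 291433799652) (nat_lit 0) (nat_lit 423283760410) (nat_lit 4) (nat_lit 5) (nat_lit 6) (nat_lit 4) (nat_lit 4) (nat_lit 4) (nat_lit 496) (nat_lit 413) (nat_lit 291)) (XT.lf (nat_lit 0) (nat_lit 587810456424) (nat_lit 152) (nat_lit 131933217081) (nat_lit 0) (nat_lit 547881903244) (nat_lit 4)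 (nat_lit 5) (nat_lit 6) (nat_lit 4) (nat_lit 4) (nat_lit 4) (nat_lit 497) (nat_lit 413) (nat_lit 290)))) (XT.nd (nat_lit 78) (nat_lit 0) (nat_lit 0) (XT.lf (nat_lit 0) (nat_lit 2495293046) (nat_lit 0) (nat_lit 2495293046) (nat_lit 684) (nat_lit 1132951934) (nat_lit 136) (nat_lit 5) (nat_lit 136) (nat_lit 3) (nat_lit 145) (nat_lit 3) (nat_lit 414) (nat_lit 414) (nat_lit 372)) (XT.nd (nat_lit 78) (nat_lit 0) (nat_lit 76) (XT.lf (nat_lit 76) (nat_lit 2364195866) (nat_lit 0) (nat_lit 8809267666) (nat_lit 760) (nat_lit 1523555053) (nat_lit 137) (nat_lit 5) (nat_lit 136) (nat_lit 5) (nat_lit 146) (nat_lit 5) (nat_lit 415) (nat_lit 414) (nat_lit 371)) (XT.lf (nat_lit 0) (nat_lit 12605279215) (nat_lit 684) (nat_lit 293776133) (nat_lit 760) (nat_lit 276722961) (nat_lit 137) (nat_lit 5) (nat_lit 146) (nat_lit 5) (nat_lit 147) (nat_lit 5) (nat_lit 416) (nat_lit 414) (nat_lit 370))))) (XT.nd (nat_lit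 234) (nat_lit 912) (nat_lit 0) (XT.nd (nat_lit 78) (nat_lit 0) (nat_lit 76) (XT.lf (nat_lit 0) (nat_lit 699896493) (nat_lit 760) (nat_lit 2989944797) (nat_lit 836) (nat_lit 9989875814) (nat_lit 127) (nat_lit 5) (nat_lit 137) (nat_lit 5) (nat_lit 138) (nat_lit 5) (nat_lit 417) (nat_lit 414) (nat_lit 369)) (XT.nd (nat_lit 78) (nat_lit 0) (nat_lit 76) (XT.lf (nat_lit 0) (nat_lit 2230682676) (nat_lit 760) (nat_lit 5757923164) (nat_lit 836) (nat_lit 6225983767) (nat_lit 128) (nat_lit 5) (nat_lit 138) (nat_lit 5) (nat_lit 139) (nat_lit 5) (nat_lit 418) (nat_lit 414) (nat_lit 368)) (XT.lf (nat_lit 0) (nat_lit 4073902438) (nat_lit 760) (nat_lit 8588597083) (nat_lit 836) (nat_lit 2120275662) (nat_lit 129) (nat_lit 5) (nat_lit 139) (nat_lit 5) (nat_lit 140) (nat_lit 5) (nat_lit 419) (nat_lit 414) (nat_lit 367)))) (XT.nd (nat_lit 156) (nat_lit 380) (nat_lit 0) (XT.nd (nat_lit 78) (nat_lit 684) (nat_lit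 0) (XT.lf (nat_lit 76) (nat_lit 3860470587) (nat_lit 0) (nat_lit 2448136952) (nat_lit 836) (nat_lit 9075626869) (nat_lit 130) (nat_lit 5) (nat_lit 129) (nat_lit 5) (nat_lit 140) (nat_lit 5) (nat_lit 420) (nat_lit 414) (nat_lit 366)) (XT.lf (nat_lit 0) (nat_lit 1451687312) (nat_lit 760) (nat_lit 7529642754) (nat_lit 836) (nat_lit 7039536949) (nat_lit 120) (nat_lit 5) (nat_lit 130) (nat_lit 5) (nat_lit 131) (nat_lit 5) (nat_lit 421) (nat_lit 414) (nat_lit 365))) (XT.nd (nat_lit 78) (nat_lit 380) (nat_lit 0) (XT.lf (nat_lit 0) (nat_lit 12120954821) (nat_lit 836) (nat_lit 965110330) (nat_lit 76) (nat_lit 3609728167) (nat_lit 120) (nat_lit 5) (nat_lit 131) (nat_lit 5) (nat_lit 121) (nat_lit 5) (nat_lit 422) (nat_lit 414) (nat_lit 364)) (XT.lf (nat_lit 0) (nat_lit 14007316511) (nat_lit 380) (nat_lit 1807107439) (nat_lit 456) (nat_lit 1595172086) (nat_lit 115) (nat_lit 5) (nat_lit 120) (nat_lit 5)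 (nat_lit 121) (nat_lit 5) (nat_lit 423) (nat_lit 414) (nat_lit 363)))))) (XT.nd (nat_lit 468) (nat_lit 1444) (nat_lit 0) (XT.nd (nat_lit 234) (nat_lit 912) (nat_lit 0) (XT.nd (nat_lit 78) (nat_lit 684) (nat_lit 0) (XT.lf (nat_lit 0) (nat_lit 1905749432) (nat_lit 456) (nat_lit 5975165911) (nat_lit 76) (nat_lit 10281593701) (nat_lit 109) (nat_lit 5) (nat_lit 115) (nat_lit 5) (nat_lit 110) (nat_lit 5) (nat_lit 424) (nat_lit 414) (nat_lit 362)) (XT.nd (nat_lit 78) (nat_lit 304) (nat_lit 0) (XT.lf (nat_lit 0) (nat_lit 5917324303) (nat_lit 456) (nat_lit 8628189258) (nat_lit 76) (nat_lit 4414523767) (nat_lit 104) (nat_lit 5) (nat_lit 110) (nat_lit 5) (nat_lit 105) (nat_lit 5) (nat_lit 425) (nat_lit 414) (nat_lit 361)) (XT.lf (nat_lit 0) (nat_lit 8434940747) (nat_lit 304) (nat_lit 2148793161) (nat_lit 380) (nat_lit 9220950647) (nat_lit 100) (nat_lit 5) (nat_lit 104) (nat_lit 5) (nat_lit 105) (nat_lit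 5) (nat_lit 426) (nat_lit 414) (nat_lit 360)))) (XT.nd (nat_lit 78) (nat_lit 608) (nat_lit 0) (XT.lf (nat_lit 0) (nat_lit 6449379886) (nat_lit 304) (nat_lit 9568563395) (nat_lit 380) (nat_lit 4679247149) (nat_lit 96) (nat_lit 5) (nat_lit 100) (nat_lit 5) (nat_lit 101) (nat_lit 5) (nat_lit 427) (nat_lit 414) (nat_lit 359)) (XT.nd (nat_lit 78) (nat_lit 304) (nat_lit 0) (XT.lf (nat_lit 0) (nat_lit 556167393) (nat_lit 304) (nat_lit 17199963557) (nat_lit 76) (nat_lit 3887919379) (nat_lit 92) (nat_lit 5) (nat_lit 96) (nat_lit 5) (nat_lit 93) (nat_lit 5) (nat_lit 428) (nat_lit 414) (nat_lit 358)) (XT.lf (nat_lit 0) (nat_lit 2274387031) (nat_lit 304) (nat_lit 4192071630) (nat_lit 380) (nat_lit 16175374994) (nat_lit 88) (nat_lit 5) (nat_lit 92) (nat_lit 5) (nat_lit 93) (nat_lit 5) (nat_lit 429) (nat_lit 414) (nat_lit 357))))) (XT.nd (nat_lit 234) (nat_lit 912) (nat_lit 0) (XT.nd (nat_lit 78) (nat_lit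 304) (nat_lit 0) (XT.lf (nat_lit 0) (nat_lit 8959629) (nat_lit 228) (nat_lit 13278811151) (nat_lit 304) (nat_lit 10409767470) (nat_lit 85) (nat_lit 5) (nat_lit 88) (nat_lit 5) (nat_lit 89) (nat_lit 5) (nat_lit 430) (nat_lit 414) (nat_lit 356)) (XT.nd (nat_lit 78) (nat_lit 304) (nat_lit 0) (XT.lf (nat_lit 0) (nat_lit 21075683978) (nat_lit 304) (nat_lit 2210670818) (nat_lit 76) (nat_lit 1530307467) (nat_lit 85) (nat_lit 5) (nat_lit 89) (nat_lit 5) (nat_lit 86) (nat_lit 5) (nat_lit 431) (nat_lit 414) (nat_lit 355)) (XT.lf (nat_lit 0) (nat_lit 3891251600) (nat_lit 304) (nat_lit 4650873241) (nat_lit 76) (nat_lit 17453460180) (nat_lit 81) (nat_lit 5) (nat_lit 85) (nat_lit 5) (nat_lit 82) (nat_lit 5) (nat_lit 432) (nat_lit 414) (nat_lit 354)))) (XT.nd (nat_lit 156) (nat_lit 456) (nat_lit 0) (XT.nd (nat_lit 78) (nat_lit 228) (nat_lit 0) (XT.lf (nat_lit 0) (nat_lit 12455085797) (nat_lit 304) (nat_lit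 7229131093) (nat_lit 76) (nat_lit 7558940169) (nat_lit 78) (nat_lit 5) (nat_lit 82) (nat_lit 5) (nat_lit 79) (nat_lit 5) (nat_lit 433) (nat_lit 414) (nat_lit 353)) (XT.lf (nat_lit 0) (nat_lit 18648220009) (nat_lit 228) (nat_lit 3549322891) (nat_lit 304) (nat_lit 6368322088) (nat_lit 75) (nat_lit 5) (nat_lit 78) (nat_lit 5) (nat_lit 79) (nat_lit 5) (nat_lit 434) (nat_lit 414) (nat_lit 352))) (XT.nd (nat_lit 78) (nat_lit 228) (nat_lit 0) (XT.lf (nat_lit 0) (nat_lit 3237112268) (nat_lit 228) (nat_lit 12855176634) (nat_lit 76) (nat_lit 13870012514) (nat_lit 72) (nat_lit 5) (nat_lit 75) (nat_lit 5) (nat_lit 73) (nat_lit 5) (nat_lit 435) (nat_lit 414) (nat_lit 351)) (XT.lf (nat_lit 0) (nat_lit 13871319013) (nat_lit 304) (nat_lit 15989959799) (nat_lit 76) (nat_lit 1579786226) (nat_lit 69) (nat_lit 5) (nat_lit 73) (nat_lit 5) (nat_lit 70) (nat_lit 5) (nat_lit 436) (nat_lit 414) (nat_lit 350)))))))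 (XT.nd (nat_lit 1014) (nat_lit 1292) (nat_lit 0) (XT.nd (nat_lit 468) (nat_lit 988) (nat_lit 0) (XT.nd (nat_lit 234) (nat_lit 532) (nat_lit 0) (XT.nd (nat_lit 78) (nat_lit 380) (nat_lit 0) (XT.lf (nat_lit 0) (nat_lit 13580559578) (nat_lit 152) (nat_lit 12465534509) (nat_lit 228) (nat_lit 6957548562) (nat_lit 67) (nat_lit 5) (nat_lit 69) (nat_lit 5) (nat_lit 70) (nat_lit 5) (nat_lit 437) (nat_lit 414) (nat_lit 349)) (XT.nd (nat_lit 78) (nat_lit 152) (nat_lit 0) (XT.lf (nat_lit 0) (nat_lit 4911784171) (nat_lit 228) (nat_lit 23095828708) (nat_lit 76) (nat_lit 6652486660) (nat_lit 64) (nat_lit 5) (nat_lit 67) (nat_lit 5) (nat_lit 65) (nat_lit 5) (nat_lit 438) (nat_lit 414) (nat_lit 348)) (XT.lf (nat_lit 0) (nat_lit 9222445285) (nat_lit 152) (nat_lit 8946225391) (nat_lit 228) (nat_lit 18240614772) (nat_lit 62) (nat_lit 5) (nat_lit 64) (nat_lit 5) (nat_lit 65) (nat_lit 5) (nat_lit 439) (nat_lit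 414) (nat_lit 347)))) (XT.nd (nat_lit 78) (nat_lit 380) (nat_lit 0) (XT.lf (nat_lit 0) (nat_lit 6666583614) (nat_lit 152) (nat_lit 26495486651) (nat_lit 228) (nat_lit 5102541252) (nat_lit 60) (nat_lit 5) (nat_lit 62) (nat_lit 5) (nat_lit 63) (nat_lit 5) (nat_lit 440) (nat_lit 414) (nat_lit 346)) (XT.nd (nat_lit 78) (nat_lit 152) (nat_lit 0) (XT.lf (nat_lit 0) (nat_lit 3743416461) (nat_lit 152) (nat_lit 5724834514) (nat_lit 228) (nat_lit 30759397338) (nat_lit 57) (nat_lit 5) (nat_lit 59) (nat_lit 5) (nat_lit 60) (nat_lit 5) (nat_lit 441) (nat_lit 414) (nat_lit 345)) (XT.lf (nat_lit 0) (nat_lit 345771475) (nat_lit 152) (nat_lit 25490816867) (nat_lit 228) (nat_lit 16466427574) (nat_lit 55) (nat_lit 5) (nat_lit 57) (nat_lit 5) (nat_lit 58) (nat_lit 5) (nat_lit 442) (nat_lit 414) (nat_lit 344))))) (XT.nd (nat_lit 234) (nat_lit 608) (nat_lit 0) (XT.nd (nat_lit 78) (nat_lit 380) (nat_lit 0) (XT.lf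 (nat_lit 0) (nat_lit 41296875262) (nat_lit 152) (nat_lit 2931441443) (nat_lit 228) (nat_lit 280402587) (nat_lit 55) (nat_lit 5) (nat_lit 57) (nat_lit 5) (nat_lit 58) (nat_lit 5) (nat_lit 443) (nat_lit 414) (nat_lit 343)) (XT.nd (nat_lit 78) (nat_lit 152) (nat_lit 0) (XT.lf (nat_lit 0) (nat_lit 17601713307) (nat_lit 228) (nat_lit 7590873906) (nat_lit 76) (nat_lit 21637279962) (nat_lit 52) (nat_lit 5) (nat_lit 55) (nat_lit 5) (nat_lit 53) (nat_lit 5) (nat_lit 444) (nat_lit 414) (nat_lit 342)) (XT.lf (nat_lit 0) (nat_lit 36968592816) (nat_lit 152) (nat_lit 604570218) (nat_lit 228) (nat_lit 11729886687) (nat_lit 50) (nat_lit 5) (nat_lit 52) (nat_lit 5) (nat_lit 53) (nat_lit 5) (nat_lit 445) (nat_lit 414) (nat_lit 341)))) (XT.nd (nat_lit 156) (nat_lit 304) (nat_lit 0) (XT.nd (nat_lit 78) (nat_lit 152) (nat_lit 0) (XT.lf (nat_lit 0) (nat_lit 8012890377) (nat_lit 152) (nat_lit 17997137949) (nat_lit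 76) (nat_lit 25904760722) (nat_lit 48) (nat_lit 5) (nat_lit 50) (nat_lit 5) (nat_lit 49) (nat_lit 5) (nat_lit 446) (nat_lit 414) (nat_lit 340)) (XT.lf (nat_lit 0) (nat_lit 29628526416) (nat_lit 228) (nat_lit 24382567011) (nat_lit 76) (nat_lit 679541401) (nat_lit 46) (nat_lit 5) (nat_lit 49) (nat_lit 5) (nat_lit 47) (nat_lit 4) (nat_lit 447) (nat_lit 414) (nat_lit 339))) (XT.nd (nat_lit 78) (nat_lit 228) (nat_lit 0) (XT.lf (nat_lit 0) (nat_lit 25805287303) (nat_lit 76) (nat_lit 28314724807) (nat_lit 152) (nat_lit 3511207804) (nat_lit 45) (nat_lit 5) (nat_lit 46) (nat_lit 5) (nat_lit 47) (nat_lit 4) (nat_lit 448) (nat_lit 414) (nat_lit 338)) (XT.lf (nat_lit 0) (nat_lit 19876822738) (nat_lit 228) (nat_lit 40356294591) (nat_lit 76) (nat_lit 521226399) (nat_lit 42) (nat_lit 5) (nat_lit 45) (nat_lit 5) (nat_lit 43) (nat_lit 4) (nat_lit 449) (nat_lit 414) (nat_lit 337)))))) (XT.nd (nat_lit 546) (nat_lit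 532) (nat_lit 0) (XT.nd (nat_lit 234) (nat_lit 456) (nat_lit 0) (XT.nd (nat_lit 78) (nat_lit 228) (nat_lit 0) (XT.lf (nat_lit 0) (nat_lit 13706590712) (nat_lit 76) (nat_lit 32550214249) (nat_lit 152) (nat_lit 17805439497) (nat_lit 41) (nat_lit 5) (nat_lit 42) (nat_lit 5) (nat_lit 43) (nat_lit 4) (nat_lit 450) (nat_lit 414) (nat_lit 336)) (XT.nd (nat_lit 78) (nat_lit 0) (nat_lit 0) (XT.lf (nat_lit 0) (nat_lit 5982274061) (nat_lit 152) (nat_lit 1698156699) (nat_lit 228) (nat_lit 59909012208) (nat_lit 38) (nat_lit 5) (nat_lit 40) (nat_lit 5) (nat_lit 41) (nat_lit 5) (nat_lit 451) (nat_lit 414) (nat_lit 335)) (XT.lf (nat_lit 0) (nat_lit 35963118610) (nat_lit 228) (nat_lit 3559922318) (nat_lit 76) (nat_lit 31792094673) (nat_lit 38) (nat_lit 5) (nat_lit 41) (nat_lit 5) (nat_lit 39) (nat_lit 4) (nat_lit 452) (nat_lit 414) (nat_lit 334)))) (XT.nd (nat_lit 156) (nat_lit 228) (nat_lit 0) (XT.nd (nat_lit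 78) (nat_lit 152) (nat_lit 0) (XT.lf (nat_lit 0) (nat_lit 61035561013) (nat_lit 76) (nat_lit 6443479053) (nat_lit 152) (nat_lit 7811313627) (nat_lit 37) (nat_lit 5) (nat_lit 38) (nat_lit 5) (nat_lit 39) (nat_lit 4) (nat_lit 453) (nat_lit 414) (nat_lit 333)) (XT.lf (nat_lit 0) (nat_lit 22582528203) (nat_lit 152) (nat_lit 27332223240) (nat_lit 76) (nat_lit 29584123958) (nat_lit 35) (nat_lit 5) (nat_lit 37) (nat_lit 5) (nat_lit 36) (nat_lit 4) (nat_lit 454) (nat_lit 414) (nat_lit 332))) (XT.nd (nat_lit 78) (nat_lit 152) (nat_lit 0) (XT.lf (nat_lit 0) (nat_lit 41441749565) (nat_lit 76) (nat_lit 14693899641) (nat_lit 152) (nat_lit 27851955610) (nat_lit 34) (nat_lit 5) (nat_lit 35) (nat_lit 5) (nat_lit 36) (nat_lit 4) (nat_lit 455) (nat_lit 414) (nat_lit 331)) (XT.lf (nat_lit 0) (nat_lit 4727233341) (nat_lit 152) (nat_lit 60447763418) (nat_lit 76) (nat_lit 23592531401) (nat_lit 32) (nat_lit 5) (nat_lit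 34) (nat_lit 5) (nat_lit 33) (nat_lit 4) (nat_lit 456) (nat_lit 414) (nat_lit 330))))) (XT.nd (nat_lit 234) (nat_lit 304) (nat_lit 0) (XT.nd (nat_lit 78) (nat_lit 152) (nat_lit 0) (XT.lf (nat_lit 0) (nat_lit 12121141160) (nat_lit 76) (nat_lit 28009511048) (nat_lit 152) (nat_lit 53716679762) (nat_lit 31) (nat_lit 5) (nat_lit 32) (nat_lit 5) (nat_lit 33) (nat_lit 4) (nat_lit 457) (nat_lit 414) (nat_lit 329)) (XT.nd (nat_lit 78) (nat_lit 152) (nat_lit 0) (XT.lf (nat_lit 0) (nat_lit 79616610303) (nat_lit 152) (nat_lit 6851310282) (nat_lit 0) (nat_lit 12803086815) (nat_lit 31) (nat_lit 5) (nat_lit 33) (nat_lit 4) (nat_lit 31) (nat_lit 4) (nat_lit 458) (nat_lit 414) (nat_lit 328)) (XT.lf (nat_lit 0) (nat_lit 18261086598) (nat_lit 152) (nat_lit 29384913063) (nat_lit 76) (nat_lit 57385374274) (nat_lit 29) (nat_lit 5) (nat_lit 31) (nat_lit 5) (nat_lit 30) (nat_lit 4) (nat_lit 459) (nat_lit 414) (nat_lit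 327)))) (XT.nd (nat_lit 156) (nat_lit 152) (nat_lit 0) (XT.nd (nat_lit 78) (nat_lit 76) (nat_lit 0) (XT.lf (nat_lit 0) (nat_lit 55157982321) (nat_lit 76) (nat_lit 4346529805) (nat_lit 152) (nat_lit 51682783124) (nat_lit 28) (nat_lit 5) (nat_lit 29) (nat_lit 5) (nat_lit 30) (nat_lit 4) (nat_lit 460) (nat_lit 414) (nat_lit 326)) (XT.lf (nat_lit 0) (nat_lit 29976595426) (nat_lit 76) (nat_lit 75713221165) (nat_lit 76) (nat_lit 12063753891) (nat_lit 27) (nat_lit 4) (nat_lit 28) (nat_lit 5) (nat_lit 28) (nat_lit 4) (nat_lit 461) (nat_lit 414) (nat_lit 325))) (XT.nd (nat_lit 78) (nat_lit 76) (nat_lit 0) (XT.lf (nat_lit 0) (nat_lit 30798817935) (nat_lit 152) (nat_lit 516893239) (nat_lit 76) (nat_lit 93452581666) (nat_lit 26) (nat_lit 5) (nat_lit 28) (nat_lit 5) (nat_lit 27) (nat_lit 4) (nat_lit 462) (nat_lit 414) (nat_lit 324)) (XT.lf (nat_lit 0) (nat_lit 78461911220) (nat_lit 152) (nat_lit 35948490404)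 (nat_lit 0) (nat_lit 17834194870) (nat_lit 25) (nat_lit 5) (nat_lit 27) (nat_lit 4) (nat_lit 25) (nat_lit 4) (nat_lit 463) (nat_lit 414) (nat_lit 323))))))))
noncomputable def xc71 : XT := (XT.nd (nat_lit 2106) (nat_lit 152) (nat_lit 0) (XT.nd (nat_lit 1014) (nat_lit 532) (nat_lit 0) (XT.nd (nat_lit 468) (nat_lit 456) (nat_lit 0) (XT.nd (nat_lit 234) (nat_lit 228) (nat_lit 0) (XT.nd (nat_lit 78) (nat_lit 152) (nat_lit 0) (XT.lf (nat_lit 0) (nat_lit 61996316632) (nat_lit 76) (nat_lit 69439793204) (nat_lit 76) (nat_lit 8807992056) (nat_lit 24) (nat_lit 4) (nat_lit 25) (nat_lit 5) (nat_lit 25) (nat_lit 4) (nat_lit 464) (nat_lit 414) (nat_lit 322)) (XT.nd (nat_lit 78) (nat_lit 0) (nat_lit 0) (XT.lf (nat_lit 0) (nat_lit 20210476240) (nat_lit 76) (nat_lit 19226626007) (nat_lit 152) (nat_lit 109368166696) (nat_lit 22) (nat_lit 5) (nat_lit 23) (nat_lit 5) (nat_lit 24) (nat_lit 4) (nat_lit 465) (nat_lit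 414) (nat_lit 321)) (XT.lf (nat_lit 0) (nat_lit 93162560990) (nat_lit 152) (nat_lit 29374030618) (nat_lit 0) (nat_lit 35411051064) (nat_lit 22) (nat_lit 5) (nat_lit 24) (nat_lit 4) (nat_lit 22) (nat_lit 4) (nat_lit 466) (nat_lit 414) (nat_lit 320)))) (XT.nd (nat_lit 78) (nat_lit 152) (nat_lit 0) (XT.lf (nat_lit 0) (nat_lit 80008862382) (nat_lit 76) (nat_lit 72744391239) (nat_lit 76) (nat_lit 14989793080) (nat_lit 21) (nat_lit 4) (nat_lit 22) (nat_lit 5) (nat_lit 22) (nat_lit 4) (nat_lit 467) (nat_lit 414) (nat_lit 319)) (XT.nd (nat_lit 78) (nat_lit 0) (nat_lit 0) (XT.lf (nat_lit 0) (nat_lit 20939227086) (nat_lit 76) (nat_lit 17449399605) (nat_lit 152) (nat_lit 139861126143) (nat_lit 19) (nat_lit 5) (nat_lit 20) (nat_lit 5) (nat_lit 21) (nat_lit 4) (nat_lit 468) (nat_lit 414) (nat_lit 318)) (XT.lf (nat_lit 0) (nat_lit 97726636362) (nat_lit 152) (nat_lit 49030336040) (nat_lit 0) (nat_lit 42717012272)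 (nat_lit 19) (nat_lit 5) (nat_lit 21) (nat_lit 4) (nat_lit 19) (nat_lit 4) (nat_lit 469) (nat_lit 414) (nat_lit 317))))) (XT.nd (nat_lit 234) (nat_lit 228) (nat_lit 0) (XT.nd (nat_lit 78) (nat_lit 152) (nat_lit 0) (XT.lf (nat_lit 0) (nat_lit 69842821016) (nat_lit 76) (nat_lit 93348164107) (nat_lit 76) (nat_lit 38336205218) (nat_lit 18) (nat_lit 4) (nat_lit 19) (nat_lit 5) (nat_lit 19) (nat_lit 4) (nat_lit 470) (nat_lit 414) (nat_lit 316)) (XT.nd (nat_lit 78) (nat_lit 76) (nat_lit 0) (XT.lf (nat_lit 0) (nat_lit 19591438387) (nat_lit 152) (nat_lit 14851672044) (nat_lit 76) (nat_lit 180043295492) (nat_lit 17) (nat_lit 5) (nat_lit 19) (nat_lit 5) (nat_lit 18) (nat_lit 4) (nat_lit 471) (nat_lit 414) (nat_lit 315)) (XT.lf (nat_lit 0) (nat_lit 83103610231) (nat_lit 152) (nat_lit 114525350895) (nat_lit 0) (nat_lit 30707303134) (nat_lit 16) (nat_lit 5) (nat_lit 18) (nat_lit 4) (nat_lit 16) (nat_lit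 4) (nat_lit 472) (nat_lit 414) (nat_lit 314)))) (XT.nd (nat_lit 156) (nat_lit 152) (nat_lit 0) (XT.nd (nat_lit 78) (nat_lit 0) (nat_lit 0) (XT.lf (nat_lit 0) (nat_lit 9732860611) (nat_lit 76) (nat_lit 142954886752) (nat_lit 76) (nat_lit 90556814475) (nat_lit 15) (nat_lit 4) (nat_lit 16) (nat_lit 5) (nat_lit 16) (nat_lit 4) (nat_lit 473) (nat_lit 414) (nat_lit 313)) (XT.lf (nat_lit 0) (nat_lit 148012482242) (nat_lit 76) (nat_lit 81816611941) (nat_lit 76) (nat_lit 29416905239) (nat_lit 15) (nat_lit 4) (nat_lit 16) (nat_lit 5) (nat_lit 16) (nat_lit 4) (nat_lit 474) (nat_lit 414) (nat_lit 312))) (XT.nd (nat_lit 78) (nat_lit 0) (nat_lit 0) (XT.lf (nat_lit 0) (nat_lit 20916335091) (nat_lit 76) (nat_lit 14848325957) (nat_lit 152) (nat_lit 240718191213) (nat_lit 13) (nat_lit 5) (nat_lit 14) (nat_lit 5) (nat_lit 15) (nat_lit 4) (nat_lit 475) (nat_lit 414) (nat_lit 311)) (XT.lf (nat_lit 0) (nat_lit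 108006579159) (nat_lit 152) (nat_lit 128824818722) (nat_lit 0) (nat_lit 58099320763) (nat_lit 13) (nat_lit 5) (nat_lit 15) (nat_lit 4) (nat_lit 13) (nat_lit 4) (nat_lit 476) (nat_lit 414) (nat_lit 310)))))) (XT.nd (nat_lit 546) (nat_lit 228) (nat_lit 0) (XT.nd (nat_lit 234) (nat_lit 152) (nat_lit 0) (XT.nd (nat_lit 78) (nat_lit 76) (nat_lit 0) (XT.lf (nat_lit 0) (nat_lit 8056132865) (nat_lit 76) (nat_lit 178344078800) (nat_lit 76) (nat_lit 128435584729) (nat_lit 12) (nat_lit 4) (nat_lit 13) (nat_lit 5) (nat_lit 13) (nat_lit 4) (nat_lit 477) (nat_lit 414) (nat_lit 309)) (XT.nd (nat_lit 78) (nat_lit 76) (nat_lit 0) (XT.lf (nat_lit 0) (nat_lit 160480622421) (nat_lit 76) (nat_lit 112825137499) (nat_lit 76) (nat_lit 62915499284) (nat_lit 12) (nat_lit 4) (nat_lit 13) (nat_lit 5) (nat_lit 13) (nat_lit 4) (nat_lit 478) (nat_lit 414) (nat_lit 308)) (XT.lf (nat_lit 0) (nat_lit 7591658856) (nat_lit 152)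 (nat_lit 34347796952) (nat_lit 76) (nat_lit 317372148610) (nat_lit 11) (nat_lit 5) (nat_lit 13) (nat_lit 5) (nat_lit 12) (nat_lit 4) (nat_lit 479) (nat_lit 414) (nat_lit 307)))) (XT.nd (nat_lit 156) (nat_lit 76) (nat_lit 0) (XT.nd (nat_lit 78) (nat_lit 0) (nat_lit 0) (XT.lf (nat_lit 0) (nat_lit 84042038184) (nat_lit 152) (nat_lit 263523117753) (nat_lit 0) (nat_lit 36507106253) (nat_lit 10) (nat_lit 5) (nat_lit 12) (nat_lit 4) (nat_lit 10) (nat_lit 4) (nat_lit 480) (nat_lit 414) (nat_lit 306)) (XT.lf (nat_lit 0) (nat_lit 167920686492) (nat_lit 152) (nat_lit 122442584679) (nat_lit 0) (nat_lit 120384889553) (nat_lit 10) (nat_lit 5) (nat_lit 12) (nat_lit 4) (nat_lit 10) (nat_lit 4) (nat_lit 481) (nat_lit 414) (nat_lit 305))) (XT.nd (nat_lit 78) (nat_lit 0) (nat_lit 0) (XT.lf (nat_lit 0) (nat_lit 30907959599) (nat_lit 76) (nat_lit 228081391627) (nat_lit 76) (nat_lit 180544793755) (nat_lit 9) (nat_lit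 4) (nat_lit 10) (nat_lit 5) (nat_lit 10) (nat_lit 4) (nat_lit 482) (nat_lit 414) (nat_lit 304)) (XT.lf (nat_lit 0) (nat_lit 200893500260) (nat_lit 76) (nat_lit 158580169610) (nat_lit 76) (nat_lit 111042830133) (nat_lit 9) (nat_lit 4) (nat_lit 10) (nat_lit 5) (nat_lit 10) (nat_lit 4) (nat_lit 483) (nat_lit 414) (nat_lit 303))))) (XT.nd (nat_lit 234) (nat_lit 76) (nat_lit 0) (XT.nd (nat_lit 78) (nat_lit 152) (nat_lit 0) (XT.lf (nat_lit 0) (nat_lit 384472854211) (nat_lit 76) (nat_lit 83521370446) (nat_lit 76) (nat_lit 35983344297) (nat_lit 9) (nat_lit 4) (nat_lit 10) (nat_lit 5) (nat_lit 10) (nat_lit 4) (nat_lit 484) (nat_lit 414) (nat_lit 302)) (XT.nd (nat_lit 78) (nat_lit 0) (nat_lit 0) (XT.lf (nat_lit 0) (nat_lit 43300339633) (nat_lit 76) (nat_lit 1011368458) (nat_lit 152) (nat_lit 495734939519) (nat_lit 7) (nat_lit 5) (nat_lit 8) (nat_lit 5) (nat_lit 9) (nat_lit 4) (nat_lit 485) (nat_lit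 414) (nat_lit 301)) (XT.lf (nat_lit 0) (nat_lit 133275544955) (nat_lit 152) (nat_lit 357520851906) (nat_lit 0) (nat_lit 88000068131) (nat_lit 7) (nat_lit 5) (nat_lit 9) (nat_lit 4) (nat_lit 7) (nat_lit 4) (nat_lit 486) (nat_lit 414) (nat_lit 300)))) (XT.nd (nat_lit 156) (nat_lit 76) (nat_lit 0) (XT.nd (nat_lit 78) (nat_lit 0) (nat_lit 0) (XT.lf (nat_lit 0) (nat_lit 229371419252) (nat_lit 152) (nat_lit 207178678750) (nat_lit 0) (nat_lit 184095423283) (nat_lit 7) (nat_lit 5) (nat_lit 9) (nat_lit 4) (nat_lit 7) (nat_lit 4) (nat_lit 487) (nat_lit 414) (nat_lit 299)) (XT.lf (nat_lit 0) (nat_lit 333152997719) (nat_lit 152) (nat_lit 44813081632) (nat_lit 0) (nat_lit 287876521060) (nat_lit 7) (nat_lit 5) (nat_lit 9) (nat_lit 4) (nat_lit 7) (nat_lit 4) (nat_lit 488) (nat_lit 414) (nat_lit 298))) (XT.nd (nat_lit 78) (nat_lit 0) (nat_lit 0) (XT.lf (nat_lit 0) (nat_lit 134854285259) (nat_lit 76) (nat_lit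 312486450364) (nat_lit 76) (nat_lit 267209528623) (nat_lit 6) (nat_lit 4) (nat_lit 7) (nat_lit 5) (nat_lit 7) (nat_lit 4) (nat_lit 489) (nat_lit 414) (nat_lit 297)) (XT.lf (nat_lit 0) (nat_lit 330491803828) (nat_lit 76) (nat_lit 240950563749) (nat_lit 76) (nat_lit 195673229894) (nat_lit 6) (nat_lit 4) (nat_lit 7) (nat_lit 5) (nat_lit 7) (nat_lit 4) (nat_lit 490) (nat_lit 414) (nat_lit 296))))))) (XT.nd (nat_lit 57018) (nat_lit 0) (nat_lit 5624) (XT.nd (nat_lit 468) (nat_lit 0) (nat_lit 0) (XT.nd (nat_lit 234) (nat_lit 0) (nat_lit 0) (XT.nd (nat_lit 78) (nat_lit 152) (nat_lit 0) (XT.lf (nat_lit 0) (nat_lit 541777084657) (nat_lit 76) (nat_lit 163693434363) (nat_lit 76) (nat_lit 118415718921) (nat_lit 6) (nat_lit 4) (nat_lit 7) (nat_lit 5) (nat_lit 7) (nat_lit 4) (nat_lit 491) (nat_lit 414) (nat_lit 295)) (XT.nd (nat_lit 78) (nat_lit 152) (nat_lit 0) (XT.lf (nat_lit 0) (nat_lit 769962188670)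 (nat_lit 76) (nat_lit 80257242179) (nat_lit 76) (nat_lit 34979173416) (nat_lit 6) (nat_lit 4) (nat_lit 7) (nat_lit 5) (nat_lit 7) (nat_lit 4) (nat_lit 492) (nat_lit 414) (nat_lit 294)) (XT.lf (nat_lit 0) (nat_lit 54585438321) (nat_lit 152) (nat_lit 885263440597) (nat_lit 0) (nat_lit 11463156500) (nat_lit 4) (nat_lit 5) (nat_lit 6) (nat_lit 4) (nat_lit 4) (nat_lit 4) (nat_lit 493) (nat_lit 414) (nat_lit 293)))) (XT.nd (nat_lit 78) (nat_lit 0) (nat_lit 0) (XT.lf (nat_lit 0) (nat_lit 153498274551) (nat_lit 152) (nat_lit 758641463078) (nat_lit 0) (nat_lit 110375704239) (nat_lit 4) (nat_lit 5) (nat_lit 6) (nat_lit 4) (nat_lit 4) (nat_lit 4) (nat_lit 494) (nat_lit 414) (nat_lit 292)) (XT.nd (nat_lit 78) (nat_lit 0) (nat_lit 0) (XT.lf (nat_lit 0) (nat_lit 260322875373) (nat_lit 152) (nat_lit 621892270657) (nat_lit 0) (nat_lit 217200037939) (nat_lit 4) (nat_lit 5) (nat_lit 6) (nat_lit 4) (nat_lit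 4) (nat_lit 4) (nat_lit 495) (nat_lit 414) (nat_lit 291)) (XT.lf (nat_lit 0) (nat_lit 375692275459) (nat_lit 152) (nat_lit 474205497751) (nat_lit 0) (nat_lit 332569190690) (nat_lit 4) (nat_lit 5) (nat_lit 6) (nat_lit 4) (nat_lit 4) (nat_lit 4) (nat_lit 496) (nat_lit 414) (nat_lit 290))))) (XT.nd (nat_lit 56238) (nat_lit 0) (nat_lit 9272) (XT.nd (nat_lit 56082) (nat_lit 0) (nat_lit 10032) (XT.lf (nat_lit 0) (nat_lit 500290145328) (nat_lit 152) (nat_lit 314705963483) (nat_lit 0) (nat_lit 457166831545) (nat_lit 4) (nat_lit 5) (nat_lit 6) (nat_lit 4) (nat_lit 4) (nat_lit 4) (nat_lit 497) (nat_lit 414) (nat_lit 289)) (XT.nd (nat_lit 78) (nat_lit 0) (nat_lit 0) (XT.lf (nat_lit 0) (nat_lit 3033582075) (nat_lit 0) (nat_lit 3033582075) (nat_lit 684) (nat_lit 512109005) (nat_lit 136) (nat_lit 5) (nat_lit 136) (nat_lit 3) (nat_lit 145) (nat_lit 3) (nat_lit 415) (nat_lit 415) (nat_lit 370)) (XT.lf (nat_lit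 76) (nat_lit 3276669953) (nat_lit 0) (nat_lit 10046489281) (nat_lit 760) (nat_lit 326308878) (nat_lit 137) (nat_lit 5) (nat_lit 136) (nat_lit 5) (nat_lit 146) (nat_lit 5) (nat_lit 416) (nat_lit 415) (nat_lit 369)))) (XT.nd (nat_lit 156) (nat_lit 0) (nat_lit 152) (XT.nd (nat_lit 78) (nat_lit 0) (nat_lit 76) (XT.lf (nat_lit 76) (nat_lit 419993436) (nat_lit 0) (nat_lit 167569979) (nat_lit 836) (nat_lit 13583099573) (nat_lit 127) (nat_lit 5) (nat_lit 126) (nat_lit 5) (nat_lit 137) (nat_lit 5) (nat_lit 417) (nat_lit 415) (nat_lit 368)) (XT.lf (nat_lit 0) (nat_lit 1854561535) (nat_lit 760) (nat_lit 2488299218) (nat_lit 836) (nat_lit 10375874626) (nat_lit 127) (nat_lit 5) (nat_lit 137) (nat_lit 5) (nat_lit 138) (nat_lit 5) (nat_lit 418) (nat_lit 415) (nat_lit 367))) (XT.nd (nat_lit 78) (nat_lit 0) (nat_lit 76) (XT.lf (nat_lit 0) (nat_lit 3432499787) (nat_lit 760) (nat_lit 5453108739) (nat_lit 836)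 (nat_lit 6414586211) (nat_lit 128) (nat_lit 5) (nat_lit 138) (nat_lit 5) (nat_lit 139) (nat_lit 5) (nat_lit 419) (nat_lit 415) (nat_lit 366)) (XT.lf (nat_lit 0) (nat_lit 5355262842) (nat_lit 760) (nat_lit 8491646736) (nat_lit 836) (nat_lit 2070350474) (nat_lit 129) (nat_lit 5) (nat_lit 139) (nat_lit 5) (nat_lit 140) (nat_lit 5) (nat_lit 420) (nat_lit 415) (nat_lit 365)))))) (XT.nd (nat_lit 546) (nat_lit 1672) (nat_lit 0) (XT.nd (nat_lit 234) (nat_lit 1520) (nat_lit 0) (XT.nd (nat_lit 78) (nat_lit 684) (nat_lit 0) (XT.lf (nat_lit 76) (nat_lit 4919273006) (nat_lit 0) (nat_lit 2790406455) (nat_lit 836) (nat_lit 8860136815) (nat_lit 130) (nat_lit 5) (nat_lit 129) (nat_lit 5) (nat_lit 140) (nat_lit 5) (nat_lit 421) (nat_lit 415) (nat_lit 364)) (XT.nd (nat_lit 78) (nat_lit 0) (nat_lit 0) (XT.lf (nat_lit 0) (nat_lit 2330575592) (nat_lit 760) (nat_lit 8209037480) (nat_lit 836) (nat_lit 6720621771)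 (nat_lit 120) (nat_lit 5) (nat_lit 130) (nat_lit 5) (nat_lit 131) (nat_lit 5) (nat_lit 422) (nat_lit 415) (nat_lit 363)) (XT.lf (nat_lit 0) (nat_lit 13867088662) (nat_lit 836) (nat_lit 295784549) (nat_lit 76) (nat_lit 3829471162) (nat_lit 120) (nat_lit 5) (nat_lit 131) (nat_lit 5) (nat_lit 121) (nat_lit 5) (nat_lit 423) (nat_lit 415) (nat_lit 362)))) (XT.nd (nat_lit 156) (nat_lit 684) (nat_lit 0) (XT.nd (nat_lit 78) (nat_lit 456) (nat_lit 0) (XT.lf (nat_lit 0) (nat_lit 15841992956) (nat_lit 380) (nat_lit 1967675962) (nat_lit 456) (nat_lit 955922157) (nat_lit 115) (nat_lit 5) (nat_lit 120) (nat_lit 5) (nat_lit 121) (nat_lit 5) (nat_lit 424) (nat_lit 415) (nat_lit 361)) (XT.lf (nat_lit 0) (nat_lit 2756708189) (nat_lit 456) (nat_lit 5711376156) (nat_lit 76) (nat_lit 11112264071) (nat_lit 109) (nat_lit 5) (nat_lit 115) (nat_lit 5) (nat_lit 110) (nat_lit 5) (nat_lit 425) (nat_lit 415) (nat_lit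 360))) (XT.nd (nat_lit 78) (nat_lit 304) (nat_lit 0) (XT.lf (nat_lit 0) (nat_lit 7049354329) (nat_lit 456) (nat_lit 8576576133) (nat_lit 76) (nat_lit 4817758748) (nat_lit 104) (nat_lit 5) (nat_lit 110) (nat_lit 5) (nat_lit 105) (nat_lit 5) (nat_lit 426) (nat_lit 415) (nat_lit 359)) (XT.lf (nat_lit 0) (nat_lit 9819363582) (nat_lit 304) (nat_lit 2232003945) (nat_lit 380) (nat_lit 9306442361) (nat_lit 100) (nat_lit 5) (nat_lit 104) (nat_lit 5) (nat_lit 105) (nat_lit 5) (nat_lit 427) (nat_lit 415) (nat_lit 358))))) (XT.nd (nat_lit 234) (nat_lit 760) (nat_lit 0) (XT.nd (nat_lit 78) (nat_lit 608) (nat_lit 0) (XT.lf (nat_lit 0) (nat_lit 7672685109) (nat_lit 304) (nat_lit 10213959322) (nat_lit 380) (nat_lit 4436770278) (nat_lit 96) (nat_lit 5) (nat_lit 100) (nat_lit 5) (nat_lit 101) (nat_lit 5) (nat_lit 428) (nat_lit 415) (nat_lit 357)) (XT.nd (nat_lit 78) (nat_lit 304) (nat_lit 0) (XT.lf (nat_lit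 0) (nat_lit 1166429312) (nat_lit 304) (nat_lit 17854000969) (nat_lit 76) (nat_lit 4326690152) (nat_lit 92) (nat_lit 5) (nat_lit 96) (nat_lit 5) (nat_lit 93) (nat_lit 5) (nat_lit 429) (nat_lit 415) (nat_lit 356)) (XT.lf (nat_lit 0) (nat_lit 3146922177) (nat_lit 304) (nat_lit 4371494878) (nat_lit 380) (nat_lit 16907877970) (nat_lit 88) (nat_lit 5) (nat_lit 92) (nat_lit 5) (nat_lit 93) (nat_lit 5) (nat_lit 430) (nat_lit 415) (nat_lit 355)))) (XT.nd (nat_lit 156) (nat_lit 532) (nat_lit 0) (XT.nd (nat_lit 78) (nat_lit 0) (nat_lit 0) (XT.lf (nat_lit 0) (nat_lit 693636665) (nat_lit 228) (nat_lit 14165127279) (nat_lit 304) (nat_lit 10709036907) (nat_lit 85) (nat_lit 5) (nat_lit 88) (nat_lit 5) (nat_lit 89) (nat_lit 5) (nat_lit 431) (nat_lit 415) (nat_lit 354)) (XT.lf (nat_lit 0) (nat_lit 23234626824) (nat_lit 304) (nat_lit 1733123513) (nat_lit 76) (nat_lit 1810469125) (nat_lit 85) (nat_lit 5) (nat_lit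 89) (nat_lit 5) (nat_lit 86) (nat_lit 5) (nat_lit 432) (nat_lit 415) (nat_lit 353))) (XT.nd (nat_lit 78) (nat_lit 228) (nat_lit 0) (XT.lf (nat_lit 0) (nat_lit 4657640106) (nat_lit 304) (nat_lit 4381818471) (nat_lit 76) (nat_lit 19012902977) (nat_lit 81) (nat_lit 5) (nat_lit 85) (nat_lit 5) (nat_lit 82) (nat_lit 5) (nat_lit 433) (nat_lit 415) (nat_lit 352)) (XT.lf (nat_lit 0) (nat_lit 13885291887) (nat_lit 304) (nat_lit 7175390891) (nat_lit 76) (nat_lit 8340129614) (nat_lit 78) (nat_lit 5) (nat_lit 82) (nat_lit 5) (nat_lit 79) (nat_lit 5) (nat_lit 434) (nat_lit 415) (nat_lit 351))))))))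
noncomputable def xc72 : XT := (XT.nd (nat_lit 2028) (nat_lit 1672) (nat_lit 0) (XT.nd (nat_lit 1014) (nat_lit 1444) (nat_lit 0) (XT.nd (nat_lit 468) (nat_lit 1064) (nat_lit 0) (XT.nd (nat_lit 234) (nat_lit 532) (nat_lit 0) (XT.nd (nat_lit 78) (nat_lit 456) (nat_lit 0) (XT.lf (nat_lit 0) (nat_lit 20744679278) (nat_lit 228) (nat_lit 3639772532) (nat_lit 304) (nat_lit 6446027781) (nat_lit 75) (nat_lit 5) (nat_lit 78) (nat_lit 5) (nat_lit 79) (nat_lit 5) (nat_lit 435) (nat_lit 415) (nat_lit 350)) (XT.nd (nat_lit 78) (nat_lit 228) (nat_lit 0) (XT.lf (nat_lit 0) (nat_lit 3895351783) (nat_lit 228) (nat_lit 13275107828) (nat_lit 76) (nat_lit 15168774803) (nat_lit 72) (nat_lit 5) (nat_lit 75) (nat_lit 5) (nat_lit 73) (nat_lit 5) (nat_lit 436) (nat_lit 415) (nat_lit 349)) (XT.lf (nat_lit 0) (nat_lit 15362980141) (nat_lit 304) (nat_lit 16671270773) (nat_lit 76) (nat_lit 1902920447) (nat_lit 69) (nat_lit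 5) (nat_lit 73) (nat_lit 5) (nat_lit 70) (nat_lit 5) (nat_lit 437) (nat_lit 415) (nat_lit 348)))) (XT.nd (nat_lit 78) (nat_lit 380) (nat_lit 0) (XT.lf (nat_lit 0) (nat_lit 15238906766) (nat_lit 152) (nat_lit 13253466448) (nat_lit 228) (nat_lit 7133356176) (nat_lit 67) (nat_lit 5) (nat_lit 69) (nat_lit 5) (nat_lit 70) (nat_lit 5) (nat_lit 438) (nat_lit 415) (nat_lit 347)) (XT.nd (nat_lit 78) (nat_lit 152) (nat_lit 0) (XT.lf (nat_lit 0) (nat_lit 5658014152) (nat_lit 228) (nat_lit 24370411664) (nat_lit 76) (nat_lit 7386751105) (nat_lit 64) (nat_lit 5) (nat_lit 67) (nat_lit 5) (nat_lit 65) (nat_lit 5) (nat_lit 439) (nat_lit 415) (nat_lit 346)) (XT.lf (nat_lit 0) (nat_lit 10508418745) (nat_lit 152) (nat_lit 9449422000) (nat_lit 228) (nat_lit 19347342406) (nat_lit 62) (nat_lit 5) (nat_lit 64) (nat_lit 5) (nat_lit 65) (nat_lit 5) (nat_lit 440) (nat_lit 415) (nat_lit 345))))) (XT.nd (nat_lit 234)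 (nat_lit 532) (nat_lit 0) (XT.nd (nat_lit 78) (nat_lit 380) (nat_lit 0) (XT.lf (nat_lit 0) (nat_lit 7737204506) (nat_lit 152) (nat_lit 28400103527) (nat_lit 228) (nat_lit 5172302027) (nat_lit 60) (nat_lit 5) (nat_lit 62) (nat_lit 5) (nat_lit 63) (nat_lit 5) (nat_lit 441) (nat_lit 415) (nat_lit 344)) (XT.nd (nat_lit 78) (nat_lit 152) (nat_lit 0) (XT.lf (nat_lit 0) (nat_lit 4567247066) (nat_lit 152) (nat_lit 5969993500) (nat_lit 228) (nat_lit 32892993074) (nat_lit 57) (nat_lit 5) (nat_lit 59) (nat_lit 5) (nat_lit 60) (nat_lit 5) (nat_lit 442) (nat_lit 415) (nat_lit 343)) (XT.lf (nat_lit 0) (nat_lit 886771549) (nat_lit 152) (nat_lit 27316288464) (nat_lit 228) (nat_lit 17469173591) (nat_lit 55) (nat_lit 5) (nat_lit 57) (nat_lit 5) (nat_lit 58) (nat_lit 5) (nat_lit 443) (nat_lit 415) (nat_lit 342)))) (XT.nd (nat_lit 156) (nat_lit 304) (nat_lit 0) (XT.nd (nat_lit 78) (nat_lit 228) (nat_lit 0) (XT.lf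 (nat_lit 0) (nat_lit 45075938576) (nat_lit 152) (nat_lit 2967999581) (nat_lit 228) (nat_lit 11567952) (nat_lit 55) (nat_lit 5) (nat_lit 57) (nat_lit 5) (nat_lit 58) (nat_lit 5) (nat_lit 444) (nat_lit 415) (nat_lit 341)) (XT.lf (nat_lit 0) (nat_lit 19281197794) (nat_lit 228) (nat_lit 7724127408) (nat_lit 76) (nat_lit 23557326127) (nat_lit 52) (nat_lit 5) (nat_lit 55) (nat_lit 5) (nat_lit 53) (nat_lit 5) (nat_lit 445) (nat_lit 415) (nat_lit 340))) (XT.nd (nat_lit 78) (nat_lit 152) (nat_lit 0) (XT.lf (nat_lit 0) (nat_lit 40379496477) (nat_lit 152) (nat_lit 457846311) (nat_lit 228) (nat_lit 12396999529) (nat_lit 50) (nat_lit 5) (nat_lit 52) (nat_lit 5) (nat_lit 53) (nat_lit 5) (nat_lit 446) (nat_lit 415) (nat_lit 339)) (XT.lf (nat_lit 0) (nat_lit 8906964908) (nat_lit 152) (nat_lit 18985325001) (nat_lit 76) (nat_lit 28162999194) (nat_lit 48) (nat_lit 5) (nat_lit 50) (nat_lit 5) (nat_lit 49) (nat_lit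 5) (nat_lit 447) (nat_lit 415) (nat_lit 338)))))) (XT.nd (nat_lit 468) (nat_lit 684) (nat_lit 0) (XT.nd (nat_lit 234) (nat_lit 304) (nat_lit 0) (XT.nd (nat_lit 78) (nat_lit 304) (nat_lit 0) (XT.lf (nat_lit 0) (nat_lit 32242832689) (nat_lit 228) (nat_lit 25892113612) (nat_lit 76) (nat_lit 918709489) (nat_lit 46) (nat_lit 5) (nat_lit 49) (nat_lit 5) (nat_lit 47) (nat_lit 4) (nat_lit 448) (nat_lit 415) (nat_lit 337)) (XT.nd (nat_lit 78) (nat_lit 228) (nat_lit 0) (XT.lf (nat_lit 0) (nat_lit 28291601170) (nat_lit 76) (nat_lit 30390547104) (nat_lit 152) (nat_lit 3547915977) (nat_lit 45) (nat_lit 5) (nat_lit 46) (nat_lit 5) (nat_lit 47) (nat_lit 4) (nat_lit 449) (nat_lit 415) (nat_lit 336)) (XT.lf (nat_lit 0) (nat_lit 21695150547) (nat_lit 228) (nat_lit 43165355121) (nat_lit 76) (nat_lit 742753094) (nat_lit 42) (nat_lit 5) (nat_lit 45) (nat_lit 5) (nat_lit 43) (nat_lit 4) (nat_lit 450) (nat_lit 415)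 (nat_lit 335)))) (XT.nd (nat_lit 78) (nat_lit 228) (nat_lit 0) (XT.lf (nat_lit 0) (nat_lit 15204332523) (nat_lit 76) (nat_lit 34970560539) (nat_lit 152) (nat_lit 19001432133) (nat_lit 41) (nat_lit 5) (nat_lit 42) (nat_lit 5) (nat_lit 43) (nat_lit 4) (nat_lit 451) (nat_lit 415) (nat_lit 334)) (XT.nd (nat_lit 78) (nat_lit 0) (nat_lit 0) (XT.lf (nat_lit 0) (nat_lit 6851647788) (nat_lit 152) (nat_lit 1654069655) (nat_lit 228) (nat_lit 64480319273) (nat_lit 38) (nat_lit 5) (nat_lit 40) (nat_lit 5) (nat_lit 41) (nat_lit 5) (nat_lit 452) (nat_lit 415) (nat_lit 333)) (XT.lf (nat_lit 0) (nat_lit 39038002898) (nat_lit 228) (nat_lit 3475693761) (nat_lit 76) (nat_lit 34496740385) (nat_lit 38) (nat_lit 5) (nat_lit 41) (nat_lit 5) (nat_lit 39) (nat_lit 4) (nat_lit 453) (nat_lit 415) (nat_lit 332))))) (XT.nd (nat_lit 234) (nat_lit 380) (nat_lit 0) (XT.nd (nat_lit 78) (nat_lit 228) (nat_lit 0) (XT.lf (nat_lit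 0) (nat_lit 66271390975) (nat_lit 76) (nat_lit 6794663753) (nat_lit 152) (nat_lit 8238076333) (nat_lit 37) (nat_lit 5) (nat_lit 38) (nat_lit 5) (nat_lit 39) (nat_lit 4) (nat_lit 454) (nat_lit 415) (nat_lit 331)) (XT.nd (nat_lit 78) (nat_lit 76) (nat_lit 0) (XT.lf (nat_lit 0) (nat_lit 24574600134) (nat_lit 152) (nat_lit 29168422837) (nat_lit 76) (nat_lit 32106474555) (nat_lit 35) (nat_lit 5) (nat_lit 37) (nat_lit 5) (nat_lit 36) (nat_lit 4) (nat_lit 455) (nat_lit 415) (nat_lit 330)) (XT.lf (nat_lit 0) (nat_lit 45092240781) (nat_lit 76) (nat_lit 15711224193) (nat_lit 152) (nat_lit 29894286681) (nat_lit 34) (nat_lit 5) (nat_lit 35) (nat_lit 5) (nat_lit 36) (nat_lit 4) (nat_lit 456) (nat_lit 415) (nat_lit 329)))) (XT.nd (nat_lit 156) (nat_lit 152) (nat_lit 0) (XT.nd (nat_lit 78) (nat_lit 76) (nat_lit 0) (XT.lf (nat_lit 0) (nat_lit 5279474145) (nat_lit 152) (nat_lit 64951117431) (nat_lit 76) (nat_lit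 25629623953) (nat_lit 32) (nat_lit 5) (nat_lit 34) (nat_lit 5) (nat_lit 33) (nat_lit 4) (nat_lit 457) (nat_lit 415) (nat_lit 328)) (XT.lf (nat_lit 0) (nat_lit 13408850900) (nat_lit 76) (nat_lit 30098387289) (nat_lit 152) (nat_lit 57839562744) (nat_lit 31) (nat_lit 5) (nat_lit 32) (nat_lit 5) (nat_lit 33) (nat_lit 4) (nat_lit 458) (nat_lit 415) (nat_lit 327))) (XT.nd (nat_lit 78) (nat_lit 152) (nat_lit 0) (XT.lf (nat_lit 0) (nat_lit 86141962414) (nat_lit 152) (nat_lit 7099447793) (nat_lit 0) (nat_lit 13963466525) (nat_lit 31) (nat_lit 5) (nat_lit 33) (nat_lit 4) (nat_lit 31) (nat_lit 4) (nat_lit 459) (nat_lit 415) (nat_lit 326)) (XT.lf (nat_lit 0) (nat_lit 19873370115) (nat_lit 152) (nat_lit 31443760251) (nat_lit 76) (nat_lit 62109174750) (nat_lit 29) (nat_lit 5) (nat_lit 31) (nat_lit 5) (nat_lit 30) (nat_lit 4) (nat_lit 460) (nat_lit 415) (nat_lit 325))))))) (XT.nd (nat_lit 1014) (nat_lit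 684) (nat_lit 0) (XT.nd (nat_lit 468) (nat_lit 456) (nat_lit 0) (XT.nd (nat_lit 234) (nat_lit 304) (nat_lit 0) (XT.nd (nat_lit 78) (nat_lit 152) (nat_lit 0) (XT.lf (nat_lit 0) (nat_lit 59849879152) (nat_lit 76) (nat_lit 4559535974) (nat_lit 152) (nat_lit 55665628398) (nat_lit 28) (nat_lit 5) (nat_lit 29) (nat_lit 5) (nat_lit 30) (nat_lit 4) (nat_lit 461) (nat_lit 415) (nat_lit 324)) (XT.nd (nat_lit 78) (nat_lit 76) (nat_lit 0) (XT.lf (nat_lit 0) (nat_lit 32646754097) (nat_lit 76) (nat_lit 81638277698) (nat_lit 76) (nat_lit 12881815197) (nat_lit 27) (nat_lit 4) (nat_lit 28) (nat_lit 5) (nat_lit 28) (nat_lit 4) (nat_lit 462) (nat_lit 415) (nat_lit 323)) (XT.lf (nat_lit 0) (nat_lit 33394513036) (nat_lit 152) (nat_lit 301999814) (nat_lit 76) (nat_lit 101046647203) (nat_lit 26) (nat_lit 5) (nat_lit 28) (nat_lit 5) (nat_lit 27) (nat_lit 4) (nat_lit 463) (nat_lit 415) (nat_lit 322)))) (XT.nd (nat_lit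 78) (nat_lit 228) (nat_lit 0) (XT.lf (nat_lit 0) (nat_lit 84866580318) (nat_lit 152) (nat_lit 38574823792) (nat_lit 0) (nat_lit 19376368061) (nat_lit 25) (nat_lit 5) (nat_lit 27) (nat_lit 4) (nat_lit 25) (nat_lit 4) (nat_lit 464) (nat_lit 415) (nat_lit 321)) (XT.nd (nat_lit 78) (nat_lit 152) (nat_lit 0) (XT.lf (nat_lit 0) (nat_lit 67194722848) (nat_lit 76) (nat_lit 74878258305) (nat_lit 76) (nat_lit 9384543993) (nat_lit 24) (nat_lit 4) (nat_lit 25) (nat_lit 5) (nat_lit 25) (nat_lit 4) (nat_lit 465) (nat_lit 415) (nat_lit 320)) (XT.lf (nat_lit 0) (nat_lit 22059568267) (nat_lit 76) (nat_lit 20650931841) (nat_lit 152) (nat_lit 117993263777) (nat_lit 22) (nat_lit 5) (nat_lit 23) (nat_lit 5) (nat_lit 24) (nat_lit 4) (nat_lit 466) (nat_lit 415) (nat_lit 319))))) (XT.nd (nat_lit 234) (nat_lit 228) (nat_lit 0) (XT.nd (nat_lit 78) (nat_lit 228) (nat_lit 0) (XT.lf (nat_lit 0) (nat_lit 100726868459)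 (nat_lit 152) (nat_lit 31505061044) (nat_lit 0) (nat_lit 38345954741) (nat_lit 22) (nat_lit 5) (nat_lit 24) (nat_lit 4) (nat_lit 22) (nat_lit 4) (nat_lit 467) (nat_lit 415) (nat_lit 318)) (XT.nd (nat_lit 78) (nat_lit 152) (nat_lit 0) (XT.lf (nat_lit 0) (nat_lit 86618950616) (nat_lit 76) (nat_lit 78460890246) (nat_lit 76) (nat_lit 16077328866) (nat_lit 21) (nat_lit 4) (nat_lit 22) (nat_lit 5) (nat_lit 22) (nat_lit 4) (nat_lit 468) (nat_lit 415) (nat_lit 317)) (XT.lf (nat_lit 0) (nat_lit 22818067230) (nat_lit 76) (nat_lit 18744898695) (nat_lit 152) (nat_lit 150941600834) (nat_lit 19) (nat_lit 5) (nat_lit 20) (nat_lit 5) (nat_lit 21) (nat_lit 4) (nat_lit 469) (nat_lit 415) (nat_lit 316)))) (XT.nd (nat_lit 156) (nat_lit 152) (nat_lit 0) (XT.nd (nat_lit 78) (nat_lit 76) (nat_lit 0) (XT.lf (nat_lit 0) (nat_lit 105641820465) (nat_lit 152) (nat_lit 52760818545) (nat_lit 0) (nat_lit 46224408216) (nat_lit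 19) (nat_lit 5) (nat_lit 21) (nat_lit 4) (nat_lit 19) (nat_lit 4) (nat_lit 470) (nat_lit 415) (nat_lit 315)) (XT.lf (nat_lit 0) (nat_lit 75613849407) (nat_lit 76) (nat_lit 100725145147) (nat_lit 76) (nat_lit 41305731185) (nat_lit 18) (nat_lit 4) (nat_lit 19) (nat_lit 5) (nat_lit 19) (nat_lit 4) (nat_lit 471) (nat_lit 415) (nat_lit 314))) (XT.nd (nat_lit 78) (nat_lit 76) (nat_lit 0) (XT.lf (nat_lit 0) (nat_lit 21246025670) (nat_lit 152) (nat_lit 15866914776) (nat_lit 76) (nat_lit 194528011431) (nat_lit 17) (nat_lit 5) (nat_lit 19) (nat_lit 5) (nat_lit 18) (nat_lit 4) (nat_lit 472) (nat_lit 415) (nat_lit 313)) (XT.lf (nat_lit 0) (nat_lit 89836568717) (nat_lit 152) (nat_lit 123519109455) (nat_lit 0) (nat_lit 33243251053) (nat_lit 16) (nat_lit 5) (nat_lit 18) (nat_lit 4) (nat_lit 16) (nat_lit 4) (nat_lit 473) (nat_lit 415) (nat_lit 312)))))) (XT.nd (nat_lit 546) (nat_lit 304) (nat_lit 0) (XT.nd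 (nat_lit 234) (nat_lit 152) (nat_lit 0) (XT.nd (nat_lit 78) (nat_lit 152) (nat_lit 0) (XT.lf (nat_lit 0) (nat_lit 10672446184) (nat_lit 76) (nat_lit 154311231793) (nat_lit 76) (nat_lit 97716400772) (nat_lit 15) (nat_lit 4) (nat_lit 16) (nat_lit 5) (nat_lit 16) (nat_lit 4) (nat_lit 474) (nat_lit 415) (nat_lit 311)) (XT.nd (nat_lit 78) (nat_lit 152) (nat_lit 0) (XT.lf (nat_lit 0) (nat_lit 160002514826) (nat_lit 76) (nat_lit 88287824323) (nat_lit 76) (nat_lit 31691592047) (nat_lit 15) (nat_lit 4) (nat_lit 16) (nat_lit 5) (nat_lit 16) (nat_lit 4) (nat_lit 475) (nat_lit 415) (nat_lit 310)) (XT.lf (nat_lit 0) (nat_lit 22734609541) (nat_lit 76) (nat_lit 15963994984) (nat_lit 152) (nat_lit 259899235352) (nat_lit 13) (nat_lit 5) (nat_lit 14) (nat_lit 5) (nat_lit 15) (nat_lit 4) (nat_lit 476) (nat_lit 415) (nat_lit 309)))) (XT.nd (nat_lit 156) (nat_lit 76) (nat_lit 0) (XT.nd (nat_lit 78) (nat_lit 76)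 (nat_lit 0) (XT.lf (nat_lit 0) (nat_lit 116715529372) (nat_lit 152) (nat_lit 138994247729) (nat_lit 0) (nat_lit 62811975955) (nat_lit 13) (nat_lit 5) (nat_lit 15) (nat_lit 4) (nat_lit 13) (nat_lit 4) (nat_lit 477) (nat_lit 415) (nat_lit 308)) (XT.lf (nat_lit 0) (nat_lit 8831245406) (nat_lit 76) (nat_lit 192546378012) (nat_lit 76) (nat_lit 138641765202) (nat_lit 12) (nat_lit 4) (nat_lit 13) (nat_lit 5) (nat_lit 13) (nat_lit 4) (nat_lit 478) (nat_lit 415) (nat_lit 307))) (XT.nd (nat_lit 78) (nat_lit 76) (nat_lit 0) (XT.lf (nat_lit 0) (nat_lit 173440018429) (nat_lit 76) (nat_lit 121790753043) (nat_lit 76) (nat_lit 67885159314) (nat_lit 12) (nat_lit 4) (nat_lit 13) (nat_lit 5) (nat_lit 13) (nat_lit 4) (nat_lit 479) (nat_lit 415) (nat_lit 306)) (XT.lf (nat_lit 0) (nat_lit 8255977637) (nat_lit 152) (nat_lit 36981747830) (nat_lit 76) (nat_lit 342815956576) (nat_lit 11) (nat_lit 5) (nat_lit 13) (nat_lit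 5) (nat_lit 12) (nat_lit 4) (nat_lit 480) (nat_lit 415) (nat_lit 305))))) (XT.nd (nat_lit 234) (nat_lit 152) (nat_lit 0) (XT.nd (nat_lit 78) (nat_lit 76) (nat_lit 0) (XT.lf (nat_lit 0) (nat_lit 90820716982) (nat_lit 152) (nat_lit 284494168728) (nat_lit 0) (nat_lit 39480390347) (nat_lit 10) (nat_lit 5) (nat_lit 12) (nat_lit 4) (nat_lit 10) (nat_lit 4) (nat_lit 481) (nat_lit 415) (nat_lit 304)) (XT.nd (nat_lit 78) (nat_lit 76) (nat_lit 0) (XT.lf (nat_lit 0) (nat_lit 181405559692) (nat_lit 152) (nat_lit 132135400301) (nat_lit 0) (nat_lit 130064491452) (nat_lit 10) (nat_lit 5) (nat_lit 12) (nat_lit 4) (nat_lit 10) (nat_lit 4) (nat_lit 482) (nat_lit 415) (nat_lit 303)) (XT.lf (nat_lit 0) (nat_lit 33478729033) (nat_lit 76) (nat_lit 246278726752) (nat_lit 76) (nat_lit 194936971840) (nat_lit 9) (nat_lit 4) (nat_lit 10) (nat_lit 5) (nat_lit 10) (nat_lit 4) (nat_lit 483) (nat_lit 415) (nat_lit 302))))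 (XT.nd (nat_lit 156) (nat_lit 152) (nat_lit 0) (XT.nd (nat_lit 78) (nat_lit 0) (nat_lit 0) (XT.lf (nat_lit 0) (nat_lit 217055843861) (nat_lit 76) (nat_lit 171221049656) (nat_lit 76) (nat_lit 119878658937) (nat_lit 9) (nat_lit 4) (nat_lit 10) (nat_lit 5) (nat_lit 10) (nat_lit 4) (nat_lit 484) (nat_lit 415) (nat_lit 301)) (XT.lf (nat_lit 0) (nat_lit 415314815492) (nat_lit 76) (nat_lit 90160919412) (nat_lit 76) (nat_lit 38817939983) (nat_lit 9) (nat_lit 4) (nat_lit 10) (nat_lit 5) (nat_lit 10) (nat_lit 4) (nat_lit 485) (nat_lit 415) (nat_lit 300))) (XT.nd (nat_lit 78) (nat_lit 0) (nat_lit 0) (XT.lf (nat_lit 0) (nat_lit 46846193589) (nat_lit 76) (nat_lit 1051229883) (nat_lit 152) (nat_lit 535350916155) (nat_lit 7) (nat_lit 5) (nat_lit 8) (nat_lit 5) (nat_lit 9) (nat_lit 4) (nat_lit 486) (nat_lit 415) (nat_lit 299)) (XT.lf (nat_lit 0) (nat_lit 143975940042) (nat_lit 152) (nat_lit 386045459223)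 (nat_lit 0) (nat_lit 95076864561) (nat_lit 7) (nat_lit 5) (nat_lit 9) (nat_lit 4) (nat_lit 7) (nat_lit 4) (nat_lit 487) (nat_lit 415) (nat_lit 298))))))))
noncomputable def xc73 : XT := (XT.nd (nat_lit 58110) (nat_lit 0) (nat_lit 2128) (XT.nd (nat_lit 57096) (nat_lit 0) (nat_lit 6384) (XT.nd (nat_lit 468) (nat_lit 152) (nat_lit 0) (XT.nd (nat_lit 234) (nat_lit 0) (nat_lit 0) (XT.nd (nat_lit 78) (nat_lit 76) (nat_lit 0) (XT.lf (nat_lit 0) (nat_lit 247756643431) (nat_lit 152) (nat_lit 223681620425) (nat_lit 0) (nat_lit 198857122867) (nat_lit 7) (nat_lit 5) (nat_lit 9) (nat_lit 4) (nat_lit 7) (nat_lit 4) (nat_lit 488) (nat_lit 415) (nat_lit 297)) (XT.nd (nat_lit 78) (nat_lit 76) (nat_lit 0) (XT.lf (nat_lit 0) (nat_lit 359838117757) (nat_lit 152) (nat_lit 48332060917) (nat_lit 0) (nat_lit 310938185080) (nat_lit 7) (nat_lit 5) (nat_lit 9) (nat_lit 4) (nat_lit 7) (nat_lit 4) (nat_lit 489) (nat_lit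 415) (nat_lit 296)) (XT.lf (nat_lit 0) (nat_lit 145705824124) (nat_lit 76) (nat_lit 337453601666) (nat_lit 76) (nat_lit 288553287402) (nat_lit 6) (nat_lit 4) (nat_lit 7) (nat_lit 5) (nat_lit 7) (nat_lit 4) (nat_lit 490) (nat_lit 415) (nat_lit 295)))) (XT.nd (nat_lit 78) (nat_lit 0) (nat_lit 0) (XT.lf (nat_lit 0) (nat_lit 356989662990) (nat_lit 76) (nat_lit 260197197064) (nat_lit 76) (nat_lit 211296529479) (nat_lit 6) (nat_lit 4) (nat_lit 7) (nat_lit 5) (nat_lit 7) (nat_lit 4) (nat_lit 491) (nat_lit 415) (nat_lit 294)) (XT.nd (nat_lit 78) (nat_lit 0) (nat_lit 0) (XT.lf (nat_lit 0) (nat_lit 585173431852) (nat_lit 76) (nat_lit 176761675978) (nat_lit 76) (nat_lit 127860681243) (nat_lit 6) (nat_lit 4) (nat_lit 7) (nat_lit 5) (nat_lit 7) (nat_lit 4) (nat_lit 492) (nat_lit 415) (nat_lit 293)) (XT.lf (nat_lit 0) (nat_lit 831609330821) (nat_lit 76) (nat_lit 86652605688) (nat_lit 76) (nat_lit 37751308038)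 (nat_lit 6) (nat_lit 4) (nat_lit 7) (nat_lit 5) (nat_lit 7) (nat_lit 4) (nat_lit 493) (nat_lit 415) (nat_lit 292))))) (XT.nd (nat_lit 234) (nat_lit 0) (nat_lit 0) (XT.nd (nat_lit 78) (nat_lit 0) (nat_lit 0) (XT.lf (nat_lit 0) (nat_lit 58976900491) (nat_lit 152) (nat_lit 956034897025) (nat_lit 0) (nat_lit 12403968941) (nat_lit 4) (nat_lit 5) (nat_lit 6) (nat_lit 4) (nat_lit 4) (nat_lit 4) (nat_lit 494) (nat_lit 415) (nat_lit 291)) (XT.nd (nat_lit 78) (nat_lit 0) (nat_lit 0) (XT.lf (nat_lit 0) (nat_lit 165800939389) (nat_lit 152) (nat_lit 819286836772) (nat_lit 0) (nat_lit 119227760504) (nat_lit 4) (nat_lit 5) (nat_lit 6) (nat_lit 4) (nat_lit 4) (nat_lit 4) (nat_lit 495) (nat_lit 415) (nat_lit 290)) (XT.lf (nat_lit 0) (nat_lit 281169819175) (nat_lit 152) (nat_lit 671601112169) (nat_lit 0) (nat_lit 234596411276) (nat_lit 4) (nat_lit 5) (nat_lit 6) (nat_lit 4) (nat_lit 4) (nat_lit 4) (nat_lit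 496) (nat_lit 415) (nat_lit 289)))) (XT.nd (nat_lit 56238) (nat_lit 0) (nat_lit 9272) (XT.nd (nat_lit 56160) (nat_lit 0) (nat_lit 9196) (XT.lf (nat_lit 0) (nat_lit 405767207285) (nat_lit 152) (nat_lit 512102548552) (nat_lit 0) (nat_lit 359193587336) (nat_lit 4) (nat_lit 5) (nat_lit 6) (nat_lit 4) (nat_lit 4) (nat_lit 4) (nat_lit 497) (nat_lit 415) (nat_lit 288)) (XT.lf (nat_lit 0) (nat_lit 55079728) (nat_lit 836) (nat_lit 3510607264) (nat_lit 836) (nat_lit 3510607264) (nat_lit 125) (nat_lit 3) (nat_lit 136) (nat_lit 3) (nat_lit 136) (nat_lit 5) (nat_lit 416) (nat_lit 416) (nat_lit 368))) (XT.nd (nat_lit 78) (nat_lit 0) (nat_lit 0) (XT.lf (nat_lit 0) (nat_lit 753610500) (nat_lit 760) (nat_lit 10540351113) (nat_lit 836) (nat_lit 3392576396) (nat_lit 126) (nat_lit 5) (nat_lit 136) (nat_lit 5) (nat_lit 137) (nat_lit 5) (nat_lit 417) (nat_lit 416) (nat_lit 367)) (XT.lf (nat_lit 76) (nat_lit 1081819278)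 (nat_lit 0) (nat_lit 576210042) (nat_lit 836) (nat_lit 13594719752) (nat_lit 127) (nat_lit 5) (nat_lit 126) (nat_lit 5) (nat_lit 137) (nat_lit 5) (nat_lit 418) (nat_lit 416) (nat_lit 366)))))) (XT.nd (nat_lit 468) (nat_lit 2052) (nat_lit 0) (XT.nd (nat_lit 234) (nat_lit 912) (nat_lit 0) (XT.nd (nat_lit 78) (nat_lit 0) (nat_lit 76) (XT.lf (nat_lit 0) (nat_lit 2944861748) (nat_lit 760) (nat_lit 2052211266) (nat_lit 836) (nat_lit 10851699695) (nat_lit 127) (nat_lit 5) (nat_lit 137) (nat_lit 5) (nat_lit 138) (nat_lit 5) (nat_lit 419) (nat_lit 416) (nat_lit 365)) (XT.nd (nat_lit 78) (nat_lit 0) (nat_lit 76) (XT.lf (nat_lit 0) (nat_lit 4584468165) (nat_lit 760) (nat_lit 5233108914) (nat_lit 836) (nat_lit 6662427099) (nat_lit 128) (nat_lit 5) (nat_lit 138) (nat_lit 5) (nat_lit 139) (nat_lit 5) (nat_lit 420) (nat_lit 416) (nat_lit 364)) (XT.lf (nat_lit 0) (nat_lit 6602826709) (nat_lit 760) (nat_lit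 8498792164) (nat_lit 836) (nat_lit 2047752139) (nat_lit 129) (nat_lit 5) (nat_lit 139) (nat_lit 5) (nat_lit 140) (nat_lit 5) (nat_lit 421) (nat_lit 416) (nat_lit 363)))) (XT.nd (nat_lit 78) (nat_lit 1064) (nat_lit 0) (XT.lf (nat_lit 76) (nat_lit 5955788760) (nat_lit 0) (nat_lit 3139169275) (nat_lit 836) (nat_lit 8761728793) (nat_lit 130) (nat_lit 5) (nat_lit 129) (nat_lit 5) (nat_lit 140) (nat_lit 5) (nat_lit 422) (nat_lit 416) (nat_lit 362)) (XT.nd (nat_lit 78) (nat_lit 380) (nat_lit 0) (XT.lf (nat_lit 0) (nat_lit 3170959650) (nat_lit 760) (nat_lit 8931795549) (nat_lit 836) (nat_lit 6502031687) (nat_lit 120) (nat_lit 5) (nat_lit 130) (nat_lit 5) (nat_lit 131) (nat_lit 5) (nat_lit 423) (nat_lit 416) (nat_lit 361)) (XT.lf (nat_lit 0) (nat_lit 331185801) (nat_lit 380) (nat_lit 15316127811) (nat_lit 456) (nat_lit 3750627186) (nat_lit 115) (nat_lit 5) (nat_lit 120) (nat_lit 5) (nat_lit 121) (nat_lit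 5) (nat_lit 424) (nat_lit 416) (nat_lit 360))))) (XT.nd (nat_lit 234) (nat_lit 1216) (nat_lit 0) (XT.nd (nat_lit 78) (nat_lit 836) (nat_lit 0) (XT.lf (nat_lit 0) (nat_lit 17721570435) (nat_lit 380) (nat_lit 2138807398) (nat_lit 456) (nat_lit 374933913) (nat_lit 115) (nat_lit 5) (nat_lit 120) (nat_lit 5) (nat_lit 121) (nat_lit 5) (nat_lit 425) (nat_lit 416) (nat_lit 359)) (XT.nd (nat_lit 78) (nat_lit 380) (nat_lit 0) (XT.lf (nat_lit 0) (nat_lit 3576094984) (nat_lit 456) (nat_lit 5532309715) (nat_lit 76) (nat_lit 12008226398) (nat_lit 109) (nat_lit 5) (nat_lit 115) (nat_lit 5) (nat_lit 110) (nat_lit 5) (nat_lit 426) (nat_lit 416) (nat_lit 358)) (XT.lf (nat_lit 0) (nat_lit 8177983815) (nat_lit 456) (nat_lit 8626669760) (nat_lit 76) (nat_lit 5246109042) (nat_lit 104) (nat_lit 5) (nat_lit 110) (nat_lit 5) (nat_lit 105) (nat_lit 5) (nat_lit 427) (nat_lit 416) (nat_lit 357)))) (XT.nd (nat_lit 156)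 (nat_lit 608) (nat_lit 0) (XT.nd (nat_lit 78) (nat_lit 304) (nat_lit 0) (XT.lf (nat_lit 0) (nat_lit 11213303936) (nat_lit 304) (nat_lit 2334524594) (nat_lit 380) (nat_lit 9491814800) (nat_lit 100) (nat_lit 5) (nat_lit 104) (nat_lit 5) (nat_lit 105) (nat_lit 5) (nat_lit 428) (nat_lit 416) (nat_lit 356)) (XT.lf (nat_lit 0) (nat_lit 8892942674) (nat_lit 304) (nat_lit 10928118982) (nat_lit 380) (nat_lit 4262891047) (nat_lit 96) (nat_lit 5) (nat_lit 100) (nat_lit 5) (nat_lit 101) (nat_lit 5) (nat_lit 429) (nat_lit 416) (nat_lit 355))) (XT.nd (nat_lit 78) (nat_lit 304) (nat_lit 0) (XT.lf (nat_lit 0) (nat_lit 1744798979) (nat_lit 304) (nat_lit 18663356994) (nat_lit 76) (nat_lit 4782339445) (nat_lit 92) (nat_lit 5) (nat_lit 96) (nat_lit 5) (nat_lit 93) (nat_lit 5) (nat_lit 430) (nat_lit 416) (nat_lit 354)) (XT.lf (nat_lit 0) (nat_lit 3990740581) (nat_lit 304) (nat_lit 4587518924) (nat_lit 380) (nat_lit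 17779089292) (nat_lit 88) (nat_lit 5) (nat_lit 92) (nat_lit 5) (nat_lit 93) (nat_lit 5) (nat_lit 431) (nat_lit 416) (nat_lit 353))))))) (XT.nd (nat_lit 1014) (nat_lit 1748) (nat_lit 0) (XT.nd (nat_lit 468) (nat_lit 1292) (nat_lit 0) (XT.nd (nat_lit 234) (nat_lit 684) (nat_lit 0) (XT.nd (nat_lit 78) (nat_lit 304) (nat_lit 0) (XT.lf (nat_lit 0) (nat_lit 1335513285) (nat_lit 228) (nat_lit 15147455461) (nat_lit 304) (nat_lit 11108359344) (nat_lit 85) (nat_lit 5) (nat_lit 88) (nat_lit 5) (nat_lit 89) (nat_lit 5) (nat_lit 432) (nat_lit 416) (nat_lit 352)) (XT.nd (nat_lit 78) (nat_lit 304) (nat_lit 0) (XT.lf (nat_lit 0) (nat_lit 25498822320) (nat_lit 304) (nat_lit 1310730038) (nat_lit 76) (nat_lit 2090540761) (nat_lit 85) (nat_lit 5) (nat_lit 89) (nat_lit 5) (nat_lit 86) (nat_lit 5) (nat_lit 433) (nat_lit 416) (nat_lit 351)) (XT.lf (nat_lit 0) (nat_lit 5420416247) (nat_lit 304) (nat_lit 4182702914)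 (nat_lit 76) (nat_lit 20673823745) (nat_lit 81) (nat_lit 5) (nat_lit 85) (nat_lit 5) (nat_lit 82) (nat_lit 5) (nat_lit 434) (nat_lit 416) (nat_lit 350)))) (XT.nd (nat_lit 78) (nat_lit 456) (nat_lit 0) (XT.lf (nat_lit 0) (nat_lit 15368028155) (nat_lit 304) (nat_lit 7207523423) (nat_lit 76) (nat_lit 9158638193) (nat_lit 78) (nat_lit 5) (nat_lit 82) (nat_lit 5) (nat_lit 79) (nat_lit 5) (nat_lit 435) (nat_lit 416) (nat_lit 349)) (XT.nd (nat_lit 78) (nat_lit 228) (nat_lit 0) (XT.lf (nat_lit 0) (nat_lit 22922602100) (nat_lit 228) (nat_lit 3765062539) (nat_lit 304) (nat_lit 6591545330) (nat_lit 75) (nat_lit 5) (nat_lit 78) (nat_lit 5) (nat_lit 79) (nat_lit 5) (nat_lit 436) (nat_lit 416) (nat_lit 348)) (XT.lf (nat_lit 0) (nat_lit 4549290055) (nat_lit 228) (nat_lit 13815440412) (nat_lit 76) (nat_lit 16544452104) (nat_lit 72) (nat_lit 5) (nat_lit 75) (nat_lit 5) (nat_lit 73) (nat_lit 5) (nat_lit 437)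 (nat_lit 416) (nat_lit 347))))) (XT.nd (nat_lit 234) (nat_lit 684) (nat_lit 0) (XT.nd (nat_lit 78) (nat_lit 380) (nat_lit 0) (XT.lf (nat_lit 0) (nat_lit 16919483922) (nat_lit 304) (nat_lit 17492381720) (nat_lit 76) (nat_lit 2223836630) (nat_lit 69) (nat_lit 5) (nat_lit 73) (nat_lit 5) (nat_lit 70) (nat_lit 5) (nat_lit 438) (nat_lit 416) (nat_lit 346)) (XT.nd (nat_lit 78) (nat_lit 228) (nat_lit 0) (XT.lf (nat_lit 0) (nat_lit 16948333454) (nat_lit 152) (nat_lit 14134293470) (nat_lit 228) (nat_lit 7377553245) (nat_lit 67) (nat_lit 5) (nat_lit 69) (nat_lit 5) (nat_lit 70) (nat_lit 5) (nat_lit 439) (nat_lit 416) (nat_lit 345)) (XT.lf (nat_lit 0) (nat_lit 6413542156) (nat_lit 228) (nat_lit 25828718002) (nat_lit 76) (nat_lit 8150929801) (nat_lit 64) (nat_lit 5) (nat_lit 67) (nat_lit 5) (nat_lit 65) (nat_lit 5) (nat_lit 440) (nat_lit 416) (nat_lit 344)))) (XT.nd (nat_lit 156) (nat_lit 380) (nat_lit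 0) (XT.nd (nat_lit 78) (nat_lit 152) (nat_lit 0) (XT.lf (nat_lit 0) (nat_lit 11819066384) (nat_lit 152) (nat_lit 10023190041) (nat_lit 228) (nat_lit 20592899390) (nat_lit 62) (nat_lit 5) (nat_lit 64) (nat_lit 5) (nat_lit 65) (nat_lit 5) (nat_lit 441) (nat_lit 416) (nat_lit 343)) (XT.lf (nat_lit 0) (nat_lit 8816824045) (nat_lit 152) (nat_lit 30487765052) (nat_lit 228) (nat_lit 5295926273) (nat_lit 60) (nat_lit 5) (nat_lit 62) (nat_lit 5) (nat_lit 63) (nat_lit 5) (nat_lit 442) (nat_lit 416) (nat_lit 342))) (XT.nd (nat_lit 78) (nat_lit 152) (nat_lit 0) (XT.lf (nat_lit 0) (nat_lit 5382178689) (nat_lit 152) (nat_lit 6265127466) (nat_lit 228) (nat_lit 35243948937) (nat_lit 57) (nat_lit 5) (nat_lit 59) (nat_lit 5) (nat_lit 60) (nat_lit 5) (nat_lit 443) (nat_lit 416) (nat_lit 341)) (XT.lf (nat_lit 0) (nat_lit 1397818174) (nat_lit 152) (nat_lit 29318297858) (nat_lit 228) (nat_lit 18597015958) (nat_lit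 55) (nat_lit 5) (nat_lit 57) (nat_lit 5) (nat_lit 58) (nat_lit 5) (nat_lit 444) (nat_lit 416) (nat_lit 340)))))) (XT.nd (nat_lit 546) (nat_lit 760) (nat_lit 0) (XT.nd (nat_lit 234) (nat_lit 608) (nat_lit 0) (XT.nd (nat_lit 78) (nat_lit 304) (nat_lit 0) (XT.lf (nat_lit 0) (nat_lit 229628428) (nat_lit 228) (nat_lit 2802205877) (nat_lit 76) (nat_lit 48856000902) (nat_lit 54) (nat_lit 5) (nat_lit 57) (nat_lit 5) (nat_lit 55) (nat_lit 5) (nat_lit 445) (nat_lit 416) (nat_lit 339)) (XT.nd (nat_lit 78) (nat_lit 152) (nat_lit 0) (XT.lf (nat_lit 0) (nat_lit 21056330296) (nat_lit 228) (nat_lit 7935664930) (nat_lit 76) (nat_lit 25604003925) (nat_lit 52) (nat_lit 5) (nat_lit 55) (nat_lit 5) (nat_lit 53) (nat_lit 5) (nat_lit 446) (nat_lit 416) (nat_lit 338)) (XT.lf (nat_lit 0) (nat_lit 43998587535) (nat_lit 152) (nat_lit 327216194) (nat_lit 228) (nat_lit 13156182251) (nat_lit 50) (nat_lit 5) (nat_lit 52)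 (nat_lit 5) (nat_lit 53) (nat_lit 5) (nat_lit 447) (nat_lit 416) (nat_lit 337)))) (XT.nd (nat_lit 156) (nat_lit 304) (nat_lit 0) (XT.nd (nat_lit 78) (nat_lit 152) (nat_lit 0) (XT.lf (nat_lit 0) (nat_lit 9836465945) (nat_lit 152) (nat_lit 20116990521) (nat_lit 76) (nat_lit 30575382077) (nat_lit 48) (nat_lit 5) (nat_lit 50) (nat_lit 5) (nat_lit 49) (nat_lit 5) (nat_lit 448) (nat_lit 416) (nat_lit 336)) (XT.lf (nat_lit 0) (nat_lit 35031470690) (nat_lit 228) (nat_lit 27585345905) (nat_lit 76) (nat_lit 1150646556) (nat_lit 46) (nat_lit 5) (nat_lit 49) (nat_lit 5) (nat_lit 47) (nat_lit 4) (nat_lit 449) (nat_lit 416) (nat_lit 335))) (XT.nd (nat_lit 78) (nat_lit 228) (nat_lit 0) (XT.lf (nat_lit 0) (nat_lit 30916632696) (nat_lit 76) (nat_lit 32659448891) (nat_lit 152) (nat_lit 3622397017) (nat_lit 45) (nat_lit 5) (nat_lit 46) (nat_lit 5) (nat_lit 47) (nat_lit 4) (nat_lit 450) (nat_lit 416) (nat_lit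 334)) (XT.lf (nat_lit 0) (nat_lit 23626391869) (nat_lit 228) (nat_lit 46258978731) (nat_lit 76) (nat_lit 956347367) (nat_lit 42) (nat_lit 5) (nat_lit 45) (nat_lit 5) (nat_lit 43) (nat_lit 4) (nat_lit 451) (nat_lit 416) (nat_lit 333))))) (XT.nd (nat_lit 234) (nat_lit 456) (nat_lit 0) (XT.nd (nat_lit 78) (nat_lit 228) (nat_lit 0) (XT.lf (nat_lit 0) (nat_lit 16764655938) (nat_lit 76) (nat_lit 37610737232) (nat_lit 152) (nat_lit 20325694060) (nat_lit 41) (nat_lit 5) (nat_lit 42) (nat_lit 5) (nat_lit 43) (nat_lit 4) (nat_lit 452) (nat_lit 416) (nat_lit 332)) (XT.nd (nat_lit 78) (nat_lit 0) (nat_lit 0) (XT.lf (nat_lit 0) (nat_lit 7734820594) (nat_lit 152) (nat_lit 1632126041) (nat_lit 228) (nat_lit 69448918074) (nat_lit 38) (nat_lit 5) (nat_lit 40) (nat_lit 5) (nat_lit 41) (nat_lit 5) (nat_lit 453) (nat_lit 416) (nat_lit 331)) (XT.lf (nat_lit 0) (nat_lit 42330654584) (nat_lit 228) (nat_lit 3437372082)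 (nat_lit 76) (nat_lit 37394749625) (nat_lit 38) (nat_lit 5) (nat_lit 41) (nat_lit 5) (nat_lit 39) (nat_lit 4) (nat_lit 454) (nat_lit 416) (nat_lit 330)))) (XT.nd (nat_lit 156) (nat_lit 228) (nat_lit 0) (XT.nd (nat_lit 78) (nat_lit 152) (nat_lit 0) (XT.lf (nat_lit 0) (nat_lit 71875730066) (nat_lit 76) (nat_lit 7197381550) (nat_lit 152) (nat_lit 8727247281) (nat_lit 37) (nat_lit 5) (nat_lit 38) (nat_lit 5) (nat_lit 39) (nat_lit 4) (nat_lit 455) (nat_lit 416) (nat_lit 329)) (XT.lf (nat_lit 0) (nat_lit 26699578497) (nat_lit 152) (nat_lit 31201503777) (nat_lit 76) (nat_lit 34808412170) (nat_lit 35) (nat_lit 5) (nat_lit 37) (nat_lit 5) (nat_lit 36) (nat_lit 4) (nat_lit 456) (nat_lit 416) (nat_lit 328))) (XT.nd (nat_lit 78) (nat_lit 152) (nat_lit 0) (XT.lf (nat_lit 0) (nat_lit 48986958221) (nat_lit 76) (nat_lit 16832501913) (nat_lit 152) (nat_lit 32126514306) (nat_lit 34) (nat_lit 5) (nat_lit 35)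 (nat_lit 5) (nat_lit 36) (nat_lit 4) (nat_lit 457) (nat_lit 416) (nat_lit 327)) (XT.lf (nat_lit 0) (nat_lit 5851062304) (nat_lit 152) (nat_lit 69862169909) (nat_lit 76) (nat_lit 27808328952) (nat_lit 32) (nat_lit 5) (nat_lit 34) (nat_lit 5) (nat_lit 33) (nat_lit 4) (nat_lit 458) (nat_lit 416) (nat_lit 326))))))))
noncomputable def xc74 : XT := (XT.nd (nat_lit 2028) (nat_lit 380) (nat_lit 0) (XT.nd (nat_lit 1014) (nat_lit 760) (nat_lit 0) (XT.nd (nat_lit 468) (nat_lit 532) (nat_lit 0) (XT.nd (nat_lit 234) (nat_lit 228) (nat_lit 0) (XT.nd (nat_lit 78) (nat_lit 152) (nat_lit 0) (XT.lf (nat_lit 0) (nat_lit 14754208532) (nat_lit 76) (nat_lit 32376041672) (nat_lit 152) (nat_lit 62317163806) (nat_lit 31) (nat_lit 5) (nat_lit 32) (nat_lit 5) (nat_lit 33) (nat_lit 4) (nat_lit 459) (nat_lit 416) (nat_lit 325)) (XT.nd (nat_lit 78) (nat_lit 152) (nat_lit 0) (XT.lf (nat_lit 0) (nat_lit 93167084227) (nat_lit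 152) (nat_lit 7410229996) (nat_lit 0) (nat_lit 15197255750) (nat_lit 31) (nat_lit 5) (nat_lit 33) (nat_lit 4) (nat_lit 31) (nat_lit 4) (nat_lit 460) (nat_lit 416) (nat_lit 324)) (XT.lf (nat_lit 0) (nat_lit 21593037897) (nat_lit 152) (nat_lit 33708964555) (nat_lit 76) (nat_lit 67191909532) (nat_lit 29) (nat_lit 5) (nat_lit 31) (nat_lit 5) (nat_lit 30) (nat_lit 4) (nat_lit 461) (nat_lit 416) (nat_lit 323)))) (XT.nd (nat_lit 78) (nat_lit 152) (nat_lit 0) (XT.lf (nat_lit 0) (nat_lit 64877288419) (nat_lit 76) (nat_lit 4808801411) (nat_lit 152) (nat_lit 59988754033) (nat_lit 28) (nat_lit 5) (nat_lit 29) (nat_lit 5) (nat_lit 30) (nat_lit 4) (nat_lit 462) (nat_lit 416) (nat_lit 322)) (XT.nd (nat_lit 78) (nat_lit 76) (nat_lit 0) (XT.lf (nat_lit 0) (nat_lit 35491717194) (nat_lit 76) (nat_lit 88056170195) (nat_lit 76) (nat_lit 13786298165) (nat_lit 27) (nat_lit 4) (nat_lit 28) (nat_lit 5) (nat_lit 28)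 (nat_lit 4) (nat_lit 463) (nat_lit 416) (nat_lit 321)) (XT.lf (nat_lit 0) (nat_lit 36179062475) (nat_lit 152) (nat_lit 106471114) (nat_lit 76) (nat_lit 109231424078) (nat_lit 26) (nat_lit 5) (nat_lit 28) (nat_lit 5) (nat_lit 27) (nat_lit 4) (nat_lit 464) (nat_lit 416) (nat_lit 320))))) (XT.nd (nat_lit 234) (nat_lit 228) (nat_lit 0) (XT.nd (nat_lit 78) (nat_lit 228) (nat_lit 0) (XT.lf (nat_lit 0) (nat_lit 91765402800) (nat_lit 152) (nat_lit 41446864355) (nat_lit 0) (nat_lit 21025446643) (nat_lit 25) (nat_lit 5) (nat_lit 27) (nat_lit 4) (nat_lit 25) (nat_lit 4) (nat_lit 465) (nat_lit 416) (nat_lit 319)) (XT.nd (nat_lit 78) (nat_lit 152) (nat_lit 0) (XT.lf (nat_lit 0) (nat_lit 72774948212) (nat_lit 76) (nat_lit 80768451792) (nat_lit 76) (nat_lit 10025493187) (nat_lit 24) (nat_lit 4) (nat_lit 25) (nat_lit 5) (nat_lit 25) (nat_lit 4) (nat_lit 466) (nat_lit 416) (nat_lit 318)) (XT.lf (nat_lit 0)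 (nat_lit 24023454037) (nat_lit 76) (nat_lit 22205420443) (nat_lit 152) (nat_lit 127326109434) (nat_lit 22) (nat_lit 5) (nat_lit 23) (nat_lit 5) (nat_lit 24) (nat_lit 4) (nat_lit 467) (nat_lit 416) (nat_lit 317)))) (XT.nd (nat_lit 156) (nat_lit 152) (nat_lit 0) (XT.nd (nat_lit 78) (nat_lit 76) (nat_lit 0) (XT.lf (nat_lit 0) (nat_lit 108880441967) (nat_lit 152) (nat_lit 33837801298) (nat_lit 0) (nat_lit 41501096477) (nat_lit 22) (nat_lit 5) (nat_lit 24) (nat_lit 4) (nat_lit 22) (nat_lit 4) (nat_lit 468) (nat_lit 416) (nat_lit 316)) (XT.lf (nat_lit 0) (nat_lit 93727975619) (nat_lit 76) (nat_lit 84649410734) (nat_lit 76) (nat_lit 17267795301) (nat_lit 21) (nat_lit 4) (nat_lit 22) (nat_lit 5) (nat_lit 22) (nat_lit 4) (nat_lit 469) (nat_lit 416) (nat_lit 315))) (XT.nd (nat_lit 78) (nat_lit 0) (nat_lit 0) (XT.lf (nat_lit 0) (nat_lit 24818154221) (nat_lit 76) (nat_lit 20158368438) (nat_lit 152) (nat_lit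 162923980169) (nat_lit 19) (nat_lit 5) (nat_lit 20) (nat_lit 5) (nat_lit 21) (nat_lit 4) (nat_lit 470) (nat_lit 416) (nat_lit 314)) (XT.lf (nat_lit 0) (nat_lit 114176373573) (nat_lit 152) (nat_lit 56817122662) (nat_lit 0) (nat_lit 49999551342) (nat_lit 19) (nat_lit 5) (nat_lit 21) (nat_lit 4) (nat_lit 19) (nat_lit 4) (nat_lit 471) (nat_lit 416) (nat_lit 313)))))) (XT.nd (nat_lit 468) (nat_lit 304) (nat_lit 0) (XT.nd (nat_lit 234) (nat_lit 228) (nat_lit 0) (XT.nd (nat_lit 78) (nat_lit 152) (nat_lit 0) (XT.lf (nat_lit 0) (nat_lit 81820367090) (nat_lit 76) (nat_lit 108705248590) (nat_lit 76) (nat_lit 44526710212) (nat_lit 18) (nat_lit 4) (nat_lit 19) (nat_lit 5) (nat_lit 19) (nat_lit 4) (nat_lit 472) (nat_lit 416) (nat_lit 312)) (XT.nd (nat_lit 78) (nat_lit 76) (nat_lit 0) (XT.lf (nat_lit 0) (nat_lit 23020529578) (nat_lit 152) (nat_lit 16988041766) (nat_lit 76) (nat_lit 210159913097) (nat_lit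 17) (nat_lit 5) (nat_lit 19) (nat_lit 5) (nat_lit 18) (nat_lit 4) (nat_lit 473) (nat_lit 416) (nat_lit 311)) (XT.lf (nat_lit 0) (nat_lit 97096084807) (nat_lit 152) (nat_lit 133256374226) (nat_lit 0) (nat_lit 35970752691) (nat_lit 16) (nat_lit 5) (nat_lit 18) (nat_lit 4) (nat_lit 16) (nat_lit 4) (nat_lit 474) (nat_lit 416) (nat_lit 310)))) (XT.nd (nat_lit 78) (nat_lit 152) (nat_lit 0) (XT.lf (nat_lit 0) (nat_lit 11664236327) (nat_lit 76) (nat_lit 166587503880) (nat_lit 76) (nat_lit 105460874305) (nat_lit 15) (nat_lit 4) (nat_lit 16) (nat_lit 5) (nat_lit 16) (nat_lit 4) (nat_lit 475) (nat_lit 416) (nat_lit 309)) (XT.nd (nat_lit 78) (nat_lit 152) (nat_lit 0) (XT.lf (nat_lit 0) (nat_lit 172930488649) (nat_lit 76) (nat_lit 95287307254) (nat_lit 76) (nat_lit 34159476328) (nat_lit 15) (nat_lit 4) (nat_lit 16) (nat_lit 5) (nat_lit 16) (nat_lit 4) (nat_lit 476) (nat_lit 416) (nat_lit 308)) (XT.lf (nat_lit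 0) (nat_lit 24677664691) (nat_lit 76) (nat_lit 17179217249) (nat_lit 152) (nat_lit 280625663928) (nat_lit 13) (nat_lit 5) (nat_lit 14) (nat_lit 5) (nat_lit 15) (nat_lit 4) (nat_lit 477) (nat_lit 416) (nat_lit 307))))) (XT.nd (nat_lit 234) (nat_lit 228) (nat_lit 0) (XT.nd (nat_lit 78) (nat_lit 76) (nat_lit 0) (XT.lf (nat_lit 0) (nat_lit 126111434171) (nat_lit 152) (nat_lit 149996712367) (nat_lit 0) (nat_lit 67892412024) (nat_lit 13) (nat_lit 5) (nat_lit 15) (nat_lit 4) (nat_lit 13) (nat_lit 4) (nat_lit 478) (nat_lit 416) (nat_lit 306)) (XT.nd (nat_lit 78) (nat_lit 0) (nat_lit 0) (XT.lf (nat_lit 0) (nat_lit 9649732274) (nat_lit 76) (nat_lit 207894166534) (nat_lit 76) (nat_lit 149674236129) (nat_lit 12) (nat_lit 4) (nat_lit 13) (nat_lit 5) (nat_lit 13) (nat_lit 4) (nat_lit 479) (nat_lit 416) (nat_lit 305)) (XT.lf (nat_lit 0) (nat_lit 187418911788) (nat_lit 76) (nat_lit 131482233917) (nat_lit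 76) (nat_lit 73261462532) (nat_lit 12) (nat_lit 4) (nat_lit 13) (nat_lit 5) (nat_lit 13) (nat_lit 4) (nat_lit 480) (nat_lit 416) (nat_lit 304)))) (XT.nd (nat_lit 156) (nat_lit 76) (nat_lit 0) (XT.nd (nat_lit 78) (nat_lit 76) (nat_lit 0) (XT.lf (nat_lit 0) (nat_lit 8965312220) (nat_lit 152) (nat_lit 39842660017) (nat_lit 76) (nat_lit 370287560328) (nat_lit 11) (nat_lit 5) (nat_lit 13) (nat_lit 5) (nat_lit 12) (nat_lit 4) (nat_lit 481) (nat_lit 416) (nat_lit 303)) (XT.lf (nat_lit 0) (nat_lit 98133798676) (nat_lit 152) (nat_lit 307158710419) (nat_lit 0) (nat_lit 42684016699) (nat_lit 10) (nat_lit 5) (nat_lit 12) (nat_lit 4) (nat_lit 10) (nat_lit 4) (nat_lit 482) (nat_lit 416) (nat_lit 302))) (XT.nd (nat_lit 78) (nat_lit 76) (nat_lit 0) (XT.lf (nat_lit 0) (nat_lit 195961915889) (nat_lit 152) (nat_lit 142618276948) (nat_lit 0) (nat_lit 140511498106) (nat_lit 10) (nat_lit 5) (nat_lit 12) (nat_lit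 4) (nat_lit 10) (nat_lit 4) (nat_lit 483) (nat_lit 416) (nat_lit 301)) (XT.lf (nat_lit 0) (nat_lit 36241160299) (nat_lit 76) (nat_lit 265938864222) (nat_lit 76) (nat_lit 210487857729) (nat_lit 9) (nat_lit 4) (nat_lit 10) (nat_lit 5) (nat_lit 10) (nat_lit 4) (nat_lit 484) (nat_lit 416) (nat_lit 300))))))) (XT.nd (nat_lit 57174) (nat_lit 0) (nat_lit 6992) (XT.nd (nat_lit 468) (nat_lit 228) (nat_lit 0) (XT.nd (nat_lit 234) (nat_lit 0) (nat_lit 0) (XT.nd (nat_lit 78) (nat_lit 152) (nat_lit 0) (XT.lf (nat_lit 0) (nat_lit 234498212244) (nat_lit 76) (nat_lit 184879695971) (nat_lit 76) (nat_lit 129428144376) (nat_lit 9) (nat_lit 4) (nat_lit 10) (nat_lit 5) (nat_lit 10) (nat_lit 4) (nat_lit 485) (nat_lit 416) (nat_lit 299)) (XT.nd (nat_lit 78) (nat_lit 152) (nat_lit 0) (XT.lf (nat_lit 0) (nat_lit 448612131170) (nat_lit 76) (nat_lit 97337646986) (nat_lit 76) (nat_lit 41885590667) (nat_lit 9) (nat_lit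 4) (nat_lit 10) (nat_lit 5) (nat_lit 10) (nat_lit 4) (nat_lit 486) (nat_lit 416) (nat_lit 298)) (XT.lf (nat_lit 0) (nat_lit 50664042356) (nat_lit 76) (nat_lit 1100136186) (nat_lit 152) (nat_lit 578142279463) (nat_lit 7) (nat_lit 5) (nat_lit 8) (nat_lit 5) (nat_lit 9) (nat_lit 4) (nat_lit 487) (nat_lit 416) (nat_lit 297)))) (XT.nd (nat_lit 78) (nat_lit 0) (nat_lit 0) (XT.lf (nat_lit 0) (nat_lit 155526895466) (nat_lit 152) (nat_lit 416863028715) (nat_lit 0) (nat_lit 102714556061) (nat_lit 7) (nat_lit 5) (nat_lit 9) (nat_lit 4) (nat_lit 7) (nat_lit 4) (nat_lit 488) (nat_lit 416) (nat_lit 296)) (XT.nd (nat_lit 78) (nat_lit 0) (nat_lit 0) (XT.lf (nat_lit 0) (nat_lit 267607619554) (nat_lit 152) (nat_lit 241514976683) (nat_lit 0) (nat_lit 214794898562) (nat_lit 7) (nat_lit 5) (nat_lit 9) (nat_lit 4) (nat_lit 7) (nat_lit 4) (nat_lit 489) (nat_lit 416) (nat_lit 295)) (XT.lf (nat_lit 0) (nat_lit 388653356668)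 (nat_lit 152) (nat_lit 52141983775) (nat_lit 0) (nat_lit 335840282355) (nat_lit 7) (nat_lit 5) (nat_lit 9) (nat_lit 4) (nat_lit 7) (nat_lit 4) (nat_lit 490) (nat_lit 416) (nat_lit 294))))) (XT.nd (nat_lit 234) (nat_lit 152) (nat_lit 0) (XT.nd (nat_lit 78) (nat_lit 0) (nat_lit 0) (XT.lf (nat_lit 0) (nat_lit 157416470476) (nat_lit 76) (nat_lit 364422656665) (nat_lit 76) (nat_lit 311609255203) (nat_lit 6) (nat_lit 4) (nat_lit 7) (nat_lit 5) (nat_lit 7) (nat_lit 4) (nat_lit 491) (nat_lit 416) (nat_lit 293)) (XT.nd (nat_lit 78) (nat_lit 0) (nat_lit 0) (XT.lf (nat_lit 0) (nat_lit 385599003086) (nat_lit 76) (nat_lit 280987756965) (nat_lit 76) (nat_lit 228174052586) (nat_lit 6) (nat_lit 4) (nat_lit 7) (nat_lit 5) (nat_lit 7) (nat_lit 4) (nat_lit 492) (nat_lit 416) (nat_lit 292)) (XT.lf (nat_lit 0) (nat_lit 632033757379) (nat_lit 76) (nat_lit 190879262033) (nat_lit 76) (nat_lit 138065277177) (nat_lit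 6) (nat_lit 4) (nat_lit 7) (nat_lit 5) (nat_lit 7) (nat_lit 4) (nat_lit 493) (nat_lit 416) (nat_lit 291)))) (XT.nd (nat_lit 156) (nat_lit 0) (nat_lit 0) (XT.nd (nat_lit 78) (nat_lit 152) (nat_lit 0) (XT.lf (nat_lit 0) (nat_lit 898181087452) (nat_lit 76) (nat_lit 93563195603) (nat_lit 76) (nat_lit 40748951046) (nat_lit 6) (nat_lit 4) (nat_lit 7) (nat_lit 5) (nat_lit 7) (nat_lit 4) (nat_lit 494) (nat_lit 416) (nat_lit 290)) (XT.lf (nat_lit 0) (nat_lit 63716166303) (nat_lit 152) (nat_lit 1032475148646) (nat_lit 0) (nat_lit 13416656759) (nat_lit 4) (nat_lit 5) (nat_lit 6) (nat_lit 4) (nat_lit 4) (nat_lit 4) (nat_lit 495) (nat_lit 416) (nat_lit 289))) (XT.nd (nat_lit 78) (nat_lit 0) (nat_lit 0) (XT.lf (nat_lit 0) (nat_lit 179084564330) (nat_lit 152) (nat_lit 884790394695) (nat_lit 0) (nat_lit 128784842736) (nat_lit 4) (nat_lit 5) (nat_lit 6) (nat_lit 4) (nat_lit 4) (nat_lit 4) (nat_lit 496) (nat_lit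 416) (nat_lit 288)) (XT.lf (nat_lit 0) (nat_lit 303681506366) (nat_lit 152) (nat_lit 725292729829) (nat_lit 0) (nat_lit 253381588430) (nat_lit 4) (nat_lit 5) (nat_lit 6) (nat_lit 4) (nat_lit 4) (nat_lit 4) (nat_lit 497) (nat_lit 416) (nat_lit 287)))))) (XT.nd (nat_lit 546) (nat_lit 2204) (nat_lit 0) (XT.nd (nat_lit 234) (nat_lit 0) (nat_lit 152) (XT.nd (nat_lit 78) (nat_lit 0) (nat_lit 76) (XT.lf (nat_lit 0) (nat_lit 565706539) (nat_lit 836) (nat_lit 3525591639) (nat_lit 836) (nat_lit 3525591639) (nat_lit 125) (nat_lit 3) (nat_lit 136) (nat_lit 3) (nat_lit 136) (nat_lit 5) (nat_lit 417) (nat_lit 417) (nat_lit 366)) (XT.nd (nat_lit 78) (nat_lit 0) (nat_lit 0) (XT.lf (nat_lit 0) (nat_lit 1752466429) (nat_lit 760) (nat_lit 10820505869) (nat_lit 836) (nat_lit 3241195662) (nat_lit 126) (nat_lit 5) (nat_lit 136) (nat_lit 5) (nat_lit 137) (nat_lit 5) (nat_lit 418) (nat_lit 417) (nat_lit 365)) (XT.lf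 (nat_lit 76) (nat_lit 1706967672) (nat_lit 0) (nat_lit 961156695) (nat_lit 836) (nat_lit 13760634278) (nat_lit 127) (nat_lit 5) (nat_lit 126) (nat_lit 5) (nat_lit 137) (nat_lit 5) (nat_lit 419) (nat_lit 417) (nat_lit 364)))) (XT.nd (nat_lit 156) (nat_lit 0) (nat_lit 152) (XT.nd (nat_lit 78) (nat_lit 0) (nat_lit 76) (XT.lf (nat_lit 0) (nat_lit 3988008378) (nat_lit 760) (nat_lit 1671847797) (nat_lit 836) (nat_lit 11416127765) (nat_lit 127) (nat_lit 5) (nat_lit 137) (nat_lit 5) (nat_lit 138) (nat_lit 5) (nat_lit 420) (nat_lit 417) (nat_lit 363)) (XT.lf (nat_lit 0) (nat_lit 5703427604) (nat_lit 760) (nat_lit 5089130292) (nat_lit 836) (nat_lit 6967946979) (nat_lit 128) (nat_lit 5) (nat_lit 138) (nat_lit 5) (nat_lit 139) (nat_lit 5) (nat_lit 421) (nat_lit 417) (nat_lit 362))) (XT.nd (nat_lit 78) (nat_lit 0) (nat_lit 0) (XT.lf (nat_lit 0) (nat_lit 7833335802) (nat_lit 760) (nat_lit 8602404118) (nat_lit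 836) (nat_lit 2050198534) (nat_lit 129) (nat_lit 5) (nat_lit 139) (nat_lit 5) (nat_lit 140) (nat_lit 5) (nat_lit 422) (nat_lit 417) (nat_lit 361)) (XT.lf (nat_lit 76) (nat_lit 6983498358) (nat_lit 0) (nat_lit 3497924820) (nat_lit 836) (nat_lit 8770606940) (nat_lit 130) (nat_lit 5) (nat_lit 129) (nat_lit 5) (nat_lit 140) (nat_lit 5) (nat_lit 423) (nat_lit 417) (nat_lit 360))))) (XT.nd (nat_lit 234) (nat_lit 1368) (nat_lit 0) (XT.nd (nat_lit 78) (nat_lit 456) (nat_lit 0) (XT.lf (nat_lit 0) (nat_lit 3985282865) (nat_lit 760) (nat_lit 9702953622) (nat_lit 836) (nat_lit 6373840462) (nat_lit 120) (nat_lit 5) (nat_lit 130) (nat_lit 5) (nat_lit 131) (nat_lit 5) (nat_lit 424) (nat_lit 417) (nat_lit 359)) (XT.nd (nat_lit 78) (nat_lit 76) (nat_lit 0) (XT.lf (nat_lit 0) (nat_lit 924549222) (nat_lit 380) (nat_lit 16554119294) (nat_lit 456) (nat_lit 3441916234) (nat_lit 115) (nat_lit 5) (nat_lit 120) (nat_lit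 5) (nat_lit 121) (nat_lit 5) (nat_lit 425) (nat_lit 417) (nat_lit 358)) (XT.lf (nat_lit 0) (nat_lit 153658440) (nat_lit 456) (nat_lit 2165411694) (nat_lit 76) (nat_lit 19507913642) (nat_lit 114) (nat_lit 5) (nat_lit 120) (nat_lit 5) (nat_lit 115) (nat_lit 5) (nat_lit 426) (nat_lit 417) (nat_lit 357)))) (XT.nd (nat_lit 156) (nat_lit 608) (nat_lit 0) (XT.nd (nat_lit 78) (nat_lit 380) (nat_lit 0) (XT.lf (nat_lit 0) (nat_lit 4375600054) (nat_lit 456) (nat_lit 5429647122) (nat_lit 76) (nat_lit 12974869765) (nat_lit 109) (nat_lit 5) (nat_lit 115) (nat_lit 5) (nat_lit 110) (nat_lit 5) (nat_lit 427) (nat_lit 417) (nat_lit 356)) (XT.lf (nat_lit 0) (nat_lit 9316345583) (nat_lit 456) (nat_lit 8771508020) (nat_lit 76) (nat_lit 5702602974) (nat_lit 104) (nat_lit 5) (nat_lit 110) (nat_lit 5) (nat_lit 105) (nat_lit 5) (nat_lit 428) (nat_lit 417) (nat_lit 355))) (XT.nd (nat_lit 78) (nat_lit 304) (nat_lit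 0) (XT.lf (nat_lit 0) (nat_lit 12631965702) (nat_lit 304) (nat_lit 2456094802) (nat_lit 380) (nat_lit 9771785027) (nat_lit 100) (nat_lit 5) (nat_lit 104) (nat_lit 5) (nat_lit 105) (nat_lit 5) (nat_lit 429) (nat_lit 417) (nat_lit 354)) (XT.lf (nat_lit 0) (nat_lit 10124305006) (nat_lit 304) (nat_lit 11714099395) (nat_lit 380) (nat_lit 4150543684) (nat_lit 96) (nat_lit 5) (nat_lit 100) (nat_lit 5) (nat_lit 101) (nat_lit 5) (nat_lit 430) (nat_lit 417) (nat_lit 353))))))))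
noncomputable def xc75 : XT := (XT.nd (nat_lit 2106) (nat_lit 1900) (nat_lit 0) (XT.nd (nat_lit 1014) (nat_lit 1900) (nat_lit 0) (XT.nd (nat_lit 468) (nat_lit 1368) (nat_lit 0) (XT.nd (nat_lit 234) (nat_lit 532) (nat_lit 0) (XT.nd (nat_lit 78) (nat_lit 532) (nat_lit 0) (XT.lf (nat_lit 0) (nat_lit 2300239654) (nat_lit 304) (nat_lit 19625763642) (nat_lit 76) (nat_lit 5258817273) (nat_lit 92) (nat_lit 5) (nat_lit 96) (nat_lit 5) (nat_lit 93) (nat_lit 5) (nat_lit 431) (nat_lit 417) (nat_lit 352)) (XT.nd (nat_lit 78) (nat_lit 228) (nat_lit 0) (XT.lf (nat_lit 0) (nat_lit 4817599819) (nat_lit 304) (nat_lit 4839898058) (nat_lit 380) (nat_lit 18788677310) (nat_lit 88) (nat_lit 5) (nat_lit 92) (nat_lit 5) (nat_lit 93) (nat_lit 5) (nat_lit 432) (nat_lit 417) (nat_lit 351)) (XT.lf (nat_lit 0) (nat_lit 1945085561) (nat_lit 228) (nat_lit 16229894902) (nat_lit 304) (nat_lit 11604880873) (nat_lit 85) (nat_lit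 5) (nat_lit 88) (nat_lit 5) (nat_lit 89) (nat_lit 5) (nat_lit 433) (nat_lit 417) (nat_lit 350)))) (XT.nd (nat_lit 78) (nat_lit 532) (nat_lit 0) (XT.lf (nat_lit 0) (nat_lit 27886314997) (nat_lit 304) (nat_lit 934584193) (nat_lit 76) (nat_lit 2373725470) (nat_lit 85) (nat_lit 5) (nat_lit 89) (nat_lit 5) (nat_lit 86) (nat_lit 5) (nat_lit 434) (nat_lit 417) (nat_lit 349)) (XT.nd (nat_lit 78) (nat_lit 228) (nat_lit 0) (XT.lf (nat_lit 0) (nat_lit 6188553090) (nat_lit 304) (nat_lit 4046073405) (nat_lit 76) (nat_lit 22447661513) (nat_lit 81) (nat_lit 5) (nat_lit 85) (nat_lit 5) (nat_lit 82) (nat_lit 5) (nat_lit 435) (nat_lit 417) (nat_lit 348)) (XT.lf (nat_lit 0) (nat_lit 16916325789) (nat_lit 304) (nat_lit 7319534471) (nat_lit 76) (nat_lit 10021043077) (nat_lit 78) (nat_lit 5) (nat_lit 82) (nat_lit 5) (nat_lit 79) (nat_lit 5) (nat_lit 436) (nat_lit 417) (nat_lit 347))))) (XT.nd (nat_lit 234) (nat_lit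 684) (nat_lit 0) (XT.nd (nat_lit 78) (nat_lit 456) (nat_lit 0) (XT.lf (nat_lit 0) (nat_lit 25200810543) (nat_lit 228) (nat_lit 3924042065) (nat_lit 304) (nat_lit 6801512413) (nat_lit 75) (nat_lit 5) (nat_lit 78) (nat_lit 5) (nat_lit 79) (nat_lit 5) (nat_lit 437) (nat_lit 417) (nat_lit 346)) (XT.nd (nat_lit 78) (nat_lit 228) (nat_lit 0) (XT.lf (nat_lit 0) (nat_lit 5206709021) (nat_lit 228) (nat_lit 14473422522) (nat_lit 76) (nat_lit 18007047466) (nat_lit 72) (nat_lit 5) (nat_lit 75) (nat_lit 5) (nat_lit 73) (nat_lit 5) (nat_lit 438) (nat_lit 417) (nat_lit 345)) (XT.lf (nat_lit 0) (nat_lit 18553791409) (nat_lit 304) (nat_lit 18452308338) (nat_lit 76) (nat_lit 2546361657) (nat_lit 69) (nat_lit 5) (nat_lit 73) (nat_lit 5) (nat_lit 70) (nat_lit 5) (nat_lit 439) (nat_lit 417) (nat_lit 344)))) (XT.nd (nat_lit 156) (nat_lit 304) (nat_lit 0) (XT.nd (nat_lit 78) (nat_lit 228) (nat_lit 0) (XT.lf (nat_lit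 0) (nat_lit 18724565483) (nat_lit 152) (nat_lit 15111187244) (nat_lit 228) (nat_lit 7687860877) (nat_lit 67) (nat_lit 5) (nat_lit 69) (nat_lit 5) (nat_lit 70) (nat_lit 5) (nat_lit 440) (nat_lit 417) (nat_lit 343)) (XT.lf (nat_lit 0) (nat_lit 7186302203) (nat_lit 228) (nat_lit 27473782079) (nat_lit 76) (nat_lit 8951528368) (nat_lit 64) (nat_lit 5) (nat_lit 67) (nat_lit 5) (nat_lit 65) (nat_lit 5) (nat_lit 441) (nat_lit 417) (nat_lit 342))) (XT.nd (nat_lit 78) (nat_lit 152) (nat_lit 0) (XT.lf (nat_lit 0) (nat_lit 13167518770) (nat_lit 152) (nat_lit 10668850354) (nat_lit 228) (nat_lit 21981217480) (nat_lit 62) (nat_lit 5) (nat_lit 64) (nat_lit 5) (nat_lit 65) (nat_lit 5) (nat_lit 442) (nat_lit 417) (nat_lit 341)) (XT.lf (nat_lit 0) (nat_lit 9917097248) (nat_lit 152) (nat_lit 32768738626) (nat_lit 228) (nat_lit 5470835015) (nat_lit 60) (nat_lit 5) (nat_lit 62) (nat_lit 5) (nat_lit 63) (nat_lit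 5) (nat_lit 443) (nat_lit 417) (nat_lit 340)))))) (XT.nd (nat_lit 546) (nat_lit 836) (nat_lit 0) (XT.nd (nat_lit 234) (nat_lit 608) (nat_lit 0) (XT.nd (nat_lit 78) (nat_lit 228) (nat_lit 0) (XT.lf (nat_lit 0) (nat_lit 6198171245) (nat_lit 152) (nat_lit 6609902895) (nat_lit 228) (nat_lit 37822995388) (nat_lit 57) (nat_lit 5) (nat_lit 59) (nat_lit 5) (nat_lit 60) (nat_lit 5) (nat_lit 444) (nat_lit 417) (nat_lit 339)) (XT.nd (nat_lit 78) (nat_lit 76) (nat_lit 0) (XT.lf (nat_lit 0) (nat_lit 1886962644) (nat_lit 152) (nat_lit 31506616897) (nat_lit 228) (nat_lit 19853560225) (nat_lit 55) (nat_lit 5) (nat_lit 57) (nat_lit 5) (nat_lit 58) (nat_lit 5) (nat_lit 445) (nat_lit 417) (nat_lit 338)) (XT.lf (nat_lit 0) (nat_lit 455236315) (nat_lit 228) (nat_lit 2670130630) (nat_lit 76) (nat_lit 52903103152) (nat_lit 54) (nat_lit 5) (nat_lit 57) (nat_lit 5) (nat_lit 55) (nat_lit 5) (nat_lit 446) (nat_lit 417)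 (nat_lit 337)))) (XT.nd (nat_lit 156) (nat_lit 304) (nat_lit 0) (XT.nd (nat_lit 78) (nat_lit 152) (nat_lit 0) (XT.lf (nat_lit 0) (nat_lit 22940285176) (nat_lit 228) (nat_lit 8222101912) (nat_lit 76) (nat_lit 27791291752) (nat_lit 52) (nat_lit 5) (nat_lit 55) (nat_lit 5) (nat_lit 53) (nat_lit 5) (nat_lit 447) (nat_lit 417) (nat_lit 336)) (XT.lf (nat_lit 0) (nat_lit 47851749007) (nat_lit 152) (nat_lit 209996866) (nat_lit 228) (nat_lit 14009279334) (nat_lit 50) (nat_lit 5) (nat_lit 52) (nat_lit 5) (nat_lit 53) (nat_lit 5) (nat_lit 448) (nat_lit 417) (nat_lit 335))) (XT.nd (nat_lit 78) (nat_lit 152) (nat_lit 0) (XT.lf (nat_lit 0) (nat_lit 10809377601) (nat_lit 152) (nat_lit 21394422054) (nat_lit 76) (nat_lit 33158023537) (nat_lit 48) (nat_lit 5) (nat_lit 50) (nat_lit 5) (nat_lit 49) (nat_lit 5) (nat_lit 449) (nat_lit 417) (nat_lit 334)) (XT.lf (nat_lit 0) (nat_lit 38013353388) (nat_lit 228) (nat_lit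 29467982223) (nat_lit 76) (nat_lit 1378535307) (nat_lit 46) (nat_lit 5) (nat_lit 49) (nat_lit 5) (nat_lit 47) (nat_lit 4) (nat_lit 450) (nat_lit 417) (nat_lit 333))))) (XT.nd (nat_lit 234) (nat_lit 456) (nat_lit 0) (XT.nd (nat_lit 78) (nat_lit 304) (nat_lit 0) (XT.lf (nat_lit 0) (nat_lit 33700065705) (nat_lit 76) (nat_lit 35133022720) (nat_lit 152) (nat_lit 3732702977) (nat_lit 45) (nat_lit 5) (nat_lit 46) (nat_lit 5) (nat_lit 47) (nat_lit 4) (nat_lit 451) (nat_lit 417) (nat_lit 332)) (XT.nd (nat_lit 78) (nat_lit 76) (nat_lit 0) (XT.lf (nat_lit 0) (nat_lit 25684223794) (nat_lit 228) (nat_lit 49651393875) (nat_lit 76) (nat_lit 1165034533) (nat_lit 42) (nat_lit 5) (nat_lit 45) (nat_lit 5) (nat_lit 43) (nat_lit 4) (nat_lit 452) (nat_lit 417) (nat_lit 331)) (XT.lf (nat_lit 0) (nat_lit 18400733088) (nat_lit 76) (nat_lit 40484592652) (nat_lit 152) (nat_lit 21783837510) (nat_lit 41) (nat_lit 5) (nat_lit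 42) (nat_lit 5) (nat_lit 43) (nat_lit 4) (nat_lit 453) (nat_lit 417) (nat_lit 330)))) (XT.nd (nat_lit 156) (nat_lit 228) (nat_lit 0) (XT.nd (nat_lit 78) (nat_lit 0) (nat_lit 0) (XT.lf (nat_lit 0) (nat_lit 8640849882) (nat_lit 152) (nat_lit 1630435161) (nat_lit 228) (nat_lit 74842085686) (nat_lit 38) (nat_lit 5) (nat_lit 40) (nat_lit 5) (nat_lit 41) (nat_lit 5) (nat_lit 454) (nat_lit 417) (nat_lit 329)) (XT.lf (nat_lit 0) (nat_lit 45862521434) (nat_lit 228) (nat_lit 3441119411) (nat_lit 76) (nat_lit 40504873842) (nat_lit 38) (nat_lit 5) (nat_lit 41) (nat_lit 5) (nat_lit 39) (nat_lit 4) (nat_lit 455) (nat_lit 417) (nat_lit 328))) (XT.nd (nat_lit 78) (nat_lit 152) (nat_lit 0) (XT.lf (nat_lit 0) (nat_lit 77885243044) (nat_lit 76) (nat_lit 7652411355) (nat_lit 152) (nat_lit 9279786495) (nat_lit 37) (nat_lit 5) (nat_lit 38) (nat_lit 5) (nat_lit 39) (nat_lit 4) (nat_lit 456) (nat_lit 417) (nat_lit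 327)) (XT.lf (nat_lit 0) (nat_lit 28971870525) (nat_lit 152) (nat_lit 33440085597) (nat_lit 76) (nat_lit 37707470989) (nat_lit 35) (nat_lit 5) (nat_lit 37) (nat_lit 5) (nat_lit 36) (nat_lit 4) (nat_lit 457) (nat_lit 417) (nat_lit 326))))))) (XT.nd (nat_lit 1014) (nat_lit 836) (nat_lit 0) (XT.nd (nat_lit 468) (nat_lit 532) (nat_lit 0) (XT.nd (nat_lit 234) (nat_lit 228) (nat_lit 0) (XT.nd (nat_lit 78) (nat_lit 228) (nat_lit 0) (XT.lf (nat_lit 0) (nat_lit 53152261052) (nat_lit 76) (nat_lit 18062829590) (nat_lit 152) (nat_lit 34560048251) (nat_lit 34) (nat_lit 5) (nat_lit 35) (nat_lit 5) (nat_lit 36) (nat_lit 4) (nat_lit 458) (nat_lit 417) (nat_lit 325)) (XT.nd (nat_lit 78) (nat_lit 76) (nat_lit 0) (XT.lf (nat_lit 0) (nat_lit 6447088155) (nat_lit 152) (nat_lit 75206770287) (nat_lit 76) (nat_lit 30143021916) (nat_lit 32) (nat_lit 5) (nat_lit 34) (nat_lit 5) (nat_lit 33) (nat_lit 4) (nat_lit 459)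 (nat_lit 417) (nat_lit 324)) (XT.lf (nat_lit 0) (nat_lit 16168298267) (nat_lit 76) (nat_lit 34854485259) (nat_lit 152) (nat_lit 67174309925) (nat_lit 31) (nat_lit 5) (nat_lit 32) (nat_lit 5) (nat_lit 33) (nat_lit 4) (nat_lit 460) (nat_lit 417) (nat_lit 323)))) (XT.nd (nat_lit 78) (nat_lit 228) (nat_lit 0) (XT.lf (nat_lit 0) (nat_lit 100735132738) (nat_lit 152) (nat_lit 7782563467) (nat_lit 0) (nat_lit 16513097856) (nat_lit 31) (nat_lit 5) (nat_lit 33) (nat_lit 4) (nat_lit 31) (nat_lit 4) (nat_lit 461) (nat_lit 417) (nat_lit 322)) (XT.nd (nat_lit 78) (nat_lit 76) (nat_lit 0) (XT.lf (nat_lit 0) (nat_lit 23431761940) (nat_lit 152) (nat_lit 36191092800) (nat_lit 76) (nat_lit 72664999607) (nat_lit 29) (nat_lit 5) (nat_lit 31) (nat_lit 5) (nat_lit 30) (nat_lit 4) (nat_lit 462) (nat_lit 417) (nat_lit 321)) (XT.lf (nat_lit 0) (nat_lit 70272734639) (nat_lit 76) (nat_lit 5094485084) (nat_lit 152) (nat_lit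 64676293454) (nat_lit 28) (nat_lit 5) (nat_lit 29) (nat_lit 5) (nat_lit 30) (nat_lit 4) (nat_lit 463) (nat_lit 417) (nat_lit 320))))) (XT.nd (nat_lit 234) (nat_lit 304) (nat_lit 0) (XT.nd (nat_lit 78) (nat_lit 152) (nat_lit 0) (XT.lf (nat_lit 0) (nat_lit 38531005503) (nat_lit 76) (nat_lit 95003639018) (nat_lit 76) (nat_lit 14781123960) (nat_lit 27) (nat_lit 4) (nat_lit 28) (nat_lit 5) (nat_lit 28) (nat_lit 4) (nat_lit 464) (nat_lit 417) (nat_lit 319)) (XT.nd (nat_lit 78) (nat_lit 0) (nat_lit 0) (XT.lf (nat_lit 0) (nat_lit 75784410) (nat_lit 76) (nat_lit 39095655608) (nat_lit 152) (nat_lit 117981966687) (nat_lit 25) (nat_lit 5) (nat_lit 26) (nat_lit 5) (nat_lit 27) (nat_lit 4) (nat_lit 465) (nat_lit 417) (nat_lit 318)) (XT.lf (nat_lit 0) (nat_lit 99200510243) (nat_lit 152) (nat_lit 44579189859) (nat_lit 0) (nat_lit 22792332458) (nat_lit 25) (nat_lit 5) (nat_lit 27) (nat_lit 4) (nat_lit 25)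 (nat_lit 4) (nat_lit 466) (nat_lit 417) (nat_lit 317)))) (XT.nd (nat_lit 156) (nat_lit 76) (nat_lit 0) (XT.nd (nat_lit 78) (nat_lit 152) (nat_lit 0) (XT.lf (nat_lit 0) (nat_lit 78772396346) (nat_lit 76) (nat_lit 87144136460) (nat_lit 76) (nat_lit 10733384559) (nat_lit 24) (nat_lit 4) (nat_lit 25) (nat_lit 5) (nat_lit 25) (nat_lit 4) (nat_lit 467) (nat_lit 417) (nat_lit 316)) (XT.lf (nat_lit 0) (nat_lit 26116043931) (nat_lit 76) (nat_lit 23898189860) (nat_lit 152) (nat_lit 137420792629) (nat_lit 22) (nat_lit 5) (nat_lit 23) (nat_lit 5) (nat_lit 24) (nat_lit 4) (nat_lit 468) (nat_lit 417) (nat_lit 315))) (XT.nd (nat_lit 78) (nat_lit 76) (nat_lit 0) (XT.lf (nat_lit 0) (nat_lit 117672688051) (nat_lit 152) (nat_lit 36383933230) (nat_lit 0) (nat_lit 44896171641) (nat_lit 22) (nat_lit 5) (nat_lit 24) (nat_lit 4) (nat_lit 22) (nat_lit 4) (nat_lit 469) (nat_lit 417) (nat_lit 314)) (XT.lf (nat_lit 0)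 (nat_lit 101380113662) (nat_lit 76) (nat_lit 91345617081) (nat_lit 76) (nat_lit 18567154561) (nat_lit 21) (nat_lit 4) (nat_lit 22) (nat_lit 5) (nat_lit 22) (nat_lit 4) (nat_lit 470) (nat_lit 417) (nat_lit 313)))))) (XT.nd (nat_lit 546) (nat_lit 380) (nat_lit 0) (XT.nd (nat_lit 234) (nat_lit 228) (nat_lit 0) (XT.nd (nat_lit 78) (nat_lit 76) (nat_lit 0) (XT.lf (nat_lit 0) (nat_lit 26953333593) (nat_lit 76) (nat_lit 21697202048) (nat_lit 152) (nat_lit 175878210027) (nat_lit 19) (nat_lit 5) (nat_lit 20) (nat_lit 5) (nat_lit 21) (nat_lit 4) (nat_lit 471) (nat_lit 417) (nat_lit 312)) (XT.nd (nat_lit 78) (nat_lit 76) (nat_lit 0) (XT.lf (nat_lit 0) (nat_lit 123381820453) (nat_lit 152) (nat_lit 61221407627) (nat_lit 0) (nat_lit 54065693834) (nat_lit 19) (nat_lit 5) (nat_lit 21) (nat_lit 4) (nat_lit 19) (nat_lit 4) (nat_lit 472) (nat_lit 417) (nat_lit 311)) (XT.lf (nat_lit 0) (nat_lit 88500949930) (nat_lit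 76) (nat_lit 117334874779) (nat_lit 76) (nat_lit 48017276841) (nat_lit 18) (nat_lit 4) (nat_lit 19) (nat_lit 5) (nat_lit 19) (nat_lit 4) (nat_lit 473) (nat_lit 417) (nat_lit 310)))) (XT.nd (nat_lit 156) (nat_lit 76) (nat_lit 0) (XT.nd (nat_lit 78) (nat_lit 76) (nat_lit 0) (XT.lf (nat_lit 0) (nat_lit 24926319625) (nat_lit 152) (nat_lit 18220005038) (nat_lit 76) (nat_lit 227032429011) (nat_lit 17) (nat_lit 5) (nat_lit 19) (nat_lit 5) (nat_lit 18) (nat_lit 4) (nat_lit 474) (nat_lit 417) (nat_lit 309)) (XT.lf (nat_lit 0) (nat_lit 104926006324) (nat_lit 152) (nat_lit 143793201049) (nat_lit 0) (nat_lit 38906747572) (nat_lit 16) (nat_lit 5) (nat_lit 18) (nat_lit 4) (nat_lit 16) (nat_lit 4) (nat_lit 475) (nat_lit 417) (nat_lit 308))) (XT.nd (nat_lit 78) (nat_lit 0) (nat_lit 0) (XT.lf (nat_lit 0) (nat_lit 12715683230) (nat_lit 76) (nat_lit 179855668065) (nat_lit 76) (nat_lit 113835296951) (nat_lit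 15) (nat_lit 4) (nat_lit 16) (nat_lit 5) (nat_lit 16) (nat_lit 4) (nat_lit 476) (nat_lit 417) (nat_lit 307)) (XT.lf (nat_lit 0) (nat_lit 186874472183) (nat_lit 76) (nat_lit 102855813941) (nat_lit 76) (nat_lit 36834412861) (nat_lit 15) (nat_lit 4) (nat_lit 16) (nat_lit 5) (nat_lit 16) (nat_lit 4) (nat_lit 477) (nat_lit 417) (nat_lit 306))))) (XT.nd (nat_lit 234) (nat_lit 152) (nat_lit 0) (XT.nd (nat_lit 78) (nat_lit 76) (nat_lit 0) (XT.lf (nat_lit 0) (nat_lit 26758433411) (nat_lit 76) (nat_lit 18500487643) (nat_lit 152) (nat_lit 303019552560) (nat_lit 13) (nat_lit 5) (nat_lit 14) (nat_lit 5) (nat_lit 15) (nat_lit 4) (nat_lit 478) (nat_lit 417) (nat_lit 305)) (XT.nd (nat_lit 78) (nat_lit 76) (nat_lit 0) (XT.lf (nat_lit 0) (nat_lit 136250642499) (nat_lit 152) (nat_lit 161896076260) (nat_lit 0) (nat_lit 73371368423) (nat_lit 13) (nat_lit 5) (nat_lit 15) (nat_lit 4) (nat_lit 13) (nat_lit 4) (nat_lit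 479) (nat_lit 417) (nat_lit 304)) (XT.lf (nat_lit 0) (nat_lit 10517721860) (nat_lit 76) (nat_lit 224477755996) (nat_lit 76) (nat_lit 161597703235) (nat_lit 12) (nat_lit 4) (nat_lit 13) (nat_lit 5) (nat_lit 13) (nat_lit 4) (nat_lit 480) (nat_lit 417) (nat_lit 303)))) (XT.nd (nat_lit 156) (nat_lit 76) (nat_lit 0) (XT.nd (nat_lit 78) (nat_lit 76) (nat_lit 0) (XT.lf (nat_lit 0) (nat_lit 202501323810) (nat_lit 76) (nat_lit 141956420167) (nat_lit 76) (nat_lit 79075646401) (nat_lit 12) (nat_lit 4) (nat_lit 13) (nat_lit 5) (nat_lit 13) (nat_lit 4) (nat_lit 481) (nat_lit 417) (nat_lit 302)) (XT.lf (nat_lit 0) (nat_lit 9724423662) (nat_lit 152) (nat_lit 42946372854) (nat_lit 76) (nat_lit 399950283283) (nat_lit 11) (nat_lit 5) (nat_lit 13) (nat_lit 5) (nat_lit 12) (nat_lit 4) (nat_lit 482) (nat_lit 417) (nat_lit 301))) (XT.nd (nat_lit 78) (nat_lit 0) (nat_lit 0) (XT.lf (nat_lit 0) (nat_lit 106025161293)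 (nat_lit 152) (nat_lit 331649967088) (nat_lit 0) (nat_lit 46137485570) (nat_lit 10) (nat_lit 5) (nat_lit 12) (nat_lit 4) (nat_lit 10) (nat_lit 4) (nat_lit 483) (nat_lit 417) (nat_lit 300)) (XT.lf (nat_lit 0) (nat_lit 211676516126) (nat_lit 152) (nat_lit 153952331544) (nat_lit 0) (nat_lit 151788295301) (nat_lit 10) (nat_lit 5) (nat_lit 12) (nat_lit 4) (nat_lit 10) (nat_lit 4) (nat_lit 484) (nat_lit 417) (nat_lit 299))))))))
noncomputable def xc76 : XT := (XT.nd (nat_lit 58266) (nat_lit 0) (nat_lit 2508) (XT.nd (nat_lit 57252) (nat_lit 0) (nat_lit 7296) (XT.nd (nat_lit 468) (nat_lit 228) (nat_lit 0) (XT.nd (nat_lit 234) (nat_lit 152) (nat_lit 0) (XT.nd (nat_lit 78) (nat_lit 0) (nat_lit 0) (XT.lf (nat_lit 0) (nat_lit 39212583562) (nat_lit 76) (nat_lit 287177827381) (nat_lit 76) (nat_lit 227289101833) (nat_lit 9) (nat_lit 4) (nat_lit 10) (nat_lit 5) (nat_lit 10) (nat_lit 4) (nat_lit 485) (nat_lit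 417) (nat_lit 298)) (XT.nd (nat_lit 78) (nat_lit 0) (nat_lit 0) (XT.lf (nat_lit 0) (nat_lit 253324856667) (nat_lit 76) (nat_lit 199636603150) (nat_lit 76) (nat_lit 139747410264) (nat_lit 9) (nat_lit 4) (nat_lit 10) (nat_lit 5) (nat_lit 10) (nat_lit 4) (nat_lit 486) (nat_lit 417) (nat_lit 297)) (XT.lf (nat_lit 0) (nat_lit 484562941889) (nat_lit 76) (nat_lit 105093669394) (nat_lit 76) (nat_lit 45204043789) (nat_lit 9) (nat_lit 4) (nat_lit 10) (nat_lit 5) (nat_lit 10) (nat_lit 4) (nat_lit 487) (nat_lit 417) (nat_lit 296)))) (XT.nd (nat_lit 78) (nat_lit 0) (nat_lit 0) (XT.lf (nat_lit 0) (nat_lit 54777310875) (nat_lit 76) (nat_lit 1157975537) (nat_lit 152) (nat_lit 624362188925) (nat_lit 7) (nat_lit 5) (nat_lit 8) (nat_lit 5) (nat_lit 9) (nat_lit 4) (nat_lit 488) (nat_lit 417) (nat_lit 295)) (XT.nd (nat_lit 78) (nat_lit 0) (nat_lit 0) (XT.lf (nat_lit 0) (nat_lit 167997236593) (nat_lit 152) (nat_lit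 450155428998) (nat_lit 0) (nat_lit 110958763014) (nat_lit 7) (nat_lit 5) (nat_lit 9) (nat_lit 4) (nat_lit 7) (nat_lit 4) (nat_lit 489) (nat_lit 417) (nat_lit 294)) (XT.lf (nat_lit 0) (nat_lit 289042330498) (nat_lit 152) (nat_lit 260783728508) (nat_lit 0) (nat_lit 232003529770) (nat_lit 7) (nat_lit 5) (nat_lit 9) (nat_lit 4) (nat_lit 7) (nat_lit 4) (nat_lit 490) (nat_lit 417) (nat_lit 293))))) (XT.nd (nat_lit 234) (nat_lit 152) (nat_lit 0) (XT.nd (nat_lit 78) (nat_lit 76) (nat_lit 0) (XT.lf (nat_lit 0) (nat_lit 419769793145) (nat_lit 152) (nat_lit 56264781079) (nat_lit 0) (nat_lit 362730689501) (nat_lit 7) (nat_lit 5) (nat_lit 9) (nat_lit 4) (nat_lit 7) (nat_lit 4) (nat_lit 491) (nat_lit 417) (nat_lit 292)) (XT.nd (nat_lit 78) (nat_lit 0) (nat_lit 0) (XT.lf (nat_lit 0) (nat_lit 170056239093) (nat_lit 76) (nat_lit 393553121175) (nat_lit 76) (nat_lit 336513737053) (nat_lit 6) (nat_lit 4) (nat_lit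 7) (nat_lit 5) (nat_lit 7) (nat_lit 4) (nat_lit 492) (nat_lit 417) (nat_lit 291)) (XT.lf (nat_lit 0) (nat_lit 416489933499) (nat_lit 76) (nat_lit 303445158982) (nat_lit 76) (nat_lit 246405515158) (nat_lit 6) (nat_lit 4) (nat_lit 7) (nat_lit 5) (nat_lit 7) (nat_lit 4) (nat_lit 493) (nat_lit 417) (nat_lit 290)))) (XT.nd (nat_lit 156) (nat_lit 152) (nat_lit 0) (XT.nd (nat_lit 78) (nat_lit 0) (nat_lit 0) (XT.lf (nat_lit 0) (nat_lit 682636282197) (nat_lit 76) (nat_lit 206129585829) (nat_lit 76) (nat_lit 149089701541) (nat_lit 6) (nat_lit 4) (nat_lit 7) (nat_lit 5) (nat_lit 7) (nat_lit 4) (nat_lit 494) (nat_lit 417) (nat_lit 289)) (XT.lf (nat_lit 0) (nat_lit 970072448733) (nat_lit 76) (nat_lit 101029716838) (nat_lit 76) (nat_lit 43989609898) (nat_lit 6) (nat_lit 4) (nat_lit 7) (nat_lit 5) (nat_lit 7) (nat_lit 4) (nat_lit 495) (nat_lit 417) (nat_lit 288))) (XT.nd (nat_lit 78) (nat_lit 0) (nat_lit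 0) (XT.lf (nat_lit 0) (nat_lit 68831561264) (nat_lit 152) (nat_lit 1115036689224) (nat_lit 0) (nat_lit 14507453550) (nat_lit 4) (nat_lit 5) (nat_lit 6) (nat_lit 4) (nat_lit 4) (nat_lit 4) (nat_lit 496) (nat_lit 417) (nat_lit 287)) (XT.lf (nat_lit 0) (nat_lit 193428090270) (nat_lit 152) (nat_lit 955539856535) (nat_lit 0) (nat_lit 139103800757) (nat_lit 4) (nat_lit 5) (nat_lit 6) (nat_lit 4) (nat_lit 4) (nat_lit 4) (nat_lit 497) (nat_lit 417) (nat_lit 286)))))) (XT.nd (nat_lit 468) (nat_lit 1900) (nat_lit 0) (XT.nd (nat_lit 234) (nat_lit 0) (nat_lit 152) (XT.nd (nat_lit 78) (nat_lit 0) (nat_lit 76) (XT.lf (nat_lit 0) (nat_lit 1044965491) (nat_lit 836) (nat_lit 3579703266) (nat_lit 836) (nat_lit 3579703266) (nat_lit 125) (nat_lit 3) (nat_lit 136) (nat_lit 3) (nat_lit 136) (nat_lit 5) (nat_lit 418) (nat_lit 418) (nat_lit 364)) (XT.nd (nat_lit 78) (nat_lit 0) (nat_lit 0) (XT.lf (nat_lit 0) (nat_lit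 2697333745) (nat_lit 760) (nat_lit 11203401712) (nat_lit 836) (nat_lit 3138019738) (nat_lit 126) (nat_lit 5) (nat_lit 136) (nat_lit 5) (nat_lit 137) (nat_lit 5) (nat_lit 419) (nat_lit 418) (nat_lit 363)) (XT.lf (nat_lit 76) (nat_lit 2305290219) (nat_lit 0) (nat_lit 1328558361) (nat_lit 836) (nat_lit 14071307504) (nat_lit 127) (nat_lit 5) (nat_lit 126) (nat_lit 5) (nat_lit 137) (nat_lit 5) (nat_lit 420) (nat_lit 418) (nat_lit 362)))) (XT.nd (nat_lit 78) (nat_lit 0) (nat_lit 76) (XT.lf (nat_lit 0) (nat_lit 4999399606) (nat_lit 760) (nat_lit 1338740021) (nat_lit 836) (nat_lit 12069037409) (nat_lit 127) (nat_lit 5) (nat_lit 137) (nat_lit 5) (nat_lit 138) (nat_lit 5) (nat_lit 421) (nat_lit 418) (nat_lit 361)) (XT.nd (nat_lit 78) (nat_lit 0) (nat_lit 76) (XT.lf (nat_lit 0) (nat_lit 6804593775) (nat_lit 760) (nat_lit 5013898459) (nat_lit 836) (nat_lit 7330360199) (nat_lit 128) (nat_lit 5) (nat_lit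 138) (nat_lit 5) (nat_lit 139) (nat_lit 5) (nat_lit 422) (nat_lit 418) (nat_lit 360)) (XT.lf (nat_lit 0) (nat_lit 9062097108) (nat_lit 760) (nat_lit 8796519442) (nat_lit 836) (nat_lit 2075862414) (nat_lit 129) (nat_lit 5) (nat_lit 139) (nat_lit 5) (nat_lit 140) (nat_lit 5) (nat_lit 423) (nat_lit 418) (nat_lit 359))))) (XT.nd (nat_lit 234) (nat_lit 1140) (nat_lit 0) (XT.nd (nat_lit 78) (nat_lit 1064) (nat_lit 0) (XT.lf (nat_lit 76) (nat_lit 8014783247) (nat_lit 0) (nat_lit 3870027327) (nat_lit 836) (nat_lit 8878925456) (nat_lit 130) (nat_lit 5) (nat_lit 129) (nat_lit 5) (nat_lit 140) (nat_lit 5) (nat_lit 424) (nat_lit 418) (nat_lit 358)) (XT.nd (nat_lit 78) (nat_lit 380) (nat_lit 0) (XT.lf (nat_lit 0) (nat_lit 4784769453) (nat_lit 760) (nat_lit 10527727659) (nat_lit 836) (nat_lit 6327888851) (nat_lit 120) (nat_lit 5) (nat_lit 130) (nat_lit 5) (nat_lit 131) (nat_lit 5) (nat_lit 425) (nat_lit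 418) (nat_lit 357)) (XT.lf (nat_lit 0) (nat_lit 1484511580) (nat_lit 380) (nat_lit 17889338120) (nat_lit 456) (nat_lit 3195354987) (nat_lit 115) (nat_lit 5) (nat_lit 120) (nat_lit 5) (nat_lit 121) (nat_lit 5) (nat_lit 426) (nat_lit 418) (nat_lit 356)))) (XT.nd (nat_lit 156) (nat_lit 684) (nat_lit 0) (XT.nd (nat_lit 78) (nat_lit 380) (nat_lit 0) (XT.lf (nat_lit 0) (nat_lit 633738172) (nat_lit 456) (nat_lit 1873018041) (nat_lit 76) (nat_lit 21042836014) (nat_lit 114) (nat_lit 5) (nat_lit 120) (nat_lit 5) (nat_lit 115) (nat_lit 5) (nat_lit 427) (nat_lit 418) (nat_lit 355)) (XT.lf (nat_lit 0) (nat_lit 5165820788) (nat_lit 456) (nat_lit 5396557154) (nat_lit 76) (nat_lit 14017990738) (nat_lit 109) (nat_lit 5) (nat_lit 115) (nat_lit 5) (nat_lit 110) (nat_lit 5) (nat_lit 428) (nat_lit 418) (nat_lit 354))) (XT.nd (nat_lit 78) (nat_lit 304) (nat_lit 0) (XT.lf (nat_lit 0) (nat_lit 10476710725) (nat_lit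 456) (nat_lit 9005725813) (nat_lit 76) (nat_lit 6190365746) (nat_lit 104) (nat_lit 5) (nat_lit 110) (nat_lit 5) (nat_lit 105) (nat_lit 5) (nat_lit 429) (nat_lit 418) (nat_lit 353)) (XT.lf (nat_lit 0) (nat_lit 14089708703) (nat_lit 304) (nat_lit 2596690961) (nat_lit 380) (nat_lit 10142541069) (nat_lit 100) (nat_lit 5) (nat_lit 104) (nat_lit 5) (nat_lit 105) (nat_lit 5) (nat_lit 430) (nat_lit 418) (nat_lit 352))))))) (XT.nd (nat_lit 1014) (nat_lit 1900) (nat_lit 0) (XT.nd (nat_lit 468) (nat_lit 1444) (nat_lit 0) (XT.nd (nat_lit 234) (nat_lit 532) (nat_lit 0) (XT.nd (nat_lit 78) (nat_lit 608) (nat_lit 0) (XT.lf (nat_lit 0) (nat_lit 11380002936) (nat_lit 304) (nat_lit 12575550815) (nat_lit 380) (nat_lit 4093888065) (nat_lit 96) (nat_lit 5) (nat_lit 100) (nat_lit 5) (nat_lit 101) (nat_lit 5) (nat_lit 431) (nat_lit 418) (nat_lit 351)) (XT.nd (nat_lit 78) (nat_lit 304) (nat_lit 0) (XT.lf (nat_lit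 0) (nat_lit 2840788968) (nat_lit 304) (nat_lit 20740867676) (nat_lit 76) (nat_lit 5760018773) (nat_lit 92) (nat_lit 5) (nat_lit 96) (nat_lit 5) (nat_lit 93) (nat_lit 5) (nat_lit 432) (nat_lit 418) (nat_lit 350)) (XT.lf (nat_lit 0) (nat_lit 5638192983) (nat_lit 304) (nat_lit 5128819687) (nat_lit 380) (nat_lit 19937914220) (nat_lit 88) (nat_lit 5) (nat_lit 92) (nat_lit 5) (nat_lit 93) (nat_lit 5) (nat_lit 433) (nat_lit 418) (nat_lit 349)))) (XT.nd (nat_lit 78) (nat_lit 304) (nat_lit 0) (XT.lf (nat_lit 0) (nat_lit 2531703391) (nat_lit 228) (nat_lit 17417383720) (nat_lit 304) (nat_lit 12197068310) (nat_lit 85) (nat_lit 5) (nat_lit 88) (nat_lit 5) (nat_lit 89) (nat_lit 5) (nat_lit 434) (nat_lit 418) (nat_lit 348)) (XT.nd (nat_lit 78) (nat_lit 304) (nat_lit 0) (XT.lf (nat_lit 0) (nat_lit 30415219932) (nat_lit 304) (nat_lit 596967313) (nat_lit 76) (nat_lit 2663024612) (nat_lit 85) (nat_lit 5) (nat_lit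 89) (nat_lit 5) (nat_lit 86) (nat_lit 5) (nat_lit 435) (nat_lit 418) (nat_lit 347)) (XT.lf (nat_lit 0) (nat_lit 6970420210) (nat_lit 304) (nat_lit 3965742009) (nat_lit 76) (nat_lit 24346296680) (nat_lit 81) (nat_lit 5) (nat_lit 85) (nat_lit 5) (nat_lit 82) (nat_lit 5) (nat_lit 436) (nat_lit 418) (nat_lit 346))))) (XT.nd (nat_lit 234) (nat_lit 760) (nat_lit 0) (XT.nd (nat_lit 78) (nat_lit 456) (nat_lit 0) (XT.lf (nat_lit 0) (nat_lit 18542998949) (nat_lit 304) (nat_lit 7506785478) (nat_lit 76) (nat_lit 10933935224) (nat_lit 78) (nat_lit 5) (nat_lit 82) (nat_lit 5) (nat_lit 79) (nat_lit 5) (nat_lit 437) (nat_lit 418) (nat_lit 345)) (XT.nd (nat_lit 78) (nat_lit 228) (nat_lit 0) (XT.lf (nat_lit 0) (nat_lit 27597876994) (nat_lit 228) (nat_lit 4116030008) (nat_lit 304) (nat_lit 7073551320) (nat_lit 75) (nat_lit 5) (nat_lit 78) (nat_lit 5) (nat_lit 79) (nat_lit 5) (nat_lit 438) (nat_lit 418) (nat_lit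 344)) (XT.lf (nat_lit 0) (nat_lit 5874853906) (nat_lit 228) (nat_lit 15247848859) (nat_lit 76) (nat_lit 19566814962) (nat_lit 72) (nat_lit 5) (nat_lit 75) (nat_lit 5) (nat_lit 73) (nat_lit 5) (nat_lit 439) (nat_lit 418) (nat_lit 343)))) (XT.nd (nat_lit 156) (nat_lit 380) (nat_lit 0) (XT.nd (nat_lit 78) (nat_lit 152) (nat_lit 0) (XT.lf (nat_lit 0) (nat_lit 20278791545) (nat_lit 304) (nat_lit 19551723527) (nat_lit 76) (nat_lit 2874057298) (nat_lit 69) (nat_lit 5) (nat_lit 73) (nat_lit 5) (nat_lit 70) (nat_lit 5) (nat_lit 440) (nat_lit 418) (nat_lit 342)) (XT.lf (nat_lit 0) (nat_lit 20582926258) (nat_lit 152) (nat_lit 16188180901) (nat_lit 228) (nat_lit 8062923504) (nat_lit 67) (nat_lit 5) (nat_lit 69) (nat_lit 5) (nat_lit 70) (nat_lit 5) (nat_lit 441) (nat_lit 418) (nat_lit 341))) (XT.nd (nat_lit 78) (nat_lit 152) (nat_lit 0) (XT.lf (nat_lit 0) (nat_lit 7983837272) (nat_lit 228) (nat_lit 29310544931)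 (nat_lit 76) (nat_lit 9794986186) (nat_lit 64) (nat_lit 5) (nat_lit 67) (nat_lit 5) (nat_lit 65) (nat_lit 5) (nat_lit 442) (nat_lit 418) (nat_lit 340)) (XT.lf (nat_lit 0) (nat_lit 14566365294) (nat_lit 152) (nat_lit 11388446441) (nat_lit 228) (nat_lit 23517566506) (nat_lit 62) (nat_lit 5) (nat_lit 64) (nat_lit 5) (nat_lit 65) (nat_lit 5) (nat_lit 443) (nat_lit 418) (nat_lit 339)))))) (XT.nd (nat_lit 546) (nat_lit 836) (nat_lit 0) (XT.nd (nat_lit 234) (nat_lit 532) (nat_lit 0) (XT.nd (nat_lit 78) (nat_lit 380) (nat_lit 0) (XT.lf (nat_lit 0) (nat_lit 11049051516) (nat_lit 152) (nat_lit 35254737347) (nat_lit 228) (nat_lit 5695225616) (nat_lit 60) (nat_lit 5) (nat_lit 62) (nat_lit 5) (nat_lit 63) (nat_lit 5) (nat_lit 444) (nat_lit 418) (nat_lit 338)) (XT.nd (nat_lit 78) (nat_lit 152) (nat_lit 0) (XT.lf (nat_lit 0) (nat_lit 7024458981) (nat_lit 152) (nat_lit 7004577526) (nat_lit 228) (nat_lit 40642671213)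 (nat_lit 57) (nat_lit 5) (nat_lit 59) (nat_lit 5) (nat_lit 60) (nat_lit 5) (nat_lit 445) (nat_lit 418) (nat_lit 337)) (XT.lf (nat_lit 0) (nat_lit 2361409896) (nat_lit 152) (nat_lit 33892419920) (nat_lit 228) (nat_lit 21243613724) (nat_lit 55) (nat_lit 5) (nat_lit 57) (nat_lit 5) (nat_lit 58) (nat_lit 5) (nat_lit 446) (nat_lit 418) (nat_lit 336)))) (XT.nd (nat_lit 156) (nat_lit 304) (nat_lit 0) (XT.nd (nat_lit 78) (nat_lit 152) (nat_lit 0) (XT.lf (nat_lit 0) (nat_lit 669328071) (nat_lit 228) (nat_lit 2578312654) (nat_lit 76) (nat_lit 57254197579) (nat_lit 54) (nat_lit 5) (nat_lit 57) (nat_lit 5) (nat_lit 55) (nat_lit 5) (nat_lit 447) (nat_lit 418) (nat_lit 335)) (XT.lf (nat_lit 0) (nat_lit 24946502894) (nat_lit 228) (nat_lit 8581159320) (nat_lit 76) (nat_lit 30133737337) (nat_lit 52) (nat_lit 5) (nat_lit 55) (nat_lit 5) (nat_lit 53) (nat_lit 5) (nat_lit 448) (nat_lit 418) (nat_lit 334))) (XT.nd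 (nat_lit 78) (nat_lit 152) (nat_lit 0) (XT.lf (nat_lit 0) (nat_lit 51965618067) (nat_lit 152) (nat_lit 103857122) (nat_lit 228) (nat_lit 14959070467) (nat_lit 50) (nat_lit 5) (nat_lit 52) (nat_lit 5) (nat_lit 53) (nat_lit 5) (nat_lit 449) (nat_lit 418) (nat_lit 333)) (XT.lf (nat_lit 0) (nat_lit 11833588011) (nat_lit 152) (nat_lit 22821401308) (nat_lit 76) (nat_lit 35927787243) (nat_lit 48) (nat_lit 5) (nat_lit 50) (nat_lit 5) (nat_lit 49) (nat_lit 5) (nat_lit 450) (nat_lit 418) (nat_lit 332))))) (XT.nd (nat_lit 234) (nat_lit 380) (nat_lit 0) (XT.nd (nat_lit 78) (nat_lit 304) (nat_lit 0) (XT.lf (nat_lit 0) (nat_lit 41208198274) (nat_lit 228) (nat_lit 31547478967) (nat_lit 76) (nat_lit 1605276488) (nat_lit 46) (nat_lit 5) (nat_lit 49) (nat_lit 5) (nat_lit 47) (nat_lit 4) (nat_lit 451) (nat_lit 418) (nat_lit 331)) (XT.nd (nat_lit 78) (nat_lit 228) (nat_lit 0) (XT.lf (nat_lit 0) (nat_lit 36661933782)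 (nat_lit 76) (nat_lit 37824338334) (nat_lit 152) (nat_lit 3877439070) (nat_lit 45) (nat_lit 5) (nat_lit 46) (nat_lit 5) (nat_lit 47) (nat_lit 4) (nat_lit 452) (nat_lit 418) (nat_lit 330)) (XT.lf (nat_lit 0) (nat_lit 27882755057) (nat_lit 228) (nat_lit 53359185122) (nat_lit 76) (nat_lit 1371559807) (nat_lit 42) (nat_lit 5) (nat_lit 45) (nat_lit 5) (nat_lit 43) (nat_lit 4) (nat_lit 453) (nat_lit 418) (nat_lit 329)))) (XT.nd (nat_lit 156) (nat_lit 76) (nat_lit 0) (XT.nd (nat_lit 78) (nat_lit 228) (nat_lit 0) (XT.lf (nat_lit 0) (nat_lit 20125624962) (nat_lit 76) (nat_lit 43607616274) (nat_lit 152) (nat_lit 23382586971) (nat_lit 41) (nat_lit 5) (nat_lit 42) (nat_lit 5) (nat_lit 43) (nat_lit 4) (nat_lit 454) (nat_lit 418) (nat_lit 328)) (XT.lf (nat_lit 0) (nat_lit 9578382997) (nat_lit 152) (nat_lit 1647477516) (nat_lit 228) (nat_lit 80689924219) (nat_lit 38) (nat_lit 5) (nat_lit 40) (nat_lit 5)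 (nat_lit 41) (nat_lit 5) (nat_lit 455) (nat_lit 418) (nat_lit 327))) (XT.nd (nat_lit 78) (nat_lit 76) (nat_lit 0) (XT.lf (nat_lit 0) (nat_lit 49656192630) (nat_lit 228) (nat_lit 3483862292) (nat_lit 76) (nat_lit 43846896334) (nat_lit 38) (nat_lit 5) (nat_lit 41) (nat_lit 5) (nat_lit 39) (nat_lit 4) (nat_lit 456) (nat_lit 418) (nat_lit 326)) (XT.lf (nat_lit 0) (nat_lit 84338502964) (nat_lit 76) (nat_lit 8161071411) (nat_lit 152) (nat_lit 9897306102) (nat_lit 37) (nat_lit 5) (nat_lit 38) (nat_lit 5) (nat_lit 39) (nat_lit 4) (nat_lit 457) (nat_lit 418) (nat_lit 325))))))))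
noncomputable def xc77 : XT := (XT.nd (nat_lit 2106) (nat_lit 304) (nat_lit 0) (XT.nd (nat_lit 1014) (nat_lit 912) (nat_lit 0) (XT.nd (nat_lit 468) (nat_lit 532) (nat_lit 0) (XT.nd (nat_lit 234) (nat_lit 228) (nat_lit 0) (XT.nd (nat_lit 78) (nat_lit 228) (nat_lit 0) (XT.lf (nat_lit 0) (nat_lit 31406497523) (nat_lit 152) (nat_lit 35894494706) (nat_lit 76) (nat_lit 40822136095) (nat_lit 35) (nat_lit 5) (nat_lit 37) (nat_lit 5) (nat_lit 36) (nat_lit 4) (nat_lit 458) (nat_lit 418) (nat_lit 324)) (XT.nd (nat_lit 78) (nat_lit 152) (nat_lit 0) (XT.lf (nat_lit 0) (nat_lit 57615644075) (nat_lit 76) (nat_lit 19408171051) (nat_lit 152) (nat_lit 37207750602) (nat_lit 34) (nat_lit 5) (nat_lit 35) (nat_lit 5) (nat_lit 36) (nat_lit 4) (nat_lit 459) (nat_lit 418) (nat_lit 323)) (XT.lf (nat_lit 0) (nat_lit 7072543879) (nat_lit 152) (nat_lit 81013801267) (nat_lit 76) (nat_lit 32648793785) (nat_lit 32) (nat_lit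 5) (nat_lit 34) (nat_lit 5) (nat_lit 33) (nat_lit 4) (nat_lit 460) (nat_lit 418) (nat_lit 322)))) (XT.nd (nat_lit 78) (nat_lit 152) (nat_lit 0) (XT.lf (nat_lit 0) (nat_lit 17662167694) (nat_lit 76) (nat_lit 37547130991) (nat_lit 152) (nat_lit 72438320746) (nat_lit 31) (nat_lit 5) (nat_lit 32) (nat_lit 5) (nat_lit 33) (nat_lit 4) (nat_lit 461) (nat_lit 418) (nat_lit 321)) (XT.nd (nat_lit 78) (nat_lit 152) (nat_lit 0) (XT.lf (nat_lit 0) (nat_lit 108892264493) (nat_lit 152) (nat_lit 8216138255) (nat_lit 0) (nat_lit 17919932418) (nat_lit 31) (nat_lit 5) (nat_lit 33) (nat_lit 4) (nat_lit 31) (nat_lit 4) (nat_lit 462) (nat_lit 418) (nat_lit 320)) (XT.lf (nat_lit 0) (nat_lit 25401708427) (nat_lit 152) (nat_lit 38902404813) (nat_lit 76) (nat_lit 78561993568) (nat_lit 29) (nat_lit 5) (nat_lit 31) (nat_lit 5) (nat_lit 30) (nat_lit 4) (nat_lit 463) (nat_lit 418) (nat_lit 319))))) (XT.nd (nat_lit 234)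 (nat_lit 228) (nat_lit 0) (XT.nd (nat_lit 78) (nat_lit 228) (nat_lit 0) (XT.lf (nat_lit 0) (nat_lit 76070533475) (nat_lit 76) (nat_lit 5417149824) (nat_lit 152) (nat_lit 69754751438) (nat_lit 28) (nat_lit 5) (nat_lit 29) (nat_lit 5) (nat_lit 30) (nat_lit 4) (nat_lit 464) (nat_lit 418) (nat_lit 318)) (XT.nd (nat_lit 78) (nat_lit 152) (nat_lit 0) (XT.lf (nat_lit 0) (nat_lit 41784911641) (nat_lit 76) (nat_lit 102520747018) (nat_lit 76) (nat_lit 15870954362) (nat_lit 27) (nat_lit 4) (nat_lit 28) (nat_lit 5) (nat_lit 28) (nat_lit 4) (nat_lit 465) (nat_lit 418) (nat_lit 317)) (XT.lf (nat_lit 0) (nat_lit 248664088) (nat_lit 76) (nat_lit 42142145455) (nat_lit 152) (nat_lit 127330582740) (nat_lit 25) (nat_lit 5) (nat_lit 26) (nat_lit 5) (nat_lit 27) (nat_lit 4) (nat_lit 466) (nat_lit 418) (nat_lit 316)))) (XT.nd (nat_lit 156) (nat_lit 152) (nat_lit 0) (XT.nd (nat_lit 78) (nat_lit 76) (nat_lit 0) (XT.lf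 (nat_lit 0) (nat_lit 107217033933) (nat_lit 152) (nat_lit 47988268836) (nat_lit 0) (nat_lit 24688464325) (nat_lit 25) (nat_lit 5) (nat_lit 27) (nat_lit 4) (nat_lit 25) (nat_lit 4) (nat_lit 467) (nat_lit 418) (nat_lit 315)) (XT.lf (nat_lit 0) (nat_lit 85224610102) (nat_lit 76) (nat_lit 94042115014) (nat_lit 76) (nat_lit 11511338517) (nat_lit 24) (nat_lit 4) (nat_lit 25) (nat_lit 5) (nat_lit 25) (nat_lit 4) (nat_lit 468) (nat_lit 418) (nat_lit 314))) (XT.nd (nat_lit 78) (nat_lit 0) (nat_lit 0) (XT.lf (nat_lit 0) (nat_lit 28351686816) (nat_lit 76) (nat_lit 25738316466) (nat_lit 152) (nat_lit 148336090505) (nat_lit 22) (nat_lit 5) (nat_lit 23) (nat_lit 5) (nat_lit 24) (nat_lit 4) (nat_lit 469) (nat_lit 418) (nat_lit 313)) (XT.lf (nat_lit 0) (nat_lit 127156642607) (nat_lit 152) (nat_lit 39156708784) (nat_lit 0) (nat_lit 48552155021) (nat_lit 22) (nat_lit 5) (nat_lit 24) (nat_lit 4) (nat_lit 22)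 (nat_lit 4) (nat_lit 470) (nat_lit 418) (nat_lit 312)))))) (XT.nd (nat_lit 546) (nat_lit 380) (nat_lit 0) (XT.nd (nat_lit 234) (nat_lit 304) (nat_lit 0) (XT.nd (nat_lit 78) (nat_lit 152) (nat_lit 0) (XT.lf (nat_lit 0) (nat_lit 109622467195) (nat_lit 76) (nat_lit 98588326023) (nat_lit 76) (nat_lit 19982169961) (nat_lit 21) (nat_lit 4) (nat_lit 22) (nat_lit 5) (nat_lit 22) (nat_lit 4) (nat_lit 471) (nat_lit 418) (nat_lit 311)) (XT.nd (nat_lit 78) (nat_lit 0) (nat_lit 0) (XT.lf (nat_lit 0) (nat_lit 29237967080) (nat_lit 76) (nat_lit 23369675859) (nat_lit 152) (nat_lit 189880146736) (nat_lit 19) (nat_lit 5) (nat_lit 20) (nat_lit 5) (nat_lit 21) (nat_lit 4) (nat_lit 472) (nat_lit 418) (nat_lit 310)) (XT.lf (nat_lit 0) (nat_lit 133313526064) (nat_lit 152) (nat_lit 65998162720) (nat_lit 0) (nat_lit 58447686640) (nat_lit 19) (nat_lit 5) (nat_lit 21) (nat_lit 4) (nat_lit 19) (nat_lit 4) (nat_lit 473)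 (nat_lit 418) (nat_lit 309)))) (XT.nd (nat_lit 156) (nat_lit 152) (nat_lit 0) (XT.nd (nat_lit 78) (nat_lit 76) (nat_lit 0) (XT.lf (nat_lit 0) (nat_lit 95696726775) (nat_lit 76) (nat_lit 126664399931) (nat_lit 76) (nat_lit 51797299088) (nat_lit 18) (nat_lit 4) (nat_lit 19) (nat_lit 5) (nat_lit 19) (nat_lit 4) (nat_lit 474) (nat_lit 418) (nat_lit 308)) (XT.lf (nat_lit 0) (nat_lit 26975421492) (nat_lit 152) (nat_lit 19568654764) (nat_lit 76) (nat_lit 245246226064) (nat_lit 17) (nat_lit 5) (nat_lit 19) (nat_lit 5) (nat_lit 18) (nat_lit 4) (nat_lit 475) (nat_lit 418) (nat_lit 307))) (XT.nd (nat_lit 78) (nat_lit 76) (nat_lit 0) (XT.lf (nat_lit 0) (nat_lit 113373443082) (nat_lit 152) (nat_lit 155190618798) (nat_lit 0) (nat_lit 42069299951) (nat_lit 16) (nat_lit 5) (nat_lit 18) (nat_lit 4) (nat_lit 16) (nat_lit 4) (nat_lit 476) (nat_lit 418) (nat_lit 306)) (XT.lf (nat_lit 0) (nat_lit 13834367927)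 (nat_lit 76) (nat_lit 194193679016) (nat_lit 76) (nat_lit 122888582214) (nat_lit 15) (nat_lit 4) (nat_lit 16) (nat_lit 5) (nat_lit 16) (nat_lit 4) (nat_lit 477) (nat_lit 418) (nat_lit 305))))) (XT.nd (nat_lit 234) (nat_lit 228) (nat_lit 0) (XT.nd (nat_lit 78) (nat_lit 152) (nat_lit 0) (XT.lf (nat_lit 0) (nat_lit 201918346660) (nat_lit 76) (nat_lit 111037573043) (nat_lit 76) (nat_lit 39731593211) (nat_lit 15) (nat_lit 4) (nat_lit 16) (nat_lit 5) (nat_lit 16) (nat_lit 4) (nat_lit 478) (nat_lit 418) (nat_lit 304)) (XT.nd (nat_lit 78) (nat_lit 0) (nat_lit 0) (XT.lf (nat_lit 0) (nat_lit 28990462289) (nat_lit 76) (nat_lit 19935030266) (nat_lit 152) (nat_lit 327212964773) (nat_lit 13) (nat_lit 5) (nat_lit 14) (nat_lit 5) (nat_lit 15) (nat_lit 4) (nat_lit 479) (nat_lit 418) (nat_lit 303)) (XT.lf (nat_lit 0) (nat_lit 147193812550) (nat_lit 152) (nat_lit 174761708608) (nat_lit 0) (nat_lit 79281855877)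 (nat_lit 13) (nat_lit 5) (nat_lit 15) (nat_lit 4) (nat_lit 13) (nat_lit 4) (nat_lit 480) (nat_lit 418) (nat_lit 302)))) (XT.nd (nat_lit 156) (nat_lit 152) (nat_lit 0) (XT.nd (nat_lit 78) (nat_lit 0) (nat_lit 0) (XT.lf (nat_lit 0) (nat_lit 11441453571) (nat_lit 76) (nat_lit 242394872343) (nat_lit 76) (nat_lit 174482248073) (nat_lit 12) (nat_lit 4) (nat_lit 13) (nat_lit 5) (nat_lit 13) (nat_lit 4) (nat_lit 481) (nat_lit 418) (nat_lit 301)) (XT.lf (nat_lit 0) (nat_lit 218777646345) (nat_lit 76) (nat_lit 153274874398) (nat_lit 76) (nat_lit 85361631983) (nat_lit 12) (nat_lit 4) (nat_lit 13) (nat_lit 5) (nat_lit 13) (nat_lit 4) (nat_lit 482) (nat_lit 418) (nat_lit 300))) (XT.nd (nat_lit 78) (nat_lit 76) (nat_lit 0) (XT.lf (nat_lit 0) (nat_lit 10538288448) (nat_lit 152) (nat_lit 46310323453) (nat_lit 76) (nat_lit 431980357840) (nat_lit 11) (nat_lit 5) (nat_lit 13) (nat_lit 5) (nat_lit 12) (nat_lit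 4) (nat_lit 483) (nat_lit 418) (nat_lit 299)) (XT.lf (nat_lit 0) (nat_lit 114542032498) (nat_lit 152) (nat_lit 358112142641) (nat_lit 0) (nat_lit 49861704182) (nat_lit 10) (nat_lit 5) (nat_lit 12) (nat_lit 4) (nat_lit 10) (nat_lit 4) (nat_lit 484) (nat_lit 418) (nat_lit 298))))))) (XT.nd (nat_lit 57408) (nat_lit 0) (nat_lit 6536) (XT.nd (nat_lit 468) (nat_lit 76) (nat_lit 0) (XT.nd (nat_lit 234) (nat_lit 152) (nat_lit 0) (XT.nd (nat_lit 78) (nat_lit 76) (nat_lit 0) (XT.lf (nat_lit 0) (nat_lit 228642913621) (nat_lit 152) (nat_lit 166203868240) (nat_lit 0) (nat_lit 163962117968) (nat_lit 10) (nat_lit 5) (nat_lit 12) (nat_lit 4) (nat_lit 10) (nat_lit 4) (nat_lit 485) (nat_lit 418) (nat_lit 297)) (XT.nd (nat_lit 78) (nat_lit 0) (nat_lit 0) (XT.lf (nat_lit 0) (nat_lit 42411430473) (nat_lit 76) (nat_lit 310121064221) (nat_lit 76) (nat_lit 245439835848) (nat_lit 9) (nat_lit 4) (nat_lit 10) (nat_lit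 5) (nat_lit 10) (nat_lit 4) (nat_lit 486) (nat_lit 418) (nat_lit 296)) (XT.lf (nat_lit 0) (nat_lit 273648104668) (nat_lit 76) (nat_lit 215578837558) (nat_lit 76) (nat_lit 150897208519) (nat_lit 9) (nat_lit 4) (nat_lit 10) (nat_lit 5) (nat_lit 10) (nat_lit 4) (nat_lit 487) (nat_lit 418) (nat_lit 295)))) (XT.nd (nat_lit 78) (nat_lit 152) (nat_lit 0) (XT.lf (nat_lit 0) (nat_lit 523380995266) (nat_lit 76) (nat_lit 113474594572) (nat_lit 76) (nat_lit 48792594546) (nat_lit 9) (nat_lit 4) (nat_lit 10) (nat_lit 5) (nat_lit 10) (nat_lit 4) (nat_lit 488) (nat_lit 418) (nat_lit 294)) (XT.nd (nat_lit 78) (nat_lit 0) (nat_lit 0) (XT.lf (nat_lit 0) (nat_lit 59211060500) (nat_lit 76) (nat_lit 1224746345) (nat_lit 152) (nat_lit 674284181104) (nat_lit 7) (nat_lit 5) (nat_lit 8) (nat_lit 5) (nat_lit 9) (nat_lit 4) (nat_lit 489) (nat_lit 418) (nat_lit 293)) (XT.lf (nat_lit 0) (nat_lit 181461183464) (nat_lit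 152) (nat_lit 486119301920) (nat_lit 0) (nat_lit 119858648613) (nat_lit 7) (nat_lit 5) (nat_lit 9) (nat_lit 4) (nat_lit 7) (nat_lit 4) (nat_lit 490) (nat_lit 418) (nat_lit 292))))) (XT.nd (nat_lit 234) (nat_lit 0) (nat_lit 0) (XT.nd (nat_lit 78) (nat_lit 76) (nat_lit 0) (XT.lf (nat_lit 0) (nat_lit 312188094664) (nat_lit 152) (nat_lit 281601462531) (nat_lit 0) (nat_lit 250585279335) (nat_lit 7) (nat_lit 5) (nat_lit 9) (nat_lit 4) (nat_lit 7) (nat_lit 4) (nat_lit 491) (nat_lit 418) (nat_lit 291)) (XT.nd (nat_lit 78) (nat_lit 76) (nat_lit 0) (XT.lf (nat_lit 0) (nat_lit 453372096713) (nat_lit 152) (nat_lit 60724329994) (nat_lit 0) (nat_lit 391769021682) (nat_lit 7) (nat_lit 5) (nat_lit 9) (nat_lit 4) (nat_lit 7) (nat_lit 4) (nat_lit 492) (nat_lit 418) (nat_lit 290)) (XT.lf (nat_lit 0) (nat_lit 183700562447) (nat_lit 76) (nat_lit 425017353702) (nat_lit 76) (nat_lit 363414038207) (nat_lit 6) (nat_lit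 4) (nat_lit 7) (nat_lit 5) (nat_lit 7) (nat_lit 4) (nat_lit 493) (nat_lit 418) (nat_lit 289)))) (XT.nd (nat_lit 156) (nat_lit 0) (nat_lit 0) (XT.nd (nat_lit 78) (nat_lit 0) (nat_lit 0) (XT.lf (nat_lit 0) (nat_lit 449846002464) (nat_lit 76) (nat_lit 327702237287) (nat_lit 76) (nat_lit 266098699139) (nat_lit 6) (nat_lit 4) (nat_lit 7) (nat_lit 5) (nat_lit 7) (nat_lit 4) (nat_lit 494) (nat_lit 418) (nat_lit 288)) (XT.lf (nat_lit 0) (nat_lit 737281327628) (nat_lit 76) (nat_lit 222602791201) (nat_lit 76) (nat_lit 160999046894) (nat_lit 6) (nat_lit 4) (nat_lit 7) (nat_lit 5) (nat_lit 7) (nat_lit 4) (nat_lit 495) (nat_lit 418) (nat_lit 287))) (XT.nd (nat_lit 56472) (nat_lit 0) (nat_lit 9044) (XT.lf (nat_lit 0) (nat_lit 1047709858387) (nat_lit 76) (nat_lit 109096203913) (nat_lit 76) (nat_lit 47492268717) (nat_lit 6) (nat_lit 4) (nat_lit 7) (nat_lit 5) (nat_lit 7) (nat_lit 4) (nat_lit 496) (nat_lit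 418) (nat_lit 286)) (XT.lf (nat_lit 0) (nat_lit 1500649861) (nat_lit 836) (nat_lit 3670661399) (nat_lit 836) (nat_lit 3670661399) (nat_lit 125) (nat_lit 3) (nat_lit 136) (nat_lit 3) (nat_lit 136) (nat_lit 5) (nat_lit 419) (nat_lit 419) (nat_lit 362)))))) (XT.nd (nat_lit 546) (nat_lit 2128) (nat_lit 0) (XT.nd (nat_lit 234) (nat_lit 456) (nat_lit 0) (XT.nd (nat_lit 78) (nat_lit 0) (nat_lit 0) (XT.lf (nat_lit 0) (nat_lit 3602995274) (nat_lit 760) (nat_lit 11685798140) (nat_lit 836) (nat_lit 3078300364) (nat_lit 126) (nat_lit 5) (nat_lit 136) (nat_lit 5) (nat_lit 137) (nat_lit 5) (nat_lit 420) (nat_lit 419) (nat_lit 361)) (XT.nd (nat_lit 78) (nat_lit 0) (nat_lit 76) (XT.lf (nat_lit 76) (nat_lit 2885602612) (nat_lit 0) (nat_lit 1683907784) (nat_lit 836) (nat_lit 14519562246) (nat_lit 127) (nat_lit 5) (nat_lit 126) (nat_lit 5) (nat_lit 137) (nat_lit 5) (nat_lit 421) (nat_lit 419) (nat_lit 360))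 (XT.lf (nat_lit 0) (nat_lit 5992930584) (nat_lit 760) (nat_lit 1045585794) (nat_lit 836) (nat_lit 12811326025) (nat_lit 127) (nat_lit 5) (nat_lit 137) (nat_lit 5) (nat_lit 138) (nat_lit 5) (nat_lit 422) (nat_lit 419) (nat_lit 359)))) (XT.nd (nat_lit 156) (nat_lit 608) (nat_lit 0) (XT.nd (nat_lit 78) (nat_lit 0) (nat_lit 76) (XT.lf (nat_lit 0) (nat_lit 7901852192) (nat_lit 760) (nat_lit 5001462449) (nat_lit 836) (nat_lit 7749588623) (nat_lit 128) (nat_lit 5) (nat_lit 138) (nat_lit 5) (nat_lit 139) (nat_lit 5) (nat_lit 423) (nat_lit 419) (nat_lit 358)) (XT.lf (nat_lit 0) (nat_lit 10303263814) (nat_lit 760) (nat_lit 9076649600) (nat_lit 836) (nat_lit 2123316864) (nat_lit 129) (nat_lit 5) (nat_lit 139) (nat_lit 5) (nat_lit 140) (nat_lit 5) (nat_lit 424) (nat_lit 419) (nat_lit 357))) (XT.nd (nat_lit 78) (nat_lit 684) (nat_lit 0) (XT.lf (nat_lit 76) (nat_lit 9061148538) (nat_lit 0) (nat_lit 4258734898)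 (nat_lit 836) (nat_lit 9080554618) (nat_lit 130) (nat_lit 5) (nat_lit 129) (nat_lit 5) (nat_lit 140) (nat_lit 5) (nat_lit 425) (nat_lit 419) (nat_lit 356)) (XT.lf (nat_lit 0) (nat_lit 5579642882) (nat_lit 760) (nat_lit 11411559168) (nat_lit 836) (nat_lit 6357560590) (nat_lit 120) (nat_lit 5) (nat_lit 130) (nat_lit 5) (nat_lit 131) (nat_lit 5) (nat_lit 426) (nat_lit 419) (nat_lit 355))))) (XT.nd (nat_lit 234) (nat_lit 1292) (nat_lit 0) (XT.nd (nat_lit 78) (nat_lit 456) (nat_lit 0) (XT.lf (nat_lit 0) (nat_lit 2019937819) (nat_lit 380) (nat_lit 19329820973) (nat_lit 456) (nat_lit 3003525786) (nat_lit 115) (nat_lit 5) (nat_lit 120) (nat_lit 5) (nat_lit 121) (nat_lit 5) (nat_lit 427) (nat_lit 419) (nat_lit 354)) (XT.nd (nat_lit 78) (nat_lit 380) (nat_lit 0) (XT.lf (nat_lit 0) (nat_lit 1085489229) (nat_lit 456) (nat_lit 1623659735) (nat_lit 76) (nat_lit 22704220098) (nat_lit 114) (nat_lit 5) (nat_lit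 120) (nat_lit 5) (nat_lit 115) (nat_lit 5) (nat_lit 428) (nat_lit 419) (nat_lit 353)) (XT.lf (nat_lit 0) (nat_lit 5956463620) (nat_lit 456) (nat_lit 5427508631) (nat_lit 76) (nat_lit 15143829338) (nat_lit 109) (nat_lit 5) (nat_lit 115) (nat_lit 5) (nat_lit 110) (nat_lit 5) (nat_lit 429) (nat_lit 419) (nat_lit 352)))) (XT.nd (nat_lit 156) (nat_lit 608) (nat_lit 0) (XT.nd (nat_lit 78) (nat_lit 304) (nat_lit 0) (XT.lf (nat_lit 0) (nat_lit 11670692486) (nat_lit 456) (nat_lit 9325375538) (nat_lit 76) (nat_lit 6712647932) (nat_lit 104) (nat_lit 5) (nat_lit 110) (nat_lit 5) (nat_lit 105) (nat_lit 5) (nat_lit 430) (nat_lit 419) (nat_lit 351)) (XT.lf (nat_lit 0) (nat_lit 15600275097) (nat_lit 304) (nat_lit 2756508349) (nat_lit 380) (nat_lit 10601589450) (nat_lit 100) (nat_lit 5) (nat_lit 104) (nat_lit 5) (nat_lit 105) (nat_lit 5) (nat_lit 431) (nat_lit 419) (nat_lit 350))) (XT.nd (nat_lit 78) (nat_lit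 304) (nat_lit 0) (XT.lf (nat_lit 0) (nat_lit 12672564977) (nat_lit 304) (nat_lit 13516714452) (nat_lit 380) (nat_lit 4088152271) (nat_lit 96) (nat_lit 5) (nat_lit 100) (nat_lit 5) (nat_lit 101) (nat_lit 5) (nat_lit 432) (nat_lit 419) (nat_lit 349)) (XT.lf (nat_lit 0) (nat_lit 3373719217) (nat_lit 304) (nat_lit 22010084744) (nat_lit 76) (nat_lit 6289832722) (nat_lit 92) (nat_lit 5) (nat_lit 96) (nat_lit 5) (nat_lit 93) (nat_lit 5) (nat_lit 433) (nat_lit 419) (nat_lit 348))))))))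
noncomputable def xc78 : XT := (XT.nd (nat_lit 2028) (nat_lit 1900) (nat_lit 0) (XT.nd (nat_lit 1014) (nat_lit 1672) (nat_lit 0) (XT.nd (nat_lit 468) (nat_lit 1368) (nat_lit 0) (XT.nd (nat_lit 234) (nat_lit 760) (nat_lit 0) (XT.nd (nat_lit 78) (nat_lit 228) (nat_lit 0) (XT.lf (nat_lit 0) (nat_lit 6462349568) (nat_lit 304) (nat_lit 5454874391) (nat_lit 380) (nat_lit 21229571780) (nat_lit 88) (nat_lit 5) (nat_lit 92) (nat_lit 5) (nat_lit 93) (nat_lit 5) (nat_lit 434) (nat_lit 419) (nat_lit 347)) (XT.nd (nat_lit 78) (nat_lit 0) (nat_lit 0) (XT.lf (nat_lit 0) (nat_lit 3103762112) (nat_lit 228) (nat_lit 18715693164) (nat_lit 304) (nat_lit 12884593863) (nat_lit 85) (nat_lit 5) (nat_lit 88) (nat_lit 5) (nat_lit 89) (nat_lit 5) (nat_lit 435) (nat_lit 419) (nat_lit 346)) (XT.lf (nat_lit 0) (nat_lit 33103924268) (nat_lit 304) (nat_lit 291172216) (nat_lit 76) (nat_lit 2961287007) (nat_lit 85) (nat_lit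 5) (nat_lit 89) (nat_lit 5) (nat_lit 86) (nat_lit 5) (nat_lit 436) (nat_lit 419) (nat_lit 345)))) (XT.nd (nat_lit 78) (nat_lit 456) (nat_lit 0) (XT.lf (nat_lit 0) (nat_lit 7773923917) (nat_lit 304) (nat_lit 3936621681) (nat_lit 76) (nat_lit 26382153918) (nat_lit 81) (nat_lit 5) (nat_lit 85) (nat_lit 5) (nat_lit 82) (nat_lit 5) (nat_lit 437) (nat_lit 419) (nat_lit 344)) (XT.nd (nat_lit 78) (nat_lit 228) (nat_lit 0) (XT.lf (nat_lit 0) (nat_lit 20260807089) (nat_lit 304) (nat_lit 7765840190) (nat_lit 76) (nat_lit 11903993579) (nat_lit 78) (nat_lit 5) (nat_lit 82) (nat_lit 5) (nat_lit 79) (nat_lit 5) (nat_lit 438) (nat_lit 419) (nat_lit 343)) (XT.lf (nat_lit 0) (nat_lit 30132354622) (nat_lit 228) (nat_lit 4340772438) (nat_lit 304) (nat_lit 7406168892) (nat_lit 75) (nat_lit 5) (nat_lit 78) (nat_lit 5) (nat_lit 79) (nat_lit 5) (nat_lit 439) (nat_lit 419) (nat_lit 342))))) (XT.nd (nat_lit 234) (nat_lit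 760) (nat_lit 0) (XT.nd (nat_lit 78) (nat_lit 380) (nat_lit 0) (XT.lf (nat_lit 0) (nat_lit 6560555664) (nat_lit 228) (nat_lit 16138932370) (nat_lit 76) (nat_lit 21234358117) (nat_lit 72) (nat_lit 5) (nat_lit 75) (nat_lit 5) (nat_lit 73) (nat_lit 5) (nat_lit 440) (nat_lit 419) (nat_lit 341)) (XT.nd (nat_lit 78) (nat_lit 152) (nat_lit 0) (XT.lf (nat_lit 0) (nat_lit 22107453598) (nat_lit 304) (nat_lit 20792842310) (nat_lit 76) (nat_lit 3210280500) (nat_lit 69) (nat_lit 5) (nat_lit 73) (nat_lit 5) (nat_lit 70) (nat_lit 5) (nat_lit 441) (nat_lit 419) (nat_lit 340)) (XT.lf (nat_lit 0) (nat_lit 22538541441) (nat_lit 152) (nat_lit 17370151248) (nat_lit 228) (nat_lit 8502225008) (nat_lit 67) (nat_lit 5) (nat_lit 69) (nat_lit 5) (nat_lit 70) (nat_lit 5) (nat_lit 442) (nat_lit 419) (nat_lit 339)))) (XT.nd (nat_lit 156) (nat_lit 380) (nat_lit 0) (XT.nd (nat_lit 78) (nat_lit 152) (nat_lit 0) (XT.lf (nat_lit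 0) (nat_lit 8813414360) (nat_lit 228) (nat_lit 31345769429) (nat_lit 76) (nat_lit 10687754790) (nat_lit 64) (nat_lit 5) (nat_lit 67) (nat_lit 5) (nat_lit 65) (nat_lit 5) (nat_lit 443) (nat_lit 419) (nat_lit 338)) (XT.lf (nat_lit 0) (nat_lit 16027837946) (nat_lit 152) (nat_lit 12184714249) (nat_lit 228) (nat_lit 25208515402) (nat_lit 62) (nat_lit 5) (nat_lit 64) (nat_lit 5) (nat_lit 65) (nat_lit 5) (nat_lit 444) (nat_lit 419) (nat_lit 337))) (XT.nd (nat_lit 78) (nat_lit 228) (nat_lit 0) (XT.lf (nat_lit 0) (nat_lit 12223258977) (nat_lit 152) (nat_lit 37958946608) (nat_lit 228) (nat_lit 5967993700) (nat_lit 60) (nat_lit 5) (nat_lit 62) (nat_lit 5) (nat_lit 63) (nat_lit 5) (nat_lit 445) (nat_lit 419) (nat_lit 336)) (XT.lf (nat_lit 0) (nat_lit 7869709626) (nat_lit 152) (nat_lit 7449959503) (nat_lit 228) (nat_lit 43717332675) (nat_lit 57) (nat_lit 5) (nat_lit 59) (nat_lit 5) (nat_lit 60) (nat_lit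 5) (nat_lit 446) (nat_lit 419) (nat_lit 335)))))) (XT.nd (nat_lit 468) (nat_lit 836) (nat_lit 0) (XT.nd (nat_lit 234) (nat_lit 456) (nat_lit 0) (XT.nd (nat_lit 78) (nat_lit 228) (nat_lit 0) (XT.lf (nat_lit 0) (nat_lit 2827663429) (nat_lit 152) (nat_lit 36488307402) (nat_lit 228) (nat_lit 22773151417) (nat_lit 55) (nat_lit 5) (nat_lit 57) (nat_lit 5) (nat_lit 58) (nat_lit 5) (nat_lit 447) (nat_lit 419) (nat_lit 334)) (XT.nd (nat_lit 78) (nat_lit 152) (nat_lit 0) (XT.lf (nat_lit 0) (nat_lit 875200148) (nat_lit 228) (nat_lit 2522722019) (nat_lit 76) (nat_lit 61936424824) (nat_lit 54) (nat_lit 5) (nat_lit 57) (nat_lit 5) (nat_lit 55) (nat_lit 5) (nat_lit 448) (nat_lit 419) (nat_lit 333)) (XT.lf (nat_lit 0) (nat_lit 27088823695) (nat_lit 228) (nat_lit 9011555748) (nat_lit 76) (nat_lit 32646581595) (nat_lit 52) (nat_lit 5) (nat_lit 55) (nat_lit 5) (nat_lit 53) (nat_lit 5) (nat_lit 449) (nat_lit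 419) (nat_lit 332)))) (XT.nd (nat_lit 78) (nat_lit 304) (nat_lit 0) (XT.lf (nat_lit 0) (nat_lit 56367834196) (nat_lit 152) (nat_lit 6764893) (nat_lit 228) (nat_lit 16009232991) (nat_lit 50) (nat_lit 5) (nat_lit 52) (nat_lit 5) (nat_lit 53) (nat_lit 5) (nat_lit 450) (nat_lit 419) (nat_lit 331)) (XT.nd (nat_lit 78) (nat_lit 152) (nat_lit 0) (XT.lf (nat_lit 0) (nat_lit 12916986474) (nat_lit 152) (nat_lit 24403136637) (nat_lit 76) (nat_lit 38902423308) (nat_lit 48) (nat_lit 5) (nat_lit 50) (nat_lit 5) (nat_lit 49) (nat_lit 5) (nat_lit 451) (nat_lit 419) (nat_lit 330)) (XT.lf (nat_lit 0) (nat_lit 44636692796) (nat_lit 228) (nat_lit 33832986960) (nat_lit 76) (nat_lit 1833542878) (nat_lit 46) (nat_lit 5) (nat_lit 49) (nat_lit 5) (nat_lit 47) (nat_lit 4) (nat_lit 452) (nat_lit 419) (nat_lit 329))))) (XT.nd (nat_lit 234) (nat_lit 456) (nat_lit 0) (XT.nd (nat_lit 78) (nat_lit 304) (nat_lit 0) (XT.lf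 (nat_lit 0) (nat_lit 39822823002) (nat_lit 76) (nat_lit 40747982415) (nat_lit 152) (nat_lit 4055706773) (nat_lit 45) (nat_lit 5) (nat_lit 46) (nat_lit 5) (nat_lit 47) (nat_lit 4) (nat_lit 453) (nat_lit 419) (nat_lit 328)) (XT.nd (nat_lit 78) (nat_lit 76) (nat_lit 0) (XT.lf (nat_lit 0) (nat_lit 30236655091) (nat_lit 228) (nat_lit 57401307910) (nat_lit 76) (nat_lit 1578440380) (nat_lit 42) (nat_lit 5) (nat_lit 45) (nat_lit 5) (nat_lit 43) (nat_lit 4) (nat_lit 454) (nat_lit 419) (nat_lit 327)) (XT.lf (nat_lit 0) (nat_lit 21952438698) (nat_lit 76) (nat_lit 46996993930) (nat_lit 152) (nat_lit 25129773541) (nat_lit 41) (nat_lit 5) (nat_lit 42) (nat_lit 5) (nat_lit 43) (nat_lit 4) (nat_lit 455) (nat_lit 419) (nat_lit 326)))) (XT.nd (nat_lit 156) (nat_lit 228) (nat_lit 0) (XT.nd (nat_lit 78) (nat_lit 0) (nat_lit 0) (XT.lf (nat_lit 0) (nat_lit 10555786288) (nat_lit 152) (nat_lit 1682059961) (nat_lit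 228) (nat_lit 87025495110) (nat_lit 38) (nat_lit 5) (nat_lit 40) (nat_lit 5) (nat_lit 41) (nat_lit 5) (nat_lit 456) (nat_lit 419) (nat_lit 325)) (XT.lf (nat_lit 0) (nat_lit 53735572027) (nat_lit 228) (nat_lit 3563199986) (nat_lit 76) (nat_lit 47441781601) (nat_lit 38) (nat_lit 5) (nat_lit 41) (nat_lit 5) (nat_lit 39) (nat_lit 4) (nat_lit 457) (nat_lit 419) (nat_lit 324))) (XT.nd (nat_lit 78) (nat_lit 152) (nat_lit 0) (XT.lf (nat_lit 0) (nat_lit 91276290058) (nat_lit 76) (nat_lit 8725194391) (nat_lit 152) (nat_lit 10582040425) (nat_lit 37) (nat_lit 5) (nat_lit 38) (nat_lit 5) (nat_lit 39) (nat_lit 4) (nat_lit 458) (nat_lit 419) (nat_lit 323)) (XT.lf (nat_lit 0) (nat_lit 34019220819) (nat_lit 152) (nat_lit 38576755809) (nat_lit 76) (nat_lit 44171983994) (nat_lit 35) (nat_lit 5) (nat_lit 37) (nat_lit 5) (nat_lit 36) (nat_lit 4) (nat_lit 459) (nat_lit 419) (nat_lit 322))))))) (XT.nd (nat_lit 1014)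 (nat_lit 836) (nat_lit 0) (XT.nd (nat_lit 468) (nat_lit 532) (nat_lit 0) (XT.nd (nat_lit 234) (nat_lit 228) (nat_lit 0) (XT.nd (nat_lit 78) (nat_lit 228) (nat_lit 0) (XT.lf (nat_lit 0) (nat_lit 62405967393) (nat_lit 76) (nat_lit 20875360994) (nat_lit 152) (nat_lit 40083974981) (nat_lit 34) (nat_lit 5) (nat_lit 35) (nat_lit 5) (nat_lit 36) (nat_lit 4) (nat_lit 460) (nat_lit 419) (nat_lit 321)) (XT.nd (nat_lit 78) (nat_lit 76) (nat_lit 0) (XT.lf (nat_lit 0) (nat_lit 7732387746) (nat_lit 152) (nat_lit 87315283760) (nat_lit 76) (nat_lit 35341570159) (nat_lit 32) (nat_lit 5) (nat_lit 34) (nat_lit 5) (nat_lit 33) (nat_lit 4) (nat_lit 461) (nat_lit 419) (nat_lit 320)) (XT.lf (nat_lit 0) (nat_lit 19246956581) (nat_lit 76) (nat_lit 40468842924) (nat_lit 152) (nat_lit 78139135743) (nat_lit 31) (nat_lit 5) (nat_lit 32) (nat_lit 5) (nat_lit 33) (nat_lit 4) (nat_lit 462) (nat_lit 419) (nat_lit 319))))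 (XT.nd (nat_lit 78) (nat_lit 228) (nat_lit 0) (XT.lf (nat_lit 0) (nat_lit 117687940180) (nat_lit 152) (nat_lit 8711366311) (nat_lit 0) (nat_lit 19427075308) (nat_lit 31) (nat_lit 5) (nat_lit 33) (nat_lit 4) (nat_lit 31) (nat_lit 4) (nat_lit 463) (nat_lit 419) (nat_lit 318)) (XT.nd (nat_lit 78) (nat_lit 76) (nat_lit 0) (XT.lf (nat_lit 0) (nat_lit 27515639968) (nat_lit 152) (nat_lit 41856867936) (nat_lit 76) (nat_lit 84918792896) (nat_lit 29) (nat_lit 5) (nat_lit 31) (nat_lit 5) (nat_lit 30) (nat_lit 4) (nat_lit 464) (nat_lit 419) (nat_lit 317)) (XT.lf (nat_lit 0) (nat_lit 82307050693) (nat_lit 76) (nat_lit 5777738831) (nat_lit 152) (nat_lit 75253130959) (nat_lit 28) (nat_lit 5) (nat_lit 29) (nat_lit 5) (nat_lit 30) (nat_lit 4) (nat_lit 465) (nat_lit 419) (nat_lit 316))))) (XT.nd (nat_lit 234) (nat_lit 304) (nat_lit 0) (XT.nd (nat_lit 78) (nat_lit 152) (nat_lit 0) (XT.lf (nat_lit 0) (nat_lit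 45274674478) (nat_lit 76) (nat_lit 110651090660) (nat_lit 76) (nat_lit 17061190112) (nat_lit 27) (nat_lit 4) (nat_lit 28) (nat_lit 5) (nat_lit 28) (nat_lit 4) (nat_lit 466) (nat_lit 419) (nat_lit 315)) (XT.nd (nat_lit 78) (nat_lit 0) (nat_lit 0) (XT.lf (nat_lit 0) (nat_lit 411575842) (nat_lit 76) (nat_lit 45443933242) (nat_lit 152) (nat_lit 137439919206) (nat_lit 25) (nat_lit 5) (nat_lit 26) (nat_lit 5) (nat_lit 27) (nat_lit 4) (nat_lit 467) (nat_lit 419) (nat_lit 314)) (XT.lf (nat_lit 0) (nat_lit 115863397737) (nat_lit 152) (nat_lit 51692508488) (nat_lit 0) (nat_lit 26725908815) (nat_lit 25) (nat_lit 5) (nat_lit 27) (nat_lit 4) (nat_lit 25) (nat_lit 4) (nat_lit 468) (nat_lit 419) (nat_lit 313)))) (XT.nd (nat_lit 156) (nat_lit 76) (nat_lit 0) (XT.nd (nat_lit 78) (nat_lit 152) (nat_lit 0) (XT.lf (nat_lit 0) (nat_lit 92171541572) (nat_lit 76) (nat_lit 101502424920) (nat_lit 76) (nat_lit 12363043946)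 (nat_lit 24) (nat_lit 4) (nat_lit 25) (nat_lit 5) (nat_lit 25) (nat_lit 4) (nat_lit 469) (nat_lit 419) (nat_lit 312)) (XT.lf (nat_lit 0) (nat_lit 30745301332) (nat_lit 76) (nat_lit 27735886084) (nat_lit 152) (nat_lit 160135791930) (nat_lit 22) (nat_lit 5) (nat_lit 23) (nat_lit 5) (nat_lit 24) (nat_lit 4) (nat_lit 470) (nat_lit 419) (nat_lit 311))) (XT.nd (nat_lit 78) (nat_lit 76) (nat_lit 0) (XT.lf (nat_lit 0) (nat_lit 137389307341) (nat_lit 152) (nat_lit 42170984937) (nat_lit 0) (nat_lit 52491445434) (nat_lit 22) (nat_lit 5) (nat_lit 24) (nat_lit 4) (nat_lit 22) (nat_lit 4) (nat_lit 471) (nat_lit 419) (nat_lit 310)) (XT.lf (nat_lit 0) (nat_lit 118505385661) (nat_lit 76) (nat_lit 106419716158) (nat_lit 76) (nat_lit 21520423801) (nat_lit 21) (nat_lit 4) (nat_lit 22) (nat_lit 5) (nat_lit 22) (nat_lit 4) (nat_lit 472) (nat_lit 419) (nat_lit 309)))))) (XT.nd (nat_lit 546) (nat_lit 380) (nat_lit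 0) (XT.nd (nat_lit 234) (nat_lit 228) (nat_lit 0) (XT.nd (nat_lit 78) (nat_lit 76) (nat_lit 0) (XT.lf (nat_lit 0) (nat_lit 31687058286) (nat_lit 76) (nat_lit 25184978363) (nat_lit 152) (nat_lit 205011985008) (nat_lit 19) (nat_lit 5) (nat_lit 20) (nat_lit 5) (nat_lit 21) (nat_lit 4) (nat_lit 473) (nat_lit 419) (nat_lit 308)) (XT.nd (nat_lit 78) (nat_lit 76) (nat_lit 0) (XT.lf (nat_lit 0) (nat_lit 144031042970) (nat_lit 152) (nat_lit 71174314162) (nat_lit 0) (nat_lit 63172144660) (nat_lit 19) (nat_lit 5) (nat_lit 21) (nat_lit 4) (nat_lit 19) (nat_lit 4) (nat_lit 474) (nat_lit 419) (nat_lit 307)) (XT.lf (nat_lit 0) (nat_lit 103451659748) (nat_lit 76) (nat_lit 136748456564) (nat_lit 76) (nat_lit 55888476790) (nat_lit 18) (nat_lit 4) (nat_lit 19) (nat_lit 5) (nat_lit 19) (nat_lit 4) (nat_lit 475) (nat_lit 419) (nat_lit 306)))) (XT.nd (nat_lit 156) (nat_lit 76) (nat_lit 0) (XT.nd (nat_lit 78) (nat_lit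 76) (nat_lit 0) (XT.lf (nat_lit 0) (nat_lit 29180605671) (nat_lit 152) (nat_lit 21040739501) (nat_lit 76) (nat_lit 264909822239) (nat_lit 17) (nat_lit 5) (nat_lit 19) (nat_lit 5) (nat_lit 18) (nat_lit 4) (nat_lit 476) (nat_lit 419) (nat_lit 305)) (XT.lf (nat_lit 0) (nat_lit 122489062915) (nat_lit 152) (nat_lit 167514957520) (nat_lit 0) (nat_lit 45477721668) (nat_lit 16) (nat_lit 5) (nat_lit 18) (nat_lit 4) (nat_lit 16) (nat_lit 4) (nat_lit 477) (nat_lit 419) (nat_lit 304))) (XT.nd (nat_lit 78) (nat_lit 0) (nat_lit 0) (XT.lf (nat_lit 0) (nat_lit 15028077271) (nat_lit 76) (nat_lit 209685927029) (nat_lit 76) (nat_lit 132673768162) (nat_lit 15) (nat_lit 4) (nat_lit 16) (nat_lit 5) (nat_lit 16) (nat_lit 4) (nat_lit 478) (nat_lit 419) (nat_lit 303)) (XT.lf (nat_lit 0) (nat_lit 218152332828) (nat_lit 76) (nat_lit 119880536008) (nat_lit 76) (nat_lit 42867620086) (nat_lit 15) (nat_lit 4) (nat_lit 16)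 (nat_lit 5) (nat_lit 16) (nat_lit 4) (nat_lit 479) (nat_lit 419) (nat_lit 302))))) (XT.nd (nat_lit 234) (nat_lit 152) (nat_lit 0) (XT.nd (nat_lit 78) (nat_lit 76) (nat_lit 0) (XT.lf (nat_lit 0) (nat_lit 31388020778) (nat_lit 76) (nat_lit 21490826868) (nat_lit 152) (nat_lit 353348719384) (nat_lit 13) (nat_lit 5) (nat_lit 14) (nat_lit 5) (nat_lit 15) (nat_lit 4) (nat_lit 480) (nat_lit 419) (nat_lit 301)) (XT.nd (nat_lit 78) (nat_lit 76) (nat_lit 0) (XT.lf (nat_lit 0) (nat_lit 159006284848) (nat_lit 152) (nat_lit 188668868074) (nat_lit 0) (nat_lit 85659364894) (nat_lit 13) (nat_lit 5) (nat_lit 15) (nat_lit 4) (nat_lit 13) (nat_lit 4) (nat_lit 481) (nat_lit 419) (nat_lit 300)) (XT.lf (nat_lit 0) (nat_lit 12427340811) (nat_lit 76) (nat_lit 261751221962) (nat_lit 76) (nat_lit 188403729651) (nat_lit 12) (nat_lit 4) (nat_lit 13) (nat_lit 5) (nat_lit 13) (nat_lit 4) (nat_lit 482) (nat_lit 419) (nat_lit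 299)))) (XT.nd (nat_lit 156) (nat_lit 76) (nat_lit 0) (XT.nd (nat_lit 78) (nat_lit 76) (nat_lit 0) (XT.lf (nat_lit 0) (nat_lit 236345201529) (nat_lit 76) (nat_lit 165504234564) (nat_lit 76) (nat_lit 92156212293) (nat_lit 12) (nat_lit 4) (nat_lit 13) (nat_lit 5) (nat_lit 13) (nat_lit 4) (nat_lit 483) (nat_lit 419) (nat_lit 298)) (XT.lf (nat_lit 0) (nat_lit 11412139325) (nat_lit 152) (nat_lit 49953627357) (nat_lit 76) (nat_lit 466567980478) (nat_lit 11) (nat_lit 5) (nat_lit 13) (nat_lit 5) (nat_lit 12) (nat_lit 4) (nat_lit 484) (nat_lit 419) (nat_lit 297))) (XT.nd (nat_lit 78) (nat_lit 0) (nat_lit 0) (XT.lf (nat_lit 0) (nat_lit 123735280473) (nat_lit 152) (nat_lit 386701253100) (nat_lit 0) (nat_lit 53879121111) (nat_lit 10) (nat_lit 5) (nat_lit 12) (nat_lit 4) (nat_lit 10) (nat_lit 4) (nat_lit 485) (nat_lit 419) (nat_lit 296)) (XT.lf (nat_lit 0) (nat_lit 246962018355) (nat_lit 152) (nat_lit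 179444750891) (nat_lit 0) (nat_lit 177105458327) (nat_lit 10) (nat_lit 5) (nat_lit 12) (nat_lit 4) (nat_lit 10) (nat_lit 4) (nat_lit 486) (nat_lit 419) (nat_lit 295))))))))
noncomputable def xc79 : XT := (XT.nd (nat_lit 58578) (nat_lit 0) (nat_lit 1900) (XT.nd (nat_lit 57486) (nat_lit 0) (nat_lit 6004) (XT.nd (nat_lit 468) (nat_lit 76) (nat_lit 0) (XT.nd (nat_lit 234) (nat_lit 152) (nat_lit 0) (XT.nd (nat_lit 78) (nat_lit 0) (nat_lit 0) (XT.lf (nat_lit 0) (nat_lit 45857362937) (nat_lit 76) (nat_lit 334904180985) (nat_lit 76) (nat_lit 265047249969) (nat_lit 9) (nat_lit 4) (nat_lit 10) (nat_lit 5) (nat_lit 10) (nat_lit 4) (nat_lit 487) (nat_lit 419) (nat_lit 294)) (XT.nd (nat_lit 78) (nat_lit 0) (nat_lit 0) (XT.lf (nat_lit 0) (nat_lit 295589043806) (nat_lit 76) (nat_lit 232800544217) (nat_lit 76) (nat_lit 162943269695) (nat_lit 9) (nat_lit 4) (nat_lit 10) (nat_lit 5) (nat_lit 10) (nat_lit 4)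 (nat_lit 488) (nat_lit 419) (nat_lit 293)) (XT.lf (nat_lit 0) (nat_lit 565296929299) (nat_lit 76) (nat_lit 122529784040) (nat_lit 76) (nat_lit 52672191456) (nat_lit 9) (nat_lit 4) (nat_lit 10) (nat_lit 5) (nat_lit 10) (nat_lit 4) (nat_lit 489) (nat_lit 419) (nat_lit 292)))) (XT.nd (nat_lit 78) (nat_lit 0) (nat_lit 0) (XT.lf (nat_lit 0) (nat_lit 63992153806) (nat_lit 76) (nat_lit 1300549067) (nat_lit 152) (nat_lit 728203782076) (nat_lit 7) (nat_lit 5) (nat_lit 8) (nat_lit 5) (nat_lit 9) (nat_lit 4) (nat_lit 490) (nat_lit 419) (nat_lit 291)) (XT.nd (nat_lit 78) (nat_lit 0) (nat_lit 0) (XT.lf (nat_lit 0) (nat_lit 195998798258) (nat_lit 152) (nat_lit 524967212502) (nat_lit 0) (nat_lit 129467217523) (nat_lit 7) (nat_lit 5) (nat_lit 9) (nat_lit 4) (nat_lit 7) (nat_lit 4) (nat_lit 491) (nat_lit 419) (nat_lit 290)) (XT.lf (nat_lit 0) (nat_lit 337182327530) (nat_lit 152) (nat_lit 304091029930) (nat_lit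 0) (nat_lit 270650506331) (nat_lit 7) (nat_lit 5) (nat_lit 9) (nat_lit 4) (nat_lit 7) (nat_lit 4) (nat_lit 492) (nat_lit 419) (nat_lit 289))))) (XT.nd (nat_lit 234) (nat_lit 0) (nat_lit 0) (XT.nd (nat_lit 78) (nat_lit 76) (nat_lit 0) (XT.lf (nat_lit 0) (nat_lit 489659628611) (nat_lit 152) (nat_lit 65546582316) (nat_lit 0) (nat_lit 423127584759) (nat_lit 7) (nat_lit 5) (nat_lit 9) (nat_lit 4) (nat_lit 7) (nat_lit 4) (nat_lit 493) (nat_lit 419) (nat_lit 288)) (XT.nd (nat_lit 78) (nat_lit 0) (nat_lit 0) (XT.lf (nat_lit 0) (nat_lit 198430750299) (nat_lit 76) (nat_lit 459001580505) (nat_lit 76) (nat_lit 392469330494) (nat_lit 6) (nat_lit 4) (nat_lit 7) (nat_lit 5) (nat_lit 7) (nat_lit 4) (nat_lit 494) (nat_lit 419) (nat_lit 287)) (XT.lf (nat_lit 0) (nat_lit 485865296417) (nat_lit 76) (nat_lit 353902525998) (nat_lit 76) (nat_lit 287370085098) (nat_lit 6) (nat_lit 4) (nat_lit 7) (nat_lit 5) (nat_lit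 7) (nat_lit 4) (nat_lit 495) (nat_lit 419) (nat_lit 286)))) (XT.nd (nat_lit 56628) (nat_lit 0) (nat_lit 9120) (XT.nd (nat_lit 56550) (nat_lit 0) (nat_lit 9044) (XT.lf (nat_lit 0) (nat_lit 796293105835) (nat_lit 76) (nat_lit 240396301283) (nat_lit 76) (nat_lit 173863683635) (nat_lit 6) (nat_lit 4) (nat_lit 7) (nat_lit 5) (nat_lit 7) (nat_lit 4) (nat_lit 496) (nat_lit 419) (nat_lit 285)) (XT.lf (nat_lit 0) (nat_lit 1939706591) (nat_lit 836) (nat_lit 3796774763) (nat_lit 836) (nat_lit 3796774763) (nat_lit 125) (nat_lit 3) (nat_lit 136) (nat_lit 3) (nat_lit 136) (nat_lit 5) (nat_lit 420) (nat_lit 420) (nat_lit 360))) (XT.nd (nat_lit 78) (nat_lit 0) (nat_lit 0) (XT.lf (nat_lit 0) (nat_lit 4482691369) (nat_lit 760) (nat_lit 12265830279) (nat_lit 836) (nat_lit 3058136963) (nat_lit 126) (nat_lit 5) (nat_lit 136) (nat_lit 5) (nat_lit 137) (nat_lit 5) (nat_lit 421) (nat_lit 420) (nat_lit 359)) (XT.lf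 (nat_lit 76) (nat_lit 3455861979) (nat_lit 0) (nat_lit 2032153290) (nat_lit 836) (nat_lit 15100323162) (nat_lit 127) (nat_lit 5) (nat_lit 126) (nat_lit 5) (nat_lit 137) (nat_lit 5) (nat_lit 422) (nat_lit 420) (nat_lit 358)))))) (XT.nd (nat_lit 546) (nat_lit 2204) (nat_lit 0) (XT.nd (nat_lit 234) (nat_lit 988) (nat_lit 0) (XT.nd (nat_lit 78) (nat_lit 0) (nat_lit 76) (XT.lf (nat_lit 0) (nat_lit 6981263359) (nat_lit 760) (nat_lit 786079855) (nat_lit 836) (nat_lit 13644844609) (nat_lit 127) (nat_lit 5) (nat_lit 137) (nat_lit 5) (nat_lit 138) (nat_lit 5) (nat_lit 423) (nat_lit 420) (nat_lit 357)) (XT.nd (nat_lit 78) (nat_lit 0) (nat_lit 76) (XT.lf (nat_lit 0) (nat_lit 9008015211) (nat_lit 760) (nat_lit 5047028787) (nat_lit 836) (nat_lit 8226208325) (nat_lit 128) (nat_lit 5) (nat_lit 138) (nat_lit 5) (nat_lit 139) (nat_lit 5) (nat_lit 424) (nat_lit 420) (nat_lit 356)) (XT.lf (nat_lit 0) (nat_lit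 11570082308) (nat_lit 760) (nat_lit 9439620219) (nat_lit 836) (nat_lit 2191489361) (nat_lit 129) (nat_lit 5) (nat_lit 139) (nat_lit 5) (nat_lit 140) (nat_lit 5) (nat_lit 425) (nat_lit 420) (nat_lit 355)))) (XT.nd (nat_lit 156) (nat_lit 456) (nat_lit 0) (XT.nd (nat_lit 78) (nat_lit 684) (nat_lit 0) (XT.lf (nat_lit 76) (nat_lit 10133419220) (nat_lit 0) (nat_lit 4667253807) (nat_lit 836) (nat_lit 9370883696) (nat_lit 130) (nat_lit 5) (nat_lit 129) (nat_lit 5) (nat_lit 140) (nat_lit 5) (nat_lit 426) (nat_lit 420) (nat_lit 354)) (XT.lf (nat_lit 0) (nat_lit 6379316672) (nat_lit 760) (nat_lit 12360160595) (nat_lit 836) (nat_lit 6457592590) (nat_lit 120) (nat_lit 5) (nat_lit 130) (nat_lit 5) (nat_lit 131) (nat_lit 5) (nat_lit 427) (nat_lit 420) (nat_lit 353))) (XT.nd (nat_lit 78) (nat_lit 76) (nat_lit 0) (XT.lf (nat_lit 0) (nat_lit 2538756192) (nat_lit 380) (nat_lit 20884210598) (nat_lit 456) (nat_lit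 2860185077) (nat_lit 115) (nat_lit 5) (nat_lit 120) (nat_lit 5) (nat_lit 121) (nat_lit 5) (nat_lit 428) (nat_lit 420) (nat_lit 352)) (XT.lf (nat_lit 0) (nat_lit 1516165818) (nat_lit 456) (nat_lit 1411303071) (nat_lit 76) (nat_lit 24501659559) (nat_lit 114) (nat_lit 5) (nat_lit 120) (nat_lit 5) (nat_lit 115) (nat_lit 5) (nat_lit 429) (nat_lit 420) (nat_lit 351))))) (XT.nd (nat_lit 234) (nat_lit 1140) (nat_lit 0) (XT.nd (nat_lit 78) (nat_lit 684) (nat_lit 0) (XT.lf (nat_lit 0) (nat_lit 6756520807) (nat_lit 456) (nat_lit 5518110990) (nat_lit 76) (nat_lit 16359107411) (nat_lit 109) (nat_lit 5) (nat_lit 115) (nat_lit 5) (nat_lit 110) (nat_lit 5) (nat_lit 430) (nat_lit 420) (nat_lit 350)) (XT.nd (nat_lit 78) (nat_lit 304) (nat_lit 0) (XT.lf (nat_lit 0) (nat_lit 12909427535) (nat_lit 456) (nat_lit 9727777032) (nat_lit 76) (nat_lit 7272853291) (nat_lit 104) (nat_lit 5) (nat_lit 110) (nat_lit 5) (nat_lit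 105) (nat_lit 5) (nat_lit 431) (nat_lit 420) (nat_lit 349)) (XT.lf (nat_lit 0) (nat_lit 17176991976) (nat_lit 304) (nat_lit 2935947151) (nat_lit 380) (nat_lit 11147629068) (nat_lit 100) (nat_lit 5) (nat_lit 104) (nat_lit 5) (nat_lit 105) (nat_lit 5) (nat_lit 432) (nat_lit 420) (nat_lit 348)))) (XT.nd (nat_lit 156) (nat_lit 532) (nat_lit 0) (XT.nd (nat_lit 78) (nat_lit 304) (nat_lit 0) (XT.lf (nat_lit 0) (nat_lit 14014012327) (nat_lit 304) (nat_lit 14542427099) (nat_lit 380) (nat_lit 4129499000) (nat_lit 96) (nat_lit 5) (nat_lit 100) (nat_lit 5) (nat_lit 101) (nat_lit 5) (nat_lit 433) (nat_lit 420) (nat_lit 347)) (XT.lf (nat_lit 0) (nat_lit 3905677052) (nat_lit 304) (nat_lit 23436484505) (nat_lit 76) (nat_lit 6852186389) (nat_lit 92) (nat_lit 5) (nat_lit 96) (nat_lit 5) (nat_lit 93) (nat_lit 5) (nat_lit 434) (nat_lit 420) (nat_lit 346))) (XT.nd (nat_lit 78) (nat_lit 228) (nat_lit 0) (XT.lf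 (nat_lit 0) (nat_lit 7299211631) (nat_lit 304) (nat_lit 5819032799) (nat_lit 380) (nat_lit 22667841862) (nat_lit 88) (nat_lit 5) (nat_lit 92) (nat_lit 5) (nat_lit 93) (nat_lit 5) (nat_lit 435) (nat_lit 420) (nat_lit 345)) (XT.lf (nat_lit 0) (nat_lit 3668869022) (nat_lit 228) (nat_lit 20131431767) (nat_lit 304) (nat_lit 13668242106) (nat_lit 85) (nat_lit 5) (nat_lit 88) (nat_lit 5) (nat_lit 89) (nat_lit 5) (nat_lit 436) (nat_lit 420) (nat_lit 344))))))) (XT.nd (nat_lit 1014) (nat_lit 1748) (nat_lit 0) (XT.nd (nat_lit 468) (nat_lit 1140) (nat_lit 0) (XT.nd (nat_lit 234) (nat_lit 684) (nat_lit 0) (XT.nd (nat_lit 78) (nat_lit 532) (nat_lit 0) (XT.lf (nat_lit 0) (nat_lit 35971276910) (nat_lit 304) (nat_lit 11351725) (nat_lit 76) (nat_lit 3271252747) (nat_lit 85) (nat_lit 5) (nat_lit 89) (nat_lit 5) (nat_lit 86) (nat_lit 5) (nat_lit 437) (nat_lit 420) (nat_lit 343)) (XT.nd (nat_lit 78) (nat_lit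 228) (nat_lit 0) (XT.lf (nat_lit 0) (nat_lit 8606631804) (nat_lit 304) (nat_lit 3954586662) (nat_lit 76) (nat_lit 28568303652) (nat_lit 81) (nat_lit 5) (nat_lit 85) (nat_lit 5) (nat_lit 82) (nat_lit 5) (nat_lit 438) (nat_lit 420) (nat_lit 342)) (XT.lf (nat_lit 0) (nat_lit 22082604634) (nat_lit 304) (nat_lit 8094336378) (nat_lit 76) (nat_lit 12938054780) (nat_lit 78) (nat_lit 5) (nat_lit 82) (nat_lit 5) (nat_lit 79) (nat_lit 5) (nat_lit 439) (nat_lit 420) (nat_lit 341)))) (XT.nd (nat_lit 78) (nat_lit 456) (nat_lit 0) (XT.lf (nat_lit 0) (nat_lit 32822990547) (nat_lit 228) (nat_lit 4598408058) (nat_lit 304) (nat_lit 7798673949) (nat_lit 75) (nat_lit 5) (nat_lit 78) (nat_lit 5) (nat_lit 79) (nat_lit 5) (nat_lit 440) (nat_lit 420) (nat_lit 340)) (XT.nd (nat_lit 78) (nat_lit 228) (nat_lit 0) (XT.lf (nat_lit 0) (nat_lit 7270339628) (nat_lit 228) (nat_lit 17148201626) (nat_lit 76) (nat_lit 23020725044)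 (nat_lit 72) (nat_lit 5) (nat_lit 75) (nat_lit 5) (nat_lit 73) (nat_lit 5) (nat_lit 441) (nat_lit 420) (nat_lit 339)) (XT.lf (nat_lit 0) (nat_lit 24052969236) (nat_lit 304) (nat_lit 22179332881) (nat_lit 76) (nat_lit 3558236871) (nat_lit 69) (nat_lit 5) (nat_lit 73) (nat_lit 5) (nat_lit 70) (nat_lit 5) (nat_lit 442) (nat_lit 420) (nat_lit 338))))) (XT.nd (nat_lit 234) (nat_lit 608) (nat_lit 0) (XT.nd (nat_lit 78) (nat_lit 380) (nat_lit 0) (XT.lf (nat_lit 0) (nat_lit 24606526234) (nat_lit 152) (nat_lit 18662811938) (nat_lit 228) (nat_lit 9006020656) (nat_lit 67) (nat_lit 5) (nat_lit 69) (nat_lit 5) (nat_lit 70) (nat_lit 5) (nat_lit 443) (nat_lit 420) (nat_lit 337)) (XT.nd (nat_lit 78) (nat_lit 152) (nat_lit 0) (XT.lf (nat_lit 0) (nat_lit 9682127862) (nat_lit 228) (nat_lit 33587982511) (nat_lit 76) (nat_lit 11636370602) (nat_lit 64) (nat_lit 5) (nat_lit 67) (nat_lit 5) (nat_lit 65) (nat_lit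 5) (nat_lit 444) (nat_lit 420) (nat_lit 336)) (XT.lf (nat_lit 0) (nat_lit 17563977386) (nat_lit 152) (nat_lit 13061062114) (nat_lit 228) (nat_lit 27061910949) (nat_lit 62) (nat_lit 5) (nat_lit 64) (nat_lit 5) (nat_lit 65) (nat_lit 5) (nat_lit 445) (nat_lit 420) (nat_lit 335)))) (XT.nd (nat_lit 156) (nat_lit 228) (nat_lit 0) (XT.nd (nat_lit 78) (nat_lit 228) (nat_lit 0) (XT.lf (nat_lit 0) (nat_lit 13449990872) (nat_lit 152) (nat_lit 40896065520) (nat_lit 228) (nat_lit 6288668822) (nat_lit 60) (nat_lit 5) (nat_lit 62) (nat_lit 5) (nat_lit 63) (nat_lit 5) (nat_lit 446) (nat_lit 420) (nat_lit 334)) (XT.lf (nat_lit 0) (nat_lit 8742165278) (nat_lit 152) (nat_lit 7947375824) (nat_lit 228) (nat_lit 47063182737) (nat_lit 57) (nat_lit 5) (nat_lit 59) (nat_lit 5) (nat_lit 60) (nat_lit 5) (nat_lit 447) (nat_lit 420) (nat_lit 333))) (XT.nd (nat_lit 78) (nat_lit 76) (nat_lit 0) (XT.lf (nat_lit 0) (nat_lit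 3291651487) (nat_lit 152) (nat_lit 39308344120) (nat_lit 228) (nat_lit 24449297594) (nat_lit 55) (nat_lit 5) (nat_lit 57) (nat_lit 5) (nat_lit 58) (nat_lit 5) (nat_lit 448) (nat_lit 420) (nat_lit 332)) (XT.lf (nat_lit 0) (nat_lit 1075811009) (nat_lit 228) (nat_lit 2500040769) (nat_lit 76) (nat_lit 66978694296) (nat_lit 54) (nat_lit 5) (nat_lit 57) (nat_lit 5) (nat_lit 55) (nat_lit 5) (nat_lit 449) (nat_lit 420) (nat_lit 331)))))) (XT.nd (nat_lit 546) (nat_lit 760) (nat_lit 0) (XT.nd (nat_lit 234) (nat_lit 532) (nat_lit 0) (XT.nd (nat_lit 78) (nat_lit 304) (nat_lit 0) (XT.lf (nat_lit 0) (nat_lit 29381615950) (nat_lit 228) (nat_lit 9512918894) (nat_lit 76) (nat_lit 35345881228) (nat_lit 52) (nat_lit 5) (nat_lit 55) (nat_lit 5) (nat_lit 53) (nat_lit 5) (nat_lit 450) (nat_lit 420) (nat_lit 330)) (XT.nd (nat_lit 78) (nat_lit 152) (nat_lit 0) (XT.lf (nat_lit 0) (nat_lit 61005519037) (nat_lit 228)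 (nat_lit 17082556043) (nat_lit 76) (nat_lit 80399733) (nat_lit 50) (nat_lit 5) (nat_lit 53) (nat_lit 5) (nat_lit 51) (nat_lit 4) (nat_lit 451) (nat_lit 420) (nat_lit 329)) (XT.lf (nat_lit 0) (nat_lit 14067553401) (nat_lit 152) (nat_lit 26146216808) (nat_lit 76) (nat_lit 42100705209) (nat_lit 48) (nat_lit 5) (nat_lit 50) (nat_lit 5) (nat_lit 49) (nat_lit 5) (nat_lit 452) (nat_lit 420) (nat_lit 328)))) (XT.nd (nat_lit 156) (nat_lit 304) (nat_lit 0) (XT.nd (nat_lit 78) (nat_lit 76) (nat_lit 0) (XT.lf (nat_lit 0) (nat_lit 48320658622) (nat_lit 228) (nat_lit 36335330372) (nat_lit 76) (nat_lit 2065826676) (nat_lit 46) (nat_lit 5) (nat_lit 49) (nat_lit 5) (nat_lit 47) (nat_lit 4) (nat_lit 453) (nat_lit 420) (nat_lit 327)) (XT.lf (nat_lit 0) (nat_lit 43204065952) (nat_lit 76) (nat_lit 43920112687) (nat_lit 152) (nat_lit 4267056815) (nat_lit 45) (nat_lit 5) (nat_lit 46) (nat_lit 5) (nat_lit 47) (nat_lit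 4) (nat_lit 454) (nat_lit 420) (nat_lit 326))) (XT.nd (nat_lit 78) (nat_lit 76) (nat_lit 0) (XT.lf (nat_lit 0) (nat_lit 32761279911) (nat_lit 228) (nat_lit 61799129259) (nat_lit 76) (nat_lit 1788011039) (nat_lit 42) (nat_lit 5) (nat_lit 45) (nat_lit 5) (nat_lit 43) (nat_lit 4) (nat_lit 455) (nat_lit 420) (nat_lit 325)) (XT.lf (nat_lit 0) (nat_lit 23894473763) (nat_lit 76) (nat_lit 50671678303) (nat_lit 152) (nat_lit 27034342335) (nat_lit 41) (nat_lit 5) (nat_lit 42) (nat_lit 5) (nat_lit 43) (nat_lit 4) (nat_lit 456) (nat_lit 420) (nat_lit 324))))) (XT.nd (nat_lit 234) (nat_lit 456) (nat_lit 0) (XT.nd (nat_lit 78) (nat_lit 76) (nat_lit 0) (XT.lf (nat_lit 0) (nat_lit 11581261409) (nat_lit 152) (nat_lit 1733277916) (nat_lit 228) (nat_lit 93884977237) (nat_lit 38) (nat_lit 5) (nat_lit 40) (nat_lit 5) (nat_lit 41) (nat_lit 5) (nat_lit 457) (nat_lit 420) (nat_lit 323)) (XT.nd (nat_lit 78) (nat_lit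 76) (nat_lit 0) (XT.lf (nat_lit 0) (nat_lit 58126053580) (nat_lit 228) (nat_lit 3677327239) (nat_lit 76) (nat_lit 51311827112) (nat_lit 38) (nat_lit 5) (nat_lit 41) (nat_lit 5) (nat_lit 39) (nat_lit 4) (nat_lit 458) (nat_lit 420) (nat_lit 322)) (XT.lf (nat_lit 0) (nat_lit 98741893653) (nat_lit 76) (nat_lit 9347110205) (nat_lit 152) (nat_lit 11336825397) (nat_lit 37) (nat_lit 5) (nat_lit 38) (nat_lit 5) (nat_lit 39) (nat_lit 4) (nat_lit 459) (nat_lit 420) (nat_lit 321)))) (XT.nd (nat_lit 156) (nat_lit 228) (nat_lit 0) (XT.nd (nat_lit 78) (nat_lit 76) (nat_lit 0) (XT.lf (nat_lit 0) (nat_lit 36826666831) (nat_lit 152) (nat_lit 41500603345) (nat_lit 76) (nat_lit 47777825199) (nat_lit 35) (nat_lit 5) (nat_lit 37) (nat_lit 5) (nat_lit 36) (nat_lit 4) (nat_lit 460) (nat_lit 420) (nat_lit 320)) (XT.lf (nat_lit 0) (nat_lit 67553684661) (nat_lit 76) (nat_lit 22472118491) (nat_lit 152) (nat_lit 43204619875)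 (nat_lit 34) (nat_lit 5) (nat_lit 35) (nat_lit 5) (nat_lit 36) (nat_lit 4) (nat_lit 461) (nat_lit 420) (nat_lit 319))) (XT.nd (nat_lit 78) (nat_lit 76) (nat_lit 0) (XT.lf (nat_lit 0) (nat_lit 8431603214) (nat_lit 152) (nat_lit 94146509884) (nat_lit 76) (nat_lit 38238231224) (nat_lit 32) (nat_lit 5) (nat_lit 34) (nat_lit 5) (nat_lit 33) (nat_lit 4) (nat_lit 462) (nat_lit 420) (nat_lit 318)) (XT.lf (nat_lit 0) (nat_lit 20934017181) (nat_lit 76) (nat_lit 43635998381) (nat_lit 152) (nat_lit 84309461850) (nat_lit 31) (nat_lit 5) (nat_lit 32) (nat_lit 5) (nat_lit 33) (nat_lit 4) (nat_lit 463) (nat_lit 420) (nat_lit 317))))))))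
noncomputable def xc80 : XT := (XT.nd (nat_lit 2028) (nat_lit 228) (nat_lit 0) (XT.nd (nat_lit 1014) (nat_lit 684) (nat_lit 0) (XT.nd (nat_lit 468) (nat_lit 532) (nat_lit 0) (XT.nd (nat_lit 234) (nat_lit 228) (nat_lit 0) (XT.nd (nat_lit 78) (nat_lit 228) (nat_lit 0) (XT.lf (nat_lit 0) (nat_lit 127175244365) (nat_lit 152) (nat_lit 9269332710) (nat_lit 0) (nat_lit 21044297143) (nat_lit 31) (nat_lit 5) (nat_lit 33) (nat_lit 4) (nat_lit 31) (nat_lit 4) (nat_lit 464) (nat_lit 420) (nat_lit 316)) (XT.nd (nat_lit 78) (nat_lit 76) (nat_lit 0) (XT.lf (nat_lit 0) (nat_lit 29787017079) (nat_lit 152) (nat_lit 45070189951) (nat_lit 76) (nat_lit 91773887414) (nat_lit 29) (nat_lit 5) (nat_lit 31) (nat_lit 5) (nat_lit 30) (nat_lit 4) (nat_lit 465) (nat_lit 420) (nat_lit 315)) (XT.lf (nat_lit 0) (nat_lit 89020965350) (nat_lit 76) (nat_lit 6177558264) (nat_lit 152) (nat_lit 81203079144) (nat_lit 28) (nat_lit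 5) (nat_lit 29) (nat_lit 5) (nat_lit 30) (nat_lit 4) (nat_lit 466) (nat_lit 420) (nat_lit 314)))) (XT.nd (nat_lit 78) (nat_lit 152) (nat_lit 0) (XT.lf (nat_lit 0) (nat_lit 49022651441) (nat_lit 76) (nat_lit 119442035835) (nat_lit 76) (nat_lit 18357977811) (nat_lit 27) (nat_lit 4) (nat_lit 28) (nat_lit 5) (nat_lit 28) (nat_lit 4) (nat_lit 467) (nat_lit 420) (nat_lit 313)) (XT.nd (nat_lit 78) (nat_lit 0) (nat_lit 0) (XT.lf (nat_lit 0) (nat_lit 567117330) (nat_lit 76) (nat_lit 49019790966) (nat_lit 152) (nat_lit 148369003215) (nat_lit 25) (nat_lit 5) (nat_lit 26) (nat_lit 5) (nat_lit 27) (nat_lit 4) (nat_lit 468) (nat_lit 420) (nat_lit 312)) (XT.lf (nat_lit 0) (nat_lit 125191626868) (nat_lit 152) (nat_lit 55712321157) (nat_lit 0) (nat_lit 28917451465) (nat_lit 25) (nat_lit 5) (nat_lit 27) (nat_lit 4) (nat_lit 25) (nat_lit 4) (nat_lit 469) (nat_lit 420) (nat_lit 311))))) (XT.nd (nat_lit 234) (nat_lit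 304) (nat_lit 0) (XT.nd (nat_lit 78) (nat_lit 152) (nat_lit 0) (XT.lf (nat_lit 0) (nat_lit 99655829593) (nat_lit 76) (nat_lit 109568555731) (nat_lit 76) (nat_lit 13292758199) (nat_lit 24) (nat_lit 4) (nat_lit 25) (nat_lit 5) (nat_lit 25) (nat_lit 4) (nat_lit 470) (nat_lit 420) (nat_lit 310)) (XT.nd (nat_lit 78) (nat_lit 0) (nat_lit 0) (XT.lf (nat_lit 0) (nat_lit 33312503946) (nat_lit 76) (nat_lit 29902034322) (nat_lit 152) (nat_lit 172889054278) (nat_lit 22) (nat_lit 5) (nat_lit 23) (nat_lit 5) (nat_lit 24) (nat_lit 4) (nat_lit 471) (nat_lit 420) (nat_lit 309)) (XT.lf (nat_lit 0) (nat_lit 148432006563) (nat_lit 152) (nat_lit 45443274372) (nat_lit 0) (nat_lit 56738015879) (nat_lit 22) (nat_lit 5) (nat_lit 24) (nat_lit 4) (nat_lit 22) (nat_lit 4) (nat_lit 472) (nat_lit 420) (nat_lit 308)))) (XT.nd (nat_lit 156) (nat_lit 76) (nat_lit 0) (XT.nd (nat_lit 78) (nat_lit 152) (nat_lit 0) (XT.lf (nat_lit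 0) (nat_lit 128082799615) (nat_lit 76) (nat_lit 114885560299) (nat_lit 76) (nat_lit 23190343236) (nat_lit 21) (nat_lit 4) (nat_lit 22) (nat_lit 5) (nat_lit 22) (nat_lit 4) (nat_lit 473) (nat_lit 420) (nat_lit 307)) (XT.lf (nat_lit 0) (nat_lit 34316376378) (nat_lit 76) (nat_lit 27153247513) (nat_lit 152) (nat_lit 221362726501) (nat_lit 19) (nat_lit 5) (nat_lit 20) (nat_lit 5) (nat_lit 21) (nat_lit 4) (nat_lit 474) (nat_lit 420) (nat_lit 306))) (XT.nd (nat_lit 78) (nat_lit 76) (nat_lit 0) (XT.lf (nat_lit 0) (nat_lit 155598480815) (nat_lit 152) (nat_lit 76779351909) (nat_lit 0) (nat_lit 68267619841) (nat_lit 19) (nat_lit 5) (nat_lit 21) (nat_lit 4) (nat_lit 19) (nat_lit 4) (nat_lit 475) (nat_lit 420) (nat_lit 305)) (XT.lf (nat_lit 0) (nat_lit 111812836108) (nat_lit 76) (nat_lit 147646241730) (nat_lit 76) (nat_lit 60314453575) (nat_lit 18) (nat_lit 4) (nat_lit 19) (nat_lit 5) (nat_lit 19) (nat_lit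 4) (nat_lit 476) (nat_lit 420) (nat_lit 304)))))) (XT.nd (nat_lit 468) (nat_lit 304) (nat_lit 0) (XT.nd (nat_lit 234) (nat_lit 152) (nat_lit 0) (XT.nd (nat_lit 78) (nat_lit 152) (nat_lit 0) (XT.lf (nat_lit 0) (nat_lit 31555478045) (nat_lit 152) (nat_lit 22643916662) (nat_lit 76) (nat_lit 286140243554) (nat_lit 17) (nat_lit 5) (nat_lit 19) (nat_lit 5) (nat_lit 18) (nat_lit 4) (nat_lit 477) (nat_lit 420) (nat_lit 303)) (XT.nd (nat_lit 78) (nat_lit 76) (nat_lit 0) (XT.lf (nat_lit 0) (nat_lit 132327406387) (nat_lit 152) (nat_lit 180838212779) (nat_lit 0) (nat_lit 49152700136) (nat_lit 16) (nat_lit 5) (nat_lit 18) (nat_lit 4) (nat_lit 16) (nat_lit 4) (nat_lit 478) (nat_lit 420) (nat_lit 302)) (XT.lf (nat_lit 0) (nat_lit 16304877560) (nat_lit 76) (nat_lit 226423724452) (nat_lit 76) (nat_lit 143248317224) (nat_lit 15) (nat_lit 4) (nat_lit 16) (nat_lit 5) (nat_lit 16) (nat_lit 4) (nat_lit 479) (nat_lit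 420) (nat_lit 301)))) (XT.nd (nat_lit 78) (nat_lit 152) (nat_lit 0) (XT.lf (nat_lit 0) (nat_lit 235673551034) (nat_lit 76) (nat_lit 129436648574) (nat_lit 76) (nat_lit 46260592294) (nat_lit 15) (nat_lit 4) (nat_lit 16) (nat_lit 5) (nat_lit 16) (nat_lit 4) (nat_lit 480) (nat_lit 420) (nat_lit 300)) (XT.nd (nat_lit 78) (nat_lit 0) (nat_lit 0) (XT.lf (nat_lit 0) (nat_lit 33966210508) (nat_lit 76) (nat_lit 23176651815) (nat_lit 152) (nat_lit 381581223784) (nat_lit 13) (nat_lit 5) (nat_lit 14) (nat_lit 5) (nat_lit 15) (nat_lit 4) (nat_lit 481) (nat_lit 420) (nat_lit 299)) (XT.lf (nat_lit 0) (nat_lit 171758481131) (nat_lit 152) (nat_lit 203699125443) (nat_lit 0) (nat_lit 92542087118) (nat_lit 13) (nat_lit 5) (nat_lit 15) (nat_lit 4) (nat_lit 13) (nat_lit 4) (nat_lit 482) (nat_lit 420) (nat_lit 298))))) (XT.nd (nat_lit 234) (nat_lit 152) (nat_lit 0) (XT.nd (nat_lit 78) (nat_lit 76) (nat_lit 0) (XT.lf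 (nat_lit 0) (nat_lit 13482031295) (nat_lit 76) (nat_lit 282661106954) (nat_lit 76) (nat_lit 203444222237) (nat_lit 12) (nat_lit 4) (nat_lit 13) (nat_lit 5) (nat_lit 13) (nat_lit 4) (nat_lit 483) (nat_lit 420) (nat_lit 297)) (XT.nd (nat_lit 78) (nat_lit 76) (nat_lit 0) (XT.lf (nat_lit 0) (nat_lit 255308839151) (nat_lit 76) (nat_lit 178716598547) (nat_lit 76) (nat_lit 99499259475) (nat_lit 12) (nat_lit 4) (nat_lit 13) (nat_lit 5) (nat_lit 13) (nat_lit 4) (nat_lit 484) (nat_lit 420) (nat_lit 296)) (XT.lf (nat_lit 0) (nat_lit 12351506049) (nat_lit 152) (nat_lit 53897172369) (nat_lit 76) (nat_lit 503918448075) (nat_lit 11) (nat_lit 5) (nat_lit 13) (nat_lit 5) (nat_lit 12) (nat_lit 4) (nat_lit 485) (nat_lit 420) (nat_lit 295)))) (XT.nd (nat_lit 156) (nat_lit 76) (nat_lit 0) (XT.nd (nat_lit 78) (nat_lit 0) (nat_lit 0) (XT.lf (nat_lit 0) (nat_lit 133659724804) (nat_lit 152) (nat_lit 417586032230)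 (nat_lit 0) (nat_lit 58213868320) (nat_lit 10) (nat_lit 5) (nat_lit 12) (nat_lit 4) (nat_lit 10) (nat_lit 4) (nat_lit 486) (nat_lit 420) (nat_lit 294)) (XT.lf (nat_lit 0) (nat_lit 266742703798) (nat_lit 152) (nat_lit 193752811409) (nat_lit 0) (nat_lit 191296503807) (nat_lit 10) (nat_lit 5) (nat_lit 12) (nat_lit 4) (nat_lit 10) (nat_lit 4) (nat_lit 487) (nat_lit 420) (nat_lit 293))) (XT.nd (nat_lit 78) (nat_lit 0) (nat_lit 0) (XT.lf (nat_lit 0) (nat_lit 49571406383) (nat_lit 76) (nat_lit 361673737365) (nat_lit 76) (nat_lit 286227219313) (nat_lit 9) (nat_lit 4) (nat_lit 10) (nat_lit 5) (nat_lit 10) (nat_lit 4) (nat_lit 488) (nat_lit 420) (nat_lit 292)) (XT.lf (nat_lit 0) (nat_lit 319278254729) (nat_lit 76) (nat_lit 251403496923) (nat_lit 76) (nat_lit 175956684369) (nat_lit 9) (nat_lit 4) (nat_lit 10) (nat_lit 5) (nat_lit 10) (nat_lit 4) (nat_lit 489) (nat_lit 420) (nat_lit 291))))))) (XT.nd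 (nat_lit 57564) (nat_lit 0) (nat_lit 5472) (XT.nd (nat_lit 468) (nat_lit 0) (nat_lit 0) (XT.nd (nat_lit 234) (nat_lit 76) (nat_lit 0) (XT.nd (nat_lit 78) (nat_lit 152) (nat_lit 0) (XT.lf (nat_lit 0) (nat_lit 610559653475) (nat_lit 76) (nat_lit 132312638215) (nat_lit 76) (nat_lit 56865552975) (nat_lit 9) (nat_lit 4) (nat_lit 10) (nat_lit 5) (nat_lit 10) (nat_lit 4) (nat_lit 490) (nat_lit 420) (nat_lit 290)) (XT.nd (nat_lit 78) (nat_lit 0) (nat_lit 0) (XT.lf (nat_lit 0) (nat_lit 69149427745) (nat_lit 76) (nat_lit 1385579802) (nat_lit 152) (nat_lit 786440251379) (nat_lit 7) (nat_lit 5) (nat_lit 8) (nat_lit 5) (nat_lit 9) (nat_lit 4) (nat_lit 491) (nat_lit 420) (nat_lit 289)) (XT.lf (nat_lit 0) (nat_lit 211696466279) (nat_lit 152) (nat_lit 566928895424) (nat_lit 0) (nat_lit 139841636267) (nat_lit 7) (nat_lit 5) (nat_lit 9) (nat_lit 4) (nat_lit 7) (nat_lit 4) (nat_lit 492) (nat_lit 420) (nat_lit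 288)))) (XT.nd (nat_lit 78) (nat_lit 76) (nat_lit 0) (XT.lf (nat_lit 0) (nat_lit 364173362029) (nat_lit 152) (nat_lit 328385262253) (nat_lit 0) (nat_lit 292318325858) (nat_lit 7) (nat_lit 5) (nat_lit 9) (nat_lit 4) (nat_lit 7) (nat_lit 4) (nat_lit 493) (nat_lit 420) (nat_lit 287)) (XT.nd (nat_lit 78) (nat_lit 76) (nat_lit 0) (XT.lf (nat_lit 0) (nat_lit 528847628804) (nat_lit 152) (nat_lit 70759706983) (nat_lit 0) (nat_lit 456992401744) (nat_lit 7) (nat_lit 5) (nat_lit 9) (nat_lit 4) (nat_lit 7) (nat_lit 4) (nat_lit 494) (nat_lit 420) (nat_lit 286)) (XT.lf (nat_lit 0) (nat_lit 214334482319) (nat_lit 76) (nat_lit 495706993730) (nat_lit 76) (nat_lit 423851589922) (nat_lit 6) (nat_lit 4) (nat_lit 7) (nat_lit 5) (nat_lit 7) (nat_lit 4) (nat_lit 495) (nat_lit 420) (nat_lit 285))))) (XT.nd (nat_lit 56784) (nat_lit 0) (nat_lit 9120) (XT.nd (nat_lit 56628) (nat_lit 0) (nat_lit 9044) (XT.lf (nat_lit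 0) (nat_lit 524761623830) (nat_lit 76) (nat_lit 382201104731) (nat_lit 76) (nat_lit 310345537266) (nat_lit 6) (nat_lit 4) (nat_lit 7) (nat_lit 5) (nat_lit 7) (nat_lit 4) (nat_lit 496) (nat_lit 420) (nat_lit 284)) (XT.nd (nat_lit 78) (nat_lit 0) (nat_lit 76) (XT.lf (nat_lit 0) (nat_lit 2368378267) (nat_lit 836) (nat_lit 3956878586) (nat_lit 836) (nat_lit 3956878586) (nat_lit 125) (nat_lit 3) (nat_lit 136) (nat_lit 3) (nat_lit 136) (nat_lit 5) (nat_lit 421) (nat_lit 421) (nat_lit 358)) (XT.lf (nat_lit 0) (nat_lit 5348385273) (nat_lit 760) (nat_lit 12942885700) (nat_lit 836) (nat_lit 3074369343) (nat_lit 126) (nat_lit 5) (nat_lit 136) (nat_lit 5) (nat_lit 137) (nat_lit 5) (nat_lit 422) (nat_lit 421) (nat_lit 357)))) (XT.nd (nat_lit 156) (nat_lit 0) (nat_lit 152) (XT.nd (nat_lit 78) (nat_lit 0) (nat_lit 76) (XT.lf (nat_lit 76) (nat_lit 4023321299) (nat_lit 0) (nat_lit 2377795584) (nat_lit 836)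 (nat_lit 15810403145) (nat_lit 127) (nat_lit 5) (nat_lit 126) (nat_lit 5) (nat_lit 137) (nat_lit 5) (nat_lit 423) (nat_lit 421) (nat_lit 356)) (XT.lf (nat_lit 0) (nat_lit 7976062721) (nat_lit 760) (nat_lit 554768025) (nat_lit 836) (nat_lit 14572348247) (nat_lit 127) (nat_lit 5) (nat_lit 137) (nat_lit 5) (nat_lit 138) (nat_lit 5) (nat_lit 424) (nat_lit 421) (nat_lit 355))) (XT.nd (nat_lit 78) (nat_lit 0) (nat_lit 76) (XT.lf (nat_lit 0) (nat_lit 10135047756) (nat_lit 760) (nat_lit 5146821047) (nat_lit 836) (nat_lit 8761407712) (nat_lit 128) (nat_lit 5) (nat_lit 138) (nat_lit 5) (nat_lit 139) (nat_lit 5) (nat_lit 425) (nat_lit 421) (nat_lit 354)) (XT.lf (nat_lit 0) (nat_lit 12875110522) (nat_lit 760) (nat_lit 9883437515) (nat_lit 836) (nat_lit 2279623280) (nat_lit 129) (nat_lit 5) (nat_lit 139) (nat_lit 5) (nat_lit 140) (nat_lit 5) (nat_lit 426) (nat_lit 421) (nat_lit 353)))))) (XT.nd (nat_lit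 546) (nat_lit 1672) (nat_lit 0) (XT.nd (nat_lit 234) (nat_lit 1140) (nat_lit 0) (XT.nd (nat_lit 78) (nat_lit 1064) (nat_lit 0) (XT.lf (nat_lit 76) (nat_lit 11241914088) (nat_lit 0) (nat_lit 5098778931) (nat_lit 836) (nat_lit 9746655823) (nat_lit 130) (nat_lit 5) (nat_lit 129) (nat_lit 5) (nat_lit 140) (nat_lit 5) (nat_lit 427) (nat_lit 421) (nat_lit 352)) (XT.nd (nat_lit 78) (nat_lit 380) (nat_lit 0) (XT.lf (nat_lit 0) (nat_lit 7192561833) (nat_lit 760) (nat_lit 13379560457) (nat_lit 836) (nat_lit 6623914634) (nat_lit 120) (nat_lit 5) (nat_lit 130) (nat_lit 5) (nat_lit 131) (nat_lit 5) (nat_lit 428) (nat_lit 421) (nat_lit 351)) (XT.lf (nat_lit 0) (nat_lit 3048118130) (nat_lit 380) (nat_lit 22561809541) (nat_lit 456) (nat_lit 2760105188) (nat_lit 115) (nat_lit 5) (nat_lit 120) (nat_lit 5) (nat_lit 121) (nat_lit 5) (nat_lit 429) (nat_lit 421) (nat_lit 350)))) (XT.nd (nat_lit 156) (nat_lit 684)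 (nat_lit 0) (XT.nd (nat_lit 78) (nat_lit 380) (nat_lit 0) (XT.lf (nat_lit 0) (nat_lit 1932244278) (nat_lit 456) (nat_lit 1230783584) (nat_lit 76) (nat_lit 26445590210) (nat_lit 114) (nat_lit 5) (nat_lit 120) (nat_lit 5) (nat_lit 115) (nat_lit 5) (nat_lit 430) (nat_lit 421) (nat_lit 349)) (XT.lf (nat_lit 0) (nat_lit 7574425956) (nat_lit 456) (nat_lit 5664979680) (nat_lit 76) (nat_lit 17671069651) (nat_lit 109) (nat_lit 5) (nat_lit 115) (nat_lit 5) (nat_lit 110) (nat_lit 5) (nat_lit 431) (nat_lit 421) (nat_lit 348))) (XT.nd (nat_lit 78) (nat_lit 304) (nat_lit 0) (XT.lf (nat_lit 0) (nat_lit 14203738364) (nat_lit 456) (nat_lit 10211393099) (nat_lit 76) (nat_lit 7874566263) (nat_lit 104) (nat_lit 5) (nat_lit 110) (nat_lit 5) (nat_lit 105) (nat_lit 5) (nat_lit 432) (nat_lit 421) (nat_lit 347)) (XT.lf (nat_lit 0) (nat_lit 18832954208) (nat_lit 304) (nat_lit 3135601844) (nat_lit 380) (nat_lit 11780448020)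 (nat_lit 100) (nat_lit 5) (nat_lit 104) (nat_lit 5) (nat_lit 105) (nat_lit 5) (nat_lit 433) (nat_lit 421) (nat_lit 346))))) (XT.nd (nat_lit 234) (nat_lit 760) (nat_lit 0) (XT.nd (nat_lit 78) (nat_lit 608) (nat_lit 0) (XT.lf (nat_lit 0) (nat_lit 15416033649) (nat_lit 304) (nat_lit 15658132215) (nat_lit 380) (nat_lit 4214912545) (nat_lit 96) (nat_lit 5) (nat_lit 100) (nat_lit 5) (nat_lit 101) (nat_lit 5) (nat_lit 434) (nat_lit 421) (nat_lit 345)) (XT.nd (nat_lit 78) (nat_lit 304) (nat_lit 0) (XT.lf (nat_lit 0) (nat_lit 4442805682) (nat_lit 304) (nat_lit 25024703146) (nat_lit 76) (nat_lit 7451087509) (nat_lit 92) (nat_lit 5) (nat_lit 96) (nat_lit 5) (nat_lit 93) (nat_lit 5) (nat_lit 435) (nat_lit 421) (nat_lit 344)) (XT.lf (nat_lit 0) (nat_lit 8157389042) (nat_lit 304) (nat_lit 6222628518) (nat_lit 380) (nat_lit 24258279104) (nat_lit 88) (nat_lit 5) (nat_lit 92) (nat_lit 5) (nat_lit 93) (nat_lit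 5) (nat_lit 436) (nat_lit 421) (nat_lit 343)))) (XT.nd (nat_lit 156) (nat_lit 304) (nat_lit 0) (XT.nd (nat_lit 78) (nat_lit 228) (nat_lit 0) (XT.lf (nat_lit 0) (nat_lit 4233988575) (nat_lit 228) (nat_lit 21672058749) (nat_lit 304) (nat_lit 14549836534) (nat_lit 85) (nat_lit 5) (nat_lit 88) (nat_lit 5) (nat_lit 89) (nat_lit 5) (nat_lit 437) (nat_lit 421) (nat_lit 342)) (XT.lf (nat_lit 0) (nat_lit 255798928) (nat_lit 228) (nat_lit 38784964255) (nat_lit 304) (nat_lit 3343787333) (nat_lit 82) (nat_lit 5) (nat_lit 85) (nat_lit 5) (nat_lit 86) (nat_lit 5) (nat_lit 438) (nat_lit 421) (nat_lit 341))) (XT.nd (nat_lit 78) (nat_lit 228) (nat_lit 0) (XT.lf (nat_lit 0) (nat_lit 9475884204) (nat_lit 304) (nat_lit 4016354183) (nat_lit 76) (nat_lit 30918563400) (nat_lit 81) (nat_lit 5) (nat_lit 85) (nat_lit 5) (nat_lit 82) (nat_lit 5) (nat_lit 439) (nat_lit 421) (nat_lit 340)) (XT.lf (nat_lit 0) (nat_lit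 24021480646) (nat_lit 304) (nat_lit 8490879321) (nat_lit 76) (nat_lit 14043179508) (nat_lit 78) (nat_lit 5) (nat_lit 82) (nat_lit 5) (nat_lit 79) (nat_lit 5) (nat_lit 440) (nat_lit 421) (nat_lit 339))))))))
noncomputable def xc81 : XT := (XT.nd (nat_lit 2028) (nat_lit 1672) (nat_lit 0) (XT.nd (nat_lit 1014) (nat_lit 1444) (nat_lit 0) (XT.nd (nat_lit 468) (nat_lit 1064) (nat_lit 0) (XT.nd (nat_lit 234) (nat_lit 532) (nat_lit 0) (XT.nd (nat_lit 78) (nat_lit 456) (nat_lit 0) (XT.lf (nat_lit 0) (nat_lit 35688925432) (nat_lit 228) (nat_lit 4889440703) (nat_lit 304) (nat_lit 8251109998) (nat_lit 75) (nat_lit 5) (nat_lit 78) (nat_lit 5) (nat_lit 79) (nat_lit 5) (nat_lit 441) (nat_lit 421) (nat_lit 338)) (XT.nd (nat_lit 78) (nat_lit 228) (nat_lit 0) (XT.lf (nat_lit 0) (nat_lit 8010522621) (nat_lit 228) (nat_lit 18278420810) (nat_lit 76) (nat_lit 24937501598) (nat_lit 72) (nat_lit 5) (nat_lit 75) (nat_lit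 5) (nat_lit 73) (nat_lit 5) (nat_lit 442) (nat_lit 421) (nat_lit 337)) (XT.lf (nat_lit 0) (nat_lit 26128886602) (nat_lit 304) (nat_lit 23716250830) (nat_lit 76) (nat_lit 3921028479) (nat_lit 69) (nat_lit 5) (nat_lit 73) (nat_lit 5) (nat_lit 70) (nat_lit 5) (nat_lit 443) (nat_lit 421) (nat_lit 336)))) (XT.nd (nat_lit 78) (nat_lit 380) (nat_lit 0) (XT.lf (nat_lit 0) (nat_lit 26802158653) (nat_lit 152) (nat_lit 20072716686) (nat_lit 228) (nat_lit 9575282870) (nat_lit 67) (nat_lit 5) (nat_lit 69) (nat_lit 5) (nat_lit 70) (nat_lit 5) (nat_lit 444) (nat_lit 421) (nat_lit 335)) (XT.nd (nat_lit 78) (nat_lit 152) (nat_lit 0) (XT.lf (nat_lit 0) (nat_lit 10596993317) (nat_lit 228) (nat_lit 36047441833) (nat_lit 76) (nat_lit 12647523245) (nat_lit 64) (nat_lit 5) (nat_lit 67) (nat_lit 5) (nat_lit 65) (nat_lit 5) (nat_lit 445) (nat_lit 421) (nat_lit 334)) (XT.lf (nat_lit 0) (nat_lit 19186784538) (nat_lit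 152) (nat_lit 14021559844) (nat_lit 228) (nat_lit 29086872668) (nat_lit 62) (nat_lit 5) (nat_lit 64) (nat_lit 5) (nat_lit 65) (nat_lit 5) (nat_lit 446) (nat_lit 421) (nat_lit 333))))) (XT.nd (nat_lit 234) (nat_lit 532) (nat_lit 0) (XT.nd (nat_lit 78) (nat_lit 380) (nat_lit 0) (XT.lf (nat_lit 0) (nat_lit 14739357062) (nat_lit 152) (nat_lit 44082362544) (nat_lit 228) (nat_lit 6657362144) (nat_lit 60) (nat_lit 5) (nat_lit 62) (nat_lit 5) (nat_lit 63) (nat_lit 5) (nat_lit 447) (nat_lit 421) (nat_lit 332)) (XT.nd (nat_lit 78) (nat_lit 152) (nat_lit 0) (XT.lf (nat_lit 0) (nat_lit 9649767993) (nat_lit 152) (nat_lit 8498649052) (nat_lit 228) (nat_lit 50698319186) (nat_lit 57) (nat_lit 5) (nat_lit 59) (nat_lit 5) (nat_lit 60) (nat_lit 5) (nat_lit 448) (nat_lit 421) (nat_lit 331)) (XT.lf (nat_lit 0) (nat_lit 3758837330) (nat_lit 152) (nat_lit 42368111210) (nat_lit 228) (nat_lit 26280322045) (nat_lit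 55) (nat_lit 5) (nat_lit 57) (nat_lit 5) (nat_lit 58) (nat_lit 5) (nat_lit 449) (nat_lit 421) (nat_lit 330)))) (XT.nd (nat_lit 156) (nat_lit 304) (nat_lit 0) (XT.nd (nat_lit 78) (nat_lit 152) (nat_lit 0) (XT.lf (nat_lit 0) (nat_lit 1273839924) (nat_lit 228) (nat_lit 2507572313) (nat_lit 76) (nat_lit 72411883089) (nat_lit 54) (nat_lit 5) (nat_lit 57) (nat_lit 5) (nat_lit 55) (nat_lit 5) (nat_lit 450) (nat_lit 421) (nat_lit 329)) (XT.lf (nat_lit 0) (nat_lit 31839901021) (nat_lit 228) (nat_lit 10085713967) (nat_lit 76) (nat_lit 38248631550) (nat_lit 52) (nat_lit 5) (nat_lit 55) (nat_lit 5) (nat_lit 53) (nat_lit 5) (nat_lit 451) (nat_lit 421) (nat_lit 328))) (XT.nd (nat_lit 78) (nat_lit 152) (nat_lit 0) (XT.lf (nat_lit 0) (nat_lit 65989755218) (nat_lit 228) (nat_lit 18265169095) (nat_lit 76) (nat_lit 161824835) (nat_lit 50) (nat_lit 5) (nat_lit 53) (nat_lit 5) (nat_lit 51) (nat_lit 4) (nat_lit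 452) (nat_lit 421) (nat_lit 327)) (XT.lf (nat_lit 0) (nat_lit 15293444649) (nat_lit 152) (nat_lit 28058583939) (nat_lit 76) (nat_lit 45542568242) (nat_lit 48) (nat_lit 5) (nat_lit 50) (nat_lit 5) (nat_lit 49) (nat_lit 5) (nat_lit 453) (nat_lit 421) (nat_lit 326)))))) (XT.nd (nat_lit 468) (nat_lit 684) (nat_lit 0) (XT.nd (nat_lit 234) (nat_lit 304) (nat_lit 0) (XT.nd (nat_lit 78) (nat_lit 304) (nat_lit 0) (XT.lf (nat_lit 0) (nat_lit 52283216664) (nat_lit 228) (nat_lit 39067006300) (nat_lit 76) (nat_lit 2304481329) (nat_lit 46) (nat_lit 5) (nat_lit 49) (nat_lit 5) (nat_lit 47) (nat_lit 4) (nat_lit 454) (nat_lit 421) (nat_lit 325)) (XT.nd (nat_lit 78) (nat_lit 228) (nat_lit 0) (XT.lf (nat_lit 0) (nat_lit 46827929902) (nat_lit 76) (nat_lit 47358525953) (nat_lit 152) (nat_lit 4511450766) (nat_lit 45) (nat_lit 5) (nat_lit 46) (nat_lit 5) (nat_lit 47) (nat_lit 4) (nat_lit 455) (nat_lit 421) (nat_lit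 324)) (XT.lf (nat_lit 0) (nat_lit 35472796511) (nat_lit 228) (nat_lit 66576492999) (nat_lit 76) (nat_lit 2002464326) (nat_lit 42) (nat_lit 5) (nat_lit 45) (nat_lit 5) (nat_lit 43) (nat_lit 4) (nat_lit 456) (nat_lit 421) (nat_lit 323)))) (XT.nd (nat_lit 78) (nat_lit 228) (nat_lit 0) (XT.lf (nat_lit 0) (nat_lit 25965359484) (nat_lit 76) (nat_lit 54652474345) (nat_lit 152) (nat_lit 29106372053) (nat_lit 41) (nat_lit 5) (nat_lit 42) (nat_lit 5) (nat_lit 43) (nat_lit 4) (nat_lit 457) (nat_lit 421) (nat_lit 322)) (XT.nd (nat_lit 78) (nat_lit 0) (nat_lit 0) (XT.lf (nat_lit 0) (nat_lit 12662951123) (nat_lit 152) (nat_lit 1800483666) (nat_lit 228) (nat_lit 101307848906) (nat_lit 38) (nat_lit 5) (nat_lit 40) (nat_lit 5) (nat_lit 41) (nat_lit 5) (nat_lit 458) (nat_lit 421) (nat_lit 321)) (XT.lf (nat_lit 0) (nat_lit 62854700787) (nat_lit 228) (nat_lit 3824969569) (nat_lit 76) (nat_lit 55480819049) (nat_lit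 38) (nat_lit 5) (nat_lit 41) (nat_lit 5) (nat_lit 39) (nat_lit 4) (nat_lit 459) (nat_lit 421) (nat_lit 320))))) (XT.nd (nat_lit 234) (nat_lit 380) (nat_lit 0) (XT.nd (nat_lit 78) (nat_lit 228) (nat_lit 0) (XT.lf (nat_lit 0) (nat_lit 106781420378) (nat_lit 76) (nat_lit 10029635762) (nat_lit 152) (nat_lit 12165086361) (nat_lit 37) (nat_lit 5) (nat_lit 38) (nat_lit 5) (nat_lit 39) (nat_lit 4) (nat_lit 460) (nat_lit 421) (nat_lit 319)) (XT.nd (nat_lit 78) (nat_lit 76) (nat_lit 0) (XT.lf (nat_lit 0) (nat_lit 39846452737) (nat_lit 152) (nat_lit 44681511583) (nat_lit 76) (nat_lit 51661850328) (nat_lit 35) (nat_lit 5) (nat_lit 37) (nat_lit 5) (nat_lit 36) (nat_lit 4) (nat_lit 461) (nat_lit 421) (nat_lit 318)) (XT.lf (nat_lit 0) (nat_lit 73091072607) (nat_lit 76) (nat_lit 24207069570) (nat_lit 152) (nat_lit 46587195651) (nat_lit 34) (nat_lit 5) (nat_lit 35) (nat_lit 5) (nat_lit 36) (nat_lit 4) (nat_lit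 462) (nat_lit 421) (nat_lit 317)))) (XT.nd (nat_lit 156) (nat_lit 152) (nat_lit 0) (XT.nd (nat_lit 78) (nat_lit 76) (nat_lit 0) (XT.lf (nat_lit 0) (nat_lit 9175253940) (nat_lit 152) (nat_lit 101546203431) (nat_lit 76) (nat_lit 41356733696) (nat_lit 32) (nat_lit 5) (nat_lit 34) (nat_lit 5) (nat_lit 33) (nat_lit 4) (nat_lit 463) (nat_lit 421) (nat_lit 316)) (XT.lf (nat_lit 0) (nat_lit 22735028057) (nat_lit 76) (nat_lit 47066562770) (nat_lit 152) (nat_lit 90984941748) (nat_lit 31) (nat_lit 5) (nat_lit 32) (nat_lit 5) (nat_lit 33) (nat_lit 4) (nat_lit 464) (nat_lit 421) (nat_lit 315))) (XT.nd (nat_lit 78) (nat_lit 152) (nat_lit 0) (XT.lf (nat_lit 0) (nat_lit 137411222907) (nat_lit 152) (nat_lit 9891758180) (nat_lit 0) (nat_lit 22781901108) (nat_lit 31) (nat_lit 5) (nat_lit 33) (nat_lit 4) (nat_lit 31) (nat_lit 4) (nat_lit 465) (nat_lit 421) (nat_lit 314)) (XT.lf (nat_lit 0) (nat_lit 32230100114)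 (nat_lit 152) (nat_lit 48559869431) (nat_lit 76) (nat_lit 99168602836) (nat_lit 29) (nat_lit 5) (nat_lit 31) (nat_lit 5) (nat_lit 30) (nat_lit 4) (nat_lit 466) (nat_lit 421) (nat_lit 313))))))) (XT.nd (nat_lit 1014) (nat_lit 684) (nat_lit 0) (XT.nd (nat_lit 468) (nat_lit 456) (nat_lit 0) (XT.nd (nat_lit 234) (nat_lit 228) (nat_lit 0) (XT.nd (nat_lit 78) (nat_lit 228) (nat_lit 0) (XT.lf (nat_lit 0) (nat_lit 96253539869) (nat_lit 76) (nat_lit 6618265263) (nat_lit 152) (nat_lit 87639052591) (nat_lit 28) (nat_lit 5) (nat_lit 29) (nat_lit 5) (nat_lit 30) (nat_lit 4) (nat_lit 467) (nat_lit 421) (nat_lit 312)) (XT.nd (nat_lit 78) (nat_lit 152) (nat_lit 0) (XT.lf (nat_lit 0) (nat_lit 53052490824) (nat_lit 76) (nat_lit 128944979225) (nat_lit 76) (nat_lit 19768224824) (nat_lit 27) (nat_lit 4) (nat_lit 28) (nat_lit 5) (nat_lit 28) (nat_lit 4) (nat_lit 468) (nat_lit 421) (nat_lit 311)) (XT.lf (nat_lit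 0) (nat_lit 717609676) (nat_lit 76) (nat_lit 52890228037) (nat_lit 152) (nat_lit 160181845208) (nat_lit 25) (nat_lit 5) (nat_lit 26) (nat_lit 5) (nat_lit 27) (nat_lit 4) (nat_lit 469) (nat_lit 421) (nat_lit 310)))) (XT.nd (nat_lit 78) (nat_lit 228) (nat_lit 0) (XT.lf (nat_lit 0) (nat_lit 135257674878) (nat_lit 152) (nat_lit 60070208762) (nat_lit 0) (nat_lit 31276689442) (nat_lit 25) (nat_lit 5) (nat_lit 27) (nat_lit 4) (nat_lit 25) (nat_lit 4) (nat_lit 470) (nat_lit 421) (nat_lit 309)) (XT.nd (nat_lit 78) (nat_lit 152) (nat_lit 0) (XT.lf (nat_lit 0) (nat_lit 107723087367) (nat_lit 76) (nat_lit 118287689725) (nat_lit 76) (nat_lit 14305313575) (nat_lit 24) (nat_lit 4) (nat_lit 25) (nat_lit 5) (nat_lit 25) (nat_lit 4) (nat_lit 471) (nat_lit 421) (nat_lit 308)) (XT.lf (nat_lit 0) (nat_lit 36069735491) (nat_lit 76) (nat_lit 32248995893) (nat_lit 152) (nat_lit 186670795040) (nat_lit 22) (nat_lit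 5) (nat_lit 23) (nat_lit 5) (nat_lit 24) (nat_lit 4) (nat_lit 472) (nat_lit 421) (nat_lit 307))))) (XT.nd (nat_lit 234) (nat_lit 228) (nat_lit 0) (XT.nd (nat_lit 78) (nat_lit 228) (nat_lit 0) (XT.lf (nat_lit 0) (nat_lit 160350766878) (nat_lit 152) (nat_lit 48991811288) (nat_lit 0) (nat_lit 61317570534) (nat_lit 22) (nat_lit 5) (nat_lit 24) (nat_lit 4) (nat_lit 22) (nat_lit 4) (nat_lit 473) (nat_lit 421) (nat_lit 306)) (XT.nd (nat_lit 78) (nat_lit 152) (nat_lit 0) (XT.lf (nat_lit 0) (nat_lit 138412570963) (nat_lit 76) (nat_lit 124035481640) (nat_lit 76) (nat_lit 25001233872) (nat_lit 21) (nat_lit 4) (nat_lit 22) (nat_lit 5) (nat_lit 22) (nat_lit 4) (nat_lit 474) (nat_lit 421) (nat_lit 305)) (XT.lf (nat_lit 0) (nat_lit 37142579346) (nat_lit 76) (nat_lit 29285616094) (nat_lit 152) (nat_lit 239028691374) (nat_lit 19) (nat_lit 5) (nat_lit 20) (nat_lit 5) (nat_lit 21) (nat_lit 4) (nat_lit 475) (nat_lit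 421) (nat_lit 304)))) (XT.nd (nat_lit 156) (nat_lit 152) (nat_lit 0) (XT.nd (nat_lit 78) (nat_lit 76) (nat_lit 0) (XT.lf (nat_lit 0) (nat_lit 168084900439) (nat_lit 152) (nat_lit 82845476308) (nat_lit 0) (nat_lit 73764783550) (nat_lit 19) (nat_lit 5) (nat_lit 21) (nat_lit 4) (nat_lit 19) (nat_lit 4) (nat_lit 476) (nat_lit 421) (nat_lit 303)) (XT.lf (nat_lit 0) (nat_lit 120830774158) (nat_lit 76) (nat_lit 159421854512) (nat_lit 76) (nat_lit 65100942715) (nat_lit 18) (nat_lit 4) (nat_lit 19) (nat_lit 5) (nat_lit 19) (nat_lit 4) (nat_lit 477) (nat_lit 421) (nat_lit 302))) (XT.nd (nat_lit 78) (nat_lit 76) (nat_lit 0) (XT.lf (nat_lit 0) (nat_lit 34114573284) (nat_lit 152) (nat_lit 24386772587) (nat_lit 76) (nat_lit 309063729445) (nat_lit 17) (nat_lit 5) (nat_lit 19) (nat_lit 5) (nat_lit 18) (nat_lit 4) (nat_lit 478) (nat_lit 421) (nat_lit 301)) (XT.lf (nat_lit 0) (nat_lit 142947222387) (nat_lit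 152) (nat_lit 195238447663) (nat_lit 0) (nat_lit 53116432552) (nat_lit 16) (nat_lit 5) (nat_lit 18) (nat_lit 4) (nat_lit 16) (nat_lit 4) (nat_lit 479) (nat_lit 421) (nat_lit 300)))))) (XT.nd (nat_lit 546) (nat_lit 304) (nat_lit 0) (XT.nd (nat_lit 234) (nat_lit 152) (nat_lit 0) (XT.nd (nat_lit 78) (nat_lit 152) (nat_lit 0) (XT.lf (nat_lit 0) (nat_lit 17673185894) (nat_lit 76) (nat_lit 244505835080) (nat_lit 76) (nat_lit 154674444270) (nat_lit 15) (nat_lit 4) (nat_lit 16) (nat_lit 5) (nat_lit 16) (nat_lit 4) (nat_lit 480) (nat_lit 421) (nat_lit 299)) (XT.nd (nat_lit 78) (nat_lit 152) (nat_lit 0) (XT.lf (nat_lit 0) (nat_lit 254586618570) (nat_lit 76) (nat_lit 139762147750) (nat_lit 76) (nat_lit 49930200481) (nat_lit 15) (nat_lit 4) (nat_lit 16) (nat_lit 5) (nat_lit 16) (nat_lit 4) (nat_lit 481) (nat_lit 421) (nat_lit 298)) (XT.lf (nat_lit 0) (nat_lit 36741075994) (nat_lit 76) (nat_lit 25002113518)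 (nat_lit 152) (nat_lit 412077377764) (nat_lit 13) (nat_lit 5) (nat_lit 14) (nat_lit 5) (nat_lit 15) (nat_lit 4) (nat_lit 482) (nat_lit 421) (nat_lit 297)))) (XT.nd (nat_lit 156) (nat_lit 76) (nat_lit 0) (XT.nd (nat_lit 78) (nat_lit 76) (nat_lit 0) (XT.lf (nat_lit 0) (nat_lit 185526331686) (nat_lit 152) (nat_lit 219940827017) (nat_lit 0) (nat_lit 99971151133) (nat_lit 13) (nat_lit 5) (nat_lit 15) (nat_lit 4) (nat_lit 13) (nat_lit 4) (nat_lit 483) (nat_lit 421) (nat_lit 296)) (XT.lf (nat_lit 0) (nat_lit 14612465557) (nat_lit 76) (nat_lit 305248092934) (nat_lit 76) (nat_lit 219692491682) (nat_lit 12) (nat_lit 4) (nat_lit 13) (nat_lit 5) (nat_lit 13) (nat_lit 4) (nat_lit 484) (nat_lit 421) (nat_lit 295))) (XT.nd (nat_lit 78) (nat_lit 76) (nat_lit 0) (XT.lf (nat_lit 0) (nat_lit 275781575689) (nat_lit 76) (nat_lit 192989942564) (nat_lit 76) (nat_lit 107433951775) (nat_lit 12) (nat_lit 4) (nat_lit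 13) (nat_lit 5) (nat_lit 13) (nat_lit 4) (nat_lit 485) (nat_lit 421) (nat_lit 294)) (XT.lf (nat_lit 0) (nat_lit 13362256486) (nat_lit 152) (nat_lit 58163725672) (nat_lit 76) (nat_lit 544253382391) (nat_lit 11) (nat_lit 5) (nat_lit 13) (nat_lit 5) (nat_lit 12) (nat_lit 4) (nat_lit 486) (nat_lit 421) (nat_lit 293))))) (XT.nd (nat_lit 234) (nat_lit 152) (nat_lit 0) (XT.nd (nat_lit 78) (nat_lit 76) (nat_lit 0) (XT.lf (nat_lit 0) (nat_lit 144374469431) (nat_lit 152) (nat_lit 450948915222) (nat_lit 0) (nat_lit 62891911873) (nat_lit 10) (nat_lit 5) (nat_lit 12) (nat_lit 4) (nat_lit 10) (nat_lit 4) (nat_lit 487) (nat_lit 421) (nat_lit 292)) (XT.nd (nat_lit 78) (nat_lit 76) (nat_lit 0) (XT.lf (nat_lit 0) (nat_lit 288102459586) (nat_lit 152) (nat_lit 209212295964) (nat_lit 0) (nat_lit 206619607526) (nat_lit 10) (nat_lit 5) (nat_lit 12) (nat_lit 4) (nat_lit 10) (nat_lit 4) (nat_lit 488) (nat_lit 421)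 (nat_lit 291)) (XT.lf (nat_lit 0) (nat_lit 53576088726) (nat_lit 76) (nat_lit 390588107807) (nat_lit 76) (nat_lit 309104983061) (nat_lit 9) (nat_lit 4) (nat_lit 10) (nat_lit 5) (nat_lit 10) (nat_lit 4) (nat_lit 489) (nat_lit 421) (nat_lit 290)))) (XT.nd (nat_lit 156) (nat_lit 152) (nat_lit 0) (XT.nd (nat_lit 78) (nat_lit 0) (nat_lit 0) (XT.lf (nat_lit 0) (nat_lit 344856598285) (nat_lit 76) (nat_lit 271497694688) (nat_lit 76) (nat_lit 190014317454) (nat_lit 9) (nat_lit 4) (nat_lit 10) (nat_lit 5) (nat_lit 10) (nat_lit 4) (nat_lit 490) (nat_lit 421) (nat_lit 289)) (XT.lf (nat_lit 0) (nat_lit 659437836103) (nat_lit 76) (nat_lit 142880906691) (nat_lit 76) (nat_lit 61397295672) (nat_lit 9) (nat_lit 4) (nat_lit 10) (nat_lit 5) (nat_lit 10) (nat_lit 4) (nat_lit 491) (nat_lit 421) (nat_lit 288))) (XT.nd (nat_lit 78) (nat_lit 0) (nat_lit 0) (XT.lf (nat_lit 0) (nat_lit 74713876507) (nat_lit 76) (nat_lit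 1480125440) (nat_lit 152) (nat_lit 849338467664) (nat_lit 7) (nat_lit 5) (nat_lit 8) (nat_lit 5) (nat_lit 9) (nat_lit 4) (nat_lit 492) (nat_lit 421) (nat_lit 287)) (XT.lf (nat_lit 0) (nat_lit 228647413486) (nat_lit 152) (nat_lit 612252605140) (nat_lit 0) (nat_lit 151043577372) (nat_lit 7) (nat_lit 5) (nat_lit 9) (nat_lit 4) (nat_lit 7) (nat_lit 4) (nat_lit 493) (nat_lit 421) (nat_lit 286))))))))
noncomputable def xc82 : XT := (XT.nd (nat_lit 58656) (nat_lit 0) (nat_lit 1444) (XT.nd (nat_lit 57642) (nat_lit 0) (nat_lit 4788) (XT.nd (nat_lit 57096) (nat_lit 0) (nat_lit 8208) (XT.nd (nat_lit 56862) (nat_lit 0) (nat_lit 9044) (XT.nd (nat_lit 78) (nat_lit 76) (nat_lit 0) (XT.lf (nat_lit 0) (nat_lit 393321332755) (nat_lit 152) (nat_lit 354627748124) (nat_lit 0) (nat_lit 315717319893) (nat_lit 7) (nat_lit 5) (nat_lit 9) (nat_lit 4) (nat_lit 7) (nat_lit 4) (nat_lit 494) (nat_lit 421) (nat_lit 285))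 (XT.nd (nat_lit 78) (nat_lit 76) (nat_lit 0) (XT.lf (nat_lit 0) (nat_lit 571168496296) (nat_lit 152) (nat_lit 76394247330) (nat_lit 0) (nat_lit 493564319778) (nat_lit 7) (nat_lit 5) (nat_lit 9) (nat_lit 4) (nat_lit 7) (nat_lit 4) (nat_lit 495) (nat_lit 421) (nat_lit 284)) (XT.lf (nat_lit 0) (nat_lit 231506336924) (nat_lit 76) (nat_lit 535350939018) (nat_lit 76) (nat_lit 457746610967) (nat_lit 6) (nat_lit 4) (nat_lit 7) (nat_lit 5) (nat_lit 7) (nat_lit 4) (nat_lit 496) (nat_lit 421) (nat_lit 283)))) (XT.nd (nat_lit 78) (nat_lit 0) (nat_lit 76) (XT.lf (nat_lit 0) (nat_lit 2792326537) (nat_lit 836) (nat_lit 4150282304) (nat_lit 836) (nat_lit 4150282304) (nat_lit 125) (nat_lit 3) (nat_lit 136) (nat_lit 3) (nat_lit 136) (nat_lit 5) (nat_lit 422) (nat_lit 422) (nat_lit 356)) (XT.nd (nat_lit 78) (nat_lit 0) (nat_lit 0) (XT.lf (nat_lit 0) (nat_lit 6210994259) (nat_lit 760) (nat_lit 13717504655) (nat_lit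 836) (nat_lit 3124486776) (nat_lit 126) (nat_lit 5) (nat_lit 136) (nat_lit 5) (nat_lit 137) (nat_lit 5) (nat_lit 423) (nat_lit 422) (nat_lit 355)) (XT.lf (nat_lit 76) (nat_lit 4594664337) (nat_lit 0) (nat_lit 2724972274) (nat_lit 836) (nat_lit 16648327072) (nat_lit 127) (nat_lit 5) (nat_lit 126) (nat_lit 5) (nat_lit 137) (nat_lit 5) (nat_lit 424) (nat_lit 422) (nat_lit 354))))) (XT.nd (nat_lit 234) (nat_lit 988) (nat_lit 0) (XT.nd (nat_lit 78) (nat_lit 0) (nat_lit 76) (XT.lf (nat_lit 0) (nat_lit 8988203202) (nat_lit 760) (nat_lit 346921913) (nat_lit 836) (nat_lit 15597460582) (nat_lit 127) (nat_lit 5) (nat_lit 137) (nat_lit 5) (nat_lit 138) (nat_lit 5) (nat_lit 425) (nat_lit 422) (nat_lit 353)) (XT.nd (nat_lit 78) (nat_lit 0) (nat_lit 76) (XT.lf (nat_lit 0) (nat_lit 11294266638) (nat_lit 760) (nat_lit 5297961413) (nat_lit 836) (nat_lit 9356955720) (nat_lit 128) (nat_lit 5) (nat_lit 138) (nat_lit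 5) (nat_lit 139) (nat_lit 5) (nat_lit 426) (nat_lit 422) (nat_lit 352)) (XT.lf (nat_lit 0) (nat_lit 14230412256) (nat_lit 760) (nat_lit 10407178083) (nat_lit 836) (nat_lit 2387245860) (nat_lit 129) (nat_lit 5) (nat_lit 139) (nat_lit 5) (nat_lit 140) (nat_lit 5) (nat_lit 427) (nat_lit 422) (nat_lit 351)))) (XT.nd (nat_lit 156) (nat_lit 456) (nat_lit 0) (XT.nd (nat_lit 78) (nat_lit 684) (nat_lit 0) (XT.lf (nat_lit 76) (nat_lit 12396601002) (nat_lit 0) (nat_lit 5556531056) (nat_lit 836) (nat_lit 10205830531) (nat_lit 130) (nat_lit 5) (nat_lit 129) (nat_lit 5) (nat_lit 140) (nat_lit 5) (nat_lit 428) (nat_lit 422) (nat_lit 350)) (XT.lf (nat_lit 0) (nat_lit 8027654561) (nat_lit 760) (nat_lit 14476148728) (nat_lit 836) (nat_lit 6853514565) (nat_lit 120) (nat_lit 5) (nat_lit 130) (nat_lit 5) (nat_lit 131) (nat_lit 5) (nat_lit 429) (nat_lit 422) (nat_lit 349))) (XT.nd (nat_lit 78) (nat_lit 76) (nat_lit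 0) (XT.lf (nat_lit 0) (nat_lit 3554537405) (nat_lit 380) (nat_lit 24372637445) (nat_lit 456) (nat_lit 2698939414) (nat_lit 115) (nat_lit 5) (nat_lit 120) (nat_lit 5) (nat_lit 121) (nat_lit 5) (nat_lit 430) (nat_lit 422) (nat_lit 348)) (XT.lf (nat_lit 0) (nat_lit 2339554612) (nat_lit 456) (nat_lit 1077682713) (nat_lit 76) (nat_lit 28547346725) (nat_lit 114) (nat_lit 5) (nat_lit 120) (nat_lit 5) (nat_lit 115) (nat_lit 5) (nat_lit 431) (nat_lit 422) (nat_lit 347)))))) (XT.nd (nat_lit 468) (nat_lit 1444) (nat_lit 0) (XT.nd (nat_lit 234) (nat_lit 912) (nat_lit 0) (XT.nd (nat_lit 78) (nat_lit 684) (nat_lit 0) (XT.lf (nat_lit 0) (nat_lit 8418191663) (nat_lit 456) (nat_lit 5865623023) (nat_lit 76) (nat_lit 19087527554) (nat_lit 109) (nat_lit 5) (nat_lit 115) (nat_lit 5) (nat_lit 110) (nat_lit 5) (nat_lit 432) (nat_lit 422) (nat_lit 346)) (XT.nd (nat_lit 78) (nat_lit 304) (nat_lit 0) (XT.lf (nat_lit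 0) (nat_lit 15564280083) (nat_lit 456) (nat_lit 10775727305) (nat_lit 76) (nat_lit 8521579496) (nat_lit 104) (nat_lit 5) (nat_lit 110) (nat_lit 5) (nat_lit 105) (nat_lit 5) (nat_lit 433) (nat_lit 422) (nat_lit 345)) (XT.lf (nat_lit 0) (nat_lit 20581191087) (nat_lit 304) (nat_lit 3356253593) (nat_lit 380) (nat_lit 12500840503) (nat_lit 100) (nat_lit 5) (nat_lit 104) (nat_lit 5) (nat_lit 105) (nat_lit 5) (nat_lit 434) (nat_lit 422) (nat_lit 344)))) (XT.nd (nat_lit 78) (nat_lit 608) (nat_lit 0) (XT.lf (nat_lit 0) (nat_lit 16890143103) (nat_lit 304) (nat_lit 16869897117) (nat_lit 380) (nat_lit 4342103512) (nat_lit 96) (nat_lit 5) (nat_lit 100) (nat_lit 5) (nat_lit 101) (nat_lit 5) (nat_lit 435) (nat_lit 422) (nat_lit 343)) (XT.nd (nat_lit 78) (nat_lit 304) (nat_lit 0) (XT.lf (nat_lit 0) (nat_lit 4990852279) (nat_lit 304) (nat_lit 26780880256) (nat_lit 76) (nat_lit 8090664058) (nat_lit 92) (nat_lit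 5) (nat_lit 96) (nat_lit 5) (nat_lit 93) (nat_lit 5) (nat_lit 436) (nat_lit 422) (nat_lit 342)) (XT.lf (nat_lit 0) (nat_lit 9045097176) (nat_lit 304) (nat_lit 6667346460) (nat_lit 380) (nat_lit 26007763357) (nat_lit 88) (nat_lit 5) (nat_lit 92) (nat_lit 5) (nat_lit 93) (nat_lit 5) (nat_lit 437) (nat_lit 422) (nat_lit 341))))) (XT.nd (nat_lit 234) (nat_lit 912) (nat_lit 0) (XT.nd (nat_lit 78) (nat_lit 304) (nat_lit 0) (XT.lf (nat_lit 0) (nat_lit 4805569486) (nat_lit 228) (nat_lit 23345906130) (nat_lit 304) (nat_lit 15532183419) (nat_lit 85) (nat_lit 5) (nat_lit 88) (nat_lit 5) (nat_lit 89) (nat_lit 5) (nat_lit 438) (nat_lit 422) (nat_lit 340)) (XT.nd (nat_lit 78) (nat_lit 76) (nat_lit 0) (XT.lf (nat_lit 0) (nat_lit 506427588) (nat_lit 228) (nat_lit 41822190151) (nat_lit 304) (nat_lit 3438422415) (nat_lit 82) (nat_lit 5) (nat_lit 85) (nat_lit 5) (nat_lit 86) (nat_lit 5) (nat_lit 439) (nat_lit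 422) (nat_lit 339)) (XT.lf (nat_lit 0) (nat_lit 10388894804) (nat_lit 304) (nat_lit 4119384558) (nat_lit 76) (nat_lit 33447600132) (nat_lit 81) (nat_lit 5) (nat_lit 85) (nat_lit 5) (nat_lit 82) (nat_lit 5) (nat_lit 440) (nat_lit 422) (nat_lit 338)))) (XT.nd (nat_lit 156) (nat_lit 456) (nat_lit 0) (XT.nd (nat_lit 78) (nat_lit 228) (nat_lit 0) (XT.lf (nat_lit 0) (nat_lit 26090890834) (nat_lit 304) (nat_lit 8954954222) (nat_lit 76) (nat_lit 15226716470) (nat_lit 78) (nat_lit 5) (nat_lit 82) (nat_lit 5) (nat_lit 79) (nat_lit 5) (nat_lit 441) (nat_lit 422) (nat_lit 337)) (XT.lf (nat_lit 0) (nat_lit 38749882780) (nat_lit 228) (nat_lit 5214718044) (nat_lit 304) (nat_lit 8764201314) (nat_lit 75) (nat_lit 5) (nat_lit 78) (nat_lit 5) (nat_lit 79) (nat_lit 5) (nat_lit 442) (nat_lit 422) (nat_lit 336))) (XT.nd (nat_lit 78) (nat_lit 228) (nat_lit 0) (XT.lf (nat_lit 0) (nat_lit 8787300492) (nat_lit 228)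 (nat_lit 19533529741) (nat_lit 76) (nat_lit 26996903775) (nat_lit 72) (nat_lit 5) (nat_lit 75) (nat_lit 5) (nat_lit 73) (nat_lit 5) (nat_lit 443) (nat_lit 422) (nat_lit 335)) (XT.lf (nat_lit 0) (nat_lit 28349238533) (nat_lit 304) (nat_lit 25409994071) (nat_lit 76) (nat_lit 4301696917) (nat_lit 69) (nat_lit 5) (nat_lit 73) (nat_lit 5) (nat_lit 70) (nat_lit 5) (nat_lit 444) (nat_lit 422) (nat_lit 334))))))) (XT.nd (nat_lit 1014) (nat_lit 1292) (nat_lit 0) (XT.nd (nat_lit 468) (nat_lit 988) (nat_lit 0) (XT.nd (nat_lit 234) (nat_lit 532) (nat_lit 0) (XT.nd (nat_lit 78) (nat_lit 380) (nat_lit 0) (XT.lf (nat_lit 0) (nat_lit 29141041839) (nat_lit 152) (nat_lit 21607271840) (nat_lit 228) (nat_lit 10211659205) (nat_lit 67) (nat_lit 5) (nat_lit 69) (nat_lit 5) (nat_lit 70) (nat_lit 5) (nat_lit 445) (nat_lit 422) (nat_lit 333)) (XT.nd (nat_lit 78) (nat_lit 152) (nat_lit 0) (XT.lf (nat_lit 0) (nat_lit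 11565033327) (nat_lit 228) (nat_lit 38736124629) (nat_lit 76) (nat_lit 13728120539) (nat_lit 64) (nat_lit 5) (nat_lit 67) (nat_lit 5) (nat_lit 65) (nat_lit 5) (nat_lit 446) (nat_lit 422) (nat_lit 332)) (XT.lf (nat_lit 0) (nat_lit 20908360499) (nat_lit 152) (nat_lit 15070936176) (nat_lit 228) (nat_lit 31293802628) (nat_lit 62) (nat_lit 5) (nat_lit 64) (nat_lit 5) (nat_lit 65) (nat_lit 5) (nat_lit 447) (nat_lit 422) (nat_lit 331)))) (XT.nd (nat_lit 78) (nat_lit 380) (nat_lit 0) (XT.lf (nat_lit 0) (nat_lit 16101433371) (nat_lit 152) (nat_lit 47535744914) (nat_lit 228) (nat_lit 7074724621) (nat_lit 60) (nat_lit 5) (nat_lit 62) (nat_lit 5) (nat_lit 63) (nat_lit 5) (nat_lit 448) (nat_lit 422) (nat_lit 330)) (XT.nd (nat_lit 78) (nat_lit 152) (nat_lit 0) (XT.lf (nat_lit 0) (nat_lit 10600272661) (nat_lit 152) (nat_lit 9106081410) (nat_lit 228) (nat_lit 54642800832) (nat_lit 57) (nat_lit 5) (nat_lit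 59) (nat_lit 5) (nat_lit 60) (nat_lit 5) (nat_lit 449) (nat_lit 422) (nat_lit 329)) (XT.lf (nat_lit 0) (nat_lit 4234316028) (nat_lit 152) (nat_lit 45684771663) (nat_lit 228) (nat_lit 28275649596) (nat_lit 55) (nat_lit 5) (nat_lit 57) (nat_lit 5) (nat_lit 58) (nat_lit 5) (nat_lit 450) (nat_lit 422) (nat_lit 328))))) (XT.nd (nat_lit 234) (nat_lit 608) (nat_lit 0) (XT.nd (nat_lit 78) (nat_lit 304) (nat_lit 0) (XT.lf (nat_lit 0) (nat_lit 1471738231) (nat_lit 228) (nat_lit 2543164623) (nat_lit 76) (nat_lit 78269042626) (nat_lit 54) (nat_lit 5) (nat_lit 57) (nat_lit 5) (nat_lit 55) (nat_lit 5) (nat_lit 451) (nat_lit 422) (nat_lit 327)) (XT.nd (nat_lit 78) (nat_lit 152) (nat_lit 0) (XT.lf (nat_lit 0) (nat_lit 34479476328) (nat_lit 228) (nat_lit 10731186963) (nat_lit 76) (nat_lit 41372890921) (nat_lit 52) (nat_lit 5) (nat_lit 55) (nat_lit 5) (nat_lit 53) (nat_lit 5) (nat_lit 452) (nat_lit 422) (nat_lit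 326)) (XT.lf (nat_lit 0) (nat_lit 71357922825) (nat_lit 228) (nat_lit 19568639627) (nat_lit 76) (nat_lit 239065337) (nat_lit 50) (nat_lit 5) (nat_lit 53) (nat_lit 5) (nat_lit 51) (nat_lit 4) (nat_lit 453) (nat_lit 422) (nat_lit 325)))) (XT.nd (nat_lit 156) (nat_lit 304) (nat_lit 0) (XT.nd (nat_lit 78) (nat_lit 152) (nat_lit 0) (XT.lf (nat_lit 0) (nat_lit 16603071607) (nat_lit 152) (nat_lit 30149523901) (nat_lit 76) (nat_lit 49249250978) (nat_lit 48) (nat_lit 5) (nat_lit 50) (nat_lit 5) (nat_lit 49) (nat_lit 5) (nat_lit 454) (nat_lit 422) (nat_lit 324)) (XT.lf (nat_lit 0) (nat_lit 56548954717) (nat_lit 228) (nat_lit 42042203480) (nat_lit 76) (nat_lit 2551758662) (nat_lit 46) (nat_lit 5) (nat_lit 49) (nat_lit 5) (nat_lit 47) (nat_lit 4) (nat_lit 455) (nat_lit 422) (nat_lit 323))) (XT.nd (nat_lit 78) (nat_lit 228) (nat_lit 0) (XT.lf (nat_lit 0) (nat_lit 50717801704) (nat_lit 76) (nat_lit 51082739795)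 (nat_lit 152) (nat_lit 4789230173) (nat_lit 45) (nat_lit 5) (nat_lit 46) (nat_lit 5) (nat_lit 47) (nat_lit 4) (nat_lit 456) (nat_lit 422) (nat_lit 322)) (XT.lf (nat_lit 0) (nat_lit 38388307310) (nat_lit 228) (nat_lit 71759808425) (nat_lit 76) (nat_lit 2223886099) (nat_lit 42) (nat_lit 5) (nat_lit 45) (nat_lit 5) (nat_lit 43) (nat_lit 4) (nat_lit 457) (nat_lit 422) (nat_lit 321)))))) (XT.nd (nat_lit 546) (nat_lit 532) (nat_lit 0) (XT.nd (nat_lit 234) (nat_lit 456) (nat_lit 0) (XT.nd (nat_lit 78) (nat_lit 228) (nat_lit 0) (XT.lf (nat_lit 0) (nat_lit 28179186168) (nat_lit 76) (nat_lit 58962139524) (nat_lit 152) (nat_lit 31357106038) (nat_lit 41) (nat_lit 5) (nat_lit 42) (nat_lit 5) (nat_lit 43) (nat_lit 4) (nat_lit 458) (nat_lit 422) (nat_lit 320)) (XT.nd (nat_lit 78) (nat_lit 0) (nat_lit 0) (XT.lf (nat_lit 0) (nat_lit 13809036597) (nat_lit 152) (nat_lit 1883259943) (nat_lit 228) (nat_lit 109337094008)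 (nat_lit 38) (nat_lit 5) (nat_lit 40) (nat_lit 5) (nat_lit 41) (nat_lit 5) (nat_lit 459) (nat_lit 422) (nat_lit 319)) (XT.lf (nat_lit 0) (nat_lit 67950431892) (nat_lit 228) (nat_lit 4005329403) (nat_lit 76) (nat_lit 59974193496) (nat_lit 38) (nat_lit 5) (nat_lit 41) (nat_lit 5) (nat_lit 39) (nat_lit 4) (nat_lit 460) (nat_lit 422) (nat_lit 318)))) (XT.nd (nat_lit 156) (nat_lit 228) (nat_lit 0) (XT.nd (nat_lit 78) (nat_lit 152) (nat_lit 0) (XT.lf (nat_lit 0) (nat_lit 115444111676) (nat_lit 76) (nat_lit 10776071045) (nat_lit 152) (nat_lit 13070833508) (nat_lit 37) (nat_lit 5) (nat_lit 38) (nat_lit 5) (nat_lit 39) (nat_lit 4) (nat_lit 461) (nat_lit 422) (nat_lit 317)) (XT.lf (nat_lit 0) (nat_lit 43097314154) (nat_lit 152) (nat_lit 48136742362) (nat_lit 76) (nat_lit 55847781134) (nat_lit 35) (nat_lit 5) (nat_lit 37) (nat_lit 5) (nat_lit 36) (nat_lit 4) (nat_lit 462) (nat_lit 422) (nat_lit 316)))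 (XT.nd (nat_lit 78) (nat_lit 152) (nat_lit 0) (XT.lf (nat_lit 0) (nat_lit 79052464359) (nat_lit 76) (nat_lit 26089778482) (nat_lit 152) (nat_lit 50250905002) (nat_lit 34) (nat_lit 5) (nat_lit 35) (nat_lit 5) (nat_lit 36) (nat_lit 4) (nat_lit 463) (nat_lit 422) (nat_lit 315)) (XT.lf (nat_lit 0) (nat_lit 9968535632) (nat_lit 152) (nat_lit 109556707624) (nat_lit 76) (nat_lit 44716236018) (nat_lit 32) (nat_lit 5) (nat_lit 34) (nat_lit 5) (nat_lit 33) (nat_lit 4) (nat_lit 464) (nat_lit 422) (nat_lit 314))))) (XT.nd (nat_lit 234) (nat_lit 304) (nat_lit 0) (XT.nd (nat_lit 78) (nat_lit 152) (nat_lit 0) (XT.lf (nat_lit 0) (nat_lit 24662103193) (nat_lit 76) (nat_lit 50780176988) (nat_lit 152) (nat_lit 98204343183) (nat_lit 31) (nat_lit 5) (nat_lit 32) (nat_lit 5) (nat_lit 33) (nat_lit 4) (nat_lit 465) (nat_lit 422) (nat_lit 313)) (XT.nd (nat_lit 78) (nat_lit 152) (nat_lit 0) (XT.lf (nat_lit 0) (nat_lit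 148457240591) (nat_lit 152) (nat_lit 10580971652) (nat_lit 0) (nat_lit 24650801099) (nat_lit 31) (nat_lit 5) (nat_lit 33) (nat_lit 4) (nat_lit 31) (nat_lit 4) (nat_lit 466) (nat_lit 422) (nat_lit 312)) (XT.lf (nat_lit 0) (nat_lit 34860052763) (nat_lit 152) (nat_lit 52345262795) (nat_lit 76) (nat_lit 107147362349) (nat_lit 29) (nat_lit 5) (nat_lit 31) (nat_lit 5) (nat_lit 30) (nat_lit 4) (nat_lit 467) (nat_lit 422) (nat_lit 311)))) (XT.nd (nat_lit 156) (nat_lit 152) (nat_lit 0) (XT.nd (nat_lit 78) (nat_lit 76) (nat_lit 0) (XT.lf (nat_lit 0) (nat_lit 104048899611) (nat_lit 76) (nat_lit 7101860861) (nat_lit 152) (nat_lit 94598502515) (nat_lit 28) (nat_lit 5) (nat_lit 29) (nat_lit 5) (nat_lit 30) (nat_lit 4) (nat_lit 468) (nat_lit 422) (nat_lit 310)) (XT.lf (nat_lit 0) (nat_lit 57389306061) (nat_lit 76) (nat_lit 139215636311) (nat_lit 76) (nat_lit 21299621757) (nat_lit 27) (nat_lit 4) (nat_lit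 28) (nat_lit 5) (nat_lit 28) (nat_lit 4) (nat_lit 469) (nat_lit 422) (nat_lit 309))) (XT.nd (nat_lit 78) (nat_lit 0) (nat_lit 0) (XT.lf (nat_lit 0) (nat_lit 865144445) (nat_lit 76) (nat_lit 57077596651) (nat_lit 152) (nat_lit 172947800349) (nat_lit 25) (nat_lit 5) (nat_lit 26) (nat_lit 5) (nat_lit 27) (nat_lit 4) (nat_lit 470) (nat_lit 422) (nat_lit 308)) (XT.lf (nat_lit 0) (nat_lit 146121771258) (nat_lit 152) (nat_lit 64790864825) (nat_lit 0) (nat_lit 33818126603) (nat_lit 25) (nat_lit 5) (nat_lit 27) (nat_lit 4) (nat_lit 25) (nat_lit 4) (nat_lit 471) (nat_lit 422) (nat_lit 307))))))))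
noncomputable def xc83 : XT := (XT.nd (nat_lit 58812) (nat_lit 0) (nat_lit 3648) (XT.nd (nat_lit 1014) (nat_lit 456) (nat_lit 0) (XT.nd (nat_lit 468) (nat_lit 456) (nat_lit 0) (XT.nd (nat_lit 234) (nat_lit 228) (nat_lit 0) (XT.nd (nat_lit 78) (nat_lit 152) (nat_lit 0) (XT.lf (nat_lit 0) (nat_lit 116422202709) (nat_lit 76) (nat_lit 127710966851) (nat_lit 76) (nat_lit 15406129882) (nat_lit 24) (nat_lit 4) (nat_lit 25) (nat_lit 5) (nat_lit 25) (nat_lit 4) (nat_lit 472) (nat_lit 422) (nat_lit 306)) (XT.nd (nat_lit 78) (nat_lit 0) (nat_lit 0) (XT.lf (nat_lit 0) (nat_lit 39034387745) (nat_lit 76) (nat_lit 34790162843) (nat_lit 152) (nat_lit 201562120183) (nat_lit 22) (nat_lit 5) (nat_lit 23) (nat_lit 5) (nat_lit 24) (nat_lit 4) (nat_lit 473) (nat_lit 422) (nat_lit 305)) (XT.lf (nat_lit 0) (nat_lit 173216722424) (nat_lit 152) (nat_lit 52836631984) (nat_lit 0) (nat_lit 66257709873) (nat_lit 22) (nat_lit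 5) (nat_lit 24) (nat_lit 4) (nat_lit 22) (nat_lit 4) (nat_lit 474) (nat_lit 422) (nat_lit 304)))) (XT.nd (nat_lit 78) (nat_lit 152) (nat_lit 0) (XT.lf (nat_lit 0) (nat_lit 149556862115) (nat_lit 76) (nat_lit 133923234880) (nat_lit 76) (nat_lit 26963320903) (nat_lit 21) (nat_lit 4) (nat_lit 22) (nat_lit 5) (nat_lit 22) (nat_lit 4) (nat_lit 475) (nat_lit 422) (nat_lit 303)) (XT.nd (nat_lit 78) (nat_lit 0) (nat_lit 0) (XT.lf (nat_lit 0) (nat_lit 40183338281) (nat_lit 76) (nat_lit 31594265090) (nat_lit 152) (nat_lit 258114075464) (nat_lit 19) (nat_lit 5) (nat_lit 20) (nat_lit 5) (nat_lit 21) (nat_lit 4) (nat_lit 476) (nat_lit 422) (nat_lit 302)) (XT.lf (nat_lit 0) (nat_lit 181564735305) (nat_lit 152) (nat_lit 89407764830) (nat_lit 0) (nat_lit 79696619631) (nat_lit 19) (nat_lit 5) (nat_lit 21) (nat_lit 4) (nat_lit 19) (nat_lit 4) (nat_lit 477) (nat_lit 422) (nat_lit 301))))) (XT.nd (nat_lit 234)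 (nat_lit 228) (nat_lit 0) (XT.nd (nat_lit 78) (nat_lit 152) (nat_lit 0) (XT.lf (nat_lit 0) (nat_lit 130559745661) (nat_lit 76) (nat_lit 172144664467) (nat_lit 76) (nat_lit 70275867288) (nat_lit 18) (nat_lit 4) (nat_lit 19) (nat_lit 5) (nat_lit 19) (nat_lit 4) (nat_lit 478) (nat_lit 422) (nat_lit 300)) (XT.nd (nat_lit 78) (nat_lit 76) (nat_lit 0) (XT.lf (nat_lit 0) (nat_lit 36873451935) (nat_lit 152) (nat_lit 26278851734) (nat_lit 76) (nat_lit 333816491043) (nat_lit 17) (nat_lit 5) (nat_lit 19) (nat_lit 5) (nat_lit 18) (nat_lit 4) (nat_lit 479) (nat_lit 422) (nat_lit 299)) (XT.lf (nat_lit 0) (nat_lit 154411826901) (nat_lit 152) (nat_lit 210800234263) (nat_lit 0) (nat_lit 57392767393) (nat_lit 16) (nat_lit 5) (nat_lit 18) (nat_lit 4) (nat_lit 16) (nat_lit 4) (nat_lit 480) (nat_lit 422) (nat_lit 298)))) (XT.nd (nat_lit 156) (nat_lit 152) (nat_lit 0) (XT.nd (nat_lit 78) (nat_lit 0) (nat_lit 0)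 (XT.lf (nat_lit 0) (nat_lit 19141840260) (nat_lit 76) (nat_lit 264039049377) (nat_lit 76) (nat_lit 167019474629) (nat_lit 15) (nat_lit 4) (nat_lit 16) (nat_lit 5) (nat_lit 16) (nat_lit 4) (nat_lit 481) (nat_lit 422) (nat_lit 297)) (XT.lf (nat_lit 0) (nat_lit 275004288328) (nat_lit 76) (nat_lit 150917885764) (nat_lit 76) (nat_lit 53897833943) (nat_lit 15) (nat_lit 4) (nat_lit 16) (nat_lit 5) (nat_lit 16) (nat_lit 4) (nat_lit 482) (nat_lit 422) (nat_lit 296))) (XT.nd (nat_lit 78) (nat_lit 0) (nat_lit 0) (XT.lf (nat_lit 0) (nat_lit 39729717908) (nat_lit 76) (nat_lit 26977702317) (nat_lit 152) (nat_lit 445017552963) (nat_lit 13) (nat_lit 5) (nat_lit 14) (nat_lit 5) (nat_lit 15) (nat_lit 4) (nat_lit 483) (nat_lit 422) (nat_lit 295)) (XT.lf (nat_lit 0) (nat_lit 200391733886) (nat_lit 152) (nat_lit 237489601014) (nat_lit 0) (nat_lit 107990874298) (nat_lit 13) (nat_lit 5) (nat_lit 15) (nat_lit 4)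 (nat_lit 13) (nat_lit 4) (nat_lit 484) (nat_lit 422) (nat_lit 294)))))) (XT.nd (nat_lit 546) (nat_lit 152) (nat_lit 0) (XT.nd (nat_lit 234) (nat_lit 152) (nat_lit 0) (XT.nd (nat_lit 78) (nat_lit 76) (nat_lit 0) (XT.lf (nat_lit 0) (nat_lit 15825934473) (nat_lit 76) (nat_lit 329645733085) (nat_lit 76) (nat_lit 237244512814) (nat_lit 12) (nat_lit 4) (nat_lit 13) (nat_lit 5) (nat_lit 13) (nat_lit 4) (nat_lit 485) (nat_lit 422) (nat_lit 293)) (XT.nd (nat_lit 78) (nat_lit 76) (nat_lit 0) (XT.lf (nat_lit 0) (nat_lit 297885279218) (nat_lit 76) (nat_lit 208408575669) (nat_lit 76) (nat_lit 116007021434) (nat_lit 12) (nat_lit 4) (nat_lit 13) (nat_lit 5) (nat_lit 13) (nat_lit 4) (nat_lit 486) (nat_lit 422) (nat_lit 292)) (XT.lf (nat_lit 0) (nat_lit 14450638543) (nat_lit 152) (nat_lit 62778054448) (nat_lit 76) (nat_lit 587812050161) (nat_lit 11) (nat_lit 5) (nat_lit 13) (nat_lit 5) (nat_lit 12) (nat_lit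 4) (nat_lit 487) (nat_lit 422) (nat_lit 291)))) (XT.nd (nat_lit 156) (nat_lit 76) (nat_lit 0) (XT.nd (nat_lit 78) (nat_lit 0) (nat_lit 0) (XT.lf (nat_lit 0) (nat_lit 155943259841) (nat_lit 152) (nat_lit 486987105886) (nat_lit 0) (nat_lit 67941212429) (nat_lit 10) (nat_lit 5) (nat_lit 12) (nat_lit 4) (nat_lit 10) (nat_lit 4) (nat_lit 488) (nat_lit 422) (nat_lit 290)) (XT.lf (nat_lit 0) (nat_lit 311168094182) (nat_lit 152) (nat_lit 225914351350) (nat_lit 0) (nat_lit 223165794282) (nat_lit 10) (nat_lit 5) (nat_lit 12) (nat_lit 4) (nat_lit 10) (nat_lit 4) (nat_lit 489) (nat_lit 422) (nat_lit 289))) (XT.nd (nat_lit 78) (nat_lit 0) (nat_lit 0) (XT.lf (nat_lit 0) (nat_lit 57895586174) (nat_lit 76) (nat_lit 421818413850) (nat_lit 76) (nat_lit 333815880165) (nat_lit 9) (nat_lit 4) (nat_lit 10) (nat_lit 5) (nat_lit 10) (nat_lit 4) (nat_lit 490) (nat_lit 422) (nat_lit 288)) (XT.lf (nat_lit 0) (nat_lit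 372476061657) (nat_lit 76) (nat_lit 293202007872) (nat_lit 76) (nat_lit 205199257720) (nat_lit 9) (nat_lit 4) (nat_lit 10) (nat_lit 5) (nat_lit 10) (nat_lit 4) (nat_lit 491) (nat_lit 422) (nat_lit 287))))) (XT.nd (nat_lit 234) (nat_lit 0) (nat_lit 0) (XT.nd (nat_lit 78) (nat_lit 152) (nat_lit 0) (XT.lf (nat_lit 0) (nat_lit 712221506981) (nat_lit 76) (nat_lit 154297025160) (nat_lit 76) (nat_lit 66294074575) (nat_lit 9) (nat_lit 4) (nat_lit 10) (nat_lit 5) (nat_lit 10) (nat_lit 4) (nat_lit 492) (nat_lit 422) (nat_lit 286)) (XT.nd (nat_lit 78) (nat_lit 0) (nat_lit 0) (XT.lf (nat_lit 0) (nat_lit 80718845460) (nat_lit 76) (nat_lit 1584560213) (nat_lit 152) (nat_lit 917270967037) (nat_lit 7) (nat_lit 5) (nat_lit 8) (nat_lit 5) (nat_lit 9) (nat_lit 4) (nat_lit 493) (nat_lit 422) (nat_lit 285)) (XT.lf (nat_lit 0) (nat_lit 246952263753) (nat_lit 152) (nat_lit 661206577339) (nat_lit 0) (nat_lit 163139589457)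 (nat_lit 7) (nat_lit 5) (nat_lit 9) (nat_lit 4) (nat_lit 7) (nat_lit 4) (nat_lit 494) (nat_lit 422) (nat_lit 284)))) (XT.nd (nat_lit 56862) (nat_lit 0) (nat_lit 8968) (XT.nd (nat_lit 78) (nat_lit 0) (nat_lit 0) (XT.lf (nat_lit 0) (nat_lit 424799129364) (nat_lit 152) (nat_lit 382973675185) (nat_lit 0) (nat_lit 340986303536) (nat_lit 7) (nat_lit 5) (nat_lit 9) (nat_lit 4) (nat_lit 7) (nat_lit 4) (nat_lit 495) (nat_lit 422) (nat_lit 283)) (XT.lf (nat_lit 0) (nat_lit 616873170434) (nat_lit 152) (nat_lit 82483293793) (nat_lit 0) (nat_lit 533060204297) (nat_lit 7) (nat_lit 5) (nat_lit 9) (nat_lit 4) (nat_lit 7) (nat_lit 4) (nat_lit 496) (nat_lit 422) (nat_lit 282))) (XT.nd (nat_lit 78) (nat_lit 0) (nat_lit 76) (XT.lf (nat_lit 0) (nat_lit 3216739759) (nat_lit 836) (nat_lit 4376726555) (nat_lit 836) (nat_lit 4376726555) (nat_lit 125) (nat_lit 3) (nat_lit 136) (nat_lit 3) (nat_lit 136) (nat_lit 5)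 (nat_lit 423) (nat_lit 423) (nat_lit 354)) (XT.lf (nat_lit 0) (nat_lit 7080591704) (nat_lit 760) (nat_lit 14591300860) (nat_lit 836) (nat_lit 3206551244) (nat_lit 126) (nat_lit 5) (nat_lit 136) (nat_lit 5) (nat_lit 137) (nat_lit 5) (nat_lit 424) (nat_lit 423) (nat_lit 353))))))) (XT.nd (nat_lit 1014) (nat_lit 2812) (nat_lit 0) (XT.nd (nat_lit 468) (nat_lit 2128) (nat_lit 0) (XT.nd (nat_lit 234) (nat_lit 456) (nat_lit 0) (XT.nd (nat_lit 78) (nat_lit 0) (nat_lit 76) (XT.lf (nat_lit 76) (nat_lit 5176124087) (nat_lit 0) (nat_lit 3077531994) (nat_lit 836) (nat_lit 17614188158) (nat_lit 127) (nat_lit 5) (nat_lit 126) (nat_lit 5) (nat_lit 137) (nat_lit 5) (nat_lit 425) (nat_lit 423) (nat_lit 352)) (XT.nd (nat_lit 78) (nat_lit 0) (nat_lit 76) (XT.lf (nat_lit 0) (nat_lit 10027951728) (nat_lit 760) (nat_lit 158431192) (nat_lit 836) (nat_lit 16724650841) (nat_lit 127) (nat_lit 5) (nat_lit 137) (nat_lit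 5) (nat_lit 138) (nat_lit 5) (nat_lit 426) (nat_lit 423) (nat_lit 351)) (XT.lf (nat_lit 0) (nat_lit 12496517727) (nat_lit 760) (nat_lit 5498371270) (nat_lit 836) (nat_lit 10015179008) (nat_lit 128) (nat_lit 5) (nat_lit 138) (nat_lit 5) (nat_lit 139) (nat_lit 5) (nat_lit 427) (nat_lit 423) (nat_lit 350)))) (XT.nd (nat_lit 78) (nat_lit 684) (nat_lit 0) (XT.lf (nat_lit 0) (nat_lit 15647731461) (nat_lit 760) (nat_lit 11010899079) (nat_lit 836) (nat_lit 2514141782) (nat_lit 129) (nat_lit 5) (nat_lit 139) (nat_lit 5) (nat_lit 140) (nat_lit 5) (nat_lit 428) (nat_lit 423) (nat_lit 349)) (XT.nd (nat_lit 78) (nat_lit 684) (nat_lit 0) (XT.lf (nat_lit 76) (nat_lit 13607236651) (nat_lit 0) (nat_lit 6043791719) (nat_lit 836) (nat_lit 10747470363) (nat_lit 130) (nat_lit 5) (nat_lit 129) (nat_lit 5) (nat_lit 140) (nat_lit 5) (nat_lit 429) (nat_lit 423) (nat_lit 348)) (XT.lf (nat_lit 0) (nat_lit 8892507342)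 (nat_lit 760) (nat_lit 15656722995) (nat_lit 836) (nat_lit 7144325532) (nat_lit 120) (nat_lit 5) (nat_lit 130) (nat_lit 5) (nat_lit 131) (nat_lit 5) (nat_lit 430) (nat_lit 423) (nat_lit 347))))) (XT.nd (nat_lit 234) (nat_lit 1292) (nat_lit 0) (XT.nd (nat_lit 78) (nat_lit 456) (nat_lit 0) (XT.lf (nat_lit 0) (nat_lit 4064011701) (nat_lit 380) (nat_lit 26327492285) (nat_lit 456) (nat_lit 2673107148) (nat_lit 115) (nat_lit 5) (nat_lit 120) (nat_lit 5) (nat_lit 121) (nat_lit 5) (nat_lit 431) (nat_lit 423) (nat_lit 346)) (XT.nd (nat_lit 78) (nat_lit 380) (nat_lit 0) (XT.lf (nat_lit 0) (nat_lit 2743394899) (nat_lit 456) (nat_lit 948222127) (nat_lit 76) (nat_lit 30819225425) (nat_lit 114) (nat_lit 5) (nat_lit 120) (nat_lit 5) (nat_lit 115) (nat_lit 5) (nat_lit 432) (nat_lit 423) (nat_lit 345)) (XT.lf (nat_lit 0) (nat_lit 9295532138) (nat_lit 456) (nat_lit 6118347632) (nat_lit 76) (nat_lit 20616906586)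 (nat_lit 109) (nat_lit 5) (nat_lit 115) (nat_lit 5) (nat_lit 110) (nat_lit 5) (nat_lit 433) (nat_lit 423) (nat_lit 344)))) (XT.nd (nat_lit 156) (nat_lit 608) (nat_lit 0) (XT.nd (nat_lit 78) (nat_lit 304) (nat_lit 0) (XT.lf (nat_lit 0) (nat_lit 17001674419) (nat_lit 456) (nat_lit 11421241215) (nat_lit 76) (nat_lit 9217921711) (nat_lit 104) (nat_lit 5) (nat_lit 110) (nat_lit 5) (nat_lit 105) (nat_lit 5) (nat_lit 434) (nat_lit 423) (nat_lit 343)) (XT.lf (nat_lit 0) (nat_lit 22434819899) (nat_lit 304) (nat_lit 3598865336) (nat_lit 380) (nat_lit 13310541352) (nat_lit 100) (nat_lit 5) (nat_lit 104) (nat_lit 5) (nat_lit 105) (nat_lit 5) (nat_lit 435) (nat_lit 423) (nat_lit 342))) (XT.nd (nat_lit 78) (nat_lit 304) (nat_lit 0) (XT.lf (nat_lit 0) (nat_lit 18447824684) (nat_lit 304) (nat_lit 18184436010) (nat_lit 380) (nat_lit 4509428894) (nat_lit 96) (nat_lit 5) (nat_lit 100) (nat_lit 5) (nat_lit 101)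 (nat_lit 5) (nat_lit 436) (nat_lit 423) (nat_lit 341)) (XT.lf (nat_lit 0) (nat_lit 5555262901) (nat_lit 304) (nat_lit 28712617531) (nat_lit 76) (nat_lit 8775202461) (nat_lit 92) (nat_lit 5) (nat_lit 96) (nat_lit 5) (nat_lit 93) (nat_lit 5) (nat_lit 437) (nat_lit 423) (nat_lit 340)))))) (XT.nd (nat_lit 546) (nat_lit 1292) (nat_lit 0) (XT.nd (nat_lit 234) (nat_lit 760) (nat_lit 0) (XT.nd (nat_lit 78) (nat_lit 456) (nat_lit 0) (XT.lf (nat_lit 0) (nat_lit 9970279891) (nat_lit 304) (nat_lit 7155216052) (nat_lit 380) (nat_lit 27924480040) (nat_lit 88) (nat_lit 5) (nat_lit 92) (nat_lit 5) (nat_lit 93) (nat_lit 5) (nat_lit 438) (nat_lit 423) (nat_lit 339)) (XT.nd (nat_lit 78) (nat_lit 228) (nat_lit 0) (XT.lf (nat_lit 0) (nat_lit 5389656526) (nat_lit 228) (nat_lit 25162209178) (nat_lit 304) (nat_lit 16619031037) (nat_lit 85) (nat_lit 5) (nat_lit 88) (nat_lit 5) (nat_lit 89) (nat_lit 5) (nat_lit 439)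 (nat_lit 423) (nat_lit 338)) (XT.lf (nat_lit 0) (nat_lit 744270966) (nat_lit 228) (nat_lit 45111748590) (nat_lit 304) (nat_lit 3565289843) (nat_lit 82) (nat_lit 5) (nat_lit 85) (nat_lit 5) (nat_lit 86) (nat_lit 5) (nat_lit 440) (nat_lit 423) (nat_lit 337)))) (XT.nd (nat_lit 156) (nat_lit 456) (nat_lit 0) (XT.nd (nat_lit 78) (nat_lit 228) (nat_lit 0) (XT.lf (nat_lit 0) (nat_lit 11352842347) (nat_lit 304) (nat_lit 4261797155) (nat_lit 76) (nat_lit 36171034738) (nat_lit 81) (nat_lit 5) (nat_lit 85) (nat_lit 5) (nat_lit 82) (nat_lit 5) (nat_lit 441) (nat_lit 423) (nat_lit 336)) (XT.lf (nat_lit 0) (nat_lit 28304783960) (nat_lit 304) (nat_lit 9486855151) (nat_lit 76) (nat_lit 16496364933) (nat_lit 78) (nat_lit 5) (nat_lit 82) (nat_lit 5) (nat_lit 79) (nat_lit 5) (nat_lit 442) (nat_lit 423) (nat_lit 335))) (XT.nd (nat_lit 78) (nat_lit 228) (nat_lit 0) (XT.lf (nat_lit 0) (nat_lit 42026350866) (nat_lit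 228) (nat_lit 5575415794) (nat_lit 304) (nat_lit 9339310769) (nat_lit 75) (nat_lit 5) (nat_lit 78) (nat_lit 5) (nat_lit 79) (nat_lit 5) (nat_lit 443) (nat_lit 423) (nat_lit 334)) (XT.lf (nat_lit 0) (nat_lit 9606827795) (nat_lit 228) (nat_lit 20918601752) (nat_lit 76) (nat_lit 29211870454) (nat_lit 72) (nat_lit 5) (nat_lit 75) (nat_lit 5) (nat_lit 73) (nat_lit 5) (nat_lit 444) (nat_lit 423) (nat_lit 333))))) (XT.nd (nat_lit 234) (nat_lit 684) (nat_lit 0) (XT.nd (nat_lit 78) (nat_lit 380) (nat_lit 0) (XT.lf (nat_lit 0) (nat_lit 30728666817) (nat_lit 304) (nat_lit 27268276428) (nat_lit 76) (nat_lit 4703262506) (nat_lit 69) (nat_lit 5) (nat_lit 73) (nat_lit 5) (nat_lit 70) (nat_lit 5) (nat_lit 445) (nat_lit 423) (nat_lit 332)) (XT.nd (nat_lit 78) (nat_lit 228) (nat_lit 0) (XT.lf (nat_lit 0) (nat_lit 31639258052) (nat_lit 152) (nat_lit 23274757753) (nat_lit 228) (nat_lit 10917441140) (nat_lit 67)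 (nat_lit 5) (nat_lit 69) (nat_lit 5) (nat_lit 70) (nat_lit 5) (nat_lit 446) (nat_lit 423) (nat_lit 331)) (XT.lf (nat_lit 0) (nat_lit 12593357173) (nat_lit 228) (nat_lit 41667737035) (nat_lit 76) (nat_lit 14885351179) (nat_lit 64) (nat_lit 5) (nat_lit 67) (nat_lit 5) (nat_lit 65) (nat_lit 5) (nat_lit 447) (nat_lit 423) (nat_lit 330)))) (XT.nd (nat_lit 156) (nat_lit 380) (nat_lit 0) (XT.nd (nat_lit 78) (nat_lit 152) (nat_lit 0) (XT.lf (nat_lit 0) (nat_lit 22741037224) (nat_lit 152) (nat_lit 16214583931) (nat_lit 228) (nat_lit 33694409159) (nat_lit 62) (nat_lit 5) (nat_lit 64) (nat_lit 5) (nat_lit 65) (nat_lit 5) (nat_lit 448) (nat_lit 423) (nat_lit 329)) (XT.lf (nat_lit 0) (nat_lit 17546379097) (nat_lit 152) (nat_lit 51275841619) (nat_lit 228) (nat_lit 7541914443) (nat_lit 60) (nat_lit 5) (nat_lit 62) (nat_lit 5) (nat_lit 63) (nat_lit 5) (nat_lit 449) (nat_lit 423) (nat_lit 328))) (XT.nd (nat_lit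 78) (nat_lit 152) (nat_lit 0) (XT.lf (nat_lit 0) (nat_lit 11601349368) (nat_lit 152) (nat_lit 9772445524) (nat_lit 228) (nat_lit 58918731165) (nat_lit 57) (nat_lit 5) (nat_lit 59) (nat_lit 5) (nat_lit 60) (nat_lit 5) (nat_lit 450) (nat_lit 423) (nat_lit 327)) (XT.lf (nat_lit 0) (nat_lit 4722899883) (nat_lit 152) (nat_lit 49277149038) (nat_lit 228) (nat_lit 30445882107) (nat_lit 55) (nat_lit 5) (nat_lit 57) (nat_lit 5) (nat_lit 58) (nat_lit 5) (nat_lit 451) (nat_lit 423) (nat_lit 326))))))))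
noncomputable def xc84 : XT := (XT.nd (nat_lit 2028) (nat_lit 912) (nat_lit 0) (XT.nd (nat_lit 1014) (nat_lit 1140) (nat_lit 0) (XT.nd (nat_lit 468) (nat_lit 836) (nat_lit 0) (XT.nd (nat_lit 234) (nat_lit 380) (nat_lit 0) (XT.nd (nat_lit 78) (nat_lit 304) (nat_lit 0) (XT.lf (nat_lit 0) (nat_lit 1671774196) (nat_lit 228) (nat_lit 2605145334) (nat_lit 76) (nat_lit 84585614811) (nat_lit 54) (nat_lit 5) (nat_lit 57) (nat_lit 5) (nat_lit 55) (nat_lit 5) (nat_lit 452) (nat_lit 423) (nat_lit 325)) (XT.nd (nat_lit 78) (nat_lit 152) (nat_lit 0) (XT.lf (nat_lit 0) (nat_lit 37317038161) (nat_lit 228) (nat_lit 11451321048) (nat_lit 76) (nat_lit 44737908107) (nat_lit 52) (nat_lit 5) (nat_lit 55) (nat_lit 5) (nat_lit 53) (nat_lit 5) (nat_lit 453) (nat_lit 423) (nat_lit 324)) (XT.lf (nat_lit 0) (nat_lit 77142848823) (nat_lit 228) (nat_lit 20998891603) (nat_lit 76) (nat_lit 313312748) (nat_lit 50) (nat_lit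 5) (nat_lit 53) (nat_lit 5) (nat_lit 51) (nat_lit 4) (nat_lit 454) (nat_lit 423) (nat_lit 323)))) (XT.nd (nat_lit 78) (nat_lit 228) (nat_lit 0) (XT.lf (nat_lit 0) (nat_lit 18005178263) (nat_lit 152) (nat_lit 32429672753) (nat_lit 76) (nat_lit 53243441122) (nat_lit 48) (nat_lit 5) (nat_lit 50) (nat_lit 5) (nat_lit 49) (nat_lit 5) (nat_lit 455) (nat_lit 423) (nat_lit 322)) (XT.nd (nat_lit 78) (nat_lit 76) (nat_lit 0) (XT.lf (nat_lit 0) (nat_lit 61144099420) (nat_lit 228) (nat_lit 45276838911) (nat_lit 76) (nat_lit 2809842108) (nat_lit 46) (nat_lit 5) (nat_lit 49) (nat_lit 5) (nat_lit 47) (nat_lit 4) (nat_lit 456) (nat_lit 423) (nat_lit 321)) (XT.lf (nat_lit 0) (nat_lit 54898371767) (nat_lit 76) (nat_lit 55114087859) (nat_lit 152) (nat_lit 5101092306) (nat_lit 45) (nat_lit 5) (nat_lit 46) (nat_lit 5) (nat_lit 47) (nat_lit 4) (nat_lit 457) (nat_lit 423) (nat_lit 320))))) (XT.nd (nat_lit 234) (nat_lit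 304) (nat_lit 0) (XT.nd (nat_lit 78) (nat_lit 304) (nat_lit 0) (XT.lf (nat_lit 0) (nat_lit 41525976043) (nat_lit 228) (nat_lit 77378161675) (nat_lit 76) (nat_lit 2454287236) (nat_lit 42) (nat_lit 5) (nat_lit 45) (nat_lit 5) (nat_lit 43) (nat_lit 4) (nat_lit 458) (nat_lit 423) (nat_lit 319)) (XT.nd (nat_lit 78) (nat_lit 228) (nat_lit 0) (XT.lf (nat_lit 0) (nat_lit 30550631766) (nat_lit 76) (nat_lit 63625498916) (nat_lit 152) (nat_lit 33798994326) (nat_lit 41) (nat_lit 5) (nat_lit 42) (nat_lit 5) (nat_lit 43) (nat_lit 4) (nat_lit 459) (nat_lit 423) (nat_lit 318)) (XT.lf (nat_lit 0) (nat_lit 15027827926) (nat_lit 152) (nat_lit 1981398090) (nat_lit 228) (nat_lit 118019432918) (nat_lit 38) (nat_lit 5) (nat_lit 40) (nat_lit 5) (nat_lit 41) (nat_lit 5) (nat_lit 460) (nat_lit 423) (nat_lit 317)))) (XT.nd (nat_lit 156) (nat_lit 228) (nat_lit 0) (XT.nd (nat_lit 78) (nat_lit 76) (nat_lit 0) (XT.lf (nat_lit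 0) (nat_lit 73444212536) (nat_lit 228) (nat_lit 4218041652) (nat_lit 76) (nat_lit 64819204527) (nat_lit 38) (nat_lit 5) (nat_lit 41) (nat_lit 5) (nat_lit 39) (nat_lit 4) (nat_lit 461) (nat_lit 423) (nat_lit 316)) (XT.lf (nat_lit 0) (nat_lit 124782673591) (nat_lit 76) (nat_lit 11590200985) (nat_lit 152) (nat_lit 14058664315) (nat_lit 37) (nat_lit 5) (nat_lit 38) (nat_lit 5) (nat_lit 39) (nat_lit 4) (nat_lit 462) (nat_lit 423) (nat_lit 315))) (XT.nd (nat_lit 78) (nat_lit 76) (nat_lit 0) (XT.lf (nat_lit 0) (nat_lit 46599236117) (nat_lit 152) (nat_lit 51885409676) (nat_lit 76) (nat_lit 60361027818) (nat_lit 35) (nat_lit 5) (nat_lit 37) (nat_lit 5) (nat_lit 36) (nat_lit 4) (nat_lit 463) (nat_lit 423) (nat_lit 314)) (XT.lf (nat_lit 0) (nat_lit 85474488963) (nat_lit 76) (nat_lit 28130787361) (nat_lit 152) (nat_lit 54216736746) (nat_lit 34) (nat_lit 5) (nat_lit 35) (nat_lit 5) (nat_lit 36) (nat_lit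 4) (nat_lit 464) (nat_lit 423) (nat_lit 313)))))) (XT.nd (nat_lit 468) (nat_lit 608) (nat_lit 0) (XT.nd (nat_lit 234) (nat_lit 304) (nat_lit 0) (XT.nd (nat_lit 78) (nat_lit 76) (nat_lit 0) (XT.lf (nat_lit 0) (nat_lit 10816825561) (nat_lit 152) (nat_lit 118224200268) (nat_lit 76) (nat_lit 48337227996) (nat_lit 32) (nat_lit 5) (nat_lit 34) (nat_lit 5) (nat_lit 33) (nat_lit 4) (nat_lit 465) (nat_lit 423) (nat_lit 312)) (XT.nd (nat_lit 78) (nat_lit 0) (nat_lit 0) (XT.lf (nat_lit 0) (nat_lit 26727898001) (nat_lit 76) (nat_lit 54798257468) (nat_lit 152) (nat_lit 106009769937) (nat_lit 31) (nat_lit 5) (nat_lit 32) (nat_lit 5) (nat_lit 33) (nat_lit 4) (nat_lit 466) (nat_lit 423) (nat_lit 311)) (XT.lf (nat_lit 0) (nat_lit 160379361548) (nat_lit 152) (nat_lit 11339891785) (nat_lit 0) (nat_lit 26662601044) (nat_lit 31) (nat_lit 5) (nat_lit 33) (nat_lit 4) (nat_lit 31) (nat_lit 4) (nat_lit 467) (nat_lit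 423) (nat_lit 310)))) (XT.nd (nat_lit 78) (nat_lit 152) (nat_lit 0) (XT.lf (nat_lit 0) (nat_lit 37693048205) (nat_lit 152) (nat_lit 56447667606) (nat_lit 76) (nat_lit 115757964169) (nat_lit 29) (nat_lit 5) (nat_lit 31) (nat_lit 5) (nat_lit 30) (nat_lit 4) (nat_lit 468) (nat_lit 423) (nat_lit 309)) (XT.nd (nat_lit 78) (nat_lit 76) (nat_lit 0) (XT.lf (nat_lit 0) (nat_lit 112454324400) (nat_lit 76) (nat_lit 7630687351) (nat_lit 152) (nat_lit 102122080347) (nat_lit 28) (nat_lit 5) (nat_lit 29) (nat_lit 5) (nat_lit 30) (nat_lit 4) (nat_lit 469) (nat_lit 423) (nat_lit 308)) (XT.lf (nat_lit 0) (nat_lit 62059853812) (nat_lit 76) (nat_lit 150314357335) (nat_lit 76) (nat_lit 22960672213) (nat_lit 27) (nat_lit 4) (nat_lit 28) (nat_lit 5) (nat_lit 28) (nat_lit 4) (nat_lit 470) (nat_lit 423) (nat_lit 307))))) (XT.nd (nat_lit 234) (nat_lit 380) (nat_lit 0) (XT.nd (nat_lit 78) (nat_lit 76) (nat_lit 0) (XT.lf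 (nat_lit 0) (nat_lit 1011624515) (nat_lit 76) (nat_lit 61606210395) (nat_lit 152) (nat_lit 186741964161) (nat_lit 25) (nat_lit 5) (nat_lit 26) (nat_lit 5) (nat_lit 27) (nat_lit 4) (nat_lit 471) (nat_lit 423) (nat_lit 306)) (XT.nd (nat_lit 78) (nat_lit 76) (nat_lit 0) (XT.lf (nat_lit 0) (nat_lit 157848792100) (nat_lit 152) (nat_lit 69901293958) (nat_lit 0) (nat_lit 36557271867) (nat_lit 25) (nat_lit 5) (nat_lit 27) (nat_lit 4) (nat_lit 25) (nat_lit 4) (nat_lit 472) (nat_lit 423) (nat_lit 305)) (XT.lf (nat_lit 0) (nat_lit 125805653438) (nat_lit 76) (nat_lit 137893775223) (nat_lit 76) (nat_lit 16601232774) (nat_lit 24) (nat_lit 4) (nat_lit 25) (nat_lit 5) (nat_lit 25) (nat_lit 4) (nat_lit 473) (nat_lit 423) (nat_lit 304)))) (XT.nd (nat_lit 156) (nat_lit 228) (nat_lit 0) (XT.nd (nat_lit 78) (nat_lit 0) (nat_lit 0) (XT.lf (nat_lit 0) (nat_lit 42224931472) (nat_lit 76) (nat_lit 37540151658) (nat_lit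 152) (nat_lit 217650791393) (nat_lit 22) (nat_lit 5) (nat_lit 23) (nat_lit 5) (nat_lit 24) (nat_lit 4) (nat_lit 474) (nat_lit 423) (nat_lit 303)) (XT.lf (nat_lit 0) (nat_lit 187106548383) (nat_lit 152) (nat_lit 56999670048) (nat_lit 0) (nat_lit 71588105209) (nat_lit 22) (nat_lit 5) (nat_lit 24) (nat_lit 4) (nat_lit 22) (nat_lit 4) (nat_lit 475) (nat_lit 423) (nat_lit 302))) (XT.nd (nat_lit 78) (nat_lit 152) (nat_lit 0) (XT.lf (nat_lit 0) (nat_lit 161582526890) (nat_lit 76) (nat_lit 144607013689) (nat_lit 76) (nat_lit 29087797688) (nat_lit 21) (nat_lit 4) (nat_lit 22) (nat_lit 5) (nat_lit 22) (nat_lit 4) (nat_lit 476) (nat_lit 423) (nat_lit 301)) (XT.lf (nat_lit 0) (nat_lit 43457464009) (nat_lit 76) (nat_lit 34092485059) (nat_lit 152) (nat_lit 278731556079) (nat_lit 19) (nat_lit 5) (nat_lit 20) (nat_lit 5) (nat_lit 21) (nat_lit 4) (nat_lit 477) (nat_lit 423) (nat_lit 300))))))) (XT.nd (nat_lit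 1014) (nat_lit 228) (nat_lit 0) (XT.nd (nat_lit 468) (nat_lit 380) (nat_lit 0) (XT.nd (nat_lit 234) (nat_lit 152) (nat_lit 0) (XT.nd (nat_lit 78) (nat_lit 152) (nat_lit 0) (XT.lf (nat_lit 0) (nat_lit 196118243032) (nat_lit 152) (nat_lit 96504359282) (nat_lit 0) (nat_lit 86098629549) (nat_lit 19) (nat_lit 5) (nat_lit 21) (nat_lit 4) (nat_lit 19) (nat_lit 4) (nat_lit 478) (nat_lit 423) (nat_lit 299)) (XT.nd (nat_lit 78) (nat_lit 76) (nat_lit 0) (XT.lf (nat_lit 0) (nat_lit 141058117194) (nat_lit 76) (nat_lit 185889712928) (nat_lit 76) (nat_lit 75869515164) (nat_lit 18) (nat_lit 4) (nat_lit 19) (nat_lit 5) (nat_lit 19) (nat_lit 4) (nat_lit 479) (nat_lit 423) (nat_lit 298)) (XT.lf (nat_lit 0) (nat_lit 39848802017) (nat_lit 152) (nat_lit 28330694629) (nat_lit 76) (nat_lit 360545527099) (nat_lit 17) (nat_lit 5) (nat_lit 19) (nat_lit 5) (nat_lit 18) (nat_lit 4) (nat_lit 480) (nat_lit 423) (nat_lit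 297)))) (XT.nd (nat_lit 78) (nat_lit 76) (nat_lit 0) (XT.lf (nat_lit 0) (nat_lit 166789487322) (nat_lit 152) (nat_lit 227615136738) (nat_lit 0) (nat_lit 62007354283) (nat_lit 16) (nat_lit 5) (nat_lit 18) (nat_lit 4) (nat_lit 16) (nat_lit 4) (nat_lit 481) (nat_lit 423) (nat_lit 296)) (XT.nd (nat_lit 78) (nat_lit 0) (nat_lit 0) (XT.lf (nat_lit 0) (nat_lit 20720169214) (nat_lit 76) (nat_lit 285138808692) (nat_lit 76) (nat_lit 180356233918) (nat_lit 15) (nat_lit 4) (nat_lit 16) (nat_lit 5) (nat_lit 16) (nat_lit 4) (nat_lit 482) (nat_lit 423) (nat_lit 295)) (XT.lf (nat_lit 0) (nat_lit 297048133000) (nat_lit 76) (nat_lit 162969682704) (nat_lit 76) (nat_lit 58186698917) (nat_lit 15) (nat_lit 4) (nat_lit 16) (nat_lit 5) (nat_lit 16) (nat_lit 4) (nat_lit 483) (nat_lit 423) (nat_lit 294))))) (XT.nd (nat_lit 234) (nat_lit 152) (nat_lit 0) (XT.nd (nat_lit 78) (nat_lit 76) (nat_lit 0) (XT.lf (nat_lit 0)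 (nat_lit 42950410014) (nat_lit 76) (nat_lit 29114844872) (nat_lit 152) (nat_lit 480596653511) (nat_lit 13) (nat_lit 5) (nat_lit 14) (nat_lit 5) (nat_lit 15) (nat_lit 4) (nat_lit 484) (nat_lit 423) (nat_lit 293)) (XT.nd (nat_lit 78) (nat_lit 76) (nat_lit 0) (XT.lf (nat_lit 0) (nat_lit 216443044876) (nat_lit 152) (nat_lit 256448909557) (nat_lit 0) (nat_lit 116649032337) (nat_lit 13) (nat_lit 5) (nat_lit 15) (nat_lit 4) (nat_lit 13) (nat_lit 4) (nat_lit 485) (nat_lit 423) (nat_lit 292)) (XT.lf (nat_lit 0) (nat_lit 17130136522) (nat_lit 76) (nat_lit 355998352565) (nat_lit 76) (nat_lit 256204030799) (nat_lit 12) (nat_lit 4) (nat_lit 13) (nat_lit 5) (nat_lit 13) (nat_lit 4) (nat_lit 486) (nat_lit 423) (nat_lit 291)))) (XT.nd (nat_lit 156) (nat_lit 76) (nat_lit 0) (XT.nd (nat_lit 78) (nat_lit 76) (nat_lit 0) (XT.lf (nat_lit 0) (nat_lit 321751404603) (nat_lit 76) (nat_lit 225063632865) (nat_lit 76)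 (nat_lit 125269024778) (nat_lit 12) (nat_lit 4) (nat_lit 13) (nat_lit 5) (nat_lit 13) (nat_lit 4) (nat_lit 487) (nat_lit 423) (nat_lit 290)) (XT.lf (nat_lit 0) (nat_lit 15623323318) (nat_lit 152) (nat_lit 67767060396) (nat_lit 76) (nat_lit 634852786790) (nat_lit 11) (nat_lit 5) (nat_lit 13) (nat_lit 5) (nat_lit 12) (nat_lit 4) (nat_lit 488) (nat_lit 423) (nat_lit 289))) (XT.nd (nat_lit 78) (nat_lit 0) (nat_lit 0) (XT.lf (nat_lit 0) (nat_lit 168434866767) (nat_lit 152) (nat_lit 525913733347) (nat_lit 0) (nat_lit 73391896602) (nat_lit 10) (nat_lit 5) (nat_lit 12) (nat_lit 4) (nat_lit 10) (nat_lit 4) (nat_lit 489) (nat_lit 423) (nat_lit 288)) (XT.lf (nat_lit 0) (nat_lit 336076491845) (nat_lit 152) (nat_lit 243957554079) (nat_lit 0) (nat_lit 241033305213) (nat_lit 10) (nat_lit 5) (nat_lit 12) (nat_lit 4) (nat_lit 10) (nat_lit 4) (nat_lit 490) (nat_lit 423) (nat_lit 287)))))) (XT.nd (nat_lit 57330)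 (nat_lit 0) (nat_lit 8588) (XT.nd (nat_lit 234) (nat_lit 152) (nat_lit 0) (XT.nd (nat_lit 78) (nat_lit 0) (nat_lit 0) (XT.lf (nat_lit 0) (nat_lit 62555877057) (nat_lit 76) (nat_lit 455549532892) (nat_lit 76) (nat_lit 360506145827) (nat_lit 9) (nat_lit 4) (nat_lit 10) (nat_lit 5) (nat_lit 10) (nat_lit 4) (nat_lit 491) (nat_lit 423) (nat_lit 286)) (XT.nd (nat_lit 78) (nat_lit 0) (nat_lit 0) (XT.lf (nat_lit 0) (nat_lit 402300668803) (nat_lit 76) (nat_lit 316644877701) (nat_lit 76) (nat_lit 221601305050) (nat_lit 9) (nat_lit 4) (nat_lit 10) (nat_lit 5) (nat_lit 10) (nat_lit 4) (nat_lit 492) (nat_lit 423) (nat_lit 285)) (XT.lf (nat_lit 0) (nat_lit 769223785144) (nat_lit 76) (nat_lit 166628480875) (nat_lit 76) (nat_lit 71584736386) (nat_lit 9) (nat_lit 4) (nat_lit 10) (nat_lit 5) (nat_lit 10) (nat_lit 4) (nat_lit 493) (nat_lit 423) (nat_lit 284)))) (XT.nd (nat_lit 156) (nat_lit 0) (nat_lit 0) (XT.nd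 (nat_lit 78) (nat_lit 0) (nat_lit 0) (XT.lf (nat_lit 0) (nat_lit 87200237555) (nat_lit 76) (nat_lit 1699343495) (nat_lit 152) (nat_lit 990640146081) (nat_lit 7) (nat_lit 5) (nat_lit 8) (nat_lit 5) (nat_lit 9) (nat_lit 4) (nat_lit 494) (nat_lit 423) (nat_lit 283)) (XT.lf (nat_lit 0) (nat_lit 266719639287) (nat_lit 152) (nat_lit 714080610203) (nat_lit 0) (nat_lit 176201495550) (nat_lit 7) (nat_lit 5) (nat_lit 9) (nat_lit 4) (nat_lit 7) (nat_lit 4) (nat_lit 495) (nat_lit 423) (nat_lit 282))) (XT.nd (nat_lit 56862) (nat_lit 0) (nat_lit 8968) (XT.lf (nat_lit 0) (nat_lit 458793424930) (nat_lit 152) (nat_lit 413590742048) (nat_lit 0) (nat_lit 368275151278) (nat_lit 7) (nat_lit 5) (nat_lit 9) (nat_lit 4) (nat_lit 7) (nat_lit 4) (nat_lit 496) (nat_lit 423) (nat_lit 281)) (XT.lf (nat_lit 0) (nat_lit 3646427275) (nat_lit 836) (nat_lit 4636348275) (nat_lit 836) (nat_lit 4636348275) (nat_lit 125) (nat_lit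 3) (nat_lit 136) (nat_lit 3) (nat_lit 136) (nat_lit 5) (nat_lit 424) (nat_lit 424) (nat_lit 352))))) (XT.nd (nat_lit 234) (nat_lit 456) (nat_lit 0) (XT.nd (nat_lit 78) (nat_lit 0) (nat_lit 0) (XT.lf (nat_lit 0) (nat_lit 7966584569) (nat_lit 760) (nat_lit 15566900396) (nat_lit 836) (nat_lit 3319132894) (nat_lit 126) (nat_lit 5) (nat_lit 136) (nat_lit 5) (nat_lit 137) (nat_lit 5) (nat_lit 425) (nat_lit 424) (nat_lit 351)) (XT.nd (nat_lit 78) (nat_lit 0) (nat_lit 76) (XT.lf (nat_lit 76) (nat_lit 5773587302) (nat_lit 0) (nat_lit 3439099726) (nat_lit 836) (nat_lit 18709532847) (nat_lit 127) (nat_lit 5) (nat_lit 126) (nat_lit 5) (nat_lit 137) (nat_lit 5) (nat_lit 426) (nat_lit 424) (nat_lit 350)) (XT.lf (nat_lit 76) (nat_lit 14761555) (nat_lit 0) (nat_lit 11090598712) (nat_lit 836) (nat_lit 17944691112) (nat_lit 128) (nat_lit 5) (nat_lit 127) (nat_lit 5) (nat_lit 138) (nat_lit 5) (nat_lit 427) (nat_lit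 424) (nat_lit 349)))) (XT.nd (nat_lit 156) (nat_lit 608) (nat_lit 0) (XT.nd (nat_lit 78) (nat_lit 0) (nat_lit 76) (XT.lf (nat_lit 0) (nat_lit 13752334616) (nat_lit 760) (nat_lit 5746688283) (nat_lit 836) (nat_lit 10738947196) (nat_lit 128) (nat_lit 5) (nat_lit 138) (nat_lit 5) (nat_lit 139) (nat_lit 5) (nat_lit 428) (nat_lit 424) (nat_lit 348)) (XT.lf (nat_lit 0) (nat_lit 17138649964) (nat_lit 760) (nat_lit 11695566228) (nat_lit 836) (nat_lit 2660331641) (nat_lit 129) (nat_lit 5) (nat_lit 139) (nat_lit 5) (nat_lit 140) (nat_lit 5) (nat_lit 429) (nat_lit 424) (nat_lit 347))) (XT.nd (nat_lit 78) (nat_lit 684) (nat_lit 0) (XT.lf (nat_lit 76) (nat_lit 14883493539) (nat_lit 0) (nat_lit 6563936155) (nat_lit 836) (nat_lit 11371648470) (nat_lit 130) (nat_lit 5) (nat_lit 129) (nat_lit 5) (nat_lit 140) (nat_lit 5) (nat_lit 430) (nat_lit 424) (nat_lit 346)) (XT.lf (nat_lit 0) (nat_lit 9794786201) (nat_lit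 760) (nat_lit 16928535843) (nat_lit 836) (nat_lit 7495132378) (nat_lit 120) (nat_lit 5) (nat_lit 130) (nat_lit 5) (nat_lit 131) (nat_lit 5) (nat_lit 431) (nat_lit 424) (nat_lit 345))))))))
noncomputable def xc85 : XT := (XT.nd (nat_lit 2106) (nat_lit 2432) (nat_lit 0) (XT.nd (nat_lit 1014) (nat_lit 2280) (nat_lit 0) (XT.nd (nat_lit 468) (nat_lit 1596) (nat_lit 0) (XT.nd (nat_lit 234) (nat_lit 988) (nat_lit 0) (XT.nd (nat_lit 78) (nat_lit 456) (nat_lit 0) (XT.lf (nat_lit 0) (nat_lit 4582129296) (nat_lit 380) (nat_lit 28438015951) (nat_lit 456) (nat_lit 2679696273) (nat_lit 115) (nat_lit 5) (nat_lit 120) (nat_lit 5) (nat_lit 121) (nat_lit 5) (nat_lit 432) (nat_lit 424) (nat_lit 344)) (XT.nd (nat_lit 78) (nat_lit 380) (nat_lit 0) (XT.lf (nat_lit 0) (nat_lit 3148631167) (nat_lit 456) (nat_lit 839173173) (nat_lit 76) (nat_lit 33274553379) (nat_lit 114) (nat_lit 5) (nat_lit 120) (nat_lit 5) (nat_lit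 115) (nat_lit 5) (nat_lit 433) (nat_lit 424) (nat_lit 343)) (XT.lf (nat_lit 0) (nat_lit 10213973356) (nat_lit 456) (nat_lit 6422179955) (nat_lit 76) (nat_lit 22268296859) (nat_lit 109) (nat_lit 5) (nat_lit 115) (nat_lit 5) (nat_lit 110) (nat_lit 5) (nat_lit 434) (nat_lit 424) (nat_lit 342)))) (XT.nd (nat_lit 78) (nat_lit 608) (nat_lit 0) (XT.lf (nat_lit 0) (nat_lit 18526633415) (nat_lit 456) (nat_lit 12149288699) (nat_lit 76) (nat_lit 9967886187) (nat_lit 104) (nat_lit 5) (nat_lit 110) (nat_lit 5) (nat_lit 105) (nat_lit 5) (nat_lit 435) (nat_lit 424) (nat_lit 341)) (XT.nd (nat_lit 78) (nat_lit 304) (nat_lit 0) (XT.lf (nat_lit 0) (nat_lit 24407189102) (nat_lit 304) (nat_lit 3864579309) (nat_lit 380) (nat_lit 14212176163) (nat_lit 100) (nat_lit 5) (nat_lit 104) (nat_lit 5) (nat_lit 105) (nat_lit 5) (nat_lit 436) (nat_lit 424) (nat_lit 340)) (XT.lf (nat_lit 0) (nat_lit 20100665519) (nat_lit 304)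 (nat_lit 19609138699) (nat_lit 380) (nat_lit 4715825440) (nat_lit 96) (nat_lit 5) (nat_lit 100) (nat_lit 5) (nat_lit 101) (nat_lit 5) (nat_lit 437) (nat_lit 424) (nat_lit 339))))) (XT.nd (nat_lit 234) (nat_lit 760) (nat_lit 0) (XT.nd (nat_lit 78) (nat_lit 532) (nat_lit 0) (XT.lf (nat_lit 0) (nat_lit 6141266957) (nat_lit 304) (nat_lit 30828957226) (nat_lit 76) (nat_lit 9509184774) (nat_lit 92) (nat_lit 5) (nat_lit 96) (nat_lit 5) (nat_lit 93) (nat_lit 5) (nat_lit 438) (nat_lit 424) (nat_lit 338)) (XT.nd (nat_lit 78) (nat_lit 228) (nat_lit 0) (XT.lf (nat_lit 0) (nat_lit 10940720304) (nat_lit 304) (nat_lit 7688608882) (nat_lit 380) (nat_lit 30017916851) (nat_lit 88) (nat_lit 5) (nat_lit 92) (nat_lit 5) (nat_lit 93) (nat_lit 5) (nat_lit 439) (nat_lit 424) (nat_lit 337)) (XT.lf (nat_lit 0) (nat_lit 5991989441) (nat_lit 228) (nat_lit 27131144895) (nat_lit 304) (nat_lit 17815042670) (nat_lit 85)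 (nat_lit 5) (nat_lit 88) (nat_lit 5) (nat_lit 89) (nat_lit 5) (nat_lit 440) (nat_lit 424) (nat_lit 336)))) (XT.nd (nat_lit 156) (nat_lit 456) (nat_lit 0) (XT.nd (nat_lit 78) (nat_lit 76) (nat_lit 0) (XT.lf (nat_lit 0) (nat_lit 972990602) (nat_lit 228) (nat_lit 48672491656) (nat_lit 304) (nat_lit 3723449960) (nat_lit 82) (nat_lit 5) (nat_lit 85) (nat_lit 5) (nat_lit 86) (nat_lit 5) (nat_lit 441) (nat_lit 424) (nat_lit 335)) (XT.lf (nat_lit 0) (nat_lit 12374955160) (nat_lit 304) (nat_lit 4442300111) (nat_lit 76) (nat_lit 39105549646) (nat_lit 81) (nat_lit 5) (nat_lit 85) (nat_lit 5) (nat_lit 82) (nat_lit 5) (nat_lit 442) (nat_lit 424) (nat_lit 334))) (XT.nd (nat_lit 78) (nat_lit 228) (nat_lit 0) (XT.lf (nat_lit 0) (nat_lit 30677724512) (nat_lit 304) (nat_lit 10087628486) (nat_lit 76) (nat_lit 17860236633) (nat_lit 78) (nat_lit 5) (nat_lit 82) (nat_lit 5) (nat_lit 79) (nat_lit 5) (nat_lit 443)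 (nat_lit 424) (nat_lit 333)) (XT.lf (nat_lit 0) (nat_lit 45539759915) (nat_lit 228) (nat_lit 5973026824) (nat_lit 304) (nat_lit 9978408091) (nat_lit 75) (nat_lit 5) (nat_lit 78) (nat_lit 5) (nat_lit 79) (nat_lit 5) (nat_lit 444) (nat_lit 424) (nat_lit 332)))))) (XT.nd (nat_lit 546) (nat_lit 912) (nat_lit 0) (XT.nd (nat_lit 234) (nat_lit 760) (nat_lit 0) (XT.nd (nat_lit 78) (nat_lit 380) (nat_lit 0) (XT.lf (nat_lit 0) (nat_lit 10475291082) (nat_lit 228) (nat_lit 22439817628) (nat_lit 76) (nat_lit 31596157519) (nat_lit 72) (nat_lit 5) (nat_lit 75) (nat_lit 5) (nat_lit 73) (nat_lit 5) (nat_lit 445) (nat_lit 424) (nat_lit 331)) (XT.nd (nat_lit 78) (nat_lit 152) (nat_lit 0) (XT.lf (nat_lit 0) (nat_lit 33282544182) (nat_lit 304) (nat_lit 29300118199) (nat_lit 76) (nat_lit 5128760335) (nat_lit 69) (nat_lit 5) (nat_lit 73) (nat_lit 5) (nat_lit 70) (nat_lit 5) (nat_lit 446) (nat_lit 424) (nat_lit 330))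 (XT.lf (nat_lit 0) (nat_lit 34313516722) (nat_lit 152) (nat_lit 25084358543) (nat_lit 228) (nat_lit 11695542534) (nat_lit 67) (nat_lit 5) (nat_lit 69) (nat_lit 5) (nat_lit 70) (nat_lit 5) (nat_lit 447) (nat_lit 424) (nat_lit 329)))) (XT.nd (nat_lit 156) (nat_lit 380) (nat_lit 0) (XT.nd (nat_lit 78) (nat_lit 152) (nat_lit 0) (XT.lf (nat_lit 0) (nat_lit 13689235538) (nat_lit 228) (nat_lit 44857742449) (nat_lit 76) (nat_lit 16126745972) (nat_lit 64) (nat_lit 5) (nat_lit 67) (nat_lit 5) (nat_lit 65) (nat_lit 5) (nat_lit 448) (nat_lit 424) (nat_lit 328)) (XT.lf (nat_lit 0) (nat_lit 24697501173) (nat_lit 152) (nat_lit 17458572371) (nat_lit 228) (nat_lit 36301743716) (nat_lit 62) (nat_lit 5) (nat_lit 64) (nat_lit 5) (nat_lit 65) (nat_lit 5) (nat_lit 449) (nat_lit 424) (nat_lit 327))) (XT.nd (nat_lit 78) (nat_lit 228) (nat_lit 0) (XT.lf (nat_lit 0) (nat_lit 19084546778) (nat_lit 152) (nat_lit 55324099887)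 (nat_lit 228) (nat_lit 8060572685) (nat_lit 60) (nat_lit 5) (nat_lit 62) (nat_lit 5) (nat_lit 63) (nat_lit 5) (nat_lit 450) (nat_lit 424) (nat_lit 326)) (XT.lf (nat_lit 0) (nat_lit 12660677219) (nat_lit 152) (nat_lit 10500981222) (nat_lit 228) (nat_lit 63550359175) (nat_lit 57) (nat_lit 5) (nat_lit 59) (nat_lit 5) (nat_lit 60) (nat_lit 5) (nat_lit 451) (nat_lit 424) (nat_lit 325))))) (XT.nd (nat_lit 234) (nat_lit 532) (nat_lit 0) (XT.nd (nat_lit 78) (nat_lit 228) (nat_lit 0) (XT.lf (nat_lit 0) (nat_lit 5229194299) (nat_lit 152) (nat_lit 53165819282) (nat_lit 228) (nat_lit 32802832292) (nat_lit 55) (nat_lit 5) (nat_lit 57) (nat_lit 5) (nat_lit 58) (nat_lit 5) (nat_lit 452) (nat_lit 424) (nat_lit 324)) (XT.nd (nat_lit 78) (nat_lit 152) (nat_lit 0) (XT.lf (nat_lit 0) (nat_lit 1876072465) (nat_lit 228) (nat_lit 2692267130) (nat_lit 76) (nat_lit 91399659446) (nat_lit 54) (nat_lit 5) (nat_lit 57)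 (nat_lit 5) (nat_lit 55) (nat_lit 5) (nat_lit 453) (nat_lit 424) (nat_lit 323)) (XT.lf (nat_lit 0) (nat_lit 40370305643) (nat_lit 228) (nat_lit 12248804586) (nat_lit 76) (nat_lit 48364253780) (nat_lit 52) (nat_lit 5) (nat_lit 55) (nat_lit 5) (nat_lit 53) (nat_lit 5) (nat_lit 454) (nat_lit 424) (nat_lit 322)))) (XT.nd (nat_lit 156) (nat_lit 228) (nat_lit 0) (XT.nd (nat_lit 78) (nat_lit 152) (nat_lit 0) (XT.lf (nat_lit 0) (nat_lit 83379684970) (nat_lit 228) (nat_lit 22562857120) (nat_lit 76) (nat_lit 385636156) (nat_lit 50) (nat_lit 5) (nat_lit 53) (nat_lit 5) (nat_lit 51) (nat_lit 4) (nat_lit 455) (nat_lit 424) (nat_lit 321)) (XT.lf (nat_lit 0) (nat_lit 19508916364) (nat_lit 152) (nat_lit 34911038119) (nat_lit 76) (nat_lit 57549427099) (nat_lit 48) (nat_lit 5) (nat_lit 50) (nat_lit 5) (nat_lit 49) (nat_lit 5) (nat_lit 456) (nat_lit 424) (nat_lit 320))) (XT.nd (nat_lit 78) (nat_lit 76) (nat_lit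 0) (XT.lf (nat_lit 0) (nat_lit 66096694183) (nat_lit 228) (nat_lit 48788611497) (nat_lit 76) (nat_lit 3080876692) (nat_lit 46) (nat_lit 5) (nat_lit 49) (nat_lit 5) (nat_lit 47) (nat_lit 4) (nat_lit 457) (nat_lit 424) (nat_lit 319)) (XT.lf (nat_lit 0) (nat_lit 59395819292) (nat_lit 76) (nat_lit 59475828811) (nat_lit 152) (nat_lit 5448071768) (nat_lit 45) (nat_lit 5) (nat_lit 46) (nat_lit 5) (nat_lit 47) (nat_lit 4) (nat_lit 458) (nat_lit 424) (nat_lit 318))))))) (XT.nd (nat_lit 1014) (nat_lit 1064) (nat_lit 0) (XT.nd (nat_lit 468) (nat_lit 608) (nat_lit 0) (XT.nd (nat_lit 234) (nat_lit 228) (nat_lit 0) (XT.nd (nat_lit 78) (nat_lit 304) (nat_lit 0) (XT.lf (nat_lit 0) (nat_lit 44905156448) (nat_lit 228) (nat_lit 83463449396) (nat_lit 76) (nat_lit 2695632144) (nat_lit 42) (nat_lit 5) (nat_lit 45) (nat_lit 5) (nat_lit 43) (nat_lit 4) (nat_lit 459) (nat_lit 424) (nat_lit 317)) (XT.nd (nat_lit 78)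 (nat_lit 228) (nat_lit 0) (XT.lf (nat_lit 0) (nat_lit 33095085860) (nat_lit 76) (nat_lit 68669575377) (nat_lit 152) (nat_lit 36445746352) (nat_lit 41) (nat_lit 5) (nat_lit 42) (nat_lit 5) (nat_lit 43) (nat_lit 4) (nat_lit 460) (nat_lit 424) (nat_lit 316)) (XT.lf (nat_lit 0) (nat_lit 16327849430) (nat_lit 152) (nat_lit 2094880232) (nat_lit 228) (nat_lit 127405578936) (nat_lit 38) (nat_lit 5) (nat_lit 40) (nat_lit 5) (nat_lit 41) (nat_lit 5) (nat_lit 461) (nat_lit 424) (nat_lit 315)))) (XT.nd (nat_lit 78) (nat_lit 228) (nat_lit 0) (XT.lf (nat_lit 0) (nat_lit 79369257505) (nat_lit 228) (nat_lit 4463137501) (nat_lit 76) (nat_lit 70045100587) (nat_lit 38) (nat_lit 5) (nat_lit 41) (nat_lit 5) (nat_lit 39) (nat_lit 4) (nat_lit 462) (nat_lit 424) (nat_lit 314)) (XT.nd (nat_lit 78) (nat_lit 152) (nat_lit 0) (XT.lf (nat_lit 0) (nat_lit 134853621652) (nat_lit 76) (nat_lit 12476302744) (nat_lit 152) (nat_lit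 15133772521) (nat_lit 37) (nat_lit 5) (nat_lit 38) (nat_lit 5) (nat_lit 39) (nat_lit 4) (nat_lit 463) (nat_lit 424) (nat_lit 313)) (XT.lf (nat_lit 0) (nat_lit 50373588612) (nat_lit 152) (nat_lit 55948560630) (nat_lit 76) (nat_lit 65228853967) (nat_lit 35) (nat_lit 5) (nat_lit 37) (nat_lit 5) (nat_lit 36) (nat_lit 4) (nat_lit 464) (nat_lit 424) (nat_lit 312))))) (XT.nd (nat_lit 234) (nat_lit 304) (nat_lit 0) (XT.nd (nat_lit 78) (nat_lit 228) (nat_lit 0) (XT.lf (nat_lit 0) (nat_lit 92396319355) (nat_lit 76) (nat_lit 30341664102) (nat_lit 152) (nat_lit 58507573066) (nat_lit 34) (nat_lit 5) (nat_lit 35) (nat_lit 5) (nat_lit 36) (nat_lit 4) (nat_lit 465) (nat_lit 424) (nat_lit 311)) (XT.nd (nat_lit 78) (nat_lit 76) (nat_lit 0) (XT.lf (nat_lit 0) (nat_lit 11725730486) (nat_lit 152) (nat_lit 127598936731) (nat_lit 76) (nat_lit 52241666022) (nat_lit 32) (nat_lit 5) (nat_lit 34) (nat_lit 5) (nat_lit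 33) (nat_lit 4) (nat_lit 466) (nat_lit 424) (nat_lit 310)) (XT.lf (nat_lit 0) (nat_lit 28945713649) (nat_lit 76) (nat_lit 59144109081) (nat_lit 152) (nat_lit 114446895239) (nat_lit 31) (nat_lit 5) (nat_lit 32) (nat_lit 5) (nat_lit 33) (nat_lit 4) (nat_lit 467) (nat_lit 424) (nat_lit 309)))) (XT.nd (nat_lit 156) (nat_lit 152) (nat_lit 0) (XT.nd (nat_lit 78) (nat_lit 152) (nat_lit 0) (XT.lf (nat_lit 0) (nat_lit 173248755148) (nat_lit 152) (nat_lit 12172016599) (nat_lit 0) (nat_lit 28829676219) (nat_lit 31) (nat_lit 5) (nat_lit 33) (nat_lit 4) (nat_lit 31) (nat_lit 4) (nat_lit 468) (nat_lit 424) (nat_lit 308)) (XT.lf (nat_lit 0) (nat_lit 40746378911) (nat_lit 152) (nat_lit 60890421847) (nat_lit 76) (nat_lit 125051877050) (nat_lit 29) (nat_lit 5) (nat_lit 31) (nat_lit 5) (nat_lit 30) (nat_lit 4) (nat_lit 469) (nat_lit 424) (nat_lit 307))) (XT.nd (nat_lit 78) (nat_lit 76) (nat_lit 0) (XT.lf (nat_lit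 0) (nat_lit 121520554457) (nat_lit 76) (nat_lit 8207429737) (nat_lit 152) (nat_lit 110253864634) (nat_lit 28) (nat_lit 5) (nat_lit 29) (nat_lit 5) (nat_lit 30) (nat_lit 4) (nat_lit 470) (nat_lit 424) (nat_lit 306)) (XT.lf (nat_lit 0) (nat_lit 67092717621) (nat_lit 76) (nat_lit 162306472760) (nat_lit 76) (nat_lit 24760729622) (nat_lit 27) (nat_lit 4) (nat_lit 28) (nat_lit 5) (nat_lit 28) (nat_lit 4) (nat_lit 471) (nat_lit 424) (nat_lit 305)))))) (XT.nd (nat_lit 546) (nat_lit 456) (nat_lit 0) (XT.nd (nat_lit 234) (nat_lit 380) (nat_lit 0) (XT.nd (nat_lit 78) (nat_lit 76) (nat_lit 0) (XT.lf (nat_lit 0) (nat_lit 1158799772) (nat_lit 76) (nat_lit 66502476441) (nat_lit 152) (nat_lit 201645604373) (nat_lit 25) (nat_lit 5) (nat_lit 26) (nat_lit 5) (nat_lit 27) (nat_lit 4) (nat_lit 472) (nat_lit 424) (nat_lit 304)) (XT.nd (nat_lit 78) (nat_lit 76) (nat_lit 0) (XT.lf (nat_lit 0) (nat_lit 170508656323)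 (nat_lit 152) (nat_lit 75430948869) (nat_lit 0) (nat_lit 39510741764) (nat_lit 25) (nat_lit 5) (nat_lit 27) (nat_lit 4) (nat_lit 25) (nat_lit 4) (nat_lit 473) (nat_lit 424) (nat_lit 303)) (XT.lf (nat_lit 0) (nat_lit 135929840378) (nat_lit 76) (nat_lit 148896068586) (nat_lit 76) (nat_lit 17897277641) (nat_lit 24) (nat_lit 4) (nat_lit 25) (nat_lit 5) (nat_lit 25) (nat_lit 4) (nat_lit 474) (nat_lit 424) (nat_lit 302)))) (XT.nd (nat_lit 156) (nat_lit 228) (nat_lit 0) (XT.nd (nat_lit 78) (nat_lit 0) (nat_lit 0) (XT.lf (nat_lit 0) (nat_lit 45661047310) (nat_lit 76) (nat_lit 40514879384) (nat_lit 152) (nat_lit 235031734672) (nat_lit 22) (nat_lit 5) (nat_lit 23) (nat_lit 5) (nat_lit 24) (nat_lit 4) (nat_lit 475) (nat_lit 424) (nat_lit 301)) (XT.lf (nat_lit 0) (nat_lit 202102925619) (nat_lit 152) (nat_lit 61504866136) (nat_lit 0) (nat_lit 77340683930) (nat_lit 22) (nat_lit 5) (nat_lit 24) (nat_lit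 4) (nat_lit 22) (nat_lit 4) (nat_lit 476) (nat_lit 424) (nat_lit 300))) (XT.nd (nat_lit 78) (nat_lit 152) (nat_lit 0) (XT.lf (nat_lit 0) (nat_lit 174561525993) (nat_lit 76) (nat_lit 156149786048) (nat_lit 76) (nat_lit 31386881784) (nat_lit 21) (nat_lit 4) (nat_lit 22) (nat_lit 5) (nat_lit 22) (nat_lit 4) (nat_lit 477) (nat_lit 424) (nat_lit 299)) (XT.lf (nat_lit 0) (nat_lit 46985037351) (nat_lit 76) (nat_lit 36794745628) (nat_lit 152) (nat_lit 301002949716) (nat_lit 19) (nat_lit 5) (nat_lit 20) (nat_lit 5) (nat_lit 21) (nat_lit 4) (nat_lit 478) (nat_lit 424) (nat_lit 298))))) (XT.nd (nat_lit 234) (nat_lit 304) (nat_lit 0) (XT.nd (nat_lit 78) (nat_lit 152) (nat_lit 0) (XT.lf (nat_lit 0) (nat_lit 211831989942) (nat_lit 152) (nat_lit 104176674131) (nat_lit 0) (nat_lit 93009051075) (nat_lit 19) (nat_lit 5) (nat_lit 21) (nat_lit 4) (nat_lit 19) (nat_lit 4) (nat_lit 479) (nat_lit 424) (nat_lit 297))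 (XT.nd (nat_lit 78) (nat_lit 76) (nat_lit 0) (XT.lf (nat_lit 0) (nat_lit 152388712969) (nat_lit 76) (nat_lit 200738149310) (nat_lit 76) (nat_lit 81914709517) (nat_lit 18) (nat_lit 4) (nat_lit 19) (nat_lit 5) (nat_lit 19) (nat_lit 4) (nat_lit 480) (nat_lit 424) (nat_lit 296)) (XT.lf (nat_lit 0) (nat_lit 43058545964) (nat_lit 152) (nat_lit 30553884386) (nat_lit 76) (nat_lit 389409502576) (nat_lit 17) (nat_lit 5) (nat_lit 19) (nat_lit 5) (nat_lit 18) (nat_lit 4) (nat_lit 481) (nat_lit 424) (nat_lit 295)))) (XT.nd (nat_lit 156) (nat_lit 152) (nat_lit 0) (XT.nd (nat_lit 78) (nat_lit 76) (nat_lit 0) (XT.lf (nat_lit 0) (nat_lit 180153834810) (nat_lit 152) (nat_lit 245782238395) (nat_lit 0) (nat_lit 66987803307) (nat_lit 16) (nat_lit 5) (nat_lit 18) (nat_lit 4) (nat_lit 16) (nat_lit 4) (nat_lit 482) (nat_lit 424) (nat_lit 294)) (XT.lf (nat_lit 0) (nat_lit 22418062015) (nat_lit 76) (nat_lit 307929881979)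 (nat_lit 76) (nat_lit 194763471759) (nat_lit 15) (nat_lit 4) (nat_lit 16) (nat_lit 5) (nat_lit 16) (nat_lit 4) (nat_lit 483) (nat_lit 424) (nat_lit 293))) (XT.nd (nat_lit 78) (nat_lit 152) (nat_lit 0) (XT.lf (nat_lit 0) (nat_lit 320849279254) (nat_lit 76) (nat_lit 175988709720) (nat_lit 76) (nat_lit 62821948837) (nat_lit 15) (nat_lit 4) (nat_lit 16) (nat_lit 5) (nat_lit 16) (nat_lit 4) (nat_lit 484) (nat_lit 424) (nat_lit 292)) (XT.lf (nat_lit 0) (nat_lit 46422720827) (nat_lit 76) (nat_lit 31425965220) (nat_lit 152) (nat_lit 519025263974) (nat_lit 13) (nat_lit 5) (nat_lit 14) (nat_lit 5) (nat_lit 15) (nat_lit 4) (nat_lit 485) (nat_lit 424) (nat_lit 291))))))))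
noncomputable def xc86 : XT := (XT.nd (nat_lit 58890) (nat_lit 0) (nat_lit 2052) (XT.nd (nat_lit 57876) (nat_lit 0) (nat_lit 6460) (XT.nd (nat_lit 468) (nat_lit 228) (nat_lit 0) (XT.nd (nat_lit 234) (nat_lit 152) (nat_lit 0) (XT.nd (nat_lit 78) (nat_lit 76) (nat_lit 0) (XT.lf (nat_lit 0) (nat_lit 233775611476) (nat_lit 152) (nat_lit 276930649192) (nat_lit 0) (nat_lit 125997148421) (nat_lit 13) (nat_lit 5) (nat_lit 15) (nat_lit 4) (nat_lit 13) (nat_lit 4) (nat_lit 486) (nat_lit 424) (nat_lit 290)) (XT.nd (nat_lit 78) (nat_lit 0) (nat_lit 0) (XT.lf (nat_lit 0) (nat_lit 18533235450) (nat_lit 76) (nat_lit 384461897754) (nat_lit 76) (nat_lit 276683169587) (nat_lit 12) (nat_lit 4) (nat_lit 13) (nat_lit 5) (nat_lit 13) (nat_lit 4) (nat_lit 487) (nat_lit 424) (nat_lit 289)) (XT.lf (nat_lit 0) (nat_lit 347521783644) (nat_lit 76) (nat_lit 243053609590) (nat_lit 76) (nat_lit 135274635949) (nat_lit 12)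 (nat_lit 4) (nat_lit 13) (nat_lit 5) (nat_lit 13) (nat_lit 4) (nat_lit 488) (nat_lit 424) (nat_lit 288)))) (XT.nd (nat_lit 78) (nat_lit 76) (nat_lit 0) (XT.lf (nat_lit 0) (nat_lit 16887449893) (nat_lit 152) (nat_lit 73159928650) (nat_lit 76) (nat_lit 685654532209) (nat_lit 11) (nat_lit 5) (nat_lit 13) (nat_lit 5) (nat_lit 12) (nat_lit 4) (nat_lit 489) (nat_lit 424) (nat_lit 287)) (XT.nd (nat_lit 78) (nat_lit 0) (nat_lit 0) (XT.lf (nat_lit 0) (nat_lit 181923498820) (nat_lit 152) (nat_lit 567959104811) (nat_lit 0) (nat_lit 79276440357) (nat_lit 10) (nat_lit 5) (nat_lit 12) (nat_lit 4) (nat_lit 10) (nat_lit 4) (nat_lit 490) (nat_lit 424) (nat_lit 286)) (XT.lf (nat_lit 0) (nat_lit 362975428518) (nat_lit 152) (nat_lit 263448485069) (nat_lit 0) (nat_lit 260328184469) (nat_lit 10) (nat_lit 5) (nat_lit 12) (nat_lit 4) (nat_lit 10) (nat_lit 4) (nat_lit 491) (nat_lit 424) (nat_lit 285))))) (XT.nd (nat_lit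 234) (nat_lit 152) (nat_lit 0) (XT.nd (nat_lit 78) (nat_lit 0) (nat_lit 0) (XT.lf (nat_lit 0) (nat_lit 67584904826) (nat_lit 76) (nat_lit 491981189226) (nat_lit 76) (nat_lit 389333773338) (nat_lit 9) (nat_lit 4) (nat_lit 10) (nat_lit 5) (nat_lit 10) (nat_lit 4) (nat_lit 492) (nat_lit 424) (nat_lit 284)) (XT.nd (nat_lit 78) (nat_lit 0) (nat_lit 0) (XT.lf (nat_lit 0) (nat_lit 434507460829) (nat_lit 76) (nat_lit 341965073197) (nat_lit 76) (nat_lit 239317498199) (nat_lit 9) (nat_lit 4) (nat_lit 10) (nat_lit 5) (nat_lit 10) (nat_lit 4) (nat_lit 493) (nat_lit 424) (nat_lit 283)) (XT.lf (nat_lit 0) (nat_lit 830782742143) (nat_lit 76) (nat_lit 179948208679) (nat_lit 76) (nat_lit 77300486357) (nat_lit 9) (nat_lit 4) (nat_lit 10) (nat_lit 5) (nat_lit 10) (nat_lit 4) (nat_lit 494) (nat_lit 424) (nat_lit 282)))) (XT.nd (nat_lit 57018) (nat_lit 0) (nat_lit 8968) (XT.nd (nat_lit 78) (nat_lit 0) (nat_lit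 0) (XT.lf (nat_lit 0) (nat_lit 94196733633) (nat_lit 76) (nat_lit 1825018740) (nat_lit 152) (nat_lit 1069880642473) (nat_lit 7) (nat_lit 5) (nat_lit 8) (nat_lit 5) (nat_lit 9) (nat_lit 4) (nat_lit 495) (nat_lit 424) (nat_lit 281)) (XT.lf (nat_lit 0) (nat_lit 288066807853) (nat_lit 152) (nat_lit 771187774620) (nat_lit 0) (nat_lit 190306822101) (nat_lit 7) (nat_lit 5) (nat_lit 9) (nat_lit 4) (nat_lit 7) (nat_lit 4) (nat_lit 496) (nat_lit 424) (nat_lit 280))) (XT.nd (nat_lit 78) (nat_lit 0) (nat_lit 76) (XT.lf (nat_lit 0) (nat_lit 4085902376) (nat_lit 836) (nat_lit 4929652909) (nat_lit 836) (nat_lit 4929652909) (nat_lit 125) (nat_lit 3) (nat_lit 136) (nat_lit 3) (nat_lit 136) (nat_lit 5) (nat_lit 425) (nat_lit 425) (nat_lit 350)) (XT.lf (nat_lit 0) (nat_lit 8877870121) (nat_lit 760) (nat_lit 16647896689) (nat_lit 836) (nat_lit 3461256075) (nat_lit 126) (nat_lit 5) (nat_lit 136) (nat_lit 5) (nat_lit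 137) (nat_lit 5) (nat_lit 426) (nat_lit 425) (nat_lit 349)))))) (XT.nd (nat_lit 468) (nat_lit 2128) (nat_lit 0) (XT.nd (nat_lit 234) (nat_lit 456) (nat_lit 0) (XT.nd (nat_lit 78) (nat_lit 0) (nat_lit 76) (XT.lf (nat_lit 76) (nat_lit 6392687324) (nat_lit 0) (nat_lit 3813134745) (nat_lit 836) (nat_lit 19937270815) (nat_lit 127) (nat_lit 5) (nat_lit 126) (nat_lit 5) (nat_lit 137) (nat_lit 5) (nat_lit 427) (nat_lit 425) (nat_lit 348)) (XT.nd (nat_lit 78) (nat_lit 0) (nat_lit 76) (XT.lf (nat_lit 76) (nat_lit 180144100) (nat_lit 0) (nat_lit 12051927027) (nat_lit 836) (nat_lit 19129978985) (nat_lit 128) (nat_lit 5) (nat_lit 127) (nat_lit 5) (nat_lit 138) (nat_lit 5) (nat_lit 428) (nat_lit 425) (nat_lit 347)) (XT.lf (nat_lit 0) (nat_lit 15072081974) (nat_lit 760) (nat_lit 6042197790) (nat_lit 836) (nat_lit 11531665395) (nat_lit 128) (nat_lit 5) (nat_lit 138) (nat_lit 5) (nat_lit 139) (nat_lit 5) (nat_lit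 429) (nat_lit 425) (nat_lit 346)))) (XT.nd (nat_lit 78) (nat_lit 684) (nat_lit 0) (XT.lf (nat_lit 0) (nat_lit 18714731662) (nat_lit 760) (nat_lit 12462997555) (nat_lit 836) (nat_lit 2826054705) (nat_lit 129) (nat_lit 5) (nat_lit 139) (nat_lit 5) (nat_lit 140) (nat_lit 5) (nat_lit 430) (nat_lit 425) (nat_lit 345)) (XT.nd (nat_lit 78) (nat_lit 684) (nat_lit 0) (XT.lf (nat_lit 76) (nat_lit 16235076620) (nat_lit 0) (nat_lit 7120464884) (nat_lit 836) (nat_lit 12079374585) (nat_lit 130) (nat_lit 5) (nat_lit 129) (nat_lit 5) (nat_lit 140) (nat_lit 5) (nat_lit 431) (nat_lit 425) (nat_lit 344)) (XT.lf (nat_lit 0) (nat_lit 10742016450) (nat_lit 760) (nat_lit 18299343922) (nat_lit 836) (nat_lit 7905494686) (nat_lit 120) (nat_lit 5) (nat_lit 130) (nat_lit 5) (nat_lit 131) (nat_lit 5) (nat_lit 432) (nat_lit 425) (nat_lit 343))))) (XT.nd (nat_lit 234) (nat_lit 1292) (nat_lit 0) (XT.nd (nat_lit 78) (nat_lit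 456) (nat_lit 0) (XT.lf (nat_lit 0) (nat_lit 5114163168) (nat_lit 380) (nat_lit 30716764604) (nat_lit 456) (nat_lit 2716380405) (nat_lit 115) (nat_lit 5) (nat_lit 120) (nat_lit 5) (nat_lit 121) (nat_lit 5) (nat_lit 433) (nat_lit 425) (nat_lit 342)) (XT.nd (nat_lit 78) (nat_lit 380) (nat_lit 0) (XT.lf (nat_lit 0) (nat_lit 3559784929) (nat_lit 456) (nat_lit 747779313) (nat_lit 76) (nat_lit 35927764151) (nat_lit 114) (nat_lit 5) (nat_lit 120) (nat_lit 5) (nat_lit 115) (nat_lit 5) (nat_lit 434) (nat_lit 425) (nat_lit 341)) (XT.lf (nat_lit 0) (nat_lit 11180952890) (nat_lit 456) (nat_lit 6776801842) (nat_lit 76) (nat_lit 24051507647) (nat_lit 109) (nat_lit 5) (nat_lit 115) (nat_lit 5) (nat_lit 110) (nat_lit 5) (nat_lit 435) (nat_lit 425) (nat_lit 340)))) (XT.nd (nat_lit 156) (nat_lit 608) (nat_lit 0) (XT.nd (nat_lit 78) (nat_lit 304) (nat_lit 0) (XT.lf (nat_lit 0) (nat_lit 20150074995) (nat_lit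 456) (nat_lit 12962065288) (nat_lit 76) (nat_lit 10776060172) (nat_lit 104) (nat_lit 5) (nat_lit 110) (nat_lit 5) (nat_lit 105) (nat_lit 5) (nat_lit 436) (nat_lit 425) (nat_lit 339)) (XT.lf (nat_lit 0) (nat_lit 26512013554) (nat_lit 304) (nat_lit 4154716801) (nat_lit 380) (nat_lit 15209225276) (nat_lit 100) (nat_lit 5) (nat_lit 104) (nat_lit 5) (nat_lit 105) (nat_lit 5) (nat_lit 437) (nat_lit 425) (nat_lit 338))) (XT.nd (nat_lit 78) (nat_lit 304) (nat_lit 0) (XT.lf (nat_lit 0) (nat_lit 21860480471) (nat_lit 304) (nat_lit 21152104885) (nat_lit 380) (nat_lit 4960754570) (nat_lit 96) (nat_lit 5) (nat_lit 100) (nat_lit 5) (nat_lit 101) (nat_lit 5) (nat_lit 438) (nat_lit 425) (nat_lit 337)) (XT.lf (nat_lit 0) (nat_lit 6753952937) (nat_lit 304) (nat_lit 33140378651) (nat_lit 76) (nat_lit 10297325348) (nat_lit 92) (nat_lit 5) (nat_lit 96) (nat_lit 5) (nat_lit 93) (nat_lit 5) (nat_lit 439) (nat_lit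 425) (nat_lit 336))))))) (XT.nd (nat_lit 1014) (nat_lit 1748) (nat_lit 0) (XT.nd (nat_lit 468) (nat_lit 1368) (nat_lit 0) (XT.nd (nat_lit 234) (nat_lit 532) (nat_lit 0) (XT.nd (nat_lit 78) (nat_lit 456) (nat_lit 0) (XT.lf (nat_lit 0) (nat_lit 11964141527) (nat_lit 304) (nat_lit 8270240412) (nat_lit 380) (nat_lit 32298875583) (nat_lit 88) (nat_lit 5) (nat_lit 92) (nat_lit 5) (nat_lit 93) (nat_lit 5) (nat_lit 440) (nat_lit 425) (nat_lit 335)) (XT.nd (nat_lit 78) (nat_lit 228) (nat_lit 0) (XT.lf (nat_lit 0) (nat_lit 6618091045) (nat_lit 228) (nat_lit 29263878412) (nat_lit 304) (nat_lit 19125782048) (nat_lit 85) (nat_lit 5) (nat_lit 88) (nat_lit 5) (nat_lit 89) (nat_lit 5) (nat_lit 441) (nat_lit 425) (nat_lit 334)) (XT.lf (nat_lit 0) (nat_lit 1195872681) (nat_lit 228) (nat_lit 52524969982) (nat_lit 304) (nat_lit 3912389854) (nat_lit 82) (nat_lit 5) (nat_lit 85) (nat_lit 5) (nat_lit 86) (nat_lit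 5) (nat_lit 442) (nat_lit 425) (nat_lit 333)))) (XT.nd (nat_lit 78) (nat_lit 456) (nat_lit 0) (XT.lf (nat_lit 0) (nat_lit 13462589968) (nat_lit 304) (nat_lit 4660131980) (nat_lit 76) (nat_lit 42269000586) (nat_lit 81) (nat_lit 5) (nat_lit 85) (nat_lit 5) (nat_lit 82) (nat_lit 5) (nat_lit 443) (nat_lit 425) (nat_lit 332)) (XT.nd (nat_lit 78) (nat_lit 228) (nat_lit 0) (XT.lf (nat_lit 0) (nat_lit 33225013319) (nat_lit 304) (nat_lit 10759029132) (nat_lit 76) (nat_lit 19326917794) (nat_lit 78) (nat_lit 5) (nat_lit 82) (nat_lit 5) (nat_lit 79) (nat_lit 5) (nat_lit 444) (nat_lit 425) (nat_lit 331)) (XT.lf (nat_lit 0) (nat_lit 49312656912) (nat_lit 228) (nat_lit 6409354709) (nat_lit 304) (nat_lit 10684047388) (nat_lit 75) (nat_lit 5) (nat_lit 78) (nat_lit 5) (nat_lit 79) (nat_lit 5) (nat_lit 445) (nat_lit 425) (nat_lit 330))))) (XT.nd (nat_lit 234) (nat_lit 760) (nat_lit 0) (XT.nd (nat_lit 78) (nat_lit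 380) (nat_lit 0) (XT.lf (nat_lit 0) (nat_lit 11398977146) (nat_lit 228) (nat_lit 24104454115) (nat_lit 76) (nat_lit 34164434336) (nat_lit 72) (nat_lit 5) (nat_lit 75) (nat_lit 5) (nat_lit 73) (nat_lit 5) (nat_lit 446) (nat_lit 425) (nat_lit 329)) (XT.nd (nat_lit 78) (nat_lit 152) (nat_lit 0) (XT.lf (nat_lit 0) (nat_lit 36027095608) (nat_lit 304) (nat_lit 31515852326) (nat_lit 76) (nat_lit 5581273805) (nat_lit 69) (nat_lit 5) (nat_lit 73) (nat_lit 5) (nat_lit 70) (nat_lit 5) (nat_lit 447) (nat_lit 425) (nat_lit 328)) (XT.lf (nat_lit 0) (nat_lit 37181298699) (nat_lit 152) (nat_lit 27046199965) (nat_lit 228) (nat_lit 12549486779) (nat_lit 67) (nat_lit 5) (nat_lit 69) (nat_lit 5) (nat_lit 70) (nat_lit 5) (nat_lit 448) (nat_lit 425) (nat_lit 327)))) (XT.nd (nat_lit 156) (nat_lit 380) (nat_lit 0) (XT.nd (nat_lit 78) (nat_lit 152) (nat_lit 0) (XT.lf (nat_lit 0) (nat_lit 14860171526) (nat_lit 228)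 (nat_lit 48323407841) (nat_lit 76) (nat_lit 17460238443) (nat_lit 64) (nat_lit 5) (nat_lit 67) (nat_lit 5) (nat_lit 65) (nat_lit 5) (nat_lit 449) (nat_lit 425) (nat_lit 326)) (XT.lf (nat_lit 0) (nat_lit 26790911839) (nat_lit 152) (nat_lit 18809666361) (nat_lit 228) (nat_lit 39130250348) (nat_lit 62) (nat_lit 5) (nat_lit 64) (nat_lit 5) (nat_lit 65) (nat_lit 5) (nat_lit 450) (nat_lit 425) (nat_lit 325))) (XT.nd (nat_lit 78) (nat_lit 228) (nat_lit 0) (XT.lf (nat_lit 0) (nat_lit 20726586029) (nat_lit 152) (nat_lit 59703895282) (nat_lit 228) (nat_lit 8632806263) (nat_lit 60) (nat_lit 5) (nat_lit 62) (nat_lit 5) (nat_lit 63) (nat_lit 5) (nat_lit 451) (nat_lit 425) (nat_lit 324)) (XT.lf (nat_lit 0) (nat_lit 13786031313) (nat_lit 152) (nat_lit 11295397902) (nat_lit 228) (nat_lit 68564197164) (nat_lit 57) (nat_lit 5) (nat_lit 59) (nat_lit 5) (nat_lit 60) (nat_lit 5) (nat_lit 452) (nat_lit 425) (nat_lit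 323)))))) (XT.nd (nat_lit 546) (nat_lit 836) (nat_lit 0) (XT.nd (nat_lit 234) (nat_lit 532) (nat_lit 0) (XT.nd (nat_lit 78) (nat_lit 228) (nat_lit 0) (XT.lf (nat_lit 0) (nat_lit 5757665667) (nat_lit 152) (nat_lit 57373215759) (nat_lit 228) (nat_lit 35359568834) (nat_lit 55) (nat_lit 5) (nat_lit 57) (nat_lit 5) (nat_lit 58) (nat_lit 5) (nat_lit 453) (nat_lit 425) (nat_lit 322)) (XT.nd (nat_lit 78) (nat_lit 152) (nat_lit 0) (XT.lf (nat_lit 0) (nat_lit 2086648946) (nat_lit 228) (nat_lit 2803662021) (nat_lit 76) (nat_lit 98752094694) (nat_lit 54) (nat_lit 5) (nat_lit 57) (nat_lit 5) (nat_lit 55) (nat_lit 5) (nat_lit 454) (nat_lit 425) (nat_lit 321)) (XT.lf (nat_lit 0) (nat_lit 43658147197) (nat_lit 228) (nat_lit 13127009581) (nat_lit 76) (nat_lit 52273957375) (nat_lit 52) (nat_lit 5) (nat_lit 55) (nat_lit 5) (nat_lit 53) (nat_lit 5) (nat_lit 455) (nat_lit 425) (nat_lit 320)))) (XT.nd (nat_lit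 156) (nat_lit 228) (nat_lit 0) (XT.nd (nat_lit 78) (nat_lit 152) (nat_lit 0) (XT.lf (nat_lit 0) (nat_lit 90106136792) (nat_lit 228) (nat_lit 24268480845) (nat_lit 76) (nat_lit 457003499) (nat_lit 50) (nat_lit 5) (nat_lit 53) (nat_lit 5) (nat_lit 51) (nat_lit 4) (nat_lit 456) (nat_lit 425) (nat_lit 319)) (XT.lf (nat_lit 0) (nat_lit 21123919660) (nat_lit 152) (nat_lit 37607034635) (nat_lit 76) (nat_lit 62193256685) (nat_lit 48) (nat_lit 5) (nat_lit 50) (nat_lit 5) (nat_lit 49) (nat_lit 5) (nat_lit 457) (nat_lit 425) (nat_lit 318))) (XT.nd (nat_lit 78) (nat_lit 76) (nat_lit 0) (XT.lf (nat_lit 0) (nat_lit 71436784664) (nat_lit 228) (nat_lit 52597072051) (nat_lit 76) (nat_lit 3366996361) (nat_lit 46) (nat_lit 5) (nat_lit 49) (nat_lit 5) (nat_lit 47) (nat_lit 4) (nat_lit 458) (nat_lit 425) (nat_lit 317)) (XT.lf (nat_lit 0) (nat_lit 64238000768) (nat_lit 76) (nat_lit 64193269192) (nat_lit 152) (nat_lit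 5831527315) (nat_lit 45) (nat_lit 5) (nat_lit 46) (nat_lit 5) (nat_lit 47) (nat_lit 4) (nat_lit 459) (nat_lit 425) (nat_lit 316))))) (XT.nd (nat_lit 234) (nat_lit 304) (nat_lit 0) (XT.nd (nat_lit 78) (nat_lit 304) (nat_lit 0) (XT.lf (nat_lit 0) (nat_lit 48546525001) (nat_lit 228) (nat_lit 90050534596) (nat_lit 76) (nat_lit 2949864615) (nat_lit 42) (nat_lit 5) (nat_lit 45) (nat_lit 5) (nat_lit 43) (nat_lit 4) (nat_lit 460) (nat_lit 425) (nat_lit 315)) (XT.nd (nat_lit 78) (nat_lit 228) (nat_lit 0) (XT.lf (nat_lit 0) (nat_lit 35828772592) (nat_lit 76) (nat_lit 74123735155) (nat_lit 152) (nat_lit 39312394126) (nat_lit 41) (nat_lit 5) (nat_lit 42) (nat_lit 5) (nat_lit 43) (nat_lit 4) (nat_lit 461) (nat_lit 425) (nat_lit 314)) (XT.lf (nat_lit 0) (nat_lit 17717921065) (nat_lit 152) (nat_lit 2223864936) (nat_lit 228) (nat_lit 137550521293) (nat_lit 38) (nat_lit 5) (nat_lit 40) (nat_lit 5) (nat_lit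 41) (nat_lit 5) (nat_lit 462) (nat_lit 425) (nat_lit 313)))) (XT.nd (nat_lit 156) (nat_lit 228) (nat_lit 0) (XT.nd (nat_lit 78) (nat_lit 76) (nat_lit 0) (XT.lf (nat_lit 0) (nat_lit 85761243207) (nat_lit 228) (nat_lit 4741015419) (nat_lit 76) (nat_lit 75683310570) (nat_lit 38) (nat_lit 5) (nat_lit 41) (nat_lit 5) (nat_lit 39) (nat_lit 4) (nat_lit 463) (nat_lit 425) (nat_lit 312)) (XT.lf (nat_lit 0) (nat_lit 145717643701) (nat_lit 76) (nat_lit 13439158061) (nat_lit 152) (nat_lit 16301963229) (nat_lit 37) (nat_lit 5) (nat_lit 38) (nat_lit 5) (nat_lit 39) (nat_lit 4) (nat_lit 464) (nat_lit 425) (nat_lit 311))) (XT.nd (nat_lit 78) (nat_lit 76) (nat_lit 0) (XT.lf (nat_lit 0) (nat_lit 54443267888) (nat_lit 152) (nat_lit 60349272453) (nat_lit 76) (nat_lit 70480550423) (nat_lit 35) (nat_lit 5) (nat_lit 37) (nat_lit 5) (nat_lit 36) (nat_lit 4) (nat_lit 465) (nat_lit 425) (nat_lit 310)) (XT.lf (nat_lit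 0) (nat_lit 99859931003) (nat_lit 76) (nat_lit 32735058402) (nat_lit 152) (nat_lit 63148310409) (nat_lit 34) (nat_lit 5) (nat_lit 35) (nat_lit 5) (nat_lit 36) (nat_lit 4) (nat_lit 466) (nat_lit 425) (nat_lit 309))))))))
noncomputable def xc87 : XT := (XT.nd (nat_lit 2106) (nat_lit 152) (nat_lit 0) (XT.nd (nat_lit 1014) (nat_lit 760) (nat_lit 0) (XT.nd (nat_lit 468) (nat_lit 608) (nat_lit 0) (XT.nd (nat_lit 234) (nat_lit 304) (nat_lit 0) (XT.nd (nat_lit 78) (nat_lit 76) (nat_lit 0) (XT.lf (nat_lit 0) (nat_lit 12701133645) (nat_lit 152) (nat_lit 137735521457) (nat_lit 76) (nat_lit 56453115034) (nat_lit 32) (nat_lit 5) (nat_lit 34) (nat_lit 5) (nat_lit 33) (nat_lit 4) (nat_lit 467) (nat_lit 425) (nat_lit 308)) (XT.nd (nat_lit 78) (nat_lit 0) (nat_lit 0) (XT.lf (nat_lit 0) (nat_lit 31329601029) (nat_lit 76) (nat_lit 63843051230) (nat_lit 152) (nat_lit 123565218623) (nat_lit 31) (nat_lit 5) (nat_lit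 32) (nat_lit 5) (nat_lit 33) (nat_lit 4) (nat_lit 468) (nat_lit 425) (nat_lit 307)) (XT.lf (nat_lit 0) (nat_lit 187142130076) (nat_lit 152) (nat_lit 13081420478) (nat_lit 0) (nat_lit 31165257357) (nat_lit 31) (nat_lit 5) (nat_lit 33) (nat_lit 4) (nat_lit 31) (nat_lit 4) (nat_lit 469) (nat_lit 425) (nat_lit 306)))) (XT.nd (nat_lit 78) (nat_lit 152) (nat_lit 0) (XT.lf (nat_lit 0) (nat_lit 44038571090) (nat_lit 152) (nat_lit 65699019135) (nat_lit 76) (nat_lit 135084555804) (nat_lit 29) (nat_lit 5) (nat_lit 31) (nat_lit 5) (nat_lit 30) (nat_lit 4) (nat_lit 470) (nat_lit 425) (nat_lit 305)) (XT.nd (nat_lit 78) (nat_lit 76) (nat_lit 0) (XT.lf (nat_lit 0) (nat_lit 131302113170) (nat_lit 76) (nat_lit 8835120993) (nat_lit 152) (nat_lit 119041610241) (nat_lit 28) (nat_lit 5) (nat_lit 29) (nat_lit 5) (nat_lit 30) (nat_lit 4) (nat_lit 471) (nat_lit 425) (nat_lit 304)) (XT.lf (nat_lit 0) (nat_lit 72518498802)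 (nat_lit 76) (nat_lit 175262669969) (nat_lit 76) (nat_lit 26710041037) (nat_lit 27) (nat_lit 4) (nat_lit 28) (nat_lit 5) (nat_lit 28) (nat_lit 4) (nat_lit 472) (nat_lit 425) (nat_lit 303))))) (XT.nd (nat_lit 234) (nat_lit 380) (nat_lit 0) (XT.nd (nat_lit 78) (nat_lit 76) (nat_lit 0) (XT.lf (nat_lit 0) (nat_lit 1308298418) (nat_lit 76) (nat_lit 71795041852) (nat_lit 152) (nat_lit 217746631220) (nat_lit 25) (nat_lit 5) (nat_lit 26) (nat_lit 5) (nat_lit 27) (nat_lit 4) (nat_lit 473) (nat_lit 425) (nat_lit 302)) (XT.nd (nat_lit 78) (nat_lit 76) (nat_lit 0) (XT.lf (nat_lit 0) (nat_lit 184176750111) (nat_lit 152) (nat_lit 81411885165) (nat_lit 0) (nat_lit 42696368036) (nat_lit 25) (nat_lit 5) (nat_lit 27) (nat_lit 4) (nat_lit 25) (nat_lit 4) (nat_lit 474) (nat_lit 425) (nat_lit 301)) (XT.lf (nat_lit 0) (nat_lit 146855440456) (nat_lit 76) (nat_lit 160782712359) (nat_lit 76) (nat_lit 19301578924)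 (nat_lit 24) (nat_lit 4) (nat_lit 25) (nat_lit 5) (nat_lit 25) (nat_lit 4) (nat_lit 475) (nat_lit 425) (nat_lit 300)))) (XT.nd (nat_lit 156) (nat_lit 228) (nat_lit 0) (XT.nd (nat_lit 78) (nat_lit 0) (nat_lit 0) (XT.lf (nat_lit 0) (nat_lit 49363760759) (nat_lit 76) (nat_lit 43731648947) (nat_lit 152) (nat_lit 253807593034) (nat_lit 22) (nat_lit 5) (nat_lit 23) (nat_lit 5) (nat_lit 24) (nat_lit 4) (nat_lit 476) (nat_lit 425) (nat_lit 299)) (XT.lf (nat_lit 0) (nat_lit 218295039439) (nat_lit 152) (nat_lit 66378292535) (nat_lit 0) (nat_lit 83549826765) (nat_lit 22) (nat_lit 5) (nat_lit 24) (nat_lit 4) (nat_lit 22) (nat_lit 4) (nat_lit 477) (nat_lit 425) (nat_lit 298))) (XT.nd (nat_lit 78) (nat_lit 152) (nat_lit 0) (XT.lf (nat_lit 0) (nat_lit 188571370014) (nat_lit 76) (nat_lit 168619659247) (nat_lit 76) (nat_lit 33873878521) (nat_lit 21) (nat_lit 4) (nat_lit 22) (nat_lit 5) (nat_lit 22) (nat_lit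 4) (nat_lit 478) (nat_lit 425) (nat_lit 297)) (XT.lf (nat_lit 0) (nat_lit 50787544233) (nat_lit 76) (nat_lit 39716773294) (nat_lit 152) (nat_lit 325059925364) (nat_lit 19) (nat_lit 5) (nat_lit 20) (nat_lit 5) (nat_lit 21) (nat_lit 4) (nat_lit 479) (nat_lit 425) (nat_lit 296)))))) (XT.nd (nat_lit 546) (nat_lit 304) (nat_lit 0) (XT.nd (nat_lit 234) (nat_lit 304) (nat_lit 0) (XT.nd (nat_lit 78) (nat_lit 152) (nat_lit 0) (XT.lf (nat_lit 0) (nat_lit 228799371726) (nat_lit 152) (nat_lit 112469626739) (nat_lit 0) (nat_lit 100469092001) (nat_lit 19) (nat_lit 5) (nat_lit 21) (nat_lit 4) (nat_lit 19) (nat_lit 4) (nat_lit 480) (nat_lit 425) (nat_lit 295)) (XT.nd (nat_lit 78) (nat_lit 76) (nat_lit 0) (XT.lf (nat_lit 0) (nat_lit 164619201639) (nat_lit 76) (nat_lit 216777704811) (nat_lit 76) (nat_lit 88446995622) (nat_lit 18) (nat_lit 4) (nat_lit 19) (nat_lit 5) (nat_lit 19) (nat_lit 4) (nat_lit 481) (nat_lit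 425) (nat_lit 294)) (XT.lf (nat_lit 0) (nat_lit 46521953738) (nat_lit 152) (nat_lit 32961101677) (nat_lit 76) (nat_lit 420579695318) (nat_lit 17) (nat_lit 5) (nat_lit 19) (nat_lit 5) (nat_lit 18) (nat_lit 4) (nat_lit 482) (nat_lit 425) (nat_lit 293)))) (XT.nd (nat_lit 156) (nat_lit 152) (nat_lit 0) (XT.nd (nat_lit 78) (nat_lit 76) (nat_lit 0) (XT.lf (nat_lit 0) (nat_lit 194584307320) (nat_lit 152) (nat_lit 265408715544) (nat_lit 0) (nat_lit 72363854904) (nat_lit 16) (nat_lit 5) (nat_lit 18) (nat_lit 4) (nat_lit 16) (nat_lit 4) (nat_lit 483) (nat_lit 425) (nat_lit 292)) (XT.lf (nat_lit 0) (nat_lit 24246039953) (nat_lit 76) (nat_lit 332547098833) (nat_lit 76) (nat_lit 210326321729) (nat_lit 15) (nat_lit 4) (nat_lit 16) (nat_lit 5) (nat_lit 16) (nat_lit 4) (nat_lit 484) (nat_lit 425) (nat_lit 291))) (XT.nd (nat_lit 78) (nat_lit 152) (nat_lit 0) (XT.lf (nat_lit 0) (nat_lit 346549196573) (nat_lit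 76) (nat_lit 190051904919) (nat_lit 76) (nat_lit 67830827178) (nat_lit 15) (nat_lit 4) (nat_lit 16) (nat_lit 5) (nat_lit 16) (nat_lit 4) (nat_lit 485) (nat_lit 425) (nat_lit 290)) (XT.lf (nat_lit 0) (nat_lit 50167641040) (nat_lit 76) (nat_lit 33924552690) (nat_lit 152) (nat_lit 560530891215) (nat_lit 13) (nat_lit 5) (nat_lit 14) (nat_lit 5) (nat_lit 15) (nat_lit 4) (nat_lit 486) (nat_lit 425) (nat_lit 289))))) (XT.nd (nat_lit 234) (nat_lit 228) (nat_lit 0) (XT.nd (nat_lit 78) (nat_lit 76) (nat_lit 0) (XT.lf (nat_lit 0) (nat_lit 252492340614) (nat_lit 152) (nat_lit 299055803177) (nat_lit 0) (nat_lit 136090803608) (nat_lit 13) (nat_lit 5) (nat_lit 15) (nat_lit 4) (nat_lit 13) (nat_lit 4) (nat_lit 487) (nat_lit 425) (nat_lit 288)) (XT.nd (nat_lit 78) (nat_lit 0) (nat_lit 0) (XT.lf (nat_lit 0) (nat_lit 20043918984) (nat_lit 76) (nat_lit 415204855218) (nat_lit 76) (nat_lit 298803090921) (nat_lit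 12) (nat_lit 4) (nat_lit 13) (nat_lit 5) (nat_lit 13) (nat_lit 4) (nat_lit 488) (nat_lit 425) (nat_lit 287)) (XT.lf (nat_lit 0) (nat_lit 375349475129) (nat_lit 76) (nat_lit 262484940620) (nat_lit 76) (nat_lit 146082965869) (nat_lit 12) (nat_lit 4) (nat_lit 13) (nat_lit 5) (nat_lit 13) (nat_lit 4) (nat_lit 489) (nat_lit 425) (nat_lit 286)))) (XT.nd (nat_lit 156) (nat_lit 76) (nat_lit 0) (XT.nd (nat_lit 78) (nat_lit 76) (nat_lit 0) (XT.lf (nat_lit 0) (nat_lit 18250672144) (nat_lit 152) (nat_lit 78988291721) (nat_lit 76) (nat_lit 740518488129) (nat_lit 11) (nat_lit 5) (nat_lit 13) (nat_lit 5) (nat_lit 12) (nat_lit 4) (nat_lit 490) (nat_lit 425) (nat_lit 285)) (XT.lf (nat_lit 0) (nat_lit 196489246619) (nat_lit 152) (nat_lit 613372061589) (nat_lit 0) (nat_lit 85629865621) (nat_lit 10) (nat_lit 5) (nat_lit 12) (nat_lit 4) (nat_lit 10) (nat_lit 4) (nat_lit 491) (nat_lit 425) (nat_lit 284))) (XT.nd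 (nat_lit 78) (nat_lit 76) (nat_lit 0) (XT.lf (nat_lit 0) (nat_lit 392024451590) (nat_lit 152) (nat_lit 284502353127) (nat_lit 0) (nat_lit 281164911482) (nat_lit 10) (nat_lit 5) (nat_lit 12) (nat_lit 4) (nat_lit 10) (nat_lit 4) (nat_lit 492) (nat_lit 425) (nat_lit 283)) (XT.lf (nat_lit 0) (nat_lit 73012751400) (nat_lit 76) (nat_lit 531329133697) (nat_lit 76) (nat_lit 420469446265) (nat_lit 9) (nat_lit 4) (nat_lit 10) (nat_lit 5) (nat_lit 10) (nat_lit 4) (nat_lit 493) (nat_lit 425) (nat_lit 282))))))) (XT.nd (nat_lit 57954) (nat_lit 0) (nat_lit 4560) (XT.nd (nat_lit 57408) (nat_lit 0) (nat_lit 8132) (XT.nd (nat_lit 57174) (nat_lit 0) (nat_lit 8968) (XT.nd (nat_lit 78) (nat_lit 152) (nat_lit 0) (XT.lf (nat_lit 0) (nat_lit 469287552314) (nat_lit 76) (nat_lit 369312509917) (nat_lit 76) (nat_lit 258452686074) (nat_lit 9) (nat_lit 4) (nat_lit 10) (nat_lit 5) (nat_lit 10) (nat_lit 4) (nat_lit 494)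 (nat_lit 425) (nat_lit 281)) (XT.nd (nat_lit 78) (nat_lit 152) (nat_lit 0) (XT.lf (nat_lit 0) (nat_lit 897263412087) (nat_lit 76) (nat_lit 194335019877) (nat_lit 76) (nat_lit 83475069727) (nat_lit 9) (nat_lit 4) (nat_lit 10) (nat_lit 5) (nat_lit 10) (nat_lit 4) (nat_lit 495) (nat_lit 425) (nat_lit 280)) (XT.lf (nat_lit 0) (nat_lit 101750028114) (nat_lit 76) (nat_lit 1962213453) (nat_lit 152) (nat_lit 1155461907233) (nat_lit 7) (nat_lit 5) (nat_lit 8) (nat_lit 5) (nat_lit 9) (nat_lit 4) (nat_lit 496) (nat_lit 425) (nat_lit 279)))) (XT.nd (nat_lit 78) (nat_lit 0) (nat_lit 76) (XT.lf (nat_lit 0) (nat_lit 4539455738) (nat_lit 836) (nat_lit 5257492883) (nat_lit 836) (nat_lit 5257492883) (nat_lit 125) (nat_lit 3) (nat_lit 136) (nat_lit 3) (nat_lit 136) (nat_lit 5) (nat_lit 426) (nat_lit 426) (nat_lit 348)) (XT.nd (nat_lit 78) (nat_lit 0) (nat_lit 0) (XT.lf (nat_lit 0) (nat_lit 9822975234) (nat_lit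 760) (nat_lit 17838819869) (nat_lit 836) (nat_lit 3632354563) (nat_lit 126) (nat_lit 5) (nat_lit 136) (nat_lit 5) (nat_lit 137) (nat_lit 5) (nat_lit 427) (nat_lit 426) (nat_lit 347)) (XT.lf (nat_lit 76) (nat_lit 7038887151) (nat_lit 0) (nat_lit 4202982370) (nat_lit 836) (nat_lit 21301607196) (nat_lit 127) (nat_lit 5) (nat_lit 126) (nat_lit 5) (nat_lit 137) (nat_lit 5) (nat_lit 428) (nat_lit 426) (nat_lit 346))))) (XT.nd (nat_lit 234) (nat_lit 988) (nat_lit 0) (XT.nd (nat_lit 78) (nat_lit 0) (nat_lit 76) (XT.lf (nat_lit 76) (nat_lit 335332052) (nat_lit 0) (nat_lit 13079593208) (nat_lit 836) (nat_lit 20445796186) (nat_lit 128) (nat_lit 5) (nat_lit 127) (nat_lit 5) (nat_lit 138) (nat_lit 5) (nat_lit 429) (nat_lit 426) (nat_lit 345)) (XT.nd (nat_lit 78) (nat_lit 0) (nat_lit 76) (XT.lf (nat_lit 0) (nat_lit 16466086349) (nat_lit 760) (nat_lit 6384776668) (nat_lit 836) (nat_lit 12397273407) (nat_lit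 128) (nat_lit 5) (nat_lit 138) (nat_lit 5) (nat_lit 139) (nat_lit 5) (nat_lit 430) (nat_lit 426) (nat_lit 344)) (XT.lf (nat_lit 0) (nat_lit 20387655823) (nat_lit 760) (nat_lit 13315820991) (nat_lit 836) (nat_lit 3011755451) (nat_lit 129) (nat_lit 5) (nat_lit 139) (nat_lit 5) (nat_lit 140) (nat_lit 5) (nat_lit 431) (nat_lit 426) (nat_lit 343)))) (XT.nd (nat_lit 156) (nat_lit 456) (nat_lit 0) (XT.nd (nat_lit 78) (nat_lit 684) (nat_lit 0) (XT.lf (nat_lit 76) (nat_lit 17671831650) (nat_lit 0) (nat_lit 7717034377) (nat_lit 836) (nat_lit 12872537170) (nat_lit 130) (nat_lit 5) (nat_lit 129) (nat_lit 5) (nat_lit 140) (nat_lit 5) (nat_lit 432) (nat_lit 426) (nat_lit 342)) (XT.lf (nat_lit 0) (nat_lit 11741678994) (nat_lit 760) (nat_lit 19777459142) (nat_lit 836) (nat_lit 8375684362) (nat_lit 120) (nat_lit 5) (nat_lit 130) (nat_lit 5) (nat_lit 131) (nat_lit 5) (nat_lit 433) (nat_lit 426) (nat_lit 341)))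 (XT.nd (nat_lit 78) (nat_lit 76) (nat_lit 0) (XT.lf (nat_lit 0) (nat_lit 5665154527) (nat_lit 380) (nat_lit 33177284250) (nat_lit 456) (nat_lit 2781348957) (nat_lit 115) (nat_lit 5) (nat_lit 120) (nat_lit 5) (nat_lit 121) (nat_lit 5) (nat_lit 434) (nat_lit 426) (nat_lit 340)) (XT.lf (nat_lit 0) (nat_lit 3981110306) (nat_lit 456) (nat_lit 671689696) (nat_lit 76) (nat_lit 38794480569) (nat_lit 114) (nat_lit 5) (nat_lit 120) (nat_lit 5) (nat_lit 115) (nat_lit 5) (nat_lit 435) (nat_lit 426) (nat_lit 339)))))) (XT.nd (nat_lit 546) (nat_lit 1368) (nat_lit 0) (XT.nd (nat_lit 234) (nat_lit 1140) (nat_lit 0) (XT.nd (nat_lit 78) (nat_lit 684) (nat_lit 0) (XT.lf (nat_lit 0) (nat_lit 12203911346) (nat_lit 456) (nat_lit 7182498364) (nat_lit 76) (nat_lit 25977126063) (nat_lit 109) (nat_lit 5) (nat_lit 115) (nat_lit 5) (nat_lit 110) (nat_lit 5) (nat_lit 436) (nat_lit 426) (nat_lit 338)) (XT.nd (nat_lit 78)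 (nat_lit 304) (nat_lit 0) (XT.lf (nat_lit 0) (nat_lit 21883232321) (nat_lit 456) (nat_lit 13862570887) (nat_lit 76) (nat_lit 11647355453) (nat_lit 104) (nat_lit 5) (nat_lit 110) (nat_lit 5) (nat_lit 105) (nat_lit 5) (nat_lit 437) (nat_lit 426) (nat_lit 337)) (XT.lf (nat_lit 0) (nat_lit 28763503895) (nat_lit 304) (nat_lit 4470779971) (nat_lit 380) (nat_lit 16306000181) (nat_lit 100) (nat_lit 5) (nat_lit 104) (nat_lit 5) (nat_lit 105) (nat_lit 5) (nat_lit 438) (nat_lit 426) (nat_lit 336)))) (XT.nd (nat_lit 156) (nat_lit 532) (nat_lit 0) (XT.nd (nat_lit 78) (nat_lit 304) (nat_lit 0) (XT.lf (nat_lit 0) (nat_lit 23739430115) (nat_lit 304) (nat_lit 22822184017) (nat_lit 380) (nat_lit 5244157369) (nat_lit 96) (nat_lit 5) (nat_lit 100) (nat_lit 5) (nat_lit 101) (nat_lit 5) (nat_lit 439) (nat_lit 426) (nat_lit 335)) (XT.lf (nat_lit 0) (nat_lit 7398336922) (nat_lit 304) (nat_lit 35658811315) (nat_lit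 76) (nat_lit 11144607425) (nat_lit 92) (nat_lit 5) (nat_lit 96) (nat_lit 5) (nat_lit 93) (nat_lit 5) (nat_lit 440) (nat_lit 426) (nat_lit 334))) (XT.nd (nat_lit 78) (nat_lit 228) (nat_lit 0) (XT.lf (nat_lit 0) (nat_lit 13048299254) (nat_lit 304) (nat_lit 8903175506) (nat_lit 380) (nat_lit 34779498064) (nat_lit 88) (nat_lit 5) (nat_lit 92) (nat_lit 5) (nat_lit 93) (nat_lit 5) (nat_lit 441) (nat_lit 426) (nat_lit 333)) (XT.lf (nat_lit 0) (nat_lit 7273346326) (nat_lit 228) (nat_lit 31572617223) (nat_lit 304) (nat_lit 20557710152) (nat_lit 85) (nat_lit 5) (nat_lit 88) (nat_lit 5) (nat_lit 89) (nat_lit 5) (nat_lit 442) (nat_lit 426) (nat_lit 332))))) (XT.nd (nat_lit 234) (nat_lit 836) (nat_lit 0) (XT.nd (nat_lit 78) (nat_lit 304) (nat_lit 0) (XT.lf (nat_lit 0) (nat_lit 1415893346) (nat_lit 228) (nat_lit 56691541478) (nat_lit 304) (nat_lit 4131985892) (nat_lit 82) (nat_lit 5) (nat_lit 85) (nat_lit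 5) (nat_lit 86) (nat_lit 5) (nat_lit 443) (nat_lit 426) (nat_lit 331)) (XT.nd (nat_lit 78) (nat_lit 228) (nat_lit 0) (XT.lf (nat_lit 0) (nat_lit 14623306353) (nat_lit 304) (nat_lit 4915013749) (nat_lit 76) (nat_lit 45680533467) (nat_lit 81) (nat_lit 5) (nat_lit 85) (nat_lit 5) (nat_lit 82) (nat_lit 5) (nat_lit 444) (nat_lit 426) (nat_lit 330)) (XT.lf (nat_lit 0) (nat_lit 35962807634) (nat_lit 304) (nat_lit 11503488059) (nat_lit 76) (nat_lit 20905531977) (nat_lit 78) (nat_lit 5) (nat_lit 82) (nat_lit 5) (nat_lit 79) (nat_lit 5) (nat_lit 445) (nat_lit 426) (nat_lit 329)))) (XT.nd (nat_lit 156) (nat_lit 380) (nat_lit 0) (XT.nd (nat_lit 78) (nat_lit 228) (nat_lit 0) (XT.lf (nat_lit 0) (nat_lit 53368880203) (nat_lit 228) (nat_lit 6886511298) (nat_lit 304) (nat_lit 11459353012) (nat_lit 75) (nat_lit 5) (nat_lit 78) (nat_lit 5) (nat_lit 79) (nat_lit 5) (nat_lit 446) (nat_lit 426) (nat_lit 328)) (XT.lf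 (nat_lit 0) (nat_lit 12384337342) (nat_lit 228) (nat_lit 25920885784) (nat_lit 76) (nat_lit 36932383506) (nat_lit 72) (nat_lit 5) (nat_lit 75) (nat_lit 5) (nat_lit 73) (nat_lit 5) (nat_lit 447) (nat_lit 426) (nat_lit 327))) (XT.nd (nat_lit 78) (nat_lit 152) (nat_lit 0) (XT.lf (nat_lit 0) (nat_lit 38979520364) (nat_lit 304) (nat_lit 33927145093) (nat_lit 76) (nat_lit 6063966248) (nat_lit 69) (nat_lit 5) (nat_lit 73) (nat_lit 5) (nat_lit 70) (nat_lit 5) (nat_lit 448) (nat_lit 426) (nat_lit 326)) (XT.lf (nat_lit 0) (nat_lit 40260998616) (nat_lit 152) (nat_lit 29171395223) (nat_lit 228) (nat_lit 13483401863) (nat_lit 67) (nat_lit 5) (nat_lit 69) (nat_lit 5) (nat_lit 70) (nat_lit 5) (nat_lit 449) (nat_lit 426) (nat_lit 325))))))))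
noncomputable def xc88 : XT := (XT.nd (nat_lit 2028) (nat_lit 1216) (nat_lit 0) (XT.nd (nat_lit 1014) (nat_lit 1216) (nat_lit 0) (XT.nd (nat_lit 468) (nat_lit 988) (nat_lit 0) (XT.nd (nat_lit 234) (nat_lit 456) (nat_lit 0) (XT.nd (nat_lit 78) (nat_lit 304) (nat_lit 0) (XT.lf (nat_lit 0) (nat_lit 16113969084) (nat_lit 228) (nat_lit 52083867228) (nat_lit 76) (nat_lit 18894225551) (nat_lit 64) (nat_lit 5) (nat_lit 67) (nat_lit 5) (nat_lit 65) (nat_lit 5) (nat_lit 450) (nat_lit 426) (nat_lit 324)) (XT.nd (nat_lit 78) (nat_lit 152) (nat_lit 0) (XT.lf (nat_lit 0) (nat_lit 29035016895) (nat_lit 152) (nat_lit 20275352051) (nat_lit 228) (nat_lit 42195827383) (nat_lit 62) (nat_lit 5) (nat_lit 64) (nat_lit 5) (nat_lit 65) (nat_lit 5) (nat_lit 451) (nat_lit 426) (nat_lit 323)) (XT.lf (nat_lit 0) (nat_lit 22483543079) (nat_lit 152) (nat_lit 64440655638) (nat_lit 228) (nat_lit 9261177474) (nat_lit 60) (nat_lit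 5) (nat_lit 62) (nat_lit 5) (nat_lit 63) (nat_lit 5) (nat_lit 452) (nat_lit 426) (nat_lit 322)))) (XT.nd (nat_lit 78) (nat_lit 228) (nat_lit 0) (XT.lf (nat_lit 0) (nat_lit 14985364364) (nat_lit 152) (nat_lit 12159882085) (nat_lit 228) (nat_lit 73989155688) (nat_lit 57) (nat_lit 5) (nat_lit 59) (nat_lit 5) (nat_lit 60) (nat_lit 5) (nat_lit 453) (nat_lit 426) (nat_lit 321)) (XT.nd (nat_lit 78) (nat_lit 76) (nat_lit 0) (XT.lf (nat_lit 0) (nat_lit 6312702638) (nat_lit 152) (nat_lit 61923747688) (nat_lit 228) (nat_lit 38130472509) (nat_lit 55) (nat_lit 5) (nat_lit 57) (nat_lit 5) (nat_lit 58) (nat_lit 5) (nat_lit 454) (nat_lit 426) (nat_lit 320)) (XT.lf (nat_lit 0) (nat_lit 2305441873) (nat_lit 228) (nat_lit 2938803336) (nat_lit 76) (nat_lit 106686952335) (nat_lit 54) (nat_lit 5) (nat_lit 57) (nat_lit 5) (nat_lit 55) (nat_lit 5) (nat_lit 455) (nat_lit 426) (nat_lit 319))))) (XT.nd (nat_lit 234)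 (nat_lit 532) (nat_lit 0) (XT.nd (nat_lit 78) (nat_lit 304) (nat_lit 0) (XT.lf (nat_lit 0) (nat_lit 47200710756) (nat_lit 228) (nat_lit 14089979529) (nat_lit 76) (nat_lit 56490650450) (nat_lit 52) (nat_lit 5) (nat_lit 55) (nat_lit 5) (nat_lit 53) (nat_lit 5) (nat_lit 456) (nat_lit 426) (nat_lit 318)) (XT.nd (nat_lit 78) (nat_lit 152) (nat_lit 0) (XT.lf (nat_lit 0) (nat_lit 97362704745) (nat_lit 228) (nat_lit 26124735680) (nat_lit 76) (nat_lit 528300105) (nat_lit 50) (nat_lit 5) (nat_lit 53) (nat_lit 5) (nat_lit 51) (nat_lit 4) (nat_lit 457) (nat_lit 426) (nat_lit 317)) (XT.lf (nat_lit 0) (nat_lit 22860378146) (nat_lit 152) (nat_lit 40532532819) (nat_lit 76) (nat_lit 67202903963) (nat_lit 48) (nat_lit 5) (nat_lit 50) (nat_lit 5) (nat_lit 49) (nat_lit 5) (nat_lit 458) (nat_lit 426) (nat_lit 316)))) (XT.nd (nat_lit 156) (nat_lit 304) (nat_lit 0) (XT.nd (nat_lit 78) (nat_lit 76) (nat_lit 0) (XT.lf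 (nat_lit 0) (nat_lit 77196613365) (nat_lit 228) (nat_lit 56723709243) (nat_lit 76) (nat_lit 3670349154) (nat_lit 46) (nat_lit 5) (nat_lit 49) (nat_lit 5) (nat_lit 47) (nat_lit 4) (nat_lit 459) (nat_lit 426) (nat_lit 315)) (XT.lf (nat_lit 0) (nat_lit 69454643653) (nat_lit 76) (nat_lit 69293900546) (nat_lit 152) (nat_lit 6253133353) (nat_lit 45) (nat_lit 5) (nat_lit 46) (nat_lit 5) (nat_lit 47) (nat_lit 4) (nat_lit 460) (nat_lit 426) (nat_lit 314))) (XT.nd (nat_lit 78) (nat_lit 76) (nat_lit 0) (XT.lf (nat_lit 0) (nat_lit 52472218912) (nat_lit 228) (nat_lit 97177424798) (nat_lit 76) (nat_lit 3218931545) (nat_lit 42) (nat_lit 5) (nat_lit 45) (nat_lit 5) (nat_lit 43) (nat_lit 4) (nat_lit 461) (nat_lit 426) (nat_lit 313)) (XT.lf (nat_lit 0) (nat_lit 38768874008) (nat_lit 76) (nat_lit 80019849459) (nat_lit 152) (nat_lit 42415365823) (nat_lit 41) (nat_lit 5) (nat_lit 42) (nat_lit 5) (nat_lit 43) (nat_lit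 4) (nat_lit 462) (nat_lit 426) (nat_lit 312)))))) (XT.nd (nat_lit 468) (nat_lit 532) (nat_lit 0) (XT.nd (nat_lit 234) (nat_lit 380) (nat_lit 0) (XT.nd (nat_lit 78) (nat_lit 76) (nat_lit 0) (XT.lf (nat_lit 0) (nat_lit 19207237192) (nat_lit 152) (nat_lit 2368675954) (nat_lit 228) (nat_lit 148513836009) (nat_lit 38) (nat_lit 5) (nat_lit 40) (nat_lit 5) (nat_lit 41) (nat_lit 5) (nat_lit 463) (nat_lit 426) (nat_lit 311)) (XT.nd (nat_lit 78) (nat_lit 76) (nat_lit 0) (XT.lf (nat_lit 0) (nat_lit 92658532497) (nat_lit 228) (nat_lit 5052418496) (nat_lit 76) (nat_lit 81767640998) (nat_lit 38) (nat_lit 5) (nat_lit 41) (nat_lit 5) (nat_lit 39) (nat_lit 4) (nat_lit 464) (nat_lit 426) (nat_lit 310)) (XT.lf (nat_lit 0) (nat_lit 157439983452) (nat_lit 76) (nat_lit 14484070453) (nat_lit 152) (nat_lit 17569673877) (nat_lit 37) (nat_lit 5) (nat_lit 38) (nat_lit 5) (nat_lit 39) (nat_lit 4) (nat_lit 465) (nat_lit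 426) (nat_lit 309)))) (XT.nd (nat_lit 78) (nat_lit 228) (nat_lit 0) (XT.lf (nat_lit 0) (nat_lit 58832844705) (nat_lit 152) (nat_lit 65112765494) (nat_lit 76) (nat_lit 76147619403) (nat_lit 35) (nat_lit 5) (nat_lit 37) (nat_lit 5) (nat_lit 36) (nat_lit 4) (nat_lit 466) (nat_lit 426) (nat_lit 308)) (XT.nd (nat_lit 78) (nat_lit 152) (nat_lit 0) (XT.lf (nat_lit 0) (nat_lit 107910373374) (nat_lit 76) (nat_lit 35324766001) (nat_lit 152) (nat_lit 68165994428) (nat_lit 34) (nat_lit 5) (nat_lit 35) (nat_lit 5) (nat_lit 36) (nat_lit 4) (nat_lit 467) (nat_lit 426) (nat_lit 307)) (XT.lf (nat_lit 0) (nat_lit 13749241414) (nat_lit 152) (nat_lit 148693209014) (nat_lit 76) (nat_lit 60996898298) (nat_lit 32) (nat_lit 5) (nat_lit 34) (nat_lit 5) (nat_lit 33) (nat_lit 4) (nat_lit 468) (nat_lit 426) (nat_lit 306))))) (XT.nd (nat_lit 234) (nat_lit 304) (nat_lit 0) (XT.nd (nat_lit 78) (nat_lit 152) (nat_lit 0)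 (XT.lf (nat_lit 0) (nat_lit 33894465585) (nat_lit 76) (nat_lit 68922557590) (nat_lit 152) (nat_lit 133418347434) (nat_lit 31) (nat_lit 5) (nat_lit 32) (nat_lit 5) (nat_lit 33) (nat_lit 4) (nat_lit 469) (nat_lit 426) (nat_lit 305)) (XT.nd (nat_lit 78) (nat_lit 152) (nat_lit 0) (XT.lf (nat_lit 0) (nat_lit 202142199484) (nat_lit 152) (nat_lit 14072757977) (nat_lit 0) (nat_lit 33683518276) (nat_lit 31) (nat_lit 5) (nat_lit 33) (nat_lit 4) (nat_lit 31) (nat_lit 4) (nat_lit 470) (nat_lit 426) (nat_lit 304)) (XT.lf (nat_lit 0) (nat_lit 47589504743) (nat_lit 152) (nat_lit 70901239997) (nat_lit 76) (nat_lit 145915778936) (nat_lit 29) (nat_lit 5) (nat_lit 31) (nat_lit 5) (nat_lit 30) (nat_lit 4) (nat_lit 471) (nat_lit 426) (nat_lit 303)))) (XT.nd (nat_lit 156) (nat_lit 152) (nat_lit 0) (XT.nd (nat_lit 78) (nat_lit 76) (nat_lit 0) (XT.lf (nat_lit 0) (nat_lit 141857649126) (nat_lit 76) (nat_lit 9517150904)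 (nat_lit 152) (nat_lit 128537021053) (nat_lit 28) (nat_lit 5) (nat_lit 29) (nat_lit 5) (nat_lit 30) (nat_lit 4) (nat_lit 472) (nat_lit 426) (nat_lit 302)) (XT.lf (nat_lit 0) (nat_lit 78370016233) (nat_lit 76) (nat_lit 189259403206) (nat_lit 76) (nat_lit 28819797891) (nat_lit 27) (nat_lit 4) (nat_lit 28) (nat_lit 5) (nat_lit 28) (nat_lit 4) (nat_lit 473) (nat_lit 426) (nat_lit 301))) (XT.nd (nat_lit 78) (nat_lit 0) (nat_lit 0) (XT.lf (nat_lit 0) (nat_lit 1461654562) (nat_lit 76) (nat_lit 77514954610) (nat_lit 152) (nat_lit 235140108715) (nat_lit 25) (nat_lit 5) (nat_lit 26) (nat_lit 5) (nat_lit 27) (nat_lit 4) (nat_lit 474) (nat_lit 426) (nat_lit 300)) (XT.lf (nat_lit 0) (nat_lit 198934382303) (nat_lit 152) (nat_lit 87878934389) (nat_lit 0) (nat_lit 46133311130) (nat_lit 25) (nat_lit 5) (nat_lit 27) (nat_lit 4) (nat_lit 25) (nat_lit 4) (nat_lit 475) (nat_lit 426) (nat_lit 299))))))) (XT.nd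 (nat_lit 1014) (nat_lit 304) (nat_lit 0) (XT.nd (nat_lit 468) (nat_lit 456) (nat_lit 0) (XT.nd (nat_lit 234) (nat_lit 228) (nat_lit 0) (XT.nd (nat_lit 78) (nat_lit 152) (nat_lit 0) (XT.lf (nat_lit 0) (nat_lit 158647782454) (nat_lit 76) (nat_lit 173623860114) (nat_lit 76) (nat_lit 20822144772) (nat_lit 24) (nat_lit 4) (nat_lit 25) (nat_lit 5) (nat_lit 25) (nat_lit 4) (nat_lit 476) (nat_lit 426) (nat_lit 298)) (XT.nd (nat_lit 78) (nat_lit 0) (nat_lit 0) (XT.lf (nat_lit 0) (nat_lit 53355582525) (nat_lit 76) (nat_lit 47209243973) (nat_lit 152) (nat_lit 274089326325) (nat_lit 22) (nat_lit 5) (nat_lit 23) (nat_lit 5) (nat_lit 24) (nat_lit 4) (nat_lit 477) (nat_lit 426) (nat_lit 297)) (XT.lf (nat_lit 0) (nat_lit 235779115649) (nat_lit 152) (nat_lit 71648292828) (nat_lit 0) (nat_lit 90252578442) (nat_lit 22) (nat_lit 5) (nat_lit 24) (nat_lit 4) (nat_lit 22) (nat_lit 4) (nat_lit 478) (nat_lit 426)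 (nat_lit 296)))) (XT.nd (nat_lit 78) (nat_lit 152) (nat_lit 0) (XT.lf (nat_lit 0) (nat_lit 203695592939) (nat_lit 76) (nat_lit 182090276496) (nat_lit 76) (nat_lit 36563252276) (nat_lit 21) (nat_lit 4) (nat_lit 22) (nat_lit 5) (nat_lit 22) (nat_lit 4) (nat_lit 479) (nat_lit 426) (nat_lit 295)) (XT.nd (nat_lit 78) (nat_lit 0) (nat_lit 0) (XT.lf (nat_lit 0) (nat_lit 54888016817) (nat_lit 76) (nat_lit 42875637804) (nat_lit 152) (nat_lit 351044777409) (nat_lit 19) (nat_lit 5) (nat_lit 20) (nat_lit 5) (nat_lit 21) (nat_lit 4) (nat_lit 480) (nat_lit 426) (nat_lit 294)) (XT.lf (nat_lit 0) (nat_lit 247121173477) (nat_lit 152) (nat_lit 121431890532) (nat_lit 0) (nat_lit 108523180438) (nat_lit 19) (nat_lit 5) (nat_lit 21) (nat_lit 4) (nat_lit 19) (nat_lit 4) (nat_lit 481) (nat_lit 426) (nat_lit 293))))) (XT.nd (nat_lit 234) (nat_lit 228) (nat_lit 0) (XT.nd (nat_lit 78) (nat_lit 152) (nat_lit 0) (XT.lf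 (nat_lit 0) (nat_lit 177822509746) (nat_lit 76) (nat_lit 234103206138) (nat_lit 76) (nat_lit 95504844902) (nat_lit 18) (nat_lit 4) (nat_lit 19) (nat_lit 5) (nat_lit 19) (nat_lit 4) (nat_lit 482) (nat_lit 426) (nat_lit 292)) (XT.nd (nat_lit 78) (nat_lit 76) (nat_lit 0) (XT.lf (nat_lit 0) (nat_lit 50259762932) (nat_lit 152) (nat_lit 35566188147) (nat_lit 76) (nat_lit 454241016532) (nat_lit 17) (nat_lit 5) (nat_lit 19) (nat_lit 5) (nat_lit 18) (nat_lit 4) (nat_lit 483) (nat_lit 426) (nat_lit 291)) (XT.lf (nat_lit 0) (nat_lit 210166626087) (nat_lit 152) (nat_lit 286610461208) (nat_lit 0) (nat_lit 78167561490) (nat_lit 16) (nat_lit 5) (nat_lit 18) (nat_lit 4) (nat_lit 16) (nat_lit 4) (nat_lit 484) (nat_lit 426) (nat_lit 290)))) (XT.nd (nat_lit 156) (nat_lit 152) (nat_lit 0) (XT.nd (nat_lit 78) (nat_lit 0) (nat_lit 0) (XT.lf (nat_lit 0) (nat_lit 26215329611) (nat_lit 76) (nat_lit 359136143056) (nat_lit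 76) (nat_lit 227136800092) (nat_lit 15) (nat_lit 4) (nat_lit 16) (nat_lit 5) (nat_lit 16) (nat_lit 4) (nat_lit 485) (nat_lit 426) (nat_lit 289)) (XT.lf (nat_lit 0) (nat_lit 374300545689) (nat_lit 76) (nat_lit 205242424273) (nat_lit 76) (nat_lit 73242823560) (nat_lit 15) (nat_lit 4) (nat_lit 16) (nat_lit 5) (nat_lit 16) (nat_lit 4) (nat_lit 486) (nat_lit 426) (nat_lit 288))) (XT.nd (nat_lit 78) (nat_lit 0) (nat_lit 0) (XT.lf (nat_lit 0) (nat_lit 54207717745) (nat_lit 76) (nat_lit 36625236943) (nat_lit 152) (nat_lit 605359307405) (nat_lit 13) (nat_lit 5) (nat_lit 14) (nat_lit 5) (nat_lit 15) (nat_lit 4) (nat_lit 487) (nat_lit 426) (nat_lit 287)) (XT.lf (nat_lit 0) (nat_lit 272704313787) (nat_lit 152) (nat_lit 322955149162) (nat_lit 0) (nat_lit 146989970601) (nat_lit 13) (nat_lit 5) (nat_lit 15) (nat_lit 4) (nat_lit 13) (nat_lit 4) (nat_lit 488) (nat_lit 426) (nat_lit 286)))))) (XT.nd (nat_lit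 546) (nat_lit 0) (nat_lit 0) (XT.nd (nat_lit 234) (nat_lit 152) (nat_lit 0) (XT.nd (nat_lit 78) (nat_lit 76) (nat_lit 0) (XT.lf (nat_lit 0) (nat_lit 21671459163) (nat_lit 76) (nat_lit 448409245731) (nat_lit 76) (nat_lit 322694707680) (nat_lit 12) (nat_lit 4) (nat_lit 13) (nat_lit 5) (nat_lit 13) (nat_lit 4) (nat_lit 489) (nat_lit 426) (nat_lit 285)) (XT.nd (nat_lit 78) (nat_lit 76) (nat_lit 0) (XT.lf (nat_lit 0) (nat_lit 405399680047) (nat_lit 76) (nat_lit 283472626699) (nat_lit 76) (nat_lit 157757908217) (nat_lit 12) (nat_lit 4) (nat_lit 13) (nat_lit 5) (nat_lit 13) (nat_lit 4) (nat_lit 490) (nat_lit 426) (nat_lit 284)) (XT.lf (nat_lit 0) (nat_lit 19721207962) (nat_lit 152) (nat_lit 85286409223) (nat_lit 76) (nat_lit 799769906602) (nat_lit 11) (nat_lit 5) (nat_lit 13) (nat_lit 5) (nat_lit 12) (nat_lit 4) (nat_lit 491) (nat_lit 426) (nat_lit 283)))) (XT.nd (nat_lit 156) (nat_lit 76) (nat_lit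 0) (XT.nd (nat_lit 78) (nat_lit 0) (nat_lit 0) (XT.lf (nat_lit 0) (nat_lit 212218561154) (nat_lit 152) (nat_lit 662421446194) (nat_lit 0) (nat_lit 92489951404) (nat_lit 10) (nat_lit 5) (nat_lit 12) (nat_lit 4) (nat_lit 10) (nat_lit 4) (nat_lit 492) (nat_lit 426) (nat_lit 282)) (XT.lf (nat_lit 0) (nat_lit 423395828833) (nat_lit 152) (nat_lit 307243670708) (nat_lit 0) (nat_lit 303667082672) (nat_lit 10) (nat_lit 5) (nat_lit 12) (nat_lit 4) (nat_lit 10) (nat_lit 4) (nat_lit 493) (nat_lit 426) (nat_lit 281))) (XT.nd (nat_lit 78) (nat_lit 0) (nat_lit 0) (XT.lf (nat_lit 0) (nat_lit 78871822084) (nat_lit 76) (nat_lit 573826418897) (nat_lit 76) (nat_lit 454097546429) (nat_lit 9) (nat_lit 4) (nat_lit 10) (nat_lit 5) (nat_lit 10) (nat_lit 4) (nat_lit 494) (nat_lit 426) (nat_lit 280)) (XT.lf (nat_lit 0) (nat_lit 506847269992) (nat_lit 76) (nat_lit 398849135251) (nat_lit 76) (nat_lit 279120145832) (nat_lit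 9) (nat_lit 4) (nat_lit 10) (nat_lit 5) (nat_lit 10) (nat_lit 4) (nat_lit 495) (nat_lit 426) (nat_lit 279))))) (XT.nd (nat_lit 57252) (nat_lit 0) (nat_lit 8892) (XT.nd (nat_lit 57096) (nat_lit 0) (nat_lit 8816) (XT.lf (nat_lit 0) (nat_lit 969059960510) (nat_lit 76) (nat_lit 209874066412) (nat_lit 76) (nat_lit 90144968706) (nat_lit 9) (nat_lit 4) (nat_lit 10) (nat_lit 5) (nat_lit 10) (nat_lit 4) (nat_lit 496) (nat_lit 426) (nat_lit 278)) (XT.nd (nat_lit 78) (nat_lit 0) (nat_lit 76) (XT.lf (nat_lit 0) (nat_lit 5011220883) (nat_lit 836) (nat_lit 5621051625) (nat_lit 836) (nat_lit 5621051625) (nat_lit 125) (nat_lit 3) (nat_lit 136) (nat_lit 3) (nat_lit 136) (nat_lit 5) (nat_lit 427) (nat_lit 427) (nat_lit 346)) (XT.lf (nat_lit 0) (nat_lit 10810181139) (nat_lit 760) (nat_lit 19145119085) (nat_lit 836) (nat_lit 3832234768) (nat_lit 126) (nat_lit 5) (nat_lit 136) (nat_lit 5) (nat_lit 137) (nat_lit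 5) (nat_lit 428) (nat_lit 427) (nat_lit 345)))) (XT.nd (nat_lit 156) (nat_lit 0) (nat_lit 152) (XT.nd (nat_lit 78) (nat_lit 0) (nat_lit 76) (XT.lf (nat_lit 76) (nat_lit 7717554399) (nat_lit 0) (nat_lit 4611920588) (nat_lit 836) (nat_lit 22807994615) (nat_lit 127) (nat_lit 5) (nat_lit 126) (nat_lit 5) (nat_lit 137) (nat_lit 5) (nat_lit 429) (nat_lit 427) (nat_lit 344)) (XT.lf (nat_lit 76) (nat_lit 482851710) (nat_lit 0) (nat_lit 14180411984) (nat_lit 836) (nat_lit 21897491159) (nat_lit 128) (nat_lit 5) (nat_lit 127) (nat_lit 5) (nat_lit 138) (nat_lit 5) (nat_lit 430) (nat_lit 427) (nat_lit 343))) (XT.nd (nat_lit 78) (nat_lit 0) (nat_lit 76) (XT.lf (nat_lit 0) (nat_lit 17944756844) (nat_lit 760) (nat_lit 6774848116) (nat_lit 836) (nat_lit 13340251079) (nat_lit 128) (nat_lit 5) (nat_lit 138) (nat_lit 5) (nat_lit 139) (nat_lit 5) (nat_lit 431) (nat_lit 427) (nat_lit 342)) (XT.lf (nat_lit 0) (nat_lit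 22169341838) (nat_lit 760) (nat_lit 14257444379) (nat_lit 836) (nat_lit 3218073432) (nat_lit 129) (nat_lit 5) (nat_lit 139) (nat_lit 5) (nat_lit 140) (nat_lit 5) (nat_lit 432) (nat_lit 427) (nat_lit 341))))))))
noncomputable def xc89 : XT := (XT.nd (nat_lit 2028) (nat_lit 2584) (nat_lit 0) (XT.nd (nat_lit 1014) (nat_lit 2356) (nat_lit 0) (XT.nd (nat_lit 468) (nat_lit 1748) (nat_lit 0) (XT.nd (nat_lit 234) (nat_lit 836) (nat_lit 0) (XT.nd (nat_lit 78) (nat_lit 1064) (nat_lit 0) (XT.lf (nat_lit 76) (nat_lit 19203847130) (nat_lit 0) (nat_lit 8357487235) (nat_lit 836) (nat_lit 13753859877) (nat_lit 130) (nat_lit 5) (nat_lit 129) (nat_lit 5) (nat_lit 140) (nat_lit 5) (nat_lit 433) (nat_lit 427) (nat_lit 340)) (XT.nd (nat_lit 78) (nat_lit 380) (nat_lit 0) (XT.lf (nat_lit 0) (nat_lit 12801299002) (nat_lit 760) (nat_lit 21371802398) (nat_lit 836) (nat_lit 8906635974) (nat_lit 120) (nat_lit 5) (nat_lit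 130) (nat_lit 5) (nat_lit 131) (nat_lit 5) (nat_lit 434) (nat_lit 427) (nat_lit 339)) (XT.lf (nat_lit 0) (nat_lit 6239987522) (nat_lit 380) (nat_lit 35834192022) (nat_lit 456) (nat_lit 2873248265) (nat_lit 115) (nat_lit 5) (nat_lit 120) (nat_lit 5) (nat_lit 121) (nat_lit 5) (nat_lit 435) (nat_lit 427) (nat_lit 338)))) (XT.nd (nat_lit 78) (nat_lit 760) (nat_lit 0) (XT.lf (nat_lit 0) (nat_lit 4416662387) (nat_lit 456) (nat_lit 608902270) (nat_lit 76) (nat_lit 41891604932) (nat_lit 114) (nat_lit 5) (nat_lit 120) (nat_lit 5) (nat_lit 115) (nat_lit 5) (nat_lit 436) (nat_lit 427) (nat_lit 337)) (XT.nd (nat_lit 78) (nat_lit 380) (nat_lit 0) (XT.lf (nat_lit 0) (nat_lit 13290377052) (nat_lit 456) (nat_lit 7640116387) (nat_lit 76) (nat_lit 28056580274) (nat_lit 109) (nat_lit 5) (nat_lit 115) (nat_lit 5) (nat_lit 110) (nat_lit 5) (nat_lit 437) (nat_lit 427) (nat_lit 336)) (XT.lf (nat_lit 0) (nat_lit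 23737758642) (nat_lit 456) (nat_lit 14854584424) (nat_lit 76) (nat_lit 12587040381) (nat_lit 104) (nat_lit 5) (nat_lit 110) (nat_lit 5) (nat_lit 105) (nat_lit 5) (nat_lit 438) (nat_lit 427) (nat_lit 335))))) (XT.nd (nat_lit 234) (nat_lit 836) (nat_lit 0) (XT.nd (nat_lit 78) (nat_lit 608) (nat_lit 0) (XT.lf (nat_lit 0) (nat_lit 31176492005) (nat_lit 304) (nat_lit 4814455594) (nat_lit 380) (nat_lit 17507631157) (nat_lit 100) (nat_lit 5) (nat_lit 104) (nat_lit 5) (nat_lit 105) (nat_lit 5) (nat_lit 439) (nat_lit 427) (nat_lit 334)) (XT.nd (nat_lit 78) (nat_lit 304) (nat_lit 0) (XT.lf (nat_lit 0) (nat_lit 25750133913) (nat_lit 304) (nat_lit 24629020760) (nat_lit 380) (nat_lit 5566418383) (nat_lit 96) (nat_lit 5) (nat_lit 100) (nat_lit 5) (nat_lit 101) (nat_lit 5) (nat_lit 440) (nat_lit 427) (nat_lit 333)) (XT.lf (nat_lit 0) (nat_lit 8079425198) (nat_lit 304) (nat_lit 38397663659) (nat_lit 76) (nat_lit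 12056320095) (nat_lit 92) (nat_lit 5) (nat_lit 96) (nat_lit 5) (nat_lit 93) (nat_lit 5) (nat_lit 441) (nat_lit 427) (nat_lit 332)))) (XT.nd (nat_lit 156) (nat_lit 304) (nat_lit 0) (XT.nd (nat_lit 78) (nat_lit 228) (nat_lit 0) (XT.lf (nat_lit 0) (nat_lit 14201067863) (nat_lit 304) (nat_lit 9590837520) (nat_lit 380) (nat_lit 37473305470) (nat_lit 88) (nat_lit 5) (nat_lit 92) (nat_lit 5) (nat_lit 93) (nat_lit 5) (nat_lit 442) (nat_lit 427) (nat_lit 331)) (XT.lf (nat_lit 0) (nat_lit 7963074113) (nat_lit 228) (nat_lit 34070673289) (nat_lit 304) (nat_lit 22118192481) (nat_lit 85) (nat_lit 5) (nat_lit 88) (nat_lit 5) (nat_lit 89) (nat_lit 5) (nat_lit 443) (nat_lit 427) (nat_lit 330))) (XT.nd (nat_lit 78) (nat_lit 76) (nat_lit 0) (XT.lf (nat_lit 0) (nat_lit 1635775625) (nat_lit 228) (nat_lit 61196492623) (nat_lit 304) (nat_lit 4382473476) (nat_lit 82) (nat_lit 5) (nat_lit 85) (nat_lit 5) (nat_lit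 86) (nat_lit 5) (nat_lit 444) (nat_lit 427) (nat_lit 329)) (XT.lf (nat_lit 0) (nat_lit 15864937996) (nat_lit 304) (nat_lit 5207109920) (nat_lit 76) (nat_lit 49360707311) (nat_lit 81) (nat_lit 5) (nat_lit 85) (nat_lit 5) (nat_lit 82) (nat_lit 5) (nat_lit 445) (nat_lit 427) (nat_lit 328)))))) (XT.nd (nat_lit 468) (nat_lit 1064) (nat_lit 0) (XT.nd (nat_lit 234) (nat_lit 608) (nat_lit 0) (XT.nd (nat_lit 78) (nat_lit 456) (nat_lit 0) (XT.lf (nat_lit 0) (nat_lit 38908242096) (nat_lit 304) (nat_lit 12324089975) (nat_lit 76) (nat_lit 22605804405) (nat_lit 78) (nat_lit 5) (nat_lit 82) (nat_lit 5) (nat_lit 79) (nat_lit 5) (nat_lit 446) (nat_lit 427) (nat_lit 327)) (XT.nd (nat_lit 78) (nat_lit 228) (nat_lit 0) (XT.lf (nat_lit 0) (nat_lit 57733735901) (nat_lit 228) (nat_lit 7406917981) (nat_lit 304) (nat_lit 12308012975) (nat_lit 75) (nat_lit 5) (nat_lit 78) (nat_lit 5) (nat_lit 79) (nat_lit 5) (nat_lit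 447) (nat_lit 427) (nat_lit 326)) (XT.lf (nat_lit 0) (nat_lit 13438049028) (nat_lit 228) (nat_lit 27898599291) (nat_lit 76) (nat_lit 39916804797) (nat_lit 72) (nat_lit 5) (nat_lit 75) (nat_lit 5) (nat_lit 73) (nat_lit 5) (nat_lit 448) (nat_lit 427) (nat_lit 325)))) (XT.nd (nat_lit 78) (nat_lit 380) (nat_lit 0) (XT.lf (nat_lit 0) (nat_lit 42158116140) (nat_lit 304) (nat_lit 36547030505) (nat_lit 76) (nat_lit 6580111101) (nat_lit 69) (nat_lit 5) (nat_lit 73) (nat_lit 5) (nat_lit 70) (nat_lit 5) (nat_lit 449) (nat_lit 427) (nat_lit 324)) (XT.nd (nat_lit 78) (nat_lit 228) (nat_lit 0) (XT.lf (nat_lit 0) (nat_lit 43572067138) (nat_lit 152) (nat_lit 31472098663) (nat_lit 228) (nat_lit 14502022692) (nat_lit 67) (nat_lit 5) (nat_lit 69) (nat_lit 5) (nat_lit 70) (nat_lit 5) (nat_lit 450) (nat_lit 427) (nat_lit 323)) (XT.lf (nat_lit 0) (nat_lit 17458799775) (nat_lit 228) (nat_lit 56160201744) (nat_lit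 76) (nat_lit 20437629193) (nat_lit 64) (nat_lit 5) (nat_lit 67) (nat_lit 5) (nat_lit 65) (nat_lit 5) (nat_lit 451) (nat_lit 427) (nat_lit 322))))) (XT.nd (nat_lit 234) (nat_lit 532) (nat_lit 0) (XT.nd (nat_lit 78) (nat_lit 380) (nat_lit 0) (XT.lf (nat_lit 0) (nat_lit 31444265529) (nat_lit 152) (nat_lit 21863868881) (nat_lit 228) (nat_lit 45515901159) (nat_lit 62) (nat_lit 5) (nat_lit 64) (nat_lit 5) (nat_lit 65) (nat_lit 5) (nat_lit 452) (nat_lit 427) (nat_lit 321)) (XT.nd (nat_lit 78) (nat_lit 228) (nat_lit 0) (XT.lf (nat_lit 0) (nat_lit 24366957465) (nat_lit 152) (nat_lit 69561999253) (nat_lit 228) (nat_lit 9948699510) (nat_lit 60) (nat_lit 5) (nat_lit 62) (nat_lit 5) (nat_lit 63) (nat_lit 5) (nat_lit 453) (nat_lit 427) (nat_lit 320)) (XT.lf (nat_lit 0) (nat_lit 16266884310) (nat_lit 152) (nat_lit 13099109852) (nat_lit 228) (nat_lit 79856695850) (nat_lit 57) (nat_lit 5) (nat_lit 59) (nat_lit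 5) (nat_lit 60) (nat_lit 5) (nat_lit 454) (nat_lit 427) (nat_lit 319)))) (XT.nd (nat_lit 156) (nat_lit 304) (nat_lit 0) (XT.nd (nat_lit 78) (nat_lit 76) (nat_lit 0) (XT.lf (nat_lit 0) (nat_lit 6898671968) (nat_lit 152) (nat_lit 66843932370) (nat_lit 228) (nat_lit 41131303115) (nat_lit 55) (nat_lit 5) (nat_lit 57) (nat_lit 5) (nat_lit 58) (nat_lit 5) (nat_lit 455) (nat_lit 427) (nat_lit 318)) (XT.lf (nat_lit 0) (nat_lit 2534339682) (nat_lit 228) (nat_lit 3097474436) (nat_lit 76) (nat_lit 115251649662) (nat_lit 54) (nat_lit 5) (nat_lit 57) (nat_lit 5) (nat_lit 55) (nat_lit 5) (nat_lit 456) (nat_lit 427) (nat_lit 317))) (XT.nd (nat_lit 78) (nat_lit 152) (nat_lit 0) (XT.lf (nat_lit 0) (nat_lit 51019558925) (nat_lit 228) (nat_lit 15142425817) (nat_lit 76) (nat_lit 61039717717) (nat_lit 52) (nat_lit 5) (nat_lit 55) (nat_lit 5) (nat_lit 53) (nat_lit 5) (nat_lit 457) (nat_lit 427) (nat_lit 316)) (XT.lf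 (nat_lit 0) (nat_lit 105192939411) (nat_lit 228) (nat_lit 28141649005) (nat_lit 76) (nat_lit 600344915) (nat_lit 50) (nat_lit 5) (nat_lit 53) (nat_lit 5) (nat_lit 51) (nat_lit 4) (nat_lit 458) (nat_lit 427) (nat_lit 315))))))) (XT.nd (nat_lit 1014) (nat_lit 1140) (nat_lit 0) (XT.nd (nat_lit 468) (nat_lit 532) (nat_lit 0) (XT.nd (nat_lit 234) (nat_lit 532) (nat_lit 0) (XT.nd (nat_lit 78) (nat_lit 228) (nat_lit 0) (XT.lf (nat_lit 0) (nat_lit 24729113159) (nat_lit 152) (nat_lit 43703920949) (nat_lit 76) (nat_lit 72608445903) (nat_lit 48) (nat_lit 5) (nat_lit 50) (nat_lit 5) (nat_lit 49) (nat_lit 5) (nat_lit 459) (nat_lit 427) (nat_lit 314)) (XT.nd (nat_lit 78) (nat_lit 76) (nat_lit 0) (XT.lf (nat_lit 0) (nat_lit 83410824882) (nat_lit 228) (nat_lit 61192051309) (nat_lit 76) (nat_lit 3993120676) (nat_lit 46) (nat_lit 5) (nat_lit 49) (nat_lit 5) (nat_lit 47) (nat_lit 4) (nat_lit 460) (nat_lit 427)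 (nat_lit 313)) (XT.lf (nat_lit 0) (nat_lit 75077547058) (nat_lit 76) (nat_lit 74807551324) (nat_lit 152) (nat_lit 6714875664) (nat_lit 45) (nat_lit 5) (nat_lit 46) (nat_lit 5) (nat_lit 47) (nat_lit 4) (nat_lit 461) (nat_lit 427) (nat_lit 312)))) (XT.nd (nat_lit 78) (nat_lit 304) (nat_lit 0) (XT.lf (nat_lit 0) (nat_lit 56705980574) (nat_lit 228) (nat_lit 104885472893) (nat_lit 76) (nat_lit 3504804918) (nat_lit 42) (nat_lit 5) (nat_lit 45) (nat_lit 5) (nat_lit 43) (nat_lit 4) (nat_lit 462) (nat_lit 427) (nat_lit 311)) (XT.nd (nat_lit 78) (nat_lit 228) (nat_lit 0) (XT.lf (nat_lit 0) (nat_lit 41933655198) (nat_lit 76) (nat_lit 86392472644) (nat_lit 152) (nat_lit 45772569854) (nat_lit 41) (nat_lit 5) (nat_lit 42) (nat_lit 5) (nat_lit 43) (nat_lit 4) (nat_lit 463) (nat_lit 427) (nat_lit 310)) (XT.lf (nat_lit 0) (nat_lit 20805443776) (nat_lit 152) (nat_lit 2529793677) (nat_lit 228) (nat_lit 160360026063)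 (nat_lit 38) (nat_lit 5) (nat_lit 40) (nat_lit 5) (nat_lit 41) (nat_lit 5) (nat_lit 464) (nat_lit 427) (nat_lit 309))))) (XT.nd (nat_lit 234) (nat_lit 304) (nat_lit 0) (XT.nd (nat_lit 78) (nat_lit 228) (nat_lit 0) (XT.lf (nat_lit 0) (nat_lit 100102413513) (nat_lit 228) (nat_lit 5398417397) (nat_lit 76) (nat_lit 88334485733) (nat_lit 38) (nat_lit 5) (nat_lit 41) (nat_lit 5) (nat_lit 39) (nat_lit 4) (nat_lit 465) (nat_lit 427) (nat_lit 308)) (XT.nd (nat_lit 78) (nat_lit 152) (nat_lit 0) (XT.lf (nat_lit 0) (nat_lit 170090847641) (nat_lit 76) (nat_lit 15616887093) (nat_lit 152) (nat_lit 18944000864) (nat_lit 37) (nat_lit 5) (nat_lit 38) (nat_lit 5) (nat_lit 39) (nat_lit 4) (nat_lit 466) (nat_lit 427) (nat_lit 307)) (XT.lf (nat_lit 0) (nat_lit 63568720726) (nat_lit 152) (nat_lit 70266532313) (nat_lit 76) (nat_lit 82263970234) (nat_lit 35) (nat_lit 5) (nat_lit 37) (nat_lit 5) (nat_lit 36) (nat_lit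 4) (nat_lit 467) (nat_lit 427) (nat_lit 306)))) (XT.nd (nat_lit 156) (nat_lit 76) (nat_lit 0) (XT.nd (nat_lit 78) (nat_lit 152) (nat_lit 0) (XT.lf (nat_lit 0) (nat_lit 116596056374) (nat_lit 76) (nat_lit 38125801229) (nat_lit 152) (nat_lit 73589969443) (nat_lit 34) (nat_lit 5) (nat_lit 35) (nat_lit 5) (nat_lit 36) (nat_lit 4) (nat_lit 468) (nat_lit 427) (nat_lit 305)) (XT.lf (nat_lit 0) (nat_lit 14876630211) (nat_lit 152) (nat_lit 160536235900) (nat_lit 76) (nat_lit 65900256182) (nat_lit 32) (nat_lit 5) (nat_lit 34) (nat_lit 5) (nat_lit 33) (nat_lit 4) (nat_lit 469) (nat_lit 427) (nat_lit 304))) (XT.nd (nat_lit 78) (nat_lit 0) (nat_lit 0) (XT.lf (nat_lit 0) (nat_lit 36656174131) (nat_lit 76) (nat_lit 74412410090) (nat_lit 152) (nat_lit 144064304359) (nat_lit 31) (nat_lit 5) (nat_lit 32) (nat_lit 5) (nat_lit 33) (nat_lit 4) (nat_lit 470) (nat_lit 427) (nat_lit 303)) (XT.lf (nat_lit 0) (nat_lit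 218338180212) (nat_lit 152) (nat_lit 15151273969) (nat_lit 0) (nat_lit 36399667785) (nat_lit 31) (nat_lit 5) (nat_lit 33) (nat_lit 4) (nat_lit 31) (nat_lit 4) (nat_lit 471) (nat_lit 427) (nat_lit 302)))))) (XT.nd (nat_lit 546) (nat_lit 456) (nat_lit 0) (XT.nd (nat_lit 234) (nat_lit 380) (nat_lit 0) (XT.nd (nat_lit 78) (nat_lit 152) (nat_lit 0) (XT.lf (nat_lit 0) (nat_lit 51420540264) (nat_lit 152) (nat_lit 76527299529) (nat_lit 76) (nat_lit 157610010616) (nat_lit 29) (nat_lit 5) (nat_lit 31) (nat_lit 5) (nat_lit 30) (nat_lit 4) (nat_lit 472) (nat_lit 427) (nat_lit 301)) (XT.nd (nat_lit 78) (nat_lit 76) (nat_lit 0) (XT.lf (nat_lit 0) (nat_lit 153250299897) (nat_lit 76) (nat_lit 10257278318) (nat_lit 152) (nat_lit 138796047545) (nat_lit 28) (nat_lit 5) (nat_lit 29) (nat_lit 5) (nat_lit 30) (nat_lit 4) (nat_lit 473) (nat_lit 427) (nat_lit 300)) (XT.lf (nat_lit 0) (nat_lit 84682516646) (nat_lit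 76) (nat_lit 204379338967) (nat_lit 76) (nat_lit 31102193769) (nat_lit 27) (nat_lit 4) (nat_lit 28) (nat_lit 5) (nat_lit 28) (nat_lit 4) (nat_lit 474) (nat_lit 427) (nat_lit 299)))) (XT.nd (nat_lit 156) (nat_lit 228) (nat_lit 0) (XT.nd (nat_lit 78) (nat_lit 0) (nat_lit 0) (XT.lf (nat_lit 0) (nat_lit 1620332701) (nat_lit 76) (nat_lit 83695840117) (nat_lit 152) (nat_lit 253928809694) (nat_lit 25) (nat_lit 5) (nat_lit 26) (nat_lit 5) (nat_lit 27) (nat_lit 4) (nat_lit 475) (nat_lit 427) (nat_lit 298)) (XT.lf (nat_lit 0) (nat_lit 214869273647) (nat_lit 152) (nat_lit 94869895926) (nat_lit 0) (nat_lit 49842180453) (nat_lit 25) (nat_lit 5) (nat_lit 27) (nat_lit 4) (nat_lit 25) (nat_lit 4) (nat_lit 476) (nat_lit 427) (nat_lit 297))) (XT.nd (nat_lit 78) (nat_lit 152) (nat_lit 0) (XT.lf (nat_lit 0) (nat_lit 171377248022) (nat_lit 76) (nat_lit 187495362516) (nat_lit 76) (nat_lit 22467717051) (nat_lit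 24) (nat_lit 4) (nat_lit 25) (nat_lit 5) (nat_lit 25) (nat_lit 4) (nat_lit 477) (nat_lit 427) (nat_lit 296)) (XT.lf (nat_lit 0) (nat_lit 57660655417) (nat_lit 76) (nat_lit 50968033482) (nat_lit 152) (nat_lit 295996861532) (nat_lit 22) (nat_lit 5) (nat_lit 23) (nat_lit 5) (nat_lit 24) (nat_lit 4) (nat_lit 478) (nat_lit 427) (nat_lit 295))))) (XT.nd (nat_lit 234) (nat_lit 228) (nat_lit 0) (XT.nd (nat_lit 78) (nat_lit 228) (nat_lit 0) (XT.lf (nat_lit 0) (nat_lit 254658997246) (nat_lit 152) (nat_lit 77345637127) (nat_lit 0) (nat_lit 97488873139) (nat_lit 22) (nat_lit 5) (nat_lit 24) (nat_lit 4) (nat_lit 22) (nat_lit 4) (nat_lit 479) (nat_lit 427) (nat_lit 294)) (XT.nd (nat_lit 78) (nat_lit 152) (nat_lit 0) (XT.lf (nat_lit 0) (nat_lit 220024259342) (nat_lit 76) (nat_lit 196641247337) (nat_lit 76) (nat_lit 39470705696) (nat_lit 21) (nat_lit 4) (nat_lit 22) (nat_lit 5) (nat_lit 22) (nat_lit 4) (nat_lit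 480) (nat_lit 427) (nat_lit 293)) (XT.lf (nat_lit 0) (nat_lit 59311181829) (nat_lit 76) (nat_lit 46289847476) (nat_lit 152) (nat_lit 379111262565) (nat_lit 19) (nat_lit 5) (nat_lit 20) (nat_lit 5) (nat_lit 21) (nat_lit 4) (nat_lit 481) (nat_lit 427) (nat_lit 292)))) (XT.nd (nat_lit 156) (nat_lit 152) (nat_lit 0) (XT.nd (nat_lit 78) (nat_lit 76) (nat_lit 0) (XT.lf (nat_lit 0) (nat_lit 266906172580) (nat_lit 152) (nat_lit 131116172273) (nat_lit 0) (nat_lit 117219233327) (nat_lit 19) (nat_lit 5) (nat_lit 21) (nat_lit 4) (nat_lit 19) (nat_lit 4) (nat_lit 482) (nat_lit 427) (nat_lit 291)) (XT.lf (nat_lit 0) (nat_lit 192077264551) (nat_lit 76) (nat_lit 252817132161) (nat_lit 76) (nat_lit 103129877239) (nat_lit 18) (nat_lit 4) (nat_lit 19) (nat_lit 5) (nat_lit 19) (nat_lit 4) (nat_lit 483) (nat_lit 427) (nat_lit 290))) (XT.nd (nat_lit 78) (nat_lit 76) (nat_lit 0) (XT.lf (nat_lit 0) (nat_lit 54294306736)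 (nat_lit 152) (nat_lit 38384218398) (nat_lit 76) (nat_lit 490593111289) (nat_lit 17) (nat_lit 5) (nat_lit 19) (nat_lit 5) (nat_lit 18) (nat_lit 4) (nat_lit 484) (nat_lit 427) (nat_lit 289)) (XT.lf (nat_lit 0) (nat_lit 226993308525) (nat_lit 152) (nat_lit 309512762114) (nat_lit 0) (nat_lit 84433482007) (nat_lit 16) (nat_lit 5) (nat_lit 18) (nat_lit 4) (nat_lit 16) (nat_lit 4) (nat_lit 485) (nat_lit 427) (nat_lit 288))))))))
noncomputable def xc90 : XT := (XT.nd (nat_lit 59124) (nat_lit 0) (nat_lit 1900) (XT.nd (nat_lit 58110) (nat_lit 0) (nat_lit 6308) (XT.nd (nat_lit 468) (nat_lit 228) (nat_lit 0) (XT.nd (nat_lit 234) (nat_lit 76) (nat_lit 0) (XT.nd (nat_lit 78) (nat_lit 152) (nat_lit 0) (XT.lf (nat_lit 0) (nat_lit 28337938748) (nat_lit 76) (nat_lit 387854411316) (nat_lit 76) (nat_lit 245294346143) (nat_lit 15) (nat_lit 4) (nat_lit 16) (nat_lit 5) (nat_lit 16) (nat_lit 4) (nat_lit 486) (nat_lit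 427) (nat_lit 287)) (XT.nd (nat_lit 78) (nat_lit 152) (nat_lit 0) (XT.lf (nat_lit 0) (nat_lit 404268091908) (nat_lit 76) (nat_lit 221650130080) (nat_lit 76) (nat_lit 79089843930) (nat_lit 15) (nat_lit 4) (nat_lit 16) (nat_lit 5) (nat_lit 16) (nat_lit 4) (nat_lit 487) (nat_lit 427) (nat_lit 286)) (XT.lf (nat_lit 0) (nat_lit 58567196466) (nat_lit 76) (nat_lit 39543870472) (nat_lit 152) (nat_lit 653776002008) (nat_lit 13) (nat_lit 5) (nat_lit 14) (nat_lit 5) (nat_lit 15) (nat_lit 4) (nat_lit 488) (nat_lit 427) (nat_lit 285)))) (XT.nd (nat_lit 78) (nat_lit 76) (nat_lit 0) (XT.lf (nat_lit 0) (nat_lit 294531449290) (nat_lit 152) (nat_lit 348770026226) (nat_lit 0) (nat_lit 158759372899) (nat_lit 13) (nat_lit 5) (nat_lit 15) (nat_lit 4) (nat_lit 13) (nat_lit 4) (nat_lit 489) (nat_lit 427) (nat_lit 284)) (XT.nd (nat_lit 78) (nat_lit 0) (nat_lit 0) (XT.lf (nat_lit 0) (nat_lit 23425774885) (nat_lit 76)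 (nat_lit 484271699120) (nat_lit 76) (nat_lit 348499455664) (nat_lit 12) (nat_lit 4) (nat_lit 13) (nat_lit 5) (nat_lit 13) (nat_lit 4) (nat_lit 490) (nat_lit 427) (nat_lit 283)) (XT.lf (nat_lit 0) (nat_lit 437850727589) (nat_lit 76) (nat_lit 306140912512) (nat_lit 76) (nat_lit 170368514365) (nat_lit 12) (nat_lit 4) (nat_lit 13) (nat_lit 5) (nat_lit 13) (nat_lit 4) (nat_lit 491) (nat_lit 427) (nat_lit 282))))) (XT.nd (nat_lit 234) (nat_lit 76) (nat_lit 0) (XT.nd (nat_lit 78) (nat_lit 76) (nat_lit 0) (XT.lf (nat_lit 0) (nat_lit 21307891265) (nat_lit 152) (nat_lit 92091364284) (nat_lit 76) (nat_lit 863760020584) (nat_lit 11) (nat_lit 5) (nat_lit 13) (nat_lit 5) (nat_lit 12) (nat_lit 4) (nat_lit 492) (nat_lit 427) (nat_lit 281)) (XT.nd (nat_lit 78) (nat_lit 0) (nat_lit 0) (XT.lf (nat_lit 0) (nat_lit 229204769303) (nat_lit 152) (nat_lit 715397689048) (nat_lit 0) (nat_lit 99897460731) (nat_lit 10)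 (nat_lit 5) (nat_lit 12) (nat_lit 4) (nat_lit 10) (nat_lit 4) (nat_lit 493) (nat_lit 427) (nat_lit 280)) (XT.lf (nat_lit 0) (nat_lit 457275572229) (nat_lit 152) (nat_lit 331806985808) (nat_lit 0) (nat_lit 327968146706) (nat_lit 10) (nat_lit 5) (nat_lit 12) (nat_lit 4) (nat_lit 10) (nat_lit 4) (nat_lit 494) (nat_lit 427) (nat_lit 279)))) (XT.nd (nat_lit 57252) (nat_lit 0) (nat_lit 8816) (XT.nd (nat_lit 78) (nat_lit 0) (nat_lit 0) (XT.lf (nat_lit 0) (nat_lit 85197043308) (nat_lit 76) (nat_lit 619724777354) (nat_lit 76) (nat_lit 490417243543) (nat_lit 9) (nat_lit 4) (nat_lit 10) (nat_lit 5) (nat_lit 10) (nat_lit 4) (nat_lit 495) (nat_lit 427) (nat_lit 278)) (XT.lf (nat_lit 0) (nat_lit 547409380718) (nat_lit 76) (nat_lit 430749885464) (nat_lit 76) (nat_lit 301442251388) (nat_lit 9) (nat_lit 4) (nat_lit 10) (nat_lit 5) (nat_lit 10) (nat_lit 4) (nat_lit 496) (nat_lit 427) (nat_lit 277))) (XT.nd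 (nat_lit 78) (nat_lit 0) (nat_lit 76) (XT.lf (nat_lit 0) (nat_lit 5505232997) (nat_lit 836) (nat_lit 6021832558) (nat_lit 836) (nat_lit 6021832558) (nat_lit 125) (nat_lit 3) (nat_lit 136) (nat_lit 3) (nat_lit 136) (nat_lit 5) (nat_lit 428) (nat_lit 428) (nat_lit 344)) (XT.lf (nat_lit 0) (nat_lit 11847636137) (nat_lit 760) (nat_lit 20573156617) (nat_lit 836) (nat_lit 4061045923) (nat_lit 126) (nat_lit 5) (nat_lit 136) (nat_lit 5) (nat_lit 137) (nat_lit 5) (nat_lit 429) (nat_lit 428) (nat_lit 343)))))) (XT.nd (nat_lit 468) (nat_lit 2128) (nat_lit 0) (XT.nd (nat_lit 234) (nat_lit 456) (nat_lit 0) (XT.nd (nat_lit 78) (nat_lit 0) (nat_lit 76) (XT.lf (nat_lit 76) (nat_lit 8434029633) (nat_lit 0) (nat_lit 5043202448) (nat_lit 836) (nat_lit 24463103015) (nat_lit 127) (nat_lit 5) (nat_lit 126) (nat_lit 5) (nat_lit 137) (nat_lit 5) (nat_lit 430) (nat_lit 428) (nat_lit 342)) (XT.nd (nat_lit 78) (nat_lit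 0) (nat_lit 76) (XT.lf (nat_lit 76) (nat_lit 624954721) (nat_lit 0) (nat_lit 15361528172) (nat_lit 836) (nat_lit 23491566924) (nat_lit 128) (nat_lit 5) (nat_lit 127) (nat_lit 5) (nat_lit 138) (nat_lit 5) (nat_lit 431) (nat_lit 428) (nat_lit 341)) (XT.lf (nat_lit 0) (nat_lit 19518697807) (nat_lit 760) (nat_lit 7213346008) (nat_lit 836) (nat_lit 14365629429) (nat_lit 128) (nat_lit 5) (nat_lit 138) (nat_lit 5) (nat_lit 139) (nat_lit 5) (nat_lit 432) (nat_lit 428) (nat_lit 340)))) (XT.nd (nat_lit 78) (nat_lit 684) (nat_lit 0) (XT.lf (nat_lit 0) (nat_lit 24072067468) (nat_lit 760) (nat_lit 15292036594) (nat_lit 836) (nat_lit 3445836133) (nat_lit 129) (nat_lit 5) (nat_lit 139) (nat_lit 5) (nat_lit 140) (nat_lit 5) (nat_lit 433) (nat_lit 428) (nat_lit 339)) (XT.nd (nat_lit 78) (nat_lit 684) (nat_lit 0) (XT.lf (nat_lit 76) (nat_lit 20841551460) (nat_lit 0) (nat_lit 9045882259) (nat_lit 836) (nat_lit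 14726870771) (nat_lit 130) (nat_lit 5) (nat_lit 129) (nat_lit 5) (nat_lit 140) (nat_lit 5) (nat_lit 434) (nat_lit 428) (nat_lit 338)) (XT.lf (nat_lit 0) (nat_lit 13928528513) (nat_lit 760) (nat_lit 23091960276) (nat_lit 836) (nat_lit 9499908332) (nat_lit 120) (nat_lit 5) (nat_lit 130) (nat_lit 5) (nat_lit 131) (nat_lit 5) (nat_lit 435) (nat_lit 428) (nat_lit 337))))) (XT.nd (nat_lit 234) (nat_lit 1292) (nat_lit 0) (XT.nd (nat_lit 78) (nat_lit 456) (nat_lit 0) (XT.lf (nat_lit 0) (nat_lit 6843456614) (nat_lit 380) (nat_lit 38703263660) (nat_lit 456) (nat_lit 2991132296) (nat_lit 115) (nat_lit 5) (nat_lit 120) (nat_lit 5) (nat_lit 121) (nat_lit 5) (nat_lit 436) (nat_lit 428) (nat_lit 336)) (XT.nd (nat_lit 78) (nat_lit 380) (nat_lit 0) (XT.lf (nat_lit 0) (nat_lit 4870358253) (nat_lit 456) (nat_lit 557715102) (nat_lit 76) (nat_lit 45237417138) (nat_lit 114) (nat_lit 5) (nat_lit 120) (nat_lit 5)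 (nat_lit 115) (nat_lit 5) (nat_lit 437) (nat_lit 428) (nat_lit 335)) (XT.lf (nat_lit 0) (nat_lit 14448045486) (nat_lit 456) (nat_lit 8151032620) (nat_lit 76) (nat_lit 30302207626) (nat_lit 109) (nat_lit 5) (nat_lit 115) (nat_lit 5) (nat_lit 110) (nat_lit 5) (nat_lit 438) (nat_lit 428) (nat_lit 334)))) (XT.nd (nat_lit 156) (nat_lit 608) (nat_lit 0) (XT.nd (nat_lit 78) (nat_lit 304) (nat_lit 0) (XT.lf (nat_lit 0) (nat_lit 25725829175) (nat_lit 456) (nat_lit 15942649280) (nat_lit 76) (nat_lit 13600773580) (nat_lit 104) (nat_lit 5) (nat_lit 110) (nat_lit 5) (nat_lit 105) (nat_lit 5) (nat_lit 439) (nat_lit 428) (nat_lit 333)) (XT.lf (nat_lit 0) (nat_lit 33766554265) (nat_lit 304) (nat_lit 5187620636) (nat_lit 380) (nat_lit 18820065177) (nat_lit 100) (nat_lit 5) (nat_lit 104) (nat_lit 5) (nat_lit 105) (nat_lit 5) (nat_lit 440) (nat_lit 428) (nat_lit 332))) (XT.nd (nat_lit 78) (nat_lit 304) (nat_lit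 0) (XT.lf (nat_lit 0) (nat_lit 27905780247) (nat_lit 304) (nat_lit 26583106157) (nat_lit 380) (nat_lit 5928337156) (nat_lit 96) (nat_lit 5) (nat_lit 100) (nat_lit 5) (nat_lit 101) (nat_lit 5) (nat_lit 441) (nat_lit 428) (nat_lit 331)) (XT.lf (nat_lit 0) (nat_lit 8802272116) (nat_lit 304) (nat_lit 41371866530) (nat_lit 76) (nat_lit 13038096000) (nat_lit 92) (nat_lit 5) (nat_lit 96) (nat_lit 5) (nat_lit 93) (nat_lit 5) (nat_lit 442) (nat_lit 428) (nat_lit 330))))))) (XT.nd (nat_lit 1014) (nat_lit 1748) (nat_lit 0) (XT.nd (nat_lit 468) (nat_lit 1368) (nat_lit 0) (XT.nd (nat_lit 234) (nat_lit 532) (nat_lit 0) (XT.nd (nat_lit 78) (nat_lit 456) (nat_lit 0) (XT.lf (nat_lit 0) (nat_lit 15430521492) (nat_lit 304) (nat_lit 10337020823) (nat_lit 380) (nat_lit 40395250464) (nat_lit 88) (nat_lit 5) (nat_lit 92) (nat_lit 5) (nat_lit 93) (nat_lit 5) (nat_lit 443) (nat_lit 428) (nat_lit 329)) (XT.nd (nat_lit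 78) (nat_lit 228) (nat_lit 0) (XT.lf (nat_lit 0) (nat_lit 8692592676) (nat_lit 228) (nat_lit 36772533161) (nat_lit 304) (nat_lit 23815516122) (nat_lit 85) (nat_lit 5) (nat_lit 88) (nat_lit 5) (nat_lit 89) (nat_lit 5) (nat_lit 444) (nat_lit 428) (nat_lit 328)) (XT.lf (nat_lit 0) (nat_lit 1858039262) (nat_lit 228) (nat_lit 66066172790) (nat_lit 304) (nat_lit 4664423131) (nat_lit 82) (nat_lit 5) (nat_lit 85) (nat_lit 5) (nat_lit 86) (nat_lit 5) (nat_lit 445) (nat_lit 428) (nat_lit 327)))) (XT.nd (nat_lit 78) (nat_lit 456) (nat_lit 0) (XT.lf (nat_lit 0) (nat_lit 17195661788) (nat_lit 304) (nat_lit 5536997533) (nat_lit 76) (nat_lit 53331624225) (nat_lit 81) (nat_lit 5) (nat_lit 85) (nat_lit 5) (nat_lit 82) (nat_lit 5) (nat_lit 446) (nat_lit 428) (nat_lit 326)) (XT.nd (nat_lit 78) (nat_lit 228) (nat_lit 0) (XT.lf (nat_lit 0) (nat_lit 42079551884) (nat_lit 304) (nat_lit 13224560101) (nat_lit 76)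 (nat_lit 24438128385) (nat_lit 78) (nat_lit 5) (nat_lit 82) (nat_lit 5) (nat_lit 79) (nat_lit 5) (nat_lit 447) (nat_lit 428) (nat_lit 325)) (XT.lf (nat_lit 0) (nat_lit 62434177985) (nat_lit 228) (nat_lit 7973310394) (nat_lit 304) (nat_lit 13234279290) (nat_lit 75) (nat_lit 5) (nat_lit 78) (nat_lit 5) (nat_lit 79) (nat_lit 5) (nat_lit 448) (nat_lit 428) (nat_lit 324))))) (XT.nd (nat_lit 234) (nat_lit 760) (nat_lit 0) (XT.nd (nat_lit 78) (nat_lit 380) (nat_lit 0) (XT.lf (nat_lit 0) (nat_lit 14567075030) (nat_lit 228) (nat_lit 30048219268) (nat_lit 76) (nat_lit 43135724120) (nat_lit 72) (nat_lit 5) (nat_lit 75) (nat_lit 5) (nat_lit 73) (nat_lit 5) (nat_lit 449) (nat_lit 428) (nat_lit 323)) (XT.nd (nat_lit 78) (nat_lit 152) (nat_lit 0) (XT.lf (nat_lit 0) (nat_lit 45582406503) (nat_lit 304) (nat_lit 39389957729) (nat_lit 76) (nat_lit 7133121115) (nat_lit 69) (nat_lit 5) (nat_lit 73) (nat_lit 5)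 (nat_lit 70) (nat_lit 5) (nat_lit 450) (nat_lit 428) (nat_lit 322)) (XT.lf (nat_lit 0) (nat_lit 47135154725) (nat_lit 152) (nat_lit 33961567364) (nat_lit 228) (nat_lit 15610700180) (nat_lit 67) (nat_lit 5) (nat_lit 69) (nat_lit 5) (nat_lit 70) (nat_lit 5) (nat_lit 451) (nat_lit 428) (nat_lit 321)))) (XT.nd (nat_lit 156) (nat_lit 380) (nat_lit 0) (XT.nd (nat_lit 78) (nat_lit 152) (nat_lit 0) (XT.lf (nat_lit 0) (nat_lit 18903268816) (nat_lit 228) (nat_lit 60575536005) (nat_lit 76) (nat_lit 22099959142) (nat_lit 64) (nat_lit 5) (nat_lit 67) (nat_lit 5) (nat_lit 65) (nat_lit 5) (nat_lit 452) (nat_lit 428) (nat_lit 320)) (XT.lf (nat_lit 0) (nat_lit 34033921381) (nat_lit 152) (nat_lit 23584247824) (nat_lit 228) (nat_lit 49109511717) (nat_lit 62) (nat_lit 5) (nat_lit 64) (nat_lit 5) (nat_lit 65) (nat_lit 5) (nat_lit 453) (nat_lit 428) (nat_lit 319))) (XT.nd (nat_lit 78) (nat_lit 228) (nat_lit 0)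 (XT.lf (nat_lit 0) (nat_lit 26388957187) (nat_lit 152) (nat_lit 75097887832) (nat_lit 228) (nat_lit 10698837444) (nat_lit 60) (nat_lit 5) (nat_lit 62) (nat_lit 5) (nat_lit 63) (nat_lit 5) (nat_lit 454) (nat_lit 428) (nat_lit 318)) (XT.lf (nat_lit 0) (nat_lit 17639129085) (nat_lit 152) (nat_lit 14118263950) (nat_lit 228) (nat_lit 86200999443) (nat_lit 57) (nat_lit 5) (nat_lit 59) (nat_lit 5) (nat_lit 60) (nat_lit 5) (nat_lit 455) (nat_lit 428) (nat_lit 317)))))) (XT.nd (nat_lit 546) (nat_lit 836) (nat_lit 0) (XT.nd (nat_lit 234) (nat_lit 532) (nat_lit 0) (XT.nd (nat_lit 78) (nat_lit 228) (nat_lit 0) (XT.lf (nat_lit 0) (nat_lit 7519969976) (nat_lit 152) (nat_lit 72162541668) (nat_lit 228) (nat_lit 44379277190) (nat_lit 55) (nat_lit 5) (nat_lit 57) (nat_lit 5) (nat_lit 58) (nat_lit 5) (nat_lit 456) (nat_lit 428) (nat_lit 316)) (XT.nd (nat_lit 78) (nat_lit 152) (nat_lit 0) (XT.lf (nat_lit 0) (nat_lit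 2775206248) (nat_lit 228) (nat_lit 3279743269) (nat_lit 76) (nat_lit 124497279869) (nat_lit 54) (nat_lit 5) (nat_lit 57) (nat_lit 5) (nat_lit 55) (nat_lit 5) (nat_lit 457) (nat_lit 428) (nat_lit 315)) (XT.lf (nat_lit 0) (nat_lit 55137810289) (nat_lit 228) (nat_lit 16289732028) (nat_lit 76) (nat_lit 65948456889) (nat_lit 52) (nat_lit 5) (nat_lit 55) (nat_lit 5) (nat_lit 53) (nat_lit 5) (nat_lit 458) (nat_lit 428) (nat_lit 314)))) (XT.nd (nat_lit 156) (nat_lit 228) (nat_lit 0) (XT.nd (nat_lit 78) (nat_lit 152) (nat_lit 0) (XT.lf (nat_lit 0) (nat_lit 113643712601) (nat_lit 228) (nat_lit 30330339012) (nat_lit 76) (nat_lit 673904745) (nat_lit 50) (nat_lit 5) (nat_lit 53) (nat_lit 5) (nat_lit 51) (nat_lit 4) (nat_lit 459) (nat_lit 428) (nat_lit 313)) (XT.lf (nat_lit 0) (nat_lit 26741654112) (nat_lit 152) (nat_lit 47139179674) (nat_lit 76) (nat_lit 78442249852) (nat_lit 48) (nat_lit 5) (nat_lit 50)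 (nat_lit 5) (nat_lit 49) (nat_lit 5) (nat_lit 460) (nat_lit 428) (nat_lit 312))) (XT.nd (nat_lit 78) (nat_lit 76) (nat_lit 0) (XT.lf (nat_lit 0) (nat_lit 90116683370) (nat_lit 228) (nat_lit 66027783491) (nat_lit 76) (nat_lit 4337556262) (nat_lit 46) (nat_lit 5) (nat_lit 49) (nat_lit 5) (nat_lit 47) (nat_lit 4) (nat_lit 461) (nat_lit 428) (nat_lit 311)) (XT.lf (nat_lit 0) (nat_lit 81140791214) (nat_lit 76) (nat_lit 80766554207) (nat_lit 152) (nat_lit 7219051008) (nat_lit 45) (nat_lit 5) (nat_lit 46) (nat_lit 5) (nat_lit 47) (nat_lit 4) (nat_lit 462) (nat_lit 428) (nat_lit 310))))) (XT.nd (nat_lit 234) (nat_lit 304) (nat_lit 0) (XT.nd (nat_lit 78) (nat_lit 304) (nat_lit 0) (XT.lf (nat_lit 0) (nat_lit 61273309627) (nat_lit 228) (nat_lit 113219601286) (nat_lit 76) (nat_lit 3809502453) (nat_lit 42) (nat_lit 5) (nat_lit 45) (nat_lit 5) (nat_lit 43) (nat_lit 4) (nat_lit 463) (nat_lit 428) (nat_lit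 309)) (XT.nd (nat_lit 78) (nat_lit 228) (nat_lit 0) (XT.lf (nat_lit 0) (nat_lit 45342592529) (nat_lit 76) (nat_lit 93279037833) (nat_lit 152) (nat_lit 49403489610) (nat_lit 41) (nat_lit 5) (nat_lit 42) (nat_lit 5) (nat_lit 43) (nat_lit 4) (nat_lit 464) (nat_lit 428) (nat_lit 308)) (XT.lf (nat_lit 0) (nat_lit 22522715019) (nat_lit 152) (nat_lit 2707849023) (nat_lit 228) (nat_lit 173158892597) (nat_lit 38) (nat_lit 5) (nat_lit 40) (nat_lit 5) (nat_lit 41) (nat_lit 5) (nat_lit 465) (nat_lit 428) (nat_lit 307)))) (XT.nd (nat_lit 156) (nat_lit 228) (nat_lit 0) (XT.nd (nat_lit 78) (nat_lit 76) (nat_lit 0) (XT.lf (nat_lit 0) (nat_lit 108137354208) (nat_lit 228) (nat_lit 5780398317) (nat_lit 76) (nat_lit 95423049681) (nat_lit 38) (nat_lit 5) (nat_lit 41) (nat_lit 5) (nat_lit 39) (nat_lit 4) (nat_lit 466) (nat_lit 428) (nat_lit 306)) (XT.lf (nat_lit 0) (nat_lit 183745839658) (nat_lit 76) (nat_lit 16844025273)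 (nat_lit 152) (nat_lit 20432731733) (nat_lit 37) (nat_lit 5) (nat_lit 38) (nat_lit 5) (nat_lit 39) (nat_lit 4) (nat_lit 467) (nat_lit 428) (nat_lit 305))) (XT.nd (nat_lit 78) (nat_lit 76) (nat_lit 0) (XT.lf (nat_lit 0) (nat_lit 68679294211) (nat_lit 152) (nat_lit 75840483140) (nat_lit 76) (nat_lit 88866128043) (nat_lit 35) (nat_lit 5) (nat_lit 37) (nat_lit 5) (nat_lit 36) (nat_lit 4) (nat_lit 468) (nat_lit 428) (nat_lit 304)) (XT.lf (nat_lit 0) (nat_lit 125969053925) (nat_lit 76) (nat_lit 41154478110) (nat_lit 152) (nat_lit 79452043080) (nat_lit 34) (nat_lit 5) (nat_lit 35) (nat_lit 5) (nat_lit 36) (nat_lit 4) (nat_lit 469) (nat_lit 428) (nat_lit 303))))))))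
noncomputable def xc91 : XT := (XT.nd (nat_lit 59358) (nat_lit 0) (nat_lit 3572) (XT.nd (nat_lit 1014) (nat_lit 684) (nat_lit 0) (XT.nd (nat_lit 468) (nat_lit 608) (nat_lit 0) (XT.nd (nat_lit 234) (nat_lit 304) (nat_lit 0) (XT.nd (nat_lit 78) (nat_lit 76) (nat_lit 0) (XT.lf (nat_lit 0) (nat_lit 16090294136) (nat_lit 152) (nat_lit 173334184640) (nat_lit 76) (nat_lit 71192515035) (nat_lit 32) (nat_lit 5) (nat_lit 34) (nat_lit 5) (nat_lit 33) (nat_lit 4) (nat_lit 470) (nat_lit 428) (nat_lit 302)) (XT.nd (nat_lit 78) (nat_lit 0) (nat_lit 0) (XT.lf (nat_lit 0) (nat_lit 39631664716) (nat_lit 76) (nat_lit 80344867825) (nat_lit 152) (nat_lit 155565862571) (nat_lit 31) (nat_lit 5) (nat_lit 32) (nat_lit 5) (nat_lit 33) (nat_lit 4) (nat_lit 471) (nat_lit 428) (nat_lit 301)) (XT.lf (nat_lit 0) (nat_lit 235826329253) (nat_lit 152) (nat_lit 16322819777) (nat_lit 0) (nat_lit 39330046597) (nat_lit 31) (nat_lit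 5) (nat_lit 33) (nat_lit 4) (nat_lit 31) (nat_lit 4) (nat_lit 472) (nat_lit 428) (nat_lit 300)))) (XT.nd (nat_lit 78) (nat_lit 152) (nat_lit 0) (XT.lf (nat_lit 0) (nat_lit 55554652571) (nat_lit 152) (nat_lit 82610011896) (nat_lit 76) (nat_lit 170236789316) (nat_lit 29) (nat_lit 5) (nat_lit 31) (nat_lit 5) (nat_lit 30) (nat_lit 4) (nat_lit 473) (nat_lit 428) (nat_lit 299)) (XT.nd (nat_lit 78) (nat_lit 76) (nat_lit 0) (XT.lf (nat_lit 0) (nat_lit 165548080096) (nat_lit 76) (nat_lit 11059646714) (nat_lit 152) (nat_lit 149879210780) (nat_lit 28) (nat_lit 5) (nat_lit 29) (nat_lit 5) (nat_lit 30) (nat_lit 4) (nat_lit 474) (nat_lit 428) (nat_lit 298)) (XT.lf (nat_lit 0) (nat_lit 91493897054) (nat_lit 76) (nat_lit 220711839295) (nat_lit 76) (nat_lit 33570489337) (nat_lit 27) (nat_lit 4) (nat_lit 28) (nat_lit 5) (nat_lit 28) (nat_lit 4) (nat_lit 475) (nat_lit 428) (nat_lit 297))))) (XT.nd (nat_lit 234)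 (nat_lit 380) (nat_lit 0) (XT.nd (nat_lit 78) (nat_lit 76) (nat_lit 0) (XT.lf (nat_lit 0) (nat_lit 1785749590) (nat_lit 76) (nat_lit 90374094035) (nat_lit 152) (nat_lit 274223817728) (nat_lit 25) (nat_lit 5) (nat_lit 26) (nat_lit 5) (nat_lit 27) (nat_lit 4) (nat_lit 476) (nat_lit 428) (nat_lit 296)) (XT.nd (nat_lit 78) (nat_lit 76) (nat_lit 0) (XT.lf (nat_lit 0) (nat_lit 232076082994) (nat_lit 152) (nat_lit 102425748562) (nat_lit 0) (nat_lit 53845162257) (nat_lit 25) (nat_lit 5) (nat_lit 27) (nat_lit 4) (nat_lit 25) (nat_lit 4) (nat_lit 477) (nat_lit 428) (nat_lit 295)) (XT.lf (nat_lit 0) (nat_lit 185119700645) (nat_lit 76) (nat_lit 202479210990) (nat_lit 76) (nat_lit 24247816769) (nat_lit 24) (nat_lit 4) (nat_lit 25) (nat_lit 5) (nat_lit 25) (nat_lit 4) (nat_lit 478) (nat_lit 428) (nat_lit 294)))) (XT.nd (nat_lit 156) (nat_lit 228) (nat_lit 0) (XT.nd (nat_lit 78) (nat_lit 0) (nat_lit 0) (XT.lf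 (nat_lit 0) (nat_lit 62304908991) (nat_lit 76) (nat_lit 55030086922) (nat_lit 152) (nat_lit 319659797269) (nat_lit 22) (nat_lit 5) (nat_lit 23) (nat_lit 5) (nat_lit 24) (nat_lit 4) (nat_lit 479) (nat_lit 428) (nat_lit 293)) (XT.lf (nat_lit 0) (nat_lit 275046765332) (nat_lit 152) (nat_lit 83503693510) (nat_lit 0) (nat_lit 105301776219) (nat_lit 22) (nat_lit 5) (nat_lit 24) (nat_lit 4) (nat_lit 22) (nat_lit 4) (nat_lit 480) (nat_lit 428) (nat_lit 292))) (XT.nd (nat_lit 78) (nat_lit 152) (nat_lit 0) (XT.lf (nat_lit 0) (nat_lit 237654508533) (nat_lit 76) (nat_lit 212358614272) (nat_lit 76) (nat_lit 42613267191) (nat_lit 21) (nat_lit 4) (nat_lit 22) (nat_lit 5) (nat_lit 22) (nat_lit 4) (nat_lit 481) (nat_lit 428) (nat_lit 291)) (XT.lf (nat_lit 0) (nat_lit 64083617242) (nat_lit 76) (nat_lit 49979453867) (nat_lit 152) (nat_lit 409425505617) (nat_lit 19) (nat_lit 5) (nat_lit 20) (nat_lit 5) (nat_lit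 21) (nat_lit 4) (nat_lit 482) (nat_lit 428) (nat_lit 290)))))) (XT.nd (nat_lit 546) (nat_lit 228) (nat_lit 0) (XT.nd (nat_lit 234) (nat_lit 304) (nat_lit 0) (XT.nd (nat_lit 78) (nat_lit 152) (nat_lit 0) (XT.lf (nat_lit 0) (nat_lit 288271788149) (nat_lit 152) (nat_lit 141579514837) (nat_lit 0) (nat_lit 126608944879) (nat_lit 19) (nat_lit 5) (nat_lit 21) (nat_lit 4) (nat_lit 19) (nat_lit 4) (nat_lit 483) (nat_lit 428) (nat_lit 289)) (XT.nd (nat_lit 78) (nat_lit 76) (nat_lit 0) (XT.lf (nat_lit 0) (nat_lit 207468269125) (nat_lit 76) (nat_lit 273030216667) (nat_lit 76) (nat_lit 111367102761) (nat_lit 18) (nat_lit 4) (nat_lit 19) (nat_lit 5) (nat_lit 19) (nat_lit 4) (nat_lit 484) (nat_lit 428) (nat_lit 288)) (XT.lf (nat_lit 0) (nat_lit 58649650632) (nat_lit 152) (nat_lit 41431580697) (nat_lit 76) (nat_lit 529851545646) (nat_lit 17) (nat_lit 5) (nat_lit 19) (nat_lit 5) (nat_lit 18) (nat_lit 4) (nat_lit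 485) (nat_lit 428) (nat_lit 287)))) (XT.nd (nat_lit 156) (nat_lit 152) (nat_lit 0) (XT.nd (nat_lit 78) (nat_lit 76) (nat_lit 0) (XT.lf (nat_lit 0) (nat_lit 245164220695) (nat_lit 152) (nat_lit 334251032749) (nat_lit 0) (nat_lit 91198890676) (nat_lit 16) (nat_lit 5) (nat_lit 18) (nat_lit 4) (nat_lit 16) (nat_lit 4) (nat_lit 486) (nat_lit 428) (nat_lit 286)) (XT.lf (nat_lit 0) (nat_lit 30626735481) (nat_lit 76) (nat_lit 418871941874) (nat_lit 76) (nat_lit 264906407247) (nat_lit 15) (nat_lit 4) (nat_lit 16) (nat_lit 5) (nat_lit 16) (nat_lit 4) (nat_lit 487) (nat_lit 428) (nat_lit 285))) (XT.nd (nat_lit 78) (nat_lit 152) (nat_lit 0) (XT.lf (nat_lit 0) (nat_lit 436629688921) (nat_lit 76) (nat_lit 239372119795) (nat_lit 76) (nat_lit 85406395715) (nat_lit 15) (nat_lit 4) (nat_lit 16) (nat_lit 5) (nat_lit 16) (nat_lit 4) (nat_lit 488) (nat_lit 428) (nat_lit 284)) (XT.lf (nat_lit 0) (nat_lit 63272172064)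 (nat_lit 76) (nat_lit 42697618941) (nat_lit 152) (nat_lit 706067751246) (nat_lit 13) (nat_lit 5) (nat_lit 14) (nat_lit 5) (nat_lit 15) (nat_lit 4) (nat_lit 489) (nat_lit 428) (nat_lit 283))))) (XT.nd (nat_lit 234) (nat_lit 152) (nat_lit 0) (XT.nd (nat_lit 78) (nat_lit 76) (nat_lit 0) (XT.lf (nat_lit 0) (nat_lit 318103216263) (nat_lit 152) (nat_lit 376653165646) (nat_lit 0) (nat_lit 171468871574) (nat_lit 13) (nat_lit 5) (nat_lit 15) (nat_lit 4) (nat_lit 13) (nat_lit 4) (nat_lit 490) (nat_lit 428) (nat_lit 282)) (XT.nd (nat_lit 78) (nat_lit 0) (nat_lit 0) (XT.lf (nat_lit 0) (nat_lit 25317497189) (nat_lit 76) (nat_lit 523004616232) (nat_lit 76) (nat_lit 376370128311) (nat_lit 12) (nat_lit 4) (nat_lit 13) (nat_lit 5) (nat_lit 13) (nat_lit 4) (nat_lit 491) (nat_lit 428) (nat_lit 281)) (XT.lf (nat_lit 0) (nat_lit 472895137938) (nat_lit 76) (nat_lit 330624019940) (nat_lit 76) (nat_lit 183989399397)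 (nat_lit 12) (nat_lit 4) (nat_lit 13) (nat_lit 5) (nat_lit 13) (nat_lit 4) (nat_lit 492) (nat_lit 428) (nat_lit 280)))) (XT.nd (nat_lit 156) (nat_lit 0) (nat_lit 0) (XT.nd (nat_lit 78) (nat_lit 76) (nat_lit 0) (XT.lf (nat_lit 0) (nat_lit 23020227184) (nat_lit 152) (nat_lit 99443277613) (nat_lit 76) (nat_lit 932868128004) (nat_lit 11) (nat_lit 5) (nat_lit 13) (nat_lit 5) (nat_lit 12) (nat_lit 4) (nat_lit 493) (nat_lit 428) (nat_lit 279)) (XT.lf (nat_lit 0) (nat_lit 247548629633) (nat_lit 152) (nat_lit 772614524027) (nat_lit 0) (nat_lit 107896384830) (nat_lit 10) (nat_lit 5) (nat_lit 12) (nat_lit 4) (nat_lit 10) (nat_lit 4) (nat_lit 494) (nat_lit 428) (nat_lit 278))) (XT.nd (nat_lit 57330) (nat_lit 0) (nat_lit 8740) (XT.lf (nat_lit 0) (nat_lit 493864542810) (nat_lit 152) (nat_lit 358337674168) (nat_lit 0) (nat_lit 354212197740) (nat_lit 10) (nat_lit 5) (nat_lit 12) (nat_lit 4) (nat_lit 10) (nat_lit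 4) (nat_lit 495) (nat_lit 428) (nat_lit 277)) (XT.lf (nat_lit 0) (nat_lit 6025482264) (nat_lit 836) (nat_lit 6461652554) (nat_lit 836) (nat_lit 6461652554) (nat_lit 125) (nat_lit 3) (nat_lit 136) (nat_lit 3) (nat_lit 136) (nat_lit 5) (nat_lit 429) (nat_lit 429) (nat_lit 342))))))) (XT.nd (nat_lit 1014) (nat_lit 2964) (nat_lit 0) (XT.nd (nat_lit 468) (nat_lit 2280) (nat_lit 0) (XT.nd (nat_lit 234) (nat_lit 0) (nat_lit 152) (XT.nd (nat_lit 78) (nat_lit 0) (nat_lit 0) (XT.lf (nat_lit 0) (nat_lit 12943458436) (nat_lit 760) (nat_lit 22130212855) (nat_lit 836) (nat_lit 4319256391) (nat_lit 126) (nat_lit 5) (nat_lit 136) (nat_lit 5) (nat_lit 137) (nat_lit 5) (nat_lit 430) (nat_lit 429) (nat_lit 341)) (XT.nd (nat_lit 78) (nat_lit 0) (nat_lit 76) (XT.lf (nat_lit 76) (nat_lit 9193689316) (nat_lit 0) (nat_lit 5500095040) (nat_lit 836) (nat_lit 26274805603) (nat_lit 127) (nat_lit 5) (nat_lit 126) (nat_lit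 5) (nat_lit 137) (nat_lit 5) (nat_lit 431) (nat_lit 429) (nat_lit 340)) (XT.lf (nat_lit 76) (nat_lit 763664125) (nat_lit 0) (nat_lit 16630473771) (nat_lit 836) (nat_lit 25235669775) (nat_lit 128) (nat_lit 5) (nat_lit 127) (nat_lit 5) (nat_lit 138) (nat_lit 5) (nat_lit 432) (nat_lit 429) (nat_lit 339)))) (XT.nd (nat_lit 78) (nat_lit 0) (nat_lit 76) (XT.lf (nat_lit 0) (nat_lit 21198815386) (nat_lit 760) (nat_lit 7701687730) (nat_lit 836) (nat_lit 15479007239) (nat_lit 128) (nat_lit 5) (nat_lit 138) (nat_lit 5) (nat_lit 139) (nat_lit 5) (nat_lit 433) (nat_lit 429) (nat_lit 338)) (XT.nd (nat_lit 78) (nat_lit 0) (nat_lit 0) (XT.lf (nat_lit 0) (nat_lit 26108582422) (nat_lit 760) (nat_lit 16424518746) (nat_lit 836) (nat_lit 3696054486) (nat_lit 129) (nat_lit 5) (nat_lit 139) (nat_lit 5) (nat_lit 140) (nat_lit 5) (nat_lit 434) (nat_lit 429) (nat_lit 337)) (XT.lf (nat_lit 76) (nat_lit 22595806784)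 (nat_lit 0) (nat_lit 9786524759) (nat_lit 836) (nat_lit 15795883005) (nat_lit 130) (nat_lit 5) (nat_lit 129) (nat_lit 5) (nat_lit 140) (nat_lit 5) (nat_lit 435) (nat_lit 429) (nat_lit 336))))) (XT.nd (nat_lit 234) (nat_lit 1368) (nat_lit 0) (XT.nd (nat_lit 78) (nat_lit 456) (nat_lit 0) (XT.lf (nat_lit 0) (nat_lit 15131224367) (nat_lit 760) (nat_lit 24948245156) (nat_lit 836) (nat_lit 10157656041) (nat_lit 120) (nat_lit 5) (nat_lit 130) (nat_lit 5) (nat_lit 131) (nat_lit 5) (nat_lit 436) (nat_lit 429) (nat_lit 335)) (XT.nd (nat_lit 78) (nat_lit 76) (nat_lit 0) (XT.lf (nat_lit 0) (nat_lit 7480327939) (nat_lit 380) (nat_lit 41801527733) (nat_lit 456) (nat_lit 3134421654) (nat_lit 115) (nat_lit 5) (nat_lit 120) (nat_lit 5) (nat_lit 121) (nat_lit 5) (nat_lit 437) (nat_lit 429) (nat_lit 334)) (XT.lf (nat_lit 0) (nat_lit 5346031901) (nat_lit 456) (nat_lit 516684720) (nat_lit 76) (nat_lit 48851681266)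 (nat_lit 114) (nat_lit 5) (nat_lit 120) (nat_lit 5) (nat_lit 115) (nat_lit 5) (nat_lit 438) (nat_lit 429) (nat_lit 333)))) (XT.nd (nat_lit 156) (nat_lit 608) (nat_lit 0) (XT.nd (nat_lit 78) (nat_lit 380) (nat_lit 0) (XT.lf (nat_lit 0) (nat_lit 15684854720) (nat_lit 456) (nat_lit 8717130081) (nat_lit 76) (nat_lit 32727328107) (nat_lit 109) (nat_lit 5) (nat_lit 115) (nat_lit 5) (nat_lit 110) (nat_lit 5) (nat_lit 439) (nat_lit 429) (nat_lit 332)) (XT.lf (nat_lit 0) (nat_lit 27860241395) (nat_lit 456) (nat_lit 17132068511) (nat_lit 76) (nat_lit 14694639623) (nat_lit 104) (nat_lit 5) (nat_lit 110) (nat_lit 5) (nat_lit 105) (nat_lit 5) (nat_lit 440) (nat_lit 429) (nat_lit 331))) (XT.nd (nat_lit 78) (nat_lit 304) (nat_lit 0) (XT.lf (nat_lit 0) (nat_lit 36550134178) (nat_lit 304) (nat_lit 5592349590) (nat_lit 380) (nat_lit 20250073278) (nat_lit 100) (nat_lit 5) (nat_lit 104) (nat_lit 5) (nat_lit 105)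 (nat_lit 5) (nat_lit 441) (nat_lit 429) (nat_lit 330)) (XT.lf (nat_lit 0) (nat_lit 30220234797) (nat_lit 304) (nat_lit 28695834670) (nat_lit 380) (nat_lit 6331106616) (nat_lit 96) (nat_lit 5) (nat_lit 100) (nat_lit 5) (nat_lit 101) (nat_lit 5) (nat_lit 442) (nat_lit 429) (nat_lit 329)))))) (XT.nd (nat_lit 546) (nat_lit 1368) (nat_lit 0) (XT.nd (nat_lit 234) (nat_lit 760) (nat_lit 0) (XT.nd (nat_lit 78) (nat_lit 532) (nat_lit 0) (XT.lf (nat_lit 0) (nat_lit 9572034221) (nat_lit 304) (nat_lit 44597930821) (nat_lit 76) (nat_lit 14095950177) (nat_lit 92) (nat_lit 5) (nat_lit 96) (nat_lit 5) (nat_lit 93) (nat_lit 5) (nat_lit 443) (nat_lit 429) (nat_lit 328)) (XT.nd (nat_lit 78) (nat_lit 228) (nat_lit 0) (XT.lf (nat_lit 0) (nat_lit 16745011393) (nat_lit 304) (nat_lit 11145906616) (nat_lit 380) (nat_lit 43561781814) (nat_lit 88) (nat_lit 5) (nat_lit 92) (nat_lit 5) (nat_lit 93) (nat_lit 5) (nat_lit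 444) (nat_lit 429) (nat_lit 327)) (XT.lf (nat_lit 0) (nat_lit 9467280470) (nat_lit 228) (nat_lit 39693936301) (nat_lit 304) (nat_lit 25658916055) (nat_lit 85) (nat_lit 5) (nat_lit 88) (nat_lit 5) (nat_lit 89) (nat_lit 5) (nat_lit 445) (nat_lit 429) (nat_lit 326)))) (XT.nd (nat_lit 156) (nat_lit 456) (nat_lit 0) (XT.nd (nat_lit 78) (nat_lit 76) (nat_lit 0) (XT.lf (nat_lit 0) (nat_lit 2085044532) (nat_lit 228) (nat_lit 71329142159) (nat_lit 304) (nat_lit 4978722195) (nat_lit 82) (nat_lit 5) (nat_lit 85) (nat_lit 5) (nat_lit 86) (nat_lit 5) (nat_lit 446) (nat_lit 429) (nat_lit 325)) (XT.lf (nat_lit 0) (nat_lit 18624065718) (nat_lit 304) (nat_lit 5905642194) (nat_lit 76) (nat_lit 57617067339) (nat_lit 81) (nat_lit 5) (nat_lit 85) (nat_lit 5) (nat_lit 82) (nat_lit 5) (nat_lit 447) (nat_lit 429) (nat_lit 324))) (XT.nd (nat_lit 78) (nat_lit 228) (nat_lit 0) (XT.lf (nat_lit 0) (nat_lit 45496199317)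 (nat_lit 304) (nat_lit 14209259244) (nat_lit 76) (nat_lit 26413634440) (nat_lit 78) (nat_lit 5) (nat_lit 82) (nat_lit 5) (nat_lit 79) (nat_lit 5) (nat_lit 448) (nat_lit 429) (nat_lit 323)) (XT.lf (nat_lit 0) (nat_lit 67498993853) (nat_lit 228) (nat_lit 8588746362) (nat_lit 304) (nat_lit 14242974716) (nat_lit 75) (nat_lit 5) (nat_lit 78) (nat_lit 5) (nat_lit 79) (nat_lit 5) (nat_lit 449) (nat_lit 429) (nat_lit 322))))) (XT.nd (nat_lit 234) (nat_lit 760) (nat_lit 0) (XT.nd (nat_lit 78) (nat_lit 380) (nat_lit 0) (XT.lf (nat_lit 0) (nat_lit 15778721966) (nat_lit 228) (nat_lit 32381545289) (nat_lit 76) (nat_lit 46608508439) (nat_lit 72) (nat_lit 5) (nat_lit 75) (nat_lit 5) (nat_lit 73) (nat_lit 5) (nat_lit 450) (nat_lit 429) (nat_lit 321)) (XT.nd (nat_lit 78) (nat_lit 152) (nat_lit 0) (XT.lf (nat_lit 0) (nat_lit 49273272918) (nat_lit 304) (nat_lit 42471851179) (nat_lit 76) (nat_lit 7726576982)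 (nat_lit 69) (nat_lit 5) (nat_lit 73) (nat_lit 5) (nat_lit 70) (nat_lit 5) (nat_lit 451) (nat_lit 429) (nat_lit 320)) (XT.lf (nat_lit 0) (nat_lit 50972258441) (nat_lit 152) (nat_lit 36654230757) (nat_lit 228) (nat_lit 16815416682) (nat_lit 67) (nat_lit 5) (nat_lit 69) (nat_lit 5) (nat_lit 70) (nat_lit 5) (nat_lit 452) (nat_lit 429) (nat_lit 319)))) (XT.nd (nat_lit 156) (nat_lit 380) (nat_lit 0) (XT.nd (nat_lit 78) (nat_lit 152) (nat_lit 0) (XT.lf (nat_lit 0) (nat_lit 20456481161) (nat_lit 228) (nat_lit 65355150663) (nat_lit 76) (nat_lit 23891378039) (nat_lit 64) (nat_lit 5) (nat_lit 67) (nat_lit 5) (nat_lit 65) (nat_lit 5) (nat_lit 453) (nat_lit 429) (nat_lit 318)) (XT.lf (nat_lit 0) (nat_lit 36820176425) (nat_lit 152) (nat_lit 25446355820) (nat_lit 228) (nat_lit 52997410570) (nat_lit 62) (nat_lit 5) (nat_lit 64) (nat_lit 5) (nat_lit 65) (nat_lit 5) (nat_lit 454) (nat_lit 429) (nat_lit 317)))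 (XT.nd (nat_lit 78) (nat_lit 228) (nat_lit 0) (XT.lf (nat_lit 0) (nat_lit 28562353532) (nat_lit 152) (nat_lit 81080794852) (nat_lit 228) (nat_lit 11515514307) (nat_lit 60) (nat_lit 5) (nat_lit 62) (nat_lit 5) (nat_lit 63) (nat_lit 5) (nat_lit 455) (nat_lit 429) (nat_lit 316)) (XT.lf (nat_lit 0) (nat_lit 19111039616) (nat_lit 152) (nat_lit 15223055407) (nat_lit 228) (nat_lit 93059157523) (nat_lit 57) (nat_lit 5) (nat_lit 59) (nat_lit 5) (nat_lit 60) (nat_lit 5) (nat_lit 456) (nat_lit 429) (nat_lit 315))))))))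
noncomputable def xc92 : XT := (XT.nd (nat_lit 2028) (nat_lit 836) (nat_lit 0) (XT.nd (nat_lit 1014) (nat_lit 1064) (nat_lit 0) (XT.nd (nat_lit 468) (nat_lit 836) (nat_lit 0) (XT.nd (nat_lit 234) (nat_lit 456) (nat_lit 0) (XT.nd (nat_lit 78) (nat_lit 228) (nat_lit 0) (XT.lf (nat_lit 0) (nat_lit 8181070533) (nat_lit 152) (nat_lit 77910763372) (nat_lit 228) (nat_lit 47893156596) (nat_lit 55) (nat_lit 5) (nat_lit 57) (nat_lit 5) (nat_lit 58) (nat_lit 5) (nat_lit 457) (nat_lit 429) (nat_lit 314)) (XT.nd (nat_lit 78) (nat_lit 152) (nat_lit 0) (XT.lf (nat_lit 0) (nat_lit 3029903982) (nat_lit 228) (nat_lit 3485942071) (nat_lit 76) (nat_lit 134478922884) (nat_lit 54) (nat_lit 5) (nat_lit 57) (nat_lit 5) (nat_lit 55) (nat_lit 5) (nat_lit 458) (nat_lit 429) (nat_lit 313)) (XT.lf (nat_lit 0) (nat_lit 59580288001) (nat_lit 228) (nat_lit 17537965584) (nat_lit 76) (nat_lit 71246248525) (nat_lit 52) (nat_lit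 5) (nat_lit 55) (nat_lit 5) (nat_lit 53) (nat_lit 5) (nat_lit 459) (nat_lit 429) (nat_lit 312)))) (XT.nd (nat_lit 78) (nat_lit 304) (nat_lit 0) (XT.lf (nat_lit 0) (nat_lit 122765506281) (nat_lit 228) (nat_lit 32703060788) (nat_lit 76) (nat_lit 749706902) (nat_lit 50) (nat_lit 5) (nat_lit 53) (nat_lit 5) (nat_lit 51) (nat_lit 4) (nat_lit 460) (nat_lit 429) (nat_lit 311)) (XT.nd (nat_lit 78) (nat_lit 152) (nat_lit 0) (XT.lf (nat_lit 0) (nat_lit 28910317631) (nat_lit 152) (nat_lit 50857969268) (nat_lit 76) (nat_lit 84739173288) (nat_lit 48) (nat_lit 5) (nat_lit 50) (nat_lit 5) (nat_lit 49) (nat_lit 5) (nat_lit 461) (nat_lit 429) (nat_lit 310)) (XT.lf (nat_lit 0) (nat_lit 97354303788) (nat_lit 228) (nat_lit 71258881409) (nat_lit 76) (nat_lit 4705982172) (nat_lit 46) (nat_lit 5) (nat_lit 49) (nat_lit 5) (nat_lit 47) (nat_lit 4) (nat_lit 462) (nat_lit 429) (nat_lit 309))))) (XT.nd (nat_lit 234)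 (nat_lit 456) (nat_lit 0) (XT.nd (nat_lit 78) (nat_lit 304) (nat_lit 0) (XT.lf (nat_lit 0) (nat_lit 87680957453) (nat_lit 76) (nat_lit 87205929621) (nat_lit 152) (nat_lit 7768270297) (nat_lit 45) (nat_lit 5) (nat_lit 46) (nat_lit 5) (nat_lit 47) (nat_lit 4) (nat_lit 463) (nat_lit 429) (nat_lit 308)) (XT.nd (nat_lit 78) (nat_lit 76) (nat_lit 0) (XT.lf (nat_lit 0) (nat_lit 66201623821) (nat_lit 228) (nat_lit 122228550186) (nat_lit 76) (nat_lit 4135107249) (nat_lit 42) (nat_lit 5) (nat_lit 45) (nat_lit 5) (nat_lit 43) (nat_lit 4) (nat_lit 464) (nat_lit 429) (nat_lit 307)) (XT.lf (nat_lit 0) (nat_lit 49016506203) (nat_lit 76) (nat_lit 100720070888) (nat_lit 152) (nat_lit 53329289156) (nat_lit 41) (nat_lit 5) (nat_lit 42) (nat_lit 5) (nat_lit 43) (nat_lit 4) (nat_lit 465) (nat_lit 429) (nat_lit 306)))) (XT.nd (nat_lit 156) (nat_lit 228) (nat_lit 0) (XT.nd (nat_lit 78) (nat_lit 0) (nat_lit 0) (XT.lf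 (nat_lit 0) (nat_lit 24369830352) (nat_lit 152) (nat_lit 2903619479) (nat_lit 228) (nat_lit 186985939095) (nat_lit 38) (nat_lit 5) (nat_lit 40) (nat_lit 5) (nat_lit 41) (nat_lit 5) (nat_lit 466) (nat_lit 429) (nat_lit 305)) (XT.lf (nat_lit 0) (nat_lit 116811274313) (nat_lit 228) (nat_lit 6200055429) (nat_lit 76) (nat_lit 103075588005) (nat_lit 38) (nat_lit 5) (nat_lit 41) (nat_lit 5) (nat_lit 39) (nat_lit 4) (nat_lit 467) (nat_lit 429) (nat_lit 304))) (XT.nd (nat_lit 78) (nat_lit 152) (nat_lit 0) (XT.lf (nat_lit 0) (nat_lit 198486422645) (nat_lit 76) (nat_lit 18172503410) (nat_lit 152) (nat_lit 22044382851) (nat_lit 37) (nat_lit 5) (nat_lit 38) (nat_lit 5) (nat_lit 39) (nat_lit 4) (nat_lit 468) (nat_lit 429) (nat_lit 303)) (XT.lf (nat_lit 0) (nat_lit 74195136229) (nat_lit 152) (nat_lit 81867108143) (nat_lit 76) (nat_lit 95993456859) (nat_lit 35) (nat_lit 5) (nat_lit 37) (nat_lit 5) (nat_lit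 36) (nat_lit 4) (nat_lit 469) (nat_lit 429) (nat_lit 302)))))) (XT.nd (nat_lit 468) (nat_lit 532) (nat_lit 0) (XT.nd (nat_lit 234) (nat_lit 228) (nat_lit 0) (XT.nd (nat_lit 78) (nat_lit 228) (nat_lit 0) (XT.lf (nat_lit 0) (nat_lit 136085426867) (nat_lit 76) (nat_lit 44428500266) (nat_lit 152) (nat_lit 85786666816) (nat_lit 34) (nat_lit 5) (nat_lit 35) (nat_lit 5) (nat_lit 36) (nat_lit 4) (nat_lit 470) (nat_lit 429) (nat_lit 301)) (XT.nd (nat_lit 78) (nat_lit 76) (nat_lit 0) (XT.lf (nat_lit 0) (nat_lit 17397693856) (nat_lit 152) (nat_lit 187162381917) (nat_lit 76) (nat_lit 76905267367) (nat_lit 32) (nat_lit 5) (nat_lit 34) (nat_lit 5) (nat_lit 33) (nat_lit 4) (nat_lit 471) (nat_lit 429) (nat_lit 300)) (XT.lf (nat_lit 0) (nat_lit 42839060595) (nat_lit 76) (nat_lit 86754851737) (nat_lit 152) (nat_lit 167990910266) (nat_lit 31) (nat_lit 5) (nat_lit 32) (nat_lit 5) (nat_lit 33) (nat_lit 4) (nat_lit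 472) (nat_lit 429) (nat_lit 299)))) (XT.nd (nat_lit 78) (nat_lit 228) (nat_lit 0) (XT.lf (nat_lit 0) (nat_lit 254710520832) (nat_lit 152) (nat_lit 17593875032) (nat_lit 0) (nat_lit 42492229980) (nat_lit 31) (nat_lit 5) (nat_lit 33) (nat_lit 4) (nat_lit 31) (nat_lit 4) (nat_lit 473) (nat_lit 429) (nat_lit 298)) (XT.nd (nat_lit 78) (nat_lit 76) (nat_lit 0) (XT.lf (nat_lit 0) (nat_lit 60016573719) (nat_lit 152) (nat_lit 89184972318) (nat_lit 76) (nat_lit 183871145571) (nat_lit 29) (nat_lit 5) (nat_lit 31) (nat_lit 5) (nat_lit 30) (nat_lit 4) (nat_lit 474) (nat_lit 429) (nat_lit 297)) (XT.lf (nat_lit 0) (nat_lit 178824296366) (nat_lit 76) (nat_lit 11928802993) (nat_lit 152) (nat_lit 161851954562) (nat_lit 28) (nat_lit 5) (nat_lit 29) (nat_lit 5) (nat_lit 30) (nat_lit 4) (nat_lit 475) (nat_lit 429) (nat_lit 296))))) (XT.nd (nat_lit 234) (nat_lit 304) (nat_lit 0) (XT.nd (nat_lit 78) (nat_lit 152)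 (nat_lit 0) (XT.lf (nat_lit 0) (nat_lit 98844940948) (nat_lit 76) (nat_lit 238353485693) (nat_lit 76) (nat_lit 36239084646) (nat_lit 27) (nat_lit 4) (nat_lit 28) (nat_lit 5) (nat_lit 28) (nat_lit 4) (nat_lit 476) (nat_lit 429) (nat_lit 295)) (XT.nd (nat_lit 78) (nat_lit 0) (nat_lit 0) (XT.lf (nat_lit 0) (nat_lit 1959293947) (nat_lit 76) (nat_lit 97589092468) (nat_lit 152) (nat_lit 296145179301) (nat_lit 25) (nat_lit 5) (nat_lit 26) (nat_lit 5) (nat_lit 27) (nat_lit 4) (nat_lit 477) (nat_lit 429) (nat_lit 294)) (XT.lf (nat_lit 0) (nat_lit 250656973694) (nat_lit 152) (nat_lit 110590882660) (nat_lit 0) (nat_lit 58166156039) (nat_lit 25) (nat_lit 5) (nat_lit 27) (nat_lit 4) (nat_lit 25) (nat_lit 4) (nat_lit 478) (nat_lit 429) (nat_lit 293)))) (XT.nd (nat_lit 156) (nat_lit 76) (nat_lit 0) (XT.nd (nat_lit 78) (nat_lit 152) (nat_lit 0) (XT.lf (nat_lit 0) (nat_lit 199956945404) (nat_lit 76) (nat_lit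 218664018611) (nat_lit 76) (nat_lit 26172795020) (nat_lit 24) (nat_lit 4) (nat_lit 25) (nat_lit 5) (nat_lit 25) (nat_lit 4) (nat_lit 479) (nat_lit 429) (nat_lit 292)) (XT.lf (nat_lit 0) (nat_lit 67316223127) (nat_lit 76) (nat_lit 59419300084) (nat_lit 152) (nat_lit 345218166455) (nat_lit 22) (nat_lit 5) (nat_lit 23) (nat_lit 5) (nat_lit 24) (nat_lit 4) (nat_lit 480) (nat_lit 429) (nat_lit 291))) (XT.nd (nat_lit 78) (nat_lit 76) (nat_lit 0) (XT.lf (nat_lit 0) (nat_lit 297063408056) (nat_lit 152) (nat_lit 90158616402) (nat_lit 0) (nat_lit 113737743787) (nat_lit 22) (nat_lit 5) (nat_lit 24) (nat_lit 4) (nat_lit 22) (nat_lit 4) (nat_lit 481) (nat_lit 429) (nat_lit 290)) (XT.lf (nat_lit 0) (nat_lit 256691139142) (nat_lit 76) (nat_lit 229335358240) (nat_lit 76) (nat_lit 46009387070) (nat_lit 21) (nat_lit 4) (nat_lit 22) (nat_lit 5) (nat_lit 22) (nat_lit 4) (nat_lit 482) (nat_lit 429) (nat_lit 289)))))))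 (XT.nd (nat_lit 58344) (nat_lit 0) (nat_lit 6536) (XT.nd (nat_lit 468) (nat_lit 380) (nat_lit 0) (XT.nd (nat_lit 234) (nat_lit 228) (nat_lit 0) (XT.nd (nat_lit 78) (nat_lit 76) (nat_lit 0) (XT.lf (nat_lit 0) (nat_lit 69233918476) (nat_lit 76) (nat_lit 53966166310) (nat_lit 152) (nat_lit 442166979234) (nat_lit 19) (nat_lit 5) (nat_lit 20) (nat_lit 5) (nat_lit 21) (nat_lit 4) (nat_lit 483) (nat_lit 429) (nat_lit 288)) (XT.nd (nat_lit 78) (nat_lit 76) (nat_lit 0) (XT.lf (nat_lit 0) (nat_lit 311344780998) (nat_lit 152) (nat_lit 152883627036) (nat_lit 0) (nat_lit 136748096756) (nat_lit 19) (nat_lit 5) (nat_lit 21) (nat_lit 4) (nat_lit 19) (nat_lit 4) (nat_lit 484) (nat_lit 429) (nat_lit 287)) (XT.lf (nat_lit 0) (nat_lit 224087012729) (nat_lit 76) (nat_lit 294862100679) (nat_lit 76) (nat_lit 120265184411) (nat_lit 18) (nat_lit 4) (nat_lit 19) (nat_lit 5) (nat_lit 19) (nat_lit 4) (nat_lit 485) (nat_lit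 429) (nat_lit 286)))) (XT.nd (nat_lit 78) (nat_lit 152) (nat_lit 0) (XT.lf (nat_lit 0) (nat_lit 63351738729) (nat_lit 152) (nat_lit 44726066710) (nat_lit 76) (nat_lit 572249087554) (nat_lit 17) (nat_lit 5) (nat_lit 19) (nat_lit 5) (nat_lit 18) (nat_lit 4) (nat_lit 486) (nat_lit 429) (nat_lit 285)) (XT.nd (nat_lit 78) (nat_lit 76) (nat_lit 0) (XT.lf (nat_lit 0) (nat_lit 264787172727) (nat_lit 152) (nat_lit 360971610623) (nat_lit 0) (nat_lit 98504001268) (nat_lit 16) (nat_lit 5) (nat_lit 18) (nat_lit 4) (nat_lit 16) (nat_lit 4) (nat_lit 487) (nat_lit 429) (nat_lit 284)) (XT.lf (nat_lit 0) (nat_lit 33095531413) (nat_lit 76) (nat_lit 452372418806) (nat_lit 76) (nat_lit 286089071929) (nat_lit 15) (nat_lit 4) (nat_lit 16) (nat_lit 5) (nat_lit 16) (nat_lit 4) (nat_lit 488) (nat_lit 429) (nat_lit 283))))) (XT.nd (nat_lit 234) (nat_lit 228) (nat_lit 0) (XT.nd (nat_lit 78) (nat_lit 152) (nat_lit 0)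 (XT.lf (nat_lit 0) (nat_lit 471577339120) (nat_lit 76) (nat_lit 258513298251) (nat_lit 76) (nat_lit 92229788949) (nat_lit 15) (nat_lit 4) (nat_lit 16) (nat_lit 5) (nat_lit 16) (nat_lit 4) (nat_lit 489) (nat_lit 429) (nat_lit 282)) (XT.nd (nat_lit 78) (nat_lit 0) (nat_lit 0) (XT.lf (nat_lit 0) (nat_lit 68350749568) (nat_lit 76) (nat_lit 46105059828) (nat_lit 152) (nat_lit 762544314244) (nat_lit 13) (nat_lit 5) (nat_lit 14) (nat_lit 5) (nat_lit 15) (nat_lit 4) (nat_lit 490) (nat_lit 429) (nat_lit 281)) (XT.lf (nat_lit 0) (nat_lit 343559404831) (nat_lit 152) (nat_lit 406769590127) (nat_lit 0) (nat_lit 185193882022) (nat_lit 13) (nat_lit 5) (nat_lit 15) (nat_lit 4) (nat_lit 13) (nat_lit 4) (nat_lit 491) (nat_lit 429) (nat_lit 280)))) (XT.nd (nat_lit 156) (nat_lit 152) (nat_lit 0) (XT.nd (nat_lit 78) (nat_lit 0) (nat_lit 0) (XT.lf (nat_lit 0) (nat_lit 27358037836) (nat_lit 76) (nat_lit 564837424816)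 (nat_lit 76) (nat_lit 406471779209) (nat_lit 12) (nat_lit 4) (nat_lit 13) (nat_lit 5) (nat_lit 13) (nat_lit 4) (nat_lit 492) (nat_lit 429) (nat_lit 279)) (XT.lf (nat_lit 0) (nat_lit 510740768298) (nat_lit 76) (nat_lit 357066940874) (nat_lit 76) (nat_lit 198701181565) (nat_lit 12) (nat_lit 4) (nat_lit 13) (nat_lit 5) (nat_lit 13) (nat_lit 4) (nat_lit 493) (nat_lit 429) (nat_lit 278))) (XT.nd (nat_lit 78) (nat_lit 76) (nat_lit 0) (XT.lf (nat_lit 0) (nat_lit 24868450826) (nat_lit 152) (nat_lit 107385540393) (nat_lit 76) (nat_lit 1007503841767) (nat_lit 11) (nat_lit 5) (nat_lit 13) (nat_lit 5) (nat_lit 12) (nat_lit 4) (nat_lit 494) (nat_lit 429) (nat_lit 277)) (XT.lf (nat_lit 0) (nat_lit 267358931858) (nat_lit 152) (nat_lit 834410842889) (nat_lit 0) (nat_lit 116534206078) (nat_lit 10) (nat_lit 5) (nat_lit 12) (nat_lit 4) (nat_lit 10) (nat_lit 4) (nat_lit 495) (nat_lit 429) (nat_lit 276)))))) (XT.nd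 (nat_lit 546) (nat_lit 2204) (nat_lit 0) (XT.nd (nat_lit 234) (nat_lit 0) (nat_lit 152) (XT.nd (nat_lit 78) (nat_lit 0) (nat_lit 76) (XT.lf (nat_lit 0) (nat_lit 6575962740) (nat_lit 836) (nat_lit 6942639448) (nat_lit 836) (nat_lit 6942639448) (nat_lit 125) (nat_lit 3) (nat_lit 136) (nat_lit 3) (nat_lit 136) (nat_lit 5) (nat_lit 430) (nat_lit 430) (nat_lit 340)) (XT.nd (nat_lit 78) (nat_lit 0) (nat_lit 0) (XT.lf (nat_lit 0) (nat_lit 14105831036) (nat_lit 760) (nat_lit 23824501376) (nat_lit 836) (nat_lit 4607635375) (nat_lit 126) (nat_lit 5) (nat_lit 136) (nat_lit 5) (nat_lit 137) (nat_lit 5) (nat_lit 431) (nat_lit 430) (nat_lit 339)) (XT.lf (nat_lit 76) (nat_lit 10002004517) (nat_lit 0) (nat_lit 5985915741) (nat_lit 836) (nat_lit 28252179581) (nat_lit 127) (nat_lit 5) (nat_lit 126) (nat_lit 5) (nat_lit 137) (nat_lit 5) (nat_lit 432) (nat_lit 430) (nat_lit 338)))) (XT.nd (nat_lit 156) (nat_lit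 0) (nat_lit 152) (XT.nd (nat_lit 78) (nat_lit 0) (nat_lit 76) (XT.lf (nat_lit 76) (nat_lit 900814376) (nat_lit 0) (nat_lit 17995225240) (nat_lit 836) (nat_lit 27138591856) (nat_lit 128) (nat_lit 5) (nat_lit 127) (nat_lit 5) (nat_lit 138) (nat_lit 5) (nat_lit 433) (nat_lit 430) (nat_lit 337)) (XT.lf (nat_lit 0) (nat_lit 22996419652) (nat_lit 760) (nat_lit 8241754541) (nat_lit 836) (nat_lit 16686572893) (nat_lit 128) (nat_lit 5) (nat_lit 138) (nat_lit 5) (nat_lit 139) (nat_lit 5) (nat_lit 434) (nat_lit 430) (nat_lit 336))) (XT.nd (nat_lit 78) (nat_lit 0) (nat_lit 0) (XT.lf (nat_lit 0) (nat_lit 28292218910) (nat_lit 760) (nat_lit 17660564630) (nat_lit 836) (nat_lit 3969920826) (nat_lit 129) (nat_lit 5) (nat_lit 139) (nat_lit 5) (nat_lit 140) (nat_lit 5) (nat_lit 435) (nat_lit 430) (nat_lit 335)) (XT.lf (nat_lit 76) (nat_lit 24478000826) (nat_lit 0) (nat_lit 10583997424) (nat_lit 836) (nat_lit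 16965985892) (nat_lit 130) (nat_lit 5) (nat_lit 129) (nat_lit 5) (nat_lit 140) (nat_lit 5) (nat_lit 436) (nat_lit 430) (nat_lit 334))))) (XT.nd (nat_lit 234) (nat_lit 1368) (nat_lit 0) (XT.nd (nat_lit 78) (nat_lit 456) (nat_lit 0) (XT.lf (nat_lit 0) (nat_lit 16417522704) (nat_lit 760) (nat_lit 26951759140) (nat_lit 836) (nat_lit 10882609952) (nat_lit 120) (nat_lit 5) (nat_lit 130) (nat_lit 5) (nat_lit 131) (nat_lit 5) (nat_lit 437) (nat_lit 430) (nat_lit 333)) (XT.nd (nat_lit 78) (nat_lit 76) (nat_lit 0) (XT.lf (nat_lit 0) (nat_lit 8155395803) (nat_lit 380) (nat_lit 45147367184) (nat_lit 456) (nat_lit 3302869808) (nat_lit 115) (nat_lit 5) (nat_lit 120) (nat_lit 5) (nat_lit 121) (nat_lit 5) (nat_lit 438) (nat_lit 430) (nat_lit 332)) (XT.lf (nat_lit 0) (nat_lit 5847484162) (nat_lit 456) (nat_lit 484590493) (nat_lit 76) (nat_lit 52755761204) (nat_lit 114) (nat_lit 5) (nat_lit 120) (nat_lit 5)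 (nat_lit 115) (nat_lit 5) (nat_lit 439) (nat_lit 430) (nat_lit 331)))) (XT.nd (nat_lit 156) (nat_lit 608) (nat_lit 0) (XT.nd (nat_lit 78) (nat_lit 380) (nat_lit 0) (XT.lf (nat_lit 0) (nat_lit 17009058045) (nat_lit 456) (nat_lit 9340782081) (nat_lit 76) (nat_lit 35346323573) (nat_lit 109) (nat_lit 5) (nat_lit 115) (nat_lit 5) (nat_lit 110) (nat_lit 5) (nat_lit 440) (nat_lit 430) (nat_lit 330)) (XT.lf (nat_lit 0) (nat_lit 30154514999) (nat_lit 456) (nat_lit 18428909103) (nat_lit 76) (nat_lit 15875186922) (nat_lit 104) (nat_lit 5) (nat_lit 110) (nat_lit 5) (nat_lit 105) (nat_lit 5) (nat_lit 441) (nat_lit 430) (nat_lit 329))) (XT.nd (nat_lit 78) (nat_lit 304) (nat_lit 0) (XT.lf (nat_lit 0) (nat_lit 39544665808) (nat_lit 304) (nat_lit 6030923516) (nat_lit 380) (nat_lit 21805266801) (nat_lit 100) (nat_lit 5) (nat_lit 104) (nat_lit 5) (nat_lit 105) (nat_lit 5) (nat_lit 442) (nat_lit 430) (nat_lit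 328)) (XT.lf (nat_lit 0) (nat_lit 32708148617) (nat_lit 304) (nat_lit 30979567305) (nat_lit 380) (nat_lit 6776297553) (nat_lit 96) (nat_lit 5) (nat_lit 100) (nat_lit 5) (nat_lit 101) (nat_lit 5) (nat_lit 443) (nat_lit 430) (nat_lit 327))))))))
noncomputable def xc93 : XT := (XT.nd (nat_lit 2106) (nat_lit 1824) (nat_lit 0) (XT.nd (nat_lit 1014) (nat_lit 1900) (nat_lit 0) (XT.nd (nat_lit 468) (nat_lit 1368) (nat_lit 0) (XT.nd (nat_lit 234) (nat_lit 532) (nat_lit 0) (XT.nd (nat_lit 78) (nat_lit 532) (nat_lit 0) (XT.lf (nat_lit 0) (nat_lit 10394021526) (nat_lit 304) (nat_lit 48094018860) (nat_lit 76) (nat_lit 15236320376) (nat_lit 92) (nat_lit 5) (nat_lit 96) (nat_lit 5) (nat_lit 93) (nat_lit 5) (nat_lit 444) (nat_lit 430) (nat_lit 326)) (XT.nd (nat_lit 78) (nat_lit 228) (nat_lit 0) (XT.lf (nat_lit 0) (nat_lit 18153240719) (nat_lit 304) (nat_lit 12022081997) (nat_lit 380) (nat_lit 46990921302)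 (nat_lit 88) (nat_lit 5) (nat_lit 92) (nat_lit 5) (nat_lit 93) (nat_lit 5) (nat_lit 445) (nat_lit 430) (nat_lit 325)) (XT.lf (nat_lit 0) (nat_lit 10292633054) (nat_lit 228) (nat_lit 42851961911) (nat_lit 304) (nat_lit 27658610344) (nat_lit 85) (nat_lit 5) (nat_lit 88) (nat_lit 5) (nat_lit 89) (nat_lit 5) (nat_lit 446) (nat_lit 430) (nat_lit 324)))) (XT.nd (nat_lit 78) (nat_lit 304) (nat_lit 0) (XT.lf (nat_lit 0) (nat_lit 2319030989) (nat_lit 228) (nat_lit 77016333911) (nat_lit 304) (nat_lit 5326561477) (nat_lit 82) (nat_lit 5) (nat_lit 85) (nat_lit 5) (nat_lit 86) (nat_lit 5) (nat_lit 447) (nat_lit 430) (nat_lit 323)) (XT.nd (nat_lit 78) (nat_lit 228) (nat_lit 0) (XT.lf (nat_lit 0) (nat_lit 20159216444) (nat_lit 304) (nat_lit 6314380314) (nat_lit 76) (nat_lit 62242647726) (nat_lit 81) (nat_lit 5) (nat_lit 85) (nat_lit 5) (nat_lit 82) (nat_lit 5) (nat_lit 448) (nat_lit 430) (nat_lit 322)) (XT.lf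 (nat_lit 0) (nat_lit 49179005072) (nat_lit 304) (nat_lit 15283186484) (nat_lit 76) (nat_lit 28544262734) (nat_lit 78) (nat_lit 5) (nat_lit 82) (nat_lit 5) (nat_lit 79) (nat_lit 5) (nat_lit 449) (nat_lit 430) (nat_lit 321))))) (XT.nd (nat_lit 234) (nat_lit 684) (nat_lit 0) (XT.nd (nat_lit 78) (nat_lit 456) (nat_lit 0) (XT.lf (nat_lit 0) (nat_lit 72958997062) (nat_lit 228) (nat_lit 9256616935) (nat_lit 304) (nat_lit 15339505529) (nat_lit 75) (nat_lit 5) (nat_lit 78) (nat_lit 5) (nat_lit 79) (nat_lit 5) (nat_lit 450) (nat_lit 430) (nat_lit 320)) (XT.nd (nat_lit 78) (nat_lit 228) (nat_lit 0) (XT.lf (nat_lit 0) (nat_lit 17080698164) (nat_lit 228) (nat_lit 34911599501) (nat_lit 76) (nat_lit 50355987458) (nat_lit 72) (nat_lit 5) (nat_lit 75) (nat_lit 5) (nat_lit 73) (nat_lit 5) (nat_lit 451) (nat_lit 430) (nat_lit 319)) (XT.lf (nat_lit 0) (nat_lit 53253092481) (nat_lit 304) (nat_lit 45810182976)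 (nat_lit 76) (nat_lit 8364255762) (nat_lit 69) (nat_lit 5) (nat_lit 73) (nat_lit 5) (nat_lit 70) (nat_lit 5) (nat_lit 452) (nat_lit 430) (nat_lit 318)))) (XT.nd (nat_lit 156) (nat_lit 304) (nat_lit 0) (XT.nd (nat_lit 78) (nat_lit 228) (nat_lit 0) (XT.lf (nat_lit 0) (nat_lit 55106873253) (nat_lit 152) (nat_lit 39565768466) (nat_lit 228) (nat_lit 18122807499) (nat_lit 67) (nat_lit 5) (nat_lit 69) (nat_lit 5) (nat_lit 70) (nat_lit 5) (nat_lit 453) (nat_lit 430) (nat_lit 317)) (XT.lf (nat_lit 0) (nat_lit 22128108398) (nat_lit 228) (nat_lit 70526611222) (nat_lit 76) (nat_lit 25822769013) (nat_lit 64) (nat_lit 5) (nat_lit 67) (nat_lit 5) (nat_lit 65) (nat_lit 5) (nat_lit 454) (nat_lit 430) (nat_lit 316))) (XT.nd (nat_lit 78) (nat_lit 152) (nat_lit 0) (XT.lf (nat_lit 0) (nat_lit 39820266990) (nat_lit 152) (nat_lit 27460946461) (nat_lit 228) (nat_lit 57202170765) (nat_lit 62) (nat_lit 5) (nat_lit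 64) (nat_lit 5) (nat_lit 65) (nat_lit 5) (nat_lit 455) (nat_lit 430) (nat_lit 315)) (XT.lf (nat_lit 0) (nat_lit 30900736679) (nat_lit 152) (nat_lit 87545890122) (nat_lit 228) (nat_lit 12403121937) (nat_lit 60) (nat_lit 5) (nat_lit 62) (nat_lit 5) (nat_lit 63) (nat_lit 5) (nat_lit 456) (nat_lit 430) (nat_lit 314)))))) (XT.nd (nat_lit 546) (nat_lit 836) (nat_lit 0) (XT.nd (nat_lit 234) (nat_lit 608) (nat_lit 0) (XT.nd (nat_lit 78) (nat_lit 228) (nat_lit 0) (XT.lf (nat_lit 0) (nat_lit 20692032013) (nat_lit 152) (nat_lit 16419749583) (nat_lit 228) (nat_lit 100471378230) (nat_lit 57) (nat_lit 5) (nat_lit 59) (nat_lit 5) (nat_lit 60) (nat_lit 5) (nat_lit 457) (nat_lit 430) (nat_lit 313)) (XT.nd (nat_lit 78) (nat_lit 76) (nat_lit 0) (XT.lf (nat_lit 0) (nat_lit 8886570372) (nat_lit 152) (nat_lit 84122378189) (nat_lit 228) (nat_lit 51693348176) (nat_lit 55) (nat_lit 5) (nat_lit 57) (nat_lit 5) (nat_lit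 58) (nat_lit 5) (nat_lit 458) (nat_lit 430) (nat_lit 312)) (XT.lf (nat_lit 0) (nat_lit 3300315191) (nat_lit 228) (nat_lit 3716651576) (nat_lit 76) (nat_lit 145255978677) (nat_lit 54) (nat_lit 5) (nat_lit 57) (nat_lit 5) (nat_lit 55) (nat_lit 5) (nat_lit 459) (nat_lit 430) (nat_lit 311)))) (XT.nd (nat_lit 156) (nat_lit 304) (nat_lit 0) (XT.nd (nat_lit 78) (nat_lit 152) (nat_lit 0) (XT.lf (nat_lit 0) (nat_lit 64373676825) (nat_lit 228) (nat_lit 18893896345) (nat_lit 76) (nat_lit 76964737060) (nat_lit 52) (nat_lit 5) (nat_lit 55) (nat_lit 5) (nat_lit 53) (nat_lit 5) (nat_lit 460) (nat_lit 430) (nat_lit 310)) (XT.lf (nat_lit 0) (nat_lit 132612721295) (nat_lit 228) (nat_lit 35273261974) (nat_lit 76) (nat_lit 828450410) (nat_lit 50) (nat_lit 5) (nat_lit 53) (nat_lit 5) (nat_lit 51) (nat_lit 4) (nat_lit 461) (nat_lit 430) (nat_lit 309))) (XT.nd (nat_lit 78) (nat_lit 152) (nat_lit 0) (XT.lf (nat_lit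 0) (nat_lit 31248289810) (nat_lit 152) (nat_lit 54881729598) (nat_lit 76) (nat_lit 91536777185) (nat_lit 48) (nat_lit 5) (nat_lit 50) (nat_lit 5) (nat_lit 49) (nat_lit 5) (nat_lit 462) (nat_lit 430) (nat_lit 308)) (XT.lf (nat_lit 0) (nat_lit 105166898561) (nat_lit 228) (nat_lit 76915760678) (nat_lit 76) (nat_lit 5100826152) (nat_lit 46) (nat_lit 5) (nat_lit 49) (nat_lit 5) (nat_lit 47) (nat_lit 4) (nat_lit 463) (nat_lit 430) (nat_lit 307))))) (XT.nd (nat_lit 234) (nat_lit 456) (nat_lit 0) (XT.nd (nat_lit 78) (nat_lit 304) (nat_lit 0) (XT.lf (nat_lit 0) (nat_lit 94737360440) (nat_lit 76) (nat_lit 94163586328) (nat_lit 152) (nat_lit 8365465123) (nat_lit 45) (nat_lit 5) (nat_lit 46) (nat_lit 5) (nat_lit 47) (nat_lit 4) (nat_lit 464) (nat_lit 430) (nat_lit 306)) (XT.nd (nat_lit 78) (nat_lit 76) (nat_lit 0) (XT.lf (nat_lit 0) (nat_lit 71520429844) (nat_lit 228) (nat_lit 131965151070) (nat_lit 76)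 (nat_lit 4483786714) (nat_lit 42) (nat_lit 5) (nat_lit 45) (nat_lit 5) (nat_lit 43) (nat_lit 4) (nat_lit 465) (nat_lit 430) (nat_lit 305)) (XT.lf (nat_lit 0) (nat_lit 52977698332) (nat_lit 76) (nat_lit 108759423839) (nat_lit 152) (nat_lit 57572930280) (nat_lit 41) (nat_lit 5) (nat_lit 42) (nat_lit 5) (nat_lit 43) (nat_lit 4) (nat_lit 466) (nat_lit 430) (nat_lit 304)))) (XT.nd (nat_lit 156) (nat_lit 228) (nat_lit 0) (XT.nd (nat_lit 78) (nat_lit 0) (nat_lit 0) (XT.lf (nat_lit 0) (nat_lit 26358252627) (nat_lit 152) (nat_lit 3118027122) (nat_lit 228) (nat_lit 201922810698) (nat_lit 38) (nat_lit 5) (nat_lit 40) (nat_lit 5) (nat_lit 41) (nat_lit 5) (nat_lit 467) (nat_lit 430) (nat_lit 303)) (XT.lf (nat_lit 0) (nat_lit 126175836552) (nat_lit 228) (nat_lit 6659387408) (nat_lit 76) (nat_lit 111337662436) (nat_lit 38) (nat_lit 5) (nat_lit 41) (nat_lit 5) (nat_lit 39) (nat_lit 4) (nat_lit 468) (nat_lit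 430) (nat_lit 302))) (XT.nd (nat_lit 78) (nat_lit 152) (nat_lit 0) (XT.lf (nat_lit 0) (nat_lit 214400415172) (nat_lit 76) (nat_lit 19609976620) (nat_lit 152) (nat_lit 23788242617) (nat_lit 37) (nat_lit 5) (nat_lit 38) (nat_lit 5) (nat_lit 39) (nat_lit 4) (nat_lit 469) (nat_lit 430) (nat_lit 301)) (XT.lf (nat_lit 0) (nat_lit 80149178608) (nat_lit 152) (nat_lit 88381657137) (nat_lit 76) (nat_lit 103688398575) (nat_lit 35) (nat_lit 5) (nat_lit 37) (nat_lit 5) (nat_lit 36) (nat_lit 4) (nat_lit 470) (nat_lit 430) (nat_lit 300))))))) (XT.nd (nat_lit 1014) (nat_lit 760) (nat_lit 0) (XT.nd (nat_lit 468) (nat_lit 532) (nat_lit 0) (XT.nd (nat_lit 234) (nat_lit 228) (nat_lit 0) (XT.nd (nat_lit 78) (nat_lit 228) (nat_lit 0) (XT.lf (nat_lit 0) (nat_lit 147005567454) (nat_lit 76) (nat_lit 47967060044) (nat_lit 152) (nat_lit 92631133331) (nat_lit 34) (nat_lit 5) (nat_lit 35) (nat_lit 5) (nat_lit 36) (nat_lit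 4) (nat_lit 471) (nat_lit 430) (nat_lit 299)) (XT.nd (nat_lit 78) (nat_lit 76) (nat_lit 0) (XT.lf (nat_lit 0) (nat_lit 18806807196) (nat_lit 152) (nat_lit 202102332781) (nat_lit 76) (nat_lit 83072564553) (nat_lit 32) (nat_lit 5) (nat_lit 34) (nat_lit 5) (nat_lit 33) (nat_lit 4) (nat_lit 472) (nat_lit 430) (nat_lit 298)) (XT.lf (nat_lit 0) (nat_lit 46297789267) (nat_lit 76) (nat_lit 93680145986) (nat_lit 152) (nat_lit 181412846572) (nat_lit 31) (nat_lit 5) (nat_lit 32) (nat_lit 5) (nat_lit 33) (nat_lit 4) (nat_lit 473) (nat_lit 430) (nat_lit 297)))) (XT.nd (nat_lit 78) (nat_lit 228) (nat_lit 0) (XT.lf (nat_lit 0) (nat_lit 275102867677) (nat_lit 152) (nat_lit 18971575083) (nat_lit 0) (nat_lit 45905136890) (nat_lit 31) (nat_lit 5) (nat_lit 33) (nat_lit 4) (nat_lit 31) (nat_lit 4) (nat_lit 474) (nat_lit 430) (nat_lit 296)) (XT.nd (nat_lit 78) (nat_lit 76) (nat_lit 0) (XT.lf (nat_lit 0) (nat_lit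 64832945005) (nat_lit 152) (nat_lit 96290757303) (nat_lit 76) (nat_lit 198594051473) (nat_lit 29) (nat_lit 5) (nat_lit 31) (nat_lit 5) (nat_lit 30) (nat_lit 4) (nat_lit 475) (nat_lit 430) (nat_lit 295)) (XT.lf (nat_lit 0) (nat_lit 193157992015) (nat_lit 76) (nat_lit 12869719495) (nat_lit 152) (nat_lit 174785027697) (nat_lit 28) (nat_lit 5) (nat_lit 29) (nat_lit 5) (nat_lit 30) (nat_lit 4) (nat_lit 476) (nat_lit 430) (nat_lit 294))))) (XT.nd (nat_lit 234) (nat_lit 304) (nat_lit 0) (XT.nd (nat_lit 78) (nat_lit 152) (nat_lit 0) (XT.lf (nat_lit 0) (nat_lit 106779569943) (nat_lit 76) (nat_lit 257408646625) (nat_lit 76) (nat_lit 39123599074) (nat_lit 27) (nat_lit 4) (nat_lit 28) (nat_lit 5) (nat_lit 28) (nat_lit 4) (nat_lit 477) (nat_lit 430) (nat_lit 293)) (XT.nd (nat_lit 78) (nat_lit 0) (nat_lit 0) (XT.lf (nat_lit 0) (nat_lit 2142344381) (nat_lit 76) (nat_lit 105383420577) (nat_lit 152) (nat_lit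 319822609965) (nat_lit 25) (nat_lit 5) (nat_lit 26) (nat_lit 5) (nat_lit 27) (nat_lit 4) (nat_lit 478) (nat_lit 430) (nat_lit 292)) (XT.lf (nat_lit 0) (nat_lit 270722223685) (nat_lit 152) (nat_lit 119413354072) (nat_lit 0) (nat_lit 62830920403) (nat_lit 25) (nat_lit 5) (nat_lit 27) (nat_lit 4) (nat_lit 25) (nat_lit 4) (nat_lit 479) (nat_lit 430) (nat_lit 291)))) (XT.nd (nat_lit 156) (nat_lit 76) (nat_lit 0) (XT.nd (nat_lit 78) (nat_lit 152) (nat_lit 0) (XT.lf (nat_lit 0) (nat_lit 215977222494) (nat_lit 76) (nat_lit 236145540941) (nat_lit 76) (nat_lit 28253889635) (nat_lit 24) (nat_lit 4) (nat_lit 25) (nat_lit 5) (nat_lit 25) (nat_lit 4) (nat_lit 480) (nat_lit 430) (nat_lit 290)) (XT.lf (nat_lit 0) (nat_lit 72724601753) (nat_lit 76) (nat_lit 64161532541) (nat_lit 152) (nat_lit 372823261578) (nat_lit 22) (nat_lit 5) (nat_lit 23) (nat_lit 5) (nat_lit 24) (nat_lit 4) (nat_lit 481) (nat_lit 430)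 (nat_lit 289))) (XT.nd (nat_lit 78) (nat_lit 76) (nat_lit 0) (XT.lf (nat_lit 0) (nat_lit 320839541655) (nat_lit 152) (nat_lit 97349552809) (nat_lit 0) (nat_lit 122846901725) (nat_lit 22) (nat_lit 5) (nat_lit 24) (nat_lit 4) (nat_lit 22) (nat_lit 4) (nat_lit 482) (nat_lit 430) (nat_lit 288)) (XT.lf (nat_lit 0) (nat_lit 277247237824) (nat_lit 76) (nat_lit 247671945837) (nat_lit 76) (nat_lit 49679042789) (nat_lit 21) (nat_lit 4) (nat_lit 22) (nat_lit 5) (nat_lit 22) (nat_lit 4) (nat_lit 483) (nat_lit 430) (nat_lit 287)))))) (XT.nd (nat_lit 546) (nat_lit 304) (nat_lit 0) (XT.nd (nat_lit 234) (nat_lit 228) (nat_lit 0) (XT.nd (nat_lit 78) (nat_lit 76) (nat_lit 0) (XT.lf (nat_lit 0) (nat_lit 74792875313) (nat_lit 76) (nat_lit 58273476876) (nat_lit 152) (nat_lit 477529563539) (nat_lit 19) (nat_lit 5) (nat_lit 20) (nat_lit 5) (nat_lit 21) (nat_lit 4) (nat_lit 484) (nat_lit 430) (nat_lit 286)) (XT.nd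 (nat_lit 78) (nat_lit 76) (nat_lit 0) (XT.lf (nat_lit 0) (nat_lit 336262008365) (nat_lit 152) (nat_lit 165095242279) (nat_lit 0) (nat_lit 147696891931) (nat_lit 19) (nat_lit 5) (nat_lit 21) (nat_lit 4) (nat_lit 19) (nat_lit 4) (nat_lit 485) (nat_lit 430) (nat_lit 285)) (XT.lf (nat_lit 0) (nat_lit 242032219695) (nat_lit 76) (nat_lit 318442038107) (nat_lit 76) (nat_lit 129876722748) (nat_lit 18) (nat_lit 4) (nat_lit 19) (nat_lit 5) (nat_lit 19) (nat_lit 4) (nat_lit 486) (nat_lit 430) (nat_lit 284)))) (XT.nd (nat_lit 156) (nat_lit 76) (nat_lit 0) (XT.nd (nat_lit 78) (nat_lit 76) (nat_lit 0) (XT.lf (nat_lit 0) (nat_lit 68428550707) (nat_lit 152) (nat_lit 48286970598) (nat_lit 76) (nat_lit 618037089196) (nat_lit 17) (nat_lit 5) (nat_lit 19) (nat_lit 5) (nat_lit 18) (nat_lit 4) (nat_lit 487) (nat_lit 430) (nat_lit 283)) (XT.lf (nat_lit 0) (nat_lit 285978560790) (nat_lit 152) (nat_lit 389832617298)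 (nat_lit 0) (nat_lit 106392208319) (nat_lit 16) (nat_lit 5) (nat_lit 18) (nat_lit 4) (nat_lit 16) (nat_lit 4) (nat_lit 488) (nat_lit 430) (nat_lit 282))) (XT.nd (nat_lit 78) (nat_lit 0) (nat_lit 0) (XT.lf (nat_lit 0) (nat_lit 35759169376) (nat_lit 76) (nat_lit 488554257563) (nat_lit 76) (nat_lit 308967754698) (nat_lit 15) (nat_lit 4) (nat_lit 16) (nat_lit 5) (nat_lit 16) (nat_lit 4) (nat_lit 489) (nat_lit 430) (nat_lit 281)) (XT.lf (nat_lit 0) (nat_lit 509318336852) (nat_lit 76) (nat_lit 279186996604) (nat_lit 76) (nat_lit 99600354486) (nat_lit 15) (nat_lit 4) (nat_lit 16) (nat_lit 5) (nat_lit 16) (nat_lit 4) (nat_lit 490) (nat_lit 430) (nat_lit 280))))) (XT.nd (nat_lit 234) (nat_lit 76) (nat_lit 0) (XT.nd (nat_lit 78) (nat_lit 76) (nat_lit 0) (XT.lf (nat_lit 0) (nat_lit 73833216031) (nat_lit 76) (nat_lit 49786289864) (nat_lit 152) (nat_lit 823540265846) (nat_lit 13) (nat_lit 5) (nat_lit 14)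 (nat_lit 5) (nat_lit 15) (nat_lit 4) (nat_lit 491) (nat_lit 430) (nat_lit 279)) (XT.nd (nat_lit 78) (nat_lit 76) (nat_lit 0) (XT.lf (nat_lit 0) (nat_lit 371050957000) (nat_lit 152) (nat_lit 439297586718) (nat_lit 0) (nat_lit 200015823245) (nat_lit 13) (nat_lit 5) (nat_lit 15) (nat_lit 4) (nat_lit 13) (nat_lit 4) (nat_lit 492) (nat_lit 430) (nat_lit 278)) (XT.lf (nat_lit 0) (nat_lit 29559661720) (nat_lit 76) (nat_lit 610017936706) (nat_lit 76) (nat_lit 438982697672) (nat_lit 12) (nat_lit 4) (nat_lit 13) (nat_lit 5) (nat_lit 13) (nat_lit 4) (nat_lit 493) (nat_lit 430) (nat_lit 277)))) (XT.nd (nat_lit 57564) (nat_lit 0) (nat_lit 8664) (XT.nd (nat_lit 78) (nat_lit 76) (nat_lit 0) (XT.lf (nat_lit 0) (nat_lit 551612049075) (nat_lit 76) (nat_lit 385626294204) (nat_lit 76) (nat_lit 214590957688) (nat_lit 12) (nat_lit 4) (nat_lit 13) (nat_lit 5) (nat_lit 13) (nat_lit 4) (nat_lit 494) (nat_lit 430)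 (nat_lit 276)) (XT.lf (nat_lit 0) (nat_lit 26863590016) (nat_lit 152) (nat_lit 115965067241) (nat_lit 76) (nat_lit 1088109519069) (nat_lit 11) (nat_lit 5) (nat_lit 13) (nat_lit 5) (nat_lit 12) (nat_lit 4) (nat_lit 495) (nat_lit 430) (nat_lit 275))) (XT.nd (nat_lit 78) (nat_lit 0) (nat_lit 76) (XT.lf (nat_lit 0) (nat_lit 7160717654) (nat_lit 836) (nat_lit 7467233295) (nat_lit 836) (nat_lit 7467233295) (nat_lit 125) (nat_lit 3) (nat_lit 136) (nat_lit 3) (nat_lit 136) (nat_lit 5) (nat_lit 431) (nat_lit 431) (nat_lit 338)) (XT.lf (nat_lit 0) (nat_lit 15343090323) (nat_lit 760) (nat_lit 25665193561) (nat_lit 836) (nat_lit 4927239408) (nat_lit 126) (nat_lit 5) (nat_lit 136) (nat_lit 5) (nat_lit 137) (nat_lit 5) (nat_lit 432) (nat_lit 431) (nat_lit 337))))))))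
noncomputable def xc94 : XT := (XT.nd (nat_lit 2028) (nat_lit 2888) (nat_lit 0) (XT.nd (nat_lit 1014) (nat_lit 2660) (nat_lit 0) (XT.nd (nat_lit 468) (nat_lit 2128) (nat_lit 0) (XT.nd (nat_lit 234) (nat_lit 456) (nat_lit 0) (XT.nd (nat_lit 78) (nat_lit 0) (nat_lit 76) (XT.lf (nat_lit 76) (nat_lit 10864596339) (nat_lit 0) (nat_lit 6504066347) (nat_lit 836) (nat_lit 30405520554) (nat_lit 127) (nat_lit 5) (nat_lit 126) (nat_lit 5) (nat_lit 137) (nat_lit 5) (nat_lit 433) (nat_lit 431) (nat_lit 336)) (XT.nd (nat_lit 78) (nat_lit 0) (nat_lit 76) (XT.lf (nat_lit 76) (nat_lit 1038086249) (nat_lit 0) (nat_lit 19464261613) (nat_lit 836) (nat_lit 29210286628) (nat_lit 128) (nat_lit 5) (nat_lit 127) (nat_lit 5) (nat_lit 138) (nat_lit 5) (nat_lit 434) (nat_lit 431) (nat_lit 335)) (XT.lf (nat_lit 0) (nat_lit 24923323755) (nat_lit 760) (nat_lit 8835878676) (nat_lit 836) (nat_lit 17995131334) (nat_lit 128)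 (nat_lit 5) (nat_lit 138) (nat_lit 5) (nat_lit 139) (nat_lit 5) (nat_lit 435) (nat_lit 431) (nat_lit 334)))) (XT.nd (nat_lit 78) (nat_lit 684) (nat_lit 0) (XT.lf (nat_lit 0) (nat_lit 30637000654) (nat_lit 760) (nat_lit 19006609718) (nat_lit 836) (nat_lit 4268809057) (nat_lit 129) (nat_lit 5) (nat_lit 139) (nat_lit 5) (nat_lit 140) (nat_lit 5) (nat_lit 436) (nat_lit 431) (nat_lit 333)) (XT.nd (nat_lit 78) (nat_lit 684) (nat_lit 0) (XT.lf (nat_lit 76) (nat_lit 26500137924) (nat_lit 0) (nat_lit 11443192085) (nat_lit 836) (nat_lit 18243045495) (nat_lit 130) (nat_lit 5) (nat_lit 129) (nat_lit 5) (nat_lit 140) (nat_lit 5) (nat_lit 437) (nat_lit 431) (nat_lit 332)) (XT.lf (nat_lit 0) (nat_lit 17795911136) (nat_lit 760) (nat_lit 29114462260) (nat_lit 836) (nat_lit 11678065652) (nat_lit 120) (nat_lit 5) (nat_lit 130) (nat_lit 5) (nat_lit 131) (nat_lit 5) (nat_lit 438) (nat_lit 431) (nat_lit 331)))))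 (XT.nd (nat_lit 234) (nat_lit 1292) (nat_lit 0) (XT.nd (nat_lit 78) (nat_lit 456) (nat_lit 0) (XT.lf (nat_lit 0) (nat_lit 8873535311) (nat_lit 380) (nat_lit 48760628809) (nat_lit 456) (nat_lit 3496535626) (nat_lit 115) (nat_lit 5) (nat_lit 120) (nat_lit 5) (nat_lit 121) (nat_lit 5) (nat_lit 439) (nat_lit 431) (nat_lit 330)) (XT.nd (nat_lit 78) (nat_lit 380) (nat_lit 0) (XT.lf (nat_lit 0) (nat_lit 6378528530) (nat_lit 456) (nat_lit 460404196) (nat_lit 76) (nat_lit 56972745966) (nat_lit 114) (nat_lit 5) (nat_lit 120) (nat_lit 5) (nat_lit 115) (nat_lit 5) (nat_lit 440) (nat_lit 431) (nat_lit 329)) (XT.lf (nat_lit 0) (nat_lit 18429294818) (nat_lit 456) (nat_lit 10024842996) (nat_lit 76) (nat_lit 38174723232) (nat_lit 109) (nat_lit 5) (nat_lit 115) (nat_lit 5) (nat_lit 110) (nat_lit 5) (nat_lit 441) (nat_lit 431) (nat_lit 328)))) (XT.nd (nat_lit 156) (nat_lit 608) (nat_lit 0) (XT.nd (nat_lit 78)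 (nat_lit 304) (nat_lit 0) (XT.lf (nat_lit 0) (nat_lit 32622992704) (nat_lit 456) (nat_lit 19840014622) (nat_lit 76) (nat_lit 17149468104) (nat_lit 104) (nat_lit 5) (nat_lit 110) (nat_lit 5) (nat_lit 105) (nat_lit 5) (nat_lit 442) (nat_lit 431) (nat_lit 327)) (XT.lf (nat_lit 0) (nat_lit 42768699374) (nat_lit 304) (nat_lit 6505840778) (nat_lit 380) (nat_lit 23494122010) (nat_lit 100) (nat_lit 5) (nat_lit 104) (nat_lit 5) (nat_lit 105) (nat_lit 5) (nat_lit 443) (nat_lit 431) (nat_lit 326))) (XT.nd (nat_lit 78) (nat_lit 304) (nat_lit 0) (XT.lf (nat_lit 0) (nat_lit 35385067170) (nat_lit 304) (nat_lit 33447701089) (nat_lit 380) (nat_lit 7265848551) (nat_lit 96) (nat_lit 5) (nat_lit 100) (nat_lit 5) (nat_lit 101) (nat_lit 5) (nat_lit 444) (nat_lit 431) (nat_lit 325)) (XT.lf (nat_lit 0) (nat_lit 11273746752) (nat_lit 304) (nat_lit 51880029373) (nat_lit 76) (nat_lit 16466109223) (nat_lit 92) (nat_lit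 5) (nat_lit 96) (nat_lit 5) (nat_lit 93) (nat_lit 5) (nat_lit 445) (nat_lit 431) (nat_lit 324)))))) (XT.nd (nat_lit 468) (nat_lit 1368) (nat_lit 0) (XT.nd (nat_lit 234) (nat_lit 532) (nat_lit 0) (XT.nd (nat_lit 78) (nat_lit 456) (nat_lit 0) (XT.lf (nat_lit 0) (nat_lit 19664337780) (nat_lit 304) (nat_lit 12970562250) (nat_lit 380) (nat_lit 50702352878) (nat_lit 88) (nat_lit 5) (nat_lit 92) (nat_lit 5) (nat_lit 93) (nat_lit 5) (nat_lit 446) (nat_lit 431) (nat_lit 323)) (XT.nd (nat_lit 78) (nat_lit 228) (nat_lit 0) (XT.lf (nat_lit 0) (nat_lit 11174317144) (nat_lit 228) (nat_lit 46265124613) (nat_lit 304) (nat_lit 29825843928) (nat_lit 85) (nat_lit 5) (nat_lit 88) (nat_lit 5) (nat_lit 89) (nat_lit 5) (nat_lit 447) (nat_lit 431) (nat_lit 322)) (XT.lf (nat_lit 0) (nat_lit 2562151973) (nat_lit 228) (nat_lit 83161231484) (nat_lit 304) (nat_lit 5709426370) (nat_lit 82) (nat_lit 5) (nat_lit 85) (nat_lit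 5) (nat_lit 86) (nat_lit 5) (nat_lit 448) (nat_lit 431) (nat_lit 321)))) (XT.nd (nat_lit 78) (nat_lit 456) (nat_lit 0) (XT.lf (nat_lit 0) (nat_lit 21810727310) (nat_lit 304) (nat_lit 6764906892) (nat_lit 76) (nat_lit 67235961293) (nat_lit 81) (nat_lit 5) (nat_lit 85) (nat_lit 5) (nat_lit 82) (nat_lit 5) (nat_lit 449) (nat_lit 431) (nat_lit 320)) (XT.nd (nat_lit 78) (nat_lit 228) (nat_lit 0) (XT.lf (nat_lit 0) (nat_lit 53150285192) (nat_lit 304) (nat_lit 16451988952) (nat_lit 76) (nat_lit 30842839365) (nat_lit 78) (nat_lit 5) (nat_lit 82) (nat_lit 5) (nat_lit 79) (nat_lit 5) (nat_lit 450) (nat_lit 431) (nat_lit 319)) (XT.lf (nat_lit 0) (nat_lit 78847228917) (nat_lit 228) (nat_lit 9980660406) (nat_lit 304) (nat_lit 16529879994) (nat_lit 75) (nat_lit 5) (nat_lit 78) (nat_lit 5) (nat_lit 79) (nat_lit 5) (nat_lit 451) (nat_lit 431) (nat_lit 318))))) (XT.nd (nat_lit 234) (nat_lit 760) (nat_lit 0)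 (XT.nd (nat_lit 78) (nat_lit 380) (nat_lit 0) (XT.lf (nat_lit 0) (nat_lit 18481171884) (nat_lit 228) (nat_lit 37652684687) (nat_lit 76) (nat_lit 54400583005) (nat_lit 72) (nat_lit 5) (nat_lit 75) (nat_lit 5) (nat_lit 73) (nat_lit 5) (nat_lit 452) (nat_lit 431) (nat_lit 317)) (XT.nd (nat_lit 78) (nat_lit 152) (nat_lit 0) (XT.lf (nat_lit 0) (nat_lit 57545882515) (nat_lit 304) (nat_lit 49424057716) (nat_lit 76) (nat_lit 9050159445) (nat_lit 69) (nat_lit 5) (nat_lit 73) (nat_lit 5) (nat_lit 70) (nat_lit 5) (nat_lit 453) (nat_lit 431) (nat_lit 316)) (XT.lf (nat_lit 0) (nat_lit 59564149226) (nat_lit 152) (nat_lit 42713196652) (nat_lit 228) (nat_lit 19540188239) (nat_lit 67) (nat_lit 5) (nat_lit 69) (nat_lit 5) (nat_lit 70) (nat_lit 5) (nat_lit 454) (nat_lit 431) (nat_lit 315)))) (XT.nd (nat_lit 156) (nat_lit 380) (nat_lit 0) (XT.nd (nat_lit 78) (nat_lit 152) (nat_lit 0) (XT.lf (nat_lit 0) (nat_lit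 23928457159) (nat_lit 228) (nat_lit 76119913394) (nat_lit 76) (nat_lit 27905806525) (nat_lit 64) (nat_lit 5) (nat_lit 67) (nat_lit 5) (nat_lit 65) (nat_lit 5) (nat_lit 455) (nat_lit 431) (nat_lit 314)) (XT.lf (nat_lit 0) (nat_lit 43052593125) (nat_lit 152) (nat_lit 29639717047) (nat_lit 228) (nat_lit 61748309574) (nat_lit 62) (nat_lit 5) (nat_lit 64) (nat_lit 5) (nat_lit 65) (nat_lit 5) (nat_lit 456) (nat_lit 431) (nat_lit 313))) (XT.nd (nat_lit 78) (nat_lit 228) (nat_lit 0) (XT.lf (nat_lit 0) (nat_lit 33418573104) (nat_lit 152) (nat_lit 94531241443) (nat_lit 228) (nat_lit 13366536373) (nat_lit 60) (nat_lit 5) (nat_lit 62) (nat_lit 5) (nat_lit 63) (nat_lit 5) (nat_lit 457) (nat_lit 431) (nat_lit 312)) (XT.lf (nat_lit 0) (nat_lit 22392069839) (nat_lit 152) (nat_lit 17715196613) (nat_lit 228) (nat_lit 108481214778) (nat_lit 57) (nat_lit 5) (nat_lit 59) (nat_lit 5) (nat_lit 60) (nat_lit 5) (nat_lit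 458) (nat_lit 431) (nat_lit 311))))))) (XT.nd (nat_lit 1014) (nat_lit 1216) (nat_lit 0) (XT.nd (nat_lit 468) (nat_lit 836) (nat_lit 0) (XT.nd (nat_lit 234) (nat_lit 456) (nat_lit 0) (XT.nd (nat_lit 78) (nat_lit 228) (nat_lit 0) (XT.lf (nat_lit 0) (nat_lit 9641232453) (nat_lit 152) (nat_lit 90833953207) (nat_lit 228) (nat_lit 55802014806) (nat_lit 55) (nat_lit 5) (nat_lit 57) (nat_lit 5) (nat_lit 58) (nat_lit 5) (nat_lit 459) (nat_lit 431) (nat_lit 310)) (XT.nd (nat_lit 78) (nat_lit 152) (nat_lit 0) (XT.lf (nat_lit 0) (nat_lit 3588362089) (nat_lit 228) (nat_lit 3972689240) (nat_lit 76) (nat_lit 156892525184) (nat_lit 54) (nat_lit 5) (nat_lit 57) (nat_lit 5) (nat_lit 55) (nat_lit 5) (nat_lit 460) (nat_lit 431) (nat_lit 309)) (XT.lf (nat_lit 0) (nat_lit 69546689783) (nat_lit 228) (nat_lit 20365021833) (nat_lit 76) (nat_lit 83138024267) (nat_lit 52) (nat_lit 5) (nat_lit 55) (nat_lit 5) (nat_lit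 53) (nat_lit 5) (nat_lit 461) (nat_lit 431) (nat_lit 308)))) (XT.nd (nat_lit 78) (nat_lit 304) (nat_lit 0) (XT.lf (nat_lit 0) (nat_lit 143244007957) (nat_lit 228) (nat_lit 38055647901) (nat_lit 76) (nat_lit 910816083) (nat_lit 50) (nat_lit 5) (nat_lit 53) (nat_lit 5) (nat_lit 51) (nat_lit 4) (nat_lit 462) (nat_lit 431) (nat_lit 307)) (XT.nd (nat_lit 78) (nat_lit 152) (nat_lit 0) (XT.lf (nat_lit 0) (nat_lit 33769712296) (nat_lit 152) (nat_lit 59233792990) (nat_lit 76) (nat_lit 98875554437) (nat_lit 48) (nat_lit 5) (nat_lit 50) (nat_lit 5) (nat_lit 49) (nat_lit 5) (nat_lit 463) (nat_lit 431) (nat_lit 306)) (XT.lf (nat_lit 0) (nat_lit 113601041316) (nat_lit 228) (nat_lit 83031443307) (nat_lit 76) (nat_lit 5524637619) (nat_lit 46) (nat_lit 5) (nat_lit 49) (nat_lit 5) (nat_lit 47) (nat_lit 4) (nat_lit 464) (nat_lit 431) (nat_lit 305))))) (XT.nd (nat_lit 234) (nat_lit 456) (nat_lit 0) (XT.nd (nat_lit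 78) (nat_lit 304) (nat_lit 0) (XT.lf (nat_lit 0) (nat_lit 102352294398) (nat_lit 76) (nat_lit 101680540121) (nat_lit 152) (nat_lit 9013897466) (nat_lit 45) (nat_lit 5) (nat_lit 46) (nat_lit 5) (nat_lit 47) (nat_lit 4) (nat_lit 465) (nat_lit 431) (nat_lit 304)) (XT.nd (nat_lit 78) (nat_lit 76) (nat_lit 0) (XT.lf (nat_lit 0) (nat_lit 77261505348) (nat_lit 228) (nat_lit 142486626590) (nat_lit 76) (nat_lit 4857811054) (nat_lit 42) (nat_lit 5) (nat_lit 45) (nat_lit 5) (nat_lit 43) (nat_lit 4) (nat_lit 466) (nat_lit 431) (nat_lit 303)) (XT.lf (nat_lit 0) (nat_lit 57250097697) (nat_lit 76) (nat_lit 117444528982) (nat_lit 152) (nat_lit 62159301389) (nat_lit 41) (nat_lit 5) (nat_lit 42) (nat_lit 5) (nat_lit 43) (nat_lit 4) (nat_lit 467) (nat_lit 431) (nat_lit 302)))) (XT.nd (nat_lit 156) (nat_lit 228) (nat_lit 0) (XT.nd (nat_lit 78) (nat_lit 0) (nat_lit 0) (XT.lf (nat_lit 0) (nat_lit 28500208317) (nat_lit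 152) (nat_lit 3352138431) (nat_lit 228) (nat_lit 218057771079) (nat_lit 38) (nat_lit 5) (nat_lit 40) (nat_lit 5) (nat_lit 41) (nat_lit 5) (nat_lit 468) (nat_lit 431) (nat_lit 301)) (XT.lf (nat_lit 0) (nat_lit 136286759010) (nat_lit 228) (nat_lit 7160697680) (nat_lit 76) (nat_lit 120258416336) (nat_lit 38) (nat_lit 5) (nat_lit 41) (nat_lit 5) (nat_lit 39) (nat_lit 4) (nat_lit 469) (nat_lit 431) (nat_lit 300))) (XT.nd (nat_lit 78) (nat_lit 152) (nat_lit 0) (XT.lf (nat_lit 0) (nat_lit 231582522731) (nat_lit 76) (nat_lit 21164776926) (nat_lit 152) (nat_lit 25674420287) (nat_lit 37) (nat_lit 5) (nat_lit 38) (nat_lit 5) (nat_lit 39) (nat_lit 4) (nat_lit 470) (nat_lit 431) (nat_lit 299)) (XT.lf (nat_lit 0) (nat_lit 86576914922) (nat_lit 152) (nat_lit 95422337464) (nat_lit 76) (nat_lit 111996729350) (nat_lit 35) (nat_lit 5) (nat_lit 37) (nat_lit 5) (nat_lit 36) (nat_lit 4) (nat_lit 471) (nat_lit 431)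 (nat_lit 298)))))) (XT.nd (nat_lit 546) (nat_lit 608) (nat_lit 0) (XT.nd (nat_lit 234) (nat_lit 304) (nat_lit 0) (XT.nd (nat_lit 78) (nat_lit 228) (nat_lit 0) (XT.lf (nat_lit 0) (nat_lit 158794567752) (nat_lit 76) (nat_lit 51790947272) (nat_lit 152) (nat_lit 100025791667) (nat_lit 34) (nat_lit 5) (nat_lit 35) (nat_lit 5) (nat_lit 36) (nat_lit 4) (nat_lit 472) (nat_lit 431) (nat_lit 297)) (XT.nd (nat_lit 78) (nat_lit 76) (nat_lit 0) (XT.lf (nat_lit 0) (nat_lit 20326181873) (nat_lit 152) (nat_lit 218242193195) (nat_lit 76) (nat_lit 89731123315) (nat_lit 32) (nat_lit 5) (nat_lit 34) (nat_lit 5) (nat_lit 33) (nat_lit 4) (nat_lit 473) (nat_lit 431) (nat_lit 296)) (XT.lf (nat_lit 0) (nat_lit 50028707595) (nat_lit 76) (nat_lit 101161617086) (nat_lit 152) (nat_lit 195911011031) (nat_lit 31) (nat_lit 5) (nat_lit 32) (nat_lit 5) (nat_lit 33) (nat_lit 4) (nat_lit 474) (nat_lit 431) (nat_lit 295)))) (XT.nd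 (nat_lit 156) (nat_lit 152) (nat_lit 0) (XT.nd (nat_lit 78) (nat_lit 152) (nat_lit 0) (XT.lf (nat_lit 0) (nat_lit 297124390282) (nat_lit 152) (nat_lit 20463743862) (nat_lit 0) (nat_lit 49589146359) (nat_lit 31) (nat_lit 5) (nat_lit 33) (nat_lit 4) (nat_lit 31) (nat_lit 4) (nat_lit 475) (nat_lit 431) (nat_lit 294)) (XT.lf (nat_lit 0) (nat_lit 70032479602) (nat_lit 152) (nat_lit 103969144087) (nat_lit 76) (nat_lit 214492904687) (nat_lit 29) (nat_lit 5) (nat_lit 31) (nat_lit 5) (nat_lit 30) (nat_lit 4) (nat_lit 476) (nat_lit 431) (nat_lit 293))) (XT.nd (nat_lit 78) (nat_lit 76) (nat_lit 0) (XT.lf (nat_lit 0) (nat_lit 208634424191) (nat_lit 76) (nat_lit 13887819227) (nat_lit 152) (nat_lit 188754898473) (nat_lit 28) (nat_lit 5) (nat_lit 29) (nat_lit 5) (nat_lit 30) (nat_lit 4) (nat_lit 477) (nat_lit 431) (nat_lit 292)) (XT.lf (nat_lit 0) (nat_lit 115345112595) (nat_lit 76) (nat_lit 277990091851)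 (nat_lit 76) (nat_lit 42240959270) (nat_lit 27) (nat_lit 4) (nat_lit 28) (nat_lit 5) (nat_lit 28) (nat_lit 4) (nat_lit 478) (nat_lit 431) (nat_lit 291))))) (XT.nd (nat_lit 234) (nat_lit 380) (nat_lit 0) (XT.nd (nat_lit 78) (nat_lit 76) (nat_lit 0) (XT.lf (nat_lit 0) (nat_lit 2336285875) (nat_lit 76) (nat_lit 113803120896) (nat_lit 152) (nat_lit 345396258542) (nat_lit 25) (nat_lit 5) (nat_lit 26) (nat_lit 5) (nat_lit 27) (nat_lit 4) (nat_lit 479) (nat_lit 431) (nat_lit 290)) (XT.nd (nat_lit 78) (nat_lit 76) (nat_lit 0) (XT.lf (nat_lit 0) (nat_lit 292390883005) (nat_lit 152) (nat_lit 128945161081) (nat_lit 0) (nat_lit 67867229325) (nat_lit 25) (nat_lit 5) (nat_lit 27) (nat_lit 4) (nat_lit 25) (nat_lit 4) (nat_lit 480) (nat_lit 431) (nat_lit 289)) (XT.lf (nat_lit 0) (nat_lit 233275737620) (nat_lit 76) (nat_lit 255027239807) (nat_lit 76) (nat_lit 30503287751) (nat_lit 24) (nat_lit 4) (nat_lit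 25) (nat_lit 5) (nat_lit 25) (nat_lit 4) (nat_lit 481) (nat_lit 431) (nat_lit 288)))) (XT.nd (nat_lit 156) (nat_lit 228) (nat_lit 0) (XT.nd (nat_lit 78) (nat_lit 0) (nat_lit 0) (XT.lf (nat_lit 0) (nat_lit 78562357939) (nat_lit 76) (nat_lit 69284757313) (nat_lit 152) (nat_lit 402638527346) (nat_lit 22) (nat_lit 5) (nat_lit 23) (nat_lit 5) (nat_lit 24) (nat_lit 4) (nat_lit 482) (nat_lit 431) (nat_lit 287)) (XT.lf (nat_lit 0) (nat_lit 346516187973) (nat_lit 152) (nat_lit 105118867423) (nat_lit 0) (nat_lit 132683345937) (nat_lit 22) (nat_lit 5) (nat_lit 24) (nat_lit 4) (nat_lit 22) (nat_lit 4) (nat_lit 483) (nat_lit 431) (nat_lit 286))) (XT.nd (nat_lit 78) (nat_lit 152) (nat_lit 0) (XT.lf (nat_lit 0) (nat_lit 299444855971) (nat_lit 76) (nat_lit 267476921444) (nat_lit 76) (nat_lit 53643853826) (nat_lit 21) (nat_lit 4) (nat_lit 22) (nat_lit 5) (nat_lit 22) (nat_lit 4) (nat_lit 484) (nat_lit 431)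 (nat_lit 285)) (XT.lf (nat_lit 0) (nat_lit 80793660755) (nat_lit 76) (nat_lit 62926796436) (nat_lit 152) (nat_lit 515722691626) (nat_lit 19) (nat_lit 5) (nat_lit 20) (nat_lit 5) (nat_lit 21) (nat_lit 4) (nat_lit 485) (nat_lit 431) (nat_lit 284))))))))
noncomputable def xc95 : XT := (XT.nd (nat_lit 59592) (nat_lit 0) (nat_lit 1444) (XT.nd (nat_lit 58500) (nat_lit 0) (nat_lit 5548) (XT.nd (nat_lit 468) (nat_lit 228) (nat_lit 0) (XT.nd (nat_lit 234) (nat_lit 152) (nat_lit 0) (XT.nd (nat_lit 78) (nat_lit 152) (nat_lit 0) (XT.lf (nat_lit 0) (nat_lit 363171237971) (nat_lit 152) (nat_lit 178286507992) (nat_lit 0) (nat_lit 159520314269) (nat_lit 19) (nat_lit 5) (nat_lit 21) (nat_lit 4) (nat_lit 19) (nat_lit 4) (nat_lit 486) (nat_lit 431) (nat_lit 283)) (XT.nd (nat_lit 78) (nat_lit 76) (nat_lit 0) (XT.lf (nat_lit 0) (nat_lit 261410440229) (nat_lit 76) (nat_lit 343909658850) (nat_lit 76) (nat_lit 140258564601)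 (nat_lit 18) (nat_lit 4) (nat_lit 19) (nat_lit 5) (nat_lit 19) (nat_lit 4) (nat_lit 487) (nat_lit 431) (nat_lit 282)) (XT.lf (nat_lit 0) (nat_lit 73910270360) (nat_lit 152) (nat_lit 52135197922) (nat_lit 76) (nat_lit 667486979031) (nat_lit 17) (nat_lit 5) (nat_lit 19) (nat_lit 5) (nat_lit 18) (nat_lit 4) (nat_lit 488) (nat_lit 431) (nat_lit 281)))) (XT.nd (nat_lit 78) (nat_lit 76) (nat_lit 0) (XT.lf (nat_lit 0) (nat_lit 308864059513) (nat_lit 152) (nat_lit 421004890112) (nat_lit 0) (nat_lit 114910346773) (nat_lit 16) (nat_lit 5) (nat_lit 18) (nat_lit 4) (nat_lit 16) (nat_lit 4) (nat_lit 489) (nat_lit 431) (nat_lit 280)) (XT.nd (nat_lit 78) (nat_lit 0) (nat_lit 0) (XT.lf (nat_lit 0) (nat_lit 38633616446) (nat_lit 76) (nat_lit 527631778254) (nat_lit 76) (nat_lit 333677936575) (nat_lit 15) (nat_lit 4) (nat_lit 16) (nat_lit 5) (nat_lit 16) (nat_lit 4) (nat_lit 490) (nat_lit 431) (nat_lit 279))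 (XT.lf (nat_lit 0) (nat_lit 550076501504) (nat_lit 76) (nat_lit 301515641597) (nat_lit 76) (nat_lit 107561680532) (nat_lit 15) (nat_lit 4) (nat_lit 16) (nat_lit 5) (nat_lit 16) (nat_lit 4) (nat_lit 491) (nat_lit 431) (nat_lit 278))))) (XT.nd (nat_lit 234) (nat_lit 0) (nat_lit 0) (XT.nd (nat_lit 78) (nat_lit 76) (nat_lit 0) (XT.lf (nat_lit 0) (nat_lit 79752224563) (nat_lit 76) (nat_lit 53763041861) (nat_lit 152) (nat_lit 889416976880) (nat_lit 13) (nat_lit 5) (nat_lit 14) (nat_lit 5) (nat_lit 15) (nat_lit 4) (nat_lit 492) (nat_lit 431) (nat_lit 277)) (XT.nd (nat_lit 78) (nat_lit 76) (nat_lit 0) (XT.lf (nat_lit 0) (nat_lit 400740863278) (nat_lit 152) (nat_lit 474429759036) (nat_lit 0) (nat_lit 216022602359) (nat_lit 13) (nat_lit 5) (nat_lit 15) (nat_lit 4) (nat_lit 13) (nat_lit 4) (nat_lit 493) (nat_lit 431) (nat_lit 276)) (XT.lf (nat_lit 0) (nat_lit 31935563650) (nat_lit 76) (nat_lit 658813814292)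 (nat_lit 76) (nat_lit 474095463113) (nat_lit 12) (nat_lit 4) (nat_lit 13) (nat_lit 5) (nat_lit 13) (nat_lit 4) (nat_lit 494) (nat_lit 431) (nat_lit 275)))) (XT.nd (nat_lit 57642) (nat_lit 0) (nat_lit 8664) (XT.nd (nat_lit 57564) (nat_lit 0) (nat_lit 8588) (XT.lf (nat_lit 0) (nat_lit 595751317623) (nat_lit 76) (nat_lit 416471252045) (nat_lit 76) (nat_lit 231752817292) (nat_lit 12) (nat_lit 4) (nat_lit 13) (nat_lit 5) (nat_lit 13) (nat_lit 4) (nat_lit 495) (nat_lit 431) (nat_lit 274)) (XT.lf (nat_lit 0) (nat_lit 7783881902) (nat_lit 836) (nat_lit 8038191083) (nat_lit 836) (nat_lit 8038191083) (nat_lit 125) (nat_lit 3) (nat_lit 136) (nat_lit 3) (nat_lit 136) (nat_lit 5) (nat_lit 432) (nat_lit 432) (nat_lit 336))) (XT.nd (nat_lit 78) (nat_lit 0) (nat_lit 0) (XT.lf (nat_lit 0) (nat_lit 16663809843) (nat_lit 760) (nat_lit 27662452320) (nat_lit 836) (nat_lit 5279403132) (nat_lit 126) (nat_lit 5)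 (nat_lit 136) (nat_lit 5) (nat_lit 137) (nat_lit 5) (nat_lit 433) (nat_lit 432) (nat_lit 335)) (XT.lf (nat_lit 76) (nat_lit 11787288961) (nat_lit 0) (nat_lit 7058065649) (nat_lit 836) (nat_lit 32746369782) (nat_lit 127) (nat_lit 5) (nat_lit 126) (nat_lit 5) (nat_lit 137) (nat_lit 5) (nat_lit 434) (nat_lit 432) (nat_lit 334)))))) (XT.nd (nat_lit 546) (nat_lit 2204) (nat_lit 0) (XT.nd (nat_lit 234) (nat_lit 988) (nat_lit 0) (XT.nd (nat_lit 78) (nat_lit 0) (nat_lit 76) (XT.lf (nat_lit 76) (nat_lit 1177037404) (nat_lit 0) (nat_lit 21046624038) (nat_lit 836) (nat_lit 31461896444) (nat_lit 128) (nat_lit 5) (nat_lit 127) (nat_lit 5) (nat_lit 138) (nat_lit 5) (nat_lit 435) (nat_lit 432) (nat_lit 333)) (XT.nd (nat_lit 78) (nat_lit 0) (nat_lit 76) (XT.lf (nat_lit 0) (nat_lit 26991941482) (nat_lit 760) (nat_lit 9486836567) (nat_lit 836) (nat_lit 19412136053) (nat_lit 128) (nat_lit 5) (nat_lit 138) (nat_lit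 5) (nat_lit 139) (nat_lit 5) (nat_lit 436) (nat_lit 432) (nat_lit 332)) (XT.lf (nat_lit 0) (nat_lit 33157751713) (nat_lit 760) (nat_lit 20469868191) (nat_lit 836) (nat_lit 4594276886) (nat_lit 129) (nat_lit 5) (nat_lit 139) (nat_lit 5) (nat_lit 140) (nat_lit 5) (nat_lit 437) (nat_lit 432) (nat_lit 331)))) (XT.nd (nat_lit 156) (nat_lit 456) (nat_lit 0) (XT.nd (nat_lit 78) (nat_lit 684) (nat_lit 0) (XT.lf (nat_lit 76) (nat_lit 28674930364) (nat_lit 0) (nat_lit 12369342639) (nat_lit 836) (nat_lit 19633714043) (nat_lit 130) (nat_lit 5) (nat_lit 129) (nat_lit 5) (nat_lit 140) (nat_lit 5) (nat_lit 438) (nat_lit 432) (nat_lit 330)) (XT.lf (nat_lit 0) (nat_lit 19275299575) (nat_lit 760) (nat_lit 31449245432) (nat_lit 836) (nat_lit 12547879237) (nat_lit 120) (nat_lit 5) (nat_lit 130) (nat_lit 5) (nat_lit 131) (nat_lit 5) (nat_lit 439) (nat_lit 432) (nat_lit 329))) (XT.nd (nat_lit 78) (nat_lit 76) (nat_lit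 0) (XT.lf (nat_lit 0) (nat_lit 9639752021) (nat_lit 380) (nat_lit 52662741331) (nat_lit 456) (nat_lit 3715761419) (nat_lit 115) (nat_lit 5) (nat_lit 120) (nat_lit 5) (nat_lit 121) (nat_lit 5) (nat_lit 440) (nat_lit 432) (nat_lit 328)) (XT.lf (nat_lit 0) (nat_lit 6943033751) (nat_lit 456) (nat_lit 443264022) (nat_lit 76) (nat_lit 61527585418) (nat_lit 114) (nat_lit 5) (nat_lit 120) (nat_lit 5) (nat_lit 115) (nat_lit 5) (nat_lit 441) (nat_lit 432) (nat_lit 327))))) (XT.nd (nat_lit 234) (nat_lit 1140) (nat_lit 0) (XT.nd (nat_lit 78) (nat_lit 684) (nat_lit 0) (XT.lf (nat_lit 0) (nat_lit 19954660463) (nat_lit 456) (nat_lit 10772645207) (nat_lit 76) (nat_lit 41229295889) (nat_lit 109) (nat_lit 5) (nat_lit 115) (nat_lit 5) (nat_lit 110) (nat_lit 5) (nat_lit 442) (nat_lit 432) (nat_lit 326)) (XT.nd (nat_lit 78) (nat_lit 304) (nat_lit 0) (XT.lf (nat_lit 0) (nat_lit 35280942979) (nat_lit 456) (nat_lit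 21373025797) (nat_lit 76) (nat_lit 18525083156) (nat_lit 104) (nat_lit 5) (nat_lit 110) (nat_lit 5) (nat_lit 105) (nat_lit 5) (nat_lit 443) (nat_lit 432) (nat_lit 325)) (XT.lf (nat_lit 0) (nat_lit 46242030288) (nat_lit 304) (nat_lit 7019829458) (nat_lit 380) (nat_lit 25326012766) (nat_lit 100) (nat_lit 5) (nat_lit 104) (nat_lit 5) (nat_lit 105) (nat_lit 5) (nat_lit 444) (nat_lit 432) (nat_lit 324)))) (XT.nd (nat_lit 156) (nat_lit 532) (nat_lit 0) (XT.nd (nat_lit 78) (nat_lit 304) (nat_lit 0) (XT.lf (nat_lit 0) (nat_lit 38267541494) (nat_lit 304) (nat_lit 36114745228) (nat_lit 380) (nat_lit 7802060875) (nat_lit 96) (nat_lit 5) (nat_lit 100) (nat_lit 5) (nat_lit 101) (nat_lit 5) (nat_lit 445) (nat_lit 432) (nat_lit 323)) (XT.lf (nat_lit 0) (nat_lit 12216973227) (nat_lit 304) (nat_lit 55977695957) (nat_lit 76) (nat_lit 17792728566) (nat_lit 92) (nat_lit 5) (nat_lit 96) (nat_lit 5) (nat_lit 93)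 (nat_lit 5) (nat_lit 446) (nat_lit 432) (nat_lit 322))) (XT.nd (nat_lit 78) (nat_lit 228) (nat_lit 0) (XT.lf (nat_lit 0) (nat_lit 21287928736) (nat_lit 304) (nat_lit 13996816364) (nat_lit 380) (nat_lit 54717524195) (nat_lit 88) (nat_lit 5) (nat_lit 92) (nat_lit 5) (nat_lit 93) (nat_lit 5) (nat_lit 447) (nat_lit 432) (nat_lit 321)) (XT.lf (nat_lit 0) (nat_lit 12118222602) (nat_lit 228) (nat_lit 49953479429) (nat_lit 304) (nat_lit 32172940898) (nat_lit 85) (nat_lit 5) (nat_lit 88) (nat_lit 5) (nat_lit 89) (nat_lit 5) (nat_lit 448) (nat_lit 432) (nat_lit 320))))))) (XT.nd (nat_lit 1014) (nat_lit 1748) (nat_lit 0) (XT.nd (nat_lit 468) (nat_lit 1140) (nat_lit 0) (XT.nd (nat_lit 234) (nat_lit 684) (nat_lit 0) (XT.nd (nat_lit 78) (nat_lit 304) (nat_lit 0) (XT.lf (nat_lit 0) (nat_lit 2816505564) (nat_lit 228) (nat_lit 89800061810) (nat_lit 304) (nat_lit 6129091980) (nat_lit 82) (nat_lit 5) (nat_lit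 85) (nat_lit 5) (nat_lit 86) (nat_lit 5) (nat_lit 449) (nat_lit 432) (nat_lit 319)) (XT.nd (nat_lit 78) (nat_lit 228) (nat_lit 0) (XT.lf (nat_lit 0) (nat_lit 23588827565) (nat_lit 304) (nat_lit 7259268298) (nat_lit 76) (nat_lit 72626756706) (nat_lit 81) (nat_lit 5) (nat_lit 85) (nat_lit 5) (nat_lit 82) (nat_lit 5) (nat_lit 450) (nat_lit 432) (nat_lit 318)) (XT.lf (nat_lit 0) (nat_lit 57433995004) (nat_lit 304) (nat_lit 17721978271) (nat_lit 76) (nat_lit 33323157129) (nat_lit 78) (nat_lit 5) (nat_lit 82) (nat_lit 5) (nat_lit 79) (nat_lit 5) (nat_lit 451) (nat_lit 432) (nat_lit 317)))) (XT.nd (nat_lit 78) (nat_lit 456) (nat_lit 0) (XT.lf (nat_lit 0) (nat_lit 85199170544) (nat_lit 228) (nat_lit 10764979250) (nat_lit 304) (nat_lit 17820732346) (nat_lit 75) (nat_lit 5) (nat_lit 78) (nat_lit 5) (nat_lit 79) (nat_lit 5) (nat_lit 452) (nat_lit 432) (nat_lit 316)) (XT.nd (nat_lit 78) (nat_lit 228)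 (nat_lit 0) (XT.lf (nat_lit 0) (nat_lit 19988830473) (nat_lit 228) (nat_lit 40620452640) (nat_lit 76) (nat_lit 58766446990) (nat_lit 72) (nat_lit 5) (nat_lit 75) (nat_lit 5) (nat_lit 73) (nat_lit 5) (nat_lit 453) (nat_lit 432) (nat_lit 315)) (XT.lf (nat_lit 0) (nat_lit 62177453180) (nat_lit 304) (nat_lit 53334309582) (nat_lit 76) (nat_lit 9788543961) (nat_lit 69) (nat_lit 5) (nat_lit 73) (nat_lit 5) (nat_lit 70) (nat_lit 5) (nat_lit 454) (nat_lit 432) (nat_lit 314))))) (XT.nd (nat_lit 234) (nat_lit 608) (nat_lit 0) (XT.nd (nat_lit 78) (nat_lit 380) (nat_lit 0) (XT.lf (nat_lit 0) (nat_lit 64371055951) (nat_lit 152) (nat_lit 46114963211) (nat_lit 228) (nat_lit 21075587918) (nat_lit 67) (nat_lit 5) (nat_lit 69) (nat_lit 5) (nat_lit 70) (nat_lit 5) (nat_lit 455) (nat_lit 432) (nat_lit 313)) (XT.nd (nat_lit 78) (nat_lit 152) (nat_lit 0) (XT.lf (nat_lit 0) (nat_lit 25868539707) (nat_lit 228) (nat_lit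 82167645417) (nat_lit 76) (nat_lit 30153030984) (nat_lit 64) (nat_lit 5) (nat_lit 67) (nat_lit 5) (nat_lit 65) (nat_lit 5) (nat_lit 456) (nat_lit 432) (nat_lit 312)) (XT.lf (nat_lit 0) (nat_lit 46536842393) (nat_lit 152) (nat_lit 31995372179) (nat_lit 228) (nat_lit 66662424296) (nat_lit 62) (nat_lit 5) (nat_lit 64) (nat_lit 5) (nat_lit 65) (nat_lit 5) (nat_lit 457) (nat_lit 432) (nat_lit 311)))) (XT.nd (nat_lit 156) (nat_lit 228) (nat_lit 0) (XT.nd (nat_lit 78) (nat_lit 228) (nat_lit 0) (XT.lf (nat_lit 0) (nat_lit 36131305772) (nat_lit 152) (nat_lit 102078034406) (nat_lit 228) (nat_lit 14411137645) (nat_lit 60) (nat_lit 5) (nat_lit 62) (nat_lit 5) (nat_lit 63) (nat_lit 5) (nat_lit 458) (nat_lit 432) (nat_lit 310)) (XT.lf (nat_lit 0) (nat_lit 24221737265) (nat_lit 152) (nat_lit 19116866272) (nat_lit 228) (nat_lit 117135814746) (nat_lit 57) (nat_lit 5) (nat_lit 59) (nat_lit 5) (nat_lit 60) (nat_lit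 5) (nat_lit 459) (nat_lit 432) (nat_lit 309))) (XT.nd (nat_lit 78) (nat_lit 76) (nat_lit 0) (XT.lf (nat_lit 0) (nat_lit 10450028007) (nat_lit 152) (nat_lit 98085052833) (nat_lit 228) (nat_lit 60243198261) (nat_lit 55) (nat_lit 5) (nat_lit 57) (nat_lit 5) (nat_lit 58) (nat_lit 5) (nat_lit 460) (nat_lit 432) (nat_lit 308)) (XT.lf (nat_lit 0) (nat_lit 3896025778) (nat_lit 228) (nat_lit 4255101034) (nat_lit 76) (nat_lit 169457703101) (nat_lit 54) (nat_lit 5) (nat_lit 57) (nat_lit 5) (nat_lit 55) (nat_lit 5) (nat_lit 461) (nat_lit 432) (nat_lit 307)))))) (XT.nd (nat_lit 546) (nat_lit 760) (nat_lit 0) (XT.nd (nat_lit 234) (nat_lit 532) (nat_lit 0) (XT.nd (nat_lit 78) (nat_lit 304) (nat_lit 0) (XT.lf (nat_lit 0) (nat_lit 75130245621) (nat_lit 228) (nat_lit 21959598905) (nat_lit 76) (nat_lit 89802876429) (nat_lit 52) (nat_lit 5) (nat_lit 55) (nat_lit 5) (nat_lit 53) (nat_lit 5) (nat_lit 462) (nat_lit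 432) (nat_lit 306)) (XT.nd (nat_lit 78) (nat_lit 152) (nat_lit 0) (XT.lf (nat_lit 0) (nat_lit 154722620635) (nat_lit 228) (nat_lit 41066256256) (nat_lit 76) (nat_lit 997475643) (nat_lit 50) (nat_lit 5) (nat_lit 53) (nat_lit 5) (nat_lit 51) (nat_lit 4) (nat_lit 463) (nat_lit 432) (nat_lit 305)) (XT.lf (nat_lit 0) (nat_lit 36489772905) (nat_lit 152) (nat_lit 63939510339) (nat_lit 76) (nat_lit 106799174818) (nat_lit 48) (nat_lit 5) (nat_lit 50) (nat_lit 5) (nat_lit 49) (nat_lit 5) (nat_lit 464) (nat_lit 432) (nat_lit 304)))) (XT.nd (nat_lit 156) (nat_lit 304) (nat_lit 0) (XT.nd (nat_lit 78) (nat_lit 76) (nat_lit 0) (XT.lf (nat_lit 0) (nat_lit 122706949440) (nat_lit 228) (nat_lit 89641741499) (nat_lit 76) (nat_lit 5980107750) (nat_lit 46) (nat_lit 5) (nat_lit 49) (nat_lit 5) (nat_lit 47) (nat_lit 4) (nat_lit 465) (nat_lit 432) (nat_lit 303)) (XT.lf (nat_lit 0) (nat_lit 110571295098) (nat_lit 76)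 (nat_lit 109801151786) (nat_lit 152) (nat_lit 9717172443) (nat_lit 45) (nat_lit 5) (nat_lit 46) (nat_lit 5) (nat_lit 47) (nat_lit 4) (nat_lit 466) (nat_lit 432) (nat_lit 302))) (XT.nd (nat_lit 78) (nat_lit 76) (nat_lit 0) (XT.lf (nat_lit 0) (nat_lit 83459093399) (nat_lit 228) (nat_lit 153854918373) (nat_lit 76) (nat_lit 5259571573) (nat_lit 42) (nat_lit 5) (nat_lit 45) (nat_lit 5) (nat_lit 43) (nat_lit 4) (nat_lit 467) (nat_lit 432) (nat_lit 301)) (XT.lf (nat_lit 0) (nat_lit 61859412352) (nat_lit 76) (nat_lit 126826675007) (nat_lit 152) (nat_lit 67115358846) (nat_lit 41) (nat_lit 5) (nat_lit 42) (nat_lit 5) (nat_lit 43) (nat_lit 4) (nat_lit 468) (nat_lit 432) (nat_lit 300))))) (XT.nd (nat_lit 234) (nat_lit 456) (nat_lit 0) (XT.nd (nat_lit 78) (nat_lit 76) (nat_lit 0) (XT.lf (nat_lit 0) (nat_lit 30808770489) (nat_lit 152) (nat_lit 3607165764) (nat_lit 228) (nat_lit 235486219519) (nat_lit 38)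 (nat_lit 5) (nat_lit 40) (nat_lit 5) (nat_lit 41) (nat_lit 5) (nat_lit 469) (nat_lit 432) (nat_lit 299)) (XT.nd (nat_lit 78) (nat_lit 76) (nat_lit 0) (XT.lf (nat_lit 0) (nat_lit 147204150635) (nat_lit 228) (nat_lit 7706598145) (nat_lit 76) (nat_lit 129890870254) (nat_lit 38) (nat_lit 5) (nat_lit 41) (nat_lit 5) (nat_lit 39) (nat_lit 4) (nat_lit 470) (nat_lit 432) (nat_lit 298)) (XT.lf (nat_lit 0) (nat_lit 250134908453) (nat_lit 76) (nat_lit 22845958202) (nat_lit 152) (nat_lit 27713900538) (nat_lit 37) (nat_lit 5) (nat_lit 38) (nat_lit 5) (nat_lit 39) (nat_lit 4) (nat_lit 471) (nat_lit 432) (nat_lit 297)))) (XT.nd (nat_lit 156) (nat_lit 228) (nat_lit 0) (XT.nd (nat_lit 78) (nat_lit 76) (nat_lit 0) (XT.lf (nat_lit 0) (nat_lit 93516615805) (nat_lit 152) (nat_lit 103030530974) (nat_lit 76) (nat_lit 120967835059) (nat_lit 35) (nat_lit 5) (nat_lit 37) (nat_lit 5) (nat_lit 36) (nat_lit 4) (nat_lit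 472) (nat_lit 432) (nat_lit 296)) (XT.lf (nat_lit 0) (nat_lit 171522614397) (nat_lit 76) (nat_lit 55922668205) (nat_lit 152) (nat_lit 108014281328) (nat_lit 34) (nat_lit 5) (nat_lit 35) (nat_lit 5) (nat_lit 36) (nat_lit 4) (nat_lit 473) (nat_lit 432) (nat_lit 295))) (XT.nd (nat_lit 78) (nat_lit 76) (nat_lit 0) (XT.lf (nat_lit 0) (nat_lit 21964990845) (nat_lit 152) (nat_lit 235677283492) (nat_lit 76) (nat_lit 96920547336) (nat_lit 32) (nat_lit 5) (nat_lit 34) (nat_lit 5) (nat_lit 33) (nat_lit 4) (nat_lit 474) (nat_lit 432) (nat_lit 294)) (XT.lf (nat_lit 0) (nat_lit 54054233957) (nat_lit 76) (nat_lit 109243451993) (nat_lit 152) (nat_lit 211571149058) (nat_lit 31) (nat_lit 5) (nat_lit 32) (nat_lit 5) (nat_lit 33) (nat_lit 4) (nat_lit 475) (nat_lit 432) (nat_lit 293))))))))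
noncomputable def xc96 : XT := (XT.nd (nat_lit 59592) (nat_lit 0) (nat_lit 2736) (XT.nd (nat_lit 1014) (nat_lit 456) (nat_lit 0) (XT.nd (nat_lit 468) (nat_lit 532) (nat_lit 0) (XT.nd (nat_lit 234) (nat_lit 228) (nat_lit 0) (XT.nd (nat_lit 78) (nat_lit 228) (nat_lit 0) (XT.lf (nat_lit 0) (nat_lit 320905738274) (nat_lit 152) (nat_lit 22078932166) (nat_lit 0) (nat_lit 53566221927) (nat_lit 31) (nat_lit 5) (nat_lit 33) (nat_lit 4) (nat_lit 31) (nat_lit 4) (nat_lit 476) (nat_lit 432) (nat_lit 292)) (XT.nd (nat_lit 78) (nat_lit 76) (nat_lit 0) (XT.lf (nat_lit 0) (nat_lit 75646136780) (nat_lit 152) (nat_lit 112265350339) (nat_lit 76) (nat_lit 231662049935) (nat_lit 29) (nat_lit 5) (nat_lit 31) (nat_lit 5) (nat_lit 30) (nat_lit 4) (nat_lit 477) (nat_lit 432) (nat_lit 291)) (XT.lf (nat_lit 0) (nat_lit 225345576630) (nat_lit 76) (nat_lit 14989004378) (nat_lit 152) (nat_lit 203844203726) (nat_lit 28)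 (nat_lit 5) (nat_lit 29) (nat_lit 5) (nat_lit 30) (nat_lit 4) (nat_lit 478) (nat_lit 432) (nat_lit 290)))) (XT.nd (nat_lit 78) (nat_lit 152) (nat_lit 0) (XT.lf (nat_lit 0) (nat_lit 124592592193) (nat_lit 76) (nat_lit 300219657134) (nat_lit 76) (nat_lit 45609495502) (nat_lit 27) (nat_lit 4) (nat_lit 28) (nat_lit 5) (nat_lit 28) (nat_lit 4) (nat_lit 479) (nat_lit 432) (nat_lit 289)) (XT.nd (nat_lit 78) (nat_lit 0) (nat_lit 0) (XT.lf (nat_lit 0) (nat_lit 2542525115) (nat_lit 76) (nat_lit 122897962709) (nat_lit 152) (nat_lit 373017533797) (nat_lit 25) (nat_lit 5) (nat_lit 26) (nat_lit 5) (nat_lit 27) (nat_lit 4) (nat_lit 480) (nat_lit 432) (nat_lit 288)) (XT.lf (nat_lit 0) (nat_lit 315791482715) (nat_lit 152) (nat_lit 139242545815) (nat_lit 0) (nat_lit 73305039846) (nat_lit 25) (nat_lit 5) (nat_lit 27) (nat_lit 4) (nat_lit 25) (nat_lit 4) (nat_lit 481) (nat_lit 432) (nat_lit 287))))) (XT.nd (nat_lit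 234) (nat_lit 304) (nat_lit 0) (XT.nd (nat_lit 78) (nat_lit 152) (nat_lit 0) (XT.lf (nat_lit 0) (nat_lit 251955232609) (nat_lit 76) (nat_lit 275420893263) (nat_lit 76) (nat_lit 32934194585) (nat_lit 24) (nat_lit 4) (nat_lit 25) (nat_lit 5) (nat_lit 25) (nat_lit 4) (nat_lit 482) (nat_lit 432) (nat_lit 286)) (XT.nd (nat_lit 78) (nat_lit 0) (nat_lit 0) (XT.lf (nat_lit 0) (nat_lit 84864311633) (nat_lit 76) (nat_lit 74819223571) (nat_lit 152) (nat_lit 434840525893) (nat_lit 22) (nat_lit 5) (nat_lit 23) (nat_lit 5) (nat_lit 24) (nat_lit 4) (nat_lit 483) (nat_lit 432) (nat_lit 285)) (XT.lf (nat_lit 0) (nat_lit 374245613143) (nat_lit 152) (nat_lit 113512387782) (nat_lit 0) (nat_lit 143305465664) (nat_lit 22) (nat_lit 5) (nat_lit 24) (nat_lit 4) (nat_lit 22) (nat_lit 4) (nat_lit 484) (nat_lit 432) (nat_lit 284)))) (XT.nd (nat_lit 156) (nat_lit 76) (nat_lit 0) (XT.nd (nat_lit 78) (nat_lit 152) (nat_lit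 0) (XT.lf (nat_lit 0) (nat_lit 323415738620) (nat_lit 76) (nat_lit 288867547673) (nat_lit 76) (nat_lit 57927206795) (nat_lit 21) (nat_lit 4) (nat_lit 22) (nat_lit 5) (nat_lit 22) (nat_lit 4) (nat_lit 485) (nat_lit 432) (nat_lit 283)) (XT.lf (nat_lit 0) (nat_lit 87272033089) (nat_lit 76) (nat_lit 67953602540) (nat_lit 152) (nat_lit 556972587720) (nat_lit 19) (nat_lit 5) (nat_lit 20) (nat_lit 5) (nat_lit 21) (nat_lit 4) (nat_lit 486) (nat_lit 432) (nat_lit 282))) (XT.nd (nat_lit 78) (nat_lit 76) (nat_lit 0) (XT.lf (nat_lit 0) (nat_lit 392232026289) (nat_lit 152) (nat_lit 192535407995) (nat_lit 0) (nat_lit 172288516042) (nat_lit 19) (nat_lit 5) (nat_lit 21) (nat_lit 4) (nat_lit 19) (nat_lit 4) (nat_lit 487) (nat_lit 432) (nat_lit 281)) (XT.lf (nat_lit 0) (nat_lit 282336686764) (nat_lit 76) (nat_lit 371415793779) (nat_lit 76) (nat_lit 151472137315) (nat_lit 18) (nat_lit 4) (nat_lit 19) (nat_lit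 5) (nat_lit 19) (nat_lit 4) (nat_lit 488) (nat_lit 432) (nat_lit 280)))))) (XT.nd (nat_lit 468) (nat_lit 76) (nat_lit 0) (XT.nd (nat_lit 234) (nat_lit 152) (nat_lit 0) (XT.nd (nat_lit 78) (nat_lit 152) (nat_lit 0) (XT.lf (nat_lit 0) (nat_lit 79829466814) (nat_lit 152) (nat_lit 56293384877) (nat_lit 76) (nat_lit 720891872453) (nat_lit 17) (nat_lit 5) (nat_lit 19) (nat_lit 5) (nat_lit 18) (nat_lit 4) (nat_lit 489) (nat_lit 432) (nat_lit 279)) (XT.nd (nat_lit 78) (nat_lit 76) (nat_lit 0) (XT.lf (nat_lit 0) (nat_lit 333579368996) (nat_lit 152) (nat_lit 454672990023) (nat_lit 0) (nat_lit 124108971658) (nat_lit 16) (nat_lit 5) (nat_lit 18) (nat_lit 4) (nat_lit 16) (nat_lit 4) (nat_lit 490) (nat_lit 432) (nat_lit 278)) (XT.lf (nat_lit 0) (nat_lit 41736062895) (nat_lit 76) (nat_lit 569836473537) (nat_lit 76) (nat_lit 360365965656) (nat_lit 15) (nat_lit 4) (nat_lit 16) (nat_lit 5) (nat_lit 16) (nat_lit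 4) (nat_lit 491) (nat_lit 432) (nat_lit 277)))) (XT.nd (nat_lit 78) (nat_lit 152) (nat_lit 0) (XT.lf (nat_lit 0) (nat_lit 594093507859) (nat_lit 76) (nat_lit 325631479057) (nat_lit 76) (nat_lit 116160868821) (nat_lit 15) (nat_lit 4) (nat_lit 16) (nat_lit 5) (nat_lit 16) (nat_lit 4) (nat_lit 492) (nat_lit 432) (nat_lit 276)) (XT.nd (nat_lit 78) (nat_lit 0) (nat_lit 0) (XT.lf (nat_lit 0) (nat_lit 86142991734) (nat_lit 76) (nat_lit 58058811555) (nat_lit 152) (nat_lit 960564753553) (nat_lit 13) (nat_lit 5) (nat_lit 14) (nat_lit 5) (nat_lit 15) (nat_lit 4) (nat_lit 493) (nat_lit 432) (nat_lit 275)) (XT.lf (nat_lit 0) (nat_lit 432805130383) (nat_lit 152) (nat_lit 512374164948) (nat_lit 0) (nat_lit 233309137275) (nat_lit 13) (nat_lit 5) (nat_lit 15) (nat_lit 4) (nat_lit 13) (nat_lit 4) (nat_lit 494) (nat_lit 432) (nat_lit 274))))) (XT.nd (nat_lit 57798) (nat_lit 0) (nat_lit 8664) (XT.nd (nat_lit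 57642) (nat_lit 0) (nat_lit 8588) (XT.lf (nat_lit 0) (nat_lit 34499950060) (nat_lit 76) (nat_lit 711514154902) (nat_lit 76) (nat_lit 512018084411) (nat_lit 12) (nat_lit 4) (nat_lit 13) (nat_lit 5) (nat_lit 13) (nat_lit 4) (nat_lit 495) (nat_lit 432) (nat_lit 273)) (XT.nd (nat_lit 78) (nat_lit 0) (nat_lit 76) (XT.lf (nat_lit 0) (nat_lit 8449722458) (nat_lit 836) (nat_lit 8658594727) (nat_lit 836) (nat_lit 8658594727) (nat_lit 125) (nat_lit 3) (nat_lit 136) (nat_lit 3) (nat_lit 136) (nat_lit 5) (nat_lit 433) (nat_lit 433) (nat_lit 334)) (XT.lf (nat_lit 0) (nat_lit 18076880588) (nat_lit 760) (nat_lit 29827474632) (nat_lit 836) (nat_lit 5665733924) (nat_lit 126) (nat_lit 5) (nat_lit 136) (nat_lit 5) (nat_lit 137) (nat_lit 5) (nat_lit 434) (nat_lit 433) (nat_lit 333)))) (XT.nd (nat_lit 156) (nat_lit 0) (nat_lit 152) (XT.nd (nat_lit 78) (nat_lit 0) (nat_lit 76) (XT.lf (nat_lit 76) (nat_lit 12776161065)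 (nat_lit 0) (nat_lit 7651580923) (nat_lit 836) (nat_lit 35287553631) (nat_lit 127) (nat_lit 5) (nat_lit 126) (nat_lit 5) (nat_lit 137) (nat_lit 5) (nat_lit 435) (nat_lit 433) (nat_lit 332)) (XT.lf (nat_lit 76) (nat_lit 1319129285) (nat_lit 0) (nat_lit 22751977329) (nat_lit 836) (nat_lit 33905791648) (nat_lit 128) (nat_lit 5) (nat_lit 127) (nat_lit 5) (nat_lit 138) (nat_lit 5) (nat_lit 436) (nat_lit 433) (nat_lit 331))) (XT.nd (nat_lit 78) (nat_lit 0) (nat_lit 76) (XT.lf (nat_lit 0) (nat_lit 29215384444) (nat_lit 760) (nat_lit 10197847618) (nat_lit 836) (nat_lit 20945726117) (nat_lit 128) (nat_lit 5) (nat_lit 138) (nat_lit 5) (nat_lit 139) (nat_lit 5) (nat_lit 437) (nat_lit 433) (nat_lit 330)) (XT.lf (nat_lit 0) (nat_lit 35870206389) (nat_lit 760) (nat_lit 22058357591) (nat_lit 836) (nat_lit 4948069984) (nat_lit 129) (nat_lit 5) (nat_lit 139) (nat_lit 5) (nat_lit 140) (nat_lit 5) (nat_lit 438)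 (nat_lit 433) (nat_lit 329))))))) (XT.nd (nat_lit 1014) (nat_lit 2508) (nat_lit 0) (XT.nd (nat_lit 468) (nat_lit 1748) (nat_lit 0) (XT.nd (nat_lit 234) (nat_lit 836) (nat_lit 0) (XT.nd (nat_lit 78) (nat_lit 1064) (nat_lit 0) (XT.lf (nat_lit 76) (nat_lit 31015891020) (nat_lit 0) (nat_lit 13368059450) (nat_lit 836) (nat_lit 21145447609) (nat_lit 130) (nat_lit 5) (nat_lit 129) (nat_lit 5) (nat_lit 140) (nat_lit 5) (nat_lit 439) (nat_lit 433) (nat_lit 328)) (XT.nd (nat_lit 78) (nat_lit 380) (nat_lit 0) (XT.lf (nat_lit 0) (nat_lit 20865090643) (nat_lit 760) (nat_lit 33970008618) (nat_lit 836) (nat_lit 13496469806) (nat_lit 120) (nat_lit 5) (nat_lit 130) (nat_lit 5) (nat_lit 131) (nat_lit 5) (nat_lit 440) (nat_lit 433) (nat_lit 327)) (XT.lf (nat_lit 0) (nat_lit 10459229409) (nat_lit 380) (nat_lit 56876842785) (nat_lit 456) (nat_lit 3961155857) (nat_lit 115) (nat_lit 5) (nat_lit 120) (nat_lit 5)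 (nat_lit 121) (nat_lit 5) (nat_lit 441) (nat_lit 433) (nat_lit 326)))) (XT.nd (nat_lit 78) (nat_lit 760) (nat_lit 0) (XT.lf (nat_lit 0) (nat_lit 7544963881) (nat_lit 456) (nat_lit 432452415) (nat_lit 76) (nat_lit 66447237189) (nat_lit 114) (nat_lit 5) (nat_lit 120) (nat_lit 5) (nat_lit 115) (nat_lit 5) (nat_lit 442) (nat_lit 433) (nat_lit 325)) (XT.nd (nat_lit 78) (nat_lit 380) (nat_lit 0) (XT.lf (nat_lit 0) (nat_lit 21594776491) (nat_lit 456) (nat_lit 11588001723) (nat_lit 76) (nat_lit 44528149504) (nat_lit 109) (nat_lit 5) (nat_lit 115) (nat_lit 5) (nat_lit 110) (nat_lit 5) (nat_lit 443) (nat_lit 433) (nat_lit 324)) (XT.lf (nat_lit 0) (nat_lit 38144665724) (nat_lit 456) (nat_lit 23036408675) (nat_lit 76) (nat_lit 20010225614) (nat_lit 104) (nat_lit 5) (nat_lit 110) (nat_lit 5) (nat_lit 105) (nat_lit 5) (nat_lit 444) (nat_lit 433) (nat_lit 323))))) (XT.nd (nat_lit 234) (nat_lit 836) (nat_lit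 0) (XT.nd (nat_lit 78) (nat_lit 608) (nat_lit 0) (XT.lf (nat_lit 0) (nat_lit 49985832837) (nat_lit 304) (nat_lit 7575861473) (nat_lit 380) (nat_lit 27311251020) (nat_lit 100) (nat_lit 5) (nat_lit 104) (nat_lit 5) (nat_lit 105) (nat_lit 5) (nat_lit 445) (nat_lit 433) (nat_lit 322)) (XT.nd (nat_lit 78) (nat_lit 304) (nat_lit 0) (XT.lf (nat_lit 0) (nat_lit 41373242610) (nat_lit 304) (nat_lit 38996404314) (nat_lit 380) (nat_lit 8387597864) (nat_lit 96) (nat_lit 5) (nat_lit 100) (nat_lit 5) (nat_lit 101) (nat_lit 5) (nat_lit 446) (nat_lit 433) (nat_lit 321)) (XT.lf (nat_lit 0) (nat_lit 13229762100) (nat_lit 304) (nat_lit 60410699215) (nat_lit 76) (nat_lit 19224146340) (nat_lit 92) (nat_lit 5) (nat_lit 96) (nat_lit 5) (nat_lit 93) (nat_lit 5) (nat_lit 447) (nat_lit 433) (nat_lit 320)))) (XT.nd (nat_lit 156) (nat_lit 304) (nat_lit 0) (XT.nd (nat_lit 78) (nat_lit 228) (nat_lit 0) (XT.lf (nat_lit 0)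 (nat_lit 23034210577) (nat_lit 304) (nat_lit 15106795841) (nat_lit 380) (nat_lit 59059760739) (nat_lit 88) (nat_lit 5) (nat_lit 92) (nat_lit 5) (nat_lit 93) (nat_lit 5) (nat_lit 448) (nat_lit 433) (nat_lit 319)) (XT.lf (nat_lit 0) (nat_lit 13130513133) (nat_lit 228) (nat_lit 53938736562) (nat_lit 304) (nat_lit 34713365209) (nat_lit 85) (nat_lit 5) (nat_lit 88) (nat_lit 5) (nat_lit 89) (nat_lit 5) (nat_lit 449) (nat_lit 433) (nat_lit 318))) (XT.nd (nat_lit 78) (nat_lit 76) (nat_lit 0) (XT.lf (nat_lit 0) (nat_lit 3084162629) (nat_lit 228) (nat_lit 96972005546) (nat_lit 304) (nat_lit 6587621929) (nat_lit 82) (nat_lit 5) (nat_lit 85) (nat_lit 5) (nat_lit 86) (nat_lit 5) (nat_lit 450) (nat_lit 433) (nat_lit 317)) (XT.lf (nat_lit 0) (nat_lit 25504433487) (nat_lit 304) (nat_lit 7799859604) (nat_lit 76) (nat_lit 78447115443) (nat_lit 81) (nat_lit 5) (nat_lit 85) (nat_lit 5) (nat_lit 82) (nat_lit 5)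 (nat_lit 451) (nat_lit 433) (nat_lit 316)))))) (XT.nd (nat_lit 546) (nat_lit 1064) (nat_lit 0) (XT.nd (nat_lit 234) (nat_lit 760) (nat_lit 0) (XT.nd (nat_lit 78) (nat_lit 456) (nat_lit 0) (XT.lf (nat_lit 0) (nat_lit 62055881098) (nat_lit 304) (nat_lit 19100153373) (nat_lit 76) (nat_lit 36000061323) (nat_lit 78) (nat_lit 5) (nat_lit 82) (nat_lit 5) (nat_lit 79) (nat_lit 5) (nat_lit 452) (nat_lit 433) (nat_lit 315)) (XT.nd (nat_lit 78) (nat_lit 228) (nat_lit 0) (XT.lf (nat_lit 0) (nat_lit 92052967111) (nat_lit 228) (nat_lit 11614059973) (nat_lit 304) (nat_lit 19219352142) (nat_lit 75) (nat_lit 5) (nat_lit 78) (nat_lit 5) (nat_lit 79) (nat_lit 5) (nat_lit 453) (nat_lit 433) (nat_lit 314)) (XT.lf (nat_lit 0) (nat_lit 21612941059) (nat_lit 228) (nat_lit 43831982865) (nat_lit 76) (nat_lit 63479608895) (nat_lit 72) (nat_lit 5) (nat_lit 75) (nat_lit 5) (nat_lit 73) (nat_lit 5) (nat_lit 454) (nat_lit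 433) (nat_lit 313)))) (XT.nd (nat_lit 156) (nat_lit 380) (nat_lit 0) (XT.nd (nat_lit 78) (nat_lit 152) (nat_lit 0) (XT.lf (nat_lit 0) (nat_lit 67175569243) (nat_lit 304) (nat_lit 57563612002) (nat_lit 76) (nat_lit 10583948947) (nat_lit 69) (nat_lit 5) (nat_lit 73) (nat_lit 5) (nat_lit 70) (nat_lit 5) (nat_lit 455) (nat_lit 433) (nat_lit 312)) (XT.lf (nat_lit 0) (nat_lit 69556555574) (nat_lit 152) (nat_lit 49791052267) (nat_lit 228) (nat_lit 22737787747) (nat_lit 67) (nat_lit 5) (nat_lit 69) (nat_lit 5) (nat_lit 70) (nat_lit 5) (nat_lit 456) (nat_lit 433) (nat_lit 311))) (XT.nd (nat_lit 78) (nat_lit 152) (nat_lit 0) (XT.lf (nat_lit 0) (nat_lit 27960147348) (nat_lit 228) (nat_lit 88705167949) (nat_lit 76) (nat_lit 32577927730) (nat_lit 64) (nat_lit 5) (nat_lit 67) (nat_lit 5) (nat_lit 65) (nat_lit 5) (nat_lit 457) (nat_lit 433) (nat_lit 310)) (XT.lf (nat_lit 0) (nat_lit 50294119190) (nat_lit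 152) (nat_lit 34541694142) (nat_lit 228) (nat_lit 71973341727) (nat_lit 62) (nat_lit 5) (nat_lit 64) (nat_lit 5) (nat_lit 65) (nat_lit 5) (nat_lit 458) (nat_lit 433) (nat_lit 309))))) (XT.nd (nat_lit 234) (nat_lit 532) (nat_lit 0) (XT.nd (nat_lit 78) (nat_lit 380) (nat_lit 0) (XT.lf (nat_lit 0) (nat_lit 39055458055) (nat_lit 152) (nat_lit 110230811494) (nat_lit 228) (nat_lit 15542833837) (nat_lit 60) (nat_lit 5) (nat_lit 62) (nat_lit 5) (nat_lit 63) (nat_lit 5) (nat_lit 459) (nat_lit 433) (nat_lit 308)) (XT.nd (nat_lit 78) (nat_lit 152) (nat_lit 0) (XT.lf (nat_lit 0) (nat_lit 26192313899) (nat_lit 152) (nat_lit 20632887325) (nat_lit 228) (nat_lit 126486191917) (nat_lit 57) (nat_lit 5) (nat_lit 59) (nat_lit 5) (nat_lit 60) (nat_lit 5) (nat_lit 460) (nat_lit 433) (nat_lit 307)) (XT.lf (nat_lit 0) (nat_lit 11318177845) (nat_lit 152) (nat_lit 105918468317) (nat_lit 228) (nat_lit 65042954422) (nat_lit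 55) (nat_lit 5) (nat_lit 57) (nat_lit 5) (nat_lit 58) (nat_lit 5) (nat_lit 461) (nat_lit 433) (nat_lit 306)))) (XT.nd (nat_lit 156) (nat_lit 304) (nat_lit 0) (XT.nd (nat_lit 78) (nat_lit 152) (nat_lit 0) (XT.lf (nat_lit 0) (nat_lit 4225364494) (nat_lit 228) (nat_lit 4565156454) (nat_lit 76) (nat_lit 183026129965) (nat_lit 54) (nat_lit 5) (nat_lit 57) (nat_lit 5) (nat_lit 55) (nat_lit 5) (nat_lit 462) (nat_lit 433) (nat_lit 305)) (XT.lf (nat_lit 0) (nat_lit 81157658289) (nat_lit 228) (nat_lit 23686681741) (nat_lit 76) (nat_lit 96998946581) (nat_lit 52) (nat_lit 5) (nat_lit 55) (nat_lit 5) (nat_lit 53) (nat_lit 5) (nat_lit 463) (nat_lit 433) (nat_lit 304))) (XT.nd (nat_lit 78) (nat_lit 152) (nat_lit 0) (XT.lf (nat_lit 0) (nat_lit 167116798635) (nat_lit 228) (nat_lit 44322541430) (nat_lit 76) (nat_lit 1089100060) (nat_lit 50) (nat_lit 5) (nat_lit 53) (nat_lit 5) (nat_lit 51) (nat_lit 4) (nat_lit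 464) (nat_lit 433) (nat_lit 303)) (XT.lf (nat_lit 0) (nat_lit 39424801467) (nat_lit 152) (nat_lit 69026390911) (nat_lit 76) (nat_lit 115354748058) (nat_lit 48) (nat_lit 5) (nat_lit 50) (nat_lit 5) (nat_lit 49) (nat_lit 5) (nat_lit 465) (nat_lit 433) (nat_lit 302))))))))
noncomputable def xc97 : XT := (XT.nd (nat_lit 2028) (nat_lit 228) (nat_lit 0) (XT.nd (nat_lit 1014) (nat_lit 988) (nat_lit 0) (XT.nd (nat_lit 468) (nat_lit 684) (nat_lit 0) (XT.nd (nat_lit 234) (nat_lit 304) (nat_lit 0) (XT.nd (nat_lit 78) (nat_lit 304) (nat_lit 0) (XT.lf (nat_lit 0) (nat_lit 132538787305) (nat_lit 228) (nat_lit 96785459701) (nat_lit 76) (nat_lit 6470089691) (nat_lit 46) (nat_lit 5) (nat_lit 49) (nat_lit 5) (nat_lit 47) (nat_lit 4) (nat_lit 466) (nat_lit 433) (nat_lit 301)) (XT.nd (nat_lit 78) (nat_lit 228) (nat_lit 0) (XT.lf (nat_lit 0) (nat_lit 119443419444) (nat_lit 76) (nat_lit 118573385610) (nat_lit 152)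 (nat_lit 10479254041) (nat_lit 45) (nat_lit 5) (nat_lit 46) (nat_lit 5) (nat_lit 47) (nat_lit 4) (nat_lit 467) (nat_lit 433) (nat_lit 300)) (XT.lf (nat_lit 0) (nat_lit 90150110672) (nat_lit 228) (nat_lit 166137044400) (nat_lit 76) (nat_lit 5691598988) (nat_lit 42) (nat_lit 5) (nat_lit 45) (nat_lit 5) (nat_lit 43) (nat_lit 4) (nat_lit 468) (nat_lit 433) (nat_lit 299)))) (XT.nd (nat_lit 78) (nat_lit 228) (nat_lit 0) (XT.lf (nat_lit 0) (nat_lit 66833291232) (nat_lit 76) (nat_lit 136961306698) (nat_lit 152) (nat_lit 72470281438) (nat_lit 41) (nat_lit 5) (nat_lit 42) (nat_lit 5) (nat_lit 43) (nat_lit 4) (nat_lit 469) (nat_lit 433) (nat_lit 298)) (XT.nd (nat_lit 78) (nat_lit 0) (nat_lit 0) (XT.lf (nat_lit 0) (nat_lit 33297945299) (nat_lit 152) (nat_lit 3884470385) (nat_lit 228) (nat_lit 254311251128) (nat_lit 38) (nat_lit 5) (nat_lit 40) (nat_lit 5) (nat_lit 41) (nat_lit 5) (nat_lit 470) (nat_lit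 433) (nat_lit 297)) (XT.lf (nat_lit 0) (nat_lit 158992872006) (nat_lit 228) (nat_lit 8300016128) (nat_lit 76) (nat_lit 140292239849) (nat_lit 38) (nat_lit 5) (nat_lit 41) (nat_lit 5) (nat_lit 39) (nat_lit 4) (nat_lit 471) (nat_lit 433) (nat_lit 296))))) (XT.nd (nat_lit 234) (nat_lit 380) (nat_lit 0) (XT.nd (nat_lit 78) (nat_lit 228) (nat_lit 0) (XT.lf (nat_lit 0) (nat_lit 270167806670) (nat_lit 76) (nat_lit 24663346039) (nat_lit 152) (nat_lit 29918603999) (nat_lit 37) (nat_lit 5) (nat_lit 38) (nat_lit 5) (nat_lit 39) (nat_lit 4) (nat_lit 472) (nat_lit 433) (nat_lit 295)) (XT.nd (nat_lit 78) (nat_lit 76) (nat_lit 0) (XT.lf (nat_lit 0) (nat_lit 101009560029) (nat_lit 152) (nat_lit 111251031162) (nat_lit 76) (nat_lit 130655007543) (nat_lit 35) (nat_lit 5) (nat_lit 37) (nat_lit 5) (nat_lit 36) (nat_lit 4) (nat_lit 473) (nat_lit 433) (nat_lit 294)) (XT.lf (nat_lit 0) (nat_lit 185265412254) (nat_lit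 76) (nat_lit 60386575242) (nat_lit 152) (nat_lit 116643786599) (nat_lit 34) (nat_lit 5) (nat_lit 35) (nat_lit 5) (nat_lit 36) (nat_lit 4) (nat_lit 474) (nat_lit 433) (nat_lit 293)))) (XT.nd (nat_lit 156) (nat_lit 152) (nat_lit 0) (XT.nd (nat_lit 78) (nat_lit 76) (nat_lit 0) (XT.lf (nat_lit 0) (nat_lit 23733090681) (nat_lit 152) (nat_lit 254510645563) (nat_lit 76) (nat_lit 104683565398) (nat_lit 32) (nat_lit 5) (nat_lit 34) (nat_lit 5) (nat_lit 33) (nat_lit 4) (nat_lit 475) (nat_lit 433) (nat_lit 292)) (XT.lf (nat_lit 0) (nat_lit 58398488444) (nat_lit 76) (nat_lit 117973416441) (nat_lit 152) (nat_lit 228485916037) (nat_lit 31) (nat_lit 5) (nat_lit 32) (nat_lit 5) (nat_lit 33) (nat_lit 4) (nat_lit 476) (nat_lit 433) (nat_lit 291))) (XT.nd (nat_lit 78) (nat_lit 152) (nat_lit 0) (XT.lf (nat_lit 0) (nat_lit 346587968228) (nat_lit 152) (nat_lit 23826461414) (nat_lit 0) (nat_lit 57860044938) (nat_lit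 31) (nat_lit 5) (nat_lit 33) (nat_lit 4) (nat_lit 31) (nat_lit 4) (nat_lit 477) (nat_lit 433) (nat_lit 290)) (XT.lf (nat_lit 0) (nat_lit 81707308870) (nat_lit 152) (nat_lit 121228295381) (nat_lit 76) (nat_lit 250203341154) (nat_lit 29) (nat_lit 5) (nat_lit 31) (nat_lit 5) (nat_lit 30) (nat_lit 4) (nat_lit 478) (nat_lit 433) (nat_lit 289)))))) (XT.nd (nat_lit 468) (nat_lit 456) (nat_lit 0) (XT.nd (nat_lit 234) (nat_lit 228) (nat_lit 0) (XT.nd (nat_lit 78) (nat_lit 228) (nat_lit 0) (XT.lf (nat_lit 0) (nat_lit 243390711190) (nat_lit 76) (nat_lit 16179688182) (nat_lit 152) (nat_lit 220142235030) (nat_lit 28) (nat_lit 5) (nat_lit 29) (nat_lit 5) (nat_lit 30) (nat_lit 4) (nat_lit 479) (nat_lit 433) (nat_lit 288)) (XT.nd (nat_lit 78) (nat_lit 152) (nat_lit 0) (XT.lf (nat_lit 0) (nat_lit 134577035397) (nat_lit 76) (nat_lit 324228963188) (nat_lit 76) (nat_lit 49249046887) (nat_lit 27) (nat_lit 4) (nat_lit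 28) (nat_lit 5) (nat_lit 28) (nat_lit 4) (nat_lit 480) (nat_lit 433) (nat_lit 287)) (XT.lf (nat_lit 0) (nat_lit 2762504945) (nat_lit 76) (nat_lit 132721734003) (nat_lit 152) (nat_lit 402849998376) (nat_lit 25) (nat_lit 5) (nat_lit 26) (nat_lit 5) (nat_lit 27) (nat_lit 4) (nat_lit 481) (nat_lit 433) (nat_lit 286)))) (XT.nd (nat_lit 78) (nat_lit 228) (nat_lit 0) (XT.lf (nat_lit 0) (nat_lit 341062799505) (nat_lit 152) (nat_lit 150366321777) (nat_lit 0) (nat_lit 79176672264) (nat_lit 25) (nat_lit 5) (nat_lit 27) (nat_lit 4) (nat_lit 25) (nat_lit 4) (nat_lit 482) (nat_lit 433) (nat_lit 285)) (XT.nd (nat_lit 78) (nat_lit 152) (nat_lit 0) (XT.lf (nat_lit 0) (nat_lit 272126599760) (nat_lit 76) (nat_lit 297447255287) (nat_lit 76) (nat_lit 35560908731) (nat_lit 24) (nat_lit 4) (nat_lit 25) (nat_lit 5) (nat_lit 25) (nat_lit 4) (nat_lit 483) (nat_lit 433) (nat_lit 284)) (XT.lf (nat_lit 0) (nat_lit 91668001368)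 (nat_lit 76) (nat_lit 80797633262) (nat_lit 152) (nat_lit 469619980207) (nat_lit 22) (nat_lit 5) (nat_lit 23) (nat_lit 5) (nat_lit 24) (nat_lit 4) (nat_lit 484) (nat_lit 433) (nat_lit 283))))) (XT.nd (nat_lit 234) (nat_lit 228) (nat_lit 0) (XT.nd (nat_lit 78) (nat_lit 228) (nat_lit 0) (XT.lf (nat_lit 0) (nat_lit 404192232472) (nat_lit 152) (nat_lit 122579670784) (nat_lit 0) (nat_lit 154776291851) (nat_lit 22) (nat_lit 5) (nat_lit 24) (nat_lit 4) (nat_lit 22) (nat_lit 4) (nat_lit 485) (nat_lit 433) (nat_lit 282)) (XT.nd (nat_lit 78) (nat_lit 152) (nat_lit 0) (XT.lf (nat_lit 0) (nat_lit 349302109996) (nat_lit 76) (nat_lit 311970497881) (nat_lit 76) (nat_lit 62554391451) (nat_lit 21) (nat_lit 4) (nat_lit 22) (nat_lit 5) (nat_lit 22) (nat_lit 4) (nat_lit 486) (nat_lit 433) (nat_lit 281)) (XT.lf (nat_lit 0) (nat_lit 94266552486) (nat_lit 76) (nat_lit 73383599924) (nat_lit 152) (nat_lit 601523605269)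 (nat_lit 19) (nat_lit 5) (nat_lit 20) (nat_lit 5) (nat_lit 21) (nat_lit 4) (nat_lit 487) (nat_lit 433) (nat_lit 280)))) (XT.nd (nat_lit 156) (nat_lit 152) (nat_lit 0) (XT.nd (nat_lit 78) (nat_lit 76) (nat_lit 0) (XT.lf (nat_lit 0) (nat_lit 423616666308) (nat_lit 152) (nat_lit 207926220200) (nat_lit 0) (nat_lit 186077235726) (nat_lit 19) (nat_lit 5) (nat_lit 21) (nat_lit 4) (nat_lit 19) (nat_lit 4) (nat_lit 488) (nat_lit 433) (nat_lit 279)) (XT.lf (nat_lit 0) (nat_lit 304935119747) (nat_lit 76) (nat_lit 401123366455) (nat_lit 76) (nat_lit 163583810517) (nat_lit 18) (nat_lit 4) (nat_lit 19) (nat_lit 5) (nat_lit 19) (nat_lit 4) (nat_lit 489) (nat_lit 433) (nat_lit 278))) (XT.nd (nat_lit 78) (nat_lit 76) (nat_lit 0) (XT.lf (nat_lit 0) (nat_lit 86221289545) (nat_lit 152) (nat_lit 60786028440) (nat_lit 76) (nat_lit 778568310640) (nat_lit 17) (nat_lit 5) (nat_lit 19) (nat_lit 5) (nat_lit 18) (nat_lit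 4) (nat_lit 490) (nat_lit 433) (nat_lit 277)) (XT.lf (nat_lit 0) (nat_lit 360271020918) (nat_lit 152) (nat_lit 491036291418) (nat_lit 0) (nat_lit 134042659507) (nat_lit 16) (nat_lit 5) (nat_lit 18) (nat_lit 4) (nat_lit 16) (nat_lit 4) (nat_lit 491) (nat_lit 433) (nat_lit 276))))))) (XT.nd (nat_lit 58656) (nat_lit 0) (nat_lit 4256) (XT.nd (nat_lit 58110) (nat_lit 0) (nat_lit 7752) (XT.nd (nat_lit 234) (nat_lit 0) (nat_lit 0) (XT.nd (nat_lit 78) (nat_lit 152) (nat_lit 0) (XT.lf (nat_lit 0) (nat_lit 45085027773) (nat_lit 76) (nat_lit 615418378580) (nat_lit 76) (nat_lit 389189922395) (nat_lit 15) (nat_lit 4) (nat_lit 16) (nat_lit 5) (nat_lit 16) (nat_lit 4) (nat_lit 492) (nat_lit 433) (nat_lit 275)) (XT.nd (nat_lit 78) (nat_lit 152) (nat_lit 0) (XT.lf (nat_lit 0) (nat_lit 641630321679) (nat_lit 76) (nat_lit 351677355863) (nat_lit 76) (nat_lit 125448811926) (nat_lit 15) (nat_lit 4) (nat_lit 16)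 (nat_lit 5) (nat_lit 16) (nat_lit 4) (nat_lit 493) (nat_lit 433) (nat_lit 274)) (XT.lf (nat_lit 0) (nat_lit 93043509610) (nat_lit 76) (nat_lit 62698995170) (nat_lit 152) (nat_lit 1037405148621) (nat_lit 13) (nat_lit 5) (nat_lit 14) (nat_lit 5) (nat_lit 15) (nat_lit 4) (nat_lit 494) (nat_lit 433) (nat_lit 273)))) (XT.nd (nat_lit 57720) (nat_lit 0) (nat_lit 8512) (XT.lf (nat_lit 0) (nat_lit 467433825830) (nat_lit 152) (nat_lit 553355546352) (nat_lit 0) (nat_lit 251977920664) (nat_lit 13) (nat_lit 5) (nat_lit 15) (nat_lit 4) (nat_lit 13) (nat_lit 4) (nat_lit 495) (nat_lit 433) (nat_lit 272)) (XT.nd (nat_lit 78) (nat_lit 0) (nat_lit 76) (XT.lf (nat_lit 0) (nat_lit 9162677281) (nat_lit 836) (nat_lit 9331862173) (nat_lit 836) (nat_lit 9331862173) (nat_lit 125) (nat_lit 3) (nat_lit 136) (nat_lit 3) (nat_lit 136) (nat_lit 5) (nat_lit 434) (nat_lit 434) (nat_lit 332)) (XT.lf (nat_lit 0) (nat_lit 19591588956)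 (nat_lit 760) (nat_lit 32172542739) (nat_lit 836) (nat_lit 6088110044) (nat_lit 126) (nat_lit 5) (nat_lit 136) (nat_lit 5) (nat_lit 137) (nat_lit 5) (nat_lit 435) (nat_lit 434) (nat_lit 331))))) (XT.nd (nat_lit 234) (nat_lit 836) (nat_lit 0) (XT.nd (nat_lit 78) (nat_lit 0) (nat_lit 76) (XT.lf (nat_lit 76) (nat_lit 13837596361) (nat_lit 0) (nat_lit 8288458788) (nat_lit 836) (nat_lit 38043234761) (nat_lit 127) (nat_lit 5) (nat_lit 126) (nat_lit 5) (nat_lit 137) (nat_lit 5) (nat_lit 436) (nat_lit 434) (nat_lit 330)) (XT.nd (nat_lit 78) (nat_lit 0) (nat_lit 76) (XT.lf (nat_lit 76) (nat_lit 1465750924) (nat_lit 0) (nat_lit 24590674068) (nat_lit 836) (nat_lit 36555620797) (nat_lit 128) (nat_lit 5) (nat_lit 127) (nat_lit 5) (nat_lit 138) (nat_lit 5) (nat_lit 437) (nat_lit 434) (nat_lit 329)) (XT.lf (nat_lit 0) (nat_lit 31607560024) (nat_lit 760) (nat_lit 10972578141) (nat_lit 836) (nat_lit 22604768278)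 (nat_lit 128) (nat_lit 5) (nat_lit 138) (nat_lit 5) (nat_lit 139) (nat_lit 5) (nat_lit 438) (nat_lit 434) (nat_lit 328)))) (XT.nd (nat_lit 156) (nat_lit 1064) (nat_lit 0) (XT.nd (nat_lit 78) (nat_lit 0) (nat_lit 0) (XT.lf (nat_lit 0) (nat_lit 38791121374) (nat_lit 760) (nat_lit 23780930816) (nat_lit 836) (nat_lit 5332127986) (nat_lit 129) (nat_lit 5) (nat_lit 139) (nat_lit 5) (nat_lit 140) (nat_lit 5) (nat_lit 439) (nat_lit 434) (nat_lit 327)) (XT.lf (nat_lit 76) (nat_lit 33537428271) (nat_lit 0) (nat_lit 14445365488) (nat_lit 836) (nat_lit 22786531672) (nat_lit 130) (nat_lit 5) (nat_lit 129) (nat_lit 5) (nat_lit 140) (nat_lit 5) (nat_lit 440) (nat_lit 434) (nat_lit 326))) (XT.nd (nat_lit 78) (nat_lit 380) (nat_lit 0) (XT.lf (nat_lit 0) (nat_lit 22575250485) (nat_lit 760) (nat_lit 36691744726) (nat_lit 836) (nat_lit 14528828192) (nat_lit 120) (nat_lit 5) (nat_lit 130) (nat_lit 5) (nat_lit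 131) (nat_lit 5) (nat_lit 441) (nat_lit 434) (nat_lit 325)) (XT.lf (nat_lit 0) (nat_lit 11337374849) (nat_lit 380) (nat_lit 61427917975) (nat_lit 456) (nat_lit 4233581183) (nat_lit 115) (nat_lit 5) (nat_lit 120) (nat_lit 5) (nat_lit 121) (nat_lit 5) (nat_lit 442) (nat_lit 434) (nat_lit 324)))))) (XT.nd (nat_lit 546) (nat_lit 1444) (nat_lit 0) (XT.nd (nat_lit 234) (nat_lit 1216) (nat_lit 0) (XT.nd (nat_lit 78) (nat_lit 760) (nat_lit 0) (XT.lf (nat_lit 0) (nat_lit 8188416470) (nat_lit 456) (nat_lit 427377202) (nat_lit 76) (nat_lit 71760825610) (nat_lit 114) (nat_lit 5) (nat_lit 120) (nat_lit 5) (nat_lit 115) (nat_lit 5) (nat_lit 443) (nat_lit 434) (nat_lit 323)) (XT.nd (nat_lit 78) (nat_lit 380) (nat_lit 0) (XT.lf (nat_lit 0) (nat_lit 23359861347) (nat_lit 456) (nat_lit 12475214099) (nat_lit 76) (nat_lit 48090838660) (nat_lit 109) (nat_lit 5) (nat_lit 115) (nat_lit 5) (nat_lit 110) (nat_lit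 5) (nat_lit 444) (nat_lit 434) (nat_lit 322)) (XT.lf (nat_lit 0) (nat_lit 41231601899) (nat_lit 456) (nat_lit 24839490105) (nat_lit 76) (nat_lit 21613732111) (nat_lit 104) (nat_lit 5) (nat_lit 110) (nat_lit 5) (nat_lit 105) (nat_lit 5) (nat_lit 445) (nat_lit 434) (nat_lit 321)))) (XT.nd (nat_lit 156) (nat_lit 608) (nat_lit 0) (XT.nd (nat_lit 78) (nat_lit 304) (nat_lit 0) (XT.lf (nat_lit 0) (nat_lit 54022799709) (nat_lit 304) (nat_lit 8177168439) (nat_lit 380) (nat_lit 29461135011) (nat_lit 100) (nat_lit 5) (nat_lit 104) (nat_lit 5) (nat_lit 105) (nat_lit 5) (nat_lit 446) (nat_lit 434) (nat_lit 320)) (XT.lf (nat_lit 0) (nat_lit 44721080240) (nat_lit 304) (nat_lit 42109669016) (nat_lit 380) (nat_lit 9025488511) (nat_lit 96) (nat_lit 5) (nat_lit 100) (nat_lit 5) (nat_lit 101) (nat_lit 5) (nat_lit 447) (nat_lit 434) (nat_lit 319))) (XT.nd (nat_lit 78) (nat_lit 304) (nat_lit 0) (XT.lf (nat_lit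 0) (nat_lit 14318519452) (nat_lit 304) (nat_lit 65204792791) (nat_lit 76) (nat_lit 20768936320) (nat_lit 92) (nat_lit 5) (nat_lit 96) (nat_lit 5) (nat_lit 93) (nat_lit 5) (nat_lit 448) (nat_lit 434) (nat_lit 318)) (XT.lf (nat_lit 0) (nat_lit 24914025220) (nat_lit 304) (nat_lit 16306966882) (nat_lit 380) (nat_lit 63754392942) (nat_lit 88) (nat_lit 5) (nat_lit 92) (nat_lit 5) (nat_lit 93) (nat_lit 5) (nat_lit 449) (nat_lit 434) (nat_lit 317))))) (XT.nd (nat_lit 234) (nat_lit 912) (nat_lit 0) (XT.nd (nat_lit 78) (nat_lit 304) (nat_lit 0) (XT.lf (nat_lit 0) (nat_lit 14217676339) (nat_lit 228) (nat_lit 58244386565) (nat_lit 304) (nat_lit 37461789912) (nat_lit 85) (nat_lit 5) (nat_lit 88) (nat_lit 5) (nat_lit 89) (nat_lit 5) (nat_lit 450) (nat_lit 434) (nat_lit 316)) (XT.nd (nat_lit 78) (nat_lit 76) (nat_lit 0) (XT.lf (nat_lit 0) (nat_lit 3367192467) (nat_lit 228) (nat_lit 104719425449) (nat_lit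 304) (nat_lit 7087370529) (nat_lit 82) (nat_lit 5) (nat_lit 85) (nat_lit 5) (nat_lit 86) (nat_lit 5) (nat_lit 451) (nat_lit 434) (nat_lit 315)) (XT.lf (nat_lit 0) (nat_lit 27569222080) (nat_lit 304) (nat_lit 8389426082) (nat_lit 76) (nat_lit 84731645139) (nat_lit 81) (nat_lit 5) (nat_lit 85) (nat_lit 5) (nat_lit 82) (nat_lit 5) (nat_lit 452) (nat_lit 434) (nat_lit 314)))) (XT.nd (nat_lit 156) (nat_lit 456) (nat_lit 0) (XT.nd (nat_lit 78) (nat_lit 228) (nat_lit 0) (XT.lf (nat_lit 0) (nat_lit 67043642475) (nat_lit 304) (nat_lit 20594229464) (nat_lit 76) (nat_lit 38889541215) (nat_lit 78) (nat_lit 5) (nat_lit 82) (nat_lit 5) (nat_lit 79) (nat_lit 5) (nat_lit 453) (nat_lit 434) (nat_lit 313)) (XT.lf (nat_lit 0) (nat_lit 99449665834) (nat_lit 228) (nat_lit 12532795868) (nat_lit 304) (nat_lit 20733718908) (nat_lit 75) (nat_lit 5) (nat_lit 78) (nat_lit 5) (nat_lit 79) (nat_lit 5) (nat_lit 454) (nat_lit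 434) (nat_lit 312))) (XT.nd (nat_lit 78) (nat_lit 228) (nat_lit 0) (XT.lf (nat_lit 0) (nat_lit 23363413371) (nat_lit 228) (nat_lit 47305871753) (nat_lit 76) (nat_lit 68568133767) (nat_lit 72) (nat_lit 5) (nat_lit 75) (nat_lit 5) (nat_lit 73) (nat_lit 5) (nat_lit 455) (nat_lit 434) (nat_lit 311)) (XT.lf (nat_lit 0) (nat_lit 72570122163) (nat_lit 304) (nat_lit 62136600186) (nat_lit 76) (nat_lit 11441228536) (nat_lit 69) (nat_lit 5) (nat_lit 73) (nat_lit 5) (nat_lit 70) (nat_lit 5) (nat_lit 456) (nat_lit 434) (nat_lit 310))))))))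
noncomputable def xc98 : XT := (XT.nd (nat_lit 2028) (nat_lit 912) (nat_lit 0) (XT.nd (nat_lit 1014) (nat_lit 1292) (nat_lit 0) (XT.nd (nat_lit 468) (nat_lit 988) (nat_lit 0) (XT.nd (nat_lit 234) (nat_lit 532) (nat_lit 0) (XT.nd (nat_lit 78) (nat_lit 380) (nat_lit 0) (XT.lf (nat_lit 0) (nat_lit 75151785736) (nat_lit 152) (nat_lit 53763098449) (nat_lit 228) (nat_lit 24536365632) (nat_lit 67) (nat_lit 5) (nat_lit 69) (nat_lit 5) (nat_lit 70) (nat_lit 5) (nat_lit 457) (nat_lit 434) (nat_lit 309)) (XT.nd (nat_lit 78) (nat_lit 152) (nat_lit 0) (XT.lf (nat_lit 0) (nat_lit 30215927298) (nat_lit 228) (nat_lit 95770812265) (nat_lit 76) (nat_lit 35195010943) (nat_lit 64) (nat_lit 5) (nat_lit 67) (nat_lit 5) (nat_lit 65) (nat_lit 5) (nat_lit 458) (nat_lit 434) (nat_lit 308)) (XT.lf (nat_lit 0) (nat_lit 54347080656) (nat_lit 152) (nat_lit 37293620370) (nat_lit 228) (nat_lit 77712282013) (nat_lit 62) (nat_lit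 5) (nat_lit 64) (nat_lit 5) (nat_lit 65) (nat_lit 5) (nat_lit 459) (nat_lit 434) (nat_lit 307)))) (XT.nd (nat_lit 78) (nat_lit 380) (nat_lit 0) (XT.lf (nat_lit 0) (nat_lit 42208742284) (nat_lit 152) (nat_lit 119037731776) (nat_lit 228) (nat_lit 16768089402) (nat_lit 60) (nat_lit 5) (nat_lit 62) (nat_lit 5) (nat_lit 63) (nat_lit 5) (nat_lit 460) (nat_lit 434) (nat_lit 306)) (XT.nd (nat_lit 78) (nat_lit 152) (nat_lit 0) (XT.lf (nat_lit 0) (nat_lit 28315852006) (nat_lit 152) (nat_lit 22272091485) (nat_lit 228) (nat_lit 136587522104) (nat_lit 57) (nat_lit 5) (nat_lit 59) (nat_lit 5) (nat_lit 60) (nat_lit 5) (nat_lit 461) (nat_lit 434) (nat_lit 305)) (XT.lf (nat_lit 0) (nat_lit 12251193455) (nat_lit 152) (nat_lit 114380467093) (nat_lit 228) (nat_lit 70229501459) (nat_lit 55) (nat_lit 5) (nat_lit 57) (nat_lit 5) (nat_lit 58) (nat_lit 5) (nat_lit 462) (nat_lit 434) (nat_lit 304))))) (XT.nd (nat_lit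 234) (nat_lit 608) (nat_lit 0) (XT.nd (nat_lit 78) (nat_lit 304) (nat_lit 0) (XT.lf (nat_lit 0) (nat_lit 4578531388) (nat_lit 228) (nat_lit 4904346455) (nat_lit 76) (nat_lit 197678346062) (nat_lit 54) (nat_lit 5) (nat_lit 57) (nat_lit 5) (nat_lit 55) (nat_lit 5) (nat_lit 463) (nat_lit 434) (nat_lit 303)) (XT.nd (nat_lit 78) (nat_lit 152) (nat_lit 0) (XT.lf (nat_lit 0) (nat_lit 87664839725) (nat_lit 228) (nat_lit 25556166111) (nat_lit 76) (nat_lit 104769013233) (nat_lit 52) (nat_lit 5) (nat_lit 55) (nat_lit 5) (nat_lit 53) (nat_lit 5) (nat_lit 464) (nat_lit 434) (nat_lit 302)) (XT.lf (nat_lit 0) (nat_lit 180500175747) (nat_lit 228) (nat_lit 47843468778) (nat_lit 76) (nat_lit 1186367267) (nat_lit 50) (nat_lit 5) (nat_lit 53) (nat_lit 5) (nat_lit 51) (nat_lit 4) (nat_lit 465) (nat_lit 434) (nat_lit 301)))) (XT.nd (nat_lit 156) (nat_lit 304) (nat_lit 0) (XT.nd (nat_lit 78) (nat_lit 152) (nat_lit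 0) (XT.lf (nat_lit 0) (nat_lit 42592371600) (nat_lit 152) (nat_lit 74524256422) (nat_lit 76) (nat_lit 124593106687) (nat_lit 48) (nat_lit 5) (nat_lit 50) (nat_lit 5) (nat_lit 49) (nat_lit 5) (nat_lit 466) (nat_lit 434) (nat_lit 300)) (XT.lf (nat_lit 0) (nat_lit 143154992064) (nat_lit 228) (nat_lit 104504615820) (nat_lit 76) (nat_lit 6997619124) (nat_lit 46) (nat_lit 5) (nat_lit 49) (nat_lit 5) (nat_lit 47) (nat_lit 4) (nat_lit 467) (nat_lit 434) (nat_lit 299))) (XT.nd (nat_lit 78) (nat_lit 228) (nat_lit 0) (XT.lf (nat_lit 0) (nat_lit 129021544524) (nat_lit 76) (nat_lit 128049089861) (nat_lit 152) (nat_lit 11304483769) (nat_lit 45) (nat_lit 5) (nat_lit 46) (nat_lit 5) (nat_lit 47) (nat_lit 4) (nat_lit 468) (nat_lit 434) (nat_lit 298)) (XT.lf (nat_lit 0) (nat_lit 97374370726) (nat_lit 228) (nat_lit 179405487853) (nat_lit 76) (nat_lit 6156581990) (nat_lit 42) (nat_lit 5) (nat_lit 45) (nat_lit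 5) (nat_lit 43) (nat_lit 4) (nat_lit 469) (nat_lit 434) (nat_lit 297)))))) (XT.nd (nat_lit 468) (nat_lit 684) (nat_lit 0) (XT.nd (nat_lit 234) (nat_lit 304) (nat_lit 0) (XT.nd (nat_lit 78) (nat_lit 228) (nat_lit 0) (XT.lf (nat_lit 0) (nat_lit 72201495933) (nat_lit 76) (nat_lit 147908349858) (nat_lit 152) (nat_lit 78255638764) (nat_lit 41) (nat_lit 5) (nat_lit 42) (nat_lit 5) (nat_lit 43) (nat_lit 4) (nat_lit 470) (nat_lit 434) (nat_lit 296)) (XT.nd (nat_lit 78) (nat_lit 0) (nat_lit 0) (XT.lf (nat_lit 0) (nat_lit 35982762723) (nat_lit 152) (nat_lit 4185566973) (nat_lit 228) (nat_lit 274644263399) (nat_lit 38) (nat_lit 5) (nat_lit 40) (nat_lit 5) (nat_lit 41) (nat_lit 5) (nat_lit 471) (nat_lit 434) (nat_lit 295)) (XT.lf (nat_lit 0) (nat_lit 171722923612) (nat_lit 228) (nat_lit 8944204432) (nat_lit 76) (nat_lit 151524278138) (nat_lit 38) (nat_lit 5) (nat_lit 41) (nat_lit 5) (nat_lit 39) (nat_lit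 4) (nat_lit 472) (nat_lit 434) (nat_lit 294)))) (XT.nd (nat_lit 78) (nat_lit 228) (nat_lit 0) (XT.lf (nat_lit 0) (nat_lit 291800183142) (nat_lit 76) (nat_lit 26627592718) (nat_lit 152) (nat_lit 32301453959) (nat_lit 37) (nat_lit 5) (nat_lit 38) (nat_lit 5) (nat_lit 39) (nat_lit 4) (nat_lit 473) (nat_lit 434) (nat_lit 293)) (XT.nd (nat_lit 78) (nat_lit 76) (nat_lit 0) (XT.lf (nat_lit 0) (nat_lit 109100282787) (nat_lit 152) (nat_lit 120132301677) (nat_lit 76) (nat_lit 141115763495) (nat_lit 35) (nat_lit 5) (nat_lit 37) (nat_lit 5) (nat_lit 36) (nat_lit 4) (nat_lit 474) (nat_lit 434) (nat_lit 292)) (XT.lf (nat_lit 0) (nat_lit 200104639666) (nat_lit 76) (nat_lit 65209008103) (nat_lit 152) (nat_lit 125965312473) (nat_lit 34) (nat_lit 5) (nat_lit 35) (nat_lit 5) (nat_lit 36) (nat_lit 4) (nat_lit 475) (nat_lit 434) (nat_lit 291))))) (XT.nd (nat_lit 234) (nat_lit 456) (nat_lit 0) (XT.nd (nat_lit 78)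 (nat_lit 76) (nat_lit 0) (XT.lf (nat_lit 0) (nat_lit 25641083415) (nat_lit 152) (nat_lit 274853646891) (nat_lit 76) (nat_lit 113066287560) (nat_lit 32) (nat_lit 5) (nat_lit 34) (nat_lit 5) (nat_lit 33) (nat_lit 4) (nat_lit 476) (nat_lit 434) (nat_lit 290)) (XT.nd (nat_lit 78) (nat_lit 0) (nat_lit 0) (XT.lf (nat_lit 0) (nat_lit 63087442083) (nat_lit 76) (nat_lit 127403134997) (nat_lit 152) (nat_lit 246755422941) (nat_lit 31) (nat_lit 5) (nat_lit 32) (nat_lit 5) (nat_lit 33) (nat_lit 4) (nat_lit 477) (nat_lit 434) (nat_lit 289)) (XT.lf (nat_lit 0) (nat_lit 374323382651) (nat_lit 152) (nat_lit 25716472938) (nat_lit 0) (nat_lit 62496157566) (nat_lit 31) (nat_lit 5) (nat_lit 33) (nat_lit 4) (nat_lit 31) (nat_lit 4) (nat_lit 478) (nat_lit 434) (nat_lit 288)))) (XT.nd (nat_lit 156) (nat_lit 228) (nat_lit 0) (XT.nd (nat_lit 78) (nat_lit 76) (nat_lit 0) (XT.lf (nat_lit 0) (nat_lit 88252022135) (nat_lit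 152) (nat_lit 130910884298) (nat_lit 76) (nat_lit 270226747698) (nat_lit 29) (nat_lit 5) (nat_lit 31) (nat_lit 5) (nat_lit 30) (nat_lit 4) (nat_lit 479) (nat_lit 434) (nat_lit 287)) (XT.lf (nat_lit 0) (nat_lit 262876961595) (nat_lit 76) (nat_lit 17466830258) (nat_lit 152) (nat_lit 237745464833) (nat_lit 28) (nat_lit 5) (nat_lit 29) (nat_lit 5) (nat_lit 30) (nat_lit 4) (nat_lit 480) (nat_lit 434) (nat_lit 286))) (XT.nd (nat_lit 78) (nat_lit 152) (nat_lit 0) (XT.lf (nat_lit 0) (nat_lit 145357803706) (nat_lit 76) (nat_lit 350160193037) (nat_lit 76) (nat_lit 53181076043) (nat_lit 27) (nat_lit 4) (nat_lit 28) (nat_lit 5) (nat_lit 28) (nat_lit 4) (nat_lit 481) (nat_lit 434) (nat_lit 285)) (XT.lf (nat_lit 0) (nat_lit 2997718151) (nat_lit 76) (nat_lit 143332557666) (nat_lit 152) (nat_lit 435070335245) (nat_lit 25) (nat_lit 5) (nat_lit 26) (nat_lit 5) (nat_lit 27) (nat_lit 4) (nat_lit 482) (nat_lit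 434) (nat_lit 284))))))) (XT.nd (nat_lit 58734) (nat_lit 0) (nat_lit 6308) (XT.nd (nat_lit 468) (nat_lit 456) (nat_lit 0) (XT.nd (nat_lit 234) (nat_lit 228) (nat_lit 0) (XT.nd (nat_lit 78) (nat_lit 228) (nat_lit 0) (XT.lf (nat_lit 0) (nat_lit 368354680610) (nat_lit 152) (nat_lit 162382229283) (nat_lit 0) (nat_lit 85517003946) (nat_lit 25) (nat_lit 5) (nat_lit 27) (nat_lit 4) (nat_lit 25) (nat_lit 4) (nat_lit 483) (nat_lit 434) (nat_lit 283)) (XT.nd (nat_lit 78) (nat_lit 152) (nat_lit 0) (XT.lf (nat_lit 0) (nat_lit 293909543706) (nat_lit 76) (nat_lit 321236769045) (nat_lit 76) (nat_lit 38398904354) (nat_lit 24) (nat_lit 4) (nat_lit 25) (nat_lit 5) (nat_lit 25) (nat_lit 4) (nat_lit 484) (nat_lit 434) (nat_lit 282)) (XT.lf (nat_lit 0) (nat_lit 99013911302) (nat_lit 76) (nat_lit 87255332644) (nat_lit 152) (nat_lit 507182901876) (nat_lit 22) (nat_lit 5) (nat_lit 23) (nat_lit 5) (nat_lit 24) (nat_lit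 4) (nat_lit 485) (nat_lit 434) (nat_lit 281)))) (XT.nd (nat_lit 78) (nat_lit 228) (nat_lit 0) (XT.lf (nat_lit 0) (nat_lit 436533586959) (nat_lit 152) (nat_lit 132374292029) (nat_lit 0) (nat_lit 167163872680) (nat_lit 22) (nat_lit 5) (nat_lit 24) (nat_lit 4) (nat_lit 22) (nat_lit 4) (nat_lit 486) (nat_lit 434) (nat_lit 280)) (XT.nd (nat_lit 78) (nat_lit 152) (nat_lit 0) (XT.lf (nat_lit 0) (nat_lit 377257520468) (nat_lit 76) (nat_lit 336922604784) (nat_lit 76) (nat_lit 67552748351) (nat_lit 21) (nat_lit 4) (nat_lit 22) (nat_lit 5) (nat_lit 22) (nat_lit 4) (nat_lit 487) (nat_lit 434) (nat_lit 279)) (XT.lf (nat_lit 0) (nat_lit 101818813542) (nat_lit 76) (nat_lit 79248894554) (nat_lit 152) (nat_lit 649639672815) (nat_lit 19) (nat_lit 5) (nat_lit 20) (nat_lit 5) (nat_lit 21) (nat_lit 4) (nat_lit 488) (nat_lit 434) (nat_lit 278))))) (XT.nd (nat_lit 234) (nat_lit 304) (nat_lit 0) (XT.nd (nat_lit 78)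 (nat_lit 152) (nat_lit 0) (XT.lf (nat_lit 0) (nat_lit 457511210445) (nat_lit 152) (nat_lit 224550012230) (nat_lit 0) (nat_lit 200968248605) (nat_lit 19) (nat_lit 5) (nat_lit 21) (nat_lit 4) (nat_lit 19) (nat_lit 4) (nat_lit 489) (nat_lit 434) (nat_lit 277)) (XT.nd (nat_lit 78) (nat_lit 76) (nat_lit 0) (XT.lf (nat_lit 0) (nat_lit 329339787044) (nat_lit 76) (nat_lit 433208356805) (nat_lit 76) (nat_lit 176665287492) (nat_lit 18) (nat_lit 4) (nat_lit 19) (nat_lit 5) (nat_lit 19) (nat_lit 4) (nat_lit 490) (nat_lit 434) (nat_lit 276)) (XT.lf (nat_lit 0) (nat_lit 93123678395) (nat_lit 152) (nat_lit 65639628113) (nat_lit 76) (nat_lit 840858137966) (nat_lit 17) (nat_lit 5) (nat_lit 19) (nat_lit 5) (nat_lit 18) (nat_lit 4) (nat_lit 491) (nat_lit 434) (nat_lit 275)))) (XT.nd (nat_lit 156) (nat_lit 152) (nat_lit 0) (XT.nd (nat_lit 78) (nat_lit 76) (nat_lit 0) (XT.lf (nat_lit 0) (nat_lit 389097248546)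 (nat_lit 152) (nat_lit 530310160260) (nat_lit 0) (nat_lit 144770333341) (nat_lit 16) (nat_lit 5) (nat_lit 18) (nat_lit 4) (nat_lit 16) (nat_lit 4) (nat_lit 492) (nat_lit 434) (nat_lit 274)) (XT.lf (nat_lit 0) (nat_lit 48700471839) (nat_lit 76) (nat_lit 664647551163) (nat_lit 76) (nat_lit 420320554705) (nat_lit 15) (nat_lit 4) (nat_lit 16) (nat_lit 5) (nat_lit 16) (nat_lit 4) (nat_lit 493) (nat_lit 434) (nat_lit 273))) (XT.nd (nat_lit 78) (nat_lit 152) (nat_lit 0) (XT.lf (nat_lit 0) (nat_lit 692968749120) (nat_lit 76) (nat_lit 379807564977) (nat_lit 76) (nat_lit 135480493285) (nat_lit 15) (nat_lit 4) (nat_lit 16) (nat_lit 5) (nat_lit 16) (nat_lit 4) (nat_lit 494) (nat_lit 434) (nat_lit 272)) (XT.lf (nat_lit 0) (nat_lit 100494773762) (nat_lit 76) (nat_lit 67711038489) (nat_lit 152) (nat_lit 1120393457959) (nat_lit 13) (nat_lit 5) (nat_lit 14) (nat_lit 5) (nat_lit 15) (nat_lit 4) (nat_lit 495)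 (nat_lit 434) (nat_lit 271)))))) (XT.nd (nat_lit 546) (nat_lit 2204) (nat_lit 0) (XT.nd (nat_lit 234) (nat_lit 0) (nat_lit 152) (XT.nd (nat_lit 78) (nat_lit 0) (nat_lit 76) (XT.lf (nat_lit 0) (nat_lit 9927393304) (nat_lit 836) (nat_lit 10061761514) (nat_lit 836) (nat_lit 10061761514) (nat_lit 125) (nat_lit 3) (nat_lit 136) (nat_lit 3) (nat_lit 136) (nat_lit 5) (nat_lit 435) (nat_lit 435) (nat_lit 330)) (XT.nd (nat_lit 78) (nat_lit 0) (nat_lit 0) (XT.lf (nat_lit 0) (nat_lit 21217693439) (nat_lit 760) (nat_lit 34711083929) (nat_lit 836) (nat_lit 6548682000) (nat_lit 126) (nat_lit 5) (nat_lit 136) (nat_lit 5) (nat_lit 137) (nat_lit 5) (nat_lit 436) (nat_lit 435) (nat_lit 329)) (XT.lf (nat_lit 76) (nat_lit 14978333845) (nat_lit 0) (nat_lit 8972755819) (nat_lit 836) (nat_lit 41028974784) (nat_lit 127) (nat_lit 5) (nat_lit 126) (nat_lit 5) (nat_lit 137) (nat_lit 5) (nat_lit 437) (nat_lit 435) (nat_lit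 328)))) (XT.nd (nat_lit 156) (nat_lit 0) (nat_lit 152) (XT.nd (nat_lit 78) (nat_lit 0) (nat_lit 76) (XT.lf (nat_lit 76) (nat_lit 1618240161) (nat_lit 0) (nat_lit 26573821815) (nat_lit 836) (nat_lit 39426371745) (nat_lit 128) (nat_lit 5) (nat_lit 127) (nat_lit 5) (nat_lit 138) (nat_lit 5) (nat_lit 438) (nat_lit 435) (nat_lit 327)) (XT.lf (nat_lit 0) (nat_lit 34183271156) (nat_lit 760) (nat_lit 11815150094) (nat_lit 836) (nat_lit 24398904259) (nat_lit 128) (nat_lit 5) (nat_lit 138) (nat_lit 5) (nat_lit 139) (nat_lit 5) (nat_lit 439) (nat_lit 435) (nat_lit 326))) (XT.nd (nat_lit 78) (nat_lit 0) (nat_lit 0) (XT.lf (nat_lit 0) (nat_lit 41938391257) (nat_lit 760) (nat_lit 25647315275) (nat_lit 836) (nat_lit 5748592261) (nat_lit 129) (nat_lit 5) (nat_lit 139) (nat_lit 5) (nat_lit 140) (nat_lit 5) (nat_lit 440) (nat_lit 435) (nat_lit 325)) (XT.lf (nat_lit 76) (nat_lit 36254944111) (nat_lit 0) (nat_lit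 15607734509) (nat_lit 836) (nat_lit 24566114232) (nat_lit 130) (nat_lit 5) (nat_lit 129) (nat_lit 5) (nat_lit 140) (nat_lit 5) (nat_lit 441) (nat_lit 435) (nat_lit 324))))) (XT.nd (nat_lit 234) (nat_lit 1368) (nat_lit 0) (XT.nd (nat_lit 78) (nat_lit 456) (nat_lit 0) (XT.lf (nat_lit 0) (nat_lit 24416380770) (nat_lit 760) (nat_lit 39630629759) (nat_lit 836) (nat_lit 15650531567) (nat_lit 120) (nat_lit 5) (nat_lit 130) (nat_lit 5) (nat_lit 131) (nat_lit 5) (nat_lit 442) (nat_lit 435) (nat_lit 323)) (XT.nd (nat_lit 78) (nat_lit 76) (nat_lit 0) (XT.lf (nat_lit 0) (nat_lit 12279864741) (nat_lit 380) (nat_lit 66342946824) (nat_lit 456) (nat_lit 4534144270) (nat_lit 115) (nat_lit 5) (nat_lit 120) (nat_lit 5) (nat_lit 121) (nat_lit 5) (nat_lit 443) (nat_lit 435) (nat_lit 322)) (XT.lf (nat_lit 0) (nat_lit 8877659436) (nat_lit 456) (nat_lit 427555542) (nat_lit 76) (nat_lit 77499813611) (nat_lit 114)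 (nat_lit 5) (nat_lit 120) (nat_lit 5) (nat_lit 115) (nat_lit 5) (nat_lit 444) (nat_lit 435) (nat_lit 321)))) (XT.nd (nat_lit 156) (nat_lit 608) (nat_lit 0) (XT.nd (nat_lit 78) (nat_lit 380) (nat_lit 0) (XT.lf (nat_lit 0) (nat_lit 25260802807) (nat_lit 456) (nat_lit 13439085342) (nat_lit 76) (nat_lit 51938480577) (nat_lit 109) (nat_lit 5) (nat_lit 115) (nat_lit 5) (nat_lit 110) (nat_lit 5) (nat_lit 445) (nat_lit 435) (nat_lit 320)) (XT.lf (nat_lit 0) (nat_lit 44560448053) (nat_lit 456) (nat_lit 26792500425) (nat_lit 76) (nat_lit 23345135590) (nat_lit 104) (nat_lit 5) (nat_lit 110) (nat_lit 5) (nat_lit 105) (nat_lit 5) (nat_lit 446) (nat_lit 435) (nat_lit 319))) (XT.nd (nat_lit 78) (nat_lit 304) (nat_lit 0) (XT.lf (nat_lit 0) (nat_lit 58377288506) (nat_lit 304) (nat_lit 8827259308) (nat_lit 380) (nat_lit 31788005158) (nat_lit 100) (nat_lit 5) (nat_lit 104) (nat_lit 5) (nat_lit 105) (nat_lit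 5) (nat_lit 447) (nat_lit 435) (nat_lit 318)) (XT.lf (nat_lit 0) (nat_lit 48331326862) (nat_lit 304) (nat_lit 45472914721) (nat_lit 380) (nat_lit 9719134946) (nat_lit 96) (nat_lit 5) (nat_lit 100) (nat_lit 5) (nat_lit 101) (nat_lit 5) (nat_lit 448) (nat_lit 435) (nat_lit 317))))))))
noncomputable def xc99 : XT := (XT.nd (nat_lit 2106) (nat_lit 1520) (nat_lit 0) (XT.nd (nat_lit 1014) (nat_lit 1900) (nat_lit 0) (XT.nd (nat_lit 468) (nat_lit 1368) (nat_lit 0) (XT.nd (nat_lit 234) (nat_lit 532) (nat_lit 0) (XT.nd (nat_lit 78) (nat_lit 532) (nat_lit 0) (XT.lf (nat_lit 0) (nat_lit 15490043861) (nat_lit 304) (nat_lit 70387943737) (nat_lit 76) (nat_lit 22436331090) (nat_lit 92) (nat_lit 5) (nat_lit 96) (nat_lit 5) (nat_lit 93) (nat_lit 5) (nat_lit 449) (nat_lit 435) (nat_lit 316)) (XT.nd (nat_lit 78) (nat_lit 228) (nat_lit 0) (XT.lf (nat_lit 0) (nat_lit 26938935472) (nat_lit 304) (nat_lit 17604346054)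 (nat_lit 380) (nat_lit 68828896765) (nat_lit 88) (nat_lit 5) (nat_lit 92) (nat_lit 5) (nat_lit 93) (nat_lit 5) (nat_lit 450) (nat_lit 435) (nat_lit 315)) (XT.lf (nat_lit 0) (nat_lit 15386573775) (nat_lit 228) (nat_lit 62895836563) (nat_lit 304) (nat_lit 40434175052) (nat_lit 85) (nat_lit 5) (nat_lit 88) (nat_lit 5) (nat_lit 89) (nat_lit 5) (nat_lit 451) (nat_lit 435) (nat_lit 314)))) (XT.nd (nat_lit 78) (nat_lit 304) (nat_lit 0) (XT.lf (nat_lit 0) (nat_lit 3667686544) (nat_lit 228) (nat_lit 113088114137) (nat_lit 304) (nat_lit 7630988126) (nat_lit 82) (nat_lit 5) (nat_lit 85) (nat_lit 5) (nat_lit 86) (nat_lit 5) (nat_lit 452) (nat_lit 435) (nat_lit 313)) (XT.nd (nat_lit 78) (nat_lit 228) (nat_lit 0) (XT.lf (nat_lit 0) (nat_lit 29795707989) (nat_lit 304) (nat_lit 9031068604) (nat_lit 76) (nat_lit 91517687432) (nat_lit 81) (nat_lit 5) (nat_lit 85) (nat_lit 5) (nat_lit 82) (nat_lit 5) (nat_lit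 453) (nat_lit 435) (nat_lit 312)) (XT.lf (nat_lit 0) (nat_lit 72427102056) (nat_lit 304) (nat_lit 22212673018) (nat_lit 76) (nat_lit 42008827786) (nat_lit 78) (nat_lit 5) (nat_lit 82) (nat_lit 5) (nat_lit 79) (nat_lit 5) (nat_lit 454) (nat_lit 435) (nat_lit 311))))) (XT.nd (nat_lit 234) (nat_lit 684) (nat_lit 0) (XT.nd (nat_lit 78) (nat_lit 456) (nat_lit 0) (XT.lf (nat_lit 0) (nat_lit 107433469480) (nat_lit 228) (nat_lit 13526512727) (nat_lit 304) (nat_lit 22372542101) (nat_lit 75) (nat_lit 5) (nat_lit 78) (nat_lit 5) (nat_lit 79) (nat_lit 5) (nat_lit 455) (nat_lit 435) (nat_lit 310)) (XT.nd (nat_lit 78) (nat_lit 228) (nat_lit 0) (XT.lf (nat_lit 0) (nat_lit 25250865236) (nat_lit 228) (nat_lit 51062332456) (nat_lit 76) (nat_lit 74062291739) (nat_lit 72) (nat_lit 5) (nat_lit 75) (nat_lit 5) (nat_lit 73) (nat_lit 5) (nat_lit 456) (nat_lit 435) (nat_lit 309)) (XT.lf (nat_lit 0) (nat_lit 78393313709)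 (nat_lit 304) (nat_lit 67080006959) (nat_lit 76) (nat_lit 12365583465) (nat_lit 69) (nat_lit 5) (nat_lit 73) (nat_lit 5) (nat_lit 70) (nat_lit 5) (nat_lit 457) (nat_lit 435) (nat_lit 308)))) (XT.nd (nat_lit 156) (nat_lit 304) (nat_lit 0) (XT.nd (nat_lit 78) (nat_lit 228) (nat_lit 0) (XT.lf (nat_lit 0) (nat_lit 81190253797) (nat_lit 152) (nat_lit 58054511553) (nat_lit 228) (nat_lit 26481746475) (nat_lit 67) (nat_lit 5) (nat_lit 69) (nat_lit 5) (nat_lit 70) (nat_lit 5) (nat_lit 458) (nat_lit 435) (nat_lit 307)) (XT.lf (nat_lit 0) (nat_lit 32649463624) (nat_lit 228) (nat_lit 103406097685) (nat_lit 76) (nat_lit 38019913083) (nat_lit 64) (nat_lit 5) (nat_lit 67) (nat_lit 5) (nat_lit 65) (nat_lit 5) (nat_lit 459) (nat_lit 435) (nat_lit 306))) (XT.nd (nat_lit 78) (nat_lit 152) (nat_lit 0) (XT.lf (nat_lit 0) (nat_lit 58720080246) (nat_lit 152) (nat_lit 40267328361) (nat_lit 228) (nat_lit 83913037679)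 (nat_lit 62) (nat_lit 5) (nat_lit 64) (nat_lit 5) (nat_lit 65) (nat_lit 5) (nat_lit 460) (nat_lit 435) (nat_lit 305)) (XT.lf (nat_lit 0) (nat_lit 45610173820) (nat_lit 152) (nat_lit 128550852652) (nat_lit 228) (nat_lit 18093957729) (nat_lit 60) (nat_lit 5) (nat_lit 62) (nat_lit 5) (nat_lit 63) (nat_lit 5) (nat_lit 461) (nat_lit 435) (nat_lit 304)))))) (XT.nd (nat_lit 546) (nat_lit 836) (nat_lit 0) (XT.nd (nat_lit 234) (nat_lit 608) (nat_lit 0) (XT.nd (nat_lit 78) (nat_lit 228) (nat_lit 0) (XT.lf (nat_lit 0) (nat_lit 30605256822) (nat_lit 152) (nat_lit 24044062143) (nat_lit 228) (nat_lit 147499464574) (nat_lit 57) (nat_lit 5) (nat_lit 59) (nat_lit 5) (nat_lit 60) (nat_lit 5) (nat_lit 462) (nat_lit 435) (nat_lit 303)) (XT.nd (nat_lit 78) (nat_lit 76) (nat_lit 0) (XT.lf (nat_lit 0) (nat_lit 13254918376) (nat_lit 152) (nat_lit 123521063334) (nat_lit 228) (nat_lit 75833381708) (nat_lit 55) (nat_lit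 5) (nat_lit 57) (nat_lit 5) (nat_lit 58) (nat_lit 5) (nat_lit 463) (nat_lit 435) (nat_lit 302)) (XT.lf (nat_lit 0) (nat_lit 4957792067) (nat_lit 228) (nat_lit 5274384059) (nat_lit 76) (nat_lit 213501294902) (nat_lit 54) (nat_lit 5) (nat_lit 57) (nat_lit 5) (nat_lit 55) (nat_lit 5) (nat_lit 464) (nat_lit 435) (nat_lit 301)))) (XT.nd (nat_lit 156) (nat_lit 304) (nat_lit 0) (XT.nd (nat_lit 78) (nat_lit 152) (nat_lit 0) (XT.lf (nat_lit 0) (nat_lit 94690517278) (nat_lit 228) (nat_lit 27578839982) (nat_lit 76) (nat_lit 113159237073) (nat_lit 52) (nat_lit 5) (nat_lit 55) (nat_lit 5) (nat_lit 53) (nat_lit 5) (nat_lit 465) (nat_lit 435) (nat_lit 300)) (XT.lf (nat_lit 0) (nat_lit 194952221031) (nat_lit 228) (nat_lit 51649619149) (nat_lit 76) (nat_lit 1289969381) (nat_lit 50) (nat_lit 5) (nat_lit 53) (nat_lit 5) (nat_lit 51) (nat_lit 4) (nat_lit 466) (nat_lit 435) (nat_lit 299))) (XT.nd (nat_lit 78)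 (nat_lit 152) (nat_lit 0) (XT.lf (nat_lit 0) (nat_lit 46011409148) (nat_lit 152) (nat_lit 80465410104) (nat_lit 76) (nat_lit 134569110421) (nat_lit 48) (nat_lit 5) (nat_lit 50) (nat_lit 5) (nat_lit 49) (nat_lit 5) (nat_lit 467) (nat_lit 435) (nat_lit 298)) (XT.lf (nat_lit 0) (nat_lit 154618624089) (nat_lit 228) (nat_lit 112844682740) (nat_lit 76) (nat_lit 7565935390) (nat_lit 46) (nat_lit 5) (nat_lit 49) (nat_lit 5) (nat_lit 47) (nat_lit 4) (nat_lit 468) (nat_lit 435) (nat_lit 297))))) (XT.nd (nat_lit 234) (nat_lit 456) (nat_lit 0) (XT.nd (nat_lit 78) (nat_lit 304) (nat_lit 0) (XT.lf (nat_lit 0) (nat_lit 139362688117) (nat_lit 76) (nat_lit 138284300830) (nat_lit 152) (nat_lit 12197602248) (nat_lit 45) (nat_lit 5) (nat_lit 46) (nat_lit 5) (nat_lit 47) (nat_lit 4) (nat_lit 469) (nat_lit 435) (nat_lit 296)) (XT.nd (nat_lit 78) (nat_lit 76) (nat_lit 0) (XT.lf (nat_lit 0) (nat_lit 105174823814)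 (nat_lit 228) (nat_lit 193738619527) (nat_lit 76) (nat_lit 6657386226) (nat_lit 42) (nat_lit 5) (nat_lit 45) (nat_lit 5) (nat_lit 43) (nat_lit 4) (nat_lit 470) (nat_lit 435) (nat_lit 295)) (XT.lf (nat_lit 0) (nat_lit 77996083888) (nat_lit 76) (nat_lit 159732563306) (nat_lit 152) (nat_lit 84505574443) (nat_lit 41) (nat_lit 5) (nat_lit 42) (nat_lit 5) (nat_lit 43) (nat_lit 4) (nat_lit 471) (nat_lit 435) (nat_lit 294)))) (XT.nd (nat_lit 156) (nat_lit 228) (nat_lit 0) (XT.nd (nat_lit 78) (nat_lit 0) (nat_lit 0) (XT.lf (nat_lit 0) (nat_lit 38879372252) (nat_lit 152) (nat_lit 4512129544) (nat_lit 228) (nat_lit 296605612582) (nat_lit 38) (nat_lit 5) (nat_lit 40) (nat_lit 5) (nat_lit 41) (nat_lit 5) (nat_lit 472) (nat_lit 435) (nat_lit 293)) (XT.lf (nat_lit 0) (nat_lit 185469864021) (nat_lit 228) (nat_lit 9642754344) (nat_lit 76) (nat_lit 163653644172) (nat_lit 38) (nat_lit 5) (nat_lit 41) (nat_lit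 5) (nat_lit 39) (nat_lit 4) (nat_lit 473) (nat_lit 435) (nat_lit 292))) (XT.nd (nat_lit 78) (nat_lit 152) (nat_lit 0) (XT.lf (nat_lit 0) (nat_lit 315160446026) (nat_lit 76) (nat_lit 28750237547) (nat_lit 152) (nat_lit 34876449597) (nat_lit 37) (nat_lit 5) (nat_lit 38) (nat_lit 5) (nat_lit 39) (nat_lit 4) (nat_lit 474) (nat_lit 435) (nat_lit 291)) (XT.lf (nat_lit 0) (nat_lit 117836842753) (nat_lit 152) (nat_lit 129726757573) (nat_lit 76) (nat_lit 152412187940) (nat_lit 35) (nat_lit 5) (nat_lit 37) (nat_lit 5) (nat_lit 36) (nat_lit 4) (nat_lit 475) (nat_lit 435) (nat_lit 290))))))) (XT.nd (nat_lit 1014) (nat_lit 456) (nat_lit 0) (XT.nd (nat_lit 468) (nat_lit 532) (nat_lit 0) (XT.nd (nat_lit 234) (nat_lit 228) (nat_lit 0) (XT.nd (nat_lit 78) (nat_lit 228) (nat_lit 0) (XT.lf (nat_lit 0) (nat_lit 216128438165) (nat_lit 76) (nat_lit 70418447236) (nat_lit 152) (nat_lit 136033983756) (nat_lit 34)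 (nat_lit 5) (nat_lit 35) (nat_lit 5) (nat_lit 36) (nat_lit 4) (nat_lit 476) (nat_lit 435) (nat_lit 289)) (XT.nd (nat_lit 78) (nat_lit 76) (nat_lit 0) (XT.lf (nat_lit 0) (nat_lit 27700382331) (nat_lit 152) (nat_lit 296826634874) (nat_lit 76) (nat_lit 122118480937) (nat_lit 32) (nat_lit 5) (nat_lit 34) (nat_lit 5) (nat_lit 33) (nat_lit 4) (nat_lit 477) (nat_lit 435) (nat_lit 288)) (XT.lf (nat_lit 0) (nat_lit 68149076136) (nat_lit 76) (nat_lit 137588394405) (nat_lit 152) (nat_lit 266487826615) (nat_lit 31) (nat_lit 5) (nat_lit 32) (nat_lit 5) (nat_lit 33) (nat_lit 4) (nat_lit 478) (nat_lit 435) (nat_lit 287)))) (XT.nd (nat_lit 78) (nat_lit 228) (nat_lit 0) (XT.lf (nat_lit 0) (nat_lit 404276435161) (nat_lit 152) (nat_lit 27759982998) (nat_lit 0) (nat_lit 67502116490) (nat_lit 31) (nat_lit 5) (nat_lit 33) (nat_lit 4) (nat_lit 31) (nat_lit 4) (nat_lit 479) (nat_lit 435) (nat_lit 286)) (XT.nd (nat_lit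 78) (nat_lit 76) (nat_lit 0) (XT.lf (nat_lit 0) (nat_lit 95319152832) (nat_lit 152) (nat_lit 141370316502) (nat_lit 76) (nat_lit 291851008272) (nat_lit 29) (nat_lit 5) (nat_lit 31) (nat_lit 5) (nat_lit 30) (nat_lit 4) (nat_lit 480) (nat_lit 435) (nat_lit 285)) (XT.lf (nat_lit 0) (nat_lit 283919973040) (nat_lit 76) (nat_lit 18857975566) (nat_lit 152) (nat_lit 256758115565) (nat_lit 28) (nat_lit 5) (nat_lit 29) (nat_lit 5) (nat_lit 30) (nat_lit 4) (nat_lit 481) (nat_lit 435) (nat_lit 284))))) (XT.nd (nat_lit 234) (nat_lit 304) (nat_lit 0) (XT.nd (nat_lit 78) (nat_lit 152) (nat_lit 0) (XT.lf (nat_lit 0) (nat_lit 156998949845) (nat_lit 76) (nat_lit 378166932344) (nat_lit 76) (nat_lit 57428793784) (nat_lit 27) (nat_lit 4) (nat_lit 28) (nat_lit 5) (nat_lit 28) (nat_lit 4) (nat_lit 482) (nat_lit 435) (nat_lit 283)) (XT.nd (nat_lit 78) (nat_lit 0) (nat_lit 0) (XT.lf (nat_lit 0) (nat_lit 3249720796)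 (nat_lit 76) (nat_lit 154793233732) (nat_lit 152) (nat_lit 469869392276) (nat_lit 25) (nat_lit 5) (nat_lit 26) (nat_lit 5) (nat_lit 27) (nat_lit 4) (nat_lit 483) (nat_lit 435) (nat_lit 282)) (XT.lf (nat_lit 0) (nat_lit 397828933954) (nat_lit 152) (nat_lit 175361320798) (nat_lit 0) (nat_lit 92363677962) (nat_lit 25) (nat_lit 5) (nat_lit 27) (nat_lit 4) (nat_lit 25) (nat_lit 4) (nat_lit 484) (nat_lit 435) (nat_lit 281)))) (XT.nd (nat_lit 156) (nat_lit 76) (nat_lit 0) (XT.nd (nat_lit 78) (nat_lit 152) (nat_lit 0) (XT.lf (nat_lit 0) (nat_lit 317433294827) (nat_lit 76) (nat_lit 346930337914) (nat_lit 76) (nat_lit 41464920719) (nat_lit 24) (nat_lit 4) (nat_lit 25) (nat_lit 5) (nat_lit 25) (nat_lit 4) (nat_lit 485) (nat_lit 435) (nat_lit 280)) (XT.lf (nat_lit 0) (nat_lit 106945715072) (nat_lit 76) (nat_lit 94230519820) (nat_lit 152) (nat_lit 547751809792) (nat_lit 22) (nat_lit 5) (nat_lit 23) (nat_lit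 5) (nat_lit 24) (nat_lit 4) (nat_lit 486) (nat_lit 435) (nat_lit 279))) (XT.nd (nat_lit 78) (nat_lit 76) (nat_lit 0) (XT.lf (nat_lit 0) (nat_lit 471461397278) (nat_lit 152) (nat_lit 142954159587) (nat_lit 0) (nat_lit 180541678552) (nat_lit 22) (nat_lit 5) (nat_lit 24) (nat_lit 4) (nat_lit 22) (nat_lit 4) (nat_lit 487) (nat_lit 435) (nat_lit 278)) (XT.lf (nat_lit 0) (nat_lit 407447760027) (nat_lit 76) (nat_lit 363871669574) (nat_lit 76) (nat_lit 72951828973) (nat_lit 21) (nat_lit 4) (nat_lit 22) (nat_lit 5) (nat_lit 22) (nat_lit 4) (nat_lit 488) (nat_lit 435) (nat_lit 277)))))) (XT.nd (nat_lit 58344) (nat_lit 0) (nat_lit 8360) (XT.nd (nat_lit 234) (nat_lit 228) (nat_lit 0) (XT.nd (nat_lit 78) (nat_lit 76) (nat_lit 0) (XT.lf (nat_lit 0) (nat_lit 109973695218) (nat_lit 76) (nat_lit 85584182179) (nat_lit 152) (nat_lit 701605856178) (nat_lit 19) (nat_lit 5) (nat_lit 20) (nat_lit 5) (nat_lit 21)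 (nat_lit 4) (nat_lit 489) (nat_lit 435) (nat_lit 276)) (XT.nd (nat_lit 78) (nat_lit 76) (nat_lit 0) (XT.lf (nat_lit 0) (nat_lit 494116574729) (nat_lit 152) (nat_lit 242505177829) (nat_lit 0) (nat_lit 217049852887) (nat_lit 19) (nat_lit 5) (nat_lit 21) (nat_lit 4) (nat_lit 19) (nat_lit 4) (nat_lit 490) (nat_lit 435) (nat_lit 275)) (XT.lf (nat_lit 0) (nat_lit 355695421412) (nat_lit 76) (nat_lit 467860842423) (nat_lit 76) (nat_lit 190794028439) (nat_lit 18) (nat_lit 4) (nat_lit 19) (nat_lit 5) (nat_lit 19) (nat_lit 4) (nat_lit 491) (nat_lit 435) (nat_lit 274)))) (XT.nd (nat_lit 156) (nat_lit 76) (nat_lit 0) (XT.nd (nat_lit 78) (nat_lit 76) (nat_lit 0) (XT.lf (nat_lit 0) (nat_lit 100577589888) (nat_lit 152) (nat_lit 70882840026) (nat_lit 76) (nat_lit 908130529123) (nat_lit 17) (nat_lit 5) (nat_lit 19) (nat_lit 5) (nat_lit 18) (nat_lit 4) (nat_lit 492) (nat_lit 435) (nat_lit 273)) (XT.lf (nat_lit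 0) (nat_lit 420228925854) (nat_lit 152) (nat_lit 572727227479) (nat_lit 0) (nat_lit 156355613192) (nat_lit 16) (nat_lit 5) (nat_lit 18) (nat_lit 4) (nat_lit 16) (nat_lit 4) (nat_lit 493) (nat_lit 435) (nat_lit 272))) (XT.nd (nat_lit 78) (nat_lit 0) (nat_lit 0) (XT.lf (nat_lit 0) (nat_lit 52603918574) (nat_lit 76) (nat_lit 717815670669) (nat_lit 76) (nat_lit 453942288346) (nat_lit 15) (nat_lit 4) (nat_lit 16) (nat_lit 5) (nat_lit 16) (nat_lit 4) (nat_lit 494) (nat_lit 435) (nat_lit 271)) (XT.lf (nat_lit 0) (nat_lit 748413109224) (nat_lit 76) (nat_lit 410188758521) (nat_lit 76) (nat_lit 146315311697) (nat_lit 15) (nat_lit 4) (nat_lit 16) (nat_lit 5) (nat_lit 16) (nat_lit 4) (nat_lit 495) (nat_lit 435) (nat_lit 270))))) (XT.nd (nat_lit 234) (nat_lit 0) (nat_lit 152) (XT.nd (nat_lit 78) (nat_lit 0) (nat_lit 76) (XT.lf (nat_lit 0) (nat_lit 10748763987) (nat_lit 836) (nat_lit 10852428058) (nat_lit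 836) (nat_lit 10852428058) (nat_lit 125) (nat_lit 3) (nat_lit 136) (nat_lit 3) (nat_lit 136) (nat_lit 5) (nat_lit 436) (nat_lit 436) (nat_lit 328)) (XT.nd (nat_lit 78) (nat_lit 0) (nat_lit 0) (XT.lf (nat_lit 0) (nat_lit 22965501032) (nat_lit 760) (nat_lit 37457738966) (nat_lit 836) (nat_lit 7049876931) (nat_lit 126) (nat_lit 5) (nat_lit 136) (nat_lit 5) (nat_lit 137) (nat_lit 5) (nat_lit 437) (nat_lit 436) (nat_lit 327)) (XT.lf (nat_lit 76) (nat_lit 16205518399) (nat_lit 0) (nat_lit 9708769296) (nat_lit 836) (nat_lit 44261808234) (nat_lit 127) (nat_lit 5) (nat_lit 126) (nat_lit 5) (nat_lit 137) (nat_lit 5) (nat_lit 438) (nat_lit 436) (nat_lit 326)))) (XT.nd (nat_lit 156) (nat_lit 0) (nat_lit 152) (XT.nd (nat_lit 78) (nat_lit 0) (nat_lit 76) (XT.lf (nat_lit 76) (nat_lit 1777902703) (nat_lit 0) (nat_lit 28713353950) (nat_lit 836) (nat_lit 42534443490) (nat_lit 128) (nat_lit 5) (nat_lit 127)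 (nat_lit 5) (nat_lit 138) (nat_lit 5) (nat_lit 439) (nat_lit 436) (nat_lit 325)) (XT.lf (nat_lit 0) (nat_lit 36958318935) (nat_lit 760) (nat_lit 12730154369) (nat_lit 836) (nat_lit 26338603396) (nat_lit 128) (nat_lit 5) (nat_lit 138) (nat_lit 5) (nat_lit 139) (nat_lit 5) (nat_lit 440) (nat_lit 436) (nat_lit 324))) (XT.nd (nat_lit 78) (nat_lit 0) (nat_lit 0) (XT.lf (nat_lit 0) (nat_lit 45331168467) (nat_lit 760) (nat_lit 27668159134) (nat_lit 836) (nat_lit 6199815406) (nat_lit 129) (nat_lit 5) (nat_lit 139) (nat_lit 5) (nat_lit 140) (nat_lit 5) (nat_lit 441) (nat_lit 436) (nat_lit 323)) (XT.lf (nat_lit 76) (nat_lit 39184936329) (nat_lit 0) (nat_lit 16862131547) (nat_lit 836) (nat_lit 26494246328) (nat_lit 130) (nat_lit 5) (nat_lit 129) (nat_lit 5) (nat_lit 140) (nat_lit 5) (nat_lit 442) (nat_lit 436) (nat_lit 322))))))))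
noncomputable def xc100 : XT := (XT.nd (nat_lit 2028) (nat_lit 2432) (nat_lit 0) (XT.nd (nat_lit 1014) (nat_lit 2280) (nat_lit 0) (XT.nd (nat_lit 468) (nat_lit 1672) (nat_lit 0) (XT.nd (nat_lit 234) (nat_lit 1064) (nat_lit 0) (XT.nd (nat_lit 78) (nat_lit 456) (nat_lit 0) (XT.lf (nat_lit 0) (nat_lit 26399792609) (nat_lit 760) (nat_lit 42804119795) (nat_lit 836) (nat_lit 16867763668) (nat_lit 120) (nat_lit 5) (nat_lit 130) (nat_lit 5) (nat_lit 131) (nat_lit 5) (nat_lit 443) (nat_lit 436) (nat_lit 321)) (XT.nd (nat_lit 78) (nat_lit 76) (nat_lit 0) (XT.lf (nat_lit 0) (nat_lit 13292689365) (nat_lit 380) (nat_lit 71651064507) (nat_lit 456) (nat_lit 4864191134) (nat_lit 115) (nat_lit 5) (nat_lit 120) (nat_lit 5) (nat_lit 121) (nat_lit 5) (nat_lit 444) (nat_lit 436) (nat_lit 320)) (XT.lf (nat_lit 0) (nat_lit 9617167157) (nat_lit 456) (nat_lit 432600317) (nat_lit 76) (nat_lit 83698188577) (nat_lit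 114) (nat_lit 5) (nat_lit 120) (nat_lit 5) (nat_lit 115) (nat_lit 5) (nat_lit 445) (nat_lit 436) (nat_lit 319)))) (XT.nd (nat_lit 78) (nat_lit 684) (nat_lit 0) (XT.lf (nat_lit 0) (nat_lit 27309232662) (nat_lit 456) (nat_lit 14484937576) (nat_lit 76) (nat_lit 56093880374) (nat_lit 109) (nat_lit 5) (nat_lit 115) (nat_lit 5) (nat_lit 110) (nat_lit 5) (nat_lit 446) (nat_lit 436) (nat_lit 318)) (XT.nd (nat_lit 78) (nat_lit 304) (nat_lit 0) (XT.lf (nat_lit 0) (nat_lit 48151276697) (nat_lit 456) (nat_lit 28906623291) (nat_lit 76) (nat_lit 25214722527) (nat_lit 104) (nat_lit 5) (nat_lit 110) (nat_lit 5) (nat_lit 105) (nat_lit 5) (nat_lit 447) (nat_lit 436) (nat_lit 317)) (XT.lf (nat_lit 0) (nat_lit 63075476404) (nat_lit 304) (nat_lit 9529939876) (nat_lit 380) (nat_lit 34305307699) (nat_lit 100) (nat_lit 5) (nat_lit 104) (nat_lit 5) (nat_lit 105) (nat_lit 5) (nat_lit 448) (nat_lit 436) (nat_lit 316)))))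 (XT.nd (nat_lit 234) (nat_lit 760) (nat_lit 0) (XT.nd (nat_lit 78) (nat_lit 608) (nat_lit 0) (XT.lf (nat_lit 0) (nat_lit 52225748137) (nat_lit 304) (nat_lit 49106008688) (nat_lit 380) (nat_lit 10472323625) (nat_lit 96) (nat_lit 5) (nat_lit 100) (nat_lit 5) (nat_lit 101) (nat_lit 5) (nat_lit 449) (nat_lit 436) (nat_lit 315)) (XT.nd (nat_lit 78) (nat_lit 304) (nat_lit 0) (XT.lf (nat_lit 0) (nat_lit 16751574919) (nat_lit 304) (nat_lit 75990487743) (nat_lit 76) (nat_lit 24236278612) (nat_lit 92) (nat_lit 5) (nat_lit 96) (nat_lit 5) (nat_lit 93) (nat_lit 5) (nat_lit 450) (nat_lit 436) (nat_lit 314)) (XT.lf (nat_lit 0) (nat_lit 29121303597) (nat_lit 304) (nat_lit 19006539608) (nat_lit 380) (nat_lit 74313048344) (nat_lit 88) (nat_lit 5) (nat_lit 92) (nat_lit 5) (nat_lit 93) (nat_lit 5) (nat_lit 451) (nat_lit 436) (nat_lit 313)))) (XT.nd (nat_lit 156) (nat_lit 304) (nat_lit 0) (XT.nd (nat_lit 78)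 (nat_lit 228) (nat_lit 0) (XT.lf (nat_lit 0) (nat_lit 16644491558) (nat_lit 228) (nat_lit 67920558249) (nat_lit 304) (nat_lit 43647854483) (nat_lit 85) (nat_lit 5) (nat_lit 88) (nat_lit 5) (nat_lit 89) (nat_lit 5) (nat_lit 452) (nat_lit 436) (nat_lit 312)) (XT.lf (nat_lit 0) (nat_lit 3987780720) (nat_lit 228) (nat_lit 122127562661) (nat_lit 304) (nat_lit 8221429414) (nat_lit 82) (nat_lit 5) (nat_lit 85) (nat_lit 5) (nat_lit 86) (nat_lit 5) (nat_lit 453) (nat_lit 436) (nat_lit 311))) (XT.nd (nat_lit 78) (nat_lit 228) (nat_lit 0) (XT.lf (nat_lit 0) (nat_lit 32197324284) (nat_lit 304) (nat_lit 9728252682) (nat_lit 76) (nat_lit 98845541626) (nat_lit 81) (nat_lit 5) (nat_lit 85) (nat_lit 5) (nat_lit 82) (nat_lit 5) (nat_lit 454) (nat_lit 436) (nat_lit 310)) (XT.lf (nat_lit 0) (nat_lit 78238389719) (nat_lit 304) (nat_lit 23964742754) (nat_lit 76) (nat_lit 45376498407) (nat_lit 78) (nat_lit 5) (nat_lit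 82) (nat_lit 5) (nat_lit 79) (nat_lit 5) (nat_lit 455) (nat_lit 436) (nat_lit 309)))))) (XT.nd (nat_lit 468) (nat_lit 1064) (nat_lit 0) (XT.nd (nat_lit 234) (nat_lit 532) (nat_lit 0) (XT.nd (nat_lit 78) (nat_lit 456) (nat_lit 0) (XT.lf (nat_lit 0) (nat_lit 116052007102) (nat_lit 228) (nat_lit 14600997591) (nat_lit 304) (nat_lit 24145306444) (nat_lit 75) (nat_lit 5) (nat_lit 78) (nat_lit 5) (nat_lit 79) (nat_lit 5) (nat_lit 456) (nat_lit 436) (nat_lit 308)) (XT.nd (nat_lit 78) (nat_lit 228) (nat_lit 0) (XT.lf (nat_lit 0) (nat_lit 27286691310) (nat_lit 228) (nat_lit 55123305817) (nat_lit 76) (nat_lit 79994740159) (nat_lit 72) (nat_lit 5) (nat_lit 75) (nat_lit 5) (nat_lit 73) (nat_lit 5) (nat_lit 457) (nat_lit 436) (nat_lit 307)) (XT.lf (nat_lit 0) (nat_lit 84679852342) (nat_lit 304) (nat_lit 72422812487) (nat_lit 76) (nat_lit 13362594758) (nat_lit 69) (nat_lit 5) (nat_lit 73) (nat_lit 5) (nat_lit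 70) (nat_lit 5) (nat_lit 458) (nat_lit 436) (nat_lit 306)))) (XT.nd (nat_lit 78) (nat_lit 380) (nat_lit 0) (XT.lf (nat_lit 0) (nat_lit 87708043719) (nat_lit 152) (nat_lit 62690612213) (nat_lit 228) (nat_lit 28585258408) (nat_lit 67) (nat_lit 5) (nat_lit 69) (nat_lit 5) (nat_lit 70) (nat_lit 5) (nat_lit 459) (nat_lit 436) (nat_lit 305)) (XT.nd (nat_lit 78) (nat_lit 152) (nat_lit 0) (XT.lf (nat_lit 0) (nat_lit 35275362879) (nat_lit 228) (nat_lit 111655969278) (nat_lit 76) (nat_lit 41069480464) (nat_lit 64) (nat_lit 5) (nat_lit 67) (nat_lit 5) (nat_lit 65) (nat_lit 5) (nat_lit 460) (nat_lit 436) (nat_lit 304)) (XT.lf (nat_lit 0) (nat_lit 63439320014) (nat_lit 152) (nat_lit 43480328451) (nat_lit 228) (nat_lit 90612168745) (nat_lit 62) (nat_lit 5) (nat_lit 64) (nat_lit 5) (nat_lit 65) (nat_lit 5) (nat_lit 461) (nat_lit 436) (nat_lit 303))))) (XT.nd (nat_lit 234) (nat_lit 532) (nat_lit 0) (XT.nd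 (nat_lit 78) (nat_lit 380) (nat_lit 0) (XT.lf (nat_lit 0) (nat_lit 49280191561) (nat_lit 152) (nat_lit 138826435211) (nat_lit 228) (nat_lit 19528118016) (nat_lit 60) (nat_lit 5) (nat_lit 62) (nat_lit 5) (nat_lit 63) (nat_lit 5) (nat_lit 462) (nat_lit 436) (nat_lit 302)) (XT.nd (nat_lit 78) (nat_lit 152) (nat_lit 0) (XT.lf (nat_lit 0) (nat_lit 33074370659) (nat_lit 152) (nat_lit 25959188056) (nat_lit 228) (nat_lit 159286510819) (nat_lit 57) (nat_lit 5) (nat_lit 59) (nat_lit 5) (nat_lit 60) (nat_lit 5) (nat_lit 463) (nat_lit 436) (nat_lit 301)) (XT.lf (nat_lit 0) (nat_lit 14335570285) (nat_lit 152) (nat_lit 133394311222) (nat_lit 228) (nat_lit 81887638092) (nat_lit 55) (nat_lit 5) (nat_lit 57) (nat_lit 5) (nat_lit 58) (nat_lit 5) (nat_lit 464) (nat_lit 436) (nat_lit 300)))) (XT.nd (nat_lit 156) (nat_lit 304) (nat_lit 0) (XT.nd (nat_lit 78) (nat_lit 152) (nat_lit 0) (XT.lf (nat_lit 0) (nat_lit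 5365542119) (nat_lit 228) (nat_lit 5677207457) (nat_lit 76) (nat_lit 230588841185) (nat_lit 54) (nat_lit 5) (nat_lit 57) (nat_lit 5) (nat_lit 55) (nat_lit 5) (nat_lit 465) (nat_lit 436) (nat_lit 299)) (XT.lf (nat_lit 0) (nat_lit 102276467144) (nat_lit 228) (nat_lit 29766440547) (nat_lit 76) (nat_lit 122219437271) (nat_lit 52) (nat_lit 5) (nat_lit 55) (nat_lit 5) (nat_lit 53) (nat_lit 5) (nat_lit 466) (nat_lit 436) (nat_lit 298))) (XT.nd (nat_lit 78) (nat_lit 152) (nat_lit 0) (XT.lf (nat_lit 0) (nat_lit 210558713550) (nat_lit 228) (nat_lit 55763304103) (nat_lit 76) (nat_lit 1400619548) (nat_lit 50) (nat_lit 5) (nat_lit 53) (nat_lit 5) (nat_lit 51) (nat_lit 4) (nat_lit 467) (nat_lit 436) (nat_lit 297)) (XT.lf (nat_lit 0) (nat_lit 49702308007) (nat_lit 152) (nat_lit 86884821554) (nat_lit 76) (nat_lit 145341973960) (nat_lit 48) (nat_lit 5) (nat_lit 50) (nat_lit 5) (nat_lit 49) (nat_lit 5) (nat_lit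 468) (nat_lit 436) (nat_lit 296))))))) (XT.nd (nat_lit 1014) (nat_lit 988) (nat_lit 0) (XT.nd (nat_lit 468) (nat_lit 684) (nat_lit 0) (XT.nd (nat_lit 234) (nat_lit 304) (nat_lit 0) (XT.nd (nat_lit 78) (nat_lit 304) (nat_lit 0) (XT.lf (nat_lit 0) (nat_lit 166997744212) (nat_lit 228) (nat_lit 121854851369) (nat_lit 76) (nat_lit 8178503376) (nat_lit 46) (nat_lit 5) (nat_lit 49) (nat_lit 5) (nat_lit 47) (nat_lit 4) (nat_lit 469) (nat_lit 436) (nat_lit 295)) (XT.nd (nat_lit 78) (nat_lit 228) (nat_lit 0) (XT.lf (nat_lit 0) (nat_lit 150528352713) (nat_lit 76) (nat_lit 149339572144) (nat_lit 152) (nat_lit 13163773749) (nat_lit 45) (nat_lit 5) (nat_lit 46) (nat_lit 5) (nat_lit 47) (nat_lit 4) (nat_lit 470) (nat_lit 436) (nat_lit 294)) (XT.lf (nat_lit 0) (nat_lit 113597814718) (nat_lit 228) (nat_lit 209221156145) (nat_lit 76) (nat_lit 7197073899) (nat_lit 42) (nat_lit 5) (nat_lit 45) (nat_lit 5) (nat_lit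 43) (nat_lit 4) (nat_lit 471) (nat_lit 436) (nat_lit 293)))) (XT.nd (nat_lit 78) (nat_lit 228) (nat_lit 0) (XT.lf (nat_lit 0) (nat_lit 84251604173) (nat_lit 76) (nat_lit 172503919965) (nat_lit 152) (nat_lit 91257005118) (nat_lit 41) (nat_lit 5) (nat_lit 42) (nat_lit 5) (nat_lit 43) (nat_lit 4) (nat_lit 472) (nat_lit 436) (nat_lit 292)) (XT.nd (nat_lit 78) (nat_lit 0) (nat_lit 0) (XT.lf (nat_lit 0) (nat_lit 42005144281) (nat_lit 152) (nat_lit 4865998753) (nat_lit 228) (nat_lit 320325323686) (nat_lit 38) (nat_lit 5) (nat_lit 40) (nat_lit 5) (nat_lit 41) (nat_lit 5) (nat_lit 473) (nat_lit 436) (nat_lit 291)) (XT.lf (nat_lit 0) (nat_lit 200315260517) (nat_lit 228) (nat_lit 10399611554) (nat_lit 76) (nat_lit 176752300404) (nat_lit 38) (nat_lit 5) (nat_lit 41) (nat_lit 5) (nat_lit 39) (nat_lit 4) (nat_lit 474) (nat_lit 436) (nat_lit 290))))) (XT.nd (nat_lit 234) (nat_lit 380) (nat_lit 0) (XT.nd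 (nat_lit 78) (nat_lit 228) (nat_lit 0) (XT.lf (nat_lit 0) (nat_lit 340387211949) (nat_lit 76) (nat_lit 31043772850) (nat_lit 152) (nat_lit 37658746052) (nat_lit 37) (nat_lit 5) (nat_lit 38) (nat_lit 5) (nat_lit 39) (nat_lit 4) (nat_lit 475) (nat_lit 436) (nat_lit 289)) (XT.nd (nat_lit 78) (nat_lit 76) (nat_lit 0) (XT.lf (nat_lit 0) (nat_lit 127271109568) (nat_lit 152) (nat_lit 140091070814) (nat_lit 76) (nat_lit 164611304406) (nat_lit 35) (nat_lit 5) (nat_lit 37) (nat_lit 5) (nat_lit 36) (nat_lit 4) (nat_lit 476) (nat_lit 436) (nat_lit 288)) (XT.lf (nat_lit 0) (nat_lit 233431939662) (nat_lit 76) (nat_lit 76045680290) (nat_lit 152) (nat_lit 146909369024) (nat_lit 34) (nat_lit 5) (nat_lit 35) (nat_lit 5) (nat_lit 36) (nat_lit 4) (nat_lit 477) (nat_lit 436) (nat_lit 287)))) (XT.nd (nat_lit 156) (nat_lit 152) (nat_lit 0) (XT.nd (nat_lit 78) (nat_lit 76) (nat_lit 0) (XT.lf (nat_lit 0) (nat_lit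 29923282124) (nat_lit 152) (nat_lit 320559645148) (nat_lit 76) (nat_lit 131893866795) (nat_lit 32) (nat_lit 5) (nat_lit 34) (nat_lit 5) (nat_lit 33) (nat_lit 4) (nat_lit 478) (nat_lit 436) (nat_lit 286)) (XT.lf (nat_lit 0) (nat_lit 73613552540) (nat_lit 76) (nat_lit 148589471966) (nat_lit 152) (nat_lit 287799968176) (nat_lit 31) (nat_lit 5) (nat_lit 32) (nat_lit 5) (nat_lit 33) (nat_lit 4) (nat_lit 479) (nat_lit 436) (nat_lit 285))) (XT.nd (nat_lit 78) (nat_lit 152) (nat_lit 0) (XT.lf (nat_lit 0) (nat_lit 436624707293) (nat_lit 152) (nat_lit 29968943696) (nat_lit 0) (nat_lit 72907658167) (nat_lit 31) (nat_lit 5) (nat_lit 33) (nat_lit 4) (nat_lit 31) (nat_lit 4) (nat_lit 480) (nat_lit 436) (nat_lit 284)) (XT.lf (nat_lit 0) (nat_lit 102950659790) (nat_lit 152) (nat_lit 152668420439) (nat_lit 76) (nat_lit 315204336497) (nat_lit 29) (nat_lit 5) (nat_lit 31) (nat_lit 5) (nat_lit 30) (nat_lit 4)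 (nat_lit 481) (nat_lit 436) (nat_lit 283)))))) (XT.nd (nat_lit 546) (nat_lit 456) (nat_lit 0) (XT.nd (nat_lit 234) (nat_lit 228) (nat_lit 0) (XT.nd (nat_lit 78) (nat_lit 228) (nat_lit 0) (XT.lf (nat_lit 0) (nat_lit 306644591560) (nat_lit 76) (nat_lit 20361297156) (nat_lit 152) (nat_lit 277292775052) (nat_lit 28) (nat_lit 5) (nat_lit 29) (nat_lit 5) (nat_lit 30) (nat_lit 4) (nat_lit 482) (nat_lit 436) (nat_lit 282)) (XT.nd (nat_lit 78) (nat_lit 152) (nat_lit 0) (XT.lf (nat_lit 0) (nat_lit 169569601294) (nat_lit 76) (nat_lit 408415077623) (nat_lit 76) (nat_lit 62017294524) (nat_lit 27) (nat_lit 4) (nat_lit 28) (nat_lit 5) (nat_lit 28) (nat_lit 4) (nat_lit 483) (nat_lit 436) (nat_lit 281)) (XT.lf (nat_lit 0) (nat_lit 3520145299) (nat_lit 76) (nat_lit 167171609657) (nat_lit 152) (nat_lit 507453311124) (nat_lit 25) (nat_lit 5) (nat_lit 26) (nat_lit 5) (nat_lit 27) (nat_lit 4) (nat_lit 484) (nat_lit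 436) (nat_lit 280)))) (XT.nd (nat_lit 156) (nat_lit 152) (nat_lit 0) (XT.nd (nat_lit 78) (nat_lit 76) (nat_lit 0) (XT.lf (nat_lit 0) (nat_lit 429660288876) (nat_lit 152) (nat_lit 189380378358) (nat_lit 0) (nat_lit 99757327841) (nat_lit 25) (nat_lit 5) (nat_lit 27) (nat_lit 4) (nat_lit 25) (nat_lit 4) (nat_lit 485) (nat_lit 436) (nat_lit 279)) (XT.lf (nat_lit 0) (nat_lit 342837378530) (nat_lit 76) (nat_lit 374680158762) (nat_lit 76) (nat_lit 44777059521) (nat_lit 24) (nat_lit 4) (nat_lit 25) (nat_lit 5) (nat_lit 25) (nat_lit 4) (nat_lit 486) (nat_lit 436) (nat_lit 278))) (XT.nd (nat_lit 78) (nat_lit 0) (nat_lit 0) (XT.lf (nat_lit 0) (nat_lit 115510537971) (nat_lit 76) (nat_lit 101764469433) (nat_lit 152) (nat_lit 591567046967) (nat_lit 22) (nat_lit 5) (nat_lit 23) (nat_lit 5) (nat_lit 24) (nat_lit 4) (nat_lit 487) (nat_lit 436) (nat_lit 277)) (XT.lf (nat_lit 0) (nat_lit 509182701518) (nat_lit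 152) (nat_lit 154381853976) (nat_lit 0) (nat_lit 194989038948) (nat_lit 22) (nat_lit 5) (nat_lit 24) (nat_lit 4) (nat_lit 22) (nat_lit 4) (nat_lit 488) (nat_lit 436) (nat_lit 276))))) (XT.nd (nat_lit 234) (nat_lit 228) (nat_lit 0) (XT.nd (nat_lit 78) (nat_lit 152) (nat_lit 0) (XT.lf (nat_lit 0) (nat_lit 440051843794) (nat_lit 76) (nat_lit 392977336273) (nat_lit 76) (nat_lit 78783569216) (nat_lit 21) (nat_lit 4) (nat_lit 22) (nat_lit 5) (nat_lit 22) (nat_lit 4) (nat_lit 489) (nat_lit 436) (nat_lit 275)) (XT.nd (nat_lit 78) (nat_lit 0) (nat_lit 0) (XT.lf (nat_lit 0) (nat_lit 118779629752) (nat_lit 76) (nat_lit 92426952470) (nat_lit 152) (nat_lit 757730046156) (nat_lit 19) (nat_lit 5) (nat_lit 20) (nat_lit 5) (nat_lit 21) (nat_lit 4) (nat_lit 490) (nat_lit 436) (nat_lit 274)) (XT.lf (nat_lit 0) (nat_lit 533649730825) (nat_lit 152) (nat_lit 261898017142) (nat_lit 0) (nat_lit 234417394267) (nat_lit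 19) (nat_lit 5) (nat_lit 21) (nat_lit 4) (nat_lit 19) (nat_lit 4) (nat_lit 491) (nat_lit 436) (nat_lit 273)))) (XT.nd (nat_lit 156) (nat_lit 76) (nat_lit 0) (XT.nd (nat_lit 78) (nat_lit 76) (nat_lit 0) (XT.lf (nat_lit 0) (nat_lit 384158300842) (nat_lit 76) (nat_lit 505286123631) (nat_lit 76) (nat_lit 206053708076) (nat_lit 18) (nat_lit 4) (nat_lit 19) (nat_lit 5) (nat_lit 19) (nat_lit 4) (nat_lit 492) (nat_lit 436) (nat_lit 272)) (XT.lf (nat_lit 0) (nat_lit 108627241199) (nat_lit 152) (nat_lit 76546644238) (nat_lit 76) (nat_lit 980784178002) (nat_lit 17) (nat_lit 5) (nat_lit 19) (nat_lit 5) (nat_lit 18) (nat_lit 4) (nat_lit 493) (nat_lit 436) (nat_lit 271))) (XT.nd (nat_lit 58032) (nat_lit 0) (nat_lit 8284) (XT.lf (nat_lit 0) (nat_lit 453850581335) (nat_lit 152) (nat_lit 618538765071) (nat_lit 0) (nat_lit 168867194264) (nat_lit 16) (nat_lit 5) (nat_lit 18) (nat_lit 4) (nat_lit 16) (nat_lit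 4) (nat_lit 494) (nat_lit 436) (nat_lit 270)) (XT.lf (nat_lit 0) (nat_lit 11631966905) (nat_lit 836) (nat_lit 11708384325) (nat_lit 836) (nat_lit 11708384325) (nat_lit 125) (nat_lit 3) (nat_lit 136) (nat_lit 3) (nat_lit 136) (nat_lit 5) (nat_lit 437) (nat_lit 437) (nat_lit 326))))))))
noncomputable def xc101 : XT := (XT.nd (nat_lit 2106) (nat_lit 2888) (nat_lit 0) (XT.nd (nat_lit 1014) (nat_lit 2964) (nat_lit 0) (XT.nd (nat_lit 468) (nat_lit 2280) (nat_lit 0) (XT.nd (nat_lit 234) (nat_lit 0) (nat_lit 152) (XT.nd (nat_lit 78) (nat_lit 0) (nat_lit 0) (XT.lf (nat_lit 0) (nat_lit 24845944234) (nat_lit 760) (nat_lit 40428439292) (nat_lit 836) (nat_lit 7594405812) (nat_lit 126) (nat_lit 5) (nat_lit 136) (nat_lit 5) (nat_lit 137) (nat_lit 5) (nat_lit 438) (nat_lit 437) (nat_lit 325)) (XT.nd (nat_lit 78) (nat_lit 0) (nat_lit 76) (XT.lf (nat_lit 76) (nat_lit 17526752263) (nat_lit 0) (nat_lit 10501068415)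 (nat_lit 836) (nat_lit 47760327883) (nat_lit 127) (nat_lit 5) (nat_lit 126) (nat_lit 5) (nat_lit 137) (nat_lit 5) (nat_lit 439) (nat_lit 437) (nat_lit 324)) (XT.lf (nat_lit 76) (nat_lit 1946029406) (nat_lit 0) (nat_lit 31022104699) (nat_lit 836) (nat_lit 45897728810) (nat_lit 128) (nat_lit 5) (nat_lit 127) (nat_lit 5) (nat_lit 138) (nat_lit 5) (nat_lit 440) (nat_lit 437) (nat_lit 323)))) (XT.nd (nat_lit 78) (nat_lit 0) (nat_lit 76) (XT.lf (nat_lit 0) (nat_lit 39949609009) (nat_lit 760) (nat_lit 13722668457) (nat_lit 836) (nat_lit 28435220814) (nat_lit 128) (nat_lit 5) (nat_lit 138) (nat_lit 5) (nat_lit 139) (nat_lit 5) (nat_lit 441) (nat_lit 437) (nat_lit 322)) (XT.nd (nat_lit 78) (nat_lit 0) (nat_lit 0) (XT.lf (nat_lit 0) (nat_lit 48989988684) (nat_lit 760) (nat_lit 29855084632) (nat_lit 836) (nat_lit 6688372453) (nat_lit 129) (nat_lit 5) (nat_lit 139) (nat_lit 5) (nat_lit 140) (nat_lit 5)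 (nat_lit 442) (nat_lit 437) (nat_lit 321)) (XT.lf (nat_lit 76) (nat_lit 42345105626) (nat_lit 0) (nat_lit 18216056012) (nat_lit 836) (nat_lit 28581929859) (nat_lit 130) (nat_lit 5) (nat_lit 129) (nat_lit 5) (nat_lit 140) (nat_lit 5) (nat_lit 443) (nat_lit 437) (nat_lit 320))))) (XT.nd (nat_lit 234) (nat_lit 1368) (nat_lit 0) (XT.nd (nat_lit 78) (nat_lit 456) (nat_lit 0) (XT.lf (nat_lit 0) (nat_lit 28537583097) (nat_lit 760) (nat_lit 46231055394) (nat_lit 836) (nat_lit 18187340432) (nat_lit 120) (nat_lit 5) (nat_lit 130) (nat_lit 5) (nat_lit 131) (nat_lit 5) (nat_lit 444) (nat_lit 437) (nat_lit 319)) (XT.nd (nat_lit 78) (nat_lit 76) (nat_lit 0) (XT.lf (nat_lit 0) (nat_lit 14382198003) (nat_lit 380) (nat_lit 77383734318) (nat_lit 456) (nat_lit 5225304582) (nat_lit 115) (nat_lit 5) (nat_lit 120) (nat_lit 5) (nat_lit 121) (nat_lit 5) (nat_lit 445) (nat_lit 437) (nat_lit 318)) (XT.lf (nat_lit 0)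 (nat_lit 10411656242) (nat_lit 456) (nat_lit 442208628) (nat_lit 76) (nat_lit 90392663243) (nat_lit 114) (nat_lit 5) (nat_lit 120) (nat_lit 5) (nat_lit 115) (nat_lit 5) (nat_lit 446) (nat_lit 437) (nat_lit 317)))) (XT.nd (nat_lit 156) (nat_lit 608) (nat_lit 0) (XT.nd (nat_lit 78) (nat_lit 380) (nat_lit 0) (XT.lf (nat_lit 0) (nat_lit 29517604361) (nat_lit 456) (nat_lit 15618634336) (nat_lit 76) (nat_lit 60581666311) (nat_lit 109) (nat_lit 5) (nat_lit 115) (nat_lit 5) (nat_lit 110) (nat_lit 5) (nat_lit 447) (nat_lit 437) (nat_lit 316)) (XT.lf (nat_lit 0) (nat_lit 52025663469) (nat_lit 456) (nat_lit 31194052702) (nat_lit 76) (nat_lit 27233594507) (nat_lit 104) (nat_lit 5) (nat_lit 110) (nat_lit 5) (nat_lit 105) (nat_lit 5) (nat_lit 448) (nat_lit 437) (nat_lit 315))) (XT.nd (nat_lit 78) (nat_lit 304) (nat_lit 0) (XT.lf (nat_lit 0) (nat_lit 68145524134) (nat_lit 304) (nat_lit 10289334229) (nat_lit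 380) (nat_lit 37027666238) (nat_lit 100) (nat_lit 5) (nat_lit 104) (nat_lit 5) (nat_lit 105) (nat_lit 5) (nat_lit 449) (nat_lit 437) (nat_lit 314)) (XT.lf (nat_lit 0) (nat_lit 56427740710) (nat_lit 304) (nat_lit 53030426274) (nat_lit 380) (nat_lit 11289240072) (nat_lit 96) (nat_lit 5) (nat_lit 100) (nat_lit 5) (nat_lit 101) (nat_lit 5) (nat_lit 450) (nat_lit 437) (nat_lit 313)))))) (XT.nd (nat_lit 546) (nat_lit 1368) (nat_lit 0) (XT.nd (nat_lit 234) (nat_lit 760) (nat_lit 0) (XT.nd (nat_lit 78) (nat_lit 532) (nat_lit 0) (XT.lf (nat_lit 0) (nat_lit 18110843188) (nat_lit 304) (nat_lit 82045299899) (nat_lit 76) (nat_lit 26179502777) (nat_lit 92) (nat_lit 5) (nat_lit 96) (nat_lit 5) (nat_lit 93) (nat_lit 5) (nat_lit 451) (nat_lit 437) (nat_lit 312)) (XT.nd (nat_lit 78) (nat_lit 228) (nat_lit 0) (XT.lf (nat_lit 0) (nat_lit 31474373186) (nat_lit 304) (nat_lit 20521786602) (nat_lit 380) (nat_lit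 80239093444) (nat_lit 88) (nat_lit 5) (nat_lit 92) (nat_lit 5) (nat_lit 93) (nat_lit 5) (nat_lit 452) (nat_lit 437) (nat_lit 311)) (XT.lf (nat_lit 0) (nat_lit 17999192069) (nat_lit 228) (nat_lit 73348248486) (nat_lit 304) (nat_lit 47121631940) (nat_lit 85) (nat_lit 5) (nat_lit 88) (nat_lit 5) (nat_lit 89) (nat_lit 5) (nat_lit 453) (nat_lit 437) (nat_lit 310)))) (XT.nd (nat_lit 156) (nat_lit 456) (nat_lit 0) (XT.nd (nat_lit 78) (nat_lit 76) (nat_lit 0) (XT.lf (nat_lit 0) (nat_lit 4329676336) (nat_lit 228) (nat_lit 131891251378) (nat_lit 304) (nat_lit 8861964616) (nat_lit 82) (nat_lit 5) (nat_lit 85) (nat_lit 5) (nat_lit 86) (nat_lit 5) (nat_lit 454) (nat_lit 437) (nat_lit 309)) (XT.lf (nat_lit 0) (nat_lit 34788507737) (nat_lit 304) (nat_lit 10484821015) (nat_lit 76) (nat_lit 106758705532) (nat_lit 81) (nat_lit 5) (nat_lit 85) (nat_lit 5) (nat_lit 82) (nat_lit 5) (nat_lit 455) (nat_lit 437)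 (nat_lit 308))) (XT.nd (nat_lit 78) (nat_lit 228) (nat_lit 0) (XT.lf (nat_lit 0) (nat_lit 84512138107) (nat_lit 304) (nat_lit 25860536625) (nat_lit 76) (nat_lit 49012589128) (nat_lit 78) (nat_lit 5) (nat_lit 82) (nat_lit 5) (nat_lit 79) (nat_lit 5) (nat_lit 456) (nat_lit 437) (nat_lit 307)) (XT.lf (nat_lit 0) (nat_lit 125356623830) (nat_lit 228) (nat_lit 15762530627) (nat_lit 304) (nat_lit 26062322742) (nat_lit 75) (nat_lit 5) (nat_lit 78) (nat_lit 5) (nat_lit 79) (nat_lit 5) (nat_lit 457) (nat_lit 437) (nat_lit 306))))) (XT.nd (nat_lit 234) (nat_lit 760) (nat_lit 0) (XT.nd (nat_lit 78) (nat_lit 380) (nat_lit 0) (XT.lf (nat_lit 0) (nat_lit 29483135578) (nat_lit 228) (nat_lit 59512582804) (nat_lit 76) (nat_lit 86400719476) (nat_lit 72) (nat_lit 5) (nat_lit 75) (nat_lit 5) (nat_lit 73) (nat_lit 5) (nat_lit 458) (nat_lit 437) (nat_lit 305)) (XT.nd (nat_lit 78) (nat_lit 152) (nat_lit 0) (XT.lf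 (nat_lit 0) (nat_lit 91467163658) (nat_lit 304) (nat_lit 78196408552) (nat_lit 76) (nat_lit 14438259244) (nat_lit 69) (nat_lit 5) (nat_lit 73) (nat_lit 5) (nat_lit 70) (nat_lit 5) (nat_lit 459) (nat_lit 437) (nat_lit 304)) (XT.lf (nat_lit 0) (nat_lit 94744037026) (nat_lit 152) (nat_lit 67698779344) (nat_lit 228) (nat_lit 30859195178) (nat_lit 67) (nat_lit 5) (nat_lit 69) (nat_lit 5) (nat_lit 70) (nat_lit 5) (nat_lit 460) (nat_lit 437) (nat_lit 303)))) (XT.nd (nat_lit 156) (nat_lit 380) (nat_lit 0) (XT.nd (nat_lit 78) (nat_lit 152) (nat_lit 0) (XT.lf (nat_lit 0) (nat_lit 38109345069) (nat_lit 228) (nat_lit 120569057056) (nat_lit 76) (nat_lit 44361875608) (nat_lit 64) (nat_lit 5) (nat_lit 67) (nat_lit 5) (nat_lit 65) (nat_lit 5) (nat_lit 461) (nat_lit 437) (nat_lit 302)) (XT.lf (nat_lit 0) (nat_lit 68533012725) (nat_lit 152) (nat_lit 46951564931) (nat_lit 228) (nat_lit 97849214992) (nat_lit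 62) (nat_lit 5) (nat_lit 64) (nat_lit 5) (nat_lit 65) (nat_lit 5) (nat_lit 462) (nat_lit 437) (nat_lit 301))) (XT.nd (nat_lit 78) (nat_lit 228) (nat_lit 0) (XT.lf (nat_lit 0) (nat_lit 53240785758) (nat_lit 152) (nat_lit 149925274948) (nat_lit 228) (nat_lit 21078916555) (nat_lit 60) (nat_lit 5) (nat_lit 62) (nat_lit 5) (nat_lit 63) (nat_lit 5) (nat_lit 463) (nat_lit 437) (nat_lit 300)) (XT.lf (nat_lit 0) (nat_lit 35738061474) (nat_lit 152) (nat_lit 28028722263) (nat_lit 228) (nat_lit 172018362651) (nat_lit 57) (nat_lit 5) (nat_lit 59) (nat_lit 5) (nat_lit 60) (nat_lit 5) (nat_lit 464) (nat_lit 437) (nat_lit 299))))))) (XT.nd (nat_lit 1014) (nat_lit 1216) (nat_lit 0) (XT.nd (nat_lit 468) (nat_lit 836) (nat_lit 0) (XT.nd (nat_lit 234) (nat_lit 456) (nat_lit 0) (XT.nd (nat_lit 78) (nat_lit 228) (nat_lit 0) (XT.lf (nat_lit 0) (nat_lit 15499784254) (nat_lit 152) (nat_lit 144058622598) (nat_lit 228)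 (nat_lit 88428006005) (nat_lit 55) (nat_lit 5) (nat_lit 57) (nat_lit 5) (nat_lit 58) (nat_lit 5) (nat_lit 465) (nat_lit 437) (nat_lit 298)) (XT.nd (nat_lit 78) (nat_lit 152) (nat_lit 0) (XT.lf (nat_lit 0) (nat_lit 5804324830) (nat_lit 228) (nat_lit 6114985455) (nat_lit 76) (nat_lit 249042329388) (nat_lit 54) (nat_lit 5) (nat_lit 57) (nat_lit 5) (nat_lit 55) (nat_lit 5) (nat_lit 466) (nat_lit 437) (nat_lit 297)) (XT.lf (nat_lit 0) (nat_lit 110467765314) (nat_lit 228) (nat_lit 32131717868) (nat_lit 76) (nat_lit 132003389057) (nat_lit 52) (nat_lit 5) (nat_lit 55) (nat_lit 5) (nat_lit 53) (nat_lit 5) (nat_lit 467) (nat_lit 437) (nat_lit 296)))) (XT.nd (nat_lit 78) (nat_lit 304) (nat_lit 0) (XT.lf (nat_lit 0) (nat_lit 227412253944) (nat_lit 228) (nat_lit 60208692353) (nat_lit 76) (nat_lit 1519058529) (nat_lit 50) (nat_lit 5) (nat_lit 53) (nat_lit 5) (nat_lit 51) (nat_lit 4) (nat_lit 468) (nat_lit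 437) (nat_lit 295)) (XT.nd (nat_lit 78) (nat_lit 152) (nat_lit 0) (XT.lf (nat_lit 0) (nat_lit 53687054143) (nat_lit 152) (nat_lit 93820328336) (nat_lit 76) (nat_lit 156975620204) (nat_lit 48) (nat_lit 5) (nat_lit 50) (nat_lit 5) (nat_lit 49) (nat_lit 5) (nat_lit 469) (nat_lit 437) (nat_lit 294)) (XT.lf (nat_lit 0) (nat_lit 180365820089) (nat_lit 228) (nat_lit 131588316648) (nat_lit 76) (nat_lit 8839036352) (nat_lit 46) (nat_lit 5) (nat_lit 49) (nat_lit 5) (nat_lit 47) (nat_lit 4) (nat_lit 470) (nat_lit 437) (nat_lit 293))))) (XT.nd (nat_lit 234) (nat_lit 456) (nat_lit 0) (XT.nd (nat_lit 78) (nat_lit 304) (nat_lit 0) (XT.lf (nat_lit 0) (nat_lit 162584895232) (nat_lit 76) (nat_lit 161280331234) (nat_lit 152) (nat_lit 14208613750) (nat_lit 45) (nat_lit 5) (nat_lit 46) (nat_lit 5) (nat_lit 47) (nat_lit 4) (nat_lit 471) (nat_lit 437) (nat_lit 292)) (XT.nd (nat_lit 78) (nat_lit 76) (nat_lit 0) (XT.lf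 (nat_lit 0) (nat_lit 122693360230) (nat_lit 228) (nat_lit 225944657155) (nat_lit 76) (nat_lit 7778924151) (nat_lit 42) (nat_lit 5) (nat_lit 45) (nat_lit 5) (nat_lit 43) (nat_lit 4) (nat_lit 472) (nat_lit 437) (nat_lit 291)) (XT.lf (nat_lit 0) (nat_lit 91005307244) (nat_lit 76) (nat_lit 186298019222) (nat_lit 152) (nat_lit 98549836378) (nat_lit 41) (nat_lit 5) (nat_lit 42) (nat_lit 5) (nat_lit 43) (nat_lit 4) (nat_lit 473) (nat_lit 437) (nat_lit 290)))) (XT.nd (nat_lit 156) (nat_lit 228) (nat_lit 0) (XT.nd (nat_lit 78) (nat_lit 0) (nat_lit 0) (XT.lf (nat_lit 0) (nat_lit 45378777917) (nat_lit 152) (nat_lit 5249190558) (nat_lit 228) (nat_lit 345943858239) (nat_lit 38) (nat_lit 5) (nat_lit 40) (nat_lit 5) (nat_lit 41) (nat_lit 5) (nat_lit 474) (nat_lit 437) (nat_lit 289)) (XT.lf (nat_lit 0) (nat_lit 216347174922) (nat_lit 228) (nat_lit 11219094936) (nat_lit 76) (nat_lit 190897941138) (nat_lit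 38) (nat_lit 5) (nat_lit 41) (nat_lit 5) (nat_lit 39) (nat_lit 4) (nat_lit 475) (nat_lit 437) (nat_lit 288))) (XT.nd (nat_lit 78) (nat_lit 152) (nat_lit 0) (XT.lf (nat_lit 0) (nat_lit 367630131841) (nat_lit 76) (nat_lit 33521715949) (nat_lit 152) (nat_lit 40664741765) (nat_lit 37) (nat_lit 5) (nat_lit 38) (nat_lit 5) (nat_lit 39) (nat_lit 4) (nat_lit 476) (nat_lit 437) (nat_lit 287)) (XT.lf (nat_lit 0) (nat_lit 137459073535) (nat_lit 152) (nat_lit 151286501743) (nat_lit 76) (nat_lit 177785474046) (nat_lit 35) (nat_lit 5) (nat_lit 37) (nat_lit 5) (nat_lit 36) (nat_lit 4) (nat_lit 477) (nat_lit 437) (nat_lit 286)))))) (XT.nd (nat_lit 546) (nat_lit 608) (nat_lit 0) (XT.nd (nat_lit 234) (nat_lit 304) (nat_lit 0) (XT.nd (nat_lit 78) (nat_lit 228) (nat_lit 0) (XT.lf (nat_lit 0) (nat_lit 252117834380) (nat_lit 76) (nat_lit 82123982583) (nat_lit 152) (nat_lit 158655831309) (nat_lit 34) (nat_lit 5)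 (nat_lit 35) (nat_lit 5) (nat_lit 36) (nat_lit 4) (nat_lit 478) (nat_lit 437) (nat_lit 285)) (XT.nd (nat_lit 78) (nat_lit 76) (nat_lit 0) (XT.lf (nat_lit 0) (nat_lit 32323033931) (nat_lit 152) (nat_lit 346193168033) (nat_lit 76) (nat_lit 142450440768) (nat_lit 32) (nat_lit 5) (nat_lit 34) (nat_lit 5) (nat_lit 33) (nat_lit 4) (nat_lit 479) (nat_lit 437) (nat_lit 284)) (XT.lf (nat_lit 0) (nat_lit 79513396615) (nat_lit 76) (nat_lit 160471490841) (nat_lit 152) (nat_lit 310818063222) (nat_lit 31) (nat_lit 5) (nat_lit 32) (nat_lit 5) (nat_lit 33) (nat_lit 4) (nat_lit 480) (nat_lit 437) (nat_lit 283)))) (XT.nd (nat_lit 156) (nat_lit 152) (nat_lit 0) (XT.nd (nat_lit 78) (nat_lit 152) (nat_lit 0) (XT.lf (nat_lit 0) (nat_lit 471559962786) (nat_lit 152) (nat_lit 32356310064) (nat_lit 0) (nat_lit 78744876751) (nat_lit 31) (nat_lit 5) (nat_lit 33) (nat_lit 4) (nat_lit 31) (nat_lit 4) (nat_lit 481) (nat_lit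 437) (nat_lit 282)) (XT.lf (nat_lit 0) (nat_lit 111191834942) (nat_lit 152) (nat_lit 164872016346) (nat_lit 76) (nat_lit 340425182356) (nat_lit 29) (nat_lit 5) (nat_lit 31) (nat_lit 5) (nat_lit 30) (nat_lit 4) (nat_lit 482) (nat_lit 437) (nat_lit 281))) (XT.nd (nat_lit 78) (nat_lit 76) (nat_lit 0) (XT.lf (nat_lit 0) (nat_lit 331185607339) (nat_lit 76) (nat_lit 21985642926) (nat_lit 152) (nat_lit 299471061803) (nat_lit 28) (nat_lit 5) (nat_lit 29) (nat_lit 5) (nat_lit 30) (nat_lit 4) (nat_lit 483) (nat_lit 437) (nat_lit 280)) (XT.lf (nat_lit 0) (nat_lit 183144373326) (nat_lit 76) (nat_lit 441083817691) (nat_lit 76) (nat_lit 66973703152) (nat_lit 27) (nat_lit 4) (nat_lit 28) (nat_lit 5) (nat_lit 28) (nat_lit 4) (nat_lit 484) (nat_lit 437) (nat_lit 279))))) (XT.nd (nat_lit 234) (nat_lit 380) (nat_lit 0) (XT.nd (nat_lit 78) (nat_lit 76) (nat_lit 0) (XT.lf (nat_lit 0) (nat_lit 3810713404) (nat_lit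 76) (nat_lit 180540980770) (nat_lit 152) (nat_lit 548044747023) (nat_lit 25) (nat_lit 5) (nat_lit 26) (nat_lit 5) (nat_lit 27) (nat_lit 4) (nat_lit 485) (nat_lit 437) (nat_lit 278)) (XT.nd (nat_lit 78) (nat_lit 76) (nat_lit 0) (XT.lf (nat_lit 0) (nat_lit 464037433150) (nat_lit 152) (nat_lit 204522365465) (nat_lit 0) (nat_lit 107741819796) (nat_lit 25) (nat_lit 5) (nat_lit 27) (nat_lit 4) (nat_lit 25) (nat_lit 4) (nat_lit 486) (nat_lit 437) (nat_lit 277)) (XT.lf (nat_lit 0) (nat_lit 370272445044) (nat_lit 76) (nat_lit 404650622401) (nat_lit 76) (nat_lit 48354890558) (nat_lit 24) (nat_lit 4) (nat_lit 25) (nat_lit 5) (nat_lit 25) (nat_lit 4) (nat_lit 487) (nat_lit 437) (nat_lit 276)))) (XT.nd (nat_lit 156) (nat_lit 228) (nat_lit 0) (XT.nd (nat_lit 78) (nat_lit 0) (nat_lit 0) (XT.lf (nat_lit 0) (nat_lit 124759239114) (nat_lit 76) (nat_lit 109901775846) (nat_lit 152) (nat_lit 638888203241) (nat_lit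 22) (nat_lit 5) (nat_lit 23) (nat_lit 5) (nat_lit 24) (nat_lit 4) (nat_lit 488) (nat_lit 437) (nat_lit 275)) (XT.lf (nat_lit 0) (nat_lit 549921083463) (nat_lit 152) (nat_lit 166724996278) (nat_lit 0) (nat_lit 210591613806) (nat_lit 22) (nat_lit 5) (nat_lit 24) (nat_lit 4) (nat_lit 22) (nat_lit 4) (nat_lit 489) (nat_lit 437) (nat_lit 274))) (XT.nd (nat_lit 78) (nat_lit 152) (nat_lit 0) (XT.lf (nat_lit 0) (nat_lit 475263075458) (nat_lit 76) (nat_lit 424412036492) (nat_lit 76) (nat_lit 85082477254) (nat_lit 21) (nat_lit 4) (nat_lit 22) (nat_lit 5) (nat_lit 22) (nat_lit 4) (nat_lit 490) (nat_lit 437) (nat_lit 273)) (XT.lf (nat_lit 0) (nat_lit 128288892207) (nat_lit 76) (nat_lit 99817709934) (nat_lit 152) (nat_lit 818344781710) (nat_lit 19) (nat_lit 5) (nat_lit 20) (nat_lit 5) (nat_lit 21) (nat_lit 4) (nat_lit 491) (nat_lit 437) (nat_lit 272))))))))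
noncomputable def xc102 : XT := (XT.nd (nat_lit 60060) (nat_lit 0) (nat_lit 608) (XT.nd (nat_lit 59046) (nat_lit 0) (nat_lit 3952) (XT.nd (nat_lit 58500) (nat_lit 0) (nat_lit 7372) (XT.nd (nat_lit 58266) (nat_lit 0) (nat_lit 8208) (XT.nd (nat_lit 78) (nat_lit 152) (nat_lit 0) (XT.lf (nat_lit 0) (nat_lit 576344993000) (nat_lit 152) (nat_lit 282843364247) (nat_lit 0) (nat_lit 253173832061) (nat_lit 19) (nat_lit 5) (nat_lit 21) (nat_lit 4) (nat_lit 19) (nat_lit 4) (nat_lit 492) (nat_lit 437) (nat_lit 271)) (XT.nd (nat_lit 78) (nat_lit 76) (nat_lit 0) (XT.lf (nat_lit 0) (nat_lit 414897176943) (nat_lit 76) (nat_lit 545705938945) (nat_lit 76) (nat_lit 222534710280) (nat_lit 18) (nat_lit 4) (nat_lit 19) (nat_lit 5) (nat_lit 19) (nat_lit 4) (nat_lit 493) (nat_lit 437) (nat_lit 270)) (XT.lf (nat_lit 0) (nat_lit 117320373273) (nat_lit 152) (nat_lit 82664526163) (nat_lit 76) (nat_lit 1059249661342) (nat_lit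 17) (nat_lit 5) (nat_lit 19) (nat_lit 5) (nat_lit 18) (nat_lit 4) (nat_lit 494) (nat_lit 437) (nat_lit 269)))) (XT.nd (nat_lit 78) (nat_lit 0) (nat_lit 76) (XT.lf (nat_lit 0) (nat_lit 12582501794) (nat_lit 836) (nat_lit 12634562978) (nat_lit 836) (nat_lit 12634562978) (nat_lit 125) (nat_lit 3) (nat_lit 136) (nat_lit 3) (nat_lit 136) (nat_lit 5) (nat_lit 438) (nat_lit 438) (nat_lit 324)) (XT.nd (nat_lit 78) (nat_lit 0) (nat_lit 0) (XT.lf (nat_lit 0) (nat_lit 26870659484) (nat_lit 760) (nat_lit 43640493249) (nat_lit 836) (nat_lit 8185273372) (nat_lit 126) (nat_lit 5) (nat_lit 136) (nat_lit 5) (nat_lit 137) (nat_lit 5) (nat_lit 439) (nat_lit 438) (nat_lit 323)) (XT.lf (nat_lit 76) (nat_lit 18950147924) (nat_lit 0) (nat_lit 11354526294) (nat_lit 836) (nat_lit 51544781505) (nat_lit 127) (nat_lit 5) (nat_lit 126) (nat_lit 5) (nat_lit 137) (nat_lit 5) (nat_lit 440) (nat_lit 438) (nat_lit 322)))))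 (XT.nd (nat_lit 234) (nat_lit 988) (nat_lit 0) (XT.nd (nat_lit 78) (nat_lit 0) (nat_lit 76) (XT.lf (nat_lit 76) (nat_lit 2123912108) (nat_lit 0) (nat_lit 33513888878) (nat_lit 836) (nat_lit 49535707815) (nat_lit 128) (nat_lit 5) (nat_lit 127) (nat_lit 5) (nat_lit 138) (nat_lit 5) (nat_lit 441) (nat_lit 438) (nat_lit 321)) (XT.nd (nat_lit 78) (nat_lit 0) (nat_lit 76) (XT.lf (nat_lit 0) (nat_lit 43175262709) (nat_lit 760) (nat_lit 14798278349) (nat_lit 836) (nat_lit 30701061409) (nat_lit 128) (nat_lit 5) (nat_lit 138) (nat_lit 5) (nat_lit 139) (nat_lit 5) (nat_lit 442) (nat_lit 438) (nat_lit 320)) (XT.lf (nat_lit 0) (nat_lit 52936902748) (nat_lit 760) (nat_lit 32220748577) (nat_lit 836) (nat_lit 7217073777) (nat_lit 129) (nat_lit 5) (nat_lit 139) (nat_lit 5) (nat_lit 140) (nat_lit 5) (nat_lit 443) (nat_lit 438) (nat_lit 319)))) (XT.nd (nat_lit 156) (nat_lit 456) (nat_lit 0) (XT.nd (nat_lit 78)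 (nat_lit 684) (nat_lit 0) (XT.lf (nat_lit 76) (nat_lit 45754468526) (nat_lit 0) (nat_lit 19677587699) (nat_lit 836) (nat_lit 30841172713) (nat_lit 130) (nat_lit 5) (nat_lit 129) (nat_lit 5) (nat_lit 140) (nat_lit 5) (nat_lit 444) (nat_lit 438) (nat_lit 318)) (XT.lf (nat_lit 0) (nat_lit 30842715155) (nat_lit 760) (nat_lit 49931774064) (nat_lit 836) (nat_lit 19616740966) (nat_lit 120) (nat_lit 5) (nat_lit 130) (nat_lit 5) (nat_lit 131) (nat_lit 5) (nat_lit 445) (nat_lit 438) (nat_lit 317))) (XT.nd (nat_lit 78) (nat_lit 76) (nat_lit 0) (XT.lf (nat_lit 0) (nat_lit 15555144804) (nat_lit 380) (nat_lit 83574934307) (nat_lit 456) (nat_lit 5619304735) (nat_lit 115) (nat_lit 5) (nat_lit 120) (nat_lit 5) (nat_lit 121) (nat_lit 5) (nat_lit 446) (nat_lit 438) (nat_lit 316)) (XT.lf (nat_lit 0) (nat_lit 11266121416) (nat_lit 456) (nat_lit 456152091) (nat_lit 76) (nat_lit 97622892814) (nat_lit 114) (nat_lit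 5) (nat_lit 120) (nat_lit 5) (nat_lit 115) (nat_lit 5) (nat_lit 447) (nat_lit 438) (nat_lit 315)))))) (XT.nd (nat_lit 468) (nat_lit 1444) (nat_lit 0) (XT.nd (nat_lit 234) (nat_lit 912) (nat_lit 0) (XT.nd (nat_lit 78) (nat_lit 684) (nat_lit 0) (XT.lf (nat_lit 0) (nat_lit 31899274271) (nat_lit 456) (nat_lit 16846607383) (nat_lit 76) (nat_lit 65428435818) (nat_lit 109) (nat_lit 5) (nat_lit 115) (nat_lit 5) (nat_lit 110) (nat_lit 5) (nat_lit 448) (nat_lit 438) (nat_lit 314)) (XT.nd (nat_lit 78) (nat_lit 304) (nat_lit 0) (XT.lf (nat_lit 0) (nat_lit 56206822031) (nat_lit 456) (nat_lit 33668057326) (nat_lit 76) (nat_lit 29413734552) (nat_lit 104) (nat_lit 5) (nat_lit 110) (nat_lit 5) (nat_lit 105) (nat_lit 5) (nat_lit 449) (nat_lit 438) (nat_lit 313)) (XT.lf (nat_lit 0) (nat_lit 73617750442) (nat_lit 304) (nat_lit 11109908232) (nat_lit 380) (nat_lit 39970961433) (nat_lit 100) (nat_lit 5) (nat_lit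 104) (nat_lit 5) (nat_lit 105) (nat_lit 5) (nat_lit 450) (nat_lit 438) (nat_lit 312)))) (XT.nd (nat_lit 78) (nat_lit 608) (nat_lit 0) (XT.lf (nat_lit 0) (nat_lit 60962478417) (nat_lit 304) (nat_lit 57269376915) (nat_lit 380) (nat_lit 12174487095) (nat_lit 96) (nat_lit 5) (nat_lit 100) (nat_lit 5) (nat_lit 101) (nat_lit 5) (nat_lit 451) (nat_lit 438) (nat_lit 311)) (XT.nd (nat_lit 78) (nat_lit 304) (nat_lit 0) (XT.lf (nat_lit 0) (nat_lit 19576122058) (nat_lit 304) (nat_lit 88587981793) (nat_lit 76) (nat_lit 28277568310) (nat_lit 92) (nat_lit 5) (nat_lit 96) (nat_lit 5) (nat_lit 93) (nat_lit 5) (nat_lit 452) (nat_lit 438) (nat_lit 310)) (XT.lf (nat_lit 0) (nat_lit 34012355021) (nat_lit 304) (nat_lit 22159006060) (nat_lit 380) (nat_lit 86641932539) (nat_lit 88) (nat_lit 5) (nat_lit 92) (nat_lit 5) (nat_lit 93) (nat_lit 5) (nat_lit 453) (nat_lit 438) (nat_lit 309))))) (XT.nd (nat_lit 234) (nat_lit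 912) (nat_lit 0) (XT.nd (nat_lit 78) (nat_lit 304) (nat_lit 0) (XT.lf (nat_lit 0) (nat_lit 19458967273) (nat_lit 228) (nat_lit 79211003407) (nat_lit 304) (nat_lit 50875886756) (nat_lit 85) (nat_lit 5) (nat_lit 88) (nat_lit 5) (nat_lit 89) (nat_lit 5) (nat_lit 454) (nat_lit 438) (nat_lit 308)) (XT.nd (nat_lit 78) (nat_lit 76) (nat_lit 0) (XT.lf (nat_lit 0) (nat_lit 4695660489) (nat_lit 228) (nat_lit 142436964816) (nat_lit 304) (nat_lit 9556193432) (nat_lit 82) (nat_lit 5) (nat_lit 85) (nat_lit 5) (nat_lit 86) (nat_lit 5) (nat_lit 455) (nat_lit 438) (nat_lit 307)) (XT.lf (nat_lit 0) (nat_lit 37584789239) (nat_lit 304) (nat_lit 11305009404) (nat_lit 76) (nat_lit 115304134979) (nat_lit 81) (nat_lit 5) (nat_lit 85) (nat_lit 5) (nat_lit 82) (nat_lit 5) (nat_lit 456) (nat_lit 438) (nat_lit 306)))) (XT.nd (nat_lit 156) (nat_lit 456) (nat_lit 0) (XT.nd (nat_lit 78) (nat_lit 228) (nat_lit 0) (XT.lf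 (nat_lit 0) (nat_lit 91285692499) (nat_lit 304) (nat_lit 27911044894) (nat_lit 76) (nat_lit 52938715299) (nat_lit 78) (nat_lit 5) (nat_lit 82) (nat_lit 5) (nat_lit 79) (nat_lit 5) (nat_lit 457) (nat_lit 438) (nat_lit 305)) (XT.lf (nat_lit 0) (nat_lit 135402691596) (nat_lit 228) (nat_lit 17017920276) (nat_lit 304) (nat_lit 28134784369) (nat_lit 75) (nat_lit 5) (nat_lit 78) (nat_lit 5) (nat_lit 79) (nat_lit 5) (nat_lit 458) (nat_lit 438) (nat_lit 304))) (XT.nd (nat_lit 78) (nat_lit 228) (nat_lit 0) (XT.lf (nat_lit 0) (nat_lit 31853368183) (nat_lit 228) (nat_lit 64255938984) (nat_lit 76) (nat_lit 93318264091) (nat_lit 72) (nat_lit 5) (nat_lit 75) (nat_lit 5) (nat_lit 73) (nat_lit 5) (nat_lit 459) (nat_lit 438) (nat_lit 303)) (XT.lf (nat_lit 0) (nat_lit 98795616250) (nat_lit 304) (nat_lit 84434778185) (nat_lit 76) (nat_lit 15599027208) (nat_lit 69) (nat_lit 5) (nat_lit 73) (nat_lit 5) (nat_lit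 70) (nat_lit 5) (nat_lit 460) (nat_lit 438) (nat_lit 302))))))) (XT.nd (nat_lit 1014) (nat_lit 1292) (nat_lit 0) (XT.nd (nat_lit 468) (nat_lit 988) (nat_lit 0) (XT.nd (nat_lit 234) (nat_lit 532) (nat_lit 0) (XT.nd (nat_lit 78) (nat_lit 380) (nat_lit 0) (XT.lf (nat_lit 0) (nat_lit 102340149331) (nat_lit 152) (nat_lit 73108610151) (nat_lit 228) (nat_lit 33316884922) (nat_lit 67) (nat_lit 5) (nat_lit 69) (nat_lit 5) (nat_lit 70) (nat_lit 5) (nat_lit 461) (nat_lit 438) (nat_lit 301)) (XT.nd (nat_lit 78) (nat_lit 152) (nat_lit 0) (XT.lf (nat_lit 0) (nat_lit 41168340583) (nat_lit 228) (nat_lit 130197958022) (nat_lit 76) (nat_lit 47916687031) (nat_lit 64) (nat_lit 5) (nat_lit 67) (nat_lit 5) (nat_lit 65) (nat_lit 5) (nat_lit 462) (nat_lit 438) (nat_lit 300)) (XT.lf (nat_lit 0) (nat_lit 74031554900) (nat_lit 152) (nat_lit 50701526034) (nat_lit 228) (nat_lit 105666926495) (nat_lit 62) (nat_lit 5) (nat_lit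 64) (nat_lit 5) (nat_lit 65) (nat_lit 5) (nat_lit 463) (nat_lit 438) (nat_lit 299)))) (XT.nd (nat_lit 78) (nat_lit 380) (nat_lit 0) (XT.lf (nat_lit 0) (nat_lit 57515634070) (nat_lit 152) (nat_lit 161913059735) (nat_lit 228) (nat_lit 22755412577) (nat_lit 60) (nat_lit 5) (nat_lit 62) (nat_lit 5) (nat_lit 63) (nat_lit 5) (nat_lit 464) (nat_lit 438) (nat_lit 298)) (XT.nd (nat_lit 78) (nat_lit 152) (nat_lit 0) (XT.lf (nat_lit 0) (nat_lit 38612316579) (nat_lit 152) (nat_lit 30264846485) (nat_lit 228) (nat_lit 185770341751) (nat_lit 57) (nat_lit 5) (nat_lit 59) (nat_lit 5) (nat_lit 60) (nat_lit 5) (nat_lit 465) (nat_lit 438) (nat_lit 297)) (XT.lf (nat_lit 0) (nat_lit 16754657552) (nat_lit 152) (nat_lit 155577110828) (nat_lit 228) (nat_lit 95493121713) (nat_lit 55) (nat_lit 5) (nat_lit 57) (nat_lit 5) (nat_lit 58) (nat_lit 5) (nat_lit 466) (nat_lit 438) (nat_lit 296))))) (XT.nd (nat_lit 234) (nat_lit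 608) (nat_lit 0) (XT.nd (nat_lit 78) (nat_lit 304) (nat_lit 0) (XT.lf (nat_lit 0) (nat_lit 6276849263) (nat_lit 228) (nat_lit 6590125136) (nat_lit 76) (nat_lit 268971186340) (nat_lit 54) (nat_lit 5) (nat_lit 57) (nat_lit 5) (nat_lit 55) (nat_lit 5) (nat_lit 467) (nat_lit 438) (nat_lit 295)) (XT.nd (nat_lit 78) (nat_lit 152) (nat_lit 0) (XT.lf (nat_lit 0) (nat_lit 119313057594) (nat_lit 228) (nat_lit 34688505363) (nat_lit 76) (nat_lit 142569144411) (nat_lit 52) (nat_lit 5) (nat_lit 55) (nat_lit 5) (nat_lit 53) (nat_lit 5) (nat_lit 468) (nat_lit 438) (nat_lit 294)) (XT.lf (nat_lit 0) (nat_lit 245612815972) (nat_lit 228) (nat_lit 65011948031) (nat_lit 76) (nat_lit 1646061107) (nat_lit 50) (nat_lit 5) (nat_lit 53) (nat_lit 5) (nat_lit 51) (nat_lit 4) (nat_lit 469) (nat_lit 438) (nat_lit 293)))) (XT.nd (nat_lit 156) (nat_lit 304) (nat_lit 0) (XT.nd (nat_lit 78) (nat_lit 152) (nat_lit 0) (XT.lf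 (nat_lit 0) (nat_lit 57989358576) (nat_lit 152) (nat_lit 101312855373) (nat_lit 76) (nat_lit 169539061047) (nat_lit 48) (nat_lit 5) (nat_lit 50) (nat_lit 5) (nat_lit 49) (nat_lit 5) (nat_lit 470) (nat_lit 438) (nat_lit 292)) (XT.lf (nat_lit 0) (nat_lit 194802164178) (nat_lit 228) (nat_lit 142102588058) (nat_lit 76) (nat_lit 9551519947) (nat_lit 46) (nat_lit 5) (nat_lit 49) (nat_lit 5) (nat_lit 47) (nat_lit 4) (nat_lit 471) (nat_lit 438) (nat_lit 291))) (XT.nd (nat_lit 78) (nat_lit 228) (nat_lit 0) (XT.lf (nat_lit 0) (nat_lit 175603924765) (nat_lit 76) (nat_lit 174177265037) (nat_lit 152) (nat_lit 15338219603) (nat_lit 45) (nat_lit 5) (nat_lit 46) (nat_lit 5) (nat_lit 47) (nat_lit 4) (nat_lit 472) (nat_lit 438) (nat_lit 290)) (XT.lf (nat_lit 0) (nat_lit 132515447991) (nat_lit 228) (nat_lit 244008062819) (nat_lit 76) (nat_lit 8406454424) (nat_lit 42) (nat_lit 5) (nat_lit 45) (nat_lit 5) (nat_lit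 43) (nat_lit 4) (nat_lit 473) (nat_lit 438) (nat_lit 289)))))) (XT.nd (nat_lit 546) (nat_lit 532) (nat_lit 0) (XT.nd (nat_lit 234) (nat_lit 456) (nat_lit 0) (XT.nd (nat_lit 78) (nat_lit 228) (nat_lit 0) (XT.lf (nat_lit 0) (nat_lit 98297369973) (nat_lit 76) (nat_lit 201196532965) (nat_lit 152) (nat_lit 106427196788) (nat_lit 41) (nat_lit 5) (nat_lit 42) (nat_lit 5) (nat_lit 43) (nat_lit 4) (nat_lit 474) (nat_lit 438) (nat_lit 288)) (XT.nd (nat_lit 78) (nat_lit 0) (nat_lit 0) (XT.lf (nat_lit 0) (nat_lit 49020415963) (nat_lit 152) (nat_lit 5663906242) (nat_lit 228) (nat_lit 373612944279) (nat_lit 38) (nat_lit 5) (nat_lit 40) (nat_lit 5) (nat_lit 41) (nat_lit 5) (nat_lit 475) (nat_lit 438) (nat_lit 287)) (XT.lf (nat_lit 0) (nat_lit 233660687569) (nat_lit 228) (nat_lit 12105918191) (nat_lit 76) (nat_lit 206174454672) (nat_lit 38) (nat_lit 5) (nat_lit 41) (nat_lit 5) (nat_lit 39) (nat_lit 4) (nat_lit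 476) (nat_lit 438) (nat_lit 286)))) (XT.nd (nat_lit 156) (nat_lit 228) (nat_lit 0) (XT.nd (nat_lit 78) (nat_lit 152) (nat_lit 0) (XT.lf (nat_lit 0) (nat_lit 397050781531) (nat_lit 76) (nat_lit 36198687511) (nat_lit 152) (nat_lit 43912173532) (nat_lit 37) (nat_lit 5) (nat_lit 38) (nat_lit 5) (nat_lit 39) (nat_lit 4) (nat_lit 477) (nat_lit 438) (nat_lit 285)) (XT.lf (nat_lit 0) (nat_lit 148461179391) (nat_lit 152) (nat_lit 163379258356) (nat_lit 76) (nat_lit 192012826105) (nat_lit 35) (nat_lit 5) (nat_lit 37) (nat_lit 5) (nat_lit 36) (nat_lit 4) (nat_lit 478) (nat_lit 438) (nat_lit 284))) (XT.nd (nat_lit 78) (nat_lit 152) (nat_lit 0) (XT.lf (nat_lit 0) (nat_lit 272296982962) (nat_lit 76) (nat_lit 88689312600) (nat_lit 152) (nat_lit 171342907522) (nat_lit 34) (nat_lit 5) (nat_lit 35) (nat_lit 5) (nat_lit 36) (nat_lit 4) (nat_lit 479) (nat_lit 438) (nat_lit 283)) (XT.lf (nat_lit 0) (nat_lit 34913925718)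 (nat_lit 152) (nat_lit 373878977505) (nat_lit 76) (nat_lit 153850818133) (nat_lit 32) (nat_lit 5) (nat_lit 34) (nat_lit 5) (nat_lit 33) (nat_lit 4) (nat_lit 480) (nat_lit 438) (nat_lit 282))))) (XT.nd (nat_lit 234) (nat_lit 304) (nat_lit 0) (XT.nd (nat_lit 78) (nat_lit 152) (nat_lit 0) (XT.lf (nat_lit 0) (nat_lit 85883693199) (nat_lit 76) (nat_lit 173304804346) (nat_lit 152) (nat_lit 335678447917) (nat_lit 31) (nat_lit 5) (nat_lit 32) (nat_lit 5) (nat_lit 33) (nat_lit 4) (nat_lit 481) (nat_lit 438) (nat_lit 281)) (XT.nd (nat_lit 78) (nat_lit 152) (nat_lit 0) (XT.lf (nat_lit 0) (nat_lit 509289285623) (nat_lit 152) (nat_lit 34936113629) (nat_lit 0) (nat_lit 85048415735) (nat_lit 31) (nat_lit 5) (nat_lit 33) (nat_lit 4) (nat_lit 31) (nat_lit 4) (nat_lit 482) (nat_lit 438) (nat_lit 280)) (XT.lf (nat_lit 0) (nat_lit 120091573343) (nat_lit 152) (nat_lit 178053309094) (nat_lit 76) (nat_lit 367663054060)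 (nat_lit 29) (nat_lit 5) (nat_lit 31) (nat_lit 5) (nat_lit 30) (nat_lit 4) (nat_lit 483) (nat_lit 438) (nat_lit 279)))) (XT.nd (nat_lit 156) (nat_lit 152) (nat_lit 0) (XT.nd (nat_lit 78) (nat_lit 76) (nat_lit 0) (XT.lf (nat_lit 0) (nat_lit 357688556453) (nat_lit 76) (nat_lit 23740586606) (nat_lit 152) (nat_lit 323424344096) (nat_lit 28) (nat_lit 5) (nat_lit 29) (nat_lit 5) (nat_lit 30) (nat_lit 4) (nat_lit 484) (nat_lit 438) (nat_lit 278)) (XT.lf (nat_lit 0) (nat_lit 197803814077) (nat_lit 76) (nat_lit 476366694110) (nat_lit 76) (nat_lit 72327334200) (nat_lit 27) (nat_lit 4) (nat_lit 28) (nat_lit 5) (nat_lit 28) (nat_lit 4) (nat_lit 485) (nat_lit 438) (nat_lit 277))) (XT.nd (nat_lit 78) (nat_lit 0) (nat_lit 0) (XT.lf (nat_lit 0) (nat_lit 4123249215) (nat_lit 76) (nat_lit 194980523242) (nat_lit 152) (nat_lit 591884186703) (nat_lit 25) (nat_lit 5) (nat_lit 26) (nat_lit 5) (nat_lit 27) (nat_lit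 4) (nat_lit 486) (nat_lit 438) (nat_lit 276)) (XT.lf (nat_lit 0) (nat_lit 501164132504) (nat_lit 152) (nat_lit 220876916052) (nat_lit 0) (nat_lit 116364513913) (nat_lit 25) (nat_lit 5) (nat_lit 27) (nat_lit 4) (nat_lit 25) (nat_lit 4) (nat_lit 487) (nat_lit 438) (nat_lit 275))))))))
noncomputable def xc103 : XT := (XT.nd (nat_lit 60216) (nat_lit 0) (nat_lit 760) (XT.nd (nat_lit 59124) (nat_lit 0) (nat_lit 4560) (XT.nd (nat_lit 468) (nat_lit 76) (nat_lit 0) (XT.nd (nat_lit 234) (nat_lit 228) (nat_lit 0) (XT.nd (nat_lit 78) (nat_lit 152) (nat_lit 0) (XT.lf (nat_lit 0) (nat_lit 399901164715) (nat_lit 76) (nat_lit 437019286509) (nat_lit 76) (nat_lit 52219566333) (nat_lit 24) (nat_lit 4) (nat_lit 25) (nat_lit 5) (nat_lit 25) (nat_lit 4) (nat_lit 488) (nat_lit 438) (nat_lit 274)) (XT.nd (nat_lit 78) (nat_lit 0) (nat_lit 0) (XT.lf (nat_lit 0) (nat_lit 134746715301) (nat_lit 76) (nat_lit 118690616180)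 (nat_lit 152) (nat_lit 689995652262) (nat_lit 22) (nat_lit 5) (nat_lit 23) (nat_lit 5) (nat_lit 24) (nat_lit 4) (nat_lit 489) (nat_lit 438) (nat_lit 273)) (XT.lf (nat_lit 0) (nat_lit 593917998728) (nat_lit 152) (nat_lit 180056646514) (nat_lit 0) (nat_lit 227441902223) (nat_lit 22) (nat_lit 5) (nat_lit 24) (nat_lit 4) (nat_lit 22) (nat_lit 4) (nat_lit 490) (nat_lit 438) (nat_lit 272)))) (XT.nd (nat_lit 78) (nat_lit 152) (nat_lit 0) (XT.lf (nat_lit 0) (nat_lit 513290195021) (nat_lit 76) (nat_lit 458362010143) (nat_lit 76) (nat_lit 91885836837) (nat_lit 21) (nat_lit 4) (nat_lit 22) (nat_lit 5) (nat_lit 22) (nat_lit 4) (nat_lit 491) (nat_lit 438) (nat_lit 271)) (XT.nd (nat_lit 78) (nat_lit 0) (nat_lit 0) (XT.lf (nat_lit 0) (nat_lit 138557912427) (nat_lit 76) (nat_lit 107800212863) (nat_lit 152) (nat_lit 883809219409) (nat_lit 19) (nat_lit 5) (nat_lit 20) (nat_lit 5) (nat_lit 21) (nat_lit 4) (nat_lit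 492) (nat_lit 438) (nat_lit 270)) (XT.lf (nat_lit 0) (nat_lit 622455407691) (nat_lit 152) (nat_lit 305465265599) (nat_lit 0) (nat_lit 273430350297) (nat_lit 19) (nat_lit 5) (nat_lit 21) (nat_lit 4) (nat_lit 19) (nat_lit 4) (nat_lit 493) (nat_lit 438) (nat_lit 269))))) (XT.nd (nat_lit 58344) (nat_lit 0) (nat_lit 8208) (XT.nd (nat_lit 58188) (nat_lit 0) (nat_lit 8132) (XT.lf (nat_lit 0) (nat_lit 448094276917) (nat_lit 76) (nat_lit 589359778107) (nat_lit 76) (nat_lit 240334662649) (nat_lit 18) (nat_lit 4) (nat_lit 19) (nat_lit 5) (nat_lit 19) (nat_lit 4) (nat_lit 494) (nat_lit 438) (nat_lit 268)) (XT.nd (nat_lit 78) (nat_lit 0) (nat_lit 76) (XT.lf (nat_lit 0) (nat_lit 13606229456) (nat_lit 836) (nat_lit 13636332737) (nat_lit 836) (nat_lit 13636332737) (nat_lit 125) (nat_lit 3) (nat_lit 136) (nat_lit 3) (nat_lit 136) (nat_lit 5) (nat_lit 439) (nat_lit 439) (nat_lit 322)) (XT.lf (nat_lit 0) (nat_lit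 29052067825) (nat_lit 760) (nat_lit 47112681624) (nat_lit 836) (nat_lit 8825790626) (nat_lit 126) (nat_lit 5) (nat_lit 136) (nat_lit 5) (nat_lit 137) (nat_lit 5) (nat_lit 440) (nat_lit 439) (nat_lit 321)))) (XT.nd (nat_lit 156) (nat_lit 0) (nat_lit 152) (XT.nd (nat_lit 78) (nat_lit 0) (nat_lit 76) (XT.lf (nat_lit 76) (nat_lit 20484382906) (nat_lit 0) (nat_lit 12274353081) (nat_lit 836) (nat_lit 55637180376) (nat_lit 127) (nat_lit 5) (nat_lit 126) (nat_lit 5) (nat_lit 137) (nat_lit 5) (nat_lit 441) (nat_lit 439) (nat_lit 320)) (XT.lf (nat_lit 76) (nat_lit 2312858297) (nat_lit 0) (nat_lit 36203586925) (nat_lit 836) (nat_lit 53469552694) (nat_lit 128) (nat_lit 5) (nat_lit 127) (nat_lit 5) (nat_lit 138) (nat_lit 5) (nat_lit 442) (nat_lit 439) (nat_lit 319))) (XT.nd (nat_lit 78) (nat_lit 0) (nat_lit 76) (XT.lf (nat_lit 0) (nat_lit 46654733811) (nat_lit 760) (nat_lit 15963104622) (nat_lit 836) (nat_lit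 33149449932) (nat_lit 128) (nat_lit 5) (nat_lit 138) (nat_lit 5) (nat_lit 139) (nat_lit 5) (nat_lit 443) (nat_lit 439) (nat_lit 318)) (XT.lf (nat_lit 0) (nat_lit 57195616087) (nat_lit 760) (nat_lit 34778910156) (nat_lit 836) (nat_lit 7788979741) (nat_lit 129) (nat_lit 5) (nat_lit 139) (nat_lit 5) (nat_lit 140) (nat_lit 5) (nat_lit 444) (nat_lit 439) (nat_lit 317)))))) (XT.nd (nat_lit 546) (nat_lit 1672) (nat_lit 0) (XT.nd (nat_lit 234) (nat_lit 1140) (nat_lit 0) (XT.nd (nat_lit 78) (nat_lit 1064) (nat_lit 0) (XT.lf (nat_lit 76) (nat_lit 49433476943) (nat_lit 0) (nat_lit 21255436010) (nat_lit 836) (nat_lit 33285051290) (nat_lit 130) (nat_lit 5) (nat_lit 129) (nat_lit 5) (nat_lit 140) (nat_lit 5) (nat_lit 445) (nat_lit 439) (nat_lit 316)) (XT.nd (nat_lit 78) (nat_lit 380) (nat_lit 0) (XT.lf (nat_lit 0) (nat_lit 33329101341) (nat_lit 760) (nat_lit 53928231487) (nat_lit 836) (nat_lit 21164143770)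 (nat_lit 120) (nat_lit 5) (nat_lit 130) (nat_lit 5) (nat_lit 131) (nat_lit 5) (nat_lit 446) (nat_lit 439) (nat_lit 315)) (XT.lf (nat_lit 0) (nat_lit 16818735882) (nat_lit 380) (nat_lit 90261358788) (nat_lit 456) (nat_lit 6048252223) (nat_lit 115) (nat_lit 5) (nat_lit 120) (nat_lit 5) (nat_lit 121) (nat_lit 5) (nat_lit 447) (nat_lit 439) (nat_lit 314)))) (XT.nd (nat_lit 156) (nat_lit 684) (nat_lit 0) (XT.nd (nat_lit 78) (nat_lit 380) (nat_lit 0) (XT.lf (nat_lit 0) (nat_lit 12185871927) (nat_lit 456) (nat_lit 474268722) (nat_lit 76) (nat_lit 105431709588) (nat_lit 114) (nat_lit 5) (nat_lit 120) (nat_lit 5) (nat_lit 115) (nat_lit 5) (nat_lit 448) (nat_lit 439) (nat_lit 313)) (XT.lf (nat_lit 0) (nat_lit 34468587236) (nat_lit 456) (nat_lit 18175888014) (nat_lit 76) (nat_lit 70662913190) (nat_lit 109) (nat_lit 5) (nat_lit 115) (nat_lit 5) (nat_lit 110) (nat_lit 5) (nat_lit 449) (nat_lit 439) (nat_lit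 312))) (XT.nd (nat_lit 78) (nat_lit 304) (nat_lit 0) (XT.lf (nat_lit 0) (nat_lit 60719747666) (nat_lit 456) (nat_lit 36343052330) (nat_lit 76) (nat_lit 31768078588) (nat_lit 104) (nat_lit 5) (nat_lit 110) (nat_lit 5) (nat_lit 105) (nat_lit 5) (nat_lit 450) (nat_lit 439) (nat_lit 311)) (XT.lf (nat_lit 0) (nat_lit 79524818263) (nat_lit 304) (nat_lit 11996495186) (nat_lit 380) (nat_lit 43152419123) (nat_lit 100) (nat_lit 5) (nat_lit 104) (nat_lit 5) (nat_lit 105) (nat_lit 5) (nat_lit 451) (nat_lit 439) (nat_lit 310))))) (XT.nd (nat_lit 234) (nat_lit 760) (nat_lit 0) (XT.nd (nat_lit 78) (nat_lit 608) (nat_lit 0) (XT.lf (nat_lit 0) (nat_lit 65857067955) (nat_lit 304) (nat_lit 61847940561) (nat_lit 380) (nat_lit 13133106400) (nat_lit 96) (nat_lit 5) (nat_lit 100) (nat_lit 5) (nat_lit 101) (nat_lit 5) (nat_lit 452) (nat_lit 439) (nat_lit 309)) (XT.nd (nat_lit 78) (nat_lit 304) (nat_lit 0) (XT.lf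 (nat_lit 0) (nat_lit 21156281966) (nat_lit 304) (nat_lit 95657065863) (nat_lit 76) (nat_lit 30542950482) (nat_lit 92) (nat_lit 5) (nat_lit 96) (nat_lit 5) (nat_lit 93) (nat_lit 5) (nat_lit 453) (nat_lit 439) (nat_lit 308)) (XT.lf (nat_lit 0) (nat_lit 36750517617) (nat_lit 304) (nat_lit 23927848399) (nat_lit 380) (nat_lit 93559322482) (nat_lit 88) (nat_lit 5) (nat_lit 92) (nat_lit 5) (nat_lit 93) (nat_lit 5) (nat_lit 454) (nat_lit 439) (nat_lit 307)))) (XT.nd (nat_lit 156) (nat_lit 304) (nat_lit 0) (XT.nd (nat_lit 78) (nat_lit 228) (nat_lit 0) (XT.lf (nat_lit 0) (nat_lit 21032694118) (nat_lit 228) (nat_lit 85543507000) (nat_lit 304) (nat_lit 54932689744) (nat_lit 85) (nat_lit 5) (nat_lit 88) (nat_lit 5) (nat_lit 89) (nat_lit 5) (nat_lit 455) (nat_lit 439) (nat_lit 306)) (XT.lf (nat_lit 0) (nat_lit 5088125783) (nat_lit 228) (nat_lit 153827132329) (nat_lit 304) (nat_lit 10308061718) (nat_lit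 82) (nat_lit 5) (nat_lit 85) (nat_lit 5) (nat_lit 86) (nat_lit 5) (nat_lit 456) (nat_lit 439) (nat_lit 305))) (XT.nd (nat_lit 78) (nat_lit 228) (nat_lit 0) (XT.lf (nat_lit 0) (nat_lit 40602890008) (nat_lit 304) (nat_lit 12193465977) (nat_lit 76) (nat_lit 124532523565) (nat_lit 81) (nat_lit 5) (nat_lit 85) (nat_lit 5) (nat_lit 82) (nat_lit 5) (nat_lit 457) (nat_lit 439) (nat_lit 304)) (XT.lf (nat_lit 0) (nat_lit 98599336087) (nat_lit 304) (nat_lit 30128209468) (nat_lit 76) (nat_lit 57178201275) (nat_lit 78) (nat_lit 5) (nat_lit 82) (nat_lit 5) (nat_lit 79) (nat_lit 5) (nat_lit 458) (nat_lit 439) (nat_lit 303))))))) (XT.nd (nat_lit 1014) (nat_lit 1520) (nat_lit 0) (XT.nd (nat_lit 468) (nat_lit 1064) (nat_lit 0) (XT.nd (nat_lit 234) (nat_lit 532) (nat_lit 0) (XT.nd (nat_lit 78) (nat_lit 456) (nat_lit 0) (XT.lf (nat_lit 0) (nat_lit 146249942812) (nat_lit 228) (nat_lit 18374541825) (nat_lit 304)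 (nat_lit 30374829642) (nat_lit 75) (nat_lit 5) (nat_lit 78) (nat_lit 5) (nat_lit 79) (nat_lit 5) (nat_lit 459) (nat_lit 439) (nat_lit 302)) (XT.nd (nat_lit 78) (nat_lit 228) (nat_lit 0) (XT.lf (nat_lit 0) (nat_lit 34411567128) (nat_lit 228) (nat_lit 69381281691) (nat_lit 76) (nat_lit 100788429486) (nat_lit 72) (nat_lit 5) (nat_lit 75) (nat_lit 5) (nat_lit 73) (nat_lit 5) (nat_lit 460) (nat_lit 439) (nat_lit 301)) (XT.lf (nat_lit 0) (nat_lit 106708764434) (nat_lit 304) (nat_lit 91174691569) (nat_lit 76) (nat_lit 16851842409) (nat_lit 69) (nat_lit 5) (nat_lit 73) (nat_lit 5) (nat_lit 70) (nat_lit 5) (nat_lit 461) (nat_lit 439) (nat_lit 300)))) (XT.nd (nat_lit 78) (nat_lit 380) (nat_lit 0) (XT.lf (nat_lit 0) (nat_lit 110541583965) (nat_lit 152) (nat_lit 78952093595) (nat_lit 228) (nat_lit 35972765662) (nat_lit 67) (nat_lit 5) (nat_lit 69) (nat_lit 5) (nat_lit 70) (nat_lit 5) (nat_lit 462) (nat_lit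 439) (nat_lit 299)) (XT.nd (nat_lit 78) (nat_lit 152) (nat_lit 0) (XT.lf (nat_lit 0) (nat_lit 44470593759) (nat_lit 228) (nat_lit 140599542608) (nat_lit 76) (nat_lit 51755047177) (nat_lit 64) (nat_lit 5) (nat_lit 67) (nat_lit 5) (nat_lit 65) (nat_lit 5) (nat_lit 463) (nat_lit 439) (nat_lit 298)) (XT.lf (nat_lit 0) (nat_lit 79967711971) (nat_lit 152) (nat_lit 54752363401) (nat_lit 228) (nat_lit 114111513727) (nat_lit 62) (nat_lit 5) (nat_lit 64) (nat_lit 5) (nat_lit 65) (nat_lit 5) (nat_lit 464) (nat_lit 439) (nat_lit 297))))) (XT.nd (nat_lit 234) (nat_lit 532) (nat_lit 0) (XT.nd (nat_lit 78) (nat_lit 380) (nat_lit 0) (XT.lf (nat_lit 0) (nat_lit 62130246809) (nat_lit 152) (nat_lit 174860757113) (nat_lit 228) (nat_lit 24567428829) (nat_lit 60) (nat_lit 5) (nat_lit 62) (nat_lit 5) (nat_lit 63) (nat_lit 5) (nat_lit 465) (nat_lit 439) (nat_lit 296)) (XT.nd (nat_lit 78) (nat_lit 152) (nat_lit 0)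 (XT.lf (nat_lit 0) (nat_lit 41714342190) (nat_lit 152) (nat_lit 32680741373) (nat_lit 228) (nat_lit 200623833021) (nat_lit 57) (nat_lit 5) (nat_lit 59) (nat_lit 5) (nat_lit 60) (nat_lit 5) (nat_lit 466) (nat_lit 439) (nat_lit 295)) (XT.lf (nat_lit 0) (nat_lit 18107796410) (nat_lit 152) (nat_lit 168017962840) (nat_lit 228) (nat_lit 103124748428) (nat_lit 55) (nat_lit 5) (nat_lit 57) (nat_lit 5) (nat_lit 58) (nat_lit 5) (nat_lit 467) (nat_lit 439) (nat_lit 294)))) (XT.nd (nat_lit 156) (nat_lit 304) (nat_lit 0) (XT.nd (nat_lit 78) (nat_lit 152) (nat_lit 0) (XT.lf (nat_lit 0) (nat_lit 6786008905) (nat_lit 228) (nat_lit 7105281687) (nat_lit 76) (nat_lit 290493571405) (nat_lit 54) (nat_lit 5) (nat_lit 57) (nat_lit 5) (nat_lit 55) (nat_lit 5) (nat_lit 468) (nat_lit 439) (nat_lit 293)) (XT.lf (nat_lit 0) (nat_lit 128864850363) (nat_lit 228) (nat_lit 37451797439) (nat_lit 76) (nat_lit 153979377806)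 (nat_lit 52) (nat_lit 5) (nat_lit 55) (nat_lit 5) (nat_lit 53) (nat_lit 5) (nat_lit 469) (nat_lit 439) (nat_lit 292))) (XT.nd (nat_lit 78) (nat_lit 152) (nat_lit 0) (XT.lf (nat_lit 0) (nat_lit 265268341346) (nat_lit 228) (nat_lit 70201381488) (nat_lit 76) (nat_lit 1782442408) (nat_lit 50) (nat_lit 5) (nat_lit 53) (nat_lit 5) (nat_lit 51) (nat_lit 4) (nat_lit 470) (nat_lit 439) (nat_lit 291)) (XT.lf (nat_lit 0) (nat_lit 62634800217) (nat_lit 152) (nat_lit 109406653324) (nat_lit 76) (nat_lit 183106808039) (nat_lit 48) (nat_lit 5) (nat_lit 50) (nat_lit 5) (nat_lit 49) (nat_lit 5) (nat_lit 471) (nat_lit 439) (nat_lit 290)))))) (XT.nd (nat_lit 546) (nat_lit 684) (nat_lit 0) (XT.nd (nat_lit 234) (nat_lit 380) (nat_lit 0) (XT.nd (nat_lit 78) (nat_lit 304) (nat_lit 0) (XT.lf (nat_lit 0) (nat_lit 210392405968) (nat_lit 228) (nat_lit 153459826377) (nat_lit 76) (nat_lit 10320237467) (nat_lit 46) (nat_lit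 5) (nat_lit 49) (nat_lit 5) (nat_lit 47) (nat_lit 4) (nat_lit 472) (nat_lit 439) (nat_lit 289)) (XT.nd (nat_lit 78) (nat_lit 228) (nat_lit 0) (XT.lf (nat_lit 0) (nat_lit 189662730784) (nat_lit 76) (nat_lit 188106737138) (nat_lit 152) (nat_lit 16559204429) (nat_lit 45) (nat_lit 5) (nat_lit 46) (nat_lit 5) (nat_lit 47) (nat_lit 4) (nat_lit 473) (nat_lit 439) (nat_lit 288)) (XT.lf (nat_lit 0) (nat_lit 143122358506) (nat_lit 228) (nat_lit 263518276681) (nat_lit 76) (nat_lit 9083442949) (nat_lit 42) (nat_lit 5) (nat_lit 45) (nat_lit 5) (nat_lit 43) (nat_lit 4) (nat_lit 474) (nat_lit 439) (nat_lit 287)))) (XT.nd (nat_lit 156) (nat_lit 76) (nat_lit 0) (XT.nd (nat_lit 78) (nat_lit 228) (nat_lit 0) (XT.lf (nat_lit 0) (nat_lit 106171137408) (nat_lit 76) (nat_lit 217287687877) (nat_lit 152) (nat_lit 114935691376) (nat_lit 41) (nat_lit 5) (nat_lit 42) (nat_lit 5) (nat_lit 43) (nat_lit 4) (nat_lit 475)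 (nat_lit 439) (nat_lit 286)) (XT.lf (nat_lit 0) (nat_lit 52951767874) (nat_lit 152) (nat_lit 6112543809) (nat_lit 228) (nat_lit 403496473461) (nat_lit 38) (nat_lit 5) (nat_lit 40) (nat_lit 5) (nat_lit 41) (nat_lit 5) (nat_lit 476) (nat_lit 439) (nat_lit 285))) (XT.nd (nat_lit 78) (nat_lit 76) (nat_lit 0) (XT.lf (nat_lit 0) (nat_lit 252358462544) (nat_lit 228) (nat_lit 13065214399) (nat_lit 76) (nat_lit 222672421885) (nat_lit 38) (nat_lit 5) (nat_lit 41) (nat_lit 5) (nat_lit 39) (nat_lit 4) (nat_lit 477) (nat_lit 439) (nat_lit 284)) (XT.lf (nat_lit 0) (nat_lit 428823622469) (nat_lit 76) (nat_lit 39090496681) (nat_lit 152) (nat_lit 47420219795) (nat_lit 37) (nat_lit 5) (nat_lit 38) (nat_lit 5) (nat_lit 39) (nat_lit 4) (nat_lit 478) (nat_lit 439) (nat_lit 283))))) (XT.nd (nat_lit 234) (nat_lit 304) (nat_lit 0) (XT.nd (nat_lit 78) (nat_lit 228) (nat_lit 0) (XT.lf (nat_lit 0) (nat_lit 160342686203)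 (nat_lit 152) (nat_lit 176440885439) (nat_lit 76) (nat_lit 207377722337) (nat_lit 35) (nat_lit 5) (nat_lit 37) (nat_lit 5) (nat_lit 36) (nat_lit 4) (nat_lit 479) (nat_lit 439) (nat_lit 282)) (XT.nd (nat_lit 78) (nat_lit 152) (nat_lit 0) (XT.lf (nat_lit 0) (nat_lit 294089076502) (nat_lit 76) (nat_lit 95780523633) (nat_lit 152) (nat_lit 185045718818) (nat_lit 34) (nat_lit 5) (nat_lit 35) (nat_lit 5) (nat_lit 36) (nat_lit 4) (nat_lit 480) (nat_lit 439) (nat_lit 281)) (XT.lf (nat_lit 0) (nat_lit 37711368541) (nat_lit 152) (nat_lit 403781027556) (nat_lit 76) (nat_lit 166162606238) (nat_lit 32) (nat_lit 5) (nat_lit 34) (nat_lit 5) (nat_lit 33) (nat_lit 4) (nat_lit 481) (nat_lit 439) (nat_lit 280)))) (XT.nd (nat_lit 156) (nat_lit 228) (nat_lit 0) (XT.nd (nat_lit 78) (nat_lit 0) (nat_lit 0) (XT.lf (nat_lit 0) (nat_lit 92762297482) (nat_lit 76) (nat_lit 187165411462) (nat_lit 152) (nat_lit 362528385304)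 (nat_lit 31) (nat_lit 5) (nat_lit 32) (nat_lit 5) (nat_lit 33) (nat_lit 4) (nat_lit 482) (nat_lit 439) (nat_lit 279)) (XT.lf (nat_lit 0) (nat_lit 550036308628) (nat_lit 152) (nat_lit 37723542808) (nat_lit 0) (nat_lit 91855674490) (nat_lit 31) (nat_lit 5) (nat_lit 33) (nat_lit 4) (nat_lit 31) (nat_lit 4) (nat_lit 483) (nat_lit 439) (nat_lit 278))) (XT.nd (nat_lit 78) (nat_lit 76) (nat_lit 0) (XT.lf (nat_lit 0) (nat_lit 129702664305) (nat_lit 152) (nat_lit 192290313397) (nat_lit 76) (nat_lit 397079405240) (nat_lit 29) (nat_lit 5) (nat_lit 31) (nat_lit 5) (nat_lit 30) (nat_lit 4) (nat_lit 484) (nat_lit 439) (nat_lit 277)) (XT.lf (nat_lit 0) (nat_lit 386310585865) (nat_lit 76) (nat_lit 25636483267) (nat_lit 152) (nat_lit 349294517060) (nat_lit 28) (nat_lit 5) (nat_lit 29) (nat_lit 5) (nat_lit 30) (nat_lit 4) (nat_lit 485) (nat_lit 439) (nat_lit 276))))))))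
noncomputable def xc104 : XT := (XT.nd (nat_lit 60216) (nat_lit 0) (nat_lit 912) (XT.nd (nat_lit 59202) (nat_lit 0) (nat_lit 5016) (XT.nd (nat_lit 468) (nat_lit 228) (nat_lit 0) (XT.nd (nat_lit 234) (nat_lit 228) (nat_lit 0) (XT.nd (nat_lit 78) (nat_lit 152) (nat_lit 0) (XT.lf (nat_lit 0) (nat_lit 213634884365) (nat_lit 76) (nat_lit 514472746891) (nat_lit 76) (nat_lit 78109864211) (nat_lit 27) (nat_lit 4) (nat_lit 28) (nat_lit 5) (nat_lit 28) (nat_lit 4) (nat_lit 486) (nat_lit 439) (nat_lit 275)) (XT.nd (nat_lit 78) (nat_lit 0) (nat_lit 0) (XT.lf (nat_lit 0) (nat_lit 4459692434) (nat_lit 76) (nat_lit 210575762092) (nat_lit 152) (nat_lit 639231372187) (nat_lit 25) (nat_lit 5) (nat_lit 26) (nat_lit 5) (nat_lit 27) (nat_lit 4) (nat_lit 487) (nat_lit 439) (nat_lit 274)) (XT.lf (nat_lit 0) (nat_lit 541260439289) (nat_lit 152) (nat_lit 238540863361) (nat_lit 0) (nat_lit 125676545853) (nat_lit 25)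 (nat_lit 5) (nat_lit 27) (nat_lit 4) (nat_lit 25) (nat_lit 4) (nat_lit 488) (nat_lit 439) (nat_lit 273)))) (XT.nd (nat_lit 78) (nat_lit 152) (nat_lit 0) (XT.lf (nat_lit 0) (nat_lit 431899194164) (nat_lit 76) (nat_lit 471977926752) (nat_lit 76) (nat_lit 56393946223) (nat_lit 24) (nat_lit 4) (nat_lit 25) (nat_lit 5) (nat_lit 25) (nat_lit 4) (nat_lit 489) (nat_lit 439) (nat_lit 272)) (XT.nd (nat_lit 78) (nat_lit 0) (nat_lit 0) (XT.lf (nat_lit 0) (nat_lit 145532228467) (nat_lit 76) (nat_lit 128183034770) (nat_lit 152) (nat_lit 745192211817) (nat_lit 22) (nat_lit 5) (nat_lit 23) (nat_lit 5) (nat_lit 24) (nat_lit 4) (nat_lit 490) (nat_lit 439) (nat_lit 271)) (XT.lf (nat_lit 0) (nat_lit 641434206619) (nat_lit 152) (nat_lit 194455734592) (nat_lit 0) (nat_lit 245639791535) (nat_lit 22) (nat_lit 5) (nat_lit 24) (nat_lit 4) (nat_lit 22) (nat_lit 4) (nat_lit 491) (nat_lit 439) (nat_lit 270))))) (XT.nd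 (nat_lit 58422) (nat_lit 0) (nat_lit 8056) (XT.nd (nat_lit 78) (nat_lit 152) (nat_lit 0) (XT.lf (nat_lit 0) (nat_lit 554358617692) (nat_lit 76) (nat_lit 495028408139) (nat_lit 76) (nat_lit 99233927209) (nat_lit 21) (nat_lit 4) (nat_lit 22) (nat_lit 5) (nat_lit 22) (nat_lit 4) (nat_lit 492) (nat_lit 439) (nat_lit 269)) (XT.nd (nat_lit 78) (nat_lit 0) (nat_lit 0) (XT.lf (nat_lit 0) (nat_lit 149647611302) (nat_lit 76) (nat_lit 116421731721) (nat_lit 152) (nat_lit 954511260770) (nat_lit 19) (nat_lit 5) (nat_lit 20) (nat_lit 5) (nat_lit 21) (nat_lit 4) (nat_lit 493) (nat_lit 439) (nat_lit 268)) (XT.lf (nat_lit 0) (nat_lit 672254253930) (nat_lit 152) (nat_lit 329897713367) (nat_lit 0) (nat_lit 295307017407) (nat_lit 19) (nat_lit 5) (nat_lit 21) (nat_lit 4) (nat_lit 19) (nat_lit 4) (nat_lit 494) (nat_lit 439) (nat_lit 267)))) (XT.nd (nat_lit 156) (nat_lit 0) (nat_lit 76) (XT.nd (nat_lit 78) (nat_lit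 0) (nat_lit 76) (XT.lf (nat_lit 0) (nat_lit 14709411898) (nat_lit 836) (nat_lit 14719527355) (nat_lit 836) (nat_lit 14719527355) (nat_lit 125) (nat_lit 3) (nat_lit 136) (nat_lit 3) (nat_lit 136) (nat_lit 5) (nat_lit 440) (nat_lit 440) (nat_lit 320)) (XT.lf (nat_lit 0) (nat_lit 31403458544) (nat_lit 760) (nat_lit 50865362919) (nat_lit 836) (nat_lit 9519589972) (nat_lit 126) (nat_lit 5) (nat_lit 136) (nat_lit 5) (nat_lit 137) (nat_lit 5) (nat_lit 441) (nat_lit 440) (nat_lit 319))) (XT.nd (nat_lit 78) (nat_lit 0) (nat_lit 76) (XT.lf (nat_lit 76) (nat_lit 22138756951) (nat_lit 0) (nat_lit 13266130446) (nat_lit 836) (nat_lit 60061419853) (nat_lit 127) (nat_lit 5) (nat_lit 126) (nat_lit 5) (nat_lit 137) (nat_lit 5) (nat_lit 442) (nat_lit 440) (nat_lit 318)) (XT.lf (nat_lit 76) (nat_lit 2514204880) (nat_lit 0) (nat_lit 39107235793) (nat_lit 836) (nat_lit 57722244014) (nat_lit 128) (nat_lit 5) (nat_lit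 127) (nat_lit 5) (nat_lit 138) (nat_lit 5) (nat_lit 443) (nat_lit 440) (nat_lit 317)))))) (XT.nd (nat_lit 468) (nat_lit 2204) (nat_lit 0) (XT.nd (nat_lit 234) (nat_lit 1064) (nat_lit 0) (XT.nd (nat_lit 78) (nat_lit 0) (nat_lit 76) (XT.lf (nat_lit 0) (nat_lit 50408931861) (nat_lit 760) (nat_lit 17223832694) (nat_lit 836) (nat_lit 35794807513) (nat_lit 128) (nat_lit 5) (nat_lit 138) (nat_lit 5) (nat_lit 139) (nat_lit 5) (nat_lit 444) (nat_lit 440) (nat_lit 316)) (XT.nd (nat_lit 78) (nat_lit 0) (nat_lit 0) (XT.lf (nat_lit 0) (nat_lit 61791636703) (nat_lit 760) (nat_lit 37544506313) (nat_lit 836) (nat_lit 8407417104) (nat_lit 129) (nat_lit 5) (nat_lit 139) (nat_lit 5) (nat_lit 140) (nat_lit 5) (nat_lit 445) (nat_lit 440) (nat_lit 315)) (XT.lf (nat_lit 76) (nat_lit 53404145269) (nat_lit 0) (nat_lit 22958992714) (nat_lit 836) (nat_lit 35927780600) (nat_lit 130) (nat_lit 5) (nat_lit 129) (nat_lit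 5) (nat_lit 140) (nat_lit 5) (nat_lit 446) (nat_lit 440) (nat_lit 314)))) (XT.nd (nat_lit 78) (nat_lit 456) (nat_lit 0) (XT.lf (nat_lit 0) (nat_lit 36011692286) (nat_lit 760) (nat_lit 58244132238) (nat_lit 836) (nat_lit 22838468282) (nat_lit 120) (nat_lit 5) (nat_lit 130) (nat_lit 5) (nat_lit 131) (nat_lit 5) (nat_lit 447) (nat_lit 440) (nat_lit 313)) (XT.nd (nat_lit 78) (nat_lit 76) (nat_lit 0) (XT.lf (nat_lit 0) (nat_lit 18180678077) (nat_lit 380) (nat_lit 97482635920) (nat_lit 456) (nat_lit 6514453887) (nat_lit 115) (nat_lit 5) (nat_lit 120) (nat_lit 5) (nat_lit 121) (nat_lit 5) (nat_lit 448) (nat_lit 440) (nat_lit 312)) (XT.lf (nat_lit 0) (nat_lit 13176568840) (nat_lit 456) (nat_lit 496456158) (nat_lit 76) (nat_lit 113865376456) (nat_lit 114) (nat_lit 5) (nat_lit 120) (nat_lit 5) (nat_lit 115) (nat_lit 5) (nat_lit 449) (nat_lit 440) (nat_lit 311))))) (XT.nd (nat_lit 234) (nat_lit 1140)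 (nat_lit 0) (XT.nd (nat_lit 78) (nat_lit 684) (nat_lit 0) (XT.lf (nat_lit 0) (nat_lit 37240967068) (nat_lit 456) (nat_lit 19614142904) (nat_lit 76) (nat_lit 76316119861) (nat_lit 109) (nat_lit 5) (nat_lit 115) (nat_lit 5) (nat_lit 110) (nat_lit 5) (nat_lit 450) (nat_lit 440) (nat_lit 310)) (XT.nd (nat_lit 78) (nat_lit 304) (nat_lit 0) (XT.lf (nat_lit 0) (nat_lit 65591370581) (nat_lit 456) (nat_lit 39234678973) (nat_lit 76) (nat_lit 34310592495) (nat_lit 104) (nat_lit 5) (nat_lit 110) (nat_lit 5) (nat_lit 105) (nat_lit 5) (nat_lit 451) (nat_lit 440) (nat_lit 309)) (XT.lf (nat_lit 0) (nat_lit 85901933856) (nat_lit 304) (nat_lit 12954323764) (nat_lit 380) (nat_lit 46590707281) (nat_lit 100) (nat_lit 5) (nat_lit 104) (nat_lit 5) (nat_lit 105) (nat_lit 5) (nat_lit 452) (nat_lit 440) (nat_lit 308)))) (XT.nd (nat_lit 156) (nat_lit 532) (nat_lit 0) (XT.nd (nat_lit 78) (nat_lit 304) (nat_lit 0) (XT.lf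 (nat_lit 0) (nat_lit 71140715066) (nat_lit 304) (nat_lit 66793215358) (nat_lit 380) (nat_lit 14170603623) (nat_lit 96) (nat_lit 5) (nat_lit 100) (nat_lit 5) (nat_lit 101) (nat_lit 5) (nat_lit 453) (nat_lit 440) (nat_lit 307)) (XT.lf (nat_lit 0) (nat_lit 22860847403) (nat_lit 304) (nat_lit 103294238065) (nat_lit 76) (nat_lit 32989110036) (nat_lit 92) (nat_lit 5) (nat_lit 96) (nat_lit 5) (nat_lit 93) (nat_lit 5) (nat_lit 454) (nat_lit 440) (nat_lit 306))) (XT.nd (nat_lit 78) (nat_lit 228) (nat_lit 0) (XT.lf (nat_lit 0) (nat_lit 39705283129) (nat_lit 304) (nat_lit 25838751385) (nat_lit 380) (nat_lit 101032095834) (nat_lit 88) (nat_lit 5) (nat_lit 92) (nat_lit 5) (nat_lit 93) (nat_lit 5) (nat_lit 455) (nat_lit 440) (nat_lit 305)) (XT.lf (nat_lit 0) (nat_lit 22729892520) (nat_lit 228) (nat_lit 92383235264) (nat_lit 304) (nat_lit 59315929793) (nat_lit 85) (nat_lit 5) (nat_lit 88) (nat_lit 5) (nat_lit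 89) (nat_lit 5) (nat_lit 456) (nat_lit 440) (nat_lit 304))))))) (XT.nd (nat_lit 1014) (nat_lit 1748) (nat_lit 0) (XT.nd (nat_lit 468) (nat_lit 1140) (nat_lit 0) (XT.nd (nat_lit 234) (nat_lit 684) (nat_lit 0) (XT.nd (nat_lit 78) (nat_lit 304) (nat_lit 0) (XT.lf (nat_lit 0) (nat_lit 5509589815) (nat_lit 228) (nat_lit 166129196544) (nat_lit 304) (nat_lit 11121880876) (nat_lit 82) (nat_lit 5) (nat_lit 85) (nat_lit 5) (nat_lit 86) (nat_lit 5) (nat_lit 457) (nat_lit 440) (nat_lit 303)) (XT.nd (nat_lit 78) (nat_lit 228) (nat_lit 0) (XT.lf (nat_lit 0) (nat_lit 43860824252) (nat_lit 304) (nat_lit 13155273690) (nat_lit 76) (nat_lit 134498604350) (nat_lit 81) (nat_lit 5) (nat_lit 85) (nat_lit 5) (nat_lit 82) (nat_lit 5) (nat_lit 458) (nat_lit 440) (nat_lit 302)) (XT.lf (nat_lit 0) (nat_lit 106496532106) (nat_lit 304) (nat_lit 32524989702) (nat_lit 76) (nat_lit 61756220024) (nat_lit 78) (nat_lit 5) (nat_lit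 82) (nat_lit 5) (nat_lit 79) (nat_lit 5) (nat_lit 459) (nat_lit 440) (nat_lit 301)))) (XT.nd (nat_lit 78) (nat_lit 456) (nat_lit 0) (XT.lf (nat_lit 0) (nat_lit 157962829087) (nat_lit 228) (nat_lit 19840379595) (nat_lit 304) (nat_lit 32795610358) (nat_lit 75) (nat_lit 5) (nat_lit 78) (nat_lit 5) (nat_lit 79) (nat_lit 5) (nat_lit 460) (nat_lit 440) (nat_lit 300)) (XT.nd (nat_lit 78) (nat_lit 228) (nat_lit 0) (XT.lf (nat_lit 0) (nat_lit 37173005437) (nat_lit 228) (nat_lit 74918810623) (nat_lit 76) (nat_lit 108855536996) (nat_lit 72) (nat_lit 5) (nat_lit 75) (nat_lit 5) (nat_lit 73) (nat_lit 5) (nat_lit 461) (nat_lit 440) (nat_lit 299)) (XT.lf (nat_lit 0) (nat_lit 115253609352) (nat_lit 304) (nat_lit 98455919235) (nat_lit 76) (nat_lit 18204184782) (nat_lit 69) (nat_lit 5) (nat_lit 73) (nat_lit 5) (nat_lit 70) (nat_lit 5) (nat_lit 462) (nat_lit 440) (nat_lit 298))))) (XT.nd (nat_lit 234) (nat_lit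 608) (nat_lit 0) (XT.nd (nat_lit 78) (nat_lit 380) (nat_lit 0) (XT.lf (nat_lit 0) (nat_lit 119397104345) (nat_lit 152) (nat_lit 85263798319) (nat_lit 228) (nat_lit 38842467871) (nat_lit 67) (nat_lit 5) (nat_lit 69) (nat_lit 5) (nat_lit 70) (nat_lit 5) (nat_lit 463) (nat_lit 440) (nat_lit 297)) (XT.nd (nat_lit 78) (nat_lit 152) (nat_lit 0) (XT.lf (nat_lit 0) (nat_lit 48035773777) (nat_lit 228) (nat_lit 151835287176) (nat_lit 76) (nat_lit 55899759236) (nat_lit 64) (nat_lit 5) (nat_lit 67) (nat_lit 5) (nat_lit 65) (nat_lit 5) (nat_lit 464) (nat_lit 440) (nat_lit 296)) (XT.lf (nat_lit 0) (nat_lit 86376816753) (nat_lit 152) (nat_lit 59128021682) (nat_lit 228) (nat_lit 123232918633) (nat_lit 62) (nat_lit 5) (nat_lit 64) (nat_lit 5) (nat_lit 65) (nat_lit 5) (nat_lit 465) (nat_lit 440) (nat_lit 295)))) (XT.nd (nat_lit 156) (nat_lit 228) (nat_lit 0) (XT.nd (nat_lit 78) (nat_lit 228) (nat_lit 0) (XT.lf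 (nat_lit 0) (nat_lit 67112122326) (nat_lit 152) (nat_lit 188845033148) (nat_lit 228) (nat_lit 26525607125) (nat_lit 60) (nat_lit 5) (nat_lit 62) (nat_lit 5) (nat_lit 63) (nat_lit 5) (nat_lit 466) (nat_lit 440) (nat_lit 294)) (XT.lf (nat_lit 0) (nat_lit 45062669506) (nat_lit 152) (nat_lit 35290662933) (nat_lit 228) (nat_lit 216666764293) (nat_lit 57) (nat_lit 5) (nat_lit 59) (nat_lit 5) (nat_lit 60) (nat_lit 5) (nat_lit 467) (nat_lit 440) (nat_lit 293))) (XT.nd (nat_lit 78) (nat_lit 76) (nat_lit 0) (XT.lf (nat_lit 0) (nat_lit 19567365127) (nat_lit 152) (nat_lit 181454841522) (nat_lit 228) (nat_lit 111368021322) (nat_lit 55) (nat_lit 5) (nat_lit 57) (nat_lit 5) (nat_lit 58) (nat_lit 5) (nat_lit 468) (nat_lit 440) (nat_lit 292)) (XT.lf (nat_lit 0) (nat_lit 7334901020) (nat_lit 228) (nat_lit 7663370323) (nat_lit 76) (nat_lit 313737078172) (nat_lit 54) (nat_lit 5) (nat_lit 57) (nat_lit 5) (nat_lit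 55) (nat_lit 5) (nat_lit 469) (nat_lit 440) (nat_lit 291)))))) (XT.nd (nat_lit 546) (nat_lit 760) (nat_lit 0) (XT.nd (nat_lit 234) (nat_lit 532) (nat_lit 0) (XT.nd (nat_lit 78) (nat_lit 304) (nat_lit 0) (XT.lf (nat_lit 0) (nat_lit 139179823853) (nat_lit 228) (nat_lit 40437834622) (nat_lit 76) (nat_lit 166301759102) (nat_lit 52) (nat_lit 5) (nat_lit 55) (nat_lit 5) (nat_lit 53) (nat_lit 5) (nat_lit 470) (nat_lit 440) (nat_lit 290)) (XT.nd (nat_lit 78) (nat_lit 152) (nat_lit 0) (XT.lf (nat_lit 0) (nat_lit 286495381439) (nat_lit 228) (nat_lit 75807613419) (nat_lit 76) (nat_lit 1929064217) (nat_lit 50) (nat_lit 5) (nat_lit 53) (nat_lit 5) (nat_lit 51) (nat_lit 4) (nat_lit 471) (nat_lit 440) (nat_lit 289)) (XT.lf (nat_lit 0) (nat_lit 67650979428) (nat_lit 152) (nat_lit 118149557265) (nat_lit 76) (nat_lit 197759315394) (nat_lit 48) (nat_lit 5) (nat_lit 50) (nat_lit 5) (nat_lit 49) (nat_lit 5) (nat_lit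 472) (nat_lit 440) (nat_lit 288)))) (XT.nd (nat_lit 156) (nat_lit 304) (nat_lit 0) (XT.nd (nat_lit 78) (nat_lit 76) (nat_lit 0) (XT.lf (nat_lit 0) (nat_lit 227229001341) (nat_lit 228) (nat_lit 165727208572) (nat_lit 76) (nat_lit 11149796730) (nat_lit 46) (nat_lit 5) (nat_lit 49) (nat_lit 5) (nat_lit 47) (nat_lit 4) (nat_lit 473) (nat_lit 440) (nat_lit 287)) (XT.lf (nat_lit 0) (nat_lit 204844744479) (nat_lit 76) (nat_lit 203151238813) (nat_lit 152) (nat_lit 17878734385) (nat_lit 45) (nat_lit 5) (nat_lit 46) (nat_lit 5) (nat_lit 47) (nat_lit 4) (nat_lit 474) (nat_lit 440) (nat_lit 286))) (XT.nd (nat_lit 78) (nat_lit 76) (nat_lit 0) (XT.lf (nat_lit 0) (nat_lit 154577012307) (nat_lit 228) (nat_lit 284590795775) (nat_lit 76) (nat_lit 9813952552) (nat_lit 42) (nat_lit 5) (nat_lit 45) (nat_lit 5) (nat_lit 43) (nat_lit 4) (nat_lit 475) (nat_lit 440) (nat_lit 285)) (XT.lf (nat_lit 0) (nat_lit 114673382788)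 (nat_lit 76) (nat_lit 234666786819) (nat_lit 152) (nat_lit 124125676011) (nat_lit 41) (nat_lit 5) (nat_lit 42) (nat_lit 5) (nat_lit 43) (nat_lit 4) (nat_lit 476) (nat_lit 440) (nat_lit 284))))) (XT.nd (nat_lit 234) (nat_lit 456) (nat_lit 0) (XT.nd (nat_lit 78) (nat_lit 76) (nat_lit 0) (XT.lf (nat_lit 0) (nat_lit 57196241465) (nat_lit 152) (nat_lit 6597710781) (nat_lit 228) (nat_lit 435771470521) (nat_lit 38) (nat_lit 5) (nat_lit 40) (nat_lit 5) (nat_lit 41) (nat_lit 5) (nat_lit 477) (nat_lit 440) (nat_lit 283)) (XT.nd (nat_lit 78) (nat_lit 76) (nat_lit 0) (XT.lf (nat_lit 0) (nat_lit 272551357628) (nat_lit 228) (nat_lit 14102563542) (nat_lit 76) (nat_lit 240489654284) (nat_lit 38) (nat_lit 5) (nat_lit 41) (nat_lit 5) (nat_lit 39) (nat_lit 4) (nat_lit 478) (nat_lit 440) (nat_lit 282)) (XT.lf (nat_lit 0) (nat_lit 463137038342) (nat_lit 76) (nat_lit 42214233473) (nat_lit 152) (nat_lit 51209612740)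 (nat_lit 37) (nat_lit 5) (nat_lit 38) (nat_lit 5) (nat_lit 39) (nat_lit 4) (nat_lit 479) (nat_lit 440) (nat_lit 281)))) (XT.nd (nat_lit 156) (nat_lit 228) (nat_lit 0) (XT.nd (nat_lit 78) (nat_lit 76) (nat_lit 0) (XT.lf (nat_lit 0) (nat_lit 173174055541) (nat_lit 152) (nat_lit 190548685779) (nat_lit 76) (nat_lit 223971258148) (nat_lit 35) (nat_lit 5) (nat_lit 37) (nat_lit 5) (nat_lit 36) (nat_lit 4) (nat_lit 480) (nat_lit 440) (nat_lit 280)) (XT.lf (nat_lit 0) (nat_lit 317623348459) (nat_lit 76) (nat_lit 103439592773) (nat_lit 152) (nat_lit 199845414298) (nat_lit 34) (nat_lit 5) (nat_lit 35) (nat_lit 5) (nat_lit 36) (nat_lit 4) (nat_lit 481) (nat_lit 440) (nat_lit 279))) (XT.nd (nat_lit 78) (nat_lit 76) (nat_lit 0) (XT.lf (nat_lit 0) (nat_lit 40731989243) (nat_lit 152) (nat_lit 436076421154) (nat_lit 76) (nat_lit 179458806312) (nat_lit 32) (nat_lit 5) (nat_lit 34) (nat_lit 5) (nat_lit 33) (nat_lit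 4) (nat_lit 482) (nat_lit 440) (nat_lit 278)) (XT.lf (nat_lit 0) (nat_lit 100190061824) (nat_lit 76) (nat_lit 202135406012) (nat_lit 152) (nat_lit 391526936611) (nat_lit 31) (nat_lit 5) (nat_lit 32) (nat_lit 5) (nat_lit 33) (nat_lit 4) (nat_lit 483) (nat_lit 440) (nat_lit 277))))))))
noncomputable def xc105 : XT := (XT.nd (nat_lit 60294) (nat_lit 0) (nat_lit 1140) (XT.nd (nat_lit 59280) (nat_lit 0) (nat_lit 5548) (XT.nd (nat_lit 468) (nat_lit 456) (nat_lit 0) (XT.nd (nat_lit 234) (nat_lit 228) (nat_lit 0) (XT.nd (nat_lit 78) (nat_lit 228) (nat_lit 0) (XT.lf (nat_lit 0) (nat_lit 594042539927) (nat_lit 152) (nat_lit 40735030561) (nat_lit 0) (nat_lit 99207030967) (nat_lit 31) (nat_lit 5) (nat_lit 33) (nat_lit 4) (nat_lit 31) (nat_lit 4) (nat_lit 484) (nat_lit 440) (nat_lit 276)) (XT.nd (nat_lit 78) (nat_lit 76) (nat_lit 0) (XT.lf (nat_lit 0) (nat_lit 140082105410) (nat_lit 152) (nat_lit 207667313824)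 (nat_lit 76) (nat_lit 428848592755) (nat_lit 29) (nat_lit 5) (nat_lit 31) (nat_lit 5) (nat_lit 30) (nat_lit 4) (nat_lit 485) (nat_lit 440) (nat_lit 275)) (XT.lf (nat_lit 0) (nat_lit 417221386864) (nat_lit 76) (nat_lit 27684529613) (nat_lit 152) (nat_lit 377234842345) (nat_lit 28) (nat_lit 5) (nat_lit 29) (nat_lit 5) (nat_lit 30) (nat_lit 4) (nat_lit 486) (nat_lit 440) (nat_lit 274)))) (XT.nd (nat_lit 78) (nat_lit 152) (nat_lit 0) (XT.lf (nat_lit 0) (nat_lit 230731475150) (nat_lit 76) (nat_lit 555627752216) (nat_lit 76) (nat_lit 84355518296) (nat_lit 27) (nat_lit 4) (nat_lit 28) (nat_lit 5) (nat_lit 28) (nat_lit 4) (nat_lit 487) (nat_lit 440) (nat_lit 273)) (XT.nd (nat_lit 78) (nat_lit 0) (nat_lit 0) (XT.lf (nat_lit 0) (nat_lit 4822111931) (nat_lit 76) (nat_lit 227419076995) (nat_lit 152) (nat_lit 690366838879) (nat_lit 25) (nat_lit 5) (nat_lit 26) (nat_lit 5) (nat_lit 27) (nat_lit 4) (nat_lit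 488) (nat_lit 440) (nat_lit 272)) (XT.lf (nat_lit 0) (nat_lit 584563997499) (nat_lit 152) (nat_lit 257618811806) (nat_lit 0) (nat_lit 135733130793) (nat_lit 25) (nat_lit 5) (nat_lit 27) (nat_lit 4) (nat_lit 25) (nat_lit 4) (nat_lit 489) (nat_lit 440) (nat_lit 271))))) (XT.nd (nat_lit 234) (nat_lit 228) (nat_lit 0) (XT.nd (nat_lit 78) (nat_lit 152) (nat_lit 0) (XT.lf (nat_lit 0) (nat_lit 466456219093) (nat_lit 76) (nat_lit 509733672313) (nat_lit 76) (nat_lit 60902730939) (nat_lit 24) (nat_lit 4) (nat_lit 25) (nat_lit 5) (nat_lit 25) (nat_lit 4) (nat_lit 490) (nat_lit 440) (nat_lit 270)) (XT.nd (nat_lit 78) (nat_lit 0) (nat_lit 0) (XT.lf (nat_lit 0) (nat_lit 157179758684) (nat_lit 76) (nat_lit 138435250679) (nat_lit 152) (nat_lit 804804937334) (nat_lit 22) (nat_lit 5) (nat_lit 23) (nat_lit 5) (nat_lit 24) (nat_lit 4) (nat_lit 491) (nat_lit 440) (nat_lit 269)) (XT.lf (nat_lit 0) (nat_lit 692751316257)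 (nat_lit 152) (nat_lit 210007526313) (nat_lit 0) (nat_lit 265293150040) (nat_lit 22) (nat_lit 5) (nat_lit 24) (nat_lit 4) (nat_lit 22) (nat_lit 4) (nat_lit 492) (nat_lit 440) (nat_lit 268)))) (XT.nd (nat_lit 58422) (nat_lit 0) (nat_lit 8056) (XT.nd (nat_lit 78) (nat_lit 152) (nat_lit 0) (XT.lf (nat_lit 0) (nat_lit 598711771330) (nat_lit 76) (nat_lit 534628483589) (nat_lit 76) (nat_lit 107170260921) (nat_lit 21) (nat_lit 4) (nat_lit 22) (nat_lit 5) (nat_lit 22) (nat_lit 4) (nat_lit 493) (nat_lit 440) (nat_lit 267)) (XT.lf (nat_lit 0) (nat_lit 161623763383) (nat_lit 76) (nat_lit 125733328480) (nat_lit 152) (nat_lit 1030869850082) (nat_lit 19) (nat_lit 5) (nat_lit 20) (nat_lit 5) (nat_lit 21) (nat_lit 4) (nat_lit 494) (nat_lit 440) (nat_lit 266))) (XT.nd (nat_lit 78) (nat_lit 0) (nat_lit 76) (XT.lf (nat_lit 0) (nat_lit 15898754087) (nat_lit 836) (nat_lit 15890477745) (nat_lit 836) (nat_lit 15890477745)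 (nat_lit 125) (nat_lit 3) (nat_lit 136) (nat_lit 3) (nat_lit 136) (nat_lit 5) (nat_lit 441) (nat_lit 441) (nat_lit 318)) (XT.lf (nat_lit 0) (nat_lit 33939076529) (nat_lit 760) (nat_lit 54920588837) (nat_lit 836) (nat_lit 10270642850) (nat_lit 126) (nat_lit 5) (nat_lit 136) (nat_lit 5) (nat_lit 137) (nat_lit 5) (nat_lit 442) (nat_lit 441) (nat_lit 317)))))) (XT.nd (nat_lit 468) (nat_lit 2128) (nat_lit 0) (XT.nd (nat_lit 234) (nat_lit 456) (nat_lit 0) (XT.nd (nat_lit 78) (nat_lit 0) (nat_lit 76) (XT.lf (nat_lit 76) (nat_lit 23923252065) (nat_lit 0) (nat_lit 14335847766) (nat_lit 836) (nat_lit 64843412528) (nat_lit 127) (nat_lit 5) (nat_lit 126) (nat_lit 5) (nat_lit 137) (nat_lit 5) (nat_lit 443) (nat_lit 441) (nat_lit 316)) (XT.nd (nat_lit 78) (nat_lit 0) (nat_lit 76) (XT.lf (nat_lit 76) (nat_lit 2729331256) (nat_lit 0) (nat_lit 42242126312) (nat_lit 836) (nat_lit 62318699036) (nat_lit 128)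 (nat_lit 5) (nat_lit 127) (nat_lit 5) (nat_lit 138) (nat_lit 5) (nat_lit 444) (nat_lit 441) (nat_lit 315)) (XT.lf (nat_lit 0) (nat_lit 54460352982) (nat_lit 760) (nat_lit 18587747285) (nat_lit 836) (nat_lit 38652735037) (nat_lit 128) (nat_lit 5) (nat_lit 138) (nat_lit 5) (nat_lit 139) (nat_lit 5) (nat_lit 445) (nat_lit 441) (nat_lit 314)))) (XT.nd (nat_lit 78) (nat_lit 684) (nat_lit 0) (XT.lf (nat_lit 0) (nat_lit 66752432771) (nat_lit 760) (nat_lit 40533734980) (nat_lit 836) (nat_lit 9075997255) (nat_lit 129) (nat_lit 5) (nat_lit 139) (nat_lit 5) (nat_lit 140) (nat_lit 5) (nat_lit 446) (nat_lit 441) (nat_lit 313)) (XT.nd (nat_lit 78) (nat_lit 684) (nat_lit 0) (XT.lf (nat_lit 76) (nat_lit 57690185884) (nat_lit 0) (nat_lit 24798388591) (nat_lit 836) (nat_lit 38784792147) (nat_lit 130) (nat_lit 5) (nat_lit 129) (nat_lit 5) (nat_lit 140) (nat_lit 5) (nat_lit 447) (nat_lit 441) (nat_lit 312)) (XT.lf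 (nat_lit 0) (nat_lit 38906570430) (nat_lit 760) (nat_lit 62905070766) (nat_lit 836) (nat_lit 24649421783) (nat_lit 120) (nat_lit 5) (nat_lit 130) (nat_lit 5) (nat_lit 131) (nat_lit 5) (nat_lit 448) (nat_lit 441) (nat_lit 311))))) (XT.nd (nat_lit 234) (nat_lit 1292) (nat_lit 0) (XT.nd (nat_lit 78) (nat_lit 456) (nat_lit 0) (XT.lf (nat_lit 0) (nat_lit 19649229823) (nat_lit 380) (nat_lit 105281562662) (nat_lit 456) (nat_lit 7020470868) (nat_lit 115) (nat_lit 5) (nat_lit 120) (nat_lit 5) (nat_lit 121) (nat_lit 5) (nat_lit 449) (nat_lit 441) (nat_lit 310)) (XT.nd (nat_lit 78) (nat_lit 380) (nat_lit 0) (XT.lf (nat_lit 0) (nat_lit 14244263585) (nat_lit 456) (nat_lit 522666083) (nat_lit 76) (nat_lit 122973860774) (nat_lit 114) (nat_lit 5) (nat_lit 120) (nat_lit 5) (nat_lit 115) (nat_lit 5) (nat_lit 450) (nat_lit 441) (nat_lit 309)) (XT.lf (nat_lit 0) (nat_lit 40233012654) (nat_lit 456) (nat_lit 21169714535)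 (nat_lit 76) (nat_lit 82421558298) (nat_lit 109) (nat_lit 5) (nat_lit 115) (nat_lit 5) (nat_lit 110) (nat_lit 5) (nat_lit 451) (nat_lit 441) (nat_lit 308)))) (XT.nd (nat_lit 156) (nat_lit 608) (nat_lit 0) (XT.nd (nat_lit 78) (nat_lit 304) (nat_lit 0) (XT.lf (nat_lit 0) (nat_lit 70850719923) (nat_lit 456) (nat_lit 42359892298) (nat_lit 76) (nat_lit 37056355206) (nat_lit 104) (nat_lit 5) (nat_lit 110) (nat_lit 5) (nat_lit 105) (nat_lit 5) (nat_lit 452) (nat_lit 441) (nat_lit 307)) (XT.lf (nat_lit 0) (nat_lit 92787060213) (nat_lit 304) (nat_lit 13989048406) (nat_lit 380) (nat_lit 50306042249) (nat_lit 100) (nat_lit 5) (nat_lit 104) (nat_lit 5) (nat_lit 105) (nat_lit 5) (nat_lit 453) (nat_lit 441) (nat_lit 306))) (XT.nd (nat_lit 78) (nat_lit 304) (nat_lit 0) (XT.lf (nat_lit 0) (nat_lit 76844902376) (nat_lit 304) (nat_lit 72134477415) (nat_lit 380) (nat_lit 15292976803) (nat_lit 96) (nat_lit 5)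 (nat_lit 100) (nat_lit 5) (nat_lit 101) (nat_lit 5) (nat_lit 454) (nat_lit 441) (nat_lit 305)) (XT.lf (nat_lit 0) (nat_lit 24700057171) (nat_lit 304) (nat_lit 111544580036) (nat_lit 76) (nat_lit 35630573813) (nat_lit 92) (nat_lit 5) (nat_lit 96) (nat_lit 5) (nat_lit 93) (nat_lit 5) (nat_lit 455) (nat_lit 441) (nat_lit 304))))))) (XT.nd (nat_lit 1014) (nat_lit 1748) (nat_lit 0) (XT.nd (nat_lit 468) (nat_lit 1368) (nat_lit 0) (XT.nd (nat_lit 234) (nat_lit 532) (nat_lit 0) (XT.nd (nat_lit 78) (nat_lit 456) (nat_lit 0) (XT.lf (nat_lit 0) (nat_lit 42894329325) (nat_lit 304) (nat_lit 27903000943) (nat_lit 380) (nat_lit 109104399058) (nat_lit 88) (nat_lit 5) (nat_lit 92) (nat_lit 5) (nat_lit 93) (nat_lit 5) (nat_lit 456) (nat_lit 441) (nat_lit 303)) (XT.nd (nat_lit 78) (nat_lit 228) (nat_lit 0) (XT.lf (nat_lit 0) (nat_lit 24560786385) (nat_lit 228) (nat_lit 99770677095) (nat_lit 304) (nat_lit 64051451836)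 (nat_lit 85) (nat_lit 5) (nat_lit 88) (nat_lit 5) (nat_lit 89) (nat_lit 5) (nat_lit 457) (nat_lit 441) (nat_lit 302)) (XT.lf (nat_lit 0) (nat_lit 5962714656) (nat_lit 228) (nat_lit 179416011716) (nat_lit 304) (nat_lit 12002349985) (nat_lit 82) (nat_lit 5) (nat_lit 85) (nat_lit 5) (nat_lit 86) (nat_lit 5) (nat_lit 458) (nat_lit 441) (nat_lit 301)))) (XT.nd (nat_lit 78) (nat_lit 456) (nat_lit 0) (XT.lf (nat_lit 0) (nat_lit 47378008988) (nat_lit 304) (nat_lit 14195976137) (nat_lit 76) (nat_lit 145261475293) (nat_lit 81) (nat_lit 5) (nat_lit 85) (nat_lit 5) (nat_lit 82) (nat_lit 5) (nat_lit 459) (nat_lit 441) (nat_lit 300)) (XT.nd (nat_lit 78) (nat_lit 228) (nat_lit 0) (XT.lf (nat_lit 0) (nat_lit 115024184315) (nat_lit 304) (nat_lit 35115434932) (nat_lit 76) (nat_lit 66699943490) (nat_lit 78) (nat_lit 5) (nat_lit 82) (nat_lit 5) (nat_lit 79) (nat_lit 5) (nat_lit 460) (nat_lit 441) (nat_lit 299))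 (XT.lf (nat_lit 0) (nat_lit 170610907240) (nat_lit 228) (nat_lit 21424072946) (nat_lit 304) (nat_lit 35411366821) (nat_lit 75) (nat_lit 5) (nat_lit 78) (nat_lit 5) (nat_lit 79) (nat_lit 5) (nat_lit 461) (nat_lit 441) (nat_lit 298))))) (XT.nd (nat_lit 234) (nat_lit 760) (nat_lit 0) (XT.nd (nat_lit 78) (nat_lit 380) (nat_lit 0) (XT.lf (nat_lit 0) (nat_lit 40154144345) (nat_lit 228) (nat_lit 80901192698) (nat_lit 76) (nat_lit 117567437733) (nat_lit 72) (nat_lit 5) (nat_lit 75) (nat_lit 5) (nat_lit 73) (nat_lit 5) (nat_lit 462) (nat_lit 441) (nat_lit 297)) (XT.nd (nat_lit 78) (nat_lit 152) (nat_lit 0) (XT.lf (nat_lit 0) (nat_lit 124480880064) (nat_lit 304) (nat_lit 106321463710) (nat_lit 76) (nat_lit 19664116084) (nat_lit 69) (nat_lit 5) (nat_lit 73) (nat_lit 5) (nat_lit 70) (nat_lit 5) (nat_lit 463) (nat_lit 441) (nat_lit 296)) (XT.lf (nat_lit 0) (nat_lit 128959326793) (nat_lit 152) (nat_lit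 92081076084) (nat_lit 228) (nat_lit 41942904529) (nat_lit 67) (nat_lit 5) (nat_lit 69) (nat_lit 5) (nat_lit 70) (nat_lit 5) (nat_lit 464) (nat_lit 441) (nat_lit 295)))) (XT.nd (nat_lit 156) (nat_lit 380) (nat_lit 0) (XT.nd (nat_lit 78) (nat_lit 152) (nat_lit 0) (XT.lf (nat_lit 0) (nat_lit 51885093600) (nat_lit 228) (nat_lit 163971634464) (nat_lit 76) (nat_lit 60375433635) (nat_lit 64) (nat_lit 5) (nat_lit 67) (nat_lit 5) (nat_lit 65) (nat_lit 5) (nat_lit 465) (nat_lit 441) (nat_lit 294)) (XT.lf (nat_lit 0) (nat_lit 93296982520) (nat_lit 152) (nat_lit 63854378993) (nat_lit 228) (nat_lit 133085108200) (nat_lit 62) (nat_lit 5) (nat_lit 64) (nat_lit 5) (nat_lit 65) (nat_lit 5) (nat_lit 466) (nat_lit 441) (nat_lit 293))) (XT.nd (nat_lit 78) (nat_lit 228) (nat_lit 0) (XT.lf (nat_lit 0) (nat_lit 72490913591) (nat_lit 152) (nat_lit 203948705300) (nat_lit 228) (nat_lit 28641469129) (nat_lit 60) (nat_lit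 5) (nat_lit 62) (nat_lit 5) (nat_lit 63) (nat_lit 5) (nat_lit 467) (nat_lit 441) (nat_lit 292)) (XT.lf (nat_lit 0) (nat_lit 48677268065) (nat_lit 152) (nat_lit 38110025579) (nat_lit 228) (nat_lit 233994125182) (nat_lit 57) (nat_lit 5) (nat_lit 59) (nat_lit 5) (nat_lit 60) (nat_lit 5) (nat_lit 468) (nat_lit 441) (nat_lit 291)))))) (XT.nd (nat_lit 546) (nat_lit 836) (nat_lit 0) (XT.nd (nat_lit 234) (nat_lit 532) (nat_lit 0) (XT.nd (nat_lit 78) (nat_lit 228) (nat_lit 0) (XT.lf (nat_lit 0) (nat_lit 21142137914) (nat_lit 152) (nat_lit 195967320797) (nat_lit 228) (nat_lit 120271712874) (nat_lit 55) (nat_lit 5) (nat_lit 57) (nat_lit 5) (nat_lit 58) (nat_lit 5) (nat_lit 469) (nat_lit 441) (nat_lit 290)) (XT.nd (nat_lit 78) (nat_lit 152) (nat_lit 0) (XT.lf (nat_lit 0) (nat_lit 7926846910) (nat_lit 228) (nat_lit 8267580296) (nat_lit 76) (nat_lit 338839491832) (nat_lit 54) (nat_lit 5) (nat_lit 57) (nat_lit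 5) (nat_lit 55) (nat_lit 5) (nat_lit 470) (nat_lit 441) (nat_lit 289)) (XT.lf (nat_lit 0) (nat_lit 150319169861) (nat_lit 228) (nat_lit 43664196601) (nat_lit 76) (nat_lit 179609355825) (nat_lit 52) (nat_lit 5) (nat_lit 55) (nat_lit 5) (nat_lit 53) (nat_lit 5) (nat_lit 471) (nat_lit 441) (nat_lit 288)))) (XT.nd (nat_lit 156) (nat_lit 228) (nat_lit 0) (XT.nd (nat_lit 78) (nat_lit 152) (nat_lit 0) (XT.lf (nat_lit 0) (nat_lit 309419789719) (nat_lit 228) (nat_lit 81863753196) (nat_lit 76) (nat_lit 2086841358) (nat_lit 50) (nat_lit 5) (nat_lit 53) (nat_lit 5) (nat_lit 51) (nat_lit 4) (nat_lit 472) (nat_lit 441) (nat_lit 287)) (XT.lf (nat_lit 0) (nat_lit 73067683292) (nat_lit 152) (nat_lit 127593267109) (nat_lit 76) (nat_lit 213583458013) (nat_lit 48) (nat_lit 5) (nat_lit 50) (nat_lit 5) (nat_lit 49) (nat_lit 5) (nat_lit 473) (nat_lit 441) (nat_lit 286))) (XT.nd (nat_lit 78) (nat_lit 76) (nat_lit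 0) (XT.lf (nat_lit 0) (nat_lit 245411782092) (nat_lit 228) (nat_lit 178977322917) (nat_lit 76) (nat_lit 12045158610) (nat_lit 46) (nat_lit 5) (nat_lit 49) (nat_lit 5) (nat_lit 47) (nat_lit 4) (nat_lit 474) (nat_lit 441) (nat_lit 285)) (XT.lf (nat_lit 0) (nat_lit 221240035999) (nat_lit 76) (nat_lit 219399876587) (nat_lit 152) (nat_lit 19304569489) (nat_lit 45) (nat_lit 5) (nat_lit 46) (nat_lit 5) (nat_lit 47) (nat_lit 4) (nat_lit 475) (nat_lit 441) (nat_lit 284))))) (XT.nd (nat_lit 234) (nat_lit 304) (nat_lit 0) (XT.nd (nat_lit 78) (nat_lit 304) (nat_lit 0) (XT.lf (nat_lit 0) (nat_lit 166947344348) (nat_lit 228) (nat_lit 307350392221) (nat_lit 76) (nat_lit 10602355936) (nat_lit 42) (nat_lit 5) (nat_lit 45) (nat_lit 5) (nat_lit 43) (nat_lit 4) (nat_lit 476) (nat_lit 441) (nat_lit 283)) (XT.nd (nat_lit 78) (nat_lit 228) (nat_lit 0) (XT.lf (nat_lit 0) (nat_lit 123854587420) (nat_lit 76) (nat_lit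 253436772351) (nat_lit 152) (nat_lit 134051554273) (nat_lit 41) (nat_lit 5) (nat_lit 42) (nat_lit 5) (nat_lit 43) (nat_lit 4) (nat_lit 477) (nat_lit 441) (nat_lit 282)) (XT.lf (nat_lit 0) (nat_lit 61779084267) (nat_lit 152) (nat_lit 7122238435) (nat_lit 228) (nat_lit 470629140823) (nat_lit 38) (nat_lit 5) (nat_lit 40) (nat_lit 5) (nat_lit 41) (nat_lit 5) (nat_lit 478) (nat_lit 441) (nat_lit 281)))) (XT.nd (nat_lit 156) (nat_lit 228) (nat_lit 0) (XT.nd (nat_lit 78) (nat_lit 76) (nat_lit 0) (XT.lf (nat_lit 0) (nat_lit 294359082563) (nat_lit 228) (nat_lit 15224023075) (nat_lit 76) (nat_lit 259731774713) (nat_lit 38) (nat_lit 5) (nat_lit 41) (nat_lit 5) (nat_lit 39) (nat_lit 4) (nat_lit 479) (nat_lit 441) (nat_lit 280)) (XT.lf (nat_lit 0) (nat_lit 500194453806) (nat_lit 76) (nat_lit 45588368943) (nat_lit 152) (nat_lit 55302759812) (nat_lit 37) (nat_lit 5) (nat_lit 38) (nat_lit 5) (nat_lit 39)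 (nat_lit 4) (nat_lit 480) (nat_lit 441) (nat_lit 279))) (XT.nd (nat_lit 78) (nat_lit 76) (nat_lit 0) (XT.lf (nat_lit 0) (nat_lit 187031370280) (nat_lit 152) (nat_lit 205786175896) (nat_lit 76) (nat_lit 241891803471) (nat_lit 35) (nat_lit 5) (nat_lit 37) (nat_lit 5) (nat_lit 36) (nat_lit 4) (nat_lit 481) (nat_lit 441) (nat_lit 278)) (XT.lf (nat_lit 0) (nat_lit 343039342738) (nat_lit 76) (nat_lit 111711868605) (nat_lit 152) (nat_lit 215829650644) (nat_lit 34) (nat_lit 5) (nat_lit 35) (nat_lit 5) (nat_lit 36) (nat_lit 4) (nat_lit 482) (nat_lit 441) (nat_lit 277))))))))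
noncomputable def xc106 : XT := (XT.nd (nat_lit 60372) (nat_lit 0) (nat_lit 1064) (XT.nd (nat_lit 59358) (nat_lit 0) (nat_lit 5700) (XT.nd (nat_lit 468) (nat_lit 456) (nat_lit 0) (XT.nd (nat_lit 234) (nat_lit 304) (nat_lit 0) (XT.nd (nat_lit 78) (nat_lit 76) (nat_lit 0) (XT.lf (nat_lit 0) (nat_lit 43993730154) (nat_lit 152) (nat_lit 470956457509) (nat_lit 76) (nat_lit 193818247079) (nat_lit 32) (nat_lit 5) (nat_lit 34) (nat_lit 5) (nat_lit 33) (nat_lit 4) (nat_lit 483) (nat_lit 441) (nat_lit 276)) (XT.nd (nat_lit 78) (nat_lit 0) (nat_lit 0) (XT.lf (nat_lit 0) (nat_lit 108211079994) (nat_lit 76) (nat_lit 218303462115) (nat_lit 152) (nat_lit 422845902652) (nat_lit 31) (nat_lit 5) (nat_lit 32) (nat_lit 5) (nat_lit 33) (nat_lit 4) (nat_lit 484) (nat_lit 441) (nat_lit 275)) (XT.lf (nat_lit 0) (nat_lit 641568795151) (nat_lit 152) (nat_lit 43988349748) (nat_lit 0) (nat_lit 107146081886) (nat_lit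 31) (nat_lit 5) (nat_lit 33) (nat_lit 4) (nat_lit 31) (nat_lit 4) (nat_lit 485) (nat_lit 441) (nat_lit 274)))) (XT.nd (nat_lit 78) (nat_lit 152) (nat_lit 0) (XT.lf (nat_lit 0) (nat_lit 151291441300) (nat_lit 152) (nat_lit 224275362301) (nat_lit 76) (nat_lit 463158910812) (nat_lit 29) (nat_lit 5) (nat_lit 31) (nat_lit 5) (nat_lit 30) (nat_lit 4) (nat_lit 486) (nat_lit 441) (nat_lit 273)) (XT.nd (nat_lit 78) (nat_lit 76) (nat_lit 0) (XT.lf (nat_lit 0) (nat_lit 450604202519) (nat_lit 76) (nat_lit 29896829434) (nat_lit 152) (nat_lit 407410855316) (nat_lit 28) (nat_lit 5) (nat_lit 29) (nat_lit 5) (nat_lit 30) (nat_lit 4) (nat_lit 487) (nat_lit 441) (nat_lit 272)) (XT.lf (nat_lit 0) (nat_lit 249194965758) (nat_lit 76) (nat_lit 600075559476) (nat_lit 76) (nat_lit 91101271958) (nat_lit 27) (nat_lit 4) (nat_lit 28) (nat_lit 5) (nat_lit 28) (nat_lit 4) (nat_lit 488) (nat_lit 441) (nat_lit 271))))) (XT.nd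 (nat_lit 234) (nat_lit 228) (nat_lit 0) (XT.nd (nat_lit 78) (nat_lit 76) (nat_lit 0) (XT.lf (nat_lit 0) (nat_lit 5212719793) (nat_lit 76) (nat_lit 245610248847) (nat_lit 152) (nat_lit 745593577036) (nat_lit 25) (nat_lit 5) (nat_lit 26) (nat_lit 5) (nat_lit 27) (nat_lit 4) (nat_lit 489) (nat_lit 441) (nat_lit 270)) (XT.nd (nat_lit 78) (nat_lit 76) (nat_lit 0) (XT.lf (nat_lit 0) (nat_lit 631331451889) (nat_lit 152) (nat_lit 278223755173) (nat_lit 0) (nat_lit 146593891400) (nat_lit 25) (nat_lit 5) (nat_lit 27) (nat_lit 4) (nat_lit 25) (nat_lit 4) (nat_lit 490) (nat_lit 441) (nat_lit 269)) (XT.lf (nat_lit 0) (nat_lit 503777079958) (nat_lit 76) (nat_lit 550510232543) (nat_lit 76) (nat_lit 65772608038) (nat_lit 24) (nat_lit 4) (nat_lit 25) (nat_lit 5) (nat_lit 25) (nat_lit 4) (nat_lit 491) (nat_lit 441) (nat_lit 268)))) (XT.nd (nat_lit 156) (nat_lit 76) (nat_lit 0) (XT.nd (nat_lit 78) (nat_lit 0)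 (nat_lit 0) (XT.lf (nat_lit 0) (nat_lit 169758384868) (nat_lit 76) (nat_lit 149507990081) (nat_lit 152) (nat_lit 869187059149) (nat_lit 22) (nat_lit 5) (nat_lit 23) (nat_lit 5) (nat_lit 24) (nat_lit 4) (nat_lit 492) (nat_lit 441) (nat_lit 267)) (XT.lf (nat_lit 0) (nat_lit 748173456115) (nat_lit 152) (nat_lit 226804127177) (nat_lit 0) (nat_lit 286518466913) (nat_lit 22) (nat_lit 5) (nat_lit 24) (nat_lit 4) (nat_lit 22) (nat_lit 4) (nat_lit 493) (nat_lit 441) (nat_lit 266))) (XT.nd (nat_lit 58422) (nat_lit 0) (nat_lit 7904) (XT.lf (nat_lit 0) (nat_lit 646612540387) (nat_lit 76) (nat_lit 577396878530) (nat_lit 76) (nat_lit 115741840929) (nat_lit 21) (nat_lit 4) (nat_lit 22) (nat_lit 5) (nat_lit 22) (nat_lit 4) (nat_lit 494) (nat_lit 441) (nat_lit 265)) (XT.lf (nat_lit 0) (nat_lit 17181447655) (nat_lit 836) (nat_lit 17156047413) (nat_lit 836) (nat_lit 17156047413) (nat_lit 125) (nat_lit 3) (nat_lit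 136) (nat_lit 3) (nat_lit 136) (nat_lit 5) (nat_lit 442) (nat_lit 442) (nat_lit 316)))))) (XT.nd (nat_lit 468) (nat_lit 2280) (nat_lit 0) (XT.nd (nat_lit 234) (nat_lit 0) (nat_lit 152) (XT.nd (nat_lit 78) (nat_lit 0) (nat_lit 0) (XT.lf (nat_lit 0) (nat_lit 36674214054) (nat_lit 760) (nat_lit 59302230528) (nat_lit 836) (nat_lit 11083279943) (nat_lit 126) (nat_lit 5) (nat_lit 136) (nat_lit 5) (nat_lit 137) (nat_lit 5) (nat_lit 443) (nat_lit 442) (nat_lit 315)) (XT.nd (nat_lit 78) (nat_lit 0) (nat_lit 76) (XT.lf (nat_lit 76) (nat_lit 25848595905) (nat_lit 0) (nat_lit 15489940282) (nat_lit 836) (nat_lit 70011234542) (nat_lit 127) (nat_lit 5) (nat_lit 126) (nat_lit 5) (nat_lit 137) (nat_lit 5) (nat_lit 444) (nat_lit 442) (nat_lit 314)) (XT.lf (nat_lit 76) (nat_lit 2959671914) (nat_lit 0) (nat_lit 45626907644) (nat_lit 836) (nat_lit 67285912638) (nat_lit 128) (nat_lit 5) (nat_lit 127) (nat_lit 5)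 (nat_lit 138) (nat_lit 5) (nat_lit 445) (nat_lit 442) (nat_lit 313)))) (XT.nd (nat_lit 78) (nat_lit 0) (nat_lit 76) (XT.lf (nat_lit 0) (nat_lit 58833219091) (nat_lit 760) (nat_lit 20062771162) (nat_lit 836) (nat_lit 41740103809) (nat_lit 128) (nat_lit 5) (nat_lit 138) (nat_lit 5) (nat_lit 139) (nat_lit 5) (nat_lit 446) (nat_lit 442) (nat_lit 312)) (XT.nd (nat_lit 78) (nat_lit 0) (nat_lit 0) (XT.lf (nat_lit 0) (nat_lit 72107600928) (nat_lit 760) (nat_lit 43764146537) (nat_lit 836) (nat_lit 9798636348) (nat_lit 129) (nat_lit 5) (nat_lit 139) (nat_lit 5) (nat_lit 140) (nat_lit 5) (nat_lit 447) (nat_lit 442) (nat_lit 311)) (XT.lf (nat_lit 76) (nat_lit 62317154008) (nat_lit 0) (nat_lit 26784554312) (nat_lit 836) (nat_lit 41872819947) (nat_lit 130) (nat_lit 5) (nat_lit 129) (nat_lit 5) (nat_lit 140) (nat_lit 5) (nat_lit 448) (nat_lit 442) (nat_lit 310))))) (XT.nd (nat_lit 234) (nat_lit 1368) (nat_lit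 0) (XT.nd (nat_lit 78) (nat_lit 456) (nat_lit 0) (XT.lf (nat_lit 0) (nat_lit 42031049736) (nat_lit 760) (nat_lit 67938683516) (nat_lit 836) (nat_lit 26607551827) (nat_lit 120) (nat_lit 5) (nat_lit 130) (nat_lit 5) (nat_lit 131) (nat_lit 5) (nat_lit 449) (nat_lit 442) (nat_lit 309)) (XT.nd (nat_lit 78) (nat_lit 76) (nat_lit 0) (XT.lf (nat_lit 0) (nat_lit 21233254543) (nat_lit 380) (nat_lit 113704358482) (nat_lit 456) (nat_lit 7569129002) (nat_lit 115) (nat_lit 5) (nat_lit 120) (nat_lit 5) (nat_lit 121) (nat_lit 5) (nat_lit 450) (nat_lit 442) (nat_lit 308)) (XT.lf (nat_lit 0) (nat_lit 15395438106) (nat_lit 456) (nat_lit 552899664) (nat_lit 76) (nat_lit 132811130234) (nat_lit 114) (nat_lit 5) (nat_lit 120) (nat_lit 5) (nat_lit 115) (nat_lit 5) (nat_lit 451) (nat_lit 442) (nat_lit 307)))) (XT.nd (nat_lit 156) (nat_lit 608) (nat_lit 0) (XT.nd (nat_lit 78) (nat_lit 380) (nat_lit 0) (XT.lf (nat_lit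 0) (nat_lit 43462600358) (nat_lit 456) (nat_lit 22851666354) (nat_lit 76) (nat_lit 89015410574) (nat_lit 109) (nat_lit 5) (nat_lit 115) (nat_lit 5) (nat_lit 110) (nat_lit 5) (nat_lit 452) (nat_lit 442) (nat_lit 306)) (XT.lf (nat_lit 0) (nat_lit 76529099615) (nat_lit 456) (nat_lit 45737057315) (nat_lit 76) (nat_lit 40021648355) (nat_lit 104) (nat_lit 5) (nat_lit 110) (nat_lit 5) (nat_lit 105) (nat_lit 5) (nat_lit 453) (nat_lit 442) (nat_lit 305))) (XT.nd (nat_lit 78) (nat_lit 304) (nat_lit 0) (XT.lf (nat_lit 0) (nat_lit 100221146129) (nat_lit 304) (nat_lit 15106782310) (nat_lit 380) (nat_lit 54320304766) (nat_lit 100) (nat_lit 5) (nat_lit 104) (nat_lit 5) (nat_lit 105) (nat_lit 5) (nat_lit 454) (nat_lit 442) (nat_lit 304)) (XT.lf (nat_lit 0) (nat_lit 83003580047) (nat_lit 304) (nat_lit 77903353603) (nat_lit 380) (nat_lit 16506748357) (nat_lit 96) (nat_lit 5) (nat_lit 100) (nat_lit 5) (nat_lit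 101) (nat_lit 5) (nat_lit 455) (nat_lit 442) (nat_lit 303))))))) (XT.nd (nat_lit 1014) (nat_lit 1900) (nat_lit 0) (XT.nd (nat_lit 468) (nat_lit 1368) (nat_lit 0) (XT.nd (nat_lit 234) (nat_lit 532) (nat_lit 0) (XT.nd (nat_lit 78) (nat_lit 532) (nat_lit 0) (XT.lf (nat_lit 0) (nat_lit 26684928322) (nat_lit 304) (nat_lit 120456832075) (nat_lit 76) (nat_lit 38483021583) (nat_lit 92) (nat_lit 5) (nat_lit 96) (nat_lit 5) (nat_lit 93) (nat_lit 5) (nat_lit 456) (nat_lit 442) (nat_lit 302)) (XT.nd (nat_lit 78) (nat_lit 228) (nat_lit 0) (XT.lf (nat_lit 0) (nat_lit 46336698326) (nat_lit 304) (nat_lit 30132797129) (nat_lit 380) (nat_lit 117823950878) (nat_lit 88) (nat_lit 5) (nat_lit 92) (nat_lit 5) (nat_lit 93) (nat_lit 5) (nat_lit 457) (nat_lit 442) (nat_lit 301)) (XT.lf (nat_lit 0) (nat_lit 26536368143) (nat_lit 228) (nat_lit 107749573213) (nat_lit 304) (nat_lit 69167206922) (nat_lit 85) (nat_lit 5)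 (nat_lit 88) (nat_lit 5) (nat_lit 89) (nat_lit 5) (nat_lit 458) (nat_lit 442) (nat_lit 300)))) (XT.nd (nat_lit 78) (nat_lit 304) (nat_lit 0) (XT.lf (nat_lit 0) (nat_lit 6450326526) (nat_lit 228) (nat_lit 193766274348) (nat_lit 304) (nat_lit 12954580713) (nat_lit 82) (nat_lit 5) (nat_lit 85) (nat_lit 5) (nat_lit 86) (nat_lit 5) (nat_lit 459) (nat_lit 442) (nat_lit 299)) (XT.nd (nat_lit 78) (nat_lit 228) (nat_lit 0) (XT.lf (nat_lit 0) (nat_lit 51175381734) (nat_lit 304) (nat_lit 15321606689) (nat_lit 76) (nat_lit 156884950411) (nat_lit 81) (nat_lit 5) (nat_lit 85) (nat_lit 5) (nat_lit 82) (nat_lit 5) (nat_lit 460) (nat_lit 442) (nat_lit 298)) (XT.lf (nat_lit 0) (nat_lit 124232917449) (nat_lit 304) (nat_lit 37914764079) (nat_lit 76) (nat_lit 72038704627) (nat_lit 78) (nat_lit 5) (nat_lit 82) (nat_lit 5) (nat_lit 79) (nat_lit 5) (nat_lit 461) (nat_lit 442) (nat_lit 297))))) (XT.nd (nat_lit 234)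 (nat_lit 684) (nat_lit 0) (XT.nd (nat_lit 78) (nat_lit 456) (nat_lit 0) (XT.lf (nat_lit 0) (nat_lit 184269254980) (nat_lit 228) (nat_lit 23134966359) (nat_lit 304) (nat_lit 38237509736) (nat_lit 75) (nat_lit 5) (nat_lit 78) (nat_lit 5) (nat_lit 79) (nat_lit 5) (nat_lit 462) (nat_lit 442) (nat_lit 296)) (XT.nd (nat_lit 78) (nat_lit 228) (nat_lit 0) (XT.lf (nat_lit 0) (nat_lit 43372733156) (nat_lit 228) (nat_lit 87363752128) (nat_lit 76) (nat_lit 126975797238) (nat_lit 72) (nat_lit 5) (nat_lit 75) (nat_lit 5) (nat_lit 73) (nat_lit 5) (nat_lit 463) (nat_lit 442) (nat_lit 295)) (XT.lf (nat_lit 0) (nat_lit 134445336378) (nat_lit 304) (nat_lit 114817810896) (nat_lit 76) (nat_lit 21240328806) (nat_lit 69) (nat_lit 5) (nat_lit 73) (nat_lit 5) (nat_lit 70) (nat_lit 5) (nat_lit 464) (nat_lit 442) (nat_lit 294)))) (XT.nd (nat_lit 156) (nat_lit 304) (nat_lit 0) (XT.nd (nat_lit 78) (nat_lit 228) (nat_lit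 0) (XT.lf (nat_lit 0) (nat_lit 139285035642) (nat_lit 152) (nat_lit 99444281906) (nat_lit 228) (nat_lit 45292369151) (nat_lit 67) (nat_lit 5) (nat_lit 69) (nat_lit 5) (nat_lit 70) (nat_lit 5) (nat_lit 465) (nat_lit 442) (nat_lit 293)) (XT.lf (nat_lit 0) (nat_lit 56041437714) (nat_lit 228) (nat_lit 177080384008) (nat_lit 76) (nat_lit 65208635044) (nat_lit 64) (nat_lit 5) (nat_lit 67) (nat_lit 5) (nat_lit 65) (nat_lit 5) (nat_lit 466) (nat_lit 442) (nat_lit 292))) (XT.nd (nat_lit 78) (nat_lit 152) (nat_lit 0) (XT.lf (nat_lit 0) (nat_lit 100769332022) (nat_lit 152) (nat_lit 68959399046) (nat_lit 228) (nat_lit 143726392230) (nat_lit 62) (nat_lit 5) (nat_lit 64) (nat_lit 5) (nat_lit 65) (nat_lit 5) (nat_lit 467) (nat_lit 442) (nat_lit 291)) (XT.lf (nat_lit 0) (nat_lit 78298607013) (nat_lit 152) (nat_lit 220261231955) (nat_lit 228) (nat_lit 30927482676) (nat_lit 60) (nat_lit 5) (nat_lit 62) (nat_lit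 5) (nat_lit 63) (nat_lit 5) (nat_lit 468) (nat_lit 442) (nat_lit 290)))))) (XT.nd (nat_lit 546) (nat_lit 836) (nat_lit 0) (XT.nd (nat_lit 234) (nat_lit 608) (nat_lit 0) (XT.nd (nat_lit 78) (nat_lit 228) (nat_lit 0) (XT.lf (nat_lit 0) (nat_lit 52579667101) (nat_lit 152) (nat_lit 41155492244) (nat_lit 228) (nat_lit 252708528092) (nat_lit 57) (nat_lit 5) (nat_lit 59) (nat_lit 5) (nat_lit 60) (nat_lit 5) (nat_lit 469) (nat_lit 442) (nat_lit 289)) (XT.nd (nat_lit 78) (nat_lit 76) (nat_lit 0) (XT.lf (nat_lit 0) (nat_lit 22841553853) (nat_lit 152) (nat_lit 211641355941) (nat_lit 228) (nat_lit 129888520073) (nat_lit 55) (nat_lit 5) (nat_lit 57) (nat_lit 5) (nat_lit 58) (nat_lit 5) (nat_lit 470) (nat_lit 442) (nat_lit 288)) (XT.lf (nat_lit 0) (nat_lit 8565413224) (nat_lit 228) (nat_lit 8921390996) (nat_lit 76) (nat_lit 365949606774) (nat_lit 54) (nat_lit 5) (nat_lit 57) (nat_lit 5) (nat_lit 55) (nat_lit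 5) (nat_lit 471) (nat_lit 442) (nat_lit 287)))) (XT.nd (nat_lit 156) (nat_lit 304) (nat_lit 0) (XT.nd (nat_lit 78) (nat_lit 152) (nat_lit 0) (XT.lf (nat_lit 0) (nat_lit 162348955936) (nat_lit 228) (nat_lit 47149903667) (nat_lit 76) (nat_lit 193981067249) (nat_lit 52) (nat_lit 5) (nat_lit 55) (nat_lit 5) (nat_lit 53) (nat_lit 5) (nat_lit 472) (nat_lit 442) (nat_lit 286)) (XT.lf (nat_lit 0) (nat_lit 334177469060) (nat_lit 228) (nat_lit 88405592394) (nat_lit 76) (nat_lit 2256748204) (nat_lit 50) (nat_lit 5) (nat_lit 53) (nat_lit 5) (nat_lit 51) (nat_lit 4) (nat_lit 473) (nat_lit 442) (nat_lit 285))) (XT.nd (nat_lit 78) (nat_lit 152) (nat_lit 0) (XT.lf (nat_lit 0) (nat_lit 78917063584) (nat_lit 152) (nat_lit 137793651371) (nat_lit 76) (nat_lit 230673047367) (nat_lit 48) (nat_lit 5) (nat_lit 50) (nat_lit 5) (nat_lit 49) (nat_lit 5) (nat_lit 474) (nat_lit 442) (nat_lit 284)) (XT.lf (nat_lit 0) (nat_lit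 265048548942) (nat_lit 228) (nat_lit 193288596593) (nat_lit 76) (nat_lit 13011667511) (nat_lit 46) (nat_lit 5) (nat_lit 49) (nat_lit 5) (nat_lit 47) (nat_lit 4) (nat_lit 475) (nat_lit 442) (nat_lit 283))))) (XT.nd (nat_lit 234) (nat_lit 456) (nat_lit 0) (XT.nd (nat_lit 78) (nat_lit 304) (nat_lit 0) (XT.lf (nat_lit 0) (nat_lit 238945850643) (nat_lit 76) (nat_lit 236948899181) (nat_lit 152) (nat_lit 20845108191) (nat_lit 45) (nat_lit 5) (nat_lit 46) (nat_lit 5) (nat_lit 47) (nat_lit 4) (nat_lit 476) (nat_lit 442) (nat_lit 282)) (XT.nd (nat_lit 78) (nat_lit 76) (nat_lit 0) (XT.lf (nat_lit 0) (nat_lit 180306707905) (nat_lit 228) (nat_lit 331931850197) (nat_lit 76) (nat_lit 11453362637) (nat_lit 42) (nat_lit 5) (nat_lit 45) (nat_lit 5) (nat_lit 43) (nat_lit 4) (nat_lit 477) (nat_lit 442) (nat_lit 281)) (XT.lf (nat_lit 0) (nat_lit 133769242143) (nat_lit 76) (nat_lit 273708835697) (nat_lit 152) (nat_lit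 144772098523) (nat_lit 41) (nat_lit 5) (nat_lit 42) (nat_lit 5) (nat_lit 43) (nat_lit 4) (nat_lit 478) (nat_lit 442) (nat_lit 280)))) (XT.nd (nat_lit 156) (nat_lit 228) (nat_lit 0) (XT.nd (nat_lit 78) (nat_lit 0) (nat_lit 0) (XT.lf (nat_lit 0) (nat_lit 66727535396) (nat_lit 152) (nat_lit 7689197544) (nat_lit 228) (nat_lit 508276002148) (nat_lit 38) (nat_lit 5) (nat_lit 40) (nat_lit 5) (nat_lit 41) (nat_lit 5) (nat_lit 479) (nat_lit 442) (nat_lit 279)) (XT.lf (nat_lit 0) (nat_lit 317910909584) (nat_lit 228) (nat_lit 16436161699) (nat_lit 76) (nat_lit 280512844199) (nat_lit 38) (nat_lit 5) (nat_lit 41) (nat_lit 5) (nat_lit 39) (nat_lit 4) (nat_lit 480) (nat_lit 442) (nat_lit 278))) (XT.nd (nat_lit 78) (nat_lit 152) (nat_lit 0) (XT.lf (nat_lit 0) (nat_lit 540215542001) (nat_lit 76) (nat_lit 49232863692) (nat_lit 152) (nat_lit 59723875361) (nat_lit 37) (nat_lit 5) (nat_lit 38) (nat_lit 5) (nat_lit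 39) (nat_lit 4) (nat_lit 481) (nat_lit 442) (nat_lit 277)) (XT.lf (nat_lit 0) (nat_lit 201996786535) (nat_lit 152) (nat_lit 222243578931) (nat_lit 76) (nat_lit 261245586595) (nat_lit 35) (nat_lit 5) (nat_lit 37) (nat_lit 5) (nat_lit 36) (nat_lit 4) (nat_lit 482) (nat_lit 442) (nat_lit 276))))))))
noncomputable def xc107 : XT := (XT.nd (nat_lit 60528) (nat_lit 0) (nat_lit 912) (XT.nd (nat_lit 59436) (nat_lit 0) (nat_lit 5320) (XT.nd (nat_lit 468) (nat_lit 456) (nat_lit 0) (XT.nd (nat_lit 234) (nat_lit 228) (nat_lit 0) (XT.nd (nat_lit 78) (nat_lit 228) (nat_lit 0) (XT.lf (nat_lit 0) (nat_lit 370487742561) (nat_lit 76) (nat_lit 120646339022) (nat_lit 152) (nat_lit 233093110488) (nat_lit 34) (nat_lit 5) (nat_lit 35) (nat_lit 5) (nat_lit 36) (nat_lit 4) (nat_lit 483) (nat_lit 442) (nat_lit 275)) (XT.nd (nat_lit 78) (nat_lit 76) (nat_lit 0) (XT.lf (nat_lit 0) (nat_lit 47515956423) (nat_lit 152)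 (nat_lit 508627763773) (nat_lit 76) (nat_lit 209326052749) (nat_lit 32) (nat_lit 5) (nat_lit 34) (nat_lit 5) (nat_lit 33) (nat_lit 4) (nat_lit 484) (nat_lit 442) (nat_lit 274)) (XT.lf (nat_lit 0) (nat_lit 116872950296) (nat_lit 76) (nat_lit 235765358788) (nat_lit 152) (nat_lit 456670840908) (nat_lit 31) (nat_lit 5) (nat_lit 32) (nat_lit 5) (nat_lit 33) (nat_lit 4) (nat_lit 485) (nat_lit 442) (nat_lit 273)))) (XT.nd (nat_lit 78) (nat_lit 228) (nat_lit 0) (XT.lf (nat_lit 0) (nat_lit 692896743919) (nat_lit 152) (nat_lit 47502716719) (nat_lit 0) (nat_lit 115719901874) (nat_lit 31) (nat_lit 5) (nat_lit 33) (nat_lit 4) (nat_lit 31) (nat_lit 4) (nat_lit 486) (nat_lit 442) (nat_lit 272)) (XT.nd (nat_lit 78) (nat_lit 76) (nat_lit 0) (XT.lf (nat_lit 0) (nat_lit 163397129252) (nat_lit 152) (nat_lit 242212815986) (nat_lit 76) (nat_lit 500213707557) (nat_lit 29) (nat_lit 5) (nat_lit 31) (nat_lit 5) (nat_lit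 30) (nat_lit 4) (nat_lit 487) (nat_lit 442) (nat_lit 271)) (XT.lf (nat_lit 0) (nat_lit 486656915183) (nat_lit 76) (nat_lit 32286464552) (nat_lit 152) (nat_lit 440001345125) (nat_lit 28) (nat_lit 5) (nat_lit 29) (nat_lit 5) (nat_lit 30) (nat_lit 4) (nat_lit 488) (nat_lit 442) (nat_lit 270))))) (XT.nd (nat_lit 234) (nat_lit 228) (nat_lit 0) (XT.nd (nat_lit 78) (nat_lit 152) (nat_lit 0) (XT.lf (nat_lit 0) (nat_lit 269134826218) (nat_lit 76) (nat_lit 648079535546) (nat_lit 76) (nat_lit 98387069357) (nat_lit 27) (nat_lit 4) (nat_lit 28) (nat_lit 5) (nat_lit 28) (nat_lit 4) (nat_lit 489) (nat_lit 442) (nat_lit 269)) (XT.nd (nat_lit 78) (nat_lit 0) (nat_lit 0) (XT.lf (nat_lit 0) (nat_lit 5633885960) (nat_lit 76) (nat_lit 265257050315) (nat_lit 152) (nat_lit 805238826442) (nat_lit 25) (nat_lit 5) (nat_lit 26) (nat_lit 5) (nat_lit 27) (nat_lit 4) (nat_lit 490) (nat_lit 442) (nat_lit 268)) (XT.lf (nat_lit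 0) (nat_lit 681839969575) (nat_lit 152) (nat_lit 300477744769) (nat_lit 0) (nat_lit 158323211820) (nat_lit 25) (nat_lit 5) (nat_lit 27) (nat_lit 4) (nat_lit 25) (nat_lit 4) (nat_lit 491) (nat_lit 442) (nat_lit 267)))) (XT.nd (nat_lit 156) (nat_lit 0) (nat_lit 0) (XT.nd (nat_lit 78) (nat_lit 152) (nat_lit 0) (XT.lf (nat_lit 0) (nat_lit 544082987213) (nat_lit 76) (nat_lit 594549221967) (nat_lit 76) (nat_lit 71032409329) (nat_lit 24) (nat_lit 4) (nat_lit 25) (nat_lit 5) (nat_lit 25) (nat_lit 4) (nat_lit 492) (nat_lit 442) (nat_lit 266)) (XT.lf (nat_lit 0) (nat_lit 183342695481) (nat_lit 76) (nat_lit 161466845464) (nat_lit 152) (nat_lit 938720075002) (nat_lit 22) (nat_lit 5) (nat_lit 23) (nat_lit 5) (nat_lit 24) (nat_lit 4) (nat_lit 493) (nat_lit 442) (nat_lit 265))) (XT.nd (nat_lit 58500) (nat_lit 0) (nat_lit 7828) (XT.lf (nat_lit 0) (nat_lit 808029076909) (nat_lit 152) (nat_lit 244945026933)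 (nat_lit 0) (nat_lit 309441543090) (nat_lit 22) (nat_lit 5) (nat_lit 24) (nat_lit 4) (nat_lit 22) (nat_lit 4) (nat_lit 494) (nat_lit 442) (nat_lit 264)) (XT.lf (nat_lit 0) (nat_lit 18565216933) (nat_lit 836) (nat_lit 18523671336) (nat_lit 836) (nat_lit 18523671336) (nat_lit 125) (nat_lit 3) (nat_lit 136) (nat_lit 3) (nat_lit 136) (nat_lit 5) (nat_lit 443) (nat_lit 443) (nat_lit 314)))))) (XT.nd (nat_lit 546) (nat_lit 2128) (nat_lit 0) (XT.nd (nat_lit 234) (nat_lit 456) (nat_lit 0) (XT.nd (nat_lit 78) (nat_lit 0) (nat_lit 0) (XT.lf (nat_lit 0) (nat_lit 39625307732) (nat_lit 760) (nat_lit 64036116262) (nat_lit 836) (nat_lit 11962213999) (nat_lit 126) (nat_lit 5) (nat_lit 136) (nat_lit 5) (nat_lit 137) (nat_lit 5) (nat_lit 444) (nat_lit 443) (nat_lit 313)) (XT.nd (nat_lit 78) (nat_lit 0) (nat_lit 76) (XT.lf (nat_lit 76) (nat_lit 27926328977) (nat_lit 0) (nat_lit 16735329516) (nat_lit 836) (nat_lit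 75595285749) (nat_lit 127) (nat_lit 5) (nat_lit 126) (nat_lit 5) (nat_lit 137) (nat_lit 5) (nat_lit 445) (nat_lit 443) (nat_lit 312)) (XT.lf (nat_lit 76) (nat_lit 3206728724) (nat_lit 0) (nat_lit 49281699510) (nat_lit 836) (nat_lit 72653111506) (nat_lit 128) (nat_lit 5) (nat_lit 127) (nat_lit 5) (nat_lit 138) (nat_lit 5) (nat_lit 446) (nat_lit 443) (nat_lit 311)))) (XT.nd (nat_lit 156) (nat_lit 608) (nat_lit 0) (XT.nd (nat_lit 78) (nat_lit 0) (nat_lit 76) (XT.lf (nat_lit 0) (nat_lit 63553626508) (nat_lit 760) (nat_lit 21657508299) (nat_lit 836) (nat_lit 45075153994) (nat_lit 128) (nat_lit 5) (nat_lit 138) (nat_lit 5) (nat_lit 139) (nat_lit 5) (nat_lit 447) (nat_lit 443) (nat_lit 310)) (XT.lf (nat_lit 0) (nat_lit 77889046396) (nat_lit 760) (nat_lit 47254743932) (nat_lit 836) (nat_lit 10579577421) (nat_lit 129) (nat_lit 5) (nat_lit 139) (nat_lit 5) (nat_lit 140) (nat_lit 5) (nat_lit 448) (nat_lit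 443) (nat_lit 309))) (XT.nd (nat_lit 78) (nat_lit 684) (nat_lit 0) (XT.lf (nat_lit 76) (nat_lit 67312602848) (nat_lit 0) (nat_lit 28929285935) (nat_lit 836) (nat_lit 45209995017) (nat_lit 130) (nat_lit 5) (nat_lit 129) (nat_lit 5) (nat_lit 140) (nat_lit 5) (nat_lit 449) (nat_lit 443) (nat_lit 308)) (XT.lf (nat_lit 0) (nat_lit 45403782061) (nat_lit 760) (nat_lit 73374813082) (nat_lit 836) (nat_lit 28724304380) (nat_lit 120) (nat_lit 5) (nat_lit 130) (nat_lit 5) (nat_lit 131) (nat_lit 5) (nat_lit 450) (nat_lit 443) (nat_lit 307))))) (XT.nd (nat_lit 234) (nat_lit 1292) (nat_lit 0) (XT.nd (nat_lit 78) (nat_lit 456) (nat_lit 0) (XT.lf (nat_lit 0) (nat_lit 22942276990) (nat_lit 380) (nat_lit 122800939333) (nat_lit 456) (nat_lit 8163531463) (nat_lit 115) (nat_lit 5) (nat_lit 120) (nat_lit 5) (nat_lit 121) (nat_lit 5) (nat_lit 451) (nat_lit 443) (nat_lit 306)) (XT.nd (nat_lit 78) (nat_lit 380) (nat_lit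 0) (XT.lf (nat_lit 0) (nat_lit 16637046949) (nat_lit 456) (nat_lit 587203906) (nat_lit 76) (nat_lit 143435472469) (nat_lit 114) (nat_lit 5) (nat_lit 120) (nat_lit 5) (nat_lit 115) (nat_lit 5) (nat_lit 452) (nat_lit 443) (nat_lit 305)) (XT.lf (nat_lit 0) (nat_lit 46948993410) (nat_lit 456) (nat_lit 24669832804) (nat_lit 76) (nat_lit 96136752828) (nat_lit 109) (nat_lit 5) (nat_lit 115) (nat_lit 5) (nat_lit 110) (nat_lit 5) (nat_lit 453) (nat_lit 443) (nat_lit 304)))) (XT.nd (nat_lit 156) (nat_lit 608) (nat_lit 0) (XT.nd (nat_lit 78) (nat_lit 304) (nat_lit 0) (XT.lf (nat_lit 0) (nat_lit 82660277120) (nat_lit 456) (nat_lit 49386054165) (nat_lit 76) (nat_lit 43224053005) (nat_lit 104) (nat_lit 5) (nat_lit 110) (nat_lit 5) (nat_lit 105) (nat_lit 5) (nat_lit 454) (nat_lit 443) (nat_lit 303)) (XT.lf (nat_lit 0) (nat_lit 108248372369) (nat_lit 304) (nat_lit 16314133221) (nat_lit 380) (nat_lit 58657166405)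 (nat_lit 100) (nat_lit 5) (nat_lit 104) (nat_lit 5) (nat_lit 105) (nat_lit 5) (nat_lit 455) (nat_lit 443) (nat_lit 302))) (XT.nd (nat_lit 78) (nat_lit 304) (nat_lit 0) (XT.lf (nat_lit 0) (nat_lit 89653370463) (nat_lit 304) (nat_lit 84134008375) (nat_lit 380) (nat_lit 17819000683) (nat_lit 96) (nat_lit 5) (nat_lit 100) (nat_lit 5) (nat_lit 101) (nat_lit 5) (nat_lit 456) (nat_lit 443) (nat_lit 301)) (XT.lf (nat_lit 0) (nat_lit 28827324248) (nat_lit 304) (nat_lit 130083678398) (nat_lit 76) (nat_lit 41563379586) (nat_lit 92) (nat_lit 5) (nat_lit 96) (nat_lit 5) (nat_lit 93) (nat_lit 5) (nat_lit 457) (nat_lit 443) (nat_lit 300))))))) (XT.nd (nat_lit 1014) (nat_lit 1748) (nat_lit 0) (XT.nd (nat_lit 468) (nat_lit 1368) (nat_lit 0) (XT.nd (nat_lit 234) (nat_lit 532) (nat_lit 0) (XT.nd (nat_lit 78) (nat_lit 456) (nat_lit 0) (XT.lf (nat_lit 0) (nat_lit 50052912875) (nat_lit 304) (nat_lit 32541325657)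 (nat_lit 380) (nat_lit 127242322276) (nat_lit 88) (nat_lit 5) (nat_lit 92) (nat_lit 5) (nat_lit 93) (nat_lit 5) (nat_lit 458) (nat_lit 443) (nat_lit 299)) (XT.nd (nat_lit 78) (nat_lit 228) (nat_lit 0) (XT.lf (nat_lit 0) (nat_lit 28668467278) (nat_lit 228) (nat_lit 116367174487) (nat_lit 304) (nat_lit 74693415214) (nat_lit 85) (nat_lit 5) (nat_lit 88) (nat_lit 5) (nat_lit 89) (nat_lit 5) (nat_lit 459) (nat_lit 443) (nat_lit 298)) (XT.lf (nat_lit 0) (nat_lit 6975435895) (nat_lit 228) (nat_lit 209264988586) (nat_lit 304) (nat_lit 13984125093) (nat_lit 82) (nat_lit 5) (nat_lit 85) (nat_lit 5) (nat_lit 86) (nat_lit 5) (nat_lit 460) (nat_lit 443) (nat_lit 297)))) (XT.nd (nat_lit 78) (nat_lit 456) (nat_lit 0) (XT.lf (nat_lit 0) (nat_lit 55275526835) (nat_lit 304) (nat_lit 16538721080) (nat_lit 76) (nat_lit 169437938741) (nat_lit 81) (nat_lit 5) (nat_lit 85) (nat_lit 5) (nat_lit 82) (nat_lit 5) (nat_lit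 461) (nat_lit 443) (nat_lit 296)) (XT.nd (nat_lit 78) (nat_lit 228) (nat_lit 0) (XT.lf (nat_lit 0) (nat_lit 134177379367) (nat_lit 304) (nat_lit 40939452709) (nat_lit 76) (nat_lit 77804172103) (nat_lit 78) (nat_lit 5) (nat_lit 82) (nat_lit 5) (nat_lit 79) (nat_lit 5) (nat_lit 462) (nat_lit 443) (nat_lit 295)) (XT.lf (nat_lit 0) (nat_lit 199018918800) (nat_lit 228) (nat_lit 24983163855) (nat_lit 304) (nat_lit 41290709390) (nat_lit 75) (nat_lit 5) (nat_lit 78) (nat_lit 5) (nat_lit 79) (nat_lit 5) (nat_lit 463) (nat_lit 443) (nat_lit 294))))) (XT.nd (nat_lit 234) (nat_lit 760) (nat_lit 0) (XT.nd (nat_lit 78) (nat_lit 380) (nat_lit 0) (XT.lf (nat_lit 0) (nat_lit 46847916404) (nat_lit 228) (nat_lit 94344676727) (nat_lit 76) (nat_lit 137136402586) (nat_lit 72) (nat_lit 5) (nat_lit 75) (nat_lit 5) (nat_lit 73) (nat_lit 5) (nat_lit 464) (nat_lit 443) (nat_lit 293)) (XT.nd (nat_lit 78) (nat_lit 152)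 (nat_lit 0) (XT.lf (nat_lit 0) (nat_lit 145206095240) (nat_lit 304) (nat_lit 123995202580) (nat_lit 76) (nat_lit 22942198659) (nat_lit 69) (nat_lit 5) (nat_lit 73) (nat_lit 5) (nat_lit 70) (nat_lit 5) (nat_lit 465) (nat_lit 443) (nat_lit 292)) (XT.lf (nat_lit 0) (nat_lit 150435522569) (nat_lit 152) (nat_lit 107397012160) (nat_lit 228) (nat_lit 48910642309) (nat_lit 67) (nat_lit 5) (nat_lit 69) (nat_lit 5) (nat_lit 70) (nat_lit 5) (nat_lit 466) (nat_lit 443) (nat_lit 291)))) (XT.nd (nat_lit 156) (nat_lit 380) (nat_lit 0) (XT.nd (nat_lit 78) (nat_lit 152) (nat_lit 0) (XT.lf (nat_lit 0) (nat_lit 60529499495) (nat_lit 228) (nat_lit 191239114786) (nat_lit 76) (nat_lit 70428040798) (nat_lit 64) (nat_lit 5) (nat_lit 67) (nat_lit 5) (nat_lit 65) (nat_lit 5) (nat_lit 467) (nat_lit 443) (nat_lit 290)) (XT.lf (nat_lit 0) (nat_lit 108838243896) (nat_lit 152) (nat_lit 74473295802) (nat_lit 228) (nat_lit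 155219767132) (nat_lit 62) (nat_lit 5) (nat_lit 64) (nat_lit 5) (nat_lit 65) (nat_lit 5) (nat_lit 468) (nat_lit 443) (nat_lit 289))) (XT.nd (nat_lit 78) (nat_lit 228) (nat_lit 0) (XT.lf (nat_lit 0) (nat_lit 84569714654) (nat_lit 152) (nat_lit 237879241477) (nat_lit 228) (nat_lit 33397133980) (nat_lit 60) (nat_lit 5) (nat_lit 62) (nat_lit 5) (nat_lit 63) (nat_lit 5) (nat_lit 469) (nat_lit 443) (nat_lit 288)) (XT.lf (nat_lit 0) (nat_lit 56793085729) (nat_lit 152) (nat_lit 44445072072) (nat_lit 228) (nat_lit 272920814674) (nat_lit 57) (nat_lit 5) (nat_lit 59) (nat_lit 5) (nat_lit 60) (nat_lit 5) (nat_lit 470) (nat_lit 443) (nat_lit 287)))))) (XT.nd (nat_lit 546) (nat_lit 836) (nat_lit 0) (XT.nd (nat_lit 234) (nat_lit 532) (nat_lit 0) (XT.nd (nat_lit 78) (nat_lit 228) (nat_lit 0) (XT.lf (nat_lit 0) (nat_lit 24675775370) (nat_lit 152) (nat_lit 228569791885) (nat_lit 228) (nat_lit 140275375143)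 (nat_lit 55) (nat_lit 5) (nat_lit 57) (nat_lit 5) (nat_lit 58) (nat_lit 5) (nat_lit 471) (nat_lit 443) (nat_lit 286)) (XT.nd (nat_lit 78) (nat_lit 152) (nat_lit 0) (XT.lf (nat_lit 0) (nat_lit 9254434485) (nat_lit 228) (nat_lit 9628590166) (nat_lit 76) (nat_lit 395228109262) (nat_lit 54) (nat_lit 5) (nat_lit 57) (nat_lit 5) (nat_lit 55) (nat_lit 5) (nat_lit 472) (nat_lit 443) (nat_lit 285)) (XT.lf (nat_lit 0) (nat_lit 175340518232) (nat_lit 228) (nat_lit 50915527081) (nat_lit 76) (nat_lit 209502092888) (nat_lit 52) (nat_lit 5) (nat_lit 55) (nat_lit 5) (nat_lit 53) (nat_lit 5) (nat_lit 473) (nat_lit 443) (nat_lit 284)))) (XT.nd (nat_lit 156) (nat_lit 228) (nat_lit 0) (XT.nd (nat_lit 78) (nat_lit 152) (nat_lit 0) (XT.lf (nat_lit 0) (nat_lit 360915178385) (nat_lit 228) (nat_lit 95471814599) (nat_lit 76) (nat_lit 2439825385) (nat_lit 50) (nat_lit 5) (nat_lit 53) (nat_lit 5) (nat_lit 51) (nat_lit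 4) (nat_lit 474) (nat_lit 443) (nat_lit 283)) (XT.lf (nat_lit 0) (nat_lit 85233828558) (nat_lit 152) (nat_lit 148811076002) (nat_lit 76) (nat_lit 249129388337) (nat_lit 48) (nat_lit 5) (nat_lit 50) (nat_lit 5) (nat_lit 49) (nat_lit 5) (nat_lit 475) (nat_lit 443) (nat_lit 282))) (XT.nd (nat_lit 78) (nat_lit 76) (nat_lit 0) (XT.lf (nat_lit 0) (nat_lit 286255711564) (nat_lit 228) (nat_lit 208745758259) (nat_lit 76) (nat_lit 14055083947) (nat_lit 46) (nat_lit 5) (nat_lit 49) (nat_lit 5) (nat_lit 47) (nat_lit 4) (nat_lit 476) (nat_lit 443) (nat_lit 281)) (XT.lf (nat_lit 0) (nat_lit 258067187217) (nat_lit 76) (nat_lit 255902266935) (nat_lit 152) (nat_lit 22509435932) (nat_lit 45) (nat_lit 5) (nat_lit 46) (nat_lit 5) (nat_lit 47) (nat_lit 4) (nat_lit 477) (nat_lit 443) (nat_lit 280))))) (XT.nd (nat_lit 234) (nat_lit 304) (nat_lit 0) (XT.nd (nat_lit 78) (nat_lit 304) (nat_lit 0) (XT.lf (nat_lit 0)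 (nat_lit 194734310389) (nat_lit 228) (nat_lit 358480762580) (nat_lit 76) (nat_lit 12372047823) (nat_lit 42) (nat_lit 5) (nat_lit 45) (nat_lit 5) (nat_lit 43) (nat_lit 4) (nat_lit 478) (nat_lit 443) (nat_lit 279)) (XT.nd (nat_lit 78) (nat_lit 228) (nat_lit 0) (XT.lf (nat_lit 0) (nat_lit 144476172230) (nat_lit 76) (nat_lit 295603074753) (nat_lit 152) (nat_lit 156350797053) (nat_lit 41) (nat_lit 5) (nat_lit 42) (nat_lit 5) (nat_lit 43) (nat_lit 4) (nat_lit 479) (nat_lit 443) (nat_lit 278)) (XT.lf (nat_lit 0) (nat_lit 72070988903) (nat_lit 152) (nat_lit 8301915681) (nat_lit 228) (nat_lit 548935107405) (nat_lit 38) (nat_lit 5) (nat_lit 40) (nat_lit 5) (nat_lit 41) (nat_lit 5) (nat_lit 480) (nat_lit 443) (nat_lit 277)))) (XT.nd (nat_lit 156) (nat_lit 228) (nat_lit 0) (XT.nd (nat_lit 78) (nat_lit 76) (nat_lit 0) (XT.lf (nat_lit 0) (nat_lit 343346440457) (nat_lit 228) (nat_lit 17746096454) (nat_lit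 76) (nat_lit 302956038667) (nat_lit 38) (nat_lit 5) (nat_lit 41) (nat_lit 5) (nat_lit 39) (nat_lit 4) (nat_lit 481) (nat_lit 443) (nat_lit 276)) (XT.lf (nat_lit 0) (nat_lit 583437528065) (nat_lit 76) (nat_lit 53169285340) (nat_lit 152) (nat_lit 64499123151) (nat_lit 37) (nat_lit 5) (nat_lit 38) (nat_lit 5) (nat_lit 39) (nat_lit 4) (nat_lit 482) (nat_lit 443) (nat_lit 275))) (XT.nd (nat_lit 78) (nat_lit 76) (nat_lit 0) (XT.lf (nat_lit 0) (nat_lit 218159021427) (nat_lit 152) (nat_lit 240018357567) (nat_lit 76) (nat_lit 282147324441) (nat_lit 35) (nat_lit 5) (nat_lit 37) (nat_lit 5) (nat_lit 36) (nat_lit 4) (nat_lit 483) (nat_lit 443) (nat_lit 274)) (XT.lf (nat_lit 0) (nat_lit 400131265055) (nat_lit 76) (nat_lit 130295920739) (nat_lit 152) (nat_lit 251738062580) (nat_lit 34) (nat_lit 5) (nat_lit 35) (nat_lit 5) (nat_lit 36) (nat_lit 4) (nat_lit 484) (nat_lit 443) (nat_lit 273))))))))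
noncomputable def xc108 : XT := (XT.nd (nat_lit 60606) (nat_lit 0) (nat_lit 532) (XT.nd (nat_lit 59592) (nat_lit 0) (nat_lit 4636) (XT.nd (nat_lit 468) (nat_lit 228) (nat_lit 0) (XT.nd (nat_lit 234) (nat_lit 304) (nat_lit 0) (XT.nd (nat_lit 78) (nat_lit 76) (nat_lit 0) (XT.lf (nat_lit 0) (nat_lit 51319571634) (nat_lit 152) (nat_lit 549313517850) (nat_lit 76) (nat_lit 226074148202) (nat_lit 32) (nat_lit 5) (nat_lit 34) (nat_lit 5) (nat_lit 33) (nat_lit 4) (nat_lit 485) (nat_lit 443) (nat_lit 272)) (XT.nd (nat_lit 78) (nat_lit 0) (nat_lit 0) (XT.lf (nat_lit 0) (nat_lit 126227059212) (nat_lit 76) (nat_lit 254624546770) (nat_lit 152) (nat_lit 493202164253) (nat_lit 31) (nat_lit 5) (nat_lit 32) (nat_lit 5) (nat_lit 33) (nat_lit 4) (nat_lit 486) (nat_lit 443) (nat_lit 271)) (XT.lf (nat_lit 0) (nat_lit 748330579760) (nat_lit 152) (nat_lit 51298903698) (nat_lit 0) (nat_lit 124979323102) (nat_lit 31)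 (nat_lit 5) (nat_lit 33) (nat_lit 4) (nat_lit 31) (nat_lit 4) (nat_lit 487) (nat_lit 443) (nat_lit 270)))) (XT.nd (nat_lit 78) (nat_lit 152) (nat_lit 0) (XT.lf (nat_lit 0) (nat_lit 176470933755) (nat_lit 152) (nat_lit 261585918683) (nat_lit 76) (nat_lit 540232590752) (nat_lit 29) (nat_lit 5) (nat_lit 31) (nat_lit 5) (nat_lit 30) (nat_lit 4) (nat_lit 488) (nat_lit 443) (nat_lit 269)) (XT.nd (nat_lit 78) (nat_lit 76) (nat_lit 0) (XT.lf (nat_lit 0) (nat_lit 525593220508) (nat_lit 76) (nat_lit 34867571670) (nat_lit 152) (nat_lit 475199413456) (nat_lit 28) (nat_lit 5) (nat_lit 29) (nat_lit 5) (nat_lit 30) (nat_lit 4) (nat_lit 489) (nat_lit 443) (nat_lit 268)) (XT.lf (nat_lit 0) (nat_lit 290669267322) (nat_lit 76) (nat_lit 699924124823) (nat_lit 76) (nat_lit 106256059291) (nat_lit 27) (nat_lit 4) (nat_lit 28) (nat_lit 5) (nat_lit 28) (nat_lit 4) (nat_lit 490) (nat_lit 443) (nat_lit 267))))) (XT.nd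 (nat_lit 58812) (nat_lit 0) (nat_lit 7676) (XT.nd (nat_lit 78) (nat_lit 76) (nat_lit 0) (XT.lf (nat_lit 0) (nat_lit 6088153579) (nat_lit 76) (nat_lit 286475883854) (nat_lit 152) (nat_lit 869656014899) (nat_lit 25) (nat_lit 5) (nat_lit 26) (nat_lit 5) (nat_lit 27) (nat_lit 4) (nat_lit 491) (nat_lit 443) (nat_lit 266)) (XT.nd (nat_lit 78) (nat_lit 76) (nat_lit 0) (XT.lf (nat_lit 0) (nat_lit 736388883135) (nat_lit 152) (nat_lit 324512611455) (nat_lit 0) (nat_lit 170990619784) (nat_lit 25) (nat_lit 5) (nat_lit 27) (nat_lit 4) (nat_lit 25) (nat_lit 4) (nat_lit 492) (nat_lit 443) (nat_lit 265)) (XT.lf (nat_lit 0) (nat_lit 587612833373) (nat_lit 76) (nat_lit 642111591498) (nat_lit 76) (nat_lit 76713281093) (nat_lit 24) (nat_lit 4) (nat_lit 25) (nat_lit 5) (nat_lit 25) (nat_lit 4) (nat_lit 493) (nat_lit 443) (nat_lit 264)))) (XT.nd (nat_lit 156) (nat_lit 0) (nat_lit 76) (XT.nd (nat_lit 78) (nat_lit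 0) (nat_lit 76) (XT.lf (nat_lit 0) (nat_lit 20058367642) (nat_lit 836) (nat_lit 20001398489) (nat_lit 836) (nat_lit 20001398489) (nat_lit 125) (nat_lit 3) (nat_lit 136) (nat_lit 3) (nat_lit 136) (nat_lit 5) (nat_lit 444) (nat_lit 444) (nat_lit 312)) (XT.lf (nat_lit 0) (nat_lit 42810041329) (nat_lit 760) (nat_lit 69150181225) (nat_lit 836) (nat_lit 12912565314) (nat_lit 126) (nat_lit 5) (nat_lit 136) (nat_lit 5) (nat_lit 137) (nat_lit 5) (nat_lit 445) (nat_lit 444) (nat_lit 311))) (XT.nd (nat_lit 78) (nat_lit 0) (nat_lit 76) (XT.lf (nat_lit 76) (nat_lit 30168876139) (nat_lit 0) (nat_lit 18079466244) (nat_lit 836) (nat_lit 81628464546) (nat_lit 127) (nat_lit 5) (nat_lit 126) (nat_lit 5) (nat_lit 137) (nat_lit 5) (nat_lit 446) (nat_lit 444) (nat_lit 310)) (XT.lf (nat_lit 76) (nat_lit 3472083086) (nat_lit 0) (nat_lit 53228212884) (nat_lit 836) (nat_lit 78451922375) (nat_lit 128) (nat_lit 5) (nat_lit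 127) (nat_lit 5) (nat_lit 138) (nat_lit 5) (nat_lit 447) (nat_lit 444) (nat_lit 309)))))) (XT.nd (nat_lit 468) (nat_lit 2204) (nat_lit 0) (XT.nd (nat_lit 234) (nat_lit 1064) (nat_lit 0) (XT.nd (nat_lit 78) (nat_lit 0) (nat_lit 76) (XT.lf (nat_lit 0) (nat_lit 68649704942) (nat_lit 760) (nat_lit 23381291614) (nat_lit 836) (nat_lit 48677601395) (nat_lit 128) (nat_lit 5) (nat_lit 138) (nat_lit 5) (nat_lit 139) (nat_lit 5) (nat_lit 448) (nat_lit 444) (nat_lit 308)) (XT.nd (nat_lit 78) (nat_lit 0) (nat_lit 0) (XT.lf (nat_lit 0) (nat_lit 84131176103) (nat_lit 760) (nat_lit 51026091957) (nat_lit 836) (nat_lit 11423414607) (nat_lit 129) (nat_lit 5) (nat_lit 139) (nat_lit 5) (nat_lit 140) (nat_lit 5) (nat_lit 449) (nat_lit 444) (nat_lit 307)) (XT.lf (nat_lit 76) (nat_lit 72706250067) (nat_lit 0) (nat_lit 31245315434) (nat_lit 836) (nat_lit 48815948832) (nat_lit 130) (nat_lit 5) (nat_lit 129) (nat_lit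 5) (nat_lit 140) (nat_lit 5) (nat_lit 450) (nat_lit 444) (nat_lit 306)))) (XT.nd (nat_lit 78) (nat_lit 456) (nat_lit 0) (XT.lf (nat_lit 0) (nat_lit 49044870931) (nat_lit 760) (nat_lit 79245685375) (nat_lit 836) (nat_lit 31012087899) (nat_lit 120) (nat_lit 5) (nat_lit 130) (nat_lit 5) (nat_lit 131) (nat_lit 5) (nat_lit 451) (nat_lit 444) (nat_lit 305)) (XT.nd (nat_lit 78) (nat_lit 76) (nat_lit 0) (XT.lf (nat_lit 0) (nat_lit 24786542965) (nat_lit 380) (nat_lit 132625213531) (nat_lit 456) (nat_lit 8807073634) (nat_lit 115) (nat_lit 5) (nat_lit 120) (nat_lit 5) (nat_lit 121) (nat_lit 5) (nat_lit 452) (nat_lit 444) (nat_lit 304)) (XT.lf (nat_lit 0) (nat_lit 17976561627) (nat_lit 456) (nat_lit 625668790) (nat_lit 76) (nat_lit 154909840287) (nat_lit 114) (nat_lit 5) (nat_lit 120) (nat_lit 5) (nat_lit 115) (nat_lit 5) (nat_lit 453) (nat_lit 444) (nat_lit 303))))) (XT.nd (nat_lit 234) (nat_lit 1140)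 (nat_lit 0) (XT.nd (nat_lit 78) (nat_lit 684) (nat_lit 0) (XT.lf (nat_lit 0) (nat_lit 50712959027) (nat_lit 456) (nat_lit 26634874454) (nat_lit 76) (nat_lit 103827786854) (nat_lit 109) (nat_lit 5) (nat_lit 115) (nat_lit 5) (nat_lit 110) (nat_lit 5) (nat_lit 454) (nat_lit 444) (nat_lit 302)) (XT.nd (nat_lit 78) (nat_lit 304) (nat_lit 0) (XT.lf (nat_lit 0) (nat_lit 89280686340) (nat_lit 456) (nat_lit 53328392772) (nat_lit 76) (nat_lit 46682554047) (nat_lit 104) (nat_lit 5) (nat_lit 110) (nat_lit 5) (nat_lit 105) (nat_lit 5) (nat_lit 455) (nat_lit 444) (nat_lit 301)) (XT.lf (nat_lit 0) (nat_lit 116916416498) (nat_lit 304) (nat_lit 17618242211) (nat_lit 380) (nat_lit 63342227078) (nat_lit 100) (nat_lit 5) (nat_lit 104) (nat_lit 5) (nat_lit 105) (nat_lit 5) (nat_lit 456) (nat_lit 444) (nat_lit 300)))) (XT.nd (nat_lit 156) (nat_lit 532) (nat_lit 0) (XT.nd (nat_lit 78) (nat_lit 304) (nat_lit 0) (XT.lf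 (nat_lit 0) (nat_lit 96833788259) (nat_lit 304) (nat_lit 90863345714) (nat_lit 380) (nat_lit 19237415506) (nat_lit 96) (nat_lit 5) (nat_lit 100) (nat_lit 5) (nat_lit 101) (nat_lit 5) (nat_lit 457) (nat_lit 444) (nat_lit 299)) (XT.lf (nat_lit 0) (nat_lit 31140027387) (nat_lit 304) (nat_lit 140482056274) (nat_lit 76) (nat_lit 44889921383) (nat_lit 92) (nat_lit 5) (nat_lit 96) (nat_lit 5) (nat_lit 93) (nat_lit 5) (nat_lit 458) (nat_lit 444) (nat_lit 298))) (XT.nd (nat_lit 78) (nat_lit 228) (nat_lit 0) (XT.lf (nat_lit 0) (nat_lit 54065100880) (nat_lit 304) (nat_lit 35142835378) (nat_lit 380) (nat_lit 137415239718) (nat_lit 88) (nat_lit 5) (nat_lit 92) (nat_lit 5) (nat_lit 93) (nat_lit 5) (nat_lit 459) (nat_lit 444) (nat_lit 297)) (XT.lf (nat_lit 0) (nat_lit 30969823333) (nat_lit 228) (nat_lit 125674521197) (nat_lit 304) (nat_lit 80662742802) (nat_lit 85) (nat_lit 5) (nat_lit 88) (nat_lit 5) (nat_lit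 89) (nat_lit 5) (nat_lit 460) (nat_lit 444) (nat_lit 296))))))) (XT.nd (nat_lit 1014) (nat_lit 1748) (nat_lit 0) (XT.nd (nat_lit 468) (nat_lit 1140) (nat_lit 0) (XT.nd (nat_lit 234) (nat_lit 684) (nat_lit 0) (XT.nd (nat_lit 78) (nat_lit 304) (nat_lit 0) (XT.lf (nat_lit 0) (nat_lit 7541258185) (nat_lit 228) (nat_lit 226003969128) (nat_lit 304) (nat_lit 15097006268) (nat_lit 82) (nat_lit 5) (nat_lit 85) (nat_lit 5) (nat_lit 86) (nat_lit 5) (nat_lit 461) (nat_lit 444) (nat_lit 295)) (XT.nd (nat_lit 78) (nat_lit 228) (nat_lit 0) (XT.lf (nat_lit 0) (nat_lit 59702811235) (nat_lit 304) (nat_lit 17854433526) (nat_lit 76) (nat_lit 182994853381) (nat_lit 81) (nat_lit 5) (nat_lit 85) (nat_lit 5) (nat_lit 82) (nat_lit 5) (nat_lit 462) (nat_lit 444) (nat_lit 294)) (XT.lf (nat_lit 0) (nat_lit 144916566735) (nat_lit 304) (nat_lit 44207327980) (nat_lit 76) (nat_lit 84030538713) (nat_lit 78) (nat_lit 5) (nat_lit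 82) (nat_lit 5) (nat_lit 79) (nat_lit 5) (nat_lit 463) (nat_lit 444) (nat_lit 293)))) (XT.nd (nat_lit 78) (nat_lit 456) (nat_lit 0) (XT.lf (nat_lit 0) (nat_lit 214947396830) (nat_lit 228) (nat_lit 26979588043) (nat_lit 304) (nat_lit 44588992612) (nat_lit 75) (nat_lit 5) (nat_lit 78) (nat_lit 5) (nat_lit 79) (nat_lit 5) (nat_lit 464) (nat_lit 444) (nat_lit 292)) (XT.nd (nat_lit 78) (nat_lit 228) (nat_lit 0) (XT.lf (nat_lit 0) (nat_lit 50600348992) (nat_lit 228) (nat_lit 101885241631) (nat_lit 76) (nat_lit 148109493779) (nat_lit 72) (nat_lit 5) (nat_lit 75) (nat_lit 5) (nat_lit 73) (nat_lit 5) (nat_lit 465) (nat_lit 444) (nat_lit 291)) (XT.lf (nat_lit 0) (nat_lit 156826982681) (nat_lit 304) (nat_lit 133907931622) (nat_lit 76) (nat_lit 24779840969) (nat_lit 69) (nat_lit 5) (nat_lit 73) (nat_lit 5) (nat_lit 70) (nat_lit 5) (nat_lit 466) (nat_lit 444) (nat_lit 290))))) (XT.nd (nat_lit 234) (nat_lit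 608) (nat_lit 0) (XT.nd (nat_lit 78) (nat_lit 380) (nat_lit 0) (XT.lf (nat_lit 0) (nat_lit 162476952230) (nat_lit 152) (nat_lit 115986362040) (nat_lit 228) (nat_lit 52819107226) (nat_lit 67) (nat_lit 5) (nat_lit 69) (nat_lit 5) (nat_lit 70) (nat_lit 5) (nat_lit 467) (nat_lit 444) (nat_lit 289)) (XT.nd (nat_lit 78) (nat_lit 152) (nat_lit 0) (XT.lf (nat_lit 0) (nat_lit 65375929040) (nat_lit 228) (nat_lit 206531642509) (nat_lit 76) (nat_lit 76064611694) (nat_lit 64) (nat_lit 5) (nat_lit 67) (nat_lit 5) (nat_lit 65) (nat_lit 5) (nat_lit 468) (nat_lit 444) (nat_lit 288)) (XT.lf (nat_lit 0) (nat_lit 117551617976) (nat_lit 152) (nat_lit 80428711621) (nat_lit 228) (nat_lit 167633287738) (nat_lit 62) (nat_lit 5) (nat_lit 64) (nat_lit 5) (nat_lit 65) (nat_lit 5) (nat_lit 469) (nat_lit 444) (nat_lit 287)))) (XT.nd (nat_lit 156) (nat_lit 228) (nat_lit 0) (XT.nd (nat_lit 78) (nat_lit 228) (nat_lit 0) (XT.lf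 (nat_lit 0) (nat_lit 91341481024) (nat_lit 152) (nat_lit 256907103914) (nat_lit 228) (nat_lit 36065006112) (nat_lit 60) (nat_lit 5) (nat_lit 62) (nat_lit 5) (nat_lit 63) (nat_lit 5) (nat_lit 470) (nat_lit 444) (nat_lit 286)) (XT.lf (nat_lit 0) (nat_lit 61342572762) (nat_lit 152) (nat_lit 47998226232) (nat_lit 228) (nat_lit 294750711273) (nat_lit 57) (nat_lit 5) (nat_lit 59) (nat_lit 5) (nat_lit 60) (nat_lit 5) (nat_lit 471) (nat_lit 444) (nat_lit 285))) (XT.nd (nat_lit 78) (nat_lit 76) (nat_lit 0) (XT.lf (nat_lit 0) (nat_lit 26655750645) (nat_lit 152) (nat_lit 246852912504) (nat_lit 228) (nat_lit 151493781582) (nat_lit 55) (nat_lit 5) (nat_lit 57) (nat_lit 5) (nat_lit 58) (nat_lit 5) (nat_lit 472) (nat_lit 444) (nat_lit 284)) (XT.lf (nat_lit 0) (nat_lit 9998037018) (nat_lit 228) (nat_lit 10393294295) (nat_lit 76) (nat_lit 426848530454) (nat_lit 54) (nat_lit 5) (nat_lit 57) (nat_lit 5) (nat_lit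 55) (nat_lit 5) (nat_lit 473) (nat_lit 444) (nat_lit 283)))))) (XT.nd (nat_lit 546) (nat_lit 760) (nat_lit 0) (XT.nd (nat_lit 234) (nat_lit 532) (nat_lit 0) (XT.nd (nat_lit 78) (nat_lit 304) (nat_lit 0) (XT.lf (nat_lit 0) (nat_lit 189370885395) (nat_lit 228) (nat_lit 54983308959) (nat_lit 76) (nat_lit 226264438182) (nat_lit 52) (nat_lit 5) (nat_lit 55) (nat_lit 5) (nat_lit 53) (nat_lit 5) (nat_lit 474) (nat_lit 444) (nat_lit 282)) (XT.nd (nat_lit 78) (nat_lit 152) (nat_lit 0) (XT.lf (nat_lit 0) (nat_lit 389791403458) (nat_lit 228) (nat_lit 103104222673) (nat_lit 76) (nat_lit 2637186764) (nat_lit 50) (nat_lit 5) (nat_lit 53) (nat_lit 5) (nat_lit 51) (nat_lit 4) (nat_lit 475) (nat_lit 444) (nat_lit 281)) (XT.lf (nat_lit 0) (nat_lit 92055449698) (nat_lit 152) (nat_lit 160710760198) (nat_lit 76) (nat_lit 269061880334) (nat_lit 48) (nat_lit 5) (nat_lit 50) (nat_lit 5) (nat_lit 49) (nat_lit 5) (nat_lit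 476) (nat_lit 444) (nat_lit 280)))) (XT.nd (nat_lit 156) (nat_lit 304) (nat_lit 0) (XT.nd (nat_lit 78) (nat_lit 76) (nat_lit 0) (XT.lf (nat_lit 0) (nat_lit 309158979451) (nat_lit 228) (nat_lit 225440338277) (nat_lit 76) (nat_lit 15181619466) (nat_lit 46) (nat_lit 5) (nat_lit 49) (nat_lit 5) (nat_lit 47) (nat_lit 4) (nat_lit 477) (nat_lit 444) (nat_lit 279)) (XT.lf (nat_lit 0) (nat_lit 278717422038) (nat_lit 76) (nat_lit 276372267064) (nat_lit 152) (nat_lit 24307377952) (nat_lit 45) (nat_lit 5) (nat_lit 46) (nat_lit 5) (nat_lit 47) (nat_lit 4) (nat_lit 478) (nat_lit 444) (nat_lit 278))) (XT.nd (nat_lit 78) (nat_lit 76) (nat_lit 0) (XT.lf (nat_lit 0) (nat_lit 210315683693) (nat_lit 228) (nat_lit 387154391939) (nat_lit 76) (nat_lit 13363883130) (nat_lit 42) (nat_lit 5) (nat_lit 45) (nat_lit 5) (nat_lit 43) (nat_lit 4) (nat_lit 479) (nat_lit 444) (nat_lit 277)) (XT.lf (nat_lit 0) (nat_lit 156038887677)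 (nat_lit 76) (nat_lit 319249204993) (nat_lit 152) (nat_lit 168856229343) (nat_lit 41) (nat_lit 5) (nat_lit 42) (nat_lit 5) (nat_lit 43) (nat_lit 4) (nat_lit 480) (nat_lit 444) (nat_lit 276))))) (XT.nd (nat_lit 234) (nat_lit 456) (nat_lit 0) (XT.nd (nat_lit 78) (nat_lit 76) (nat_lit 0) (XT.lf (nat_lit 0) (nat_lit 77841169623) (nat_lit 152) (nat_lit 8963996176) (nat_lit 228) (nat_lit 592847365487) (nat_lit 38) (nat_lit 5) (nat_lit 40) (nat_lit 5) (nat_lit 41) (nat_lit 5) (nat_lit 481) (nat_lit 444) (nat_lit 275)) (XT.nd (nat_lit 78) (nat_lit 76) (nat_lit 0) (XT.lf (nat_lit 0) (nat_lit 370816434592) (nat_lit 228) (nat_lit 19161533330) (nat_lit 76) (nat_lit 327194379555) (nat_lit 38) (nat_lit 5) (nat_lit 41) (nat_lit 5) (nat_lit 39) (nat_lit 4) (nat_lit 482) (nat_lit 444) (nat_lit 274)) (XT.lf (nat_lit 0) (nat_lit 630116596415) (nat_lit 76) (nat_lit 57420935636) (nat_lit 152) (nat_lit 69656770562)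 (nat_lit 37) (nat_lit 5) (nat_lit 38) (nat_lit 5) (nat_lit 39) (nat_lit 4) (nat_lit 483) (nat_lit 444) (nat_lit 273)))) (XT.nd (nat_lit 156) (nat_lit 228) (nat_lit 0) (XT.nd (nat_lit 78) (nat_lit 76) (nat_lit 0) (XT.lf (nat_lit 0) (nat_lit 235613879602) (nat_lit 152) (nat_lit 259215790096) (nat_lit 76) (nat_lit 304720903021) (nat_lit 35) (nat_lit 5) (nat_lit 37) (nat_lit 5) (nat_lit 36) (nat_lit 4) (nat_lit 484) (nat_lit 444) (nat_lit 272)) (XT.lf (nat_lit 0) (nat_lit 432145626932) (nat_lit 76) (nat_lit 140717772206) (nat_lit 152) (nat_lit 271874967027) (nat_lit 34) (nat_lit 5) (nat_lit 35) (nat_lit 5) (nat_lit 36) (nat_lit 4) (nat_lit 485) (nat_lit 444) (nat_lit 271))) (XT.nd (nat_lit 78) (nat_lit 76) (nat_lit 0) (XT.lf (nat_lit 0) (nat_lit 55427142420) (nat_lit 152) (nat_lit 593254769525) (nat_lit 76) (nat_lit 244161804368) (nat_lit 32) (nat_lit 5) (nat_lit 34) (nat_lit 5) (nat_lit 33) (nat_lit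 4) (nat_lit 486) (nat_lit 444) (nat_lit 270)) (XT.lf (nat_lit 0) (nat_lit 136328887266) (nat_lit 76) (nat_lit 274992760923) (nat_lit 152) (nat_lit 532656327853) (nat_lit 31) (nat_lit 5) (nat_lit 32) (nat_lit 5) (nat_lit 33) (nat_lit 4) (nat_lit 487) (nat_lit 444) (nat_lit 269))))))))
noncomputable def xc109 : XT := (XT.nd (nat_lit 60762) (nat_lit 0) (nat_lit 152) (XT.nd (nat_lit 59670) (nat_lit 0) (nat_lit 3800) (XT.nd (nat_lit 59124) (nat_lit 0) (nat_lit 7600) (XT.nd (nat_lit 234) (nat_lit 228) (nat_lit 0) (XT.nd (nat_lit 78) (nat_lit 228) (nat_lit 0) (XT.lf (nat_lit 0) (nat_lit 808198823404) (nat_lit 152) (nat_lit 55399360612) (nat_lit 0) (nat_lit 134979237091) (nat_lit 31) (nat_lit 5) (nat_lit 33) (nat_lit 4) (nat_lit 31) (nat_lit 4) (nat_lit 488) (nat_lit 444) (nat_lit 268)) (XT.nd (nat_lit 78) (nat_lit 76) (nat_lit 0) (XT.lf (nat_lit 0) (nat_lit 190590352422) (nat_lit 152) (nat_lit 282509429196)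 (nat_lit 76) (nat_lit 583452729726) (nat_lit 29) (nat_lit 5) (nat_lit 31) (nat_lit 5) (nat_lit 30) (nat_lit 4) (nat_lit 489) (nat_lit 444) (nat_lit 267)) (XT.lf (nat_lit 0) (nat_lit 567643894980) (nat_lit 76) (nat_lit 37655425581) (nat_lit 152) (nat_lit 513213618179) (nat_lit 28) (nat_lit 5) (nat_lit 29) (nat_lit 5) (nat_lit 30) (nat_lit 4) (nat_lit 490) (nat_lit 444) (nat_lit 266)))) (XT.nd (nat_lit 78) (nat_lit 152) (nat_lit 0) (XT.lf (nat_lit 0) (nat_lit 313925942287) (nat_lit 76) (nat_lit 755916534262) (nat_lit 76) (nat_lit 114754850263) (nat_lit 27) (nat_lit 4) (nat_lit 28) (nat_lit 5) (nat_lit 28) (nat_lit 4) (nat_lit 491) (nat_lit 444) (nat_lit 265)) (XT.nd (nat_lit 78) (nat_lit 0) (nat_lit 0) (XT.lf (nat_lit 0) (nat_lit 6578255198) (nat_lit 76) (nat_lit 309392470949) (nat_lit 152) (nat_lit 939226852008) (nat_lit 25) (nat_lit 5) (nat_lit 26) (nat_lit 5) (nat_lit 27) (nat_lit 4) (nat_lit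 492) (nat_lit 444) (nat_lit 264)) (XT.lf (nat_lit 0) (nat_lit 795301464974) (nat_lit 152) (nat_lit 350470745804) (nat_lit 0) (nat_lit 184671199115) (nat_lit 25) (nat_lit 5) (nat_lit 27) (nat_lit 4) (nat_lit 25) (nat_lit 4) (nat_lit 493) (nat_lit 444) (nat_lit 263))))) (XT.nd (nat_lit 234) (nat_lit 0) (nat_lit 152) (XT.nd (nat_lit 78) (nat_lit 0) (nat_lit 76) (XT.lf (nat_lit 0) (nat_lit 21669838627) (nat_lit 836) (nat_lit 21597938219) (nat_lit 836) (nat_lit 21597938219) (nat_lit 125) (nat_lit 3) (nat_lit 136) (nat_lit 3) (nat_lit 136) (nat_lit 5) (nat_lit 445) (nat_lit 445) (nat_lit 310)) (XT.nd (nat_lit 78) (nat_lit 0) (nat_lit 0) (XT.lf (nat_lit 0) (nat_lit 46247455214) (nat_lit 760) (nat_lit 74674630275) (nat_lit 836) (nat_lit 13939889979) (nat_lit 126) (nat_lit 5) (nat_lit 136) (nat_lit 5) (nat_lit 137) (nat_lit 5) (nat_lit 446) (nat_lit 445) (nat_lit 309)) (XT.lf (nat_lit 76) (nat_lit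 32589622893) (nat_lit 0) (nat_lit 19530376327) (nat_lit 836) (nat_lit 88146358254) (nat_lit 127) (nat_lit 5) (nat_lit 126) (nat_lit 5) (nat_lit 137) (nat_lit 5) (nat_lit 447) (nat_lit 445) (nat_lit 308)))) (XT.nd (nat_lit 156) (nat_lit 0) (nat_lit 152) (XT.nd (nat_lit 78) (nat_lit 0) (nat_lit 76) (XT.lf (nat_lit 76) (nat_lit 3757408087) (nat_lit 0) (nat_lit 57489879906) (nat_lit 836) (nat_lit 84716555201) (nat_lit 128) (nat_lit 5) (nat_lit 127) (nat_lit 5) (nat_lit 138) (nat_lit 5) (nat_lit 448) (nat_lit 445) (nat_lit 307)) (XT.lf (nat_lit 0) (nat_lit 74151787916) (nat_lit 760) (nat_lit 25244235487) (nat_lit 836) (nat_lit 52568753165) (nat_lit 128) (nat_lit 5) (nat_lit 138) (nat_lit 5) (nat_lit 139) (nat_lit 5) (nat_lit 449) (nat_lit 445) (nat_lit 306))) (XT.nd (nat_lit 78) (nat_lit 0) (nat_lit 0) (XT.lf (nat_lit 0) (nat_lit 90871106059) (nat_lit 760) (nat_lit 55100436268) (nat_lit 836) (nat_lit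 12335119559) (nat_lit 129) (nat_lit 5) (nat_lit 139) (nat_lit 5) (nat_lit 140) (nat_lit 5) (nat_lit 450) (nat_lit 445) (nat_lit 305)) (XT.lf (nat_lit 76) (nat_lit 78530156616) (nat_lit 0) (nat_lit 33746386677) (nat_lit 836) (nat_lit 52711926225) (nat_lit 130) (nat_lit 5) (nat_lit 129) (nat_lit 5) (nat_lit 140) (nat_lit 5) (nat_lit 451) (nat_lit 445) (nat_lit 304)))))) (XT.nd (nat_lit 546) (nat_lit 1596) (nat_lit 0) (XT.nd (nat_lit 234) (nat_lit 1368) (nat_lit 0) (XT.nd (nat_lit 78) (nat_lit 456) (nat_lit 0) (XT.lf (nat_lit 0) (nat_lit 52975993445) (nat_lit 760) (nat_lit 85586100876) (nat_lit 836) (nat_lit 33484343656) (nat_lit 120) (nat_lit 5) (nat_lit 130) (nat_lit 5) (nat_lit 131) (nat_lit 5) (nat_lit 452) (nat_lit 445) (nat_lit 303)) (XT.nd (nat_lit 78) (nat_lit 76) (nat_lit 0) (XT.lf (nat_lit 0) (nat_lit 26777082843) (nat_lit 380) (nat_lit 143235401267) (nat_lit 456) (nat_lit 9503460216)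 (nat_lit 115) (nat_lit 5) (nat_lit 120) (nat_lit 5) (nat_lit 121) (nat_lit 5) (nat_lit 453) (nat_lit 445) (nat_lit 302)) (XT.lf (nat_lit 0) (nat_lit 19422017594) (nat_lit 456) (nat_lit 668425114) (nat_lit 76) (nat_lit 167302224578) (nat_lit 114) (nat_lit 5) (nat_lit 120) (nat_lit 5) (nat_lit 115) (nat_lit 5) (nat_lit 454) (nat_lit 445) (nat_lit 301)))) (XT.nd (nat_lit 156) (nat_lit 608) (nat_lit 0) (XT.nd (nat_lit 78) (nat_lit 380) (nat_lit 0) (XT.lf (nat_lit 0) (nat_lit 54776894022) (nat_lit 456) (nat_lit 28758338471) (nat_lit 76) (nat_lit 112134090220) (nat_lit 109) (nat_lit 5) (nat_lit 115) (nat_lit 5) (nat_lit 110) (nat_lit 5) (nat_lit 455) (nat_lit 445) (nat_lit 300)) (XT.lf (nat_lit 0) (nat_lit 96429645920) (nat_lit 456) (nat_lit 57587337611) (nat_lit 76) (nat_lit 50417652885) (nat_lit 104) (nat_lit 5) (nat_lit 110) (nat_lit 5) (nat_lit 105) (nat_lit 5) (nat_lit 456) (nat_lit 445) (nat_lit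 299))) (XT.nd (nat_lit 78) (nat_lit 304) (nat_lit 0) (XT.lf (nat_lit 0) (nat_lit 126276737996) (nat_lit 304) (nat_lit 19026825672) (nat_lit 380) (nat_lit 68403164367) (nat_lit 100) (nat_lit 5) (nat_lit 104) (nat_lit 5) (nat_lit 105) (nat_lit 5) (nat_lit 457) (nat_lit 445) (nat_lit 298)) (XT.lf (nat_lit 0) (nat_lit 104587477053) (nat_lit 304) (nat_lit 98131227388) (nat_lit 380) (nat_lit 20770317155) (nat_lit 96) (nat_lit 5) (nat_lit 100) (nat_lit 5) (nat_lit 101) (nat_lit 5) (nat_lit 458) (nat_lit 445) (nat_lit 297))))) (XT.nd (nat_lit 234) (nat_lit 760) (nat_lit 0) (XT.nd (nat_lit 78) (nat_lit 532) (nat_lit 0) (XT.lf (nat_lit 0) (nat_lit 33636817025) (nat_lit 304) (nat_lit 151713490808) (nat_lit 76) (nat_lit 48482376607) (nat_lit 92) (nat_lit 5) (nat_lit 96) (nat_lit 5) (nat_lit 93) (nat_lit 5) (nat_lit 459) (nat_lit 445) (nat_lit 296)) (XT.nd (nat_lit 78) (nat_lit 228) (nat_lit 0) (XT.lf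 (nat_lit 0) (nat_lit 58397129059) (nat_lit 304) (nat_lit 37952722143) (nat_lit 380) (nat_lit 148402913337) (nat_lit 88) (nat_lit 5) (nat_lit 92) (nat_lit 5) (nat_lit 93) (nat_lit 5) (nat_lit 460) (nat_lit 445) (nat_lit 295)) (XT.lf (nat_lit 0) (nat_lit 33454163892) (nat_lit 228) (nat_lit 135726744853) (nat_lit 304) (nat_lit 87110493340) (nat_lit 85) (nat_lit 5) (nat_lit 88) (nat_lit 5) (nat_lit 89) (nat_lit 5) (nat_lit 461) (nat_lit 445) (nat_lit 294)))) (XT.nd (nat_lit 156) (nat_lit 456) (nat_lit 0) (XT.nd (nat_lit 78) (nat_lit 76) (nat_lit 0) (XT.lf (nat_lit 0) (nat_lit 8151235297) (nat_lit 228) (nat_lit 244082384614) (nat_lit 304) (nat_lit 16299752339) (nat_lit 82) (nat_lit 5) (nat_lit 85) (nat_lit 5) (nat_lit 86) (nat_lit 5) (nat_lit 462) (nat_lit 445) (nat_lit 293)) (XT.lf (nat_lit 0) (nat_lit 64483530520) (nat_lit 304) (nat_lit 19276456555) (nat_lit 76) (nat_lit 197636053055) (nat_lit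 81) (nat_lit 5) (nat_lit 85) (nat_lit 5) (nat_lit 82) (nat_lit 5) (nat_lit 463) (nat_lit 445) (nat_lit 292))) (XT.nd (nat_lit 78) (nat_lit 228) (nat_lit 0) (XT.lf (nat_lit 0) (nat_lit 156514176212) (nat_lit 304) (nat_lit 47737671980) (nat_lit 76) (nat_lit 90754724644) (nat_lit 78) (nat_lit 5) (nat_lit 82) (nat_lit 5) (nat_lit 79) (nat_lit 5) (nat_lit 464) (nat_lit 445) (nat_lit 291)) (XT.lf (nat_lit 0) (nat_lit 232149159534) (nat_lit 228) (nat_lit 29136044146) (nat_lit 304) (nat_lit 48151848022) (nat_lit 75) (nat_lit 5) (nat_lit 78) (nat_lit 5) (nat_lit 79) (nat_lit 5) (nat_lit 465) (nat_lit 445) (nat_lit 290))))))) (XT.nd (nat_lit 1014) (nat_lit 1444) (nat_lit 0) (XT.nd (nat_lit 468) (nat_lit 1064) (nat_lit 0) (XT.nd (nat_lit 234) (nat_lit 532) (nat_lit 0) (XT.nd (nat_lit 78) (nat_lit 380) (nat_lit 0) (XT.lf (nat_lit 0) (nat_lit 54652320049) (nat_lit 228) (nat_lit 110030051673) (nat_lit 76)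 (nat_lit 159960121411) (nat_lit 72) (nat_lit 5) (nat_lit 75) (nat_lit 5) (nat_lit 73) (nat_lit 5) (nat_lit 466) (nat_lit 445) (nat_lit 289)) (XT.nd (nat_lit 78) (nat_lit 152) (nat_lit 0) (XT.lf (nat_lit 0) (nat_lit 169376913434) (nat_lit 304) (nat_lit 144614661519) (nat_lit 76) (nat_lit 26764171334) (nat_lit 69) (nat_lit 5) (nat_lit 73) (nat_lit 5) (nat_lit 70) (nat_lit 5) (nat_lit 467) (nat_lit 445) (nat_lit 288)) (XT.lf (nat_lit 0) (nat_lit 175480756434) (nat_lit 152) (nat_lit 125263203880) (nat_lit 228) (nat_lit 57040875116) (nat_lit 67) (nat_lit 5) (nat_lit 69) (nat_lit 5) (nat_lit 70) (nat_lit 5) (nat_lit 468) (nat_lit 445) (nat_lit 287)))) (XT.nd (nat_lit 78) (nat_lit 304) (nat_lit 0) (XT.lf (nat_lit 0) (nat_lit 70609492376) (nat_lit 228) (nat_lit 223048514223) (nat_lit 76) (nat_lit 82151776199) (nat_lit 64) (nat_lit 5) (nat_lit 67) (nat_lit 5) (nat_lit 65) (nat_lit 5) (nat_lit 469)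 (nat_lit 445) (nat_lit 286)) (XT.nd (nat_lit 78) (nat_lit 152) (nat_lit 0) (XT.lf (nat_lit 0) (nat_lit 126961161138) (nat_lit 152) (nat_lit 86860909917) (nat_lit 228) (nat_lit 181040469306) (nat_lit 62) (nat_lit 5) (nat_lit 64) (nat_lit 5) (nat_lit 65) (nat_lit 5) (nat_lit 470) (nat_lit 445) (nat_lit 285)) (XT.lf (nat_lit 0) (nat_lit 98654105745) (nat_lit 152) (nat_lit 277457548700) (nat_lit 228) (nat_lit 38946864192) (nat_lit 60) (nat_lit 5) (nat_lit 62) (nat_lit 5) (nat_lit 63) (nat_lit 5) (nat_lit 471) (nat_lit 445) (nat_lit 284))))) (XT.nd (nat_lit 234) (nat_lit 608) (nat_lit 0) (XT.nd (nat_lit 78) (nat_lit 228) (nat_lit 0) (XT.lf (nat_lit 0) (nat_lit 66255157059) (nat_lit 152) (nat_lit 51835982475) (nat_lit 228) (nat_lit 318327537230) (nat_lit 57) (nat_lit 5) (nat_lit 59) (nat_lit 5) (nat_lit 60) (nat_lit 5) (nat_lit 472) (nat_lit 445) (nat_lit 283)) (XT.nd (nat_lit 78) (nat_lit 76) (nat_lit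 0) (XT.lf (nat_lit 0) (nat_lit 28793280352) (nat_lit 152) (nat_lit 266599034108) (nat_lit 228) (nat_lit 163610177479) (nat_lit 55) (nat_lit 5) (nat_lit 57) (nat_lit 5) (nat_lit 58) (nat_lit 5) (nat_lit 473) (nat_lit 445) (nat_lit 282)) (XT.lf (nat_lit 0) (nat_lit 10800664422) (nat_lit 228) (nat_lit 11219971244) (nat_lit 76) (nat_lit 460998275417) (nat_lit 54) (nat_lit 5) (nat_lit 57) (nat_lit 5) (nat_lit 55) (nat_lit 5) (nat_lit 474) (nat_lit 445) (nat_lit 281)))) (XT.nd (nat_lit 156) (nat_lit 304) (nat_lit 0) (XT.nd (nat_lit 78) (nat_lit 152) (nat_lit 0) (XT.lf (nat_lit 0) (nat_lit 204523236014) (nat_lit 228) (nat_lit 59377292359) (nat_lit 76) (nat_lit 244367460402) (nat_lit 52) (nat_lit 5) (nat_lit 55) (nat_lit 5) (nat_lit 53) (nat_lit 5) (nat_lit 475) (nat_lit 445) (nat_lit 280)) (XT.lf (nat_lit 0) (nat_lit 420977297012) (nat_lit 228) (nat_lit 111347984789) (nat_lit 76) (nat_lit 2850026715)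 (nat_lit 50) (nat_lit 5) (nat_lit 53) (nat_lit 5) (nat_lit 51) (nat_lit 4) (nat_lit 476) (nat_lit 445) (nat_lit 279))) (XT.nd (nat_lit 78) (nat_lit 152) (nat_lit 0) (XT.lf (nat_lit 0) (nat_lit 99422384693) (nat_lit 152) (nat_lit 173563161236) (nat_lit 76) (nat_lit 290588666264) (nat_lit 48) (nat_lit 5) (nat_lit 50) (nat_lit 5) (nat_lit 49) (nat_lit 5) (nat_lit 477) (nat_lit 445) (nat_lit 278)) (XT.lf (nat_lit 0) (nat_lit 333894107755) (nat_lit 228) (nat_lit 243471209507) (nat_lit 76) (nat_lit 16397974128) (nat_lit 46) (nat_lit 5) (nat_lit 49) (nat_lit 5) (nat_lit 47) (nat_lit 4) (nat_lit 478) (nat_lit 445) (nat_lit 277)))))) (XT.nd (nat_lit 546) (nat_lit 608) (nat_lit 0) (XT.nd (nat_lit 234) (nat_lit 456) (nat_lit 0) (XT.nd (nat_lit 78) (nat_lit 304) (nat_lit 0) (XT.lf (nat_lit 0) (nat_lit 301018982334) (nat_lit 76) (nat_lit 298480178380) (nat_lit 152) (nat_lit 26249556619) (nat_lit 45) (nat_lit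 5) (nat_lit 46) (nat_lit 5) (nat_lit 47) (nat_lit 4) (nat_lit 479) (nat_lit 445) (nat_lit 276)) (XT.nd (nat_lit 78) (nat_lit 76) (nat_lit 0) (XT.lf (nat_lit 0) (nat_lit 227143191880) (nat_lit 228) (nat_lit 418122600936) (nat_lit 76) (nat_lit 14434769741) (nat_lit 42) (nat_lit 5) (nat_lit 45) (nat_lit 5) (nat_lit 43) (nat_lit 4) (nat_lit 480) (nat_lit 445) (nat_lit 275)) (XT.lf (nat_lit 0) (nat_lit 168525961028) (nat_lit 76) (nat_lit 344787327486) (nat_lit 152) (nat_lit 182362471626) (nat_lit 41) (nat_lit 5) (nat_lit 42) (nat_lit 5) (nat_lit 43) (nat_lit 4) (nat_lit 481) (nat_lit 445) (nat_lit 274)))) (XT.nd (nat_lit 156) (nat_lit 228) (nat_lit 0) (XT.nd (nat_lit 78) (nat_lit 0) (nat_lit 0) (XT.lf (nat_lit 0) (nat_lit 84072322595) (nat_lit 152) (nat_lit 9679338813) (nat_lit 228) (nat_lit 640272968074) (nat_lit 38) (nat_lit 5) (nat_lit 40) (nat_lit 5) (nat_lit 41) (nat_lit 5) (nat_lit 482) (nat_lit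 445) (nat_lit 273)) (XT.lf (nat_lit 0) (nat_lit 400483703147) (nat_lit 228) (nat_lit 20690811585) (nat_lit 76) (nat_lit 353371522678) (nat_lit 38) (nat_lit 5) (nat_lit 41) (nat_lit 5) (nat_lit 39) (nat_lit 4) (nat_lit 483) (nat_lit 445) (nat_lit 272))) (XT.nd (nat_lit 78) (nat_lit 152) (nat_lit 0) (XT.lf (nat_lit 0) (nat_lit 680529410157) (nat_lit 76) (nat_lit 62012987947) (nat_lit 152) (nat_lit 75227355381) (nat_lit 37) (nat_lit 5) (nat_lit 38) (nat_lit 5) (nat_lit 39) (nat_lit 4) (nat_lit 484) (nat_lit 445) (nat_lit 271)) (XT.lf (nat_lit 0) (nat_lit 254464821642) (nat_lit 152) (nat_lit 279949593019) (nat_lit 76) (nat_lit 329100112150) (nat_lit 35) (nat_lit 5) (nat_lit 37) (nat_lit 5) (nat_lit 36) (nat_lit 4) (nat_lit 485) (nat_lit 445) (nat_lit 270))))) (XT.nd (nat_lit 234) (nat_lit 304) (nat_lit 0) (XT.nd (nat_lit 78) (nat_lit 228) (nat_lit 0) (XT.lf (nat_lit 0) (nat_lit 466720586992) (nat_lit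 76) (nat_lit 151973631747) (nat_lit 152) (nat_lit 293623129205) (nat_lit 34) (nat_lit 5) (nat_lit 35) (nat_lit 5) (nat_lit 36) (nat_lit 4) (nat_lit 486) (nat_lit 445) (nat_lit 269)) (XT.nd (nat_lit 78) (nat_lit 76) (nat_lit 0) (XT.lf (nat_lit 0) (nat_lit 59863032826) (nat_lit 152) (nat_lit 640711867691) (nat_lit 76) (nat_lit 263696227034) (nat_lit 32) (nat_lit 5) (nat_lit 34) (nat_lit 5) (nat_lit 33) (nat_lit 4) (nat_lit 487) (nat_lit 445) (nat_lit 268)) (XT.lf (nat_lit 0) (nat_lit 147238338951) (nat_lit 76) (nat_lit 296990681806) (nat_lit 152) (nat_lit 575267111225) (nat_lit 31) (nat_lit 5) (nat_lit 32) (nat_lit 5) (nat_lit 33) (nat_lit 4) (nat_lit 488) (nat_lit 445) (nat_lit 267)))) (XT.nd (nat_lit 156) (nat_lit 152) (nat_lit 0) (XT.nd (nat_lit 78) (nat_lit 152) (nat_lit 0) (XT.lf (nat_lit 0) (nat_lit 872856270140) (nat_lit 152) (nat_lit 59828347027) (nat_lit 0) (nat_lit 145778920485) (nat_lit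 31) (nat_lit 5) (nat_lit 33) (nat_lit 4) (nat_lit 31) (nat_lit 4) (nat_lit 489) (nat_lit 445) (nat_lit 266)) (XT.lf (nat_lit 0) (nat_lit 205839075787) (nat_lit 152) (nat_lit 305107300317) (nat_lit 76) (nat_lit 630130261302) (nat_lit 29) (nat_lit 5) (nat_lit 31) (nat_lit 5) (nat_lit 30) (nat_lit 4) (nat_lit 490) (nat_lit 445) (nat_lit 265))) (XT.nd (nat_lit 78) (nat_lit 76) (nat_lit 0) (XT.lf (nat_lit 0) (nat_lit 613058164492) (nat_lit 76) (nat_lit 40666529190) (nat_lit 152) (nat_lit 554269208702) (nat_lit 28) (nat_lit 5) (nat_lit 29) (nat_lit 5) (nat_lit 30) (nat_lit 4) (nat_lit 491) (nat_lit 445) (nat_lit 264)) (XT.lf (nat_lit 0) (nat_lit 339042704209) (nat_lit 76) (nat_lit 816388553379) (nat_lit 76) (nat_lit 123933786149) (nat_lit 27) (nat_lit 4) (nat_lit 28) (nat_lit 5) (nat_lit 28) (nat_lit 4) (nat_lit 492) (nat_lit 445) (nat_lit 263))))))))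
noncomputable def xc110 : XT := (XT.nd (nat_lit 60762) (nat_lit 0) (nat_lit 152) (XT.nd (nat_lit 59748) (nat_lit 0) (nat_lit 2964) (XT.nd (nat_lit 59202) (nat_lit 0) (nat_lit 6004) (XT.nd (nat_lit 58968) (nat_lit 0) (nat_lit 7676) (XT.nd (nat_lit 58812) (nat_lit 0) (nat_lit 7600) (XT.lf (nat_lit 0) (nat_lit 7107129925) (nat_lit 76) (nat_lit 334142596666) (nat_lit 152) (nat_lit 1014363590632) (nat_lit 25) (nat_lit 5) (nat_lit 26) (nat_lit 5) (nat_lit 27) (nat_lit 4) (nat_lit 493) (nat_lit 445) (nat_lit 262)) (XT.nd (nat_lit 78) (nat_lit 0) (nat_lit 76) (XT.lf (nat_lit 0) (nat_lit 23409256969) (nat_lit 836) (nat_lit 23322710735) (nat_lit 836) (nat_lit 23322710735) (nat_lit 125) (nat_lit 3) (nat_lit 136) (nat_lit 3) (nat_lit 136) (nat_lit 5) (nat_lit 446) (nat_lit 446) (nat_lit 308)) (XT.lf (nat_lit 0) (nat_lit 49958063170) (nat_lit 760) (nat_lit 80642114544) (nat_lit 836) (nat_lit 15050211012)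 (nat_lit 126) (nat_lit 5) (nat_lit 136) (nat_lit 5) (nat_lit 137) (nat_lit 5) (nat_lit 447) (nat_lit 446) (nat_lit 307)))) (XT.nd (nat_lit 78) (nat_lit 0) (nat_lit 76) (XT.lf (nat_lit 76) (nat_lit 35202996997) (nat_lit 0) (nat_lit 21096709711) (nat_lit 836) (nat_lit 95187450096) (nat_lit 127) (nat_lit 5) (nat_lit 126) (nat_lit 5) (nat_lit 137) (nat_lit 5) (nat_lit 448) (nat_lit 446) (nat_lit 306)) (XT.nd (nat_lit 78) (nat_lit 0) (nat_lit 76) (XT.lf (nat_lit 76) (nat_lit 4064480804) (nat_lit 0) (nat_lit 62091993816) (nat_lit 836) (nat_lit 91484002248) (nat_lit 128) (nat_lit 5) (nat_lit 127) (nat_lit 5) (nat_lit 138) (nat_lit 5) (nat_lit 449) (nat_lit 446) (nat_lit 305)) (XT.lf (nat_lit 0) (nat_lit 80092595712) (nat_lit 760) (nat_lit 27257293312) (nat_lit 836) (nat_lit 56771633097) (nat_lit 128) (nat_lit 5) (nat_lit 138) (nat_lit 5) (nat_lit 139) (nat_lit 5) (nat_lit 450) (nat_lit 446) (nat_lit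 304))))) (XT.nd (nat_lit 234) (nat_lit 1216) (nat_lit 0) (XT.nd (nat_lit 78) (nat_lit 684) (nat_lit 0) (XT.lf (nat_lit 0) (nat_lit 98148884279) (nat_lit 760) (nat_lit 59501832755) (nat_lit 836) (nat_lit 13320070228) (nat_lit 129) (nat_lit 5) (nat_lit 139) (nat_lit 5) (nat_lit 140) (nat_lit 5) (nat_lit 451) (nat_lit 446) (nat_lit 303)) (XT.nd (nat_lit 78) (nat_lit 684) (nat_lit 0) (XT.lf (nat_lit 76) (nat_lit 84818919062) (nat_lit 0) (nat_lit 36447337330) (nat_lit 836) (nat_lit 56920908346) (nat_lit 130) (nat_lit 5) (nat_lit 129) (nat_lit 5) (nat_lit 140) (nat_lit 5) (nat_lit 452) (nat_lit 446) (nat_lit 302)) (XT.lf (nat_lit 0) (nat_lit 57220531117) (nat_lit 760) (nat_lit 92433641099) (nat_lit 836) (nat_lit 36155622634) (nat_lit 120) (nat_lit 5) (nat_lit 130) (nat_lit 5) (nat_lit 131) (nat_lit 5) (nat_lit 453) (nat_lit 446) (nat_lit 301)))) (XT.nd (nat_lit 156) (nat_lit 760) (nat_lit 0) (XT.nd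 (nat_lit 78) (nat_lit 76) (nat_lit 0) (XT.lf (nat_lit 0) (nat_lit 28925779341) (nat_lit 380) (nat_lit 154694379677) (nat_lit 456) (nat_lit 10256724595) (nat_lit 115) (nat_lit 5) (nat_lit 120) (nat_lit 5) (nat_lit 121) (nat_lit 5) (nat_lit 454) (nat_lit 446) (nat_lit 300)) (XT.lf (nat_lit 0) (nat_lit 20982064184) (nat_lit 456) (nat_lit 715642969) (nat_lit 76) (nat_lit 180686057095) (nat_lit 114) (nat_lit 5) (nat_lit 120) (nat_lit 5) (nat_lit 115) (nat_lit 5) (nat_lit 455) (nat_lit 446) (nat_lit 299))) (XT.nd (nat_lit 78) (nat_lit 380) (nat_lit 0) (XT.lf (nat_lit 0) (nat_lit 59164959700) (nat_lit 456) (nat_lit 31052724737) (nat_lit 76) (nat_lit 121104886383) (nat_lit 109) (nat_lit 5) (nat_lit 115) (nat_lit 5) (nat_lit 110) (nat_lit 5) (nat_lit 456) (nat_lit 446) (nat_lit 298)) (XT.lf (nat_lit 0) (nat_lit 104149594303) (nat_lit 456) (nat_lit 62188043257) (nat_lit 76) (nat_lit 54451489082) (nat_lit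 104) (nat_lit 5) (nat_lit 110) (nat_lit 5) (nat_lit 105) (nat_lit 5) (nat_lit 457) (nat_lit 446) (nat_lit 297)))))) (XT.nd (nat_lit 468) (nat_lit 1368) (nat_lit 0) (XT.nd (nat_lit 234) (nat_lit 760) (nat_lit 0) (XT.nd (nat_lit 78) (nat_lit 608) (nat_lit 0) (XT.lf (nat_lit 0) (nat_lit 136384885419) (nat_lit 304) (nat_lit 20548220769) (nat_lit 380) (nat_lit 73869895502) (nat_lit 100) (nat_lit 5) (nat_lit 104) (nat_lit 5) (nat_lit 105) (nat_lit 5) (nat_lit 458) (nat_lit 446) (nat_lit 296)) (XT.nd (nat_lit 78) (nat_lit 304) (nat_lit 0) (XT.lf (nat_lit 0) (nat_lit 112960464358) (nat_lit 304) (nat_lit 105980708790) (nat_lit 380) (nat_lit 22426719970) (nat_lit 96) (nat_lit 5) (nat_lit 100) (nat_lit 5) (nat_lit 101) (nat_lit 5) (nat_lit 459) (nat_lit 446) (nat_lit 295)) (XT.lf (nat_lit 0) (nat_lit 36332552723) (nat_lit 304) (nat_lit 163844457274) (nat_lit 76) (nat_lit 52362048281) (nat_lit 92) (nat_lit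 5) (nat_lit 96) (nat_lit 5) (nat_lit 93) (nat_lit 5) (nat_lit 460) (nat_lit 446) (nat_lit 294)))) (XT.nd (nat_lit 78) (nat_lit 456) (nat_lit 0) (XT.lf (nat_lit 0) (nat_lit 63074746528) (nat_lit 304) (nat_lit 40987619557) (nat_lit 380) (nat_lit 160270391981) (nat_lit 88) (nat_lit 5) (nat_lit 92) (nat_lit 5) (nat_lit 93) (nat_lit 5) (nat_lit 461) (nat_lit 446) (nat_lit 293)) (XT.nd (nat_lit 78) (nat_lit 228) (nat_lit 0) (XT.lf (nat_lit 0) (nat_lit 36136288063) (nat_lit 228) (nat_lit 146583394353) (nat_lit 304) (nat_lit 94074815586) (nat_lit 85) (nat_lit 5) (nat_lit 88) (nat_lit 5) (nat_lit 89) (nat_lit 5) (nat_lit 462) (nat_lit 446) (nat_lit 292)) (XT.lf (nat_lit 0) (nat_lit 8809058107) (nat_lit 228) (nat_lit 263607344686) (nat_lit 304) (nat_lit 17599433461) (nat_lit 82) (nat_lit 5) (nat_lit 85) (nat_lit 5) (nat_lit 86) (nat_lit 5) (nat_lit 463) (nat_lit 446) (nat_lit 291))))) (XT.nd (nat_lit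 234) (nat_lit 836) (nat_lit 0) (XT.nd (nat_lit 78) (nat_lit 456) (nat_lit 0) (XT.lf (nat_lit 0) (nat_lit 69646066174) (nat_lit 304) (nat_lit 20813144707) (nat_lit 76) (nat_lit 213448318819) (nat_lit 81) (nat_lit 5) (nat_lit 85) (nat_lit 5) (nat_lit 82) (nat_lit 5) (nat_lit 464) (nat_lit 446) (nat_lit 290)) (XT.nd (nat_lit 78) (nat_lit 228) (nat_lit 0) (XT.lf (nat_lit 0) (nat_lit 169038983266) (nat_lit 304) (nat_lit 51551334026) (nat_lit 76) (nat_lit 98016596815) (nat_lit 78) (nat_lit 5) (nat_lit 82) (nat_lit 5) (nat_lit 79) (nat_lit 5) (nat_lit 465) (nat_lit 446) (nat_lit 289)) (XT.lf (nat_lit 0) (nat_lit 250726211431) (nat_lit 228) (nat_lit 31465289355) (nat_lit 304) (nat_lit 52000340171) (nat_lit 75) (nat_lit 5) (nat_lit 78) (nat_lit 5) (nat_lit 79) (nat_lit 5) (nat_lit 466) (nat_lit 446) (nat_lit 288)))) (XT.nd (nat_lit 156) (nat_lit 380) (nat_lit 0) (XT.nd (nat_lit 78) (nat_lit 228) (nat_lit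 0) (XT.lf (nat_lit 0) (nat_lit 59027886258) (nat_lit 228) (nat_lit 118827303810) (nat_lit 76) (nat_lit 172758532743) (nat_lit 72) (nat_lit 5) (nat_lit 75) (nat_lit 5) (nat_lit 73) (nat_lit 5) (nat_lit 467) (nat_lit 446) (nat_lit 287)) (XT.lf (nat_lit 0) (nat_lit 182930300509) (nat_lit 304) (nat_lit 156178772169) (nat_lit 76) (nat_lit 28906970925) (nat_lit 69) (nat_lit 5) (nat_lit 73) (nat_lit 5) (nat_lit 70) (nat_lit 5) (nat_lit 468) (nat_lit 446) (nat_lit 286))) (XT.nd (nat_lit 78) (nat_lit 228) (nat_lit 0) (XT.lf (nat_lit 0) (nat_lit 189524059220) (nat_lit 152) (nat_lit 135282487966) (nat_lit 228) (nat_lit 61600920941) (nat_lit 67) (nat_lit 5) (nat_lit 69) (nat_lit 5) (nat_lit 70) (nat_lit 5) (nat_lit 469) (nat_lit 446) (nat_lit 285)) (XT.lf (nat_lit 0) (nat_lit 76261243033) (nat_lit 228) (nat_lit 240887543091) (nat_lit 76) (nat_lit 88725629174) (nat_lit 64) (nat_lit 5) (nat_lit 67) (nat_lit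 5) (nat_lit 65) (nat_lit 5) (nat_lit 470) (nat_lit 446) (nat_lit 284))))))) (XT.nd (nat_lit 1014) (nat_lit 836) (nat_lit 0) (XT.nd (nat_lit 468) (nat_lit 1064) (nat_lit 0) (XT.nd (nat_lit 234) (nat_lit 380) (nat_lit 0) (XT.nd (nat_lit 78) (nat_lit 380) (nat_lit 0) (XT.lf (nat_lit 0) (nat_lit 137122695425) (nat_lit 152) (nat_lit 93807983471) (nat_lit 228) (nat_lit 195520722067) (nat_lit 62) (nat_lit 5) (nat_lit 64) (nat_lit 5) (nat_lit 65) (nat_lit 5) (nat_lit 471) (nat_lit 446) (nat_lit 283)) (XT.nd (nat_lit 78) (nat_lit 228) (nat_lit 0) (XT.lf (nat_lit 0) (nat_lit 106550983449) (nat_lit 152) (nat_lit 299652332015) (nat_lit 228) (nat_lit 42059747750) (nat_lit 60) (nat_lit 5) (nat_lit 62) (nat_lit 5) (nat_lit 63) (nat_lit 5) (nat_lit 472) (nat_lit 446) (nat_lit 282)) (XT.lf (nat_lit 0) (nat_lit 71560009332) (nat_lit 152) (nat_lit 55981059070) (nat_lit 228) (nat_lit 343790970193) (nat_lit 57)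 (nat_lit 5) (nat_lit 59) (nat_lit 5) (nat_lit 60) (nat_lit 5) (nat_lit 473) (nat_lit 446) (nat_lit 281)))) (XT.nd (nat_lit 78) (nat_lit 228) (nat_lit 0) (XT.lf (nat_lit 0) (nat_lit 31101089192) (nat_lit 152) (nat_lit 287925146655) (nat_lit 228) (nat_lit 176696328243) (nat_lit 55) (nat_lit 5) (nat_lit 57) (nat_lit 5) (nat_lit 58) (nat_lit 5) (nat_lit 474) (nat_lit 446) (nat_lit 280)) (XT.nd (nat_lit 78) (nat_lit 152) (nat_lit 0) (XT.lf (nat_lit 0) (nat_lit 11667104787) (nat_lit 228) (nat_lit 12113465210) (nat_lit 76) (nat_lit 497879734266) (nat_lit 54) (nat_lit 5) (nat_lit 57) (nat_lit 5) (nat_lit 55) (nat_lit 5) (nat_lit 475) (nat_lit 446) (nat_lit 279)) (XT.lf (nat_lit 0) (nat_lit 220887392381) (nat_lit 228) (nat_lit 64123462273) (nat_lit 76) (nat_lit 263918458029) (nat_lit 52) (nat_lit 5) (nat_lit 55) (nat_lit 5) (nat_lit 53) (nat_lit 5) (nat_lit 476) (nat_lit 446) (nat_lit 278))))) (XT.nd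 (nat_lit 234) (nat_lit 608) (nat_lit 0) (XT.nd (nat_lit 78) (nat_lit 304) (nat_lit 0) (XT.lf (nat_lit 0) (nat_lit 454657693803) (nat_lit 228) (nat_lit 120251900649) (nat_lit 76) (nat_lit 3079627798) (nat_lit 50) (nat_lit 5) (nat_lit 53) (nat_lit 5) (nat_lit 51) (nat_lit 4) (nat_lit 477) (nat_lit 446) (nat_lit 277)) (XT.nd (nat_lit 78) (nat_lit 152) (nat_lit 0) (XT.lf (nat_lit 0) (nat_lit 107378317974) (nat_lit 152) (nat_lit 187444390595) (nat_lit 76) (nat_lit 313837333213) (nat_lit 48) (nat_lit 5) (nat_lit 50) (nat_lit 5) (nat_lit 49) (nat_lit 5) (nat_lit 478) (nat_lit 446) (nat_lit 276)) (XT.lf (nat_lit 0) (nat_lit 360607702516) (nat_lit 228) (nat_lit 262945171844) (nat_lit 76) (nat_lit 17711376792) (nat_lit 46) (nat_lit 5) (nat_lit 49) (nat_lit 5) (nat_lit 47) (nat_lit 4) (nat_lit 479) (nat_lit 446) (nat_lit 275)))) (XT.nd (nat_lit 156) (nat_lit 304) (nat_lit 0) (XT.nd (nat_lit 78) (nat_lit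 228) (nat_lit 0) (XT.lf (nat_lit 0) (nat_lit 325104073051) (nat_lit 76) (nat_lit 322356989385) (nat_lit 152) (nat_lit 28347453616) (nat_lit 45) (nat_lit 5) (nat_lit 46) (nat_lit 5) (nat_lit 47) (nat_lit 4) (nat_lit 480) (nat_lit 446) (nat_lit 274)) (XT.lf (nat_lit 0) (nat_lit 245316579237) (nat_lit 228) (nat_lit 451568857607) (nat_lit 76) (nat_lit 15591073921) (nat_lit 42) (nat_lit 5) (nat_lit 45) (nat_lit 5) (nat_lit 43) (nat_lit 4) (nat_lit 481) (nat_lit 446) (nat_lit 273))) (XT.nd (nat_lit 78) (nat_lit 228) (nat_lit 0) (XT.lf (nat_lit 0) (nat_lit 182011434975) (nat_lit 76) (nat_lit 372368758552) (nat_lit 152) (nat_lit 196949535143) (nat_lit 41) (nat_lit 5) (nat_lit 42) (nat_lit 5) (nat_lit 43) (nat_lit 4) (nat_lit 482) (nat_lit 446) (nat_lit 272)) (XT.lf (nat_lit 0) (nat_lit 90801417219) (nat_lit 152) (nat_lit 10452162378) (nat_lit 228) (nat_lit 691492930819) (nat_lit 38) (nat_lit 5) (nat_lit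 40) (nat_lit 5) (nat_lit 41) (nat_lit 5) (nat_lit 483) (nat_lit 446) (nat_lit 271)))))) (XT.nd (nat_lit 546) (nat_lit 304) (nat_lit 0) (XT.nd (nat_lit 234) (nat_lit 304) (nat_lit 0) (XT.nd (nat_lit 78) (nat_lit 228) (nat_lit 0) (XT.lf (nat_lit 0) (nat_lit 432524074456) (nat_lit 228) (nat_lit 22342952017) (nat_lit 76) (nat_lit 381642610027) (nat_lit 38) (nat_lit 5) (nat_lit 41) (nat_lit 5) (nat_lit 39) (nat_lit 4) (nat_lit 484) (nat_lit 446) (nat_lit 270)) (XT.nd (nat_lit 78) (nat_lit 152) (nat_lit 0) (XT.lf (nat_lit 0) (nat_lit 734974751678) (nat_lit 76) (nat_lit 66972635917) (nat_lit 152) (nat_lit 81243866150) (nat_lit 37) (nat_lit 5) (nat_lit 38) (nat_lit 5) (nat_lit 39) (nat_lit 4) (nat_lit 485) (nat_lit 446) (nat_lit 269)) (XT.lf (nat_lit 0) (nat_lit 274823577736) (nat_lit 152) (nat_lit 302342593824) (nat_lit 76) (nat_lit 355429438755) (nat_lit 35) (nat_lit 5) (nat_lit 37) (nat_lit 5)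 (nat_lit 36) (nat_lit 4) (nat_lit 486) (nat_lit 446) (nat_lit 268)))) (XT.nd (nat_lit 156) (nat_lit 76) (nat_lit 0) (XT.nd (nat_lit 78) (nat_lit 152) (nat_lit 0) (XT.lf (nat_lit 0) (nat_lit 504061071661) (nat_lit 76) (nat_lit 164130182921) (nat_lit 152) (nat_lit 317111406166) (nat_lit 34) (nat_lit 5) (nat_lit 35) (nat_lit 5) (nat_lit 36) (nat_lit 4) (nat_lit 487) (nat_lit 446) (nat_lit 267)) (XT.lf (nat_lit 0) (nat_lit 64653549228) (nat_lit 152) (nat_lit 691966002123) (nat_lit 76) (nat_lit 284793192615) (nat_lit 32) (nat_lit 5) (nat_lit 34) (nat_lit 5) (nat_lit 33) (nat_lit 4) (nat_lit 488) (nat_lit 446) (nat_lit 266))) (XT.nd (nat_lit 78) (nat_lit 0) (nat_lit 0) (XT.lf (nat_lit 0) (nat_lit 159020098715) (nat_lit 76) (nat_lit 320748650350) (nat_lit 152) (nat_lit 621287003051) (nat_lit 31) (nat_lit 5) (nat_lit 32) (nat_lit 5) (nat_lit 33) (nat_lit 4) (nat_lit 489) (nat_lit 446) (nat_lit 265))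 (XT.lf (nat_lit 0) (nat_lit 942686092793) (nat_lit 152) (nat_lit 64612074980) (nat_lit 0) (nat_lit 157442386754) (nat_lit 31) (nat_lit 5) (nat_lit 33) (nat_lit 4) (nat_lit 31) (nat_lit 4) (nat_lit 490) (nat_lit 446) (nat_lit 264))))) (XT.nd (nat_lit 59046) (nat_lit 0) (nat_lit 7448) (XT.nd (nat_lit 78) (nat_lit 152) (nat_lit 0) (XT.lf (nat_lit 0) (nat_lit 222307483718) (nat_lit 152) (nat_lit 329513412450) (nat_lit 76) (nat_lit 680541808062) (nat_lit 29) (nat_lit 5) (nat_lit 31) (nat_lit 5) (nat_lit 30) (nat_lit 4) (nat_lit 491) (nat_lit 446) (nat_lit 263)) (XT.nd (nat_lit 78) (nat_lit 76) (nat_lit 0) (XT.lf (nat_lit 0) (nat_lit 662105182118) (nat_lit 76) (nat_lit 43918710890) (nat_lit 152) (nat_lit 598609460307) (nat_lit 28) (nat_lit 5) (nat_lit 29) (nat_lit 5) (nat_lit 30) (nat_lit 4) (nat_lit 492) (nat_lit 446) (nat_lit 262)) (XT.lf (nat_lit 0) (nat_lit 366168423819) (nat_lit 76) (nat_lit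 881698520002) (nat_lit 76) (nat_lit 133847244068) (nat_lit 27) (nat_lit 4) (nat_lit 28) (nat_lit 5) (nat_lit 28) (nat_lit 4) (nat_lit 493) (nat_lit 446) (nat_lit 261)))) (XT.nd (nat_lit 156) (nat_lit 0) (nat_lit 76) (XT.nd (nat_lit 78) (nat_lit 0) (nat_lit 76) (XT.lf (nat_lit 0) (nat_lit 25286996886) (nat_lit 836) (nat_lit 25185901957) (nat_lit 836) (nat_lit 25185901957) (nat_lit 125) (nat_lit 3) (nat_lit 136) (nat_lit 3) (nat_lit 136) (nat_lit 5) (nat_lit 447) (nat_lit 447) (nat_lit 306)) (XT.lf (nat_lit 0) (nat_lit 53963977375) (nat_lit 760) (nat_lit 87087922878) (nat_lit 836) (nat_lit 16250052512) (nat_lit 126) (nat_lit 5) (nat_lit 136) (nat_lit 5) (nat_lit 137) (nat_lit 5) (nat_lit 448) (nat_lit 447) (nat_lit 305))) (XT.nd (nat_lit 78) (nat_lit 0) (nat_lit 76) (XT.lf (nat_lit 76) (nat_lit 38024555920) (nat_lit 0) (nat_lit 22787792920) (nat_lit 836) (nat_lit 102793343894) (nat_lit 127)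 (nat_lit 5) (nat_lit 126) (nat_lit 5) (nat_lit 137) (nat_lit 5) (nat_lit 449) (nat_lit 447) (nat_lit 304)) (XT.lf (nat_lit 76) (nat_lit 4395194884) (nat_lit 0) (nat_lit 67061859766) (nat_lit 836) (nat_lit 98794254176) (nat_lit 128) (nat_lit 5) (nat_lit 127) (nat_lit 5) (nat_lit 138) (nat_lit 5) (nat_lit 450) (nat_lit 447) (nat_lit 303))))))))
noncomputable def xc111 : XT := (XT.nd (nat_lit 2106) (nat_lit 1824) (nat_lit 0) (XT.nd (nat_lit 1014) (nat_lit 2508) (nat_lit 0) (XT.nd (nat_lit 468) (nat_lit 2204) (nat_lit 0) (XT.nd (nat_lit 234) (nat_lit 1064) (nat_lit 0) (XT.nd (nat_lit 78) (nat_lit 0) (nat_lit 76) (XT.lf (nat_lit 0) (nat_lit 86507432006) (nat_lit 760) (nat_lit 29432320351) (nat_lit 836) (nat_lit 61311117242) (nat_lit 128) (nat_lit 5) (nat_lit 138) (nat_lit 5) (nat_lit 139) (nat_lit 5) (nat_lit 451) (nat_lit 447) (nat_lit 302)) (XT.nd (nat_lit 78) (nat_lit 0) (nat_lit 0) (XT.lf (nat_lit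 0) (nat_lit 106007730665) (nat_lit 760) (nat_lit 64256288006) (nat_lit 836) (nat_lit 14384082142) (nat_lit 129) (nat_lit 5) (nat_lit 139) (nat_lit 5) (nat_lit 140) (nat_lit 5) (nat_lit 452) (nat_lit 447) (nat_lit 301)) (XT.lf (nat_lit 76) (nat_lit 91609876617) (nat_lit 0) (nat_lit 39364187176) (nat_lit 836) (nat_lit 61467746328) (nat_lit 130) (nat_lit 5) (nat_lit 129) (nat_lit 5) (nat_lit 140) (nat_lit 5) (nat_lit 453) (nat_lit 447) (nat_lit 300)))) (XT.nd (nat_lit 78) (nat_lit 456) (nat_lit 0) (XT.lf (nat_lit 0) (nat_lit 61803710469) (nat_lit 760) (nat_lit 99828891503) (nat_lit 836) (nat_lit 39041669397) (nat_lit 120) (nat_lit 5) (nat_lit 130) (nat_lit 5) (nat_lit 131) (nat_lit 5) (nat_lit 454) (nat_lit 447) (nat_lit 299)) (XT.nd (nat_lit 78) (nat_lit 76) (nat_lit 0) (XT.lf (nat_lit 0) (nat_lit 31245440000) (nat_lit 380) (nat_lit 167070055487) (nat_lit 456) (nat_lit 11071250526) (nat_lit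 115) (nat_lit 5) (nat_lit 120) (nat_lit 5) (nat_lit 121) (nat_lit 5) (nat_lit 455) (nat_lit 447) (nat_lit 298)) (XT.lf (nat_lit 0) (nat_lit 22666017850) (nat_lit 456) (nat_lit 767530762) (nat_lit 76) (nat_lit 195140645496) (nat_lit 114) (nat_lit 5) (nat_lit 120) (nat_lit 5) (nat_lit 115) (nat_lit 5) (nat_lit 456) (nat_lit 447) (nat_lit 297))))) (XT.nd (nat_lit 234) (nat_lit 1140) (nat_lit 0) (XT.nd (nat_lit 78) (nat_lit 684) (nat_lit 0) (XT.lf (nat_lit 0) (nat_lit 63903226912) (nat_lit 456) (nat_lit 33531557933) (nat_lit 76) (nat_lit 130793336403) (nat_lit 109) (nat_lit 5) (nat_lit 115) (nat_lit 5) (nat_lit 110) (nat_lit 5) (nat_lit 457) (nat_lit 447) (nat_lit 296)) (XT.nd (nat_lit 78) (nat_lit 304) (nat_lit 0) (XT.lf (nat_lit 0) (nat_lit 112486342976) (nat_lit 456) (nat_lit 67157701460) (nat_lit 76) (nat_lit 58807971692) (nat_lit 104) (nat_lit 5) (nat_lit 110) (nat_lit 5) (nat_lit 105) (nat_lit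 5) (nat_lit 458) (nat_lit 447) (nat_lit 295)) (XT.lf (nat_lit 0) (nat_lit 147300827473) (nat_lit 304) (nat_lit 22191434606) (nat_lit 380) (nat_lit 79774752905) (nat_lit 100) (nat_lit 5) (nat_lit 104) (nat_lit 5) (nat_lit 105) (nat_lit 5) (nat_lit 459) (nat_lit 447) (nat_lit 294)))) (XT.nd (nat_lit 156) (nat_lit 532) (nat_lit 0) (XT.nd (nat_lit 78) (nat_lit 304) (nat_lit 0) (XT.lf (nat_lit 0) (nat_lit 122002436229) (nat_lit 304) (nat_lit 114458293761) (nat_lit 380) (nat_lit 24216380066) (nat_lit 96) (nat_lit 5) (nat_lit 100) (nat_lit 5) (nat_lit 101) (nat_lit 5) (nat_lit 460) (nat_lit 447) (nat_lit 293)) (XT.lf (nat_lit 0) (nat_lit 39243263881) (nat_lit 304) (nat_lit 176946773116) (nat_lit 76) (nat_lit 56551939394) (nat_lit 92) (nat_lit 5) (nat_lit 96) (nat_lit 5) (nat_lit 93) (nat_lit 5) (nat_lit 461) (nat_lit 447) (nat_lit 292))) (XT.nd (nat_lit 78) (nat_lit 228) (nat_lit 0) (XT.lf (nat_lit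 0) (nat_lit 68125739234) (nat_lit 304) (nat_lit 44265497127) (nat_lit 380) (nat_lit 173087947188) (nat_lit 88) (nat_lit 5) (nat_lit 92) (nat_lit 5) (nat_lit 93) (nat_lit 5) (nat_lit 462) (nat_lit 447) (nat_lit 291)) (XT.lf (nat_lit 0) (nat_lit 39032156008) (nat_lit 228) (nat_lit 158308788390) (nat_lit 304) (nat_lit 101596928045) (nat_lit 85) (nat_lit 5) (nat_lit 88) (nat_lit 5) (nat_lit 89) (nat_lit 5) (nat_lit 463) (nat_lit 447) (nat_lit 290)))))) (XT.nd (nat_lit 546) (nat_lit 1140) (nat_lit 0) (XT.nd (nat_lit 234) (nat_lit 836) (nat_lit 0) (XT.nd (nat_lit 78) (nat_lit 304) (nat_lit 0) (XT.lf (nat_lit 0) (nat_lit 9518690150) (nat_lit 228) (nat_lit 284694534202) (nat_lit 304) (nat_lit 19003702381) (nat_lit 82) (nat_lit 5) (nat_lit 85) (nat_lit 5) (nat_lit 86) (nat_lit 5) (nat_lit 464) (nat_lit 447) (nat_lit 289)) (XT.nd (nat_lit 78) (nat_lit 228) (nat_lit 0) (XT.lf (nat_lit 0) (nat_lit 75221054976)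 (nat_lit 304) (nat_lit 22473542329) (nat_lit 76) (nat_lit 230525368754) (nat_lit 81) (nat_lit 5) (nat_lit 85) (nat_lit 5) (nat_lit 82) (nat_lit 5) (nat_lit 465) (nat_lit 447) (nat_lit 288)) (XT.lf (nat_lit 0) (nat_lit 182565250897) (nat_lit 304) (nat_lit 55670852517) (nat_lit 76) (nat_lit 105859205595) (nat_lit 78) (nat_lit 5) (nat_lit 82) (nat_lit 5) (nat_lit 79) (nat_lit 5) (nat_lit 466) (nat_lit 447) (nat_lit 287)))) (XT.nd (nat_lit 156) (nat_lit 380) (nat_lit 0) (XT.nd (nat_lit 78) (nat_lit 228) (nat_lit 0) (XT.lf (nat_lit 0) (nat_lit 270788697178) (nat_lit 228) (nat_lit 33981107905) (nat_lit 304) (nat_lit 56157233218) (nat_lit 75) (nat_lit 5) (nat_lit 78) (nat_lit 5) (nat_lit 79) (nat_lit 5) (nat_lit 467) (nat_lit 447) (nat_lit 286)) (XT.lf (nat_lit 0) (nat_lit 63753015482) (nat_lit 228) (nat_lit 128329071108) (nat_lit 76) (nat_lit 186580588494) (nat_lit 72) (nat_lit 5) (nat_lit 75) (nat_lit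 5) (nat_lit 73) (nat_lit 5) (nat_lit 468) (nat_lit 447) (nat_lit 285))) (XT.nd (nat_lit 78) (nat_lit 152) (nat_lit 0) (XT.lf (nat_lit 0) (nat_lit 197567497184) (nat_lit 304) (nat_lit 168668733861) (nat_lit 76) (nat_lit 31220956826) (nat_lit 69) (nat_lit 5) (nat_lit 73) (nat_lit 5) (nat_lit 70) (nat_lit 5) (nat_lit 469) (nat_lit 447) (nat_lit 284)) (XT.lf (nat_lit 0) (nat_lit 204690135424) (nat_lit 152) (nat_lit 146103567606) (nat_lit 228) (nat_lit 66526230398) (nat_lit 67) (nat_lit 5) (nat_lit 69) (nat_lit 5) (nat_lit 70) (nat_lit 5) (nat_lit 470) (nat_lit 447) (nat_lit 283))))) (XT.nd (nat_lit 234) (nat_lit 608) (nat_lit 0) (XT.nd (nat_lit 78) (nat_lit 304) (nat_lit 0) (XT.lf (nat_lit 0) (nat_lit 82364707005) (nat_lit 228) (nat_lit 260154386499) (nat_lit 76) (nat_lit 95825146312) (nat_lit 64) (nat_lit 5) (nat_lit 67) (nat_lit 5) (nat_lit 65) (nat_lit 5) (nat_lit 471) (nat_lit 447) (nat_lit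 282)) (XT.nd (nat_lit 78) (nat_lit 152) (nat_lit 0) (XT.lf (nat_lit 0) (nat_lit 148096490308) (nat_lit 152) (nat_lit 101311079591) (nat_lit 228) (nat_lit 211159820861) (nat_lit 62) (nat_lit 5) (nat_lit 64) (nat_lit 5) (nat_lit 65) (nat_lit 5) (nat_lit 472) (nat_lit 447) (nat_lit 281)) (XT.lf (nat_lit 0) (nat_lit 115078962370) (nat_lit 152) (nat_lit 323622957720) (nat_lit 228) (nat_lit 45422070800) (nat_lit 60) (nat_lit 5) (nat_lit 62) (nat_lit 5) (nat_lit 63) (nat_lit 5) (nat_lit 473) (nat_lit 447) (nat_lit 280)))) (XT.nd (nat_lit 156) (nat_lit 228) (nat_lit 0) (XT.nd (nat_lit 78) (nat_lit 152) (nat_lit 0) (XT.lf (nat_lit 0) (nat_lit 77288616413) (nat_lit 152) (nat_lit 60457998869) (nat_lit 228) (nat_lit 371291872967) (nat_lit 57) (nat_lit 5) (nat_lit 59) (nat_lit 5) (nat_lit 60) (nat_lit 5) (nat_lit 474) (nat_lit 447) (nat_lit 279)) (XT.lf (nat_lit 0) (nat_lit 33592902674) (nat_lit 152) (nat_lit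 310957606448) (nat_lit 228) (nat_lit 190829751038) (nat_lit 55) (nat_lit 5) (nat_lit 57) (nat_lit 5) (nat_lit 58) (nat_lit 5) (nat_lit 475) (nat_lit 447) (nat_lit 278))) (XT.nd (nat_lit 78) (nat_lit 152) (nat_lit 0) (XT.lf (nat_lit 0) (nat_lit 12602519818) (nat_lit 228) (nat_lit 13079024137) (nat_lit 76) (nat_lit 537711482020) (nat_lit 54) (nat_lit 5) (nat_lit 57) (nat_lit 5) (nat_lit 55) (nat_lit 5) (nat_lit 476) (nat_lit 447) (nat_lit 277)) (XT.lf (nat_lit 0) (nat_lit 238560353496) (nat_lit 228) (nat_lit 69249898347) (nat_lit 76) (nat_lit 285033307094) (nat_lit 52) (nat_lit 5) (nat_lit 55) (nat_lit 5) (nat_lit 53) (nat_lit 5) (nat_lit 477) (nat_lit 447) (nat_lit 276))))))) (XT.nd (nat_lit 1014) (nat_lit 228) (nat_lit 0) (XT.nd (nat_lit 468) (nat_lit 760) (nat_lit 0) (XT.nd (nat_lit 234) (nat_lit 380) (nat_lit 0) (XT.nd (nat_lit 78) (nat_lit 304) (nat_lit 0) (XT.lf (nat_lit 0) (nat_lit 491032206624)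 (nat_lit 228) (nat_lit 129868689427) (nat_lit 76) (nat_lit 3327368860) (nat_lit 50) (nat_lit 5) (nat_lit 53) (nat_lit 5) (nat_lit 51) (nat_lit 4) (nat_lit 478) (nat_lit 447) (nat_lit 275)) (XT.nd (nat_lit 78) (nat_lit 152) (nat_lit 0) (XT.lf (nat_lit 0) (nat_lit 115970420265) (nat_lit 152) (nat_lit 202436663773) (nat_lit 76) (nat_lit 338945669019) (nat_lit 48) (nat_lit 5) (nat_lit 50) (nat_lit 5) (nat_lit 49) (nat_lit 5) (nat_lit 479) (nat_lit 447) (nat_lit 274)) (XT.lf (nat_lit 0) (nat_lit 389458090101) (nat_lit 228) (nat_lit 283977583925) (nat_lit 76) (nat_lit 19129628442) (nat_lit 46) (nat_lit 5) (nat_lit 49) (nat_lit 5) (nat_lit 47) (nat_lit 4) (nat_lit 480) (nat_lit 447) (nat_lit 273)))) (XT.nd (nat_lit 78) (nat_lit 304) (nat_lit 0) (XT.lf (nat_lit 0) (nat_lit 351115461421) (nat_lit 76) (nat_lit 348144173994) (nat_lit 152) (nat_lit 30613477330) (nat_lit 45) (nat_lit 5) (nat_lit 46) (nat_lit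 5) (nat_lit 47) (nat_lit 4) (nat_lit 481) (nat_lit 447) (nat_lit 272)) (XT.nd (nat_lit 78) (nat_lit 76) (nat_lit 0) (XT.lf (nat_lit 0) (nat_lit 264943561960) (nat_lit 228) (nat_lit 487691321458) (nat_lit 76) (nat_lit 16839665219) (nat_lit 42) (nat_lit 5) (nat_lit 45) (nat_lit 5) (nat_lit 43) (nat_lit 4) (nat_lit 482) (nat_lit 447) (nat_lit 271)) (XT.lf (nat_lit 0) (nat_lit 196575262209) (nat_lit 76) (nat_lit 402156925961) (nat_lit 152) (nat_lit 212703839680) (nat_lit 41) (nat_lit 5) (nat_lit 42) (nat_lit 5) (nat_lit 43) (nat_lit 4) (nat_lit 483) (nat_lit 447) (nat_lit 270))))) (XT.nd (nat_lit 234) (nat_lit 456) (nat_lit 0) (XT.nd (nat_lit 78) (nat_lit 76) (nat_lit 0) (XT.lf (nat_lit 0) (nat_lit 98068367373) (nat_lit 152) (nat_lit 11287029179) (nat_lit 228) (nat_lit 746810758031) (nat_lit 38) (nat_lit 5) (nat_lit 40) (nat_lit 5) (nat_lit 41) (nat_lit 5) (nat_lit 484) (nat_lit 447) (nat_lit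 269)) (XT.nd (nat_lit 78) (nat_lit 76) (nat_lit 0) (XT.lf (nat_lit 0) (nat_lit 467127436505) (nat_lit 228) (nat_lit 24127709428) (nat_lit 76) (nat_lit 412175189555) (nat_lit 38) (nat_lit 5) (nat_lit 41) (nat_lit 5) (nat_lit 39) (nat_lit 4) (nat_lit 485) (nat_lit 447) (nat_lit 268)) (XT.lf (nat_lit 0) (nat_lit 793775294148) (nat_lit 76) (nat_lit 72329254175) (nat_lit 152) (nat_lit 87741937117) (nat_lit 37) (nat_lit 5) (nat_lit 38) (nat_lit 5) (nat_lit 39) (nat_lit 4) (nat_lit 486) (nat_lit 447) (nat_lit 267)))) (XT.nd (nat_lit 156) (nat_lit 228) (nat_lit 0) (XT.nd (nat_lit 78) (nat_lit 76) (nat_lit 0) (XT.lf (nat_lit 0) (nat_lit 296810810289) (nat_lit 152) (nat_lit 326527457918) (nat_lit 76) (nat_lit 383864923514) (nat_lit 35) (nat_lit 5) (nat_lit 37) (nat_lit 5) (nat_lit 36) (nat_lit 4) (nat_lit 487) (nat_lit 447) (nat_lit 266)) (XT.lf (nat_lit 0) (nat_lit 544388390273) (nat_lit 76) (nat_lit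 177259449265) (nat_lit 152) (nat_lit 342478969745) (nat_lit 34) (nat_lit 5) (nat_lit 35) (nat_lit 5) (nat_lit 36) (nat_lit 4) (nat_lit 488) (nat_lit 447) (nat_lit 265))) (XT.nd (nat_lit 78) (nat_lit 76) (nat_lit 0) (XT.lf (nat_lit 0) (nat_lit 69827096692) (nat_lit 152) (nat_lit 747320868898) (nat_lit 76) (nat_lit 307577734632) (nat_lit 32) (nat_lit 5) (nat_lit 34) (nat_lit 5) (nat_lit 33) (nat_lit 4) (nat_lit 489) (nat_lit 447) (nat_lit 264)) (XT.lf (nat_lit 0) (nat_lit 171744015123) (nat_lit 76) (nat_lit 346407439841) (nat_lit 152) (nat_lit 670988696944) (nat_lit 31) (nat_lit 5) (nat_lit 32) (nat_lit 5) (nat_lit 33) (nat_lit 4) (nat_lit 490) (nat_lit 447) (nat_lit 263)))))) (XT.nd (nat_lit 59436) (nat_lit 0) (nat_lit 6156) (XT.nd (nat_lit 59124) (nat_lit 0) (nat_lit 7372) (XT.nd (nat_lit 78) (nat_lit 228) (nat_lit 0) (XT.lf (nat_lit 0) (nat_lit 1018102112797) (nat_lit 152) (nat_lit 69778863502)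 (nat_lit 0) (nat_lit 170038765889) (nat_lit 31) (nat_lit 5) (nat_lit 33) (nat_lit 4) (nat_lit 31) (nat_lit 4) (nat_lit 491) (nat_lit 447) (nat_lit 262)) (XT.nd (nat_lit 78) (nat_lit 76) (nat_lit 0) (XT.lf (nat_lit 0) (nat_lit 240093181410) (nat_lit 152) (nat_lit 355872366197) (nat_lit 76) (nat_lit 734986117946) (nat_lit 29) (nat_lit 5) (nat_lit 31) (nat_lit 5) (nat_lit 30) (nat_lit 4) (nat_lit 492) (nat_lit 447) (nat_lit 261)) (XT.lf (nat_lit 0) (nat_lit 715075623836) (nat_lit 76) (nat_lit 47431229849) (nat_lit 152) (nat_lit 646497115372) (nat_lit 28) (nat_lit 5) (nat_lit 29) (nat_lit 5) (nat_lit 30) (nat_lit 4) (nat_lit 493) (nat_lit 447) (nat_lit 260)))) (XT.nd (nat_lit 156) (nat_lit 0) (nat_lit 76) (XT.nd (nat_lit 78) (nat_lit 0) (nat_lit 76) (XT.lf (nat_lit 0) (nat_lit 27314242782) (nat_lit 836) (nat_lit 27198523054) (nat_lit 836) (nat_lit 27198523054) (nat_lit 125) (nat_lit 3) (nat_lit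 136) (nat_lit 3) (nat_lit 136) (nat_lit 5) (nat_lit 448) (nat_lit 448) (nat_lit 304)) (XT.lf (nat_lit 0) (nat_lit 58289042369) (nat_lit 760) (nat_lit 94050189193) (nat_lit 836) (nat_lit 17546476997) (nat_lit 126) (nat_lit 5) (nat_lit 136) (nat_lit 5) (nat_lit 137) (nat_lit 5) (nat_lit 449) (nat_lit 448) (nat_lit 303))) (XT.nd (nat_lit 78) (nat_lit 0) (nat_lit 76) (XT.lf (nat_lit 76) (nat_lit 41071080718) (nat_lit 0) (nat_lit 24613685379) (nat_lit 836) (nat_lit 111009007728) (nat_lit 127) (nat_lit 5) (nat_lit 126) (nat_lit 5) (nat_lit 137) (nat_lit 5) (nat_lit 450) (nat_lit 448) (nat_lit 302)) (XT.lf (nat_lit 76) (nat_lit 4751573520) (nat_lit 0) (nat_lit 72428957420) (nat_lit 836) (nat_lit 106690534349) (nat_lit 128) (nat_lit 5) (nat_lit 127) (nat_lit 5) (nat_lit 138) (nat_lit 5) (nat_lit 451) (nat_lit 448) (nat_lit 301))))) (XT.nd (nat_lit 234) (nat_lit 1444) (nat_lit 0) (XT.nd (nat_lit 78)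 (nat_lit 0) (nat_lit 76) (XT.lf (nat_lit 0) (nat_lit 93434395425) (nat_lit 760) (nat_lit 31782142240) (nat_lit 836) (nat_lit 66214080607) (nat_lit 128) (nat_lit 5) (nat_lit 138) (nat_lit 5) (nat_lit 139) (nat_lit 5) (nat_lit 452) (nat_lit 448) (nat_lit 300)) (XT.nd (nat_lit 78) (nat_lit 0) (nat_lit 0) (XT.lf (nat_lit 0) (nat_lit 114494295315) (nat_lit 760) (nat_lit 69391911614) (nat_lit 836) (nat_lit 15533442369) (nat_lit 129) (nat_lit 5) (nat_lit 139) (nat_lit 5) (nat_lit 140) (nat_lit 5) (nat_lit 453) (nat_lit 448) (nat_lit 299)) (XT.lf (nat_lit 76) (nat_lit 98943334124) (nat_lit 0) (nat_lit 42514233381) (nat_lit 836) (nat_lit 66379306394) (nat_lit 130) (nat_lit 5) (nat_lit 129) (nat_lit 5) (nat_lit 140) (nat_lit 5) (nat_lit 454) (nat_lit 448) (nat_lit 298)))) (XT.nd (nat_lit 156) (nat_lit 456) (nat_lit 0) (XT.nd (nat_lit 78) (nat_lit 380) (nat_lit 0) (XT.lf (nat_lit 0) (nat_lit 66752754274)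 (nat_lit 760) (nat_lit 107815682175) (nat_lit 836) (nat_lit 42159513368) (nat_lit 120) (nat_lit 5) (nat_lit 130) (nat_lit 5) (nat_lit 131) (nat_lit 5) (nat_lit 455) (nat_lit 448) (nat_lit 297)) (XT.lf (nat_lit 0) (nat_lit 33749874849) (nat_lit 380) (nat_lit 180435767467) (nat_lit 456) (nat_lit 11951796216) (nat_lit 115) (nat_lit 5) (nat_lit 120) (nat_lit 5) (nat_lit 121) (nat_lit 5) (nat_lit 456) (nat_lit 448) (nat_lit 296))) (XT.nd (nat_lit 78) (nat_lit 380) (nat_lit 0) (XT.lf (nat_lit 0) (nat_lit 24483919075) (nat_lit 456) (nat_lit 824334763) (nat_lit 76) (nat_lit 210751643220) (nat_lit 114) (nat_lit 5) (nat_lit 120) (nat_lit 5) (nat_lit 115) (nat_lit 5) (nat_lit 457) (nat_lit 448) (nat_lit 295)) (XT.lf (nat_lit 0) (nat_lit 69019832147) (nat_lit 456) (nat_lit 36209465984) (nat_lit 76) (nat_lit 141256853992) (nat_lit 109) (nat_lit 5) (nat_lit 115) (nat_lit 5) (nat_lit 110) (nat_lit 5) (nat_lit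 458) (nat_lit 448) (nat_lit 294))))))))
noncomputable def xc112 : XT := (XT.nd (nat_lit 2028) (nat_lit 912) (nat_lit 0) (XT.nd (nat_lit 1014) (nat_lit 1976) (nat_lit 0) (XT.nd (nat_lit 468) (nat_lit 1368) (nat_lit 0) (XT.nd (nat_lit 234) (nat_lit 836) (nat_lit 0) (XT.nd (nat_lit 78) (nat_lit 608) (nat_lit 0) (XT.lf (nat_lit 0) (nat_lit 121489349461) (nat_lit 456) (nat_lit 72525700587) (nat_lit 76) (nat_lit 63512921055) (nat_lit 104) (nat_lit 5) (nat_lit 110) (nat_lit 5) (nat_lit 105) (nat_lit 5) (nat_lit 459) (nat_lit 448) (nat_lit 293)) (XT.nd (nat_lit 78) (nat_lit 304) (nat_lit 0) (XT.lf (nat_lit 0) (nat_lit 159089310013) (nat_lit 304) (nat_lit 23966197399) (nat_lit 380) (nat_lit 86152674292) (nat_lit 100) (nat_lit 5) (nat_lit 104) (nat_lit 5) (nat_lit 105) (nat_lit 5) (nat_lit 460) (nat_lit 448) (nat_lit 292)) (XT.lf (nat_lit 0) (nat_lit 131767033324) (nat_lit 304) (nat_lit 123614209891)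 (nat_lit 380) (nat_lit 26149851736) (nat_lit 96) (nat_lit 5) (nat_lit 100) (nat_lit 5) (nat_lit 101) (nat_lit 5) (nat_lit 461) (nat_lit 448) (nat_lit 291)))) (XT.nd (nat_lit 78) (nat_lit 532) (nat_lit 0) (XT.lf (nat_lit 0) (nat_lit 42386246032) (nat_lit 304) (nat_lit 191098021876) (nat_lit 76) (nat_lit 61076889514) (nat_lit 92) (nat_lit 5) (nat_lit 96) (nat_lit 5) (nat_lit 93) (nat_lit 5) (nat_lit 462) (nat_lit 448) (nat_lit 290)) (XT.nd (nat_lit 78) (nat_lit 228) (nat_lit 0) (XT.lf (nat_lit 0) (nat_lit 73580096198) (nat_lit 304) (nat_lit 47805766395) (nat_lit 380) (nat_lit 186931488320) (nat_lit 88) (nat_lit 5) (nat_lit 92) (nat_lit 5) (nat_lit 93) (nat_lit 5) (nat_lit 463) (nat_lit 448) (nat_lit 289)) (XT.lf (nat_lit 0) (nat_lit 42158985090) (nat_lit 228) (nat_lit 170972396202) (nat_lit 304) (nat_lit 109721361996) (nat_lit 85) (nat_lit 5) (nat_lit 88) (nat_lit 5) (nat_lit 89) (nat_lit 5)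 (nat_lit 464) (nat_lit 448) (nat_lit 288))))) (XT.nd (nat_lit 234) (nat_lit 836) (nat_lit 0) (XT.nd (nat_lit 78) (nat_lit 304) (nat_lit 0) (XT.lf (nat_lit 0) (nat_lit 10284392663) (nat_lit 228) (nat_lit 307468898327) (nat_lit 304) (nat_lit 20520838630) (nat_lit 82) (nat_lit 5) (nat_lit 85) (nat_lit 5) (nat_lit 86) (nat_lit 5) (nat_lit 465) (nat_lit 448) (nat_lit 287)) (XT.nd (nat_lit 78) (nat_lit 228) (nat_lit 0) (XT.lf (nat_lit 0) (nat_lit 81241571600) (nat_lit 304) (nat_lit 24267435700) (nat_lit 76) (nat_lit 248968413712) (nat_lit 81) (nat_lit 5) (nat_lit 85) (nat_lit 5) (nat_lit 82) (nat_lit 5) (nat_lit 466) (nat_lit 448) (nat_lit 286)) (XT.lf (nat_lit 0) (nat_lit 197173170702) (nat_lit 304) (nat_lit 60120587049) (nat_lit 76) (nat_lit 114329040323) (nat_lit 78) (nat_lit 5) (nat_lit 82) (nat_lit 5) (nat_lit 79) (nat_lit 5) (nat_lit 467) (nat_lit 448) (nat_lit 285)))) (XT.nd (nat_lit 156)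 (nat_lit 380) (nat_lit 0) (XT.nd (nat_lit 78) (nat_lit 228) (nat_lit 0) (XT.lf (nat_lit 0) (nat_lit 292455555668) (nat_lit 228) (nat_lit 36698392321) (nat_lit 304) (nat_lit 60647124832) (nat_lit 75) (nat_lit 5) (nat_lit 78) (nat_lit 5) (nat_lit 79) (nat_lit 5) (nat_lit 468) (nat_lit 448) (nat_lit 284)) (XT.lf (nat_lit 0) (nat_lit 68855741566) (nat_lit 228) (nat_lit 138591609926) (nat_lit 76) (nat_lit 201508212812) (nat_lit 72) (nat_lit 5) (nat_lit 75) (nat_lit 5) (nat_lit 73) (nat_lit 5) (nat_lit 469) (nat_lit 448) (nat_lit 283))) (XT.nd (nat_lit 78) (nat_lit 152) (nat_lit 0) (XT.lf (nat_lit 0) (nat_lit 213375274045) (nat_lit 304) (nat_lit 182158511650) (nat_lit 76) (nat_lit 33719857847) (nat_lit 69) (nat_lit 5) (nat_lit 73) (nat_lit 5) (nat_lit 70) (nat_lit 5) (nat_lit 470) (nat_lit 448) (nat_lit 282)) (XT.lf (nat_lit 0) (nat_lit 221068905472) (nat_lit 152) (nat_lit 157790550376) (nat_lit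 228) (nat_lit 71845958958) (nat_lit 67) (nat_lit 5) (nat_lit 69) (nat_lit 5) (nat_lit 70) (nat_lit 5) (nat_lit 471) (nat_lit 448) (nat_lit 281)))))) (XT.nd (nat_lit 468) (nat_lit 988) (nat_lit 0) (XT.nd (nat_lit 234) (nat_lit 456) (nat_lit 0) (XT.nd (nat_lit 78) (nat_lit 304) (nat_lit 0) (XT.lf (nat_lit 0) (nat_lit 88956082235) (nat_lit 228) (nat_lit 280963170856) (nat_lit 76) (nat_lit 103492415564) (nat_lit 64) (nat_lit 5) (nat_lit 67) (nat_lit 5) (nat_lit 65) (nat_lit 5) (nat_lit 472) (nat_lit 448) (nat_lit 280)) (XT.nd (nat_lit 78) (nat_lit 152) (nat_lit 0) (XT.lf (nat_lit 0) (nat_lit 159947621098) (nat_lit 152) (nat_lit 109414643464) (nat_lit 228) (nat_lit 228050412625) (nat_lit 62) (nat_lit 5) (nat_lit 64) (nat_lit 5) (nat_lit 65) (nat_lit 5) (nat_lit 473) (nat_lit 448) (nat_lit 279)) (XT.lf (nat_lit 0) (nat_lit 124288623190) (nat_lit 152) (nat_lit 349511456156) (nat_lit 228) (nat_lit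 49053730179) (nat_lit 60) (nat_lit 5) (nat_lit 62) (nat_lit 5) (nat_lit 63) (nat_lit 5) (nat_lit 474) (nat_lit 448) (nat_lit 278)))) (XT.nd (nat_lit 78) (nat_lit 228) (nat_lit 0) (XT.lf (nat_lit 0) (nat_lit 83474969045) (nat_lit 152) (nat_lit 65293314252) (nat_lit 228) (nat_lit 400993186761) (nat_lit 57) (nat_lit 5) (nat_lit 59) (nat_lit 5) (nat_lit 60) (nat_lit 5) (nat_lit 475) (nat_lit 448) (nat_lit 277)) (XT.nd (nat_lit 78) (nat_lit 76) (nat_lit 0) (XT.lf (nat_lit 0) (nat_lit 36283529631) (nat_lit 152) (nat_lit 335832884427) (nat_lit 228) (nat_lit 206094173417) (nat_lit 55) (nat_lit 5) (nat_lit 57) (nat_lit 5) (nat_lit 58) (nat_lit 5) (nat_lit 476) (nat_lit 448) (nat_lit 276)) (XT.lf (nat_lit 0) (nat_lit 13612476075) (nat_lit 228) (nat_lit 14122329701) (nat_lit 76) (nat_lit 580729574289) (nat_lit 54) (nat_lit 5) (nat_lit 57) (nat_lit 5) (nat_lit 55) (nat_lit 5) (nat_lit 477) (nat_lit 448)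 (nat_lit 275))))) (XT.nd (nat_lit 234) (nat_lit 532) (nat_lit 0) (XT.nd (nat_lit 78) (nat_lit 304) (nat_lit 0) (XT.lf (nat_lit 0) (nat_lit 257646870496) (nat_lit 228) (nat_lit 74786940191) (nat_lit 76) (nat_lit 307837148293) (nat_lit 52) (nat_lit 5) (nat_lit 55) (nat_lit 5) (nat_lit 53) (nat_lit 5) (nat_lit 478) (nat_lit 448) (nat_lit 274)) (XT.nd (nat_lit 78) (nat_lit 152) (nat_lit 0) (XT.lf (nat_lit 0) (nat_lit 530316409796) (nat_lit 228) (nat_lit 140255301115) (nat_lit 76) (nat_lit 3594733642) (nat_lit 50) (nat_lit 5) (nat_lit 53) (nat_lit 5) (nat_lit 51) (nat_lit 4) (nat_lit 479) (nat_lit 448) (nat_lit 273)) (XT.lf (nat_lit 0) (nat_lit 125249628692) (nat_lit 152) (nat_lit 218628786458) (nat_lit 76) (nat_lit 366062479219) (nat_lit 48) (nat_lit 5) (nat_lit 50) (nat_lit 5) (nat_lit 49) (nat_lit 5) (nat_lit 480) (nat_lit 448) (nat_lit 272)))) (XT.nd (nat_lit 156) (nat_lit 304) (nat_lit 0)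 (XT.nd (nat_lit 78) (nat_lit 76) (nat_lit 0) (XT.lf (nat_lit 0) (nat_lit 420616255984) (nat_lit 228) (nat_lit 306693045726) (nat_lit 76) (nat_lit 20661148843) (nat_lit 46) (nat_lit 5) (nat_lit 49) (nat_lit 5) (nat_lit 47) (nat_lit 4) (nat_lit 481) (nat_lit 448) (nat_lit 271)) (XT.lf (nat_lit 0) (nat_lit 379207323957) (nat_lit 76) (nat_lit 375994529465) (nat_lit 152) (nat_lit 33061035819) (nat_lit 45) (nat_lit 5) (nat_lit 46) (nat_lit 5) (nat_lit 47) (nat_lit 4) (nat_lit 482) (nat_lit 448) (nat_lit 270))) (XT.nd (nat_lit 78) (nat_lit 76) (nat_lit 0) (XT.lf (nat_lit 0) (nat_lit 286140466999) (nat_lit 228) (nat_lit 526704016786) (nat_lit 76) (nat_lit 18187957593) (nat_lit 42) (nat_lit 5) (nat_lit 45) (nat_lit 5) (nat_lit 43) (nat_lit 4) (nat_lit 483) (nat_lit 448) (nat_lit 269)) (XT.lf (nat_lit 0) (nat_lit 212303780130) (nat_lit 76) (nat_lit 434328336969) (nat_lit 152) (nat_lit 229718725151)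 (nat_lit 41) (nat_lit 5) (nat_lit 42) (nat_lit 5) (nat_lit 43) (nat_lit 4) (nat_lit 484) (nat_lit 448) (nat_lit 268))))))) (XT.nd (nat_lit 59982) (nat_lit 0) (nat_lit 4028) (XT.nd (nat_lit 468) (nat_lit 228) (nat_lit 0) (XT.nd (nat_lit 234) (nat_lit 380) (nat_lit 0) (XT.nd (nat_lit 78) (nat_lit 76) (nat_lit 0) (XT.lf (nat_lit 0) (nat_lit 105916268841) (nat_lit 152) (nat_lit 12188871666) (nat_lit 228) (nat_lit 806554240712) (nat_lit 38) (nat_lit 5) (nat_lit 40) (nat_lit 5) (nat_lit 41) (nat_lit 5) (nat_lit 485) (nat_lit 448) (nat_lit 267)) (XT.nd (nat_lit 78) (nat_lit 76) (nat_lit 0) (XT.lf (nat_lit 0) (nat_lit 504498862643) (nat_lit 228) (nat_lit 26055629585) (nat_lit 76) (nat_lit 445150208428) (nat_lit 38) (nat_lit 5) (nat_lit 41) (nat_lit 5) (nat_lit 39) (nat_lit 4) (nat_lit 486) (nat_lit 448) (nat_lit 266)) (XT.lf (nat_lit 0) (nat_lit 857279514469) (nat_lit 76) (nat_lit 78114572034) (nat_lit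 152) (nat_lit 94760058954) (nat_lit 37) (nat_lit 5) (nat_lit 38) (nat_lit 5) (nat_lit 39) (nat_lit 4) (nat_lit 487) (nat_lit 448) (nat_lit 265)))) (XT.nd (nat_lit 78) (nat_lit 228) (nat_lit 0) (XT.lf (nat_lit 0) (nat_lit 320556829376) (nat_lit 152) (nat_lit 352647473985) (nat_lit 76) (nat_lit 414575085894) (nat_lit 35) (nat_lit 5) (nat_lit 37) (nat_lit 5) (nat_lit 36) (nat_lit 4) (nat_lit 488) (nat_lit 448) (nat_lit 264)) (XT.nd (nat_lit 78) (nat_lit 152) (nat_lit 0) (XT.lf (nat_lit 0) (nat_lit 587941547296) (nat_lit 76) (nat_lit 191439220732) (nat_lit 152) (nat_lit 369876130847) (nat_lit 34) (nat_lit 5) (nat_lit 35) (nat_lit 5) (nat_lit 36) (nat_lit 4) (nat_lit 489) (nat_lit 448) (nat_lit 263)) (XT.lf (nat_lit 0) (nat_lit 75414347697) (nat_lit 152) (nat_lit 807104469314) (nat_lit 76) (nat_lit 332184884993) (nat_lit 32) (nat_lit 5) (nat_lit 34) (nat_lit 5) (nat_lit 33) (nat_lit 4) (nat_lit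 490) (nat_lit 448) (nat_lit 262))))) (XT.nd (nat_lit 59202) (nat_lit 0) (nat_lit 7296) (XT.nd (nat_lit 78) (nat_lit 152) (nat_lit 0) (XT.lf (nat_lit 0) (nat_lit 185485515509) (nat_lit 76) (nat_lit 374119089779) (nat_lit 152) (nat_lit 724666707008) (nat_lit 31) (nat_lit 5) (nat_lit 32) (nat_lit 5) (nat_lit 33) (nat_lit 4) (nat_lit 491) (nat_lit 448) (nat_lit 261)) (XT.nd (nat_lit 78) (nat_lit 152) (nat_lit 0) (XT.lf (nat_lit 0) (nat_lit 1099551252826) (nat_lit 152) (nat_lit 75359305747) (nat_lit 0) (nat_lit 183642714377) (nat_lit 31) (nat_lit 5) (nat_lit 33) (nat_lit 4) (nat_lit 31) (nat_lit 4) (nat_lit 492) (nat_lit 448) (nat_lit 260)) (XT.lf (nat_lit 0) (nat_lit 259301578134) (nat_lit 152) (nat_lit 384340338579) (nat_lit 76) (nat_lit 793785834919) (nat_lit 29) (nat_lit 5) (nat_lit 31) (nat_lit 5) (nat_lit 30) (nat_lit 4) (nat_lit 493) (nat_lit 448) (nat_lit 259)))) (XT.nd (nat_lit 156) (nat_lit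 0) (nat_lit 76) (XT.nd (nat_lit 78) (nat_lit 0) (nat_lit 76) (XT.lf (nat_lit 0) (nat_lit 29503056883) (nat_lit 836) (nat_lit 29372474977) (nat_lit 836) (nat_lit 29372474977) (nat_lit 125) (nat_lit 3) (nat_lit 136) (nat_lit 3) (nat_lit 136) (nat_lit 5) (nat_lit 449) (nat_lit 449) (nat_lit 302)) (XT.lf (nat_lit 0) (nat_lit 62958978862) (nat_lit 760) (nat_lit 101570116952) (nat_lit 836) (nat_lit 18947126127) (nat_lit 126) (nat_lit 5) (nat_lit 136) (nat_lit 5) (nat_lit 137) (nat_lit 5) (nat_lit 450) (nat_lit 449) (nat_lit 301))) (XT.nd (nat_lit 78) (nat_lit 0) (nat_lit 76) (XT.lf (nat_lit 76) (nat_lit 44360676920) (nat_lit 0) (nat_lit 26585239937) (nat_lit 836) (nat_lit 119883037950) (nat_lit 127) (nat_lit 5) (nat_lit 126) (nat_lit 5) (nat_lit 137) (nat_lit 5) (nat_lit 451) (nat_lit 449) (nat_lit 300)) (XT.lf (nat_lit 76) (nat_lit 5135782945) (nat_lit 0) (nat_lit 78225116325) (nat_lit 836) (nat_lit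 115219552679) (nat_lit 128) (nat_lit 5) (nat_lit 127) (nat_lit 5) (nat_lit 138) (nat_lit 5) (nat_lit 452) (nat_lit 449) (nat_lit 299)))))) (XT.nd (nat_lit 546) (nat_lit 2052) (nat_lit 0) (XT.nd (nat_lit 234) (nat_lit 1444) (nat_lit 0) (XT.nd (nat_lit 78) (nat_lit 0) (nat_lit 76) (XT.lf (nat_lit 0) (nat_lit 100914607330) (nat_lit 760) (nat_lit 34320629480) (nat_lit 836) (nat_lit 71509555809) (nat_lit 128) (nat_lit 5) (nat_lit 138) (nat_lit 5) (nat_lit 139) (nat_lit 5) (nat_lit 453) (nat_lit 449) (nat_lit 298)) (XT.nd (nat_lit 78) (nat_lit 0) (nat_lit 0) (XT.lf (nat_lit 0) (nat_lit 123658936846) (nat_lit 760) (nat_lit 74939081216) (nat_lit 836) (nat_lit 16774946339) (nat_lit 129) (nat_lit 5) (nat_lit 139) (nat_lit 5) (nat_lit 140) (nat_lit 5) (nat_lit 454) (nat_lit 449) (nat_lit 297)) (XT.lf (nat_lit 76) (nat_lit 106862802379) (nat_lit 0) (nat_lit 45916153284) (nat_lit 836) (nat_lit 71684627207)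 (nat_lit 130) (nat_lit 5) (nat_lit 129) (nat_lit 5) (nat_lit 140) (nat_lit 5) (nat_lit 455) (nat_lit 449) (nat_lit 296)))) (XT.nd (nat_lit 156) (nat_lit 456) (nat_lit 0) (XT.nd (nat_lit 78) (nat_lit 380) (nat_lit 0) (XT.lf (nat_lit 0) (nat_lit 72097044375) (nat_lit 760) (nat_lit 116441347716) (nat_lit 836) (nat_lit 45527568007) (nat_lit 120) (nat_lit 5) (nat_lit 130) (nat_lit 5) (nat_lit 131) (nat_lit 5) (nat_lit 456) (nat_lit 449) (nat_lit 295)) (XT.lf (nat_lit 0) (nat_lit 36453979763) (nat_lit 380) (nat_lit 194870721063) (nat_lit 456) (nat_lit 12903520888) (nat_lit 115) (nat_lit 5) (nat_lit 120) (nat_lit 5) (nat_lit 121) (nat_lit 5) (nat_lit 457) (nat_lit 449) (nat_lit 294))) (XT.nd (nat_lit 78) (nat_lit 380) (nat_lit 0) (XT.lf (nat_lit 0) (nat_lit 26446593332) (nat_lit 456) (nat_lit 886339106) (nat_lit 76) (nat_lit 227611556987) (nat_lit 114) (nat_lit 5) (nat_lit 120) (nat_lit 5) (nat_lit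 115) (nat_lit 5) (nat_lit 458) (nat_lit 449) (nat_lit 293)) (XT.lf (nat_lit 0) (nat_lit 74545145641) (nat_lit 456) (nat_lit 39102265286) (nat_lit 76) (nat_lit 152557445759) (nat_lit 109) (nat_lit 5) (nat_lit 115) (nat_lit 5) (nat_lit 110) (nat_lit 5) (nat_lit 459) (nat_lit 449) (nat_lit 292))))) (XT.nd (nat_lit 234) (nat_lit 1064) (nat_lit 0) (XT.nd (nat_lit 78) (nat_lit 608) (nat_lit 0) (XT.lf (nat_lit 0) (nat_lit 131212011691) (nat_lit 456) (nat_lit 78323798309) (nat_lit 76) (nat_lit 68594221910) (nat_lit 104) (nat_lit 5) (nat_lit 110) (nat_lit 5) (nat_lit 105) (nat_lit 5) (nat_lit 460) (nat_lit 449) (nat_lit 291)) (XT.nd (nat_lit 78) (nat_lit 304) (nat_lit 0) (XT.lf (nat_lit 0) (nat_lit 171820241114) (nat_lit 304) (nat_lit 25883019961) (nat_lit 380) (nat_lit 93041408430) (nat_lit 100) (nat_lit 5) (nat_lit 104) (nat_lit 5) (nat_lit 105) (nat_lit 5) (nat_lit 461) (nat_lit 449) (nat_lit 290))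 (XT.lf (nat_lit 0) (nat_lit 142312170165) (nat_lit 304) (nat_lit 133502705933) (nat_lit 380) (nat_lit 28238548778) (nat_lit 96) (nat_lit 5) (nat_lit 100) (nat_lit 5) (nat_lit 101) (nat_lit 5) (nat_lit 462) (nat_lit 449) (nat_lit 289)))) (XT.nd (nat_lit 156) (nat_lit 456) (nat_lit 0) (XT.nd (nat_lit 78) (nat_lit 304) (nat_lit 0) (XT.lf (nat_lit 0) (nat_lit 45780164438) (nat_lit 304) (nat_lit 206382011526) (nat_lit 76) (nat_lit 65963722232) (nat_lit 92) (nat_lit 5) (nat_lit 96) (nat_lit 5) (nat_lit 93) (nat_lit 5) (nat_lit 463) (nat_lit 449) (nat_lit 288)) (XT.lf (nat_lit 0) (nat_lit 79470188586) (nat_lit 304) (nat_lit 51629395657) (nat_lit 380) (nat_lit 201883011292) (nat_lit 88) (nat_lit 5) (nat_lit 92) (nat_lit 5) (nat_lit 93) (nat_lit 5) (nat_lit 464) (nat_lit 449) (nat_lit 287))) (XT.nd (nat_lit 78) (nat_lit 228) (nat_lit 0) (XT.lf (nat_lit 0) (nat_lit 45535353247) (nat_lit 228) (nat_lit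 184649248889) (nat_lit 304) (nat_lit 118496224340) (nat_lit 85) (nat_lit 5) (nat_lit 88) (nat_lit 5) (nat_lit 89) (nat_lit 5) (nat_lit 465) (nat_lit 449) (nat_lit 286)) (XT.lf (nat_lit 0) (nat_lit 11110751158) (nat_lit 228) (nat_lit 332065382578) (nat_lit 304) (nat_lit 22159796580) (nat_lit 82) (nat_lit 5) (nat_lit 85) (nat_lit 5) (nat_lit 86) (nat_lit 5) (nat_lit 466) (nat_lit 449) (nat_lit 285))))))))
noncomputable def xc113 : XT := (XT.nd (nat_lit 61152) (nat_lit 0) (nat_lit 2204) (XT.nd (nat_lit 1014) (nat_lit 1596) (nat_lit 0) (XT.nd (nat_lit 468) (nat_lit 1140) (nat_lit 0) (XT.nd (nat_lit 234) (nat_lit 608) (nat_lit 0) (XT.nd (nat_lit 78) (nat_lit 456) (nat_lit 0) (XT.lf (nat_lit 0) (nat_lit 87743325505) (nat_lit 304) (nat_lit 26205409761) (nat_lit 76) (nat_lit 268886757400) (nat_lit 81) (nat_lit 5) (nat_lit 85) (nat_lit 5) (nat_lit 82) (nat_lit 5) (nat_lit 467) (nat_lit 449) (nat_lit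 284)) (XT.nd (nat_lit 78) (nat_lit 228) (nat_lit 0) (XT.lf (nat_lit 0) (nat_lit 212949338945) (nat_lit 304) (nat_lit 64926861526) (nat_lit 76) (nat_lit 123476305148) (nat_lit 78) (nat_lit 5) (nat_lit 82) (nat_lit 5) (nat_lit 79) (nat_lit 5) (nat_lit 468) (nat_lit 449) (nat_lit 283)) (XT.lf (nat_lit 0) (nat_lit 315855226044) (nat_lit 228) (nat_lit 39633231285) (nat_lit 304) (nat_lit 65496591113) (nat_lit 75) (nat_lit 5) (nat_lit 78) (nat_lit 5) (nat_lit 79) (nat_lit 5) (nat_lit 469) (nat_lit 449) (nat_lit 282)))) (XT.nd (nat_lit 78) (nat_lit 380) (nat_lit 0) (XT.lf (nat_lit 0) (nat_lit 74366331246) (nat_lit 228) (nat_lit 149675692088) (nat_lit 76) (nat_lit 217629879129) (nat_lit 72) (nat_lit 5) (nat_lit 75) (nat_lit 5) (nat_lit 73) (nat_lit 5) (nat_lit 470) (nat_lit 449) (nat_lit 281)) (XT.nd (nat_lit 78) (nat_lit 152) (nat_lit 0) (XT.lf (nat_lit 0) (nat_lit 230447333937) (nat_lit 304) (nat_lit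 196728002492) (nat_lit 76) (nat_lit 36418496265) (nat_lit 69) (nat_lit 5) (nat_lit 73) (nat_lit 5) (nat_lit 70) (nat_lit 5) (nat_lit 471) (nat_lit 449) (nat_lit 280)) (XT.lf (nat_lit 0) (nat_lit 238757469362) (nat_lit 152) (nat_lit 170412677604) (nat_lit 228) (nat_lit 77591603892) (nat_lit 67) (nat_lit 5) (nat_lit 69) (nat_lit 5) (nat_lit 70) (nat_lit 5) (nat_lit 472) (nat_lit 449) (nat_lit 279))))) (XT.nd (nat_lit 234) (nat_lit 608) (nat_lit 0) (XT.nd (nat_lit 78) (nat_lit 304) (nat_lit 0) (XT.lf (nat_lit 0) (nat_lit 96074453820) (nat_lit 228) (nat_lit 303437166771) (nat_lit 76) (nat_lit 111772886953) (nat_lit 64) (nat_lit 5) (nat_lit 67) (nat_lit 5) (nat_lit 65) (nat_lit 5) (nat_lit 473) (nat_lit 449) (nat_lit 278)) (XT.nd (nat_lit 78) (nat_lit 152) (nat_lit 0) (XT.lf (nat_lit 0) (nat_lit 172746355652) (nat_lit 152) (nat_lit 118166681115) (nat_lit 228) (nat_lit 246292564716) (nat_lit 62)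 (nat_lit 5) (nat_lit 64) (nat_lit 5) (nat_lit 65) (nat_lit 5) (nat_lit 474) (nat_lit 449) (nat_lit 277)) (XT.lf (nat_lit 0) (nat_lit 134234579841) (nat_lit 152) (nat_lit 377471225373) (nat_lit 228) (nat_lit 52976222794) (nat_lit 60) (nat_lit 5) (nat_lit 62) (nat_lit 5) (nat_lit 63) (nat_lit 5) (nat_lit 475) (nat_lit 449) (nat_lit 276)))) (XT.nd (nat_lit 156) (nat_lit 228) (nat_lit 0) (XT.nd (nat_lit 78) (nat_lit 152) (nat_lit 0) (XT.lf (nat_lit 0) (nat_lit 90155764338) (nat_lit 152) (nat_lit 70515643825) (nat_lit 228) (nat_lit 433070896123) (nat_lit 57) (nat_lit 5) (nat_lit 59) (nat_lit 5) (nat_lit 60) (nat_lit 5) (nat_lit 476) (nat_lit 449) (nat_lit 275)) (XT.lf (nat_lit 0) (nat_lit 39188950978) (nat_lit 152) (nat_lit 362698374459) (nat_lit 228) (nat_lit 222580028875) (nat_lit 55) (nat_lit 5) (nat_lit 57) (nat_lit 5) (nat_lit 58) (nat_lit 5) (nat_lit 477) (nat_lit 449) (nat_lit 274))) (XT.nd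 (nat_lit 78) (nat_lit 152) (nat_lit 0) (XT.lf (nat_lit 0) (nat_lit 14702978508) (nat_lit 228) (nat_lit 15249530029) (nat_lit 76) (nat_lit 627188946497) (nat_lit 54) (nat_lit 5) (nat_lit 57) (nat_lit 5) (nat_lit 55) (nat_lit 5) (nat_lit 478) (nat_lit 449) (nat_lit 273)) (XT.lf (nat_lit 0) (nat_lit 278260067942) (nat_lit 228) (nat_lit 80767366236) (nat_lit 76) (nat_lit 332465128928) (nat_lit 52) (nat_lit 5) (nat_lit 55) (nat_lit 5) (nat_lit 53) (nat_lit 5) (nat_lit 479) (nat_lit 449) (nat_lit 272)))))) (XT.nd (nat_lit 468) (nat_lit 760) (nat_lit 0) (XT.nd (nat_lit 234) (nat_lit 380) (nat_lit 0) (XT.nd (nat_lit 78) (nat_lit 304) (nat_lit 0) (XT.lf (nat_lit 0) (nat_lit 572743117164) (nat_lit 228) (nat_lit 151473253097) (nat_lit 76) (nat_lit 3883319940) (nat_lit 50) (nat_lit 5) (nat_lit 53) (nat_lit 5) (nat_lit 51) (nat_lit 4) (nat_lit 480) (nat_lit 449) (nat_lit 271)) (XT.nd (nat_lit 78) (nat_lit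 152) (nat_lit 0) (XT.lf (nat_lit 0) (nat_lit 135270949130) (nat_lit 152) (nat_lit 236116679896) (nat_lit 76) (nat_lit 395348469221) (nat_lit 48) (nat_lit 5) (nat_lit 50) (nat_lit 5) (nat_lit 49) (nat_lit 5) (nat_lit 481) (nat_lit 449) (nat_lit 270)) (XT.lf (nat_lit 0) (nat_lit 454266858482) (nat_lit 228) (nat_lit 331226136063) (nat_lit 76) (nat_lit 22315026798) (nat_lit 46) (nat_lit 5) (nat_lit 49) (nat_lit 5) (nat_lit 47) (nat_lit 4) (nat_lit 482) (nat_lit 449) (nat_lit 269)))) (XT.nd (nat_lit 78) (nat_lit 304) (nat_lit 0) (XT.lf (nat_lit 0) (nat_lit 409546160922) (nat_lit 76) (nat_lit 406073081493) (nat_lit 152) (nat_lit 35704615788) (nat_lit 45) (nat_lit 5) (nat_lit 46) (nat_lit 5) (nat_lit 47) (nat_lit 4) (nat_lit 483) (nat_lit 449) (nat_lit 268)) (XT.nd (nat_lit 78) (nat_lit 76) (nat_lit 0) (XT.lf (nat_lit 0) (nat_lit 309032921851) (nat_lit 228) (nat_lit 568838100142) (nat_lit 76) (nat_lit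 19643953697) (nat_lit 42) (nat_lit 5) (nat_lit 45) (nat_lit 5) (nat_lit 43) (nat_lit 4) (nat_lit 484) (nat_lit 449) (nat_lit 267)) (XT.lf (nat_lit 0) (nat_lit 229290223267) (nat_lit 76) (nat_lit 469073623929) (nat_lit 152) (nat_lit 248095004281) (nat_lit 41) (nat_lit 5) (nat_lit 42) (nat_lit 5) (nat_lit 43) (nat_lit 4) (nat_lit 485) (nat_lit 449) (nat_lit 266))))) (XT.nd (nat_lit 234) (nat_lit 456) (nat_lit 0) (XT.nd (nat_lit 78) (nat_lit 76) (nat_lit 0) (XT.lf (nat_lit 0) (nat_lit 114391655464) (nat_lit 152) (nat_lit 13163021310) (nat_lit 228) (nat_lit 871077398589) (nat_lit 38) (nat_lit 5) (nat_lit 40) (nat_lit 5) (nat_lit 41) (nat_lit 5) (nat_lit 486) (nat_lit 449) (nat_lit 265)) (XT.nd (nat_lit 78) (nat_lit 76) (nat_lit 0) (XT.lf (nat_lit 0) (nat_lit 544859827225) (nat_lit 228) (nat_lit 28138110990) (nat_lit 76) (nat_lit 480763085621) (nat_lit 38) (nat_lit 5) (nat_lit 41) (nat_lit 5) (nat_lit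 39) (nat_lit 4) (nat_lit 487) (nat_lit 449) (nat_lit 264)) (XT.lf (nat_lit 0) (nat_lit 925863759020) (nat_lit 76) (nat_lit 84362861188) (nat_lit 152) (nat_lit 102339806459) (nat_lit 37) (nat_lit 5) (nat_lit 38) (nat_lit 5) (nat_lit 39) (nat_lit 4) (nat_lit 488) (nat_lit 449) (nat_lit 263)))) (XT.nd (nat_lit 156) (nat_lit 228) (nat_lit 0) (XT.nd (nat_lit 78) (nat_lit 76) (nat_lit 0) (XT.lf (nat_lit 0) (nat_lit 346202365321) (nat_lit 152) (nat_lit 380857402420) (nat_lit 76) (nat_lit 447741923098) (nat_lit 35) (nat_lit 5) (nat_lit 37) (nat_lit 5) (nat_lit 36) (nat_lit 4) (nat_lit 489) (nat_lit 449) (nat_lit 262)) (XT.lf (nat_lit 0) (nat_lit 634978659319) (nat_lit 76) (nat_lit 206753514363) (nat_lit 152) (nat_lit 399465229822) (nat_lit 34) (nat_lit 5) (nat_lit 35) (nat_lit 5) (nat_lit 36) (nat_lit 4) (nat_lit 490) (nat_lit 449) (nat_lit 261))) (XT.nd (nat_lit 78) (nat_lit 76) (nat_lit 0) (XT.lf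 (nat_lit 0) (nat_lit 81448424241) (nat_lit 152) (nat_lit 871671052942) (nat_lit 76) (nat_lit 358760474481) (nat_lit 32) (nat_lit 5) (nat_lit 34) (nat_lit 5) (nat_lit 33) (nat_lit 4) (nat_lit 491) (nat_lit 449) (nat_lit 260)) (XT.lf (nat_lit 0) (nat_lit 200326053575) (nat_lit 76) (nat_lit 404047806563) (nat_lit 152) (nat_lit 782639112763) (nat_lit 31) (nat_lit 5) (nat_lit 32) (nat_lit 5) (nat_lit 33) (nat_lit 4) (nat_lit 492) (nat_lit 449) (nat_lit 259))))))) (XT.nd (nat_lit 1014) (nat_lit 3040) (nat_lit 0) (XT.nd (nat_lit 468) (nat_lit 1900) (nat_lit 0) (XT.nd (nat_lit 234) (nat_lit 0) (nat_lit 152) (XT.nd (nat_lit 78) (nat_lit 0) (nat_lit 76) (XT.lf (nat_lit 0) (nat_lit 31866451878) (nat_lit 836) (nat_lit 31720618380) (nat_lit 836) (nat_lit 31720618380) (nat_lit 125) (nat_lit 3) (nat_lit 136) (nat_lit 3) (nat_lit 136) (nat_lit 5) (nat_lit 450) (nat_lit 450) (nat_lit 300)) (XT.nd (nat_lit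 78) (nat_lit 0) (nat_lit 0) (XT.lf (nat_lit 0) (nat_lit 68001538309) (nat_lit 760) (nat_lit 109692222042) (nat_lit 836) (nat_lit 20460265018) (nat_lit 126) (nat_lit 5) (nat_lit 136) (nat_lit 5) (nat_lit 137) (nat_lit 5) (nat_lit 451) (nat_lit 450) (nat_lit 299)) (XT.lf (nat_lit 76) (nat_lit 47912883048) (nat_lit 0) (nat_lit 28714167952) (nat_lit 836) (nat_lit 129467945050) (nat_lit 127) (nat_lit 5) (nat_lit 126) (nat_lit 5) (nat_lit 137) (nat_lit 5) (nat_lit 452) (nat_lit 450) (nat_lit 298)))) (XT.nd (nat_lit 78) (nat_lit 0) (nat_lit 76) (XT.lf (nat_lit 76) (nat_lit 5550146561) (nat_lit 0) (nat_lit 84484705117) (nat_lit 836) (nat_lit 124431780458) (nat_lit 128) (nat_lit 5) (nat_lit 127) (nat_lit 5) (nat_lit 138) (nat_lit 5) (nat_lit 453) (nat_lit 450) (nat_lit 297)) (XT.nd (nat_lit 78) (nat_lit 0) (nat_lit 76) (XT.lf (nat_lit 0) (nat_lit 108992457217) (nat_lit 760) (nat_lit 37062778348) (nat_lit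 836) (nat_lit 77228904596) (nat_lit 128) (nat_lit 5) (nat_lit 138) (nat_lit 5) (nat_lit 139) (nat_lit 5) (nat_lit 454) (nat_lit 450) (nat_lit 296)) (XT.lf (nat_lit 0) (nat_lit 133556022426) (nat_lit 760) (nat_lit 80930621185) (nat_lit 836) (nat_lit 18115937742) (nat_lit 129) (nat_lit 5) (nat_lit 139) (nat_lit 5) (nat_lit 140) (nat_lit 5) (nat_lit 455) (nat_lit 450) (nat_lit 295))))) (XT.nd (nat_lit 234) (nat_lit 1140) (nat_lit 0) (XT.nd (nat_lit 78) (nat_lit 1064) (nat_lit 0) (XT.lf (nat_lit 76) (nat_lit 115415257232) (nat_lit 0) (nat_lit 49590115329) (nat_lit 836) (nat_lit 77415090373) (nat_lit 130) (nat_lit 5) (nat_lit 129) (nat_lit 5) (nat_lit 140) (nat_lit 5) (nat_lit 456) (nat_lit 450) (nat_lit 294)) (XT.nd (nat_lit 78) (nat_lit 380) (nat_lit 0) (XT.lf (nat_lit 0) (nat_lit 77868297088) (nat_lit 760) (nat_lit 125757007871) (nat_lit 836) (nat_lit 49165738442) (nat_lit 120) (nat_lit 5) (nat_lit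 130) (nat_lit 5) (nat_lit 131) (nat_lit 5) (nat_lit 457) (nat_lit 450) (nat_lit 293)) (XT.lf (nat_lit 0) (nat_lit 39373826030) (nat_lit 380) (nat_lit 210460457794) (nat_lit 456) (nat_lit 13932013956) (nat_lit 115) (nat_lit 5) (nat_lit 120) (nat_lit 5) (nat_lit 121) (nat_lit 5) (nat_lit 458) (nat_lit 450) (nat_lit 292)))) (XT.nd (nat_lit 156) (nat_lit 684) (nat_lit 0) (XT.nd (nat_lit 78) (nat_lit 380) (nat_lit 0) (XT.lf (nat_lit 0) (nat_lit 28565716487) (nat_lit 456) (nat_lit 953866228) (nat_lit 76) (nat_lit 245820294910) (nat_lit 114) (nat_lit 5) (nat_lit 120) (nat_lit 5) (nat_lit 115) (nat_lit 5) (nat_lit 459) (nat_lit 450) (nat_lit 291)) (XT.lf (nat_lit 0) (nat_lit 80511952527) (nat_lit 456) (nat_lit 42227053182) (nat_lit 76) (nat_lit 164762078669) (nat_lit 109) (nat_lit 5) (nat_lit 115) (nat_lit 5) (nat_lit 110) (nat_lit 5) (nat_lit 460) (nat_lit 450) (nat_lit 290))) (XT.nd (nat_lit 78)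 (nat_lit 304) (nat_lit 0) (XT.lf (nat_lit 0) (nat_lit 141711985548) (nat_lit 456) (nat_lit 84586308548) (nat_lit 76) (nat_lit 74081988719) (nat_lit 104) (nat_lit 5) (nat_lit 110) (nat_lit 5) (nat_lit 105) (nat_lit 5) (nat_lit 461) (nat_lit 450) (nat_lit 289)) (XT.lf (nat_lit 0) (nat_lit 185569106546) (nat_lit 304) (nat_lit 27953255840) (nat_lit 380) (nat_lit 100481737732) (nat_lit 100) (nat_lit 5) (nat_lit 104) (nat_lit 5) (nat_lit 105) (nat_lit 5) (nat_lit 462) (nat_lit 450) (nat_lit 288)))))) (XT.nd (nat_lit 546) (nat_lit 1368) (nat_lit 0) (XT.nd (nat_lit 234) (nat_lit 760) (nat_lit 0) (XT.nd (nat_lit 78) (nat_lit 608) (nat_lit 0) (XT.lf (nat_lit 0) (nat_lit 153700379524) (nat_lit 304) (nat_lit 144182373068) (nat_lit 380) (nat_lit 30494811095) (nat_lit 96) (nat_lit 5) (nat_lit 100) (nat_lit 5) (nat_lit 101) (nat_lit 5) (nat_lit 463) (nat_lit 450) (nat_lit 287)) (XT.nd (nat_lit 78) (nat_lit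 304) (nat_lit 0) (XT.lf (nat_lit 0) (nat_lit 49445165663) (nat_lit 304) (nat_lit 222889269893) (nat_lit 76) (nat_lit 71241404336) (nat_lit 92) (nat_lit 5) (nat_lit 96) (nat_lit 5) (nat_lit 93) (nat_lit 5) (nat_lit 464) (nat_lit 450) (nat_lit 286)) (XT.lf (nat_lit 0) (nat_lit 85830962703) (nat_lit 304) (nat_lit 55759033962) (nat_lit 380) (nat_lit 218031083529) (nat_lit 88) (nat_lit 5) (nat_lit 92) (nat_lit 5) (nat_lit 93) (nat_lit 5) (nat_lit 465) (nat_lit 450) (nat_lit 285)))) (XT.nd (nat_lit 156) (nat_lit 304) (nat_lit 0) (XT.nd (nat_lit 78) (nat_lit 228) (nat_lit 0) (XT.lf (nat_lit 0) (nat_lit 49181310237) (nat_lit 228) (nat_lit 199420383752) (nat_lit 304) (nat_lit 127973481774) (nat_lit 85) (nat_lit 5) (nat_lit 88) (nat_lit 5) (nat_lit 89) (nat_lit 5) (nat_lit 466) (nat_lit 450) (nat_lit 284)) (XT.lf (nat_lit 0) (nat_lit 12002703742) (nat_lit 228) (nat_lit 358629732170) (nat_lit 304) (nat_lit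 23930257655) (nat_lit 82) (nat_lit 5) (nat_lit 85) (nat_lit 5) (nat_lit 86) (nat_lit 5) (nat_lit 467) (nat_lit 450) (nat_lit 283))) (XT.nd (nat_lit 78) (nat_lit 228) (nat_lit 0) (XT.lf (nat_lit 0) (nat_lit 94764873316) (nat_lit 304) (nat_lit 28298909761) (nat_lit 76) (nat_lit 290398444383) (nat_lit 81) (nat_lit 5) (nat_lit 85) (nat_lit 5) (nat_lit 82) (nat_lit 5) (nat_lit 468) (nat_lit 450) (nat_lit 282)) (XT.lf (nat_lit 0) (nat_lit 229987270445) (nat_lit 304) (nat_lit 70118119084) (nat_lit 76) (nat_lit 133355216829) (nat_lit 78) (nat_lit 5) (nat_lit 82) (nat_lit 5) (nat_lit 79) (nat_lit 5) (nat_lit 469) (nat_lit 450) (nat_lit 281))))) (XT.nd (nat_lit 234) (nat_lit 684) (nat_lit 0) (XT.nd (nat_lit 78) (nat_lit 456) (nat_lit 0) (XT.lf (nat_lit 0) (nat_lit 341126409837) (nat_lit 228) (nat_lit 42803004653) (nat_lit 304) (nat_lit 70734343345) (nat_lit 75) (nat_lit 5) (nat_lit 78) (nat_lit 5) (nat_lit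 79) (nat_lit 5) (nat_lit 470) (nat_lit 450) (nat_lit 280)) (XT.nd (nat_lit 78) (nat_lit 228) (nat_lit 0) (XT.lf (nat_lit 0) (nat_lit 80317464181) (nat_lit 228) (nat_lit 161646963992) (nat_lit 76) (nat_lit 235041134764) (nat_lit 72) (nat_lit 5) (nat_lit 75) (nat_lit 5) (nat_lit 73) (nat_lit 5) (nat_lit 471) (nat_lit 450) (nat_lit 279)) (XT.lf (nat_lit 0) (nat_lit 248884867882) (nat_lit 304) (nat_lit 212463507704) (nat_lit 76) (nat_lit 39332875991) (nat_lit 69) (nat_lit 5) (nat_lit 73) (nat_lit 5) (nat_lit 70) (nat_lit 5) (nat_lit 472) (nat_lit 450) (nat_lit 278)))) (XT.nd (nat_lit 156) (nat_lit 304) (nat_lit 0) (XT.nd (nat_lit 78) (nat_lit 228) (nat_lit 0) (XT.lf (nat_lit 0) (nat_lit 257860683039) (nat_lit 152) (nat_lit 184044734335) (nat_lit 228) (nat_lit 83797190277) (nat_lit 67) (nat_lit 5) (nat_lit 69) (nat_lit 5) (nat_lit 70) (nat_lit 5) (nat_lit 473) (nat_lit 450) (nat_lit 277)) (XT.lf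 (nat_lit 0) (nat_lit 103762026213) (nat_lit 228) (nat_lit 327709518582) (nat_lit 76) (nat_lit 120715642244) (nat_lit 64) (nat_lit 5) (nat_lit 67) (nat_lit 5) (nat_lit 65) (nat_lit 5) (nat_lit 474) (nat_lit 450) (nat_lit 276))) (XT.nd (nat_lit 78) (nat_lit 152) (nat_lit 0) (XT.lf (nat_lit 0) (nat_lit 186568571707) (nat_lit 152) (nat_lit 127619043531) (nat_lit 228) (nat_lit 265994357307) (nat_lit 62) (nat_lit 5) (nat_lit 64) (nat_lit 5) (nat_lit 65) (nat_lit 5) (nat_lit 475) (nat_lit 450) (nat_lit 275)) (XT.lf (nat_lit 0) (nat_lit 144975804044) (nat_lit 152) (nat_lit 407667939800) (nat_lit 228) (nat_lit 57212772436) (nat_lit 60) (nat_lit 5) (nat_lit 62) (nat_lit 5) (nat_lit 63) (nat_lit 5) (nat_lit 476) (nat_lit 450) (nat_lit 274))))))))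
noncomputable def xc114 : XT := (XT.nd (nat_lit 61230) (nat_lit 0) (nat_lit 684) (XT.nd (nat_lit 1014) (nat_lit 380) (nat_lit 0) (XT.nd (nat_lit 468) (nat_lit 836) (nat_lit 0) (XT.nd (nat_lit 234) (nat_lit 456) (nat_lit 0) (XT.nd (nat_lit 78) (nat_lit 228) (nat_lit 0) (XT.lf (nat_lit 0) (nat_lit 97370624121) (nat_lit 152) (nat_lit 76155921765) (nat_lit 228) (nat_lit 467715071260) (nat_lit 57) (nat_lit 5) (nat_lit 59) (nat_lit 5) (nat_lit 60) (nat_lit 5) (nat_lit 477) (nat_lit 450) (nat_lit 273)) (XT.nd (nat_lit 78) (nat_lit 76) (nat_lit 0) (XT.lf (nat_lit 0) (nat_lit 42326415288) (nat_lit 152) (nat_lit 391713266431) (nat_lit 228) (nat_lit 240384992214) (nat_lit 55) (nat_lit 5) (nat_lit 57) (nat_lit 5) (nat_lit 58) (nat_lit 5) (nat_lit 478) (nat_lit 450) (nat_lit 272)) (XT.lf (nat_lit 0) (nat_lit 15880506525) (nat_lit 228) (nat_lit 16467275312) (nat_lit 76) (nat_lit 677364924927) (nat_lit 54)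 (nat_lit 5) (nat_lit 57) (nat_lit 5) (nat_lit 55) (nat_lit 5) (nat_lit 479) (nat_lit 450) (nat_lit 271)))) (XT.nd (nat_lit 78) (nat_lit 304) (nat_lit 0) (XT.lf (nat_lit 0) (nat_lit 300522114637) (nat_lit 228) (nat_lit 87226587180) (nat_lit 76) (nat_lit 359063204102) (nat_lit 52) (nat_lit 5) (nat_lit 55) (nat_lit 5) (nat_lit 53) (nat_lit 5) (nat_lit 480) (nat_lit 450) (nat_lit 270)) (XT.nd (nat_lit 78) (nat_lit 152) (nat_lit 0) (XT.lf (nat_lit 0) (nat_lit 618563762168) (nat_lit 228) (nat_lit 163588993912) (nat_lit 76) (nat_lit 4194849396) (nat_lit 50) (nat_lit 5) (nat_lit 53) (nat_lit 5) (nat_lit 51) (nat_lit 4) (nat_lit 481) (nat_lit 450) (nat_lit 269)) (XT.lf (nat_lit 0) (nat_lit 146093782589) (nat_lit 152) (nat_lit 255003948548) (nat_lit 76) (nat_lit 426977196952) (nat_lit 48) (nat_lit 5) (nat_lit 50) (nat_lit 5) (nat_lit 49) (nat_lit 5) (nat_lit 482) (nat_lit 450) (nat_lit 268))))) (XT.nd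 (nat_lit 234) (nat_lit 380) (nat_lit 0) (XT.nd (nat_lit 78) (nat_lit 304) (nat_lit 0) (XT.lf (nat_lit 0) (nat_lit 490609323433) (nat_lit 228) (nat_lit 357722209356) (nat_lit 76) (nat_lit 24101074318) (nat_lit 46) (nat_lit 5) (nat_lit 49) (nat_lit 5) (nat_lit 47) (nat_lit 4) (nat_lit 483) (nat_lit 450) (nat_lit 267)) (XT.nd (nat_lit 78) (nat_lit 228) (nat_lit 0) (XT.lf (nat_lit 0) (nat_lit 442311783706) (nat_lit 76) (nat_lit 438558061818) (nat_lit 152) (nat_lit 38559868028) (nat_lit 45) (nat_lit 5) (nat_lit 46) (nat_lit 5) (nat_lit 47) (nat_lit 4) (nat_lit 484) (nat_lit 450) (nat_lit 266)) (XT.lf (nat_lit 0) (nat_lit 333756599402) (nat_lit 228) (nat_lit 614343229440) (nat_lit 76) (nat_lit 21216292606) (nat_lit 42) (nat_lit 5) (nat_lit 45) (nat_lit 5) (nat_lit 43) (nat_lit 4) (nat_lit 485) (nat_lit 450) (nat_lit 265)))) (XT.nd (nat_lit 156) (nat_lit 76) (nat_lit 0) (XT.nd (nat_lit 78) (nat_lit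 228) (nat_lit 0) (XT.lf (nat_lit 0) (nat_lit 247635276457) (nat_lit 76) (nat_lit 506598673654) (nat_lit 152) (nat_lit 267941559629) (nat_lit 41) (nat_lit 5) (nat_lit 42) (nat_lit 5) (nat_lit 43) (nat_lit 4) (nat_lit 486) (nat_lit 450) (nat_lit 264)) (XT.lf (nat_lit 0) (nat_lit 123544775551) (nat_lit 152) (nat_lit 14215239894) (nat_lit 228) (nat_lit 940762577633) (nat_lit 38) (nat_lit 5) (nat_lit 40) (nat_lit 5) (nat_lit 41) (nat_lit 5) (nat_lit 487) (nat_lit 450) (nat_lit 263))) (XT.nd (nat_lit 78) (nat_lit 76) (nat_lit 0) (XT.lf (nat_lit 0) (nat_lit 588449518385) (nat_lit 228) (nat_lit 30387471802) (nat_lit 76) (nat_lit 519224870226) (nat_lit 38) (nat_lit 5) (nat_lit 41) (nat_lit 5) (nat_lit 39) (nat_lit 4) (nat_lit 488) (nat_lit 450) (nat_lit 262)) (XT.lf (nat_lit 0) (nat_lit 999934474447) (nat_lit 76) (nat_lit 91111138534) (nat_lit 152) (nat_lit 110526084587) (nat_lit 37) (nat_lit 5) (nat_lit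 38) (nat_lit 5) (nat_lit 39) (nat_lit 4) (nat_lit 489) (nat_lit 450) (nat_lit 261)))))) (XT.nd (nat_lit 59670) (nat_lit 0) (nat_lit 6232) (XT.nd (nat_lit 59436) (nat_lit 0) (nat_lit 7068) (XT.nd (nat_lit 78) (nat_lit 228) (nat_lit 0) (XT.lf (nat_lit 0) (nat_lit 373899402965) (nat_lit 152) (nat_lit 411324391832) (nat_lit 76) (nat_lit 483561988822) (nat_lit 35) (nat_lit 5) (nat_lit 37) (nat_lit 5) (nat_lit 36) (nat_lit 4) (nat_lit 490) (nat_lit 450) (nat_lit 260)) (XT.nd (nat_lit 78) (nat_lit 152) (nat_lit 0) (XT.lf (nat_lit 0) (nat_lit 685778485190) (nat_lit 76) (nat_lit 223293071895) (nat_lit 152) (nat_lit 431421598162) (nat_lit 34) (nat_lit 5) (nat_lit 35) (nat_lit 5) (nat_lit 36) (nat_lit 4) (nat_lit 491) (nat_lit 450) (nat_lit 259)) (XT.lf (nat_lit 0) (nat_lit 87965094416) (nat_lit 152) (nat_lit 941403216330) (nat_lit 76) (nat_lit 387461997186) (nat_lit 32) (nat_lit 5) (nat_lit 34) (nat_lit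 5) (nat_lit 33) (nat_lit 4) (nat_lit 492) (nat_lit 450) (nat_lit 258)))) (XT.nd (nat_lit 78) (nat_lit 0) (nat_lit 76) (XT.lf (nat_lit 0) (nat_lit 34418469026) (nat_lit 836) (nat_lit 34256849300) (nat_lit 836) (nat_lit 34256849300) (nat_lit 125) (nat_lit 3) (nat_lit 136) (nat_lit 3) (nat_lit 136) (nat_lit 5) (nat_lit 451) (nat_lit 451) (nat_lit 298)) (XT.nd (nat_lit 78) (nat_lit 0) (nat_lit 0) (XT.lf (nat_lit 0) (nat_lit 73446669208) (nat_lit 760) (nat_lit 118464595462) (nat_lit 836) (nat_lit 22094830391) (nat_lit 126) (nat_lit 5) (nat_lit 136) (nat_lit 5) (nat_lit 137) (nat_lit 5) (nat_lit 452) (nat_lit 451) (nat_lit 297)) (XT.lf (nat_lit 76) (nat_lit 51748787471) (nat_lit 0) (nat_lit 31013109361) (nat_lit 836) (nat_lit 139820463013) (nat_lit 127) (nat_lit 5) (nat_lit 126) (nat_lit 5) (nat_lit 137) (nat_lit 5) (nat_lit 453) (nat_lit 451) (nat_lit 296))))) (XT.nd (nat_lit 234) (nat_lit 988)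 (nat_lit 0) (XT.nd (nat_lit 78) (nat_lit 0) (nat_lit 76) (XT.lf (nat_lit 76) (nat_lit 5997159812) (nat_lit 0) (nat_lit 91244835681) (nat_lit 836) (nat_lit 134381747762) (nat_lit 128) (nat_lit 5) (nat_lit 127) (nat_lit 5) (nat_lit 138) (nat_lit 5) (nat_lit 454) (nat_lit 451) (nat_lit 295)) (XT.nd (nat_lit 78) (nat_lit 0) (nat_lit 76) (XT.lf (nat_lit 0) (nat_lit 117715867256) (nat_lit 760) (nat_lit 40024798652) (nat_lit 836) (nat_lit 83406003248) (nat_lit 128) (nat_lit 5) (nat_lit 138) (nat_lit 5) (nat_lit 139) (nat_lit 5) (nat_lit 455) (nat_lit 451) (nat_lit 294)) (XT.lf (nat_lit 0) (nat_lit 144244251333) (nat_lit 760) (nat_lit 87401996009) (nat_lit 836) (nat_lit 19564351733) (nat_lit 129) (nat_lit 5) (nat_lit 139) (nat_lit 5) (nat_lit 140) (nat_lit 5) (nat_lit 456) (nat_lit 451) (nat_lit 293)))) (XT.nd (nat_lit 156) (nat_lit 456) (nat_lit 0) (XT.nd (nat_lit 78) (nat_lit 684) (nat_lit 0) (XT.lf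 (nat_lit 76) (nat_lit 124651419050) (nat_lit 0) (nat_lit 53557898785) (nat_lit 836) (nat_lit 83604605035) (nat_lit 130) (nat_lit 5) (nat_lit 129) (nat_lit 5) (nat_lit 140) (nat_lit 5) (nat_lit 457) (nat_lit 451) (nat_lit 292)) (XT.lf (nat_lit 0) (nat_lit 84100752250) (nat_lit 760) (nat_lit 135817870574) (nat_lit 836) (nat_lit 53095538150) (nat_lit 120) (nat_lit 5) (nat_lit 130) (nat_lit 5) (nat_lit 131) (nat_lit 5) (nat_lit 458) (nat_lit 451) (nat_lit 291))) (XT.nd (nat_lit 78) (nat_lit 76) (nat_lit 0) (XT.lf (nat_lit 0) (nat_lit 42526756705) (nat_lit 380) (nat_lit 227297362187) (nat_lit 456) (nat_lit 15043326957) (nat_lit 115) (nat_lit 5) (nat_lit 120) (nat_lit 5) (nat_lit 121) (nat_lit 5) (nat_lit 459) (nat_lit 451) (nat_lit 290)) (XT.lf (nat_lit 0) (nat_lit 30853885061) (nat_lit 456) (nat_lit 1027277717) (nat_lit 76) (nat_lit 265485758493) (nat_lit 114) (nat_lit 5) (nat_lit 120) (nat_lit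 5) (nat_lit 115) (nat_lit 5) (nat_lit 460) (nat_lit 451) (nat_lit 289))))))) (XT.nd (nat_lit 1014) (nat_lit 2128) (nat_lit 0) (XT.nd (nat_lit 468) (nat_lit 1444) (nat_lit 0) (XT.nd (nat_lit 234) (nat_lit 912) (nat_lit 0) (XT.nd (nat_lit 78) (nat_lit 684) (nat_lit 0) (XT.lf (nat_lit 0) (nat_lit 86955648128) (nat_lit 456) (nat_lit 45602308205) (nat_lit 76) (nat_lit 177943076897) (nat_lit 109) (nat_lit 5) (nat_lit 115) (nat_lit 5) (nat_lit 110) (nat_lit 5) (nat_lit 461) (nat_lit 451) (nat_lit 288)) (XT.nd (nat_lit 78) (nat_lit 304) (nat_lit 0) (XT.lf (nat_lit 0) (nat_lit 153051527487) (nat_lit 456) (nat_lit 91350303745) (nat_lit 76) (nat_lit 80008744195) (nat_lit 104) (nat_lit 5) (nat_lit 110) (nat_lit 5) (nat_lit 105) (nat_lit 5) (nat_lit 462) (nat_lit 451) (nat_lit 287)) (XT.lf (nat_lit 0) (nat_lit 200417418114) (nat_lit 304) (nat_lit 30189168469) (nat_lit 380) (nat_lit 108517718989) (nat_lit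 100) (nat_lit 5) (nat_lit 104) (nat_lit 5) (nat_lit 105) (nat_lit 5) (nat_lit 463) (nat_lit 451) (nat_lit 286)))) (XT.nd (nat_lit 78) (nat_lit 608) (nat_lit 0) (XT.lf (nat_lit 0) (nat_lit 165999184017) (nat_lit 304) (nat_lit 155716491943) (nat_lit 380) (nat_lit 32931976927) (nat_lit 96) (nat_lit 5) (nat_lit 100) (nat_lit 5) (nat_lit 101) (nat_lit 5) (nat_lit 464) (nat_lit 451) (nat_lit 285)) (XT.nd (nat_lit 78) (nat_lit 304) (nat_lit 0) (XT.lf (nat_lit 0) (nat_lit 53402997768) (nat_lit 304) (nat_lit 240717580076) (nat_lit 76) (nat_lit 76941217647) (nat_lit 92) (nat_lit 5) (nat_lit 96) (nat_lit 5) (nat_lit 93) (nat_lit 5) (nat_lit 465) (nat_lit 451) (nat_lit 284)) (XT.lf (nat_lit 0) (nat_lit 92700148078) (nat_lit 304) (nat_lit 60219145098) (nat_lit 380) (nat_lit 235471367994) (nat_lit 88) (nat_lit 5) (nat_lit 92) (nat_lit 5) (nat_lit 93) (nat_lit 5) (nat_lit 466) (nat_lit 451) (nat_lit 283)))))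 (XT.nd (nat_lit 234) (nat_lit 912) (nat_lit 0) (XT.nd (nat_lit 78) (nat_lit 304) (nat_lit 0) (XT.lf (nat_lit 0) (nat_lit 53118497437) (nat_lit 228) (nat_lit 215373324253) (nat_lit 304) (nat_lit 138209267969) (nat_lit 85) (nat_lit 5) (nat_lit 88) (nat_lit 5) (nat_lit 89) (nat_lit 5) (nat_lit 467) (nat_lit 451) (nat_lit 282)) (XT.nd (nat_lit 78) (nat_lit 76) (nat_lit 0) (XT.lf (nat_lit 0) (nat_lit 12965571354) (nat_lit 228) (nat_lit 387319355415) (nat_lit 304) (nat_lit 25842686968) (nat_lit 82) (nat_lit 5) (nat_lit 85) (nat_lit 5) (nat_lit 86) (nat_lit 5) (nat_lit 468) (nat_lit 451) (nat_lit 281)) (XT.lf (nat_lit 0) (nat_lit 102347847964) (nat_lit 304) (nat_lit 30560308155) (nat_lit 76) (nat_lit 313630959845) (nat_lit 81) (nat_lit 5) (nat_lit 85) (nat_lit 5) (nat_lit 82) (nat_lit 5) (nat_lit 469) (nat_lit 451) (nat_lit 280)))) (XT.nd (nat_lit 156) (nat_lit 456) (nat_lit 0) (XT.nd (nat_lit 78)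 (nat_lit 228) (nat_lit 0) (XT.lf (nat_lit 0) (nat_lit 248387953371) (nat_lit 304) (nat_lit 75725089732) (nat_lit 76) (nat_lit 144024326279) (nat_lit 78) (nat_lit 5) (nat_lit 82) (nat_lit 5) (nat_lit 79) (nat_lit 5) (nat_lit 470) (nat_lit 451) (nat_lit 279)) (XT.lf (nat_lit 0) (nat_lit 368418893773) (nat_lit 228) (nat_lit 46226486165) (nat_lit 304) (nat_lit 76391397520) (nat_lit 75) (nat_lit 5) (nat_lit 78) (nat_lit 5) (nat_lit 79) (nat_lit 5) (nat_lit 471) (nat_lit 451) (nat_lit 278))) (XT.nd (nat_lit 78) (nat_lit 228) (nat_lit 0) (XT.lf (nat_lit 0) (nat_lit 86744427190) (nat_lit 228) (nat_lit 174576334740) (nat_lit 76) (nat_lit 253845167405) (nat_lit 72) (nat_lit 5) (nat_lit 75) (nat_lit 5) (nat_lit 73) (nat_lit 5) (nat_lit 472) (nat_lit 451) (nat_lit 277)) (XT.lf (nat_lit 0) (nat_lit 268797155281) (nat_lit 304) (nat_lit 229458243509) (nat_lit 76) (nat_lit 42480277697) (nat_lit 69) (nat_lit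 5) (nat_lit 73) (nat_lit 5) (nat_lit 70) (nat_lit 5) (nat_lit 473) (nat_lit 451) (nat_lit 276)))))) (XT.nd (nat_lit 546) (nat_lit 988) (nat_lit 0) (XT.nd (nat_lit 234) (nat_lit 608) (nat_lit 0) (XT.nd (nat_lit 78) (nat_lit 380) (nat_lit 0) (XT.lf (nat_lit 0) (nat_lit 278491780591) (nat_lit 152) (nat_lit 198767492198) (nat_lit 228) (nat_lit 90499472078) (nat_lit 67) (nat_lit 5) (nat_lit 69) (nat_lit 5) (nat_lit 70) (nat_lit 5) (nat_lit 474) (nat_lit 451) (nat_lit 275)) (XT.nd (nat_lit 78) (nat_lit 152) (nat_lit 0) (XT.lf (nat_lit 0) (nat_lit 112064373846) (nat_lit 228) (nat_lit 353924032529) (nat_lit 76) (nat_lit 130373686092) (nat_lit 64) (nat_lit 5) (nat_lit 67) (nat_lit 5) (nat_lit 65) (nat_lit 5) (nat_lit 475) (nat_lit 451) (nat_lit 274)) (XT.lf (nat_lit 0) (nat_lit 201496207308) (nat_lit 152) (nat_lit 137827733617) (nat_lit 228) (nat_lit 287272523360) (nat_lit 62) (nat_lit 5) (nat_lit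 64) (nat_lit 5) (nat_lit 65) (nat_lit 5) (nat_lit 476) (nat_lit 451) (nat_lit 273)))) (XT.nd (nat_lit 156) (nat_lit 228) (nat_lit 0) (XT.nd (nat_lit 78) (nat_lit 228) (nat_lit 0) (XT.lf (nat_lit 0) (nat_lit 156575975548) (nat_lit 152) (nat_lit 440280531702) (nat_lit 228) (nat_lit 61788466914) (nat_lit 60) (nat_lit 5) (nat_lit 62) (nat_lit 5) (nat_lit 63) (nat_lit 5) (nat_lit 477) (nat_lit 451) (nat_lit 272)) (XT.lf (nat_lit 0) (nat_lit 105162330495) (nat_lit 152) (nat_lit 82247560831) (nat_lit 228) (nat_lit 505130993908) (nat_lit 57) (nat_lit 5) (nat_lit 59) (nat_lit 5) (nat_lit 60) (nat_lit 5) (nat_lit 478) (nat_lit 451) (nat_lit 271))) (XT.nd (nat_lit 78) (nat_lit 76) (nat_lit 0) (XT.lf (nat_lit 0) (nat_lit 45714541740) (nat_lit 152) (nat_lit 423049489282) (nat_lit 228) (nat_lit 259614557906) (nat_lit 55) (nat_lit 5) (nat_lit 57) (nat_lit 5) (nat_lit 58) (nat_lit 5) (nat_lit 479) (nat_lit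 451) (nat_lit 270)) (XT.lf (nat_lit 0) (nat_lit 17152052787) (nat_lit 228) (nat_lit 17782756514) (nat_lit 76) (nat_lit 731554858556) (nat_lit 54) (nat_lit 5) (nat_lit 57) (nat_lit 5) (nat_lit 55) (nat_lit 5) (nat_lit 480) (nat_lit 451) (nat_lit 269))))) (XT.nd (nat_lit 234) (nat_lit 532) (nat_lit 0) (XT.nd (nat_lit 78) (nat_lit 304) (nat_lit 0) (XT.lf (nat_lit 0) (nat_lit 324564947989) (nat_lit 228) (nat_lit 94202855139) (nat_lit 76) (nat_lit 387789001907) (nat_lit 52) (nat_lit 5) (nat_lit 55) (nat_lit 5) (nat_lit 53) (nat_lit 5) (nat_lit 481) (nat_lit 451) (nat_lit 268)) (XT.nd (nat_lit 78) (nat_lit 152) (nat_lit 0) (XT.lf (nat_lit 0) (nat_lit 668049888203) (nat_lit 228) (nat_lit 176674296352) (nat_lit 76) (nat_lit 4531177968) (nat_lit 50) (nat_lit 5) (nat_lit 53) (nat_lit 5) (nat_lit 51) (nat_lit 4) (nat_lit 482) (nat_lit 451) (nat_lit 267)) (XT.lf (nat_lit 0) (nat_lit 157782277591) (nat_lit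 152) (nat_lit 275402493393) (nat_lit 76) (nat_lit 461136101612) (nat_lit 48) (nat_lit 5) (nat_lit 50) (nat_lit 5) (nat_lit 49) (nat_lit 5) (nat_lit 483) (nat_lit 451) (nat_lit 266)))) (XT.nd (nat_lit 156) (nat_lit 304) (nat_lit 0) (XT.nd (nat_lit 78) (nat_lit 76) (nat_lit 0) (XT.lf (nat_lit 0) (nat_lit 529859026330) (nat_lit 228) (nat_lit 386338256343) (nat_lit 76) (nat_lit 26029885038) (nat_lit 46) (nat_lit 5) (nat_lit 49) (nat_lit 5) (nat_lit 47) (nat_lit 4) (nat_lit 484) (nat_lit 451) (nat_lit 265)) (XT.lf (nat_lit 0) (nat_lit 477698380991) (nat_lit 76) (nat_lit 473641964141) (nat_lit 152) (nat_lit 41643699803) (nat_lit 45) (nat_lit 5) (nat_lit 46) (nat_lit 5) (nat_lit 47) (nat_lit 4) (nat_lit 485) (nat_lit 451) (nat_lit 264))) (XT.nd (nat_lit 78) (nat_lit 76) (nat_lit 0) (XT.lf (nat_lit 0) (nat_lit 360458022247) (nat_lit 228) (nat_lit 663489042808) (nat_lit 76) (nat_lit 22914301273) (nat_lit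 42) (nat_lit 5) (nat_lit 45) (nat_lit 5) (nat_lit 43) (nat_lit 4) (nat_lit 486) (nat_lit 451) (nat_lit 263)) (XT.lf (nat_lit 0) (nat_lit 267447672072) (nat_lit 76) (nat_lit 547125847219) (nat_lit 152) (nat_lit 289375988485) (nat_lit 41) (nat_lit 5) (nat_lit 42) (nat_lit 5) (nat_lit 43) (nat_lit 4) (nat_lit 487) (nat_lit 451) (nat_lit 262))))))))
noncomputable def xc115 : XT := (XT.nd (nat_lit 61386) (nat_lit 0) (nat_lit 76) (XT.nd (nat_lit 60294) (nat_lit 0) (nat_lit 2888) (XT.nd (nat_lit 59748) (nat_lit 0) (nat_lit 6536) (XT.nd (nat_lit 234) (nat_lit 228) (nat_lit 0) (XT.nd (nat_lit 78) (nat_lit 76) (nat_lit 0) (XT.lf (nat_lit 0) (nat_lit 133429890217) (nat_lit 152) (nat_lit 15351753391) (nat_lit 228) (nat_lit 1016022715495) (nat_lit 38) (nat_lit 5) (nat_lit 40) (nat_lit 5) (nat_lit 41) (nat_lit 5) (nat_lit 488) (nat_lit 451) (nat_lit 261)) (XT.nd (nat_lit 78) (nat_lit 76) (nat_lit 0) (XT.lf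 (nat_lit 0) (nat_lit 635526255732) (nat_lit 228) (nat_lit 32817022301) (nat_lit 76) (nat_lit 560763492351) (nat_lit 38) (nat_lit 5) (nat_lit 41) (nat_lit 5) (nat_lit 39) (nat_lit 4) (nat_lit 489) (nat_lit 451) (nat_lit 260)) (XT.lf (nat_lit 0) (nat_lit 1079930616753) (nat_lit 76) (nat_lit 98399385284) (nat_lit 152) (nat_lit 119367394271) (nat_lit 37) (nat_lit 5) (nat_lit 38) (nat_lit 5) (nat_lit 39) (nat_lit 4) (nat_lit 490) (nat_lit 451) (nat_lit 259)))) (XT.nd (nat_lit 78) (nat_lit 76) (nat_lit 0) (XT.lf (nat_lit 0) (nat_lit 403812082584) (nat_lit 152) (nat_lit 444228969052) (nat_lit 76) (nat_lit 522247558247) (nat_lit 35) (nat_lit 5) (nat_lit 37) (nat_lit 5) (nat_lit 36) (nat_lit 4) (nat_lit 491) (nat_lit 451) (nat_lit 258)) (XT.nd (nat_lit 59358) (nat_lit 0) (nat_lit 6916) (XT.lf (nat_lit 0) (nat_lit 740642078414) (nat_lit 76) (nat_lit 241155897261) (nat_lit 152) (nat_lit 465934597238)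 (nat_lit 34) (nat_lit 5) (nat_lit 35) (nat_lit 5) (nat_lit 36) (nat_lit 4) (nat_lit 492) (nat_lit 451) (nat_lit 257)) (XT.lf (nat_lit 0) (nat_lit 37174262219) (nat_lit 836) (nat_lit 36996181067) (nat_lit 836) (nat_lit 36996181067) (nat_lit 125) (nat_lit 3) (nat_lit 136) (nat_lit 3) (nat_lit 136) (nat_lit 5) (nat_lit 452) (nat_lit 452) (nat_lit 296))))) (XT.nd (nat_lit 234) (nat_lit 456) (nat_lit 0) (XT.nd (nat_lit 78) (nat_lit 0) (nat_lit 0) (XT.lf (nat_lit 0) (nat_lit 79326696155) (nat_lit 760) (nat_lit 127939187358) (nat_lit 836) (nat_lit 23860482813) (nat_lit 126) (nat_lit 5) (nat_lit 136) (nat_lit 5) (nat_lit 137) (nat_lit 5) (nat_lit 453) (nat_lit 452) (nat_lit 295)) (XT.nd (nat_lit 78) (nat_lit 0) (nat_lit 76) (XT.lf (nat_lit 76) (nat_lit 55891154270) (nat_lit 0) (nat_lit 33495708155) (nat_lit 836) (nat_lit 151001883970) (nat_lit 127) (nat_lit 5) (nat_lit 126) (nat_lit 5) (nat_lit 137)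 (nat_lit 5) (nat_lit 454) (nat_lit 452) (nat_lit 294)) (XT.lf (nat_lit 76) (nat_lit 6479505922) (nat_lit 0) (nat_lit 98545583504) (nat_lit 836) (nat_lit 145128365144) (nat_lit 128) (nat_lit 5) (nat_lit 127) (nat_lit 5) (nat_lit 138) (nat_lit 5) (nat_lit 455) (nat_lit 452) (nat_lit 293)))) (XT.nd (nat_lit 156) (nat_lit 608) (nat_lit 0) (XT.nd (nat_lit 78) (nat_lit 0) (nat_lit 76) (XT.lf (nat_lit 0) (nat_lit 127136577533) (nat_lit 760) (nat_lit 43224208844) (nat_lit 836) (nat_lit 90077442942) (nat_lit 128) (nat_lit 5) (nat_lit 138) (nat_lit 5) (nat_lit 139) (nat_lit 5) (nat_lit 456) (nat_lit 452) (nat_lit 292)) (XT.lf (nat_lit 0) (nat_lit 155787003985) (nat_lit 760) (nat_lit 94391519485) (nat_lit 836) (nat_lit 21128761678) (nat_lit 129) (nat_lit 5) (nat_lit 139) (nat_lit 5) (nat_lit 140) (nat_lit 5) (nat_lit 457) (nat_lit 452) (nat_lit 291))) (XT.nd (nat_lit 78) (nat_lit 684) (nat_lit 0) (XT.lf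 (nat_lit 76) (nat_lit 134626054213) (nat_lit 0) (nat_lit 57843022997) (nat_lit 836) (nat_lit 90289807656) (nat_lit 130) (nat_lit 5) (nat_lit 129) (nat_lit 5) (nat_lit 140) (nat_lit 5) (nat_lit 458) (nat_lit 452) (nat_lit 290)) (XT.lf (nat_lit 0) (nat_lit 90831377068) (nat_lit 760) (nat_lit 146683559199) (nat_lit 836) (nat_lit 57340215352) (nat_lit 120) (nat_lit 5) (nat_lit 130) (nat_lit 5) (nat_lit 131) (nat_lit 5) (nat_lit 459) (nat_lit 452) (nat_lit 289)))))) (XT.nd (nat_lit 546) (nat_lit 1520) (nat_lit 0) (XT.nd (nat_lit 234) (nat_lit 1292) (nat_lit 0) (XT.nd (nat_lit 78) (nat_lit 456) (nat_lit 0) (XT.lf (nat_lit 0) (nat_lit 45931490343) (nat_lit 380) (nat_lit 245481209263) (nat_lit 456) (nat_lit 16244008377) (nat_lit 115) (nat_lit 5) (nat_lit 120) (nat_lit 5) (nat_lit 121) (nat_lit 5) (nat_lit 460) (nat_lit 452) (nat_lit 288)) (XT.nd (nat_lit 78) (nat_lit 380) (nat_lit 0) (XT.lf (nat_lit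 0) (nat_lit 33324691799) (nat_lit 456) (nat_lit 1106975529) (nat_lit 76) (nat_lit 286724481990) (nat_lit 114) (nat_lit 5) (nat_lit 120) (nat_lit 5) (nat_lit 115) (nat_lit 5) (nat_lit 461) (nat_lit 452) (nat_lit 287)) (XT.lf (nat_lit 0) (nat_lit 93914448571) (nat_lit 456) (nat_lit 49247998665) (nat_lit 76) (nat_lit 192178550428) (nat_lit 109) (nat_lit 5) (nat_lit 115) (nat_lit 5) (nat_lit 110) (nat_lit 5) (nat_lit 462) (nat_lit 452) (nat_lit 286)))) (XT.nd (nat_lit 156) (nat_lit 608) (nat_lit 0) (XT.nd (nat_lit 78) (nat_lit 304) (nat_lit 0) (XT.lf (nat_lit 0) (nat_lit 165297864274) (nat_lit 456) (nat_lit 98655833629) (nat_lit 76) (nat_lit 86409612094) (nat_lit 104) (nat_lit 5) (nat_lit 110) (nat_lit 5) (nat_lit 105) (nat_lit 5) (nat_lit 463) (nat_lit 452) (nat_lit 285)) (XT.lf (nat_lit 0) (nat_lit 216453197575) (nat_lit 304) (nat_lit 32604003731) (nat_lit 380) (nat_lit 117196943640) (nat_lit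 100) (nat_lit 5) (nat_lit 104) (nat_lit 5) (nat_lit 105) (nat_lit 5) (nat_lit 464) (nat_lit 452) (nat_lit 284))) (XT.nd (nat_lit 78) (nat_lit 304) (nat_lit 0) (XT.lf (nat_lit 0) (nat_lit 179281497108) (nat_lit 304) (nat_lit 168173407518) (nat_lit 380) (nat_lit 35564461132) (nat_lit 96) (nat_lit 5) (nat_lit 100) (nat_lit 5) (nat_lit 101) (nat_lit 5) (nat_lit 465) (nat_lit 452) (nat_lit 283)) (XT.lf (nat_lit 0) (nat_lit 57677139898) (nat_lit 304) (nat_lit 259972559005) (nat_lit 76) (nat_lit 83096944555) (nat_lit 92) (nat_lit 5) (nat_lit 96) (nat_lit 5) (nat_lit 93) (nat_lit 5) (nat_lit 466) (nat_lit 452) (nat_lit 282))))) (XT.nd (nat_lit 234) (nat_lit 760) (nat_lit 0) (XT.nd (nat_lit 78) (nat_lit 456) (nat_lit 0) (XT.lf (nat_lit 0) (nat_lit 100118481906) (nat_lit 304) (nat_lit 65036152373) (nat_lit 380) (nat_lit 254307189386) (nat_lit 88) (nat_lit 5) (nat_lit 92) (nat_lit 5) (nat_lit 93) (nat_lit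 5) (nat_lit 467) (nat_lit 452) (nat_lit 281)) (XT.nd (nat_lit 78) (nat_lit 228) (nat_lit 0) (XT.lf (nat_lit 0) (nat_lit 57370276941) (nat_lit 228) (nat_lit 232602598458) (nat_lit 304) (nat_lit 149264215556) (nat_lit 85) (nat_lit 5) (nat_lit 88) (nat_lit 5) (nat_lit 89) (nat_lit 5) (nat_lit 468) (nat_lit 452) (nat_lit 280)) (XT.lf (nat_lit 0) (nat_lit 14005090136) (nat_lit 228) (nat_lit 418304256276) (nat_lit 304) (nat_lit 27908394707) (nat_lit 82) (nat_lit 5) (nat_lit 85) (nat_lit 5) (nat_lit 86) (nat_lit 5) (nat_lit 469) (nat_lit 452) (nat_lit 279)))) (XT.nd (nat_lit 156) (nat_lit 456) (nat_lit 0) (XT.nd (nat_lit 78) (nat_lit 228) (nat_lit 0) (XT.lf (nat_lit 0) (nat_lit 110537205965) (nat_lit 304) (nat_lit 33002977126) (nat_lit 76) (nat_lit 338721985252) (nat_lit 81) (nat_lit 5) (nat_lit 85) (nat_lit 5) (nat_lit 82) (nat_lit 5) (nat_lit 470) (nat_lit 452) (nat_lit 278)) (XT.lf (nat_lit 0)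 (nat_lit 268260448223) (nat_lit 304) (nat_lit 81780971672) (nat_lit 76) (nat_lit 155546865748) (nat_lit 78) (nat_lit 5) (nat_lit 82) (nat_lit 5) (nat_lit 79) (nat_lit 5) (nat_lit 471) (nat_lit 452) (nat_lit 277))) (XT.nd (nat_lit 78) (nat_lit 228) (nat_lit 0) (XT.lf (nat_lit 0) (nat_lit 397894438154) (nat_lit 228) (nat_lit 49923954457) (nat_lit 304) (nat_lit 82501257596) (nat_lit 75) (nat_lit 5) (nat_lit 78) (nat_lit 5) (nat_lit 79) (nat_lit 5) (nat_lit 472) (nat_lit 452) (nat_lit 276)) (XT.lf (nat_lit 0) (nat_lit 93685323850) (nat_lit 228) (nat_lit 188540395590) (nat_lit 76) (nat_lit 274153416823) (nat_lit 72) (nat_lit 5) (nat_lit 75) (nat_lit 5) (nat_lit 73) (nat_lit 5) (nat_lit 473) (nat_lit 452) (nat_lit 275))))))) (XT.nd (nat_lit 1014) (nat_lit 760) (nat_lit 0) (XT.nd (nat_lit 468) (nat_lit 912) (nat_lit 0) (XT.nd (nat_lit 234) (nat_lit 532) (nat_lit 0) (XT.nd (nat_lit 78) (nat_lit 380)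 (nat_lit 0) (XT.lf (nat_lit 0) (nat_lit 290302211969) (nat_lit 304) (nat_lit 247812892692) (nat_lit 76) (nat_lit 45879361459) (nat_lit 69) (nat_lit 5) (nat_lit 73) (nat_lit 5) (nat_lit 70) (nat_lit 5) (nat_lit 474) (nat_lit 452) (nat_lit 274)) (XT.nd (nat_lit 78) (nat_lit 228) (nat_lit 0) (XT.lf (nat_lit 0) (nat_lit 300773045971) (nat_lit 152) (nat_lit 214668187799) (nat_lit 228) (nat_lit 97738149476) (nat_lit 67) (nat_lit 5) (nat_lit 69) (nat_lit 5) (nat_lit 70) (nat_lit 5) (nat_lit 475) (nat_lit 452) (nat_lit 273)) (XT.lf (nat_lit 0) (nat_lit 121030711627) (nat_lit 228) (nat_lit 382236028228) (nat_lit 76) (nat_lit 140804260393) (nat_lit 64) (nat_lit 5) (nat_lit 67) (nat_lit 5) (nat_lit 65) (nat_lit 5) (nat_lit 476) (nat_lit 452) (nat_lit 272)))) (XT.nd (nat_lit 78) (nat_lit 380) (nat_lit 0) (XT.lf (nat_lit 0) (nat_lit 217617747054) (nat_lit 152) (nat_lit 148853237804) (nat_lit 228) (nat_lit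 310253139930) (nat_lit 62) (nat_lit 5) (nat_lit 64) (nat_lit 5) (nat_lit 65) (nat_lit 5) (nat_lit 477) (nat_lit 452) (nat_lit 271)) (XT.nd (nat_lit 78) (nat_lit 228) (nat_lit 0) (XT.lf (nat_lit 0) (nat_lit 169103860160) (nat_lit 152) (nat_lit 475502251260) (nat_lit 228) (nat_lit 66730406307) (nat_lit 60) (nat_lit 5) (nat_lit 62) (nat_lit 5) (nat_lit 63) (nat_lit 5) (nat_lit 478) (nat_lit 452) (nat_lit 270)) (XT.lf (nat_lit 0) (nat_lit 113577080004) (nat_lit 152) (nat_lit 88826650097) (nat_lit 228) (nat_lit 545540373409) (nat_lit 57) (nat_lit 5) (nat_lit 59) (nat_lit 5) (nat_lit 60) (nat_lit 5) (nat_lit 479) (nat_lit 452) (nat_lit 269))))) (XT.nd (nat_lit 234) (nat_lit 532) (nat_lit 0) (XT.nd (nat_lit 78) (nat_lit 228) (nat_lit 0) (XT.lf (nat_lit 0) (nat_lit 49373431099) (nat_lit 152) (nat_lit 456892729576) (nat_lit 228) (nat_lit 280382664853) (nat_lit 55) (nat_lit 5) (nat_lit 57) (nat_lit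 5) (nat_lit 58) (nat_lit 5) (nat_lit 480) (nat_lit 452) (nat_lit 268)) (XT.nd (nat_lit 78) (nat_lit 152) (nat_lit 0) (XT.lf (nat_lit 0) (nat_lit 18525165005) (nat_lit 228) (nat_lit 19203747387) (nat_lit 76) (nat_lit 790079881358) (nat_lit 54) (nat_lit 5) (nat_lit 57) (nat_lit 5) (nat_lit 55) (nat_lit 5) (nat_lit 481) (nat_lit 452) (nat_lit 267)) (XT.lf (nat_lit 0) (nat_lit 350531056191) (nat_lit 228) (nat_lit 101737489744) (nat_lit 76) (nat_lit 418812757757) (nat_lit 52) (nat_lit 5) (nat_lit 55) (nat_lit 5) (nat_lit 53) (nat_lit 5) (nat_lit 482) (nat_lit 452) (nat_lit 266)))) (XT.nd (nat_lit 156) (nat_lit 228) (nat_lit 0) (XT.nd (nat_lit 78) (nat_lit 152) (nat_lit 0) (XT.lf (nat_lit 0) (nat_lit 721494758084) (nat_lit 228) (nat_lit 190806682213) (nat_lit 76) (nat_lit 4894307169) (nat_lit 50) (nat_lit 5) (nat_lit 53) (nat_lit 5) (nat_lit 51) (nat_lit 4) (nat_lit 483) (nat_lit 452) (nat_lit 265))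 (XT.lf (nat_lit 0) (nat_lit 170405710617) (nat_lit 152) (nat_lit 297433174484) (nat_lit 76) (nat_lit 498027614658) (nat_lit 48) (nat_lit 5) (nat_lit 50) (nat_lit 5) (nat_lit 49) (nat_lit 5) (nat_lit 484) (nat_lit 452) (nat_lit 264))) (XT.nd (nat_lit 78) (nat_lit 76) (nat_lit 0) (XT.lf (nat_lit 0) (nat_lit 572248568930) (nat_lit 228) (nat_lit 417243833860) (nat_lit 76) (nat_lit 28112897219) (nat_lit 46) (nat_lit 5) (nat_lit 49) (nat_lit 5) (nat_lit 47) (nat_lit 4) (nat_lit 485) (nat_lit 452) (nat_lit 263)) (XT.lf (nat_lit 0) (nat_lit 515915670012) (nat_lit 76) (nat_lit 511532684594) (nat_lit 152) (nat_lit 44974374742) (nat_lit 45) (nat_lit 5) (nat_lit 46) (nat_lit 5) (nat_lit 47) (nat_lit 4) (nat_lit 486) (nat_lit 452) (nat_lit 262)))))) (XT.nd (nat_lit 59904) (nat_lit 0) (nat_lit 6460) (XT.nd (nat_lit 234) (nat_lit 228) (nat_lit 0) (XT.nd (nat_lit 78) (nat_lit 304) (nat_lit 0) (XT.lf (nat_lit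 0) (nat_lit 389295431253) (nat_lit 228) (nat_lit 716566755921) (nat_lit 76) (nat_lit 24748050020) (nat_lit 42) (nat_lit 5) (nat_lit 45) (nat_lit 5) (nat_lit 43) (nat_lit 4) (nat_lit 487) (nat_lit 452) (nat_lit 261)) (XT.nd (nat_lit 78) (nat_lit 228) (nat_lit 0) (XT.lf (nat_lit 0) (nat_lit 288844834859) (nat_lit 76) (nat_lit 590895297432) (nat_lit 152) (nat_lit 312525299461) (nat_lit 41) (nat_lit 5) (nat_lit 42) (nat_lit 5) (nat_lit 43) (nat_lit 4) (nat_lit 488) (nat_lit 452) (nat_lit 260)) (XT.lf (nat_lit 0) (nat_lit 144105595411) (nat_lit 152) (nat_lit 16579288644) (nat_lit 228) (nat_lit 1097303788265) (nat_lit 38) (nat_lit 5) (nat_lit 40) (nat_lit 5) (nat_lit 41) (nat_lit 5) (nat_lit 489) (nat_lit 452) (nat_lit 259)))) (XT.nd (nat_lit 156) (nat_lit 152) (nat_lit 0) (XT.nd (nat_lit 78) (nat_lit 76) (nat_lit 0) (XT.lf (nat_lit 0) (nat_lit 686369021379) (nat_lit 228) (nat_lit 35441143305) (nat_lit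 76) (nat_lit 605625114012) (nat_lit 38) (nat_lit 5) (nat_lit 41) (nat_lit 5) (nat_lit 39) (nat_lit 4) (nat_lit 490) (nat_lit 452) (nat_lit 258)) (XT.lf (nat_lit 0) (nat_lit 1166326252951) (nat_lit 76) (nat_lit 106270783695) (nat_lit 152) (nat_lit 128916119590) (nat_lit 37) (nat_lit 5) (nat_lit 38) (nat_lit 5) (nat_lit 39) (nat_lit 4) (nat_lit 491) (nat_lit 452) (nat_lit 257))) (XT.nd (nat_lit 59436) (nat_lit 0) (nat_lit 6840) (XT.lf (nat_lit 0) (nat_lit 436117672803) (nat_lit 152) (nat_lit 479766108484) (nat_lit 76) (nat_lit 564027886157) (nat_lit 35) (nat_lit 5) (nat_lit 37) (nat_lit 5) (nat_lit 36) (nat_lit 4) (nat_lit 492) (nat_lit 452) (nat_lit 256)) (XT.lf (nat_lit 0) (nat_lit 40150188511) (nat_lit 836) (nat_lit 39954832876) (nat_lit 836) (nat_lit 39954832876) (nat_lit 125) (nat_lit 3) (nat_lit 136) (nat_lit 3) (nat_lit 136) (nat_lit 5) (nat_lit 453) (nat_lit 453) (nat_lit 294))))) (XT.nd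 (nat_lit 234) (nat_lit 456) (nat_lit 0) (XT.nd (nat_lit 78) (nat_lit 0) (nat_lit 0) (XT.lf (nat_lit 0) (nat_lit 85676512755) (nat_lit 760) (nat_lit 138172114065) (nat_lit 836) (nat_lit 25767663337) (nat_lit 126) (nat_lit 5) (nat_lit 136) (nat_lit 5) (nat_lit 137) (nat_lit 5) (nat_lit 454) (nat_lit 453) (nat_lit 293)) (XT.nd (nat_lit 78) (nat_lit 0) (nat_lit 76) (XT.lf (nat_lit 76) (nat_lit 60364558925) (nat_lit 0) (nat_lit 36176693722) (nat_lit 836) (nat_lit 163078420074) (nat_lit 127) (nat_lit 5) (nat_lit 126) (nat_lit 5) (nat_lit 137) (nat_lit 5) (nat_lit 455) (nat_lit 453) (nat_lit 292)) (XT.lf (nat_lit 76) (nat_lit 7000072607) (nat_lit 0) (nat_lit 106430225528) (nat_lit 836) (nat_lit 156735271496) (nat_lit 128) (nat_lit 5) (nat_lit 127) (nat_lit 5) (nat_lit 138) (nat_lit 5) (nat_lit 456) (nat_lit 453) (nat_lit 291)))) (XT.nd (nat_lit 156) (nat_lit 608) (nat_lit 0) (XT.nd (nat_lit 78) (nat_lit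 0) (nat_lit 76) (XT.lf (nat_lit 0) (nat_lit 137310453750) (nat_lit 760) (nat_lit 46679939019) (nat_lit 836) (nat_lit 97282746260) (nat_lit 128) (nat_lit 5) (nat_lit 138) (nat_lit 5) (nat_lit 139) (nat_lit 5) (nat_lit 457) (nat_lit 453) (nat_lit 290)) (XT.lf (nat_lit 0) (nat_lit 168252718543) (nat_lit 760) (nat_lit 101940580922) (nat_lit 836) (nat_lit 22818429731) (nat_lit 129) (nat_lit 5) (nat_lit 139) (nat_lit 5) (nat_lit 140) (nat_lit 5) (nat_lit 458) (nat_lit 453) (nat_lit 289))) (XT.nd (nat_lit 78) (nat_lit 684) (nat_lit 0) (XT.lf (nat_lit 76) (nat_lit 145398300450) (nat_lit 0) (nat_lit 62470886913) (nat_lit 836) (nat_lit 97510278121) (nat_lit 130) (nat_lit 5) (nat_lit 129) (nat_lit 5) (nat_lit 140) (nat_lit 5) (nat_lit 459) (nat_lit 453) (nat_lit 288)) (XT.lf (nat_lit 0) (nat_lit 98100085998) (nat_lit 760) (nat_lit 158418465967) (nat_lit 836) (nat_lit 61924889842) (nat_lit 120) (nat_lit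 5) (nat_lit 130) (nat_lit 5) (nat_lit 131) (nat_lit 5) (nat_lit 460) (nat_lit 453) (nat_lit 287))))))))
noncomputable def xc116 : XT := (XT.nd (nat_lit 2028) (nat_lit 684) (nat_lit 0) (XT.nd (nat_lit 1014) (nat_lit 2204) (nat_lit 0) (XT.nd (nat_lit 468) (nat_lit 1596) (nat_lit 0) (XT.nd (nat_lit 234) (nat_lit 988) (nat_lit 0) (XT.nd (nat_lit 78) (nat_lit 456) (nat_lit 0) (XT.lf (nat_lit 0) (nat_lit 49608232737) (nat_lit 380) (nat_lit 265119755816) (nat_lit 456) (nat_lit 17541141585) (nat_lit 115) (nat_lit 5) (nat_lit 120) (nat_lit 5) (nat_lit 121) (nat_lit 5) (nat_lit 461) (nat_lit 453) (nat_lit 286)) (XT.nd (nat_lit 78) (nat_lit 380) (nat_lit 0) (XT.lf (nat_lit 0) (nat_lit 35992807002) (nat_lit 456) (nat_lit 1193403595) (nat_lit 76) (nat_lit 309662322938) (nat_lit 114) (nat_lit 5) (nat_lit 120) (nat_lit 5) (nat_lit 115) (nat_lit 5) (nat_lit 462) (nat_lit 453) (nat_lit 285)) (XT.lf (nat_lit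 0) (nat_lit 101429617997) (nat_lit 456) (nat_lit 53185700187) (nat_lit 76) (nat_lit 207552857936) (nat_lit 109) (nat_lit 5) (nat_lit 115) (nat_lit 5) (nat_lit 110) (nat_lit 5) (nat_lit 463) (nat_lit 453) (nat_lit 284)))) (XT.nd (nat_lit 78) (nat_lit 608) (nat_lit 0) (XT.lf (nat_lit 0) (nat_lit 178523592068) (nat_lit 456) (nat_lit 106546161760) (nat_lit 76) (nat_lit 93322525405) (nat_lit 104) (nat_lit 5) (nat_lit 110) (nat_lit 5) (nat_lit 105) (nat_lit 5) (nat_lit 464) (nat_lit 453) (nat_lit 283)) (XT.nd (nat_lit 78) (nat_lit 304) (nat_lit 0) (XT.lf (nat_lit 0) (nat_lit 233771499001) (nat_lit 304) (nat_lit 35212068358) (nat_lit 380) (nat_lit 126570819101) (nat_lit 100) (nat_lit 5) (nat_lit 104) (nat_lit 5) (nat_lit 105) (nat_lit 5) (nat_lit 465) (nat_lit 453) (nat_lit 282)) (XT.lf (nat_lit 0) (nat_lit 193626055946) (nat_lit 304) (nat_lit 181626933942) (nat_lit 380) (nat_lit 38407839945) (nat_lit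 96) (nat_lit 5) (nat_lit 100) (nat_lit 5) (nat_lit 101) (nat_lit 5) (nat_lit 466) (nat_lit 453) (nat_lit 281))))) (XT.nd (nat_lit 234) (nat_lit 760) (nat_lit 0) (XT.nd (nat_lit 78) (nat_lit 532) (nat_lit 0) (XT.lf (nat_lit 0) (nat_lit 62292942012) (nat_lit 304) (nat_lit 280768282556) (nat_lit 76) (nat_lit 89745068344) (nat_lit 92) (nat_lit 5) (nat_lit 96) (nat_lit 5) (nat_lit 93) (nat_lit 5) (nat_lit 467) (nat_lit 453) (nat_lit 280)) (XT.nd (nat_lit 78) (nat_lit 228) (nat_lit 0) (XT.lf (nat_lit 0) (nat_lit 108129951183) (nat_lit 304) (nat_lit 70238595033) (nat_lit 380) (nat_lit 274650145841) (nat_lit 88) (nat_lit 5) (nat_lit 92) (nat_lit 5) (nat_lit 93) (nat_lit 5) (nat_lit 468) (nat_lit 453) (nat_lit 279)) (XT.lf (nat_lit 0) (nat_lit 61961870726) (nat_lit 228) (nat_lit 251210299018) (nat_lit 304) (nat_lit 161203814862) (nat_lit 85) (nat_lit 5) (nat_lit 88) (nat_lit 5) (nat_lit 89) (nat_lit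 5) (nat_lit 469) (nat_lit 453) (nat_lit 278)))) (XT.nd (nat_lit 156) (nat_lit 456) (nat_lit 0) (XT.nd (nat_lit 78) (nat_lit 76) (nat_lit 0) (XT.lf (nat_lit 0) (nat_lit 15127446141) (nat_lit 228) (nat_lit 451768041590) (nat_lit 304) (nat_lit 30139602619) (nat_lit 82) (nat_lit 5) (nat_lit 85) (nat_lit 5) (nat_lit 86) (nat_lit 5) (nat_lit 470) (nat_lit 453) (nat_lit 277)) (XT.lf (nat_lit 0) (nat_lit 119381494310) (nat_lit 304) (nat_lit 35641367147) (nat_lit 76) (nat_lit 365820214426) (nat_lit 81) (nat_lit 5) (nat_lit 85) (nat_lit 5) (nat_lit 82) (nat_lit 5) (nat_lit 471) (nat_lit 453) (nat_lit 276))) (XT.nd (nat_lit 78) (nat_lit 228) (nat_lit 0) (XT.lf (nat_lit 0) (nat_lit 289722534580) (nat_lit 304) (nat_lit 88321627356) (nat_lit 76) (nat_lit 167991123725) (nat_lit 78) (nat_lit 5) (nat_lit 82) (nat_lit 5) (nat_lit 79) (nat_lit 5) (nat_lit 472) (nat_lit 453) (nat_lit 275)) (XT.lf (nat_lit 0)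 (nat_lit 429727736072) (nat_lit 228) (nat_lit 53917313029) (nat_lit 304) (nat_lit 89100113582) (nat_lit 75) (nat_lit 5) (nat_lit 78) (nat_lit 5) (nat_lit 79) (nat_lit 5) (nat_lit 473) (nat_lit 453) (nat_lit 274)))))) (XT.nd (nat_lit 468) (nat_lit 1064) (nat_lit 0) (XT.nd (nat_lit 234) (nat_lit 532) (nat_lit 0) (XT.nd (nat_lit 78) (nat_lit 380) (nat_lit 0) (XT.lf (nat_lit 0) (nat_lit 101181300722) (nat_lit 228) (nat_lit 203621873184) (nat_lit 76) (nat_lit 296086235458) (nat_lit 72) (nat_lit 5) (nat_lit 75) (nat_lit 5) (nat_lit 73) (nat_lit 5) (nat_lit 474) (nat_lit 453) (nat_lit 273)) (XT.nd (nat_lit 78) (nat_lit 152) (nat_lit 0) (XT.lf (nat_lit 0) (nat_lit 313527489978) (nat_lit 304) (nat_lit 267636200602) (nat_lit 76) (nat_lit 49550277544) (nat_lit 69) (nat_lit 5) (nat_lit 73) (nat_lit 5) (nat_lit 70) (nat_lit 5) (nat_lit 475) (nat_lit 453) (nat_lit 272)) (XT.lf (nat_lit 0) (nat_lit 324836538253)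 (nat_lit 152) (nat_lit 231841039450) (nat_lit 228) (nat_lit 105556103726) (nat_lit 67) (nat_lit 5) (nat_lit 69) (nat_lit 5) (nat_lit 70) (nat_lit 5) (nat_lit 476) (nat_lit 453) (nat_lit 271)))) (XT.nd (nat_lit 78) (nat_lit 304) (nat_lit 0) (XT.lf (nat_lit 0) (nat_lit 130714186966) (nat_lit 228) (nat_lit 412813258478) (nat_lit 76) (nat_lit 152069183712) (nat_lit 64) (nat_lit 5) (nat_lit 67) (nat_lit 5) (nat_lit 65) (nat_lit 5) (nat_lit 477) (nat_lit 453) (nat_lit 270)) (XT.nd (nat_lit 78) (nat_lit 152) (nat_lit 0) (XT.lf (nat_lit 0) (nat_lit 235028747033) (nat_lit 152) (nat_lit 160760884257) (nat_lit 228) (nat_lit 335072374922) (nat_lit 62) (nat_lit 5) (nat_lit 64) (nat_lit 5) (nat_lit 65) (nat_lit 5) (nat_lit 478) (nat_lit 453) (nat_lit 269)) (XT.lf (nat_lit 0) (nat_lit 182633717813) (nat_lit 152) (nat_lit 513541811524) (nat_lit 228) (nat_lit 72067863194) (nat_lit 60) (nat_lit 5) (nat_lit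 62) (nat_lit 5) (nat_lit 63) (nat_lit 5) (nat_lit 479) (nat_lit 453) (nat_lit 268))))) (XT.nd (nat_lit 234) (nat_lit 608) (nat_lit 0) (XT.nd (nat_lit 78) (nat_lit 228) (nat_lit 0) (XT.lf (nat_lit 0) (nat_lit 122664757952) (nat_lit 152) (nat_lit 95932168593) (nat_lit 228) (nat_lit 589182660200) (nat_lit 57) (nat_lit 5) (nat_lit 59) (nat_lit 5) (nat_lit 60) (nat_lit 5) (nat_lit 480) (nat_lit 453) (nat_lit 267)) (XT.nd (nat_lit 78) (nat_lit 76) (nat_lit 0) (XT.lf (nat_lit 0) (nat_lit 53324785371) (nat_lit 152) (nat_lit 493443531646) (nat_lit 228) (nat_lit 302812371245) (nat_lit 55) (nat_lit 5) (nat_lit 57) (nat_lit 5) (nat_lit 58) (nat_lit 5) (nat_lit 481) (nat_lit 453) (nat_lit 266)) (XT.lf (nat_lit 0) (nat_lit 20007990957) (nat_lit 228) (nat_lit 20738650016) (nat_lit 76) (nat_lit 853286815520) (nat_lit 54) (nat_lit 5) (nat_lit 57) (nat_lit 5) (nat_lit 55) (nat_lit 5) (nat_lit 482) (nat_lit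 453) (nat_lit 265)))) (XT.nd (nat_lit 156) (nat_lit 304) (nat_lit 0) (XT.nd (nat_lit 78) (nat_lit 152) (nat_lit 0) (XT.lf (nat_lit 0) (nat_lit 378574322891) (nat_lit 228) (nat_lit 109875122492) (nat_lit 76) (nat_lit 452318323386) (nat_lit 52) (nat_lit 5) (nat_lit 55) (nat_lit 5) (nat_lit 53) (nat_lit 5) (nat_lit 483) (nat_lit 453) (nat_lit 264)) (XT.lf (nat_lit 0) (nat_lit 779215092181) (nat_lit 228) (nat_lit 206069881188) (nat_lit 76) (nat_lit 5286396121) (nat_lit 50) (nat_lit 5) (nat_lit 53) (nat_lit 5) (nat_lit 51) (nat_lit 4) (nat_lit 484) (nat_lit 453) (nat_lit 263))) (XT.nd (nat_lit 78) (nat_lit 152) (nat_lit 0) (XT.lf (nat_lit 0) (nat_lit 184038896906) (nat_lit 152) (nat_lit 321226526676) (nat_lit 76) (nat_lit 537870359596) (nat_lit 48) (nat_lit 5) (nat_lit 50) (nat_lit 5) (nat_lit 49) (nat_lit 5) (nat_lit 485) (nat_lit 453) (nat_lit 262)) (XT.lf (nat_lit 0) (nat_lit 618029157885) (nat_lit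 228) (nat_lit 450622069143) (nat_lit 76) (nat_lit 30362461727) (nat_lit 46) (nat_lit 5) (nat_lit 49) (nat_lit 5) (nat_lit 47) (nat_lit 4) (nat_lit 486) (nat_lit 453) (nat_lit 261))))))) (XT.nd (nat_lit 60450) (nat_lit 0) (nat_lit 2888) (XT.nd (nat_lit 59904) (nat_lit 0) (nat_lit 6688) (XT.nd (nat_lit 234) (nat_lit 304) (nat_lit 0) (XT.nd (nat_lit 78) (nat_lit 304) (nat_lit 0) (XT.lf (nat_lit 0) (nat_lit 557190139784) (nat_lit 76) (nat_lit 552454753512) (nat_lit 152) (nat_lit 48571620807) (nat_lit 45) (nat_lit 5) (nat_lit 46) (nat_lit 5) (nat_lit 47) (nat_lit 4) (nat_lit 487) (nat_lit 453) (nat_lit 260)) (XT.nd (nat_lit 78) (nat_lit 76) (nat_lit 0) (XT.lf (nat_lit 0) (nat_lit 420439723526) (nat_lit 228) (nat_lit 773890887280) (nat_lit 76) (nat_lit 26728412408) (nat_lit 42) (nat_lit 5) (nat_lit 45) (nat_lit 5) (nat_lit 43) (nat_lit 4) (nat_lit 488) (nat_lit 453) (nat_lit 259)) (XT.lf (nat_lit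 0) (nat_lit 311953578216) (nat_lit 76) (nat_lit 638166391764) (nat_lit 152) (nat_lit 337526664894) (nat_lit 41) (nat_lit 5) (nat_lit 42) (nat_lit 5) (nat_lit 43) (nat_lit 4) (nat_lit 489) (nat_lit 453) (nat_lit 258)))) (XT.nd (nat_lit 78) (nat_lit 76) (nat_lit 0) (XT.lf (nat_lit 0) (nat_lit 155635169567) (nat_lit 152) (nat_lit 17905113030) (nat_lit 228) (nat_lit 1185087453063) (nat_lit 38) (nat_lit 5) (nat_lit 40) (nat_lit 5) (nat_lit 41) (nat_lit 5) (nat_lit 490) (nat_lit 453) (nat_lit 257)) (XT.nd (nat_lit 78) (nat_lit 76) (nat_lit 0) (XT.lf (nat_lit 0) (nat_lit 741279113381) (nat_lit 228) (nat_lit 38275371000) (nat_lit 76) (nat_lit 654075588044) (nat_lit 38) (nat_lit 5) (nat_lit 41) (nat_lit 5) (nat_lit 39) (nat_lit 4) (nat_lit 491) (nat_lit 453) (nat_lit 256)) (XT.lf (nat_lit 0) (nat_lit 1259633370726) (nat_lit 76) (nat_lit 114771972786) (nat_lit 152) (nat_lit 139228837979) (nat_lit 37)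 (nat_lit 5) (nat_lit 38) (nat_lit 5) (nat_lit 39) (nat_lit 4) (nat_lit 492) (nat_lit 453) (nat_lit 255))))) (XT.nd (nat_lit 234) (nat_lit 0) (nat_lit 152) (XT.nd (nat_lit 78) (nat_lit 0) (nat_lit 76) (XT.lf (nat_lit 0) (nat_lit 43363905679) (nat_lit 836) (nat_lit 43150325579) (nat_lit 836) (nat_lit 43150325579) (nat_lit 125) (nat_lit 3) (nat_lit 136) (nat_lit 3) (nat_lit 136) (nat_lit 5) (nat_lit 454) (nat_lit 454) (nat_lit 292)) (XT.nd (nat_lit 78) (nat_lit 0) (nat_lit 0) (XT.lf (nat_lit 0) (nat_lit 92533789561) (nat_lit 760) (nat_lit 149223989944) (nat_lit 836) (nat_lit 27827654849) (nat_lit 126) (nat_lit 5) (nat_lit 136) (nat_lit 5) (nat_lit 137) (nat_lit 5) (nat_lit 455) (nat_lit 454) (nat_lit 291)) (XT.lf (nat_lit 76) (nat_lit 65195534606) (nat_lit 0) (nat_lit 39071968549) (nat_lit 836) (nat_lit 176121594733) (nat_lit 127) (nat_lit 5) (nat_lit 126) (nat_lit 5) (nat_lit 137) (nat_lit 5)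 (nat_lit 456) (nat_lit 454) (nat_lit 290)))) (XT.nd (nat_lit 156) (nat_lit 0) (nat_lit 152) (XT.nd (nat_lit 78) (nat_lit 0) (nat_lit 76) (XT.lf (nat_lit 76) (nat_lit 7561969887) (nat_lit 0) (nat_lit 114945496918) (nat_lit 836) (nat_lit 169271210106) (nat_lit 128) (nat_lit 5) (nat_lit 127) (nat_lit 5) (nat_lit 138) (nat_lit 5) (nat_lit 457) (nat_lit 454) (nat_lit 289)) (XT.lf (nat_lit 0) (nat_lit 148297819212) (nat_lit 760) (nat_lit 50412442394) (nat_lit 836) (nat_lit 105064601114) (nat_lit 128) (nat_lit 5) (nat_lit 138) (nat_lit 5) (nat_lit 139) (nat_lit 5) (nat_lit 458) (nat_lit 454) (nat_lit 288))) (XT.nd (nat_lit 78) (nat_lit 0) (nat_lit 0) (XT.lf (nat_lit 0) (nat_lit 181715297343) (nat_lit 760) (nat_lit 110093889706) (nat_lit 836) (nat_lit 24643361515) (nat_lit 129) (nat_lit 5) (nat_lit 139) (nat_lit 5) (nat_lit 140) (nat_lit 5) (nat_lit 459) (nat_lit 454) (nat_lit 287)) (XT.lf (nat_lit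 76) (nat_lit 157032017966) (nat_lit 0) (nat_lit 67468919728) (nat_lit 836) (nat_lit 105308773427) (nat_lit 130) (nat_lit 5) (nat_lit 129) (nat_lit 5) (nat_lit 140) (nat_lit 5) (nat_lit 460) (nat_lit 454) (nat_lit 286)))))) (XT.nd (nat_lit 546) (nat_lit 1596) (nat_lit 0) (XT.nd (nat_lit 234) (nat_lit 1368) (nat_lit 0) (XT.nd (nat_lit 78) (nat_lit 456) (nat_lit 0) (XT.lf (nat_lit 0) (nat_lit 105949977964) (nat_lit 760) (nat_lit 171092133602) (nat_lit 836) (nat_lit 66876701041) (nat_lit 120) (nat_lit 5) (nat_lit 130) (nat_lit 5) (nat_lit 131) (nat_lit 5) (nat_lit 461) (nat_lit 454) (nat_lit 285)) (XT.nd (nat_lit 78) (nat_lit 76) (nat_lit 0) (XT.lf (nat_lit 0) (nat_lit 53578797363) (nat_lit 380) (nat_lit 286329378987) (nat_lit 456) (nat_lit 18942386048) (nat_lit 115) (nat_lit 5) (nat_lit 120) (nat_lit 5) (nat_lit 121) (nat_lit 5) (nat_lit 462) (nat_lit 454) (nat_lit 284)) (XT.lf (nat_lit 0) (nat_lit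 38874066148) (nat_lit 456) (nat_lit 1287049770) (nat_lit 76) (nat_lit 334435207939) (nat_lit 114) (nat_lit 5) (nat_lit 120) (nat_lit 5) (nat_lit 115) (nat_lit 5) (nat_lit 463) (nat_lit 454) (nat_lit 283)))) (XT.nd (nat_lit 156) (nat_lit 608) (nat_lit 0) (XT.nd (nat_lit 78) (nat_lit 380) (nat_lit 0) (XT.lf (nat_lit 0) (nat_lit 109545713723) (nat_lit 456) (nat_lit 57438722893) (nat_lit 76) (nat_lit 224157106695) (nat_lit 109) (nat_lit 5) (nat_lit 115) (nat_lit 5) (nat_lit 110) (nat_lit 5) (nat_lit 464) (nat_lit 454) (nat_lit 282)) (XT.lf (nat_lit 0) (nat_lit 192807107221) (nat_lit 456) (nat_lit 115068021230) (nat_lit 76) (nat_lit 100788451189) (nat_lit 104) (nat_lit 5) (nat_lit 110) (nat_lit 5) (nat_lit 105) (nat_lit 5) (nat_lit 465) (nat_lit 454) (nat_lit 281))) (XT.nd (nat_lit 78) (nat_lit 304) (nat_lit 0) (XT.lf (nat_lit 0) (nat_lit 252474972711) (nat_lit 304) (nat_lit 38028814630) (nat_lit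 380) (nat_lit 136694872806) (nat_lit 100) (nat_lit 5) (nat_lit 104) (nat_lit 5) (nat_lit 105) (nat_lit 5) (nat_lit 466) (nat_lit 454) (nat_lit 280)) (XT.lf (nat_lit 0) (nat_lit 209117888594) (nat_lit 304) (nat_lit 196156791867) (nat_lit 380) (nat_lit 41478942726) (nat_lit 96) (nat_lit 5) (nat_lit 100) (nat_lit 5) (nat_lit 101) (nat_lit 5) (nat_lit 467) (nat_lit 454) (nat_lit 279))))) (XT.nd (nat_lit 234) (nat_lit 760) (nat_lit 0) (XT.nd (nat_lit 78) (nat_lit 532) (nat_lit 0) (XT.lf (nat_lit 0) (nat_lit 67277775626) (nat_lit 304) (nat_lit 303227960893) (nat_lit 76) (nat_lit 96924989504) (nat_lit 92) (nat_lit 5) (nat_lit 96) (nat_lit 5) (nat_lit 93) (nat_lit 5) (nat_lit 468) (nat_lit 454) (nat_lit 278)) (XT.nd (nat_lit 78) (nat_lit 228) (nat_lit 0) (XT.lf (nat_lit 0) (nat_lit 116782054003) (nat_lit 304) (nat_lit 75857297236) (nat_lit 380) (nat_lit 296620769738) (nat_lit 88) (nat_lit 5) (nat_lit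 92) (nat_lit 5) (nat_lit 93) (nat_lit 5) (nat_lit 469) (nat_lit 454) (nat_lit 277)) (XT.lf (nat_lit 0) (nat_lit 66920510740) (nat_lit 228) (nat_lit 271306687997) (nat_lit 304) (nat_lit 174098801518) (nat_lit 85) (nat_lit 5) (nat_lit 88) (nat_lit 5) (nat_lit 89) (nat_lit 5) (nat_lit 470) (nat_lit 454) (nat_lit 276)))) (XT.nd (nat_lit 156) (nat_lit 456) (nat_lit 0) (XT.nd (nat_lit 78) (nat_lit 76) (nat_lit 0) (XT.lf (nat_lit 0) (nat_lit 16339312609) (nat_lit 228) (nat_lit 487909008932) (nat_lit 304) (nat_lit 32549515972) (nat_lit 82) (nat_lit 5) (nat_lit 85) (nat_lit 5) (nat_lit 86) (nat_lit 5) (nat_lit 471) (nat_lit 454) (nat_lit 275)) (XT.lf (nat_lit 0) (nat_lit 128933138571) (nat_lit 304) (nat_lit 38491092029) (nat_lit 76) (nat_lit 395086234832) (nat_lit 81) (nat_lit 5) (nat_lit 85) (nat_lit 5) (nat_lit 82) (nat_lit 5) (nat_lit 472) (nat_lit 454) (nat_lit 274))) (XT.nd (nat_lit 78) (nat_lit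 228) (nat_lit 0) (XT.lf (nat_lit 0) (nat_lit 312901409447) (nat_lit 304) (nat_lit 95385795431) (nat_lit 76) (nat_lit 181430849765) (nat_lit 78) (nat_lit 5) (nat_lit 82) (nat_lit 5) (nat_lit 79) (nat_lit 5) (nat_lit 473) (nat_lit 454) (nat_lit 273)) (XT.lf (nat_lit 0) (nat_lit 464107449184) (nat_lit 228) (nat_lit 58230219860) (nat_lit 304) (nat_lit 96227055607) (nat_lit 75) (nat_lit 5) (nat_lit 78) (nat_lit 5) (nat_lit 79) (nat_lit 5) (nat_lit 474) (nat_lit 454) (nat_lit 272))))))))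
noncomputable def xc117 : XT := (XT.nd (nat_lit 61698) (nat_lit 0) (nat_lit 228) (XT.nd (nat_lit 1014) (nat_lit 608) (nat_lit 0) (XT.nd (nat_lit 468) (nat_lit 1064) (nat_lit 0) (XT.nd (nat_lit 234) (nat_lit 532) (nat_lit 0) (XT.nd (nat_lit 78) (nat_lit 380) (nat_lit 0) (XT.lf (nat_lit 0) (nat_lit 109276791547) (nat_lit 228) (nat_lit 219910119220) (nat_lit 76) (nat_lit 319773601792) (nat_lit 72) (nat_lit 5) (nat_lit 75) (nat_lit 5) (nat_lit 73) (nat_lit 5) (nat_lit 475) (nat_lit 454) (nat_lit 271)) (XT.nd (nat_lit 78) (nat_lit 152) (nat_lit 0) (XT.lf (nat_lit 0) (nat_lit 338610633150) (nat_lit 304) (nat_lit 289045619021) (nat_lit 76) (nat_lit 53514786003) (nat_lit 69) (nat_lit 5) (nat_lit 73) (nat_lit 5) (nat_lit 70) (nat_lit 5) (nat_lit 476) (nat_lit 454) (nat_lit 270)) (XT.lf (nat_lit 0) (nat_lit 350824874726) (nat_lit 152) (nat_lit 250387805310) (nat_lit 228) (nat_lit 113999650915) (nat_lit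 67) (nat_lit 5) (nat_lit 69) (nat_lit 5) (nat_lit 70) (nat_lit 5) (nat_lit 477) (nat_lit 454) (nat_lit 269)))) (XT.nd (nat_lit 78) (nat_lit 304) (nat_lit 0) (XT.lf (nat_lit 0) (nat_lit 141172195046) (nat_lit 228) (nat_lit 445836902825) (nat_lit 76) (nat_lit 164235217798) (nat_lit 64) (nat_lit 5) (nat_lit 67) (nat_lit 5) (nat_lit 65) (nat_lit 5) (nat_lit 478) (nat_lit 454) (nat_lit 268)) (XT.nd (nat_lit 78) (nat_lit 152) (nat_lit 0) (XT.lf (nat_lit 0) (nat_lit 253832401575) (nat_lit 152) (nat_lit 173621229817) (nat_lit 228) (nat_lit 361877293686) (nat_lit 62) (nat_lit 5) (nat_lit 64) (nat_lit 5) (nat_lit 65) (nat_lit 5) (nat_lit 479) (nat_lit 454) (nat_lit 267)) (XT.lf (nat_lit 0) (nat_lit 197245743120) (nat_lit 152) (nat_lit 554624625036) (nat_lit 228) (nat_lit 77832455815) (nat_lit 60) (nat_lit 5) (nat_lit 62) (nat_lit 5) (nat_lit 63) (nat_lit 5) (nat_lit 480) (nat_lit 454) (nat_lit 266)))))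 (XT.nd (nat_lit 234) (nat_lit 608) (nat_lit 0) (XT.nd (nat_lit 78) (nat_lit 228) (nat_lit 0) (XT.lf (nat_lit 0) (nat_lit 132479234497) (nat_lit 152) (nat_lit 103606216093) (nat_lit 228) (nat_lit 636316464475) (nat_lit 57) (nat_lit 5) (nat_lit 59) (nat_lit 5) (nat_lit 60) (nat_lit 5) (nat_lit 481) (nat_lit 454) (nat_lit 265)) (XT.nd (nat_lit 78) (nat_lit 76) (nat_lit 0) (XT.lf (nat_lit 0) (nat_lit 57592036877) (nat_lit 152) (nat_lit 532918485803) (nat_lit 228) (nat_lit 327036583514) (nat_lit 55) (nat_lit 5) (nat_lit 57) (nat_lit 5) (nat_lit 58) (nat_lit 5) (nat_lit 482) (nat_lit 454) (nat_lit 264)) (XT.lf (nat_lit 0) (nat_lit 21609327038) (nat_lit 228) (nat_lit 22396544177) (nat_lit 76) (nat_lit 921550226857) (nat_lit 54) (nat_lit 5) (nat_lit 57) (nat_lit 5) (nat_lit 55) (nat_lit 5) (nat_lit 483) (nat_lit 454) (nat_lit 263)))) (XT.nd (nat_lit 156) (nat_lit 304) (nat_lit 0) (XT.nd (nat_lit 78)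 (nat_lit 152) (nat_lit 0) (XT.lf (nat_lit 0) (nat_lit 408860939336) (nat_lit 228) (nat_lit 118663960796) (nat_lit 76) (nat_lit 488504256513) (nat_lit 52) (nat_lit 5) (nat_lit 55) (nat_lit 5) (nat_lit 53) (nat_lit 5) (nat_lit 484) (nat_lit 454) (nat_lit 262)) (XT.lf (nat_lit 0) (nat_lit 841552945517) (nat_lit 228) (nat_lit 222554326619) (nat_lit 76) (nat_lit 5709774528) (nat_lit 50) (nat_lit 5) (nat_lit 53) (nat_lit 5) (nat_lit 51) (nat_lit 4) (nat_lit 485) (nat_lit 454) (nat_lit 261))) (XT.nd (nat_lit 78) (nat_lit 152) (nat_lit 0) (XT.lf (nat_lit 0) (nat_lit 198762634036) (nat_lit 152) (nat_lit 346923532755) (nat_lit 76) (nat_lit 580900447697) (nat_lit 48) (nat_lit 5) (nat_lit 50) (nat_lit 5) (nat_lit 49) (nat_lit 5) (nat_lit 486) (nat_lit 454) (nat_lit 260)) (XT.lf (nat_lit 0) (nat_lit 667472093603) (nat_lit 228) (nat_lit 486670744631) (nat_lit 76) (nat_lit 32791915396) (nat_lit 46) (nat_lit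 5) (nat_lit 49) (nat_lit 5) (nat_lit 47) (nat_lit 4) (nat_lit 487) (nat_lit 454) (nat_lit 259)))))) (XT.nd (nat_lit 60138) (nat_lit 0) (nat_lit 5776) (XT.nd (nat_lit 234) (nat_lit 228) (nat_lit 0) (XT.nd (nat_lit 78) (nat_lit 304) (nat_lit 0) (XT.lf (nat_lit 0) (nat_lit 601766393638) (nat_lit 76) (nat_lit 596650665815) (nat_lit 152) (nat_lit 52456746979) (nat_lit 45) (nat_lit 5) (nat_lit 46) (nat_lit 5) (nat_lit 47) (nat_lit 4) (nat_lit 488) (nat_lit 454) (nat_lit 258)) (XT.nd (nat_lit 78) (nat_lit 76) (nat_lit 0) (XT.lf (nat_lit 0) (nat_lit 454075465342) (nat_lit 228) (nat_lit 835801121641) (nat_lit 76) (nat_lit 28867129833) (nat_lit 42) (nat_lit 5) (nat_lit 45) (nat_lit 5) (nat_lit 43) (nat_lit 4) (nat_lit 489) (nat_lit 454) (nat_lit 257)) (XT.lf (nat_lit 0) (nat_lit 336910856044) (nat_lit 76) (nat_lit 689219249177) (nat_lit 152) (nat_lit 364528233508) (nat_lit 41) (nat_lit 5) (nat_lit 42)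 (nat_lit 5) (nat_lit 43) (nat_lit 4) (nat_lit 490) (nat_lit 454) (nat_lit 256)))) (XT.nd (nat_lit 59748) (nat_lit 0) (nat_lit 6688) (XT.nd (nat_lit 59670) (nat_lit 0) (nat_lit 6612) (XT.lf (nat_lit 0) (nat_lit 168086948944) (nat_lit 152) (nat_lit 19337077365) (nat_lit 228) (nat_lit 1279893902101) (nat_lit 38) (nat_lit 5) (nat_lit 40) (nat_lit 5) (nat_lit 41) (nat_lit 5) (nat_lit 491) (nat_lit 454) (nat_lit 255)) (XT.lf (nat_lit 0) (nat_lit 46834477398) (nat_lit 836) (nat_lit 46601585228) (nat_lit 836) (nat_lit 46601585228) (nat_lit 125) (nat_lit 3) (nat_lit 136) (nat_lit 3) (nat_lit 136) (nat_lit 5) (nat_lit 455) (nat_lit 455) (nat_lit 290))) (XT.nd (nat_lit 78) (nat_lit 0) (nat_lit 0) (XT.lf (nat_lit 0) (nat_lit 99939198303) (nat_lit 760) (nat_lit 161160285986) (nat_lit 836) (nat_lit 30052648483) (nat_lit 126) (nat_lit 5) (nat_lit 136) (nat_lit 5) (nat_lit 137) (nat_lit 5) (nat_lit 456) (nat_lit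 455) (nat_lit 289)) (XT.lf (nat_lit 76) (nat_lit 70412729988) (nat_lit 0) (nat_lit 42198702824) (nat_lit 836) (nat_lit 190208665463) (nat_lit 127) (nat_lit 5) (nat_lit 126) (nat_lit 5) (nat_lit 137) (nat_lit 5) (nat_lit 457) (nat_lit 455) (nat_lit 288))))) (XT.nd (nat_lit 234) (nat_lit 988) (nat_lit 0) (XT.nd (nat_lit 78) (nat_lit 0) (nat_lit 76) (XT.lf (nat_lit 76) (nat_lit 8168549109) (nat_lit 0) (nat_lit 124141868278) (nat_lit 836) (nat_lit 182810435112) (nat_lit 128) (nat_lit 5) (nat_lit 127) (nat_lit 5) (nat_lit 138) (nat_lit 5) (nat_lit 458) (nat_lit 455) (nat_lit 287)) (XT.nd (nat_lit 78) (nat_lit 0) (nat_lit 76) (XT.lf (nat_lit 0) (nat_lit 160163813097) (nat_lit 760) (nat_lit 54443815918) (nat_lit 836) (nat_lit 113469113471) (nat_lit 128) (nat_lit 5) (nat_lit 138) (nat_lit 5) (nat_lit 139) (nat_lit 5) (nat_lit 459) (nat_lit 455) (nat_lit 286)) (XT.lf (nat_lit 0) (nat_lit 196254545579)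 (nat_lit 760) (nat_lit 118899739626) (nat_lit 836) (nat_lit 26614365250) (nat_lit 129) (nat_lit 5) (nat_lit 139) (nat_lit 5) (nat_lit 140) (nat_lit 5) (nat_lit 460) (nat_lit 455) (nat_lit 285)))) (XT.nd (nat_lit 156) (nat_lit 456) (nat_lit 0) (XT.nd (nat_lit 78) (nat_lit 684) (nat_lit 0) (XT.lf (nat_lit 76) (nat_lit 169596168464) (nat_lit 0) (nat_lit 72866743545) (nat_lit 836) (nat_lit 113731480322) (nat_lit 130) (nat_lit 5) (nat_lit 129) (nat_lit 5) (nat_lit 140) (nat_lit 5) (nat_lit 461) (nat_lit 455) (nat_lit 284)) (XT.lf (nat_lit 0) (nat_lit 114427592359) (nat_lit 760) (nat_lit 184779667490) (nat_lit 836) (nat_lit 72224968136) (nat_lit 120) (nat_lit 5) (nat_lit 130) (nat_lit 5) (nat_lit 131) (nat_lit 5) (nat_lit 462) (nat_lit 455) (nat_lit 283))) (XT.nd (nat_lit 78) (nat_lit 76) (nat_lit 0) (XT.lf (nat_lit 0) (nat_lit 57866735246) (nat_lit 380) (nat_lit 309235765920) (nat_lit 456) (nat_lit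 20456022076) (nat_lit 115) (nat_lit 5) (nat_lit 120) (nat_lit 5) (nat_lit 121) (nat_lit 5) (nat_lit 463) (nat_lit 455) (nat_lit 282)) (XT.lf (nat_lit 0) (nat_lit 41985564300) (nat_lit 456) (nat_lit 1388448155) (nat_lit 76) (nat_lit 361189938126) (nat_lit 114) (nat_lit 5) (nat_lit 120) (nat_lit 5) (nat_lit 115) (nat_lit 5) (nat_lit 464) (nat_lit 455) (nat_lit 281))))))) (XT.nd (nat_lit 1014) (nat_lit 2128) (nat_lit 0) (XT.nd (nat_lit 468) (nat_lit 1444) (nat_lit 0) (XT.nd (nat_lit 234) (nat_lit 912) (nat_lit 0) (XT.nd (nat_lit 78) (nat_lit 684) (nat_lit 0) (XT.lf (nat_lit 0) (nat_lit 118310850833) (nat_lit 456) (nat_lit 62032248957) (nat_lit 76) (nat_lit 242089692484) (nat_lit 109) (nat_lit 5) (nat_lit 115) (nat_lit 5) (nat_lit 110) (nat_lit 5) (nat_lit 465) (nat_lit 455) (nat_lit 280)) (XT.nd (nat_lit 78) (nat_lit 304) (nat_lit 0) (XT.lf (nat_lit 0) (nat_lit 208233071365) (nat_lit 456) (nat_lit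 124271891024) (nat_lit 76) (nat_lit 108851633382) (nat_lit 104) (nat_lit 5) (nat_lit 110) (nat_lit 5) (nat_lit 105) (nat_lit 5) (nat_lit 466) (nat_lit 455) (nat_lit 279)) (XT.lf (nat_lit 0) (nat_lit 272674474120) (nat_lit 304) (nat_lit 41070931874) (nat_lit 380) (nat_lit 147629080752) (nat_lit 100) (nat_lit 5) (nat_lit 104) (nat_lit 5) (nat_lit 105) (nat_lit 5) (nat_lit 467) (nat_lit 455) (nat_lit 278)))) (XT.nd (nat_lit 78) (nat_lit 608) (nat_lit 0) (XT.lf (nat_lit 0) (nat_lit 225848818459) (nat_lit 304) (nat_lit 211849080766) (nat_lit 380) (nat_lit 44795951204) (nat_lit 96) (nat_lit 5) (nat_lit 100) (nat_lit 5) (nat_lit 101) (nat_lit 5) (nat_lit 468) (nat_lit 455) (nat_lit 277)) (XT.nd (nat_lit 78) (nat_lit 304) (nat_lit 0) (XT.lf (nat_lit 0) (nat_lit 72661196453) (nat_lit 304) (nat_lit 327484668042) (nat_lit 76) (nat_lit 104679259320) (nat_lit 92) (nat_lit 5) (nat_lit 96) (nat_lit 5) (nat_lit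 93) (nat_lit 5) (nat_lit 469) (nat_lit 455) (nat_lit 276)) (XT.lf (nat_lit 0) (nat_lit 126126081566) (nat_lit 304) (nat_lit 81925550596) (nat_lit 380) (nat_lit 320349241527) (nat_lit 88) (nat_lit 5) (nat_lit 92) (nat_lit 5) (nat_lit 93) (nat_lit 5) (nat_lit 470) (nat_lit 455) (nat_lit 275))))) (XT.nd (nat_lit 234) (nat_lit 912) (nat_lit 0) (XT.nd (nat_lit 78) (nat_lit 304) (nat_lit 0) (XT.lf (nat_lit 0) (nat_lit 72275600806) (nat_lit 228) (nat_lit 293010850143) (nat_lit 304) (nat_lit 188025575209) (nat_lit 85) (nat_lit 5) (nat_lit 88) (nat_lit 5) (nat_lit 89) (nat_lit 5) (nat_lit 471) (nat_lit 455) (nat_lit 274)) (XT.nd (nat_lit 78) (nat_lit 76) (nat_lit 0) (XT.lf (nat_lit 0) (nat_lit 17647890040) (nat_lit 228) (nat_lit 526941321567) (nat_lit 304) (nat_lit 35152401413) (nat_lit 82) (nat_lit 5) (nat_lit 85) (nat_lit 5) (nat_lit 86) (nat_lit 5) (nat_lit 472) (nat_lit 455) (nat_lit 273)) (XT.lf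 (nat_lit 0) (nat_lit 139248753919) (nat_lit 304) (nat_lit 41569020946) (nat_lit 76) (nat_lit 426693479342) (nat_lit 81) (nat_lit 5) (nat_lit 85) (nat_lit 5) (nat_lit 82) (nat_lit 5) (nat_lit 473) (nat_lit 455) (nat_lit 272)))) (XT.nd (nat_lit 156) (nat_lit 456) (nat_lit 0) (XT.nd (nat_lit 78) (nat_lit 228) (nat_lit 0) (XT.lf (nat_lit 0) (nat_lit 337934441357) (nat_lit 304) (nat_lit 103015319804) (nat_lit 76) (nat_lit 195945691668) (nat_lit 78) (nat_lit 5) (nat_lit 82) (nat_lit 5) (nat_lit 79) (nat_lit 5) (nat_lit 474) (nat_lit 455) (nat_lit 271)) (XT.lf (nat_lit 0) (nat_lit 501237326177) (nat_lit 228) (nat_lit 62888227460) (nat_lit 304) (nat_lit 103924305222) (nat_lit 75) (nat_lit 5) (nat_lit 78) (nat_lit 5) (nat_lit 79) (nat_lit 5) (nat_lit 475) (nat_lit 455) (nat_lit 270))) (XT.nd (nat_lit 78) (nat_lit 228) (nat_lit 0) (XT.lf (nat_lit 0) (nat_lit 118019780864) (nat_lit 228) (nat_lit 237501639475)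 (nat_lit 76) (nat_lit 345355890739) (nat_lit 72) (nat_lit 5) (nat_lit 75) (nat_lit 5) (nat_lit 73) (nat_lit 5) (nat_lit 476) (nat_lit 455) (nat_lit 269)) (XT.lf (nat_lit 0) (nat_lit 365700293107) (nat_lit 304) (nat_lit 312168001714) (nat_lit 76) (nat_lit 57796385770) (nat_lit 69) (nat_lit 5) (nat_lit 73) (nat_lit 5) (nat_lit 70) (nat_lit 5) (nat_lit 477) (nat_lit 455) (nat_lit 268)))))) (XT.nd (nat_lit 546) (nat_lit 988) (nat_lit 0) (XT.nd (nat_lit 234) (nat_lit 608) (nat_lit 0) (XT.nd (nat_lit 78) (nat_lit 380) (nat_lit 0) (XT.lf (nat_lit 0) (nat_lit 378892076478) (nat_lit 152) (nat_lit 270418386238) (nat_lit 228) (nat_lit 123118816139) (nat_lit 67) (nat_lit 5) (nat_lit 69) (nat_lit 5) (nat_lit 70) (nat_lit 5) (nat_lit 478) (nat_lit 455) (nat_lit 267)) (XT.nd (nat_lit 78) (nat_lit 152) (nat_lit 0) (XT.lf (nat_lit 0) (nat_lit 152466719211) (nat_lit 228) (nat_lit 481502640775) (nat_lit 76)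 (nat_lit 177374463368) (nat_lit 64) (nat_lit 5) (nat_lit 67) (nat_lit 5) (nat_lit 65) (nat_lit 5) (nat_lit 479) (nat_lit 455) (nat_lit 266)) (XT.lf (nat_lit 0) (nat_lit 274140155206) (nat_lit 152) (nat_lit 187510477944) (nat_lit 228) (nat_lit 390826730241) (nat_lit 62) (nat_lit 5) (nat_lit 64) (nat_lit 5) (nat_lit 65) (nat_lit 5) (nat_lit 480) (nat_lit 455) (nat_lit 265)))) (XT.nd (nat_lit 156) (nat_lit 228) (nat_lit 0) (XT.nd (nat_lit 78) (nat_lit 228) (nat_lit 0) (XT.lf (nat_lit 0) (nat_lit 213026541013) (nat_lit 152) (nat_lit 598994139440) (nat_lit 228) (nat_lit 84058335173) (nat_lit 60) (nat_lit 5) (nat_lit 62) (nat_lit 5) (nat_lit 63) (nat_lit 5) (nat_lit 481) (nat_lit 455) (nat_lit 264)) (XT.lf (nat_lit 0) (nat_lit 143078684290) (nat_lit 152) (nat_lit 111894262431) (nat_lit 228) (nat_lit 687221088439) (nat_lit 57) (nat_lit 5) (nat_lit 59) (nat_lit 5) (nat_lit 60) (nat_lit 5) (nat_lit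 482) (nat_lit 455) (nat_lit 263))) (XT.nd (nat_lit 78) (nat_lit 76) (nat_lit 0) (XT.lf (nat_lit 0) (nat_lit 62200487513) (nat_lit 152) (nat_lit 575551511671) (nat_lit 228) (nat_lit 353198843673) (nat_lit 55) (nat_lit 5) (nat_lit 57) (nat_lit 5) (nat_lit 58) (nat_lit 5) (nat_lit 483) (nat_lit 455) (nat_lit 262)) (XT.lf (nat_lit 0) (nat_lit 23338670598) (nat_lit 228) (nat_lit 24187240756) (nat_lit 76) (nat_lit 995274644608) (nat_lit 54) (nat_lit 5) (nat_lit 57) (nat_lit 5) (nat_lit 55) (nat_lit 5) (nat_lit 484) (nat_lit 455) (nat_lit 261))))) (XT.nd (nat_lit 234) (nat_lit 532) (nat_lit 0) (XT.nd (nat_lit 78) (nat_lit 304) (nat_lit 0) (XT.lf (nat_lit 0) (nat_lit 441570389427) (nat_lit 228) (nat_lit 128156073292) (nat_lit 76) (nat_lit 527584997632) (nat_lit 52) (nat_lit 5) (nat_lit 55) (nat_lit 5) (nat_lit 53) (nat_lit 5) (nat_lit 485) (nat_lit 455) (nat_lit 260)) (XT.nd (nat_lit 78) (nat_lit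 152) (nat_lit 0) (XT.lf (nat_lit 0) (nat_lit 908877734967) (nat_lit 228) (nat_lit 240357691041) (nat_lit 76) (nat_lit 6166956625) (nat_lit 50) (nat_lit 5) (nat_lit 53) (nat_lit 5) (nat_lit 51) (nat_lit 4) (nat_lit 486) (nat_lit 455) (nat_lit 259)) (XT.lf (nat_lit 0) (nat_lit 214664180919) (nat_lit 152) (nat_lit 374676458538) (nat_lit 76) (nat_lit 627372877316) (nat_lit 48) (nat_lit 5) (nat_lit 50) (nat_lit 5) (nat_lit 49) (nat_lit 5) (nat_lit 487) (nat_lit 455) (nat_lit 258)))) (XT.nd (nat_lit 156) (nat_lit 304) (nat_lit 0) (XT.nd (nat_lit 78) (nat_lit 76) (nat_lit 0) (XT.lf (nat_lit 0) (nat_lit 720870378141) (nat_lit 228) (nat_lit 525603469666) (nat_lit 76) (nat_lit 35415660201) (nat_lit 46) (nat_lit 5) (nat_lit 49) (nat_lit 5) (nat_lit 47) (nat_lit 4) (nat_lit 488) (nat_lit 455) (nat_lit 257)) (XT.lf (nat_lit 0) (nat_lit 649908599051) (nat_lit 76) (nat_lit 644382317864) (nat_lit 152) (nat_lit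 56652769339) (nat_lit 45) (nat_lit 5) (nat_lit 46) (nat_lit 5) (nat_lit 47) (nat_lit 4) (nat_lit 489) (nat_lit 455) (nat_lit 256))) (XT.nd (nat_lit 78) (nat_lit 76) (nat_lit 0) (XT.lf (nat_lit 0) (nat_lit 490401986052) (nat_lit 228) (nat_lit 902664322637) (nat_lit 76) (nat_lit 31176881249) (nat_lit 42) (nat_lit 5) (nat_lit 45) (nat_lit 5) (nat_lit 43) (nat_lit 4) (nat_lit 490) (nat_lit 455) (nat_lit 255)) (XT.lf (nat_lit 0) (nat_lit 363864574640) (nat_lit 76) (nat_lit 744356399941) (nat_lit 152) (nat_lit 393690008154) (nat_lit 41) (nat_lit 5) (nat_lit 42) (nat_lit 5) (nat_lit 43) (nat_lit 4) (nat_lit 491) (nat_lit 455) (nat_lit 254))))))))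
noncomputable def xc118 : XT := (XT.nd (nat_lit 2028) (nat_lit 1520) (nat_lit 0) (XT.nd (nat_lit 1014) (nat_lit 2888) (nat_lit 0) (XT.nd (nat_lit 468) (nat_lit 1900) (nat_lit 0) (XT.nd (nat_lit 234) (nat_lit 0) (nat_lit 152) (XT.nd (nat_lit 78) (nat_lit 0) (nat_lit 76) (XT.lf (nat_lit 0) (nat_lit 50582486675) (nat_lit 836) (nat_lit 50329054983) (nat_lit 836) (nat_lit 50329054983) (nat_lit 125) (nat_lit 3) (nat_lit 136) (nat_lit 3) (nat_lit 136) (nat_lit 5) (nat_lit 456) (nat_lit 456) (nat_lit 288)) (XT.nd (nat_lit 78) (nat_lit 0) (nat_lit 0) (XT.lf (nat_lit 0) (nat_lit 107936653763) (nat_lit 760) (nat_lit 174051717273) (nat_lit 836) (nat_lit 32455815477) (nat_lit 126) (nat_lit 5) (nat_lit 136) (nat_lit 5) (nat_lit 137) (nat_lit 5) (nat_lit 457) (nat_lit 456) (nat_lit 287)) (XT.lf (nat_lit 76) (nat_lit 76047079503) (nat_lit 0) (nat_lit 45575436492) (nat_lit 836) (nat_lit 205423080881) (nat_lit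 127) (nat_lit 5) (nat_lit 126) (nat_lit 5) (nat_lit 137) (nat_lit 5) (nat_lit 458) (nat_lit 456) (nat_lit 286)))) (XT.nd (nat_lit 78) (nat_lit 0) (nat_lit 76) (XT.lf (nat_lit 76) (nat_lit 8823423325) (nat_lit 0) (nat_lit 134073844976) (nat_lit 836) (nat_lit 197433150749) (nat_lit 128) (nat_lit 5) (nat_lit 127) (nat_lit 5) (nat_lit 138) (nat_lit 5) (nat_lit 459) (nat_lit 456) (nat_lit 285)) (XT.nd (nat_lit 78) (nat_lit 0) (nat_lit 76) (XT.lf (nat_lit 0) (nat_lit 172978777154) (nat_lit 760) (nat_lit 58797930701) (nat_lit 836) (nat_lit 122546080363) (nat_lit 128) (nat_lit 5) (nat_lit 138) (nat_lit 5) (nat_lit 139) (nat_lit 5) (nat_lit 460) (nat_lit 456) (nat_lit 284)) (XT.lf (nat_lit 0) (nat_lit 211956644864) (nat_lit 760) (nat_lit 128410294536) (nat_lit 836) (nat_lit 28743115647) (nat_lit 129) (nat_lit 5) (nat_lit 139) (nat_lit 5) (nat_lit 140) (nat_lit 5) (nat_lit 461) (nat_lit 456) (nat_lit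 283))))) (XT.nd (nat_lit 234) (nat_lit 1140) (nat_lit 0) (XT.nd (nat_lit 78) (nat_lit 1064) (nat_lit 0) (XT.lf (nat_lit 76) (nat_lit 183165224304) (nat_lit 0) (nat_lit 78696349008) (nat_lit 836) (nat_lit 122828288374) (nat_lit 130) (nat_lit 5) (nat_lit 129) (nat_lit 5) (nat_lit 140) (nat_lit 5) (nat_lit 462) (nat_lit 456) (nat_lit 282)) (XT.nd (nat_lit 78) (nat_lit 380) (nat_lit 0) (XT.lf (nat_lit 0) (nat_lit 123583185342) (nat_lit 760) (nat_lit 199562180808) (nat_lit 836) (nat_lit 78001363231) (nat_lit 120) (nat_lit 5) (nat_lit 130) (nat_lit 5) (nat_lit 131) (nat_lit 5) (nat_lit 463) (nat_lit 456) (nat_lit 281)) (XT.lf (nat_lit 0) (nat_lit 62497475037) (nat_lit 380) (nat_lit 333974658584) (nat_lit 456) (nat_lit 22090999336) (nat_lit 115) (nat_lit 5) (nat_lit 120) (nat_lit 5) (nat_lit 121) (nat_lit 5) (nat_lit 464) (nat_lit 456) (nat_lit 280)))) (XT.nd (nat_lit 156) (nat_lit 684) (nat_lit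 0) (XT.nd (nat_lit 78) (nat_lit 380) (nat_lit 0) (XT.lf (nat_lit 0) (nat_lit 45345757919) (nat_lit 456) (nat_lit 1498181761) (nat_lit 76) (nat_lit 390085059061) (nat_lit 114) (nat_lit 5) (nat_lit 120) (nat_lit 5) (nat_lit 115) (nat_lit 5) (nat_lit 465) (nat_lit 456) (nat_lit 279)) (XT.lf (nat_lit 0) (nat_lit 127776987771) (nat_lit 456) (nat_lit 66993481337) (nat_lit 76) (nat_lit 261456882675) (nat_lit 109) (nat_lit 5) (nat_lit 115) (nat_lit 5) (nat_lit 110) (nat_lit 5) (nat_lit 466) (nat_lit 456) (nat_lit 278))) (XT.nd (nat_lit 78) (nat_lit 304) (nat_lit 0) (XT.lf (nat_lit 0) (nat_lit 224892913547) (nat_lit 456) (nat_lit 134212294650) (nat_lit 76) (nat_lit 117559855014) (nat_lit 104) (nat_lit 5) (nat_lit 110) (nat_lit 5) (nat_lit 105) (nat_lit 5) (nat_lit 467) (nat_lit 456) (nat_lit 277)) (XT.lf (nat_lit 0) (nat_lit 294489721138) (nat_lit 304) (nat_lit 44356445307) (nat_lit 380) (nat_lit 159438222473)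 (nat_lit 100) (nat_lit 5) (nat_lit 104) (nat_lit 5) (nat_lit 105) (nat_lit 5) (nat_lit 468) (nat_lit 456) (nat_lit 276)))))) (XT.nd (nat_lit 468) (nat_lit 1444) (nat_lit 0) (XT.nd (nat_lit 234) (nat_lit 532) (nat_lit 0) (XT.nd (nat_lit 78) (nat_lit 608) (nat_lit 0) (XT.lf (nat_lit 0) (nat_lit 243918008895) (nat_lit 304) (nat_lit 228796789077) (nat_lit 380) (nat_lit 48378506810) (nat_lit 96) (nat_lit 5) (nat_lit 100) (nat_lit 5) (nat_lit 101) (nat_lit 5) (nat_lit 469) (nat_lit 456) (nat_lit 275)) (XT.nd (nat_lit 78) (nat_lit 304) (nat_lit 0) (XT.lf (nat_lit 0) (nat_lit 78475119928) (nat_lit 304) (nat_lit 353682129996) (nat_lit 76) (nat_lit 113053832109) (nat_lit 92) (nat_lit 5) (nat_lit 96) (nat_lit 5) (nat_lit 93) (nat_lit 5) (nat_lit 470) (nat_lit 456) (nat_lit 274)) (XT.lf (nat_lit 0) (nat_lit 136217422585) (nat_lit 304) (nat_lit 88479311364) (nat_lit 380) (nat_lit 345976160797) (nat_lit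 88) (nat_lit 5) (nat_lit 92) (nat_lit 5) (nat_lit 93) (nat_lit 5) (nat_lit 471) (nat_lit 456) (nat_lit 273)))) (XT.nd (nat_lit 78) (nat_lit 304) (nat_lit 0) (XT.lf (nat_lit 0) (nat_lit 78058891332) (nat_lit 228) (nat_lit 316451398459) (nat_lit 304) (nat_lit 203066652064) (nat_lit 85) (nat_lit 5) (nat_lit 88) (nat_lit 5) (nat_lit 89) (nat_lit 5) (nat_lit 472) (nat_lit 456) (nat_lit 272)) (XT.nd (nat_lit 78) (nat_lit 76) (nat_lit 0) (XT.lf (nat_lit 0) (nat_lit 19060949314) (nat_lit 228) (nat_lit 569096277429) (nat_lit 304) (nat_lit 37963671169) (nat_lit 82) (nat_lit 5) (nat_lit 85) (nat_lit 5) (nat_lit 86) (nat_lit 5) (nat_lit 473) (nat_lit 456) (nat_lit 271)) (XT.lf (nat_lit 0) (nat_lit 150389480933) (nat_lit 304) (nat_lit 44893377975) (nat_lit 76) (nat_lit 460829254092) (nat_lit 81) (nat_lit 5) (nat_lit 85) (nat_lit 5) (nat_lit 82) (nat_lit 5) (nat_lit 474) (nat_lit 456) (nat_lit 270)))))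 (XT.nd (nat_lit 234) (nat_lit 760) (nat_lit 0) (XT.nd (nat_lit 78) (nat_lit 456) (nat_lit 0) (XT.lf (nat_lit 0) (nat_lit 364969984693) (nat_lit 304) (nat_lit 111255397188) (nat_lit 76) (nat_lit 211621667579) (nat_lit 78) (nat_lit 5) (nat_lit 82) (nat_lit 5) (nat_lit 79) (nat_lit 5) (nat_lit 475) (nat_lit 456) (nat_lit 269)) (XT.nd (nat_lit 78) (nat_lit 228) (nat_lit 0) (XT.lf (nat_lit 0) (nat_lit 541337410573) (nat_lit 228) (nat_lit 67918934158) (nat_lit 304) (nat_lit 112237465318) (nat_lit 75) (nat_lit 5) (nat_lit 78) (nat_lit 5) (nat_lit 79) (nat_lit 5) (nat_lit 476) (nat_lit 456) (nat_lit 268)) (XT.lf (nat_lit 0) (nat_lit 127462088635) (nat_lit 228) (nat_lit 256500665282) (nat_lit 76) (nat_lit 372984705623) (nat_lit 72) (nat_lit 5) (nat_lit 75) (nat_lit 5) (nat_lit 73) (nat_lit 5) (nat_lit 477) (nat_lit 456) (nat_lit 267)))) (XT.nd (nat_lit 156) (nat_lit 380) (nat_lit 0) (XT.nd (nat_lit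 78) (nat_lit 152) (nat_lit 0) (XT.lf (nat_lit 0) (nat_lit 394957010405) (nat_lit 304) (nat_lit 337140355750) (nat_lit 76) (nat_lit 62420454044) (nat_lit 69) (nat_lit 5) (nat_lit 73) (nat_lit 5) (nat_lit 70) (nat_lit 5) (nat_lit 478) (nat_lit 456) (nat_lit 266)) (XT.lf (nat_lit 0) (nat_lit 409204481497) (nat_lit 152) (nat_lit 292051476909) (nat_lit 228) (nat_lit 132967629687) (nat_lit 67) (nat_lit 5) (nat_lit 69) (nat_lit 5) (nat_lit 70) (nat_lit 5) (nat_lit 479) (nat_lit 456) (nat_lit 265))) (XT.nd (nat_lit 78) (nat_lit 152) (nat_lit 0) (XT.lf (nat_lit 0) (nat_lit 164664698519) (nat_lit 228) (nat_lit 520021810991) (nat_lit 76) (nat_lit 191564787504) (nat_lit 64) (nat_lit 5) (nat_lit 67) (nat_lit 5) (nat_lit 65) (nat_lit 5) (nat_lit 480) (nat_lit 456) (nat_lit 264)) (XT.lf (nat_lit 0) (nat_lit 296072363426) (nat_lit 152) (nat_lit 202510930156) (nat_lit 228) (nat_lit 422092228281) (nat_lit 62)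 (nat_lit 5) (nat_lit 64) (nat_lit 5) (nat_lit 65) (nat_lit 5) (nat_lit 481) (nat_lit 456) (nat_lit 263))))))) (XT.nd (nat_lit 60762) (nat_lit 0) (nat_lit 3268) (XT.nd (nat_lit 468) (nat_lit 608) (nat_lit 0) (XT.nd (nat_lit 234) (nat_lit 380) (nat_lit 0) (XT.nd (nat_lit 78) (nat_lit 380) (nat_lit 0) (XT.lf (nat_lit 0) (nat_lit 230069640327) (nat_lit 152) (nat_lit 646913279992) (nat_lit 228) (nat_lit 90782387182) (nat_lit 60) (nat_lit 5) (nat_lit 62) (nat_lit 5) (nat_lit 63) (nat_lit 5) (nat_lit 482) (nat_lit 456) (nat_lit 262)) (XT.nd (nat_lit 78) (nat_lit 152) (nat_lit 0) (XT.lf (nat_lit 0) (nat_lit 154525931564) (nat_lit 152) (nat_lit 120845416809) (nat_lit 228) (nat_lit 742198181213) (nat_lit 57) (nat_lit 5) (nat_lit 59) (nat_lit 5) (nat_lit 60) (nat_lit 5) (nat_lit 483) (nat_lit 456) (nat_lit 261)) (XT.lf (nat_lit 0) (nat_lit 67177459029) (nat_lit 152) (nat_lit 621595244233) (nat_lit 228)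 (nat_lit 381454179732) (nat_lit 55) (nat_lit 5) (nat_lit 57) (nat_lit 5) (nat_lit 58) (nat_lit 5) (nat_lit 484) (nat_lit 456) (nat_lit 260)))) (XT.nd (nat_lit 78) (nat_lit 304) (nat_lit 0) (XT.lf (nat_lit 0) (nat_lit 25206276418) (nat_lit 228) (nat_lit 26121339568) (nat_lit 76) (nat_lit 1074896958770) (nat_lit 54) (nat_lit 5) (nat_lit 57) (nat_lit 5) (nat_lit 55) (nat_lit 5) (nat_lit 485) (nat_lit 456) (nat_lit 259)) (XT.nd (nat_lit 78) (nat_lit 152) (nat_lit 0) (XT.lf (nat_lit 0) (nat_lit 476896513503) (nat_lit 228) (nat_lit 138407698071) (nat_lit 76) (nat_lit 569792140890) (nat_lit 52) (nat_lit 5) (nat_lit 55) (nat_lit 5) (nat_lit 53) (nat_lit 5) (nat_lit 486) (nat_lit 456) (nat_lit 258)) (XT.lf (nat_lit 0) (nat_lit 981588428566) (nat_lit 228) (nat_lit 259585464668) (nat_lit 76) (nat_lit 6660656206) (nat_lit 50) (nat_lit 5) (nat_lit 53) (nat_lit 5) (nat_lit 51) (nat_lit 4) (nat_lit 487)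 (nat_lit 456) (nat_lit 257))))) (XT.nd (nat_lit 234) (nat_lit 228) (nat_lit 0) (XT.nd (nat_lit 78) (nat_lit 228) (nat_lit 0) (XT.lf (nat_lit 0) (nat_lit 231837775063) (nat_lit 152) (nat_lit 404649754887) (nat_lit 76) (nat_lit 677563045125) (nat_lit 48) (nat_lit 5) (nat_lit 50) (nat_lit 5) (nat_lit 49) (nat_lit 5) (nat_lit 488) (nat_lit 456) (nat_lit 256)) (XT.nd (nat_lit 78) (nat_lit 76) (nat_lit 0) (XT.lf (nat_lit 0) (nat_lit 778540451679) (nat_lit 228) (nat_lit 567650946025) (nat_lit 76) (nat_lit 38249248727) (nat_lit 46) (nat_lit 5) (nat_lit 49) (nat_lit 5) (nat_lit 47) (nat_lit 4) (nat_lit 489) (nat_lit 456) (nat_lit 255)) (XT.lf (nat_lit 0) (nat_lit 701902053369) (nat_lit 76) (nat_lit 695932559316) (nat_lit 152) (nat_lit 61184547301) (nat_lit 45) (nat_lit 5) (nat_lit 46) (nat_lit 5) (nat_lit 47) (nat_lit 4) (nat_lit 490) (nat_lit 456) (nat_lit 254)))) (XT.nd (nat_lit 59904) (nat_lit 0)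 (nat_lit 6384) (XT.nd (nat_lit 59826) (nat_lit 0) (nat_lit 6308) (XT.lf (nat_lit 0) (nat_lit 529634559445) (nat_lit 228) (nat_lit 974876706500) (nat_lit 76) (nat_lit 33671358420) (nat_lit 42) (nat_lit 5) (nat_lit 45) (nat_lit 5) (nat_lit 43) (nat_lit 4) (nat_lit 491) (nat_lit 456) (nat_lit 253)) (XT.lf (nat_lit 0) (nat_lit 54630158213) (nat_lit 836) (nat_lit 54354816056) (nat_lit 836) (nat_lit 54354816056) (nat_lit 125) (nat_lit 3) (nat_lit 136) (nat_lit 3) (nat_lit 136) (nat_lit 5) (nat_lit 457) (nat_lit 457) (nat_lit 286))) (XT.nd (nat_lit 78) (nat_lit 0) (nat_lit 0) (XT.lf (nat_lit 0) (nat_lit 116573574744) (nat_lit 760) (nat_lit 187974661589) (nat_lit 836) (nat_lit 35051384895) (nat_lit 126) (nat_lit 5) (nat_lit 136) (nat_lit 5) (nat_lit 137) (nat_lit 5) (nat_lit 458) (nat_lit 457) (nat_lit 285)) (XT.lf (nat_lit 76) (nat_lit 82131987080) (nat_lit 0) (nat_lit 49222189382) (nat_lit 836)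 (nat_lit 221854974488) (nat_lit 127) (nat_lit 5) (nat_lit 126) (nat_lit 5) (nat_lit 137) (nat_lit 5) (nat_lit 459) (nat_lit 457) (nat_lit 284)))))) (XT.nd (nat_lit 546) (nat_lit 2204) (nat_lit 0) (XT.nd (nat_lit 234) (nat_lit 988) (nat_lit 0) (XT.nd (nat_lit 78) (nat_lit 0) (nat_lit 76) (XT.lf (nat_lit 76) (nat_lit 9530489139) (nat_lit 0) (nat_lit 144800290328) (nat_lit 836) (nat_lit 213225985961) (nat_lit 128) (nat_lit 5) (nat_lit 127) (nat_lit 5) (nat_lit 138) (nat_lit 5) (nat_lit 460) (nat_lit 457) (nat_lit 283)) (XT.nd (nat_lit 78) (nat_lit 0) (nat_lit 76) (XT.lf (nat_lit 0) (nat_lit 186818673127) (nat_lit 760) (nat_lit 63500573036) (nat_lit 836) (nat_lit 132349284809) (nat_lit 128) (nat_lit 5) (nat_lit 138) (nat_lit 5) (nat_lit 139) (nat_lit 5) (nat_lit 461) (nat_lit 457) (nat_lit 282)) (XT.lf (nat_lit 0) (nat_lit 228914664483) (nat_lit 760) (nat_lit 138681897026) (nat_lit 836) (nat_lit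 31042222972) (nat_lit 129) (nat_lit 5) (nat_lit 139) (nat_lit 5) (nat_lit 140) (nat_lit 5) (nat_lit 462) (nat_lit 457) (nat_lit 281)))) (XT.nd (nat_lit 156) (nat_lit 456) (nat_lit 0) (XT.nd (nat_lit 78) (nat_lit 684) (nat_lit 0) (XT.lf (nat_lit 76) (nat_lit 197819610255) (nat_lit 0) (nat_lit 84992284963) (nat_lit 836) (nat_lit 132653085075) (nat_lit 130) (nat_lit 5) (nat_lit 129) (nat_lit 5) (nat_lit 140) (nat_lit 5) (nat_lit 463) (nat_lit 457) (nat_lit 280)) (XT.lf (nat_lit 0) (nat_lit 133471028093) (nat_lit 760) (nat_lit 215527275230) (nat_lit 836) (nat_lit 84240098527) (nat_lit 120) (nat_lit 5) (nat_lit 130) (nat_lit 5) (nat_lit 131) (nat_lit 5) (nat_lit 464) (nat_lit 457) (nat_lit 279))) (XT.nd (nat_lit 78) (nat_lit 76) (nat_lit 0) (XT.lf (nat_lit 0) (nat_lit 67498474148) (nat_lit 380) (nat_lit 360692658183) (nat_lit 456) (nat_lit 23856989411) (nat_lit 115) (nat_lit 5) (nat_lit 120) (nat_lit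 5) (nat_lit 121) (nat_lit 5) (nat_lit 465) (nat_lit 457) (nat_lit 278)) (XT.lf (nat_lit 0) (nat_lit 48974574652) (nat_lit 456) (nat_lit 1616885542) (nat_lit 76) (nat_lit 421291800244) (nat_lit 114) (nat_lit 5) (nat_lit 120) (nat_lit 5) (nat_lit 115) (nat_lit 5) (nat_lit 466) (nat_lit 457) (nat_lit 277))))) (XT.nd (nat_lit 234) (nat_lit 1140) (nat_lit 0) (XT.nd (nat_lit 78) (nat_lit 684) (nat_lit 0) (XT.lf (nat_lit 0) (nat_lit 138000234646) (nat_lit 456) (nat_lit 72351804548) (nat_lit 76) (nat_lit 282373445971) (nat_lit 109) (nat_lit 5) (nat_lit 115) (nat_lit 5) (nat_lit 110) (nat_lit 5) (nat_lit 467) (nat_lit 457) (nat_lit 276)) (XT.nd (nat_lit 78) (nat_lit 304) (nat_lit 0) (XT.lf (nat_lit 0) (nat_lit 242885372413) (nat_lit 456) (nat_lit 144948122825) (nat_lit 76) (nat_lit 126964721399) (nat_lit 104) (nat_lit 5) (nat_lit 110) (nat_lit 5) (nat_lit 105) (nat_lit 5) (nat_lit 468) (nat_lit 457)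 (nat_lit 275)) (XT.lf (nat_lit 0) (nat_lit 318050004014) (nat_lit 304) (nat_lit 47904822801) (nat_lit 380) (nat_lit 172192264549) (nat_lit 100) (nat_lit 5) (nat_lit 104) (nat_lit 5) (nat_lit 105) (nat_lit 5) (nat_lit 469) (nat_lit 457) (nat_lit 274)))) (XT.nd (nat_lit 156) (nat_lit 532) (nat_lit 0) (XT.nd (nat_lit 78) (nat_lit 304) (nat_lit 0) (XT.lf (nat_lit 0) (nat_lit 263432551252) (nat_lit 304) (nat_lit 247100345174) (nat_lit 380) (nat_lit 52247826715) (nat_lit 96) (nat_lit 5) (nat_lit 100) (nat_lit 5) (nat_lit 101) (nat_lit 5) (nat_lit 470) (nat_lit 457) (nat_lit 273)) (XT.lf (nat_lit 0) (nat_lit 84754010659) (nat_lit 304) (nat_lit 381975576004) (nat_lit 76) (nat_lit 122098337618) (nat_lit 92) (nat_lit 5) (nat_lit 96) (nat_lit 5) (nat_lit 93) (nat_lit 5) (nat_lit 471) (nat_lit 457) (nat_lit 272))) (XT.nd (nat_lit 78) (nat_lit 228) (nat_lit 0) (XT.lf (nat_lit 0) (nat_lit 147115891919)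 (nat_lit 304) (nat_lit 95557413406) (nat_lit 380) (nat_lit 373653379129) (nat_lit 88) (nat_lit 5) (nat_lit 92) (nat_lit 5) (nat_lit 93) (nat_lit 5) (nat_lit 472) (nat_lit 457) (nat_lit 271)) (XT.lf (nat_lit 0) (nat_lit 84304667849) (nat_lit 228) (nat_lit 341767236248) (nat_lit 304) (nat_lit 219311153329) (nat_lit 85) (nat_lit 5) (nat_lit 88) (nat_lit 5) (nat_lit 89) (nat_lit 5) (nat_lit 473) (nat_lit 457) (nat_lit 270))))))))
noncomputable def xc119 : XT := (XT.nd (nat_lit 61932) (nat_lit 0) (nat_lit 76) (XT.nd (nat_lit 1014) (nat_lit 684) (nat_lit 0) (XT.nd (nat_lit 468) (nat_lit 1140) (nat_lit 0) (XT.nd (nat_lit 234) (nat_lit 684) (nat_lit 0) (XT.nd (nat_lit 78) (nat_lit 304) (nat_lit 0) (XT.lf (nat_lit 0) (nat_lit 20586878132) (nat_lit 228) (nat_lit 614623679672) (nat_lit 304) (nat_lit 40999974091) (nat_lit 82) (nat_lit 5) (nat_lit 85) (nat_lit 5) (nat_lit 86) (nat_lit 5) (nat_lit 474)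 (nat_lit 457) (nat_lit 269)) (XT.nd (nat_lit 78) (nat_lit 228) (nat_lit 0) (XT.lf (nat_lit 0) (nat_lit 162421348169) (nat_lit 304) (nat_lit 48483849715) (nat_lit 76) (nat_lit 497695848537) (nat_lit 81) (nat_lit 5) (nat_lit 85) (nat_lit 5) (nat_lit 82) (nat_lit 5) (nat_lit 475) (nat_lit 457) (nat_lit 268)) (XT.lf (nat_lit 0) (nat_lit 394168259074) (nat_lit 304) (nat_lit 120154844567) (nat_lit 76) (nat_lit 228551675829) (nat_lit 78) (nat_lit 5) (nat_lit 82) (nat_lit 5) (nat_lit 79) (nat_lit 5) (nat_lit 476) (nat_lit 457) (nat_lit 267)))) (XT.nd (nat_lit 78) (nat_lit 456) (nat_lit 0) (XT.lf (nat_lit 0) (nat_lit 584645345035) (nat_lit 228) (nat_lit 73352147536) (nat_lit 304) (nat_lit 121215790114) (nat_lit 75) (nat_lit 5) (nat_lit 78) (nat_lit 5) (nat_lit 79) (nat_lit 5) (nat_lit 477) (nat_lit 457) (nat_lit 266)) (XT.nd (nat_lit 78) (nat_lit 228) (nat_lit 0) (XT.lf (nat_lit 0) (nat_lit 137659677556)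 (nat_lit 228) (nat_lit 277019770843) (nat_lit 76) (nat_lit 402823776676) (nat_lit 72) (nat_lit 5) (nat_lit 75) (nat_lit 5) (nat_lit 73) (nat_lit 5) (nat_lit 478) (nat_lit 457) (nat_lit 265)) (XT.lf (nat_lit 0) (nat_lit 426554166101) (nat_lit 304) (nat_lit 364110653054) (nat_lit 76) (nat_lit 67414396791) (nat_lit 69) (nat_lit 5) (nat_lit 73) (nat_lit 5) (nat_lit 70) (nat_lit 5) (nat_lit 479) (nat_lit 457) (nat_lit 264))))) (XT.nd (nat_lit 234) (nat_lit 608) (nat_lit 0) (XT.nd (nat_lit 78) (nat_lit 380) (nat_lit 0) (XT.lf (nat_lit 0) (nat_lit 441941730706) (nat_lit 152) (nat_lit 315415269078) (nat_lit 228) (nat_lit 143604447004) (nat_lit 67) (nat_lit 5) (nat_lit 69) (nat_lit 5) (nat_lit 70) (nat_lit 5) (nat_lit 480) (nat_lit 457) (nat_lit 263)) (XT.nd (nat_lit 78) (nat_lit 152) (nat_lit 0) (XT.lf (nat_lit 0) (nat_lit 177838424616) (nat_lit 228) (nat_lit 561622663342) (nat_lit 76) (nat_lit 206890285204)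 (nat_lit 64) (nat_lit 5) (nat_lit 67) (nat_lit 5) (nat_lit 65) (nat_lit 5) (nat_lit 481) (nat_lit 457) (nat_lit 262)) (XT.lf (nat_lit 0) (nat_lit 319759006241) (nat_lit 152) (nat_lit 218711473616) (nat_lit 228) (nat_lit 455859057521) (nat_lit 62) (nat_lit 5) (nat_lit 64) (nat_lit 5) (nat_lit 65) (nat_lit 5) (nat_lit 482) (nat_lit 457) (nat_lit 261)))) (XT.nd (nat_lit 156) (nat_lit 228) (nat_lit 0) (XT.nd (nat_lit 78) (nat_lit 228) (nat_lit 0) (XT.lf (nat_lit 0) (nat_lit 248476048343) (nat_lit 152) (nat_lit 698666007513) (nat_lit 228) (nat_lit 98044451061) (nat_lit 60) (nat_lit 5) (nat_lit 62) (nat_lit 5) (nat_lit 63) (nat_lit 5) (nat_lit 483) (nat_lit 457) (nat_lit 260)) (XT.lf (nat_lit 0) (nat_lit 166888822732) (nat_lit 152) (nat_lit 130512718693) (nat_lit 228) (nat_lit 801573526192) (nat_lit 57) (nat_lit 5) (nat_lit 59) (nat_lit 5) (nat_lit 60) (nat_lit 5) (nat_lit 484) (nat_lit 457) (nat_lit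 259))) (XT.nd (nat_lit 78) (nat_lit 76) (nat_lit 0) (XT.lf (nat_lit 0) (nat_lit 72552455232) (nat_lit 152) (nat_lit 671322530806) (nat_lit 228) (nat_lit 411970024197) (nat_lit 55) (nat_lit 5) (nat_lit 57) (nat_lit 5) (nat_lit 58) (nat_lit 5) (nat_lit 485) (nat_lit 457) (nat_lit 258)) (XT.lf (nat_lit 0) (nat_lit 27223217636) (nat_lit 228) (nat_lit 28210291890) (nat_lit 76) (nat_lit 1160889009191) (nat_lit 54) (nat_lit 5) (nat_lit 57) (nat_lit 5) (nat_lit 55) (nat_lit 5) (nat_lit 486) (nat_lit 457) (nat_lit 257)))))) (XT.nd (nat_lit 60372) (nat_lit 0) (nat_lit 5320) (XT.nd (nat_lit 234) (nat_lit 228) (nat_lit 0) (XT.nd (nat_lit 78) (nat_lit 304) (nat_lit 0) (XT.lf (nat_lit 0) (nat_lit 515048657184) (nat_lit 228) (nat_lit 149479575676) (nat_lit 76) (nat_lit 615375806612) (nat_lit 52) (nat_lit 5) (nat_lit 55) (nat_lit 5) (nat_lit 53) (nat_lit 5) (nat_lit 487) (nat_lit 457) (nat_lit 256)) (XT.nd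 (nat_lit 78) (nat_lit 152) (nat_lit 0) (XT.lf (nat_lit 0) (nat_lit 1060115909917) (nat_lit 228) (nat_lit 280351580257) (nat_lit 76) (nat_lit 7193802813) (nat_lit 50) (nat_lit 5) (nat_lit 53) (nat_lit 5) (nat_lit 51) (nat_lit 4) (nat_lit 488) (nat_lit 457) (nat_lit 255)) (XT.lf (nat_lit 0) (nat_lit 250385191162) (nat_lit 152) (nat_lit 437021031974) (nat_lit 76) (nat_lit 731768378192) (nat_lit 48) (nat_lit 5) (nat_lit 50) (nat_lit 5) (nat_lit 49) (nat_lit 5) (nat_lit 489) (nat_lit 457) (nat_lit 254)))) (XT.nd (nat_lit 59982) (nat_lit 0) (nat_lit 6080) (XT.nd (nat_lit 78) (nat_lit 76) (nat_lit 0) (XT.lf (nat_lit 0) (nat_lit 840824067860) (nat_lit 228) (nat_lit 613062334795) (nat_lit 76) (nat_lit 41309476443) (nat_lit 46) (nat_lit 5) (nat_lit 49) (nat_lit 5) (nat_lit 47) (nat_lit 4) (nat_lit 490) (nat_lit 457) (nat_lit 253)) (XT.lf (nat_lit 0) (nat_lit 758054874698) (nat_lit 76) (nat_lit 751606869155)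 (nat_lit 152) (nat_lit 66078930782) (nat_lit 45) (nat_lit 5) (nat_lit 46) (nat_lit 5) (nat_lit 47) (nat_lit 4) (nat_lit 491) (nat_lit 457) (nat_lit 252))) (XT.nd (nat_lit 78) (nat_lit 0) (nat_lit 76) (XT.lf (nat_lit 0) (nat_lit 59001490454) (nat_lit 836) (nat_lit 58702718380) (nat_lit 836) (nat_lit 58702718380) (nat_lit 125) (nat_lit 3) (nat_lit 136) (nat_lit 3) (nat_lit 136) (nat_lit 5) (nat_lit 458) (nat_lit 458) (nat_lit 284)) (XT.lf (nat_lit 0) (nat_lit 125901165696) (nat_lit 760) (nat_lit 203011611654) (nat_lit 836) (nat_lit 37854727665) (nat_lit 126) (nat_lit 5) (nat_lit 136) (nat_lit 5) (nat_lit 137) (nat_lit 5) (nat_lit 459) (nat_lit 458) (nat_lit 283))))) (XT.nd (nat_lit 234) (nat_lit 836) (nat_lit 0) (XT.nd (nat_lit 78) (nat_lit 0) (nat_lit 76) (XT.lf (nat_lit 76) (nat_lit 88703524456) (nat_lit 0) (nat_lit 53160580077) (nat_lit 836) (nat_lit 239601698182) (nat_lit 127) (nat_lit 5)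 (nat_lit 126) (nat_lit 5) (nat_lit 137) (nat_lit 5) (nat_lit 460) (nat_lit 458) (nat_lit 282)) (XT.nd (nat_lit 78) (nat_lit 0) (nat_lit 76) (XT.lf (nat_lit 76) (nat_lit 10293950173) (nat_lit 0) (nat_lit 156384774591) (nat_lit 836) (nat_lit 230282507183) (nat_lit 128) (nat_lit 5) (nat_lit 127) (nat_lit 5) (nat_lit 138) (nat_lit 5) (nat_lit 461) (nat_lit 458) (nat_lit 281)) (XT.lf (nat_lit 0) (nat_lit 201765533405) (nat_lit 760) (nat_lit 68579596828) (nat_lit 836) (nat_lit 142936814371) (nat_lit 128) (nat_lit 5) (nat_lit 138) (nat_lit 5) (nat_lit 139) (nat_lit 5) (nat_lit 462) (nat_lit 458) (nat_lit 280)))) (XT.nd (nat_lit 156) (nat_lit 1064) (nat_lit 0) (XT.nd (nat_lit 78) (nat_lit 0) (nat_lit 0) (XT.lf (nat_lit 0) (nat_lit 247229113387) (nat_lit 760) (nat_lit 149775401915) (nat_lit 836) (nat_lit 33525307663) (nat_lit 129) (nat_lit 5) (nat_lit 139) (nat_lit 5) (nat_lit 140) (nat_lit 5) (nat_lit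 463) (nat_lit 458) (nat_lit 279)) (XT.lf (nat_lit 76) (nat_lit 213646180453) (nat_lit 0) (nat_lit 91791863263) (nat_lit 836) (nat_lit 143264074705) (nat_lit 130) (nat_lit 5) (nat_lit 129) (nat_lit 5) (nat_lit 140) (nat_lit 5) (nat_lit 464) (nat_lit 458) (nat_lit 278))) (XT.nd (nat_lit 78) (nat_lit 380) (nat_lit 0) (XT.lf (nat_lit 0) (nat_lit 144149728794) (nat_lit 760) (nat_lit 232769560092) (nat_lit 836) (nat_lit 90978128629) (nat_lit 120) (nat_lit 5) (nat_lit 130) (nat_lit 5) (nat_lit 131) (nat_lit 5) (nat_lit 465) (nat_lit 458) (nat_lit 277)) (XT.lf (nat_lit 0) (nat_lit 72899381836) (nat_lit 380) (nat_lit 389548093910) (nat_lit 456) (nat_lit 25764442707) (nat_lit 115) (nat_lit 5) (nat_lit 120) (nat_lit 5) (nat_lit 121) (nat_lit 5) (nat_lit 466) (nat_lit 458) (nat_lit 276))))))) (XT.nd (nat_lit 1014) (nat_lit 1976) (nat_lit 0) (XT.nd (nat_lit 468) (nat_lit 1520) (nat_lit 0) (XT.nd (nat_lit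 234) (nat_lit 912) (nat_lit 0) (XT.nd (nat_lit 78) (nat_lit 760) (nat_lit 0) (XT.lf (nat_lit 0) (nat_lit 52893531793) (nat_lit 456) (nat_lit 1745249794) (nat_lit 76) (nat_lit 454995089786) (nat_lit 114) (nat_lit 5) (nat_lit 120) (nat_lit 5) (nat_lit 115) (nat_lit 5) (nat_lit 467) (nat_lit 458) (nat_lit 275)) (XT.nd (nat_lit 78) (nat_lit 380) (nat_lit 0) (XT.lf (nat_lit 0) (nat_lit 149041186076) (nat_lit 456) (nat_lit 78138958432) (nat_lit 76) (nat_lit 304963332521) (nat_lit 109) (nat_lit 5) (nat_lit 115) (nat_lit 5) (nat_lit 110) (nat_lit 5) (nat_lit 468) (nat_lit 458) (nat_lit 274)) (XT.lf (nat_lit 0) (nat_lit 262317081650) (nat_lit 456) (nat_lit 156542982084) (nat_lit 76) (nat_lit 137121965971) (nat_lit 104) (nat_lit 5) (nat_lit 110) (nat_lit 5) (nat_lit 105) (nat_lit 5) (nat_lit 469) (nat_lit 458) (nat_lit 273)))) (XT.nd (nat_lit 78) (nat_lit 608) (nat_lit 0) (XT.lf (nat_lit 0) (nat_lit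 343494951854) (nat_lit 304) (nat_lit 51737090199) (nat_lit 380) (nat_lit 185966774895) (nat_lit 100) (nat_lit 5) (nat_lit 104) (nat_lit 5) (nat_lit 105) (nat_lit 5) (nat_lit 470) (nat_lit 458) (nat_lit 272)) (XT.nd (nat_lit 78) (nat_lit 304) (nat_lit 0) (XT.lf (nat_lit 0) (nat_lit 284508099835) (nat_lit 304) (nat_lit 266868212441) (nat_lit 380) (nat_lit 56426829259) (nat_lit 96) (nat_lit 5) (nat_lit 100) (nat_lit 5) (nat_lit 101) (nat_lit 5) (nat_lit 471) (nat_lit 458) (nat_lit 271)) (XT.lf (nat_lit 0) (nat_lit 91535086944) (nat_lit 304) (nat_lit 412532658100) (nat_lit 76) (nat_lit 131866375186) (nat_lit 92) (nat_lit 5) (nat_lit 96) (nat_lit 5) (nat_lit 93) (nat_lit 5) (nat_lit 472) (nat_lit 458) (nat_lit 270))))) (XT.nd (nat_lit 234) (nat_lit 760) (nat_lit 0) (XT.nd (nat_lit 78) (nat_lit 456) (nat_lit 0) (XT.lf (nat_lit 0) (nat_lit 158886085363) (nat_lit 304) (nat_lit 103201798259) (nat_lit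 380) (nat_lit 403544899691) (nat_lit 88) (nat_lit 5) (nat_lit 92) (nat_lit 5) (nat_lit 93) (nat_lit 5) (nat_lit 473) (nat_lit 458) (nat_lit 269)) (XT.nd (nat_lit 78) (nat_lit 228) (nat_lit 0) (XT.lf (nat_lit 0) (nat_lit 91049954523) (nat_lit 228) (nat_lit 369108380162) (nat_lit 304) (nat_lit 236855333233) (nat_lit 85) (nat_lit 5) (nat_lit 88) (nat_lit 5) (nat_lit 89) (nat_lit 5) (nat_lit 474) (nat_lit 458) (nat_lit 268)) (XT.lf (nat_lit 0) (nat_lit 22234731051) (nat_lit 228) (nat_lit 663793316886) (nat_lit 304) (nat_lit 44279294058) (nat_lit 82) (nat_lit 5) (nat_lit 85) (nat_lit 5) (nat_lit 86) (nat_lit 5) (nat_lit 475) (nat_lit 458) (nat_lit 267)))) (XT.nd (nat_lit 156) (nat_lit 456) (nat_lit 0) (XT.nd (nat_lit 78) (nat_lit 228) (nat_lit 0) (XT.lf (nat_lit 0) (nat_lit 175415663672) (nat_lit 304) (nat_lit 52361701642) (nat_lit 76) (nat_lit 537511734284) (nat_lit 81) (nat_lit 5) (nat_lit 85)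 (nat_lit 5) (nat_lit 82) (nat_lit 5) (nat_lit 476) (nat_lit 458) (nat_lit 266)) (XT.lf (nat_lit 0) (nat_lit 425702299023) (nat_lit 304) (nat_lit 129766388170) (nat_lit 76) (nat_lit 246836045530) (nat_lit 78) (nat_lit 5) (nat_lit 82) (nat_lit 5) (nat_lit 79) (nat_lit 5) (nat_lit 477) (nat_lit 458) (nat_lit 265))) (XT.nd (nat_lit 78) (nat_lit 228) (nat_lit 0) (XT.lf (nat_lit 0) (nat_lit 631417779921) (nat_lit 228) (nat_lit 79220060977) (nat_lit 304) (nat_lit 130912476822) (nat_lit 75) (nat_lit 5) (nat_lit 78) (nat_lit 5) (nat_lit 79) (nat_lit 5) (nat_lit 478) (nat_lit 458) (nat_lit 264)) (XT.lf (nat_lit 0) (nat_lit 148672984880) (nat_lit 228) (nat_lit 299180540044) (nat_lit 76) (nat_lit 435049931384) (nat_lit 72) (nat_lit 5) (nat_lit 75) (nat_lit 5) (nat_lit 73) (nat_lit 5) (nat_lit 479) (nat_lit 458) (nat_lit 263)))))) (XT.nd (nat_lit 546) (nat_lit 684) (nat_lit 0) (XT.nd (nat_lit 234) (nat_lit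 684) (nat_lit 0) (XT.nd (nat_lit 78) (nat_lit 380) (nat_lit 0) (XT.lf (nat_lit 0) (nat_lit 460679009389) (nat_lit 304) (nat_lit 393238706981) (nat_lit 76) (nat_lit 72807811243) (nat_lit 69) (nat_lit 5) (nat_lit 73) (nat_lit 5) (nat_lit 70) (nat_lit 5) (nat_lit 480) (nat_lit 458) (nat_lit 262)) (XT.nd (nat_lit 78) (nat_lit 228) (nat_lit 0) (XT.lf (nat_lit 0) (nat_lit 477297832786) (nat_lit 152) (nat_lit 340648211125) (nat_lit 228) (nat_lit 155092294313) (nat_lit 67) (nat_lit 5) (nat_lit 69) (nat_lit 5) (nat_lit 70) (nat_lit 5) (nat_lit 481) (nat_lit 458) (nat_lit 261)) (XT.lf (nat_lit 0) (nat_lit 192065970306) (nat_lit 228) (nat_lit 606551711209) (nat_lit 76) (nat_lit 223441777825) (nat_lit 64) (nat_lit 5) (nat_lit 67) (nat_lit 5) (nat_lit 65) (nat_lit 5) (nat_lit 482) (nat_lit 458) (nat_lit 260)))) (XT.nd (nat_lit 156) (nat_lit 380) (nat_lit 0) (XT.nd (nat_lit 78) (nat_lit 152) (nat_lit 0)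 (XT.lf (nat_lit 0) (nat_lit 345340458685) (nat_lit 152) (nat_lit 236208107766) (nat_lit 228) (nat_lit 492327311424) (nat_lit 62) (nat_lit 5) (nat_lit 64) (nat_lit 5) (nat_lit 65) (nat_lit 5) (nat_lit 483) (nat_lit 458) (nat_lit 259)) (XT.lf (nat_lit 0) (nat_lit 268354849624) (nat_lit 152) (nat_lit 754559001010) (nat_lit 228) (nat_lit 105887555246) (nat_lit 60) (nat_lit 5) (nat_lit 62) (nat_lit 5) (nat_lit 63) (nat_lit 5) (nat_lit 484) (nat_lit 458) (nat_lit 258))) (XT.nd (nat_lit 78) (nat_lit 152) (nat_lit 0) (XT.lf (nat_lit 0) (nat_lit 180240628690) (nat_lit 152) (nat_lit 140953452013) (nat_lit 228) (nat_lit 865698971458) (nat_lit 57) (nat_lit 5) (nat_lit 59) (nat_lit 5) (nat_lit 60) (nat_lit 5) (nat_lit 485) (nat_lit 458) (nat_lit 257)) (XT.lf (nat_lit 0) (nat_lit 78357337077) (nat_lit 152) (nat_lit 725028047806) (nat_lit 228) (nat_lit 444927206111) (nat_lit 55) (nat_lit 5) (nat_lit 57)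 (nat_lit 5) (nat_lit 58) (nat_lit 5) (nat_lit 486) (nat_lit 458) (nat_lit 256))))) (XT.nd (nat_lit 234) (nat_lit 304) (nat_lit 0) (XT.nd (nat_lit 78) (nat_lit 304) (nat_lit 0) (XT.lf (nat_lit 0) (nat_lit 29401451509) (nat_lit 228) (nat_lit 30466468085) (nat_lit 76) (nat_lit 1253760381743) (nat_lit 54) (nat_lit 5) (nat_lit 57) (nat_lit 5) (nat_lit 55) (nat_lit 5) (nat_lit 487) (nat_lit 458) (nat_lit 255)) (XT.nd (nat_lit 78) (nat_lit 152) (nat_lit 0) (XT.lf (nat_lit 0) (nat_lit 556252912070) (nat_lit 228) (nat_lit 161437308808) (nat_lit 76) (nat_lit 664606123585) (nat_lit 52) (nat_lit 5) (nat_lit 55) (nat_lit 5) (nat_lit 53) (nat_lit 5) (nat_lit 488) (nat_lit 458) (nat_lit 254)) (XT.lf (nat_lit 0) (nat_lit 1144925531704) (nat_lit 228) (nat_lit 302779088035) (nat_lit 76) (nat_lit 7769559191) (nat_lit 50) (nat_lit 5) (nat_lit 53) (nat_lit 5) (nat_lit 51) (nat_lit 4) (nat_lit 489) (nat_lit 458)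 (nat_lit 253)))) (XT.nd (nat_lit 60060) (nat_lit 0) (nat_lit 6004) (XT.nd (nat_lit 78) (nat_lit 152) (nat_lit 0) (XT.lf (nat_lit 0) (nat_lit 270416344327) (nat_lit 152) (nat_lit 471982111562) (nat_lit 76) (nat_lit 790310096611) (nat_lit 48) (nat_lit 5) (nat_lit 50) (nat_lit 5) (nat_lit 49) (nat_lit 5) (nat_lit 490) (nat_lit 458) (nat_lit 252)) (XT.lf (nat_lit 0) (nat_lit 908090319118) (nat_lit 228) (nat_lit 662106732663) (nat_lit 76) (nat_lit 44614481316) (nat_lit 46) (nat_lit 5) (nat_lit 49) (nat_lit 5) (nat_lit 47) (nat_lit 4) (nat_lit 491) (nat_lit 458) (nat_lit 251))) (XT.nd (nat_lit 78) (nat_lit 0) (nat_lit 76) (XT.lf (nat_lit 0) (nat_lit 63722398086) (nat_lit 836) (nat_lit 63398521789) (nat_lit 836) (nat_lit 63398521789) (nat_lit 125) (nat_lit 3) (nat_lit 136) (nat_lit 3) (nat_lit 136) (nat_lit 5) (nat_lit 459) (nat_lit 459) (nat_lit 282)) (XT.lf (nat_lit 0) (nat_lit 135974720691) (nat_lit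 760) (nat_lit 219251663647) (nat_lit 836) (nat_lit 40882447423) (nat_lit 126) (nat_lit 5) (nat_lit 136) (nat_lit 5) (nat_lit 137) (nat_lit 5) (nat_lit 460) (nat_lit 459) (nat_lit 281))))))))
noncomputable def xc120 : XT := (XT.nd (nat_lit 2028) (nat_lit 684) (nat_lit 0) (XT.nd (nat_lit 1014) (nat_lit 2660) (nat_lit 0) (XT.nd (nat_lit 468) (nat_lit 2128) (nat_lit 0) (XT.nd (nat_lit 234) (nat_lit 456) (nat_lit 0) (XT.nd (nat_lit 78) (nat_lit 0) (nat_lit 76) (XT.lf (nat_lit 76) (nat_lit 95800645241) (nat_lit 0) (nat_lit 57413954213) (nat_lit 836) (nat_lit 258768398625) (nat_lit 127) (nat_lit 5) (nat_lit 126) (nat_lit 5) (nat_lit 137) (nat_lit 5) (nat_lit 461) (nat_lit 459) (nat_lit 280)) (XT.nd (nat_lit 78) (nat_lit 0) (nat_lit 76) (XT.lf (nat_lit 76) (nat_lit 11118342303) (nat_lit 0) (nat_lit 168895951823) (nat_lit 836) (nat_lit 248703772320) (nat_lit 128) (nat_lit 5) (nat_lit 127) (nat_lit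 5) (nat_lit 138) (nat_lit 5) (nat_lit 462) (nat_lit 459) (nat_lit 279)) (XT.lf (nat_lit 0) (nat_lit 217907947568) (nat_lit 760) (nat_lit 74065088329) (nat_lit 836) (nat_lit 154371405249) (nat_lit 128) (nat_lit 5) (nat_lit 138) (nat_lit 5) (nat_lit 139) (nat_lit 5) (nat_lit 463) (nat_lit 459) (nat_lit 278)))) (XT.nd (nat_lit 78) (nat_lit 684) (nat_lit 0) (XT.lf (nat_lit 0) (nat_lit 267008536205) (nat_lit 760) (nat_lit 161756536542) (nat_lit 836) (nat_lit 36207080950) (nat_lit 129) (nat_lit 5) (nat_lit 139) (nat_lit 5) (nat_lit 140) (nat_lit 5) (nat_lit 464) (nat_lit 459) (nat_lit 277)) (XT.nd (nat_lit 78) (nat_lit 684) (nat_lit 0) (XT.lf (nat_lit 76) (nat_lit 230738733410) (nat_lit 0) (nat_lit 99135379937) (nat_lit 836) (nat_lit 154724122856) (nat_lit 130) (nat_lit 5) (nat_lit 129) (nat_lit 5) (nat_lit 140) (nat_lit 5) (nat_lit 465) (nat_lit 459) (nat_lit 276)) (XT.lf (nat_lit 0) (nat_lit 155682580257)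 (nat_lit 760) (nat_lit 251391213072) (nat_lit 836) (nat_lit 98255369164) (nat_lit 120) (nat_lit 5) (nat_lit 130) (nat_lit 5) (nat_lit 131) (nat_lit 5) (nat_lit 466) (nat_lit 459) (nat_lit 275))))) (XT.nd (nat_lit 234) (nat_lit 1292) (nat_lit 0) (XT.nd (nat_lit 78) (nat_lit 456) (nat_lit 0) (XT.lf (nat_lit 0) (nat_lit 78732215233) (nat_lit 380) (nat_lit 420711961204) (nat_lit 456) (nat_lit 27824650030) (nat_lit 115) (nat_lit 5) (nat_lit 120) (nat_lit 5) (nat_lit 121) (nat_lit 5) (nat_lit 467) (nat_lit 459) (nat_lit 274)) (XT.nd (nat_lit 78) (nat_lit 380) (nat_lit 0) (XT.lf (nat_lit 0) (nat_lit 57125864105) (nat_lit 456) (nat_lit 1884023934) (nat_lit 76) (nat_lit 491394650264) (nat_lit 114) (nat_lit 5) (nat_lit 120) (nat_lit 5) (nat_lit 115) (nat_lit 5) (nat_lit 468) (nat_lit 459) (nat_lit 273)) (XT.lf (nat_lit 0) (nat_lit 160965280566) (nat_lit 456) (nat_lit 84389225930) (nat_lit 76) (nat_lit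 329360408444) (nat_lit 109) (nat_lit 5) (nat_lit 115) (nat_lit 5) (nat_lit 110) (nat_lit 5) (nat_lit 469) (nat_lit 459) (nat_lit 272)))) (XT.nd (nat_lit 156) (nat_lit 608) (nat_lit 0) (XT.nd (nat_lit 78) (nat_lit 304) (nat_lit 0) (XT.lf (nat_lit 0) (nat_lit 283303202163) (nat_lit 456) (nat_lit 169065571399) (nat_lit 76) (nat_lit 148091780569) (nat_lit 104) (nat_lit 5) (nat_lit 110) (nat_lit 5) (nat_lit 105) (nat_lit 5) (nat_lit 470) (nat_lit 459) (nat_lit 271)) (XT.lf (nat_lit 0) (nat_lit 370975360346) (nat_lit 304) (nat_lit 55875955885) (nat_lit 380) (nat_lit 200843370301) (nat_lit 100) (nat_lit 5) (nat_lit 104) (nat_lit 5) (nat_lit 105) (nat_lit 5) (nat_lit 471) (nat_lit 459) (nat_lit 270))) (XT.nd (nat_lit 78) (nat_lit 304) (nat_lit 0) (XT.lf (nat_lit 0) (nat_lit 307269557565) (nat_lit 304) (nat_lit 288217531965) (nat_lit 380) (nat_lit 60940269501) (nat_lit 96) (nat_lit 5) (nat_lit 100)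 (nat_lit 5) (nat_lit 101) (nat_lit 5) (nat_lit 472) (nat_lit 459) (nat_lit 269)) (XT.lf (nat_lit 0) (nat_lit 98858541562) (nat_lit 304) (nat_lit 445534444287) (nat_lit 76) (nat_lit 142415831428) (nat_lit 92) (nat_lit 5) (nat_lit 96) (nat_lit 5) (nat_lit 93) (nat_lit 5) (nat_lit 473) (nat_lit 459) (nat_lit 268)))))) (XT.nd (nat_lit 468) (nat_lit 1368) (nat_lit 0) (XT.nd (nat_lit 234) (nat_lit 532) (nat_lit 0) (XT.nd (nat_lit 78) (nat_lit 456) (nat_lit 0) (XT.lf (nat_lit 0) (nat_lit 171597762737) (nat_lit 304) (nat_lit 111457763605) (nat_lit 380) (nat_lit 435827848859) (nat_lit 88) (nat_lit 5) (nat_lit 92) (nat_lit 5) (nat_lit 93) (nat_lit 5) (nat_lit 474) (nat_lit 459) (nat_lit 267)) (XT.nd (nat_lit 78) (nat_lit 228) (nat_lit 0) (XT.lf (nat_lit 0) (nat_lit 98334733847) (nat_lit 228) (nat_lit 398636849112) (nat_lit 304) (nat_lit 255803149156) (nat_lit 85) (nat_lit 5) (nat_lit 88) (nat_lit 5)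 (nat_lit 89) (nat_lit 5) (nat_lit 475) (nat_lit 459) (nat_lit 266)) (XT.lf (nat_lit 0) (nat_lit 24014283428) (nat_lit 228) (nat_lit 716896561764) (nat_lit 304) (nat_lit 47821056341) (nat_lit 82) (nat_lit 5) (nat_lit 85) (nat_lit 5) (nat_lit 86) (nat_lit 5) (nat_lit 476) (nat_lit 459) (nat_lit 265)))) (XT.nd (nat_lit 78) (nat_lit 456) (nat_lit 0) (XT.lf (nat_lit 0) (nat_lit 189449437726) (nat_lit 304) (nat_lit 56549903847) (nat_lit 76) (nat_lit 580512859811) (nat_lit 81) (nat_lit 5) (nat_lit 85) (nat_lit 5) (nat_lit 82) (nat_lit 5) (nat_lit 477) (nat_lit 459) (nat_lit 264)) (XT.nd (nat_lit 78) (nat_lit 228) (nat_lit 0) (XT.lf (nat_lit 0) (nat_lit 459758979535) (nat_lit 304) (nat_lit 140146975663) (nat_lit 76) (nat_lit 266583131191) (nat_lit 78) (nat_lit 5) (nat_lit 82) (nat_lit 5) (nat_lit 79) (nat_lit 5) (nat_lit 478) (nat_lit 459) (nat_lit 263)) (XT.lf (nat_lit 0) (nat_lit 681931894431) (nat_lit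 228) (nat_lit 85557444351) (nat_lit 304) (nat_lit 141384980712) (nat_lit 75) (nat_lit 5) (nat_lit 78) (nat_lit 5) (nat_lit 79) (nat_lit 5) (nat_lit 479) (nat_lit 459) (nat_lit 262))))) (XT.nd (nat_lit 234) (nat_lit 760) (nat_lit 0) (XT.nd (nat_lit 78) (nat_lit 380) (nat_lit 0) (XT.lf (nat_lit 0) (nat_lit 160567280734) (nat_lit 228) (nat_lit 323114286689) (nat_lit 76) (nat_lit 469854142437) (nat_lit 72) (nat_lit 5) (nat_lit 75) (nat_lit 5) (nat_lit 73) (nat_lit 5) (nat_lit 480) (nat_lit 459) (nat_lit 261)) (XT.nd (nat_lit 78) (nat_lit 152) (nat_lit 0) (XT.lf (nat_lit 0) (nat_lit 497533767382) (nat_lit 304) (nat_lit 424697119112) (nat_lit 76) (nat_lit 78632661373) (nat_lit 69) (nat_lit 5) (nat_lit 73) (nat_lit 5) (nat_lit 70) (nat_lit 5) (nat_lit 481) (nat_lit 459) (nat_lit 260)) (XT.lf (nat_lit 0) (nat_lit 515482314092) (nat_lit 152) (nat_lit 367899828407) (nat_lit 228) (nat_lit 167499241943)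 (nat_lit 67) (nat_lit 5) (nat_lit 69) (nat_lit 5) (nat_lit 70) (nat_lit 5) (nat_lit 482) (nat_lit 459) (nat_lit 259)))) (XT.nd (nat_lit 156) (nat_lit 380) (nat_lit 0) (XT.nd (nat_lit 78) (nat_lit 152) (nat_lit 0) (XT.lf (nat_lit 0) (nat_lit 207431652355) (nat_lit 228) (nat_lit 655075192071) (nat_lit 76) (nat_lit 241317351365) (nat_lit 64) (nat_lit 5) (nat_lit 67) (nat_lit 5) (nat_lit 65) (nat_lit 5) (nat_lit 483) (nat_lit 459) (nat_lit 258)) (XT.lf (nat_lit 0) (nat_lit 372968322905) (nat_lit 152) (nat_lit 255104513127) (nat_lit 228) (nat_lit 531713092790) (nat_lit 62) (nat_lit 5) (nat_lit 64) (nat_lit 5) (nat_lit 65) (nat_lit 5) (nat_lit 484) (nat_lit 459) (nat_lit 257))) (XT.nd (nat_lit 78) (nat_lit 228) (nat_lit 0) (XT.lf (nat_lit 0) (nat_lit 289823852660) (nat_lit 152) (nat_lit 814923474945) (nat_lit 228) (nat_lit 114358172235) (nat_lit 60) (nat_lit 5) (nat_lit 62) (nat_lit 5) (nat_lit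 63) (nat_lit 5) (nat_lit 485) (nat_lit 459) (nat_lit 256)) (XT.lf (nat_lit 0) (nat_lit 194660479241) (nat_lit 152) (nat_lit 152229484540) (nat_lit 228) (nat_lit 934954514664) (nat_lit 57) (nat_lit 5) (nat_lit 59) (nat_lit 5) (nat_lit 60) (nat_lit 5) (nat_lit 486) (nat_lit 459) (nat_lit 255))))))) (XT.nd (nat_lit 60996) (nat_lit 0) (nat_lit 1824) (XT.nd (nat_lit 60450) (nat_lit 0) (nat_lit 5472) (XT.nd (nat_lit 234) (nat_lit 304) (nat_lit 0) (XT.nd (nat_lit 78) (nat_lit 228) (nat_lit 0) (XT.lf (nat_lit 0) (nat_lit 84626511686) (nat_lit 152) (nat_lit 783030046891) (nat_lit 228) (nat_lit 480521022499) (nat_lit 55) (nat_lit 5) (nat_lit 57) (nat_lit 5) (nat_lit 58) (nat_lit 5) (nat_lit 487) (nat_lit 459) (nat_lit 254)) (XT.nd (nat_lit 78) (nat_lit 152) (nat_lit 0) (XT.lf (nat_lit 0) (nat_lit 31753890384) (nat_lit 228) (nat_lit 32903230700) (nat_lit 76) (nat_lit 1354061428175) (nat_lit 54) (nat_lit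 5) (nat_lit 57) (nat_lit 5) (nat_lit 55) (nat_lit 5) (nat_lit 488) (nat_lit 459) (nat_lit 253)) (XT.lf (nat_lit 0) (nat_lit 600753455660) (nat_lit 228) (nat_lit 174351750884) (nat_lit 76) (nat_lit 717774829902) (nat_lit 52) (nat_lit 5) (nat_lit 55) (nat_lit 5) (nat_lit 53) (nat_lit 5) (nat_lit 489) (nat_lit 459) (nat_lit 252)))) (XT.nd (nat_lit 78) (nat_lit 152) (nat_lit 0) (XT.lf (nat_lit 0) (nat_lit 1236519873446) (nat_lit 228) (nat_lit 327000884692) (nat_lit 76) (nat_lit 8391340106) (nat_lit 50) (nat_lit 5) (nat_lit 53) (nat_lit 5) (nat_lit 51) (nat_lit 4) (nat_lit 490) (nat_lit 459) (nat_lit 251)) (XT.nd (nat_lit 60060) (nat_lit 0) (nat_lit 5852) (XT.lf (nat_lit 0) (nat_lit 292049941543) (nat_lit 152) (nat_lit 509740163538) (nat_lit 76) (nat_lit 853535117100) (nat_lit 48) (nat_lit 5) (nat_lit 50) (nat_lit 5) (nat_lit 49) (nat_lit 5) (nat_lit 491) (nat_lit 459) (nat_lit 250)) (XT.lf (nat_lit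 0) (nat_lit 68820865856) (nat_lit 836) (nat_lit 68470048542) (nat_lit 836) (nat_lit 68470048542) (nat_lit 125) (nat_lit 3) (nat_lit 136) (nat_lit 3) (nat_lit 136) (nat_lit 5) (nat_lit 460) (nat_lit 460) (nat_lit 280))))) (XT.nd (nat_lit 234) (nat_lit 456) (nat_lit 0) (XT.nd (nat_lit 78) (nat_lit 0) (nat_lit 0) (XT.lf (nat_lit 0) (nat_lit 146853951552) (nat_lit 760) (nat_lit 236791044905) (nat_lit 836) (nat_lit 44152478698) (nat_lit 126) (nat_lit 5) (nat_lit 136) (nat_lit 5) (nat_lit 137) (nat_lit 5) (nat_lit 461) (nat_lit 460) (nat_lit 279)) (XT.nd (nat_lit 78) (nat_lit 0) (nat_lit 76) (XT.lf (nat_lit 76) (nat_lit 103465416020) (nat_lit 0) (nat_lit 62007522994) (nat_lit 836) (nat_lit 279468639880) (nat_lit 127) (nat_lit 5) (nat_lit 126) (nat_lit 5) (nat_lit 137) (nat_lit 5) (nat_lit 462) (nat_lit 460) (nat_lit 278)) (XT.lf (nat_lit 76) (nat_lit 12008560817) (nat_lit 0) (nat_lit 182407966844)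 (nat_lit 836) (nat_lit 268598929183) (nat_lit 128) (nat_lit 5) (nat_lit 127) (nat_lit 5) (nat_lit 138) (nat_lit 5) (nat_lit 463) (nat_lit 460) (nat_lit 277)))) (XT.nd (nat_lit 156) (nat_lit 608) (nat_lit 0) (XT.nd (nat_lit 78) (nat_lit 0) (nat_lit 76) (XT.lf (nat_lit 0) (nat_lit 235341587739) (nat_lit 760) (nat_lit 79989544157) (nat_lit 836) (nat_lit 166720813938) (nat_lit 128) (nat_lit 5) (nat_lit 138) (nat_lit 5) (nat_lit 139) (nat_lit 5) (nat_lit 464) (nat_lit 460) (nat_lit 276)) (XT.lf (nat_lit 0) (nat_lit 288370156813) (nat_lit 760) (nat_lit 174696289983) (nat_lit 836) (nat_lit 39103431955) (nat_lit 129) (nat_lit 5) (nat_lit 139) (nat_lit 5) (nat_lit 140) (nat_lit 5) (nat_lit 465) (nat_lit 460) (nat_lit 275))) (XT.nd (nat_lit 78) (nat_lit 684) (nat_lit 0) (XT.lf (nat_lit 76) (nat_lit 249198568125) (nat_lit 0) (nat_lit 107066354032) (nat_lit 836) (nat_lit 167101128623) (nat_lit 130) (nat_lit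 5) (nat_lit 129) (nat_lit 5) (nat_lit 140) (nat_lit 5) (nat_lit 466) (nat_lit 460) (nat_lit 274)) (XT.lf (nat_lit 0) (nat_lit 168137935271) (nat_lit 760) (nat_lit 271502585711) (nat_lit 836) (nat_lit 106114932993) (nat_lit 120) (nat_lit 5) (nat_lit 130) (nat_lit 5) (nat_lit 131) (nat_lit 5) (nat_lit 467) (nat_lit 460) (nat_lit 273)))))) (XT.nd (nat_lit 546) (nat_lit 1520) (nat_lit 0) (XT.nd (nat_lit 234) (nat_lit 1292) (nat_lit 0) (XT.nd (nat_lit 78) (nat_lit 456) (nat_lit 0) (XT.lf (nat_lit 0) (nat_lit 85031549353) (nat_lit 380) (nat_lit 454368935059) (nat_lit 456) (nat_lit 30049809194) (nat_lit 115) (nat_lit 5) (nat_lit 120) (nat_lit 5) (nat_lit 121) (nat_lit 5) (nat_lit 468) (nat_lit 460) (nat_lit 272)) (XT.nd (nat_lit 78) (nat_lit 380) (nat_lit 0) (XT.lf (nat_lit 0) (nat_lit 61696661772) (nat_lit 456) (nat_lit 2034020675) (nat_lit 76) (nat_lit 530706182243) (nat_lit 114) (nat_lit 5) (nat_lit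 120) (nat_lit 5) (nat_lit 115) (nat_lit 5) (nat_lit 469) (nat_lit 460) (nat_lit 271)) (XT.lf (nat_lit 0) (nat_lit 173843188544) (nat_lit 456) (nat_lit 91139635972) (nat_lit 76) (nat_lit 355709249112) (nat_lit 109) (nat_lit 5) (nat_lit 115) (nat_lit 5) (nat_lit 110) (nat_lit 5) (nat_lit 470) (nat_lit 460) (nat_lit 270)))) (XT.nd (nat_lit 156) (nat_lit 608) (nat_lit 0) (XT.nd (nat_lit 78) (nat_lit 304) (nat_lit 0) (XT.lf (nat_lit 0) (nat_lit 305968104753) (nat_lit 456) (nat_lit 182590089015) (nat_lit 76) (nat_lit 159939172158) (nat_lit 104) (nat_lit 5) (nat_lit 110) (nat_lit 5) (nat_lit 105) (nat_lit 5) (nat_lit 471) (nat_lit 460) (nat_lit 269)) (XT.lf (nat_lit 0) (nat_lit 400654085628) (nat_lit 304) (nat_lit 60345945309) (nat_lit 380) (nat_lit 216910199848) (nat_lit 100) (nat_lit 5) (nat_lit 104) (nat_lit 5) (nat_lit 105) (nat_lit 5) (nat_lit 472) (nat_lit 460) (nat_lit 268))) (XT.nd (nat_lit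 78) (nat_lit 304) (nat_lit 0) (XT.lf (nat_lit 0) (nat_lit 331851816393) (nat_lit 304) (nat_lit 311274816662) (nat_lit 380) (nat_lit 65814885695) (nat_lit 96) (nat_lit 5) (nat_lit 100) (nat_lit 5) (nat_lit 101) (nat_lit 5) (nat_lit 473) (nat_lit 460) (nat_lit 267)) (XT.lf (nat_lit 0) (nat_lit 106767780152) (nat_lit 304) (nat_lit 481176491273) (nat_lit 76) (nat_lit 153809223308) (nat_lit 92) (nat_lit 5) (nat_lit 96) (nat_lit 5) (nat_lit 93) (nat_lit 5) (nat_lit 474) (nat_lit 460) (nat_lit 266))))) (XT.nd (nat_lit 234) (nat_lit 760) (nat_lit 0) (XT.nd (nat_lit 78) (nat_lit 456) (nat_lit 0) (XT.lf (nat_lit 0) (nat_lit 185326261520) (nat_lit 304) (nat_lit 120374231646) (nat_lit 380) (nat_lit 470693525665) (nat_lit 88) (nat_lit 5) (nat_lit 92) (nat_lit 5) (nat_lit 93) (nat_lit 5) (nat_lit 475) (nat_lit 460) (nat_lit 265)) (XT.nd (nat_lit 78) (nat_lit 228) (nat_lit 0) (XT.lf (nat_lit 0) (nat_lit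 106202183818) (nat_lit 228) (nat_lit 430527624319) (nat_lit 304) (nat_lit 276266877480) (nat_lit 85) (nat_lit 5) (nat_lit 88) (nat_lit 5) (nat_lit 89) (nat_lit 5) (nat_lit 476) (nat_lit 460) (nat_lit 264)) (XT.lf (nat_lit 0) (nat_lit 25936089591) (nat_lit 228) (nat_lit 774248097685) (nat_lit 304) (nat_lit 51646242528) (nat_lit 82) (nat_lit 5) (nat_lit 85) (nat_lit 5) (nat_lit 86) (nat_lit 5) (nat_lit 477) (nat_lit 460) (nat_lit 263)))) (XT.nd (nat_lit 156) (nat_lit 456) (nat_lit 0) (XT.nd (nat_lit 78) (nat_lit 228) (nat_lit 0) (XT.lf (nat_lit 0) (nat_lit 204605839385) (nat_lit 304) (nat_lit 61073266932) (nat_lit 76) (nat_lit 626954048733) (nat_lit 81) (nat_lit 5) (nat_lit 85) (nat_lit 5) (nat_lit 82) (nat_lit 5) (nat_lit 478) (nat_lit 460) (nat_lit 262)) (XT.lf (nat_lit 0) (nat_lit 496540123644) (nat_lit 304) (nat_lit 151358113379) (nat_lit 76) (nat_lit 287909954884) (nat_lit 78) (nat_lit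 5) (nat_lit 82) (nat_lit 5) (nat_lit 79) (nat_lit 5) (nat_lit 479) (nat_lit 460) (nat_lit 261))) (XT.nd (nat_lit 78) (nat_lit 228) (nat_lit 0) (XT.lf (nat_lit 0) (nat_lit 736487039363) (nat_lit 228) (nat_lit 92401849995) (nat_lit 304) (nat_lit 152695355424) (nat_lit 75) (nat_lit 5) (nat_lit 78) (nat_lit 5) (nat_lit 79) (nat_lit 5) (nat_lit 480) (nat_lit 460) (nat_lit 260)) (XT.lf (nat_lit 0) (nat_lit 173413055052) (nat_lit 228) (nat_lit 348962832437) (nat_lit 76) (nat_lit 507442659482) (nat_lit 72) (nat_lit 5) (nat_lit 75) (nat_lit 5) (nat_lit 73) (nat_lit 5) (nat_lit 481) (nat_lit 460) (nat_lit 259))))))))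
noncomputable def xc121 : XT := (XT.nd (nat_lit 62244) (nat_lit 0) (nat_lit 152) (XT.nd (nat_lit 61152) (nat_lit 0) (nat_lit 2280) (XT.nd (nat_lit 468) (nat_lit 380) (nat_lit 0) (XT.nd (nat_lit 234) (nat_lit 532) (nat_lit 0) (XT.nd (nat_lit 78) (nat_lit 380) (nat_lit 0) (XT.lf (nat_lit 0) (nat_lit 537336843638) (nat_lit 304) (nat_lit 458672301854) (nat_lit 76) (nat_lit 84923467382) (nat_lit 69) (nat_lit 5) (nat_lit 73) (nat_lit 5) (nat_lit 70) (nat_lit 5) (nat_lit 482) (nat_lit 460) (nat_lit 258)) (XT.nd (nat_lit 78) (nat_lit 228) (nat_lit 0) (XT.lf (nat_lit 0) (nat_lit 556721460505) (nat_lit 152) (nat_lit 397331609255) (nat_lit 228) (nat_lit 180898807571) (nat_lit 67) (nat_lit 5) (nat_lit 69) (nat_lit 5) (nat_lit 70) (nat_lit 5) (nat_lit 483) (nat_lit 460) (nat_lit 257)) (XT.lf (nat_lit 0) (nat_lit 224026531272) (nat_lit 228) (nat_lit 707480644992) (nat_lit 76) (nat_lit 260622937789) (nat_lit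 64) (nat_lit 5) (nat_lit 67) (nat_lit 5) (nat_lit 65) (nat_lit 5) (nat_lit 484) (nat_lit 460) (nat_lit 256)))) (XT.nd (nat_lit 78) (nat_lit 380) (nat_lit 0) (XT.lf (nat_lit 0) (nat_lit 402806326739) (nat_lit 152) (nat_lit 275512665620) (nat_lit 228) (nat_lit 574249794236) (nat_lit 62) (nat_lit 5) (nat_lit 64) (nat_lit 5) (nat_lit 65) (nat_lit 5) (nat_lit 485) (nat_lit 460) (nat_lit 255)) (XT.nd (nat_lit 78) (nat_lit 228) (nat_lit 0) (XT.lf (nat_lit 0) (nat_lit 313010288192) (nat_lit 152) (nat_lit 880117141910) (nat_lit 228) (nat_lit 123506493854) (nat_lit 60) (nat_lit 5) (nat_lit 62) (nat_lit 5) (nat_lit 63) (nat_lit 5) (nat_lit 486) (nat_lit 460) (nat_lit 254)) (XT.lf (nat_lit 0) (nat_lit 210233832204) (nat_lit 152) (nat_lit 164407634427) (nat_lit 228) (nat_lit 1009750554754) (nat_lit 57) (nat_lit 5) (nat_lit 59) (nat_lit 5) (nat_lit 60) (nat_lit 5) (nat_lit 487) (nat_lit 460) (nat_lit 253)))))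 (XT.nd (nat_lit 60372) (nat_lit 0) (nat_lit 5548) (XT.nd (nat_lit 78) (nat_lit 228) (nat_lit 0) (XT.lf (nat_lit 0) (nat_lit 91397136430) (nat_lit 152) (nat_lit 845672240818) (nat_lit 228) (nat_lit 518962395571) (nat_lit 55) (nat_lit 5) (nat_lit 57) (nat_lit 5) (nat_lit 58) (nat_lit 5) (nat_lit 488) (nat_lit 460) (nat_lit 252)) (XT.nd (nat_lit 78) (nat_lit 152) (nat_lit 0) (XT.lf (nat_lit 0) (nat_lit 34294478326) (nat_lit 228) (nat_lit 35535013477) (nat_lit 76) (nat_lit 1462386527522) (nat_lit 54) (nat_lit 5) (nat_lit 57) (nat_lit 5) (nat_lit 55) (nat_lit 5) (nat_lit 489) (nat_lit 460) (nat_lit 251)) (XT.lf (nat_lit 0) (nat_lit 648813998423) (nat_lit 228) (nat_lit 188299425738) (nat_lit 76) (nat_lit 775197001848) (nat_lit 52) (nat_lit 5) (nat_lit 55) (nat_lit 5) (nat_lit 53) (nat_lit 5) (nat_lit 490) (nat_lit 460) (nat_lit 250)))) (XT.nd (nat_lit 156) (nat_lit 0) (nat_lit 76) (XT.nd (nat_lit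 78) (nat_lit 0) (nat_lit 76) (XT.lf (nat_lit 0) (nat_lit 74327114618) (nat_lit 836) (nat_lit 73947348078) (nat_lit 836) (nat_lit 73947348078) (nat_lit 125) (nat_lit 3) (nat_lit 136) (nat_lit 3) (nat_lit 136) (nat_lit 5) (nat_lit 461) (nat_lit 461) (nat_lit 278)) (XT.lf (nat_lit 0) (nat_lit 158603342098) (nat_lit 760) (nat_lit 255733683921) (nat_lit 836) (nat_lit 47684193010) (nat_lit 126) (nat_lit 5) (nat_lit 136) (nat_lit 5) (nat_lit 137) (nat_lit 5) (nat_lit 462) (nat_lit 461) (nat_lit 277))) (XT.nd (nat_lit 78) (nat_lit 0) (nat_lit 76) (XT.lf (nat_lit 76) (nat_lit 111743265866) (nat_lit 0) (nat_lit 66968512731) (nat_lit 836) (nat_lit 301825075999) (nat_lit 127) (nat_lit 5) (nat_lit 126) (nat_lit 5) (nat_lit 137) (nat_lit 5) (nat_lit 463) (nat_lit 461) (nat_lit 276)) (XT.lf (nat_lit 76) (nat_lit 12969889654) (nat_lit 0) (nat_lit 197000894723) (nat_lit 836) (nat_lit 290085861931) (nat_lit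 128) (nat_lit 5) (nat_lit 127) (nat_lit 5) (nat_lit 138) (nat_lit 5) (nat_lit 464) (nat_lit 461) (nat_lit 275)))))) (XT.nd (nat_lit 546) (nat_lit 2052) (nat_lit 0) (XT.nd (nat_lit 234) (nat_lit 1444) (nat_lit 0) (XT.nd (nat_lit 78) (nat_lit 0) (nat_lit 76) (XT.lf (nat_lit 0) (nat_lit 254169775839) (nat_lit 760) (nat_lit 86388063624) (nat_lit 836) (nat_lit 180058218652) (nat_lit 128) (nat_lit 5) (nat_lit 138) (nat_lit 5) (nat_lit 139) (nat_lit 5) (nat_lit 465) (nat_lit 461) (nat_lit 274)) (XT.nd (nat_lit 78) (nat_lit 0) (nat_lit 0) (XT.lf (nat_lit 0) (nat_lit 311440573294) (nat_lit 760) (nat_lit 188671333473) (nat_lit 836) (nat_lit 42231521779) (nat_lit 129) (nat_lit 5) (nat_lit 139) (nat_lit 5) (nat_lit 140) (nat_lit 5) (nat_lit 466) (nat_lit 461) (nat_lit 273)) (XT.lf (nat_lit 76) (nat_lit 269135084613) (nat_lit 0) (nat_lit 115631785554) (nat_lit 836) (nat_lit 180468426680) (nat_lit 130)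 (nat_lit 5) (nat_lit 129) (nat_lit 5) (nat_lit 140) (nat_lit 5) (nat_lit 467) (nat_lit 461) (nat_lit 272)))) (XT.nd (nat_lit 156) (nat_lit 456) (nat_lit 0) (XT.nd (nat_lit 78) (nat_lit 380) (nat_lit 0) (XT.lf (nat_lit 0) (nat_lit 181589611891) (nat_lit 760) (nat_lit 293222857377) (nat_lit 836) (nat_lit 114603385432) (nat_lit 120) (nat_lit 5) (nat_lit 130) (nat_lit 5) (nat_lit 131) (nat_lit 5) (nat_lit 468) (nat_lit 461) (nat_lit 271)) (XT.lf (nat_lit 0) (nat_lit 91834722223) (nat_lit 380) (nat_lit 490718464404) (nat_lit 456) (nat_lit 32453097052) (nat_lit 115) (nat_lit 5) (nat_lit 120) (nat_lit 5) (nat_lit 121) (nat_lit 5) (nat_lit 469) (nat_lit 461) (nat_lit 270))) (XT.nd (nat_lit 78) (nat_lit 380) (nat_lit 0) (XT.lf (nat_lit 0) (nat_lit 66633019319) (nat_lit 456) (nat_lit 2196120609) (nat_lit 76) (nat_lit 573162642493) (nat_lit 114) (nat_lit 5) (nat_lit 120) (nat_lit 5) (nat_lit 115) (nat_lit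 5) (nat_lit 470) (nat_lit 461) (nat_lit 269)) (XT.lf (nat_lit 0) (nat_lit 187751231360) (nat_lit 456) (nat_lit 98430182680) (nat_lit 76) (nat_lit 384165995892) (nat_lit 109) (nat_lit 5) (nat_lit 115) (nat_lit 5) (nat_lit 110) (nat_lit 5) (nat_lit 471) (nat_lit 461) (nat_lit 268))))) (XT.nd (nat_lit 234) (nat_lit 1064) (nat_lit 0) (XT.nd (nat_lit 78) (nat_lit 608) (nat_lit 0) (XT.lf (nat_lit 0) (nat_lit 330446107331) (nat_lit 456) (nat_lit 197196671911) (nat_lit 76) (nat_lit 172734348064) (nat_lit 104) (nat_lit 5) (nat_lit 110) (nat_lit 5) (nat_lit 105) (nat_lit 5) (nat_lit 472) (nat_lit 461) (nat_lit 267)) (XT.nd (nat_lit 78) (nat_lit 304) (nat_lit 0) (XT.lf (nat_lit 0) (nat_lit 432707009575) (nat_lit 304) (nat_lit 65173546306) (nat_lit 380) (nat_lit 234262467073) (nat_lit 100) (nat_lit 5) (nat_lit 104) (nat_lit 5) (nat_lit 105) (nat_lit 5) (nat_lit 473) (nat_lit 461) (nat_lit 266)) (XT.lf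 (nat_lit 0) (nat_lit 358400556890) (nat_lit 304) (nat_lit 336176700949) (nat_lit 380) (nat_lit 71079557546) (nat_lit 96) (nat_lit 5) (nat_lit 100) (nat_lit 5) (nat_lit 101) (nat_lit 5) (nat_lit 474) (nat_lit 461) (nat_lit 265)))) (XT.nd (nat_lit 156) (nat_lit 456) (nat_lit 0) (XT.nd (nat_lit 78) (nat_lit 304) (nat_lit 0) (XT.lf (nat_lit 0) (nat_lit 115309678615) (nat_lit 304) (nat_lit 519670003101) (nat_lit 76) (nat_lit 166114068654) (nat_lit 92) (nat_lit 5) (nat_lit 96) (nat_lit 5) (nat_lit 93) (nat_lit 5) (nat_lit 475) (nat_lit 461) (nat_lit 264)) (XT.lf (nat_lit 0) (nat_lit 200152943515) (nat_lit 304) (nat_lit 130004038964) (nat_lit 380) (nat_lit 508348535237) (nat_lit 88) (nat_lit 5) (nat_lit 92) (nat_lit 5) (nat_lit 93) (nat_lit 5) (nat_lit 476) (nat_lit 461) (nat_lit 263))) (XT.nd (nat_lit 78) (nat_lit 228) (nat_lit 0) (XT.lf (nat_lit 0) (nat_lit 114698934023) (nat_lit 228) (nat_lit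 464969686184) (nat_lit 304) (nat_lit 298367778769) (nat_lit 85) (nat_lit 5) (nat_lit 88) (nat_lit 5) (nat_lit 89) (nat_lit 5) (nat_lit 477) (nat_lit 461) (nat_lit 262)) (XT.lf (nat_lit 0) (nat_lit 28011545593) (nat_lit 228) (nat_lit 836187783446) (nat_lit 304) (nat_lit 55777514701) (nat_lit 82) (nat_lit 5) (nat_lit 85) (nat_lit 5) (nat_lit 86) (nat_lit 5) (nat_lit 478) (nat_lit 461) (nat_lit 261))))))) (XT.nd (nat_lit 61230) (nat_lit 0) (nat_lit 2888) (XT.nd (nat_lit 468) (nat_lit 988) (nat_lit 0) (XT.nd (nat_lit 234) (nat_lit 608) (nat_lit 0) (XT.nd (nat_lit 78) (nat_lit 456) (nat_lit 0) (XT.lf (nat_lit 0) (nat_lit 220974689458) (nat_lit 304) (nat_lit 65958588830) (nat_lit 76) (nat_lit 677110509923) (nat_lit 81) (nat_lit 5) (nat_lit 85) (nat_lit 5) (nat_lit 82) (nat_lit 5) (nat_lit 479) (nat_lit 461) (nat_lit 260)) (XT.nd (nat_lit 78) (nat_lit 228) (nat_lit 0) (XT.lf (nat_lit 0) (nat_lit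 536263698544) (nat_lit 304) (nat_lit 163466230611) (nat_lit 76) (nat_lit 310942899765) (nat_lit 78) (nat_lit 5) (nat_lit 82) (nat_lit 5) (nat_lit 79) (nat_lit 5) (nat_lit 480) (nat_lit 461) (nat_lit 259)) (XT.lf (nat_lit 0) (nat_lit 795406511238) (nat_lit 228) (nat_lit 99793835182) (nat_lit 304) (nat_lit 164910620565) (nat_lit 75) (nat_lit 5) (nat_lit 78) (nat_lit 5) (nat_lit 79) (nat_lit 5) (nat_lit 481) (nat_lit 461) (nat_lit 258)))) (XT.nd (nat_lit 78) (nat_lit 380) (nat_lit 0) (XT.lf (nat_lit 0) (nat_lit 187286435411) (nat_lit 228) (nat_lit 376879347040) (nat_lit 76) (nat_lit 548038231405) (nat_lit 72) (nat_lit 5) (nat_lit 75) (nat_lit 5) (nat_lit 73) (nat_lit 5) (nat_lit 482) (nat_lit 461) (nat_lit 257)) (XT.nd (nat_lit 78) (nat_lit 152) (nat_lit 0) (XT.lf (nat_lit 0) (nat_lit 580324112516) (nat_lit 304) (nat_lit 495365582927) (nat_lit 76) (nat_lit 91717510324) (nat_lit 69) (nat_lit 5)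 (nat_lit 73) (nat_lit 5) (nat_lit 70) (nat_lit 5) (nat_lit 483) (nat_lit 461) (nat_lit 256)) (XT.lf (nat_lit 0) (nat_lit 601259658558) (nat_lit 152) (nat_lit 429117961876) (nat_lit 228) (nat_lit 195370391766) (nat_lit 67) (nat_lit 5) (nat_lit 69) (nat_lit 5) (nat_lit 70) (nat_lit 5) (nat_lit 484) (nat_lit 461) (nat_lit 255))))) (XT.nd (nat_lit 234) (nat_lit 456) (nat_lit 0) (XT.nd (nat_lit 78) (nat_lit 304) (nat_lit 0) (XT.lf (nat_lit 0) (nat_lit 241948951038) (nat_lit 228) (nat_lit 764078614385) (nat_lit 76) (nat_lit 281472942834) (nat_lit 64) (nat_lit 5) (nat_lit 67) (nat_lit 5) (nat_lit 65) (nat_lit 5) (nat_lit 485) (nat_lit 461) (nat_lit 254)) (XT.nd (nat_lit 78) (nat_lit 152) (nat_lit 0) (XT.lf (nat_lit 0) (nat_lit 435031294128) (nat_lit 152) (nat_lit 297553500067) (nat_lit 228) (nat_lit 620189481155) (nat_lit 62) (nat_lit 5) (nat_lit 64) (nat_lit 5) (nat_lit 65) (nat_lit 5) (nat_lit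 486) (nat_lit 461) (nat_lit 253)) (XT.lf (nat_lit 0) (nat_lit 338051563340) (nat_lit 152) (nat_lit 950526332338) (nat_lit 228) (nat_lit 133386728589) (nat_lit 60) (nat_lit 5) (nat_lit 62) (nat_lit 5) (nat_lit 63) (nat_lit 5) (nat_lit 487) (nat_lit 461) (nat_lit 252)))) (XT.nd (nat_lit 156) (nat_lit 76) (nat_lit 0) (XT.nd (nat_lit 78) (nat_lit 152) (nat_lit 0) (XT.lf (nat_lit 0) (nat_lit 227052979986) (nat_lit 152) (nat_lit 177560066103) (nat_lit 228) (nat_lit 1090530323858) (nat_lit 57) (nat_lit 5) (nat_lit 59) (nat_lit 5) (nat_lit 60) (nat_lit 5) (nat_lit 488) (nat_lit 461) (nat_lit 251)) (XT.lf (nat_lit 0) (nat_lit 98709339279) (nat_lit 152) (nat_lit 913325840192) (nat_lit 228) (nat_lit 560479122531) (nat_lit 55) (nat_lit 5) (nat_lit 57) (nat_lit 5) (nat_lit 58) (nat_lit 5) (nat_lit 489) (nat_lit 461) (nat_lit 250))) (XT.nd (nat_lit 60294) (nat_lit 0) (nat_lit 5396) (XT.lf (nat_lit 0) (nat_lit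 37038273826) (nat_lit 228) (nat_lit 38377406737) (nat_lit 76) (nat_lit 1579377608411) (nat_lit 54) (nat_lit 5) (nat_lit 57) (nat_lit 5) (nat_lit 55) (nat_lit 5) (nat_lit 490) (nat_lit 461) (nat_lit 249)) (XT.lf (nat_lit 0) (nat_lit 80273780611) (nat_lit 836) (nat_lit 79862874995) (nat_lit 836) (nat_lit 79862874995) (nat_lit 125) (nat_lit 3) (nat_lit 136) (nat_lit 3) (nat_lit 136) (nat_lit 5) (nat_lit 462) (nat_lit 462) (nat_lit 276)))))) (XT.nd (nat_lit 546) (nat_lit 2128) (nat_lit 0) (XT.nd (nat_lit 234) (nat_lit 456) (nat_lit 0) (XT.nd (nat_lit 78) (nat_lit 0) (nat_lit 0) (XT.lf (nat_lit 0) (nat_lit 171292530610) (nat_lit 760) (nat_lit 276191826014) (nat_lit 836) (nat_lit 51498513512) (nat_lit 126) (nat_lit 5) (nat_lit 136) (nat_lit 5) (nat_lit 137) (nat_lit 5) (nat_lit 463) (nat_lit 462) (nat_lit 275)) (XT.nd (nat_lit 78) (nat_lit 0) (nat_lit 76) (XT.lf (nat_lit 76) (nat_lit 120683255740)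 (nat_lit 0) (nat_lit 72326326309) (nat_lit 836) (nat_lit 325970177526) (nat_lit 127) (nat_lit 5) (nat_lit 126) (nat_lit 5) (nat_lit 137) (nat_lit 5) (nat_lit 464) (nat_lit 462) (nat_lit 274)) (XT.lf (nat_lit 76) (nat_lit 14008032929) (nat_lit 0) (nat_lit 212761215385) (nat_lit 836) (nat_lit 313291889334) (nat_lit 128) (nat_lit 5) (nat_lit 127) (nat_lit 5) (nat_lit 138) (nat_lit 5) (nat_lit 465) (nat_lit 462) (nat_lit 273)))) (XT.nd (nat_lit 156) (nat_lit 608) (nat_lit 0) (XT.nd (nat_lit 78) (nat_lit 0) (nat_lit 76) (XT.lf (nat_lit 0) (nat_lit 274504096144) (nat_lit 760) (nat_lit 93298556531) (nat_lit 836) (nat_lit 194462652893) (nat_lit 128) (nat_lit 5) (nat_lit 138) (nat_lit 5) (nat_lit 139) (nat_lit 5) (nat_lit 466) (nat_lit 462) (nat_lit 272)) (XT.lf (nat_lit 0) (nat_lit 336356508404) (nat_lit 760) (nat_lit 203764474558) (nat_lit 836) (nat_lit 45609885143) (nat_lit 129) (nat_lit 5) (nat_lit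 139) (nat_lit 5) (nat_lit 140) (nat_lit 5) (nat_lit 467) (nat_lit 462) (nat_lit 271))) (XT.nd (nat_lit 78) (nat_lit 684) (nat_lit 0) (XT.lf (nat_lit 76) (nat_lit 290666432395) (nat_lit 0) (nat_lit 124882434023) (nat_lit 836) (nat_lit 194905221601) (nat_lit 130) (nat_lit 5) (nat_lit 129) (nat_lit 5) (nat_lit 140) (nat_lit 5) (nat_lit 468) (nat_lit 462) (nat_lit 270)) (XT.lf (nat_lit 0) (nat_lit 196117331081) (nat_lit 760) (nat_lit 316680741531) (nat_lit 836) (nat_lit 123771019949) (nat_lit 120) (nat_lit 5) (nat_lit 130) (nat_lit 5) (nat_lit 131) (nat_lit 5) (nat_lit 469) (nat_lit 462) (nat_lit 269))))) (XT.nd (nat_lit 234) (nat_lit 1292) (nat_lit 0) (XT.nd (nat_lit 78) (nat_lit 456) (nat_lit 0) (XT.lf (nat_lit 0) (nat_lit 99182056346) (nat_lit 380) (nat_lit 529975954022) (nat_lit 456) (nat_lit 35048747356) (nat_lit 115) (nat_lit 5) (nat_lit 120) (nat_lit 5) (nat_lit 121) (nat_lit 5) (nat_lit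 470) (nat_lit 462) (nat_lit 268)) (XT.nd (nat_lit 78) (nat_lit 380) (nat_lit 0) (XT.lf (nat_lit 0) (nat_lit 71964196362) (nat_lit 456) (nat_lit 2371277233) (nat_lit 76) (nat_lit 619015624460) (nat_lit 114) (nat_lit 5) (nat_lit 120) (nat_lit 5) (nat_lit 115) (nat_lit 5) (nat_lit 471) (nat_lit 462) (nat_lit 267)) (XT.lf (nat_lit 0) (nat_lit 202771833756) (nat_lit 456) (nat_lit 106304062169) (nat_lit 76) (nat_lit 414899281438) (nat_lit 109) (nat_lit 5) (nat_lit 115) (nat_lit 5) (nat_lit 110) (nat_lit 5) (nat_lit 472) (nat_lit 462) (nat_lit 266)))) (XT.nd (nat_lit 156) (nat_lit 608) (nat_lit 0) (XT.nd (nat_lit 78) (nat_lit 304) (nat_lit 0) (XT.lf (nat_lit 0) (nat_lit 356882271054) (nat_lit 456) (nat_lit 212971870492) (nat_lit 76) (nat_lit 186553132031) (nat_lit 104) (nat_lit 5) (nat_lit 110) (nat_lit 5) (nat_lit 105) (nat_lit 5) (nat_lit 473) (nat_lit 462) (nat_lit 265)) (XT.lf (nat_lit 0) (nat_lit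 467324082256) (nat_lit 304) (nat_lit 70387366029) (nat_lit 380) (nat_lit 253002993963) (nat_lit 100) (nat_lit 5) (nat_lit 104) (nat_lit 5) (nat_lit 105) (nat_lit 5) (nat_lit 474) (nat_lit 462) (nat_lit 264))) (XT.nd (nat_lit 78) (nat_lit 304) (nat_lit 0) (XT.lf (nat_lit 0) (nat_lit 387073111716) (nat_lit 304) (nat_lit 363070750395) (nat_lit 380) (nat_lit 76765477188) (nat_lit 96) (nat_lit 5) (nat_lit 100) (nat_lit 5) (nat_lit 101) (nat_lit 5) (nat_lit 475) (nat_lit 462) (nat_lit 263)) (XT.lf (nat_lit 0) (nat_lit 124534861041) (nat_lit 304) (nat_lit 561243082538) (nat_lit 76) (nat_lit 179403286294) (nat_lit 92) (nat_lit 5) (nat_lit 96) (nat_lit 5) (nat_lit 93) (nat_lit 5) (nat_lit 476) (nat_lit 462) (nat_lit 262))))))))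
noncomputable def xc122 : XT := (XT.nd (nat_lit 62322) (nat_lit 0) (nat_lit 152) (XT.nd (nat_lit 1014) (nat_lit 152) (nat_lit 0) (XT.nd (nat_lit 468) (nat_lit 1368) (nat_lit 0) (XT.nd (nat_lit 234) (nat_lit 532) (nat_lit 0) (XT.nd (nat_lit 78) (nat_lit 456) (nat_lit 0) (XT.lf (nat_lit 0) (nat_lit 216165677173) (nat_lit 304) (nat_lit 140404249586) (nat_lit 380) (nat_lit 549016012979) (nat_lit 88) (nat_lit 5) (nat_lit 92) (nat_lit 5) (nat_lit 93) (nat_lit 5) (nat_lit 477) (nat_lit 462) (nat_lit 261)) (XT.nd (nat_lit 78) (nat_lit 228) (nat_lit 0) (XT.lf (nat_lit 0) (nat_lit 123875342143) (nat_lit 228) (nat_lit 502167134123) (nat_lit 304) (nat_lit 322236816203) (nat_lit 85) (nat_lit 5) (nat_lit 88) (nat_lit 5) (nat_lit 89) (nat_lit 5) (nat_lit 478) (nat_lit 462) (nat_lit 260)) (XT.lf (nat_lit 0) (nat_lit 30252956924) (nat_lit 228) (nat_lit 903082667186) (nat_lit 304) (nat_lit 60239349596) (nat_lit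 82) (nat_lit 5) (nat_lit 85) (nat_lit 5) (nat_lit 86) (nat_lit 5) (nat_lit 479) (nat_lit 462) (nat_lit 259)))) (XT.nd (nat_lit 78) (nat_lit 456) (nat_lit 0) (XT.lf (nat_lit 0) (nat_lit 238652992908) (nat_lit 304) (nat_lit 71234813439) (nat_lit 76) (nat_lit 731279468422) (nat_lit 81) (nat_lit 5) (nat_lit 85) (nat_lit 5) (nat_lit 82) (nat_lit 5) (nat_lit 480) (nat_lit 462) (nat_lit 258)) (XT.nd (nat_lit 78) (nat_lit 228) (nat_lit 0) (XT.lf (nat_lit 0) (nat_lit 579165107364) (nat_lit 304) (nat_lit 176543073093) (nat_lit 76) (nat_lit 335818459052) (nat_lit 78) (nat_lit 5) (nat_lit 82) (nat_lit 5) (nat_lit 79) (nat_lit 5) (nat_lit 481) (nat_lit 462) (nat_lit 257)) (XT.lf (nat_lit 0) (nat_lit 859039468288) (nat_lit 228) (nat_lit 107777202412) (nat_lit 304) (nat_lit 178103158746) (nat_lit 75) (nat_lit 5) (nat_lit 78) (nat_lit 5) (nat_lit 79) (nat_lit 5) (nat_lit 482) (nat_lit 462) (nat_lit 256)))))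 (XT.nd (nat_lit 234) (nat_lit 760) (nat_lit 0) (XT.nd (nat_lit 78) (nat_lit 380) (nat_lit 0) (XT.lf (nat_lit 0) (nat_lit 202269638272) (nat_lit 228) (nat_lit 407029255853) (nat_lit 76) (nat_lit 591881426376) (nat_lit 72) (nat_lit 5) (nat_lit 75) (nat_lit 5) (nat_lit 73) (nat_lit 5) (nat_lit 483) (nat_lit 462) (nat_lit 255)) (XT.nd (nat_lit 78) (nat_lit 152) (nat_lit 0) (XT.lf (nat_lit 0) (nat_lit 626750317054) (nat_lit 304) (nat_lit 534994398256) (nat_lit 76) (nat_lit 99055053083) (nat_lit 69) (nat_lit 5) (nat_lit 73) (nat_lit 5) (nat_lit 70) (nat_lit 5) (nat_lit 484) (nat_lit 462) (nat_lit 254)) (XT.lf (nat_lit 0) (nat_lit 649360843804) (nat_lit 152) (nat_lit 463447247833) (nat_lit 228) (nat_lit 210999748407) (nat_lit 67) (nat_lit 5) (nat_lit 69) (nat_lit 5) (nat_lit 70) (nat_lit 5) (nat_lit 485) (nat_lit 462) (nat_lit 253)))) (XT.nd (nat_lit 156) (nat_lit 380) (nat_lit 0) (XT.nd (nat_lit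 78) (nat_lit 152) (nat_lit 0) (XT.lf (nat_lit 0) (nat_lit 261305121977) (nat_lit 228) (nat_lit 825204490123) (nat_lit 76) (nat_lit 303990924028) (nat_lit 64) (nat_lit 5) (nat_lit 67) (nat_lit 5) (nat_lit 65) (nat_lit 5) (nat_lit 486) (nat_lit 462) (nat_lit 252)) (XT.lf (nat_lit 0) (nat_lit 469834193105) (nat_lit 152) (nat_lit 321357626777) (nat_lit 228) (nat_lit 669804385344) (nat_lit 62) (nat_lit 5) (nat_lit 64) (nat_lit 5) (nat_lit 65) (nat_lit 5) (nat_lit 487) (nat_lit 462) (nat_lit 251))) (XT.nd (nat_lit 78) (nat_lit 228) (nat_lit 0) (XT.lf (nat_lit 0) (nat_lit 365096076003) (nat_lit 152) (nat_lit 1026568283812) (nat_lit 228) (nat_lit 144057422729) (nat_lit 60) (nat_lit 5) (nat_lit 62) (nat_lit 5) (nat_lit 63) (nat_lit 5) (nat_lit 488) (nat_lit 462) (nat_lit 250)) (XT.lf (nat_lit 0) (nat_lit 245217596649) (nat_lit 152) (nat_lit 191764717860) (nat_lit 228) (nat_lit 1177772513761) (nat_lit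 57) (nat_lit 5) (nat_lit 59) (nat_lit 5) (nat_lit 60) (nat_lit 5) (nat_lit 489) (nat_lit 462) (nat_lit 249)))))) (XT.nd (nat_lit 60762) (nat_lit 0) (nat_lit 3724) (XT.nd (nat_lit 60528) (nat_lit 0) (nat_lit 5396) (XT.nd (nat_lit 60372) (nat_lit 0) (nat_lit 5320) (XT.lf (nat_lit 0) (nat_lit 106606456736) (nat_lit 152) (nat_lit 986391753180) (nat_lit 228) (nat_lit 605317225409) (nat_lit 55) (nat_lit 5) (nat_lit 57) (nat_lit 5) (nat_lit 58) (nat_lit 5) (nat_lit 490) (nat_lit 462) (nat_lit 248)) (XT.nd (nat_lit 78) (nat_lit 0) (nat_lit 76) (XT.lf (nat_lit 0) (nat_lit 86696109005) (nat_lit 836) (nat_lit 86251681291) (nat_lit 836) (nat_lit 86251681291) (nat_lit 125) (nat_lit 3) (nat_lit 136) (nat_lit 3) (nat_lit 136) (nat_lit 5) (nat_lit 463) (nat_lit 463) (nat_lit 274)) (XT.lf (nat_lit 0) (nat_lit 184996722791) (nat_lit 760) (nat_lit 298286698312) (nat_lit 836) (nat_lit 55618038851) (nat_lit 126)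 (nat_lit 5) (nat_lit 136) (nat_lit 5) (nat_lit 137) (nat_lit 5) (nat_lit 464) (nat_lit 463) (nat_lit 273)))) (XT.nd (nat_lit 78) (nat_lit 0) (nat_lit 76) (XT.lf (nat_lit 76) (nat_lit 130338369392) (nat_lit 0) (nat_lit 78112717529) (nat_lit 836) (nat_lit 352047016219) (nat_lit 127) (nat_lit 5) (nat_lit 126) (nat_lit 5) (nat_lit 137) (nat_lit 5) (nat_lit 465) (nat_lit 463) (nat_lit 272)) (XT.nd (nat_lit 78) (nat_lit 0) (nat_lit 76) (XT.lf (nat_lit 76) (nat_lit 15129148902) (nat_lit 0) (nat_lit 229782326165) (nat_lit 836) (nat_lit 338354518985) (nat_lit 128) (nat_lit 5) (nat_lit 127) (nat_lit 5) (nat_lit 138) (nat_lit 5) (nat_lit 466) (nat_lit 463) (nat_lit 271)) (XT.lf (nat_lit 0) (nat_lit 296465056756) (nat_lit 760) (nat_lit 100761967646) (nat_lit 836) (nat_lit 210019473722) (nat_lit 128) (nat_lit 5) (nat_lit 138) (nat_lit 5) (nat_lit 139) (nat_lit 5) (nat_lit 467) (nat_lit 463) (nat_lit 270)))))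 (XT.nd (nat_lit 234) (nat_lit 1216) (nat_lit 0) (XT.nd (nat_lit 78) (nat_lit 684) (nat_lit 0) (XT.lf (nat_lit 0) (nat_lit 363265619993) (nat_lit 760) (nat_lit 220065147618) (nat_lit 836) (nat_lit 49258540171) (nat_lit 129) (nat_lit 5) (nat_lit 139) (nat_lit 5) (nat_lit 140) (nat_lit 5) (nat_lit 468) (nat_lit 463) (nat_lit 269)) (XT.nd (nat_lit 78) (nat_lit 684) (nat_lit 0) (XT.lf (nat_lit 76) (nat_lit 313920210818) (nat_lit 0) (nat_lit 134873119301) (nat_lit 836) (nat_lit 210497057014) (nat_lit 130) (nat_lit 5) (nat_lit 129) (nat_lit 5) (nat_lit 140) (nat_lit 5) (nat_lit 469) (nat_lit 463) (nat_lit 268)) (XT.lf (nat_lit 0) (nat_lit 211807189309) (nat_lit 760) (nat_lit 342015248490) (nat_lit 836) (nat_lit 133672156005) (nat_lit 120) (nat_lit 5) (nat_lit 130) (nat_lit 5) (nat_lit 131) (nat_lit 5) (nat_lit 470) (nat_lit 463) (nat_lit 267)))) (XT.nd (nat_lit 156) (nat_lit 760) (nat_lit 0) (XT.nd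 (nat_lit 78) (nat_lit 76) (nat_lit 0) (XT.lf (nat_lit 0) (nat_lit 107117097830) (nat_lit 380) (nat_lit 572374041031) (nat_lit 456) (nat_lit 37852134919) (nat_lit 115) (nat_lit 5) (nat_lit 120) (nat_lit 5) (nat_lit 121) (nat_lit 5) (nat_lit 471) (nat_lit 463) (nat_lit 266)) (XT.lf (nat_lit 0) (nat_lit 77721791174) (nat_lit 456) (nat_lit 2560522429) (nat_lit 76) (nat_lit 668536849183) (nat_lit 114) (nat_lit 5) (nat_lit 120) (nat_lit 5) (nat_lit 115) (nat_lit 5) (nat_lit 472) (nat_lit 463) (nat_lit 265))) (XT.nd (nat_lit 78) (nat_lit 380) (nat_lit 0) (XT.lf (nat_lit 0) (nat_lit 218994012458) (nat_lit 456) (nat_lit 114807928358) (nat_lit 76) (nat_lit 448091228989) (nat_lit 109) (nat_lit 5) (nat_lit 115) (nat_lit 5) (nat_lit 110) (nat_lit 5) (nat_lit 473) (nat_lit 463) (nat_lit 264)) (XT.lf (nat_lit 0) (nat_lit 385433260090) (nat_lit 456) (nat_lit 230009161307) (nat_lit 76) (nat_lit 201477413562)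 (nat_lit 104) (nat_lit 5) (nat_lit 110) (nat_lit 5) (nat_lit 105) (nat_lit 5) (nat_lit 474) (nat_lit 463) (nat_lit 263))))))) (XT.nd (nat_lit 1092) (nat_lit 532) (nat_lit 0) (XT.nd (nat_lit 468) (nat_lit 1368) (nat_lit 0) (XT.nd (nat_lit 234) (nat_lit 760) (nat_lit 0) (XT.nd (nat_lit 78) (nat_lit 608) (nat_lit 0) (XT.lf (nat_lit 0) (nat_lit 504710447720) (nat_lit 304) (nat_lit 76018300458) (nat_lit 380) (nat_lit 273242830122) (nat_lit 100) (nat_lit 5) (nat_lit 104) (nat_lit 5) (nat_lit 105) (nat_lit 5) (nat_lit 475) (nat_lit 463) (nat_lit 262)) (XT.nd (nat_lit 78) (nat_lit 304) (nat_lit 0) (XT.lf (nat_lit 0) (nat_lit 418039398132) (nat_lit 304) (nat_lit 392116336155) (nat_lit 380) (nat_lit 82906333880) (nat_lit 96) (nat_lit 5) (nat_lit 100) (nat_lit 5) (nat_lit 101) (nat_lit 5) (nat_lit 476) (nat_lit 463) (nat_lit 261)) (XT.lf (nat_lit 0) (nat_lit 134497999836) (nat_lit 304) (nat_lit 606142082630)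 (nat_lit 76) (nat_lit 193755628199) (nat_lit 92) (nat_lit 5) (nat_lit 96) (nat_lit 5) (nat_lit 93) (nat_lit 5) (nat_lit 477) (nat_lit 463) (nat_lit 260)))) (XT.nd (nat_lit 78) (nat_lit 456) (nat_lit 0) (XT.lf (nat_lit 0) (nat_lit 233459358453) (nat_lit 304) (nat_lit 151636493107) (nat_lit 380) (nat_lit 592936946729) (nat_lit 88) (nat_lit 5) (nat_lit 92) (nat_lit 5) (nat_lit 93) (nat_lit 5) (nat_lit 478) (nat_lit 463) (nat_lit 259)) (XT.nd (nat_lit 78) (nat_lit 228) (nat_lit 0) (XT.lf (nat_lit 0) (nat_lit 133785792525) (nat_lit 228) (nat_lit 542340396009) (nat_lit 304) (nat_lit 348015431538) (nat_lit 85) (nat_lit 5) (nat_lit 88) (nat_lit 5) (nat_lit 89) (nat_lit 5) (nat_lit 479) (nat_lit 463) (nat_lit 258)) (XT.lf (nat_lit 0) (nat_lit 32673611589) (nat_lit 228) (nat_lit 975329161446) (nat_lit 304) (nat_lit 65058183537) (nat_lit 82) (nat_lit 5) (nat_lit 85) (nat_lit 5) (nat_lit 86) (nat_lit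 5) (nat_lit 480) (nat_lit 463) (nat_lit 257))))) (XT.nd (nat_lit 234) (nat_lit 836) (nat_lit 0) (XT.nd (nat_lit 78) (nat_lit 456) (nat_lit 0) (XT.lf (nat_lit 0) (nat_lit 257745513800) (nat_lit 304) (nat_lit 76933201997) (nat_lit 76) (nat_lit 789781926810) (nat_lit 81) (nat_lit 5) (nat_lit 85) (nat_lit 5) (nat_lit 82) (nat_lit 5) (nat_lit 481) (nat_lit 463) (nat_lit 256)) (XT.nd (nat_lit 78) (nat_lit 228) (nat_lit 0) (XT.lf (nat_lit 0) (nat_lit 625498584245) (nat_lit 304) (nat_lit 190666128023) (nat_lit 76) (nat_lit 362684044920) (nat_lit 78) (nat_lit 5) (nat_lit 82) (nat_lit 5) (nat_lit 79) (nat_lit 5) (nat_lit 482) (nat_lit 463) (nat_lit 255)) (XT.lf (nat_lit 0) (nat_lit 927762999680) (nat_lit 228) (nat_lit 116399258933) (nat_lit 304) (nat_lit 192351144414) (nat_lit 75) (nat_lit 5) (nat_lit 78) (nat_lit 5) (nat_lit 79) (nat_lit 5) (nat_lit 483) (nat_lit 463) (nat_lit 254)))) (XT.nd (nat_lit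 156) (nat_lit 380) (nat_lit 0) (XT.nd (nat_lit 78) (nat_lit 228) (nat_lit 0) (XT.lf (nat_lit 0) (nat_lit 218451456271) (nat_lit 228) (nat_lit 439591219992) (nat_lit 76) (nat_lit 639232057477) (nat_lit 72) (nat_lit 5) (nat_lit 75) (nat_lit 5) (nat_lit 73) (nat_lit 5) (nat_lit 484) (nat_lit 463) (nat_lit 253)) (XT.lf (nat_lit 0) (nat_lit 676890578647) (nat_lit 304) (nat_lit 577793580341) (nat_lit 76) (nat_lit 106979579015) (nat_lit 69) (nat_lit 5) (nat_lit 73) (nat_lit 5) (nat_lit 70) (nat_lit 5) (nat_lit 485) (nat_lit 463) (nat_lit 252))) (XT.nd (nat_lit 78) (nat_lit 228) (nat_lit 0) (XT.lf (nat_lit 0) (nat_lit 701310065014) (nat_lit 152) (nat_lit 500522898207) (nat_lit 228) (nat_lit 227879492768) (nat_lit 67) (nat_lit 5) (nat_lit 69) (nat_lit 5) (nat_lit 70) (nat_lit 5) (nat_lit 486) (nat_lit 463) (nat_lit 251)) (XT.lf (nat_lit 0) (nat_lit 282209750233) (nat_lit 228) (nat_lit 891220494897)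 (nat_lit 76) (nat_lit 328310322922) (nat_lit 64) (nat_lit 5) (nat_lit 67) (nat_lit 5) (nat_lit 65) (nat_lit 5) (nat_lit 487) (nat_lit 463) (nat_lit 250)))))) (XT.nd (nat_lit 60918) (nat_lit 0) (nat_lit 3572) (XT.nd (nat_lit 60606) (nat_lit 0) (nat_lit 5244) (XT.nd (nat_lit 78) (nat_lit 228) (nat_lit 0) (XT.lf (nat_lit 0) (nat_lit 394304094384) (nat_lit 152) (nat_lit 1108693613532) (nat_lit 228) (nat_lit 155581807230) (nat_lit 60) (nat_lit 5) (nat_lit 62) (nat_lit 5) (nat_lit 63) (nat_lit 5) (nat_lit 489) (nat_lit 463) (nat_lit 248)) (XT.nd (nat_lit 60450) (nat_lit 0) (nat_lit 5168) (XT.lf (nat_lit 0) (nat_lit 264835328681) (nat_lit 152) (nat_lit 207105763661) (nat_lit 228) (nat_lit 1271994112525) (nat_lit 57) (nat_lit 5) (nat_lit 59) (nat_lit 5) (nat_lit 60) (nat_lit 5) (nat_lit 490) (nat_lit 463) (nat_lit 247)) (XT.lf (nat_lit 0) (nat_lit 93632162906) (nat_lit 836) (nat_lit 93151624004) (nat_lit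 836) (nat_lit 93151624004) (nat_lit 125) (nat_lit 3) (nat_lit 136) (nat_lit 3) (nat_lit 136) (nat_lit 5) (nat_lit 464) (nat_lit 464) (nat_lit 272)))) (XT.nd (nat_lit 156) (nat_lit 0) (nat_lit 76) (XT.nd (nat_lit 78) (nat_lit 0) (nat_lit 0) (XT.lf (nat_lit 0) (nat_lit 199797137682) (nat_lit 760) (nat_lit 322149227984) (nat_lit 836) (nat_lit 60067176967) (nat_lit 126) (nat_lit 5) (nat_lit 136) (nat_lit 5) (nat_lit 137) (nat_lit 5) (nat_lit 465) (nat_lit 464) (nat_lit 271)) (XT.lf (nat_lit 76) (nat_lit 140765827483) (nat_lit 0) (nat_lit 84361979373) (nat_lit 836) (nat_lit 380210112643) (nat_lit 127) (nat_lit 5) (nat_lit 126) (nat_lit 5) (nat_lit 137) (nat_lit 5) (nat_lit 466) (nat_lit 464) (nat_lit 270))) (XT.nd (nat_lit 78) (nat_lit 0) (nat_lit 76) (XT.lf (nat_lit 76) (nat_lit 16339886626) (nat_lit 0) (nat_lit 248165095342) (nat_lit 836) (nat_lit 365422261938) (nat_lit 128) (nat_lit 5) (nat_lit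 127) (nat_lit 5) (nat_lit 138) (nat_lit 5) (nat_lit 467) (nat_lit 464) (nat_lit 269)) (XT.lf (nat_lit 0) (nat_lit 320182803923) (nat_lit 760) (nat_lit 108822519187) (nat_lit 836) (nat_lit 226820867524) (nat_lit 128) (nat_lit 5) (nat_lit 138) (nat_lit 5) (nat_lit 139) (nat_lit 5) (nat_lit 468) (nat_lit 464) (nat_lit 268))))) (XT.nd (nat_lit 234) (nat_lit 1216) (nat_lit 0) (XT.nd (nat_lit 78) (nat_lit 684) (nat_lit 0) (XT.lf (nat_lit 0) (nat_lit 392327376209) (nat_lit 760) (nat_lit 237669943699) (nat_lit 836) (nat_lit 53199106972) (nat_lit 129) (nat_lit 5) (nat_lit 139) (nat_lit 5) (nat_lit 140) (nat_lit 5) (nat_lit 469) (nat_lit 464) (nat_lit 267)) (XT.nd (nat_lit 78) (nat_lit 684) (nat_lit 0) (XT.lf (nat_lit 76) (nat_lit 339034225345) (nat_lit 0) (nat_lit 145663046481) (nat_lit 836) (nat_lit 227336322333) (nat_lit 130) (nat_lit 5) (nat_lit 129) (nat_lit 5) (nat_lit 140) (nat_lit 5) (nat_lit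 470) (nat_lit 464) (nat_lit 266)) (XT.lf (nat_lit 0) (nat_lit 228752168896) (nat_lit 760) (nat_lit 369376509210) (nat_lit 836) (nat_lit 144365460773) (nat_lit 120) (nat_lit 5) (nat_lit 130) (nat_lit 5) (nat_lit 131) (nat_lit 5) (nat_lit 471) (nat_lit 464) (nat_lit 265)))) (XT.nd (nat_lit 156) (nat_lit 760) (nat_lit 0) (XT.nd (nat_lit 78) (nat_lit 76) (nat_lit 0) (XT.lf (nat_lit 0) (nat_lit 115686874587) (nat_lit 380) (nat_lit 618163973476) (nat_lit 456) (nat_lit 40879866562) (nat_lit 115) (nat_lit 5) (nat_lit 120) (nat_lit 5) (nat_lit 121) (nat_lit 5) (nat_lit 472) (nat_lit 464) (nat_lit 264)) (XT.lf (nat_lit 0) (nat_lit 83939928075) (nat_lit 456) (nat_lit 2764972435) (nat_lit 76) (nat_lit 722019775484) (nat_lit 114) (nat_lit 5) (nat_lit 120) (nat_lit 5) (nat_lit 115) (nat_lit 5) (nat_lit 473) (nat_lit 464) (nat_lit 263))) (XT.nd (nat_lit 78) (nat_lit 380) (nat_lit 0) (XT.lf (nat_lit 0) (nat_lit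 236513903826) (nat_lit 456) (nat_lit 123992169294) (nat_lit 76) (nat_lit 483938531626) (nat_lit 109) (nat_lit 5) (nat_lit 115) (nat_lit 5) (nat_lit 110) (nat_lit 5) (nat_lit 474) (nat_lit 464) (nat_lit 262)) (XT.lf (nat_lit 0) (nat_lit 416268270137) (nat_lit 456) (nat_lit 248409500844) (nat_lit 76) (nat_lit 217595633198) (nat_lit 104) (nat_lit 5) (nat_lit 110) (nat_lit 5) (nat_lit 105) (nat_lit 5) (nat_lit 475) (nat_lit 464) (nat_lit 261))))))))
noncomputable def xc123 : XT := (XT.nd (nat_lit 62712) (nat_lit 0) (nat_lit 152) (XT.nd (nat_lit 61620) (nat_lit 0) (nat_lit 2584) (XT.nd (nat_lit 468) (nat_lit 1520) (nat_lit 0) (XT.nd (nat_lit 234) (nat_lit 760) (nat_lit 0) (XT.nd (nat_lit 78) (nat_lit 608) (nat_lit 0) (XT.lf (nat_lit 0) (nat_lit 545087659810) (nat_lit 304) (nat_lit 82099717466) (nat_lit 380) (nat_lit 295101910718) (nat_lit 100) (nat_lit 5) (nat_lit 104) (nat_lit 5) (nat_lit 105)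 (nat_lit 5) (nat_lit 476) (nat_lit 464) (nat_lit 260)) (XT.nd (nat_lit 78) (nat_lit 304) (nat_lit 0) (XT.lf (nat_lit 0) (nat_lit 451482925050) (nat_lit 304) (nat_lit 423485579371) (nat_lit 380) (nat_lit 89538513530) (nat_lit 96) (nat_lit 5) (nat_lit 100) (nat_lit 5) (nat_lit 101) (nat_lit 5) (nat_lit 477) (nat_lit 464) (nat_lit 259)) (XT.lf (nat_lit 0) (nat_lit 145258139816) (nat_lit 304) (nat_lit 654633066429) (nat_lit 76) (nat_lit 209256146187) (nat_lit 92) (nat_lit 5) (nat_lit 96) (nat_lit 5) (nat_lit 93) (nat_lit 5) (nat_lit 478) (nat_lit 464) (nat_lit 258)))) (XT.nd (nat_lit 78) (nat_lit 456) (nat_lit 0) (XT.lf (nat_lit 0) (nat_lit 252136473305) (nat_lit 304) (nat_lit 163767329869) (nat_lit 380) (nat_lit 640371604723) (nat_lit 88) (nat_lit 5) (nat_lit 92) (nat_lit 5) (nat_lit 93) (nat_lit 5) (nat_lit 479) (nat_lit 464) (nat_lit 257)) (XT.nd (nat_lit 78) (nat_lit 228) (nat_lit 0) (XT.lf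 (nat_lit 0) (nat_lit 144489018589) (nat_lit 228) (nat_lit 585727534373) (nat_lit 304) (nat_lit 375856383172) (nat_lit 85) (nat_lit 5) (nat_lit 88) (nat_lit 5) (nat_lit 89) (nat_lit 5) (nat_lit 480) (nat_lit 464) (nat_lit 256)) (XT.lf (nat_lit 0) (nat_lit 35287858978) (nat_lit 228) (nat_lit 1053355392240) (nat_lit 304) (nat_lit 70262568993) (nat_lit 82) (nat_lit 5) (nat_lit 85) (nat_lit 5) (nat_lit 86) (nat_lit 5) (nat_lit 481) (nat_lit 464) (nat_lit 255))))) (XT.nd (nat_lit 234) (nat_lit 988) (nat_lit 0) (XT.nd (nat_lit 78) (nat_lit 456) (nat_lit 0) (XT.lf (nat_lit 0) (nat_lit 278365396210) (nat_lit 304) (nat_lit 83087518207) (nat_lit 76) (nat_lit 852964567472) (nat_lit 81) (nat_lit 5) (nat_lit 85) (nat_lit 5) (nat_lit 82) (nat_lit 5) (nat_lit 482) (nat_lit 464) (nat_lit 254)) (XT.nd (nat_lit 78) (nat_lit 228) (nat_lit 0) (XT.lf (nat_lit 0) (nat_lit 675538701003) (nat_lit 304) (nat_lit 205919083117)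 (nat_lit 76) (nat_lit 391698862087) (nat_lit 78) (nat_lit 5) (nat_lit 82) (nat_lit 5) (nat_lit 79) (nat_lit 5) (nat_lit 483) (nat_lit 464) (nat_lit 253)) (XT.lf (nat_lit 0) (nat_lit 1001984360238) (nat_lit 228) (nat_lit 125711097048) (nat_lit 304) (nat_lit 207739007031) (nat_lit 75) (nat_lit 5) (nat_lit 78) (nat_lit 5) (nat_lit 79) (nat_lit 5) (nat_lit 484) (nat_lit 464) (nat_lit 252)))) (XT.nd (nat_lit 156) (nat_lit 532) (nat_lit 0) (XT.nd (nat_lit 78) (nat_lit 228) (nat_lit 0) (XT.lf (nat_lit 0) (nat_lit 235927784482) (nat_lit 228) (nat_lit 474758194950) (nat_lit 76) (nat_lit 690370722375) (nat_lit 72) (nat_lit 5) (nat_lit 75) (nat_lit 5) (nat_lit 73) (nat_lit 5) (nat_lit 485) (nat_lit 464) (nat_lit 251)) (XT.lf (nat_lit 0) (nat_lit 731042027466) (nat_lit 304) (nat_lit 624016749746) (nat_lit 76) (nat_lit 115538049661) (nat_lit 69) (nat_lit 5) (nat_lit 73) (nat_lit 5) (nat_lit 70) (nat_lit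 5) (nat_lit 486) (nat_lit 464) (nat_lit 250))) (XT.nd (nat_lit 156) (nat_lit 380) (nat_lit 0) (XT.lf (nat_lit 0) (nat_lit 757415173460) (nat_lit 152) (nat_lit 540564619078) (nat_lit 228) (nat_lit 246109650276) (nat_lit 67) (nat_lit 5) (nat_lit 69) (nat_lit 5) (nat_lit 70) (nat_lit 5) (nat_lit 487) (nat_lit 464) (nat_lit 249)) (XT.lf (nat_lit 0) (nat_lit 548015259658) (nat_lit 152) (nat_lit 374831281256) (nat_lit 228) (nat_lit 781259412678) (nat_lit 62) (nat_lit 5) (nat_lit 64) (nat_lit 5) (nat_lit 65) (nat_lit 5) (nat_lit 489) (nat_lit 464) (nat_lit 247)))))) (XT.nd (nat_lit 546) (nat_lit 2204) (nat_lit 0) (XT.nd (nat_lit 234) (nat_lit 0) (nat_lit 152) (XT.nd (nat_lit 78) (nat_lit 0) (nat_lit 76) (XT.lf (nat_lit 0) (nat_lit 101123049021) (nat_lit 836) (nat_lit 100603589495) (nat_lit 836) (nat_lit 100603589495) (nat_lit 125) (nat_lit 3) (nat_lit 136) (nat_lit 3) (nat_lit 136) (nat_lit 5) (nat_lit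 465) (nat_lit 465) (nat_lit 270)) (XT.nd (nat_lit 78) (nat_lit 0) (nat_lit 0) (XT.lf (nat_lit 0) (nat_lit 215781489173) (nat_lit 760) (nat_lit 347920817979) (nat_lit 836) (nat_lit 64872289643) (nat_lit 126) (nat_lit 5) (nat_lit 136) (nat_lit 5) (nat_lit 137) (nat_lit 5) (nat_lit 466) (nat_lit 465) (nat_lit 269)) (XT.lf (nat_lit 76) (nat_lit 152027426792) (nat_lit 0) (nat_lit 91111147292) (nat_lit 836) (nat_lit 410626351633) (nat_lit 127) (nat_lit 5) (nat_lit 126) (nat_lit 5) (nat_lit 137) (nat_lit 5) (nat_lit 467) (nat_lit 465) (nat_lit 268)))) (XT.nd (nat_lit 156) (nat_lit 0) (nat_lit 152) (XT.nd (nat_lit 78) (nat_lit 0) (nat_lit 76) (XT.lf (nat_lit 76) (nat_lit 17647425474) (nat_lit 0) (nat_lit 268018459935) (nat_lit 836) (nat_lit 394655512572) (nat_lit 128) (nat_lit 5) (nat_lit 127) (nat_lit 5) (nat_lit 138) (nat_lit 5) (nat_lit 468) (nat_lit 465) (nat_lit 267)) (XT.lf (nat_lit 0) (nat_lit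 345797893452) (nat_lit 760) (nat_lit 117527972753) (nat_lit 836) (nat_lit 244966396239) (nat_lit 128) (nat_lit 5) (nat_lit 138) (nat_lit 5) (nat_lit 139) (nat_lit 5) (nat_lit 469) (nat_lit 465) (nat_lit 266))) (XT.nd (nat_lit 78) (nat_lit 0) (nat_lit 0) (XT.lf (nat_lit 0) (nat_lit 423714000647) (nat_lit 760) (nat_lit 256683182776) (nat_lit 836) (nat_lit 57454935725) (nat_lit 129) (nat_lit 5) (nat_lit 139) (nat_lit 5) (nat_lit 140) (nat_lit 5) (nat_lit 470) (nat_lit 465) (nat_lit 265)) (XT.lf (nat_lit 76) (nat_lit 366157304302) (nat_lit 0) (nat_lit 157316156761) (nat_lit 836) (nat_lit 245522800101) (nat_lit 130) (nat_lit 5) (nat_lit 129) (nat_lit 5) (nat_lit 140) (nat_lit 5) (nat_lit 471) (nat_lit 465) (nat_lit 264))))) (XT.nd (nat_lit 234) (nat_lit 1368) (nat_lit 0) (XT.nd (nat_lit 78) (nat_lit 456) (nat_lit 0) (XT.lf (nat_lit 0) (nat_lit 247052689151) (nat_lit 760) (nat_lit 398926664962)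 (nat_lit 836) (nat_lit 155914296646) (nat_lit 120) (nat_lit 5) (nat_lit 130) (nat_lit 5) (nat_lit 131) (nat_lit 5) (nat_lit 472) (nat_lit 465) (nat_lit 263)) (XT.nd (nat_lit 78) (nat_lit 76) (nat_lit 0) (XT.lf (nat_lit 0) (nat_lit 124942175146) (nat_lit 380) (nat_lit 667617099209) (nat_lit 456) (nat_lit 44149879385) (nat_lit 115) (nat_lit 5) (nat_lit 120) (nat_lit 5) (nat_lit 121) (nat_lit 5) (nat_lit 473) (nat_lit 465) (nat_lit 262)) (XT.lf (nat_lit 0) (nat_lit 90655459775) (nat_lit 456) (nat_lit 2985834333) (nat_lit 76) (nat_lit 779781338976) (nat_lit 114) (nat_lit 5) (nat_lit 120) (nat_lit 5) (nat_lit 115) (nat_lit 5) (nat_lit 474) (nat_lit 465) (nat_lit 261)))) (XT.nd (nat_lit 156) (nat_lit 608) (nat_lit 0) (XT.nd (nat_lit 78) (nat_lit 380) (nat_lit 0) (XT.lf (nat_lit 0) (nat_lit 255435333666) (nat_lit 456) (nat_lit 133911205618) (nat_lit 76) (nat_lit 522653617858) (nat_lit 109) (nat_lit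 5) (nat_lit 115) (nat_lit 5) (nat_lit 110) (nat_lit 5) (nat_lit 475) (nat_lit 465) (nat_lit 260)) (XT.lf (nat_lit 0) (nat_lit 449570031164) (nat_lit 456) (nat_lit 268281923662) (nat_lit 76) (nat_lit 235003306617) (nat_lit 104) (nat_lit 5) (nat_lit 110) (nat_lit 5) (nat_lit 105) (nat_lit 5) (nat_lit 476) (nat_lit 465) (nat_lit 259))) (XT.nd (nat_lit 78) (nat_lit 304) (nat_lit 0) (XT.lf (nat_lit 0) (nat_lit 588694995188) (nat_lit 304) (nat_lit 88667654544) (nat_lit 380) (nat_lit 318709767096) (nat_lit 100) (nat_lit 5) (nat_lit 104) (nat_lit 5) (nat_lit 105) (nat_lit 5) (nat_lit 477) (nat_lit 465) (nat_lit 258)) (XT.lf (nat_lit 0) (nat_lit 487601880613) (nat_lit 304) (nat_lit 457364371129) (nat_lit 380) (nat_lit 96701314210) (nat_lit 96) (nat_lit 5) (nat_lit 100) (nat_lit 5) (nat_lit 101) (nat_lit 5) (nat_lit 478) (nat_lit 465) (nat_lit 257))))))) (XT.nd (nat_lit 61698) (nat_lit 0) (nat_lit 1596)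 (XT.nd (nat_lit 468) (nat_lit 1064) (nat_lit 0) (XT.nd (nat_lit 234) (nat_lit 532) (nat_lit 0) (XT.nd (nat_lit 78) (nat_lit 532) (nat_lit 0) (XT.lf (nat_lit 0) (nat_lit 156879048197) (nat_lit 304) (nat_lit 707003383544) (nat_lit 76) (nat_lit 225996695950) (nat_lit 92) (nat_lit 5) (nat_lit 96) (nat_lit 5) (nat_lit 93) (nat_lit 5) (nat_lit 479) (nat_lit 465) (nat_lit 256)) (XT.nd (nat_lit 78) (nat_lit 228) (nat_lit 0) (XT.lf (nat_lit 0) (nat_lit 272307705105) (nat_lit 304) (nat_lit 176868645368) (nat_lit 380) (nat_lit 691601077834) (nat_lit 88) (nat_lit 5) (nat_lit 92) (nat_lit 5) (nat_lit 93) (nat_lit 5) (nat_lit 480) (nat_lit 465) (nat_lit 255)) (XT.lf (nat_lit 0) (nat_lit 156048451001) (nat_lit 228) (nat_lit 632585657120) (nat_lit 304) (nat_lit 405924651294) (nat_lit 85) (nat_lit 5) (nat_lit 88) (nat_lit 5) (nat_lit 89) (nat_lit 5) (nat_lit 481) (nat_lit 465) (nat_lit 254)))) (XT.nd (nat_lit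 78) (nat_lit 304) (nat_lit 0) (XT.lf (nat_lit 0) (nat_lit 38111195020) (nat_lit 228) (nat_lit 1137623736067) (nat_lit 304) (nat_lit 75883343694) (nat_lit 82) (nat_lit 5) (nat_lit 85) (nat_lit 5) (nat_lit 86) (nat_lit 5) (nat_lit 482) (nat_lit 465) (nat_lit 253)) (XT.nd (nat_lit 78) (nat_lit 228) (nat_lit 0) (XT.lf (nat_lit 0) (nat_lit 300634834787) (nat_lit 304) (nat_lit 89734228212) (nat_lit 76) (nat_lit 921201807044) (nat_lit 81) (nat_lit 5) (nat_lit 85) (nat_lit 5) (nat_lit 82) (nat_lit 5) (nat_lit 483) (nat_lit 465) (nat_lit 252)) (XT.lf (nat_lit 0) (nat_lit 729581994286) (nat_lit 304) (nat_lit 222392322430) (nat_lit 76) (nat_lit 423034851279) (nat_lit 78) (nat_lit 5) (nat_lit 82) (nat_lit 5) (nat_lit 79) (nat_lit 5) (nat_lit 484) (nat_lit 465) (nat_lit 251))))) (XT.nd (nat_lit 312) (nat_lit 380) (nat_lit 0) (XT.nd (nat_lit 78) (nat_lit 456) (nat_lit 0) (XT.lf (nat_lit 0) (nat_lit 1082143383906)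 (nat_lit 228) (nat_lit 135767896850) (nat_lit 304) (nat_lit 224357931318) (nat_lit 75) (nat_lit 5) (nat_lit 78) (nat_lit 5) (nat_lit 79) (nat_lit 5) (nat_lit 485) (nat_lit 465) (nat_lit 250)) (XT.nd (nat_lit 78) (nat_lit 228) (nat_lit 0) (XT.lf (nat_lit 0) (nat_lit 254802188747) (nat_lit 228) (nat_lit 512738573933) (nat_lit 76) (nat_lit 745600466157) (nat_lit 72) (nat_lit 5) (nat_lit 75) (nat_lit 5) (nat_lit 73) (nat_lit 5) (nat_lit 486) (nat_lit 465) (nat_lit 249)) (XT.lf (nat_lit 0) (nat_lit 789525563299) (nat_lit 304) (nat_lit 673937817930) (nat_lit 76) (nat_lit 124781183076) (nat_lit 69) (nat_lit 5) (nat_lit 73) (nat_lit 5) (nat_lit 70) (nat_lit 5) (nat_lit 487) (nat_lit 465) (nat_lit 248)))) (XT.nd (nat_lit 60762) (nat_lit 0) (nat_lit 4712) (XT.nd (nat_lit 60684) (nat_lit 0) (nat_lit 4636) (XT.lf (nat_lit 0) (nat_lit 329169815588) (nat_lit 228) (nat_lit 1039518996546) (nat_lit 76) (nat_lit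 382941368229) (nat_lit 64) (nat_lit 5) (nat_lit 67) (nat_lit 5) (nat_lit 65) (nat_lit 5) (nat_lit 489) (nat_lit 465) (nat_lit 246)) (XT.lf (nat_lit 0) (nat_lit 109213161361) (nat_lit 836) (nat_lit 108651735683) (nat_lit 836) (nat_lit 108651735683) (nat_lit 125) (nat_lit 3) (nat_lit 136) (nat_lit 3) (nat_lit 136) (nat_lit 5) (nat_lit 466) (nat_lit 466) (nat_lit 268))) (XT.nd (nat_lit 78) (nat_lit 0) (nat_lit 0) (XT.lf (nat_lit 0) (nat_lit 233044505973) (nat_lit 760) (nat_lit 375754184853) (nat_lit 836) (nat_lit 70061848636) (nat_lit 126) (nat_lit 5) (nat_lit 136) (nat_lit 5) (nat_lit 137) (nat_lit 5) (nat_lit 467) (nat_lit 466) (nat_lit 267)) (XT.lf (nat_lit 76) (nat_lit 164189906524) (nat_lit 0) (nat_lit 98400218747) (nat_lit 836) (nat_lit 443475971061) (nat_lit 127) (nat_lit 5) (nat_lit 126) (nat_lit 5) (nat_lit 137) (nat_lit 5) (nat_lit 468) (nat_lit 466) (nat_lit 266)))))) (XT.nd (nat_lit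 546) (nat_lit 2204) (nat_lit 0) (XT.nd (nat_lit 234) (nat_lit 988) (nat_lit 0) (XT.nd (nat_lit 78) (nat_lit 0) (nat_lit 76) (XT.lf (nat_lit 76) (nat_lit 19059517795) (nat_lit 0) (nat_lit 289460071302) (nat_lit 836) (nat_lit 426227498913) (nat_lit 128) (nat_lit 5) (nat_lit 127) (nat_lit 5) (nat_lit 138) (nat_lit 5) (nat_lit 469) (nat_lit 466) (nat_lit 265)) (XT.nd (nat_lit 78) (nat_lit 0) (nat_lit 76) (XT.lf (nat_lit 0) (nat_lit 373462123776) (nat_lit 760) (nat_lit 126929912246) (nat_lit 836) (nat_lit 264563587323) (nat_lit 128) (nat_lit 5) (nat_lit 138) (nat_lit 5) (nat_lit 139) (nat_lit 5) (nat_lit 470) (nat_lit 466) (nat_lit 264)) (XT.lf (nat_lit 0) (nat_lit 457611493077) (nat_lit 760) (nat_lit 277217531826) (nat_lit 836) (nat_lit 62051245017) (nat_lit 129) (nat_lit 5) (nat_lit 139) (nat_lit 5) (nat_lit 140) (nat_lit 5) (nat_lit 471) (nat_lit 466) (nat_lit 263)))) (XT.nd (nat_lit 156) (nat_lit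 456) (nat_lit 0) (XT.nd (nat_lit 78) (nat_lit 684) (nat_lit 0) (XT.lf (nat_lit 76) (nat_lit 395450180939) (nat_lit 0) (nat_lit 169901506367) (nat_lit 836) (nat_lit 265164257151) (nat_lit 130) (nat_lit 5) (nat_lit 129) (nat_lit 5) (nat_lit 140) (nat_lit 5) (nat_lit 472) (nat_lit 466) (nat_lit 262)) (XT.lf (nat_lit 0) (nat_lit 266817201560) (nat_lit 760) (nat_lit 430840828178) (nat_lit 836) (nat_lit 168387096595) (nat_lit 120) (nat_lit 5) (nat_lit 130) (nat_lit 5) (nat_lit 131) (nat_lit 5) (nat_lit 473) (nat_lit 466) (nat_lit 261))) (XT.nd (nat_lit 78) (nat_lit 76) (nat_lit 0) (XT.lf (nat_lit 0) (nat_lit 134937849733) (nat_lit 380) (nat_lit 721026473881) (nat_lit 456) (nat_lit 47681546947) (nat_lit 115) (nat_lit 5) (nat_lit 120) (nat_lit 5) (nat_lit 121) (nat_lit 5) (nat_lit 474) (nat_lit 466) (nat_lit 260)) (XT.lf (nat_lit 0) (nat_lit 97908185870) (nat_lit 456) (nat_lit 3224413104) (nat_lit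 76) (nat_lit 842163830193) (nat_lit 114) (nat_lit 5) (nat_lit 120) (nat_lit 5) (nat_lit 115) (nat_lit 5) (nat_lit 475) (nat_lit 466) (nat_lit 259))))) (XT.nd (nat_lit 234) (nat_lit 1140) (nat_lit 0) (XT.nd (nat_lit 78) (nat_lit 684) (nat_lit 0) (XT.lf (nat_lit 0) (nat_lit 275870432593) (nat_lit 456) (nat_lit 144623812955) (nat_lit 76) (nat_lit 564465910460) (nat_lit 109) (nat_lit 5) (nat_lit 115) (nat_lit 5) (nat_lit 110) (nat_lit 5) (nat_lit 476) (nat_lit 466) (nat_lit 258)) (XT.nd (nat_lit 78) (nat_lit 304) (nat_lit 0) (XT.lf (nat_lit 0) (nat_lit 485535890358) (nat_lit 456) (nat_lit 289744188418) (nat_lit 76) (nat_lit 253803590661) (nat_lit 104) (nat_lit 5) (nat_lit 110) (nat_lit 5) (nat_lit 105) (nat_lit 5) (nat_lit 477) (nat_lit 466) (nat_lit 257)) (XT.lf (nat_lit 0) (nat_lit 635790871375) (nat_lit 304) (nat_lit 95761032340) (nat_lit 380) (nat_lit 344206294281) (nat_lit 100) (nat_lit 5)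 (nat_lit 104) (nat_lit 5) (nat_lit 105) (nat_lit 5) (nat_lit 478) (nat_lit 466) (nat_lit 256)))) (XT.nd (nat_lit 156) (nat_lit 532) (nat_lit 0) (XT.nd (nat_lit 78) (nat_lit 304) (nat_lit 0) (XT.lf (nat_lit 0) (nat_lit 526610306748) (nat_lit 304) (nat_lit 493953474016) (nat_lit 380) (nat_lit 104437178948) (nat_lit 96) (nat_lit 5) (nat_lit 100) (nat_lit 5) (nat_lit 101) (nat_lit 5) (nat_lit 479) (nat_lit 466) (nat_lit 255)) (XT.lf (nat_lit 0) (nat_lit 169429592556) (nat_lit 304) (nat_lit 763563372850) (nat_lit 76) (nat_lit 244076481411) (nat_lit 92) (nat_lit 5) (nat_lit 96) (nat_lit 5) (nat_lit 93) (nat_lit 5) (nat_lit 480) (nat_lit 466) (nat_lit 254))) (XT.nd (nat_lit 78) (nat_lit 228) (nat_lit 0) (XT.lf (nat_lit 0) (nat_lit 294092590663) (nat_lit 304) (nat_lit 191018076220) (nat_lit 380) (nat_lit 746928945210) (nat_lit 88) (nat_lit 5) (nat_lit 92) (nat_lit 5) (nat_lit 93) (nat_lit 5) (nat_lit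 481) (nat_lit 466) (nat_lit 253)) (XT.lf (nat_lit 0) (nat_lit 168532593649) (nat_lit 228) (nat_lit 683192441099) (nat_lit 304) (nat_lit 438398415466) (nat_lit 85) (nat_lit 5) (nat_lit 88) (nat_lit 5) (nat_lit 89) (nat_lit 5) (nat_lit 482) (nat_lit 466) (nat_lit 252))))))))
noncomputable def xc124 : XT := (XT.nd (nat_lit 62712) (nat_lit 0) (nat_lit 152) (XT.nd (nat_lit 61698) (nat_lit 0) (nat_lit 1064) (XT.nd (nat_lit 468) (nat_lit 152) (nat_lit 0) (XT.nd (nat_lit 234) (nat_lit 684) (nat_lit 0) (XT.nd (nat_lit 78) (nat_lit 304) (nat_lit 0) (XT.lf (nat_lit 0) (nat_lit 41160354102) (nat_lit 228) (nat_lit 1228633559890) (nat_lit 304) (nat_lit 81953813299) (nat_lit 82) (nat_lit 5) (nat_lit 85) (nat_lit 5) (nat_lit 86) (nat_lit 5) (nat_lit 483) (nat_lit 466) (nat_lit 251)) (XT.nd (nat_lit 78) (nat_lit 228) (nat_lit 0) (XT.lf (nat_lit 0) (nat_lit 324685798937) (nat_lit 304) (nat_lit 96912716596)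 (nat_lit 76) (nat_lit 994898015200) (nat_lit 81) (nat_lit 5) (nat_lit 85) (nat_lit 5) (nat_lit 82) (nat_lit 5) (nat_lit 484) (nat_lit 466) (nat_lit 250)) (XT.lf (nat_lit 0) (nat_lit 787948722898) (nat_lit 304) (nat_lit 240183461880) (nat_lit 76) (nat_lit 456877708160) (nat_lit 78) (nat_lit 5) (nat_lit 82) (nat_lit 5) (nat_lit 79) (nat_lit 5) (nat_lit 485) (nat_lit 466) (nat_lit 249)))) (XT.nd (nat_lit 78) (nat_lit 456) (nat_lit 0) (XT.lf (nat_lit 0) (nat_lit 1168715090257) (nat_lit 228) (nat_lit 146629253184) (nat_lit 304) (nat_lit 242306397548) (nat_lit 75) (nat_lit 5) (nat_lit 78) (nat_lit 5) (nat_lit 79) (nat_lit 5) (nat_lit 486) (nat_lit 466) (nat_lit 248)) (XT.nd (nat_lit 78) (nat_lit 228) (nat_lit 0) (XT.lf (nat_lit 0) (nat_lit 275186519459) (nat_lit 228) (nat_lit 553757422697) (nat_lit 76) (nat_lit 805248577174) (nat_lit 72) (nat_lit 5) (nat_lit 75) (nat_lit 5) (nat_lit 73) (nat_lit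 5) (nat_lit 487) (nat_lit 466) (nat_lit 247)) (XT.lf (nat_lit 0) (nat_lit 852687757227) (nat_lit 304) (nat_lit 727852610343) (nat_lit 76) (nat_lit 134763754404) (nat_lit 69) (nat_lit 5) (nat_lit 73) (nat_lit 5) (nat_lit 70) (nat_lit 5) (nat_lit 488) (nat_lit 466) (nat_lit 246))))) (XT.nd (nat_lit 60918) (nat_lit 0) (nat_lit 4484) (XT.nd (nat_lit 60762) (nat_lit 0) (nat_lit 4408) (XT.lf (nat_lit 0) (nat_lit 883449562001) (nat_lit 152) (nat_lit 630514387352) (nat_lit 228) (nat_lit 287061960713) (nat_lit 67) (nat_lit 5) (nat_lit 69) (nat_lit 5) (nat_lit 70) (nat_lit 5) (nat_lit 489) (nat_lit 466) (nat_lit 245)) (XT.nd (nat_lit 78) (nat_lit 0) (nat_lit 76) (XT.lf (nat_lit 0) (nat_lit 117950444395) (nat_lit 836) (nat_lit 117343753677) (nat_lit 836) (nat_lit 117343753677) (nat_lit 125) (nat_lit 3) (nat_lit 136) (nat_lit 3) (nat_lit 136) (nat_lit 5) (nat_lit 467) (nat_lit 467) (nat_lit 266)) (XT.lf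 (nat_lit 0) (nat_lit 251688493118) (nat_lit 760) (nat_lit 405814263671) (nat_lit 836) (nat_lit 75666604330) (nat_lit 126) (nat_lit 5) (nat_lit 136) (nat_lit 5) (nat_lit 137) (nat_lit 5) (nat_lit 468) (nat_lit 467) (nat_lit 265)))) (XT.nd (nat_lit 156) (nat_lit 0) (nat_lit 152) (XT.nd (nat_lit 78) (nat_lit 0) (nat_lit 76) (XT.lf (nat_lit 76) (nat_lit 177325343892) (nat_lit 0) (nat_lit 106272390286) (nat_lit 836) (nat_lit 478953629763) (nat_lit 127) (nat_lit 5) (nat_lit 126) (nat_lit 5) (nat_lit 137) (nat_lit 5) (nat_lit 469) (nat_lit 467) (nat_lit 264)) (XT.lf (nat_lit 76) (nat_lit 20584534949) (nat_lit 0) (nat_lit 312616992380) (nat_lit 836) (nat_lit 460325309025) (nat_lit 128) (nat_lit 5) (nat_lit 127) (nat_lit 5) (nat_lit 138) (nat_lit 5) (nat_lit 470) (nat_lit 467) (nat_lit 263))) (XT.nd (nat_lit 78) (nat_lit 0) (nat_lit 76) (XT.lf (nat_lit 0) (nat_lit 403339435625) (nat_lit 760) (nat_lit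 137084049458) (nat_lit 836) (nat_lit 285728570900) (nat_lit 128) (nat_lit 5) (nat_lit 138) (nat_lit 5) (nat_lit 139) (nat_lit 5) (nat_lit 471) (nat_lit 467) (nat_lit 262)) (XT.lf (nat_lit 0) (nat_lit 494220731778) (nat_lit 760) (nat_lit 299394672393) (nat_lit 836) (nat_lit 67015271258) (nat_lit 129) (nat_lit 5) (nat_lit 139) (nat_lit 5) (nat_lit 140) (nat_lit 5) (nat_lit 472) (nat_lit 467) (nat_lit 261)))))) (XT.nd (nat_lit 468) (nat_lit 1748) (nat_lit 0) (XT.nd (nat_lit 234) (nat_lit 836) (nat_lit 0) (XT.nd (nat_lit 78) (nat_lit 1064) (nat_lit 0) (XT.lf (nat_lit 76) (nat_lit 427086446008) (nat_lit 0) (nat_lit 183493675801) (nat_lit 836) (nat_lit 286377083116) (nat_lit 130) (nat_lit 5) (nat_lit 129) (nat_lit 5) (nat_lit 140) (nat_lit 5) (nat_lit 473) (nat_lit 467) (nat_lit 260)) (XT.nd (nat_lit 78) (nat_lit 380) (nat_lit 0) (XT.lf (nat_lit 0) (nat_lit 288162832552) (nat_lit 760) (nat_lit 465308120169)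 (nat_lit 836) (nat_lit 181857769585) (nat_lit 120) (nat_lit 5) (nat_lit 130) (nat_lit 5) (nat_lit 131) (nat_lit 5) (nat_lit 474) (nat_lit 467) (nat_lit 259)) (XT.lf (nat_lit 0) (nat_lit 145733135408) (nat_lit 380) (nat_lit 778708597565) (nat_lit 456) (nat_lit 51495793963) (nat_lit 115) (nat_lit 5) (nat_lit 120) (nat_lit 5) (nat_lit 121) (nat_lit 5) (nat_lit 475) (nat_lit 467) (nat_lit 258)))) (XT.nd (nat_lit 78) (nat_lit 760) (nat_lit 0) (XT.lf (nat_lit 0) (nat_lit 105741088779) (nat_lit 456) (nat_lit 3482119258) (nat_lit 76) (nat_lit 909536922975) (nat_lit 114) (nat_lit 5) (nat_lit 120) (nat_lit 5) (nat_lit 115) (nat_lit 5) (nat_lit 476) (nat_lit 467) (nat_lit 257)) (XT.nd (nat_lit 78) (nat_lit 380) (nat_lit 0) (XT.lf (nat_lit 0) (nat_lit 297940300598) (nat_lit 456) (nat_lit 156193470125) (nat_lit 76) (nat_lit 609623186018) (nat_lit 109) (nat_lit 5) (nat_lit 115) (nat_lit 5) (nat_lit 110)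 (nat_lit 5) (nat_lit 477) (nat_lit 467) (nat_lit 256)) (XT.lf (nat_lit 0) (nat_lit 524378981667) (nat_lit 456) (nat_lit 312923475603) (nat_lit 76) (nat_lit 274107894646) (nat_lit 104) (nat_lit 5) (nat_lit 110) (nat_lit 5) (nat_lit 105) (nat_lit 5) (nat_lit 478) (nat_lit 467) (nat_lit 255))))) (XT.nd (nat_lit 234) (nat_lit 836) (nat_lit 0) (XT.nd (nat_lit 78) (nat_lit 608) (nat_lit 0) (XT.lf (nat_lit 0) (nat_lit 686654378200) (nat_lit 304) (nat_lit 103421885292) (nat_lit 380) (nat_lit 371742579902) (nat_lit 100) (nat_lit 5) (nat_lit 104) (nat_lit 5) (nat_lit 105) (nat_lit 5) (nat_lit 479) (nat_lit 467) (nat_lit 254)) (XT.nd (nat_lit 78) (nat_lit 304) (nat_lit 0) (XT.lf (nat_lit 0) (nat_lit 568739367644) (nat_lit 304) (nat_lit 533469711810) (nat_lit 380) (nat_lit 112791947160) (nat_lit 96) (nat_lit 5) (nat_lit 100) (nat_lit 5) (nat_lit 101) (nat_lit 5) (nat_lit 480) (nat_lit 467) (nat_lit 253))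 (XT.lf (nat_lit 0) (nat_lit 182984149007) (nat_lit 304) (nat_lit 824648201442) (nat_lit 76) (nat_lit 263602642606) (nat_lit 92) (nat_lit 5) (nat_lit 96) (nat_lit 5) (nat_lit 93) (nat_lit 5) (nat_lit 481) (nat_lit 467) (nat_lit 252)))) (XT.nd (nat_lit 156) (nat_lit 304) (nat_lit 0) (XT.nd (nat_lit 78) (nat_lit 228) (nat_lit 0) (XT.lf (nat_lit 0) (nat_lit 317620228668) (nat_lit 304) (nat_lit 206299470211) (nat_lit 380) (nat_lit 806683073198) (nat_lit 88) (nat_lit 5) (nat_lit 92) (nat_lit 5) (nat_lit 93) (nat_lit 5) (nat_lit 482) (nat_lit 467) (nat_lit 251)) (XT.lf (nat_lit 0) (nat_lit 182015429680) (nat_lit 228) (nat_lit 737847777582) (nat_lit 304) (nat_lit 473470110435) (nat_lit 85) (nat_lit 5) (nat_lit 88) (nat_lit 5) (nat_lit 89) (nat_lit 5) (nat_lit 483) (nat_lit 467) (nat_lit 250))) (XT.nd (nat_lit 78) (nat_lit 76) (nat_lit 0) (XT.lf (nat_lit 0) (nat_lit 44453408322) (nat_lit 228) (nat_lit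 1326924180327) (nat_lit 304) (nat_lit 88509948704) (nat_lit 82) (nat_lit 5) (nat_lit 85) (nat_lit 5) (nat_lit 86) (nat_lit 5) (nat_lit 484) (nat_lit 467) (nat_lit 249)) (XT.lf (nat_lit 0) (nat_lit 350660814916) (nat_lit 304) (nat_lit 104665519698) (nat_lit 76) (nat_lit 1074489910936) (nat_lit 81) (nat_lit 5) (nat_lit 85) (nat_lit 5) (nat_lit 82) (nat_lit 5) (nat_lit 485) (nat_lit 467) (nat_lit 248))))))) (XT.nd (nat_lit 61854) (nat_lit 0) (nat_lit 228) (XT.nd (nat_lit 61308) (nat_lit 0) (nat_lit 3420) (XT.nd (nat_lit 61074) (nat_lit 0) (nat_lit 4256) (XT.nd (nat_lit 156) (nat_lit 684) (nat_lit 0) (XT.lf (nat_lit 0) (nat_lit 850984765680) (nat_lit 304) (nat_lit 259397927630) (nat_lit 76) (nat_lit 493427983780) (nat_lit 78) (nat_lit 5) (nat_lit 82) (nat_lit 5) (nat_lit 79) (nat_lit 5) (nat_lit 486) (nat_lit 467) (nat_lit 247)) (XT.nd (nat_lit 78) (nat_lit 228) (nat_lit 0) (XT.lf (nat_lit 0)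 (nat_lit 297201574428) (nat_lit 228) (nat_lit 598057813193) (nat_lit 76) (nat_lit 869668526554) (nat_lit 72) (nat_lit 5) (nat_lit 75) (nat_lit 5) (nat_lit 73) (nat_lit 5) (nat_lit 488) (nat_lit 467) (nat_lit 245)) (XT.lf (nat_lit 0) (nat_lit 920902905432) (nat_lit 304) (nat_lit 786080619393) (nat_lit 76) (nat_lit 145544920499) (nat_lit 69) (nat_lit 5) (nat_lit 73) (nat_lit 5) (nat_lit 70) (nat_lit 5) (nat_lit 489) (nat_lit 467) (nat_lit 244)))) (XT.nd (nat_lit 78) (nat_lit 0) (nat_lit 76) (XT.lf (nat_lit 0) (nat_lit 127386677241) (nat_lit 836) (nat_lit 126731150352) (nat_lit 836) (nat_lit 126731150352) (nat_lit 125) (nat_lit 3) (nat_lit 136) (nat_lit 3) (nat_lit 136) (nat_lit 5) (nat_lit 468) (nat_lit 468) (nat_lit 264)) (XT.nd (nat_lit 78) (nat_lit 0) (nat_lit 0) (XT.lf (nat_lit 0) (nat_lit 271823938366) (nat_lit 760) (nat_lit 438279185312) (nat_lit 836) (nat_lit 81719767899) (nat_lit 126)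 (nat_lit 5) (nat_lit 136) (nat_lit 5) (nat_lit 137) (nat_lit 5) (nat_lit 469) (nat_lit 468) (nat_lit 263)) (XT.lf (nat_lit 76) (nat_lit 191511581319) (nat_lit 0) (nat_lit 114774313573) (nat_lit 836) (nat_lit 517269560933) (nat_lit 127) (nat_lit 5) (nat_lit 126) (nat_lit 5) (nat_lit 137) (nat_lit 5) (nat_lit 470) (nat_lit 468) (nat_lit 262))))) (XT.nd (nat_lit 234) (nat_lit 988) (nat_lit 0) (XT.nd (nat_lit 78) (nat_lit 0) (nat_lit 76) (XT.lf (nat_lit 76) (nat_lit 22231516993) (nat_lit 0) (nat_lit 337626450685) (nat_lit 836) (nat_lit 497150999555) (nat_lit 128) (nat_lit 5) (nat_lit 127) (nat_lit 5) (nat_lit 138) (nat_lit 5) (nat_lit 471) (nat_lit 468) (nat_lit 261)) (XT.nd (nat_lit 78) (nat_lit 0) (nat_lit 76) (XT.lf (nat_lit 0) (nat_lit 435606883639) (nat_lit 760) (nat_lit 148050554136) (nat_lit 836) (nat_lit 308586767916) (nat_lit 128) (nat_lit 5) (nat_lit 138) (nat_lit 5) (nat_lit 139) (nat_lit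 5) (nat_lit 472) (nat_lit 468) (nat_lit 260)) (XT.lf (nat_lit 0) (nat_lit 533758664029) (nat_lit 760) (nat_lit 323346021579) (nat_lit 836) (nat_lit 72376430065) (nat_lit 129) (nat_lit 5) (nat_lit 139) (nat_lit 5) (nat_lit 140) (nat_lit 5) (nat_lit 473) (nat_lit 468) (nat_lit 259)))) (XT.nd (nat_lit 156) (nat_lit 456) (nat_lit 0) (XT.nd (nat_lit 78) (nat_lit 684) (nat_lit 0) (XT.lf (nat_lit 76) (nat_lit 461253576533) (nat_lit 0) (nat_lit 198173211810) (nat_lit 836) (nat_lit 309286980041) (nat_lit 130) (nat_lit 5) (nat_lit 129) (nat_lit 5) (nat_lit 140) (nat_lit 5) (nat_lit 474) (nat_lit 468) (nat_lit 258)) (XT.lf (nat_lit 0) (nat_lit 311216077663) (nat_lit 760) (nat_lit 502532791847) (nat_lit 836) (nat_lit 196406138461) (nat_lit 120) (nat_lit 5) (nat_lit 130) (nat_lit 5) (nat_lit 131) (nat_lit 5) (nat_lit 475) (nat_lit 468) (nat_lit 257))) (XT.nd (nat_lit 78) (nat_lit 76) (nat_lit 0) (XT.lf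 (nat_lit 0) (nat_lit 157392007173) (nat_lit 380) (nat_lit 841005290321) (nat_lit 456) (nat_lit 55615220221) (nat_lit 115) (nat_lit 5) (nat_lit 120) (nat_lit 5) (nat_lit 121) (nat_lit 5) (nat_lit 476) (nat_lit 468) (nat_lit 256)) (XT.lf (nat_lit 0) (nat_lit 114200588535) (nat_lit 456) (nat_lit 3760477128) (nat_lit 76) (nat_lit 982299865125) (nat_lit 114) (nat_lit 5) (nat_lit 120) (nat_lit 5) (nat_lit 115) (nat_lit 5) (nat_lit 477) (nat_lit 468) (nat_lit 255)))))) (XT.nd (nat_lit 546) (nat_lit 988) (nat_lit 0) (XT.nd (nat_lit 234) (nat_lit 1140) (nat_lit 0) (XT.nd (nat_lit 78) (nat_lit 684) (nat_lit 0) (XT.lf (nat_lit 0) (nat_lit 321775724746) (nat_lit 456) (nat_lit 168688735230) (nat_lit 76) (nat_lit 658393043232) (nat_lit 109) (nat_lit 5) (nat_lit 115) (nat_lit 5) (nat_lit 110) (nat_lit 5) (nat_lit 478) (nat_lit 468) (nat_lit 254)) (XT.nd (nat_lit 78) (nat_lit 304) (nat_lit 0) (XT.lf (nat_lit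 0) (nat_lit 566329488883) (nat_lit 456) (nat_lit 337957141127) (nat_lit 76) (nat_lit 296036540562) (nat_lit 104) (nat_lit 5) (nat_lit 110) (nat_lit 5) (nat_lit 105) (nat_lit 5) (nat_lit 479) (nat_lit 468) (nat_lit 253)) (XT.lf (nat_lit 0) (nat_lit 741586931745) (nat_lit 304) (nat_lit 111695610707) (nat_lit 380) (nat_lit 401481799461) (nat_lit 100) (nat_lit 5) (nat_lit 104) (nat_lit 5) (nat_lit 105) (nat_lit 5) (nat_lit 480) (nat_lit 468) (nat_lit 252)))) (XT.nd (nat_lit 156) (nat_lit 532) (nat_lit 0) (XT.nd (nat_lit 78) (nat_lit 304) (nat_lit 0) (XT.lf (nat_lit 0) (nat_lit 614238719693) (nat_lit 304) (nat_lit 576147254353) (nat_lit 380) (nat_lit 121815126233) (nat_lit 96) (nat_lit 5) (nat_lit 100) (nat_lit 5) (nat_lit 101) (nat_lit 5) (nat_lit 481) (nat_lit 468) (nat_lit 251)) (XT.lf (nat_lit 0) (nat_lit 197623043004) (nat_lit 304) (nat_lit 890619850736) (nat_lit 76) (nat_lit 284690890608)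 (nat_lit 92) (nat_lit 5) (nat_lit 96) (nat_lit 5) (nat_lit 93) (nat_lit 5) (nat_lit 482) (nat_lit 468) (nat_lit 250))) (XT.nd (nat_lit 78) (nat_lit 228) (nat_lit 0) (XT.lf (nat_lit 0) (nat_lit 343030044795) (nat_lit 304) (nat_lit 222803383155) (nat_lit 380) (nat_lit 871217558192) (nat_lit 88) (nat_lit 5) (nat_lit 92) (nat_lit 5) (nat_lit 93) (nat_lit 5) (nat_lit 483) (nat_lit 468) (nat_lit 249)) (XT.lf (nat_lit 0) (nat_lit 196576859990) (nat_lit 228) (nat_lit 796875549373) (nat_lit 304) (nat_lit 511347566434) (nat_lit 85) (nat_lit 5) (nat_lit 88) (nat_lit 5) (nat_lit 89) (nat_lit 5) (nat_lit 484) (nat_lit 468) (nat_lit 248))))) (XT.nd (nat_lit 312) (nat_lit 228) (nat_lit 0) (XT.nd (nat_lit 78) (nat_lit 532) (nat_lit 0) (XT.lf (nat_lit 0) (nat_lit 48009874654) (nat_lit 228) (nat_lit 1433078059580) (nat_lit 304) (nat_lit 95590599145) (nat_lit 82) (nat_lit 5) (nat_lit 85) (nat_lit 5) (nat_lit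 86) (nat_lit 5) (nat_lit 485) (nat_lit 468) (nat_lit 247)) (XT.nd (nat_lit 156) (nat_lit 456) (nat_lit 0) (XT.lf (nat_lit 0) (nat_lit 378713810479) (nat_lit 304) (nat_lit 113038577609) (nat_lit 76) (nat_lit 1160449150554) (nat_lit 81) (nat_lit 5) (nat_lit 85) (nat_lit 5) (nat_lit 82) (nat_lit 5) (nat_lit 486) (nat_lit 468) (nat_lit 246)) (XT.lf (nat_lit 0) (nat_lit 1363189672661) (nat_lit 228) (nat_lit 171028235656) (nat_lit 304) (nat_lit 282625902603) (nat_lit 75) (nat_lit 5) (nat_lit 78) (nat_lit 5) (nat_lit 79) (nat_lit 5) (nat_lit 488) (nat_lit 468) (nat_lit 244)))) (XT.nd (nat_lit 60996) (nat_lit 0) (nat_lit 4104) (XT.nd (nat_lit 60918) (nat_lit 0) (nat_lit 4028) (XT.lf (nat_lit 0) (nat_lit 320977814762) (nat_lit 228) (nat_lit 645902263936) (nat_lit 76) (nat_lit 939242062868) (nat_lit 72) (nat_lit 5) (nat_lit 75) (nat_lit 5) (nat_lit 73) (nat_lit 5) (nat_lit 489) (nat_lit 468) (nat_lit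 243)) (XT.lf (nat_lit 0) (nat_lit 137577780570) (nat_lit 836) (nat_lit 136869553545) (nat_lit 836) (nat_lit 136869553545) (nat_lit 125) (nat_lit 3) (nat_lit 136) (nat_lit 3) (nat_lit 136) (nat_lit 5) (nat_lit 469) (nat_lit 469) (nat_lit 262))) (XT.nd (nat_lit 78) (nat_lit 0) (nat_lit 0) (XT.lf (nat_lit 0) (nat_lit 293570167049) (nat_lit 760) (nat_lit 473341331991) (nat_lit 836) (nat_lit 88257208061) (nat_lit 126) (nat_lit 5) (nat_lit 136) (nat_lit 5) (nat_lit 137) (nat_lit 5) (nat_lit 470) (nat_lit 469) (nat_lit 261)) (XT.lf (nat_lit 76) (nat_lit 206832687794) (nat_lit 0) (nat_lit 123956371882) (nat_lit 836) (nat_lit 558650817843) (nat_lit 127) (nat_lit 5) (nat_lit 126) (nat_lit 5) (nat_lit 137) (nat_lit 5) (nat_lit 471) (nat_lit 469) (nat_lit 260))))))))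
noncomputable def xc125 : XT := (XT.nd (nat_lit 63180) (nat_lit 0) (nat_lit 228) (XT.nd (nat_lit 1014) (nat_lit 760) (nat_lit 0) (XT.nd (nat_lit 468) (nat_lit 2052) (nat_lit 0) (XT.nd (nat_lit 234) (nat_lit 912) (nat_lit 0) (XT.nd (nat_lit 78) (nat_lit 0) (nat_lit 76) (XT.lf (nat_lit 76) (nat_lit 24010226321) (nat_lit 0) (nat_lit 364636651543) (nat_lit 836) (nat_lit 536922793003) (nat_lit 128) (nat_lit 5) (nat_lit 127) (nat_lit 5) (nat_lit 138) (nat_lit 5) (nat_lit 472) (nat_lit 469) (nat_lit 259)) (XT.nd (nat_lit 78) (nat_lit 0) (nat_lit 76) (XT.lf (nat_lit 0) (nat_lit 470455685672) (nat_lit 760) (nat_lit 159894410470) (nat_lit 836) (nat_lit 333273633340) (nat_lit 128) (nat_lit 5) (nat_lit 138) (nat_lit 5) (nat_lit 139) (nat_lit 5) (nat_lit 473) (nat_lit 469) (nat_lit 258)) (XT.lf (nat_lit 0) (nat_lit 576459591812) (nat_lit 760) (nat_lit 349213510743) (nat_lit 836) (nat_lit 78166490549) (nat_lit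 129) (nat_lit 5) (nat_lit 139) (nat_lit 5) (nat_lit 140) (nat_lit 5) (nat_lit 474) (nat_lit 469) (nat_lit 257)))) (XT.nd (nat_lit 78) (nat_lit 1064) (nat_lit 0) (XT.lf (nat_lit 76) (nat_lit 498154046849) (nat_lit 0) (nat_lit 214027104716) (nat_lit 836) (nat_lit 334029707199) (nat_lit 130) (nat_lit 5) (nat_lit 129) (nat_lit 5) (nat_lit 140) (nat_lit 5) (nat_lit 475) (nat_lit 469) (nat_lit 256)) (XT.nd (nat_lit 78) (nat_lit 380) (nat_lit 0) (XT.lf (nat_lit 0) (nat_lit 336113551211) (nat_lit 760) (nat_lit 542735434112) (nat_lit 836) (nat_lit 212118412897) (nat_lit 120) (nat_lit 5) (nat_lit 130) (nat_lit 5) (nat_lit 131) (nat_lit 5) (nat_lit 476) (nat_lit 469) (nat_lit 255)) (XT.lf (nat_lit 0) (nat_lit 169983557160) (nat_lit 380) (nat_lit 908285717790) (nat_lit 456) (nat_lit 60064234426) (nat_lit 115) (nat_lit 5) (nat_lit 120) (nat_lit 5) (nat_lit 121) (nat_lit 5) (nat_lit 477) (nat_lit 469) (nat_lit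 254))))) (XT.nd (nat_lit 234) (nat_lit 1216) (nat_lit 0) (XT.nd (nat_lit 78) (nat_lit 760) (nat_lit 0) (XT.lf (nat_lit 0) (nat_lit 123336817934) (nat_lit 456) (nat_lit 4061133824) (nat_lit 76) (nat_lit 1060883844315) (nat_lit 114) (nat_lit 5) (nat_lit 120) (nat_lit 5) (nat_lit 115) (nat_lit 5) (nat_lit 478) (nat_lit 469) (nat_lit 253)) (XT.nd (nat_lit 78) (nat_lit 380) (nat_lit 0) (XT.lf (nat_lit 0) (nat_lit 347517954279) (nat_lit 456) (nat_lit 182183651859) (nat_lit 76) (nat_lit 711064488690) (nat_lit 109) (nat_lit 5) (nat_lit 115) (nat_lit 5) (nat_lit 110) (nat_lit 5) (nat_lit 479) (nat_lit 469) (nat_lit 252)) (XT.lf (nat_lit 0) (nat_lit 611636009759) (nat_lit 456) (nat_lit 364993530212) (nat_lit 76) (nat_lit 319719476105) (nat_lit 104) (nat_lit 5) (nat_lit 110) (nat_lit 5) (nat_lit 105) (nat_lit 5) (nat_lit 480) (nat_lit 469) (nat_lit 251)))) (XT.nd (nat_lit 156) (nat_lit 608) (nat_lit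 0) (XT.nd (nat_lit 78) (nat_lit 304) (nat_lit 0) (XT.lf (nat_lit 0) (nat_lit 800914060571) (nat_lit 304) (nat_lit 120631237781) (nat_lit 380) (nat_lit 433600183240) (nat_lit 100) (nat_lit 5) (nat_lit 104) (nat_lit 5) (nat_lit 105) (nat_lit 5) (nat_lit 481) (nat_lit 469) (nat_lit 250)) (XT.lf (nat_lit 0) (nat_lit 663377990997) (nat_lit 304) (nat_lit 622239005207) (nat_lit 380) (nat_lit 131560184839) (nat_lit 96) (nat_lit 5) (nat_lit 100) (nat_lit 5) (nat_lit 101) (nat_lit 5) (nat_lit 482) (nat_lit 469) (nat_lit 249))) (XT.nd (nat_lit 78) (nat_lit 304) (nat_lit 0) (XT.lf (nat_lit 0) (nat_lit 213433025399) (nat_lit 304) (nat_lit 961869261480) (nat_lit 76) (nat_lit 307466193229) (nat_lit 92) (nat_lit 5) (nat_lit 96) (nat_lit 5) (nat_lit 93) (nat_lit 5) (nat_lit 483) (nat_lit 469) (nat_lit 248)) (XT.lf (nat_lit 0) (nat_lit 370472617988) (nat_lit 304) (nat_lit 240627615507) (nat_lit 380) (nat_lit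 940914824935) (nat_lit 88) (nat_lit 5) (nat_lit 92) (nat_lit 5) (nat_lit 93) (nat_lit 5) (nat_lit 484) (nat_lit 469) (nat_lit 247)))))) (XT.nd (nat_lit 61620) (nat_lit 0) (nat_lit 2356) (XT.nd (nat_lit 61308) (nat_lit 0) (nat_lit 3572) (XT.nd (nat_lit 78) (nat_lit 532) (nat_lit 0) (XT.lf (nat_lit 0) (nat_lit 212303176772) (nat_lit 228) (nat_lit 860625550099) (nat_lit 304) (nat_lit 552255240716) (nat_lit 85) (nat_lit 5) (nat_lit 88) (nat_lit 5) (nat_lit 89) (nat_lit 5) (nat_lit 485) (nat_lit 469) (nat_lit 246)) (XT.nd (nat_lit 156) (nat_lit 304) (nat_lit 0) (XT.lf (nat_lit 0) (nat_lit 51850830663) (nat_lit 228) (nat_lit 1547724257044) (nat_lit 304) (nat_lit 103237722373) (nat_lit 82) (nat_lit 5) (nat_lit 85) (nat_lit 5) (nat_lit 86) (nat_lit 5) (nat_lit 486) (nat_lit 469) (nat_lit 245)) (XT.lf (nat_lit 0) (nat_lit 992588871445) (nat_lit 304) (nat_lit 302561391993) (nat_lit 76) (nat_lit 575534498224)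 (nat_lit 78) (nat_lit 5) (nat_lit 82) (nat_lit 5) (nat_lit 79) (nat_lit 5) (nat_lit 488) (nat_lit 469) (nat_lit 243)))) (XT.nd (nat_lit 156) (nat_lit 0) (nat_lit 76) (XT.nd (nat_lit 78) (nat_lit 0) (nat_lit 76) (XT.lf (nat_lit 0) (nat_lit 148584148033) (nat_lit 836) (nat_lit 147819041666) (nat_lit 836) (nat_lit 147819041666) (nat_lit 125) (nat_lit 3) (nat_lit 136) (nat_lit 3) (nat_lit 136) (nat_lit 5) (nat_lit 470) (nat_lit 470) (nat_lit 260)) (XT.lf (nat_lit 0) (nat_lit 317056049286) (nat_lit 760) (nat_lit 511208477246) (nat_lit 836) (nat_lit 95317663589) (nat_lit 126) (nat_lit 5) (nat_lit 136) (nat_lit 5) (nat_lit 137) (nat_lit 5) (nat_lit 471) (nat_lit 470) (nat_lit 259))) (XT.nd (nat_lit 78) (nat_lit 0) (nat_lit 76) (XT.lf (nat_lit 76) (nat_lit 223379457112) (nat_lit 0) (nat_lit 133872978703) (nat_lit 836) (nat_lit 603342619240) (nat_lit 127) (nat_lit 5) (nat_lit 126) (nat_lit 5) (nat_lit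 137) (nat_lit 5) (nat_lit 472) (nat_lit 470) (nat_lit 258)) (XT.lf (nat_lit 76) (nat_lit 25931205581) (nat_lit 0) (nat_lit 393807656372) (nat_lit 836) (nat_lit 579876370803) (nat_lit 128) (nat_lit 5) (nat_lit 127) (nat_lit 5) (nat_lit 138) (nat_lit 5) (nat_lit 473) (nat_lit 470) (nat_lit 257))))) (XT.nd (nat_lit 234) (nat_lit 1444) (nat_lit 0) (XT.nd (nat_lit 78) (nat_lit 0) (nat_lit 76) (XT.lf (nat_lit 0) (nat_lit 508092356010) (nat_lit 760) (nat_lit 172685802130) (nat_lit 836) (nat_lit 359935458843) (nat_lit 128) (nat_lit 5) (nat_lit 138) (nat_lit 5) (nat_lit 139) (nat_lit 5) (nat_lit 474) (nat_lit 470) (nat_lit 256)) (XT.nd (nat_lit 78) (nat_lit 0) (nat_lit 0) (XT.lf (nat_lit 0) (nat_lit 622576560342) (nat_lit 760) (nat_lit 377150426511) (nat_lit 836) (nat_lit 84419763563) (nat_lit 129) (nat_lit 5) (nat_lit 139) (nat_lit 5) (nat_lit 140) (nat_lit 5) (nat_lit 475) (nat_lit 470) (nat_lit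 255)) (XT.lf (nat_lit 76) (nat_lit 538006528514) (nat_lit 0) (nat_lit 231149303924) (nat_lit 836) (nat_lit 360751885519) (nat_lit 130) (nat_lit 5) (nat_lit 129) (nat_lit 5) (nat_lit 140) (nat_lit 5) (nat_lit 476) (nat_lit 470) (nat_lit 254)))) (XT.nd (nat_lit 156) (nat_lit 456) (nat_lit 0) (XT.nd (nat_lit 78) (nat_lit 380) (nat_lit 0) (XT.lf (nat_lit 0) (nat_lit 363002795917) (nat_lit 760) (nat_lit 586154285060) (nat_lit 836) (nat_lit 229087700193) (nat_lit 120) (nat_lit 5) (nat_lit 130) (nat_lit 5) (nat_lit 131) (nat_lit 5) (nat_lit 477) (nat_lit 470) (nat_lit 253)) (XT.lf (nat_lit 0) (nat_lit 183582404125) (nat_lit 380) (nat_lit 980948578852) (nat_lit 456) (nat_lit 64869198788) (nat_lit 115) (nat_lit 5) (nat_lit 120) (nat_lit 5) (nat_lit 121) (nat_lit 5) (nat_lit 478) (nat_lit 470) (nat_lit 252))) (XT.nd (nat_lit 78) (nat_lit 380) (nat_lit 0) (XT.lf (nat_lit 0) (nat_lit 133203919675) (nat_lit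 456) (nat_lit 4385868945) (nat_lit 76) (nat_lit 1145754543269) (nat_lit 114) (nat_lit 5) (nat_lit 120) (nat_lit 5) (nat_lit 115) (nat_lit 5) (nat_lit 479) (nat_lit 470) (nat_lit 251)) (XT.lf (nat_lit 0) (nat_lit 375319537701) (nat_lit 456) (nat_lit 196758187810) (nat_lit 76) (nat_lit 767949649500) (nat_lit 109) (nat_lit 5) (nat_lit 115) (nat_lit 5) (nat_lit 110) (nat_lit 5) (nat_lit 480) (nat_lit 470) (nat_lit 250))))))) (XT.nd (nat_lit 62166) (nat_lit 0) (nat_lit 76) (XT.nd (nat_lit 546) (nat_lit 304) (nat_lit 0) (XT.nd (nat_lit 234) (nat_lit 836) (nat_lit 0) (XT.nd (nat_lit 78) (nat_lit 608) (nat_lit 0) (XT.lf (nat_lit 0) (nat_lit 660567029227) (nat_lit 456) (nat_lit 394192856417) (nat_lit 76) (nat_lit 345297044737) (nat_lit 104) (nat_lit 5) (nat_lit 110) (nat_lit 5) (nat_lit 105) (nat_lit 5) (nat_lit 481) (nat_lit 470) (nat_lit 249)) (XT.nd (nat_lit 78) (nat_lit 304) (nat_lit 0) (XT.lf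 (nat_lit 0) (nat_lit 864987334840) (nat_lit 304) (nat_lit 130281718128) (nat_lit 380) (nat_lit 468288060571) (nat_lit 100) (nat_lit 5) (nat_lit 104) (nat_lit 5) (nat_lit 105) (nat_lit 5) (nat_lit 482) (nat_lit 470) (nat_lit 248)) (XT.lf (nat_lit 0) (nat_lit 716448379222) (nat_lit 304) (nat_lit 672018100337) (nat_lit 380) (nat_lit 142084869746) (nat_lit 96) (nat_lit 5) (nat_lit 100) (nat_lit 5) (nat_lit 101) (nat_lit 5) (nat_lit 483) (nat_lit 470) (nat_lit 247)))) (XT.nd (nat_lit 78) (nat_lit 532) (nat_lit 0) (XT.lf (nat_lit 0) (nat_lit 230507786562) (nat_lit 304) (nat_lit 1038818650378) (nat_lit 76) (nat_lit 332063515584) (nat_lit 92) (nat_lit 5) (nat_lit 96) (nat_lit 5) (nat_lit 93) (nat_lit 5) (nat_lit 484) (nat_lit 470) (nat_lit 246)) (XT.nd (nat_lit 78) (nat_lit 228) (nat_lit 0) (XT.lf (nat_lit 0) (nat_lit 400110572840) (nat_lit 304) (nat_lit 259877791912) (nat_lit 380) (nat_lit 1016187892691)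 (nat_lit 88) (nat_lit 5) (nat_lit 92) (nat_lit 5) (nat_lit 93) (nat_lit 5) (nat_lit 485) (nat_lit 470) (nat_lit 245)) (XT.lf (nat_lit 0) (nat_lit 229287574933) (nat_lit 228) (nat_lit 929475557050) (nat_lit 304) (nat_lit 596435547634) (nat_lit 85) (nat_lit 5) (nat_lit 88) (nat_lit 5) (nat_lit 89) (nat_lit 5) (nat_lit 486) (nat_lit 470) (nat_lit 244))))) (XT.nd (nat_lit 61308) (nat_lit 0) (nat_lit 3420) (XT.nd (nat_lit 61152) (nat_lit 0) (nat_lit 3344) (XT.lf (nat_lit 0) (nat_lit 441732005082) (nat_lit 304) (nat_lit 131847891866) (nat_lit 76) (nat_lit 1353547966843) (nat_lit 81) (nat_lit 5) (nat_lit 85) (nat_lit 5) (nat_lit 82) (nat_lit 5) (nat_lit 488) (nat_lit 470) (nat_lit 242)) (XT.nd (nat_lit 78) (nat_lit 0) (nat_lit 76) (XT.lf (nat_lit 0) (nat_lit 160471004205) (nat_lit 836) (nat_lit 159644499702) (nat_lit 836) (nat_lit 159644499702) (nat_lit 125) (nat_lit 3) (nat_lit 136) (nat_lit 3)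 (nat_lit 136) (nat_lit 5) (nat_lit 471) (nat_lit 471) (nat_lit 258)) (XT.lf (nat_lit 0) (nat_lit 342420763745) (nat_lit 760) (nat_lit 552105017133) (nat_lit 836) (nat_lit 102942972838) (nat_lit 126) (nat_lit 5) (nat_lit 136) (nat_lit 5) (nat_lit 137) (nat_lit 5) (nat_lit 472) (nat_lit 471) (nat_lit 257)))) (XT.nd (nat_lit 156) (nat_lit 0) (nat_lit 152) (XT.nd (nat_lit 78) (nat_lit 0) (nat_lit 76) (XT.lf (nat_lit 76) (nat_lit 241249945964) (nat_lit 0) (nat_lit 144582900222) (nat_lit 836) (nat_lit 651609802415) (nat_lit 127) (nat_lit 5) (nat_lit 126) (nat_lit 5) (nat_lit 137) (nat_lit 5) (nat_lit 473) (nat_lit 471) (nat_lit 256)) (XT.lf (nat_lit 76) (nat_lit 28005840190) (nat_lit 0) (nat_lit 425312331215) (nat_lit 836) (nat_lit 626266269869) (nat_lit 128) (nat_lit 5) (nat_lit 127) (nat_lit 5) (nat_lit 138) (nat_lit 5) (nat_lit 474) (nat_lit 471) (nat_lit 255))) (XT.nd (nat_lit 78) (nat_lit 0)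 (nat_lit 76) (XT.lf (nat_lit 0) (nat_lit 548739929235) (nat_lit 760) (nat_lit 186500528118) (nat_lit 836) (nat_lit 388730239682) (nat_lit 128) (nat_lit 5) (nat_lit 138) (nat_lit 5) (nat_lit 139) (nat_lit 5) (nat_lit 475) (nat_lit 471) (nat_lit 254)) (XT.lf (nat_lit 0) (nat_lit 672382857652) (nat_lit 760) (nat_lit 407322319093) (nat_lit 836) (nat_lit 91173305015) (nat_lit 129) (nat_lit 5) (nat_lit 139) (nat_lit 5) (nat_lit 140) (nat_lit 5) (nat_lit 476) (nat_lit 471) (nat_lit 253)))))) (XT.nd (nat_lit 546) (nat_lit 1368) (nat_lit 0) (XT.nd (nat_lit 234) (nat_lit 1140) (nat_lit 0) (XT.nd (nat_lit 78) (nat_lit 1064) (nat_lit 0) (XT.lf (nat_lit 76) (nat_lit 581047186183) (nat_lit 0) (nat_lit 249641274670) (nat_lit 836) (nat_lit 389611866388) (nat_lit 130) (nat_lit 5) (nat_lit 129) (nat_lit 5) (nat_lit 140) (nat_lit 5) (nat_lit 477) (nat_lit 471) (nat_lit 252)) (XT.nd (nat_lit 78) (nat_lit 380)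 (nat_lit 0) (XT.lf (nat_lit 0) (nat_lit 392043157287) (nat_lit 760) (nat_lit 633046641769) (nat_lit 836) (nat_lit 247414556971) (nat_lit 120) (nat_lit 5) (nat_lit 130) (nat_lit 5) (nat_lit 131) (nat_lit 5) (nat_lit 478) (nat_lit 471) (nat_lit 251)) (XT.lf (nat_lit 0) (nat_lit 198269135680) (nat_lit 380) (nat_lit 1059424468280) (nat_lit 456) (nat_lit 70058585177) (nat_lit 115) (nat_lit 5) (nat_lit 120) (nat_lit 5) (nat_lit 121) (nat_lit 5) (nat_lit 479) (nat_lit 471) (nat_lit 250)))) (XT.nd (nat_lit 156) (nat_lit 684) (nat_lit 0) (XT.nd (nat_lit 78) (nat_lit 380) (nat_lit 0) (XT.lf (nat_lit 0) (nat_lit 143860367257) (nat_lit 456) (nat_lit 4736605072) (nat_lit 76) (nat_lit 1237414899365) (nat_lit 114) (nat_lit 5) (nat_lit 120) (nat_lit 5) (nat_lit 115) (nat_lit 5) (nat_lit 480) (nat_lit 471) (nat_lit 249)) (XT.lf (nat_lit 0) (nat_lit 405345226814) (nat_lit 456) (nat_lit 212498708920) (nat_lit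 76) (nat_lit 829385622930) (nat_lit 109) (nat_lit 5) (nat_lit 115) (nat_lit 5) (nat_lit 110) (nat_lit 5) (nat_lit 481) (nat_lit 471) (nat_lit 248))) (XT.nd (nat_lit 78) (nat_lit 304) (nat_lit 0) (XT.lf (nat_lit 0) (nat_lit 713412510468) (nat_lit 456) (nat_lit 425728151004) (nat_lit 76) (nat_lit 372920817356) (nat_lit 104) (nat_lit 5) (nat_lit 110) (nat_lit 5) (nat_lit 105) (nat_lit 5) (nat_lit 482) (nat_lit 471) (nat_lit 247)) (XT.lf (nat_lit 0) (nat_lit 934186449734) (nat_lit 304) (nat_lit 140704239567) (nat_lit 380) (nat_lit 505750987681) (nat_lit 100) (nat_lit 5) (nat_lit 104) (nat_lit 5) (nat_lit 105) (nat_lit 5) (nat_lit 483) (nat_lit 471) (nat_lit 246))))) (XT.nd (nat_lit 234) (nat_lit 456) (nat_lit 0) (XT.nd (nat_lit 78) (nat_lit 608) (nat_lit 0) (XT.lf (nat_lit 0) (nat_lit 773764377255) (nat_lit 304) (nat_lit 725779526685) (nat_lit 380) (nat_lit 153451547974) (nat_lit 96) (nat_lit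 5) (nat_lit 100) (nat_lit 5) (nat_lit 101) (nat_lit 5) (nat_lit 484) (nat_lit 471) (nat_lit 245)) (XT.nd (nat_lit 78) (nat_lit 304) (nat_lit 0) (XT.lf (nat_lit 0) (nat_lit 248948511623) (nat_lit 304) (nat_lit 1121924012076) (nat_lit 76) (nat_lit 358628619891) (nat_lit 92) (nat_lit 5) (nat_lit 96) (nat_lit 5) (nat_lit 93) (nat_lit 5) (nat_lit 485) (nat_lit 471) (nat_lit 244)) (XT.lf (nat_lit 0) (nat_lit 432119543336) (nat_lit 304) (nat_lit 280667987113) (nat_lit 380) (nat_lit 1097482822736) (nat_lit 88) (nat_lit 5) (nat_lit 92) (nat_lit 5) (nat_lit 93) (nat_lit 5) (nat_lit 486) (nat_lit 471) (nat_lit 243)))) (XT.nd (nat_lit 61308) (nat_lit 0) (nat_lit 3268) (XT.nd (nat_lit 78) (nat_lit 228) (nat_lit 0) (XT.lf (nat_lit 0) (nat_lit 247630704400) (nat_lit 228) (nat_lit 1003833569844) (nat_lit 304) (nat_lit 644150295132) (nat_lit 85) (nat_lit 5) (nat_lit 88) (nat_lit 5) (nat_lit 89) (nat_lit 5)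 (nat_lit 487) (nat_lit 471) (nat_lit 242)) (XT.lf (nat_lit 0) (nat_lit 60479084667) (nat_lit 228) (nat_lit 1805265494850) (nat_lit 304) (nat_lit 120416272248) (nat_lit 82) (nat_lit 5) (nat_lit 85) (nat_lit 5) (nat_lit 86) (nat_lit 5) (nat_lit 488) (nat_lit 471) (nat_lit 241))) (XT.nd (nat_lit 78) (nat_lit 0) (nat_lit 76) (XT.lf (nat_lit 0) (nat_lit 173308791134) (nat_lit 836) (nat_lit 172416003696) (nat_lit 836) (nat_lit 172416003696) (nat_lit 125) (nat_lit 3) (nat_lit 136) (nat_lit 3) (nat_lit 136) (nat_lit 5) (nat_lit 472) (nat_lit 472) (nat_lit 256)) (XT.lf (nat_lit 0) (nat_lit 369814622474) (nat_lit 760) (nat_lit 596273299940) (nat_lit 836) (nat_lit 111178321641) (nat_lit 126) (nat_lit 5) (nat_lit 136) (nat_lit 5) (nat_lit 137) (nat_lit 5) (nat_lit 473) (nat_lit 472) (nat_lit 255))))))))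
noncomputable def xc126 : XT := (XT.nd (nat_lit 63336) (nat_lit 0) (nat_lit 532) (XT.nd (nat_lit 1092) (nat_lit 228) (nat_lit 0) (XT.nd (nat_lit 468) (nat_lit 2432) (nat_lit 0) (XT.nd (nat_lit 234) (nat_lit 456) (nat_lit 0) (XT.nd (nat_lit 78) (nat_lit 0) (nat_lit 76) (XT.lf (nat_lit 76) (nat_lit 260550055052) (nat_lit 0) (nat_lit 156149603590) (nat_lit 836) (nat_lit 703738392538) (nat_lit 127) (nat_lit 5) (nat_lit 126) (nat_lit 5) (nat_lit 137) (nat_lit 5) (nat_lit 474) (nat_lit 472) (nat_lit 254)) (XT.nd (nat_lit 78) (nat_lit 0) (nat_lit 76) (XT.lf (nat_lit 76) (nat_lit 30246425858) (nat_lit 0) (nat_lit 459337371152) (nat_lit 836) (nat_lit 676367390905) (nat_lit 128) (nat_lit 5) (nat_lit 127) (nat_lit 5) (nat_lit 138) (nat_lit 5) (nat_lit 475) (nat_lit 472) (nat_lit 253)) (XT.lf (nat_lit 0) (nat_lit 592639281961) (nat_lit 760) (nat_lit 201420451897) (nat_lit 836) (nat_lit 419828610958) (nat_lit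 128) (nat_lit 5) (nat_lit 138) (nat_lit 5) (nat_lit 139) (nat_lit 5) (nat_lit 476) (nat_lit 472) (nat_lit 252)))) (XT.nd (nat_lit 78) (nat_lit 684) (nat_lit 0) (XT.lf (nat_lit 0) (nat_lit 726173634141) (nat_lit 760) (nat_lit 439907983274) (nat_lit 836) (nat_lit 98467135436) (nat_lit 129) (nat_lit 5) (nat_lit 139) (nat_lit 5) (nat_lit 140) (nat_lit 5) (nat_lit 477) (nat_lit 472) (nat_lit 251)) (XT.nd (nat_lit 78) (nat_lit 684) (nat_lit 0) (XT.lf (nat_lit 76) (nat_lit 627531077151) (nat_lit 0) (nat_lit 269612599305) (nat_lit 836) (nat_lit 420780669976) (nat_lit 130) (nat_lit 5) (nat_lit 129) (nat_lit 5) (nat_lit 140) (nat_lit 5) (nat_lit 478) (nat_lit 472) (nat_lit 250)) (XT.lf (nat_lit 0) (nat_lit 423406727923) (nat_lit 760) (nat_lit 683690385032) (nat_lit 836) (nat_lit 267207585008) (nat_lit 120) (nat_lit 5) (nat_lit 130) (nat_lit 5) (nat_lit 131) (nat_lit 5) (nat_lit 479) (nat_lit 472) (nat_lit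 249))))) (XT.nd (nat_lit 234) (nat_lit 1596) (nat_lit 0) (XT.nd (nat_lit 78) (nat_lit 456) (nat_lit 0) (XT.lf (nat_lit 0) (nat_lit 214130785897) (nat_lit 380) (nat_lit 1144178428417) (nat_lit 456) (nat_lit 75663143807) (nat_lit 115) (nat_lit 5) (nat_lit 120) (nat_lit 5) (nat_lit 121) (nat_lit 5) (nat_lit 480) (nat_lit 472) (nat_lit 248)) (XT.nd (nat_lit 78) (nat_lit 380) (nat_lit 0) (XT.lf (nat_lit 0) (nat_lit 155369311528) (nat_lit 456) (nat_lit 5115419118) (nat_lit 76) (nat_lit 1336408085000) (nat_lit 114) (nat_lit 5) (nat_lit 120) (nat_lit 5) (nat_lit 115) (nat_lit 5) (nat_lit 481) (nat_lit 472) (nat_lit 247)) (XT.lf (nat_lit 0) (nat_lit 437772953067) (nat_lit 456) (nat_lit 229498490823) (nat_lit 76) (nat_lit 895736474025) (nat_lit 109) (nat_lit 5) (nat_lit 115) (nat_lit 5) (nat_lit 110) (nat_lit 5) (nat_lit 482) (nat_lit 472) (nat_lit 246)))) (XT.nd (nat_lit 156) (nat_lit 912) (nat_lit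 0) (XT.nd (nat_lit 78) (nat_lit 304) (nat_lit 0) (XT.lf (nat_lit 0) (nat_lit 770485613245) (nat_lit 456) (nat_lit 459786288264) (nat_lit 76) (nat_lit 402754490494) (nat_lit 104) (nat_lit 5) (nat_lit 110) (nat_lit 5) (nat_lit 105) (nat_lit 5) (nat_lit 483) (nat_lit 472) (nat_lit 245)) (XT.lf (nat_lit 0) (nat_lit 1008921475543) (nat_lit 304) (nat_lit 151960565005) (nat_lit 380) (nat_lit 546210965756) (nat_lit 100) (nat_lit 5) (nat_lit 104) (nat_lit 5) (nat_lit 105) (nat_lit 5) (nat_lit 484) (nat_lit 472) (nat_lit 244))) (XT.nd (nat_lit 156) (nat_lit 608) (nat_lit 0) (XT.lf (nat_lit 0) (nat_lit 835665636914) (nat_lit 304) (nat_lit 783841870233) (nat_lit 380) (nat_lit 165727576346) (nat_lit 96) (nat_lit 5) (nat_lit 100) (nat_lit 5) (nat_lit 101) (nat_lit 5) (nat_lit 485) (nat_lit 472) (nat_lit 243)) (XT.lf (nat_lit 0) (nat_lit 466689213686) (nat_lit 304) (nat_lit 303121401947) (nat_lit 380) (nat_lit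 1185281361647) (nat_lit 88) (nat_lit 5) (nat_lit 92) (nat_lit 5) (nat_lit 93) (nat_lit 5) (nat_lit 487) (nat_lit 472) (nat_lit 241)))))) (XT.nd (nat_lit 61698) (nat_lit 0) (nat_lit 1444) (XT.nd (nat_lit 61464) (nat_lit 0) (nat_lit 3116) (XT.nd (nat_lit 61308) (nat_lit 0) (nat_lit 3040) (XT.lf (nat_lit 0) (nat_lit 267441266609) (nat_lit 228) (nat_lit 1084140228193) (nat_lit 304) (nat_lit 695682236170) (nat_lit 85) (nat_lit 5) (nat_lit 88) (nat_lit 5) (nat_lit 89) (nat_lit 5) (nat_lit 488) (nat_lit 472) (nat_lit 240)) (XT.nd (nat_lit 78) (nat_lit 0) (nat_lit 76) (XT.lf (nat_lit 0) (nat_lit 187173585811) (nat_lit 836) (nat_lit 186209235997) (nat_lit 836) (nat_lit 186209235997) (nat_lit 125) (nat_lit 3) (nat_lit 136) (nat_lit 3) (nat_lit 136) (nat_lit 5) (nat_lit 473) (nat_lit 473) (nat_lit 254)) (XT.lf (nat_lit 0) (nat_lit 399399961707) (nat_lit 760) (nat_lit 643975062286) (nat_lit 836) (nat_lit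 120072511048) (nat_lit 126) (nat_lit 5) (nat_lit 136) (nat_lit 5) (nat_lit 137) (nat_lit 5) (nat_lit 474) (nat_lit 473) (nat_lit 253)))) (XT.nd (nat_lit 78) (nat_lit 0) (nat_lit 76) (XT.lf (nat_lit 76) (nat_lit 281394156688) (nat_lit 0) (nat_lit 168641633049) (nat_lit 836) (nat_lit 760037297558) (nat_lit 127) (nat_lit 5) (nat_lit 126) (nat_lit 5) (nat_lit 137) (nat_lit 5) (nat_lit 475) (nat_lit 473) (nat_lit 252)) (XT.nd (nat_lit 78) (nat_lit 0) (nat_lit 76) (XT.lf (nat_lit 76) (nat_lit 32666241481) (nat_lit 0) (nat_lit 496084406661) (nat_lit 836) (nat_lit 730476627382) (nat_lit 128) (nat_lit 5) (nat_lit 127) (nat_lit 5) (nat_lit 138) (nat_lit 5) (nat_lit 476) (nat_lit 473) (nat_lit 251)) (XT.lf (nat_lit 0) (nat_lit 640050560310) (nat_lit 760) (nat_lit 217533986480) (nat_lit 836) (nat_lit 453414858770) (nat_lit 128) (nat_lit 5) (nat_lit 138) (nat_lit 5) (nat_lit 139) (nat_lit 5) (nat_lit 477)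 (nat_lit 473) (nat_lit 250))))) (XT.nd (nat_lit 234) (nat_lit 1216) (nat_lit 0) (XT.nd (nat_lit 78) (nat_lit 684) (nat_lit 0) (XT.lf (nat_lit 0) (nat_lit 784267651653) (nat_lit 760) (nat_lit 475100517900) (nat_lit 836) (nat_lit 106344477139) (nat_lit 129) (nat_lit 5) (nat_lit 139) (nat_lit 5) (nat_lit 140) (nat_lit 5) (nat_lit 478) (nat_lit 473) (nat_lit 249)) (XT.nd (nat_lit 78) (nat_lit 684) (nat_lit 0) (XT.lf (nat_lit 76) (nat_lit 677733662837) (nat_lit 0) (nat_lit 291181626678) (nat_lit 836) (nat_lit 454442998639) (nat_lit 130) (nat_lit 5) (nat_lit 129) (nat_lit 5) (nat_lit 140) (nat_lit 5) (nat_lit 479) (nat_lit 473) (nat_lit 248)) (XT.lf (nat_lit 0) (nat_lit 457279367368) (nat_lit 760) (nat_lit 738385626055) (nat_lit 836) (nat_lit 288584074764) (nat_lit 120) (nat_lit 5) (nat_lit 130) (nat_lit 5) (nat_lit 131) (nat_lit 5) (nat_lit 480) (nat_lit 473) (nat_lit 247)))) (XT.nd (nat_lit 156)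 (nat_lit 760) (nat_lit 0) (XT.nd (nat_lit 78) (nat_lit 76) (nat_lit 0) (XT.lf (nat_lit 0) (nat_lit 231261351103) (nat_lit 380) (nat_lit 1235712704983) (nat_lit 456) (nat_lit 81716085415) (nat_lit 115) (nat_lit 5) (nat_lit 120) (nat_lit 5) (nat_lit 121) (nat_lit 5) (nat_lit 481) (nat_lit 473) (nat_lit 246)) (XT.lf (nat_lit 0) (nat_lit 167798954950) (nat_lit 456) (nat_lit 5524554602) (nat_lit 76) (nat_lit 1443320726386) (nat_lit 114) (nat_lit 5) (nat_lit 120) (nat_lit 5) (nat_lit 115) (nat_lit 5) (nat_lit 482) (nat_lit 473) (nat_lit 245))) (XT.nd (nat_lit 78) (nat_lit 380) (nat_lit 0) (XT.lf (nat_lit 0) (nat_lit 472794881998) (nat_lit 456) (nat_lit 247858271658) (nat_lit 76) (nat_lit 967395393027) (nat_lit 109) (nat_lit 5) (nat_lit 115) (nat_lit 5) (nat_lit 110) (nat_lit 5) (nat_lit 483) (nat_lit 473) (nat_lit 244)) (XT.lf (nat_lit 0) (nat_lit 832124549701) (nat_lit 456) (nat_lit 496569092885)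 (nat_lit 76) (nat_lit 434974856378) (nat_lit 104) (nat_lit 5) (nat_lit 110) (nat_lit 5) (nat_lit 105) (nat_lit 5) (nat_lit 484) (nat_lit 473) (nat_lit 243))))))) (XT.nd (nat_lit 62478) (nat_lit 0) (nat_lit 304) (XT.nd (nat_lit 61932) (nat_lit 0) (nat_lit 1292) (XT.nd (nat_lit 61698) (nat_lit 0) (nat_lit 2584) (XT.nd (nat_lit 156) (nat_lit 608) (nat_lit 0) (XT.lf (nat_lit 0) (nat_lit 1089635287748) (nat_lit 304) (nat_lit 164117398436) (nat_lit 380) (nat_lit 589907756477) (nat_lit 100) (nat_lit 5) (nat_lit 104) (nat_lit 5) (nat_lit 105) (nat_lit 5) (nat_lit 485) (nat_lit 473) (nat_lit 242)) (XT.nd (nat_lit 61464) (nat_lit 0) (nat_lit 2508) (XT.lf (nat_lit 0) (nat_lit 290373713601) (nat_lit 304) (nat_lit 1308611951210) (nat_lit 76) (nat_lit 418304460543) (nat_lit 92) (nat_lit 5) (nat_lit 96) (nat_lit 5) (nat_lit 93) (nat_lit 5) (nat_lit 487) (nat_lit 473) (nat_lit 240)) (XT.lf (nat_lit 0) (nat_lit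 202147551024) (nat_lit 836) (nat_lit 201105933728) (nat_lit 836) (nat_lit 201105933728) (nat_lit 125) (nat_lit 3) (nat_lit 136) (nat_lit 3) (nat_lit 136) (nat_lit 5) (nat_lit 474) (nat_lit 474) (nat_lit 252)))) (XT.nd (nat_lit 78) (nat_lit 0) (nat_lit 0) (XT.lf (nat_lit 0) (nat_lit 431352103908) (nat_lit 760) (nat_lit 695492980121) (nat_lit 836) (nat_lit 129678246497) (nat_lit 126) (nat_lit 5) (nat_lit 136) (nat_lit 5) (nat_lit 137) (nat_lit 5) (nat_lit 475) (nat_lit 474) (nat_lit 251)) (XT.nd (nat_lit 78) (nat_lit 0) (nat_lit 76) (XT.lf (nat_lit 76) (nat_lit 303905772584) (nat_lit 0) (nat_lit 182133016137) (nat_lit 836) (nat_lit 820840138715) (nat_lit 127) (nat_lit 5) (nat_lit 126) (nat_lit 5) (nat_lit 137) (nat_lit 5) (nat_lit 476) (nat_lit 474) (nat_lit 250)) (XT.lf (nat_lit 76) (nat_lit 35279627865) (nat_lit 0) (nat_lit 535771198475) (nat_lit 836) (nat_lit 788914624861) (nat_lit 128) (nat_lit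 5) (nat_lit 127) (nat_lit 5) (nat_lit 138) (nat_lit 5) (nat_lit 477) (nat_lit 474) (nat_lit 249))))) (XT.nd (nat_lit 234) (nat_lit 1444) (nat_lit 0) (XT.nd (nat_lit 78) (nat_lit 0) (nat_lit 76) (XT.lf (nat_lit 0) (nat_lit 691254721555) (nat_lit 760) (nat_lit 234936618320) (nat_lit 836) (nat_lit 489688012265) (nat_lit 128) (nat_lit 5) (nat_lit 138) (nat_lit 5) (nat_lit 139) (nat_lit 5) (nat_lit 478) (nat_lit 474) (nat_lit 248)) (XT.nd (nat_lit 78) (nat_lit 0) (nat_lit 0) (XT.lf (nat_lit 0) (nat_lit 847009172478) (nat_lit 760) (nat_lit 513108470138) (nat_lit 836) (nat_lit 114852010334) (nat_lit 129) (nat_lit 5) (nat_lit 139) (nat_lit 5) (nat_lit 140) (nat_lit 5) (nat_lit 479) (nat_lit 474) (nat_lit 247)) (XT.lf (nat_lit 76) (nat_lit 731952441182) (nat_lit 0) (nat_lit 314476173470) (nat_lit 836) (nat_lit 490798331419) (nat_lit 130) (nat_lit 5) (nat_lit 129) (nat_lit 5) (nat_lit 140) (nat_lit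 5) (nat_lit 480) (nat_lit 474) (nat_lit 246)))) (XT.nd (nat_lit 156) (nat_lit 456) (nat_lit 0) (XT.nd (nat_lit 78) (nat_lit 380) (nat_lit 0) (XT.lf (nat_lit 0) (nat_lit 493861803530) (nat_lit 760) (nat_lit 797456484901) (nat_lit 836) (nat_lit 311670700398) (nat_lit 120) (nat_lit 5) (nat_lit 130) (nat_lit 5) (nat_lit 131) (nat_lit 5) (nat_lit 481) (nat_lit 474) (nat_lit 245)) (XT.lf (nat_lit 0) (nat_lit 249762346927) (nat_lit 380) (nat_lit 1334569723347) (nat_lit 456) (nat_lit 88253278029) (nat_lit 115) (nat_lit 5) (nat_lit 120) (nat_lit 5) (nat_lit 121) (nat_lit 5) (nat_lit 482) (nat_lit 474) (nat_lit 244))) (XT.nd (nat_lit 78) (nat_lit 380) (nat_lit 0) (XT.lf (nat_lit 0) (nat_lit 181222955794) (nat_lit 456) (nat_lit 5966434913) (nat_lit 76) (nat_lit 1558786379856) (nat_lit 114) (nat_lit 5) (nat_lit 120) (nat_lit 5) (nat_lit 115) (nat_lit 5) (nat_lit 483) (nat_lit 474) (nat_lit 243)) (XT.lf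 (nat_lit 0) (nat_lit 510618552020) (nat_lit 456) (nat_lit 267686849001) (nat_lit 76) (nat_lit 1044787025396) (nat_lit 109) (nat_lit 5) (nat_lit 115) (nat_lit 5) (nat_lit 110) (nat_lit 5) (nat_lit 484) (nat_lit 474) (nat_lit 242)))))) (XT.nd (nat_lit 62010) (nat_lit 0) (nat_lit 608) (XT.nd (nat_lit 61698) (nat_lit 0) (nat_lit 2204) (XT.nd (nat_lit 78) (nat_lit 608) (nat_lit 0) (XT.lf (nat_lit 0) (nat_lit 898694588606) (nat_lit 456) (nat_lit 536294535920) (nat_lit 76) (nat_lit 469772850585) (nat_lit 104) (nat_lit 5) (nat_lit 110) (nat_lit 5) (nat_lit 105) (nat_lit 5) (nat_lit 485) (nat_lit 474) (nat_lit 241)) (XT.nd (nat_lit 78) (nat_lit 304) (nat_lit 0) (XT.lf (nat_lit 0) (nat_lit 1176806191496) (nat_lit 304) (nat_lit 177246780222) (nat_lit 380) (nat_lit 637100302801) (nat_lit 100) (nat_lit 5) (nat_lit 104) (nat_lit 5) (nat_lit 105) (nat_lit 5) (nat_lit 486) (nat_lit 474) (nat_lit 240)) (XT.lf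 (nat_lit 0) (nat_lit 974720580736) (nat_lit 304) (nat_lit 914273126569) (nat_lit 380) (nat_lit 193304486486) (nat_lit 96) (nat_lit 5) (nat_lit 100) (nat_lit 5) (nat_lit 101) (nat_lit 5) (nat_lit 487) (nat_lit 474) (nat_lit 239)))) (XT.nd (nat_lit 156) (nat_lit 0) (nat_lit 76) (XT.nd (nat_lit 78) (nat_lit 0) (nat_lit 76) (XT.lf (nat_lit 0) (nat_lit 218319422278) (nat_lit 836) (nat_lit 217194373148) (nat_lit 836) (nat_lit 217194373148) (nat_lit 125) (nat_lit 3) (nat_lit 136) (nat_lit 3) (nat_lit 136) (nat_lit 5) (nat_lit 475) (nat_lit 475) (nat_lit 250)) (XT.lf (nat_lit 0) (nat_lit 465860396761) (nat_lit 760) (nat_lit 751132343815) (nat_lit 836) (nat_lit 140052450116) (nat_lit 126) (nat_lit 5) (nat_lit 136) (nat_lit 5) (nat_lit 137) (nat_lit 5) (nat_lit 476) (nat_lit 475) (nat_lit 249))) (XT.nd (nat_lit 78) (nat_lit 0) (nat_lit 76) (XT.lf (nat_lit 76) (nat_lit 328218305859) (nat_lit 0) (nat_lit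 196703702391) (nat_lit 836) (nat_lit 886507227515) (nat_lit 127) (nat_lit 5) (nat_lit 126) (nat_lit 5) (nat_lit 137) (nat_lit 5) (nat_lit 477) (nat_lit 475) (nat_lit 248)) (XT.lf (nat_lit 76) (nat_lit 38102072740) (nat_lit 0) (nat_lit 578632928029) (nat_lit 836) (nat_lit 852027681070) (nat_lit 128) (nat_lit 5) (nat_lit 127) (nat_lit 5) (nat_lit 138) (nat_lit 5) (nat_lit 478) (nat_lit 475) (nat_lit 247))))) (XT.nd (nat_lit 234) (nat_lit 1824) (nat_lit 0) (XT.nd (nat_lit 78) (nat_lit 0) (nat_lit 76) (XT.lf (nat_lit 0) (nat_lit 746555199090) (nat_lit 760) (nat_lit 253731473130) (nat_lit 836) (nat_lit 528863023062) (nat_lit 128) (nat_lit 5) (nat_lit 138) (nat_lit 5) (nat_lit 139) (nat_lit 5) (nat_lit 479) (nat_lit 475) (nat_lit 246)) (XT.nd (nat_lit 78) (nat_lit 0) (nat_lit 0) (XT.lf (nat_lit 0) (nat_lit 914769999464) (nat_lit 760) (nat_lit 554157071280) (nat_lit 836) (nat_lit 124040149748) (nat_lit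 129) (nat_lit 5) (nat_lit 139) (nat_lit 5) (nat_lit 140) (nat_lit 5) (nat_lit 480) (nat_lit 475) (nat_lit 245)) (XT.lf (nat_lit 76) (nat_lit 790508709622) (nat_lit 0) (nat_lit 339634281628) (nat_lit 836) (nat_lit 530062106101) (nat_lit 130) (nat_lit 5) (nat_lit 129) (nat_lit 5) (nat_lit 140) (nat_lit 5) (nat_lit 481) (nat_lit 475) (nat_lit 244)))) (XT.nd (nat_lit 156) (nat_lit 836) (nat_lit 0) (XT.nd (nat_lit 78) (nat_lit 380) (nat_lit 0) (XT.lf (nat_lit 0) (nat_lit 533370822206) (nat_lit 760) (nat_lit 861253011206) (nat_lit 836) (nat_lit 336604270399) (nat_lit 120) (nat_lit 5) (nat_lit 130) (nat_lit 5) (nat_lit 131) (nat_lit 5) (nat_lit 482) (nat_lit 475) (nat_lit 243)) (XT.lf (nat_lit 0) (nat_lit 269743409900) (nat_lit 380) (nat_lit 1441335302900) (nat_lit 456) (nat_lit 95313459493) (nat_lit 115) (nat_lit 5) (nat_lit 120) (nat_lit 5) (nat_lit 121) (nat_lit 5) (nat_lit 483) (nat_lit 475)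 (nat_lit 242))) (XT.nd (nat_lit 156) (nat_lit 760) (nat_lit 0) (XT.lf (nat_lit 0) (nat_lit 195720864657) (nat_lit 456) (nat_lit 6443677640) (nat_lit 76) (nat_lit 1683489286265) (nat_lit 114) (nat_lit 5) (nat_lit 120) (nat_lit 5) (nat_lit 115) (nat_lit 5) (nat_lit 484) (nat_lit 475) (nat_lit 241)) (XT.lf (nat_lit 0) (nat_lit 970590219933) (nat_lit 456) (nat_lit 579198026437) (nat_lit 76) (nat_lit 507354683515) (nat_lit 104) (nat_lit 5) (nat_lit 110) (nat_lit 5) (nat_lit 105) (nat_lit 5) (nat_lit 486) (nat_lit 475) (nat_lit 239))))))))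
noncomputable def xc127 : XT := (XT.nd (nat_lit 187044) (nat_lit 0) (nat_lit 1140) (XT.nd (nat_lit 124176) (nat_lit 0) (nat_lit 1064) (XT.nd (nat_lit 62010) (nat_lit 0) (nat_lit 304) (XT.nd (nat_lit 61776) (nat_lit 0) (nat_lit 1976) (XT.nd (nat_lit 61620) (nat_lit 0) (nat_lit 1900) (XT.lf (nat_lit 0) (nat_lit 1270950756028) (nat_lit 304) (nat_lit 191426513989) (nat_lit 380) (nat_lit 688068263416) (nat_lit 100) (nat_lit 5) (nat_lit 104) (nat_lit 5) (nat_lit 105) (nat_lit 5) (nat_lit 487) (nat_lit 475) (nat_lit 238)) (XT.nd (nat_lit 78) (nat_lit 0) (nat_lit 76) (XT.lf (nat_lit 0) (nat_lit 235785033649) (nat_lit 836) (nat_lit 234569892755) (nat_lit 836) (nat_lit 234569892755) (nat_lit 125) (nat_lit 3) (nat_lit 136) (nat_lit 3) (nat_lit 136) (nat_lit 5) (nat_lit 476) (nat_lit 476) (nat_lit 248)) (XT.lf (nat_lit 0) (nat_lit 503129335275) (nat_lit 760) (nat_lit 811222867264) (nat_lit 836) (nat_lit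 151256598029) (nat_lit 126) (nat_lit 5) (nat_lit 136) (nat_lit 5) (nat_lit 137) (nat_lit 5) (nat_lit 477) (nat_lit 476) (nat_lit 247)))) (XT.nd (nat_lit 78) (nat_lit 0) (nat_lit 76) (XT.lf (nat_lit 76) (nat_lit 354475831600) (nat_lit 0) (nat_lit 212440037130) (nat_lit 836) (nat_lit 957427700866) (nat_lit 127) (nat_lit 5) (nat_lit 126) (nat_lit 5) (nat_lit 137) (nat_lit 5) (nat_lit 478) (nat_lit 476) (nat_lit 246)) (XT.nd (nat_lit 78) (nat_lit 0) (nat_lit 76) (XT.lf (nat_lit 76) (nat_lit 41150302555) (nat_lit 0) (nat_lit 624923591144) (nat_lit 836) (nat_lit 920189798008) (nat_lit 128) (nat_lit 5) (nat_lit 127) (nat_lit 5) (nat_lit 138) (nat_lit 5) (nat_lit 479) (nat_lit 476) (nat_lit 245)) (XT.lf (nat_lit 0) (nat_lit 806279700589) (nat_lit 760) (nat_lit 274029926974) (nat_lit 836) (nat_lit 571172039029) (nat_lit 128) (nat_lit 5) (nat_lit 138) (nat_lit 5) (nat_lit 139) (nat_lit 5) (nat_lit 480)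 (nat_lit 476) (nat_lit 244))))) (XT.nd (nat_lit 234) (nat_lit 1216) (nat_lit 0) (XT.nd (nat_lit 78) (nat_lit 684) (nat_lit 0) (XT.lf (nat_lit 0) (nat_lit 987951679314) (nat_lit 760) (nat_lit 598489571423) (nat_lit 836) (nat_lit 133963343369) (nat_lit 129) (nat_lit 5) (nat_lit 139) (nat_lit 5) (nat_lit 140) (nat_lit 5) (nat_lit 481) (nat_lit 476) (nat_lit 243)) (XT.nd (nat_lit 78) (nat_lit 684) (nat_lit 0) (XT.lf (nat_lit 76) (nat_lit 853749469103) (nat_lit 0) (nat_lit 366805036401) (nat_lit 836) (nat_lit 572466995860) (nat_lit 130) (nat_lit 5) (nat_lit 129) (nat_lit 5) (nat_lit 140) (nat_lit 5) (nat_lit 482) (nat_lit 476) (nat_lit 242)) (XT.lf (nat_lit 0) (nat_lit 576040551762) (nat_lit 760) (nat_lit 930153258543) (nat_lit 836) (nat_lit 363532538273) (nat_lit 120) (nat_lit 5) (nat_lit 130) (nat_lit 5) (nat_lit 131) (nat_lit 5) (nat_lit 483) (nat_lit 476) (nat_lit 241)))) (XT.nd (nat_lit 156)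 (nat_lit 760) (nat_lit 0) (XT.nd (nat_lit 78) (nat_lit 76) (nat_lit 0) (XT.lf (nat_lit 0) (nat_lit 291322947180) (nat_lit 380) (nat_lit 1556642128577) (nat_lit 456) (nat_lit 102938466999) (nat_lit 115) (nat_lit 5) (nat_lit 120) (nat_lit 5) (nat_lit 121) (nat_lit 5) (nat_lit 484) (nat_lit 476) (nat_lit 240)) (XT.lf (nat_lit 0) (nat_lit 211378595902) (nat_lit 456) (nat_lit 6959110067) (nat_lit 76) (nat_lit 1818168425754) (nat_lit 114) (nat_lit 5) (nat_lit 120) (nat_lit 5) (nat_lit 115) (nat_lit 5) (nat_lit 485) (nat_lit 476) (nat_lit 239))) (XT.nd (nat_lit 78) (nat_lit 380) (nat_lit 0) (XT.lf (nat_lit 0) (nat_lit 595585611060) (nat_lit 456) (nat_lit 312229800509) (nat_lit 76) (nat_lit 1218639587961) (nat_lit 109) (nat_lit 5) (nat_lit 115) (nat_lit 5) (nat_lit 110) (nat_lit 5) (nat_lit 486) (nat_lit 476) (nat_lit 238)) (XT.lf (nat_lit 0) (nat_lit 1048237492603) (nat_lit 456) (nat_lit 625533806518)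 (nat_lit 76) (nat_lit 547943062384) (nat_lit 104) (nat_lit 5) (nat_lit 110) (nat_lit 5) (nat_lit 105) (nat_lit 5) (nat_lit 487) (nat_lit 476) (nat_lit 237)))))) (XT.nd (nat_lit 546) (nat_lit 836) (nat_lit 0) (XT.nd (nat_lit 234) (nat_lit 0) (nat_lit 152) (XT.nd (nat_lit 78) (nat_lit 0) (nat_lit 76) (XT.lf (nat_lit 0) (nat_lit 254647885714) (nat_lit 836) (nat_lit 253335458245) (nat_lit 836) (nat_lit 253335458245) (nat_lit 125) (nat_lit 3) (nat_lit 136) (nat_lit 3) (nat_lit 136) (nat_lit 5) (nat_lit 477) (nat_lit 477) (nat_lit 246)) (XT.nd (nat_lit 78) (nat_lit 0) (nat_lit 0) (XT.lf (nat_lit 0) (nat_lit 543379773638) (nat_lit 760) (nat_lit 876120641727) (nat_lit 836) (nat_lit 163357084635) (nat_lit 126) (nat_lit 5) (nat_lit 136) (nat_lit 5) (nat_lit 137) (nat_lit 5) (nat_lit 478) (nat_lit 477) (nat_lit 245)) (XT.lf (nat_lit 76) (nat_lit 382833950659) (nat_lit 0) (nat_lit 229435273150) (nat_lit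 836) (nat_lit 1034021827043) (nat_lit 127) (nat_lit 5) (nat_lit 126) (nat_lit 5) (nat_lit 137) (nat_lit 5) (nat_lit 479) (nat_lit 477) (nat_lit 244)))) (XT.nd (nat_lit 156) (nat_lit 0) (nat_lit 152) (XT.nd (nat_lit 78) (nat_lit 0) (nat_lit 76) (XT.lf (nat_lit 76) (nat_lit 44442381626) (nat_lit 0) (nat_lit 674917503189) (nat_lit 836) (nat_lit 993804898218) (nat_lit 128) (nat_lit 5) (nat_lit 127) (nat_lit 5) (nat_lit 138) (nat_lit 5) (nat_lit 480) (nat_lit 477) (nat_lit 243)) (XT.lf (nat_lit 0) (nat_lit 870782150001) (nat_lit 760) (nat_lit 295952266258) (nat_lit 836) (nat_lit 616865779965) (nat_lit 128) (nat_lit 5) (nat_lit 138) (nat_lit 5) (nat_lit 139) (nat_lit 5) (nat_lit 481) (nat_lit 477) (nat_lit 242))) (XT.nd (nat_lit 78) (nat_lit 0) (nat_lit 0) (XT.lf (nat_lit 0) (nat_lit 1066987882155) (nat_lit 760) (nat_lit 646368680930) (nat_lit 836) (nat_lit 144680395100) (nat_lit 129) (nat_lit 5)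 (nat_lit 139) (nat_lit 5) (nat_lit 140) (nat_lit 5) (nat_lit 482) (nat_lit 477) (nat_lit 241)) (XT.lf (nat_lit 76) (nat_lit 922049480396) (nat_lit 0) (nat_lit 396149449810) (nat_lit 836) (nat_lit 618264288030) (nat_lit 130) (nat_lit 5) (nat_lit 129) (nat_lit 5) (nat_lit 140) (nat_lit 5) (nat_lit 483) (nat_lit 477) (nat_lit 240))))) (XT.nd (nat_lit 62010) (nat_lit 0) (nat_lit 836) (XT.nd (nat_lit 78) (nat_lit 456) (nat_lit 0) (XT.lf (nat_lit 0) (nat_lit 622123850585) (nat_lit 760) (nat_lit 1004565524748) (nat_lit 836) (nat_lit 392615078099) (nat_lit 120) (nat_lit 5) (nat_lit 130) (nat_lit 5) (nat_lit 131) (nat_lit 5) (nat_lit 484) (nat_lit 477) (nat_lit 239)) (XT.nd (nat_lit 78) (nat_lit 76) (nat_lit 0) (XT.lf (nat_lit 0) (nat_lit 314628838243) (nat_lit 380) (nat_lit 1681173500102) (nat_lit 456) (nat_lit 111173484985) (nat_lit 115) (nat_lit 5) (nat_lit 120) (nat_lit 5) (nat_lit 121) (nat_lit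 5) (nat_lit 485) (nat_lit 477) (nat_lit 238)) (XT.lf (nat_lit 0) (nat_lit 228288936790) (nat_lit 456) (nat_lit 7515785901) (nat_lit 76) (nat_lit 1963621896890) (nat_lit 114) (nat_lit 5) (nat_lit 120) (nat_lit 5) (nat_lit 115) (nat_lit 5) (nat_lit 486) (nat_lit 477) (nat_lit 237)))) (XT.nd (nat_lit 156) (nat_lit 0) (nat_lit 76) (XT.nd (nat_lit 78) (nat_lit 0) (nat_lit 76) (XT.lf (nat_lit 0) (nat_lit 275019758900) (nat_lit 836) (nat_lit 273602272673) (nat_lit 836) (nat_lit 273602272673) (nat_lit 125) (nat_lit 3) (nat_lit 136) (nat_lit 3) (nat_lit 136) (nat_lit 5) (nat_lit 478) (nat_lit 478) (nat_lit 244)) (XT.lf (nat_lit 0) (nat_lit 586850234010) (nat_lit 760) (nat_lit 946210245982) (nat_lit 836) (nat_lit 176425616054) (nat_lit 126) (nat_lit 5) (nat_lit 136) (nat_lit 5) (nat_lit 137) (nat_lit 5) (nat_lit 479) (nat_lit 478) (nat_lit 243))) (XT.nd (nat_lit 78) (nat_lit 0) (nat_lit 76) (XT.lf (nat_lit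 76) (nat_lit 413460711749) (nat_lit 0) (nat_lit 247790123336) (nat_lit 836) (nat_lit 1116743496139) (nat_lit 127) (nat_lit 5) (nat_lit 126) (nat_lit 5) (nat_lit 137) (nat_lit 5) (nat_lit 480) (nat_lit 478) (nat_lit 242)) (XT.lf (nat_lit 76) (nat_lit 47997819195) (nat_lit 0) (nat_lit 728910924666) (nat_lit 836) (nat_lit 1073309218375) (nat_lit 128) (nat_lit 5) (nat_lit 127) (nat_lit 5) (nat_lit 138) (nat_lit 5) (nat_lit 481) (nat_lit 478) (nat_lit 241))))))) (XT.nd (nat_lit 124800) (nat_lit 0) (nat_lit 760) (XT.nd (nat_lit 62322) (nat_lit 0) (nat_lit 380) (XT.nd (nat_lit 234) (nat_lit 988) (nat_lit 0) (XT.nd (nat_lit 78) (nat_lit 0) (nat_lit 76) (XT.lf (nat_lit 0) (nat_lit 940444784899) (nat_lit 760) (nat_lit 319628400513) (nat_lit 836) (nat_lit 666215023341) (nat_lit 128) (nat_lit 5) (nat_lit 138) (nat_lit 5) (nat_lit 139) (nat_lit 5) (nat_lit 482) (nat_lit 478) (nat_lit 240)) (XT.nd (nat_lit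 78) (nat_lit 0) (nat_lit 0) (XT.lf (nat_lit 0) (nat_lit 1152346971451) (nat_lit 760) (nat_lit 698078127215) (nat_lit 836) (nat_lit 156254813214) (nat_lit 129) (nat_lit 5) (nat_lit 139) (nat_lit 5) (nat_lit 140) (nat_lit 5) (nat_lit 483) (nat_lit 478) (nat_lit 239)) (XT.lf (nat_lit 76) (nat_lit 995813484922) (nat_lit 0) (nat_lit 427841414794) (nat_lit 836) (nat_lit 667725373203) (nat_lit 130) (nat_lit 5) (nat_lit 129) (nat_lit 5) (nat_lit 140) (nat_lit 5) (nat_lit 484) (nat_lit 478) (nat_lit 238)))) (XT.nd (nat_lit 78) (nat_lit 380) (nat_lit 0) (XT.lf (nat_lit 0) (nat_lit 671893805512) (nat_lit 760) (nat_lit 1084930771462) (nat_lit 836) (nat_lit 424024230133) (nat_lit 120) (nat_lit 5) (nat_lit 130) (nat_lit 5) (nat_lit 131) (nat_lit 5) (nat_lit 485) (nat_lit 478) (nat_lit 237)) (XT.nd (nat_lit 61932) (nat_lit 0) (nat_lit 760) (XT.lf (nat_lit 0) (nat_lit 339799192703) (nat_lit 380) (nat_lit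 1815667381173) (nat_lit 456) (nat_lit 120067312880) (nat_lit 115) (nat_lit 5) (nat_lit 120) (nat_lit 5) (nat_lit 121) (nat_lit 5) (nat_lit 486) (nat_lit 478) (nat_lit 236)) (XT.lf (nat_lit 0) (nat_lit 297021375903) (nat_lit 836) (nat_lit 295490435428) (nat_lit 836) (nat_lit 295490435428) (nat_lit 125) (nat_lit 3) (nat_lit 136) (nat_lit 3) (nat_lit 136) (nat_lit 5) (nat_lit 479) (nat_lit 479) (nat_lit 242))))) (XT.nd (nat_lit 234) (nat_lit 456) (nat_lit 0) (XT.nd (nat_lit 78) (nat_lit 0) (nat_lit 0) (XT.lf (nat_lit 0) (nat_lit 633798320016) (nat_lit 760) (nat_lit 1021907025295) (nat_lit 836) (nat_lit 190539635029) (nat_lit 126) (nat_lit 5) (nat_lit 136) (nat_lit 5) (nat_lit 137) (nat_lit 5) (nat_lit 480) (nat_lit 479) (nat_lit 241)) (XT.nd (nat_lit 78) (nat_lit 0) (nat_lit 76) (XT.lf (nat_lit 76) (nat_lit 446537607301) (nat_lit 0) (nat_lit 267613357494) (nat_lit 836) (nat_lit 1206082909756)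 (nat_lit 127) (nat_lit 5) (nat_lit 126) (nat_lit 5) (nat_lit 137) (nat_lit 5) (nat_lit 481) (nat_lit 479) (nat_lit 240)) (XT.lf (nat_lit 76) (nat_lit 51837685059) (nat_lit 0) (nat_lit 787223816833) (nat_lit 836) (nat_lit 1159173894374) (nat_lit 128) (nat_lit 5) (nat_lit 127) (nat_lit 5) (nat_lit 138) (nat_lit 5) (nat_lit 482) (nat_lit 479) (nat_lit 239)))) (XT.nd (nat_lit 156) (nat_lit 608) (nat_lit 0) (XT.nd (nat_lit 78) (nat_lit 0) (nat_lit 76) (XT.lf (nat_lit 0) (nat_lit 1015680421615) (nat_lit 760) (nat_lit 345198632219) (nat_lit 836) (nat_lit 719512208901) (nat_lit 128) (nat_lit 5) (nat_lit 138) (nat_lit 5) (nat_lit 139) (nat_lit 5) (nat_lit 483) (nat_lit 479) (nat_lit 238)) (XT.lf (nat_lit 0) (nat_lit 1244534779513) (nat_lit 760) (nat_lit 753924336079) (nat_lit 836) (nat_lit 168755186702) (nat_lit 129) (nat_lit 5) (nat_lit 139) (nat_lit 5) (nat_lit 140) (nat_lit 5) (nat_lit 484) (nat_lit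 479) (nat_lit 237))) (XT.nd (nat_lit 78) (nat_lit 684) (nat_lit 0) (XT.lf (nat_lit 76) (nat_lit 1075478603234) (nat_lit 0) (nat_lit 462068735693) (nat_lit 836) (nat_lit 721143353446) (nat_lit 130) (nat_lit 5) (nat_lit 129) (nat_lit 5) (nat_lit 140) (nat_lit 5) (nat_lit 485) (nat_lit 479) (nat_lit 236)) (XT.lf (nat_lit 0) (nat_lit 725645350145) (nat_lit 760) (nat_lit 1171725237238) (nat_lit 836) (nat_lit 457946122063) (nat_lit 120) (nat_lit 5) (nat_lit 130) (nat_lit 5) (nat_lit 131) (nat_lit 5) (nat_lit 486) (nat_lit 479) (nat_lit 235)))))) (XT.nd (nat_lit 62712) (nat_lit 0) (nat_lit 76) (XT.nd (nat_lit 234) (nat_lit 0) (nat_lit 76) (XT.nd (nat_lit 78) (nat_lit 0) (nat_lit 76) (XT.lf (nat_lit 0) (nat_lit 320783117088) (nat_lit 836) (nat_lit 319129653921) (nat_lit 836) (nat_lit 319129653921) (nat_lit 125) (nat_lit 3) (nat_lit 136) (nat_lit 3) (nat_lit 136) (nat_lit 5) (nat_lit 480) (nat_lit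 480) (nat_lit 240)) (XT.nd (nat_lit 78) (nat_lit 0) (nat_lit 0) (XT.lf (nat_lit 0) (nat_lit 684502243304) (nat_lit 760) (nat_lit 1103659552711) (nat_lit 836) (nat_lit 205782779846) (nat_lit 126) (nat_lit 5) (nat_lit 136) (nat_lit 5) (nat_lit 137) (nat_lit 5) (nat_lit 481) (nat_lit 480) (nat_lit 239)) (XT.lf (nat_lit 76) (nat_lit 482260648989) (nat_lit 0) (nat_lit 289022446920) (nat_lit 836) (nat_lit 1302569485890) (nat_lit 127) (nat_lit 5) (nat_lit 126) (nat_lit 5) (nat_lit 137) (nat_lit 5) (nat_lit 482) (nat_lit 480) (nat_lit 238)))) (XT.nd (nat_lit 156) (nat_lit 76) (nat_lit 0) (XT.nd (nat_lit 78) (nat_lit 0) (nat_lit 76) (XT.lf (nat_lit 76) (nat_lit 55984734439) (nat_lit 0) (nat_lit 850201737779) (nat_lit 836) (nat_lit 1251907753222) (nat_lit 128) (nat_lit 5) (nat_lit 127) (nat_lit 5) (nat_lit 138) (nat_lit 5) (nat_lit 483) (nat_lit 480) (nat_lit 237)) (XT.lf (nat_lit 0) (nat_lit 1096934901576)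 (nat_lit 760) (nat_lit 372814488217) (nat_lit 836) (nat_lit 777073171632) (nat_lit 128) (nat_lit 5) (nat_lit 138) (nat_lit 5) (nat_lit 139) (nat_lit 5) (nat_lit 484) (nat_lit 480) (nat_lit 236))) (XT.nd (nat_lit 62244) (nat_lit 228) (nat_lit 0) (XT.lf (nat_lit 0) (nat_lit 1344097605038) (nat_lit 760) (nat_lit 814238247545) (nat_lit 836) (nat_lit 182255591720) (nat_lit 129) (nat_lit 5) (nat_lit 139) (nat_lit 5) (nat_lit 140) (nat_lit 5) (nat_lit 485) (nat_lit 480) (nat_lit 235)) (XT.lf (nat_lit 0) (nat_lit 739262472225) (nat_lit 760) (nat_lit 1191952287257) (nat_lit 836) (nat_lit 222245379955) (nat_lit 126) (nat_lit 5) (nat_lit 136) (nat_lit 5) (nat_lit 137) (nat_lit 5) (nat_lit 482) (nat_lit 481) (nat_lit 237))))) (XT.nd (nat_lit 62478) (nat_lit 0) (nat_lit 0) (XT.nd (nat_lit 78) (nat_lit 0) (nat_lit 76) (XT.lf (nat_lit 76) (nat_lit 520841529289) (nat_lit 0) (nat_lit 312144260529) (nat_lit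 836) (nat_lit 1406774996195) (nat_lit 127) (nat_lit 5) (nat_lit 126) (nat_lit 5) (nat_lit 137) (nat_lit 5) (nat_lit 483) (nat_lit 481) (nat_lit 236)) (XT.nd (nat_lit 78) (nat_lit 0) (nat_lit 76) (XT.lf (nat_lit 76) (nat_lit 60463542837) (nat_lit 0) (nat_lit 918217890175) (nat_lit 836) (nat_lit 1352060328296) (nat_lit 128) (nat_lit 5) (nat_lit 127) (nat_lit 5) (nat_lit 138) (nat_lit 5) (nat_lit 484) (nat_lit 481) (nat_lit 235)) (XT.lf (nat_lit 0) (nat_lit 1184689733339) (nat_lit 760) (nat_lit 402639617627) (nat_lit 836) (nat_lit 839239013377) (nat_lit 128) (nat_lit 5) (nat_lit 138) (nat_lit 5) (nat_lit 139) (nat_lit 5) (nat_lit 485) (nat_lit 481) (nat_lit 234)))) (XT.nd (nat_lit 156) (nat_lit 0) (nat_lit 0) (XT.nd (nat_lit 78) (nat_lit 0) (nat_lit 0) (XT.lf (nat_lit 0) (nat_lit 798403512404) (nat_lit 760) (nat_lit 1287308444800) (nat_lit 836) (nat_lit 240024991251) (nat_lit 126) (nat_lit 5)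 (nat_lit 136) (nat_lit 5) (nat_lit 137) (nat_lit 5) (nat_lit 483) (nat_lit 482) (nat_lit 235)) (XT.lf (nat_lit 76) (nat_lit 562508875965) (nat_lit 0) (nat_lit 337115816680) (nat_lit 836) (nat_lit 1519316954253) (nat_lit 127) (nat_lit 5) (nat_lit 126) (nat_lit 5) (nat_lit 137) (nat_lit 5) (nat_lit 484) (nat_lit 482) (nat_lit 234))) (XT.nd (nat_lit 62400) (nat_lit 76) (nat_lit 0) (XT.lf (nat_lit 76) (nat_lit 65300651678) (nat_lit 0) (nat_lit 991675332854) (nat_lit 836) (nat_lit 1460225115822) (nat_lit 128) (nat_lit 5) (nat_lit 127) (nat_lit 5) (nat_lit 138) (nat_lit 5) (nat_lit 485) (nat_lit 482) (nat_lit 233)) (XT.lf (nat_lit 0) (nat_lit 862275829748) (nat_lit 760) (nat_lit 1390293098575) (nat_lit 836) (nat_lit 259226974176) (nat_lit 126) (nat_lit 5) (nat_lit 136) (nat_lit 5) (nat_lit 137) (nat_lit 5) (nat_lit 484) (nat_lit 483) (nat_lit 233))))))))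

set_option maxRecDepth 10000000 in
noncomputable def Tp : PT := (PT.nd (nat_lit 12698868) (PT.nd (nat_lit 12136722) (PT.nd (nat_lit 11449776) pc0 pc1) (PT.nd (nat_lit 374010) pc2 pc3)) (PT.nd (nat_lit 373152) (PT.nd (nat_lit 186732) pc4 pc5) (PT.nd (nat_lit 311766) pc6 pc7)))

set_option maxRecDepth 10000000 in
noncomputable def Tx : XT := (XT.nd (nat_lit 21906300) (nat_lit 0) (nat_lit 76) XT.nil (XT.nd (nat_lit 8308404) (nat_lit 0) (nat_lit 0) (XT.nd (nat_lit 3743454) (nat_lit 0) (nat_lit 152) (XT.nd (nat_lit 2559648) (nat_lit 0) (nat_lit 0) (XT.nd (nat_lit 1809756) (nat_lit 0) (nat_lit 0) (XT.nd (nat_lit 1249248) (nat_lit 0) (nat_lit 0) (XT.nd (nat_lit 874068) (nat_lit 0) (nat_lit 0) (XT.nd (nat_lit 623766) (nat_lit 0) (nat_lit 0) (XT.nd (nat_lit 436644) (nat_lit 0) (nat_lit 0) xc0 xc1) (XT.nd (nat_lit 125346) (nat_lit 0) (nat_lit 0) xc2 xc3)) (XT.nd (nat_lit 247962) (nat_lit 0) (nat_lit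 0) (XT.nd (nat_lit 124254) (nat_lit 0) (nat_lit 0) xc4 xc5) (XT.nd (nat_lit 63648) (nat_lit 0) (nat_lit 0) xc6 xc7))) (XT.nd (nat_lit 311064) (nat_lit 0) (nat_lit 0) (XT.nd (nat_lit 185406) (nat_lit 0) (nat_lit 0) (XT.nd (nat_lit 122382) (nat_lit 0) (nat_lit 0) xc8 xc9) (XT.nd (nat_lit 62868) (nat_lit 0) (nat_lit 0) xc10 xc11)) (XT.nd (nat_lit 125034) (nat_lit 0) (nat_lit 0) (XT.nd (nat_lit 62556) (nat_lit 0) (nat_lit 0) xc12 xc13) (XT.nd (nat_lit 62244) (nat_lit 0) (nat_lit 0) xc14 xc15)))) (XT.nd (nat_lit 434616) (nat_lit 0) (nat_lit 0) (XT.nd (nat_lit 246870) (nat_lit 0) (nat_lit 0) (XT.nd (nat_lit 123708) (nat_lit 0) (nat_lit 0) (XT.nd (nat_lit 61932) (nat_lit 0) (nat_lit 0) xc16 xc17) (XT.nd (nat_lit 61620) (nat_lit 0) (nat_lit 0) xc18 xc19)) (XT.nd (nat_lit 65520) (nat_lit 0) (nat_lit 0) (XT.nd (nat_lit 4134) (nat_lit 0) (nat_lit 0) xc20 xc21) (XT.nd (nat_lit 61152) (nat_lit 0) (nat_lit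 0) xc22 xc23))) (XT.nd (nat_lit 186264) (nat_lit 0) (nat_lit 0) (XT.nd (nat_lit 64974) (nat_lit 0) (nat_lit 0) (XT.nd (nat_lit 4134) (nat_lit 0) (nat_lit 0) xc24 xc25) (XT.nd (nat_lit 60684) (nat_lit 0) (nat_lit 0) xc26 xc27)) (XT.nd (nat_lit 64584) (nat_lit 0) (nat_lit 0) (XT.nd (nat_lit 4134) (nat_lit 152) (nat_lit 0) xc28 xc29) (XT.nd (nat_lit 60216) (nat_lit 0) (nat_lit 228) xc30 xc31))))) (XT.nd (nat_lit 619788) (nat_lit 0) (nat_lit 0) (XT.nd (nat_lit 311688) (nat_lit 0) (nat_lit 0) (XT.nd (nat_lit 184080) (nat_lit 0) (nat_lit 0) (XT.nd (nat_lit 64194) (nat_lit 0) (nat_lit 0) (XT.nd (nat_lit 60060) (nat_lit 0) (nat_lit 0) xc32 xc33) (XT.nd (nat_lit 59982) (nat_lit 0) (nat_lit 0) xc34 xc35)) (XT.nd (nat_lit 63882) (nat_lit 0) (nat_lit 0) (XT.nd (nat_lit 4134) (nat_lit 152) (nat_lit 0) xc36 xc37) (XT.nd (nat_lit 59514) (nat_lit 0) (nat_lit 608) xc38 xc39))) (XT.nd (nat_lit 126906) (nat_lit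 0) (nat_lit 0) (XT.nd (nat_lit 63492) (nat_lit 0) (nat_lit 0) (XT.nd (nat_lit 59358) (nat_lit 0) (nat_lit 228) xc40 xc41) (XT.nd (nat_lit 59202) (nat_lit 0) (nat_lit 152) xc42 xc43)) (XT.nd (nat_lit 118014) (nat_lit 0) (nat_lit 0) (XT.nd (nat_lit 59046) (nat_lit 0) (nat_lit 0) xc44 xc45) (XT.nd (nat_lit 4134) (nat_lit 1444) (nat_lit 0) xc46 xc47)))) (XT.nd (nat_lit 253422) (nat_lit 0) (nat_lit 152) (XT.nd (nat_lit 126516) (nat_lit 0) (nat_lit 152) (XT.nd (nat_lit 63180) (nat_lit 0) (nat_lit 0) (XT.nd (nat_lit 4134) (nat_lit 912) (nat_lit 0) xc48 xc49) (XT.nd (nat_lit 4134) (nat_lit 608) (nat_lit 0) xc50 xc51)) (XT.nd (nat_lit 63414) (nat_lit 0) (nat_lit 0) (XT.nd (nat_lit 4134) (nat_lit 76) (nat_lit 0) xc52 xc53) (XT.nd (nat_lit 4134) (nat_lit 0) (nat_lit 0) xc54 xc55))) (XT.nd (nat_lit 127296) (nat_lit 0) (nat_lit 0) (XT.nd (nat_lit 63570) (nat_lit 0) (nat_lit 0) (XT.nd (nat_lit 59358) (nat_lit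 0) (nat_lit 684) xc56 xc57) (XT.nd (nat_lit 59514) (nat_lit 0) (nat_lit 228) xc58 xc59)) (XT.nd (nat_lit 119340) (nat_lit 0) (nat_lit 0) (XT.nd (nat_lit 59592) (nat_lit 0) (nat_lit 0) xc60 xc61) (XT.nd (nat_lit 4134) (nat_lit 1064) (nat_lit 0) xc62 xc63)))))) (XT.nd (nat_lit 1377870) (nat_lit 0) (nat_lit 684) (XT.nd (nat_lit 627198) (nat_lit 0) (nat_lit 228) (XT.nd (nat_lit 312546) (nat_lit 0) (nat_lit 76) (XT.nd (nat_lit 128076) (nat_lit 0) (nat_lit 0) (XT.nd (nat_lit 63960) (nat_lit 0) (nat_lit 0) (XT.nd (nat_lit 4134) (nat_lit 228) (nat_lit 0) xc64 xc65) (XT.nd (nat_lit 59904) (nat_lit 0) (nat_lit 912) xc66 xc67)) (XT.nd (nat_lit 64194) (nat_lit 0) (nat_lit 76) (XT.nd (nat_lit 59982) (nat_lit 0) (nat_lit 76) xc68 xc69) (XT.nd (nat_lit 60060) (nat_lit 0) (nat_lit 0) xc70 xc71))) (XT.nd (nat_lit 128856) (nat_lit 0) (nat_lit 0) (XT.nd (nat_lit 64350) (nat_lit 0) (nat_lit 0) (XT.nd (nat_lit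 4134) (nat_lit 228) (nat_lit 0) xc72 xc73) (XT.nd (nat_lit 60294) (nat_lit 0) (nat_lit 456) xc74 xc75)) (XT.nd (nat_lit 120978) (nat_lit 0) (nat_lit 152) (XT.nd (nat_lit 60372) (nat_lit 0) (nat_lit 152) xc76 xc77) (XT.nd (nat_lit 4134) (nat_lit 304) (nat_lit 0) xc78 xc79)))) (XT.nd (nat_lit 373776) (nat_lit 0) (nat_lit 228) (XT.nd (nat_lit 186498) (nat_lit 0) (nat_lit 76) (XT.nd (nat_lit 64818) (nat_lit 0) (nat_lit 0) (XT.nd (nat_lit 60684) (nat_lit 0) (nat_lit 76) xc80 xc81) (XT.nd (nat_lit 60762) (nat_lit 0) (nat_lit 76) xc82 xc83)) (XT.nd (nat_lit 65130) (nat_lit 0) (nat_lit 0) (XT.nd (nat_lit 60918) (nat_lit 0) (nat_lit 456) xc84 xc85) (XT.nd (nat_lit 60996) (nat_lit 0) (nat_lit 0) xc86 xc87))) (XT.nd (nat_lit 187980) (nat_lit 0) (nat_lit 76) (XT.nd (nat_lit 65286) (nat_lit 0) (nat_lit 0) (XT.nd (nat_lit 61152) (nat_lit 0) (nat_lit 532) xc88 xc89) (XT.nd (nat_lit 61230) (nat_lit 0) (nat_lit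 76) xc90 xc91)) (XT.nd (nat_lit 123084) (nat_lit 0) (nat_lit 152) (XT.nd (nat_lit 61464) (nat_lit 0) (nat_lit 76) xc92 xc93) (XT.nd (nat_lit 4134) (nat_lit 532) (nat_lit 0) xc94 xc95))))) (XT.nd (nat_lit 998322) (nat_lit 0) (nat_lit 1292) (XT.nd (nat_lit 438126) (nat_lit 0) (nat_lit 532) (XT.nd (nat_lit 247338) (nat_lit 0) (nat_lit 304) (XT.nd (nat_lit 123474) (nat_lit 0) (nat_lit 76) (XT.nd (nat_lit 61698) (nat_lit 0) (nat_lit 76) xc96 xc97) (XT.nd (nat_lit 61854) (nat_lit 0) (nat_lit 152) xc98 xc99)) (XT.nd (nat_lit 66300) (nat_lit 0) (nat_lit 76) (XT.nd (nat_lit 62088) (nat_lit 0) (nat_lit 228) xc100 xc101) (XT.nd (nat_lit 62166) (nat_lit 0) (nat_lit 76) xc102 xc103))) (XT.nd (nat_lit 249834) (nat_lit 0) (nat_lit 380) (XT.nd (nat_lit 124722) (nat_lit 0) (nat_lit 152) (XT.nd (nat_lit 62322) (nat_lit 0) (nat_lit 0) xc104 xc105) (XT.nd (nat_lit 62478) (nat_lit 0) (nat_lit 76) xc106 xc107))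 (XT.nd (nat_lit 125580) (nat_lit 0) (nat_lit 76) (XT.nd (nat_lit 62712) (nat_lit 0) (nat_lit 76) xc108 xc109) (XT.nd (nat_lit 121680) (nat_lit 0) (nat_lit 228) xc110 xc111)))) (XT.nd (nat_lit 687414) (nat_lit 0) (nat_lit 1444) (XT.nd (nat_lit 312546) (nat_lit 0) (nat_lit 608) (XT.nd (nat_lit 126360) (nat_lit 0) (nat_lit 228) (XT.nd (nat_lit 63102) (nat_lit 0) (nat_lit 152) xc112 xc113) (XT.nd (nat_lit 63336) (nat_lit 0) (nat_lit 152) xc114 xc115)) (XT.nd (nat_lit 187044) (nat_lit 0) (nat_lit 380) (XT.nd (nat_lit 63570) (nat_lit 0) (nat_lit 76) xc116 xc117) (XT.nd (nat_lit 63882) (nat_lit 0) (nat_lit 228) xc118 xc119))) (XT.nd (nat_lit 439062) (nat_lit 0) (nat_lit 1444) (XT.nd (nat_lit 188682) (nat_lit 0) (nat_lit 532) (XT.nd (nat_lit 64116) (nat_lit 0) (nat_lit 304) xc120 xc121) (XT.nd (nat_lit 124878) (nat_lit 0) (nat_lit 532) xc122 xc123)) (XT.nd (nat_lit 374166) (nat_lit 0) (nat_lit 1368)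 (XT.nd (nat_lit 186576) (nat_lit 0) (nat_lit 836) xc124 xc125) (XT.nd (nat_lit 188448) (nat_lit 0) (nat_lit 1140) xc126 xc127))))))) XT.nil))

set_option maxRecDepth 10000000 in
noncomputable def Te : XT := XT.nil

set_option maxRecDepth 10000000 in
noncomputable def Tz : ZL := (ZL.cons (nat_lit 76) (nat_lit 3) (nat_lit 172808087988297142175) (ZL.cons (nat_lit 152) (nat_lit 6) (nat_lit 333014334042169598676) (ZL.cons (nat_lit 228) (nat_lit 6) (nat_lit 321366894281966761752) (ZL.cons (nat_lit 304) (nat_lit 3) (nat_lit 160211680427287269433) (ZL.cons (nat_lit 380) (nat_lit 6) (nat_lit 308787659340947697878) (ZL.cons (nat_lit 456) (nat_lit 6) (nat_lit 298038277196023138880) (ZL.cons (nat_lit 532) (nat_lit 3) (nat_lit 148582317566811466250) (ZL.cons (nat_lit 608) (nat_lit 6) (nat_lit 286428944479504615158) (ZL.cons (nat_lit 684) (nat_lit 6) (nat_lit 276516968471012785456) (ZL.cons (nat_lit 760)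 (nat_lit 3) (nat_lit 137854020317728519404) (ZL.cons (nat_lit 836) (nat_lit 6) (nat_lit 265812034381841609378) (ZL.cons (nat_lit 912) (nat_lit 6) (nat_lit 256682282718636902094) (ZL.cons (nat_lit 988) (nat_lit 3) (nat_lit 127966637731746346119) (ZL.cons (nat_lit 1064) (nat_lit 6) (nat_lit 246822150922375818230) (ZL.cons (nat_lit 1140) (nat_lit 6) (nat_lit 238424668909358442916) (ZL.cons (nat_lit 1216) (nat_lit 3) (nat_lit 118865571836556902079) (ZL.cons (nat_lit 1292) (nat_lit 6) (nat_lit 229355388335299677578) (ZL.cons (nat_lit 1368) (nat_lit 6) (nat_lit 221645250803227873292) (ZL.cons (nat_lit 1444) (nat_lit 3) (nat_lit 110501548903352529814) (ZL.cons (nat_lit 1520) (nat_lit 6) (nat_lit 213318302268590324664) (ZL.cons (nat_lit 1596) (nat_lit 6) (nat_lit 206255462191840718698) (ZL.cons (nat_lit 1672) (nat_lit 3) (nat_lit 102830438041974612283) (ZL.cons (nat_lit 1748) (nat_lit 6) (nat_lit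 198627594908951144256) (ZL.cons (nat_lit 1824) (nat_lit 6) (nat_lit 192176780040336835856) (ZL.cons (nat_lit 1900) (nat_lit 3) (nat_lit 95813118673922355828) (ZL.cons (nat_lit 1976) (nat_lit 6) (nat_lit 185209899982233382782) (ZL.cons (nat_lit 2052) (nat_lit 6) (nat_lit 179340560072172794198) (ZL.cons (nat_lit 2128) (nat_lit 3) (nat_lit 89415399159932635897) (ZL.cons (nat_lit 2204) (nat_lit 6) (nat_lit 173001672969307358530) (ZL.cons (nat_lit 2280) (nat_lit 6) (nat_lit 167687980965519299798) (ZL.cons (nat_lit 2356) (nat_lit 3) (nat_lit 83607989671506167304) (ZL.cons (nat_lit 2432) (nat_lit 6) (nat_lit 162858233763293462662) (ZL.cons (nat_lit 2508) (nat_lit 6) (nat_lit 161949193601428196370) (ZL.cons (nat_lit 2584) (nat_lit 6) (nat_lit 157170105162382593364) (ZL.cons (nat_lit 2660) (nat_lit 3) (nat_lit 78366533311512146131) (ZL.cons (nat_lit 2736) (nat_lit 6) (nat_lit 152850393501792292390)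 (ZL.cons (nat_lit 2812) (nat_lit 6) (nat_lit 152008689648213342118) (ZL.cons (nat_lit 2888) (nat_lit 6) (nat_lit 147748066368996466234) (ZL.cons (nat_lit 2964) (nat_lit 3) (nat_lit 73671700527387908532) (ZL.cons (nat_lit 3040) (nat_lit 6) (nat_lit 143925948647422749786) (ZL.cons (nat_lit 3116) (nat_lit 6) (nat_lit 143146593227442240276) (ZL.cons (nat_lit 3192) (nat_lit 6) (nat_lit 140519686896993978162) (ZL.cons (nat_lit 3268) (nat_lit 6) (nat_lit 139393396193902486856) (ZL.cons (nat_lit 3344) (nat_lit 3) (nat_lit 69509353044071313258) (ZL.cons (nat_lit 3420) (nat_lit 6) (nat_lit 136061568786550395298) (ZL.cons (nat_lit 3496) (nat_lit 6) (nat_lit 135339943397679553162) (ZL.cons (nat_lit 3572) (nat_lit 6) (nat_lit 133131366842972027286) (ZL.cons (nat_lit 3648) (nat_lit 6) (nat_lit 132088505080850276076) (ZL.cons (nat_lit 3724) (nat_lit 3) (nat_lit 65870784898869647140) (ZL.cons (nat_lit 3800)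 (nat_lit 6) (nat_lit 130585426203501733230) (ZL.cons (nat_lit 3876) (nat_lit 6) (nat_lit 129245123355036547696) (ZL.cons (nat_lit 3952) (nat_lit 6) (nat_lit 128576951698674656826) (ZL.cons (nat_lit 4028) (nat_lit 6) (nat_lit 126792948550752064442) (ZL.cons (nat_lit 4104) (nat_lit 6) (nat_lit 125827335808046739248) (ZL.cons (nat_lit 4180) (nat_lit 3) (nat_lit 62753049717397915087) (ZL.cons (nat_lit 4256) (nat_lit 6) (nat_lit 124717449261749214560) (ZL.cons (nat_lit 4332) (nat_lit 6) (nat_lit 123476428105762931658) (ZL.cons (nat_lit 4408) (nat_lit 6) (nat_lit 122857750646168588260) (ZL.cons (nat_lit 4484) (nat_lit 6) (nat_lit 123006326232982055240) (ZL.cons (nat_lit 4560) (nat_lit 6) (nat_lit 121510297286920811494) (ZL.cons (nat_lit 4636) (nat_lit 6) (nat_lit 120616211414045510388) (ZL.cons (nat_lit 4712) (nat_lit 3) (nat_lit 60159385163851038032) (ZL.cons (nat_lit 4788) (nat_lit 6) (nat_lit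 119968263065199922384) (ZL.cons (nat_lit 4864) (nat_lit 6) (nat_lit 120638748180787984178) (ZL.cons (nat_lit 4940) (nat_lit 6) (nat_lit 121649439476131966276) (ZL.cons (nat_lit 5016) (nat_lit 6) (nat_lit 119917292205927240270) (ZL.cons (nat_lit 5092) (nat_lit 6) (nat_lit 118768198542976978320) (ZL.cons (nat_lit 5168) (nat_lit 6) (nat_lit 118195349043352586288) (ZL.cons (nat_lit 5244) (nat_lit 3) (nat_lit 58559904887605864442) (ZL.cons (nat_lit 5320) (nat_lit 6) (nat_lit 117293363792249457920) (ZL.cons (nat_lit 5396) (nat_lit 6) (nat_lit 117815054311611757506) (ZL.cons (nat_lit 5472) (nat_lit 6) (nat_lit 118687972832672626450) (ZL.cons (nat_lit 5548) (nat_lit 6) (nat_lit 117302760845578882240) (ZL.cons (nat_lit 5624) (nat_lit 6) (nat_lit 116474903555879529364) (ZL.cons (nat_lit 5700) (nat_lit 3) (nat_lit 58099747571299285828) (ZL.cons (nat_lit 5776) (nat_lit 6) (nat_lit 115126097966333798438)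 (ZL.cons (nat_lit 5852) (nat_lit 6) (nat_lit 115487090321772274838) (ZL.cons (nat_lit 5928) (nat_lit 6) (nat_lit 116211214246607381574) (ZL.cons (nat_lit 6004) (nat_lit 6) (nat_lit 115147238632764546438) (ZL.cons (nat_lit 6080) (nat_lit 6) (nat_lit 114616822429408627886) (ZL.cons (nat_lit 6156) (nat_lit 3) (nat_lit 56726811265353388533) (ZL.cons (nat_lit 6232) (nat_lit 6) (nat_lit 113641060869107524430) (ZL.cons (nat_lit 6308) (nat_lit 6) (nat_lit 114204486630018807980) (ZL.cons (nat_lit 6384) (nat_lit 6) (nat_lit 113437952102519407168) (ZL.cons (nat_lit 6460) (nat_lit 3) (nat_lit 56591472156222223162) (ZL.cons (nat_lit 6536) (nat_lit 6) (nat_lit 112266026519823937382) (ZL.cons (nat_lit 6612) (nat_lit 6) (nat_lit 112655898263697491896) (ZL.cons (nat_lit 6688) (nat_lit 6) (nat_lit 112164772149479048792) (ZL.cons (nat_lit 6764) (nat_lit 3) (nat_lit 55676919461111027703) (ZL.cons (nat_lit 6840)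 (nat_lit 6) (nat_lit 111556272327694862556) (ZL.cons (nat_lit 6916) (nat_lit 3) (nat_lit 55660077001775690148) (ZL.cons (nat_lit 6992) (nat_lit 6) (nat_lit 110899092520167941424) (ZL.cons (nat_lit 7068) (nat_lit 1) (nat_lit 18446744073709551617) ZL.nil)))))))))))))))))))))))))))))))))))))))))))))))))))))))))))))))))))))))))))))))))))))))))))))

noncomputable def vl : XL := ⟨(nat_lit 0), (nat_lit 76), (nat_lit 147707822), (nat_lit 228), (nat_lit 50338171), (nat_lit 76), (nat_lit 147707822), (nat_lit 1), (nat_lit 5), (nat_lit 3), (nat_lit 4), (nat_lit 1), (nat_lit 4), (nat_lit 0), (nat_lit 0), (nat_lit 0)⟩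

noncomputable def cp0 : Nat := (nat_lit 27636835841248275272134679231447826726787351308358457482961339320956671554641802041598349619970586249045413271338057205472740130002223361615915721086406562377660333106209923048508159539807630696434435699047310994241472842127449420934927338340301954909332820503881531516098794565816010493993269345380481010114154265460830248051373029784531119056865408150026924354376282260801547325861752990433457659731540696165567168138548457063358400286772627831876074062310512270925668283021710940391576489502737694026053280827598106518176641728632400222993689820042037768700345090317765001293207483537496899139014038984915031061508683974857575429717017562518622209648256011303765685877523161532991108361449363599039084829081600101202762351442013484682749189717436294047230063333708651840001341346643062993679720577087422866161556927137006116337827004542457003495888912206536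806244890613100328675511449241797904522987188250530542495515692402353612097258838444008843139907765801743379643758160754117777492286137507647332357502570042006261718781722626647882524906570717965976792164952671700694654116739953011035131885469830558392382307487126781988626192724129235046396621405909576688329532086696703908905016010609709192768354600326982945748086702142946799084496920538802948490426366444996845552743542152648460202379002792678797397863407622384526106158956664716873111308986968433999604649431265292577219581359908121751008587438153500872675583411626203738550367798167662119208208892041728963648952052514783856358555165919477247612895022985047471541642574210291264766969331282394448056960647423427615541438651188697264516247065855412007839741139963774213312483752625303593017566662586661022249473457301617766224693601391700356332701302062235055268711758572159017292251071330493682589475245227713829953854981735565520965932528422082563821307388246891537085610655130067983314068208780846682837872228768489677866775643689522197312443707749019312997656459205577404531072336552436607369607846319755637623637793445899626482607608905035031221802100488865882647214442095492472670264326821821478373045923030598678797212852295293720041914770072859427821669095040610036984315904)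

noncomputable def cp1 : Nat := (nat_lit 16589965382692688889330613927905811596171587455079049650952957627678476917290990222194750364069751172152068346154626489510088562784641011427797972596129822119320179258010436779042431390976399928269691500792763507823993200052909068503521027912665214319118627050598442211275009967277846904692040685975488326310468732571622515190002247615188832436122593364178932697456453275743982392360183874566825517702485009655660583188974290899656263766132092982923397495770031874473464977379650372625040206356689469000450693554853659666180924794096991270781544615704169052364648393312216357254554033136996063448294172256448054676956435344562104273763769782276876616758104535672417900807571314599078522053768210067441983045388789721998944867731731021395102259326463243813304737486138543092190458168235878546373019161432109669678819858195699217161698373295775261053691586439468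54187415376780056552830290620227628349971585971968816923162166492430363566515571067223653362984258864892280432151294095729785121682441749307192597708051715529389624404593976457493675748987260283605148110092341250899289099139428937830936774824333570211501404612246697450307179010231454195100888554059999807997957775749705000114529881501321562799448223827534704067841914018027546735361185506589823447093234588450054191086497873105805326144387303619903514640384238814398806150208930209574244311555020785221641635756027357452139537661426960737702734908832104702371814000466788855959203873375411875916748021962645036195294970694993480254701433959474486469559709427151635185344954244253836312710521956423612303322865690386843111735814624727805441816394031202489329201197291463281189788553549429164445379107810501513263601594370762151838794547395387640859489657187553406432053276862701455036795792296061489882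64000056626374143954515247537634740228487517764112679216496490738431150432484014932264788307144479252053084030302288939053080957006813190958055824429052583786870870067349618379417823346783170991805535077611408861971707693813201953724758675743895299468203750311090236543100313434017853487245338530490602688780949347981596845401828730886140110072021034231627021750986803315567719674966213169649150404796612649234276942162517294378246358317066550395696450415868219820481910910801526587909498679373755112066309026406718914733788455402340344964549231209426576578900740440315686205045246380410140801853512076066709154162169354932389024120804730219317045186846046311220778680936215477422202969298733740503302575131940091316908889912857806038392513386499584220660196652204364774628501750366179030026411176775179591461370222426757545573395572353564387585004581600653138251704294761817883245127848427727552566024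64436986043010339888766629364152533849519546028630190101393298692443358707776200259149871094870428359276559217587216053076961930511432810437155134335211227357820244290315358053098904346147975645232952583691736540597546272291366194685449539985632569771241058495083354908100801338052355456104752664276995306318853405655530550350323208087469595294341364382839591094917014622275787905116729734471513653784168120333910090805871584091939048296086657436724526805134716972697010928564548148329421591303786697056109971632034256101009458210855434430143341762383737693656224464603527200475337419150559606501074120194565300461317858043268003148469230376240523754951872229500069055740338441768589928573288402063249326592193274268188847114451494018889137394458231829586639359730300336954333994915205236025809742094253111822222751889544544314620226787817264916539706754606307557141492062658948811649700307706173117882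58511446626339456234615819636026126026160816111132391871417566758846989798953166942745604208162719280920670003302680204743690948868721628695028419746609426728120336663041126027046306538287568825621665619489525186857449783344182678311846171736425356401224968888955397056236531630479890002290259370915289733744256671518209605376058461392397008862218730639695088342083354416564756059585651451544206911853104500126185817004338575855759562004813379844087735418404450404072975396159645271895909695567778122469072719173939806617453977294413904693959755759214364341170033157434255441340302825513708293804392541756950393348285752410034279738391712747628193860900953294682504539055594325843902464)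

noncomputable def rc0 : Nat := (nat_lit 16589965382692688889330613927905811596171587455079049650952957627678476917290990222194750364069751172152068346154626489510088562784641011427797972596129822119320179258010436779042431390976399928269691500792763507823993200052909068503521027912665214319118627050598442211275009967277846904692040685975488326310468732571622515190002247615188832436122593364178932697456453275743982392360183874566825517702485009655660583188974290899656263766132092982923397495770031874473464977379650372625040206356689469000450693554853659666180924794096991270781544615704169052364648393312216357254554033136996063448294172256448054676956435344562104273763769782276876616758104535672417900807571314599078522053768210067441983045388789721998944867731731021395102259326463243813304737486138543092190458168235878546373019161432109669678819858195699217161698373295775261053691586439468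54187415376780056552830290620227628349971585971968816923162166492430363566515571067223653362984258864892280432151294095729785121682441749307192597708051715529389624404593976457493675748987260283605148110092341250899289099139428937830936774824333570211501404612246697450307179010231454195100888554059999807997957775749705000114529881501321562799448223827534704067841914018027546735361185506589823447093234588450054191086497873105805326144387303619903514640384238814398806150208930209574244311555020785221641635756027357452139537661426960737702734908832104702371814000466788855959203873375411875916748021962645036195294970694993480254701433959474486469559709427151635185344954244253836312710521956423612303322865690386843111735814624727805441816394031202489329201197291463281189788553549429164445379107810501513263601594370762151838794547395387640859489657187553406432053276862701455036795792296061489882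64000056626374143954515247537634740228487517764112679216496490738431150432484014932264788307144479252053084030302288939053080957006813190958055824429052583786870870067349618379417823346783170991805535077611408861971707693813201953724758675743895299468203750311090236543100313434017853487245338530490602688780949347981596845401828730886140110072021034231627021750986803315567719674966213169649150404796612649234276942162517294378246358317066550395696450415868219820481910910801526587909498679373755112066309026406718914733788455402340344964549231209426576578900740440315686205045246380410140801853512076066709154162169354932389024120804730219317045186846046311220778680936215477422202969298733740503302575131940091316908889912857806038392513386499584220660196652204364774628501750366179030026411176775179591461370222426757545573395572353564387585004581600653138251704294761817883245127848427727552566024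64436986043010339888766629364152533849519546028630190101393298692443358707776200259149871094870428359276559217587216053076961930511432810437155134335211227357820244290315358053098904346147975645232952583691736540597546272291366194685449539985632569771241058495083354908100801338052355456104752664276995306318853405655530550350323208087469595294341364382839591094917014622275787905116729734471513653784168120333910090805871584091939048296086657436724526805134716972697010928564548148329421591303786697056109971632034256101009458210855434430143341762383737693656224464603527200475337419150559606501074120194565300461317858043268003148469230376240523754951872229500069055740338441768589928573288402063249326592193274268188847114451494018889137394458231829586639359730300336954333994915205236025809742094253111822222751889544544314620226787817264916539706754606307557141492062658948811649700307706173117882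58511446626339456234615819636026126026160816111132391871417566758846989798953166942745604208162719280920670003302680204743690948868721628695028419746609426728120336663041126027046306538287568825621665619489525186857449783344182678311846171736425356401224968888955397056236531630479890002290259370915289733744256671518209605376058461392397008862218730639695088342083354416564756059585651451544206911853104500126185817004338575855759562004813379844087735418404450404072975396159645271895909695567778122469072719173939806617453977294413904693959755759214364341170033157434255441340302825513708293804392541756950393348285752410034279738391712747628193860900953294682504539055594325843902464)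

end Vale.Agent.Lib.P154.PChain.BE.S3
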